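import Crest.Agent.Lib.S0047.Helper85CertPL6F0
import Crest.Agent.Lib.S0047.Helper85CertPL6F1
import Crest.Agent.Lib.S0047.Helper85CertPL6F2
import Crest.Agent.Lib.S0047.Helper85CertPL6F3
import Crest.Agent.Lib.S0047.Helper85CertPL6F4
import Crest.Agent.Lib.S0047.Helper85CertPL6F5
import Crest.Agent.Lib.S0047.Helper85CertPL6F6
import Crest.Agent.Lib.S0047.Helper85CertPL6F7
import Crest.Agent.Lib.S0047.Helper85CertPL6F8
import Crest.Agent.Lib.S0047.Helper85CertPL6F9
import Crest.Agent.Lib.S0047.Helper85CertPL6F10
import Crest.Agent.Lib.S0047.Helper85CertPL6F11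
import Crest.Agent.Lib.S0047.Helper85CertPL6F12
set_option autoImplicit false
set_option linter.all false
set_option Elab.async false
namespace Crest.Agent.S0047.Helper85.Cert
open Crest.Agent.S0047.Helper85

noncomputable def rh48f3db1a9860b317 : CRef := CRef.mk (Pat.mk 0x2000000020000000700000001000000000000000000000000 0x80000000c0000003e0000003f000000070000001f0000001e0000000600000006 7 6) 0 0 (step_sound _ 97 [(rh170f76c368f01934.shift 0 2), rh4f66b8b299b10e60, (rh806a30ccd3d3e25c.shift 0 2), rh82c6aec0c6f8e399, rhdaa34f01e5e560a1] (by decide +kernel))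
noncomputable def rhf98fd72602cb2b54 : CRef := CRef.mk (Pat.mk 0x100000001e000000100000000000000000 0x1000000014000000170000001e0000001f0000000b0000000b 7 5) 0 0 (step_sound _ 65 [rh74b4dde7a4913b74, (rheb0810cc63b001d8.shift 0 2)] (by decide +kernel))
noncomputable def rh467833d259f77041 : CRef := CRef.mk (Pat.mk 0x1400000007000000000000000000000000 0x200000007000000070000001f000000070000001f0000000e00000002 7 5) 0 0 (step_sound _ 129 [(rh361cc68994bd8a63.shift 0 3), rhc66c3cf68cae2d28] (by decide +kernel))
noncomputable def rh8279c14b6558acbb : CRef := CRef.mk (Pat.mk 0x500000001e0000001000000000 0x2000000038000000f8000000d80000001e0000001b00000018 7 8) 0 0 (step_sound _ 33 [(rh7eb7e05683a3f514.shift 3 0), (rheb0810cc63b001d8.shift 0 1)] (by decide +kernel))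
noncomputable def rh3e7cfaf14746f6bd : CRef := CRef.mk (Pat.mk 0x300000006000000020000000000000000 0x10000000300000003000000020000000700000007000000070000000700000006 7 3) 0 0 (step_sound _ 34 [(rh390a8df03c6c5a62.shift 1 0), rh4057627adbbec185, (rhf1ef3c5961f167c9.shift 0 1)] (by decide +kernel))
noncomputable def rhf6c40561cc9ff8b2 : CRef := CRef.mk (Pat.mk 0x400000007000000040000000400000000 0x2000000060000000f0000003f0000003e0000000a 7 6) 0 0 (step_sound _ 129 [(rh50fbb5868c909700.shift 1 1), rh97da1ffb6b383e55] (by decide +kernel))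
noncomputable def rhf4b14c7e0e4ab969 : CRef := CRef.mk (Pat.mk 0x4000000240000000e000000080000000000000000000000000 0x1a0000007e0000006e7000001fe000000ff000000580000005000000050 7 11) 0 0 (step_sound _ 132 [(rh6765e7960b108c8d.shift 3 3), (rhcbfbb798071e7295.shift 0 1), (rhecb5758bbe22b5f0.shift 3 0)] (by decide +kernel))
noncomputable def rhf366684fb8023a5f : CRef := CRef.mk (Pat.mk 0x40000000e0000000800000008000000000 0x20000000e7000001fe000000ff0000019800000010 7 9) 0 0 (step_sound _ 100 [(rh4ac21d4f632f9940.shift 3 0), (rh7bc3824673bba745.shift 3 1), (rhf7943763ae823400.shift 0 2)] (by decide +kernel))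
noncomputable def rh72aec9dfd6532291 : CRef := CRef.mk (Pat.mk 0x18000000100000001000000010 0x1e7000001fe000001fe0000001000000010 7 9) 0 0 (step_sound _ 101 [(rh2f68792b6b779e96.shift 4 0), (rh962f136ba95c74ed.shift 0 2)] (by decide +kernel))
noncomputable def rhab88478ed988e964 : CRef := CRef.mk (Pat.mk 0x10000000300000002000000020 0x4000000040000003fe000001fe000003b700000020 7 10) 0 0 (step_sound _ 70 [(rh4a0cb3a9508b05dd.shift 3 1), (rha086f24fc46b4198.shift 3 1), rha4b226867853f48a, (rhe439cc982574dc4f.shift 3 0)] (by decide +kernel))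
noncomputable def rh879e35e4b43baa9f : CRef := CRef.mk (Pat.mk 0x4000000060000000200000008 0x4000000040000007c0000007f0000007b00000008 7 7) 0 0 (step_sound _ 130 [(rh5c5e593799055d58.shift 1 1), rh97ba1ee0cf4b7d57] (by decide +kernel))
noncomputable def rhf01660f747925529 : CRef := CRef.mk (Pat.mk 0xc000000040000001c000000000000000000000000 0x200000002000000f30000007e000000f60000001c0000000c0000000800000008 7 8) 0 0 (step_sound _ 67 [(rh5c301a18fcbccb50.shift 0 2), (rh79ad7b82ec8c35e2.shift 2 0)] (by decide +kernel))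
noncomputable def rh1cdbd8356cc67782 : CRef := CRef.mk (Pat.mk 0xe000000020000000c00000000 0xc0000000c0000000c0000001f0000003b0000000c00000004 7 6) 0 0 (step_sound _ 100 [rha33ef240af5b07f1, (rheb0810cc63b001d8.shift 0 2)] (by decide +kernel))
noncomputable def rh9b484a085ce2a69e : CRef := CRef.mk (Pat.mk 0xe0000000200000008 0x1000000010000000380000003f0000007b00000008 7 7) 0 0 (step_sound _ 68 [rh909238eed06baff9, (rheb0810cc63b001d8.shift 0 1)] (by decide +kernel))
noncomputable def rh9add9e8baa88cc1b : CRef := CRef.mk (Pat.mk 0x10000000100000007000000010 0x2f0000007e000000f70000007800000010 7 8) 0 0 (step_sound _ 101 [(rh2f68792b6b779e96.shift 4 0), rh642a28b79ec1ad73] (by decide +kernel))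
noncomputable def rh6d4e8a9b3c7895b0 : CRef := CRef.mk (Pat.mk 0x100000001c0000001000000000 0x20000000280000007f0000007f0000001c0000001000000010 7 7) 0 0 (step_sound _ 99 [(rh539635c43f092905.shift 0 1), rhda59c0a26ce799ec, (rhfc7c29d8e65d775f.shift 3 0)] (by decide +kernel))
noncomputable def rh79034c5a538d3768 : CRef := CRef.mk (Pat.mk 0x60000001c0000000800000000 0x3e0000003e0000000e0000001c0000000f00000002 7 6) 0 0 (step_sound _ 130 [(rh2145e1d24b96a57e.shift 2 1), rhdf2255d8cc6b88cf] (by decide +kernel))
noncomputable def rha1a5ea0ae9abe5a6 : CRef := CRef.mk (Pat.mk 0x1e00000010000000000000000000000000 0x50000000700000007000000070000001e0000001f000000070000000300000002 7 5) 0 0 (step_sound _ 97 [rh32371985c64dcf66, (rheb0810cc63b001d8.shift 0 3)] (by decide +kernel))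
noncomputable def rh66816760bd2cd87f : CRef := CRef.mk (Pat.mk 0x18000000380000000c0000000000000000 0x20000000780000003f0000007c0000007000000030 7 7) 0 0 (step_sound _ 98 [(rh190e491999714745.shift 2 0), (rh3ac03f1b0cb1fe9c.shift 0 2), (rhf9d36e158778ce35.shift 1 3)] (by decide +kernel))
noncomputable def rh3722da43b6539cfb : CRef := CRef.mk (Pat.mk 0x14000000140000001000000000000000000000000000000000 0x1400000014000000340000003f000000f8000000380000003800000038 7 8) 0 0 (step_sound _ 100 [(rh5c63d134ac67e358.shift 3 0), (rh8bf430e36d13dc0f.shift 0 2), (rh8cdd36b03d57a2f6.shift 3 1), (rhcd93c9e1fd250270.shift 1 2)] (by decide +kernel))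
noncomputable def rh093ad269d4a5e46c : CRef := CRef.mk (Pat.mk 0x4000000040000000e0000000a00000000 0x12000000330000003f0000003e0000001f0000000a00000002 7 6) 0 0 (step_sound _ 97 [(rh71222050f2c63a3a.shift 1 0), (rh9a75461eca290f5d.shift 0 1)] (by decide +kernel))
noncomputable def rh3d752e17cb293741 : CRef := CRef.mk (Pat.mk 0x2000000070000000500000000000000000 0x40000000f00000007e00000077000001e0000000e0 7 9) 0 0 (step_sound _ 38 [rh42c42cf2105061ca, (rh7b1f1fb55310c477.shift 5 0)] (by decide +kernel))
noncomputable def rh79aba3976f9f2f53 : CRef := CRef.mk (Pat.mk 0x30000000100000001000000010 0x1cf000001fe000001fe0000001000000010 7 9) 0 0 (step_sound _ 99 [(rh50fbb5868c909700.shift 3 0), (rh962f136ba95c74ed.shift 0 2)] (by decide +kernel))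
noncomputable def rh29e92ee91bcbda18 : CRef := CRef.mk (Pat.mk 0x7000000020 0x38e000001fe000003bf 7 10) 0 0 (step_sound _ 35 [(rh1cf9a5413fbda23d.shift 1 0), (rh205dc383ce3b31ea.shift 2 0), rh2efad3051cff7df1, (rh592c7139d2c44767.shift 1 0), (rh74f48645dd37c94b.shift 1 0)] (by decide +kernel))
noncomputable def rh6c26b27c90c2d193 : CRef := CRef.mk (Pat.mk 0x4000000040000001c0000000800000000 0x800000008000000f80000003e000000fc0000003e0000000f00000006 7 8) 0 0 (step_sound _ 132 [rh18400e6b535d2191, (rh196cc96b99bfcd0e.shift 1 1), rh1e0526dd4bfa89a9, rh491d8a86fb785c4c] (by decide +kernel))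
noncomputable def rh1a675a73e6a6ad9a : CRef := CRef.mk (Pat.mk 0x2000000120000001e000000000000000000000000 0xa0000001a0000001e0000003f0000001f0000001d 7 6) 0 0 (step_sound _ 65 [rh57844cd19117821a, (rheb0810cc63b001d8.shift 0 2)] (by decide +kernel))
noncomputable def rhe08e8946e9a3f593 : CRef := CRef.mk (Pat.mk 0x100000007000000020000000000000000 0x60000001e0000001f00000007000000070000000700000006 7 5) 0 0 (step_sound _ 33 [rh1c99d78a8ce76bad, rh7b1f1fb55310c477] (by decide +kernel))
noncomputable def rh9bcf8aeb25b0f9f0 : CRef := CRef.mk (Pat.mk 0xc0000000e0000000200000000 0x16000000160000003f0000003e0000000e0000000a00000008 7 6) 0 0 (step_sound _ 162 [rh58e80c0105df09bd, (rhee230b994cc8b773.shift 1 1)] (by decide +kernel))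
noncomputable def rhd0c8f4fddd251223 : CRef := CRef.mk (Pat.mk 0x2000000060000000200000000000000000000000000000000 0x5000000070000000700000002000000060000000600000007000000070000000700000004 7 3) 0 0 (step_sound _ 225 [rh8435f16c73c7f2d9, (rhc85cc95794737cf7.shift 0 4), (rhd4b4beefcd67f51e.shift 1 3)] (by decide +kernel))
noncomputable def rhc31670a86dcbe4ea : CRef := CRef.mk (Pat.mk 0x1c0000007000000010000000000000000000000000 0x80000001a0000001f0000001c000000740000003e0000002f0000000a00000008 7 7) 0 0 (step_sound _ 99 [rh6690507952428926, (rhbb339bb7e4e96b38.shift 3 2), (rheea1a90336e79c71.shift 1 3)] (by decide +kernel))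
noncomputable def rh9bf5e0de4ec7fa7c : CRef := CRef.mk (Pat.mk 0xc0000001c000000000000000000000000 0x40000000c0000000c0000001c0000000f0000003e0000001c 7 6) 0 0 (step_sound _ 67 [rh0565fa4c6c198833, rh3a5e06d76fe02bc0, (rh3cb04db3dd2b6a55.shift 2 0)] (by decide +kernel))
noncomputable def rh3b4b2eeba30d8c08 : CRef := CRef.mk (Pat.mk 0x80000000a0000003800000000000000000000000000000000 0xc0000000f000000380000001f0000001c0000001c00000014 7 6) 0 0 (step_sound _ 162 [(rhb739f4f82bb681b4.shift 0 4), rhce533b0f49ea7588] (by decide +kernel))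
noncomputable def rh4a8ff15abf8e922e : CRef := CRef.mk (Pat.mk 0x40000001c000000080000000800000000 0x10000000780000007c0000001c0000003e0000007f00000016 7 7) 0 0 (step_sound _ 132 [rh5fb73594573b013f, (rh69755ef358ebfd54.shift 3 1), (rhbfb5770941270498.shift 3 1)] (by decide +kernel))
noncomputable def rh60f156fcd386f9ca : CRef := CRef.mk (Pat.mk 0x2000000028000000e00000004000000000 0x97000000fe000001ef000000e00000007800000010 7 9) 0 0 (step_sound _ 132 [(rh09d7875afd1d8601.shift 3 0), (rh65801ad1dfa9a797.shift 0 1)] (by decide +kernel))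
noncomputable def rh11f61f18baece021 : CRef := CRef.mk (Pat.mk 0xf000000280000000000000000 0xc0000001c0000000f0000006c0000007c0000001c 7 7) 0 0 (step_sound _ 131 [(rh33e738c4ed385b9f.shift 0 3), (rhd98809ae50b5d1b4.shift 2 0)] (by decide +kernel))
noncomputable def rhaac0810a30e40f0b : CRef := CRef.mk (Pat.mk 0x1c000000110000001000000000 0x38000000780000001c0000001f0000007800000028 7 7) 0 0 (step_sound _ 132 [rh1e25ae592a75cf84, (rh4017de503635a93b.shift 2 1), rh4e40312747d1b190] (by decide +kernel))
noncomputable def rha9c0b853e9cc566c : CRef := CRef.mk (Pat.mk 0x2000000038000000100000001000000000 0x8000000d8000000f8000000380000003e0000007f0000002c 7 8) 0 0 (step_sound _ 131 [rh078d5218324930db, (rhc89253ff58c66167.shift 3 1), (rhe072fffdd2fccf38.shift 3 1)] (by decide +kernel))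
noncomputable def rh87da2e6608118482 : CRef := CRef.mk (Pat.mk 0x10000000100000001c000000080000000000000000 0x660000003e000000fe0000001c0000001f0000000600000004 7 8) 0 0 (step_sound _ 162 [(rh0eebea40984c4f8d.shift 0 1), (rh9646f8330dca7733.shift 1 2), (rha990a23627e282c7.shift 0 1), (rhadc40f16ab20be18.shift 1 2), (rhb2e54128ced39f3c.shift 1 2), rhb8e9158fa35dbbaf, (rhc6987c02866cdfcb.shift 0 1), (rhd1ac5adbecde6469.shift 1 2)] (by decide +kernel))
noncomputable def rh46013022e692d4fd : CRef := CRef.mk (Pat.mk 0x7000000020000000200000000000000000 0x1800000018000000f80000007c0000003f0000001800000018 7 8) 0 0 (step_sound _ 100 [(rh4dc133ee0ba1420a.shift 2 3), (rh7b1951c3afb94f35.shift 3 0), rh962a1c4c40d67703] (by decide +kernel))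
noncomputable def rh0b688c8b01ed2e68 : CRef := CRef.mk (Pat.mk 0x100000001c00000008000000000000000000000000 0xc0000001c0000003f0000001f000000370000001200000002 7 6) 0 0 (step_sound _ 97 [rh71e37676039c5294, (rh72297cd55a503360.shift 0 3), (rh8879ba4a7e56171d.shift 0 3)] (by decide +kernel))
noncomputable def rh2199b3f569c088bc : CRef := CRef.mk (Pat.mk 0x100000001c00000008000000000000000000000000 0x100000001f0000007f000000780000003800000018 7 7) 0 0 (step_sound _ 35 [rh2e1a61e17d79f15b, (rh9e3edb185cc347de.shift 3 1)] (by decide +kernel))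
noncomputable def rh33ac6e059856dd63 : CRef := CRef.mk (Pat.mk 0x10000000100000001c000000080000000000000000 0x2000000038000000180000001f0000007f0000003000000030 7 7) 0 0 (step_sound _ 68 [(rh42afa1af9fffa0e1.shift 2 1), rh8b95f46f9f58265f, (rhad5d8fc3675c15dd.shift 0 2)] (by decide +kernel))
noncomputable def rha3140d9c353dd0a4 : CRef := CRef.mk (Pat.mk 0xe000000380000000000000000000000000000000000000000 0xc0000000e0000000e0000003a0000007f0000003e0000001c0000001c00000004 7 7) 0 0 (step_sound _ 131 [(rh1a617df1a8e4b4ba.shift 0 2), (rh32a427049fd021cb.shift 2 0), (rh373667474aafa28f.shift 0 2), (rh56259dd1390eee46.shift 2 1), (rh9e479264aa357885.shift 1 2), (rha1cb4a760a1b0c48.shift 0 1), (rhf56e08d6dceb88ed.shift 2 3)] (by decide +kernel))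
noncomputable def rhbe734cd964982ae5 : CRef := CRef.mk (Pat.mk 0x80000000e0000001800000000000000000000000000000000 0x40000000c0000000e0000001f0000001f0000001f0000000c00000008 7 5) 0 0 (step_sound _ 99 [(rh3b344021d4c04528.shift 0 2), (rhd874854b53e4228b.shift 2 0), (rhe286c75f2739cce2.shift 2 2)] (by decide +kernel))
noncomputable def rhdc77b89a044f466e : CRef := CRef.mk (Pat.mk 0x1c000000160000000000000000 0xc0000000c0000001f0000001e0000003f0000001e 7 6) 0 0 (step_sound _ 67 [rh04029d7e2e3adf1c, rh0b25213a3fe63400, (rhea719cc8bd0bdd28.shift 1 0)] (by decide +kernel))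
noncomputable def rhec873bc23aec3a1f : CRef := CRef.mk (Pat.mk 0x2000000030000000200000000000000000000000000000000 0x100000007000000070000000600000003000000030000000300000007000000070000000700000001 7 3) 0 0 (step_sound _ 225 [(rh03dfdf12d5937476.shift 0 3), (rh42ab489a1be3958e.shift 0 4), rh827fdeebe8619b53] (by decide +kernel))
noncomputable def rh2f1d7b7a99fea5b1 : CRef := CRef.mk (Pat.mk 0xf00000008000000000000000000000000 0x40000001c0000001c0000001c0000001c0000000f000000080000001c0000001c00000014 7 5) 0 0 (step_sound _ 163 [(rh33e738c4ed385b9f.shift 0 4), (rh719e5767e6e34794.shift 2 0)] (by decide +kernel))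
noncomputable def rha04bd291ccae61fa : CRef := CRef.mk (Pat.mk 0x20000000a00000012000000020000000000000000 0xa0000000a0000000a0000001e0000003f0000001400000010 7 6) 0 0 (step_sound _ 66 [(rh55afc6a59410cf00.shift 1 1), rh6125035e0152dcfd] (by decide +kernel))
noncomputable def rh2d6cdcd890d21764 : CRef := CRef.mk (Pat.mk 0x1a0000001e0000000000000000 0x150000003f0000001e0000001e0000000b0000000a 7 6) 0 0 (step_sound _ 33 [rh5fc30480a1b36bda, (rheb0810cc63b001d8.shift 0 1)] (by decide +kernel))
noncomputable def rh27501404ec404ff4 : CRef := CRef.mk (Pat.mk 0x200000003000000020000000200000000 0x10000000700000007000000070000000300000003000000020000000300000001 7 3) 0 0 (step_sound _ 32 [rh932754581e0f4330, (rhe7d9b96ecbf969aa.shift 0 1)] (by decide +kernel))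
noncomputable def rhc9c91c9f143e4ad4 : CRef := CRef.mk (Pat.mk 0x8000000080000001c0000000000000000 0x6000000160000003e0000000f0000003c0000000e0000000e 7 6) 0 0 (step_sound _ 98 [rh06287b955b426aaf, (rh3dcbad35de31d504.shift 1 0), (rhe2b63c00a3d7bb73.shift 0 2)] (by decide +kernel))
noncomputable def rh2ba124b1e3af2825 : CRef := CRef.mk (Pat.mk 0x80000001c000000100000000000000000 0x2000000020000001f0000003f0000001e0000001400000014 7 6) 0 0 (step_sound _ 36 [(rh7b1f1fb55310c477.shift 3 0), rhf0b26b88a3413ae1] (by decide +kernel))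
noncomputable def rh6d543dac0772eaa1 : CRef := CRef.mk (Pat.mk 0x80000000e000000080000000000000000 0x140000001c0000001c0000001c0000003c0000003f0000000e000000080000000800000008 7 6) 0 0 (step_sound _ 163 [(rh0716e05268e6cc45.shift 1 0), (rh6b929d35c161bd41.shift 0 1), (rh7ba44df6cfae6205.shift 2 1), (rhc85cc95794737cf7.shift 2 2)] (by decide +kernel))
noncomputable def rh15a69e3799388238 : CRef := CRef.mk (Pat.mk 0x4000000070000000c0000000000000000000000000000000000000000 0xa0000001e000000070000000c0000000c0000000e0000000e0000000e00000008 7 5) 0 0 (step_sound _ 130 [(rh4017de503635a93b.shift 0 4), (rhd1a74c2407d980d4.shift 1 0), (rhe286c75f2739cce2.shift 1 3)] (by decide +kernel))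
noncomputable def rh4797014897be6fd7 : CRef := CRef.mk (Pat.mk 0x60000000c0000000c0000000000000000 0x60000000f0000007e0000007f0000000e 7 7) 0 0 (step_sound _ 35 [(rh7b1f1fb55310c477.shift 2 0), rhfd9c17cd9e9c5cb8] (by decide +kernel))
noncomputable def rhf6c6d1e6d2dcb9d7 : CRef := CRef.mk (Pat.mk 0x3000000060000000200000000 0x2000000020000001f0000001f00000007000000070000000700000005 7 5) 0 0 (step_sound _ 129 [rh75dc76bf3b73e05f, rh9b00261659c6c8e7, (rhd4b4beefcd67f51e.shift 1 0)] (by decide +kernel))
noncomputable def rhfe6fcc796aaa7064 : CRef := CRef.mk (Pat.mk 0x30000000100000007000000040000000000000000 0x1c0000001f0000001b0000000f000000070000000600000002 7 5) 0 0 (step_sound _ 65 [rh79ad7b82ec8c35e2, (rhc9fe73600feb5007.shift 0 1)] (by decide +kernel))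
noncomputable def rh04369763f0ff0b5c : CRef := CRef.mk (Pat.mk 0x600000002000000060000000000000000000000000000000000000000 0x50000000700000002000000060000000600000007000000070000000700000004 7 3) 0 0 (step_sound _ 129 [(rh2f68792b6b779e96.shift 1 4), rh9f85399da230e4d3] (by decide +kernel))
noncomputable def rha32b39cf3f6c4389 : CRef := CRef.mk (Pat.mk 0x4000000040000001c0000000400000000 0x1a0000003e000000370000001c0000000e0000000a 7 6) 0 0 (step_sound _ 35 [(rh55afc6a59410cf00.shift 2 0), rh9ea8b358079bad0b] (by decide +kernel))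
noncomputable def rhd6b3b360f9c2a7eb : CRef := CRef.mk (Pat.mk 0x40000001c0000000800000000 0xe0000000f0000003c0000003c0000000e00000006 7 6) 0 0 (step_sound _ 130 [(rh2145e1d24b96a57e.shift 2 1), rh6d59d6c575cd8a46] (by decide +kernel))
noncomputable def rh1833e792cb70f701 : CRef := CRef.mk (Pat.mk 0x200000002000000060000000200000000000000000000000000000000 0x10000000300000002000000060000000600000007000000070000000700000004 7 3) 0 0 (step_sound _ 224 [(rh50fbb5868c909700.shift 0 4), rhe26522fe8baf0b26] (by decide +kernel))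
noncomputable def rha579ffce16448a93 : CRef := CRef.mk (Pat.mk 0x1000000000000000f00000008000000000000000000000000 0x140000001c0000001f0000001c0000000f0000000c0000001c0000001c00000010 7 5) 0 0 (step_sound _ 163 [rh01e96e5140c5755b, (rh33e738c4ed385b9f.shift 0 4)] (by decide +kernel))
noncomputable def rha8adb4d897afdcc6 : CRef := CRef.mk (Pat.mk 0x30000000600000002000000000000000000000000 0x8000000080000000e0000001e0000000f0000000600000006000000070000000700000005 7 5) 0 0 (step_sound _ 193 [(rh846d4e7c5a63d199.shift 0 2), rh95311890f436bcdc, (rhd4b4beefcd67f51e.shift 1 2)] (by decide +kernel))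
noncomputable def rhc7e7e664ba2522ee : CRef := CRef.mk (Pat.mk 0x4000000060000000c00000004 0x100000003a0000003f0000003e0000000c00000004 7 6) 0 0 (step_sound _ 99 [rh081698f3e6ac6997, (rh2f68792b6b779e96.shift 2 0)] (by decide +kernel))
noncomputable def rh5463d1fbb39f4544 : CRef := CRef.mk (Pat.mk 0x30000000a0000000200000000000000000000000000000000 0x1000000030000001e0000000600000006000000070000000700000001 7 5) 0 0 (step_sound _ 162 [rh32a427049fd021cb, (rhf48373e13d2bc128.shift 0 5)] (by decide +kernel))
noncomputable def rhc9c84c931516ccbc : CRef := CRef.mk (Pat.mk 0xe000000280000000800000000 0x180000001c0000001c0000003e0000000e0000007a0000001f00000012 7 7) 0 0 (step_sound _ 68 [rh680864a9f906706f, (rhf48373e13d2bc128.shift 2 2)] (by decide +kernel))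
noncomputable def rhdbd0de1a0b5a62da : CRef := CRef.mk (Pat.mk 0x1800000038000000200000000000000000 0x1c0000003f0000007f0000001f00000038000000280000000800000008 7 7) 0 0 (step_sound _ 163 [(rh2b4f3c0785538b0e.shift 0 2), (rh70e1ae7d5bbbbf54.shift 1 0), (rh9be513b18bc3ec68.shift 3 2), (rhd7a9d95b0c04a4c1.shift 0 2), (rhdab4c569351364e8.shift 0 1)] (by decide +kernel))
noncomputable def rh6cb55be16c0fb253 : CRef := CRef.mk (Pat.mk 0xc0000001c000000100000000000000000 0x200000002000000270000007f0000001c000000140000001400000010 7 7) 0 0 (step_sound _ 129 [rh5f3d4c4c05c047d2, (rhb739f4f82bb681b4.shift 0 3)] (by decide +kernel))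
noncomputable def rha1fcfb1b30bb72ba : CRef := CRef.mk (Pat.mk 0x20000000e0000000a00000000 0x5000000070000001e0000001e0000000b0000000b 7 5) 0 0 (step_sound _ 32 [(rh18965a982d73c794.shift 0 1), rh3a68243454dd4ddf] (by decide +kernel))
noncomputable def rh7b9ca35b32c8cb2b : CRef := CRef.mk (Pat.mk 0x4000000060000000e00000008 0x12000000fb0000003e0000003e0000001f00000008 7 8) 0 0 (step_sound _ 68 [rh6924719e760519e8, rh71d57ddb192a9a27, (rh7dcd5319f4f71bec.shift 0 1)] (by decide +kernel))
noncomputable def rh19889cc2178c742f : CRef := CRef.mk (Pat.mk 0x180000001c000000100000001000000000 0x14000000160000007f0000003c0000001e000000f800000020 7 8) 0 0 (step_sound _ 133 [(rh18965a982d73c794.shift 2 3), rh3fd2143fce3d7b25] (by decide +kernel))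
noncomputable def rh2281da455821d6c7 : CRef := CRef.mk (Pat.mk 0x180000001c000000100000001000000000 0x10000000300000001f0000003e0000001f000000f800000020 7 8) 0 0 (step_sound _ 37 [(rh51a2fc1d86c1f523.shift 0 1), (rh55afc6a59410cf00.shift 4 0)] (by decide +kernel))
noncomputable def rh4c81e1dd5e495f71 : CRef := CRef.mk (Pat.mk 0x800000038000000080000000000000000 0x180000001c0000001f0000007e00000038000000080000000800000008 7 7) 0 0 (step_sound _ 132 [(rh3f09e2870ec06b4b.shift 1 0), (rh84d1c02a8954c6a8.shift 3 1), (rhdc9fa3497eb53270.shift 0 2)] (by decide +kernel))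
noncomputable def rhf11146e8ec20b8d1 : CRef := CRef.mk (Pat.mk 0x80000000f0000000000000000000000000000000000000000 0x140000001c0000001c000000080000000f0000001c0000001c0000001c0000001c00000004 7 5) 0 0 (step_sound _ 131 [(rh2c7ca9b3bf24677d.shift 2 0), (rhe25b0a99195a5d59.shift 0 4)] (by decide +kernel))
noncomputable def rha49745acc3e5a5d0 : CRef := CRef.mk (Pat.mk 0x2000000120000000a0000000200000000 0x10000000140000003f0000001e0000000a0000000a0000000a 7 6) 0 0 (step_sound _ 130 [(rh2f68792b6b779e96.shift 1 1), rh5637725a593b7752] (by decide +kernel))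
noncomputable def rh99016b3d815f421c : CRef := CRef.mk (Pat.mk 0x10000000700000001c000000000000000000000000 0x80000000a0000002f0000003e000000740000001c0000001f0000001a00000008 7 7) 0 0 (step_sound _ 163 [(rh668fc65514a55b16.shift 3 1), rh82903d5f52f66a46, (rhc02b3aee7ab87ee1.shift 1 4)] (by decide +kernel))
noncomputable def rh9150d9b7222a3419 : CRef := CRef.mk (Pat.mk 0x8000000080000001c000000060000000000000000 0x140000001c0000001c0000001c0000007e0000007300000010 7 7) 0 0 (step_sound _ 68 [(rh08edf065357d68e5.shift 3 0), (rh79ad7b82ec8c35e2.shift 3 0), (rhe1f3219f49387fae.shift 0 1)] (by decide +kernel))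
noncomputable def rh9c3e9ee2c0d12509 : CRef := CRef.mk (Pat.mk 0x80000001c000000040000000400000000 0x20000000780000001f000000f60000003e00000038 7 8) 0 0 (step_sound _ 68 [(rh3bb201def308172f.shift 1 0), (rh3ce854f4a795c89f.shift 0 2), (rhbddc5727b3713962.shift 1 0), (rhc85aa36aca002f4f.shift 1 0)] (by decide +kernel))
noncomputable def rhe83cf3ce68f31270 : CRef := CRef.mk (Pat.mk 0x2000000020000000200000003000000000 0x2000000020000003bf000001fe000003ce 7 10) 0 0 (step_sound _ 38 [(rh55afc6a59410cf00.shift 5 0), rhd25990882328e19b] (by decide +kernel))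
noncomputable def rhf9e5d059e1079594 : CRef := CRef.mk (Pat.mk 0x1000000010000000100000002800000000 0x1000000010000000fe0000007f00000027 7 8) 0 0 (step_sound _ 36 [rh2c45383e45d83d54, (rh55afc6a59410cf00.shift 4 0)] (by decide +kernel))
noncomputable def rh2b23ffbaf69c75ea : CRef := CRef.mk (Pat.mk 0x2000000060000000200000000000000000000000000000000 0x5000000070000000700000002000000060000000600000007000000070000000700000004 7 3) 0 0 (step_sound _ 225 [(rh1741680720c097b4.shift 0 4), rh8435f16c73c7f2d9, (rhd4b4beefcd67f51e.shift 1 3)] (by decide +kernel))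
noncomputable def rh1b598c80c1ef6c46 : CRef := CRef.mk (Pat.mk 0x80000000c000000080000000000000000 0x140000001c0000001c0000001c0000003c0000000f0000000c000000080000000800000008 7 6) 0 0 (step_sound _ 163 [(rh4e2df8342d3b8ae8.shift 2 2), (rh5ee4dc8825dcefa0.shift 0 1), (rh7ba44df6cfae6205.shift 2 1), (rhc85cc95794737cf7.shift 2 2), (rhcaa2c1a05e34bcba.shift 2 0)] (by decide +kernel))
noncomputable def rha17b073b668cf057 : CRef := CRef.mk (Pat.mk 0x7800000000 0xfc000000ff00000007 7 8) 0 0 (step_sound _ 67 [rh078f99faf3a778c5, (rh3244c3cc8379b070.shift 2 1)] (by decide +kernel))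
noncomputable def rhd7048efb7fe028fd : CRef := CRef.mk (Pat.mk 0x7800000000 0xe7000000ff0000001c 7 8) 0 0 (step_sound _ 3 [(rheb0810cc63b001d8.shift 2 0), rhf733c2a41d57dd22] (by decide +kernel))
noncomputable def rh915109ec5c4b7fee : CRef := CRef.mk (Pat.mk 0x60000001c000000080000000000000000 0x10000000730000007e0000001c0000001c0000001c0000001c 7 7) 0 0 (step_sound _ 35 [rh33d5fc9daae85c0e, (rh7b1f1fb55310c477.shift 2 0)] (by decide +kernel))
noncomputable def rhae734a6347f2da98 : CRef := CRef.mk (Pat.mk 0x400000007000000040000000000000000 0xe0000000e0000003e0000003e00000007000000040000000400000004 7 6) 0 0 (step_sound _ 129 [(rh3cb04db3dd2b6a55.shift 1 0), (rh82b5f2459bc0562e.shift 0 2), rhf8d29f3cbeaf06f7] (by decide +kernel))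
noncomputable def rha4daae686a663794 : CRef := CRef.mk (Pat.mk 0x200000003000000060000000200000000000000000000000000000000 0x40000001e00000003000000070000000600000006000000070000000700000005 7 5) 0 0 (step_sound _ 226 [(rh2f68792b6b779e96.shift 1 4), rhf93c8e588e7d38cc] (by decide +kernel))
noncomputable def rhe202cc1a95dff203 : CRef := CRef.mk (Pat.mk 0x20000001e0000000200000000000000000000000000000000 0x50000000700000007000000320000001e0000000600000007000000070000000700000004 7 6) 0 0 (step_sound _ 196 [rh0ff4e66a85fe86a9, (rh33e738c4ed385b9f.shift 1 5)] (by decide +kernel))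
noncomputable def rha9c5ebb5ab64a352 : CRef := CRef.mk (Pat.mk 0x40000000e00000006000000020000000000000000 0x180000003c0000000e0000003e0000000f0000000c0000000c 7 6) 0 0 (step_sound _ 66 [(rh6566b88c0b12c1fc.shift 0 1), (rh820d4e04d5dcd02e.shift 1 0), (rhb0c1e7919d9be92d.shift 1 0)] (by decide +kernel))
noncomputable def rhf9dc4d35e6bfd15f : CRef := CRef.mk (Pat.mk 0x20000000700000003000000000000000000000000 0xc0000001e00000007000000070000001e0000000e00000006 7 5) 0 0 (step_sound _ 65 [(rh3ece5860861ca566.shift 0 1), rh820d4e04d5dcd02e, (rha707fb719e87fe6e.shift 1 1)] (by decide +kernel))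
noncomputable def rh59101b0b100fd3ce : CRef := CRef.mk (Pat.mk 0x1c0000000e000000040000000000000000 0x8000000180000001c0000007e0000007f0000000b0000000a 7 7) 0 0 (step_sound _ 100 [(rh78c9b3be5b3e8a50.shift 1 2), (rha9e1a5d55b907abf.shift 1 2), rhf666040947505768] (by decide +kernel))
noncomputable def rh71c8f0bd7066be12 : CRef := CRef.mk (Pat.mk 0xf0000000a0000000000000000 0x40000001c0000001c0000001c0000001e0000000f0000000a0000000a0000000a 7 5) 0 0 (step_sound _ 131 [(rh33e738c4ed385b9f.shift 0 3), (rha96069da9be69738.shift 1 0)] (by decide +kernel))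
noncomputable def rhf31527acfdaa8ddb : CRef := CRef.mk (Pat.mk 0x3800000058000000080000000000000000 0x2000000038000000780000003c0000001f0000001c 7 7) 0 0 (step_sound _ 35 [(rh71222050f2c63a3a.shift 3 0), rh956b0faff08aff88] (by decide +kernel))
noncomputable def rh3c10723ed89e9c46 : CRef := CRef.mk (Pat.mk 0x7000000030000000200000000 0x60000000e0000001e00000007000000070000001e0000000c 7 5) 0 0 (step_sound _ 129 [rh0ff7ca71cb891e23, rh3ece5860861ca566, (rh5fa50b509d4ce753.shift 0 1)] (by decide +kernel))
noncomputable def rhb0475c56a4b3b474 : CRef := CRef.mk (Pat.mk 0x1800000038000000000000000000000000 0x180000001800000018000000180000003c0000000f0000007c0000001c 7 7) 0 0 (step_sound _ 67 [(rh40f8e8b5f56cd1be.shift 0 1), (rh5182d511e1827bca.shift 1 0), (rh84d1c02a8954c6a8.shift 3 1)] (by decide +kernel))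
noncomputable def rhee5667e9d6873251 : CRef := CRef.mk (Pat.mk 0x380000005a000000000000000000000000 0x1000000030000000380000007b0000001f0000003800000018 7 7) 0 0 (step_sound _ 67 [rh425204b1d9123688, (rh84d1c02a8954c6a8.shift 3 1), rh96375176a47470c9] (by decide +kernel))
noncomputable def rh170f8047aa9e0718 : CRef := CRef.mk (Pat.mk 0x1c0000002c000000000000000000000000 0x18000000180000003c0000003c0000006f0000003c0000003c 7 7) 0 0 (step_sound _ 66 [rh30f7072667d65717, (rh9660b80a5b4883b2.shift 1 0), (rhea7a1800d6f053bd.shift 2 0)] (by decide +kernel))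
noncomputable def rh1a7df688f4a9a9da : CRef := CRef.mk (Pat.mk 0x2000000070000000300000000 0x70000000700000006000000070000001f0000001c 7 5) 0 0 (step_sound _ 129 [rh2bf2743efa8a0379, (rh5c5e593799055d58.shift 0 1)] (by decide +kernel))
noncomputable def rhdea4017e99b8203b : CRef := CRef.mk (Pat.mk 0xe00000006000000000000000000000000 0x80000003c0000001e0000003e0000003f0000003a00000012 7 6) 0 0 (step_sound _ 100 [rh531932020321e89d, (rh6ec780babe35b220.shift 1 1), (rhd5041491555e8d86.shift 1 3)] (by decide +kernel))
noncomputable def rha9c4428cf2fe1716 : CRef := CRef.mk (Pat.mk 0x20000000700000003000000000000000000000000 0xc0000001e00000007000000070000001e0000000e00000006 7 5) 0 0 (step_sound _ 65 [(rh32f2708c074bfacb.shift 0 1), rh820d4e04d5dcd02e, (rha707fb719e87fe6e.shift 1 1)] (by decide +kernel))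
noncomputable def rh5bde2df99c251002 : CRef := CRef.mk (Pat.mk 0x1c0000000e000000000000000000000000 0x100000001c0000007e0000007f0000003800000038 7 7) 0 0 (step_sound _ 67 [rh991603e4b166eb03, (rhb0c1e7919d9be92d.shift 2 0)] (by decide +kernel))
noncomputable def rh5d045dff7a05e99f : CRef := CRef.mk (Pat.mk 0x3800000078000000000000000000000000 0x2000000038000000780000003c0000001f0000001c 7 7) 0 0 (step_sound _ 67 [rh2aee7b66eec415db, (rheb0810cc63b001d8.shift 2 2)] (by decide +kernel))
noncomputable def rhef397a33dc4fa280 : CRef := CRef.mk (Pat.mk 0xe0000001c000000000000000000000000 0x40000000c0000000e0000001f0000003b0000001f0000001c 7 6) 0 0 (step_sound _ 67 [rh0eb1d62610945562, (rhb8a0a47969052ef0.shift 0 1), (rhfc7c29d8e65d775f.shift 2 1)] (by decide +kernel))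
noncomputable def rh5391918e3f1c2fe0 : CRef := CRef.mk (Pat.mk 0xf0000000b000000000000000000000000 0x100000001e0000001f0000001e0000000f0000000b0000001d0000001c00000014 7 5) 0 0 (step_sound _ 163 [rh1e97a2dd154b281f, (rh33e738c4ed385b9f.shift 0 4)] (by decide +kernel))
noncomputable def rhac2e912d8e3160f6 : CRef := CRef.mk (Pat.mk 0xe00000016000000000000000000000000 0xc0000000c0000000e0000001e0000003b0000001200000012 7 6) 0 0 (step_sound _ 65 [rh56f08f789b6923af, rha823780809c9967c, (rhea7a1800d6f053bd.shift 1 0)] (by decide +kernel))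
noncomputable def rhb3859312932eb6d8 : CRef := CRef.mk (Pat.mk 0x80000000e000000040000000400000000 0x600000006000000160000003c0000000e0000003e0000000f0000000a 7 6) 0 0 (step_sound _ 130 [(rh0ef6c71ce89c1c36.shift 1 0), (rh4f402ce420c5c06c.shift 1 0), rh9a956b622400e328, (rhea90e7358341a1a4.shift 1 0)] (by decide +kernel))
noncomputable def rh4ca5d7462671a1d3 : CRef := CRef.mk (Pat.mk 0x80000000e00000004000000000000000000000000 0xe0000000f0000003c0000000e0000003c000000180000001800000018 7 6) 0 0 (step_sound _ 195 [(rh5c5e593799055d58.shift 2 3), rhdc641f10cc8c2b92] (by decide +kernel))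
noncomputable def rhe59e17796a43be8e : CRef := CRef.mk (Pat.mk 0xc00000006000000060000000000000000 0x4000000040000000c0000003e0000003f0000003800000010 7 6) 0 0 (step_sound _ 162 [(rh5c5e593799055d58.shift 1 2), rh9754ad85a565e7bd] (by decide +kernel))
noncomputable def rh31edf42176a1e694 : CRef := CRef.mk (Pat.mk 0xe00000007000000000000000000000000 0xc0000000c0000000c0000000e000000070000001e0000000e0000000c 7 5) 0 0 (step_sound _ 162 [rh1641d7b72f3d9d94, (rh503dd4575245365b.shift 1 2), (rh642e50382fd7f7a3.shift 1 0)] (by decide +kernel))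
noncomputable def rh59dbc0e12973895b : CRef := CRef.mk (Pat.mk 0x20000000700000003000000010000000000000000 0x4000000060000000f0000001b0000001f0000001e00000006 7 5) 0 0 (step_sound _ 65 [(rh3a66e8a83c378784.shift 0 1), rh820d4e04d5dcd02e, rhb0c1e7919d9be92d] (by decide +kernel))
noncomputable def rh5c19ed9579a1fa6e : CRef := CRef.mk (Pat.mk 0x40000000e000000040000000400000000 0x180000003c0000000e0000003c0000000f0000000a 7 6) 0 0 (step_sound _ 131 [(rh2f68792b6b779e96.shift 2 1), rh9a956b622400e328] (by decide +kernel))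
noncomputable def rh816c29aa18a72e5f : CRef := CRef.mk (Pat.mk 0x200000007000000020000000200000000 0x40000000700000007000000070000001e00000007000000020000000300000001 7 5) 0 0 (step_sound _ 32 [rh932754581e0f4330, (rhda7b61c57ca91e4b.shift 0 1)] (by decide +kernel))
noncomputable def rh9723355a2acd073b : CRef := CRef.mk (Pat.mk 0x1e00000014000000040000000000000000 0x340000001e000000140000003f0000003e0000002a 7 6) 0 0 (step_sound _ 164 [(rh33e738c4ed385b9f.shift 1 4), rh8cb103324546c2d9] (by decide +kernel))
noncomputable def rh6e5f397fb81bb665 : CRef := CRef.mk (Pat.mk 0xc0000001400000004000000000000000000000000 0x40000000c0000001c0000003f0000003f0000001e00000002 7 6) 0 0 (step_sound _ 66 [(rh683d8caf32c4eeb1.shift 0 1), (rh7133a7a78d762f91.shift 0 1), (rha8bc3cae4d77a08f.shift 1 0)] (by decide +kernel))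
noncomputable def rhdb1a2bd7edbec6c0 : CRef := CRef.mk (Pat.mk 0xc0000000c000000000000000000000000 0x80000000c0000000c0000000e0000007f0000003e0000000e 7 7) 0 0 (step_sound _ 66 [rh5182d511e1827bca, (rh84d1c02a8954c6a8.shift 2 1), (rhe06e0bacb1aba756.shift 1 0)] (by decide +kernel))
noncomputable def rhc6c76aa2398fafbd : CRef := CRef.mk (Pat.mk 0xe00000016000000000000000000000000 0xe0000000f0000003c0000000e0000001e0000003f0000001200000010 7 6) 0 0 (step_sound _ 162 [(rh503dd4575245365b.shift 1 2), (rh86542c313e3c55a0.shift 0 2), rhfa6cbd6dd03781f3] (by decide +kernel))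
noncomputable def rhc1bd582361d15830 : CRef := CRef.mk (Pat.mk 0x80000000e00000006000000040000000000000000 0x20000000a0000001f0000003e0000003e0000003300000012 7 6) 0 0 (step_sound _ 193 [(rh6f1cbe15c631ee70.shift 1 2), rhc333da79eae28264] (by decide +kernel))
noncomputable def rhba2c41bcf61cd719 : CRef := CRef.mk (Pat.mk 0x40000000700000003000000020000000000000000 0x10000001d0000000f0000001f0000001e0000000c00000008 7 5) 0 0 (step_sound _ 192 [rh4887c4353f9c05ec, (rh6f1cbe15c631ee70.shift 0 2)] (by decide +kernel))
noncomputable def rh6fbb18fdba4bb17e : CRef := CRef.mk (Pat.mk 0x18000000180000000c 0x3000000030000000f0000000ff000000f80000004c 7 8) 0 0 (step_sound _ 69 [(rh1d5609feff06cf69.shift 2 0), (rh30ceb31ada3a3171.shift 2 0), rh8a8fc8620f62f5ac, (rhc32ab6aea16948b8.shift 1 0)] (by decide +kernel))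
noncomputable def rh96558c9ab394122c : CRef := CRef.mk (Pat.mk 0x40000001c000000060000000200000000 0x1000000018000000780000007e0000001f0000000e0000003e0000003c 7 7) 0 0 (step_sound _ 131 [(rhd575de2d44b7fb32.shift 1 0), (rhe5250eb0543b4f16.shift 0 2), (rhea7a1800d6f053bd.shift 2 0)] (by decide +kernel))
noncomputable def rhf880f53fcb6638e8 : CRef := CRef.mk (Pat.mk 0x3800000018000000100000000000000000 0x1000000010000000380000001e0000007c0000002f0000000c 7 7) 0 0 (step_sound _ 98 [(rh53b3c253cb0c65f4.shift 1 3), rh9dae6ccd17fa7b61] (by decide +kernel))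
noncomputable def rhdc968b8aa0ebbe3b : CRef := CRef.mk (Pat.mk 0x200000003800000018000000100000000000000000 0x100000003000000078000000d8000000fc000000ef0000000c 7 8) 0 0 (step_sound _ 67 [(rh642e496cfcf6dbfb.shift 3 1), (rh84d1c02a8954c6a8.shift 3 1), rha6f802784adb25e2] (by decide +kernel))
noncomputable def rhfc638d4242ea75c7 : CRef := CRef.mk (Pat.mk 0x1600000007000000010000000000000000 0xe0000000e0000003e00000036000000070000000d0000000c0000000c 7 6) 0 0 (step_sound _ 162 [(rh642e50382fd7f7a3.shift 1 0), (rhdf3015c1291f0d07.shift 0 1), (rhe2031cd839b38d08.shift 0 2)] (by decide +kernel))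
noncomputable def rh7b5a64911e38dedb : CRef := CRef.mk (Pat.mk 0x4000000000000001c0000000600000000 0x800000038000000fe0000003f000000fb0000001f0000000e00000008 7 8) 0 0 (step_sound _ 100 [rh0cb844c90683f0ea, (rh2cbd2c3a155e12b7.shift 0 1), rh34be386ff1f6a0b9, (rhff7d63dcb3cf9f74.shift 1 2)] (by decide +kernel))
noncomputable def rh52daaf30c52390b8 : CRef := CRef.mk (Pat.mk 0x8000000180000000c0000000400000000 0x70000000f0000001e0000001f0000003700000010 7 6) 0 0 (step_sound _ 65 [rh05904faa364d0f76, (rh53b3c253cb0c65f4.shift 0 2)] (by decide +kernel))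
noncomputable def rh6c76a20b510ab647 : CRef := CRef.mk (Pat.mk 0x100000001c00000008000000080000000000000000 0x40000001c0000003f0000007f000000fb0000003200000010 7 8) 0 0 (step_sound _ 100 [(rh2a477dbc687cff57.shift 0 1), (rh3ce9bda712329b1c.shift 2 0), (rh6292bd8784ece55f.shift 1 3)] (by decide +kernel))
noncomputable def rh5d3a916cacd5d735 : CRef := CRef.mk (Pat.mk 0x400000007000000030000000200000000 0x30000000b0000001f00000007000000070000001e0000000c 7 5) 0 0 (step_sound _ 160 [rh1f85d60d4d5bbcc0, (rh6f1cbe15c631ee70.shift 0 1)] (by decide +kernel))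
noncomputable def rh985eeeee8e27711c : CRef := CRef.mk (Pat.mk 0x80000000c000000040000000400000000 0x600000006000000160000003c0000000f0000003f0000003f0000001a 7 6) 0 0 (step_sound _ 130 [(rh0ef6c71ce89c1c36.shift 1 0), rh60f7890073fd1121, rhc71ed80c6d39935c, (rhea90e7358341a1a4.shift 1 0)] (by decide +kernel))
noncomputable def rh19ca2a8cd3ec1ac3 : CRef := CRef.mk (Pat.mk 0x180000000c000000080000000000000000 0x1c000000ff0000007f0000003000000030 7 8) 0 0 (step_sound _ 97 [(rh53b3c253cb0c65f4.shift 0 3), rhec426d87a90b7cfe] (by decide +kernel))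
noncomputable def rh92c0b38c08d071cb : CRef := CRef.mk (Pat.mk 0x20000000300000001800000018000000000000000000000000 0x2000000070000000df000000ff000000cf0000000c0000000c 7 8) 0 0 (step_sound _ 35 [rh8f5e97e3f1dc5445, (rh9e3edb185cc347de.shift 3 1)] (by decide +kernel))
noncomputable def rhdd00f304475e066d : CRef := CRef.mk (Pat.mk 0x2000000030000000180000000800000000 0x2800000078000000df000000ff000000d7 7 8) 0 0 (step_sound _ 36 [(rh71222050f2c63a3a.shift 4 0), rhcedb35828d87d2e6] (by decide +kernel))
noncomputable def rh4d5a6e4207309989 : CRef := CRef.mk (Pat.mk 0x180000000c000000040000000000000000 0x400000004000000040000003c0000000f0000000e0000000600000006 7 6) 0 0 (step_sound _ 97 [(rh53b3c253cb0c65f4.shift 0 3), (rhaa4bd7df969ebae1.shift 1 0)] (by decide +kernel))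
noncomputable def rha60a573111957bb4 : CRef := CRef.mk (Pat.mk 0x200000003000000018000000080000000000000000 0x2800000038000000180000001f0000003c0000001c 7 6) 0 0 (step_sound _ 36 [rh6a2aff8ddcd9dc56, (rh9e3edb185cc347de.shift 4 1)] (by decide +kernel))
noncomputable def rh3acf965142feb7ba : CRef := CRef.mk (Pat.mk 0x300000001c000000080000000000000000 0x8000000780000001c0000000f0000003c0000001c 7 7) 0 0 (step_sound _ 131 [(rh18965a982d73c794.shift 2 3), rh59884d4b0b1c90ac] (by decide +kernel))
noncomputable def rh57e062555a319246 : CRef := CRef.mk (Pat.mk 0x10000000180000000c000000040000000000000000 0x4000000140000003c0000000f0000000e0000000e00000006 7 6) 0 0 (step_sound _ 67 [rh30b0cc6f47c8ef75, (rh71222050f2c63a3a.shift 3 1)] (by decide +kernel))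
noncomputable def rh57ef0faac93f99f3 : CRef := CRef.mk (Pat.mk 0x400000006000000140000000000000000 0x2000000060000003e0000003f0000000300000003 7 6) 0 0 (step_sound _ 100 [rh198ba47e4f8edef2, rh7a9f124911bb3251, (rh88700e9c067a80e8.shift 1 2), (rha6816dee951f7ee6.shift 1 2)] (by decide +kernel))
noncomputable def rh492689c3df992981 : CRef := CRef.mk (Pat.mk 0x10000000180000000c00000028000000000000000000000000 0x20000000300000003c0000007c0000003f000000360000003600000002 7 7) 0 0 (step_sound _ 132 [(rh475253e964ed1313.shift 4 1), (rh81872d86adb6d014.shift 2 1), (rh99b8d4779b00c59a.shift 2 1), rh9f0d881ef581fdb4, (rhf49e748fe37799f6.shift 3 1)] (by decide +kernel))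
noncomputable def rh2e1dfc58128ae20a : CRef := CRef.mk (Pat.mk 0x400000006000000030000000a00000000000000000000000000000000 0x180000003c0000000f0000007f0000001b000000180000001c0000001c00000014 7 7) 0 0 (step_sound _ 163 [(rh88700e9c067a80e8.shift 0 4), (rhb11a332281ceecc6.shift 2 0), (rhf1d8f9b698f98f50.shift 0 3)] (by decide +kernel))
noncomputable def rh43f4b16880fa1bb8 : CRef := CRef.mk (Pat.mk 0x18000000180000000c0000000400000000 0x40000001f000000180000001c0000007c00000078 7 7) 0 0 (step_sound _ 35 [rh4ea7f4ba6de1a3a3, (rh71222050f2c63a3a.shift 3 0)] (by decide +kernel))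
noncomputable def rh4977e21bc2aa50cb : CRef := CRef.mk (Pat.mk 0x180000000c00000000 0x3f000000ff000000e0 7 8) 0 0 (step_sound _ 33 [(rh53b3c253cb0c65f4.shift 0 1), rh911ef3408c557f10] (by decide +kernel))
noncomputable def rh6f2a4e15e7da9619 : CRef := CRef.mk (Pat.mk 0x80000000e00000006000000040000000000000000 0x20000000a0000001f0000003e0000003f0000003300000012 7 6) 0 0 (step_sound _ 161 [(rh2145e1d24b96a57e.shift 1 2), rh3863454fb35478eb] (by decide +kernel))
noncomputable def rh5baaf42bfaca20dd : CRef := CRef.mk (Pat.mk 0x80000000e00000006000000040000000000000000 0x20000003a0000001e0000003e0000003f0000001800000010 7 6) 0 0 (step_sound _ 161 [(rh2145e1d24b96a57e.shift 1 2), rhc0f521032e0434c0] (by decide +kernel))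
noncomputable def rh164a19a2a1fd28fe : CRef := CRef.mk (Pat.mk 0x80000000e000000040 0x187000000fe000000e7 7 9) 0 0 (step_sound _ 36 [(rh33e738c4ed385b9f.shift 4 1), rhc59ba9a1f24cb412] (by decide +kernel))
noncomputable def rhfe040f1ef1169e9c : CRef := CRef.mk (Pat.mk 0x200000003800000018000000000000000000000000 0x8000000080000002800000038000000380000001f0000003c0000001c 7 6) 0 0 (step_sound _ 67 [(rh25e4b98dc1c0e947.shift 0 1), (rh4f4c4c1027c971e0.shift 2 0), (rh6a3ba3a6fd570301.shift 3 0), rh72b06522cc100222] (by decide +kernel))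
noncomputable def rha72c8d850a604705 : CRef := CRef.mk (Pat.mk 0x400000004000000060000000e00000000 0xa0000000f0000003c0000000e0000003e00000030 7 6) 0 0 (step_sound _ 36 [rh4d9861521ee189dc, (rhf48373e13d2bc128.shift 1 1)] (by decide +kernel))
noncomputable def rhd10436d602f5ad6b : CRef := CRef.mk (Pat.mk 0x8000000080000000c0000000c 0x170000001f0000007a0000001f0000000c 7 7) 0 0 (step_sound _ 100 [(rh2f68792b6b779e96.shift 3 0), rhb1a9641e1c1e53f4] (by decide +kernel))
noncomputable def rhe29db3b2a7682218 : CRef := CRef.mk (Pat.mk 0x80000000e0000000400000004000000000 0x2000000020000000e7000000fe000001ff0000007800000010 7 9) 0 0 (step_sound _ 100 [(rh2198e04b50d0665a.shift 0 2), (rh232eab322b518542.shift 3 0), (rha03f6e28ea70fc7d.shift 3 2)] (by decide +kernel))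
noncomputable def rha50c650278077b73 : CRef := CRef.mk (Pat.mk 0x3800000018000000100000000000000000 0x1800000018000000380000003e0000001f0000000c0000000c 7 6) 0 0 (step_sound _ 163 [(rh2145e1d24b96a57e.shift 3 2), rhfe1dec8b8db647e1] (by decide +kernel))
noncomputable def rha1304125892595f8 : CRef := CRef.mk (Pat.mk 0x100000001c00000008000000080000000000000000 0x4000000040000001c0000001f0000007c000000f80000003000000010 7 8) 0 0 (step_sound _ 100 [(rh3ce9bda712329b1c.shift 2 0), (rh6292bd8784ece55f.shift 1 3), rh669f7a664ff577c4] (by decide +kernel))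
noncomputable def rhf3d22785108fe672 : CRef := CRef.mk (Pat.mk 0x180000000e00000004000000040000000000000000 0x400000006000000160000001e0000001e0000003e0000003f0000001a00000018 7 6) 0 0 (step_sound _ 193 [(rha3385596c878255a.shift 0 1), (rhb9c18b5acde8ff5b.shift 1 0), (rhf4bcdf19b6922e31.shift 1 2)] (by decide +kernel))
noncomputable def rh102f8b4e60bc45ca : CRef := CRef.mk (Pat.mk 0x180000000c000000000000000000000000 0x8000000080000001f0000003f0000007f0000001400000014 7 7) 0 0 (step_sound _ 97 [(rh53b3c253cb0c65f4.shift 0 3), rhe7b2d19496b2c25e] (by decide +kernel))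
noncomputable def rh48ad74e1bdc00b08 : CRef := CRef.mk (Pat.mk 0x10000000380000001c0000000000000000 0x2800000028000000780000003e0000001c0000001f0000000c 7 7) 0 0 (step_sound _ 35 [rh230a2cf0e0a5aeec, (rh71222050f2c63a3a.shift 3 0)] (by decide +kernel))
noncomputable def rha2be8d18c9bb24c5 : CRef := CRef.mk (Pat.mk 0xc000000060000000200000000 0x180000001c0000001c0000000c0000007e0000007f00000018 7 7) 0 0 (step_sound _ 130 [(rh5c5e593799055d58.shift 1 1), rh861a62bc242d9901] (by decide +kernel))
noncomputable def rhcd819379b8e781d7 : CRef := CRef.mk (Pat.mk 0x180000001c0000000400000004000000000000000000000000 0x1000000030000000300000003f0000001c0000003f00000037000000320000000200000002 7 6) 0 0 (step_sound _ 97 [(rh6f0b420a43dc858d.shift 0 2), (rhaa19237f86ec600e.shift 0 2), (rhfafeb437ceb8396d.shift 1 0)] (by decide +kernel))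
noncomputable def rh0b27aff3c29a8c94 : CRef := CRef.mk (Pat.mk 0x600000003800000010000000100000000000000000 0x1000000018000000580000007800000078000000f70000007e000000ef00000060 7 8) 0 0 (step_sound _ 67 [(rh4cc620b3a3687ee3.shift 0 1), (rh83f1b5efda06e53f.shift 2 0), (rh9ac3f78ef71b8df5.shift 3 1), (rhade22b3e008761f2.shift 3 1), rhafa02a75cfb03a91] (by decide +kernel))
noncomputable def rh9cd802500971df0a : CRef := CRef.mk (Pat.mk 0x180000000e000000280000000000000000 0x18000000fe0000006f0000003c0000001c 7 8) 0 0 (step_sound _ 100 [(rh1e42cdaa2b8276ac.shift 1 2), (rh469fc8b8848478d7.shift 2 0), rh760d8e2c575b743b, rh8ad692101900c06f, (rhb5ed5ce4f6e64c8a.shift 2 2)] (by decide +kernel))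
noncomputable def rh56b9994ef146c5d3 : CRef := CRef.mk (Pat.mk 0x180000000e000000180000000000000000 0x14000000340000001f0000003e0000001f0000003200000010 7 6) 0 0 (step_sound _ 100 [rh1e1fdd334f5b3198, (rh4a59be183f8e90a1.shift 0 1), (rh98bfe017ab5fead7.shift 0 2)] (by decide +kernel))
noncomputable def rh016eec3ed0a5c51f : CRef := CRef.mk (Pat.mk 0x300000001800000018000000000000000800000000 0x300000001f000000ff000000e70000000c0000000c 7 8) 0 0 (step_sound _ 98 [(rh87fb4af8316b9600.shift 0 3), (rh9dceb27c4b913b12.shift 1 0), (rhfbafae97a595971a.shift 0 2)] (by decide +kernel))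
noncomputable def rh3ae431563445e18c : CRef := CRef.mk (Pat.mk 0x300000001c000000080000000000000000 0x8000000780000001c0000000f0000003c0000001c 7 7) 0 0 (step_sound _ 131 [(rh18965a982d73c794.shift 2 3), rh72b06522cc100222] (by decide +kernel))
noncomputable def rh7c597b7657ccaf3d : CRef := CRef.mk (Pat.mk 0x30000000180000001800000000 0x8000000780000001f000000ff000000e7 7 8) 0 0 (step_sound _ 34 [(rh87fb4af8316b9600.shift 0 1), (rhb02c4ed86b7615fe.shift 1 0), rhfbafae97a595971a] (by decide +kernel))
noncomputable def rh5000267ab24b42b7 : CRef := CRef.mk (Pat.mk 0x180000000c000000040000000000000000 0x4000000040000003c0000000f0000000e0000000e00000006 7 6) 0 0 (step_sound _ 97 [(rh53b3c253cb0c65f4.shift 0 3), (rh9effbfbbcc50df23.shift 1 0)] (by decide +kernel))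
noncomputable def rha675ee985195adce : CRef := CRef.mk (Pat.mk 0x180000001c000000000000000000000000 0x10000000340000001f0000007c0000000e0000000c0000000c 7 7) 0 0 (step_sound _ 130 [(rh79b3c29022acbdf3.shift 1 3), (rh8d364617c03d6975.shift 0 1), (rhee25b84a7ad1d950.shift 1 0)] (by decide +kernel))
noncomputable def rh90fadcd1817c0569 : CRef := CRef.mk (Pat.mk 0xc0000000e000000000000000000000000 0x8000000080000001f0000007e000000370000001400000010 7 7) 0 0 (step_sound _ 100 [rh32e22e50afcba7d8, (rh8a88abf038d31fd2.shift 0 2), (rhe3060b190bc0bc78.shift 0 3)] (by decide +kernel))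
noncomputable def rhadcfb6bf23f31977 : CRef := CRef.mk (Pat.mk 0x600000007000000000000000000000000 0xe0000000f0000003c0000000e000000070000001e0000000e00000004 7 6) 0 0 (step_sound _ 162 [(rh1e309b005ffa1b36.shift 1 1), rh801c2d845ee20048, (rhdceb5e6cd223697b.shift 0 2)] (by decide +kernel))
noncomputable def rheff7449ef4f23c1a : CRef := CRef.mk (Pat.mk 0x80000001c000000080000000800000000 0x40000000f0000001c0000003c0000001f00000017 7 6) 0 0 (step_sound _ 130 [(rh50fbb5868c909700.shift 2 1), rh7611979493a4847b] (by decide +kernel))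
noncomputable def rhe52e21eba5e4acdb : CRef := CRef.mk (Pat.mk 0x600000004000000060000000600000000 0x80000000f0000003c0000000e0000003e00000038 7 6) 0 0 (step_sound _ 131 [(rh2f68792b6b779e96.shift 2 1), rhdd3e8b7b4c506bf2] (by decide +kernel))
noncomputable def rh30aa437fd9644dc5 : CRef := CRef.mk (Pat.mk 0x100000001000000018000000080000000000000000 0x14000001f6000000fe000001ef0000002800000028 7 9) 0 0 (step_sound _ 35 [rh228e7d41bded17d5, (rh71222050f2c63a3a.shift 3 0)] (by decide +kernel))
noncomputable def rh5f68fa1fd880e35d : CRef := CRef.mk (Pat.mk 0x1e000000080000000000000000 0x4000000040000003e0000003f0000003300000002 7 6) 0 0 (step_sound _ 65 [rh80aebd4b54e96e5c, (rheb0810cc63b001d8.shift 0 2)] (by decide +kernel))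
noncomputable def rh99eb19db80a658cf : CRef := CRef.mk (Pat.mk 0xc0000001c000000080000000000000000 0x100000001c0000001f0000003b0000000f0000000e 7 6) 0 0 (step_sound _ 35 [(rh7b1f1fb55310c477.shift 2 0), rhf41c48fa5922cdbb] (by decide +kernel))
noncomputable def rhfd4d043292ee9723 : CRef := CRef.mk (Pat.mk 0x1c000000180000000000000000 0x4000000040000003f0000001f0000003300000002 7 6) 0 0 (step_sound _ 97 [rh263a6dc0b917e0a6, (rhb739f4f82bb681b4.shift 0 2)] (by decide +kernel))
noncomputable def rhc231f991f0ca0d0a : CRef := CRef.mk (Pat.mk 0xe0000001c000000000000000000000000 0x80000001c0000003c0000000e0000001c000000380000001f0000001c 7 6) 0 0 (step_sound _ 67 [rh0eb1d62610945562, (rh1c85c2a954ec6b48.shift 1 2), (rhfc7c29d8e65d775f.shift 2 1)] (by decide +kernel))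
noncomputable def rh6d06daa84a7c7e44 : CRef := CRef.mk (Pat.mk 0x8000000180000003800000000 0x1c0000001c00000018000000180000003f00000064 7 7) 0 0 (step_sound _ 131 [(rh2145e1d24b96a57e.shift 3 1), rh30a57ec70c1e846b] (by decide +kernel))
noncomputable def rh13940216b29f4fd2 : CRef := CRef.mk (Pat.mk 0x3800000058000000000000000000000000 0x30000000380000003800000078000000ef0000007c0000005c 7 8) 0 0 (step_sound _ 67 [rh72b06522cc100222, (rh9358b6182fde97a7.shift 2 0), (rhea7a1800d6f053bd.shift 3 0)] (by decide +kernel))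
noncomputable def rhd3314e7359b304d7 : CRef := CRef.mk (Pat.mk 0x100000000e0000000000000000 0x400000004000000370000003e0000003300000002 7 6) 0 0 (step_sound _ 68 [(rh33e738c4ed385b9f.shift 1 2), rh77f8450846b645a0] (by decide +kernel))
noncomputable def rh93f3f90beb03fb07 : CRef := CRef.mk (Pat.mk 0xc00000007000000000000000000000000 0x200000006000000060000001e000000070000001f0000000f00000003 7 5) 0 0 (step_sound _ 129 [(rh18965a982d73c794.shift 0 3), rh7f8f6b92964d5635] (by decide +kernel))
noncomputable def rh20e928d584aa29ed : CRef := CRef.mk (Pat.mk 0x40000000c0000000e00000002000000000000000000000000 0x2000000060000000f0000003e0000007e0000003c0000001400000010 7 7) 0 0 (step_sound _ 99 [rh770a2a585d91b923, (rh7b1f1fb55310c477.shift 2 2)] (by decide +kernel))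
noncomputable def rh510861545d02c476 : CRef := CRef.mk (Pat.mk 0x8000000180000001c000000040000000000000000 0x40000000c0000001c0000001c0000007f0000001b00000018 7 7) 0 0 (step_sound _ 67 [(rh4053c12da95c0aa0.shift 3 0), (rhde17febc9c07d705.shift 0 1), (rhdf997f77704b6375.shift 2 0)] (by decide +kernel))
noncomputable def rh1428e568892da681 : CRef := CRef.mk (Pat.mk 0x3000000018000000100000000000000000 0x1000000010000000300000007e0000007f0000006f00000028 7 7) 0 0 (step_sound _ 98 [(rh53b3c253cb0c65f4.shift 1 3), rh908db6f891e2832e] (by decide +kernel))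
noncomputable def rhb965494aaef72010 : CRef := CRef.mk (Pat.mk 0x180000000c00000006000000040000000000000000 0x180000003c0000003e0000003e0000003b00000002 7 6) 0 0 (step_sound _ 132 [(rh18965a982d73c794.shift 1 3), rhdf5dcc9796bf92aa] (by decide +kernel))
noncomputable def rhb7a32037aeab14b8 : CRef := CRef.mk (Pat.mk 0x3800000030000000100000001000000000 0xf80000003c000001df000000fe000001ef 7 9) 0 0 (step_sound _ 35 [(rh932754581e0f4330.shift 3 0), rh94d8ccd87c6f4ad5] (by decide +kernel))
noncomputable def rhe354090eb2cccf47 : CRef := CRef.mk (Pat.mk 0x40000000c0000000400000004 0x4000000060000000e0000003e0000000f0000000600000004 7 6) 0 0 (step_sound _ 99 [(rh2f68792b6b779e96.shift 2 0), rhbdcf45b39658da01] (by decide +kernel))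
noncomputable def rh07043daeb8425d18 : CRef := CRef.mk (Pat.mk 0x200000002000000020000000200000000 0x500000007000000070000000200000002000000030000000700000005 7 3) 0 0 (step_sound _ 32 [rh3bc6606f5d748010, rh932754581e0f4330] (by decide +kernel))
noncomputable def rh7572f94c01b289d8 : CRef := CRef.mk (Pat.mk 0x1e0000000000000000 0x10000000300000003f0000003f0000000800000008 7 6) 0 0 (step_sound _ 100 [(rh33e738c4ed385b9f.shift 1 2), rh80b1bbc0c829553e] (by decide +kernel))
noncomputable def rh9beee629c0314ec2 : CRef := CRef.mk (Pat.mk 0x1e000000000000000000000000 0x4000000040000000f0000003f000000380000000800000008 7 6) 0 0 (step_sound _ 68 [rhc31f864c98680f5e, (rhe25b0a99195a5d59.shift 1 2)] (by decide +kernel))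
noncomputable def rh6eb15d75c51befbe : CRef := CRef.mk (Pat.mk 0x2000000060000000e0000000400000000 0xc0000000c0000000f0000003e0000000e0000003c00000018 7 6) 0 0 (step_sound _ 130 [rh10d099892b789c75, (rh5fa50b509d4ce753.shift 1 1), (rhd4b4beefcd67f51e.shift 2 0)] (by decide +kernel))
noncomputable def rh25f4f09dd2fa00df : CRef := CRef.mk (Pat.mk 0x3000000070000000200000000 0x60000000e0000001e00000007000000070000001e0000000c 7 5) 0 0 (step_sound _ 129 [rh3d304d32c3d9ab28, (rh5fa50b509d4ce753.shift 0 1), (rhd4b4beefcd67f51e.shift 1 0)] (by decide +kernel))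
noncomputable def rhca4bb1ba839f40ba : CRef := CRef.mk (Pat.mk 0x40000000e0000001c0000000000000000 0xa0000000b0000007f0000007e0000001c0000001800000008 7 7) 0 0 (step_sound _ 100 [(rh0ce26822ca0276aa.shift 0 1), (rh49a4155f66a88c37.shift 1 0), (rhe3060b190bc0bc78.shift 0 3)] (by decide +kernel))
noncomputable def rh904e90658e562274 : CRef := CRef.mk (Pat.mk 0xa0000000f0000000000000000000000000000000000000000 0xa0000000a0000000a0000000f0000001e0000001c0000001c0000001c00000004 7 5) 0 0 (step_sound _ 131 [(rh97df5f882a50f3de.shift 1 0), (rhe25b0a99195a5d59.shift 0 4)] (by decide +kernel))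
noncomputable def rha8a400b2e3d66a47 : CRef := CRef.mk (Pat.mk 0x20000000300000007000000000000000000000000 0xc0000001e00000007000000070000001e0000000e00000006 7 5) 0 0 (step_sound _ 65 [(rh3d304d32c3d9ab28.shift 0 1), rh820d4e04d5dcd02e, rha327c50ba1fc214e] (by decide +kernel))
noncomputable def rh2c690780c60c41d5 : CRef := CRef.mk (Pat.mk 0x280000001c000000000000000000000000 0xc0000000c0000000f0000007c0000001c000000180000001800000018 7 7) 0 0 (step_sound _ 132 [(rh18965a982d73c794.shift 2 3), rhb2ec91a2152e842a] (by decide +kernel))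
noncomputable def rhf2a0b57fd011c6aa : CRef := CRef.mk (Pat.mk 0x5a000000380000000000000000 0x18000000380000001f0000007b000000380000003000000010 7 7) 0 0 (step_sound _ 131 [(rh12a1589e620e16b0.shift 0 1), rh32ae5b462c22425c, (rh55a1f6c57a317ce6.shift 3 0)] (by decide +kernel))
noncomputable def rhc8987b3cc94d3a7b : CRef := CRef.mk (Pat.mk 0x2c0000001c0000000000000000 0x3c0000003c0000006f0000003c0000003c0000001800000018 7 7) 0 0 (step_sound _ 130 [(rh1a3a38a6fa23c3f3.shift 1 0), (rh3e595262c1b737ad.shift 2 1), (rh8c2640c009b1e3a1.shift 0 1)] (by decide +kernel))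
noncomputable def rhe8a1a725a29f290f : CRef := CRef.mk (Pat.mk 0x3000000070000000200000000 0x60000000e0000001e00000007000000070000001e0000000c 7 5) 0 0 (step_sound _ 129 [(rh5fa50b509d4ce753.shift 0 1), rha16f3b18d91770f3, (rhd4b4beefcd67f51e.shift 1 0)] (by decide +kernel))
noncomputable def rh9c45b8e6e2c72494 : CRef := CRef.mk (Pat.mk 0xe0000001c00000000 0x38000000380000007f0000007e0000001c00000010 7 7) 0 0 (step_sound _ 99 [(rh571950d89739e871.shift 2 0), (rh9f48e603e887f94a.shift 0 1)] (by decide +kernel))
noncomputable def rhb0f89923811db9e6 : CRef := CRef.mk (Pat.mk 0x780000003800000000 0x1c0000001f0000003c000000780000003800000020 7 7) 0 0 (step_sound _ 99 [(rh3244c3cc8379b070.shift 2 2), rh3d2a6472da9b64a7] (by decide +kernel))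
noncomputable def rhe81366dda0e030c5 : CRef := CRef.mk (Pat.mk 0x140000000e000000000000000000000000 0xa0000003b0000003f0000000e0000000c0000000c0000000c 7 6) 0 0 (step_sound _ 131 [(rh18965a982d73c794.shift 1 3), rh5dc20b8d4538a68c] (by decide +kernel))
noncomputable def rha6d348d10cd69891 : CRef := CRef.mk (Pat.mk 0xb0000000f00000000000000000000000000000000 0x140000001c0000001d0000000b0000000f0000001e0000001f0000001e00000010 7 5) 0 0 (step_sound _ 99 [rh1e9807f5b8b2578b, (rhe25b0a99195a5d59.shift 0 3)] (by decide +kernel))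
noncomputable def rh6f60eb08cd86e9ab : CRef := CRef.mk (Pat.mk 0x160000000e000000000000000000000000 0x10000000120000003b0000001e0000000e0000000c0000000c0000000c 7 6) 0 0 (step_sound _ 66 [(rh3cb04db3dd2b6a55.shift 1 0), (rh6493fe73b946fb14.shift 0 1), (rhe294ea383dc983d4.shift 1 0)] (by decide +kernel))
noncomputable def rhc782d825f08baf04 : CRef := CRef.mk (Pat.mk 0x18000000080000001c00000010 0x400000026000000fe000000ff0000001c00000010 7 8) 0 0 (step_sound _ 101 [(rh2820ca9a6c4f41b4.shift 0 2), (rh98f447d7106f60f2.shift 2 0), (rhc0d131f7ded4d94e.shift 1 0)] (by decide +kernel))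
noncomputable def rhb225947bb331c9a0 : CRef := CRef.mk (Pat.mk 0x40000000e000000080000000000000000 0x1800000018000000180000003c0000000e0000003c0000000f0000000e 7 6) 0 0 (step_sound _ 35 [rh5b5412608571c6cf, (rh7b1f1fb55310c477.shift 2 0)] (by decide +kernel))
noncomputable def rh2e69272ab30215dd : CRef := CRef.mk (Pat.mk 0x70000000e000000000000000000000000 0x40000000e0000001e000000070000000e0000003c0000000f0000000e 7 6) 0 0 (step_sound _ 66 [(rh1c85c2a954ec6b48.shift 0 2), (rh3cb04db3dd2b6a55.shift 1 0), rh7bf9f9b2f3f08994] (by decide +kernel))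
noncomputable def rhe2ef9a83f973e17c : CRef := CRef.mk (Pat.mk 0x100000003000000070000000200000000 0x60000001e0000001f0000001b0000000f0000000600000004 7 5) 0 0 (step_sound _ 129 [rh2e8a948bec17054c, (rh571950d89739e871.shift 0 1), (rh5fa50b509d4ce753.shift 0 1)] (by decide +kernel))
noncomputable def rhce5e1d4b93f4ab89 : CRef := CRef.mk (Pat.mk 0x4000000140000001e00000000 0xa0000003e0000003f000000140000001e00000034 7 6) 0 0 (step_sound _ 4 [rh1dab1a0e90908a59, (rhe25b0a99195a5d59.shift 1 0)] (by decide +kernel))
noncomputable def rh7175503ca809160d : CRef := CRef.mk (Pat.mk 0x8000000280000001800000000 0x40000003c0000007c0000001f000000380000001800000008 7 7) 0 0 (step_sound _ 131 [rh59c6c9d9132801ae, (rh5bd4bc0c2c48140c.shift 2 1), (rhec6a930a8883144a.shift 1 0)] (by decide +kernel))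
noncomputable def rh6f1e6f2b5c1dbde3 : CRef := CRef.mk (Pat.mk 0x200000002000000070000000400000001000000000 0x50000000f00000003e000000fe000000670000003000000030 7 8) 0 0 (step_sound _ 99 [(rh0ffdeaaa150f2828.shift 2 0), (rh53691b023cbbb373.shift 2 0), (rh7d5bf828111ca202.shift 1 2), (rhd36da432537ba706.shift 0 2)] (by decide +kernel))
noncomputable def rh147f02371155d142 : CRef := CRef.mk (Pat.mk 0x80000001e000000100000001000000000 0x200000002000000170000001f0000003e0000001c0000001800000008 7 6) 0 0 (step_sound _ 129 [rh2fcfe62c50103cda, (rh3244c3cc8379b070.shift 0 3)] (by decide +kernel))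
noncomputable def rh3aa3894b3bbc618b : CRef := CRef.mk (Pat.mk 0x8000000070000000c000000000000000000000000 0xc0000000c0000001c0000000f0000000c000000180000001800000018 7 5) 0 0 (step_sound _ 131 [(rh200491c3f6e9f883.shift 2 0), (rh33e738c4ed385b9f.shift 0 4)] (by decide +kernel))
noncomputable def rh0744605a79a74fe9 : CRef := CRef.mk (Pat.mk 0x8000000040000000c000000000000000000000000 0xc0000000c0000000c0000000c0000003c0000000f0000000a 7 6) 0 0 (step_sound _ 66 [(rh4dec404a6c0e229a.shift 2 1), (rh5fcbac5b57173fc5.shift 2 1), rh87103801d59f4ace] (by decide +kernel))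
noncomputable def rh892c135abec38fe8 : CRef := CRef.mk (Pat.mk 0x20000000300000002000000000000000000000000 0x10000000300000003000000030000000300000003000000070000000700000005 7 3) 0 0 (step_sound _ 193 [(rh03dfdf12d5937476.shift 0 2), rh47992774edf9829f, (rha77f215723363df0.shift 0 3)] (by decide +kernel))
noncomputable def rh51bff67cb6c0096f : CRef := CRef.mk (Pat.mk 0x8000000180000003000000000 0x4000000040000003c0000007f0000007e000000180000003800000020 7 7) 0 0 (step_sound _ 131 [(rh2145e1d24b96a57e.shift 3 1), rh7152b4525ee2017e] (by decide +kernel))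
noncomputable def rhd7cdd3b8a4749ac0 : CRef := CRef.mk (Pat.mk 0x1000000030000000e0000000000000000 0x2000000060000000e0000001f0000001b0000000f0000000600000006 7 5) 0 0 (step_sound _ 33 [rh4f5541688264df47, rh7b1f1fb55310c477] (by decide +kernel))
noncomputable def rh62bc1bcdf827715e : CRef := CRef.mk (Pat.mk 0x8000000080000003800000010000000000000000000000000 0x1000000010000001f70000007e000001f80000007c000000180000000c0000000c0000000c 7 9) 0 0 (step_sound _ 197 [(rh196cc96b99bfcd0e.shift 2 3), (rh727f56d8356846fe.shift 2 3), rh8874248995376170] (by decide +kernel))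
noncomputable def rh70b33c37ee549dc0 : CRef := CRef.mk (Pat.mk 0x100000001800000070000000000000000000000000 0xc000000ef000000fc000000380000007c000000f40000003000000020 7 8) 0 0 (step_sound _ 163 [(rh03e0febdeeffa1fc.shift 3 1), rh0be252359e29e14a, (rh3cb04db3dd2b6a55.shift 3 1)] (by decide +kernel))
noncomputable def rhfc21a22c55ae318c : CRef := CRef.mk (Pat.mk 0x400000006000000020000000800000000 0x4000000040000007c0000003e0000007b0000000800000008 7 7) 0 0 (step_sound _ 162 [rh07b63021ebbf206b, (rh5c5e593799055d58.shift 1 2)] (by decide +kernel))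
noncomputable def rh1b28938233f43bcc : CRef := CRef.mk (Pat.mk 0x180000000800000038000000000000000000000000 0x4000001e6000000fc000001ef00000038000000380000001000000010 7 9) 0 0 (step_sound _ 68 [(rh79ad7b82ec8c35e2.shift 3 0), (rhacf38d93acfcb0c8.shift 0 2), rhdb0f0fa9c55255f0] (by decide +kernel))
noncomputable def rh739abe12e3c641ac : CRef := CRef.mk (Pat.mk 0x10000000300000002000000020 0x20000000600000006e000000fe000000ff0000003e00000020 7 8) 0 0 (step_sound _ 99 [(rh4ca5dae25f5c14ff.shift 1 2), (rh75ea294132184f25.shift 2 2), (rha5161e3d84bdc3c7.shift 1 0), (rhdeca8db941583de2.shift 1 2), rhe662dab3c3251c44] (by decide +kernel))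
noncomputable def rh7ab2395139442bba : CRef := CRef.mk (Pat.mk 0x500000007000000020000000200000000 0x2000000020000001a0000001f0000000f0000001f0000001f0000001d 7 5) 0 0 (step_sound _ 129 [rh257cac3f88c56b7b, rh27fff1f9ab8f90a9, rhc6e3f3ecd5751d77, rhe5f1d6f0879cdb28] (by decide +kernel))
noncomputable def rhadab402d66e16943 : CRef := CRef.mk (Pat.mk 0x2000000020000000e00000014000000000000000000000000 0x180000001f0000001e0000000e0000003c000000180000001800000018 7 6) 0 0 (step_sound _ 99 [rh3517838f6e404d74, (rhf48373e13d2bc128.shift 1 3)] (by decide +kernel))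
noncomputable def rhc7ff26b93e62d7f0 : CRef := CRef.mk (Pat.mk 0x2000000020000000e0000001400000000 0x20000000380000003f0000003e0000001e0000003400000010 7 6) 0 0 (step_sound _ 68 [rhaf7e63adbfbf688b, (rhe25b0a99195a5d59.shift 1 1)] (by decide +kernel))
noncomputable def rh6130e915067ef285 : CRef := CRef.mk (Pat.mk 0x4000000040000001c0000002800000000 0x200000003b0000007e000000fc0000003c0000003c00000030 7 8) 0 0 (step_sound _ 100 [(rh4538f6fe848c3f81.shift 2 0), rh94d8b48966daa29f, (rha00c9fbd66487763.shift 1 0), (rhe1cc2d7ff43952cb.shift 1 1)] (by decide +kernel))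
noncomputable def rh5c360c2b24f35021 : CRef := CRef.mk (Pat.mk 0x38000000000000000000000000 0x20000000e00000007e000000ff0000001000000010 7 8) 0 0 (step_sound _ 66 [(rh32b020d2b557819b.shift 1 0), (rh4c5c51b0ae60cece.shift 0 2), (rh7aa4ea4a56007a94.shift 2 2)] (by decide +kernel))
noncomputable def rh187315b1ea1997ac : CRef := CRef.mk (Pat.mk 0x180000001c00000000 0x3800000038000000f80000001c0000001f00000030 7 8) 0 0 (step_sound _ 33 [(rh53b3c253cb0c65f4.shift 0 1), (rha6eab35ec4aee1b2.shift 1 0)] (by decide +kernel))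
noncomputable def rh3f2964fc48ac5d33 : CRef := CRef.mk (Pat.mk 0xc0000000e0000000300000000 0x1000000034000000ff0000003e0000000e0000000b00000001 7 8) 0 0 (step_sound _ 130 [rh25945e6c392f2346, (rh5c5e593799055d58.shift 1 1)] (by decide +kernel))
noncomputable def rh3c5fde7595549a6d : CRef := CRef.mk (Pat.mk 0x200000007000000018000000100000000000000000 0x40000000f00000007f000000f80000003c0000002800000008 7 8) 0 0 (step_sound _ 131 [(rhc24145a149bfa710.shift 2 0), (rhc6f8b44da755dc85.shift 0 3), (rhec46bd5500c722c9.shift 2 4)] (by decide +kernel))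
noncomputable def rha4f9b734d1cdaf61 : CRef := CRef.mk (Pat.mk 0x2000000020000000200000002000000000000000000000000 0x500000007000000060000000200000002000000070000000700000005 7 3) 0 0 (step_sound _ 194 [rh168c7eab4c98eefe, (rh2f68792b6b779e96.shift 1 3)] (by decide +kernel))
noncomputable def rh4e61ec4e66d3e28e : CRef := CRef.mk (Pat.mk 0x4000000070000000c0000000000000000000000000000000000000000 0xa0000001e000000070000000c0000000e0000000e0000000e0000000e00000008 7 5) 0 0 (step_sound _ 130 [(rh4017de503635a93b.shift 0 4), (rhe286c75f2739cce2.shift 1 3), (rhe91bbc81f0de2ec1.shift 1 0)] (by decide +kernel))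
noncomputable def rh58506edde0552dba : CRef := CRef.mk (Pat.mk 0xc00000038000000080000000000000000 0x38000000f80000003c000000380000001f0000000c0000000c 7 8) 0 0 (step_sound _ 132 [rhaf10d9b96b28ff65, (rhbf6f0bc8764df428.shift 1 1), (rhea7a1800d6f053bd.shift 3 0)] (by decide +kernel))
noncomputable def rh2af3dcb5c8a158ca : CRef := CRef.mk (Pat.mk 0x8000000380000000800000000 0x140000001c0000001c00000008000000380000001f00000014 7 6) 0 0 (step_sound _ 131 [rh0023b7a2ba1fbedc, (rhd4b4beefcd67f51e.shift 3 0), (rhfbf2eae4035425b6.shift 1 0)] (by decide +kernel))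
noncomputable def rhc66d3f7f6daad7ee : CRef := CRef.mk (Pat.mk 0x1400000038000000000000000000000000 0xc0000000c0000000c0000001c0000007c0000000f0000000c0000000c 7 7) 0 0 (step_sound _ 131 [rh6c3c322346faebb6, (rhf48373e13d2bc128.shift 2 3)] (by decide +kernel))
noncomputable def rhcad43349b1219da2 : CRef := CRef.mk (Pat.mk 0x2000000020000000700000000000000000 0x18000000180000003f0000007c000000f80000001800000018 7 8) 0 0 (step_sound _ 100 [(rh3dcbad35de31d504.shift 3 0), rh77642ae559e58a6b, (rhe2b63c00a3d7bb73.shift 2 2)] (by decide +kernel))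
noncomputable def rh24886ddfb6abbd29 : CRef := CRef.mk (Pat.mk 0x40000000e0000000800000008000000000 0xe7000001fe000000ff000001e000000020 7 9) 0 0 (step_sound _ 100 [(rh1755b2f5b375c6f8.shift 3 0), (rh6765e7960b108c8d.shift 3 2), (rhf7943763ae823400.shift 0 2)] (by decide +kernel))
noncomputable def rh33cdb77eb5a4bdfe : CRef := CRef.mk (Pat.mk 0x80000003800000000 0x3c0000007f000000e7 7 8) 0 0 (step_sound _ 38 [(rh3244c3cc8379b070.shift 2 1), rhc6f1569af89f4e8e] (by decide +kernel))
noncomputable def rhf95edae998cea50e : CRef := CRef.mk (Pat.mk 0x3000000070000000c0000000000000000 0xf0000001f00000007000000070000000e0000000a00000002 7 5) 0 0 (step_sound _ 161 [(rh2145e1d24b96a57e.shift 1 2), rhdc9ca97282fe2120] (by decide +kernel))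
noncomputable def rh23b11706fd874c3e : CRef := CRef.mk (Pat.mk 0x60000000c000000180000000000000000 0xa0000000e0000000c0000001c0000001f0000001e 7 5) 0 0 (step_sound _ 35 [(rh7b1f1fb55310c477.shift 2 0), rh8ee3ac1471aaf617] (by decide +kernel))
noncomputable def rh030594766826155b : CRef := CRef.mk (Pat.mk 0x40000001e00000012000000000000000000000000 0xc0000000c0000001c0000001e0000001a0000007e0000001f00000008 7 7) 0 0 (step_sound _ 33 [rh0d182310bd616a52, (rh9e3edb185cc347de.shift 1 1)] (by decide +kernel))
noncomputable def rhce01b97c0e4c1760 : CRef := CRef.mk (Pat.mk 0x40000000e00000018000000000000000000000000 0x80000000c0000000e0000001f0000003f0000003e00000010 7 6) 0 0 (step_sound _ 67 [(rh7b1f1fb55310c477.shift 2 1), rhea641c077f5c0081] (by decide +kernel))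
noncomputable def rh240d91d7c7d65ea5 : CRef := CRef.mk (Pat.mk 0x20000000600000002000000000000000000000000 0x50000000700000007000000060000000600000006000000060000000600000002 7 3) 0 0 (step_sound _ 65 [(rha087c6594f4bfb59.shift 0 1), (rha707fb719e87fe6e.shift 1 1), (rhf54eb268e673aa4b.shift 1 0)] (by decide +kernel))
noncomputable def rh667f1caecc84c768 : CRef := CRef.mk (Pat.mk 0x7800000000 0x770000007e0000006e 7 7) 0 0 (step_sound _ 2 [rh22253cc2ecdeed10, (rh80fcd6d0a18cb2dd.shift 2 0)] (by decide +kernel))
noncomputable def rh0a81a76d44da5068 : CRef := CRef.mk (Pat.mk 0xf00000000000000000000000000000000 0x40000000c0000001c0000000f0000001c0000001c0000001c00000014 7 5) 0 0 (step_sound _ 163 [rh086043eb0000f414, (rh33e738c4ed385b9f.shift 0 4)] (by decide +kernel))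
noncomputable def rh450d5d668a9fa643 : CRef := CRef.mk (Pat.mk 0x180000000800000038000000000000000000000000 0x1e40000007c0000002f000000380000003e0000001c00000010 7 9) 0 0 (step_sound _ 68 [(rh4d286a13f85ebb94.shift 1 1), (rh79ad7b82ec8c35e2.shift 3 0), rhdb0f0fa9c55255f0] (by decide +kernel))
noncomputable def rh204f57ff142cb424 : CRef := CRef.mk (Pat.mk 0x40000001c000000080000000000000000 0x10000000180000001c0000003c0000003f0000000f0000000e 7 6) 0 0 (step_sound _ 35 [(rh7b1f1fb55310c477.shift 2 0), rh87f0a84a34a9ca10] (by decide +kernel))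
noncomputable def rh92ff7e6f4437a304 : CRef := CRef.mk (Pat.mk 0x100000001000000070000000300000000 0x60000000700000007000000070000001f0000001d 7 5) 0 0 (step_sound _ 129 [(rh2f68792b6b779e96.shift 0 1), rhaed9419fda2f116a] (by decide +kernel))
noncomputable def rha1c777c6816ac5d0 : CRef := CRef.mk (Pat.mk 0x18000000080000000c00000004 0x2400000024000001f7000000fe000000fc0000004c00000004 7 9) 0 0 (step_sound _ 101 [rh572ca676b7f40e2d, (rhd87b4f8c6f0ee2c4.shift 2 1), (rhdc1641106d7e5aa2.shift 2 2), (rhe1212ae42aa40364.shift 2 1), (rhf0b6b30d77c8fe17.shift 2 1)] (by decide +kernel))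
noncomputable def rh374c7a28405d898d : CRef := CRef.mk (Pat.mk 0x100000001a00000008000000080000000000000000 0x2a0000003a0000003b0000001f0000007e0000007600000014 7 7) 0 0 (step_sound _ 98 [(rh14fc1a52bdde6e0b.shift 1 0), (rh1882a63a3ded37b1.shift 0 3), rh8dbdb3fbddf7f6a7] (by decide +kernel))
noncomputable def rh8dc020cb26c17d92 : CRef := CRef.mk (Pat.mk 0x180000000c0000000000000000 0xc0000001c0000001f0000007c0000001c0000000c00000008 7 7) 0 0 (step_sound _ 101 [(rh18965a982d73c794.shift 2 2), rh69939f524559ea81] (by decide +kernel))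
noncomputable def rh28b9e33f7d59db1b : CRef := CRef.mk (Pat.mk 0x200000003e000000020000000000000000 0x40000000c0000002c0000007f0000003a0000001800000010 7 7) 0 0 (step_sound _ 68 [rh9f2a6816a64448ca, (rhe25b0a99195a5d59.shift 1 2)] (by decide +kernel))
noncomputable def rh725d0a595efdab2e : CRef := CRef.mk (Pat.mk 0x100000001a000000080000000000000000 0xc0000001e0000003f0000000f0000003e0000001c 7 6) 0 0 (step_sound _ 35 [rh1f88dd8190035238, (rh71222050f2c63a3a.shift 3 0)] (by decide +kernel))
noncomputable def rh9c87301f6fce0534 : CRef := CRef.mk (Pat.mk 0x100000001a000000080000000000000000 0x14000000140000001e0000003f0000001f0000000200000002 7 6) 0 0 (step_sound _ 164 [(rh5c5e593799055d58.shift 3 2), rh7628628bab87b9d7] (by decide +kernel))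
noncomputable def rh604990696d2bb565 : CRef := CRef.mk (Pat.mk 0x100000001a00000008000000080000000000000000 0x2e0000003e0000003b0000001f0000007e0000003400000014 7 7) 0 0 (step_sound _ 98 [(rh1882a63a3ded37b1.shift 0 3), rh6e223a0ec0eeae85, rh8dbdb3fbddf7f6a7] (by decide +kernel))
noncomputable def rh1cee3ab409879a9e : CRef := CRef.mk (Pat.mk 0x10000000100000001a0000000a000000000000000000000000 0xc0000000c0000003e0000001e0000001b0000000f000000060000000400000004 7 6) 0 0 (step_sound _ 98 [(rh53b3c253cb0c65f4.shift 0 3), rh57b6d3b774fb4785] (by decide +kernel))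
noncomputable def rhaa5169ff3b13091a : CRef := CRef.mk (Pat.mk 0x40000003c000000000000000000000000 0x80000000c0000000c0000000c0000007f0000003c0000001800000018 7 7) 0 0 (step_sound _ 131 [rh189a23078f11f5b0, (rhf48373e13d2bc128.shift 2 3)] (by decide +kernel))
noncomputable def rhb3e5d41b081ac37e : CRef := CRef.mk (Pat.mk 0x4000000080000000a0000000a00000000000000000000000000000000 0x40000000e0000000e0000000a0000000a000000070000000700000005 7 4) 0 0 (step_sound _ 194 [rh648e4b160e405460, (rh7b1f1fb55310c477.shift 2 3)] (by decide +kernel))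
noncomputable def rh8b991d03e6585095 : CRef := CRef.mk (Pat.mk 0x80000000a00000008000000000000000000000000 0x140000001f0000003b000000080000001c0000001c00000014 7 6) 0 0 (step_sound _ 67 [(rhb1b6ad3b5ec8f4e1.shift 2 0), (rhcab3157f7bdcba3e.shift 2 0), (rhdee4e889186bfb4a.shift 0 1)] (by decide +kernel))
noncomputable def rh880ac1947ee1c339 : CRef := CRef.mk (Pat.mk 0x4000000040000000c00000000 0xe0000000f0000003c0000000c0000000c0000000c 7 6) 0 0 (step_sound _ 130 [(rh55afc6a59410cf00.shift 2 0), rh94b0bed3e14f231a] (by decide +kernel))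
noncomputable def rh27a0df5af4931407 : CRef := CRef.mk (Pat.mk 0x1e0000000c000000000000000000000000 0x180000001b0000001e0000003c0000007c0000003c0000000c 7 7) 0 0 (step_sound _ 100 [rh00467b73770fa53e, (rhf48373e13d2bc128.shift 1 3)] (by decide +kernel))
noncomputable def rheb130ddb7a810a23 : CRef := CRef.mk (Pat.mk 0x6800000008 0xe7000000ff0000001c 7 8) 0 0 (step_sound _ 36 [(rheb0810cc63b001d8.shift 2 0), rhf733c2a41d57dd22] (by decide +kernel))
noncomputable def rh9949a5703d27135a : CRef := CRef.mk (Pat.mk 0x600000006000000000000000000000000 0x30000000f0000003f0000000700000006000000060000000600000006 7 6) 0 0 (step_sound _ 65 [(rh84d1c02a8954c6a8.shift 1 1), (rhb7524f637b9b0ca3.shift 0 1), rhfa81b83d81e664e4] (by decide +kernel))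
noncomputable def rh8302d2fe2a79ca1f : CRef := CRef.mk (Pat.mk 0xc0000000700000000000000000000000000000000 0xa0000000e0000000e0000000c000000070000003e0000000f0000000e0000000a 7 6) 0 0 (step_sound _ 98 [(rh049cfc7ce67f5f53.shift 0 2), rh3f069944e50c0cbf, (rhbfcaf333e353a827.shift 1 2), (rhd1fd8cf6458d03f9.shift 0 1), (rheb5cf6be9daf210b.shift 0 1), (rhffb8e5993241bf15.shift 1 0)] (by decide +kernel))
noncomputable def rh0b1d514b62566d1b : CRef := CRef.mk (Pat.mk 0x40000000680000002800000020000000000000000000000000 0x20000000300000003000000070000000680000006f000000fc000000de0000001400000014 7 8) 0 0 (step_sound _ 100 [rh6144ebd877bbe462, rh68eda91374d50789, rh88e59f609f03d8f7, (rh9a90cab755c9a8a7.shift 1 2), (rh9ac3f78ef71b8df5.shift 4 2)] (by decide +kernel))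
noncomputable def rha98baae81e2cebf0 : CRef := CRef.mk (Pat.mk 0x80000000c00000004000000000000000000000000 0x1f0000001f0000003c0000000c0000000c000000180000001800000018 7 6) 0 0 (step_sound _ 195 [(rh5c5e593799055d58.shift 2 3), rhaa74b54f6d4da885] (by decide +kernel))
noncomputable def rhd1deaff4f9748d20 : CRef := CRef.mk (Pat.mk 0x40000003c000000000000000000000000 0x80000000c0000000c0000000c0000007f0000003c0000001800000018 7 7) 0 0 (step_sound _ 131 [rha4e822fc56c110cb, (rhf48373e13d2bc128.shift 2 3)] (by decide +kernel))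
noncomputable def rhd51e82fef0636cd6 : CRef := CRef.mk (Pat.mk 0xc00000007000000010000000000000000 0x1c0000000f0000001f0000001e0000001c 7 5) 0 0 (step_sound _ 99 [(rh33e738c4ed385b9f.shift 0 3), rh6bf252b59e461970] (by decide +kernel))
noncomputable def rha9bba33727ebe867 : CRef := CRef.mk (Pat.mk 0x2000000060000000200000000000000000000000000000000 0x1000000030000000300000003000000070000000700000003000000070000000700000004 7 3) 0 0 (step_sound _ 224 [(rh0dbc8abee7ad42d4.shift 0 3), (rh25bd75cf3e017766.shift 0 3), rhb924b9c6aabed5c6] (by decide +kernel))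
noncomputable def rh39816bd275a8c33c : CRef := CRef.mk (Pat.mk 0x100000001a0000000a000000000000000000000000 0x3000000030000000300000003b0000001e000000300000003000000030 7 6) 0 0 (step_sound _ 196 [(rh5c5e593799055d58.shift 3 3), rhb1581db069832897] (by decide +kernel))
noncomputable def rhc8a13df176551c12 : CRef := CRef.mk (Pat.mk 0x100000001a0000000a0000000000000000 0xc0000000c0000000c000000180000003b0000001e0000003c0000001c 7 6) 0 0 (step_sound _ 35 [(rh71222050f2c63a3a.shift 3 0), rh9482f13f5bcc05e5] (by decide +kernel))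
noncomputable def rh24a78261ca0e2445 : CRef := CRef.mk (Pat.mk 0x8000000180000000200000010 0x140000001c0000001e00000078000000380000001f0000003c 7 7) 0 0 (step_sound _ 35 [rh7b8c267e840efa16, (rh88a9578416d94e0e.shift 1 0), rhe0dec116d57544aa] (by decide +kernel))
noncomputable def rh1e413df48b4b0465 : CRef := CRef.mk (Pat.mk 0x2000000020000000600000000 0x4000000070000000700000003000000030000000700000007 7 3) 0 0 (step_sound _ 129 [rh15b06da94cf9137e, (rh55afc6a59410cf00.shift 1 0)] (by decide +kernel))
noncomputable def rhf8cbe765fe6fad03 : CRef := CRef.mk (Pat.mk 0x80000001a000000020000000000000000 0x140000001c0000001c0000001c0000003b0000001f0000001c00000008 7 6) 0 0 (step_sound _ 67 [(rh0fe9fa7db1515f92.shift 2 0), (rh60a781551e50bc18.shift 0 2), (rhe0dec116d57544aa.shift 0 1)] (by decide +kernel))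
noncomputable def rhf86286d58174b205 : CRef := CRef.mk (Pat.mk 0x1000000034000000040000000000000000 0xa0000000e0000001e0000003f00000076000000060000000600000002 7 7) 0 0 (step_sound _ 130 [rh01b3c1357dc39fe6, (rh052037c23179916b.shift 1 3), (rh46990448042cc692.shift 1 1), (rhd946de83b99086da.shift 1 1)] (by decide +kernel))
noncomputable def rhabb2693bfbd5f554 : CRef := CRef.mk (Pat.mk 0x1a0000000300000000000000000000000000000000 0x500000007000000070000000f0000001b0000000300000003000000070000000700000004 7 5) 0 0 (step_sound _ 193 [(rh281c6819542c66e6.shift 0 1), (rh7a7e08304268422e.shift 0 3), (rh852eadb4da3f1beb.shift 0 3), rh9d7427a623ba0d2f, (rhbbf076d3d71c4c1a.shift 0 3)] (by decide +kernel))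
noncomputable def rhe22119737b9ba021 : CRef := CRef.mk (Pat.mk 0x1a0000000a000000000000000000000000 0xe0000000f0000001a0000000f0000000e0000000400000004 7 5) 0 0 (step_sound _ 98 [rh05d04936b4a5e493, (rh53b3c253cb0c65f4.shift 0 3)] (by decide +kernel))
noncomputable def rh0afe03c8f0b0ca47 : CRef := CRef.mk (Pat.mk 0x30000001a0000000200000000000000000000000000000000 0x40000000f0000001b0000000200000002000000070000000700000005 7 5) 0 0 (step_sound _ 194 [rh85e093005b2e6cc1, (rhd6e447e81774439e.shift 0 5)] (by decide +kernel))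
noncomputable def rh07882016f9a26e35 : CRef := CRef.mk (Pat.mk 0x20000001a0000000600000000 0x5000000070000000700000002000000020000001b0000000f00000001 7 5) 0 0 (step_sound _ 32 [(rh3fc040e777f1679e.shift 0 1), rha6dfe1edc6ae80dd] (by decide +kernel))
noncomputable def rha2083e399ed7e490 : CRef := CRef.mk (Pat.mk 0x20000001a0000000600000000 0x140000001c0000001c0000001f0000003b0000000f00000004 7 6) 0 0 (step_sound _ 35 [(rh53b3c253cb0c65f4.shift 0 1), rhc5d0582f73dc4e79] (by decide +kernel))
noncomputable def rh4599fb45e22e642b : CRef := CRef.mk (Pat.mk 0x1a000000080000000800000000 0xc0000001c0000001c0000001f0000001b000000180000001800000010 7 5) 0 0 (step_sound _ 131 [(rh25208373db83e521.shift 3 0), (rh5abfc4c9d959be03.shift 2 0), (rh6132a70967ffabf6.shift 0 1), (rhdb457e0fcd7358da.shift 2 0)] (by decide +kernel))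
noncomputable def rhdcc1d4a42750235b : CRef := CRef.mk (Pat.mk 0x80000001a0000000200000000000000000000000000000000 0x40000001c0000001c0000001c0000001e0000001b0000001e0000001e000000160000000400000004 7 5) 0 0 (step_sound _ 227 [(rh4e64b7e82c9211af.shift 2 4), (rh70e33bfdf511e144.shift 3 2), rh9a26806a85fc71b4, (rh9b8f7cfaa987950d.shift 2 2)] (by decide +kernel))
noncomputable def rh8c513f794dbc10f1 : CRef := CRef.mk (Pat.mk 0x4000000040000000c00000000 0x20000001e0000003e0000000f0000000c0000000c00000004 7 6) 0 0 (step_sound _ 130 [(rh00c644645561e9be.shift 1 0), (rh5bd4bc0c2c48140c.shift 1 1), rha3efcb708b50b020] (by decide +kernel))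
noncomputable def rhb8d81f30b3595329 : CRef := CRef.mk (Pat.mk 0xa0000001a00000002000000000000000000000000 0x1d0000000f0000001e0000001a00000012000000070000000700000005 7 5) 0 0 (step_sound _ 194 [rh225b902af6311e9d, rh984bfc6de6c2c524, (rhb65bd434105da3a1.shift 0 3)] (by decide +kernel))
noncomputable def rh322d5241f316bb74 : CRef := CRef.mk (Pat.mk 0x40000000d0000000100000000000000000000000000000000 0x20000000e0000000e0000000f0000003d0000001d0000000f0000000f0000000b0000000200000002 7 6) 0 0 (step_sound _ 226 [rh39421cb5a82fefcc, (rh4e64b7e82c9211af.shift 1 4), (rh70e33bfdf511e144.shift 2 2), rh8a1e2eee9cc6d209, (rhae88f600f33b586c.shift 1 4)] (by decide +kernel))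
noncomputable def rhc6cb77ba2652da94 : CRef := CRef.mk (Pat.mk 0x80000001a00000002000000000000000000000000 0x500000017000000370000001f0000003b0000000e0000000f0000000700000005 7 6) 0 0 (step_sound _ 161 [(rh052037c23179916b.shift 0 4), rh9b320d1cf11ff356, rhf1d1ac747eec4e14, (rhf3fa58c3dfb2e0e4.shift 1 2)] (by decide +kernel))
noncomputable def rhcc5228cac7d713d3 : CRef := CRef.mk (Pat.mk 0x80000000c000000050000000000000000 0x400000006000000060000000e0000001c0000000f0000001e0000003e 7 6) 0 0 (step_sound _ 34 [rh68a5b6287ab53bb5, (rh71222050f2c63a3a.shift 2 0)] (by decide +kernel))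
noncomputable def rhadec217e8c1fd67c : CRef := CRef.mk (Pat.mk 0x8000000680000000800000000 0x1c0000007c0000003c000000ff000000ec0000004c00000004 7 8) 0 0 (step_sound _ 101 [(rh052037c23179916b.shift 2 2), rh1fca12a0640f3a5e, (rh838d200559159a0a.shift 2 0), (rhdad194b419f37ccc.shift 2 1)] (by decide +kernel))
noncomputable def rh34b05d289fc205cb : CRef := CRef.mk (Pat.mk 0x180000000a000000080000000000000000 0x1c000000ff0000007f0000003000000030 7 8) 0 0 (step_sound _ 98 [(rh53b3c253cb0c65f4.shift 0 3), rhec426d87a90b7cfe] (by decide +kernel))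
noncomputable def rhdd9bad683f4fb5ba : CRef := CRef.mk (Pat.mk 0x300000001c000000100000000000000000 0x1000000010000000780000001c0000007c0000002f0000000c 7 7) 0 0 (step_sound _ 131 [(rh18965a982d73c794.shift 2 3), rh9dae6ccd17fa7b61] (by decide +kernel))
noncomputable def rhdce6af0b73c865eb : CRef := CRef.mk (Pat.mk 0x80000001c00000005000000040000000000000000 0x140000001c0000001c0000003f0000000f0000000a00000008 7 6) 0 0 (step_sound _ 99 [(rh24ae073cf30720c4.shift 0 3), rh61f0c6ef3c1361e7] (by decide +kernel))
noncomputable def rh6dbd322ad4f0e58c : CRef := CRef.mk (Pat.mk 0x80000001c000000050000000400000000 0x240000007c0000001e000000170000003e0000001a 7 7) 0 0 (step_sound _ 65 [rha4993cf8c7076df9, (rhca9569cc80abfe76.shift 0 2)] (by decide +kernel))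
noncomputable def rh95aae35400aa6322 : CRef := CRef.mk (Pat.mk 0x80000001c000000040000000400000000 0x3000000030000000740000007f0000001e0000003c0000002f0000000a 7 7) 0 0 (step_sound _ 132 [rh9d5036d7db97d665, rha5b1740ebccaaa10, (rhf9d36e158778ce35.shift 1 3)] (by decide +kernel))
noncomputable def rh42a8369cffae62e9 : CRef := CRef.mk (Pat.mk 0x10000000180000000a0000001800000000 0x28000000f80000003c000000fb000000ff00000024 7 8) 0 0 (step_sound _ 133 [rh0dcdf444ef1bf8e0, (rh2ebd835ad6236ef2.shift 2 0), (rh3a020e182dfd1d54.shift 2 3)] (by decide +kernel))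
noncomputable def rh918a873a530542eb : CRef := CRef.mk (Pat.mk 0x10000000180000000a0000001800000000 0x18000000380000006b0000003e00000077 7 7) 0 0 (step_sound _ 34 [rh4a474381f9135b93, rhd643654deba295ff, rhd9245f65dee8a054, (rhde10baa3043a2b46.shift 2 0)] (by decide +kernel))
noncomputable def rh6c68534733f8e8ce : CRef := CRef.mk (Pat.mk 0x10000000180000000a000000180000000000000000 0x200000003000000038000000fb000000ff0000003000000030 7 8) 0 0 (step_sound _ 100 [(rh40bd69aad7921746.shift 0 1), (rh820d4e04d5dcd02e.shift 3 0), (rha327c50ba1fc214e.shift 3 0)] (by decide +kernel))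
noncomputable def rhda33afbf46f54479 : CRef := CRef.mk (Pat.mk 0x10000000180000000c0000000800000000 0x8000000080000000f0000001f0000001c0000001f0000001c00000014 7 5) 0 0 (step_sound _ 65 [(rh53b3c253cb0c65f4.shift 0 2), rh8838cf1885bcaa3f] (by decide +kernel))
noncomputable def rhbefe217e0150025d : CRef := CRef.mk (Pat.mk 0x180000000c000000080000000000000000 0xe0000000f0000003c0000000f0000000e0000000600000006 7 6) 0 0 (step_sound _ 97 [(rh53b3c253cb0c65f4.shift 0 3), rhcf26ec993e8f7076] (by decide +kernel))
noncomputable def rhc35cf246905f9bc4 : CRef := CRef.mk (Pat.mk 0x3000000018000000180000000000000000 0xc0000000c00000078000000380000003f0000000f0000000c 7 7) 0 0 (step_sound _ 35 [rh6d1b27ff17673fe8, (rh71222050f2c63a3a.shift 3 0)] (by decide +kernel))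
noncomputable def rhfc6c22b2b5e617c2 : CRef := CRef.mk (Pat.mk 0x40000001c000000040000000000000000 0x18000000180000003a0000007f0000001e000000040000000400000004 7 7) 0 0 (step_sound _ 131 [rh3f09e2870ec06b4b, (rh915cd4d572ce73f3.shift 0 2), (rhea7a1800d6f053bd.shift 2 0)] (by decide +kernel))
noncomputable def rh542a57ea5db52376 : CRef := CRef.mk (Pat.mk 0x40000001c000000060000000000000000 0x180000007a0000001f0000001c0000000f0000000400000004 7 7) 0 0 (step_sound _ 67 [rh2dbbb45430103352, (rh53b3c253cb0c65f4.shift 0 2)] (by decide +kernel))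
noncomputable def rhf699be7fcc4543aa : CRef := CRef.mk (Pat.mk 0x10000000100000001c00000008000000000000000000000000 0x280000007a0000001e0000003c0000007f000000170000000600000006 7 7) 0 0 (step_sound _ 98 [(rh1596386b10463091.shift 0 2), (rh1bd512093e5c9bf6.shift 1 0), (rh4dc133ee0ba1420a.shift 0 3)] (by decide +kernel))
noncomputable def rha680cf40afddaade : CRef := CRef.mk (Pat.mk 0x1800000050000000180000000800000000 0xe0000000fc000000de000000380000001f00000014 7 8) 0 0 (step_sound _ 133 [(rh1e42cdaa2b8276ac.shift 2 3), (rh3b1401306f573ad9.shift 2 1), rhaffbfd274a4a6204] (by decide +kernel))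
noncomputable def rh8626f1209640022f : CRef := CRef.mk (Pat.mk 0x20000000380000001a000000000000000000000000 0x80000000800000028000000380000001b0000001f0000003c0000001c 7 6) 0 0 (step_sound _ 67 [(rh1944aabe75e9b237.shift 3 0), (rh4f4c4c1027c971e0.shift 2 0), rh59884d4b0b1c90ac, (rhee3f5b1209cad075.shift 0 1)] (by decide +kernel))
noncomputable def rh4c38d4eb85ee05be : CRef := CRef.mk (Pat.mk 0x80000000e00000006000000000000000000000000 0x30000000b0000001e00000006000000070000000700000003 7 5) 0 0 (step_sound _ 66 [(rh71222050f2c63a3a.shift 2 1), rhd0fc4e8d0b5336cf] (by decide +kernel))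
noncomputable def rhf25d5509482a8ca6 : CRef := CRef.mk (Pat.mk 0x80000000c00000006000000140000000000000000 0x20000000b0000001e0000003e0000001f0000001300000013 7 6) 0 0 (step_sound _ 100 [(rh035294ead7819c7c.shift 0 1), rh198ba47e4f8edef2, (rh74a43b9a483760f6.shift 3 0), (rhdc821bba2d860430.shift 1 0)] (by decide +kernel))
noncomputable def rh239a90637d114a9b : CRef := CRef.mk (Pat.mk 0x1c00000014000000000000000000000000 0x600000006000000070000001e00000037000000030000000300000003 7 6) 0 0 (step_sound _ 129 [rh597c3fb4d7a1f47a, (rhe25b0a99195a5d59.shift 1 3)] (by decide +kernel))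
noncomputable def rh0903ec7bd769f09e : CRef := CRef.mk (Pat.mk 0x4000000060000000200000003800000000 0x40000000e0000001be000000fc000001df 7 9) 0 0 (step_sound _ 2 [(rh436d35f99138204e.shift 2 0), rh4c5c51b0ae60cece, (rh4e3d1a2c031116e3.shift 1 0), (rhc277914c2ed71bf6.shift 1 0), rhe1c32197ffb40f8f] (by decide +kernel))
noncomputable def rh3c4cdd310d56081a : CRef := CRef.mk (Pat.mk 0x1000000018000000080000000000000000 0xc0000001f000000380000000f0000003c0000001c 7 6) 0 0 (step_sound _ 35 [(rh71222050f2c63a3a.shift 3 0), rha7764e385a27880c] (by decide +kernel))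
noncomputable def rh7278c28a9f63cd15 : CRef := CRef.mk (Pat.mk 0x8000000180000000c00000004000000000000000000000000 0x160000003f0000001f0000001c0000000c000000080000000800000008 7 6) 0 0 (step_sound _ 99 [(rha707fb719e87fe6e.shift 3 2), (rhd29c8239e1cc0277.shift 2 0), (rheccc035946bfb2fd.shift 0 3)] (by decide +kernel))
noncomputable def rh4fd4bdae2b2dffdf : CRef := CRef.mk (Pat.mk 0x3800000010 0x1c7000000fe000001fe 7 9) 0 0 (step_sound _ 34 [(rh10e3074efe589034.shift 1 0), rh4f8edb321cf5b49d, (rhf90a9b43adab6acc.shift 1 0)] (by decide +kernel))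
noncomputable def rh3136cff1129887b9 : CRef := CRef.mk (Pat.mk 0x8000000080000000c0000000400000000 0x160000003f0000003f0000000e0000007c00000010 7 7) 0 0 (step_sound _ 35 [(rh36d4d92ef3dad5f8.shift 1 0), (rh7ec372de7fdf51d0.shift 0 1)] (by decide +kernel))
noncomputable def rh753a5e2040a4f9f4 : CRef := CRef.mk (Pat.mk 0x10000000300000002000000030 0x600000006000000060000000ff000000fe000001f000000030 7 9) 0 0 (step_sound _ 67 [(rh8ee80cc30e93a344.shift 2 1), (rhcced840e0475f351.shift 2 0), rhfc44827fa813ac50] (by decide +kernel))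
noncomputable def rhb189033fa758febb : CRef := CRef.mk (Pat.mk 0xc000000080000000c0000000000000000 0x12000000330000007f0000007f0000000e0000000800000008 7 7) 0 0 (step_sound _ 100 [(rh0ea5b4df99340550.shift 0 2), (rh4ca5dae25f5c14ff.shift 0 3), (rha42c5dfa6c5d377a.shift 1 2), (rhe5a752cd5340bd32.shift 1 0)] (by decide +kernel))
noncomputable def rh5dc1c11e0a8ffc87 : CRef := CRef.mk (Pat.mk 0x1c0000000e000000000000000000000000 0x8000000180000001c0000000e0000003c0000001f0000000e 7 6) 0 0 (step_sound _ 66 [(rh1808265f8363394e.shift 1 0), rhba346319869ca484, (rhea7a1800d6f053bd.shift 2 0)] (by decide +kernel))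
noncomputable def rhb10285e0d2cc1e9a : CRef := CRef.mk (Pat.mk 0x100000001800000018000000000000000000000000 0x18000000180000001c000000ff000000670000000400000004 7 8) 0 0 (step_sound _ 101 [(rh37304d38897cd90e.shift 1 0), (rh587dac98b18fa6dc.shift 0 2), (rh79b3c29022acbdf3.shift 2 3)] (by decide +kernel))
noncomputable def rhc34814026ee4b39a : CRef := CRef.mk (Pat.mk 0x8000000080000000e00000006000000000000000000000000 0x1000000010000000130000003b0000003f0000000e0000000f0000001b0000001b0000000a 7 6) 0 0 (step_sound _ 196 [rh20eddd543cb3a807, (rhb730ba14aa32bdb3.shift 3 3), rhe29a9cf0831aabd1] (by decide +kernel))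
noncomputable def rh7b789dda8b5ee1bc : CRef := CRef.mk (Pat.mk 0x80000000c0000000400000000 0x1c0000003c0000000f0000000e0000007c00000018 7 7) 0 0 (step_sound _ 131 [rh13644f59d0c0e8f6, (rh5c5e593799055d58.shift 2 1)] (by decide +kernel))
noncomputable def rh8b9725c831d49c4a : CRef := CRef.mk (Pat.mk 0x1000000008000000100000001800000000 0x2e000000ff000000f8000000180000001800000008 7 8) 0 0 (step_sound _ 100 [(rh05c6d685631c4c03.shift 0 1), (rh932754581e0f4330.shift 3 0)] (by decide +kernel))
noncomputable def rhe4caea16c5401ce2 : CRef := CRef.mk (Pat.mk 0x8000000180000001800000000 0x3c0000003f00000038000000180000001800000008 7 6) 0 0 (step_sound _ 131 [(rh2145e1d24b96a57e.shift 3 1), rh30fdd73590ee6755] (by decide +kernel))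
noncomputable def rh90ac6a253cab51f9 : CRef := CRef.mk (Pat.mk 0xb00000003000000000000000000000000 0x7000000070000001f0000001b00000003000000060000000600000006 7 5) 0 0 (step_sound _ 65 [(rh06e01e1c08a41fe8.shift 0 2), rh3cb04db3dd2b6a55, rh4ee84d7f73540b6b] (by decide +kernel))
noncomputable def rheca3463cf9123ece : CRef := CRef.mk (Pat.mk 0xc0000000e0000000000000000 0x1c0000001c0000001c0000000c0000000f0000001a00000018 7 5) 0 0 (step_sound _ 130 [(rh37d9ceebb86d75d1.shift 1 1), rh49eecd2cd376859f, (rhde10baa3043a2b46.shift 1 1)] (by decide +kernel))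
noncomputable def rhb36fafa0c182feef : CRef := CRef.mk (Pat.mk 0x1000000000000000380000001800000008000000000000000000000000 0x3800000038000000680000003e0000003c0000000f000000040000000400000004 7 7) 0 0 (step_sound _ 98 [(rh0b76732beeeb55db.shift 0 3), (rh9ac2d92c09d7ce5d.shift 2 2), (rh9d2d459698611001.shift 2 2), (rhfafeb437ceb8396d.shift 2 0)] (by decide +kernel))
noncomputable def rh0cb62f714892fb62 : CRef := CRef.mk (Pat.mk 0x3800000018000000000000000000000000 0x80000001c0000001e000000380000001c0000000f0000003c0000001c 7 6) 0 0 (step_sound _ 67 [(rh22d0675c38b0ef1f.shift 1 1), rh59884d4b0b1c90ac, (rh84d1c02a8954c6a8.shift 3 1)] (by decide +kernel))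
noncomputable def rh573b1f12e4770a49 : CRef := CRef.mk (Pat.mk 0x8000000080000001c0000000c00000000 0x60000000f0000003b0000001f0000001c00000010 7 6) 0 0 (step_sound _ 36 [(rh55afc6a59410cf00.shift 3 0), (rhcf58696d24c492b4.shift 0 1)] (by decide +kernel))
noncomputable def rhbc5755074f3138bd : CRef := CRef.mk (Pat.mk 0x100000001e0000000c00000000 0x3e0000003f0000001f0000001e0000001c00000010 7 6) 0 0 (step_sound _ 97 [(rh3244c3cc8379b070.shift 0 2), rhd51b1a2ac76829e8] (by decide +kernel))
noncomputable def rhf7854b827a1dc8a9 : CRef := CRef.mk (Pat.mk 0x8000000080000000c0000000c00000000 0x160000003f0000003f0000000c0000001c00000010 7 6) 0 0 (step_sound _ 130 [(rh50fbb5868c909700.shift 2 1), rhbd9441a19eea56cb] (by decide +kernel))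
noncomputable def rh73631e81a785fc4e : CRef := CRef.mk (Pat.mk 0x40000000400000004000000000000000000000000 0xa0000000e0000000f0000003c0000000c0000000c0000000c00000008 7 6) 0 0 (step_sound _ 67 [(rh47dece01c1595e79.shift 2 0), (rh4b5ba89a3395845f.shift 1 2), (rh4dd3481dd8191710.shift 1 1), (rh9dd91bba88ed65ca.shift 0 1)] (by decide +kernel))
noncomputable def rh54b62b221dfeb931 : CRef := CRef.mk (Pat.mk 0xf00000004000000060000000000000000 0xf0000001c0000000e0000003e0000003e 7 6) 0 0 (step_sound _ 99 [(rh1eaa614d5065b42c.shift 1 0), (rhe25b0a99195a5d59.shift 0 3)] (by decide +kernel))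
noncomputable def rhb3570575dd2aa9ce : CRef := CRef.mk (Pat.mk 0x1c0000003000000018000000000000000000000000 0x80000000a0000000f0000001c000000f40000003c0000000f0000000a00000008 7 8) 0 0 (step_sound _ 134 [rhb4caa40d2b8e6d1e, (rhf48373e13d2bc128.shift 3 4)] (by decide +kernel))
noncomputable def rh3c6d69ba6c18d03e : CRef := CRef.mk (Pat.mk 0x7000000000000000600000000000000000 0x8000000080000003f000000ff0000001f000000f00000003000000010 7 8) 0 0 (step_sound _ 131 [(rh592c7139d2c44767.shift 1 3), (rh87fa0a8b0456f79e.shift 0 3), (rh8b653325acffd565.shift 2 0), (rhf44d10b1c8ccb1db.shift 2 1)] (by decide +kernel))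
noncomputable def rhe95391b8869714c7 : CRef := CRef.mk (Pat.mk 0xe00000007000000000000000000000000 0xc0000000c0000000c0000000e000000070000001e0000000e0000000c 7 5) 0 0 (step_sound _ 162 [(rh1e309b005ffa1b36.shift 1 1), (rh642e50382fd7f7a3.shift 1 0), rh65beea4cc676f87a] (by decide +kernel))
noncomputable def rh51f0a51b3153016e : CRef := CRef.mk (Pat.mk 0x2000000030000000180000001000000000 0x1800000018000000780000003f0000003c000000f000000060 7 8) 0 0 (step_sound _ 99 [(rh0df0e7db506e769f.shift 0 2), (rh332598df91949cce.shift 2 0), (rh535d54e97f01b462.shift 0 1)] (by decide +kernel))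
noncomputable def rh230033adda0ad44f : CRef := CRef.mk (Pat.mk 0x10000000100000001c0000000c 0xef000000ff0000001f0000001f0000000c 7 8) 0 0 (step_sound _ 67 [rh168c702fc6e06326, rh957cdce866de298f, rhbdf95f3c485a348b, rhd1f1edd0c73a6f77, rhfdb9155b021a94cf] (by decide +kernel))
noncomputable def rhdf8ef6da62e719d2 : CRef := CRef.mk (Pat.mk 0x800000038000000180000001000000000 0x20000000200000006e0000003f0000003c0000001f0000000f 7 7) 0 0 (step_sound _ 98 [rh4995fc7a28037e80, (rh94246470f0e6fdf7.shift 2 1), (rhad5d8fc3675c15dd.shift 0 2)] (by decide +kernel))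
noncomputable def rh3b7ba2e87cc0f0c8 : CRef := CRef.mk (Pat.mk 0x380000001800000010 0x200000007c000001e80000003f0000003800000010 7 9) 0 0 (step_sound _ 131 [(rh6f1cbe15c631ee70.shift 3 0), rhcb52012f3bfca0e7] (by decide +kernel))
noncomputable def rhccf8de1073b7c25c : CRef := CRef.mk (Pat.mk 0x3800000018000000000000000000000000 0xc0000000c0000002c00000038000000380000001f0000007c0000003c 7 7) 0 0 (step_sound _ 67 [(rh01063aa26991a6f6.shift 3 0), rh0edba1266cd7c468, (rh30f7072667d65717.shift 1 0), (rh9954101f0efffb9e.shift 2 0)] (by decide +kernel))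
noncomputable def rh9c791f3a801357ed : CRef := CRef.mk (Pat.mk 0x1800000018000000080000000c00000000 0xa0000003f0000001f0000000f0000001c00000010 7 6) 0 0 (step_sound _ 66 [(rh5c5e593799055d58.shift 2 1), rhe7039b60c5db921b] (by decide +kernel))
noncomputable def rh57e0536d2963cda2 : CRef := CRef.mk (Pat.mk 0x3800000014000000100000000000000000 0x1000000010000000380000001e0000007c0000002f0000000c 7 7) 0 0 (step_sound _ 99 [(rh53b3c253cb0c65f4.shift 1 3), rh9dae6ccd17fa7b61] (by decide +kernel))
noncomputable def rhcc2ccc862a1dafdf : CRef := CRef.mk (Pat.mk 0x80000000e000000050000000400000000000000000 0x50000000df000000fe00000077000001f8000000b800000008 7 9) 0 0 (step_sound _ 132 [(rh090e536c80c4bdda.shift 3 0), (rh16456de3625fa6ce.shift 0 1), (rh2198e04b50d0665a.shift 0 3), (rh393ce3fb11b5c0d9.shift 3 1), (rh7fb660bc21ce4329.shift 2 4)] (by decide +kernel))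
noncomputable def rh74db35c435b67d8d : CRef := CRef.mk (Pat.mk 0x200000003000000020000000200000000000000000 0x30000000300000003f000001fe0000005f00000008 7 9) 0 0 (step_sound _ 68 [rh0048578d99d3f53e, (rh932754581e0f4330.shift 4 1)] (by decide +kernel))
noncomputable def rhe7cce05abf76b853 : CRef := CRef.mk (Pat.mk 0x8000000080000000c00000004000000000000000000000000 0x140000003c0000007f0000000f0000003c000000180000001800000018 7 7) 0 0 (step_sound _ 165 [(rh47b8d163a16badd6.shift 0 2), rh61374aa91e2a6364, (rhcd61223f8ca2975f.shift 2 0), (rhe33d9496e10d8eb0.shift 0 4)] (by decide +kernel))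
noncomputable def rhfc21af46f874e92f : CRef := CRef.mk (Pat.mk 0x80000000c0000000400000000 0x1c0000001e0000007c0000000f0000003c00000018 7 7) 0 0 (step_sound _ 131 [(rh5c5e593799055d58.shift 2 1), rha4a87044b427e9e6] (by decide +kernel))
noncomputable def rhb6fc71fc9052310a : CRef := CRef.mk (Pat.mk 0x280000003800000010000000100000000000000000 0x60000003f0000003e0000001f0000001f0000000c0000000c 7 6) 0 0 (step_sound _ 67 [(rh4f34f705b8000a6f.shift 1 1), (rh4fe2ede50e8ebe2c.shift 2 0), rh76f0c8e87f70c7ce, (rhb71a7ffb0d6d87c1.shift 0 1), (rhd7971da1d4ab05d8.shift 0 1)] (by decide +kernel))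
noncomputable def rh55b83bbf9e003f91 : CRef := CRef.mk (Pat.mk 0xa0000000e000000040000000400000000 0x120000003e0000000e0000003c0000000f0000000a 7 6) 0 0 (step_sound _ 130 [rh0a19b74020e11fa8, (rh50fbb5868c909700.shift 1 1)] (by decide +kernel))
noncomputable def rh895084916dd43d47 : CRef := CRef.mk (Pat.mk 0x140000001c000000080000000800000000 0x630000007f0000001c0000007f0000003e00000014 7 7) 0 0 (step_sound _ 131 [(rh0a19b74020e11fa8.shift 1 0), rh2d49c0ea23731b37, rhcf217803b01e13b7, rhfc3ddb351f92d57c] (by decide +kernel))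
noncomputable def rhf836332ff0b39b01 : CRef := CRef.mk (Pat.mk 0x200000007000000000 0x3bf000001fe0000038e 7 10) 0 0 (step_sound _ 39 [(rh3fc3a7fb6866dcd4.shift 4 0), rh77d69f1d64c8a7bf, (rhe3060b190bc0bc78.shift 3 1)] (by decide +kernel))
noncomputable def rh50af09bb45ac1367 : CRef := CRef.mk (Pat.mk 0x10000000100000001e0000000000000000 0x6000000370000001f0000001e0000000700000006 7 6) 0 0 (step_sound _ 33 [rh215877a1a3bba209, (rheb0810cc63b001d8.shift 0 1)] (by decide +kernel))
noncomputable def rhd19b641ebe6f21f7 : CRef := CRef.mk (Pat.mk 0x80000000c0000000400000000 0x1c0000003c0000000f0000000c0000000c0000000c 7 6) 0 0 (step_sound _ 131 [(rh5c5e593799055d58.shift 2 1), rhd243b9b11655854f] (by decide +kernel))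
noncomputable def rh014e81f5c01389f8 : CRef := CRef.mk (Pat.mk 0x80000000c0000000c00000004 0x6000000060000007f0000007f0000000f00000004 7 7) 0 0 (step_sound _ 68 [(rh2612b4f73ba7c3b3.shift 1 1), rh3d10a1b3f8d00518, (rh5081f157185e0b65.shift 1 1)] (by decide +kernel))
noncomputable def rh7175a7d9b9219c3f : CRef := CRef.mk (Pat.mk 0x400000004000000040000000200000000 0xa0000000f0000003c000000040000000e0000000e 7 6) 0 0 (step_sound _ 34 [(rh932754581e0f4330.shift 1 0), rhf061e61953401a2f] (by decide +kernel))
noncomputable def rhedba6ed2305a2f72 : CRef := CRef.mk (Pat.mk 0x1e000000080000000000000000 0xa0000000b0000001e0000003f0000003400000014 7 6) 0 0 (step_sound _ 68 [rh165688b39d91a6bb, (rhe25b0a99195a5d59.shift 1 2)] (by decide +kernel))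
noncomputable def rh1d7200e53afd6d8e : CRef := CRef.mk (Pat.mk 0x1a0000000c000000000000000000000000 0xe0000000f0000001a0000000f0000000e0000000400000004 7 5) 0 0 (step_sound _ 97 [(rh53b3c253cb0c65f4.shift 0 3), rh787bd74571696212] (by decide +kernel))
noncomputable def rhadd04132630b4b6f : CRef := CRef.mk (Pat.mk 0x1a0000000c000000000000000000000000 0x20000001b0000003f000000370000000400000004 7 6) 0 0 (step_sound _ 97 [(rh53b3c253cb0c65f4.shift 0 3), rh95c349eddb4c40d0] (by decide +kernel))
noncomputable def rh6313ab4875a1cd7c : CRef := CRef.mk (Pat.mk 0x180000001a0000000c0000000000000000 0x40000001f0000001b0000001c0000007c00000074 7 7) 0 0 (step_sound _ 130 [(rh3411daa15b6aaec6.shift 2 0), (rh710860539a4c4362.shift 0 3)] (by decide +kernel))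
noncomputable def rhabdfc09812cebbb7 : CRef := CRef.mk (Pat.mk 0x1000000018000000080000000c00000000 0x80000000c0000000c0000001c000000180000007e0000007f00000030 7 7) 0 0 (step_sound _ 131 [(rh001df559c085f6ec.shift 2 1), (rh3e78a1e3d90ce0a5.shift 1 0), rhb90bbf6b81b548c9, (rhe62cab2ff5ad6fe2.shift 2 1)] (by decide +kernel))
noncomputable def rh292cc79c26be644f : CRef := CRef.mk (Pat.mk 0x180000001c000000000000000800000000 0x180000003f000000170000003c0000001c 7 6) 0 0 (step_sound _ 97 [(rh53b3c253cb0c65f4.shift 0 3), rhde4c2e51f3d680f0] (by decide +kernel))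
noncomputable def rh85c809e99bf74489 : CRef := CRef.mk (Pat.mk 0xc0000000c000000000000000000000000 0x1c0000001e000000780000000c0000001f0000007c0000001c0000000c 7 7) 0 0 (step_sound _ 163 [(rh503dd4575245365b.shift 2 2), rh6c1b4388fe2cd851, (rhdceb5e6cd223697b.shift 1 2)] (by decide +kernel))
noncomputable def rh8da4dc77e3d8b07e : CRef := CRef.mk (Pat.mk 0x1800000018000000000000000000000000 0x380000003c000000f00000001f0000001c000000f80000003800000038 7 8) 0 0 (step_sound _ 164 [(rh1e309b005ffa1b36.shift 3 1), rh292609265646204c, (rhdceb5e6cd223697b.shift 2 2)] (by decide +kernel))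
noncomputable def rhee820c34cf2b1a7b : CRef := CRef.mk (Pat.mk 0x1e000000180000000000000000 0x400000006000000070000001e0000001f0000000f0000000e 7 5) 0 0 (step_sound _ 65 [rh5629239feb97069a, (rheb0810cc63b001d8.shift 0 2)] (by decide +kernel))
noncomputable def rhfbba608064df5186 : CRef := CRef.mk (Pat.mk 0x1c00000038000000000000000000000000 0x40000001c0000003f0000007f0000000e0000000e 7 7) 0 0 (step_sound _ 67 [(rh40241bd608e5be1a.shift 2 0), rh40e12b7f1fab7a7a] (by decide +kernel))
noncomputable def rhda27cffcc9e0192c : CRef := CRef.mk (Pat.mk 0x1e0000001a0000000000000000 0x180000001c000000370000001e0000001e0000000300000003 7 6) 0 0 (step_sound _ 129 [(rh3244c3cc8379b070.shift 0 3), rhf2f4cc2e6c45f090] (by decide +kernel))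
noncomputable def rh91efb9c35267ef4b : CRef := CRef.mk (Pat.mk 0x30000000b000000000000000000000000 0x60000000600000006000000030000001b0000001f0000000700000007 7 5) 0 0 (step_sound _ 161 [(rh1e309b005ffa1b36.shift 0 1), rh5caf90bd9fb34c6c, rh642e50382fd7f7a3] (by decide +kernel))
noncomputable def rhc6e66f351062cf01 : CRef := CRef.mk (Pat.mk 0x800000018000000180000000000000000 0x80000001f000000ff000000e700000004 7 8) 0 0 (step_sound _ 69 [rh66308995486c6adc, (rh810fa74b1681ba9e.shift 0 1), (rhe2b63c00a3d7bb73.shift 1 2)] (by decide +kernel))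
noncomputable def rh70ac9154cffc90f6 : CRef := CRef.mk (Pat.mk 0x40000000c0000000c000000080000000000000000 0x2000000060000000f0000007c0000007f0000000600000006 7 7) 0 0 (step_sound _ 100 [(rh45166f720c0a3f0d.shift 0 1), (rhe2b63c00a3d7bb73.shift 0 3), (rhf51e317c65ac025f.shift 1 0)] (by decide +kernel))
noncomputable def rh73be9e80dc7ed493 : CRef := CRef.mk (Pat.mk 0x800000008000000180000001800000000 0x40000000c0000000c0000001f0000003f00000007 7 6) 0 0 (step_sound _ 130 [rh2a06ad0ad7900043, (rh50fbb5868c909700.shift 2 1)] (by decide +kernel))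
noncomputable def rh207343e4cb146ad9 : CRef := CRef.mk (Pat.mk 0x400000004000000040000000000000000 0xa0000000e0000000e0000000600000006000000070000003e0000000a 7 6) 0 0 (step_sound _ 161 [(rh0dbc8abee7ad42d4.shift 1 1), rhe4e2853fe0f31065, (rhf153d2af6b144509.shift 1 1)] (by decide +kernel))
noncomputable def rhb7cd978d7d8c77be : CRef := CRef.mk (Pat.mk 0x800000018000000080000001800000000 0x60000000f0000001c0000000f0000003c0000000c 7 6) 0 0 (step_sound _ 130 [(rh50fbb5868c909700.shift 2 1), rh952c0a1819cb068e] (by decide +kernel))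
noncomputable def rh6d768593dad159bb : CRef := CRef.mk (Pat.mk 0x800000018000000180000001000000000 0x40000000c0000001f0000007f0000007700000006 7 7) 0 0 (step_sound _ 98 [(rh0fcb228d13e9ff47.shift 1 0), rha1f67675212f0f22, (rhad5d8fc3675c15dd.shift 0 2)] (by decide +kernel))
noncomputable def rh960e5dd9f225860c : CRef := CRef.mk (Pat.mk 0x8000000180000001e 0x30000000300000003f0000001f0000003e 7 6) 0 0 (step_sound _ 33 [rh3244c3cc8379b070, rha8c4e2bd8a83035f] (by decide +kernel))
noncomputable def rha4fb043ad7a9cbb2 : CRef := CRef.mk (Pat.mk 0x180000000e00000002000000000000000000000000 0x10000000700000007000000070000001f0000003e00000002000000070000000700000005 7 6) 0 0 (step_sound _ 161 [(rha671c68f1a8fa667.shift 0 2), rhc71bbfc5ad055bcb, (rhdfa5e0df05b1d145.shift 0 3)] (by decide +kernel))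
noncomputable def rh171c43904f332f7b : CRef := CRef.mk (Pat.mk 0x38000000080000000800000000 0x40000001c0000001e000000380000000f0000003c00000014 7 6) 0 0 (step_sound _ 131 [(rh039efe07c35de3d4.shift 1 1), (rh771d065bdc85bf2d.shift 2 0), rhc992e8778e90e386] (by decide +kernel))
noncomputable def rh7c6cd9ac57dbe4c2 : CRef := CRef.mk (Pat.mk 0x180000000e000000020000000000000000 0x7000000070000001f000000fe000000f60000000600000006 7 8) 0 0 (step_sound _ 162 [(rh02ef15e22aa7db92.shift 1 0), (rh6df6fdbd3ea74d09.shift 0 1), (rh83b36c58d0b545c9.shift 0 1), rh8c1c0aaacb9bc91a, (rhe4f18f348db65b80.shift 0 2)] (by decide +kernel))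
noncomputable def rh4ee753fea7073185 : CRef := CRef.mk (Pat.mk 0x2000000060000000200000000000000000000000000000000 0x5000000070000000700000002000000060000000600000007000000070000000700000004 7 3) 0 0 (step_sound _ 97 [(rh20e56a1196e70fcc.shift 0 2), (rh2f6b95e004f68a41.shift 0 1), (rh6eff4158bb400f47.shift 0 1), rh8a1bd34420cccc7f, (rhcaf13074474f34c3.shift 0 1)] (by decide +kernel))
noncomputable def rh825359a88a517966 : CRef := CRef.mk (Pat.mk 0x20000001a0000000c00000000 0x1c0000001c0000003c0000001f0000001b0000000c00000004 7 6) 0 0 (step_sound _ 99 [rh1bc186178822409c, (rh3068e443d36f23f5.shift 0 1), (rh68a777751bfeafdf.shift 2 0)] (by decide +kernel))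
noncomputable def rh7eca482df1505c9e : CRef := CRef.mk (Pat.mk 0x8000000080000000800000008 0xf40000007e000000ff0000000800000008 7 8) 0 0 (step_sound _ 100 [rh2e26d760543bfba2, (rh2f68792b6b779e96.shift 3 0)] (by decide +kernel))
noncomputable def rhc9333082ecc54f5d : CRef := CRef.mk (Pat.mk 0xa000000180000000600000000 0x500000007000000070000000f0000001e0000000600000004 7 5) 0 0 (step_sound _ 96 [(rhc10214bf3fe8094a.shift 0 2), rhd9021519dbdedff4] (by decide +kernel))
noncomputable def rha18a40d1ae2a53d2 : CRef := CRef.mk (Pat.mk 0x180000001c000000000000000000000000 0x1800000018000000380000001f0000007c000000160000000400000004 7 7) 0 0 (step_sound _ 130 [(rh39b36e93b258e604.shift 1 0), (rh6096bce092f617bd.shift 0 2), (rhe2b63c00a3d7bb73.shift 0 3)] (by decide +kernel))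
noncomputable def rh6f9e648b33593206 : CRef := CRef.mk (Pat.mk 0x6000000070000000000000000 0xe0000000e0000000e000000060000000f0000003d0000000c 7 6) 0 0 (step_sound _ 129 [rh2e585ef8a40d4019, (rh37d9ceebb86d75d1.shift 0 1), (rhde10baa3043a2b46.shift 0 1)] (by decide +kernel))
noncomputable def rhc0e7908010bed6b8 : CRef := CRef.mk (Pat.mk 0xc0000000c000000000000000000000000 0x1c0000001c0000003c0000000f0000000c000000380000001f0000001c 7 6) 0 0 (step_sound _ 67 [rh0eb1d62610945562, (rh3087ddaea48372a3.shift 0 2), (rhfc7c29d8e65d775f.shift 2 1)] (by decide +kernel))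
noncomputable def rh4abe3aa932c61204 : CRef := CRef.mk (Pat.mk 0xe00000018000000000000000000000000 0x2000000120000003b0000001e0000001f0000003c0000001800000010 7 6) 0 0 (step_sound _ 132 [(rh34b1188e635efc8d.shift 1 1), rh7041bb97b1a8f4cc] (by decide +kernel))
noncomputable def rh89b7579bed27d4d5 : CRef := CRef.mk (Pat.mk 0x200000003000000060000000200000000 0xc0000001e00000007000000070000003e0000000c 7 6) 0 0 (step_sound _ 34 [(rh55afc6a59410cf00.shift 1 0), rheb06b56db219f4c6] (by decide +kernel))
noncomputable def rh74f705376d8bfa76 : CRef := CRef.mk (Pat.mk 0x200000003000000020000000200000000000000000000000000000000 0x40000000600000007000000030000000200000002000000070000000700000005 7 3) 0 0 (step_sound _ 226 [(rh2f68792b6b779e96.shift 1 4), rhfdb013c4d9a1c697] (by decide +kernel))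
noncomputable def rh5c83b75cbf212171 : CRef := CRef.mk (Pat.mk 0xf000000090 0x18e000000fe000000f7 7 9) 0 0 (step_sound _ 35 [rh32e4382af431e69f, (rh96851dee118c1ba3.shift 3 0)] (by decide +kernel))
noncomputable def rhf7ebdfc78c74b6dc : CRef := CRef.mk (Pat.mk 0x2000000060000000200000000000000000000000000000000 0x5000000070000000700000006000000060000000600000006000000060000000600000004 7 3) 0 0 (step_sound _ 97 [(rh3820f35d5e705bec.shift 1 0), (rha087c6594f4bfb59.shift 0 2), (rha707fb719e87fe6e.shift 1 2)] (by decide +kernel))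
noncomputable def rhff65ed08a948668b : CRef := CRef.mk (Pat.mk 0x1e0000001a00000000 0x1f0000001f0000003b0000001e0000001e00000004 7 6) 0 0 (step_sound _ 97 [(rh3244c3cc8379b070.shift 0 2), rhcce3c38bd8e0fcf5] (by decide +kernel))
noncomputable def rh61aeb8abb6cefdb5 : CRef := CRef.mk (Pat.mk 0x1e0000001a00000000000000000000000000000000 0x2000000030000001e0000001e0000000f000000070000000700000001 7 5) 0 0 (step_sound _ 193 [(rh3244c3cc8379b070.shift 0 5), rhd302cb3782bc272a] (by decide +kernel))
noncomputable def rh5adb673286625d17 : CRef := CRef.mk (Pat.mk 0x38000000200000000000000000 0x280000006f0000007e000000360000001400000014 7 7) 0 0 (step_sound _ 98 [(rh4bddccd4c658ff9c.shift 1 0), (rh833381308a6c8cf7.shift 1 0), (rhd1d05263fabc0227.shift 0 2)] (by decide +kernel))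
noncomputable def rh6715039f51a50ffa : CRef := CRef.mk (Pat.mk 0x70000000c00000008000000000000000000000000 0xc0000003c0000000f0000000e0000000e000000060000000600000004 7 6) 0 0 (step_sound _ 194 [(rh2145e1d24b96a57e.shift 2 3), rh77eaed713e1bf287] (by decide +kernel))
noncomputable def rh9c6d48fe2e5d3985 : CRef := CRef.mk (Pat.mk 0xe00000018000000100000001000000000 0x1000000010000000330000001e0000001c0000007e0000003e00000028 7 7) 0 0 (step_sound _ 132 [(rh5ba2d67652840f34.shift 1 2), rh61d8e2f44a44b238] (by decide +kernel))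
noncomputable def rh2e0473b70c35149b : CRef := CRef.mk (Pat.mk 0xe0000001800000010000000000000000000000000 0x18000000780000001e0000001e0000003f0000000e0000000e00000008 7 7) 0 0 (step_sound _ 195 [(rh2145e1d24b96a57e.shift 3 3), rh93810f0e564ccf83] (by decide +kernel))
noncomputable def rhd18c8295c78ca2ff : CRef := CRef.mk (Pat.mk 0xe00000018000000100000001000000000 0x1000000010000000330000001e0000001c0000007e0000003e00000028 7 7) 0 0 (step_sound _ 132 [(rh1fbe85d3105cbbe7.shift 1 0), (rh5ba2d67652840f34.shift 1 2), rh61d8e2f44a44b238] (by decide +kernel))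
noncomputable def rh02c018c43e78007f : CRef := CRef.mk (Pat.mk 0x1e000000100000000000000000 0x6000000070000001e0000001f0000000700000007 7 5) 0 0 (step_sound _ 65 [rh399ed785045a9621, (rheb0810cc63b001d8.shift 0 2)] (by decide +kernel))
noncomputable def rhbf275735abe91ee9 : CRef := CRef.mk (Pat.mk 0xe00000018000000000000000000000000 0x2000000120000003b0000001e0000001f0000003c0000001800000010 7 6) 0 0 (step_sound _ 132 [(rh34b1188e635efc8d.shift 1 1), rh73bc720268b1d9cc] (by decide +kernel))
noncomputable def rh09ca1bd774c90edb : CRef := CRef.mk (Pat.mk 0x380000006000000040000000400000000000000000 0x4000000cc000000780000007f000000ce000000fc0000009c00000004 7 8) 0 0 (step_sound _ 131 [(rh3f9f901c53591aea.shift 2 0), (rh9b5857224768a516.shift 1 3), (rhe19b3f906e68bc29.shift 2 2), (rhf0f55c4504412200.shift 0 4), (rhf9e76ea285371ccb.shift 2 1)] (by decide +kernel))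
noncomputable def rhdc800da18f8c126b : CRef := CRef.mk (Pat.mk 0x100000001c00000030000000200000000000000000 0x20000000f00000003c0000003f000000760000001e0000001c 7 8) 0 0 (step_sound _ 98 [(rh508fa74cd2e3b99f.shift 0 2), (rhc467c90a4dc68874.shift 0 2), (rhd86adac144f0200d.shift 1 1), (rhfcd6360ab84cf7f3.shift 1 0)] (by decide +kernel))
noncomputable def rh485b0ece04b9ee12 : CRef := CRef.mk (Pat.mk 0x60000001e000000000000000000000000 0x60000001e0000003f0000000f00000007 7 6) 0 0 (step_sound _ 65 [rhd231c2a275285ada, (rheb0810cc63b001d8.shift 0 2)] (by decide +kernel))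
noncomputable def rh551f98393c1c6b4f : CRef := CRef.mk (Pat.mk 0x1c00000030000000200000002000000000 0x40000001c0000003f000001ff0000007e0000001c 7 9) 0 0 (step_sound _ 99 [(rh2b0103de5eac2cd1.shift 2 0), (rh60e456fe7528adcc.shift 0 2), (rha4ae2ee71608971a.shift 0 2), rhf364ee22d55c9fe6] (by decide +kernel))
noncomputable def rhd95821ecf6487de5 : CRef := CRef.mk (Pat.mk 0x100000001c00000030000000200000000000000000 0xa0000000e0000000e000000160000003c0000003f0000007e0000000e00000006 7 7) 0 0 (step_sound _ 98 [(rhb8f81924b57aafef.shift 1 1), (rhc0a31e137d23e2bb.shift 1 0), (rhc467c90a4dc68874.shift 0 2)] (by decide +kernel))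
noncomputable def rh22fbe17a3fad413e : CRef := CRef.mk (Pat.mk 0x380000002000000000000000000000000000000000 0x2000000060000000670000003e00000038000001f0000000700000007000000010 7 9) 0 0 (step_sound _ 197 [(rh29b7e98b94f1a2ca.shift 0 4), (rh4d72501e9a1677d5.shift 3 0), (rhf0104ee410e7a142.shift 2 1)] (by decide +kernel))
noncomputable def rh8f2cc22da7d0a93a : CRef := CRef.mk (Pat.mk 0x80000000e000000080000000c0000000000000000 0x80000000e0000007f0000007f0000001300000002 7 7) 0 0 (step_sound _ 68 [(rh55afc6a59410cf00.shift 3 1), rh83f828cadeee64b2] (by decide +kernel))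
noncomputable def rh5514f4a70941fca2 : CRef := CRef.mk (Pat.mk 0xe0000001800000008000000000000000000000000 0x10000000180000001a0000000e0000007a0000001f000000060000000400000004 7 7) 0 0 (step_sound _ 133 [rhc395a336a968c380, (rhf48373e13d2bc128.shift 2 4)] (by decide +kernel))
noncomputable def rh064eaf8217dcd832 : CRef := CRef.mk (Pat.mk 0xe0000000800000008000000000000000000000000 0xa0000000e0000000c0000000f0000007c0000001c00000010 7 7) 0 0 (step_sound _ 66 [(rh36f5b7631f426395.shift 2 0), (rh7fa47a9cc089c0a8.shift 1 1), (rhc75fe064731c60d2.shift 1 1), (rhf7f6d147c3b11c66.shift 0 1)] (by decide +kernel))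
noncomputable def rh47d496c746e800bc : CRef := CRef.mk (Pat.mk 0x3000000020000000200000000000000000000000000000000 0x6000000060000000600000003000000070000000700000006000000070000000700000007 7 3) 0 0 (step_sound _ 97 [(rh4499a881ca1b068f.shift 0 2), (rha613ffd40b6c9d24.shift 0 1), rhc05d451ce3dd5e48, rhe6c56a62fe5a862f, rhfdb9c88e61426ec0] (by decide +kernel))
noncomputable def rh9ee3cfdbff0fa69b : CRef := CRef.mk (Pat.mk 0xe0000001800000008000000000000000000000000 0x80000000a0000000e0000007a0000001f000000160000000400000004 7 7) 0 0 (step_sound _ 133 [rhbf889a3dd74656a1, (rhf48373e13d2bc128.shift 2 4)] (by decide +kernel))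
noncomputable def rhc51c8a6250101af3 : CRef := CRef.mk (Pat.mk 0x1c00000018000000100000000000000000 0x1c0000007f0000007f0000000600000006 7 7) 0 0 (step_sound _ 101 [(rhf48373e13d2bc128.shift 2 3), rhfc37059f5f5176b7] (by decide +kernel))
noncomputable def rh1ec38e9adab81c1e : CRef := CRef.mk (Pat.mk 0x1400000010000000100000001800000000 0x1400000014000000fe000000ff00000027 7 8) 0 0 (step_sound _ 37 [(rh55afc6a59410cf00.shift 4 0), rh7daca1c865c11ba6] (by decide +kernel))
noncomputable def rh9d02787c2a23a167 : CRef := CRef.mk (Pat.mk 0x8000000000000000e0000001800000000 0x160000001f0000003b0000000e0000001c00000014 7 6) 0 0 (step_sound _ 99 [rh222c63b80ed938e9, (rh55afc6a59410cf00.shift 3 0)] (by decide +kernel))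
noncomputable def rh60867a60f1c6866c : CRef := CRef.mk (Pat.mk 0x1e0000001800000000000000000000000000000000 0x200000002000000030000001e0000001f00000007000000070000000700000004 7 5) 0 0 (step_sound _ 129 [rh2a8cdf535ecbcf7d, (rheb0810cc63b001d8.shift 0 4)] (by decide +kernel))
noncomputable def rh63315b12972a4ede : CRef := CRef.mk (Pat.mk 0x1e0000001a000000000000000000000000 0x50000000700000007000000330000001e0000001e000000070000000700000005 7 6) 0 0 (step_sound _ 164 [rh07abf7355862b294, (rh33e738c4ed385b9f.shift 1 4)] (by decide +kernel))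
noncomputable def rh6a8f42dbadcd6cb6 : CRef := CRef.mk (Pat.mk 0xf00000004000000040000000000000000 0x40000000f0000001c0000003c0000000f0000000e 7 6) 0 0 (step_sound _ 99 [rh7b42cdbb1c30cdfc, (rhe25b0a99195a5d59.shift 0 3)] (by decide +kernel))
noncomputable def rh7ae8390b6705e42d : CRef := CRef.mk (Pat.mk 0xf00000004000000040000000000000000 0x40000000f0000001c0000000f0000003c0000001c 7 6) 0 0 (step_sound _ 99 [rh984757465dfc77d2, (rhe25b0a99195a5d59.shift 0 3)] (by decide +kernel))
noncomputable def rhb54e8a20dcf7b414 : CRef := CRef.mk (Pat.mk 0x700000004000000040000000000000000 0xc0000000c0000001c0000000f0000001c0000000e0000000600000006 7 5) 0 0 (step_sound _ 131 [(rh49606a42a30c7ac4.shift 0 2), rha9e55a93ae242e0c, (rhd4d36b4007f546b1.shift 0 1)] (by decide +kernel))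
noncomputable def rhd3b9f832ff5040dc : CRef := CRef.mk (Pat.mk 0x1e0000000a000000080000000000000000 0xb0000001e0000000a0000003f0000001f00000015 7 6) 0 0 (step_sound _ 161 [(rh3244c3cc8379b070.shift 0 4), rh7aa5145c880b4a70] (by decide +kernel))
noncomputable def rh9069deffbac58f73 : CRef := CRef.mk (Pat.mk 0x3c00000030000000100000000000000000 0x60000003c000000360000003f0000003f0000003f 7 6) 0 0 (step_sound _ 36 [(rh71222050f2c63a3a.shift 4 0), rhd9d254896b6b8474] (by decide +kernel))
noncomputable def rh967c45b253b3a6ea : CRef := CRef.mk (Pat.mk 0x1c0000001000000010000000000000000000000000 0x360000003c000000740000001f000000380000003800000028 7 7) 0 0 (step_sound _ 68 [(rh336d97b5541cdb7c.shift 0 1), (rh6eff4158bb400f47.shift 3 0), (rhfe21fdd79c5e4aa7.shift 2 1)] (by decide +kernel))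
noncomputable def rh47080e640eb328ce : CRef := CRef.mk (Pat.mk 0xc00000008000000080000000c00000000 0x100000001c0000000f0000007e0000001f0000000a 7 7) 0 0 (step_sound _ 98 [(rh7b1f1fb55310c477.shift 2 0), rhc8496c73ece69751] (by decide +kernel))
noncomputable def rh658e25c4698ed3f1 : CRef := CRef.mk (Pat.mk 0x1000000010000000100000003800000000 0x200000003000000010000000fe0000007f00000007 7 8) 0 0 (step_sound _ 133 [rh2c45383e45d83d54, (rh2f68792b6b779e96.shift 4 1)] (by decide +kernel))
noncomputable def rhf01e1e8fc14f1b8f : CRef := CRef.mk (Pat.mk 0xc00000008000000080000000c00000000 0x100000001c0000000c0000003f0000003f00000013 7 6) 0 0 (step_sound _ 36 [rh34484bb08175b38c, (rh55afc6a59410cf00.shift 3 0)] (by decide +kernel))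
noncomputable def rh0403932dd4ce1ae4 : CRef := CRef.mk (Pat.mk 0x2000000020000000300000000 0x300000003000000030000000600000006000000070000000300000003 7 3) 0 0 (step_sound _ 129 [rh8dc2031d32064d45, rh932754581e0f4330] (by decide +kernel))
noncomputable def rh87650db20de562d5 : CRef := CRef.mk (Pat.mk 0x800000008000000080000000c0000000800000000 0x140000001c0000001c00000008000000080000000c0000000f0000001800000010 7 5) 0 0 (step_sound _ 195 [rh0dcef456e2ae223c, (rh79877ebd3ef475dd.shift 2 2)] (by decide +kernel))
noncomputable def rh27e36592d61cf33a : CRef := CRef.mk (Pat.mk 0x40000000300000002000000060000000000000000000000000000000000000000 0x40000000700000007000000060000000200000002000000070000000700000005 7 3) 0 0 (step_sound _ 129 [(rhbaefcd01e0a8bca3.shift 1 4), rhd110c7c9670d8516] (by decide +kernel))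
noncomputable def rh57188cce0ba9a8fb : CRef := CRef.mk (Pat.mk 0x4000000040000000c000000000000000000000000 0x80000000c0000000c0000003e0000007f0000001e00000008 7 7) 0 0 (step_sound _ 67 [(rh08edf065357d68e5.shift 2 0), (rh79ad7b82ec8c35e2.shift 2 0), (rhe7e896686a6bb765.shift 0 1)] (by decide +kernel))
noncomputable def rh57146a0f3d650a73 : CRef := CRef.mk (Pat.mk 0x400000006000000040000000e00000000 0x180000003c0000000e0000003f0000003f00000010 7 6) 0 0 (step_sound _ 131 [(rh2f68792b6b779e96.shift 2 1), rhd03a1d62a906c1c4] (by decide +kernel))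
noncomputable def rhba2c77db86f9ebc6 : CRef := CRef.mk (Pat.mk 0xc000000080000000800000008000000000000000000000000 0x80000000c0000001c0000003c0000000f0000000c0000000800000008 7 6) 0 0 (step_sound _ 98 [(rh932754581e0f4330.shift 2 2), rhfdfb1053c4004326] (by decide +kernel))
noncomputable def rh312fbe62950f01fb : CRef := CRef.mk (Pat.mk 0x100000001c0000001400000000000000000000000000000000 0x16000000160000003c0000001c0000001f0000000e0000000800000008 7 6) 0 0 (step_sound _ 99 [(rh027ca4baf779dc2f.shift 2 0), (rh5ddbeed5d869bf16.shift 3 2), (rh93a4744a52e9c01c.shift 0 2)] (by decide +kernel))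
noncomputable def rh2bc6a17b6154ad6a : CRef := CRef.mk (Pat.mk 0x100000001800000018000000080000000000000000 0x6000000360000003f0000001f0000000f0000000200000002 7 6) 0 0 (step_sound _ 130 [(rh34517e326ddb5b25.shift 0 3), rh5c57ac78389e3187] (by decide +kernel))
noncomputable def rh4f70f95db94cd261 : CRef := CRef.mk (Pat.mk 0x100000001c000000100000000000000008 0x2000000130000003f0000001f0000000c0000000c 7 6) 0 0 (step_sound _ 67 [rh915f6511d37f58de, (rh9e3edb185cc347de.shift 3 0)] (by decide +kernel))
noncomputable def rhb2260d6a49fb05d6 : CRef := CRef.mk (Pat.mk 0xe00000002000000000000000400000000 0x330000001e00000003000000070000000700000005 7 6) 0 0 (step_sound _ 132 [rh3b7309ea13071c87, (rheb0810cc63b001d8.shift 0 3)] (by decide +kernel))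
noncomputable def rh31e9de4098bfe0dc : CRef := CRef.mk (Pat.mk 0x80000000c00000008000000000000000000000000 0x18000000780000001f0000000f0000003c0000001c00000008 7 7) 0 0 (step_sound _ 164 [(rh69012675dfdb1a5b.shift 0 4), (rh6f613394a2a14399.shift 2 0), (rhe0cbc6fe9ebbddec.shift 0 1)] (by decide +kernel))
noncomputable def rhf870ecfbcb2c3afc : CRef := CRef.mk (Pat.mk 0x4000000060000000400000000000000000000000000000000 0xe0000000f0000003c0000000600000006000000060000000e0000000e00000008 7 6) 0 0 (step_sound _ 227 [(rh1a44f6991f283c8d.shift 1 3), (rh63c5e32c22698848.shift 0 3), (rh77e1b4c8b08ff7fa.shift 1 3), (rhc6139ebce48a736d.shift 1 0)] (by decide +kernel))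
noncomputable def rh207e81d57334654b : CRef := CRef.mk (Pat.mk 0x200000003000000060000000200000000000000000000000000000000 0x40000001e00000003000000070000000600000007000000070000000700000004 7 5) 0 0 (step_sound _ 226 [rh0dc57efc2516155e, (rh2f68792b6b779e96.shift 1 4)] (by decide +kernel))
noncomputable def rh125244764469c9ee : CRef := CRef.mk (Pat.mk 0x200000003c00000028000000000000000000000000 0xc0000002c0000003e0000002f0000007e0000007e0000001c 7 7) 0 0 (step_sound _ 67 [(rh12b4a26f370c6b53.shift 2 0), rh1ac771f043654656, (rh4054a53c669f4821.shift 1 0), (rh7a06040754dc7fdf.shift 1 0)] (by decide +kernel))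
noncomputable def rhad2697478edadd9f : CRef := CRef.mk (Pat.mk 0xf000000020 0x18e000000fe000001bf 7 9) 0 0 (step_sound _ 71 [(rh33e738c4ed385b9f.shift 4 1), rhd19a5c56299c5470] (by decide +kernel))
noncomputable def rhb7bd8dafc57eb419 : CRef := CRef.mk (Pat.mk 0x1c000000000000000000000000 0x2000000ff0000003e000000070000000400000004 7 8) 0 0 (step_sound _ 133 [(rh3c8a2aaa77cdb6c0.shift 0 2), (rh90fcc1b0fe0017ad.shift 1 3), (rhb8022f71dc28021b.shift 1 3), (rhba3fefaa894766da.shift 2 3), rhd563817defd8eec8] (by decide +kernel))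
noncomputable def rh22cbdfaf5b0c41b4 : CRef := CRef.mk (Pat.mk 0x3c0000000c000000080000000000000000 0x3c0000006c0000003c0000001f0000001f 7 7) 0 0 (step_sound _ 35 [(rh7b1f1fb55310c477.shift 2 0), rhaf7efdf73b7dab8e] (by decide +kernel))
noncomputable def rhcf483003b89e3189 : CRef := CRef.mk (Pat.mk 0x40000000c000000380000000000000000 0x800000018000000180000001c0000001c0000003c0000000f0000000c 7 6) 0 0 (step_sound _ 35 [(rh7b1f1fb55310c477.shift 2 0), rhfdccb31c146e6f09] (by decide +kernel))
noncomputable def rh8517e4bd72fa27d4 : CRef := CRef.mk (Pat.mk 0xc0000001800000010 0x1c0000001c000000ff000000ff0000001b00000012 7 8) 0 0 (step_sound _ 65 [rh967c26fd716e95a8, (rhb739f4f82bb681b4.shift 0 1)] (by decide +kernel))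
noncomputable def rh10761ce20d656f96 : CRef := CRef.mk (Pat.mk 0x20000000600000002000000000000000000000000 0x4000000070000000700000007000000060000000600000002000000070000000700000005 7 3) 0 0 (step_sound _ 65 [(rh2d029b7490692967.shift 0 1), rh6eff4158bb400f47, (rha707fb719e87fe6e.shift 1 1)] (by decide +kernel))
noncomputable def rh58545f7274ae2016 : CRef := CRef.mk (Pat.mk 0x100000001e00000010000000000000000000000000 0x200000003800000038000000180000001e0000001b000000380000003800000028 7 6) 0 0 (step_sound _ 97 [(rh7b914b4d17019098.shift 3 0), (rheb0810cc63b001d8.shift 0 3)] (by decide +kernel))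
noncomputable def rh6f954c65f570d97d : CRef := CRef.mk (Pat.mk 0x80000000f00000000000000000000000000000000 0x100000001c0000001c0000000c0000000f0000001c0000001c0000001c00000014 7 5) 0 0 (step_sound _ 99 [(rh7b914b4d17019098.shift 2 0), (rhe25b0a99195a5d59.shift 0 3)] (by decide +kernel))
noncomputable def rh6ec47b24d886c9e2 : CRef := CRef.mk (Pat.mk 0x18000000080000003800000008 0x20000000640000007f0000007f0000003800000008 7 7) 0 0 (step_sound _ 98 [(rh50fbb5868c909700.shift 2 0), (rh7074c509649dda25.shift 0 1)] (by decide +kernel))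
noncomputable def rhd10d1c9d6b106139 : CRef := CRef.mk (Pat.mk 0x4000000070000001400000000000000000000000000000000 0x8000000080000000c0000003e0000001700000014000000140000000e0000000e0000000a 7 6) 0 0 (step_sound _ 195 [(rh3105794ef2f0e619.shift 1 3), (rh80f90a60d87caa0d.shift 0 5), (rhe8826dab31f3e5a9.shift 1 0)] (by decide +kernel))
noncomputable def rh27acb52e4711b1c0 : CRef := CRef.mk (Pat.mk 0x20000000300000006000000000000000000000000 0x1000000030000000700000006000000070000000700000006000000030000000300000001 7 3) 0 0 (step_sound _ 65 [(rh0845c696443da834.shift 0 2), rh5192e84255fe3228, rhcab3157f7bdcba3e] (by decide +kernel))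
noncomputable def rh31cb27d05bff377f : CRef := CRef.mk (Pat.mk 0x40000000400000002000000020000000800000000 0x4000000040000007c0000003e0000007b0000000800000008 7 7) 0 0 (step_sound _ 98 [rh07b63021ebbf206b, (rh5c5e593799055d58.shift 1 2)] (by decide +kernel))
noncomputable def rhacf1818e0d2ee236 : CRef := CRef.mk (Pat.mk 0x800000004000000040000001c00000000 0x60000000f0000003c0000000f0000001c00000014 7 6) 0 0 (step_sound _ 99 [rh03a334a9493a1b22, (rh71222050f2c63a3a.shift 2 0)] (by decide +kernel))
noncomputable def rh4545818fcdb53125 : CRef := CRef.mk (Pat.mk 0x200000002000000020000000600000000000000000000000000000000 0x10000000300000003000000060000000600000003000000070000000700000004 7 3) 0 0 (step_sound _ 224 [rh4bcd8f4624a9ed68, (rh50fbb5868c909700.shift 0 4)] (by decide +kernel))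
noncomputable def rhd5cba93dd47f4229 : CRef := CRef.mk (Pat.mk 0x80000000c000000380000000000000000 0x1000000010000000340000007c0000002f000000380000002800000008 7 7) 0 0 (step_sound _ 97 [(rh58883927da1fd3ed.shift 1 0), (rhb739f4f82bb681b4.shift 0 2)] (by decide +kernel))
noncomputable def rhb8c0b13fd7038773 : CRef := CRef.mk (Pat.mk 0x40000000c0000001c 0x30000000300000007f0000007f0000001c 7 7) 0 0 (step_sound _ 33 [rhb739f4f82bb681b4, rhfe7b6743425fbf51] (by decide +kernel))
noncomputable def rhbcd3e96d5391dc8c : CRef := CRef.mk (Pat.mk 0x400000004000000040000001c00000000 0x1a0000007f0000003f0000000c0000001c00000010 7 7) 0 0 (step_sound _ 131 [rh0bf50f1ba706dfbb, (rh2f68792b6b779e96.shift 2 1)] (by decide +kernel))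
noncomputable def rh2888de0cabfd5f6b : CRef := CRef.mk (Pat.mk 0x400000004000000040000001400000000 0x80000003c0000007f000000360000001400000014 7 7) 0 0 (step_sound _ 131 [(rh2f68792b6b779e96.shift 2 1), rh8ef5cc14c86f766e] (by decide +kernel))
noncomputable def rhde0d3be00b08efa8 : CRef := CRef.mk (Pat.mk 0x80000000c000000380000000000000000 0x10000000100000001c0000007c0000002f000000380000002800000008 7 7) 0 0 (step_sound _ 97 [(rh5371a9ff125f7805.shift 1 0), (rhb739f4f82bb681b4.shift 0 2)] (by decide +kernel))
noncomputable def rh5a4f84b8b3d73765 : CRef := CRef.mk (Pat.mk 0x20000001e0000000200000000000000000000000000000000 0x50000000700000007000000020000001e0000003600000007000000070000000700000004 7 6) 0 0 (step_sound _ 225 [rh2b4921d7d65a5cdf, (rhd4b4beefcd67f51e.shift 1 3), (rheec8ae7ada8ac4e3.shift 0 4)] (by decide +kernel))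
noncomputable def rh2edc8189a03f679a : CRef := CRef.mk (Pat.mk 0x1800000038000000200000000000000000 0x1c0000003f0000007f0000003800000038000000280000000800000008 7 7) 0 0 (step_sound _ 163 [(rh2b4f3c0785538b0e.shift 0 2), (rh9be513b18bc3ec68.shift 3 2), (rhc6520a7e76d1fddc.shift 0 1), (rhd7a9d95b0c04a4c1.shift 0 2), (rhf7c77fe48087fd5b.shift 2 0)] (by decide +kernel))
noncomputable def rhe04a610fe9f637eb : CRef := CRef.mk (Pat.mk 0x60000001c000000080000000800000000 0x80000000a0000000e0000001f0000007c0000001f00000016 7 7) 0 0 (step_sound _ 68 [(rh6292bd8784ece55f.shift 1 2), rh943fed4b2f26fe17, rhc8f82a2c72565602] (by decide +kernel))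
noncomputable def rh05840e4517ea668f : CRef := CRef.mk (Pat.mk 0xc000000070000000400000000 0x80000000e0000000e0000000e0000000c0000000c000000070000001e0000000a 7 5) 0 0 (step_sound _ 130 [(rh03dfdf12d5937476.shift 1 0), (rh5b85ac987260870e.shift 1 1), rhb379f99078aafa2d] (by decide +kernel))
noncomputable def rhe8206a95d721392b : CRef := CRef.mk (Pat.mk 0x4000000040000000e0000000600000000 0x3a0000003e000000360000001f0000003e00000004 7 6) 0 0 (step_sound _ 129 [(rh50fbb5868c909700.shift 1 1), rhbfcde629ebb7f226] (by decide +kernel))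
noncomputable def rhffdaa013da77b9ab : CRef := CRef.mk (Pat.mk 0x10000000380000000800000008000000000000000000000000 0xc0000000c0000004c000000d80000007c000001f80000007e000000f70000001000000010 7 9) 0 0 (step_sound _ 101 [(rh041f17bd144d76bd.shift 0 2), (rh239c77a27785e809.shift 2 0), (rh588882c60a173ffc.shift 2 2), (rhe66b4db3ec42d947.shift 2 2)] (by decide +kernel))
noncomputable def rhb9dcd71d075898ef : CRef := CRef.mk (Pat.mk 0x200000006000000030000000000000000 0x400000007000000070000000300000007000000070000000600000004 7 3) 0 0 (step_sound _ 34 [(rh331a7c318f5f9a02.shift 0 1), (rh390a8df03c6c5a62.shift 1 0), (rh478c4cadbcd4e066.shift 1 0), rha81a8f9351dce681] (by decide +kernel))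
noncomputable def rh7b52c4848c5e6375 : CRef := CRef.mk (Pat.mk 0x1000000010000000180000001000000000 0x8000000180000001800000038000000ff0000002e 7 8) 0 0 (step_sound _ 35 [(rh932754581e0f4330.shift 3 0), rhe27111ad792274ca] (by decide +kernel))
noncomputable def rhd17b02394cb1aa3a : CRef := CRef.mk (Pat.mk 0x4000000040000001c0000000000000000000000000000000000000000 0x4000000040000003c0000000f0000000e0000000e0000000e00000008 7 6) 0 0 (step_sound _ 130 [(rh1409e9f995b4c970.shift 0 3), (rh157b220518f94713.shift 1 3), (rh8435f16c73c7f2d9.shift 1 0)] (by decide +kernel))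
noncomputable def rh5670a56ed1c986d1 : CRef := CRef.mk (Pat.mk 0x3000000060000000200000000 0x1000000070000001f0000001f00000007000000060000000600000004 7 5) 0 0 (step_sound _ 129 [(rh14f80659e6313cc6.shift 1 1), (rh35c5f1c53251aa1b.shift 0 1), rh796a9789bfc927af, (rhd4b4beefcd67f51e.shift 1 0)] (by decide +kernel))
noncomputable def rh3273a2aac3e47810 : CRef := CRef.mk (Pat.mk 0x8000000180000000c0000000800000000000000000000000000000000 0x40000000f000000180000001c0000000c0000000c0000001c0000001c00000010 7 5) 0 0 (step_sound _ 226 [(rh50fbb5868c909700.shift 2 4), rh9c7c89bed7c21dd7] (by decide +kernel))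
noncomputable def rh774cc5aaafb0c16f : CRef := CRef.mk (Pat.mk 0x30000000e0000000300000000 0x50000000f0000001f0000001b0000000f0000000700000004 7 5) 0 0 (step_sound _ 129 [(rh14f80659e6313cc6.shift 1 1), rh301f1d1e45f49dfc, (rhe62cab2ff5ad6fe2.shift 0 1)] (by decide +kernel))
noncomputable def rh523a54872a6739c6 : CRef := CRef.mk (Pat.mk 0x8000000380000000c00000000000000000000000000000000 0x40000000f0000003c0000001c0000001c0000001c0000001c00000008 7 6) 0 0 (step_sound _ 98 [(rh42548283029e2a39.shift 2 1), rhe8f7687784968d5c, (rhf9af042da61fc652.shift 2 1)] (by decide +kernel))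
noncomputable def rhb0662891be3a6b4b : CRef := CRef.mk (Pat.mk 0x800000008000000380000000000000000000000000000000000000000 0x340000007c0000006f00000038000000180000001c0000001c0000001c00000010 7 7) 0 0 (step_sound _ 131 [(rh5ee4dc8825dcefa0.shift 0 3), (rh8435f16c73c7f2d9.shift 2 0), (rh95db920f843d9a42.shift 1 3), (rhf5e394b641108220.shift 2 2)] (by decide +kernel))
noncomputable def rh9b5d94a5bb3a6631 : CRef := CRef.mk (Pat.mk 0x40000001c00000008000000000000000000000000 0xc0000000c0000000c0000003c0000000f000000060000000600000006 7 6) 0 0 (step_sound _ 194 [(rh2145e1d24b96a57e.shift 2 3), rhbe3a0307df134d82] (by decide +kernel))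
noncomputable def rh86c5deb207e5fc66 : CRef := CRef.mk (Pat.mk 0x8000000080000000c00000006000000000000000000000000 0x160000001f0000003c0000000c0000000e0000001a0000001800000018 7 6) 0 0 (step_sound _ 99 [(rh18b49738f4e5d343.shift 1 2), (rh7c8e3cdf6c231320.shift 0 2), (rh82c6aec0c6f8e399.shift 2 0)] (by decide +kernel))
noncomputable def rh85714628d35c251b : CRef := CRef.mk (Pat.mk 0x6000000020000000600000000 0x40000000700000007000000070000000600000006000000020000000600000004 7 3) 0 0 (step_sound _ 129 [(rh55afc6a59410cf00.shift 1 0), (rh8460eb502a58a198.shift 0 1)] (by decide +kernel))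
noncomputable def rh8eb27402c326cdee : CRef := CRef.mk (Pat.mk 0x400000007000000010000000300000000 0x200000006000000070000000f0000001b0000001f0000001c 7 5) 0 0 (step_sound _ 129 [rh248ba068e4157087, (rhbfb5770941270498.shift 0 1)] (by decide +kernel))
noncomputable def rh49917ede3feeadc8 : CRef := CRef.mk (Pat.mk 0x380000000800000008000000000000000000000000 0x2800000038000000180000003f000000fc0000003c00000014 7 8) 0 0 (step_sound _ 68 [(rh2977b00063528966.shift 3 0), (rh6f022302a8eeec88.shift 2 0), (rh7138ef1aa5ce54f0.shift 1 1), (rhb878dfe31a02c2d5.shift 3 1), (rhfa80626feb4e9cb5.shift 0 1)] (by decide +kernel))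
noncomputable def rh77641f47b2a374a3 : CRef := CRef.mk (Pat.mk 0x30000000e0000000200000000 0x1000000070000000f0000001f0000001f0000000e0000000600000004 7 5) 0 0 (step_sound _ 129 [(rh14f80659e6313cc6.shift 1 1), rh301f1d1e45f49dfc, (rh35c5f1c53251aa1b.shift 0 1), (rhd4b4beefcd67f51e.shift 1 0)] (by decide +kernel))
noncomputable def rh9d09afa3c53117ee : CRef := CRef.mk (Pat.mk 0xa000000180000000800000000000000000000000000000000 0x40000000f0000001800000018000000180000001c0000001c00000004 7 5) 0 0 (step_sound _ 194 [(rh32a427049fd021cb.shift 2 0), (rhb739f4f82bb681b4.shift 0 5)] (by decide +kernel))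
noncomputable def rh0de485c32d3a2af6 : CRef := CRef.mk (Pat.mk 0x2000000060000000300000000000000000000000000000000 0x40000000600000006000000070000001f0000001f0000000700000004 7 5) 0 0 (step_sound _ 97 [(rh127b405bd7f7b930.shift 1 1), rh8a1bd34420cccc7f, (rha707fb719e87fe6e.shift 1 2), (rhf75ea05cf792f6ab.shift 0 2)] (by decide +kernel))
noncomputable def rh8caca789e510fe4e : CRef := CRef.mk (Pat.mk 0x200000006000000020000000600000000 0x40000000700000007000000030000000600000006000000060000000700000001 7 3) 0 0 (step_sound _ 161 [rh47b2f1c5c9d80d18, (rhd3458b32566d63f7.shift 1 1)] (by decide +kernel))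
noncomputable def rhd01a0964abcfba9b : CRef := CRef.mk (Pat.mk 0x20000000200000002000000060000000000000000 0x50000000700000007000000020000000200000006000000070000000300000001 7 3) 0 0 (step_sound _ 193 [rh428dee20ff218f33, (rhd3458b32566d63f7.shift 1 2)] (by decide +kernel))
noncomputable def rh29825481e127561a : CRef := CRef.mk (Pat.mk 0x100000007000000000 0x180000001c0000001c000000ff0000007e0000000f 7 8) 0 0 (step_sound _ 35 [rh15b856e33c69f807, (rh592c7139d2c44767.shift 1 0), (rh915c3ff3d4fe3a39.shift 1 1), (rh9e97bba44c1b13e4.shift 1 0), (rhdca1a5b980ca5325.shift 2 0)] (by decide +kernel))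
noncomputable def rhc4e930da04ec408e : CRef := CRef.mk (Pat.mk 0x100000007000000000 0x3f7000001fe0000038e 7 10) 0 0 (step_sound _ 71 [rh3d92b62a1b4cc5a5, (rha0d2d254997cad6c.shift 4 0), (rhb8022f71dc28021b.shift 3 1)] (by decide +kernel))
noncomputable def rh19998c8d70ff41c8 : CRef := CRef.mk (Pat.mk 0x800000008000000180000000800000000 0x140000003c0000000f000000180000000f0000000c 7 6) 0 0 (step_sound _ 34 [(rh932754581e0f4330.shift 2 0), rhb5a4a55aeb8feb4e] (by decide +kernel))
noncomputable def rh52d79f7d14401584 : CRef := CRef.mk (Pat.mk 0x3800000010 0x1c7000001fe000003f7 7 10) 0 0 (step_sound _ 34 [rh775ca1963e850b80, (rh97e6c2331b3e7b97.shift 1 0), (rha03f6e28ea70fc7d.shift 1 0)] (by decide +kernel))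
noncomputable def rhba30c314e68de89f : CRef := CRef.mk (Pat.mk 0x80000000c00000008000000080000000000000000 0x80000000c0000003f0000003f0000001700000002 7 6) 0 0 (step_sound _ 66 [rh084c67c001a79fc0, (rh932754581e0f4330.shift 2 1)] (by decide +kernel))
noncomputable def rhbd8175745d706300 : CRef := CRef.mk (Pat.mk 0x180000000c000000080000000800000000000000000000000000000000 0x780000000c0000007c0000001f0000000c0000001c0000001c00000014 7 7) 0 0 (step_sound _ 229 [(rh18965a982d73c794.shift 2 6), rh67a9dbdf12fd5db7] (by decide +kernel))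
noncomputable def rh7c669aef4204a2e8 : CRef := CRef.mk (Pat.mk 0x600000003000000020000000200000000000000000000000000000000 0x1e00000003000000070000000600000006000000070000000700000005 7 5) 0 0 (step_sound _ 227 [(rh18965a982d73c794.shift 0 6), rh3e4990bf326add1a] (by decide +kernel))
noncomputable def rh9dfc49258ac2b722 : CRef := CRef.mk (Pat.mk 0xc00000018000000000000000000000000 0x400000077000000ff0000001f000000030000000300000002 7 8) 0 0 (step_sound _ 129 [rhaa726c25e33d80d8, (rhb739f4f82bb681b4.shift 0 3)] (by decide +kernel))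
noncomputable def rh253d10b60a21d570 : CRef := CRef.mk (Pat.mk 0x1800000030000000000000002000000020 0x6000000060000001fc000001f8000000ff000000c70000006000000020 7 9) 0 0 (step_sound _ 102 [rh3bfd4a7b99f4c090, (rhf48373e13d2bc128.shift 3 3)] (by decide +kernel))
noncomputable def rhd30b1952c8264c07 : CRef := CRef.mk (Pat.mk 0x80000000000000018000000100000000000000000 0x140000001e00000078000000380000001f0000001c00000010 7 7) 0 0 (step_sound _ 131 [(rh08edf065357d68e5.shift 3 0), (rh79ad7b82ec8c35e2.shift 3 0), (rh9adf26149cd3da8c.shift 0 1)] (by decide +kernel))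
noncomputable def rh777017bc36e309be : CRef := CRef.mk (Pat.mk 0x600000004000000060000000400000000 0xc0000000f0000003c0000000e0000003c00000018 7 6) 0 0 (step_sound _ 35 [(rh55afc6a59410cf00.shift 2 0), rhdb466f1d0808608b] (by decide +kernel))
noncomputable def rh254bc37f6c3c2644 : CRef := CRef.mk (Pat.mk 0x180000000c000000080000000800000000 0x20000000780000001c000001f8000000ff000001f4 7 9) 0 0 (step_sound _ 36 [(rh55afc6a59410cf00.shift 3 0), rhc6d4f4be371c18bb] (by decide +kernel))
noncomputable def rh9f22ed1db2116f25 : CRef := CRef.mk (Pat.mk 0x100000002000000030000000200000000 0x70000000700000006000000070000001e0000000e 7 5) 0 0 (step_sound _ 129 [rh2d6c92ff65c1169c, (rh50fbb5868c909700.shift 0 1)] (by decide +kernel))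
noncomputable def rhb0563d0efaec83fa : CRef := CRef.mk (Pat.mk 0x80000001800000000000000180000001000000000 0x1ef000000fe000001e700000038000000f000000060 7 9) 0 0 (step_sound _ 133 [(rh5b4913fc800fbe63.shift 0 1), (rh9c94213f6896c74a.shift 2 3), (rha9fbfd4bb8cf890b.shift 0 4), (rhcaff4701fd7d277b.shift 2 0)] (by decide +kernel))
noncomputable def rh15a7669017a630f7 : CRef := CRef.mk (Pat.mk 0x20000000000000004000000040000000400000000 0xe0000000e000000040000003c0000000f0000000a 7 6) 0 0 (step_sound _ 130 [rhbf5b792126ec9b29, (rhffd04209dc8ea796.shift 1 1)] (by decide +kernel))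
noncomputable def rhcafc93ffc83e8714 : CRef := CRef.mk (Pat.mk 0x600000003000000020000000200000000000000000000000000000000 0x1e00000007000000070000000600000006000000060000000600000004 7 5) 0 0 (step_sound _ 227 [(rh18965a982d73c794.shift 0 6), rhee79d57fb93e8945] (by decide +kernel))
noncomputable def rh079a5af6c0978d8a : CRef := CRef.mk (Pat.mk 0x8000000080000001800000000000000000000000000000000 0x40000000c0000001c000000380000001f0000001c0000001c0000000c 7 6) 0 0 (step_sound _ 100 [(rh08edf065357d68e5.shift 3 1), rh37a366f51b0427a3, (rh79ad7b82ec8c35e2.shift 3 1)] (by decide +kernel))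
noncomputable def rhd95db1b062f8fd3b : CRef := CRef.mk (Pat.mk 0x2000000020000000600000000000000000000000000000000 0x5000000070000000700000003000000060000000600000003000000070000000700000004 7 3) 0 0 (step_sound _ 224 [(rh114f4abf4ea101c9.shift 0 3), (rh42c8ae686d713d97.shift 0 4), rh784b5632e0de6fc9] (by decide +kernel))
noncomputable def rh18c0a67b92d2a199 : CRef := CRef.mk (Pat.mk 0x3800000010 0x7000000fe000001ff 7 9) 0 0 (step_sound _ 38 [(rh9ab60d74117ac343.shift 3 0), (rhaf9f2efc81a8312b.shift 2 0), rhbb13f9e1d387f64a] (by decide +kernel))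
noncomputable def rhd7c2bda029eef8f6 : CRef := CRef.mk (Pat.mk 0xc000000080000000800000000 0x80000001e0000003f0000003f0000003c0000001c00000004 7 6) 0 0 (step_sound _ 131 [(rh20ee5c2c4c3a9878.shift 0 1), (rh340635556be1dbb8.shift 0 1), rhf9a9d9c1750d420a] (by decide +kernel))
noncomputable def rhfe0bd507445a38e1 : CRef := CRef.mk (Pat.mk 0x800000008000000080000001800000000 0x8000000080000007f000000ff000000e4 7 8) 0 0 (step_sound _ 34 [(rh932754581e0f4330.shift 2 0), rhfeb0a7f75f9f287a] (by decide +kernel))
noncomputable def rh1753b9b34bc089ac : CRef := CRef.mk (Pat.mk 0x8000000180000001000000010 0x6000000060000001ef000000fe000001f700000030 7 9) 0 0 (step_sound _ 69 [rh11660d8aab237291, (rh28b05447332bc696.shift 1 0), (rh4a0cb3a9508b05dd.shift 2 1), (rha9fbfd4bb8cf890b.shift 0 2), (rhfd07ec84b90b0eb1.shift 2 0)] (by decide +kernel))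
noncomputable def rh3c0a2243fdd94110 : CRef := CRef.mk (Pat.mk 0xe000000180000000000000010 0x34000000340000003f0000003e0000001b0000001200000010 7 6) 0 0 (step_sound _ 100 [rh0bc9bb32df19cee7, rh3323730619c89fd4, (rhb218ed1e2f167f52.shift 0 1), rhc876342db1d01ce9, (rhf5d79617814d6ea1.shift 1 0)] (by decide +kernel))
noncomputable def rh47d6d5a736d16709 : CRef := CRef.mk (Pat.mk 0x60000001c0000000000000008 0x140000003e0000003e0000001f0000003800000008 7 6) 0 0 (step_sound _ 35 [rh3230cb3d8d842a78, rh4645c49ba201db05, (rhc89253ff58c66167.shift 2 0)] (by decide +kernel))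
noncomputable def rhb0941db69d69c397 : CRef := CRef.mk (Pat.mk 0x800000038000000000000001000000000 0x100000007f0000003e000000670000003000000030 7 7) 0 0 (step_sound _ 129 [(rh075211c3608a5a57.shift 0 3), rh45655b6362362285, (rh4b858afe2cb38247.shift 1 3), (rhc30259bd62f0e380.shift 0 3)] (by decide +kernel))
noncomputable def rh233bbb1d9d2da036 : CRef := CRef.mk (Pat.mk 0x20000000e000000000000000000000000 0x10000000300000007e0000003f000000780000000800000008 7 7) 0 0 (step_sound _ 132 [rh12ea257fe3cab258, (rh66705069e76f670f.shift 1 2), rh834ef1c974e4840e, (rh90fcc1b0fe0017ad.shift 0 3), (rh9578164826709400.shift 0 3)] (by decide +kernel))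
noncomputable def rh2008205575a72932 : CRef := CRef.mk (Pat.mk 0x80000000000000018000000100000000000000000 0x140000003c0000001f000000380000001f0000001c00000010 7 6) 0 0 (step_sound _ 131 [(rh08edf065357d68e5.shift 3 0), (rha5ad71a109986e64.shift 0 1), (rhdf2b2e14724960e3.shift 0 1)] (by decide +kernel))
noncomputable def rh11ee021565702802 : CRef := CRef.mk (Pat.mk 0x200000000000000060000000400000000000000000000000000000000 0x80000000e0000000e0000000e0000000e0000003c0000000f0000000e0000000a 7 6) 0 0 (step_sound _ 98 [(rh13cb012042c2699c.shift 1 2), (rh3a1cc22ead2eadb0.shift 1 2), rh94c118babe108846] (by decide +kernel))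
noncomputable def rh113a1773600061c3 : CRef := CRef.mk (Pat.mk 0xc0000000e000000080000000000000000 0xc0000007e0000007f0000003300000012 7 7) 0 0 (step_sound _ 100 [(rh12e5b245a9348161.shift 0 2), (rh87ee923877636e52.shift 1 2), (rh8a88abf038d31fd2.shift 0 2), rhd1f1a10296de2697] (by decide +kernel))
noncomputable def rh4b93d0909b3b61d0 : CRef := CRef.mk (Pat.mk 0x10000000600000003000000020000000200000000 0x40000000600000006000000030000001e00000007000000070000000600000004 7 5) 0 0 (step_sound _ 34 [(rh55afc6a59410cf00.shift 1 0), (rh799b0e31f9fb89b0.shift 0 1)] (by decide +kernel))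
noncomputable def rh738caa22c5c55d29 : CRef := CRef.mk (Pat.mk 0x600000004000000040000000c00000000 0xc0000000e0000003c0000000f0000003c00000014 7 6) 0 0 (step_sound _ 67 [rh13c281181c871aa9, (rh2145e1d24b96a57e.shift 2 1)] (by decide +kernel))
noncomputable def rh7764931c977aa17d : CRef := CRef.mk (Pat.mk 0x4000000000000000c0000000c000000000000000000000000 0xa0000000e0000000e0000000c0000000c000000070000003e0000000e 7 6) 0 0 (step_sound _ 66 [rh0bb3bf9cae16a8bf, (rh51aaf8b7bcb8eace.shift 1 2), (rh84d1c02a8954c6a8.shift 2 1)] (by decide +kernel))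
noncomputable def rhe4ad4db2c44f1024 : CRef := CRef.mk (Pat.mk 0x1800000018000000000000000000000000 0x100000001000000038000000ff000000ef0000002000000020 7 8) 0 0 (step_sound _ 98 [(rh87a80d039f1d0875.shift 1 0), (rhab2ad169e49f9c5e.shift 0 3), (rhfbafae97a595971a.shift 0 2)] (by decide +kernel))
noncomputable def rh44da5d4ea4446af5 : CRef := CRef.mk (Pat.mk 0x8000000000000001800000018000000000000000000000000 0x1800000018000000380000003f000000670000002000000020 7 7) 0 0 (step_sound _ 98 [(rh7096420deddb0df2.shift 0 2), (rh909dc93349c2378d.shift 1 0), (rhab2ad169e49f9c5e.shift 0 3)] (by decide +kernel))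
noncomputable def rhc11d355ecd6f77e1 : CRef := CRef.mk (Pat.mk 0x18000000080000000800000018 0x2800000078000000ee000000ff00000038 7 8) 0 0 (step_sound _ 36 [(rh2145e1d24b96a57e.shift 3 0), rhb27f28571e67c9a2] (by decide +kernel))
noncomputable def rhc58125ffe2e5a06a : CRef := CRef.mk (Pat.mk 0x400000002000000000000000600000000000000000000000000000000 0x5000000070000000700000006000000060000000600000003000000070000000700000004 7 3) 0 0 (step_sound _ 161 [(rh08d50fe567eb1045.shift 1 3), (rh739b1d2a1da9317d.shift 0 4), rhb10ebbd9973953c9] (by decide +kernel))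
noncomputable def rh02d8ab7abdb99fc6 : CRef := CRef.mk (Pat.mk 0x40000000600000002000000020 0x1000000010000003df000001fe000003be00000028 7 10) 0 0 (step_sound _ 68 [(rh2714673b4f57b0f6.shift 1 0), (rh4d63ff26ec2dbd2d.shift 0 1), (rh5c466db4c2d28f16.shift 2 0), (rha11dfd15f08f96e3.shift 3 2), (rhe3b9ae591612b554.shift 2 0)] (by decide +kernel))
noncomputable def rh3a68bee55ecc8c64 : CRef := CRef.mk (Pat.mk 0x10000000180000000c0000000000000004 0x3000000030000000320000001b0000003f0000003700000004 7 6) 0 0 (step_sound _ 65 [(rh53b3c253cb0c65f4.shift 0 2), rheb81e3aff294c7ec] (by decide +kernel))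
noncomputable def rh44a0b0645e159a0b : CRef := CRef.mk (Pat.mk 0x180000000c000000000000000c 0x170000007e0000007c0000000c0000000c 7 7) 0 0 (step_sound _ 35 [(rh2f68792b6b779e96.shift 3 0), rhbd290fe0f454bd3b] (by decide +kernel))
noncomputable def rhc4e6acfc5cb3d284 : CRef := CRef.mk (Pat.mk 0x18000000080000001000000018 0x2c0000007c0000006f0000007c00000018 7 7) 0 0 (step_sound _ 35 [(rh2145e1d24b96a57e.shift 3 0), rhd3dad72a4cac3b56] (by decide +kernel))
noncomputable def rh7c8de4660631900d : CRef := CRef.mk (Pat.mk 0x18000000080000001000000018 0x66000000fc000000ff0000003800000018 7 8) 0 0 (step_sound _ 101 [(rh2820ca9a6c4f41b4.shift 0 2), (rh3b730df1806736da.shift 2 0), (rh9e99f5bbdcd89b67.shift 1 0), (rhd533626e3eba7c93.shift 1 0)] (by decide +kernel))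
noncomputable def rhe85b72ef599eee0f : CRef := CRef.mk (Pat.mk 0x380000000800000000 0x1000000010000000ff0000007e000000e800000020 7 8) 0 0 (step_sound _ 98 [(rh8c12fdbbddc1e7ab.shift 0 2), (rh97986c9a896c836f.shift 2 1), (rhbe2a7fa56228b764.shift 1 0)] (by decide +kernel))
noncomputable def rhfce60f3021ad51c4 : CRef := CRef.mk (Pat.mk 0x1e000000000000000000000008 0x80000003b0000001e000000330000001800000018 7 6) 0 0 (step_sound _ 129 [(rh3244c3cc8379b070.shift 0 3), rh6cff7b3065f53f7c] (by decide +kernel))
noncomputable def rh3ca17e4fee8565ed : CRef := CRef.mk (Pat.mk 0x780000001000000000 0x10000000100000003e0000007f0000001c00000008 7 7) 0 0 (step_sound _ 35 [rh7088a5034302b3ba, (rheb0810cc63b001d8.shift 2 1)] (by decide +kernel))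
noncomputable def rh8f229c06d46b02ca : CRef := CRef.mk (Pat.mk 0x80000000e0000000000000000 0x8000000080000007f000000fe000000f000000010 7 8) 0 0 (step_sound _ 68 [(rh1fc9a83231fa2929.shift 1 0), (rhab811305cf6ba46a.shift 0 1), (rhe401600d466b97cd.shift 0 1), (rhe6bdd62e1711df0b.shift 1 2)] (by decide +kernel))
noncomputable def rhc3071d6824a43022 : CRef := CRef.mk (Pat.mk 0x120000001c00000000 0x1b000000ff000000e7 7 8) 0 0 (step_sound _ 33 [(rh3244c3cc8379b070.shift 0 1), rh4157563391205dd5] (by decide +kernel))
noncomputable def rh20c24a0eac654bef : CRef := CRef.mk (Pat.mk 0x1000000018000000080000000800000000 0x1000000014000001f6000000fe000001ef0000002800000020 7 9) 0 0 (step_sound _ 164 [(rh5c5e593799055d58.shift 3 2), rh9fc4675d371cc985] (by decide +kernel))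
noncomputable def rh3a19539954ae406f : CRef := CRef.mk (Pat.mk 0x200000002000000000000000300000000 0x500000007000000070000000200000002000000060000000700000005 7 3) 0 0 (step_sound _ 65 [rh932754581e0f4330, rha087c6594f4bfb59] (by decide +kernel))
noncomputable def rhd63db467e92c08a7 : CRef := CRef.mk (Pat.mk 0x1800000008000000000000001800000000 0xc0000000c000000ef0000007e0000006f0000007e0000001800000008 7 8) 0 0 (step_sound _ 130 [(rh149c69a8be718d2c.shift 0 2), (rh3afc18e1291dc61b.shift 0 1), (rhb8dba82f772f939b.shift 1 1), rhcfa560c21c583976, (rhd35a20d59dadf053.shift 1 1), rhda8e1541dcadb2ff] (by decide +kernel))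
noncomputable def rhf4acbf93bc7547a5 : CRef := CRef.mk (Pat.mk 0x1c000000080000000c0000000000000000 0x80000001f000000780000001c0000007800000038 7 7) 0 0 (step_sound _ 100 [(rh2e41b20450b0fa6f.shift 2 0), (rh6292bd8784ece55f.shift 1 3), rhb04ec85e0e4bd851] (by decide +kernel))
noncomputable def rh7ed6cdaaaea6be97 : CRef := CRef.mk (Pat.mk 0x1c0000000200000010000000000000000000000000 0x80000001e0000003300000010000000380000003800000028 7 6) 0 0 (step_sound _ 161 [(rh33d3f1ba39b8bd00.shift 1 0), (rheb0810cc63b001d8.shift 0 4)] (by decide +kernel))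
noncomputable def rhe59b7a98c43f7d75 : CRef := CRef.mk (Pat.mk 0x1e00000002000000180000000000000000 0x10000000700000007000000070000001e000000060000001b0000000f00000005 7 5) 0 0 (step_sound _ 161 [(rh3244c3cc8379b070.shift 0 4), rhad3d2f9aa683e1b5] (by decide +kernel))
noncomputable def rhb4dd3024e9eddcfc : CRef := CRef.mk (Pat.mk 0x1c000000000000001000000000 0xf70000007e000000e70000003000000030 7 8) 0 0 (step_sound _ 101 [(rh592c7139d2c44767.shift 0 2), (rha93a5dd541ab8209.shift 2 2), (rhd88c62b1d0fa1b83.shift 1 0)] (by decide +kernel))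
noncomputable def rhfbd372f29bd5f32a : CRef := CRef.mk (Pat.mk 0x3800000000 0x1f7000000fe000001cf 7 9) 0 0 (step_sound _ 34 [(rh205dc383ce3b31ea.shift 1 0), (rh4c622fddc53a5f99.shift 0 1), rh592c7139d2c44767] (by decide +kernel))
noncomputable def rhb4a103fc3fcd20de : CRef := CRef.mk (Pat.mk 0x1e00000000 0x1c000000ff000000e7 7 8) 0 0 (step_sound _ 1 [rh91e69b47a2672d74, rheb0810cc63b001d8] (by decide +kernel))
noncomputable def rh318eb7dcb3606068 : CRef := CRef.mk (Pat.mk 0x3c00000000 0x1c000000ff000000e7 7 8) 0 0 (step_sound _ 1 [rh5074ff075b6db927, (rh80fcd6d0a18cb2dd.shift 1 0)] (by decide +kernel))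
noncomputable def rha18de4cdd43acdf0 : CRef := CRef.mk (Pat.mk 0x20000001e0000000000000000 0x3000000070000000f0000003e0000001e0000000700000002 7 6) 0 0 (step_sound _ 33 [rhbfa1bb315eb6e1bc, (rheb0810cc63b001d8.shift 0 1)] (by decide +kernel))
noncomputable def rhfbdfb4e52f05aa3e : CRef := CRef.mk (Pat.mk 0x3800000000 0x1ff000000fe000001ce 7 9) 0 0 (step_sound _ 34 [(rh205dc383ce3b31ea.shift 1 0), (rh4c622fddc53a5f99.shift 0 1), (rh5f7b3bfbaf903d4f.shift 1 0)] (by decide +kernel))
noncomputable def rh65d0e884e0bff30a : CRef := CRef.mk (Pat.mk 0xe00000018000000000000001800000000 0x30000000300000003f0000003e00000018000000100000001800000008 7 6) 0 0 (step_sound _ 132 [rh36f40e64822dff73, (rhd8e3ec04df043c57.shift 3 0), (rhf891ff19e1968bc2.shift 0 3)] (by decide +kernel))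
noncomputable def rh87aafd14c463e5b7 : CRef := CRef.mk (Pat.mk 0x18000000700000000000000020 0xa0000000f0000000f80000007f000000ef00000020 7 8) 0 0 (step_sound _ 67 [(rh185f35b8bd8ec37f.shift 1 1), (rh3e9601eff8aa538d.shift 0 1), (rh61e64c9f040d646e.shift 3 0)] (by decide +kernel))
noncomputable def rh0c9020b434a8db42 : CRef := CRef.mk (Pat.mk 0x1000000070000000000000002000000000 0x20000000fe0000007f000000ce0000006000000060 7 8) 0 0 (step_sound _ 99 [(rh5418bb250389bc85.shift 2 0), (rh592c7139d2c44767.shift 1 2), (rh7ea7fc06b99fa11c.shift 0 2), (rhe4e5aee7d112f7ce.shift 2 0)] (by decide +kernel))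
noncomputable def rh24726dd0acd20fd0 : CRef := CRef.mk (Pat.mk 0x800000000000000180000001000000000 0x38000000780000001e000000380000001f0000000c 7 7) 0 0 (step_sound _ 99 [(rh2145e1d24b96a57e.shift 3 1), rhefd8f0758b51c670] (by decide +kernel))
noncomputable def rh6681f9fd2b791c5e : CRef := CRef.mk (Pat.mk 0x80000001c000000100000000000000000 0x2000000028000001f80000007c0000003f000000170000000400000004 7 9) 0 0 (step_sound _ 163 [(rh2145e1d24b96a57e.shift 3 2), rhabaf0198068bc76f] (by decide +kernel))
noncomputable def rh2a52dfbcf05c9c1d : CRef := CRef.mk (Pat.mk 0x1e000000040000000000000000 0x4000000040000001f0000003f0000003300000002 7 6) 0 0 (step_sound _ 65 [(rheb0810cc63b001d8.shift 0 2), rhf83ffaa7923f3949] (by decide +kernel))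
noncomputable def rh2bcb18b48062717f : CRef := CRef.mk (Pat.mk 0x4000000060000000500000000000000000000000000000000 0xa0000000e0000000e0000000400000006000000070000001e0000000e0000000e00000002 7 5) 0 0 (step_sound _ 98 [(rh193da7fc9e1674f1.shift 1 2), (rh4ed972033d0a12ff.shift 1 0), (rh8cdd36b03d57a2f6.shift 1 1), (rh8ff71bc284510f75.shift 1 1), (rh934b7b499abbb98b.shift 0 2)] (by decide +kernel))
noncomputable def rhb57a8083f8ca7560 : CRef := CRef.mk (Pat.mk 0x2000000380000002800000000000000000000000000000000 0x140000001c0000001c0000002f000000780000003800000038000000300000001000000010 7 7) 0 0 (step_sound _ 195 [(rh05d00e7cfdb5e850.shift 0 5), (rh594e1a0e516c2324.shift 2 0)] (by decide +kernel))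
noncomputable def rh25cfa2e3599e03d0 : CRef := CRef.mk (Pat.mk 0x800000038000000080000000000000000 0x180000001c0000001f0000007e00000038000000080000000800000008 7 7) 0 0 (step_sound _ 132 [(rh84d1c02a8954c6a8.shift 3 1), (rhda49d08e88765cc3.shift 1 0), (rhdc9fa3497eb53270.shift 0 2)] (by decide +kernel))
noncomputable def rh987de4859019ea93 : CRef := CRef.mk (Pat.mk 0xe0000000200000000 0x8000000080000003b0000001f0000003300000010 7 6) 0 0 (step_sound _ 68 [rhdb416bc3effdda7a, (rheb0810cc63b001d8.shift 0 1)] (by decide +kernel))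
noncomputable def rh58f8b604a13370a2 : CRef := CRef.mk (Pat.mk 0xe0000000400000000000000000 0x800000019f000001fe000001ff0000004000000040 7 9) 0 0 (step_sound _ 100 [(rh430a50cdc91ff38c.shift 0 2), (rh7c524514a7849fc4.shift 3 0), (rha03f6e28ea70fc7d.shift 3 2)] (by decide +kernel))
noncomputable def rh6fe8496c91d726a0 : CRef := CRef.mk (Pat.mk 0x1e00000008000000000000000000000000 0xb0000003e0000003f000000300000001000000010 7 6) 0 0 (step_sound _ 100 [rh1f092b53c5372091, (rhe25b0a99195a5d59.shift 1 3)] (by decide +kernel))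
noncomputable def rhd19cf5ac549f4a83 : CRef := CRef.mk (Pat.mk 0xc0000001c000000080000000000000000 0xc0000001e0000007c0000001f0000001f 7 7) 0 0 (step_sound _ 35 [rh78d7d760078befda, (rh7b1f1fb55310c477.shift 2 0)] (by decide +kernel))
noncomputable def rhe6c7dc04a8014e12 : CRef := CRef.mk (Pat.mk 0x1c00000018000000000000000000000000 0xb0000003f0000001f000000300000001000000010 7 6) 0 0 (step_sound _ 129 [rh1f092b53c5372091, (rhb739f4f82bb681b4.shift 0 3)] (by decide +kernel))
noncomputable def rh4c4f2273129bb5c2 : CRef := CRef.mk (Pat.mk 0x700000006000000000000000000000000 0x40000000e0000001e000000070000001e0000000e0000000e0000000c 7 5) 0 0 (step_sound _ 99 [rhc804cf998c08629d, (rhf48373e13d2bc128.shift 0 3)] (by decide +kernel))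
noncomputable def rhea09e8ca18ba811d : CRef := CRef.mk (Pat.mk 0xe0000000400000000000000000 0x8000000080000001df000000fe0000007f0000004000000040 7 9) 0 0 (step_sound _ 100 [(rh05b9ad096e06d11f.shift 2 2), (rh430a50cdc91ff38c.shift 0 2), (rh6eb76252a9026692.shift 4 0)] (by decide +kernel))
noncomputable def rh6c70cd8edd1048ed : CRef := CRef.mk (Pat.mk 0x1c00000008000000080000000000000000 0x10000000300000003f0000007f000000780000002000000020 7 7) 0 0 (step_sound _ 100 [(rh6292bd8784ece55f.shift 1 3), rhb1ffd8f819b295b8, (rhee92c360535a626f.shift 0 2)] (by decide +kernel))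
noncomputable def rh88ce1fac95468013 : CRef := CRef.mk (Pat.mk 0xe00000004000000040000000000000000 0x40000000f0000003c0000003c0000000f0000000e 7 6) 0 0 (step_sound _ 99 [(rh6292bd8784ece55f.shift 0 3), rh7b42cdbb1c30cdfc] (by decide +kernel))
noncomputable def rh5b7ca4db1cccfee4 : CRef := CRef.mk (Pat.mk 0x2000000060000000c000000040000000000000000 0x5000000170000003e0000003f0000003e0000000a00000008 7 6) 0 0 (step_sound _ 100 [rh0404ae5794f766b5, (rhf48373e13d2bc128.shift 1 3)] (by decide +kernel))
noncomputable def rha6e05ebcae4bd784 : CRef := CRef.mk (Pat.mk 0x20000000e000000080 0x3f000000fe0000018e 7 9) 0 0 (step_sound _ 36 [rh30db8da99646143a, (rhe25b0a99195a5d59.shift 4 0)] (by decide +kernel))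
noncomputable def rhce36d1d0a12d83b5 : CRef := CRef.mk (Pat.mk 0xe0000000000000004000000000000000000000000 0x140000001c0000001c0000001f000000780000001c0000001c0000001c00000014 7 7) 0 0 (step_sound _ 131 [(rh8ee80cc30e93a344.shift 0 4), (rhc2c9f92e4931be7b.shift 1 1), rhd860c1abe0894a1a] (by decide +kernel))
noncomputable def rhf3ebecfbaa6af23d : CRef := CRef.mk (Pat.mk 0x800000008000000080000000800000000 0x800000008000000ff0000007e000000f4 7 8) 0 0 (step_sound _ 36 [(rh55afc6a59410cf00.shift 3 0), rhe784abf069f814d5] (by decide +kernel))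
noncomputable def rh186053564856558b : CRef := CRef.mk (Pat.mk 0x10000000100000000000000038000000200000000000000000 0x140000001c0000000f0000007e0000003e0000000e00000004 7 7) 0 0 (step_sound _ 98 [(rh572bede94bee5b9d.shift 1 0), (rh67fae0f1b92e06b7.shift 1 1), (rhd1d05263fabc0227.shift 0 2)] (by decide +kernel))
noncomputable def rh7a54cd989a06711e : CRef := CRef.mk (Pat.mk 0x8000000080000000800000008 0xc0000000c0000000c0000000f0000003c0000001c 7 6) 0 0 (step_sound _ 130 [rh8b0c335e49a23e7e, (rhffd04209dc8ea796.shift 2 0)] (by decide +kernel))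
noncomputable def rhe62a1d2b4d8a34e1 : CRef := CRef.mk (Pat.mk 0x100000001000000018000000000000002000000000 0x100000007c000000fe0000002f0000007c00000008 7 8) 0 0 (step_sound _ 67 [(rh20da1d311a4882e1.shift 1 1), rh9a909b3557b462bd, (rhf9af042da61fc652.shift 3 0)] (by decide +kernel))
noncomputable def rh8d7fcb04c75a10fa : CRef := CRef.mk (Pat.mk 0x20000000e0000000000000004000000040 0x1f7000003fe0000009c000003d0000000f8 7 10) 0 0 (step_sound _ 100 [(rh60d3bdac986adef6.shift 3 3), (rh6c21600e29956ae7.shift 3 0), (rh9e97bba44c1b13e4.shift 2 2), (rhc236aaae5bd29815.shift 0 2)] (by decide +kernel))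
noncomputable def rh05e384b6cfae8b91 : CRef := CRef.mk (Pat.mk 0x800000038000000000000001000000010 0x78000000ff000000e70000003000000010 7 8) 0 0 (step_sound _ 98 [(rh07aebf238cfe606a.shift 0 2), (rh1fbc9fee05401eba.shift 2 0), (rh9e97bba44c1b13e4.shift 0 2)] (by decide +kernel))
noncomputable def rh5f6758d007239774 : CRef := CRef.mk (Pat.mk 0x20000000e0000000000000004000000040 0x1f7000000fe0000019c000000c000000040 7 9) 0 0 (step_sound _ 100 [(rh1fbc9fee05401eba.shift 4 0), (rhc236aaae5bd29815.shift 0 2)] (by decide +kernel))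
noncomputable def rh2c1e347647a4d3ba : CRef := CRef.mk (Pat.mk 0xc00000008000000080000000800000000 0xf0000000ff0000007f000000080000000c00000004 7 8) 0 0 (step_sound _ 132 [rh15d6cb490ff76dea, (rh2f68792b6b779e96.shift 3 1)] (by decide +kernel))
noncomputable def rhca69a29e565b8869 : CRef := CRef.mk (Pat.mk 0x20000000600000004000000040 0x1000000090000001bf000001fe000003ce00000048 7 10) 0 0 (step_sound _ 68 [rh53e82a7e7c085009, (rh5a1dc4f1ba2ce0d6.shift 0 1), (rh8ee80cc30e93a344.shift 3 1), (rhcced840e0475f351.shift 3 0)] (by decide +kernel))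
noncomputable def rhdbc6496f4a07717a : CRef := CRef.mk (Pat.mk 0x800000018000000180000000000000000 0x30000000300000003f0000007f0000007e0000000600000004 7 7) 0 0 (step_sound _ 98 [(rh2048d06f84da4daa.shift 0 2), (rh5e2aec0cdc9b1313.shift 1 0), (rhad5d8fc3675c15dd.shift 0 2)] (by decide +kernel))
noncomputable def rh1b16bcde06c74493 : CRef := CRef.mk (Pat.mk 0x800000008000000180000000000000000 0x140000001c0000001c0000000c0000003f0000003f0000000700000002 7 6) 0 0 (step_sound _ 66 [(rh1a4a2d7ee39b16f9.shift 2 1), (rh68a777751bfeafdf.shift 2 1), rh9a7b7d54bf92be23] (by decide +kernel))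
noncomputable def rh07577e08e2b20335 : CRef := CRef.mk (Pat.mk 0x80000001c000000100000001000000000 0x6000000170000007f0000007c0000003e0000003800000028 7 7) 0 0 (step_sound _ 130 [(rh79b3c29022acbdf3.shift 1 3), rhd98b4ac71925cca5, (rhf31e8e8c36ac2538.shift 1 1)] (by decide +kernel))
noncomputable def rhf07b9de6ee187202 : CRef := CRef.mk (Pat.mk 0x38000000100000000000000000 0x10000000300000007f0000007e0000006800000028 7 7) 0 0 (step_sound _ 98 [(rha03f6e28ea70fc7d.shift 1 2), rhaa2e758fc2005eec, (rhd790f0a30753ef9b.shift 1 0)] (by decide +kernel))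
noncomputable def rh40c51bbe02c02488 : CRef := CRef.mk (Pat.mk 0x40000001c000000080000000800000000 0xb0000003f0000001f0000003f0000003c00000014 7 6) 0 0 (step_sound _ 131 [rh79b4991c35df3f24, rh7e82451033ba2948, rhc35b191691153e69] (by decide +kernel))
noncomputable def rh20a37573e9658038 : CRef := CRef.mk (Pat.mk 0xe000000180000000000000000 0x4000000040000000f0000003e0000001f0000000f0000000a 7 6) 0 0 (step_sound _ 130 [rh11cb38a0e0d3e51d, rh86a5f89b39456ed5, (rhc2c7bae8f445c890.shift 2 0)] (by decide +kernel))
noncomputable def rhb7d9aa30228ee4c3 : CRef := CRef.mk (Pat.mk 0x18000000700000000000000020000000000000000000000000 0x28000000bc000000f80000007f000003de000000f0000000e0000000e0000000a0 7 10) 0 0 (step_sound _ 134 [(rh063cf3080212b528.shift 0 4), (rh2eb22ef0675872d1.shift 2 2), (rh5f357e601b0077e0.shift 2 0), (rh5f6cfa2de7644c22.shift 3 0), (rh62e4fbe425dea25a.shift 2 3)] (by decide +kernel))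
noncomputable def rhe80b1265aa879ad7 : CRef := CRef.mk (Pat.mk 0x400000004000000000000000c00000018 0x400000004000000060000000600000073000000ff0000001f 7 8) 0 0 (step_sound _ 33 [rha9f17b3251ebe0df, rhb739f4f82bb681b4] (by decide +kernel))
noncomputable def rhd9dc983537091330 : CRef := CRef.mk (Pat.mk 0x18000000300000000000000000 0xc0000000c0000000f8000000ff000000ee00000020 7 8) 0 0 (step_sound _ 70 [rh1ddfce57311b68eb, (rhf48373e13d2bc128.shift 3 2)] (by decide +kernel))
noncomputable def rh9368f88e3bb12f68 : CRef := CRef.mk (Pat.mk 0xc000000080000000800000000 0x140000001c0000007c0000001f000000780000001f00000004 7 7) 0 0 (step_sound _ 68 [(rh0f9fff781c6962ba.shift 0 1), (rh4ca5dae25f5c14ff.shift 0 2), rhddba0309546bdfb3] (by decide +kernel))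
noncomputable def rh4217572abca5e8b6 : CRef := CRef.mk (Pat.mk 0xc0000000800000008000000000000000000000000 0x1800000018000000380000001f0000007c0000001f0000000c0000000400000004 7 7) 0 0 (step_sound _ 132 [(rh5de78c6f848da88a.shift 0 2), (rh75ea294132184f25.shift 1 4), rhb922bfd4570238a1] (by decide +kernel))
noncomputable def rh80c7f27eb96dfa77 : CRef := CRef.mk (Pat.mk 0x40000000e000000080000000800000000 0x80000003f0000003e0000003b0000001f00000016 7 6) 0 0 (step_sound _ 100 [rh124c3ce23345bdd8, (rhe3060b190bc0bc78.shift 0 3)] (by decide +kernel))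
noncomputable def rhf3c30527e4264ac3 : CRef := CRef.mk (Pat.mk 0x200000002000000060000000400000004000000000 0x200000003f000001fe000003de000000f800000010 7 10) 0 0 (step_sound _ 100 [(rh5a1dc4f1ba2ce0d6.shift 0 2), (rh8ee80cc30e93a344.shift 3 2), (rhea223014e913127c.shift 1 0)] (by decide +kernel))
noncomputable def rh32e28d4259b94f6c : CRef := CRef.mk (Pat.mk 0xe00000018000000000000001000000000 0x4000000040000001f0000003e0000001b000000f20000003c00000028 7 8) 0 0 (step_sound _ 132 [(rh44dd78dd79fc4e0b.shift 0 2), (rhfb5f72cbed3f3c19.shift 2 0)] (by decide +kernel))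
noncomputable def rh20812ec0c0df6de0 : CRef := CRef.mk (Pat.mk 0xc00000038000000000000001000000000 0x8000000080000007c0000003e000000770000001e0000000c 7 7) 0 0 (step_sound _ 68 [rh1ec95b0f47336ac2, (rhb8a0a47969052ef0.shift 1 1), (rhc89253ff58c66167.shift 3 1)] (by decide +kernel))
noncomputable def rh90b0d82b05c000f8 : CRef := CRef.mk (Pat.mk 0xe000000180000000000000000 0x500000007000000070000003e0000001f0000000700000007 7 6) 0 0 (step_sound _ 65 [rh152da1847ba60c2c, rh1dc0a53ad649b4db, (rh480231ab31e80384.shift 0 1), rh4bb7889d45f0b341, rh737d104f97747221] (by decide +kernel))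
noncomputable def rhdb342a9f8f831ff7 : CRef := CRef.mk (Pat.mk 0x1800000030000000000000002000000000 0x1000000030000000f8000000ff000000cf0000006800000020 7 8) 0 0 (step_sound _ 102 [rh74e59fc408e5ce0f, (rhf48373e13d2bc128.shift 3 3)] (by decide +kernel))
noncomputable def rh5e629bed98645ee0 : CRef := CRef.mk (Pat.mk 0x10000000100000001000000030000000000000000000000000 0x1000000030000003f7000001fe000001cf0000004000000040 7 10) 0 0 (step_sound _ 99 [(rh932754581e0f4330.shift 3 2), rhc545b009dc018e51] (by decide +kernel))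
noncomputable def rh3d4fdf1de4ce7d4b : CRef := CRef.mk (Pat.mk 0x800000008000000080000001800000000 0x40000000c0000000c0000003f0000007f00000007 7 7) 0 0 (step_sound _ 34 [rh827172953bd53079, (rh932754581e0f4330.shift 2 0)] (by decide +kernel))
noncomputable def rh9973966041d34f51 : CRef := CRef.mk (Pat.mk 0x800000008000000080000000800000000 0xc0000000c0000000c0000003c0000000f0000000e 7 6) 0 0 (step_sound _ 34 [rh49dddae0f319a902, (rh932754581e0f4330.shift 2 0)] (by decide +kernel))
noncomputable def rh0ddaf28682a56d39 : CRef := CRef.mk (Pat.mk 0x18000000180000000800000000 0x20000000600000007e000000ff000000ff00000010 7 8) 0 0 (step_sound _ 69 [(rhbbaae7ee8f4f6e57.shift 1 1), (rhd9106766b9ff53c0.shift 2 1), rhefe62a323bff1045] (by decide +kernel))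
noncomputable def rha26c4a0008913eca : CRef := CRef.mk (Pat.mk 0x1000000018000000000000001800000008 0x60000000fe000001fe000001e00000007f0000007f 7 9) 0 0 (step_sound _ 133 [(rh0bb882ba86b2372d.shift 1 3), rhaaafb91565a90b82, rhd8e54442d1658934] (by decide +kernel))
noncomputable def rhd3c3a46087b5f04b : CRef := CRef.mk (Pat.mk 0x30000000180000000000000000 0x60000000ee000000ff000000f8000000e000000060 7 8) 0 0 (step_sound _ 102 [(rh18965a982d73c794.shift 3 2), rh605618741aa11e3c] (by decide +kernel))
noncomputable def rh56963e880b9fc5a3 : CRef := CRef.mk (Pat.mk 0x180000000c000000000000000000000000 0x1000000010000000380000001f000000ff000000f80000001000000010 7 8) 0 0 (step_sound _ 97 [(rh53b3c253cb0c65f4.shift 0 3), rha552ca6c4da268f6] (by decide +kernel))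
noncomputable def rh29e3ae7b8b185495 : CRef := CRef.mk (Pat.mk 0x400000004000000040000000400000000 0x3a0000003f0000003f0000000c0000000c00000008 7 6) 0 0 (step_sound _ 131 [(rh2f68792b6b779e96.shift 2 1), rhdb7753e5c78ef69d] (by decide +kernel))
noncomputable def rhb764fc2a32ca857c : CRef := CRef.mk (Pat.mk 0x2000000038000000000000001000000010 0x3bf000001fe000003c80000007c000000f8 7 10) 0 0 (step_sound _ 102 [(rh1e83e3922265d3f7.shift 2 2), (rh394e80a462af5b2f.shift 2 2), (rh84d1614f5efa9132.shift 3 2), (rhbc6c1ead0c708fe0.shift 0 3), (rhded43325d622e2f5.shift 2 0)] (by decide +kernel))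
noncomputable def rh6c9ce62364cebb87 : CRef := CRef.mk (Pat.mk 0x40000000c000000060000000200000000 0x18000000180000001c0000003c0000001e0000003f0000003c 7 6) 0 0 (step_sound _ 100 [(rh18965a982d73c794.shift 1 2), rhc4613a2be9451049] (by decide +kernel))
noncomputable def rh9848a9a9cbea51da : CRef := CRef.mk (Pat.mk 0x1000000000000000180000000e000000000000000000000000 0x280000003c000000f0000000180000003e0000007f0000003000000030 7 8) 0 0 (step_sound _ 100 [(rh42d32bf970c9c157.shift 0 2), rh6ae21157da276552, (rh8ef32249ce830675.shift 1 2), (rh94903cfdedc51924.shift 0 2), (rhd26525e43545aa5e.shift 2 2)] (by decide +kernel))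
noncomputable def rh3c2bbf16f57bf213 : CRef := CRef.mk (Pat.mk 0x8000000000000001c000000060000000000000000 0x1000000018000000380000001f0000007e0000007c00000008 7 7) 0 0 (step_sound _ 67 [(rh652cf06798693271.shift 0 1), rhcfff2031c8a11334, (rhd29788148c8d3c3c.shift 0 1), (rhefb99cd4dbd26958.shift 2 1)] (by decide +kernel))
noncomputable def rh11d36b4d0f48454e : CRef := CRef.mk (Pat.mk 0x8000000000000001e0000000400000000 0x200000003a0000003e000000320000001e0000003700000004 7 6) 0 0 (step_sound _ 100 [(rh33e738c4ed385b9f.shift 1 2), rh696df640edb52c67] (by decide +kernel))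
noncomputable def rhf96eeb78f532f077 : CRef := CRef.mk (Pat.mk 0x200000008000000070000000000000000 0x100000001e0000001f0000001c0000000f0000001c0000000c 7 5) 0 0 (step_sound _ 67 [rh2ca223b4f9e6836a, (rh33e738c4ed385b9f.shift 0 2)] (by decide +kernel))
noncomputable def rhab8668a01a2dafbf : CRef := CRef.mk (Pat.mk 0x800000004000000040000000400000000 0xc0000000c0000000c0000000f0000003c0000001c 7 6) 0 0 (step_sound _ 130 [(rh2f68792b6b779e96.shift 2 1), rha8f782836094663a] (by decide +kernel))
noncomputable def rh63903c93fd7baa8d : CRef := CRef.mk (Pat.mk 0x4000000040000000400000004 0xc0000000c0000000c0000003c0000000f0000000e 7 6) 0 0 (step_sound _ 131 [(rhbaefcd01e0a8bca3.shift 2 0), rhd7edfb65051afa11] (by decide +kernel))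
noncomputable def rh954185ca08f45d84 : CRef := CRef.mk (Pat.mk 0x8000000080000000800000008 0xc0000000c0000000c000000380000001f0000001c 7 6) 0 0 (step_sound _ 130 [rh36d2592072881719, (rhffd04209dc8ea796.shift 2 0)] (by decide +kernel))
noncomputable def rha8d0a6dcf43611fb : CRef := CRef.mk (Pat.mk 0x800000008000000080000001000000000 0x140000003c0000000f000000080000001c0000001c 7 6) 0 0 (step_sound _ 35 [(rh55afc6a59410cf00.shift 3 0), rhce714864e67ec59a] (by decide +kernel))
noncomputable def rhcbe59f36b13bc4f9 : CRef := CRef.mk (Pat.mk 0x1800000008000000080000000800000000 0xe7000000fe0000007e0000000c0000000c00000004 7 8) 0 0 (step_sound _ 130 [rh4b842c4a473f1f31, (rh50fbb5868c909700.shift 2 1)] (by decide +kernel))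
noncomputable def rhfe1b5253aee3fece : CRef := CRef.mk (Pat.mk 0x1800000018000000000000000000000000 0x100000007c000000ff000000e70000002000000020 7 8) 0 0 (step_sound _ 98 [(rh1c19a9a52f48d063.shift 0 2), (rhab2ad169e49f9c5e.shift 0 3), (rhe5e2464a2a6d1c10.shift 2 0)] (by decide +kernel))
noncomputable def rh324edfe3a3d55a46 : CRef := CRef.mk (Pat.mk 0x400000004000000020000000200000000 0x300000003000000070000000600000006000000030000000300000003 7 3) 0 0 (step_sound _ 97 [(rh71222050f2c63a3a.shift 1 0), rha87f6802c0500a0b] (by decide +kernel))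
noncomputable def rh2f00bd90e65313e2 : CRef := CRef.mk (Pat.mk 0x40000000400000006000000020000000200000000000000000 0x1000000058000003df000000fe000001be000000b80000001800000018 7 10) 0 0 (step_sound _ 132 [(rh3221883801c9ce0e.shift 3 2), (rh4d63ff26ec2dbd2d.shift 0 3), (rh993c0e1f870e4ba3.shift 1 0), (rha11dfd15f08f96e3.shift 3 4)] (by decide +kernel))
noncomputable def rh460b367d8ce6d82b : CRef := CRef.mk (Pat.mk 0x2000000020000000300000001000000010 0x80000007c000001ef000000fc0000001c00000010 7 9) 0 0 (step_sound _ 67 [(rh2221efc44f1b9a1f.shift 2 0), (rha11dfd15f08f96e3.shift 2 2), rhb98e183a12ed98e4, rhdaf962e95754b959] (by decide +kernel))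
noncomputable def rh8aa4f3cbff0388a0 : CRef := CRef.mk (Pat.mk 0xc00000004000000040000000400000000 0x320000003f0000003f0000000c0000000c00000008 7 6) 0 0 (step_sound _ 129 [(rh50fbb5868c909700.shift 1 1), rhb5a9ec1ce9de0cd6] (by decide +kernel))
noncomputable def rh6d73dc56ab282715 : CRef := CRef.mk (Pat.mk 0x400000004000000040000000400000000 0x1c0000003c0000000f0000000c0000000c0000000c 7 6) 0 0 (step_sound _ 131 [(rh2f68792b6b779e96.shift 2 1), rh5f67c3a11fbd231b] (by decide +kernel))
noncomputable def rh3281f54abbf437c4 : CRef := CRef.mk (Pat.mk 0x600000002000000020000000200000000 0x40000000700000007000000030000000600000006000000060000000600000004 7 3) 0 0 (step_sound _ 34 [(rh55afc6a59410cf00.shift 1 0), (rh89a6eb7e3968858f.shift 0 1)] (by decide +kernel))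
noncomputable def rhd6525278028f077b : CRef := CRef.mk (Pat.mk 0x200000003000000000000000300000001000000000 0x1fe000000fe0000000f000000ff000000fe00000004 7 9) 0 0 (step_sound _ 35 [(rh69012675dfdb1a5b.shift 1 1), rh80b92a3bcc93de92, (rhe29e526a754105b6.shift 0 1)] (by decide +kernel))
noncomputable def rhfb2a690194cafe6b : CRef := CRef.mk (Pat.mk 0x180000000c000000000000000000000000 0xa0000001f000000ff0000007f0000001400000014 7 8) 0 0 (step_sound _ 97 [(rh53b3c253cb0c65f4.shift 0 3), rhdca2fcd9a23bf162] (by decide +kernel))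
noncomputable def rh40f5bb43660177b9 : CRef := CRef.mk (Pat.mk 0x3000000018000000000000000000000000 0x80000001f000000ff000000f80000001c0000001800000008 7 8) 0 0 (step_sound _ 134 [(rh18965a982d73c794.shift 3 3), rhc0161cdf4d2cf7d1] (by decide +kernel))
noncomputable def rh06e2d7753271b4c4 : CRef := CRef.mk (Pat.mk 0x70000000100000000000000000 0x80000000f0000007f000000fe0000001000000010 7 8) 0 0 (step_sound _ 99 [(rh0d378fd9e8917c5a.shift 1 2), (rh592c7139d2c44767.shift 1 2), (rhb9dd680bb9375a9f.shift 2 0), (rhc833175dd2fdb85b.shift 0 2), (rhed95296174ee961f.shift 1 2)] (by decide +kernel))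
noncomputable def rh1b9fee28ff415ba9 : CRef := CRef.mk (Pat.mk 0x2000000020000000000000007000000010 0x7c000000f80000004e000001fe000003f7 7 10) 0 0 (step_sound _ 35 [(rh1a85e118a7c39928.shift 2 0), (rh28eb2fee3aa90ff3.shift 1 0), rhc7e8e87a0b43237b] (by decide +kernel))
noncomputable def rhf7dc9e7b1c679ab9 : CRef := CRef.mk (Pat.mk 0x1800000010000000100000001000000000 0x270000007e000000ff000000100000003000000020 7 8) 0 0 (step_sound _ 133 [(rh2f68792b6b779e96.shift 4 1), rhe53c1a59108aa44d] (by decide +kernel))
noncomputable def rh1a1224e77948752b : CRef := CRef.mk (Pat.mk 0x2000000030000000180000001000000000000000000000000000000000 0x10000000740000003c0000001e0000007c0000002f0000000c0000000400000004 7 7) 0 0 (step_sound _ 162 [rh3ca40f7bde03b7c7, (rh53b3c253cb0c65f4.shift 1 5)] (by decide +kernel))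
noncomputable def rh78d2a77f6be2dcc6 : CRef := CRef.mk (Pat.mk 0x380000000c000000000000000400000000 0x6000000060000007e0000003f0000003c000000060000000600000002 7 7) 0 0 (step_sound _ 130 [(rh1b1a23e58c3e6ec7.shift 0 3), (rh662aa6c91d45906c.shift 1 0), (rha181fcaac96efe0b.shift 1 3)] (by decide +kernel))
noncomputable def rhc6765c802a89117a : CRef := CRef.mk (Pat.mk 0x300000001c0000000000000008 0x280000003800000038000000380000003f0000007c0000002e0000000c 7 7) 0 0 (step_sound _ 132 [(rh134e9789cdabd4e6.shift 1 0), (rh68a777751bfeafdf.shift 3 1), rhaed552e37f4cd7fc, (rhcd32f2ed6c1181e7.shift 3 1)] (by decide +kernel))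
noncomputable def rhc3507ba7645bbff2 : CRef := CRef.mk (Pat.mk 0x4000000070000000000000002000000000 0x180000003c0000007f000000fe0000001f0000003800000038 7 8) 0 0 (step_sound _ 132 [(rh6e29534b3de944ba.shift 1 0), (rha7edc60fc34bffff.shift 2 3), (rha9fbfd4bb8cf890b.shift 1 3), rhb8a261df00ef0731, (rhf60aa8aede119d3b.shift 1 3)] (by decide +kernel))
noncomputable def rhcd76a36e2c7876bd : CRef := CRef.mk (Pat.mk 0x380000000800000010000000000000000000000000 0x10000000780000000f0000007c0000001f0000001c00000014 7 7) 0 0 (step_sound _ 130 [(rh18965a982d73c794.shift 2 4), rh4654f954252f42d9] (by decide +kernel))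
noncomputable def rhbb7c90501078650c : CRef := CRef.mk (Pat.mk 0x80000000e00000002000000040000000000000000 0x80000003b0000001e000000130000001f0000001700000001 7 6) 0 0 (step_sound _ 132 [rh78872fa192f44b48, (rheb0810cc63b001d8.shift 0 3)] (by decide +kernel))
noncomputable def rh3e51274fad547b14 : CRef := CRef.mk (Pat.mk 0x800000008000000080000000c000000000000000000000000 0x180000001c0000001c0000001f000000180000001800000008 7 5) 0 0 (step_sound _ 68 [rh8d3053bbd22b1455, (rhd3458b32566d63f7.shift 3 2)] (by decide +kernel))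
noncomputable def rh4894bba141ca3bfd : CRef := CRef.mk (Pat.mk 0x20000000200000002000000040000000000000000 0x6000000070000000700000003000000070000000700000002 7 3) 0 0 (step_sound _ 65 [(rh55afc6a59410cf00.shift 1 1), rhec0ceb7ff41553d0] (by decide +kernel))
noncomputable def rhb591837bf3b24512 : CRef := CRef.mk (Pat.mk 0x300000001c000000100000000000000000 0x1c0000001f0000003c0000001c000000f80000003000000030 7 8) 0 0 (step_sound _ 131 [(rhafd570af0838a4e5.shift 0 1), (rhdffb3ea08f5c1840.shift 2 0), (rhfc7c29d8e65d775f.shift 3 1)] (by decide +kernel))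
noncomputable def rh495ebfdfb30e8c83 : CRef := CRef.mk (Pat.mk 0x380000000c0000000800000000 0x10000000180000003c0000006f0000003e0000007c0000001c00000018 7 7) 0 0 (step_sound _ 130 [(rh8440640876951545.shift 1 1), (rhfcbf691f40052c7b.shift 1 0), (rhfd56582272240d25.shift 0 1)] (by decide +kernel))
noncomputable def rh7c926e9e0f3dd82b : CRef := CRef.mk (Pat.mk 0xc000000040000000400000000 0x60000000e0000000e0000000f0000003c0000000e0000000e00000002 7 6) 0 0 (step_sound _ 131 [(rh69755ef358ebfd54.shift 2 1), (rhbfb5770941270498.shift 2 1), rhd0fbb255a4c31e87] (by decide +kernel))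
noncomputable def rh0add70d8af670373 : CRef := CRef.mk (Pat.mk 0x6000000020000000200000000000000000000000000000000 0x3000000030000000300000006000000070000000700000003000000070000000700000007 7 3) 0 0 (step_sound _ 97 [rh5fdb73efd5ac82dc, rh65095fec89cbfb40, (rh8aec56c4ee12918c.shift 0 1), rh984bfc6de6c2c524, (rhdb991c49878b7ef7.shift 0 2)] (by decide +kernel))
noncomputable def rh25c3f385b8b33a45 : CRef := CRef.mk (Pat.mk 0xe00000004000000040000000400000000 0x700000007f0000003f0000000c0000000c00000008 7 7) 0 0 (step_sound _ 35 [(rh22f588d0f215729e.shift 0 1), (rh55afc6a59410cf00.shift 2 0)] (by decide +kernel))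
noncomputable def rhf84d9097b89c7671 : CRef := CRef.mk (Pat.mk 0x2000000020000000200000007000000000 0x100000003000000020000001f7000001fe0000038e 7 10) 0 0 (step_sound _ 132 [(rh50fbb5868c909700.shift 4 1), rh88fd9d25b8da6576] (by decide +kernel))
noncomputable def rhc3573f9c61e45dcb : CRef := CRef.mk (Pat.mk 0x20000000200000000000000010000000000000000 0x5000000070000000700000002000000030000000300000003000000030000000100000001 7 3) 0 0 (step_sound _ 96 [rh53c798c09177b7db, (rh6bd8f56ce05e09d3.shift 0 2), rh81604a196d691a11, (rhd918c3fd221dc9f8.shift 0 1), rhe83f0679b86b6627] (by decide +kernel))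
noncomputable def rh69aec307012104e0 : CRef := CRef.mk (Pat.mk 0x800000008000000080000000400000000 0x140000001f00000038000000080000001c0000001c 7 6) 0 0 (step_sound _ 35 [(rh932754581e0f4330.shift 2 0), rhe9e3c95ffca13135] (by decide +kernel))
noncomputable def rhf8e8c7d049b79c7d : CRef := CRef.mk (Pat.mk 0x400000004000000000000000e000000020 0x40000000c000000187000000fe000001fe 7 9) 0 0 (step_sound _ 36 [rh1942c70cd1862f9d, (rh6797c410c820e91e.shift 4 0), (rhed95296174ee961f.shift 2 0)] (by decide +kernel))
noncomputable def rhfda5d98529f5ef7c : CRef := CRef.mk (Pat.mk 0x400000004000000000000000e00000002000000000000000000000000 0x40000001c000000780000003f0000007e000000380000001800000010 7 7) 0 0 (step_sound _ 99 [(rh7218e12bf030cb1d.shift 0 3), (rh9909eeda0ef2ed2c.shift 0 3), (rhc21a95c499b3efdb.shift 0 3), (rhfa41466d9f81bdb9.shift 1 0)] (by decide +kernel))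
noncomputable def rh1f80c72d55a34491 : CRef := CRef.mk (Pat.mk 0x100000001c000000080000000800000000 0xc0000000c0000000c000000380000001f0000000c0000000c00000004 7 6) 0 0 (step_sound _ 97 [(rh33e738c4ed385b9f.shift 1 3), rh566b39f484098291] (by decide +kernel))
noncomputable def rh68d1169f76a8f9b9 : CRef := CRef.mk (Pat.mk 0x20000000300000001000000010 0x280000007c000001ef0000007c000000d800000050 7 9) 0 0 (step_sound _ 133 [(rh5c5e593799055d58.shift 4 1), rhd176691bf67d17f3] (by decide +kernel))
noncomputable def rhc088bbe9c2d99fd9 : CRef := CRef.mk (Pat.mk 0x380000000c000000000000000400000000 0x140000001c0000001c0000007f0000003e0000006c000000260000000600000002 7 7) 0 0 (step_sound _ 195 [(rh206cdf9c7b80caac.shift 1 0), (rh34278e2214dbf1a2.shift 1 2), (rh3533d4ae0e68498c.shift 2 2), (rh7f98b834f0813c6d.shift 2 2), (rhb9a8d6fdc4bdd175.shift 0 2)] (by decide +kernel))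
noncomputable def rhcdde82d09a3fb4d7 : CRef := CRef.mk (Pat.mk 0x300000001c0000000000000008 0x280000003800000038000000300000003f000001fc000001e800000028 7 9) 0 0 (step_sound _ 132 [(rh68a777751bfeafdf.shift 3 1), (rh97c2ce09bec1e547.shift 1 1), (rhcd32f2ed6c1181e7.shift 3 1), rhfc6c61a4eb00f9e5] (by decide +kernel))
noncomputable def rh1abb8dda3f9ec076 : CRef := CRef.mk (Pat.mk 0x1c00000006 0x3000000030000003f0000001f00000007 7 6) 0 0 (step_sound _ 33 [rha181fcaac96efe0b, rheb0810cc63b001d8] (by decide +kernel))
noncomputable def rh7f378f4460177d34 : CRef := CRef.mk (Pat.mk 0x70000000180000000000000000 0xc0000002c000000fe0000007f000000f8000000c0000000c0 7 8) 0 0 (step_sound _ 99 [(rh1b1a23e58c3e6ec7.shift 1 2), (rh210e2d9c685c857e.shift 0 2), (rh2456963ff1f7bf23.shift 1 2), (rha181fcaac96efe0b.shift 2 2), (rhfef45cf6c536ce51.shift 2 0)] (by decide +kernel))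
noncomputable def rhfb947bf93728ac87 : CRef := CRef.mk (Pat.mk 0x180000000e000000000000000400000000 0x60000000e0000000f0000001f000000fe000000f20000001600000006 7 8) 0 0 (step_sound _ 100 [(rh883451bd3feec117.shift 0 2), rha9e92f7618c065c2, (rhea719cc8bd0bdd28.shift 1 1)] (by decide +kernel))
noncomputable def rhc7325bddb56d18d8 : CRef := CRef.mk (Pat.mk 0x400000006000000000000000200000000 0x300000003000000070000000600000006000000030000000300000003 7 3) 0 0 (step_sound _ 65 [(rh71222050f2c63a3a.shift 1 0), rha87f6802c0500a0b] (by decide +kernel))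
noncomputable def rhc17d8535022b7c9f : CRef := CRef.mk (Pat.mk 0x100000001000000018000000080000000000000000 0x14000000760000007e000001ef0000007c00000028 7 9) 0 0 (step_sound _ 35 [rh14eb64f7ef43303a, (rh71222050f2c63a3a.shift 3 0)] (by decide +kernel))
noncomputable def rhb0bfb45804bf496c : CRef := CRef.mk (Pat.mk 0x100000001000000018000000080000000000000000 0x12000000770000007f0000007f0000003400000024 7 7) 0 0 (step_sound _ 66 [(rh31e6eac5d02d2f12.shift 1 0), (rh574fdbf07bdd18b9.shift 0 2), rhc3c231bd96b5cfa3, (rhcc8c8463eff5249d.shift 0 2)] (by decide +kernel))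
noncomputable def rh12a80cf06c561a62 : CRef := CRef.mk (Pat.mk 0x400000008000000080000000c000000000000000000000000 0x40000001c0000003c0000000f000000180000001800000018 7 6) 0 0 (step_sound _ 67 [rh09c29a991c50a875, (rhffd04209dc8ea796.shift 2 2)] (by decide +kernel))
noncomputable def rhb2d80fc93059a271 : CRef := CRef.mk (Pat.mk 0x100000001000000030000000200000002000000000 0x100000001f000000fe000001ef0000007c00000008 7 9) 0 0 (step_sound _ 99 [rh22f484ee4bdd067f, rh36b8148486524bc5, (rh3918eeb6c53434d8.shift 0 2), (rh8ee80cc30e93a344.shift 2 2)] (by decide +kernel))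
noncomputable def rhd4ca68a3fd4d7772 : CRef := CRef.mk (Pat.mk 0x80000000c000000180000001000000000 0x30000000320000003f0000001f0000001f0000003400000024 7 6) 0 0 (step_sound _ 97 [rh82c47df5bdaadca3, (rhb739f4f82bb681b4.shift 0 2)] (by decide +kernel))
noncomputable def rh6e3ab356061e5def : CRef := CRef.mk (Pat.mk 0x4000000060000000c0000000000000000 0xc0000000c0000000c0000000e0000003e0000003700000002 7 6) 0 0 (step_sound _ 68 [rh2370b1048e8e937f, (rhf48373e13d2bc128.shift 1 2)] (by decide +kernel))
noncomputable def rh5efd2f99a4638dcf : CRef := CRef.mk (Pat.mk 0xc000000080000000800000008 0x2000000130000003f0000003f0000000c0000000c 7 6) 0 0 (step_sound _ 100 [(rh2f68792b6b779e96.shift 3 0), rh8b6d7f45369535b1] (by decide +kernel))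
noncomputable def rh76e5cc803f85552a : CRef := CRef.mk (Pat.mk 0x800000008000000080000001800000000 0x1000000018000000080000003f000000ff000000e4 7 8) 0 0 (step_sound _ 34 [rh5f3ee321733f9720, (rh932754581e0f4330.shift 2 0)] (by decide +kernel))
noncomputable def rh0d1407c04b207f88 : CRef := CRef.mk (Pat.mk 0x400000008000000080000000800000000 0x1c0000001c00000008000000380000001f00000014 7 6) 0 0 (step_sound _ 131 [(rh50fbb5868c909700.shift 2 1), rhb6c0a355fd3380b3] (by decide +kernel))
noncomputable def rhbe47a2f1d7535d8f : CRef := CRef.mk (Pat.mk 0x2000000020000000200000003000000000 0x2000000020000003bf000001fe000003ce 7 10) 0 0 (step_sound _ 38 [(rh55afc6a59410cf00.shift 5 0), rh56f29c381c78a701] (by decide +kernel))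
noncomputable def rh09bdb1135bcee1c1 : CRef := CRef.mk (Pat.mk 0x18000000080000000800000000 0x140000001c0000001c0000001e0000007c0000001f0000000c00000004 7 7) 0 0 (step_sound _ 131 [(rh17d893c7538e1819.shift 1 1), (rh193da7fc9e1674f1.shift 2 0), rh7052ac5ea30c04a7] (by decide +kernel))
noncomputable def rhe05c43516263f44c : CRef := CRef.mk (Pat.mk 0x3000000010000000100000003000000000 0x1cf000000fe000000f70000007e000000f000000180 7 9) 0 0 (step_sound _ 131 [(rh50fbb5868c909700.shift 3 1), rh74fd8117dc4c59b4] (by decide +kernel))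
noncomputable def rh8ce98df40524a715 : CRef := CRef.mk (Pat.mk 0x10000000100000001000000030000000000000000000000000 0x10000000180000007f0000007e0000000f0000000400000004 7 7) 0 0 (step_sound _ 99 [rh0c599552129cf348, (rh932754581e0f4330.shift 3 2)] (by decide +kernel))
noncomputable def rh58ab4f66efeaa15c : CRef := CRef.mk (Pat.mk 0x400000004000000040000000c 0x7a0000007f0000003e0000000c0000000c 7 7) 0 0 (step_sound _ 97 [rh229ada5dd452cba2, (rh50fbb5868c909700.shift 1 0)] (by decide +kernel))
noncomputable def rhfa5d57a93a29da68 : CRef := CRef.mk (Pat.mk 0x10000000180000000c000000080000000000000000 0x6000000370000001f0000003f0000000f0000000400000004 7 6) 0 0 (step_sound _ 97 [rh040e37309f7ab737, (rh53b3c253cb0c65f4.shift 0 3)] (by decide +kernel))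
noncomputable def rhdb4a4d7d17d96ede : CRef := CRef.mk (Pat.mk 0x2000000020000000300000001000000000 0x5e0000007c000001fe000001ff000003bf0000002c 7 10) 0 0 (step_sound _ 67 [(rhb336e96f4b38b834.shift 0 1), (rhb7fa1c73b1c4ec99.shift 0 1), (rhdbdfd5c58b3c7791.shift 1 0), (rhe07babe6ffaf6b2e.shift 1 1)] (by decide +kernel))
noncomputable def rhaab89d8396fbf464 : CRef := CRef.mk (Pat.mk 0x10000000180000000c000000080000000000000000 0x6000000370000001f0000003f0000003f0000003600000012 7 6) 0 0 (step_sound _ 97 [(rh53b3c253cb0c65f4.shift 0 3), rhbdbeb5fd1933f0e5] (by decide +kernel))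
noncomputable def rhbf6c784b634046f2 : CRef := CRef.mk (Pat.mk 0x100000001000000018000000080000000000000000 0x50000000df000000fe000000ff0000002000000020 7 8) 0 0 (step_sound _ 101 [(rha070572f61c8fb0d.shift 2 0), (rha83d0a1d851c6a27.shift 2 2), rhdfe5d4116c7ef752] (by decide +kernel))
noncomputable def rh55341ceeabf85104 : CRef := CRef.mk (Pat.mk 0x4000000040000000e00000002000000000000000000000000 0x80000000c0000003c0000007f000000760000001c0000000c0000000c 7 7) 0 0 (step_sound _ 132 [(rh07085d6f41632762.shift 0 2), (rh2fa8a6cd8a03c75c.shift 0 2), (rh58f7607681416282.shift 0 3), (rhc8fd7777733eb104.shift 1 0), (rhf3baec4a0a3dd35e.shift 1 3)] (by decide +kernel))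
noncomputable def rh77b2701a1bc52e80 : CRef := CRef.mk (Pat.mk 0x8000000080000001c00000004000000000000000000000000 0x140000003c0000007f0000001e0000000f0000000a0000000800000008 7 7) 0 0 (step_sound _ 99 [(rh23332ef26eafbb48.shift 2 0), rh2b2e38de92f27449, (rh5db8a295a995c97f.shift 0 2), (rh5ee4dc8825dcefa0.shift 0 2), (rhd9abd513aab01281.shift 0 2)] (by decide +kernel))
noncomputable def rhaf278bcf347a0eec : CRef := CRef.mk (Pat.mk 0x400000006000000020000000000000000 0x300000003000000070000000600000006000000030000000300000003 7 3) 0 0 (step_sound _ 33 [(rh71222050f2c63a3a.shift 1 0), rha87f6802c0500a0b] (by decide +kernel))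
noncomputable def rhb0ab2009c821a7bc : CRef := CRef.mk (Pat.mk 0x180000000c000000040000000400000000 0x6000000060000001f0000003f0000003c0000000f0000000a 7 6) 0 0 (step_sound _ 97 [(rh53b3c253cb0c65f4.shift 0 3), rhc4c83a21b89924e9] (by decide +kernel))
noncomputable def rhe3368c953b8cbe7f : CRef := CRef.mk (Pat.mk 0x10000000180000000800000000 0x180000001800000018000000ff000000ff00000034 7 8) 0 0 (step_sound _ 132 [(rh5c5e593799055d58.shift 3 1), rh9b6a483affb06780] (by decide +kernel))
noncomputable def rhe900109b898506d7 : CRef := CRef.mk (Pat.mk 0x14000000180000000800000008 0xe4000000ff0000001f0000000800000008 7 8) 0 0 (step_sound _ 99 [(rh50fbb5868c909700.shift 2 0), (rh8f888f6cb5702051.shift 0 2)] (by decide +kernel))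
noncomputable def rhaa54358cfc235fa3 : CRef := CRef.mk (Pat.mk 0x400000018000000080000000800000000 0xc0000000f000000180000000f0000003c00000014 7 6) 0 0 (step_sound _ 131 [rh3ca17fec9c4ea0e6, (rh50fbb5868c909700.shift 2 1)] (by decide +kernel))
noncomputable def rh62d566778efe684d : CRef := CRef.mk (Pat.mk 0x1400000018000000080000000800000000 0xea000000ff0000001f0000000f0000003c00000014 7 8) 0 0 (step_sound _ 131 [(rh8f888f6cb5702051.shift 0 3), rha0c0a48ce6495502, rhf1a8127573b72831] (by decide +kernel))
noncomputable def rh3cda02577b6bba53 : CRef := CRef.mk (Pat.mk 0x50000000600000002000000020 0x1000000010000000df0000007e0000003e00000028 7 8) 0 0 (step_sound _ 68 [(rh4d63ff26ec2dbd2d.shift 0 1), (rhdf15b40c9702d329.shift 2 0), (rhe072fffdd2fccf38.shift 4 0)] (by decide +kernel))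
noncomputable def rhe724be64cae83bf2 : CRef := CRef.mk (Pat.mk 0xe00000002000000000000000000000000 0x1800000018000000380000001e0000003b000000380000003800000028 7 6) 0 0 (step_sound _ 132 [(rh7d9c36001209b767.shift 1 0), (rheb0810cc63b001d8.shift 0 3)] (by decide +kernel))
noncomputable def rh936d970e6aeb11da : CRef := CRef.mk (Pat.mk 0x8000000080000000c00000004000000000000000000000000 0x140000001e000000780000001f0000003c000000180000001800000008 7 7) 0 0 (step_sound _ 164 [(rh0464aeab4253e3d7.shift 1 0), (rh20bb62adcec3c962.shift 0 2), (rh26136743aebdc231.shift 0 2), (rh574fdbf07bdd18b9.shift 0 4)] (by decide +kernel))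
noncomputable def rh010247836776a37e : CRef := CRef.mk (Pat.mk 0x80000000800000008000000140000000000000000 0x100000007c0000001f0000000f0000003c0000001800000008 7 7) 0 0 (step_sound _ 67 [rh0e6c39f9ca802a80, (rh55afc6a59410cf00.shift 3 1)] (by decide +kernel))
noncomputable def rh096155c38994c758 : CRef := CRef.mk (Pat.mk 0x200000002000000020000000100000000 0x200000003000000070000000700000006000000070000000300000002 7 3) 0 0 (step_sound _ 161 [(rh79877ebd3ef475dd.shift 0 1), rha6a1a25c0c5e7d58] (by decide +kernel))
noncomputable def rh309442db7cce837b : CRef := CRef.mk (Pat.mk 0x20000000200000002000000010000000000000000 0x100000007000000070000000600000003000000070000000600000004 7 3) 0 0 (step_sound _ 193 [rh4cae674e8fd8dc57, (rh79877ebd3ef475dd.shift 0 2)] (by decide +kernel))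
noncomputable def rhafb52d84933e53c1 : CRef := CRef.mk (Pat.mk 0x40000000400000004000000020000000000000000 0x6000000060000000e0000000e0000000e0000003c0000000f0000000c00000008 7 6) 0 0 (step_sound _ 193 [(rh0dbc8abee7ad42d4.shift 1 2), (rh3b3318507996b1e5.shift 0 1), (rh9a17dc36f7181934.shift 1 2), (rhabbdb93cfffa1a59.shift 1 0), (rhbab796f6dafe9186.shift 1 3)] (by decide +kernel))
noncomputable def rhbf9426d6ac266d57 : CRef := CRef.mk (Pat.mk 0x800000008000000180000000400000010 0xe0000007f0000007f0000001600000010 7 7) 0 0 (step_sound _ 100 [(rh205762fbbca69b6b.shift 0 1), (rh9e07f76261b05888.shift 3 0)] (by decide +kernel))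
noncomputable def rhefbabe4ef52e79ef : CRef := CRef.mk (Pat.mk 0x1000000030000000080000002000000000 0x1f000000fe000001ef0000002000000020 7 9) 0 0 (step_sound _ 69 [(rh7b1f1fb55310c477.shift 4 0), (rhee7f16d6ff2c9a6b.shift 0 2)] (by decide +kernel))
noncomputable def rhb87368c4ab892963 : CRef := CRef.mk (Pat.mk 0x800000018000000040000001000000000 0x7f0000007e000000660000003000000030 7 7) 0 0 (step_sound _ 101 [(rh2b4d888fb0c67d76.shift 1 2), (rhe6a7eb13f5477f2e.shift 1 0), (rhf60aa8aede119d3b.shift 0 3)] (by decide +kernel))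
noncomputable def rh4e1d9d0df8239e12 : CRef := CRef.mk (Pat.mk 0x80000000c000000060000000000000000 0x60000000f0000003c0000000e0000003c0000001c 7 6) 0 0 (step_sound _ 100 [(rh18965a982d73c794.shift 1 2), rh1c31f1c2944b3cd9] (by decide +kernel))
noncomputable def rhe32a2d5d057d7bca : CRef := CRef.mk (Pat.mk 0x2000000030000000180000000000000000 0x18000000780000003f0000007e0000007000000030 7 7) 0 0 (step_sound _ 36 [(rh71222050f2c63a3a.shift 4 0), rh850921dd4c2d3f73] (by decide +kernel))
noncomputable def rhb807442f17cf460d : CRef := CRef.mk (Pat.mk 0x80000000c000000060000000000000000 0x20000000b0000003f0000003e0000003400000014 7 6) 0 0 (step_sound _ 34 [rh564214abbb813e6c, (rh71222050f2c63a3a.shift 2 0)] (by decide +kernel))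
noncomputable def rhd814c08c4ef3e6c7 : CRef := CRef.mk (Pat.mk 0x10000000100000001c000000100000000000000000 0x800000018000000180000001f0000001f0000003800000020 7 6) 0 0 (step_sound _ 67 [rh3289431b7e3e9be3, (rh932754581e0f4330.shift 3 1)] (by decide +kernel))
noncomputable def rh6c598f42cf2084a3 : CRef := CRef.mk (Pat.mk 0x10000000380000000c00000000 0xe0000000f0000007f0000003e0000007c00000004 7 7) 0 0 (step_sound _ 66 [rh17f2cb9c16b8ffd4, (rh3a835c9c24581dd0.shift 0 1), (rhec46bd5500c722c9.shift 1 2)] (by decide +kernel))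
noncomputable def rh150b5e6478b3d7c3 : CRef := CRef.mk (Pat.mk 0x200000002000000018000000100000000000000000 0x1c0000007c0000002f0000007c0000003e0000001400000010 7 7) 0 0 (step_sound _ 131 [(rh3b84afeb930d0df3.shift 1 1), (rhc38f566cab2818e5.shift 3 0), rhfcc0570a3af4020d] (by decide +kernel))
noncomputable def rhb8a1d3bda59c6780 : CRef := CRef.mk (Pat.mk 0x200000002000000018000000300000000000000000 0x3000000030000000f8000000ff0000004f00000008 7 8) 0 0 (step_sound _ 70 [rhe8ad5a93a0309b83, (rhf48373e13d2bc128.shift 3 2)] (by decide +kernel))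
noncomputable def rh752d3bfc0358ea0e : CRef := CRef.mk (Pat.mk 0x10000000100000000c000000180000000000000000 0x28000000fa0000001f000000ff0000001f0000001400000004 7 8) 0 0 (step_sound _ 97 [(rhb739f4f82bb681b4.shift 0 2), rhfd43eec7d76f8475] (by decide +kernel))
noncomputable def rh68c16a39a3551660 : CRef := CRef.mk (Pat.mk 0x800000038000000060000000000000000 0x400000004000000160000001f0000003a0000001e0000000a00000008 7 6) 0 0 (step_sound _ 67 [rh125cab51679c4bee, (rh3fc040e777f1679e.shift 1 2)] (by decide +kernel))
noncomputable def rhd0ea48050e50a3e4 : CRef := CRef.mk (Pat.mk 0x80000001800000006000000040000000000000000 0x60000001f0000001b0000001e0000003e0000001400000004 7 6) 0 0 (step_sound _ 129 [(rh2ddf781dd310580d.shift 0 2), (rh5d54cb79a67f97ab.shift 1 0), rhe16a0380744fa5ba] (by decide +kernel))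
noncomputable def rh720d803709b87ec1 : CRef := CRef.mk (Pat.mk 0x10000000300000000c0000000800000000 0x200000006e0000003e0000003e0000007c0000007f00000026 7 7) 0 0 (step_sound _ 130 [(rh1516e5df78470992.shift 1 1), (rh8a473ec674e844c5.shift 1 0), (rh8c4efdf4ea1f1112.shift 1 1), rhd48d3474c3efbec7, (rhd6f0549f69d57f34.shift 1 0), (rhe7b1c4b75e9e5eb5.shift 1 1)] (by decide +kernel))
noncomputable def rhc22044805d4dd6fa : CRef := CRef.mk (Pat.mk 0x800000008000000070000000000000000 0x400000006000000060000000f0000003e000000070000001e0000000e 7 6) 0 0 (step_sound _ 98 [rh488517a69669594a, (rh80f90a60d87caa0d.shift 0 2), rh999938b976058e1c] (by decide +kernel))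
noncomputable def rh434087ecb3bf0158 : CRef := CRef.mk (Pat.mk 0x200000002000000038000000100000000000000000 0x80000007c0000002f000000f80000001c0000001000000010 7 8) 0 0 (step_sound _ 36 [(rh71222050f2c63a3a.shift 4 0), (rhfb8ad0968208cd8a.shift 0 1)] (by decide +kernel))
noncomputable def rhe126f6762cddab01 : CRef := CRef.mk (Pat.mk 0x10000000100000000c0000000000000000 0xc0000001e0000007c0000001f0000003c0000001c 7 7) 0 0 (step_sound _ 99 [(rh0bb882ba86b2372d.shift 0 2), rh5979d11abc7fcc1d, (rh999938b976058e1c.shift 1 0)] (by decide +kernel))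
noncomputable def rha139a0473f4a94d0 : CRef := CRef.mk (Pat.mk 0x100000003000000018000000080000000000000000 0x3e000000ff000000f8000000cc0000004000000040 7 8) 0 0 (step_sound _ 134 [(rh18965a982d73c794.shift 3 3), rh6d3bea7bb509988e] (by decide +kernel))
noncomputable def rhbf96dbc5b6297256 : CRef := CRef.mk (Pat.mk 0x1000000030000000180000000800000000 0xc0000001e0000003e0000007e0000000f00000006 7 7) 0 0 (step_sound _ 66 [(rh53b3c253cb0c65f4.shift 1 2), rhbf5dfb107c4349ad] (by decide +kernel))
noncomputable def rh5156e7176b703a30 : CRef := CRef.mk (Pat.mk 0x8000000080000000c0000000000000000 0x140000001e000000780000001f0000003c0000001c 7 7) 0 0 (step_sound _ 35 [(rh20cddb3ba0450bc6.shift 1 0), rh33396d67ec906c52, rhc9c1a6ade0802ee3] (by decide +kernel))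
noncomputable def rh51b6c1193f55e78c : CRef := CRef.mk (Pat.mk 0x8000000080000000c0000000000000000 0x4000000140000001e0000007c0000000c0000001f0000007800000010 7 7) 0 0 (step_sound _ 162 [rh39a70e97df2c9459, (rhbab796f6dafe9186.shift 2 2), (rhbec796c3ea7a32e6.shift 1 1)] (by decide +kernel))
noncomputable def rh8a83130238af6cbf : CRef := CRef.mk (Pat.mk 0x400000004000000060000000300000000000000000 0x80000000c8000000cc0000007f0000007c000000d000000010 7 8) 0 0 (step_sound _ 67 [(rh53b3c253cb0c65f4.shift 2 2), rh602b942fbd069b6f] (by decide +kernel))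
noncomputable def rh88dba91e210acf9e : CRef := CRef.mk (Pat.mk 0x200000002000000020000000200000000000000000000000000000000 0x300000007000000070000000700000003000000070000000600000004 7 3) 0 0 (step_sound _ 96 [rh12e8f825e3f73973, (rh79877ebd3ef475dd.shift 0 3)] (by decide +kernel))
noncomputable def rh3b17dbb1355aeddf : CRef := CRef.mk (Pat.mk 0x800000008000000080000000800000000 0xe0000000f0000003c0000000c0000000c0000000c 7 6) 0 0 (step_sound _ 34 [rh6e15c69d7c2d46b7, (rh932754581e0f4330.shift 2 0)] (by decide +kernel))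
noncomputable def rh4eb670395e2eb958 : CRef := CRef.mk (Pat.mk 0x800000008000000080000000c00000000 0xe0000000f0000003f0000007f0000000f00000002 7 7) 0 0 (step_sound _ 66 [(rh5c5e593799055d58.shift 2 1), rhc8ce8e2e979853f8] (by decide +kernel))
noncomputable def rh6e783a87a95540f6 : CRef := CRef.mk (Pat.mk 0xe0000000200000000 0x1800000018000000380000001f0000003b00000018 7 6) 0 0 (step_sound _ 68 [rhddac4546e260ba2a, (rheb0810cc63b001d8.shift 0 1)] (by decide +kernel))
noncomputable def rh5b343709215b4192 : CRef := CRef.mk (Pat.mk 0x2000000020000000000000007000000010 0x2000000060000000ce0000007e000000f7 7 8) 0 0 (step_sound _ 35 [(rh0d378fd9e8917c5a.shift 1 0), rh154c33e8b01a924f, (rh6797c410c820e91e.shift 3 0)] (by decide +kernel))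
noncomputable def rh67f65461111a323b : CRef := CRef.mk (Pat.mk 0x80000000e000000000000000000000000 0x800000008000001fc000000fe000001f30000001000000010 7 9) 0 0 (step_sound _ 100 [(rh0af46ddd73526378.shift 1 0), (rh426e7f3c9692c92e.shift 1 2), (rh4569bd9aa4440d20.shift 1 0), (rh84d1614f5efa9132.shift 1 2), (rhde20a72bb3cc5a9b.shift 0 2)] (by decide +kernel))
noncomputable def rh9500c794ba8b729e : CRef := CRef.mk (Pat.mk 0x10000000100000001000000018000000000000000000000000 0x10000000100000001f000000ff000000fe000000060000000400000004 7 8) 0 0 (step_sound _ 131 [rh1a3360bb5db66120, (rh5c5e593799055d58.shift 3 3)] (by decide +kernel))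
noncomputable def rh5aee9f221a416f6b : CRef := CRef.mk (Pat.mk 0x40000000200000002000000020000000000000000 0x200000006000000070000000300000007000000070000000600000002 7 3) 0 0 (step_sound _ 161 [rh0017da9c9dd132d7, (rh2f68792b6b779e96.shift 1 2)] (by decide +kernel))
noncomputable def rh527895f4954d6693 : CRef := CRef.mk (Pat.mk 0x4000000020000000200000002000000000000000000000000 0x600000006000000030000000300000003000000070000000700000007 7 3) 0 0 (step_sound _ 193 [rh15807efd5d04103a, (rh2f68792b6b779e96.shift 1 3)] (by decide +kernel))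
noncomputable def rhd9acbd63e5902ec7 : CRef := CRef.mk (Pat.mk 0x2000000000000000f000000000000000000000000 0x100000001c0000001f0000001c0000000f0000001c0000000c00000004 7 5) 0 0 (step_sound _ 131 [(rh33e738c4ed385b9f.shift 0 3), rh352a913a321e2cc2] (by decide +kernel))
noncomputable def rh01c040830a0e3366 : CRef := CRef.mk (Pat.mk 0x4000000000000000f00000000000000000000000000000000 0x40000001c0000000f000000180000001c0000001c00000014 7 5) 0 0 (step_sound _ 163 [(rh33e738c4ed385b9f.shift 0 4), rh63fa4281a1cbee82] (by decide +kernel))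
noncomputable def rh0f23a17930355bc9 : CRef := CRef.mk (Pat.mk 0x20000000000000007000000080000000000000000 0x100000001c0000001f0000001c0000000f0000001c0000000c00000004 7 5) 0 0 (step_sound _ 99 [rhbc460d9c01f3bb54, (rhe25b0a99195a5d59.shift 0 2)] (by decide +kernel))
noncomputable def rh9450acc3751fb4b1 : CRef := CRef.mk (Pat.mk 0x180000000e000000000000000000000000 0x3000000030000001f0000003e0000007f0000003400000030 7 7) 0 0 (step_sound _ 100 [(rh3f38de6b95fe6c30.shift 0 1), rh6ae21157da276552, (rhe401600d466b97cd.shift 0 2)] (by decide +kernel))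
noncomputable def rhbb468a0fb66b5869 : CRef := CRef.mk (Pat.mk 0x200000000000000070000000180000000000000000 0xa0000000e0000000e0000000f0000003cf0000007f000000f8000000f0000000a0 7 10) 0 0 (step_sound _ 134 [(rh47e0a9b799fc3f54.shift 0 2), (rh7c4b977be6af0969.shift 3 0), (rh8ebd26fbcb726e53.shift 2 2), (rhaa0c04b34da34d8d.shift 0 1), (rhcc781dab552a136b.shift 4 0)] (by decide +kernel))
noncomputable def rh2059c7a12df91ac2 : CRef := CRef.mk (Pat.mk 0x10000000100000001000000010 0x1ef000000ff000000fc0000001000000010 7 9) 0 0 (step_sound _ 99 [(rh50fbb5868c909700.shift 3 0), rh85b7f1f6a84b98e9] (by decide +kernel))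
noncomputable def rh435ead6b7ed7ff75 : CRef := CRef.mk (Pat.mk 0x2000000020000000200000002 0x400000006000000070000000300000007000000070000000700000003 7 3) 0 0 (step_sound _ 128 [rh726a87d42291dd46, rhffd04209dc8ea796] (by decide +kernel))
noncomputable def rh4a953a83360d0f1b : CRef := CRef.mk (Pat.mk 0x30000000100000001000000010 0x40000000f000000ff000000fe0000001800000018 7 8) 0 0 (step_sound _ 99 [(rh50fbb5868c909700.shift 3 0), rhb6d0d42c85d4d668] (by decide +kernel))
noncomputable def rh37556232599a8c98 : CRef := CRef.mk (Pat.mk 0xc000000080000000800000000 0x140000001c0000003f0000003f000000780000001f00000004 7 7) 0 0 (step_sound _ 68 [(rh4ca5dae25f5c14ff.shift 0 2), (rhd15c4c1e7836621d.shift 0 1), rhddba0309546bdfb3] (by decide +kernel))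
noncomputable def rh702f3fad38383819 : CRef := CRef.mk (Pat.mk 0xc00000018000000080000000000000000 0x18000000180000001c000000780000001f0000000c00000004 7 7) 0 0 (step_sound _ 101 [rh483b239eb7faed8c, (rhf48373e13d2bc128.shift 2 3)] (by decide +kernel))
noncomputable def rhb2b357e068ce58c4 : CRef := CRef.mk (Pat.mk 0x40000000c0000000c 0x1e0000003f0000003f0000000c0000000c 7 6) 0 0 (step_sound _ 98 [(rh2145e1d24b96a57e.shift 2 0), rh6e0941ccd1ab3252] (by decide +kernel))
noncomputable def rhf5e40e3c4d210e74 : CRef := CRef.mk (Pat.mk 0xc00000008000000080000000800000000 0xf3000000fe0000007e0000000c0000000c00000004 7 8) 0 0 (step_sound _ 132 [(rh2f68792b6b779e96.shift 3 1), rh4b842c4a473f1f31] (by decide +kernel))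
noncomputable def rh4189b75e9c0b9eda : CRef := CRef.mk (Pat.mk 0x2000000060000000c000000040000000000000000 0xc0000001f0000001e0000003c0000001f0000001a00000018 7 6) 0 0 (step_sound _ 100 [rh276e20b7551414b1, (rhf48373e13d2bc128.shift 1 3)] (by decide +kernel))
noncomputable def rh05132b1c08880bde : CRef := CRef.mk (Pat.mk 0x40000000c000000180000000800000000 0x10000000360000003f0000001b0000000f00000006 7 6) 0 0 (step_sound _ 97 [rh06898dcf47857b35, (rhb739f4f82bb681b4.shift 0 2)] (by decide +kernel))
noncomputable def rhf59a09c78aebb8bd : CRef := CRef.mk (Pat.mk 0x1000000030000000200000002000000000 0x1000000050000000dc000000fc000001ef0000007c00000008 7 9) 0 0 (step_sound _ 164 [(rh2145e1d24b96a57e.shift 4 2), rh29801699b1b571ef] (by decide +kernel))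
noncomputable def rh99970a81bc8a0067 : CRef := CRef.mk (Pat.mk 0x800000018000000000000001000000000 0x10000000380000007e000000ff000000f70000003c00000028 7 8) 0 0 (step_sound _ 132 [(rh09607f52911ad24d.shift 2 0), (rh86450771c0b856e0.shift 1 1), (rhec804f89f0b78de3.shift 0 1)] (by decide +kernel))
noncomputable def rha099b8cb3dd0c9a6 : CRef := CRef.mk (Pat.mk 0x1800000070000000000000002000000000 0x6000000070000000f0000000f80000007f0000004f0000006800000060 7 8) 0 0 (step_sound _ 99 [(rh031a926e4a883687.shift 2 1), (rh3e9601eff8aa538d.shift 0 2), (rhd28fc7115bf8ca26.shift 2 0)] (by decide +kernel))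
noncomputable def rhda1d71cf9bdb8739 : CRef := CRef.mk (Pat.mk 0x1e00000000000000040000000000000000 0x18000000180000001f000000380000001e0000003c00000038 7 6) 0 0 (step_sound _ 100 [rh9220d7ec29ca66df, (rhe25b0a99195a5d59.shift 1 3)] (by decide +kernel))
noncomputable def rhc7ff6f1b5e3daec8 : CRef := CRef.mk (Pat.mk 0x40000001e00000000000000080000000000000000 0x340000001e000000330000003e0000003a00000020 7 6) 0 0 (step_sound _ 100 [rhc9413ff10ac29e67, (rhe25b0a99195a5d59.shift 1 3)] (by decide +kernel))
noncomputable def rh164faa9569ca831d : CRef := CRef.mk (Pat.mk 0x200000002000000030000000100000001000000000 0x80000002c000001ef000000fe000000df0000005800000008 7 9) 0 0 (step_sound _ 99 [(rh42c149c634520fed.shift 2 1), (rh6da00715e09dd404.shift 0 1), (rh7c54c14170542785.shift 1 0), (rha11dfd15f08f96e3.shift 2 3), (rhb12ffaec36122c99.shift 0 2)] (by decide +kernel))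
noncomputable def rh8650e3525f3afd54 : CRef := CRef.mk (Pat.mk 0x1c0000000c000000080000000000000000 0x80000001c0000000f0000003c0000000f0000000e 7 6) 0 0 (step_sound _ 97 [(rh53b3c253cb0c65f4.shift 0 3), rhb36d22da46ae96ae] (by decide +kernel))
noncomputable def rh284d5030d95b4fdc : CRef := CRef.mk (Pat.mk 0x1c0000000c000000080000000000000000 0x30000007e0000007c0000000c0000000c0000000c 7 7) 0 0 (step_sound _ 35 [rh12821fbf0b16b36c, (rh7b1f1fb55310c477.shift 2 0)] (by decide +kernel))
noncomputable def rh6f078d7573e41704 : CRef := CRef.mk (Pat.mk 0x18000000080000000800000018 0x4000001ec000000f8000001ee0000007f00000078 7 9) 0 0 (step_sound _ 101 [rh959aa807e2390268, (rh9d2fb52dede2240d.shift 2 0), (rhf44b2f9cb5a7f97f.shift 2 0), (rhfa35e196e150edb4.shift 2 2)] (by decide +kernel))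
noncomputable def rh3c0159080694d988 : CRef := CRef.mk (Pat.mk 0x100000003000000060000000200000000 0x2000000060000000e0000001f0000001b0000001f0000000600000004 7 5) 0 0 (step_sound _ 67 [rh6507a01f811cf08a, (rhf48373e13d2bc128.shift 0 2)] (by decide +kernel))
noncomputable def rhc040b0a6f0fc2e7a : CRef := CRef.mk (Pat.mk 0x30000000200000002000000000000000000000000 0x1000000070000000700000006000000030000000300000003000000070000000700000005 7 3) 0 0 (step_sound _ 64 [rh0e6924d680f6455d, rh36f5b7631f426395, (rhd93f125276afe426.shift 0 2)] (by decide +kernel))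
noncomputable def rhaf4010ee7be375fa : CRef := CRef.mk (Pat.mk 0x800000008000000080000001c00000000 0x30000000780000003e0000007f0000007e00000060 7 7) 0 0 (step_sound _ 132 [(rh2f68792b6b779e96.shift 3 1), rh4cd47bb1a9759ffb] (by decide +kernel))
noncomputable def rh57598951b3619839 : CRef := CRef.mk (Pat.mk 0x400000006000000030000000200000000 0x180000003c0000001e0000000f0000001f0000007c 7 7) 0 0 (step_sound _ 99 [(rh18965a982d73c794.shift 0 2), rh5b0a531e72397977] (by decide +kernel))
noncomputable def rh898ac49d3f396f48 : CRef := CRef.mk (Pat.mk 0x20000000300000001000000010 0x280000007c000001ef000000fc000000dc00000050 7 9) 0 0 (step_sound _ 133 [rh3b9107770fe468a6, (rh5c5e593799055d58.shift 4 1)] (by decide +kernel))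
noncomputable def rh0d492c671971d7be : CRef := CRef.mk (Pat.mk 0x400000004000000060000000200000002000000000 0x10000000f8000003df000001fe0000003e0000003000000010 7 10) 0 0 (step_sound _ 100 [(rh4d63ff26ec2dbd2d.shift 0 2), (rh7c54c14170542785.shift 2 0), (rha11dfd15f08f96e3.shift 3 3), (rhfb8ad0968208cd8a.shift 1 1)] (by decide +kernel))
noncomputable def rh19d8908510f0d300 : CRef := CRef.mk (Pat.mk 0xc00000008000000080000000800000000 0x80000000f0000003f000000380000001800000018 7 6) 0 0 (step_sound _ 98 [rh2bdf10fa5637cbaa, (rh7b1f1fb55310c477.shift 2 0)] (by decide +kernel))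
noncomputable def rhdd231e3489095896 : CRef := CRef.mk (Pat.mk 0x100000001c000000000000000800000008 0x2000000030000003f0000003f000000040000000c00000008 7 6) 0 0 (step_sound _ 97 [(rh33e738c4ed385b9f.shift 1 3), rh78d6370e8a004ac4] (by decide +kernel))
noncomputable def rh7ed7053fe705ab58 : CRef := CRef.mk (Pat.mk 0xe0000000200000000000000000 0x10000000100000019f000000fe0000007e0000002000000020 7 9) 0 0 (step_sound _ 100 [(rh1942c70cd1862f9d.shift 0 2), (rh592c7139d2c44767.shift 2 2), (rhaa738e8eddf7e18b.shift 3 0), (rhc7e8e87a0b43237b.shift 1 2), (rhf38efc5d82dd6ddb.shift 1 2)] (by decide +kernel))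
noncomputable def rh7d1c88ca2dd65c35 : CRef := CRef.mk (Pat.mk 0x380000000800000000 0x2000000020000000e7000000ff000001d800000040 7 9) 0 0 (step_sound _ 70 [(rh3bc20d0d8c73da06.shift 2 0), (rhf3baec4a0a3dd35e.shift 3 1), (rhf733c2a41d57dd22.shift 0 1)] (by decide +kernel))
noncomputable def rhad3353e7e8ca87d1 : CRef := CRef.mk (Pat.mk 0x8000000040000000400000004000000060000000000000000 0xc0000000c000000060000000f0000003c0000000e0000000400000004 7 6) 0 0 (step_sound _ 194 [rh1947cbcd13c208ab, (rh2f68792b6b779e96.shift 2 3)] (by decide +kernel))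
noncomputable def rhd2e0c2164fc2be57 : CRef := CRef.mk (Pat.mk 0x20000000200000002000000010000000000000000 0x200000003000000070000000700000006000000070000000300000002 7 3) 0 0 (step_sound _ 65 [(rh932754581e0f4330.shift 0 1), rha6a1a25c0c5e7d58] (by decide +kernel))
noncomputable def rhde0ba0689311c8a6 : CRef := CRef.mk (Pat.mk 0x2000000020000000200000003 0x1000000070000000700000006000000060000001e00000007 7 5) 0 0 (step_sound _ 130 [(rhbaefcd01e0a8bca3.shift 1 0), rhd1d559642463d1bf] (by decide +kernel))
noncomputable def rhf4dc67feed6eb8e3 : CRef := CRef.mk (Pat.mk 0x200000002000000020000000100000000 0x400000007000000070000000300000006000000060000000700000001 7 3) 0 0 (step_sound _ 33 [(rh66ee4e4e1313f0fc.shift 0 1), rh932754581e0f4330] (by decide +kernel))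
noncomputable def rhd506e74654261ae3 : CRef := CRef.mk (Pat.mk 0x1e0000000000000008 0xc0000000e0000000e000000070000003e0000000c0000000c 7 6) 0 0 (step_sound _ 97 [(rh3244c3cc8379b070.shift 0 2), (rhbed1332eabf14bad.shift 1 0)] (by decide +kernel))
noncomputable def rh08e1cb6ff1ec7975 : CRef := CRef.mk (Pat.mk 0x60000000380000000000000010000000000000000000000000 0x200000003c0000007e000003f8000003cf0000007c0000001e0000001400000010 7 10) 0 0 (step_sound _ 131 [(rh5bf746ecd15c6274.shift 2 3), (rhc3216bf9e7f2b989.shift 1 2), rhde02dbe04027205f] (by decide +kernel))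
noncomputable def rh78a34acb5652f35b : CRef := CRef.mk (Pat.mk 0x200000003800000000 0x3be000001fe000001cf 7 10) 0 0 (step_sound _ 66 [rh1713b2a8615f2751, (rh6dbcdca4faa24dea.shift 1 0), (rh9f369c7d09b26250.shift 2 0)] (by decide +kernel))
noncomputable def rhb266ebb1612c5310 : CRef := CRef.mk (Pat.mk 0x4000000030000000200000002000000000 0x30000000f70000003e000001e70000007800000050 7 9) 0 0 (step_sound _ 99 [(rh9bb29785841f366b.shift 2 1), (rhab93446749d51e71.shift 3 0), (rhc92c11e8da6c894f.shift 0 2), (rhe3dc93746cbe6e7c.shift 2 2)] (by decide +kernel))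
noncomputable def rh0de392c253db2d75 : CRef := CRef.mk (Pat.mk 0xc0000000800000008000000000000000000000000 0xa0000000f0000003c0000001c0000001c0000001c00000010 7 6) 0 0 (step_sound _ 67 [(rh257d7200ab2a6828.shift 2 0), (rhc266b37fa129fc6a.shift 0 1), (rhc4ec57a3756c3a6c.shift 2 1)] (by decide +kernel))
noncomputable def rhcc9fab4b2b836c6a : CRef := CRef.mk (Pat.mk 0x200000001000000030000000180000000000000000 0x80000002c000000ff000000ff000000f8000000c000000080 7 8) 0 0 (step_sound _ 102 [(rh18965a982d73c794.shift 3 2), rh2dd9bb9bb9bdc95f] (by decide +kernel))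
noncomputable def rhc21b0d8e03411ea1 : CRef := CRef.mk (Pat.mk 0x8000000180000000c00000000 0x800000008000000080000001f000000ff000000f0 7 8) 0 0 (step_sound _ 33 [(rh53b3c253cb0c65f4.shift 0 1), rhd452154e2f95c1a3] (by decide +kernel))
noncomputable def rh0ada45f54bbbd85d : CRef := CRef.mk (Pat.mk 0xc00000008000000080000000800000000 0x20000000f0000007f0000003f0000000f0000000e 7 7) 0 0 (step_sound _ 98 [(rh7b1f1fb55310c477.shift 2 0), rh7b4d65256d7225ec] (by decide +kernel))
noncomputable def rh3ef238bd341dea99 : CRef := CRef.mk (Pat.mk 0x8000000180000001000000010 0x280000007c000001ef0000007c0000003600000014 7 9) 0 0 (step_sound _ 131 [(rh2145e1d24b96a57e.shift 3 1), rhc8f7b4ab1292510d] (by decide +kernel))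
noncomputable def rhf24861da23530f9c : CRef := CRef.mk (Pat.mk 0x3800000010000000100000001000000000 0x1c7000001fe000003f7000000100000001800000008 7 10) 0 0 (step_sound _ 35 [(rh57e48b32cc7a33e8.shift 0 3), (rh932754581e0f4330.shift 3 0)] (by decide +kernel))
noncomputable def rh6a3717bdefad362c : CRef := CRef.mk (Pat.mk 0x8000000080000001800000000000000000000000000000000 0xc0000001f0000007c0000007f0000001c0000001c00000008 7 7) 0 0 (step_sound _ 99 [(rh4148b1d359982a53.shift 2 0), (rh80650b8e93363f1e.shift 0 2), (rhc01a38579542ac25.shift 0 1)] (by decide +kernel))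
noncomputable def rh8e8e7d2e281cb730 : CRef := CRef.mk (Pat.mk 0x4000000040000000c0000000000000000 0xc0000000c0000000c0000000f0000003e0000001600000002 7 6) 0 0 (step_sound _ 162 [(rh3c1279169b8ece0a.shift 0 1), (rh7b60db5db6f7d331.shift 1 1), (rhcab3157f7bdcba3e.shift 1 0)] (by decide +kernel))
noncomputable def rh21460e6e614b5dd0 : CRef := CRef.mk (Pat.mk 0x2000000020000000600000000000000000000000000000000 0x20000000200000006000000060000001f000000070000000300000002 7 5) 0 0 (step_sound _ 98 [(rh2145e1d24b96a57e.shift 1 3), rhe11b6bdb18675230] (by decide +kernel))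
noncomputable def rhf42a0452a634efc3 : CRef := CRef.mk (Pat.mk 0x1000000030000000000000002000000020 0x3fc000001ff000003ce0000006000000020 7 10) 0 0 (step_sound _ 102 [rh235a3cacdffd3041, (rh2a987fce977f0b71.shift 1 0), (rh9c94213f6896c74a.shift 3 2), (rha7edc60fc34bffff.shift 2 3), (rhae8d21abc86b555a.shift 3 2)] (by decide +kernel))
noncomputable def rh2d73b0340a6703cd : CRef := CRef.mk (Pat.mk 0x800000038000000000000001000000010 0x1f8000000ff000000e70000003000000010 7 9) 0 0 (step_sound _ 98 [(rh1efbca428b37b99e.shift 0 2), (rh1fbc9fee05401eba.shift 2 0), (rh6dc837c3a381c58b.shift 1 2)] (by decide +kernel))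
noncomputable def rh919993c1be83de89 : CRef := CRef.mk (Pat.mk 0x100000001000000030000000200000002000000000 0xc0000004c0000005c000000df0000007e000001ef0000002c00000008 7 9) 0 0 (step_sound _ 99 [(rh8ee80cc30e93a344.shift 2 2), (rhc92c11e8da6c894f.shift 0 2), (rhcf2c15f1dd5017bb.shift 2 0), (rhf5623692ae6e13c5.shift 0 1)] (by decide +kernel))
noncomputable def rha5ff18c8db250e7e : CRef := CRef.mk (Pat.mk 0x8000000000000001c000000300000000000000000 0x40000002c0000006e0000003c0000003f0000001e00000014 7 7) 0 0 (step_sound _ 131 [(rh79ad7b82ec8c35e2.shift 3 0), rhad4cc331c26de457, (rhb6ab89e80271d358.shift 1 0)] (by decide +kernel))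
noncomputable def rh3554dca876ed3df7 : CRef := CRef.mk (Pat.mk 0x8000000000000001800000070000000000000000000000000 0x800000028000000380000007f000000fe0000001c0000001c 7 8) 0 0 (step_sound _ 68 [(rh30a92e4a07cec64b.shift 2 0), (rh668fc65514a55b16.shift 3 0), rh922cbdf2841cabd5] (by decide +kernel))
noncomputable def rh5a484d68156900b5 : CRef := CRef.mk (Pat.mk 0x4000000000000000e000000080000000000000000 0x600000016000000330000001e0000007f0000000c00000008 7 7) 0 0 (step_sound _ 68 [(rh4a0b10776449c3e9.shift 1 2), (rh89ade209b3e28f13.shift 1 2), (rhae2edff970a530ce.shift 1 2), rhc88727465973ed24] (by decide +kernel))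
noncomputable def rh21f2eee37e5e499a : CRef := CRef.mk (Pat.mk 0x20000000000000004000000040000000000000000 0x4000000060000000600000002000000070000000700000007000000060000000400000004 7 3) 0 0 (step_sound _ 129 [(rh4d760d0d70847451.shift 1 1), (rh74a43b9a483760f6.shift 1 0), (rhe482ee30a2733b5f.shift 1 0), (rheea87a15177a5006.shift 0 2)] (by decide +kernel))
noncomputable def rhb764f36e5a9cb0ea : CRef := CRef.mk (Pat.mk 0x4000000060000000c0000000000000000 0xc0000000c0000000c0000000e0000003e0000003700000002 7 6) 0 0 (step_sound _ 68 [rh2ef2a0740bf35591, (rhf48373e13d2bc128.shift 1 2)] (by decide +kernel))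
noncomputable def rhe4410573c83a648c : CRef := CRef.mk (Pat.mk 0x1000000010000000100000003000000000 0x200000003000000010000003be000001fe000001cf 7 10) 0 0 (step_sound _ 35 [(rh932754581e0f4330.shift 3 0), rhb5cab6c238dd9c38] (by decide +kernel))
noncomputable def rh140de9975dee8df1 : CRef := CRef.mk (Pat.mk 0x1000000008000000080000000800000000 0x1c0000001c000000080000000f0000003c00000014 7 6) 0 0 (step_sound _ 131 [(rh2f68792b6b779e96.shift 3 1), rhe7550d3725222c88] (by decide +kernel))
noncomputable def rh036c1b0ca9a4a4cb : CRef := CRef.mk (Pat.mk 0x18000000080000000800000008 0xe4000000ff0000007f0000000800000008 7 8) 0 0 (step_sound _ 98 [(rh50fbb5868c909700.shift 2 0), (rha2469df2d0a3b945.shift 0 2)] (by decide +kernel))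
noncomputable def rh3cb42604b49c2076 : CRef := CRef.mk (Pat.mk 0x100000007000000000 0x3b7000001fe000003ee 7 10) 0 0 (step_sound _ 7 [(rh0d3c8bf4bf97ae4a.shift 4 0), (rh41823a304801edf1.shift 4 0), rh46ee5e638df64166] (by decide +kernel))
noncomputable def rhc143b6f9ea221995 : CRef := CRef.mk (Pat.mk 0x2000000020000000300000001000000010 0x80000007c000001ef000000fe0000001f00000010 7 9) 0 0 (step_sound _ 67 [(rha11dfd15f08f96e3.shift 2 2), (rhb12ffaec36122c99.shift 0 1), rhdaf962e95754b959] (by decide +kernel))
noncomputable def rh7e7f177ac944e5c7 : CRef := CRef.mk (Pat.mk 0x10000000180000000c000000080000000000000000 0x24000000340000001f0000001f0000003f0000003200000030 7 6) 0 0 (step_sound _ 97 [(rh53b3c253cb0c65f4.shift 0 3), rh82cdca190f653e88] (by decide +kernel))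
noncomputable def rh8365d9e4bc897e65 : CRef := CRef.mk (Pat.mk 0x100000001000000030000000200000002000000000 0x8000000180000001f000000fe000001ef0000007c00000008 7 9) 0 0 (step_sound _ 99 [rh36b8148486524bc5, (rh8ee80cc30e93a344.shift 2 2), (rhc8ae77ecad49585e.shift 1 1), (rhc92c11e8da6c894f.shift 0 2)] (by decide +kernel))
noncomputable def rh3eb8dfeff30af859 : CRef := CRef.mk (Pat.mk 0x2000000060000000300000000000000000000000000000000 0x6000000060000001e000000070000001e0000000f0000000700000001 7 5) 0 0 (step_sound _ 163 [rh0d3e00a5559cfd21, (rh18965a982d73c794.shift 0 4)] (by decide +kernel))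
noncomputable def rh2bd0e9f546761791 : CRef := CRef.mk (Pat.mk 0x8000000180000000c0000000000000000 0x18000000380000001f0000003f0000003800000008 7 6) 0 0 (step_sound _ 65 [(rh53b3c253cb0c65f4.shift 0 2), rhcdc223e3aa84f35e] (by decide +kernel))
noncomputable def rh1d67a34712be4486 : CRef := CRef.mk (Pat.mk 0x100000000000000020000000200000002000000000000000000000000 0x100000007000000060000000600000006000000070000000700000001 7 3) 0 0 (step_sound _ 193 [rh90a315350f5b6a97, (rhffd04209dc8ea796.shift 0 3)] (by decide +kernel))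
noncomputable def rh0f02d67a463c24e3 : CRef := CRef.mk (Pat.mk 0x4000000040000000400000006000000000000000000000000 0x40000000c0000003f0000003f000000380000001000000010 7 6) 0 0 (step_sound _ 99 [(rh55afc6a59410cf00.shift 2 2), rh97031124c7d8a92a] (by decide +kernel))
noncomputable def rhbf5cca5ac64e4501 : CRef := CRef.mk (Pat.mk 0x3000000020000000200000001 0x100000007000000070000000600000003000000070000000700000001 7 3) 0 0 (step_sound _ 129 [(rh6b9501b3412a8a81.shift 0 1), rh79877ebd3ef475dd] (by decide +kernel))
noncomputable def rh3f9599da326f7848 : CRef := CRef.mk (Pat.mk 0x100000001000000030000000200000002000000000 0x100000001f000000fe000000ef0000007c00000008 7 8) 0 0 (step_sound _ 99 [rh36b8148486524bc5, (rhc043fe11f559a10b.shift 1 0), (rhc92c11e8da6c894f.shift 0 2), (rhe4cf45fc10e3947a.shift 2 2)] (by decide +kernel))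
noncomputable def rh111bceccc66c96e2 : CRef := CRef.mk (Pat.mk 0x40000000e000000080000000800000000 0x70000003e0000003f0000000f00000006 7 6) 0 0 (step_sound _ 100 [rhba96842ad3e22ecf, (rhe3060b190bc0bc78.shift 0 3), rhe7e904f05c6d97c3] (by decide +kernel))
noncomputable def rhcce7569531e62f87 : CRef := CRef.mk (Pat.mk 0x100000002000000020000000200000000000000000000000000000000 0x100000007000000060000000600000006000000070000000700000001 7 3) 0 0 (step_sound _ 97 [rh90a315350f5b6a97, (rhffd04209dc8ea796.shift 0 3)] (by decide +kernel))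
noncomputable def rh694653212873ace6 : CRef := CRef.mk (Pat.mk 0x8000000080000000800000018000000000000000000000000 0x800000008000000f80000007f000000ff000000600000002000000020 7 8) 0 0 (step_sound _ 132 [(rh2145e1d24b96a57e.shift 3 3), rh2d9992662d36e47b] (by decide +kernel))
noncomputable def rhad7622a930636dad : CRef := CRef.mk (Pat.mk 0x18000000100000001000000018 0x140000001e000000f7000000ff0000001f 7 8) 0 0 (step_sound _ 35 [(rh5c5e593799055d58.shift 3 0), rh6a250fad8e780a3a] (by decide +kernel))
noncomputable def rhefb9fd160366c0d7 : CRef := CRef.mk (Pat.mk 0x8000000000000001e00000000000000000000000000000000 0xc0000000c0000003e000000070000000e0000000e0000000c 7 6) 0 0 (step_sound _ 97 [(rheb0810cc63b001d8.shift 0 3), (rhf6cc3ee396a74341.shift 1 0)] (by decide +kernel))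
noncomputable def rhdb9d5a4b3d22d761 : CRef := CRef.mk (Pat.mk 0x1c00000012 0xe7000000ff0000001e 7 8) 0 0 (step_sound _ 37 [rh2fba784c4f145091, (rh80fcd6d0a18cb2dd.shift 1 0)] (by decide +kernel))
noncomputable def rh0ff5c44908a5ffcd : CRef := CRef.mk (Pat.mk 0x4000000000000000e0000000800000000 0x600000006000000730000003e0000007f00000004 7 7) 0 0 (step_sound _ 37 [(rh68691964b29f233d.shift 1 1), rhb8ee324a5bc90574, (rhc1db5918def9f13b.shift 1 1), (rhe28dc3223a412fc9.shift 1 1)] (by decide +kernel))
noncomputable def rhd3a7bc5830c8a8a1 : CRef := CRef.mk (Pat.mk 0x200000002000000040000000400000000 0x600000006000000060000003c0000000f0000000e 7 6) 0 0 (step_sound _ 98 [(rh7b1f1fb55310c477.shift 1 0), rhbb0650a008116cff] (by decide +kernel))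
noncomputable def rh93a160b8decbc8cc : CRef := CRef.mk (Pat.mk 0x1800000008000000080000001800000000 0x18000000180000007f000000ff000000e4 7 8) 0 0 (step_sound _ 34 [(rh932754581e0f4330.shift 2 0), rhff495e31fbd41198] (by decide +kernel))
noncomputable def rhc7d6198bc468f1f3 : CRef := CRef.mk (Pat.mk 0x600000000000000020000000200000000 0x300000003000000070000000600000006000000070000000300000001 7 3) 0 0 (step_sound _ 97 [(rh2f68792b6b779e96.shift 1 1), rhdb991c49878b7ef7] (by decide +kernel))
noncomputable def rhdfb50a50b16b1891 : CRef := CRef.mk (Pat.mk 0xc000000000000000c0000000400000000 0x1c0000001c000000780000001f0000000c00000008 7 7) 0 0 (step_sound _ 99 [rh4ef8caded66da0b7, (rh5c5e593799055d58.shift 2 1)] (by decide +kernel))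
noncomputable def rh5082002897bc2cda : CRef := CRef.mk (Pat.mk 0x300000002000000030000000100000000 0x50000000700000006000000070000001f0000001e 7 5) 0 0 (step_sound _ 33 [rh2156d6b8ad867fc6, (rh50fbb5868c909700.shift 0 1)] (by decide +kernel))
noncomputable def rhb8c6454e761bb380 : CRef := CRef.mk (Pat.mk 0x4000000000000000e000000020000000000000000 0x40000001c0000003c0000001e0000003b0000001800000018 7 6) 0 0 (step_sound _ 100 [(rha49d9f853034d84f.shift 1 0), (rheb0810cc63b001d8.shift 0 2)] (by decide +kernel))
noncomputable def rhf3a3a51827a7fd98 : CRef := CRef.mk (Pat.mk 0x1800000000000000180000000c000000000000000000000000 0x2800000038000000320000001f0000003f000000770000000400000004 7 7) 0 0 (step_sound _ 97 [(rh53b3c253cb0c65f4.shift 0 3), rha3728363843e57ba] (by decide +kernel))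
noncomputable def rh76226c4fac0ee062 : CRef := CRef.mk (Pat.mk 0x200000000000000030000000180000000000000000 0x20000000ef000000ff000000f8000000c000000080 7 8) 0 0 (step_sound _ 102 [(rh18965a982d73c794.shift 3 2), rhf3d264ee4d3c5177] (by decide +kernel))
noncomputable def rh4d2b4a042be4497b : CRef := CRef.mk (Pat.mk 0x2000000000000000700000001000000000 0x6000000060000000ce0000007e000000ff00000020 7 8) 0 0 (step_sound _ 67 [(rh0d378fd9e8917c5a.shift 1 1), (rh775ca1963e850b80.shift 1 1), (rh9fe14049d88765bf.shift 2 0), (rha0574910acd1bf47.shift 2 1), (rhc7e8e87a0b43237b.shift 0 1)] (by decide +kernel))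
noncomputable def rha4b7b1189c1fe21c : CRef := CRef.mk (Pat.mk 0x1000000008000000080000000800000000 0x18000000180000007c0000000f0000000c0000000c 7 7) 0 0 (step_sound _ 131 [(rh2f68792b6b779e96.shift 3 1), rh406fda89a1e62cf5] (by decide +kernel))
noncomputable def rh1da7e7424d68f1ae : CRef := CRef.mk (Pat.mk 0x80000000800000008000000080000000000000000 0xc0000001f0000007c000000180000001800000018 7 7) 0 0 (step_sound _ 36 [rh35e5a41d07204fd6, (rhd3458b32566d63f7.shift 3 1)] (by decide +kernel))
noncomputable def rhb9f88b2b004cd304 : CRef := CRef.mk (Pat.mk 0x7800000000 0xe70000007e000000c7 7 8) 0 0 (step_sound _ 70 [rh025ef997acda9858, (rh33e738c4ed385b9f.shift 3 1)] (by decide +kernel))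
noncomputable def rh6ac97e40abea9b32 : CRef := CRef.mk (Pat.mk 0x20000000200000002000000020 0x3de000001fe000001f70000002000000020 7 10) 0 0 (step_sound _ 100 [(rh50fbb5868c909700.shift 4 0), rhd5812eca8f36a7e7] (by decide +kernel))
noncomputable def rh094f0b1286a5cf26 : CRef := CRef.mk (Pat.mk 0x400000004000000000000000c0000001800000000 0x1400000016000000f3000000ff0000001f00000008 7 8) 0 0 (step_sound _ 65 [rh86b3cb82015cc91e, (rhb739f4f82bb681b4.shift 0 1)] (by decide +kernel))
noncomputable def rhd6dacd8605a94268 : CRef := CRef.mk (Pat.mk 0x3000000020000000200000002000000000 0x4e000001fe000001f7000000300000003000000010 7 9) 0 0 (step_sound _ 134 [(rh2f68792b6b779e96.shift 5 1), rh65633ea212033854] (by decide +kernel))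
noncomputable def rh9028022ce2490963 : CRef := CRef.mk (Pat.mk 0x40000000c000000000000000800000000 0x1800000018000000180000003c0000000f000000780000001e0000001c 7 7) 0 0 (step_sound _ 67 [rh74da12ccf0b5b8ff, (rh7b1f1fb55310c477.shift 2 0)] (by decide +kernel))
noncomputable def rh68123764371c1c50 : CRef := CRef.mk (Pat.mk 0x200000002000000060000000400000004000000000 0xa0000001b7000000fe000003de000000f800000010 7 10) 0 0 (step_sound _ 100 [(rh442698779f0d964b.shift 3 0), (rh596def3aae05c2e3.shift 1 0), (rh5a1dc4f1ba2ce0d6.shift 0 2), (rh8ee80cc30e93a344.shift 3 2)] (by decide +kernel))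
noncomputable def rh9bb54cc541f64892 : CRef := CRef.mk (Pat.mk 0x180000000e000000080000000000000000 0xe0000000f0000001e0000000e0000003c0000000f0000000e 7 6) 0 0 (step_sound _ 66 [(rh1e309b005ffa1b36.shift 2 0), (rh736967bd52c60815.shift 0 1), rhfae0b6427fba7bd7] (by decide +kernel))
noncomputable def rh242b1f38cdd4f850 : CRef := CRef.mk (Pat.mk 0x1c00000006000000040000000000000000 0x1000000012000000330000001f0000003e0000000c0000000400000004 7 6) 0 0 (step_sound _ 129 [rh034ffd3c730dbeb3, (rh309fd0c3d364cd61.shift 0 2)] (by decide +kernel))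
noncomputable def rh105dd45885165533 : CRef := CRef.mk (Pat.mk 0x200000002000000020000000200000000000000000000000000000000 0x2000000020000000600000006000000060000000600000006000000070000000700000005 7 3) 0 0 (step_sound _ 97 [rh95311890f436bcdc, (rh9bb7d10ce98dcee4.shift 1 2), (rhd29a1fb688eae70f.shift 1 2)] (by decide +kernel))
noncomputable def rh93ed2585fadf9b71 : CRef := CRef.mk (Pat.mk 0x1000000000000000200000002000000020000000200000000 0x40000000700000007000000020000000600000006000000070000000300000001 7 3) 0 0 (step_sound _ 32 [(rh15b7229389f08d04.shift 0 1), rh932754581e0f4330] (by decide +kernel))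
noncomputable def rha5f7e0914f56e3c6 : CRef := CRef.mk (Pat.mk 0x3000000020000000200000002000000000 0x3000000030000001f7000001fe0000005e 7 9) 0 0 (step_sound _ 36 [(rh932754581e0f4330.shift 4 0), rhdc4cc1dbd00cea5c] (by decide +kernel))
noncomputable def rh4603d8f188f19f9d : CRef := CRef.mk (Pat.mk 0xc000000040000000400000000 0x80000000e0000000f0000003c0000000f0000003c00000018 7 6) 0 0 (step_sound _ 131 [(rh69755ef358ebfd54.shift 2 1), rh6f4c4a84849a9caf, (rhbfb5770941270498.shift 2 1)] (by decide +kernel))
noncomputable def rheab6e7b910c444f3 : CRef := CRef.mk (Pat.mk 0x40000000700000004000000000000000000000000 0x40000000400000004000000070000003e0000003e0000000e0000000e 7 6) 0 0 (step_sound _ 97 [(rh1e309b005ffa1b36.shift 1 1), rh42f8ee4648a88e95, (rh8af73b7df2d2ba44.shift 0 2)] (by decide +kernel))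
noncomputable def rh2d74af7a0fe53a1a : CRef := CRef.mk (Pat.mk 0xc00000006000000040000000000000000000000000000000000000000 0x600000006000000060000000c0000000e0000003e0000000f0000000e000000060000000600000002 7 6) 0 0 (step_sound _ 130 [(rh0564152f77b1c28e.shift 1 0), (rh7cc5555d3be4a9c1.shift 1 3), (rh957e3bb4c843b184.shift 0 3)] (by decide +kernel))
noncomputable def rhbe3b245974213236 : CRef := CRef.mk (Pat.mk 0x400000004000000040000000c00000000 0x80000000c0000001c0000003f0000003e00000032 7 6) 0 0 (step_sound _ 33 [rh083787a63003e168, (rh932754581e0f4330.shift 1 0)] (by decide +kernel))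
noncomputable def rh9c6961379ec89e2c : CRef := CRef.mk (Pat.mk 0x800000000000000180000001000000010 0x28000000680000007e000000ff000000f0 7 8) 0 0 (step_sound _ 35 [(rh6f1cbe15c631ee70.shift 3 0), rhb51d30001a7f210a] (by decide +kernel))
noncomputable def rh788316e9177d60df : CRef := CRef.mk (Pat.mk 0x800000000000000180000001000000010 0x280000007c000001ef0000007e0000007700000010 7 9) 0 0 (step_sound _ 99 [(rh2145e1d24b96a57e.shift 3 1), rhaf3b7f4f34bf43e0] (by decide +kernel))
noncomputable def rh2c5d03a81e313eb4 : CRef := CRef.mk (Pat.mk 0x4000000000000000e0000000800000008 0x600000016000000730000003e0000003f00000008 7 7) 0 0 (step_sound _ 68 [(rh264db28687f42597.shift 0 1), (rh3b00e9e9432b8f40.shift 0 1), (rhbbda3e5cf400e6dd.shift 1 0)] (by decide +kernel))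
noncomputable def rh97b1f85bc2946eed : CRef := CRef.mk (Pat.mk 0x38000000200000002000000000 0x8000000080000000f0000007e0000003e0000006600000004 7 7) 0 0 (step_sound _ 66 [(rh45beebce8c11cf6a.shift 0 2), (rh6327be3b513cfde1.shift 1 1), (rh73f5f7cdf41b5bc9.shift 1 1), (rha1db1f97c5bb73f3.shift 1 0)] (by decide +kernel))
noncomputable def rh6f25c6a28824934f : CRef := CRef.mk (Pat.mk 0x800000008000000080000001c00000000 0x140000001c000000180000007c000000ff00000060 7 8) 0 0 (step_sound _ 132 [(rh2f68792b6b779e96.shift 3 1), rhee495b629fa07fc5] (by decide +kernel))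
noncomputable def rh5602f28a4d0f78ba : CRef := CRef.mk (Pat.mk 0x200000002000000020000000200000000000000000000000000000000 0x200000003000000030000000300000007000000070000000700000001 7 3) 0 0 (step_sound _ 97 [(rh047f549357eb18af.shift 0 1), (rh6eff4158bb400f47.shift 0 1), (rh7928877f9bf74a91.shift 0 2), rh8e3b1d976c2c4cbf, (rhc8d8968d053fe9bb.shift 0 1)] (by decide +kernel))
noncomputable def rh2e10078597c85437 : CRef := CRef.mk (Pat.mk 0x20000000200000003000000018 0xc0000003c000000ee000000ff00000038 7 8) 0 0 (step_sound _ 38 [(rh18965a982d73c794.shift 3 0), rha86c25ffe79a1b6a] (by decide +kernel))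
noncomputable def rhfd29e06a879b9e20 : CRef := CRef.mk (Pat.mk 0x8000000380000000c00000000 0x40000001c0000001c000000180000007f0000003f0000006c00000028 7 7) 0 0 (step_sound _ 131 [(rh35c5f1c53251aa1b.shift 2 1), (rh9a369cb82ea472da.shift 2 1), (rhc3d1b6aced6c6bfc.shift 0 1), rhf5519bf02007916f] (by decide +kernel))
noncomputable def rhd7096708abe916ae : CRef := CRef.mk (Pat.mk 0x40000000c0000000600000000 0xa0000001e0000001e0000001c0000003c0000001f0000000e0000000e00000004 7 6) 0 0 (step_sound _ 130 [rh45367e9db8cf9c2c, (rh518d6f6eeebddcb2.shift 1 1), (rh61257be8a2a27e51.shift 1 1)] (by decide +kernel))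
noncomputable def rhcf20f7f3b63f8534 : CRef := CRef.mk (Pat.mk 0x10000000300000002000000020 0x800000048000000df000000fe000000ff00000024 7 8) 0 0 (step_sound _ 67 [rh65701d024dc96b38, (rh9909eeda0ef2ed2c.shift 2 1), (rhb2afcb5db661472f.shift 0 1), (rhcced840e0475f351.shift 2 0)] (by decide +kernel))
noncomputable def rh6c22e2782d917e7b : CRef := CRef.mk (Pat.mk 0xc00000038000000080000000000000000 0x2000000030000000700000007c0000003f000000780000000800000008 7 7) 0 0 (step_sound _ 132 [rh104631d35918e1c8, (rh84d1c02a8954c6a8.shift 3 1), (rhe9c748870063bd30.shift 1 2)] (by decide +kernel))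
noncomputable def rh47a5080e0f215785 : CRef := CRef.mk (Pat.mk 0xe00000018000000080000000000000000 0x200000012000000330000003e0000001f0000000c0000000800000008 7 6) 0 0 (step_sound _ 132 [(rh5421160f8e9bcf07.shift 1 2), rhdcafe138dae0415f] (by decide +kernel))
noncomputable def rhb36e22adbb72202e : CRef := CRef.mk (Pat.mk 0x800000008000000080000000000000000 0x10000000140000003c0000001f000000180000000c0000000c00000004 7 6) 0 0 (step_sound _ 164 [(rh08d50fe567eb1045.shift 3 1), (rh28dbbf1cc2480271.shift 2 0), (rh5890386c1f942fa1.shift 3 2), (rh87d5e4118780fa3b.shift 3 1), (rhb968b19b6969bddd.shift 0 1)] (by decide +kernel))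
noncomputable def rh0bc6c9ee09575f0d : CRef := CRef.mk (Pat.mk 0x180000000e00000008000000000000000000000000 0x100000001c0000001c0000000c0000001f000000fe000000f80000000c0000000c00000004 7 8) 0 0 (step_sound _ 195 [(rh230660cca28df197.shift 0 3), (rh62e05db1b73ac916.shift 2 0), (rh69f0587a21bb077f.shift 2 3), (rhec1e3f6ff489986c.shift 2 3)] (by decide +kernel))
noncomputable def rh4ee27628f174473a : CRef := CRef.mk (Pat.mk 0x1c0000000600000004000000000000000000000000 0x1000000010000000320000001f0000003e0000000c000000060000000600000002 7 6) 0 0 (step_sound _ 66 [(rha8bc3cae4d77a08f.shift 1 0), (rhd149b2d6a4041410.shift 0 2), (rhe286c75f2739cce2.shift 1 1)] (by decide +kernel))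
noncomputable def rh1683aa4944c27f58 : CRef := CRef.mk (Pat.mk 0x8000000180000000c00000000 0x40000000c0000000c0000000f0000001e0000001f0000000a 7 5) 0 0 (step_sound _ 33 [(rh53b3c253cb0c65f4.shift 0 1), rh6ebf05bce64c2231] (by decide +kernel))
noncomputable def rh38175a832b84393d : CRef := CRef.mk (Pat.mk 0x4000000040000000c00000004 0x100000003a0000003f0000003f0000000c00000004 7 6) 0 0 (step_sound _ 99 [rh1bed5e49a79bd887, (rh2f68792b6b779e96.shift 2 0)] (by decide +kernel))
noncomputable def rh7bbd6a1e8288c8a6 : CRef := CRef.mk (Pat.mk 0x4000000040000000c00000006 0xa0000000e0000000e00000006000000070000003f0000003c00000006 7 6) 0 0 (step_sound _ 36 [(rh18965a982d73c794.shift 1 0), rh1eace3861f13e7a4] (by decide +kernel))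
noncomputable def rh58f78734eedd5029 : CRef := CRef.mk (Pat.mk 0x2000000020000000600000003 0x500000007000000070000000700000003000000060000001e00000003 7 5) 0 0 (step_sound _ 35 [rh18965a982d73c794, rhc7e692ad98a45ef0] (by decide +kernel))
noncomputable def rh355a33c2042407ff : CRef := CRef.mk (Pat.mk 0x8000000080000000e00000004 0x60000000f0000007f0000003e00000007 7 7) 0 0 (step_sound _ 36 [rh4c9a509cc62c31eb, rhaf9f2efc81a8312b, (rhb18e6c78a554867d.shift 0 1)] (by decide +kernel))
noncomputable def rhc92f5703486b361a : CRef := CRef.mk (Pat.mk 0x1c0000000800000000 0x2200000022000000630000007f0000007f00000074 7 7) 0 0 (step_sound _ 34 [(rh4dc133ee0ba1420a.shift 0 1), rha93c2dd95acfaca1, (rhb6b043eb258600e6.shift 1 0)] (by decide +kernel))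
noncomputable def rh63b5694f5f3f0147 : CRef := CRef.mk (Pat.mk 0x7000000020000000200000000 0x7000000070000001f0000001f00000007000000060000000600000004 7 5) 0 0 (step_sound _ 129 [(rh4b5a15255a721486.shift 0 1), rh5abfc4c9d959be03, rh83a22a296b37828d, rha087c6594f4bfb59, (rhc85cc95794737cf7.shift 0 1), rhf644b3f7f54bbc91] (by decide +kernel))
noncomputable def rh806084e72ee4aa6b : CRef := CRef.mk (Pat.mk 0xc000000050000000000000000 0x200000012000000370000003f0000007f0000000c0000000c 7 7) 0 0 (step_sound _ 100 [rh49df48c0edb45416, (rh67e5914ef7f4941c.shift 0 2), (rha997c6ce7e425b45.shift 0 2)] (by decide +kernel))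
noncomputable def rh6cc2182df80f964c : CRef := CRef.mk (Pat.mk 0x180000000a0000000000000000 0x1400000014000000ff0000007f000000eb0000000a00000008 7 8) 0 0 (step_sound _ 98 [(rh2fbcc400ac3d93ac.shift 1 0), (rh73f5f7cdf41b5bc9.shift 0 1), (rhc223f4bba51e533c.shift 0 1), (rhc5a5777137d2c728.shift 0 1)] (by decide +kernel))
noncomputable def rh454c1ffcc0486478 : CRef := CRef.mk (Pat.mk 0x80000001c000000040000000000000000 0x1000000010000000780000003f000000f40000003e00000014 7 8) 0 0 (step_sound _ 34 [rh58f38929af13dd47, (rh71222050f2c63a3a.shift 2 0)] (by decide +kernel))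
noncomputable def rh56888e33f6a1a86e : CRef := CRef.mk (Pat.mk 0x3800000020000000000000000000000000 0x80000000c0000000f0000007e0000003f0000000e0000000c00000004 7 7) 0 0 (step_sound _ 98 [(rh3cc5c7fb74c49f61.shift 0 3), (rh45beebce8c11cf6a.shift 0 3), (rh4c5c51b0ae60cece.shift 0 3), (rh73f5f7cdf41b5bc9.shift 1 2), (rhd22a978c5a6938f4.shift 1 0)] (by decide +kernel))
noncomputable def rhb132a953115fb103 : CRef := CRef.mk (Pat.mk 0x80000001e00000010 0x6c000000fe000001df 7 9) 0 0 (step_sound _ 1 [(rh41cf518aa643711d.shift 1 0), rheb0810cc63b001d8] (by decide +kernel))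
noncomputable def rhda99630a70e70df9 : CRef := CRef.mk (Pat.mk 0x3400000016000000000000000000000000 0xa0000000e0000003e0000001f0000003600000016000000160000000600000006 7 6) 0 0 (step_sound _ 162 [(rh281c6819542c66e6.shift 1 0), (rh5f9eead1c548f2ea.shift 0 2), (rh7a7e08304268422e.shift 1 2), (rhd0c90ec82d743520.shift 1 0)] (by decide +kernel))
noncomputable def rh4b10e7157bc2967e : CRef := CRef.mk (Pat.mk 0xe000000120000000000000000 0xc0000000c0000000f0000003e0000003800000018 7 6) 0 0 (step_sound _ 67 [(rhb739f4f82bb681b4.shift 0 2), (rhc57fee23e8a7517f.shift 1 0)] (by decide +kernel))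
noncomputable def rh1e557b6fad6f1229 : CRef := CRef.mk (Pat.mk 0xc00000007000000080000000000000000 0x80000000c0000000f0000001e0000007c0000001c 7 7) 0 0 (step_sound _ 99 [(rh6e242c6577930c77.shift 1 0), (rhe25b0a99195a5d59.shift 0 2)] (by decide +kernel))
noncomputable def rh92b94bd09f04bf49 : CRef := CRef.mk (Pat.mk 0x18000000080000000800000000 0x100000003c000000ff0000003c000000180000001800000010 7 8) 0 0 (step_sound _ 132 [(rh69755ef358ebfd54.shift 3 1), rh965c983656eec083, (rhbfb5770941270498.shift 3 1)] (by decide +kernel))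
noncomputable def rh1841b05e6131f29a : CRef := CRef.mk (Pat.mk 0x4000000070000000000000000000000000 0x20000000280000006f000000ff000000fe0000001000000010 7 8) 0 0 (step_sound _ 67 [rh4a4b6c87bef15b58, (rh4c5c51b0ae60cece.shift 1 2), (rh603ed7b51569986f.shift 2 2), (rhc6ceb02b0b73538b.shift 0 2)] (by decide +kernel))
noncomputable def rhe5b261ea311aefb5 : CRef := CRef.mk (Pat.mk 0xc00000007000000040000000000000000 0x80000000c0000000f0000001e0000007c0000001c 7 7) 0 0 (step_sound _ 34 [(rh2f68792b6b779e96.shift 2 1), rhf695c6b4b0b6b55d] (by decide +kernel))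
noncomputable def rh22f84fe7e7174ebd : CRef := CRef.mk (Pat.mk 0x180000000e000000080000000000000000 0x200000006000000070000001f000000fe000000ff0000003200000030 7 8) 0 0 (step_sound _ 100 [(rh0b991517a864d047.shift 0 2), (rh21460d2d48a35cb8.shift 0 1), (rh6cdf1ecd0f85809e.shift 0 2), rh7419e4ee892f05aa, rhc62656d98e2efc3b] (by decide +kernel))
noncomputable def rhafab25364979d6c2 : CRef := CRef.mk (Pat.mk 0x1a0000000b0000000000000000000000000000000000000000 0x50000001f0000001f0000000f0000001b0000001b0000001300000003000000070000000700000004 7 5) 0 0 (step_sound _ 225 [(rh281c6819542c66e6.shift 0 2), rh409875ed737ad8d0, (rh7a7e08304268422e.shift 0 4), (rhde85cecbd9e4ca83.shift 0 4)] (by decide +kernel))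
noncomputable def rhd8856f0e0c4bbd76 : CRef := CRef.mk (Pat.mk 0x1c0000000500000000 0x8000000080000003b0000001f0000003700000010 7 6) 0 0 (step_sound _ 65 [rh278e5126e461c114, (rh80fcd6d0a18cb2dd.shift 0 1)] (by decide +kernel))
noncomputable def rh7661e7cdf6421781 : CRef := CRef.mk (Pat.mk 0xf000000000000000000000000 0x140000001c0000001c0000001c0000000f0000001c0000000c00000004 7 5) 0 0 (step_sound _ 67 [rh146135e97bce5665, (rhe25b0a99195a5d59.shift 0 2)] (by decide +kernel))
noncomputable def rh0e14558a751ba979 : CRef := CRef.mk (Pat.mk 0x1c000000040000000000000000 0xa0000000a0000007f0000003f000000f40000001400000014 7 8) 0 0 (step_sound _ 131 [(rh4821dcf828b9d7bf.shift 2 0), rh62e931f8ec45c70a, rhffddc2204acb900f] (by decide +kernel))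
noncomputable def rh12a8dfc3fd2537e5 : CRef := CRef.mk (Pat.mk 0x1c0000000c000000000000000000000000 0x180000001e0000001f0000001c0000000c0000000f0000003c0000001c 7 6) 0 0 (step_sound _ 67 [(rh0656236c7a8f2718.shift 0 1), (rh261f868a429ae0e3.shift 2 1), rhe2de5260b188f0f4] (by decide +kernel))
noncomputable def rhfac3e3321019416a : CRef := CRef.mk (Pat.mk 0x20000000700000001000000000000000000000000 0x70000000700000007000000070000001f0000001e0000000600000002 7 5) 0 0 (step_sound _ 193 [(rh5c5e593799055d58.shift 0 3), rhc07179ec97fcaab3] (by decide +kernel))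
noncomputable def rh888bb4a91572c0c5 : CRef := CRef.mk (Pat.mk 0x80000001c000000040000000000000000 0x600000006000000060000000f0000003c0000000c0000000c0000000c 7 6) 0 0 (step_sound _ 34 [(rh71222050f2c63a3a.shift 2 0), rhbbe941760f2600d4] (by decide +kernel))
noncomputable def rhdf6834960d01115a : CRef := CRef.mk (Pat.mk 0x8000000080000000c00000004000000000000000000000000 0x160000003f0000007f0000000c0000001c000000180000001800000008 7 7) 0 0 (step_sound _ 99 [(rh305945700f20b255.shift 1 2), (rh3502d92c6cce609b.shift 2 0), (rh7ec372de7fdf51d0.shift 0 3), (rh8ff3dde5b1c639e0.shift 2 1)] (by decide +kernel))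
noncomputable def rhbbad4b0611bbc791 : CRef := CRef.mk (Pat.mk 0x10000000180000000a0000000800000000 0xc0000000c0000000c0000001f00000038000000fb000000ff00000030 7 8) 0 0 (step_sound _ 131 [rh1120d1bedf8bd8df, (rhc647a25a08ddf0ec.shift 0 1), (rhcbaa34959f85e2ef.shift 2 0)] (by decide +kernel))
noncomputable def rh1d6b039269b582bc : CRef := CRef.mk (Pat.mk 0x10000000180000000a00000008 0x200000006000000370000007f000000fe0000007c 7 8) 0 0 (step_sound _ 34 [(rh572132728df34c43.shift 1 1), (rh80f90a60d87caa0d.shift 1 1), rha24b9f3b6e12b28c] (by decide +kernel))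
noncomputable def rh0c28fd5216732641 : CRef := CRef.mk (Pat.mk 0x200000003000000014 0x80000000c000000ff000000fe000001dc 7 9) 0 0 (step_sound _ 35 [(rh0f4a0920b9f47778.shift 2 0), (rh22ed820eddadadcc.shift 2 0), (rh3e0b38310ac09007.shift 0 1), (rh4ddbefb7ff5d58d4.shift 2 0)] (by decide +kernel))
noncomputable def rh0d2c237f9d84ece9 : CRef := CRef.mk (Pat.mk 0x200000002000000030000000140000000000000000 0x1c0000007c000001ef0000007c000000dc0000004c00000004 7 9) 0 0 (step_sound _ 99 [(rh2e2c2eb3695e6cb8.shift 0 1), (rh5b82b5a57c5d15a6.shift 2 1), (rh716eba45a26b60e5.shift 1 0), (rha11dfd15f08f96e3.shift 2 3)] (by decide +kernel))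
noncomputable def rh0eb1aed6f2b27895 : CRef := CRef.mk (Pat.mk 0x80000000c000000050000000400000000 0x600000006000000060000000f0000003e000000070000003e00000008 7 6) 0 0 (step_sound _ 65 [(rh80f90a60d87caa0d.shift 0 2), rhd2d063133e6f24d3, rhfdf9c8c005c8d9dd] (by decide +kernel))
noncomputable def rhe9be39e0c65d145a : CRef := CRef.mk (Pat.mk 0x200000002000000020000000200000000000000000000000000000000 0x200000006000000060000000600000007000000070000000700000004 7 3) 0 0 (step_sound _ 97 [(rh1a84ccadb9ef172a.shift 0 1), (rh8cdd36b03d57a2f6.shift 0 1), rhb4d78cd0e58cc17c, (rhd29a1fb688eae70f.shift 1 2)] (by decide +kernel))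
noncomputable def rhe182490c37f93ca7 : CRef := CRef.mk (Pat.mk 0x8000000080000000a0000000800000000 0x8000000080000000f0000003e0000003f00000010 7 6) 0 0 (step_sound _ 36 [(rh55afc6a59410cf00.shift 3 0), (rha499176323084204.shift 0 1)] (by decide +kernel))
noncomputable def rha4564ddfd517e709 : CRef := CRef.mk (Pat.mk 0x8000000080000000a0000000800000000 0x800000008000000780000003e0000003f00000010 7 7) 0 0 (step_sound _ 36 [(rh55afc6a59410cf00.shift 3 0), (rhb181fbf4081ccb89.shift 0 1)] (by decide +kernel))
noncomputable def rh34c13eff7b7e79f6 : CRef := CRef.mk (Pat.mk 0x3000000010000000140000001000000000 0xf0000007e000000fe000000140000003400000020 7 8) 0 0 (step_sound _ 131 [(rh50fbb5868c909700.shift 3 1), rh8a1603c03c38bea0] (by decide +kernel))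
noncomputable def rheeb0ffdfdaa25f67 : CRef := CRef.mk (Pat.mk 0x18000000080000000a00000008 0xc0000000c0000003c0000003f0000000e0000000c 7 6) 0 0 (step_sound _ 130 [rh9fb36b83b26910f3, (rhffd04209dc8ea796.shift 2 0)] (by decide +kernel))
noncomputable def rhd8d94946e0f1319c : CRef := CRef.mk (Pat.mk 0x18000000080000000a0000000800000000 0xc0000003c0000000f0000003e0000003800000010 7 6) 0 0 (step_sound _ 130 [(rh50fbb5868c909700.shift 2 1), rha756e100d10b0bf5] (by decide +kernel))
noncomputable def rhacb54ace111932bc : CRef := CRef.mk (Pat.mk 0x200000003000000014 0x80000000c000000ff000000fe0000003c 7 8) 0 0 (step_sound _ 35 [(rh22ed820eddadadcc.shift 2 0), (rh3e0b38310ac09007.shift 0 1), (rh4ddbefb7ff5d58d4.shift 2 0), (rhc5cb6cc859a57772.shift 1 0)] (by decide +kernel))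
noncomputable def rh4c4920049babe1a5 : CRef := CRef.mk (Pat.mk 0x1000000010000000180000000a00000000 0x28000000780000001e000000380000003e00000037 7 7) 0 0 (step_sound _ 36 [(rh5071b7ab31767948.shift 1 0), (rh8146230b61a7ca44.shift 1 0), rh9b79cd1bc448a214] (by decide +kernel))
noncomputable def rh97443e32ee46657e : CRef := CRef.mk (Pat.mk 0x10000000180000000a00000000 0x380000003c000000f0000000380000003e00000037 7 8) 0 0 (step_sound _ 132 [rh5221243ce20d0ead, (rh5c5e593799055d58.shift 3 1)] (by decide +kernel))
noncomputable def rh5cd2e8fb5249a6d5 : CRef := CRef.mk (Pat.mk 0x80000000c0000000400000000 0x1c0000001e000000780000000f0000003c00000018 7 7) 0 0 (step_sound _ 131 [(rh5c5e593799055d58.shift 2 1), rh9e3033862e8f6a5d] (by decide +kernel))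
noncomputable def rhddf1910cafc6dca8 : CRef := CRef.mk (Pat.mk 0x80000000e000000040 0x1c7000000fe00000067 7 9) 0 0 (step_sound _ 36 [rh2198e04b50d0665a, (rh33e738c4ed385b9f.shift 4 1)] (by decide +kernel))
noncomputable def rhefa9db84b40c3c75 : CRef := CRef.mk (Pat.mk 0x80000000c0000000500000000 0x1c0000001e000000780000001e0000007f00000018 7 7) 0 0 (step_sound _ 131 [(rh5c5e593799055d58.shift 2 1), rhe0beefedd09da448] (by decide +kernel))
noncomputable def rha5458adfdeea8002 : CRef := CRef.mk (Pat.mk 0x100000000800000008000000000000000000000000 0x1400000014000001ff000000fe0000000f00000018000000180000001800000010 7 9) 0 0 (step_sound _ 163 [(rh215e11e099257d75.shift 3 2), rh4801aec634008af9, (rh6bc015b9268c8423.shift 0 1), (rhc8721f03f11e10a8.shift 0 3)] (by decide +kernel))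
noncomputable def rhfd93f3a0aaa9a0a9 : CRef := CRef.mk (Pat.mk 0x800000008000000100000000000000000 0x140000001c0000001c0000003c0000000f00000018000000180000001800000010 7 6) 0 0 (step_sound _ 163 [(rh2977b00063528966.shift 3 0), (rha896d6370d3166dd.shift 0 1), (rhba97f7f4ade5e136.shift 2 2)] (by decide +kernel))
noncomputable def rh8c9812e29cef6b55 : CRef := CRef.mk (Pat.mk 0x100000003c0000002000000000 0x1c0000001e0000001f0000001e0000007c0000002c00000004 7 7) 0 0 (step_sound _ 98 [(rh3244c3cc8379b070.shift 1 2), rhe7abab5b4977ff6b] (by decide +kernel))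
noncomputable def rh7b870d4443ff7afa : CRef := CRef.mk (Pat.mk 0x200000003800000040 0x2000000020000000370000007e000000ce 7 8) 0 0 (step_sound _ 38 [rh42b92d5acd3eea64, (rhe25b0a99195a5d59.shift 3 0)] (by decide +kernel))
noncomputable def rh80ba3510f5cf0f08 : CRef := CRef.mk (Pat.mk 0x800000007000000000 0xce0000007e00000077 7 8) 0 0 (step_sound _ 35 [(rh428265de8cd3cd2d.shift 3 1), rh598c96e05d977516] (by decide +kernel))
noncomputable def rhe6ec12dfb20fea46 : CRef := CRef.mk (Pat.mk 0x30000000280000000000000000 0x14000000140000001e000000fc000000ef0000000800000008 7 8) 0 0 (step_sound _ 99 [(rh2820ca9a6c4f41b4.shift 0 2), (rhad124d16c31897ea.shift 2 1), (rhf4e4690e1d4c3fc6.shift 1 0)] (by decide +kernel))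
noncomputable def rh2106538d638db26f : CRef := CRef.mk (Pat.mk 0x18000000140000000000000000 0xa0000000a0000006f0000007e000000760000000400000004 7 7) 0 0 (step_sound _ 98 [(rh3b7aa82f3989f392.shift 1 1), rhf4e4690e1d4c3fc6, (rhf6388f317ffa3be8.shift 1 2)] (by decide +kernel))
noncomputable def rh90915b691ff5ccd0 : CRef := CRef.mk (Pat.mk 0x1e0000000a00000000 0x14000000340000003f0000001f0000000a00000002 7 6) 0 0 (step_sound _ 97 [(rh3244c3cc8379b070.shift 0 2), rh9bb12067ce47bffb] (by decide +kernel))
noncomputable def rh0563f78e0b51a7fa : CRef := CRef.mk (Pat.mk 0x800000018000000140000001000000000 0x200000027000000ff000000ff000000170000001400000004 7 8) 0 0 (step_sound _ 132 [(rh022d859b4516e6e2.shift 0 1), (rhc0ddb33d3a52722b.shift 1 1), rhc7fc0d6e2627e7f6] (by decide +kernel))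
noncomputable def rhae347707fb7bc75c : CRef := CRef.mk (Pat.mk 0x1000000030000000280000000000000000 0x10000000100000001f0000003e0000006f0000000800000008 7 7) 0 0 (step_sound _ 164 [rh08039a1ace3d0771, (rh2145e1d24b96a57e.shift 4 2)] (by decide +kernel))
noncomputable def rh7809dea872bd2cf6 : CRef := CRef.mk (Pat.mk 0x40000000c0000000a0000000800000000 0x1800000018000000180000003c0000000f0000001b0000001f00000012 7 6) 0 0 (step_sound _ 131 [(rh1adc8391535f5fb2.shift 2 0), (rhc0ddb33d3a52722b.shift 0 1), rhe01f0df58e883775] (by decide +kernel))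
noncomputable def rhe6716def49487a6e : CRef := CRef.mk (Pat.mk 0x20000000200000002000000000000000000000000 0x7000000070000000700000006000000060000000600000006000000060000000600000004 7 3) 0 0 (step_sound _ 193 [(rh6c59ce14113da07f.shift 1 1), (rha087c6594f4bfb59.shift 0 2), (rha843ac6af038b7c8.shift 0 2), (rhaa3bece996244111.shift 1 0), (rhced6d86d2069808b.shift 1 2)] (by decide +kernel))
noncomputable def rh9bf0b9fb40af46f0 : CRef := CRef.mk (Pat.mk 0x400000006000000040000000400000000 0x3a0000003f0000003e0000000c0000000c00000008 7 6) 0 0 (step_sound _ 129 [(rh50fbb5868c909700.shift 1 1), rh920a1b3eeeeeb19e] (by decide +kernel))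
noncomputable def rh0a872a8f5835f3de : CRef := CRef.mk (Pat.mk 0x18000000140000000000000000 0x800000008000001de000000fe000000770000001400000014 7 9) 0 0 (step_sound _ 131 [(rh1114257776220e0e.shift 1 0), rh31c1f8959a8d3867, (rhc2c7bae8f445c890.shift 3 0)] (by decide +kernel))
noncomputable def rh44bf1bc0b2dc42b2 : CRef := CRef.mk (Pat.mk 0x180000000a0000000000000000 0xc0000000c0000001f0000003f0000003300000012 7 6) 0 0 (step_sound _ 66 [(rh53b3c253cb0c65f4.shift 0 2), rhab740075a8f15428] (by decide +kernel))
noncomputable def rh459379322a57ae67 : CRef := CRef.mk (Pat.mk 0x180000000a0000000000000000 0x400000004000000ef0000007f000000fb0000000800000008 7 8) 0 0 (step_sound _ 98 [(rh2fbcc400ac3d93ac.shift 1 0), rh7e04ed581401fab6, (rhd526f9b20c752965.shift 0 2)] (by decide +kernel))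
noncomputable def rhc122c3b9be065fdc : CRef := CRef.mk (Pat.mk 0x180000001e000000000000000000000000 0x180000003e000000370000003c0000001c 7 6) 0 0 (step_sound _ 65 [(rha0bf1119d53c15ed.shift 1 0), (rheb0810cc63b001d8.shift 0 2)] (by decide +kernel))
noncomputable def rh4c6caa9e80695878 : CRef := CRef.mk (Pat.mk 0x2000000038000000100000000000000000 0x180000003c000000f80000003e0000001f0000001c 7 8) 0 0 (step_sound _ 36 [rh2c90d9f596c1759c, (rh71222050f2c63a3a.shift 4 0)] (by decide +kernel))
noncomputable def rh6697294200135783 : CRef := CRef.mk (Pat.mk 0x180000000e00000004 0xe0000000f0000001f0000003e00000007 7 6) 0 0 (step_sound _ 99 [(rh5c5e593799055d58.shift 2 0), rhbcccfe4c0453af3d] (by decide +kernel))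
noncomputable def rhe474d596d42f5730 : CRef := CRef.mk (Pat.mk 0x1a0000000b00000000000000000000000000000000 0x50000001f0000001f0000000f0000001b0000001b00000013000000070000000700000004 7 5) 0 0 (step_sound _ 193 [(rh281c6819542c66e6.shift 0 1), rh64fca9a919d3b388, (rh7a7e08304268422e.shift 0 3), (rhde85cecbd9e4ca83.shift 0 3)] (by decide +kernel))
noncomputable def rhe244d40a4c5f0490 : CRef := CRef.mk (Pat.mk 0x180000000e000000040000000000000000 0x6000000060000001f0000003e0000003c0000000f0000000e 7 6) 0 0 (step_sound _ 34 [(rh71222050f2c63a3a.shift 2 0), rhc4c83a21b89924e9] (by decide +kernel))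
noncomputable def rh134565e1148d5359 : CRef := CRef.mk (Pat.mk 0x180000000a0000000000000000 0xa0000000b0000007f0000003e0000003400000014 7 7) 0 0 (step_sound _ 66 [(rh572132728df34c43.shift 1 2), (rh80f90a60d87caa0d.shift 1 2), rh92cff54756505f65] (by decide +kernel))
noncomputable def rh64297b4d4a00447c : CRef := CRef.mk (Pat.mk 0x2000000038000000200000002000000000 0x24000000260000007e0000003f0000003800000018 7 7) 0 0 (step_sound _ 36 [rh4ce79217ab98a5c9, (rh932754581e0f4330.shift 4 0)] (by decide +kernel))
noncomputable def rh0d1eec224fa73791 : CRef := CRef.mk (Pat.mk 0x280000000e000000000000000000000000 0x4000000040000000c0000003c0000003e0000000f0000000e00000004 7 6) 0 0 (step_sound _ 130 [rh0d3c360b0785f8b4, (rh361cc68994bd8a63.shift 1 3)] (by decide +kernel))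
noncomputable def rh754a78b4a4af929d : CRef := CRef.mk (Pat.mk 0x100000001e00000000000000000000000000000000 0x100000001f0000003c000000f80000003800000038 7 8) 0 0 (step_sound _ 100 [rh53230ec0c0acbd4a, (rhe25b0a99195a5d59.shift 1 3)] (by decide +kernel))
noncomputable def rh22ad645c92ca84c5 : CRef := CRef.mk (Pat.mk 0x80000001e000000000000000000000000 0x80000003e0000003f0000003c00000014 7 6) 0 0 (step_sound _ 68 [rh659f5cc42b141b1a, (rhe25b0a99195a5d59.shift 1 2)] (by decide +kernel))
noncomputable def rh53957cf67fdf6958 : CRef := CRef.mk (Pat.mk 0x180000000e000000000000000000000000 0x50000000700000007000000070000001f0000003e000000070000000700000005 7 6) 0 0 (step_sound _ 129 [rh24e72371d7873615, (rh3e6fa113d96337e6.shift 0 1), rh9ea8b757f205eb0c, (rhc285527e08d8cdd3.shift 0 1), (rhe6842b86b2cddab0.shift 0 1)] (by decide +kernel))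
noncomputable def rh839c17f37d4a6d23 : CRef := CRef.mk (Pat.mk 0x2000000038000000000000000000000000 0x14000000140000003f0000007e0000001f0000000800000008 7 7) 0 0 (step_sound _ 67 [rh2b311fb351321abd, rh83b8670db7903416, (rhf0f55c4504412200.shift 0 2)] (by decide +kernel))
noncomputable def rh66b506213561d340 : CRef := CRef.mk (Pat.mk 0x340000001c000000000000000000000000 0x160000001f0000003f0000001c0000000c0000000c0000000c 7 6) 0 0 (step_sound _ 67 [(rh4910557f52b068ce.shift 1 2), rh63c5337eabcefe94, (rhade0f4c81793f68e.shift 2 0), (rhd74a3f322305cac2.shift 1 1)] (by decide +kernel))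
noncomputable def rhc59f1e7e22bf1d64 : CRef := CRef.mk (Pat.mk 0x100000001c0000000000000000 0x4000000040000003f0000003f0000000300000002 7 6) 0 0 (step_sound _ 65 [(rh33e738c4ed385b9f.shift 1 2), rhc2e451d626176656] (by decide +kernel))
noncomputable def rhb68a85a2896b0542 : CRef := CRef.mk (Pat.mk 0x200000002000000038000000000000000000000000 0x8000000280000002f000001fe000003bf0000001000000010 7 10) 0 0 (step_sound _ 68 [(rh42548283029e2a39.shift 4 0), (rhb7fa1c73b1c4ec99.shift 0 2), rhcef3d925888649c4] (by decide +kernel))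
noncomputable def rha4104d890738768d : CRef := CRef.mk (Pat.mk 0x100000002000000020000000380000000000000000 0x4000000140000003c0000002f0000007c0000002e00000008 7 7) 0 0 (step_sound _ 132 [rh61bfcceca99b53f5, (rh7b1f1fb55310c477.shift 4 1)] (by decide +kernel))
noncomputable def rhc30a87c4ef9f49cf : CRef := CRef.mk (Pat.mk 0x200000006800000000 0x3f000001fe000001ce 7 9) 0 0 (step_sound _ 36 [(rh6db5e6cb937903bb.shift 1 0), (rh9a0d16ee7a537563.shift 1 0), (rhafaa61f79143ceed.shift 1 0), rhd292a17629f1d686, (rhe401600d466b97cd.shift 2 0)] (by decide +kernel))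
noncomputable def rh32bb5644ee8f404e : CRef := CRef.mk (Pat.mk 0x1000000012000000340000000000000000 0x80000003800000038000000780000001f0000001f000000340000001400000010 7 7) 0 0 (step_sound _ 164 [(rh0f13d0bfca265da3.shift 0 1), (rh245d56c915813f64.shift 1 1), (rh31df0bbddf0be61d.shift 1 0), (rhc2abba98ac8ec4ca.shift 1 2), (rhe5a9eeacb4bfeb50.shift 1 2)] (by decide +kernel))
noncomputable def rh74abf76296ae4269 : CRef := CRef.mk (Pat.mk 0x10000000120000003400000000 0x2800000038000000780000001e0000001b0000003e00000017 7 7) 0 0 (step_sound _ 132 [(rh245d56c915813f64.shift 1 0), rh3215f3b42377eb8a, rh70b10f1260ebc875] (by decide +kernel))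
noncomputable def rh27c62bbdd5ea976f : CRef := CRef.mk (Pat.mk 0xc000000080000000800000000 0x100000001c0000001c0000001c0000007c0000000f0000000c0000001800000010 7 7) 0 0 (step_sound _ 131 [(rh0f88566f1a09c677.shift 0 1), (rh1dffa6d8a02b5f3a.shift 2 1), (rh20ee5c2c4c3a9878.shift 0 1), (rh24e7089cea57625c.shift 2 1), (rh2dde4f9228cf5665.shift 2 0)] (by decide +kernel))
noncomputable def rh7cf7cebdd8dcde74 : CRef := CRef.mk (Pat.mk 0x10000000100000001400000000 0x280000003800000038000000100000001f0000007e0000002f 7 7) 0 0 (step_sound _ 132 [(rh4d607de5a8c3e6ec.shift 1 0), (rhc85cc95794737cf7.shift 3 1), rheea9bbb1cf663a16] (by decide +kernel))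
noncomputable def rh933775d4df72796f : CRef := CRef.mk (Pat.mk 0x1800000018000000140000000000000000 0xc0000000c0000001c0000001f000000ff000000e800000008 7 8) 0 0 (step_sound _ 67 [(rh87961b2a8ca8a677.shift 2 0), (rhb0fbf278214acd23.shift 0 1)] (by decide +kernel))
noncomputable def rheaf893106871950f : CRef := CRef.mk (Pat.mk 0x1800000018000000140000000000000000 0x70000001f0000001f000000ff000000ee0000000c 7 8) 0 0 (step_sound _ 67 [(rhb0fbf278214acd23.shift 0 1), rhd9cbd9d7689bf191, (rhf3fa90e4f34dc431.shift 1 0)] (by decide +kernel))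
noncomputable def rhdecd96c2ff7753d7 : CRef := CRef.mk (Pat.mk 0x100000001c000000100000001000000000 0x14000000140000001f0000001f0000003b0000000a 7 6) 0 0 (step_sound _ 67 [(rh1e309b005ffa1b36.shift 3 0), rha1f67675212f0f22] (by decide +kernel))
noncomputable def rhd8049641bdbd21c0 : CRef := CRef.mk (Pat.mk 0x100000001c000000080000000800000000 0x80000000c0000000f0000001f0000001c0000007c0000001e00000014 7 7) 0 0 (step_sound _ 130 [rh8acca448118e479f, (rhe072fffdd2fccf38.shift 2 1), (rhfd6cf88dff701bbd.shift 1 0)] (by decide +kernel))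
noncomputable def rh560d2db93b913cd6 : CRef := CRef.mk (Pat.mk 0x80000000e000000040000000400000000 0x780000003e000000770000003c00000018 7 7) 0 0 (step_sound _ 100 [rh25f90fd20bad4b26, (rha93a5dd541ab8209.shift 1 2), (rhaf9f2efc81a8312b.shift 0 2)] (by decide +kernel))
noncomputable def rh0d12f092fad34a89 : CRef := CRef.mk (Pat.mk 0xc000000180000000800000000 0x100000001c0000001c0000000c0000001c000000780000001f00000004 7 7) 0 0 (step_sound _ 69 [rhe0af2ed9b7daedbe, (rhf48373e13d2bc128.shift 2 2)] (by decide +kernel))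
noncomputable def rh74d56c9269e8b5d3 : CRef := CRef.mk (Pat.mk 0xc0000000a000000080000000000000000 0xa0000001f0000007e0000007f0000000c0000000c 7 7) 0 0 (step_sound _ 100 [(rh4ca5dae25f5c14ff.shift 0 3), rh6da04f081b8813d6, (rhe25aa37e1656baa0.shift 0 2)] (by decide +kernel))
noncomputable def rhe82b73219aa1ef1f : CRef := CRef.mk (Pat.mk 0x80000000a0000000c000000000000000000000000 0x20000001a0000007a0000001f0000007e0000001c0000001c 7 7) 0 0 (step_sound _ 34 [rh59e4cc9c64db732a, (rh7847051ba627ac19.shift 0 1), rh8cdf08abeba9dc4e, (rhd5b92086fe7b06e3.shift 2 0)] (by decide +kernel))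
noncomputable def rh17a37a392aa3be8e : CRef := CRef.mk (Pat.mk 0x80000000e0000000c 0x3000000030000003f0000007e0000000f 7 7) 0 0 (step_sound _ 36 [rh4dc133ee0ba1420a, rh771383521b68d2cd, rhe92c2581d71bf85a] (by decide +kernel))
noncomputable def rhac54d7815a552515 : CRef := CRef.mk (Pat.mk 0xc0000001a000000080000000000000000 0x2000000020000000b0000003f0000001e0000003c0000001000000010 7 6) 0 0 (step_sound _ 129 [rh52a38d52737bb297, (rhb739f4f82bb681b4.shift 0 3)] (by decide +kernel))
noncomputable def rh7b6a398d7af1896c : CRef := CRef.mk (Pat.mk 0xc000000080000000a0000000800000000 0xa0000000f0000003b0000003e0000000f00000004 7 6) 0 0 (step_sound _ 34 [(rh5c22cbd553636c38.shift 0 1), (rh932754581e0f4330.shift 2 0)] (by decide +kernel))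
noncomputable def rh63ecc18afd7e62c0 : CRef := CRef.mk (Pat.mk 0x1000000020000000200000002000000000000000000000000 0x300000003000000060000000600000006000000070000000700000007 7 3) 0 0 (step_sound _ 193 [(rh50fbb5868c909700.shift 0 3), rh5c63d134ac67e358] (by decide +kernel))
noncomputable def rhabe0a4ac8b80c17f : CRef := CRef.mk (Pat.mk 0x100000001000000010000000180000000000000000 0x3000000030000000ff000000fe000001e700000040 7 9) 0 0 (step_sound _ 69 [(rh55afc6a59410cf00.shift 4 1), rhcfd232bf2af532ec] (by decide +kernel))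
noncomputable def rhe31b40d03b332c87 : CRef := CRef.mk (Pat.mk 0xc0000000800000008000000080000000000000000 0x1c0000001c0000007c0000000f0000000c00000008 7 7) 0 0 (step_sound _ 66 [(rh932754581e0f4330.shift 2 1), rhceb7eb61ef7ca602] (by decide +kernel))
noncomputable def rh36bb62fc7f890e8c : CRef := CRef.mk (Pat.mk 0x80000000a0000000c0000000000000000 0x20000000f0000007e0000007f0000003400000014 7 7) 0 0 (step_sound _ 100 [rh32c243555d8e95dd, (rh574fdbf07bdd18b9.shift 0 2), rh98b8d161630d359b, (rhbfaaa14803e9d0cc.shift 0 2), (rhd69c262cd33b94b3.shift 0 2)] (by decide +kernel))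
noncomputable def rhbda2c8c74dba72b6 : CRef := CRef.mk (Pat.mk 0x4000000080000000a0000000c 0xe0000000f0000003b0000003e0000000f 7 6) 0 0 (step_sound _ 99 [(rh50fbb5868c909700.shift 2 0), rh5c22cbd553636c38] (by decide +kernel))
noncomputable def rh5bb04862bccb9e67 : CRef := CRef.mk (Pat.mk 0x800000008000000180000000000000000000000000000000000000000 0x40000000c000000180000007c0000001f0000001c000000180000001800000010 7 7) 0 0 (step_sound _ 131 [(rh33ca2040a0c1a3f7.shift 2 0), (rhab6ffbdaef6e235a.shift 1 3), (rhb0de455c382c5b1c.shift 0 3)] (by decide +kernel))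
noncomputable def rhf815acbf893c26d6 : CRef := CRef.mk (Pat.mk 0x80000000a00000018000000000000000000000000 0x800000008000001fb000000ff000000ee0000000400000004 7 9) 0 0 (step_sound _ 98 [(rh21902ce15cc138c8.shift 1 2), rha514de3160b4b01e, (rhd0ed6ce702d0de55.shift 0 3)] (by decide +kernel))
noncomputable def rh3ea732606b3f041f : CRef := CRef.mk (Pat.mk 0x3000000020000000280000002000000000 0x70000003e0000006f0000002c0000007c0000005e 7 7) 0 0 (step_sound _ 36 [rh5415b4380b1a6025, (rh932754581e0f4330.shift 4 0)] (by decide +kernel))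
noncomputable def rhf2d6c7c7981007e0 : CRef := CRef.mk (Pat.mk 0x10000000140000001000000020 0x80000001e0000007f000000360000003000000030 7 7) 0 0 (step_sound _ 132 [rha0f490f05efbed91, (rhd3458b32566d63f7.shift 4 0)] (by decide +kernel))
noncomputable def rh7c4ff8c5cfa4771c : CRef := CRef.mk (Pat.mk 0x2000000028000000200000002000000000 0x4000000160000007c000000ef000000280000002800000020 7 8) 0 0 (step_sound _ 132 [(rh50fbb5868c909700.shift 4 1), rhc003a9531f3dde3b] (by decide +kernel))
noncomputable def rh8db56b30528573a7 : CRef := CRef.mk (Pat.mk 0xe0000000a000000080000000000000000 0xa0000001e0000003b0000000f0000000c0000000c 7 6) 0 0 (step_sound _ 132 [rh5cb3c1c582edf4ca, (rheb0810cc63b001d8.shift 0 3)] (by decide +kernel))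
noncomputable def rhf34dbc28c60b7d9d : CRef := CRef.mk (Pat.mk 0x100000001000000010000000300000000000000000 0x3000000030000000ff000000fe000001cf00000040 7 9) 0 0 (step_sound _ 67 [(rh932754581e0f4330.shift 3 1), rhcfd232bf2af532ec] (by decide +kernel))
noncomputable def rhad2aff06028f06b3 : CRef := CRef.mk (Pat.mk 0x2000000020000000200000002000000000000000000000000 0x100000007000000060000000600000003000000070000000700000004 7 3) 0 0 (step_sound _ 64 [rh04ddaf454a230f92, (rh79877ebd3ef475dd.shift 0 2)] (by decide +kernel))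
noncomputable def rh0ef8eb21cf98dc5c : CRef := CRef.mk (Pat.mk 0x1000000010000000140000001800000000 0xb0000001e000000fc000000160000003e00000027 7 8) 0 0 (step_sound _ 37 [(rh55afc6a59410cf00.shift 4 0), rh5f43c95fa1209c5f] (by decide +kernel))
noncomputable def rhc950a98d63a85ef9 : CRef := CRef.mk (Pat.mk 0x2800000030000000100000000000000000 0x8000000080000006f0000003e0000001f0000001000000010 7 7) 0 0 (step_sound _ 36 [(rh71222050f2c63a3a.shift 4 0), (rhb311896f637a0032.shift 0 1)] (by decide +kernel))
noncomputable def rhbff2031a8b65a543 : CRef := CRef.mk (Pat.mk 0x2000000028000000200000002000000000 0x380000007c0000006f0000003e0000003000000030 7 7) 0 0 (step_sound _ 36 [(rh932754581e0f4330.shift 4 0), rhf3410dedae1ea4cc] (by decide +kernel))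
noncomputable def rh0f85e7165603ae81 : CRef := CRef.mk (Pat.mk 0x400000007000000000 0xe70000007f0000003c 7 8) 0 0 (step_sound _ 35 [(rh33e738c4ed385b9f.shift 3 1), rh8d9e2fce1162e835] (by decide +kernel))
noncomputable def rh9eee144bcc47c07a : CRef := CRef.mk (Pat.mk 0x400000004000000000000000e000000020 0x40000000c00000018e000000fe000001bf 7 9) 0 0 (step_sound _ 36 [rh5097ebe0f36b58ed, (rh6797c410c820e91e.shift 4 0)] (by decide +kernel))
noncomputable def rh5e2640745bb02973 : CRef := CRef.mk (Pat.mk 0x400000004000000000000000e00000000000000000000000000000000 0x40000001c000000780000001f0000003c0000001c0000001c00000014 7 7) 0 0 (step_sound _ 99 [(rh208de909b5e667bb.shift 1 0), (rh5ffd62fb6c1292e6.shift 0 3), (rh7218e12bf030cb1d.shift 0 3), (rh9909eeda0ef2ed2c.shift 0 3)] (by decide +kernel))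
noncomputable def rha9a98e9435472662 : CRef := CRef.mk (Pat.mk 0x2000000030000000000000000000000000 0x28000001ff000001fe000001c70000004400000044 7 9) 0 0 (step_sound _ 99 [rha4d4c393798a804f, (rhb103f40a53fe1424.shift 0 2), (rhb803456a6e04ecdd.shift 1 0), (rhbb230affd71b6a12.shift 2 0)] (by decide +kernel))
noncomputable def rh88fc95ae81e80f82 : CRef := CRef.mk (Pat.mk 0x1000000008000000080000000800000000 0x1c0000001c000000080000000f0000003c00000014 7 6) 0 0 (step_sound _ 131 [(rh2f68792b6b779e96.shift 3 1), rhca81c8484d2344ae] (by decide +kernel))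
noncomputable def rh27438132f6e0c8ad : CRef := CRef.mk (Pat.mk 0x80000000c000000180000000000000000 0x20000007f0000003f0000001f0000003400000034 7 7) 0 0 (step_sound _ 97 [rh6f6acb3c17a6b047, (rhb739f4f82bb681b4.shift 0 2)] (by decide +kernel))
noncomputable def rh9793b34d9efc0721 : CRef := CRef.mk (Pat.mk 0x100000001800000030000000000000000000000000 0x50000000d8000000ff000000ef0000002800000020 7 8) 0 0 (step_sound _ 102 [(rhf48373e13d2bc128.shift 3 3), rhfc615b022cd6e20d] (by decide +kernel))
noncomputable def rh2bf11f1324c30e9b : CRef := CRef.mk (Pat.mk 0x200000007000000000 0x3bf000001fe0000038e 7 10) 0 0 (step_sound _ 35 [rh1f9701c4cf497514, (rh394e80a462af5b2f.shift 2 0), (rh592c7139d2c44767.shift 1 0), (rhec0f150ffdda098a.shift 1 0)] (by decide +kernel))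
noncomputable def rh7d126cf166b76c20 : CRef := CRef.mk (Pat.mk 0x8000000080000000c00000008000000000000000000000000 0x80000000c0000003f0000001f000000170000000200000002 7 6) 0 0 (step_sound _ 98 [rh61754ea3361139ac, (rh932754581e0f4330.shift 2 2)] (by decide +kernel))
noncomputable def rh9aa244fae87b9c0d : CRef := CRef.mk (Pat.mk 0x200000002000000030000000200000000000000000000000000000000 0x200000006000000070000000300000007000000070000000700000001 7 3) 0 0 (step_sound _ 97 [rh1dc7c236234c0154, (rh54b8034e7f92149e.shift 0 1), (rh6eff4158bb400f47.shift 0 1), (rh7928877f9bf74a91.shift 0 2)] (by decide +kernel))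
noncomputable def rh9837e24fa4a15b7a : CRef := CRef.mk (Pat.mk 0x8000000080000000c00000008000000000000000000000000 0x80000001c0000003c0000001f000000180000001800000008 7 6) 0 0 (step_sound _ 68 [rh869d22f754a2180a, (rhd3458b32566d63f7.shift 3 2)] (by decide +kernel))
noncomputable def rh3969dd6adf53601d : CRef := CRef.mk (Pat.mk 0x200000002000000030000000200000000000000000000000000000000 0x200000007000000070000000700000003000000070000000600000004 7 3) 0 0 (step_sound _ 96 [rh49c038f007bdbc40, (rh79877ebd3ef475dd.shift 0 3)] (by decide +kernel))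
noncomputable def rhc8789020ec7a1991 : CRef := CRef.mk (Pat.mk 0x80000001c00000004 0x8000000080000007f000000fe000000e4 7 8) 0 0 (step_sound _ 131 [(rhee230b994cc8b773.shift 2 0), rhf45dd5894f4f8145] (by decide +kernel))
noncomputable def rh7b9382ef4f03c3e2 : CRef := CRef.mk (Pat.mk 0x100000003800000008 0x6000000060000007f0000003f0000001e 7 7) 0 0 (step_sound _ 34 [rh30cc24978c78d09c, (rh68cef6500c03b622.shift 1 0), (rhec46bd5500c722c9.shift 1 1)] (by decide +kernel))
noncomputable def rh9c627e8015333c34 : CRef := CRef.mk (Pat.mk 0x8000000080000000e000000000000000000000000 0xa0000000b0000003e0000003f0000001400000014 7 6) 0 0 (step_sound _ 100 [rh375f643453e42b7a, rh7688e0a72576835c, (rhc7b95363f9049b11.shift 1 0)] (by decide +kernel))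
noncomputable def rh29791cd3689c3cf2 : CRef := CRef.mk (Pat.mk 0x1000000000000000080000000c0000000000000000000000000000000000000000 0x40000001c0000001c000000080000000c0000000f0000007c0000001c0000001c0000001c00000010 7 7) 0 0 (step_sound _ 227 [rh1c61de6f3e5a7e2d, (rh8fb96b2877771c9d.shift 2 5), (rhd6ece6133e39c38f.shift 2 4)] (by decide +kernel))
noncomputable def rhe53669e36996158d : CRef := CRef.mk (Pat.mk 0x8000000000000001c00000006000000000000000000000000 0x3800000038000000340000001f0000007e0000007f0000003a0000001a 7 7) 0 0 (step_sound _ 100 [rh5ee3ef9176cfb6bc, (rh9caae4b1e9a8d708.shift 0 3), (rha5e4058e847f132c.shift 1 1), rha9cbbbc5ace8f2bb, rhcd97354d95c8638e] (by decide +kernel))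
noncomputable def rhd78dcbb8955d5525 : CRef := CRef.mk (Pat.mk 0x300000001c000000000000000000000000 0x20000000600000006000000060000003e0000007c000000ef0000000a00000008 7 8) 0 0 (step_sound _ 130 [(rh24e72371d7873615.shift 1 0), rh82478f387c6b70d5, (rhae8d21abc86b555a.shift 1 2)] (by decide +kernel))
noncomputable def rh98a02e06862698d4 : CRef := CRef.mk (Pat.mk 0x200000000000000070000000180000000000000000 0xa0000000e0000001e0000000f8000003c70000007f000000f8000000e000000020 7 10) 0 0 (step_sound _ 134 [(rh1501d881de8fa059.shift 3 0), (rh1c6ac56e18af88e8.shift 3 1), (rh24eb7e13db896fe8.shift 3 2), (rh3ea241a7c279ce50.shift 0 2), (rh8ebd26fbcb726e53.shift 2 2), (rhaa0c04b34da34d8d.shift 0 1)] (by decide +kernel))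
noncomputable def rh04fb49e8b2fe896a : CRef := CRef.mk (Pat.mk 0x1000000010000000180000001000000000 0x1000000010000000f8000000ff0000002f 7 8) 0 0 (step_sound _ 35 [rh7ffb9cedb3024da2, (rh932754581e0f4330.shift 3 0)] (by decide +kernel))
noncomputable def rh163713f210be8ab6 : CRef := CRef.mk (Pat.mk 0x8000000080000000c000000080000000000000000 0x80000001c0000003c0000001f0000001c00000018 7 6) 0 0 (step_sound _ 66 [rh4de64a7d26810655, (rh932754581e0f4330.shift 2 1)] (by decide +kernel))
noncomputable def rh94df47538fc2ed8a : CRef := CRef.mk (Pat.mk 0x40000000000000018000000030000000000000000 0x80000001c0000003e000000f8000000180000001f0000001e0000001c 7 8) 0 0 (step_sound _ 67 [(rh1c62b6193297d9e3.shift 0 2), rh85471dddf5afd741] (by decide +kernel))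
noncomputable def rh5f13f9568ecd098e : CRef := CRef.mk (Pat.mk 0x200000003800000000 0x400000004000000060000003e0000007e0000000f 7 7) 0 0 (step_sound _ 34 [rh21d582c147e7e118, (rh5f7b3bfbaf903d4f.shift 1 0), (rh6adce385a72e6244.shift 1 0)] (by decide +kernel))
noncomputable def rhd6990aa995e4941b : CRef := CRef.mk (Pat.mk 0x8000000080000000c00000000000000040000000000000000 0x80000001c0000001f000000780000001c0000001c00000018 7 7) 0 0 (step_sound _ 99 [(rh24475f7678211b71.shift 2 0), (rh42e615827c8908b1.shift 0 2), (rh654a8554455801a1.shift 1 0), (rhbd097c4034f102b6.shift 2 1)] (by decide +kernel))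
noncomputable def rhd4fa209d3d732fe6 : CRef := CRef.mk (Pat.mk 0x8000000080000000c000000000000000000000000 0x140000001e0000007c0000000f0000003c0000001c00000004 7 7) 0 0 (step_sound _ 66 [(rh2afe3d485df8e907.shift 0 1), (rh42548283029e2a39.shift 2 0), (rhf9af042da61fc652.shift 2 0)] (by decide +kernel))
noncomputable def rhd149c3d0126e0b07 : CRef := CRef.mk (Pat.mk 0x8000000180000000c000000000000000000000000 0x80000000c0000001c0000001c0000001c0000000f000000180000001800000010 7 5) 0 0 (step_sound _ 97 [(rh53b3c253cb0c65f4.shift 0 3), (rhf68f6976cbc46790.shift 2 0)] (by decide +kernel))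
noncomputable def rh7b4be808fd1d2796 : CRef := CRef.mk (Pat.mk 0x10000000100000001c000000080000000000000000 0x800000018000000180000001f0000007f0000003000000020 7 7) 0 0 (step_sound _ 68 [rh3289431b7e3e9be3, (rh42afa1af9fffa0e1.shift 2 1), (rhad5d8fc3675c15dd.shift 0 2)] (by decide +kernel))
noncomputable def rh2023bb9f7e83937d : CRef := CRef.mk (Pat.mk 0x8000000380000000800000000000000000000000000000000 0x4000000040000000c0000001f0000003800000008000000080000001c0000001c00000014 7 6) 0 0 (step_sound _ 194 [(rhb1a251d9bff81766.shift 2 3), (rhc02b3aee7ab87ee1.shift 0 5), (rhc09d0d2956dbf536.shift 2 0)] (by decide +kernel))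
noncomputable def rh7492519b8ad1e735 : CRef := CRef.mk (Pat.mk 0x8000000180000001000000010 0x2800000028000001ef000000fe000001f600000014 7 9) 0 0 (step_sound _ 131 [rh0ea559c7e040a2c7, (rh2145e1d24b96a57e.shift 3 1)] (by decide +kernel))
noncomputable def rhf4a2226fbb3acfa7 : CRef := CRef.mk (Pat.mk 0x380000002000000000 0x400000004000001c7000001fe0000003e00000008 7 9) 0 0 (step_sound _ 66 [(rh9977a3a78b1c0a5f.shift 1 0), (rhd1d05263fabc0227.shift 0 1), (rhe21618867378949c.shift 1 1)] (by decide +kernel))
noncomputable def rh2a8ef89e96d921ba : CRef := CRef.mk (Pat.mk 0x70000000000000002000000020 0xa0000000e0000000e0000000e7000000fe000003c7000000e000000020 7 10) 0 0 (step_sound _ 134 [(rh35ffcffefd4f8e1c.shift 4 0), (rhe43a6f135ff7e8cb.shift 3 0), (rhf7943763ae823400.shift 0 2)] (by decide +kernel))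
noncomputable def rhb86ea7bbeec3780d : CRef := CRef.mk (Pat.mk 0x10000000300000002000000020 0x4000000040000003fe000001ff0000003e00000020 7 10) 0 0 (step_sound _ 70 [(rh12039ef332e0b56a.shift 3 0), (rh9f93e2b24091a43d.shift 3 1), (rha9fbfd4bb8cf890b.shift 1 2), rhd25dee90c78d0f4b] (by decide +kernel))
noncomputable def rh96adc8ebab196b3c : CRef := CRef.mk (Pat.mk 0x800000018000000180000000000000000 0x30000000300000003f0000007f0000007e0000006000000020 7 7) 0 0 (step_sound _ 98 [(rh2048d06f84da4daa.shift 0 2), (rh82924f5ad9ba8f54.shift 1 0), (rhad5d8fc3675c15dd.shift 0 2)] (by decide +kernel))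
noncomputable def rh9b748f8143295222 : CRef := CRef.mk (Pat.mk 0x200000002000000020000000200000000000000040000000000000000 0x10000000300000007000000060000000600000002000000070000000700000001 7 3) 0 0 (step_sound _ 224 [(rh50fbb5868c909700.shift 0 4), rhce852a30e123e237] (by decide +kernel))
noncomputable def rh556bfb5935d2f49f : CRef := CRef.mk (Pat.mk 0x200000002000000020000000200000000000000040000000000000000 0x40000000600000007000000030000000300000002000000070000000700000001 7 3) 0 0 (step_sound _ 226 [(rh2f68792b6b779e96.shift 1 4), rhc0e82037423cd898] (by decide +kernel))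
noncomputable def rhf460c2de1c38cdb5 : CRef := CRef.mk (Pat.mk 0xc000000080000000800000008 0x200000002000000130000003f0000003f0000000c00000008 7 6) 0 0 (step_sound _ 100 [(rh2f68792b6b779e96.shift 3 0), (rh95155897baadfd01.shift 0 1)] (by decide +kernel))
noncomputable def rhf8bf4b631cbdd548 : CRef := CRef.mk (Pat.mk 0x400000004000000040000000400000000000000080000000000000000 0x400000004000000060000000f0000003e0000000e000000040000000e0000000e00000002 7 6) 0 0 (step_sound _ 98 [(rh0fd65e3cf503e830.shift 1 0), (rh46137ff9626501bb.shift 1 1), (rh56d0616b4ec17881.shift 0 3)] (by decide +kernel))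
noncomputable def rh0e4b5c86e994a192 : CRef := CRef.mk (Pat.mk 0x800000008000000180000001000000010 0x200000007c000001ef000000fe000001f000000010 7 9) 0 0 (step_sound _ 69 [(rh9c94213f6896c74a.shift 2 1), (rh9fd0afdf40ec6f0c.shift 1 0), (rha9fbfd4bb8cf890b.shift 0 2)] (by decide +kernel))
noncomputable def rh6df8ec062484ca0b : CRef := CRef.mk (Pat.mk 0x800000008000000180000001000000000 0x240000007c000000ff000001ff0000007300000002 7 9) 0 0 (step_sound _ 66 [(rh3ce854f4a795c89f.shift 0 1), (rh97b9888ffb564005.shift 1 1), rh9a7b7d54bf92be23, rhc8ae77ecad49585e] (by decide +kernel))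
noncomputable def rhbb8fe101fa214517 : CRef := CRef.mk (Pat.mk 0x1000000018000000700000000000000000 0xc0000003f000000ff000000f80000007c0000001400000010 7 8) 0 0 (step_sound _ 131 [(rh3cb04db3dd2b6a55.shift 3 0), (rhd062d8a80bc2cd8c.shift 1 1), rhf442107f839a7c25] (by decide +kernel))
noncomputable def rhf4175ea1549ef298 : CRef := CRef.mk (Pat.mk 0x3800000010000000100000001000000000 0x3c000000f0000001f7000000fe000001ef 7 9) 0 0 (step_sound _ 37 [(rh55afc6a59410cf00.shift 4 0), rhad23f4903446f583] (by decide +kernel))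
noncomputable def rh1d6aa28973ae6802 : CRef := CRef.mk (Pat.mk 0x100000001000000018000000080000000000000000 0x14000001f6000000fe000001ef0000002800000028 7 9) 0 0 (step_sound _ 35 [rh2a3c41dd5839c3ee, (rh71222050f2c63a3a.shift 3 0)] (by decide +kernel))
noncomputable def rh543ced835bcd6a2b : CRef := CRef.mk (Pat.mk 0x8000000180000000e00000000 0x4000000040000000c0000000f0000001f000000fe000000fa 7 8) 0 0 (step_sound _ 130 [rh52cd693fb77420df, rh8240505af6fe2d4d, (rh9a17dc36f7181934.shift 2 0)] (by decide +kernel))
noncomputable def rh4276788e5755a9c5 : CRef := CRef.mk (Pat.mk 0x80000000800000018000000100000000000000000 0x2000000028000001ef000000fe000001f60000001400000010 7 9) 0 0 (step_sound _ 36 [(rh7b1f1fb55310c477.shift 3 0), (rhab4c27f203e80247.shift 0 1)] (by decide +kernel))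
noncomputable def rh864300ca6b3f12b8 : CRef := CRef.mk (Pat.mk 0x800000008000000180000001400000000 0x8000000080000001f000000ff000000e4 7 8) 0 0 (step_sound _ 35 [(rh932754581e0f4330.shift 2 0), rhb0fbf278214acd23] (by decide +kernel))
noncomputable def rh04a2359aacb04ee2 : CRef := CRef.mk (Pat.mk 0x1000000018000000300000000000000000 0x1000000010000000f8000000ff0000000f00000008 7 8) 0 0 (step_sound _ 70 [rh837ab7a725c5d410, (rhf48373e13d2bc128.shift 3 2)] (by decide +kernel))
noncomputable def rhf157451710f64b09 : CRef := CRef.mk (Pat.mk 0x10000000100000001000000010 0x2f0000007e000000ff0000001000000010 7 8) 0 0 (step_sound _ 99 [(rh50fbb5868c909700.shift 3 0), rh5af8e482ce85a3a3] (by decide +kernel))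
noncomputable def rh92a5c4df176df4f3 : CRef := CRef.mk (Pat.mk 0x100000007000000000 0xdf000000fe000001e7 7 9) 0 0 (step_sound _ 35 [(rh4cb981e42e77f7fb.shift 2 1), rh708c3bc8fe2f3084, (rh75c6fff53e4cbd6e.shift 3 0)] (by decide +kernel))
noncomputable def rh49da656b2d03af26 : CRef := CRef.mk (Pat.mk 0x4000000040000001c0000000000000000 0x80000000c0000003f0000001f0000003b0000001a 7 6) 0 0 (step_sound _ 65 [rh529b253133b0eafd, rhae036cc4ef671676, rhbd8e445cfcdc81f9] (by decide +kernel))
noncomputable def rhec3de85db20cf3dc : CRef := CRef.mk (Pat.mk 0x2000000020000000e000000000000000000000000 0x80000000b000000fe000000ff000000fc0000001000000010 7 8) 0 0 (step_sound _ 100 [(rh2aac33c566332a8c.shift 1 2), (rh44fae8d9c1045ff0.shift 0 2), rh4faa24555526a01c, (rh722ebfeb95c22fd8.shift 0 3), (rh89319c83de708f3e.shift 0 2)] (by decide +kernel))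
noncomputable def rh197c3a8e1af4398d : CRef := CRef.mk (Pat.mk 0x80000001c000000100000001000000000 0x300000003000000030000000780000001f000000180000001800000008 7 7) 0 0 (step_sound _ 132 [rh2cdc4ec22fb0a8e3, (rh712526e472efe489.shift 2 1), (rhab2ad169e49f9c5e.shift 0 3), (rhdab32775f5c78fcf.shift 1 1)] (by decide +kernel))
noncomputable def rh5486ce40f419b9d9 : CRef := CRef.mk (Pat.mk 0x10000000180000000c0000000800000000 0x80000000c0000000e0000001f0000001b0000001f0000000c00000004 7 5) 0 0 (step_sound _ 65 [(rh53b3c253cb0c65f4.shift 0 2), rhce353b10dcbf42c5] (by decide +kernel))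
noncomputable def rh5cee65fab8290e21 : CRef := CRef.mk (Pat.mk 0x8000000180000001000000010 0x280000007c000001ef0000007e0000007600000014 7 9) 0 0 (step_sound _ 131 [(rh2145e1d24b96a57e.shift 3 1), rh614d22830ba149fc] (by decide +kernel))
noncomputable def rhace83205720233b8 : CRef := CRef.mk (Pat.mk 0x1000000030000000200000002000000000 0x80000004c000001df000000fe000001ff0000002c00000008 7 9) 0 0 (step_sound _ 99 [rh43e57be33272f09f, (rhc21a95c499b3efdb.shift 2 2), (rhc8ae77ecad49585e.shift 1 1), (rhcced840e0475f351.shift 2 1), (rhf530834c0c5f3ed9.shift 0 2)] (by decide +kernel))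
noncomputable def rhf011268695c041b3 : CRef := CRef.mk (Pat.mk 0x3800000010 0x1c7000000fe000000ff 7 9) 0 0 (step_sound _ 38 [(rh62a51e5e348b9e49.shift 3 0), rh708c3bc8fe2f3084] (by decide +kernel))
noncomputable def rh356b7ff51db0ac10 : CRef := CRef.mk (Pat.mk 0x8000000080000000c000000000000000000000000 0x140000001e000000780000000f0000003c0000001c00000004 7 7) 0 0 (step_sound _ 67 [(rh0b0198cd56a23f60.shift 0 1), (rh367118e0bf0473e0.shift 2 0), (rhf061e61953401a2f.shift 1 1)] (by decide +kernel))
noncomputable def rh7e0685e0760bf932 : CRef := CRef.mk (Pat.mk 0x800000010000000100000001800000000 0x200000007e0000007f000000ff0000001800000010 7 8) 0 0 (step_sound _ 99 [(rh2c2de30d19aecb9c.shift 0 1), (rh7b1f1fb55310c477.shift 3 0)] (by decide +kernel))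
noncomputable def rhdf8ca1a4b734c826 : CRef := CRef.mk (Pat.mk 0x400000008000000080000000c00000000 0x60000000f0000003e0000000f0000000c00000008 7 6) 0 0 (step_sound _ 98 [(rh2f91e47ba3b15aa7.shift 0 1), (rh7b1f1fb55310c477.shift 2 0)] (by decide +kernel))
noncomputable def rh5fedde5d17b43726 : CRef := CRef.mk (Pat.mk 0x100000003800000000 0xff000000fe000001c7 7 9) 0 0 (step_sound _ 38 [(rh695f888db18ad7c7.shift 3 0), rh988dac8d009f9f77, (rhdc97ad95ada259ad.shift 2 0)] (by decide +kernel))
noncomputable def rh04afcbbfad1360f5 : CRef := CRef.mk (Pat.mk 0x40000000e0000000000000000000000000 0x200000007f000003fe0000001f0000001000000010 7 10) 0 0 (step_sound _ 100 [(rh1f9701c4cf497514.shift 1 2), (rh6076add87d5fdaa7.shift 3 0), (rh775ca1963e850b80.shift 2 2), (rh7f52302ad42d4238.shift 0 2), (rhec0f150ffdda098a.shift 2 2)] (by decide +kernel))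
noncomputable def rhfdc6ede6ff4655a6 : CRef := CRef.mk (Pat.mk 0x40000000400000004000000000000000000000000 0x80000000c0000000c0000000c0000003c0000000f0000000e0000000e0000000a 7 6) 0 0 (step_sound _ 195 [(rh2148ea6ec6872841.shift 0 2), (rh87d5e4118780fa3b.shift 2 2), (rh984bfc6de6c2c524.shift 1 0)] (by decide +kernel))
noncomputable def rh38abcce05bcee1d2 : CRef := CRef.mk (Pat.mk 0x400000004000000040000000e00000000 0xfa0000007e000000f70000003c0000003f00000070 7 8) 0 0 (step_sound _ 131 [(rh2f68792b6b779e96.shift 2 1), rh39b4d31fe3e63eb9] (by decide +kernel))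
noncomputable def rh840b59618cfe7052 : CRef := CRef.mk (Pat.mk 0x200000002000000060000000200000000000000000000000000000000 0x10000000300000006000000060000000600000006000000070000000700000005 7 3) 0 0 (step_sound _ 224 [(rh50fbb5868c909700.shift 0 4), rhed1e04fc572982ac] (by decide +kernel))
noncomputable def rh1e3e6ade417523fa : CRef := CRef.mk (Pat.mk 0x80000000800000008000000000000000000000000 0x40000000c0000000c0000001c000000780000007e0000001f0000001c0000001c 7 7) 0 0 (step_sound _ 100 [(rh046c5eb18e55a239.shift 3 0), (rh18b9fc92d3b717e4.shift 1 1), rh500c9bab5b65feb2, (rh70e33bfdf511e144.shift 3 0)] (by decide +kernel))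
noncomputable def rhcd2c871bfe1d4ba0 : CRef := CRef.mk (Pat.mk 0x3000000020000000200000006000000000 0x70000003e0000007c000000ee0000007c0000001e 7 8) 0 0 (step_sound _ 36 [(rh932754581e0f4330.shift 4 0), rhcff6995daf2b46ea] (by decide +kernel))
noncomputable def rh13015c5bcf408a1f : CRef := CRef.mk (Pat.mk 0x3000000010000000100000003000000000 0x3000000030000003f7000001fe000001cf 7 10) 0 0 (step_sound _ 35 [(rh932754581e0f4330.shift 3 0), rhfa964993880326a1] (by decide +kernel))
noncomputable def rhbe1b565f92bc3201 : CRef := CRef.mk (Pat.mk 0xc00000007000000000000000400000000 0x80000000c0000000f0000003e0000003f0000007a 7 7) 0 0 (step_sound _ 66 [(rh2f68792b6b779e96.shift 2 1), rh8d16e642349cbbdf] (by decide +kernel))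
noncomputable def rh9ecfdfec371fa6f3 : CRef := CRef.mk (Pat.mk 0xc00000007000000000000000400000000 0x80000000c0000000f0000001e0000007c0000001c 7 7) 0 0 (step_sound _ 66 [(rh2f68792b6b779e96.shift 2 1), rhf695c6b4b0b6b55d] (by decide +kernel))
noncomputable def rhb7028c8fa055ae6b : CRef := CRef.mk (Pat.mk 0x180000000e000000000000000800000000 0x18000000fe000000f70000003c0000001c 7 8) 0 0 (step_sound _ 100 [(rh383aa5f99c690fc3.shift 0 2), (rhdc461deccfb05432.shift 1 0), rhde4c2e51f3d680f0] (by decide +kernel))
noncomputable def rh035091ba8798c671 : CRef := CRef.mk (Pat.mk 0x80000001c00000006000000000000000000000000 0x30000000780000001c0000003e0000003f0000003f00000002 7 7) 0 0 (step_sound _ 66 [rh55f244b9242b7531, (rh71222050f2c63a3a.shift 2 1)] (by decide +kernel))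
noncomputable def rhcce29a7accc69035 : CRef := CRef.mk (Pat.mk 0x300000001c000000100000000000000000 0xc0000000c0000000f0000003f0000007c000000180000003000000030 7 7) 0 0 (step_sound _ 131 [(rh10d1778eab3cd4c6.shift 1 2), (rh3cb04db3dd2b6a55.shift 3 0), rh5ec40acab9b24577] (by decide +kernel))
noncomputable def rh14f2f79bb0cfaf00 : CRef := CRef.mk (Pat.mk 0x180000000e000000080000000000000000 0x14000000360000001f000000fe0000000f0000000600000004 7 8) 0 0 (step_sound _ 100 [(rh21460d2d48a35cb8.shift 0 1), rh2395824d1086e2bc, (rh4a59be183f8e90a1.shift 0 1), (rh98bfe017ab5fead7.shift 0 2), (rhb447f348b8f2aaa5.shift 0 2)] (by decide +kernel))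
noncomputable def rh62a71ca5383c60c5 : CRef := CRef.mk (Pat.mk 0x30000000180000000000000000 0x2000000028000000ef000000ff000000380000001000000010 7 8) 0 0 (step_sound _ 102 [(rh18965a982d73c794.shift 3 2), rhe2b8568a07fed0b4] (by decide +kernel))
noncomputable def rhf039fef9e9bc56cb : CRef := CRef.mk (Pat.mk 0xc00000007000000040000000000000000000000000000000000000000 0xc0000007f0000003e0000003f0000007e0000000e0000000e0000000a 7 7) 0 0 (step_sound _ 130 [(rh49d8d89b6e385a13.shift 1 0), (rh70df386839da8173.shift 0 3), (rh89cf5152879421f3.shift 1 1), (rh8d16e642349cbbdf.shift 0 3), (rha8bc3cae4d77a08f.shift 1 2)] (by decide +kernel))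
noncomputable def rhd45a1a952a8e23fc : CRef := CRef.mk (Pat.mk 0x180000000e00000008 0x200000032000000330000001f000000fe0000007c 7 8) 0 0 (step_sound _ 36 [rh06cd0d4234ca65c9, (rh242dfbe4e7098cac.shift 1 0), rh6cdf1ecd0f85809e, (rh7c06ca21cbea9275.shift 1 0), rh98bfe017ab5fead7] (by decide +kernel))
noncomputable def rh1086a548292901e5 : CRef := CRef.mk (Pat.mk 0xc000000060000000000000000 0x80000000a0000003b0000003f000000360000001400000004 7 6) 0 0 (step_sound _ 100 [(rh18965a982d73c794.shift 1 2), rhd023fd75a429a711] (by decide +kernel))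
end Crest.Agent.S0047.Helper85.Cert
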