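import Crest.Agent.Lib.S0047.Helper85CertPL6F0
import Crest.Agent.Lib.S0047.Helper85CertPL6F1
import Crest.Agent.Lib.S0047.Helper85CertPL6F2
import Crest.Agent.Lib.S0047.Helper85CertPL6F3
import Crest.Agent.Lib.S0047.Helper85CertPL6F4
import Crest.Agent.Lib.S0047.Helper85CertPL6F5
import Crest.Agent.Lib.S0047.Helper85CertPL6F6
import Crest.Agent.Lib.S0047.Helper85CertPL6F7
import Crest.Agent.Lib.S0047.Helper85CertPL6F8
import Crest.Agent.Lib.S0047.Helper85CertPL6F9
import Crest.Agent.Lib.S0047.Helper85CertPL6F10
import Crest.Agent.Lib.S0047.Helper85CertPL6F11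
import Crest.Agent.Lib.S0047.Helper85CertPL6F12
set_option autoImplicit false
set_option linter.all false
set_option Elab.async false
namespace Crest.Agent.S0047.Helper85.Cert
open Crest.Agent.S0047.Helper85

noncomputable def rh10661bc2ae381af4 : CRef := CRef.mk (Pat.mk 0x1c000000180000000000000000 0x6000000070000001f0000001f0000000700000006 7 5) 0 0 (step_sound _ 97 [rh73aa6c6cc77ba7b5, (rhb739f4f82bb681b4.shift 0 2)] (by decide +kernel))
noncomputable def rh0ecb3c73c974f19f : CRef := CRef.mk (Pat.mk 0xc00000018000000180000000c00000000 0x30000003f0000001f0000001f0000000f00000002 7 6) 0 0 (step_sound _ 129 [(rhb739f4f82bb681b4.shift 0 3), rhb7f898a00bc23973] (by decide +kernel))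
noncomputable def rh84d30f004d60fc45 : CRef := CRef.mk (Pat.mk 0x180000001e000000000000000000000000 0xb0000000f0000001b0000001e0000000f0000000400000004 7 5) 0 0 (step_sound _ 65 [rh03c9bbe2d5dd2dda, (rheb0810cc63b001d8.shift 0 2)] (by decide +kernel))
noncomputable def rh1556d2f2b9d8f0cc : CRef := CRef.mk (Pat.mk 0x800000000000000180000001c000000000000000000000000 0x1e0000001e000000370000003f0000001c000000060000000600000006 7 6) 0 0 (step_sound _ 130 [(rh499de316127b99d6.shift 0 3), (rhaed54c24fb91f24a.shift 0 1), (rhd74592151f69e735.shift 1 0)] (by decide +kernel))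
noncomputable def rh48b3a43f2f70c509 : CRef := CRef.mk (Pat.mk 0x40000003400000010000000000000000000000000 0x2000000060000000600000006000000360000001e0000000f0000000e0000000a 7 6) 0 0 (step_sound _ 98 [(rh58e6d0ca13cfa9ea.shift 1 1), (rh7183d73c74feafce.shift 1 2), (rh794501743a61ce18.shift 1 0), rh834291253bf4364d, (rhaf7955adbc1f7ff4.shift 1 0), rhb3ca6e872ccd0f8f] (by decide +kernel))
noncomputable def rh10caf0c599b88049 : CRef := CRef.mk (Pat.mk 0x1800000018000000080000000800000000 0x70000001f0000001e0000000f0000000c00000004 7 5) 0 0 (step_sound _ 130 [(rh50fbb5868c909700.shift 2 1), rhbde52e459be576a4] (by decide +kernel))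
noncomputable def rh4b16d9d8cc15f4e2 : CRef := CRef.mk (Pat.mk 0x1800000018000000000000000000000000 0x1c0000001c0000001f00000038000000180000000f0000007c0000001c 7 7) 0 0 (step_sound _ 67 [(rh0bb3bf9cae16a8bf.shift 1 0), rh72b06522cc100222, (rh74297ec47b574ce4.shift 0 2), (rhea7a1800d6f053bd.shift 3 0)] (by decide +kernel))
noncomputable def rh3a4a3279d1203ea1 : CRef := CRef.mk (Pat.mk 0x40000000c0000000c00000000 0x1c0000007c0000001f0000000c0000000c00000004 7 7) 0 0 (step_sound _ 130 [(rh2145e1d24b96a57e.shift 2 1), rhbd4c773563fdbad3] (by decide +kernel))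
noncomputable def rh2b97ffc987f58186 : CRef := CRef.mk (Pat.mk 0x2800000060000000300000000000000000 0x40000003c000000780000003c0000001f00000004 7 7) 0 0 (step_sound _ 67 [rh29dcecf9522669ed, (rh53b3c253cb0c65f4.shift 2 2)] (by decide +kernel))
noncomputable def rh9d0278d2c0bfad43 : CRef := CRef.mk (Pat.mk 0xa000000180000000c00000000 0x14000000370000003f0000001a0000000f00000002 7 6) 0 0 (step_sound _ 98 [rh6cf5fe03388f060f, (rhb739f4f82bb681b4.shift 0 2)] (by decide +kernel))
noncomputable def rh6ae105d62f1df5d6 : CRef := CRef.mk (Pat.mk 0x140000003000000018000000000000000000000000 0x6000000160000003c0000001e0000000f0000000a00000008 7 6) 0 0 (step_sound _ 98 [(rh53b3c253cb0c65f4.shift 1 3), rh7dba663af48cc318] (by decide +kernel))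
noncomputable def rh124ea65f687bc384 : CRef := CRef.mk (Pat.mk 0x280000006000000030000000000000000000000000 0x1f00000078000000780000003c000000180000001000000010 7 7) 0 0 (step_sound _ 99 [rh3452acf58a5488fb, (rh53b3c253cb0c65f4.shift 2 3)] (by decide +kernel))
noncomputable def rh5fadb4328f622dc2 : CRef := CRef.mk (Pat.mk 0x140000003000000018000000000000000000000000 0x60000001e0000003c0000001e0000000f0000000a00000008 7 6) 0 0 (step_sound _ 161 [rhae4042a4995e2992, (rhc10214bf3fe8094a.shift 1 4)] (by decide +kernel))
noncomputable def rhd8051e8b79411f9c : CRef := CRef.mk (Pat.mk 0x800000008000000080000000c 0x170000007f0000003e0000000c0000000c 7 7) 0 0 (step_sound _ 98 [(rh50fbb5868c909700.shift 2 0), rh9fb1f33e4a6ee3b7] (by decide +kernel))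
noncomputable def rhd6d0e6a677caad26 : CRef := CRef.mk (Pat.mk 0x1000000010000000100000001c00000000 0x2c000000ff0000003f000000180000001c00000004 7 8) 0 0 (step_sound _ 133 [(rh2f68792b6b779e96.shift 4 1), rhf69314032135b7f7] (by decide +kernel))
noncomputable def rh16f812703776bd30 : CRef := CRef.mk (Pat.mk 0xa000000180000000e00000000 0x500000017000000370000001f0000001b0000000e00000004 7 6) 0 0 (step_sound _ 98 [(rhb739f4f82bb681b4.shift 0 2), rhd8bc032dc97ad0aa] (by decide +kernel))
noncomputable def rhcf7a4a71ba2d0e10 : CRef := CRef.mk (Pat.mk 0x60000000200000002000000030 0x1f0000007e000000ff0000003800000030 7 8) 0 0 (step_sound _ 100 [rh315e7bad56ea85ff, (rh50fbb5868c909700.shift 4 0)] (by decide +kernel))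
noncomputable def rh4ec170dbad1f7a5d : CRef := CRef.mk (Pat.mk 0x10000000900000009c00000080 0x80000005c0000005f0000007e000000fc000000dc00000084 7 8) 0 0 (step_sound _ 99 [(rh133ec9e97de3d2aa.shift 1 0), (rh6a6060c6b6bde3df.shift 3 0), rhda313e42f0108c9c] (by decide +kernel))
noncomputable def rhc9965c972f41f0fd : CRef := CRef.mk (Pat.mk 0x6000000020000001a00000012000000100 0x9f000000fe000000ef000001a0000001a000000100 7 9) 0 0 (step_sound _ 132 [rh0655918abd82fb57, (rh50fbb5868c909700.shift 4 1)] (by decide +kernel))
noncomputable def rh21828636a210c6c1 : CRef := CRef.mk (Pat.mk 0x2000000020000001200000003 0x500000007000000070000000300000003000000070000001e00000003 7 5) 0 0 (step_sound _ 34 [rh361cc68994bd8a63, rh8aa0f211686350a1] (by decide +kernel))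
noncomputable def rh3c41bccf8d7bca96 : CRef := CRef.mk (Pat.mk 0x1000000030000000200000000800000000 0x10000000100000001e000000ff0000006f0000000800000008 7 8) 0 0 (step_sound _ 99 [(rh00d6a6e3c7e3bb40.shift 3 0), rh556364117efe2d13, (rh56e4e454e4507d2a.shift 2 0), (rhc11d0f641d3e9ac0.shift 0 2)] (by decide +kernel))
noncomputable def rh5b4b3af11d136d4c : CRef := CRef.mk (Pat.mk 0x3800000080 0xe70000007e000000c7 7 8) 0 0 (step_sound _ 38 [rh15b856e33c69f807, (rh96851dee118c1ba3.shift 3 0)] (by decide +kernel))
noncomputable def rhd7cea1a3d55d705a : CRef := CRef.mk (Pat.mk 0x3800000018000000000000000000000000 0xc0000000c0000000f0000003c0000001e0000000c0000000c0000000c 7 6) 0 0 (step_sound _ 98 [(rh53b3c253cb0c65f4.shift 1 3), rh8197f6eecd9c93eb] (by decide +kernel))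
noncomputable def rh2b6da0ce21b405c1 : CRef := CRef.mk (Pat.mk 0x1c0000001c000000000000000000000000 0x40000000c0000001c0000001c0000000f0000007e0000001e 7 7) 0 0 (step_sound _ 67 [(rh0bb3bf9cae16a8bf.shift 1 0), rh29c652e82a1d2d96, (rh40241bd608e5be1a.shift 2 0)] (by decide +kernel))
noncomputable def rh57c2fb96bba75c8c : CRef := CRef.mk (Pat.mk 0x1a0000001a000000880000000000000000 0x20000001a0000001a000000ef0000007f0000001f 7 8) 0 0 (step_sound _ 35 [(rh71222050f2c63a3a.shift 3 0), rhc4f4da6e24bd6bd8] (by decide +kernel))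
noncomputable def rh2bee50a785d9baac : CRef := CRef.mk (Pat.mk 0x1e000000060000000000000000 0x3000000070000003f0000001e000000060000000200000002 7 6) 0 0 (step_sound _ 129 [(rh3244c3cc8379b070.shift 0 3), rhd2a1cfc893cf9755] (by decide +kernel))
noncomputable def rh99aef4d300741b93 : CRef := CRef.mk (Pat.mk 0x10000000c00000007000000000 0xa8000000f8000000ff0000007e000000f70000007000000020 7 8) 0 0 (step_sound _ 99 [(rh25e2d6120361da26.shift 3 0), (rh6da50ac7bbaa7355.shift 3 0), (rh9eee4c6bb46bd9bb.shift 0 2)] (by decide +kernel))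
noncomputable def rh12bb0db31a322525 : CRef := CRef.mk (Pat.mk 0x3000000180000000200000000000000000000000000000000 0x1000000030000001f0000000200000002000000070000000700000005 7 5) 0 0 (step_sound _ 161 [(rh5419adcd928dba20.shift 0 5), rhc46b61bcbcf6c641] (by decide +kernel))
noncomputable def rhb9e7c05834e2b8c4 : CRef := CRef.mk (Pat.mk 0x8000000000000003800000010000000000000000000000000 0xc0000000c0000001f000000380000001e0000000c0000000c0000000c 7 6) 0 0 (step_sound _ 163 [(rh2145e1d24b96a57e.shift 3 3), rhfe89c3a4caa75614] (by decide +kernel))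
noncomputable def rha8aa095f1119834e : CRef := CRef.mk (Pat.mk 0x10000000c000000070000000000000000000000000 0xa8000000f8000000ff0000007e000000df00000070000000300000002000000020 7 8) 0 0 (step_sound _ 163 [(rh25e2d6120361da26.shift 3 2), (rh35f20c6ee8cf1dd4.shift 0 2), (rh4c1e318a3e15c6b3.shift 3 0), (rh6cc82e8c4cdeaafe.shift 3 0)] (by decide +kernel))
noncomputable def rhc044b154f812082b : CRef := CRef.mk (Pat.mk 0x2000000180000000e0000000000000000 0x140000001c0000003e0000000f0000001c0000000e0000000600000004 7 6) 0 0 (step_sound _ 131 [(rh5e576a76cef39ec6.shift 0 1), (rh68a777751bfeafdf.shift 2 1), (rh7a7e08304268422e.shift 2 1), (rh976a48eb1c80a12f.shift 2 1), rhfa4e74cf276cb686] (by decide +kernel))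
noncomputable def rha5370a3fd8912186 : CRef := CRef.mk (Pat.mk 0x10000000c00000001000000000 0x28000000280000007f0000007e000000ff0000001000000010 7 8) 0 0 (step_sound _ 99 [(rh35a0970f257c7e59.shift 3 0), rh35f20c6ee8cf1dd4, (rh9eee4c6bb46bd9bb.shift 0 2)] (by decide +kernel))
noncomputable def rh3622f5286c42fd05 : CRef := CRef.mk (Pat.mk 0x8000000080000003800000000000000000000000000000000 0x100000001800000018000000380000001f0000001c0000001c00000014 7 6) 0 0 (step_sound _ 99 [(rh852e818bc8629e77.shift 0 2), (rh95311890f436bcdc.shift 2 0), (rhca18712e5e5c7b8f.shift 3 1)] (by decide +kernel))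
noncomputable def rh6b12d1f58a080aba : CRef := CRef.mk (Pat.mk 0x40000000200000002000000060000000000000000000000000000000000000000 0x40000000600000006000000060000000300000007000000070000000700000005 7 3) 0 0 (step_sound _ 129 [rh2686054897b4fb10, (rhbaefcd01e0a8bca3.shift 1 4)] (by decide +kernel))
noncomputable def rhfdc14af84f181ffe : CRef := CRef.mk (Pat.mk 0x1000000018000000080000000000000000 0x1800000018000000180000000f0000003c0000001c 7 6) 0 0 (step_sound _ 35 [rh50f96170d192f802, (rh71222050f2c63a3a.shift 3 0)] (by decide +kernel))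
noncomputable def rha864593327555e86 : CRef := CRef.mk (Pat.mk 0x1e000000000000000000000000 0x50000000700000007000000070000001e000000070000000600000006 7 5) 0 0 (step_sound _ 129 [rh0356a1c36a679702, (rh3244c3cc8379b070.shift 0 3)] (by decide +kernel))
noncomputable def rh0e0b417350209c69 : CRef := CRef.mk (Pat.mk 0x2000000120000000300000000 0x1000000070000000700000006000000060000001e0000000300000001 7 5) 0 0 (step_sound _ 66 [(rh361cc68994bd8a63.shift 0 1), rhb2d999c672507e3f] (by decide +kernel))
noncomputable def rh8996b44e7b4d578a : CRef := CRef.mk (Pat.mk 0x2000000080000000c000000040000000000000000 0x60000000e0000000c000000070000003e0000000e 7 6) 0 0 (step_sound _ 34 [(rh71222050f2c63a3a.shift 2 0), rhe6bc620139d248f8] (by decide +kernel))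
noncomputable def rhbea923bc6549af5d : CRef := CRef.mk (Pat.mk 0x50000002400000020000000200 0x1000000039f000001fe000003ef0000030000000200 7 10) 0 0 (step_sound _ 101 [(rh204019238208b37f.shift 0 2), (rh3918eeb6c53434d8.shift 1 2), (rh6a6060c6b6bde3df.shift 5 0)] (by decide +kernel))
noncomputable def rh8df69e6ea7040845 : CRef := CRef.mk (Pat.mk 0x28000001200000010000000100 0x80000001c7000000fe000001ff0000018000000100 7 9) 0 0 (step_sound _ 100 [(rh1ead17eef4d77515.shift 0 2), (rh3918eeb6c53434d8.shift 0 2), (rh6a6060c6b6bde3df.shift 4 0)] (by decide +kernel))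
noncomputable def rh0622000b439688b9 : CRef := CRef.mk (Pat.mk 0x3000000180000000c00000000 0x50000000700000007000000030000001e0000000f00000004 7 5) 0 0 (step_sound _ 65 [(rh5419adcd928dba20.shift 0 2), rh5d3dbb2bada46e2e] (by decide +kernel))
noncomputable def rhaf880aabec1648e3 : CRef := CRef.mk (Pat.mk 0xa000000180000000c00000000 0x200000012000000370000001f0000001c0000000f00000004 7 6) 0 0 (step_sound _ 98 [rh80593a0bb581c8e3, (rhb739f4f82bb681b4.shift 0 2)] (by decide +kernel))
noncomputable def rhb8f4a4cacd51d366 : CRef := CRef.mk (Pat.mk 0xa000000480000000c00000000 0x10000000330000001f0000007b0000000f00000004 7 7) 0 0 (step_sound _ 68 [(rh361cc68994bd8a63.shift 2 1), rh5e1fc33f4431466f] (by decide +kernel))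
noncomputable def rhce50caaf6070b48d : CRef := CRef.mk (Pat.mk 0x14000000300000001800000000 0xa0000000e0000000e000000360000003f0000001e00000008 7 6) 0 0 (step_sound _ 34 [rh48f894217152c571, (rh53b3c253cb0c65f4.shift 1 1)] (by decide +kernel))
noncomputable def rh4252738265855d8f : CRef := CRef.mk (Pat.mk 0x1c000000180000000800000000 0x400000004000000070000001f0000001f0000000b00000003 7 5) 0 0 (step_sound _ 97 [rh71ccc8078d08b03a, (rhb739f4f82bb681b4.shift 0 2)] (by decide +kernel))
noncomputable def rhaf6f6536f36508a5 : CRef := CRef.mk (Pat.mk 0x1c0000001800000000 0x200000002000000030000003f0000001f00000007 7 6) 0 0 (step_sound _ 65 [rh03dbf7e936d8668c, (rhb739f4f82bb681b4.shift 0 1)] (by decide +kernel))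
noncomputable def rhbcba2c69c000b897 : CRef := CRef.mk (Pat.mk 0x1e0000000000000008 0x50000000700000007000000070000001e0000000f0000000e 7 5) 0 0 (step_sound _ 33 [rh0a40b623c3b8a909, (rheb0810cc63b001d8.shift 0 1)] (by decide +kernel))
noncomputable def rh967b1f03b1a51abb : CRef := CRef.mk (Pat.mk 0x1c00000098000000080000000000000000 0xe00000007f000000df000000080000000800000008 7 8) 0 0 (step_sound _ 3 [(rh9a7561f3bb06436e.shift 0 3), (rh9e3edb185cc347de.shift 3 0)] (by decide +kernel))
noncomputable def rh3be249b7dfe4b0c8 : CRef := CRef.mk (Pat.mk 0x280000006000000030000000000000000000000000 0x140000005c000000df000000f80000007e0000003c000000100000001000000010 7 8) 0 0 (step_sound _ 99 [(rh53b3c253cb0c65f4.shift 2 3), rhf5360c6b7f05d39e] (by decide +kernel))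
noncomputable def rhd03d94b6081854a5 : CRef := CRef.mk (Pat.mk 0x30000000200000002000000030 0x4f0000007e000000fe0000003800000030 7 8) 0 0 (step_sound _ 102 [(rh2f68792b6b779e96.shift 5 0), rh62d081be2a6a3205] (by decide +kernel))
noncomputable def rh11366d728954a393 : CRef := CRef.mk (Pat.mk 0x2800000000000001300000013000000100 0x1ff000001fe000000d0000001b0000001b000000100 7 9) 0 0 (step_sound _ 132 [(rh07f2ca48cf330ae8.shift 3 1), rh1d8aa7886cae32db, (rh5a4df29f20c07a62.shift 3 1), (rhd727bb41309b6841.shift 4 1)] (by decide +kernel))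
noncomputable def rhd5461851e65b5783 : CRef := CRef.mk (Pat.mk 0x40000000c0000000c 0x1e0000007f0000003e0000000c0000000c 7 7) 0 0 (step_sound _ 98 [(rh2145e1d24b96a57e.shift 2 0), rh958d615da2d117e2] (by decide +kernel))
noncomputable def rh53e6de8d0a80751f : CRef := CRef.mk (Pat.mk 0x180000001c00000000000000040000000000000000 0x1f0000001f00000003000000070000000700000001 7 5) 0 0 (step_sound _ 129 [(rh53b3c253cb0c65f4.shift 0 4), rhbbb250e614f2d445] (by decide +kernel))
noncomputable def rh33fea92da69efb3d : CRef := CRef.mk (Pat.mk 0x18000000000000001e00000000000000000000000000000000 0x70000001f000000070000001e00000003000000070000000700000005 7 5) 0 0 (step_sound _ 161 [(rh3244c3cc8379b070.shift 0 4), rh34854395e5e1cf63] (by decide +kernel))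
noncomputable def rh04edab567457b339 : CRef := CRef.mk (Pat.mk 0x1800000098000000180000000c 0xe70000007e000000df0000001f0000000f 7 8) 0 0 (step_sound _ 98 [(rh50fbb5868c909700.shift 2 0), rh5f9895736d1d367b] (by decide +kernel))
noncomputable def rh412bae3e588ec957 : CRef := CRef.mk (Pat.mk 0x800000018000000180000001800000000 0x40000000f0000003c0000001c0000001f00000007 7 6) 0 0 (step_sound _ 130 [(rh50fbb5868c909700.shift 2 1), rh841436541fd29510] (by decide +kernel))
noncomputable def rh2c066ee1c5ee8ac1 : CRef := CRef.mk (Pat.mk 0x80000001a0000001a0000000800000000 0x130000001f0000001a0000001f0000000f00000004 7 5) 0 0 (step_sound _ 132 [(rh5c5e593799055d58.shift 3 1), rhb3c5f0b05ba07098] (by decide +kernel))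
noncomputable def rhe69eae3a7677d0f9 : CRef := CRef.mk (Pat.mk 0x20000001a00000008000000000000000000000000 0x3000000030000001e0000000f000000070000000700000005 7 5) 0 0 (step_sound _ 97 [rh794501743a61ce18, (rhda02c4ce0b224328.shift 0 3), rhf59657c8f752e82c] (by decide +kernel))
noncomputable def rhad7977e38c228a96 : CRef := CRef.mk (Pat.mk 0x20000001a00000000000000000000000000000000 0x100000003000000030000001f00000003000000070000000700000005 7 5) 0 0 (step_sound _ 97 [(rh01e48cd9f335aa73.shift 0 3), (rha5319e3b7adbd777.shift 0 1), rhaf7955adbc1f7ff4, rhf59657c8f752e82c] (by decide +kernel))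
noncomputable def rh7292f58be624bbb0 : CRef := CRef.mk (Pat.mk 0x1e00000018000000080000000000000000 0x2000000070000001e0000001f0000000f0000000700000002 7 5) 0 0 (step_sound _ 97 [rh769fd698e9edcb37, (rheb0810cc63b001d8.shift 0 3)] (by decide +kernel))
noncomputable def rhb285e473347a5781 : CRef := CRef.mk (Pat.mk 0x1a00000018000000000000000000000000 0x200000002000000070000001f0000001f000000070000000600000002 7 5) 0 0 (step_sound _ 130 [(rhb739f4f82bb681b4.shift 0 3), rhe36e2f3314fdb83a] (by decide +kernel))
noncomputable def rha9e59e1da88d1192 : CRef := CRef.mk (Pat.mk 0x1e0000001a00000008000000000000000000000000 0x500000007000000070000000b0000001e0000001e0000000f000000040000000400000004 7 5) 0 0 (step_sound _ 193 [rh27b410a82268f20b, (rh3244c3cc8379b070.shift 0 5)] (by decide +kernel))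
noncomputable def rhbdf304e06eb41d61 : CRef := CRef.mk (Pat.mk 0x100000001a0000001a00000000000000000000000000000000 0x1a0000001a0000001f0000000f0000001f0000000700000005 7 5) 0 0 (step_sound _ 97 [rh27e30d8b8d621d8d, (rhb3425fba9db279e9.shift 0 3), rhfbd38dbb491b0ac4] (by decide +kernel))
noncomputable def rhb0f6f82c81bd050e : CRef := CRef.mk (Pat.mk 0x2000000030000000300000001800000000 0x80000000c0000007f0000003e000000380000001e00000004 7 7) 0 0 (step_sound _ 34 [(rh53b3c253cb0c65f4.shift 1 1), rha6f97900a6b4876d] (by decide +kernel))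
noncomputable def rh8107674b02376cf9 : CRef := CRef.mk (Pat.mk 0x18000000180000000c000000000000000000000000 0x100000003a0000001f0000001a0000000f000000060000000400000004 7 6) 0 0 (step_sound _ 196 [(rh5c5e593799055d58.shift 3 3), rh8bf6e8a1598e06fd] (by decide +kernel))
noncomputable def rh88db9e0744b493ce : CRef := CRef.mk (Pat.mk 0x18000000180000000c000000000000000000000000 0x10000000330000001f0000001f0000000f000000060000000400000004 7 6) 0 0 (step_sound _ 196 [rh1bc53732ee905289, (rh5c5e593799055d58.shift 3 3)] (by decide +kernel))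
noncomputable def rhb624fe41750363c1 : CRef := CRef.mk (Pat.mk 0x1e0000001a00000000000000000000000000000000 0x70000001e0000001e00000003000000070000000700000005 7 5) 0 0 (step_sound _ 193 [(rh3244c3cc8379b070.shift 0 5), rh4bb2ca7f2be2dd24] (by decide +kernel))
noncomputable def rh5854c020c97ff32b : CRef := CRef.mk (Pat.mk 0x20000001e00000000000000080000000000000000 0x50000000700000007000000020000001e000000070000001f0000000700000001 7 5) 0 0 (step_sound _ 97 [rhb0124cb552f3e2d3, (rheb0810cc63b001d8.shift 0 3)] (by decide +kernel))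
noncomputable def rh22765f884d28ab92 : CRef := CRef.mk (Pat.mk 0xa0000000a000000880000000800000000 0xa0000000a000000ef0000007f000000f7 7 8) 0 0 (step_sound _ 36 [rh1676e7fd68eb4e17, (rh55afc6a59410cf00.shift 3 0)] (by decide +kernel))
noncomputable def rh934dff11b019b1da : CRef := CRef.mk (Pat.mk 0x1e0000001a000000000000000000000000 0x10000000f0000000f0000000f0000001e0000001e0000000c0000000c0000000c 7 5) 0 0 (step_sound _ 67 [(rh40241bd608e5be1a.shift 2 0), (rh6251196c79f66161.shift 0 2), rhe171bd6c193f5452] (by decide +kernel))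
noncomputable def rh6a5d3ce692ce17b5 : CRef := CRef.mk (Pat.mk 0x1c000000180000000000000000 0x4000000040000000c0000001f0000001f0000000f0000000a 7 5) 0 0 (step_sound _ 97 [(rhb739f4f82bb681b4.shift 0 2), rhc84585e2b14a7734] (by decide +kernel))
noncomputable def rh8e1995675f27b640 : CRef := CRef.mk (Pat.mk 0x1e000000180000000000000000 0x4000000040000000f0000001e0000001b0000000f0000000f 7 5) 0 0 (step_sound _ 129 [(rh3244c3cc8379b070.shift 0 3), rhf6c3bf79151a7d58] (by decide +kernel))
noncomputable def rh242da236d25e3a20 : CRef := CRef.mk (Pat.mk 0x1e000000180000000000000000 0x50000000700000007000000030000001e0000001f0000000f00000005 7 5) 0 0 (step_sound _ 65 [rh6a4449f7d7d199d3, (rheb0810cc63b001d8.shift 0 2)] (by decide +kernel))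
noncomputable def rh12df48c1c58dbe54 : CRef := CRef.mk (Pat.mk 0x1c00000018000000000000000000000000 0x200000002000000070000001f0000001f000000070000000600000002 7 5) 0 0 (step_sound _ 129 [(rhb739f4f82bb681b4.shift 0 3), rhe36e2f3314fdb83a] (by decide +kernel))
noncomputable def rhc7797d8044370911 : CRef := CRef.mk (Pat.mk 0x8000000080000001e00000000000000000000000000000000 0xc0000000f0000001e00000007000000070000000700000005 7 5) 0 0 (step_sound _ 161 [rh16ef587e96ed1b35, (rh3244c3cc8379b070.shift 0 4)] (by decide +kernel))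
noncomputable def rh97009123efd6388b : CRef := CRef.mk (Pat.mk 0x180000001e00000000 0x10000000300000003000000030000001f0000001e00000007 7 5) 0 0 (step_sound _ 65 [(rh3244c3cc8379b070.shift 0 1), rh7f798aadb367bd17] (by decide +kernel))
noncomputable def rh708bb0c71cfc68dd : CRef := CRef.mk (Pat.mk 0x1800000008000000020000001e00000000000000000000000000000000 0x7c0000000f000000060000001e00000003000000070000000700000005 7 7) 0 0 (step_sound _ 97 [rhca437ee81bc726c8, (rheb0810cc63b001d8.shift 0 3)] (by decide +kernel))
noncomputable def rh2889dbd31c9f9295 : CRef := CRef.mk (Pat.mk 0x80000001a0000001a000000000000000000000000 0x100000011000000370000003f0000001e0000001e000000070000000700000005 7 6) 0 0 (step_sound _ 161 [(rhc24816851c3e72af.shift 0 1), (rhd8be3b7ca6adb62f.shift 0 4), (rhe8a9e0e6037b7c6e.shift 0 2), rhfd97b58967212f9b] (by decide +kernel))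
noncomputable def rh3a99a353950d6315 : CRef := CRef.mk (Pat.mk 0x80000001a0000000a000000000000000000000000 0x500000017000000370000001f0000001b0000000b000000070000000700000005 7 6) 0 0 (step_sound _ 161 [(rh3068e443d36f23f5.shift 0 3), (rh46990448042cc692.shift 0 2), (rha19b78461a10c4a2.shift 0 1), (rhc9980783718588ac.shift 0 1), rhfd97b58967212f9b] (by decide +kernel))
noncomputable def rhcc9905bd7b811457 : CRef := CRef.mk (Pat.mk 0x1c00000008000000180000001c 0x230000003f0000007b0000001f0000001f 7 7) 0 0 (step_sound _ 68 [(rh6292bd8784ece55f.shift 1 2), rh920e41f2c7613f79, rha4c9050b0c06ab77] (by decide +kernel))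
noncomputable def rh04d703198b112d6f : CRef := CRef.mk (Pat.mk 0x3800000000000001100000011000000110 0x9c000000fc000000cf000001980000019800000110 7 9) 0 0 (step_sound _ 99 [rh2177f43a8b3a8b55, (rh6da1cd319b2afcb1.shift 3 0), (rha661e9d3bd2d1b76.shift 2 0)] (by decide +kernel))
noncomputable def rh8f4c6c555c1e1dff : CRef := CRef.mk (Pat.mk 0x38000000000000010000000100 0x1f7000000fe000000cf0000018000000100 7 9) 0 0 (step_sound _ 98 [(rh4c622fddc53a5f99.shift 0 3), (rh4d8df14dca253e3c.shift 1 0), (rh775ca1963e850b80.shift 0 2), (rh9e97bba44c1b13e4.shift 0 2)] (by decide +kernel))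
noncomputable def rh8edd5e44a0701a59 : CRef := CRef.mk (Pat.mk 0x20000001e0000000000000000 0x1000000070000000f0000003e0000001e0000000700000004 7 6) 0 0 (step_sound _ 33 [rh27a949df68c4b667, (rheb0810cc63b001d8.shift 0 1)] (by decide +kernel))
noncomputable def rhce781957238eeb13 : CRef := CRef.mk (Pat.mk 0x1e00000008000000180000000800000000 0x30000003e0000000f0000001f0000000f00000004 7 6) 0 0 (step_sound _ 97 [rh19c128d4bc3ca27c, (rheb0810cc63b001d8.shift 0 3)] (by decide +kernel))
noncomputable def rh59f8704b1c8d9504 : CRef := CRef.mk (Pat.mk 0x80000001c0000000c00000000 0x1c0000007c0000000e0000001c0000000f00000002 7 7) 0 0 (step_sound _ 33 [(rh063f0d92a3134ed5.shift 1 0), (rh53b3c253cb0c65f4.shift 0 1)] (by decide +kernel))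
noncomputable def rhe95191bb1778f74d : CRef := CRef.mk (Pat.mk 0x2800000068000002000000003000000000 0x100000003c000000680000038f000001fe000001ff 7 10) 0 0 (step_sound _ 132 [(rhb739f4f82bb681b4.shift 2 3), rhdd98ce1a2f039f2a] (by decide +kernel))
noncomputable def rhe41a4dd78a7e5aba : CRef := CRef.mk (Pat.mk 0x6800000008000002000000003000000000 0x10000000780000000c0000038f000001fe000001ff 7 10) 0 0 (step_sound _ 132 [rhdd98ce1a2f039f2a, (rheb0810cc63b001d8.shift 2 3)] (by decide +kernel))
noncomputable def rhc1cf994113067fab : CRef := CRef.mk (Pat.mk 0x380000001a00000008 0x3c0000007c0000007c0000003f0000001b00000008 7 7) 0 0 (step_sound _ 99 [(rh2ddd6c94c59240f8.shift 3 0), rh4cf1ec5ff1e74e5c, (rh7b9fbdf6d2d059e4.shift 2 0)] (by decide +kernel))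
noncomputable def rh131244fa5f5aa6a5 : CRef := CRef.mk (Pat.mk 0x600000006000000020000000000000000 0x300000003000000030000000600000006000000030000000700000007 7 3) 0 0 (step_sound _ 33 [(rh71222050f2c63a3a.shift 1 0), rh73331affe7129e83] (by decide +kernel))
noncomputable def rh8a9a0f84b36a2d4f : CRef := CRef.mk (Pat.mk 0x3600000026000000220000000000000000 0x160000001f000000130000003700000036000000220000000200000002 7 6) 0 0 (step_sound _ 33 [(rh1ef2fb8c15e0974a.shift 0 1), (rh71222050f2c63a3a.shift 1 0)] (by decide +kernel))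
noncomputable def rh8da67fc4d51f10b7 : CRef := CRef.mk (Pat.mk 0x8000000000000003c0000000c00000000 0x170000001e0000007c0000003c0000000c00000004 7 7) 0 0 (step_sound _ 99 [(rh932754581e0f4330.shift 2 0), (rhc34d16576c8b27db.shift 0 1)] (by decide +kernel))
noncomputable def rh6e8c68fa89a505c6 : CRef := CRef.mk (Pat.mk 0x4000000000000001e0000000e 0x7f0000001f0000003a0000001e0000000e 7 7) 0 0 (step_sound _ 97 [rh9453752d776069ed, rhb1de0db26c505ab8, (rhd727bb41309b6841.shift 1 0)] (by decide +kernel))
noncomputable def rhca59a3548921eb7d : CRef := CRef.mk (Pat.mk 0x80000000800000038000000180000000000000000 0x300000007c0000006c0000003f0000001f0000000800000008 7 7) 0 0 (step_sound _ 65 [(rh24ae073cf30720c4.shift 1 2), rh7d9c9f911e044c94] (by decide +kernel))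
noncomputable def rh3b5e0548b89ec4b7 : CRef := CRef.mk (Pat.mk 0xd800000098000000800000000000000000 0x480000005800000078000000d8000000dc0000008f0000003c0000001c 7 8) 0 0 (step_sound _ 67 [rh59884d4b0b1c90ac, (rh75cd61a586ef3bbd.shift 2 1), (rhea7a1800d6f053bd.shift 3 0)] (by decide +kernel))
noncomputable def rhb99169ecf0e38ba2 : CRef := CRef.mk (Pat.mk 0x100000001200000032000000080000000000000000 0x5000000070000001700000013000000330000001f0000000b00000001 7 6) 0 0 (step_sound _ 68 [rh5ab1f3800366eba0, (rh932754581e0f4330.shift 3 1)] (by decide +kernel))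
noncomputable def rhc63714e1d754eae6 : CRef := CRef.mk (Pat.mk 0x1000000010000000120000001200000000000000000000000000000000 0x1000000012000000130000003e0000000f000000060000000400000004 7 6) 0 0 (step_sound _ 131 [rh7b38386bee35fd60, (rh932754581e0f4330.shift 3 3)] (by decide +kernel))
noncomputable def rh39ec536f32deb957 : CRef := CRef.mk (Pat.mk 0x1000000010000000100000001000000000 0x800000018000000180000003e0000007f0000002e 7 7) 0 0 (step_sound _ 35 [(rh932754581e0f4330.shift 3 0), rhd97757d230799495] (by decide +kernel))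
noncomputable def rhbfe224b39bd022a6 : CRef := CRef.mk (Pat.mk 0x1000000010000000100000001000000000 0x2e0000007f0000003e000000180000001800000008 7 7) 0 0 (step_sound _ 131 [(rh50fbb5868c909700.shift 3 1), rhb52e291e718d5fbc] (by decide +kernel))
noncomputable def rh594d2b3b2a15b4fa : CRef := CRef.mk (Pat.mk 0x2000000020000000200000000000000000000000000000000 0x5000000070000000700000006000000060000000600000007000000070000000700000005 7 3) 0 0 (step_sound _ 97 [(rh20e56a1196e70fcc.shift 0 2), rh49759b6975f15643, (rh8cdd36b03d57a2f6.shift 0 1), (rhcab3157f7bdcba3e.shift 0 1)] (by decide +kernel))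
noncomputable def rhcce661c357cfd33b : CRef := CRef.mk (Pat.mk 0x20000000200000002000000000000000000000000 0x50000000700000007000000030000000300000006000000070000000700000005 7 3) 0 0 (step_sound _ 65 [(rh20e56a1196e70fcc.shift 0 1), rh8cdd36b03d57a2f6, rhc4526fc8abf298b6] (by decide +kernel))
noncomputable def rh455248d9133c6d43 : CRef := CRef.mk (Pat.mk 0x10000000300000001a000000120000000000000000 0x10000000b0000001f000000330000001b0000001f0000000700000004 7 6) 0 0 (step_sound _ 163 [(rh50fbb5868c909700.shift 3 2), rhd4d072bb4184f8a3] (by decide +kernel))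
noncomputable def rh108f308758bc6644 : CRef := CRef.mk (Pat.mk 0x78000000000000003000000120 0x70000007e0000000e0000003c000001e4 7 9) 0 0 (step_sound _ 6 [(rh2fe78cc5ca4405d8.shift 4 0), rh58e0e059454e2e6e] (by decide +kernel))
noncomputable def rh44aba1180b8b9f60 : CRef := CRef.mk (Pat.mk 0x38000001200000003400000030 0x4f000000fe000001a7000000360000003e 7 9) 0 0 (step_sound _ 102 [rh09b17521740cf0e8, (rh2f68792b6b779e96.shift 5 0)] (by decide +kernel))
noncomputable def rh98da62b94cfcd230 : CRef := CRef.mk (Pat.mk 0x1c000000000000001800000038000000000000000000000000 0x60000001e000000070000001e0000003f000000070000000200000002 7 6) 0 0 (step_sound _ 130 [(rhb739f4f82bb681b4.shift 1 3), rhc4ee6b3d63e535ab] (by decide +kernel))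
noncomputable def rh97e428c054eb3c0a : CRef := CRef.mk (Pat.mk 0x20000001a0000001200000012 0x10000000f0000001f0000000e0000001a0000001a00000012 7 5) 0 0 (step_sound _ 130 [rh2385e0661df71a2d, (rhbaefcd01e0a8bca3.shift 1 0)] (by decide +kernel))
noncomputable def rh82caa456695e7623 : CRef := CRef.mk (Pat.mk 0x12000000030000000200000000000000000000000000000000 0x40000001e000000030000000300000003000000070000000700000004 7 5) 0 0 (step_sound _ 194 [(rh361cc68994bd8a63.shift 0 5), rh3a92b2aa79627371] (by decide +kernel))
noncomputable def rh6d9172875361fe79 : CRef := CRef.mk (Pat.mk 0x12000000030000000200000000000000000000000000000000 0x40000001e000000030000000300000006000000070000000700000001 7 5) 0 0 (step_sound _ 194 [(rh361cc68994bd8a63.shift 0 5), rhc850ef9393baf884] (by decide +kernel))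
noncomputable def rh629adf3cfca3b589 : CRef := CRef.mk (Pat.mk 0x80000000b0000000300000000000000010000000000000000 0x140000001c0000001c000000180000000b0000001f0000001c0000001f0000001c00000010 7 5) 0 0 (step_sound _ 131 [rh3bf5d743c436b7b8, (rh58db2d59b08cbe50.shift 0 1), (rh68f4aa9286a5d728.shift 0 1), (rha29ccca5e36268f0.shift 0 3), (rhda1dd8873eb36000.shift 0 2), (rhda7c17c004b4f878.shift 0 3)] (by decide +kernel))
noncomputable def rh0f5c806ada905950 : CRef := CRef.mk (Pat.mk 0x80000000a0000000b000000090000000000000000 0x40000001c0000001c0000001c0000000c0000001e0000000b000000090000000100000001 7 5) 0 0 (step_sound _ 195 [(rh1741680720c097b4.shift 2 3), (rh3ca48e2a6d60153d.shift 2 2), (rhc9dda8a160c77cb5.shift 0 3), rhed3a6a1b98813cbc] (by decide +kernel))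
noncomputable def rh60046cf1b0bc5677 : CRef := CRef.mk (Pat.mk 0xa0000000b00000009000000080000000000000000 0x10000000180000001a0000000b000000190000001d0000000f00000004 7 5) 0 0 (step_sound _ 32 [(rh9e3edb185cc347de.shift 0 1), rha5edf68cac1cdfda] (by decide +kernel))
noncomputable def rhc139c4ce22601657 : CRef := CRef.mk (Pat.mk 0x20000000b0000000e000000000000000000000000 0x140000001c0000001c0000001e0000000b0000000e0000001c0000001c00000014 7 5) 0 0 (step_sound _ 163 [rh32ed7c24a64682a4, (rh3453b8d8ca7f70b3.shift 0 2), (rh68a777751bfeafdf.shift 2 2), (rh86bdd6388b8581ae.shift 1 0)] (by decide +kernel))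
noncomputable def rhed08e01e3d3f7f79 : CRef := CRef.mk (Pat.mk 0x120000001600000016000000000000000000000000 0x230000003300000032000000160000001e000000380000003800000028 7 6) 0 0 (step_sound _ 193 [(rh2145e1d24b96a57e.shift 1 3), rhc2db22ad2f1c7e2a] (by decide +kernel))
noncomputable def rh21794f47d32d47a4 : CRef := CRef.mk (Pat.mk 0x8000000090000000b0000000a0000000000000000 0x40000000f0000001d000000190000000b0000001a0000001800000010 7 5) 0 0 (step_sound _ 192 [(rh6f1cbe15c631ee70.shift 0 2), rha08fe74d18864aa5] (by decide +kernel))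
noncomputable def rh36a89768d9c91f7d : CRef := CRef.mk (Pat.mk 0x90000000b0000000a00000000 0x140000001d0000001d000000090000000b0000001e00000004 7 5) 0 0 (step_sound _ 128 [(rh2145e1d24b96a57e.shift 0 1), rhda7c17c004b4f878] (by decide +kernel))
noncomputable def rh52642875800c893b : CRef := CRef.mk (Pat.mk 0x8000000080000000f0000000000000000000000000000000000000000 0x8000000080000000f0000001c0000001c0000001c0000001c00000004 7 5) 0 0 (step_sound _ 131 [(rhe0be7ab05c8f9e7a.shift 2 0), (rhe25b0a99195a5d59.shift 0 4)] (by decide +kernel))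
noncomputable def rhf8cc6566a25825fd : CRef := CRef.mk (Pat.mk 0xe0000000b00000002000000000000000000000000 0x140000001c0000001c0000000e0000000b0000001e0000001c0000001c00000014 7 5) 0 0 (step_sound _ 99 [(rh56259dd1390eee46.shift 2 0), rh68f4aa9286a5d728, (rhd01ed0cc6ce530d4.shift 1 2), (rhda7c17c004b4f878.shift 0 2)] (by decide +kernel))
noncomputable def rh3275d016f2188932 : CRef := CRef.mk (Pat.mk 0x18000000030000001200000000 0x500000007000000070000001e000000030000001e00000004 7 5) 0 0 (step_sound _ 97 [(rhb2a0b9ccfb5cecd5.shift 0 2), rhf7acaebcded2f86e] (by decide +kernel))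
noncomputable def rh4b18e940be189c36 : CRef := CRef.mk (Pat.mk 0x100000000000000030000000b00000008000000000000000000000000 0x100000001c0000001f0000001c0000001f0000000b000000080000001c0000001c00000014 7 5) 0 0 (step_sound _ 163 [rh32ed7c24a64682a4, (rha5f2eb10f0eebca5.shift 0 3), rhe3f8113ac7ee77a1, rhf9f763af7314a4a0] (by decide +kernel))
noncomputable def rh80d0277df4a48d5f : CRef := CRef.mk (Pat.mk 0x20000000300000006000000020000000000000000000000000000000000000000 0x20000000300000007000000070000000300000003000000070000000700000005 7 3) 0 0 (step_sound _ 129 [(rh7928877f9bf74a91.shift 0 3), rhd44c5255a25eff97, (rhe4441baab75a6f73.shift 0 2)] (by decide +kernel))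
noncomputable def rhbd85a739b32027c8 : CRef := CRef.mk (Pat.mk 0x1c00000010000000100000001000000000 0x40000001c000000180000007c0000001f0000001c 7 7) 0 0 (step_sound _ 99 [(rh7b1f1fb55310c477.shift 3 0), rhdc1c0c16c2a4b291] (by decide +kernel))
noncomputable def rhe80c5896064fd2d1 : CRef := CRef.mk (Pat.mk 0x1800000010000000100000001800000000 0x180000001c0000007f0000003e00000027 7 7) 0 0 (step_sound _ 37 [(rh55afc6a59410cf00.shift 4 0), rhf18b037007c0d324] (by decide +kernel))
noncomputable def rh49178f19b4a7b930 : CRef := CRef.mk (Pat.mk 0xa0000001800000008000000080000000000000000 0x20000000a0000001b0000003f0000001f0000001c00000018 7 6) 0 0 (step_sound _ 100 [(rh2c5a6414b11f54f4.shift 0 1), (rh4053c12da95c0aa0.shift 3 0), (rhefde87c8814ee837.shift 0 1)] (by decide +kernel))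
noncomputable def rh476ab0bd2a626cde : CRef := CRef.mk (Pat.mk 0x1800000030000000100000003000000000 0x1e0000003e000000770000003e0000000f 7 7) 0 0 (step_sound _ 35 [rh112c643b4089f644, (rh932754581e0f4330.shift 3 0)] (by decide +kernel))
noncomputable def rhe44ec8f9a9c44904 : CRef := CRef.mk (Pat.mk 0xc000000180000000c0000001800000000 0x20000000f0000001b0000003f0000001f00000004 7 6) 0 0 (step_sound _ 65 [(rhb739f4f82bb681b4.shift 0 1), rhcf9ffc59690f6130] (by decide +kernel))
noncomputable def rh4e246daef4128b76 : CRef := CRef.mk (Pat.mk 0xc00000048000000080000000800000000000000000000000000000000 0xc000000780000001f0000007c000000180000001c0000001c00000014 7 7) 0 0 (step_sound _ 196 [(rh2fe78cc5ca4405d8.shift 2 6), rh9ae9779bc68b4c2d] (by decide +kernel))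
noncomputable def rh8afb74697d609424 : CRef := CRef.mk (Pat.mk 0xc000000480000000c000000000000000000000000 0x20000000f0000007e0000000f000000060000000400000004 7 7) 0 0 (step_sound _ 132 [(rh361cc68994bd8a63.shift 2 3), rhbed95a687085d398] (by decide +kernel))
noncomputable def rh63661e35b72561cd : CRef := CRef.mk (Pat.mk 0x180000001a000000100000000000000000 0x200000006000000070000001f0000001e000000370000000200000002 7 6) 0 0 (step_sound _ 98 [rh23d2566fce68d118, (rhe25b0a99195a5d59.shift 1 2)] (by decide +kernel))
noncomputable def rh09c96eda5b1b2f67 : CRef := CRef.mk (Pat.mk 0x1800000018000000180000000000000000 0x40000001f0000001f000000780000000c0000000c 7 7) 0 0 (step_sound _ 35 [(rh71222050f2c63a3a.shift 3 0), rh8b2b6866a591d210] (by decide +kernel))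
noncomputable def rhfa0c249203e12377 : CRef := CRef.mk (Pat.mk 0x300000003400000010000000000000000000000000 0xa0000000e0000000e0000003e000000360000001e0000000f0000000e0000000a 7 6) 0 0 (step_sound _ 162 [(rh086f6046fa319626.shift 1 4), (rh2405fc3f4e66b324.shift 1 2), (rh3d98fac3888c5a99.shift 1 2), rhadd986df07ad7db3] (by decide +kernel))
noncomputable def rh5a97e3b798e89cc5 : CRef := CRef.mk (Pat.mk 0x1800000018000000180000000c 0x60000001f0000001b0000003f0000000f 7 6) 0 0 (step_sound _ 1 [rh0c3fcaf8777b2140, rh53b3c253cb0c65f4] (by decide +kernel))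
noncomputable def rhc29aedc95e7761c8 : CRef := CRef.mk (Pat.mk 0x1800000018000000180000000800000000 0x70000001f0000001c0000003c0000000f00000004 7 6) 0 0 (step_sound _ 34 [(rh42c8eabcf66940cd.shift 0 1), (rh932754581e0f4330.shift 2 0)] (by decide +kernel))
noncomputable def rh5509b73f58566afc : CRef := CRef.mk (Pat.mk 0x18000000180000000c 0x3000000030000001f0000003f0000000f 7 6) 0 0 (step_sound _ 1 [rh53b3c253cb0c65f4, rhcc63d3122b927fd8] (by decide +kernel))
noncomputable def rh64eecdb7cb21875f : CRef := CRef.mk (Pat.mk 0x18000000100000001000000000000000000000000000000000 0x18000000180000003c000000ff0000003e0000003800000028 7 8) 0 0 (step_sound _ 100 [(rh8cdd36b03d57a2f6.shift 3 1), (rha613ffd40b6c9d24.shift 3 1), (rhb6506ee5fe6cd382.shift 0 2), (rhc05d451ce3dd5e48.shift 3 0), (rhe4441baab75a6f73.shift 3 1)] (by decide +kernel))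
noncomputable def rh8fd2932cfb7921ee : CRef := CRef.mk (Pat.mk 0x1000000003000000020000000200000000000000000000000000000000 0x500000007000000070000001e00000003000000030000000300000003000000070000000700000005 7 5) 0 0 (step_sound _ 225 [(rh04e571695666b5c1.shift 0 4), (rh193da7fc9e1674f1.shift 0 3), rhda8986cb4bfcd9d6] (by decide +kernel))
noncomputable def rh74eb69def1cee84c : CRef := CRef.mk (Pat.mk 0x100000000300000006000000000000000000000000 0x400000006000000060000001e0000000300000007000000070000000700000005 7 5) 0 0 (step_sound _ 161 [(rh566659606c8abe04.shift 0 2), rhaac6df22c4ef4a49, (rhb23658ecdd7ce5df.shift 0 2)] (by decide +kernel))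
noncomputable def rhb08689784dc9cc96 : CRef := CRef.mk (Pat.mk 0x100000001300000016000000000000000000000000 0xc0000000d0000000f0000001e0000001b00000016000000070000000700000005 7 5) 0 0 (step_sound _ 161 [(rh566659606c8abe04.shift 0 2), (rh70e33bfdf511e144.shift 1 0), (rh7ff002cb0ecfac78.shift 0 2), rhaac6df22c4ef4a49] (by decide +kernel))
noncomputable def rh665c2302469f0acd : CRef := CRef.mk (Pat.mk 0x80000003200000012000000100000000000000000 0x10000000b0000001f0000003300000013000000170000000700000005 7 6) 0 0 (step_sound _ 164 [(rh50fbb5868c909700.shift 3 2), rhd08f3ad424f34074] (by decide +kernel))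
noncomputable def rh827bdaa087d93190 : CRef := CRef.mk (Pat.mk 0x12000000120000001000000010 0x400000004000000060000000f0000003e000000130000001200000010 7 6) 0 0 (step_sound _ 99 [(rh171c89cc18d67516.shift 0 1), (rh50fbb5868c909700.shift 3 0)] (by decide +kernel))
noncomputable def rh7d9e47d97216213f : CRef := CRef.mk (Pat.mk 0x20000000200000002000000000000000000000000 0x5000000070000000700000007000000060000000600000006000000070000000700000005 7 3) 0 0 (step_sound _ 193 [(rh20e56a1196e70fcc.shift 0 2), rh49759b6975f15643, (rh5abfc4c9d959be03.shift 0 2), (rhc85cc95794737cf7.shift 0 3)] (by decide +kernel))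
noncomputable def rh1178ea75e399fb40 : CRef := CRef.mk (Pat.mk 0x20000000200000002000000000000000000000000 0x50000000700000007000000060000000300000003000000070000000700000005 7 3) 0 0 (step_sound _ 193 [rh49759b6975f15643, (rh771d065bdc85bf2d.shift 0 2), (rhc85cc95794737cf7.shift 0 3)] (by decide +kernel))
noncomputable def rh20a65614db7e08f1 : CRef := CRef.mk (Pat.mk 0x120000001a00000030000000100000000000000000 0x4000000070000001f0000001b000000330000001f0000000b00000001 7 6) 0 0 (step_sound _ 67 [(rh932754581e0f4330.shift 3 1), rhf34e82af65f57427] (by decide +kernel))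
noncomputable def rh6e839994e8d49f1e : CRef := CRef.mk (Pat.mk 0x12000000030000000000000007800000000 0x1e40000003c0000000e0000007e00000007 7 9) 0 0 (step_sound _ 134 [(rh361cc68994bd8a63.shift 4 3), rh867ff9ae5de5a893] (by decide +kernel))
noncomputable def rh69db8126b554832a : CRef := CRef.mk (Pat.mk 0x3000000034000001200000003800000000 0x3e00000036000001a7000000fe0000004f 7 9) 0 0 (step_sound _ 38 [(rh55afc6a59410cf00.shift 5 0), rh9b210d4268a50c9a] (by decide +kernel))
noncomputable def rh4eb2e4e33e559d31 : CRef := CRef.mk (Pat.mk 0x3800000018000000000000001c00000000 0x200000002000000070000003f0000001e000000070000001e00000006 7 6) 0 0 (step_sound _ 98 [rh2917246e824fb13f, (rh53b3c253cb0c65f4.shift 1 3)] (by decide +kernel))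
noncomputable def rh7bb88d00bf5ff4e2 : CRef := CRef.mk (Pat.mk 0x12000000120000001a00000002000000000000000000000000 0x120000001a0000001a0000000e0000001f0000000f00000001 7 5) 0 0 (step_sound _ 66 [(rhd3458b32566d63f7.shift 1 2), rhee79eae8ebe7f943] (by decide +kernel))
noncomputable def rhb9fc4ad5d2e75c1c : CRef := CRef.mk (Pat.mk 0x2000000030000001200000000 0x400000007000000070000000300000003000000030000001e00000004 7 5) 0 0 (step_sound _ 34 [(rh2fe78cc5ca4405d8.shift 0 1), rh9480a1de065ee4cc] (by decide +kernel))
noncomputable def rh01e7a5813b8e330e : CRef := CRef.mk (Pat.mk 0x2000000030000001200000000 0x100000007000000070000000600000003000000030000001e00000004 7 5) 0 0 (step_sound _ 34 [(rh2fe78cc5ca4405d8.shift 0 1), rhcc21179e9c7abcbc] (by decide +kernel))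
noncomputable def rh6501bf422d44f6e0 : CRef := CRef.mk (Pat.mk 0x100000000000000030000000b00000008000000000000000000000000 0x100000001c0000001f0000001c0000001f0000000b000000180000001c0000001c00000014 7 5) 0 0 (step_sound _ 163 [(rh0139f4cea80ee4d7.shift 0 2), (rh13161b07ff9822ca.shift 0 1), rh32ed7c24a64682a4, (rh3453b8d8ca7f70b3.shift 0 2), rhe3f8113ac7ee77a1, rhf9f763af7314a4a0] (by decide +kernel))
noncomputable def rhf7d496d37053b674 : CRef := CRef.mk (Pat.mk 0x90000000b0000000a0000000800000000000000000000000000000000 0x100000001000000090000000b0000001e0000000c0000001c0000001c0000001c00000004 7 5) 0 0 (step_sound _ 99 [(rh0ab125abced139d0.shift 0 1), (rh6eff4158bb400f47.shift 2 1), (rh7928877f9bf74a91.shift 2 2), rhd68fc815edb5ff5a] (by decide +kernel))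
noncomputable def rhbdf837deeab7d3c0 : CRef := CRef.mk (Pat.mk 0x1600000016000000120000000000000000 0x2800000038000000380000001e00000016000000320000003300000023 7 6) 0 0 (step_sound _ 33 [(rh71222050f2c63a3a.shift 1 0), rha15644caf9258d01] (by decide +kernel))
noncomputable def rhb1b18b1a6233e09a : CRef := CRef.mk (Pat.mk 0xa0000000b00000009000000000000000000000000 0x40000001e0000000b000000090000001d0000001d00000014 7 5) 0 0 (step_sound _ 64 [rh32ed7c24a64682a4, (rh71222050f2c63a3a.shift 0 1)] (by decide +kernel))
noncomputable def rhf1199fca3802452f : CRef := CRef.mk (Pat.mk 0xf0000000800000008 0x40000001c0000001c0000001c0000001c0000000f0000000800000008 7 5) 0 0 (step_sound _ 99 [(rh33e738c4ed385b9f.shift 0 2), (rha7bb430bc20854cc.shift 2 0)] (by decide +kernel))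
noncomputable def rhb3205a3c21752f40 : CRef := CRef.mk (Pat.mk 0x120000000300000018000000000000000000000000 0x40000001e000000030000001e000000070000000700000005 7 5) 0 0 (step_sound _ 97 [(rh5419adcd928dba20.shift 0 3), rhaac6df22c4ef4a49] (by decide +kernel))
noncomputable def rhe345ea3f761bc898 : CRef := CRef.mk (Pat.mk 0x80000000b0000000300000000000000010000000000000000 0x140000001c0000001c000000080000000b0000001f0000001c0000001f0000001c00000010 7 5) 0 0 (step_sound _ 131 [(rh58db2d59b08cbe50.shift 0 1), (rha29ccca5e36268f0.shift 0 3), rhb7eb54d18e708ba7, (rhda7c17c004b4f878.shift 0 3)] (by decide +kernel))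
noncomputable def rh24ef45dd8569860e : CRef := CRef.mk (Pat.mk 0x2000000060000000300000002 0x50000000700000007000000030000000300000007000000070000000300000002 7 3) 0 0 (step_sound _ 129 [rh3ca48e2a6d60153d, (rhe62cab2ff5ad6fe2.shift 0 1), (rhf3bc05ddeebb714c.shift 0 1)] (by decide +kernel))
noncomputable def rhe584f9f87996974b : CRef := CRef.mk (Pat.mk 0x1000000010000000100000001c00000000 0x1c0000001f0000007c000000180000001c00000004 7 7) 0 0 (step_sound _ 67 [(rh5c5e593799055d58.shift 3 1), rhaaab1dc69d0042f3] (by decide +kernel))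
noncomputable def rh756ea9c2c00bdfff : CRef := CRef.mk (Pat.mk 0x18000000100000001000000018 0x270000003e0000007f0000001c00000018 7 7) 0 0 (step_sound _ 101 [(rh2f68792b6b779e96.shift 4 0), rhd4bb8652d9d84b90] (by decide +kernel))
noncomputable def rhcc73c56ab9a69393 : CRef := CRef.mk (Pat.mk 0x800000008000000180000000a00000000 0x180000001c0000001f0000003f0000001b0000000a00000002 7 6) 0 0 (step_sound _ 100 [(rh2ddd6c94c59240f8.shift 3 1), (rh5aa5e9dc84124dd6.shift 0 1), rh87a5821ce4bef39c] (by decide +kernel))
noncomputable def rh45ead82745f0f03f : CRef := CRef.mk (Pat.mk 0x30000000100000003000000018 0xf0000003e000000770000003e0000001e 7 7) 0 0 (step_sound _ 99 [(rh50fbb5868c909700.shift 3 0), rhf34241641beab060] (by decide +kernel))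
noncomputable def rhda1c6fa2ae31d956 : CRef := CRef.mk (Pat.mk 0x180000000c000000180000000c00000000 0x40000001f0000003f0000001b0000000f00000002 7 6) 0 0 (step_sound _ 97 [rh51603461bebb16fc, (rh53b3c253cb0c65f4.shift 0 3)] (by decide +kernel))
noncomputable def rh24b600d4271b3731 : CRef := CRef.mk (Pat.mk 0x800000008000000480000000c 0x140000001c0000001c000000180000007c0000001f000000780000000c 7 7) 0 0 (step_sound _ 36 [(rh361cc68994bd8a63.shift 2 0), rhd71949b4d241b552] (by decide +kernel))
noncomputable def rh4028bfb90d696872 : CRef := CRef.mk (Pat.mk 0xc000000480000000c00000000 0x400000004000000060000000f0000007e0000000f00000002 7 7) 0 0 (step_sound _ 68 [(rh2fe78cc5ca4405d8.shift 2 2), rh472dc02f70ab2ee3] (by decide +kernel))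
noncomputable def rhc52de95476f99525 : CRef := CRef.mk (Pat.mk 0x100000001a00000018000000000000000000000000 0x200000002000000370000001e0000001f000000070000000600000002 7 6) 0 0 (step_sound _ 130 [(rh33e738c4ed385b9f.shift 1 4), rh481c9ab2c42732be] (by decide +kernel))
noncomputable def rh700e47a8e48208df : CRef := CRef.mk (Pat.mk 0x18000000180000001800000000 0xc0000000c000000780000001f0000001f00000004 7 7) 0 0 (step_sound _ 131 [rh1f64a4930c5bb5e6, (rh2145e1d24b96a57e.shift 3 1)] (by decide +kernel))
noncomputable def rh8c69bdde60b71d9b : CRef := CRef.mk (Pat.mk 0x100000003400000030000000000000000000000000 0xa0000000e0000000f0000001e000000360000003e0000000e0000000e0000000a 7 6) 0 0 (step_sound _ 98 [(rh13e22583a37a3f05.shift 1 1), (rh6e1685e3533aff0e.shift 1 3), rha81f7feb9cc39e5b, (rhcc6468ed8f53dcbd.shift 1 1)] (by decide +kernel))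
noncomputable def rh917d745602630977 : CRef := CRef.mk (Pat.mk 0xc00000018000000180000001800000000 0xf0000003f0000001b0000001f00000006 7 6) 0 0 (step_sound _ 129 [rh06767c5de61b05a0, (rhb739f4f82bb681b4.shift 0 3)] (by decide +kernel))
noncomputable def rh3c20ade7adc86131 : CRef := CRef.mk (Pat.mk 0x800000018000000180000001800000000 0x40000000f0000003c0000001c0000001f00000007 7 6) 0 0 (step_sound _ 130 [(rh50fbb5868c909700.shift 2 1), rha0a1833ab06a3b66] (by decide +kernel))
noncomputable def rh868a6956ff14186e : CRef := CRef.mk (Pat.mk 0xc00000018000000180000000000000000 0xf0000003f0000001f0000000300000003 7 6) 0 0 (step_sound _ 129 [rh29c6f15395667f3f, (rhb739f4f82bb681b4.shift 0 3)] (by decide +kernel))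
noncomputable def rhc5e8d6a486b8fcf2 : CRef := CRef.mk (Pat.mk 0x100000001000000018 0x28000000380000003e000000ff0000003c0000001800000018 7 8) 0 0 (step_sound _ 100 [rh4d1041b6d5f8701f, (rh9a369cb82ea472da.shift 3 0), (rhb77bfac3e9efecea.shift 3 0), (rhc85cc95794737cf7.shift 3 0), (rhe62cab2ff5ad6fe2.shift 3 0)] (by decide +kernel))
noncomputable def rhc917fffa4099ea70 : CRef := CRef.mk (Pat.mk 0x2000000020000000300000010000000000000000000000000 0x50000000700000007000000030000000300000003000000030000001e000000070000000700000005 7 5) 0 0 (step_sound _ 97 [(rh1695fafd431c7bff.shift 0 1), rhc850b49d039efae1, (rhf8edb192cdea7ada.shift 0 2)] (by decide +kernel))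
noncomputable def rh86e9ecb1df8d2754 : CRef := CRef.mk (Pat.mk 0x60000000300000010000000000000000000000000 0x5000000070000000700000007000000030000001e000000060000000600000004 7 5) 0 0 (step_sound _ 97 [(rh000637b5a81e86aa.shift 0 1), rh4c145d583973abd2, (rhf7acaebcded2f86e.shift 0 2)] (by decide +kernel))
noncomputable def rhe58493e74fb45f9a : CRef := CRef.mk (Pat.mk 0x160000001300000010000000000000000000000000 0x50000000700000007000000160000001b0000001e0000000f0000000d0000000c 7 5) 0 0 (step_sound _ 97 [(rh215e11e099257d75.shift 1 2), rh35b3e8f23ae0e21b, rh4c145d583973abd2, (rhf7acaebcded2f86e.shift 0 2)] (by decide +kernel))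
noncomputable def rh9ee65a6ce2af22b3 : CRef := CRef.mk (Pat.mk 0x680000000c0000000000000000 0x140000001c0000001c0000003c0000003f0000006c0000000f0000007c00000010 7 7) 0 0 (step_sound _ 131 [(rh7a7e08304268422e.shift 2 1), (rh976a48eb1c80a12f.shift 2 1), rh9b8ae1499e18f4f6, (rhc784ae48e2c4ae7e.shift 0 1)] (by decide +kernel))
noncomputable def rha1f9695a79a6fefc : CRef := CRef.mk (Pat.mk 0x400000004c00000044000000040000000000000000 0x600000006000000460000006c0000007c0000003f0000002e0000002e 7 7) 0 0 (step_sound _ 162 [(rh8613c4d15736e5cc.shift 2 0), (rh8cdd36b03d57a2f6.shift 1 0), (rha2bd60385bd8b158.shift 1 0), (rha9774d3fe0d9106c.shift 0 1)] (by decide +kernel))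
noncomputable def rh47f1d36de527460c : CRef := CRef.mk (Pat.mk 0x80000000980000008b000000080000000000000000 0x10000000180000001c0000000c0000009c000000d8000000fb0000007e0000005400000040 7 8) 0 0 (step_sound _ 163 [(rh0c3873a75f5344d2.shift 0 1), (rh8613c4d15736e5cc.shift 3 0), (rhc30986a36c402b34.shift 2 2)] (by decide +kernel))
noncomputable def rhd2c22b2c5602a476 : CRef := CRef.mk (Pat.mk 0x40000000700000004000000000000000000000000 0x40000000400000004000000070000003e0000003e0000000e0000000e 7 6) 0 0 (step_sound _ 97 [(rh121397a93ef3afd3.shift 0 2), (rh1e309b005ffa1b36.shift 1 1), rhed4cbeae315c462a] (by decide +kernel))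
noncomputable def rh28a7e94e46a9563f : CRef := CRef.mk (Pat.mk 0x200000007000000020000000100000000000000000000000000000000 0x300000007000000060000000300000003000000070000000700000005 7 3) 0 0 (step_sound _ 129 [(rh932754581e0f4330.shift 0 3), rh96e69c52941aa1f0] (by decide +kernel))
noncomputable def rhe1a96e86e7860659 : CRef := CRef.mk (Pat.mk 0x1e000000020000000000000000 0x6000000070000001e0000003e0000000700000007 7 6) 0 0 (step_sound _ 129 [rh0cb245e2f9cdfb02, (rh3244c3cc8379b070.shift 0 3)] (by decide +kernel))
noncomputable def rh8b62aaa6fa573660 : CRef := CRef.mk (Pat.mk 0x30000001a00000001000000010 0xf000000fe000001be0000001000000010 7 9) 0 0 (step_sound _ 102 [rh4f376cda3e556c0e, (rhd6e447e81774439e.shift 4 2)] (by decide +kernel))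
noncomputable def rhf94e4c7c88e23353 : CRef := CRef.mk (Pat.mk 0x10000000d0000000180000001000000000 0x40000000f0000007f000000df000000180000001000000010 7 8) 0 0 (step_sound _ 131 [(rh50fbb5868c909700.shift 3 1), rh558945036cb7c9e7] (by decide +kernel))
noncomputable def rh67e4eb1d598b0fa6 : CRef := CRef.mk (Pat.mk 0x200000003000000030000000200000000000000000 0x64000000660000006e0000003f0000003e0000006f0000002800000020 7 7) 0 0 (step_sound _ 99 [(rh3918eeb6c53434d8.shift 0 2), (rh4fcd7886966ae5d1.shift 1 0), (rhbb7213d4724395ac.shift 1 1), (rhf56e6bc5d2f7fe77.shift 1 2)] (by decide +kernel))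
noncomputable def rh9d82877c1d98a066 : CRef := CRef.mk (Pat.mk 0x1a0000000300000002000000040000000000000000 0x1a0000001a0000001b0000001e0000001c0000001800000010 7 5) 0 0 (step_sound _ 98 [(rh2145e1d24b96a57e.shift 1 2), rh66bc4a5f9057bd80] (by decide +kernel))
noncomputable def rhda88202a27137cb5 : CRef := CRef.mk (Pat.mk 0x800000001a0000008300000002000000020000000000000000 0x800000028000000f80000001b000000f30000007a0000003b0000003b00000029 7 8) 0 0 (step_sound _ 100 [rh5192e84255fe3228, (rh7c9dc12249790b96.shift 3 0)] (by decide +kernel))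
noncomputable def rh1c56fb653dce29e2 : CRef := CRef.mk (Pat.mk 0x640000000c000000080000001c0000000000000000 0x60000000640000006f0000007b0000007f0000006200000040 7 7) 0 0 (step_sound _ 100 [(rh80aa5af20cbeb45b.shift 2 0), (rhbbad055adcf6b98d.shift 0 1), (rhf9d36e158778ce35.shift 1 2)] (by decide +kernel))
noncomputable def rh4cc86c46ceb158f4 : CRef := CRef.mk (Pat.mk 0x20000001a000000030000000200000000 0x8000000090000001f0000001a000000130000001e00000014 7 5) 0 0 (step_sound _ 128 [rh50dc3b8792928b74, (rh50fbb5868c909700.shift 0 1)] (by decide +kernel))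
noncomputable def rh8b6d14a23e992fe5 : CRef := CRef.mk (Pat.mk 0x20000001a000000030000000200000000 0x80000000c0000001f0000001a000000130000001e00000014 7 5) 0 0 (step_sound _ 34 [(rh55afc6a59410cf00.shift 1 0), rhd910009bc0757f07] (by decide +kernel))
noncomputable def rh3ff55aecb578fa09 : CRef := CRef.mk (Pat.mk 0x1a0000000200000012000000060000000000000000 0x80000001a0000001a000000120000003f0000003300000021 7 6) 0 0 (step_sound _ 32 [(rh79877ebd3ef475dd.shift 0 1), rhad63047958e54ba7] (by decide +kernel))
noncomputable def rh7cea752bf6f25b5a : CRef := CRef.mk (Pat.mk 0x20000000260000002400000004000000000000000000000000 0x20000000360000003e000000170000003e0000001e0000000a 7 6) 0 0 (step_sound _ 132 [(rh5419adcd928dba20.shift 1 4), rhdf7e09958d62cff9] (by decide +kernel))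
noncomputable def rh419cb66763634e10 : CRef := CRef.mk (Pat.mk 0x80000000c000000040000000000000000 0x2000000060000000e0000000c0000000f0000003e0000003e 7 6) 0 0 (step_sound _ 34 [rh5d5da412512b5c20, (rh71222050f2c63a3a.shift 2 0)] (by decide +kernel))
noncomputable def rhceb0514b630541ea : CRef := CRef.mk (Pat.mk 0x820000009800000088000000080000000000000000 0xc0000008f000000d8000000f8000000780000005000000040 7 8) 0 0 (step_sound _ 163 [(rh8613c4d15736e5cc.shift 3 0), (rh876344954e856662.shift 0 2)] (by decide +kernel))
noncomputable def rh5360f814a6806e21 : CRef := CRef.mk (Pat.mk 0x200000002600000022000000020000000200000000 0x30000000300000023000000360000003e0000001e0000001600000012 7 6) 0 0 (step_sound _ 98 [(rh71222050f2c63a3a.shift 1 0), rh7ba4f796140e476c] (by decide +kernel))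
noncomputable def rhf8bbce0dd61cd8f3 : CRef := CRef.mk (Pat.mk 0x830000009800000088000000080000000000000000 0x80000008f000000d8000000f8000000780000005000000040 7 8) 0 0 (step_sound _ 163 [(rh8613c4d15736e5cc.shift 3 0), (rhc10214bf3fe8094a.shift 0 4)] (by decide +kernel))
noncomputable def rhe412d34999dcf2bd : CRef := CRef.mk (Pat.mk 0x2000000320000000600000000000000000000000000000000 0x1d0000001f000000370000000600000007000000070000000700000005 7 6) 0 0 (step_sound _ 97 [(rh46baee19951a66e7.shift 0 1), (rh6eff4158bb400f47.shift 0 1), (rha8dab5843f085d4f.shift 0 2), (rhc4526fc8abf298b6.shift 0 1), rhc850b49d039efae1] (by decide +kernel))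
noncomputable def rh1d187b97af6ae007 : CRef := CRef.mk (Pat.mk 0x1000000018000000080000000000000000 0x40000000c0000001c000000180000007c000000ff0000003c 7 8) 0 0 (step_sound _ 35 [(rh71222050f2c63a3a.shift 3 0), rhb6c9e90117730448] (by decide +kernel))
noncomputable def rh5cadcf7d54a5df99 : CRef := CRef.mk (Pat.mk 0xc00000007000000040000000000000000 0xc0000000c000000070000001f0000003e0000000a 7 6) 0 0 (step_sound _ 34 [(rh2f68792b6b779e96.shift 2 1), rh5fe13ee34fb8fc7c] (by decide +kernel))
noncomputable def rh4bcda0d07de41309 : CRef := CRef.mk (Pat.mk 0x10000000d00000001800000010000000000000000000000000 0x90000000d8000000df000000ff000000cf0000000400000004 7 8) 0 0 (step_sound _ 99 [rh30a7dac7a448b85d, (rh932754581e0f4330.shift 3 2)] (by decide +kernel))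
noncomputable def rh3abb2537a6c558d8 : CRef := CRef.mk (Pat.mk 0x8000000080000000c00000008000000000000000000000000 0x80000000c0000000c0000000c0000001f0000007c00000010 7 7) 0 0 (step_sound _ 66 [rh0862652dfa775836, (rh79877ebd3ef475dd.shift 2 2)] (by decide +kernel))
noncomputable def rh044a741e43855ed0 : CRef := CRef.mk (Pat.mk 0x1a0000001e000000000000000000000000 0xc0000000e0000001f0000001a0000001e0000000c0000000c0000000c 7 5) 0 0 (step_sound _ 163 [(rh37d9ceebb86d75d1.shift 2 2), rh79fb81afd37333ad, (rhb3e5613249985042.shift 2 0), (rhf7c77fe48087fd5b.shift 2 0)] (by decide +kernel))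
noncomputable def rhf2938fc44764622c : CRef := CRef.mk (Pat.mk 0x200000002600000036000000000000000000000000 0x3000000030000002300000036000000360000001f0000001700000013 7 6) 0 0 (step_sound _ 161 [(rh55a1f6c57a317ce6.shift 1 1), rh63840dbdb4d13278, rhb3e5613249985042] (by decide +kernel))
noncomputable def rhe1608dd3aece003a : CRef := CRef.mk (Pat.mk 0x1a0000000a00000008000000000000000000000000 0x80000001a0000000f0000007c0000001f0000001400000010 7 7) 0 0 (step_sound _ 130 [(rh53b3c253cb0c65f4.shift 0 4), rhc3487f4e6044d8e1] (by decide +kernel))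
noncomputable def rh38895f1f2aca191c : CRef := CRef.mk (Pat.mk 0x80000001a0000000a00000008 0x100000003000000070000001f0000001b0000000b00000009 7 5) 0 0 (step_sound _ 98 [(rh50fbb5868c909700.shift 2 0), rhaa6851079b78433b] (by decide +kernel))
noncomputable def rh81b758912cbd6f6c : CRef := CRef.mk (Pat.mk 0x180000000a0000000800000000000000000000000000000000 0x10000000180000000f0000000c0000000c0000001c0000001c00000010 7 5) 0 0 (step_sound _ 162 [(rh2222a27c490588f5.shift 2 0), (rh53b3c253cb0c65f4.shift 0 5)] (by decide +kernel))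
noncomputable def rh5f4b63e4efe1b82d : CRef := CRef.mk (Pat.mk 0x800000001a00000018000000100000000000000000 0x2c000000ff0000001b000000180000001c0000000c0000000c 7 8) 0 0 (step_sound _ 163 [(rh2145e1d24b96a57e.shift 3 2), rhb0e31650bf9fdb19] (by decide +kernel))
noncomputable def rhb8b28e74105c53a5 : CRef := CRef.mk (Pat.mk 0x10000000130000001200000000000000000000000000000000 0x1000000050000001f0000001b0000001e0000000f0000000f0000000f00000005 7 5) 0 0 (step_sound _ 131 [(rh5419adcd928dba20.shift 0 4), rhcf9c32b1a248df2d] (by decide +kernel))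
noncomputable def rh9a11b3e6d65b5856 : CRef := CRef.mk (Pat.mk 0x200000002600000022000000020000000000000000 0x30000000300000023000000360000003e0000001f0000001700000017 7 6) 0 0 (step_sound _ 161 [rh31a24a1e778daf29, (rh8613c4d15736e5cc.shift 1 0), rh8cdd36b03d57a2f6, rha11eac2590da9e04] (by decide +kernel))
noncomputable def rhc7b5bff7dc022b05 : CRef := CRef.mk (Pat.mk 0x400000000c0000000900000000000000000000000000000000 0x4000000140000007c0000000c0000000f0000001e0000001c0000001c00000014 7 7) 0 0 (step_sound _ 99 [(rh56259dd1390eee46.shift 2 0), (rh827ca88e9d7776ba.shift 2 1), (rh85788be75b83f6c1.shift 2 0), (rhb1a251d9bff81766.shift 2 2), (rhcff43d2ab56ffd42.shift 0 2)] (by decide +kernel))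
noncomputable def rh4abf2c972b67871c : CRef := CRef.mk (Pat.mk 0xe000000120 0x1f000000fe000001ef 7 9) 0 0 (step_sound _ 36 [(rh96851dee118c1ba3.shift 4 0), rhad247eb3373f4ddc] (by decide +kernel))
noncomputable def rhda62dcb2624bce2a : CRef := CRef.mk (Pat.mk 0x100000000e000000020 0x19f000000fe0000006f 7 9) 0 0 (step_sound _ 36 [(rh428265de8cd3cd2d.shift 4 1), rhad247eb3373f4ddc] (by decide +kernel))
noncomputable def rh8f5a0debc14c64f6 : CRef := CRef.mk (Pat.mk 0x1a0000008a000000000000000000000000 0x8000000080000001b000000ff0000000e0000000400000004 7 8) 0 0 (step_sound _ 98 [(rh53b3c253cb0c65f4.shift 0 3), rhf90da4d5e8be4e0d] (by decide +kernel))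
noncomputable def rh34d9b17979bf3570 : CRef := CRef.mk (Pat.mk 0x80000000980000008a000000080000000000000000 0xc0000000c0000008c000000d8000000fb0000007f0000005c0000005c 7 8) 0 0 (step_sound _ 163 [(rh8613c4d15736e5cc.shift 3 0), (rh8cdd36b03d57a2f6.shift 2 0), (rha2bd60385bd8b158.shift 2 0), (rhfa24987f9e3722ea.shift 0 1)] (by decide +kernel))
noncomputable def rh0702e15526b8e14a : CRef := CRef.mk (Pat.mk 0x80000000980000009a000000180000000000000000 0x80000000d8000000fb0000005f000000f000000070 7 8) 0 0 (step_sound _ 66 [(rh5c36e97be8af272f.shift 0 2), (rhd2139603ddb76634.shift 2 0)] (by decide +kernel))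
noncomputable def rh5fd9ac163700c35e : CRef := CRef.mk (Pat.mk 0x6000000020000000600000000 0x40000000600000007000000030000000700000006000000060000000600000004 7 3) 0 0 (step_sound _ 129 [(rh55afc6a59410cf00.shift 1 0), (rhc30986a36c402b34.shift 0 1)] (by decide +kernel))
noncomputable def rh2ff36503bf7ba977 : CRef := CRef.mk (Pat.mk 0x180000001e000000000000000000000000 0x180000001e0000003f0000003c00000038 7 6) 0 0 (step_sound _ 65 [(rh6bf252b59e461970.shift 1 0), (rheb0810cc63b001d8.shift 0 2)] (by decide +kernel))
noncomputable def rh5c051fca65e92d72 : CRef := CRef.mk (Pat.mk 0x8800000098000000d8000000000000000000000000 0x88000000d8000000d80000007c0000005f0000004c 7 8) 0 0 (step_sound _ 68 [rh4f374e984f0b8821, (rh7b1f1fb55310c477.shift 3 1)] (by decide +kernel))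
noncomputable def rh0a7efba8c3b9bf77 : CRef := CRef.mk (Pat.mk 0x400000000c0000004900000000000000000000000000000000 0x4000000140000007c0000000c0000007b0000001f0000001c0000001c00000014 7 7) 0 0 (step_sound _ 132 [(rh2fe78cc5ca4405d8.shift 2 4), rh76f52380d0bc24e4] (by decide +kernel))
noncomputable def rhb039e3d6d37dd2fa : CRef := CRef.mk (Pat.mk 0xc0000001c000000000000000000000000 0x4000000040000000c0000000c0000001c0000000f0000003e0000001c 7 6) 0 0 (step_sound _ 67 [(rh3cb04db3dd2b6a55.shift 2 0), rh5fb31cced3e2e440, rh67e2e356dd8d269d, (rhb1a251d9bff81766.shift 2 1)] (by decide +kernel))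
noncomputable def rh08055883e3ab9384 : CRef := CRef.mk (Pat.mk 0x8000000080000001c0000000800000000 0x40000000c0000000c0000001c0000007f00000017 7 7) 0 0 (step_sound _ 34 [rh4e731fe7f46f063c, (rh932754581e0f4330.shift 2 0)] (by decide +kernel))
noncomputable def rh226ecfbce22d1a50 : CRef := CRef.mk (Pat.mk 0x80000000c000000000000000000000000 0x140000001c0000003c0000000f0000000c0000000f0000003c0000001c00000014 7 6) 0 0 (step_sound _ 163 [rh140530bf49e2635c, (rh281c6819542c66e6.shift 2 0), (rh68a777751bfeafdf.shift 2 2), (rhc543f3ca5b322b2c.shift 0 2)] (by decide +kernel))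
noncomputable def rh448d7a0e044e6315 : CRef := CRef.mk (Pat.mk 0x1a0000001e000000120000001000000000 0x4000000040000001e0000001e0000001a0000003f0000002f 7 6) 0 0 (step_sound _ 35 [rh049f1be540f6d415, (rh932754581e0f4330.shift 3 0)] (by decide +kernel))
noncomputable def rh511dc1b406b90eda : CRef := CRef.mk (Pat.mk 0x20000001a0000000200000000000000000000000000000000 0x50000000700000007000000060000003f0000001b0000000300000007000000070000000700000005 7 6) 0 0 (step_sound _ 225 [(rh193da7fc9e1674f1.shift 0 3), (rh3b734c5288922837.shift 0 3), rh8346a7f7bb2c6228, (rh95311890f436bcdc.shift 0 1), (rhcf95ed618a683c78.shift 0 3)] (by decide +kernel))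
noncomputable def rh8f9531e0aab507df : CRef := CRef.mk (Pat.mk 0x4000000340000002400000000 0xa0000000e0000001e0000001f0000003e000000360000002600000002 7 6) 0 0 (step_sound _ 130 [(rh1741680720c097b4.shift 1 1), (rh193da7fc9e1674f1.shift 1 0), (rh3b734c5288922837.shift 1 0), (rh771d065bdc85bf2d.shift 1 0), rhf1e6e4f24c964f4d] (by decide +kernel))
noncomputable def rh76e127f4c0d66448 : CRef := CRef.mk (Pat.mk 0x100000003400000004000000000000000000000000 0xa0000000e0000000f0000001e00000036000000060000000e0000000e0000000a 7 6) 0 0 (step_sound _ 162 [(rh552e145dd80c3aa0.shift 0 2), (rh6dbfa710a30f272c.shift 1 0), (rhaf7955adbc1f7ff4.shift 1 0), (rhbe5703805fd7fa8f.shift 1 2), (rhe7744232a23032a1.shift 1 1)] (by decide +kernel))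
noncomputable def rh16c856bb124915bd : CRef := CRef.mk (Pat.mk 0x2000000006000000340000001000000000000000000000000000000000 0x80000003c00000006000000360000001e0000000f0000000e0000000e0000000a 7 6) 0 0 (step_sound _ 130 [(rh3808b57c450de6fc.shift 1 3), (rhb8a270321a453828.shift 1 1), rhc9bb7f1c7c5b38d7, rhd6dfa91156a57f59, (rhfa6702f91f12be96.shift 1 3)] (by decide +kernel))
noncomputable def rhba5c741e4ff05aa5 : CRef := CRef.mk (Pat.mk 0x10000000130000001a00000000000000000000000000000000 0x1000000050000001f0000001b0000001a0000000f0000000f0000000f00000005 7 5) 0 0 (step_sound _ 99 [rhf03fdbb9c2d91097, (rhf9af042da61fc652.shift 3 1)] (by decide +kernel))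
noncomputable def rh0d05d10d42a28a04 : CRef := CRef.mk (Pat.mk 0x1c00000008000000080000000800000000 0x30000003f0000003f0000000c0000001c00000014 7 6) 0 0 (step_sound _ 34 [(rh932754581e0f4330.shift 2 0), rh9733564398b9b32f] (by decide +kernel))
noncomputable def rh555dfc9ed9b046a9 : CRef := CRef.mk (Pat.mk 0x1a00000002000000000000000000000000 0x600000006000000070000001e00000007000000070000000700000005 7 5) 0 0 (step_sound _ 130 [rh4b2e091729371a05, (rheb0810cc63b001d8.shift 0 3)] (by decide +kernel))
noncomputable def rhd54738fdf67f5811 : CRef := CRef.mk (Pat.mk 0x400000004c00000047000000040000000000000000 0x80000000c0000000e000000060000004e0000006e0000007f0000003c0000002800000020 7 7) 0 0 (step_sound _ 162 [(rh5abfc4c9d959be03.shift 1 1), (rh8613c4d15736e5cc.shift 2 0), (rh97ad1986540fd573.shift 1 2), (rhc30986a36c402b34.shift 1 2), (rhd9397e4126e81439.shift 0 1)] (by decide +kernel))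
noncomputable def rh5700fcd3e497af08 : CRef := CRef.mk (Pat.mk 0xc00000007000000030000000200000000 0x20000000a0000000e0000001f000000070000001f0000000d 7 5) 0 0 (step_sound _ 99 [(rh18965a982d73c794.shift 0 2), rh481350de478e8d00] (by decide +kernel))
noncomputable def rh5ecb91b4cc5c6c51 : CRef := CRef.mk (Pat.mk 0x2000000060000000380000001800000000 0x1f0000007c00000070000000380000003e00000068 7 7) 0 0 (step_sound _ 34 [(rh53b3c253cb0c65f4.shift 1 1), rhc60a0557d50c56bd] (by decide +kernel))
noncomputable def rh318ff19065bc7699 : CRef := CRef.mk (Pat.mk 0xc0000001e000000020000000000000000 0x80000000c0000001e0000003a0000001f0000001e 7 6) 0 0 (step_sound _ 33 [rh271d1d4e89b457aa, (rh71222050f2c63a3a.shift 1 0)] (by decide +kernel))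
noncomputable def rhf57f425499ea508d : CRef := CRef.mk (Pat.mk 0xc0000000700000002000000000000000000000000 0x60000000e0000000e000000070000001e0000000c0000000c0000000c 7 5) 0 0 (step_sound _ 194 [(rh5c5e593799055d58.shift 1 3), rh61bd16c918fa80c9] (by decide +kernel))
noncomputable def rh569044fbbbdf922b : CRef := CRef.mk (Pat.mk 0x180000000e00000004000000040000000000000000 0x600000006000000160000001c0000000e0000003f0000007e0000001a00000008 7 7) 0 0 (step_sound _ 67 [rh0ac8273b3ea62a46, (rh5a7dce561d0bf78d.shift 2 1), (rh7ad1c933821e6e1f.shift 1 1), (rhade1ea1e06278213.shift 0 1)] (by decide +kernel))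
noncomputable def rhaccdba7baad01112 : CRef := CRef.mk (Pat.mk 0x80000000180000009a000000000000000000000000 0x20000000f800000018000000fe000000370000003000000030 7 8) 0 0 (step_sound _ 101 [(rh2fe78cc5ca4405d8.shift 3 3), rh79db54c268929602] (by decide +kernel))
noncomputable def rh261621c8b72adfe9 : CRef := CRef.mk (Pat.mk 0x1800000098000000000000000000000000 0xc0000000c0000001c00000018000000fc0000000f0000000c00000008 7 8) 0 0 (step_sound _ 101 [(rh2fe78cc5ca4405d8.shift 3 3), rh76046804b1f297d0] (by decide +kernel))
noncomputable def rhf351c68a885f5397 : CRef := CRef.mk (Pat.mk 0xc0000000c000000080000000000000000 0xc0000000c0000003f0000003f0000001e 7 6) 0 0 (step_sound _ 35 [rh75c57c81660d74fc, (rh7b1f1fb55310c477.shift 2 0)] (by decide +kernel))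
noncomputable def rh9532a413c3e2da9d : CRef := CRef.mk (Pat.mk 0x88000000180000001c000000000000000000000000 0x20000000f8000000180000001c0000007c0000003f0000000c 7 8) 0 0 (step_sound _ 68 [(rh7b1f1fb55310c477.shift 3 1), rhe7f98dc58576bb41] (by decide +kernel))
noncomputable def rh4a551ad45d81d4f8 : CRef := CRef.mk (Pat.mk 0xa0000001a00000012000000000000000000000000 0xc0000000e0000000e0000001a0000001a000000070000000700000005 7 5) 0 0 (step_sound _ 195 [(rh2145e1d24b96a57e.shift 3 3), rhfd23c58942077369] (by decide +kernel))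
noncomputable def rh6d1f1083a416b747 : CRef := CRef.mk (Pat.mk 0x100000001a00000012000000100000000000000000 0xa0000001f0000001b0000001e000000360000002400000004 7 6) 0 0 (step_sound _ 163 [(rh50fbb5868c909700.shift 3 2), rh998d2ca6dcb05b03] (by decide +kernel))
noncomputable def rhabf581a777247a2c : CRef := CRef.mk (Pat.mk 0x100000000300000006000000020000000000000000000000000000000000000000 0x40000001e0000000300000007000000060000000600000007000000070000000700000005 7 5) 0 0 (step_sound _ 129 [(rh09234555bd5e60c4.shift 0 3), (rhbba7d23481996066.shift 0 1), rhd44c5255a25eff97] (by decide +kernel))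
noncomputable def rhecdcb4e5163846a9 : CRef := CRef.mk (Pat.mk 0x1e0000001a000000000000000000000000 0x400000004000000060000000f0000001e0000001a0000000f0000000f00000005 7 5) 0 0 (step_sound _ 161 [(rh3244c3cc8379b070.shift 0 4), rhd5d1ae909a3b519c] (by decide +kernel))
noncomputable def rh3d94dccd8eacba00 : CRef := CRef.mk (Pat.mk 0x3400000024000000000000000000000000 0xc0000000c0000007f0000003e0000003c0000000e0000000e0000000a 7 7) 0 0 (step_sound _ 131 [(rh4b2e091729371a05.shift 1 0), (rh4c622fddc53a5f99.shift 0 4), (rha4e794e69630f173.shift 1 3)] (by decide +kernel))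
noncomputable def rhd7d36e40438b8935 : CRef := CRef.mk (Pat.mk 0x2000000120000000200000002000000000000000000000000 0x1000000030000001e0000000600000003000000070000000700000004 7 5) 0 0 (step_sound _ 192 [rh3b7aca60d2453a5e, (rh50fbb5868c909700.shift 0 3)] (by decide +kernel))
noncomputable def rh1d8291d07025a130 : CRef := CRef.mk (Pat.mk 0x1a00000012000000020000000200000000 0xc0000000c0000001d0000001b0000001e0000000f0000000e00000008 7 5) 0 0 (step_sound _ 99 [rh23516dd37aa1909b, (rh5e05da03898e7023.shift 0 1)] (by decide +kernel))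
noncomputable def rhd4125b666a9113f5 : CRef := CRef.mk (Pat.mk 0x1a000000120000000200000000 0x500000007000000070000000f0000001a0000001e0000000f00000005 7 5) 0 0 (step_sound _ 129 [(rh2f7aebebd7d680c3.shift 0 1), rha087c6594f4bfb59, (rhced6d86d2069808b.shift 1 0), rhdb57bcbe4a84bd4b] (by decide +kernel))
noncomputable def rh1f810e2126be2e45 : CRef := CRef.mk (Pat.mk 0x4000000020000000200000002000000020000000000000000 0x10000000700000007000000020000000200000002000000070000000700000005 7 3) 0 0 (step_sound _ 193 [rh201eba6008f46d7e, (rh2f68792b6b779e96.shift 1 3)] (by decide +kernel))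
noncomputable def rhfaf60435e51d3754 : CRef := CRef.mk (Pat.mk 0x1a00000002000000020000000000000000 0x500000007000000070000000f0000001b00000006000000060000000600000004 7 5) 0 0 (step_sound _ 161 [(rh2f7aebebd7d680c3.shift 0 2), rh8ff3dde5b1c639e0, (rha087c6594f4bfb59.shift 0 1), (rhced6d86d2069808b.shift 1 1)] (by decide +kernel))
noncomputable def rhe962b29739cbe41c : CRef := CRef.mk (Pat.mk 0x8000000080000001800000012000000000000000000000000 0x40000000c0000001e0000001f0000001e0000000f0000000c0000000c 7 5) 0 0 (step_sound _ 99 [(rh544fd3f279a4d968.shift 2 0), (rh7b18f3f209f14cd6.shift 2 0), (rha9a9dd876407ae9a.shift 2 0), (rhd2f0a6b2fd9c671a.shift 0 2)] (by decide +kernel))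
noncomputable def rh2e8c19877a32b1f7 : CRef := CRef.mk (Pat.mk 0x1a0000001e000000000000000000000000 0x80000000e0000001f0000001a0000001e0000001c0000001c00000008 7 5) 0 0 (step_sound _ 163 [(rh37d9ceebb86d75d1.shift 2 2), rha95c4cab8259f6d6, (rhc2c7bae8f445c890.shift 3 1)] (by decide +kernel))
noncomputable def rhf6a38ebe2a7c2baa : CRef := CRef.mk (Pat.mk 0x8000000180000001e00000000000000000000000000000000 0x60000001f0000001b0000001e0000000c0000001c0000001c00000014 7 5) 0 0 (step_sound _ 161 [(rh3244c3cc8379b070.shift 0 4), rh5fce075ec5093e13] (by decide +kernel))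
noncomputable def rhabb020b45818ef2f : CRef := CRef.mk (Pat.mk 0x180000001e000000100000000000000000 0xb0000001f0000001b0000001e0000001f0000000c0000000c 7 5) 0 0 (step_sound _ 163 [(rh2145e1d24b96a57e.shift 3 2), rh62afa7ee1e580440] (by decide +kernel))
noncomputable def rh70095558d639ccfa : CRef := CRef.mk (Pat.mk 0x8000000180000008e000000040000000000000000 0x30000001f0000001b000000fe000000070000000700000005 7 8) 0 0 (step_sound _ 129 [(rh307639ad70b4c542.shift 0 2), rh7c7cfc2336397a60, (rhc38f566cab2818e5.shift 1 0), rhda1ad26c7481a7b4] (by decide +kernel))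
noncomputable def rh2f86f1e520a73467 : CRef := CRef.mk (Pat.mk 0x30000000140000000c000000080000000000000000 0x2400000034000000140000001f0000007f0000002200000002 7 7) 0 0 (step_sound _ 68 [(rh2853455034e02106.shift 2 1), rhbd0661dbbdc968c1, (rhdeca8db941583de2.shift 0 2)] (by decide +kernel))
noncomputable def rhfa644eb94c8714bb : CRef := CRef.mk (Pat.mk 0x8000000180000009e000000040000000000000000 0x60000001f0000001b000000fe0000000c0000000800000008 7 8) 0 0 (step_sound _ 101 [(rh2fe78cc5ca4405d8.shift 3 3), rha6cb224376ae8b6f] (by decide +kernel))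
noncomputable def rh852d45ce63e2bcf5 : CRef := CRef.mk (Pat.mk 0x180000001e000000000000000000000000 0xe0000000f0000001b0000001e0000000f0000000400000004 7 5) 0 0 (step_sound _ 65 [rha8b850d4880c032d, (rheb0810cc63b001d8.shift 0 2)] (by decide +kernel))
noncomputable def rh597873b64e6f6d89 : CRef := CRef.mk (Pat.mk 0x180000001e00000000 0xb0000000f0000001b0000003e00000007 7 6) 0 0 (step_sound _ 1 [rh3b297bacc1df5b7e, rheb0810cc63b001d8] (by decide +kernel))
noncomputable def rh400d7d7e93dd299d : CRef := CRef.mk (Pat.mk 0x1000000030000000140000001800000000 0x80000001e00000034000000160000003e00000027 7 6) 0 0 (step_sound _ 37 [(rh55afc6a59410cf00.shift 4 0), rha387558d73ddee7e] (by decide +kernel))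
noncomputable def rh084262b1c43d6016 : CRef := CRef.mk (Pat.mk 0x22000000260000002200000000000000000000000000000000 0x200000026000000360000003e0000001e000000170000001700000005 7 6) 0 0 (step_sound _ 97 [rh1b9022be4f7af407, rh274a837cd7eaa569, (rh3820f35d5e705bec.shift 1 0), (rh8613c4d15736e5cc.shift 1 1)] (by decide +kernel))
noncomputable def rh09d7d475b1a06021 : CRef := CRef.mk (Pat.mk 0x8000000180000009e00000000 0xc0000000c0000000f0000001b000000fe0000000a 7 8) 0 0 (step_sound _ 37 [(rh2fe78cc5ca4405d8.shift 3 1), rh54204b8f3766698a] (by decide +kernel))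
noncomputable def rh20cd015da527ac81 : CRef := CRef.mk (Pat.mk 0x800000008000000080000001e00000000 0x50000000f0000001f0000000b0000001e00000003 7 5) 0 0 (step_sound _ 130 [rh0980dd66f9b90b69, (rh50fbb5868c909700.shift 2 1)] (by decide +kernel))
noncomputable def rhdfa2794131594932 : CRef := CRef.mk (Pat.mk 0x120000003000000006000000000000000000000000 0x500000007000000070000001f0000003300000007000000070000000700000005 7 6) 0 0 (step_sound _ 129 [(rh14e0829dc73b6804.shift 0 2), rhaf7955adbc1f7ff4, rhe51eccc88ff67898, rhed94654d85b00a8c] (by decide +kernel))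
noncomputable def rh13fd9e8f08c02c3d : CRef := CRef.mk (Pat.mk 0x9000000180000000800000000000000000000000000000000 0x40000001f0000001800000008000000080000001c0000001c00000014 7 5) 0 0 (step_sound _ 194 [(rhab22b5b56e7b3243.shift 0 5), (rhc09d0d2956dbf536.shift 2 0)] (by decide +kernel))
noncomputable def rh5b70a91ba3c0e5f0 : CRef := CRef.mk (Pat.mk 0x200000002000000060000000200000000000000000000000000000000 0x10000000300000006000000060000000600000006000000070000000700000005 7 3) 0 0 (step_sound _ 256 [rhdeaf3e72edc594f6, (rhffd04209dc8ea796.shift 0 4)] (by decide +kernel))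
noncomputable def rh0c3353d496b9b9cc : CRef := CRef.mk (Pat.mk 0x40000000c00000047000000000000000000000000 0x6000000060000000e0000000c0000007f0000003c0000000c00000004 7 7) 0 0 (step_sound _ 99 [(rh9c074fdba4c4eae4.shift 1 0), (rhb8546cc3e1ee40c7.shift 0 2), (rhc2c7bae8f445c890.shift 2 1)] (by decide +kernel))
noncomputable def rhca4267ad9e97cd8f : CRef := CRef.mk (Pat.mk 0x1a00000003000000000000000000000000 0x70000000f0000001a0000000f000000070000000700000005 7 5) 0 0 (step_sound _ 98 [(rh3fc040e777f1679e.shift 0 3), rh7e1ad8cc199b7a39] (by decide +kernel))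
noncomputable def rh47e9644bea98ad22 : CRef := CRef.mk (Pat.mk 0xc000000680000000000000000000000000000000000000000 0x100000007c0000000f0000006c0000003f0000003c0000001c0000001c00000014 7 7) 0 0 (step_sound _ 131 [(rh01483ff9cba2f6ac.shift 2 1), rh777dd4b4667f225f, (rhd1779d7de7f8215b.shift 2 1), (rhd927a438369e6c24.shift 0 3)] (by decide +kernel))
noncomputable def rhb7abd424ee9a5622 : CRef := CRef.mk (Pat.mk 0x4000000440000004c000000400000000000000000 0x2e0000002e0000003f0000007c0000006c000000460000000600000006 7 7) 0 0 (step_sound _ 66 [(rh52d0d964087343a6.shift 1 0), (rh5e316f32a5df4ca6.shift 0 1), (rhb781b7d4512f8b10.shift 2 1), (rhc85cc95794737cf7.shift 1 2)] (by decide +kernel))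
noncomputable def rhd39acf815273c3d0 : CRef := CRef.mk (Pat.mk 0x80000008b000000980000008000000000000000000000000000000000 0x40000000540000007e000000fb000000d80000009c0000000c0000001c0000001800000010 7 8) 0 0 (step_sound _ 131 [(rh8c6a35ea2bc2943b.shift 2 0), (rha78afc937ca94db4.shift 0 4), (rhb781b7d4512f8b10.shift 3 3)] (by decide +kernel))
noncomputable def rh9dd7fdfa5dafbf88 : CRef := CRef.mk (Pat.mk 0x400000007000000040000000000000000 0xe0000000e0000003e0000003e00000007000000040000000400000004 7 6) 0 0 (step_sound _ 129 [rh4e448da1f2ebc7c7, (rh84650794c4a98b20.shift 0 2), (rhfc7c29d8e65d775f.shift 1 1)] (by decide +kernel))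
noncomputable def rha7bbd8539b0a643c : CRef := CRef.mk (Pat.mk 0x1000000020000000700000002 0x500000007000000070000000300000003000000060000000700000003 7 3) 0 0 (step_sound _ 97 [rh50fbb5868c909700, rh6f7a4f8f6bfef3bf] (by decide +kernel))
noncomputable def rhe018a4f808783a24 : CRef := CRef.mk (Pat.mk 0x20000001e0000000000000000 0x7000000070000003e0000001e0000000700000006 7 6) 0 0 (step_sound _ 33 [rhd298fb5ac315c742, (rheb0810cc63b001d8.shift 0 1)] (by decide +kernel))
noncomputable def rh426ba0b2b4907369 : CRef := CRef.mk (Pat.mk 0x1000000010000001a00000003000000000 0x1000000010000001be000000fe0000000f 7 9) 0 0 (step_sound _ 38 [(rh3fc040e777f1679e.shift 4 1), rh941d1b589138751e] (by decide +kernel))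
noncomputable def rh499b5546f16682a4 : CRef := CRef.mk (Pat.mk 0x1000000018000000d0000000100000000000000000 0x100000001000000018000000df0000007f0000000f00000004 7 8) 0 0 (step_sound _ 67 [rh3a97b194835b81db, (rh932754581e0f4330.shift 3 1)] (by decide +kernel))
noncomputable def rh8dee1cc0a075b338 : CRef := CRef.mk (Pat.mk 0x200000003000000030000000200000000000000000 0x20000000280000006f0000003e0000003f0000006e0000006600000064 7 7) 0 0 (step_sound _ 131 [(rh34517e326ddb5b25.shift 1 3), (rh3b0ee9e32b5d689f.shift 1 0), (rha4e887c2a2a0f60b.shift 0 3), (rhcd4d16d28964fbaf.shift 1 1)] (by decide +kernel))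
noncomputable def rh01a2ac1e5b6d14ba : CRef := CRef.mk (Pat.mk 0x400000002000000030000001a00000000 0x10000000180000001c0000001e0000001b0000001a0000001a 7 5) 0 0 (step_sound _ 98 [(rh71222050f2c63a3a.shift 1 0), rh79e618d7c9f70fdf] (by decide +kernel))
noncomputable def rh083c4fbc294a24b8 : CRef := CRef.mk (Pat.mk 0x200000002000000830000001a000000800000000000000000 0x290000003b0000003b0000007a000000f30000001b000000f80000002800000008 7 8) 0 0 (step_sound _ 164 [(rha77f215723363df0.shift 0 3), (rhe2f17fec58496afd.shift 3 0)] (by decide +kernel))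
noncomputable def rh3f2a10a93cd5915c : CRef := CRef.mk (Pat.mk 0x1c000000080000000c0000006400000000 0x40000000620000007f0000007b0000006f0000006400000060 7 7) 0 0 (step_sound _ 100 [(rh6292bd8784ece55f.shift 1 3), (rh8ca955f0ffacb567.shift 0 1), (rhdf7605f66559cd8d.shift 2 0)] (by decide +kernel))
noncomputable def rhd5389eb6d0e281f1 : CRef := CRef.mk (Pat.mk 0x2000000030000001a000000020000000000000000 0x140000001e000000130000001a0000001f0000000900000008 7 5) 0 0 (step_sound _ 64 [(rh932754581e0f4330.shift 0 1), rha726b0047bc52e5b] (by decide +kernel))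
noncomputable def rh1cd233c4744b3638 : CRef := CRef.mk (Pat.mk 0x2000000030000001a000000020000000000000000 0x140000001e000000130000001a0000001f0000000c00000008 7 5) 0 0 (step_sound _ 162 [(rh2f68792b6b779e96.shift 1 2), rhaa9ed1f93c8abb1d] (by decide +kernel))
noncomputable def rh56aef22155a77151 : CRef := CRef.mk (Pat.mk 0x600000012000000020000001a00000000 0x21000000330000003f000000120000001a0000001a00000008 7 6) 0 0 (step_sound _ 160 [rh3847b328c7136588, (rhffd04209dc8ea796.shift 0 1)] (by decide +kernel))
noncomputable def rh3c5806cf8b1fa8a5 : CRef := CRef.mk (Pat.mk 0x4000000240000002600000020 0xa0000001e0000003e000000170000003e0000003600000020 7 6) 0 0 (step_sound _ 68 [rh2b6eea9ed34d6f16, (rhb2a0b9ccfb5cecd5.shift 1 1)] (by decide +kernel))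
noncomputable def rh12308c6a50d19d02 : CRef := CRef.mk (Pat.mk 0x40000000c000000080000000000000000 0x3e0000003e0000000f0000000c0000000e0000000600000002 7 6) 0 0 (step_sound _ 162 [(rh2145e1d24b96a57e.shift 2 2), rh8c3dfb2c06c83e7f] (by decide +kernel))
noncomputable def rhc02306f4dfb3f737 : CRef := CRef.mk (Pat.mk 0x800000088000000980000008200000000 0x400000005000000078000000f8000000d80000008f0000000c 7 8) 0 0 (step_sound _ 35 [rh3cf2764919f34f47, (rhb781b7d4512f8b10.shift 3 0)] (by decide +kernel))
noncomputable def rhb58ac158d9215e49 : CRef := CRef.mk (Pat.mk 0x2000000020000002200000026000000200000000000000000 0x12000000160000001e0000003e00000036000000230000000300000003 7 6) 0 0 (step_sound _ 130 [(rh2145e1d24b96a57e.shift 1 3), rh766e58797038ea86] (by decide +kernel))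
noncomputable def rh1eebb1f05e73cdbf : CRef := CRef.mk (Pat.mk 0x3000000010000000100000001000000000 0xf0000003e00000077000000100000001000000010 7 7) 0 0 (step_sound _ 101 [(rh71222050f2c63a3a.shift 4 0), (rhe4a6641c5223c44d.shift 0 1)] (by decide +kernel))
noncomputable def rheebce950f25443cb : CRef := CRef.mk (Pat.mk 0x800000088000000980000008300000000 0x400000005000000078000000f8000000d80000008f00000008 7 8) 0 0 (step_sound _ 35 [(rh1c62b6193297d9e3.shift 0 1), (rhb781b7d4512f8b10.shift 3 0)] (by decide +kernel))
noncomputable def rh9cf464eb73f7ae11 : CRef := CRef.mk (Pat.mk 0x200000002000000060000000200000000000000000000000000000000 0x40000000600000006000000060000000600000003000000070000000700000004 7 3) 0 0 (step_sound _ 226 [(rh2f68792b6b779e96.shift 1 4), rhadf1fabc6fd6cde1] (by decide +kernel))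
noncomputable def rh69fbd87dbd051716 : CRef := CRef.mk (Pat.mk 0x6000000320000000200000000 0x500000007000000070000000700000006000000370000001f0000001d 7 6) 0 0 (step_sound _ 129 [(rh1741680720c097b4.shift 0 1), rh193da7fc9e1674f1, rh3b734c5288922837, rh771d065bdc85bf2d, rh8f5b4007d3d3476f] (by decide +kernel))
noncomputable def rh329e621625bc6172 : CRef := CRef.mk (Pat.mk 0x800000018000000100000000000000000 0x3c000000ff0000007c000000180000001c0000000c00000004 7 8) 0 0 (step_sound _ 163 [(rh2145e1d24b96a57e.shift 3 2), rhcdc0e4c2d2002139] (by decide +kernel))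
noncomputable def rhdd6f43d9d85c24ef : CRef := CRef.mk (Pat.mk 0x4000000070000000c00000000 0xa0000003e0000001f000000070000000c0000000c 7 6) 0 0 (step_sound _ 130 [rh1f9ff3f8f341816d, (rh55afc6a59410cf00.shift 2 0)] (by decide +kernel))
noncomputable def rh7b7b3be4c844f0db : CRef := CRef.mk (Pat.mk 0x1000000018000000d000000010 0x400000004000000cf000000ff000000df000000d800000090 7 8) 0 0 (step_sound _ 99 [(rh50fbb5868c909700.shift 3 0), rh8ac9fd4904437e8c] (by decide +kernel))
noncomputable def rhf97771223c63d1e4 : CRef := CRef.mk (Pat.mk 0x1e0000001a000000000000000000000000 0xc0000000c0000000c0000001e0000001a0000001f0000000e0000000c 7 5) 0 0 (step_sound _ 67 [(rh40241bd608e5be1a.shift 2 0), (rh4f4c4c1027c971e0.shift 2 0), (rh5bad6ad2fbf64f9c.shift 0 1), (rh9954101f0efffb9e.shift 2 0)] (by decide +kernel))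
noncomputable def rh350b319afd3d1103 : CRef := CRef.mk (Pat.mk 0x3600000026000000200000000000000000 0x13000000170000001f0000003600000036000000230000000300000003 7 6) 0 0 (step_sound _ 65 [(rh4c1df022320c34d4.shift 0 2), (rh84d1c02a8954c6a8.shift 1 1), rh9954101f0efffb9e] (by decide +kernel))
noncomputable def rha3f40822d00edc07 : CRef := CRef.mk (Pat.mk 0x80000000a0000001a00000000 0x10000000140000001f0000007c0000000f0000001a00000008 7 7) 0 0 (step_sound _ 66 [(rhb739f4f82bb681b4.shift 0 1), rheb9366e5f6286541] (by decide +kernel))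
noncomputable def rh507f0a030798d8c6 : CRef := CRef.mk (Pat.mk 0x80000000a0000001a00000008000000000000000000000000 0x90000000b0000001b0000001f000000070000000300000001 7 5) 0 0 (step_sound _ 98 [rh29e6c55c7fc32b32, (rh932754581e0f4330.shift 2 2)] (by decide +kernel))
noncomputable def rh44ef475688875815 : CRef := CRef.mk (Pat.mk 0x80000000a0000001800000000 0x100000001c0000001c0000000c0000000c0000000f0000001800000010 7 5) 0 0 (step_sound _ 66 [(rhb739f4f82bb681b4.shift 0 1), (rhc28deca3165f2c8d.shift 2 0)] (by decide +kernel))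
noncomputable def rh05ed29275c2f01a0 : CRef := CRef.mk (Pat.mk 0x10000000180000001a0000008000000000 0xc0000000c0000001c000000180000001b000000ff0000002c 7 8) 0 0 (step_sound _ 35 [(rh71222050f2c63a3a.shift 3 0), rhd740432bdfa71092] (by decide +kernel))
noncomputable def rh261712888e79039c : CRef := CRef.mk (Pat.mk 0x1200000013000000100000000000000000 0x50000000f0000000f0000000f0000001e0000001b0000001f0000000500000001 7 5) 0 0 (step_sound _ 131 [rh5e25176760049698, (rhb2a0b9ccfb5cecd5.shift 0 3)] (by decide +kernel))
noncomputable def rhe4915eb2a246efe3 : CRef := CRef.mk (Pat.mk 0x20000002200000026000000200000000000000000 0x17000000170000001f0000003e00000036000000230000000300000003 7 6) 0 0 (step_sound _ 65 [rh0d81611e63343d94, rhb106de594f87c71e, (rhb781b7d4512f8b10.shift 1 1), (rhc85cc95794737cf7.shift 0 2)] (by decide +kernel))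
noncomputable def rhd7a5998d997ee0f9 : CRef := CRef.mk (Pat.mk 0x90000000c000000400000000000000000 0x140000001c0000001c0000001e0000000f0000000c0000007c0000001400000004 7 7) 0 0 (step_sound _ 163 [(rh126cf590a5219cd4.shift 2 1), (rh281c6819542c66e6.shift 2 0), (rh3307a5c61af0074c.shift 2 1), (rh68a777751bfeafdf.shift 2 2), (rhf2ff3bf44f4202f5.shift 0 1)] (by decide +kernel))
noncomputable def rh203137072fe5db19 : CRef := CRef.mk (Pat.mk 0x120000000e000000000 0x1ef000000fe0000001f 7 9) 0 0 (step_sound _ 36 [(rh428265de8cd3cd2d.shift 4 1), rhe6f05702474da38c] (by decide +kernel))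
noncomputable def rh480f1e65211a4dc0 : CRef := CRef.mk (Pat.mk 0x20000000e000000100 0x6f000000fe0000019f 7 9) 0 0 (step_sound _ 36 [(rh96851dee118c1ba3.shift 4 0), rhe6f05702474da38c] (by decide +kernel))
noncomputable def rh10c45aaeb58193e7 : CRef := CRef.mk (Pat.mk 0x8a0000001a0000000000000000 0x4000000040000000e000000ff0000001b0000000800000008 7 8) 0 0 (step_sound _ 98 [(rhb739f4f82bb681b4.shift 0 2), rheeed1b921dc8de8b] (by decide +kernel))
noncomputable def rh4ddade8495dec673 : CRef := CRef.mk (Pat.mk 0x80000008a00000098000000800000000000000000 0x5c0000005c0000007f000000fb000000d80000008c0000000c0000000c 7 8) 0 0 (step_sound _ 67 [(rh018f2ebb4d91ad9d.shift 0 2), (rh52d0d964087343a6.shift 2 0), (rhb781b7d4512f8b10.shift 3 1), (rhc85cc95794737cf7.shift 2 2)] (by decide +kernel))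
noncomputable def rh845fd09a735d09aa : CRef := CRef.mk (Pat.mk 0x180000009a0000009800000080 0x70000000f00000005f000000fb000000d800000080 7 8) 0 0 (step_sound _ 98 [(rh710860539a4c4362.shift 0 2), (rh9dc503b9f33e7cb5.shift 2 0)] (by decide +kernel))
noncomputable def rh35dc1881a8d5c9f8 : CRef := CRef.mk (Pat.mk 0x600000002000000060000000000000000000000000000000000000000 0x40000000600000006000000060000000700000003000000070000000600000004 7 3) 0 0 (step_sound _ 129 [(rh2f68792b6b779e96.shift 1 4), rh8c6a35ea2bc2943b] (by decide +kernel))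
noncomputable def rh1c9a2e22e7550ada : CRef := CRef.mk (Pat.mk 0x1e00000018 0x380000003c0000003f0000001e00000018 7 6) 0 0 (step_sound _ 65 [(rh3244c3cc8379b070.shift 0 1), (rh9fe4732cc86e61b3.shift 1 0)] (by decide +kernel))
noncomputable def rhcda0ab04e3e378e2 : CRef := CRef.mk (Pat.mk 0xd80000009800000088 0x4c0000005f0000007c000000d8000000d800000088 7 8) 0 0 (step_sound _ 100 [(rh5c5e593799055d58.shift 3 0), rhacc6e926719af5f7] (by decide +kernel))
noncomputable def rhdcef8191df21adf8 : CRef := CRef.mk (Pat.mk 0x490000000c000000400000000000000000 0x140000001c0000001c0000001f0000007b0000000c0000007c0000001400000004 7 7) 0 0 (step_sound _ 132 [(rh361cc68994bd8a63.shift 2 3), rh84e189f47391ec82] (by decide +kernel))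
noncomputable def rh6931e7d7c195cb33 : CRef := CRef.mk (Pat.mk 0x1c0000000c000000000000000000000000 0x1c0000003e0000000f0000001c0000000c0000000c0000000400000004 7 6) 0 0 (step_sound _ 163 [(rh277bb6ad403438ea.shift 0 1), (rh281c6819542c66e6.shift 2 0), (rh503dd4575245365b.shift 2 2), (rh609dbf5bba4e4ab9.shift 0 2)] (by decide +kernel))
noncomputable def rh24628b0c10cc9a46 : CRef := CRef.mk (Pat.mk 0x80000001c000000080000000800000000 0x170000007f0000001c0000000c0000000c00000004 7 7) 0 0 (step_sound _ 130 [(rh50fbb5868c909700.shift 2 1), rhef5ec999f82988a0] (by decide +kernel))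
noncomputable def rh35069720656b5241 : CRef := CRef.mk (Pat.mk 0xc0000000800000000000000000000000000000000 0x140000001c0000003c0000000f0000000c0000000f0000003c0000001c00000014 7 6) 0 0 (step_sound _ 99 [(rh2741032d10f98306.shift 0 2), (rh56259dd1390eee46.shift 2 0), (rhb1a251d9bff81766.shift 2 2), rhd67a90df60f94eb2] (by decide +kernel))
noncomputable def rh5c7b51a4b0962b9b : CRef := CRef.mk (Pat.mk 0x10000000120000001e0000001a0000000000000000 0x2f0000003f0000001a0000001e0000001e0000000400000004 7 6) 0 0 (step_sound _ 163 [(rh50fbb5868c909700.shift 3 2), rh54e3a99bffc15444] (by decide +kernel))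
noncomputable def rh5fd75665a30f6573 : CRef := CRef.mk (Pat.mk 0x20000001a0000000200000000000000000000000000000000 0x5000000070000000700000007000000030000001b0000003f00000006000000070000000700000005 7 6) 0 0 (step_sound _ 97 [(rh09a28663422c2741.shift 0 2), (rh0a9e0341336fd6b7.shift 0 2), (rh46baee19951a66e7.shift 0 1), (rha087c6594f4bfb59.shift 0 2), rhc850b49d039efae1] (by decide +kernel))
noncomputable def rhd839be4f8778aeba : CRef := CRef.mk (Pat.mk 0x24000000340000000400000000000000000000000000000000 0x200000026000000360000003e0000001f0000001e0000000e0000000a 7 6) 0 0 (step_sound _ 98 [(rh46baee19951a66e7.shift 1 1), (rh6eff4158bb400f47.shift 1 1), (rhc4526fc8abf298b6.shift 1 1), (rhc850b49d039efae1.shift 1 0), (rhd8a220824b462f0a.shift 0 2)] (by decide +kernel))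
noncomputable def rha9587d1c92531f1c : CRef := CRef.mk (Pat.mk 0x40000003400000010000000000000000000000000 0xa0000000e0000000e00000006000000360000001e0000000f0000000e0000000a 7 6) 0 0 (step_sound _ 98 [(rh1f25bef8f9fe2597.shift 1 0), rh6f4a8ab15b59a16a, (rh730084c02ab4739e.shift 1 2), (rh794501743a61ce18.shift 1 0), (rhceb5f5a915f974ce.shift 1 1)] (by decide +kernel))
noncomputable def rh2701154ca1ced74e : CRef := CRef.mk (Pat.mk 0x1000000034000000060000002000000000 0xa0000000e0000000e0000000f0000001e00000036000000060000003c00000008 7 6) 0 0 (step_sound _ 130 [(rh43dacaa5d1728963.shift 1 0), (rh454d8ac7255d5acb.shift 1 0), (rha965b8b136d85005.shift 1 0), (rhd343baf2893e63cd.shift 0 1), (rhfa2fd044c8b2a1d9.shift 0 2)] (by decide +kernel))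
noncomputable def rh79293711a769e05c : CRef := CRef.mk (Pat.mk 0x1a00000013000000100000000000000000 0x50000000f0000000f0000000f0000001a0000001b0000001f0000000500000001 7 5) 0 0 (step_sound _ 163 [rh26933900be93acf0, (rhe072fffdd2fccf38.shift 3 2)] (by decide +kernel))
noncomputable def rh276d0db3359d824b : CRef := CRef.mk (Pat.mk 0x800000008000000080000001c00000000 0x140000001c0000000c0000003f0000003f00000003 7 6) 0 0 (step_sound _ 130 [rh435c2c9d2b100be0, (rh50fbb5868c909700.shift 2 1)] (by decide +kernel))
noncomputable def rh11e96819f31807d7 : CRef := CRef.mk (Pat.mk 0x20000001a000000000000000000000000 0x50000000700000007000000070000001e000000070000000600000006 7 5) 0 0 (step_sound _ 98 [(rh3244c3cc8379b070.shift 0 3), rh81660f5c36cadd8d] (by decide +kernel))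
noncomputable def rh2310f57335d68db2 : CRef := CRef.mk (Pat.mk 0x4000000470000004c0000004000000000000000000000000000000000 0x20000000280000003c0000007f0000006e0000004e000000060000000e0000000c00000008 7 7) 0 0 (step_sound _ 130 [(rh684e729394fba19d.shift 0 4), (rh84f80cfcf7302c80.shift 1 0), (rh8c6a35ea2bc2943b.shift 1 0), (rhb781b7d4512f8b10.shift 2 3), (rhcab3157f7bdcba3e.shift 1 2)] (by decide +kernel))
noncomputable def rhf9e4061467fc5bbc : CRef := CRef.mk (Pat.mk 0x200000003000000070000000c0000000000000000 0xd0000001f000000070000001f0000000e0000000a00000002 7 5) 0 0 (step_sound _ 99 [rh462c65f345fd800c, (rhf48373e13d2bc128.shift 0 3)] (by decide +kernel))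
noncomputable def rh88cd1cf829b57afe : CRef := CRef.mk (Pat.mk 0x1800000038000000600000002000000000 0x680000003e00000038000000700000007c0000001f 7 7) 0 0 (step_sound _ 130 [rh5776f502207ae9dd, (rhb739f4f82bb681b4.shift 1 3)] (by decide +kernel))
noncomputable def rh8f65df716299472f : CRef := CRef.mk (Pat.mk 0x20000001e0000000c00000000 0x1e0000001f0000003a0000001e0000000c00000008 7 6) 0 0 (step_sound _ 129 [(rh2145e1d24b96a57e.shift 1 1), rh46e41f9e19f7f1e1] (by decide +kernel))
noncomputable def rh8c1a98e729d81bdd : CRef := CRef.mk (Pat.mk 0x2000000070000000c0000000000000000 0xc0000000c0000000c0000001e000000070000000e0000000e00000006 7 5) 0 0 (step_sound _ 34 [(rh7b1f1fb55310c477.shift 1 0), rhc0ae56bc849bd597] (by decide +kernel))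
noncomputable def rhf52884a25e47157a : CRef := CRef.mk (Pat.mk 0x4000000040000000e00000018000000000000000000000000 0x80000001a0000007e0000003f0000000e0000001c000000160000000600000006 7 7) 0 0 (step_sound _ 195 [(rh0af5a455cbe36211.shift 0 2), (rh4147d61af8a93e3b.shift 0 2), (rh6b4df1d196e30d4e.shift 1 0), (rha7e5b30d6e5612d1.shift 2 2)] (by decide +kernel))
noncomputable def rhcb63864de3ca432b : CRef := CRef.mk (Pat.mk 0x9a000000180000008000000000 0x300000003000000037000000fe00000018000000f800000020 7 8) 0 0 (step_sound _ 101 [(rh361cc68994bd8a63.shift 3 2), rh635bdfe0b165ee33] (by decide +kernel))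
noncomputable def rh53ccc6d2fd87d9c1 : CRef := CRef.mk (Pat.mk 0x9800000018000000000000000000000000 0x80000000c0000000f000000fc000000180000001c0000000c0000000c 7 8) 0 0 (step_sound _ 133 [rh23853ee76e316c56, (rh361cc68994bd8a63.shift 3 3)] (by decide +kernel))
noncomputable def rh5e3e6eeff2892011 : CRef := CRef.mk (Pat.mk 0x1c000000180000008800000000 0xc0000003f0000007c0000001c00000018000000f800000020 7 8) 0 0 (step_sound _ 132 [(rh5c5e593799055d58.shift 3 1), rh92b58d73f5f21a64] (by decide +kernel))
noncomputable def rh06ff36bfd1a8454e : CRef := CRef.mk (Pat.mk 0x120000001a0000000a0000000000000000 0x500000007000000070000001a0000001a0000000e0000000e0000000c 7 5) 0 0 (step_sound _ 35 [(rh71222050f2c63a3a.shift 3 0), rhf0fb01022ad7e877] (by decide +kernel))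
noncomputable def rhf922624328f466f6 : CRef := CRef.mk (Pat.mk 0x10000000120000001a0000001000000000 0x400000024000000360000001e0000001b0000001f0000000a 7 6) 0 0 (step_sound _ 35 [(rh932754581e0f4330.shift 3 0), rha0e28e837f7a3b8b] (by decide +kernel))
noncomputable def rh36c03d3cdd239787 : CRef := CRef.mk (Pat.mk 0x200000006000000030000001000000000 0x5000000070000000700000007000000060000000600000007000000030000001e00000004 7 5) 0 0 (step_sound _ 161 [(rh9fb9dc683e09b5f3.shift 0 2), rhb4ad15d6999021c8, (rhf3bc05ddeebb714c.shift 0 2)] (by decide +kernel))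
noncomputable def rhb4d6d303e4881871 : CRef := CRef.mk (Pat.mk 0x1a0000001e00000000000000000000000000000000 0x50000000f0000000f0000001a0000001e0000000f000000060000000400000004 7 5) 0 0 (step_sound _ 97 [rh88768d57c4328d61, (rheb0810cc63b001d8.shift 0 3)] (by decide +kernel))
noncomputable def rh7e821671a23fca42 : CRef := CRef.mk (Pat.mk 0x2400000034000000000000000000000000 0xa0000000e0000000e0000003c0000003e0000007f0000000c0000000c 7 7) 0 0 (step_sound _ 99 [(rh185f35b8bd8ec37f.shift 0 2), (rh7170cc1370c66062.shift 1 2), (rh81660f5c36cadd8d.shift 1 0)] (by decide +kernel))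
noncomputable def rhb6d3f53349cc5a9e : CRef := CRef.mk (Pat.mk 0x200000002000000120000000200000000 0x4000000070000000700000003000000060000001e0000000300000001 7 5) 0 0 (step_sound _ 32 [rh932754581e0f4330, (rhda751d9f305bb899.shift 0 1)] (by decide +kernel))
noncomputable def rh18f0901257ec6192 : CRef := CRef.mk (Pat.mk 0x200000002000000120000001a000000000000000000000000 0x80000000e0000000f0000001e0000001b0000001d0000000c0000000c 7 5) 0 0 (step_sound _ 131 [(rh5710f30ba40ee3ec.shift 0 2), rh7a80e1e4e56d2a53] (by decide +kernel))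
noncomputable def rh59d733434658d4d5 : CRef := CRef.mk (Pat.mk 0x2000000120000001a00000000000000000000000000000000 0x50000000f0000001e0000001a0000000f000000070000000700000005 7 5) 0 0 (step_sound _ 97 [(rh6c59ce14113da07f.shift 1 1), rh95311890f436bcdc, (rhc3115e0f4b0bf27b.shift 0 3), (rhd630af2e39ca770f.shift 0 2)] (by decide +kernel))
noncomputable def rh8c1b8bff757e7fa7 : CRef := CRef.mk (Pat.mk 0x2000000020000001a00000000000000000000000000000000 0x40000000600000006000000060000001b0000000f000000070000000700000005 7 5) 0 0 (step_sound _ 97 [(rh20966da26a1c2ae8.shift 0 2), (rh6c59ce14113da07f.shift 1 1), rh95311890f436bcdc, (rhd630af2e39ca770f.shift 0 2)] (by decide +kernel))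
noncomputable def rhf5bfcc9ad06a3320 : CRef := CRef.mk (Pat.mk 0x1200000018000000080000000800000000 0xc0000000c0000000f0000001e0000001f0000001e0000000c00000004 7 5) 0 0 (step_sound _ 131 [(rh0ef6c71ce89c1c36.shift 2 0), (rh933f3ac7d57d09d8.shift 2 1), rh9f3ce06b6fe18e40, (rhea90e7358341a1a4.shift 2 0)] (by decide +kernel))
noncomputable def rhed16472ca7356e97 : CRef := CRef.mk (Pat.mk 0x1e0000001a000000000000000000000000 0x80000001c0000001c0000001e0000001a0000001f0000000e00000008 7 5) 0 0 (step_sound _ 67 [(rh40241bd608e5be1a.shift 2 0), (rh52af05e4133f7f34.shift 0 1), (rhcf80391c5046a495.shift 3 0)] (by decide +kernel))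
noncomputable def rhb85c25459383f5b5 : CRef := CRef.mk (Pat.mk 0x1e000000180000000800000000 0x140000001c0000001c0000000c0000001e0000001b0000001f00000006 7 5) 0 0 (step_sound _ 65 [rh1b1c8ea2e80de220, (rheb0810cc63b001d8.shift 0 2)] (by decide +kernel))
noncomputable def rh40a2acb6f5a68453 : CRef := CRef.mk (Pat.mk 0x100000001e000000180000000000000000 0xc0000000c0000001f0000001e0000001b0000001f0000000b 7 5) 0 0 (step_sound _ 35 [rh0cd10d472d7953df, (rh71222050f2c63a3a.shift 3 0)] (by decide +kernel))
noncomputable def rh207676dbb32aeb6a : CRef := CRef.mk (Pat.mk 0x40000008e000000180000000800000000 0x50000000700000007000000fe0000001b0000001f00000003 7 8) 0 0 (step_sound _ 65 [(rh0cd737db2dac9aa8.shift 0 2), rh1ed996d1be852b34, rhe24448ac32e0808b, (rhf9366b6a121593ef.shift 1 0)] (by decide +kernel))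
noncomputable def rh3c4c90353228a406 : CRef := CRef.mk (Pat.mk 0x80000000c000000140000003000000000 0x2000000220000007f0000001f000000140000003400000024 7 7) 0 0 (step_sound _ 132 [rh0268664f0c770472, (rh0bb882ba86b2372d.shift 0 3), (rhc8042e18ce54d8f1.shift 2 0)] (by decide +kernel))
noncomputable def rhdca949c35be320bb : CRef := CRef.mk (Pat.mk 0x40000009e000000180000000800000000 0x8000000080000000c000000fe0000001b0000001f00000006 7 8) 0 0 (step_sound _ 101 [(rh361cc68994bd8a63.shift 3 2), rhe4405640e40fbafe] (by decide +kernel))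
noncomputable def rh3e62f47361bd9ab0 : CRef := CRef.mk (Pat.mk 0x1e000000180000000000000000 0x4000000040000000f0000001e0000001b0000000f0000000e 7 5) 0 0 (step_sound _ 129 [(rh3244c3cc8379b070.shift 0 3), rhcb582f2c95f5602c] (by decide +kernel))
noncomputable def rh2025686536f7751e : CRef := CRef.mk (Pat.mk 0x1e000000180000000000000000 0x70000003e0000001b0000000f0000000b 7 6) 0 0 (step_sound _ 129 [(rh3244c3cc8379b070.shift 0 3), rh5b22eb9d3e32ee1b] (by decide +kernel))
noncomputable def rh385d196ad4f580d4 : CRef := CRef.mk (Pat.mk 0x1800000014000000300000001000000000 0x270000003e00000016000000340000001e00000008 7 6) 0 0 (step_sound _ 133 [rh0bc39f2b8c6c889d, (rh2f68792b6b779e96.shift 4 1)] (by decide +kernel))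
noncomputable def rh13c47ace23dd415c : CRef := CRef.mk (Pat.mk 0x22000000260000002200000000 0x500000017000000170000001e0000003e000000360000002600000002 7 6) 0 0 (step_sound _ 129 [(rh0fa4a62bba50784f.shift 0 1), (rh8599f462953abc6e.shift 1 1), (rhb781b7d4512f8b10.shift 1 0), (rhfb9fb48a5e63ed80.shift 0 1)] (by decide +kernel))
noncomputable def rhdac6e46976628e33 : CRef := CRef.mk (Pat.mk 0x9e00000018000000080000000000000000 0xa000000fe0000001b0000000f0000000c0000000c 7 8) 0 0 (step_sound _ 133 [(rh361cc68994bd8a63.shift 3 3), rhabea66a5c2facc27] (by decide +kernel))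
noncomputable def rh6290a8880d4edd4b : CRef := CRef.mk (Pat.mk 0x1e00000008000000080000000800000000 0x30000001e0000000b0000001f0000000f00000005 7 5) 0 0 (step_sound _ 34 [(rh932754581e0f4330.shift 2 0), rhc8b4226cd44eea02] (by decide +kernel))
noncomputable def rhe3603587793e8bf0 : CRef := CRef.mk (Pat.mk 0x60000003000000012000000000000000000000000 0x5000000070000000700000007000000330000001f000000070000000700000005 7 6) 0 0 (step_sound _ 129 [(rh64c2947e2d06c6c8.shift 0 2), (rhceb5f5a915f974ce.shift 0 1), (rhecafdd1db1382475.shift 0 2), rhffb8e5993241bf15] (by decide +kernel))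
noncomputable def rh8ebc87e747817602 : CRef := CRef.mk (Pat.mk 0x8000000180000000900000000 0x140000001c0000001c0000000800000008000000180000001f00000004 7 5) 0 0 (step_sound _ 34 [(rh24ae073cf30720c4.shift 0 1), (rh55777c14eaf54302.shift 2 0)] (by decide +kernel))
noncomputable def rh0505ae96fab7bcd8 : CRef := CRef.mk (Pat.mk 0x200000006000000020000000200000000 0x50000000700000007000000060000000600000006000000060000000300000001 7 3) 0 0 (step_sound _ 0 [rh79877ebd3ef475dd, (rhb1a35c78a7dbba8f.shift 0 1)] (by decide +kernel))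
noncomputable def rh29b644cd032341d3 : CRef := CRef.mk (Pat.mk 0x470000000c000000040000000000000000 0x40000000c0000003c0000007f0000000c0000000e0000000600000006 7 7) 0 0 (step_sound _ 131 [(rh361215bab1155e5e.shift 0 3), (rh6d72c2ff5d6cd0ea.shift 1 0), (rhcf80391c5046a495.shift 2 0)] (by decide +kernel))
noncomputable def rh5aa0df8efe2e9eb2 : CRef := CRef.mk (Pat.mk 0x30000001a0000000000000000 0x500000007000000070000000f0000001a0000000f00000007 7 5) 0 0 (step_sound _ 98 [rh9c42111f5cd23023, (rhd6e447e81774439e.shift 0 2)] (by decide +kernel))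
noncomputable def rh711cedfac771e4e0 : CRef := CRef.mk (Pat.mk 0x1100000003000000120000000000000000 0x600000006000000060000001f000000030000001e0000000600000006 7 5) 0 0 (step_sound _ 33 [rh0de3b1fdcafd3bce, rh7b1f1fb55310c477] (by decide +kernel))
noncomputable def rhc66bac1e8e3bd465 : CRef := CRef.mk (Pat.mk 0x80000001c00000030000000000000000000000000 0x20000000f0000001c0000003e0000007e0000007600000020 7 7) 0 0 (step_sound _ 68 [(rh7b1f1fb55310c477.shift 3 1), rh924fa52133962d12] (by decide +kernel))
noncomputable def rh12afb3c815563747 : CRef := CRef.mk (Pat.mk 0x88000000180000003000000000 0x3c0000007f000000ff0000001f0000003800000028 7 8) 0 0 (step_sound _ 100 [(rhb23658ecdd7ce5df.shift 3 0), (rhd835e8b8dc07ccb4.shift 3 0), rhed22d6b9375844d9] (by decide +kernel))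
noncomputable def rh2b19999c092a58b8 : CRef := CRef.mk (Pat.mk 0x400000000c00000018000000000000000000000000 0x10000000140000003c000000780000000f000000180000001c0000001c00000014 7 7) 0 0 (step_sound _ 129 [(rhb739f4f82bb681b4.shift 0 3), (rhf118832667e3e3fa.shift 2 0)] (by decide +kernel))
noncomputable def rhb5a3b6fa2ff8260b : CRef := CRef.mk (Pat.mk 0x800000018000000080000003c00000000 0x40000000f0000001f0000000f0000003e00000003 7 6) 0 0 (step_sound _ 65 [(rh3f8766e6ecb455ce.shift 1 1), rh525bad1f554b0755] (by decide +kernel))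
noncomputable def rh746dec0120aeca1d : CRef := CRef.mk (Pat.mk 0x8000000080000000a0000001c00000000 0x50000000f0000001f0000000b0000001e00000003 7 5) 0 0 (step_sound _ 33 [(rh3244c3cc8379b070.shift 0 1), rh82cc46a5a0857fb5] (by decide +kernel))
noncomputable def rh8cfb1a99ecfeaa6e : CRef := CRef.mk (Pat.mk 0x200000002000000060000000200000000000000000000000000000000 0x10000000300000007000000060000000200000002000000070000000700000005 7 3) 0 0 (step_sound _ 224 [(rh50fbb5868c909700.shift 0 4), rhb2334dead4e9a08c] (by decide +kernel))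
noncomputable def rh831700586d15c1eb : CRef := CRef.mk (Pat.mk 0x4000000440000000c000000400000000000000000 0xa0000000f0000007c0000000c0000007e0000003e0000000a 7 7) 0 0 (step_sound _ 66 [(rh1750126b0023a19a.shift 1 1), (rh6eff4158bb400f47.shift 1 0), (rhd4b54dd7a1b064a8.shift 0 1)] (by decide +kernel))
noncomputable def rhf28af477d48853a0 : CRef := CRef.mk (Pat.mk 0x30000000300000010000000000000000000000000 0x6000000070000000700000003000000030000001e000000060000000600000004 7 5) 0 0 (step_sound _ 97 [(rh3cb04db3dd2b6a55.shift 0 1), rh4c145d583973abd2, (rhd8d95ed9ca85f29c.shift 0 2)] (by decide +kernel))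
noncomputable def rhb892a13fad614fbc : CRef := CRef.mk (Pat.mk 0x98000000180000000000000000 0x200000002000000077000000ff0000001e0000001000000010 7 8) 0 0 (step_sound _ 101 [(rh361cc68994bd8a63.shift 3 2), rhed37185cb37ac409] (by decide +kernel))
noncomputable def rhc84648c506dc0921 : CRef := CRef.mk (Pat.mk 0x8000000080000000a0000001c00000000 0x140000001f0000000f0000000b0000001e00000003 7 5) 0 0 (step_sound _ 33 [(rh3244c3cc8379b070.shift 0 1), rha9259a93fca7035f] (by decide +kernel))
noncomputable def rhc437a30d701ba7ca : CRef := CRef.mk (Pat.mk 0x80000006c0000004c00000040 0x3e0000007f0000003e0000006c0000006c00000040 7 7) 0 0 (step_sound _ 131 [rh40b91cc82dc37777, (rh5c5e593799055d58.shift 2 1)] (by decide +kernel))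
noncomputable def rh9b8fea266a2cfe24 : CRef := CRef.mk (Pat.mk 0x80000000c0000000c 0x1e0000003f0000003f0000000c0000000c 7 6) 0 0 (step_sound _ 99 [rh4a116811f6c4f280, (rh5c5e593799055d58.shift 2 0)] (by decide +kernel))
noncomputable def rhdbec77c2bb1bef0b : CRef := CRef.mk (Pat.mk 0x10000000f000000070000000000000000 0xa0000001e0000001f0000000f000000070000000300000002 7 5) 0 0 (step_sound _ 33 [rh7b1f1fb55310c477, (rhf66252723b30b48e.shift 0 1)] (by decide +kernel))
noncomputable def rh2a5cf721219d09d9 : CRef := CRef.mk (Pat.mk 0x8000000080000001c0000000c00000000 0x160000001f0000003c0000001c0000000f00000002 7 6) 0 0 (step_sound _ 33 [rh3944d7c419508b4a, (rh53b3c253cb0c65f4.shift 0 1)] (by decide +kernel))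
noncomputable def rh434966f7f09b7259 : CRef := CRef.mk (Pat.mk 0x1000000098000000980000008000000000 0x4a0000004a0000007b000000ff000000df0000008c00000008 7 8) 0 0 (step_sound _ 66 [(rh2b3584ef0f05e9c2.shift 1 2), (rhab2ad169e49f9c5e.shift 0 2), (rhd74ad36f893673c6.shift 0 1), (rhe7fe8f70b95afbf0.shift 2 0)] (by decide +kernel))
noncomputable def rh495b46cd64be53a2 : CRef := CRef.mk (Pat.mk 0x38000000180000000000000000 0x2200000022000000770000003f0000001e0000001400000014 7 7) 0 0 (step_sound _ 66 [rh352c178ad9f54c82, (rh53b3c253cb0c65f4.shift 1 2)] (by decide +kernel))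
noncomputable def rh5eb970eef4b69f27 : CRef := CRef.mk (Pat.mk 0x4000000440000000c000000080000000000000000 0x7a0000003e0000006f0000000c0000000e0000000600000002 7 7) 0 0 (step_sound _ 66 [(rhc4526fc8abf298b6.shift 1 0), (rhc86e08a1a4264962.shift 1 0), (rhfc4b544f4b9d4d9e.shift 0 2)] (by decide +kernel))
noncomputable def rhdb979701e2373415 : CRef := CRef.mk (Pat.mk 0x440000000c000000080000000000000000 0x180000007c0000000c0000000f0000003c0000001c 7 7) 0 0 (step_sound _ 35 [rh0ecdf52cf151ee42, (rh7b1f1fb55310c477.shift 2 0)] (by decide +kernel))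
noncomputable def rhdc3d9be1e8b9b02a : CRef := CRef.mk (Pat.mk 0x120000000300000011000000000000000000000000 0x6000000060000001e000000030000001f000000060000000600000006 7 5) 0 0 (step_sound _ 193 [rh2531e9b495f84392, (rh5c5e593799055d58.shift 0 3)] (by decide +kernel))
noncomputable def rhd2c1623ff48a55f3 : CRef := CRef.mk (Pat.mk 0x300000001c0000000800000000 0x20000000760000007e0000003e0000001c0000000f00000002 7 7) 0 0 (step_sound _ 132 [(rh5c5e593799055d58.shift 3 1), rhe6c5e0a753e2e006] (by decide +kernel))
noncomputable def rha9897cfbb454e56c : CRef := CRef.mk (Pat.mk 0x3000000018000000880000000000000000 0x28000000380000001f000000ff0000007f0000003c 7 8) 0 0 (step_sound _ 68 [(rh000637b5a81e86aa.shift 3 0), (rh32ba97e5134cf6df.shift 3 0), rha2235b38e25e7461] (by decide +kernel))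
noncomputable def rh5ea20ac8a1d85ab2 : CRef := CRef.mk (Pat.mk 0x180000000c00000040000000000000000000000000 0x140000001c0000001c000000180000000f000000780000003c0000001400000010 7 7) 0 0 (step_sound _ 129 [(rh4f5443762cd91713.shift 2 0), (rh53b3c253cb0c65f4.shift 0 4)] (by decide +kernel))
noncomputable def rh03614f8e67ecd6ac : CRef := CRef.mk (Pat.mk 0x3c00000008000000180000000800000000 0x30000003e0000000f0000001f0000000f00000004 7 6) 0 0 (step_sound _ 97 [(rh80fcd6d0a18cb2dd.shift 1 3), rhb7f9ab8ba259e4cc] (by decide +kernel))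
noncomputable def rhb225dfca0e551fef : CRef := CRef.mk (Pat.mk 0x1c0000000a000000080000000800000000 0x30000001e0000000b0000001f0000000f00000005 7 5) 0 0 (step_sound _ 129 [rh3c20459b161d5bc3, (rheb0810cc63b001d8.shift 0 3)] (by decide +kernel))
noncomputable def rh00bd71d3d71b55ff : CRef := CRef.mk (Pat.mk 0x400000000c000000440000000400000000 0xa0000003e0000007e0000000c0000007c0000000f0000000a 7 7) 0 0 (step_sound _ 130 [(rh1741680720c097b4.shift 1 1), rhbb00e3681d5eb8f8, (rhe2d59d67e279ddad.shift 1 0)] (by decide +kernel))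
noncomputable def rh568cd1b47d7a750f : CRef := CRef.mk (Pat.mk 0x100000000300000003000000000000000000000000 0x400000006000000060000001e0000000300000003000000070000000700000006 7 5) 0 0 (step_sound _ 161 [(rh503dd4575245365b.shift 0 2), (rh566659606c8abe04.shift 0 2), rh9e2305c8222487ee] (by decide +kernel))
noncomputable def rhfa7bd6340f8a3dcc : CRef := CRef.mk (Pat.mk 0x1800000098000000000000000000000000 0x10000000100000001e000000ff000000770000002000000020 7 8) 0 0 (step_sound _ 101 [(rh2fe78cc5ca4405d8.shift 3 3), rh4bfa2c7aebb4abe5] (by decide +kernel))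
noncomputable def rh0b27f0f6e2bd15ff : CRef := CRef.mk (Pat.mk 0x1c0000000a000000080000000800000000 0x30000001e0000000b0000000f0000001f00000014 7 5) 0 0 (step_sound _ 129 [rh32c991378ed0a68b, (rheb0810cc63b001d8.shift 0 3)] (by decide +kernel))
noncomputable def rh583cb5fc4f8adc3d : CRef := CRef.mk (Pat.mk 0x400000004c0000006c000000080000000000000000 0x400000006c0000006c0000003e0000007f0000003e 7 7) 0 0 (step_sound _ 35 [(rh7b1f1fb55310c477.shift 2 0), rhca6510455babf945] (by decide +kernel))
noncomputable def rh87fb231a5bb8610f : CRef := CRef.mk (Pat.mk 0xc0000000c000000080000000000000000 0xc0000000c0000003f0000003f0000001e 7 6) 0 0 (step_sound _ 35 [rh59db4cf184c6a622, (rh7b1f1fb55310c477.shift 2 0)] (by decide +kernel))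
noncomputable def rh3e44f79f55f54975 : CRef := CRef.mk (Pat.mk 0xc0000001c000000080000000800000000 0x20000000f0000001c0000003c0000001f00000016 7 6) 0 0 (step_sound _ 129 [(rhb739f4f82bb681b4.shift 0 3), rhd23f8f24882fd928] (by decide +kernel))
noncomputable def rh298aa8a4028fa32d : CRef := CRef.mk (Pat.mk 0x800000009800000098000000100000000000000000 0x80000008c000000df000000ff0000007b0000004a0000004a 7 8) 0 0 (step_sound _ 130 [rh1aac160392d92428, (rh3c32e5e2eb13941b.shift 2 0), (rh5bb78067c54b222b.shift 1 3), (rhad5d8fc3675c15dd.shift 0 3)] (by decide +kernel))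
noncomputable def rh0319c64b41c71468 : CRef := CRef.mk (Pat.mk 0x1800000038000000000000000000000000 0x14000000140000001e0000003f000000770000002200000022 7 7) 0 0 (step_sound _ 130 [rh5b7c7791c4accc28, (rhb739f4f82bb681b4.shift 1 3)] (by decide +kernel))
noncomputable def rh3ef4c6d3dce8688a : CRef := CRef.mk (Pat.mk 0x80000000c000000440000000400000000 0x2000000060000000e0000000c0000006f0000003e0000007a 7 7) 0 0 (step_sound _ 130 [rh56b76d33cc0c7fa5, (rh771d065bdc85bf2d.shift 1 0), (rhbad6ff9bdc3f8001.shift 1 0)] (by decide +kernel))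
noncomputable def rh6da45e36b67121b0 : CRef := CRef.mk (Pat.mk 0x80000000c0000004400000000 0x1c0000003c0000000f0000000c0000007c00000018 7 7) 0 0 (step_sound _ 131 [(rh5c5e593799055d58.shift 2 1), rh64961f51db74bf28] (by decide +kernel))
noncomputable def rhcb74e94a45f2afc6 : CRef := CRef.mk (Pat.mk 0x300000001800000088000000000000000000000000 0x3000000038000000380000001f000000ff000000170000001400000004 7 8) 0 0 (step_sound _ 100 [(rh000637b5a81e86aa.shift 3 1), rh9e141fa6bc2add05, (rhe6729dea6088f28e.shift 1 2)] (by decide +kernel))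
noncomputable def rh54e490846bf0bb2e : CRef := CRef.mk (Pat.mk 0x9000000018000000080000000000000000 0x8000000080000000c000000ff0000001f0000001c0000000c0000000c 7 8) 0 0 (step_sound _ 133 [rh2993d9d9c7faff3a, (rh361cc68994bd8a63.shift 3 3)] (by decide +kernel))
noncomputable def rh151095795377b1ae : CRef := CRef.mk (Pat.mk 0x300000001800000088000000000000000000000000 0x240000003f0000001f000000dc000000780000003800000010 7 8) 0 0 (step_sound _ 68 [(rh56df763e998d2720.shift 0 1), (rha9efec28f6d60d2f.shift 3 0), (rhc59aaa550078c212.shift 2 1)] (by decide +kernel))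
noncomputable def rh2de34ad94f1c3d77 : CRef := CRef.mk (Pat.mk 0xc0000001c000000080000000800000000 0x20000000f0000001c0000003c0000001f00000016 7 6) 0 0 (step_sound _ 129 [rh63802272e6d8bedc, (rhb739f4f82bb681b4.shift 0 3)] (by decide +kernel))
noncomputable def rhe2310aaf65a36cec : CRef := CRef.mk (Pat.mk 0x900000009800000088000000080000000000000000 0x8000000080000000800000098000000d8000000fe0000007f000000f400000040 7 8) 0 0 (step_sound _ 163 [(rh1904b52b42aee148.shift 1 1), (rh4e38d5d715849da4.shift 0 1), (rh8613c4d15736e5cc.shift 3 0), (rhbf976cf9e7c4c817.shift 1 1), (rhea90e7358341a1a4.shift 2 1)] (by decide +kernel))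
noncomputable def rh9aeec1fd1230c4c4 : CRef := CRef.mk (Pat.mk 0xb00000009800000088000000080000000000000000 0xc000000bf000000df000000f80000007f0000005400000040 7 8) 0 0 (step_sound _ 163 [(rh4e38d5d715849da4.shift 0 1), (rh8613c4d15736e5cc.shift 3 0), (rhf37c6fa7e7b4e7c2.shift 0 2)] (by decide +kernel))
noncomputable def rh305ba824b8d6a1c3 : CRef := CRef.mk (Pat.mk 0x100000000300000012000000000000000000000000 0x50000000f0000001f000000030000001e000000060000000600000004 7 5) 0 0 (step_sound _ 98 [(rh2fe78cc5ca4405d8.shift 0 3), rhd9786091aae48f60] (by decide +kernel))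
noncomputable def rha6928b683ed26e13 : CRef := CRef.mk (Pat.mk 0x8000000018000000080000000800000000 0x1c000000ff0000001f0000000e0000007c00000014 7 8) 0 0 (step_sound _ 131 [(rh1904b52b42aee148.shift 1 0), (rh38b9f7ce4e4d2b02.shift 0 1)] (by decide +kernel))
noncomputable def rh7537a81f5988a61a : CRef := CRef.mk (Pat.mk 0x400000000c0000000c000000000000000000000000 0x1c0000003c0000007c0000000c0000000c000000380000001f0000001c 7 7) 0 0 (step_sound _ 67 [rh0eb1d62610945562, (rh3cb04db3dd2b6a55.shift 2 0), rh3cfde2e5b7de215c, (rhb1a251d9bff81766.shift 2 1), (rhb580d251323e66a2.shift 2 2)] (by decide +kernel))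
noncomputable def rhbf0cbb9ebcf7c414 : CRef := CRef.mk (Pat.mk 0x1800000038000000000000000000000000 0x14000000140000001e0000003f000000770000002200000022 7 7) 0 0 (step_sound _ 130 [rh9d71d70402ef7040, (rhb739f4f82bb681b4.shift 1 3)] (by decide +kernel))
noncomputable def rha4f81fa13720f1a8 : CRef := CRef.mk (Pat.mk 0x180000001c000000000000000000000000 0x200000006000000070000001f0000001f000000070000000200000002 7 5) 0 0 (step_sound _ 97 [rh23d2566fce68d118, (rh53b3c253cb0c65f4.shift 0 3)] (by decide +kernel))
noncomputable def rha293007e4be2602c : CRef := CRef.mk (Pat.mk 0xc0000001e000000120000000000000000 0x20000000e0000001e0000001e0000003f0000001f 7 6) 0 0 (step_sound _ 33 [(rh71222050f2c63a3a.shift 1 0), rhc5d0150e174ac9a0] (by decide +kernel))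
noncomputable def rh062082513cb4bda6 : CRef := CRef.mk (Pat.mk 0x80000000c0000000c000000000000000000000000 0xc0000000c0000000f0000003f0000007c00000018 7 7) 0 0 (step_sound _ 66 [rh58684884d46a91d4, (rh71222050f2c63a3a.shift 2 1)] (by decide +kernel))
noncomputable def rh912e9ae0d002c230 : CRef := CRef.mk (Pat.mk 0x300000001800000088000000000000000000000000 0x28000000380000001f000000ff000000370000003400000034 7 8) 0 0 (step_sound _ 100 [(rh000637b5a81e86aa.shift 3 1), (rh3470fcd67ff81181.shift 3 0), rh9e141fa6bc2add05] (by decide +kernel))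
noncomputable def rh936d70bfac2607ca : CRef := CRef.mk (Pat.mk 0x80000001c00000018000000100000000000000000 0x60000000f0000001c0000001f0000007c0000000f0000000c 7 7) 0 0 (step_sound _ 67 [(rh40241bd608e5be1a.shift 2 0), rha6f802784adb25e2, (rhe6a4ca5e8e9d3966.shift 0 1)] (by decide +kernel))
noncomputable def rh451a6fee66bbdbf7 : CRef := CRef.mk (Pat.mk 0xc0000001c000000080000000800000000 0x20000000f0000001c0000001f0000007c00000014 7 7) 0 0 (step_sound _ 34 [(rh932754581e0f4330.shift 2 0), rhe8811483cbe1768e] (by decide +kernel))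
noncomputable def rh2679e93df8ea655e : CRef := CRef.mk (Pat.mk 0xc0000004c000000080000000000000000 0x4000000060000000f0000007c0000000f0000000600000006 7 7) 0 0 (step_sound _ 100 [(rh2fe78cc5ca4405d8.shift 2 3), rha0c30a8397e11deb] (by decide +kernel))
noncomputable def rh7e2029248b419eb4 : CRef := CRef.mk (Pat.mk 0x8800000018000000300000000000000000 0x40000001400000017000000ff0000001f000000380000003800000030 7 8) 0 0 (step_sound _ 132 [(rh26ffcb37093465b4.shift 0 2), (rh6b5f39eac77d97f0.shift 1 0), (rhb23658ecdd7ce5df.shift 3 1)] (by decide +kernel))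
noncomputable def rhcb58c19703886190 : CRef := CRef.mk (Pat.mk 0x80000001800000090000000000000000000000000 0xc0000000c0000001c0000001f000000ff0000000c0000000800000008 7 8) 0 0 (step_sound _ 101 [rh0862e31e2c1b8c55, (rh2fe78cc5ca4405d8.shift 3 3)] (by decide +kernel))
noncomputable def rhabd0f27bf19ba79b : CRef := CRef.mk (Pat.mk 0x88000000180000003000000000 0x100000003800000078000000dc0000001f0000003f00000024 7 8) 0 0 (step_sound _ 132 [(rh990803f6d6d788b5.shift 2 0), rhd5007eef8cf1dde8, (rhd921c046084f56e1.shift 3 0)] (by decide +kernel))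
noncomputable def rh8e46d9ae079708b5 : CRef := CRef.mk (Pat.mk 0x8000000080000001c0000000c00000000 0x160000001f0000003c0000001c0000000f00000002 7 6) 0 0 (step_sound _ 33 [(rh53b3c253cb0c65f4.shift 0 1), rh7c8e3cdf6c231320] (by decide +kernel))
noncomputable def rh1b494f9c01000b9c : CRef := CRef.mk (Pat.mk 0x8000000880000009800000090000000000000000000000000 0x40000000f40000007f000000fe000000d800000098000000080000000800000008 7 8) 0 0 (step_sound _ 99 [(rh1f7d98a79686c1d4.shift 1 3), (rh544fd3f279a4d968.shift 2 0), (rh895c5375da59f765.shift 1 2), (rh9eba3b0ca80b715c.shift 0 2), (rhb781b7d4512f8b10.shift 3 2)] (by decide +kernel))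
noncomputable def rha03acd43b76f1039 : CRef := CRef.mk (Pat.mk 0x80000008800000098000000b000000000 0x40000000540000007f000000f8000000df000000bf0000000c 7 8) 0 0 (step_sound _ 35 [rh9eba3b0ca80b715c, (rhb781b7d4512f8b10.shift 3 0), rhfd68868dd6d945e5] (by decide +kernel))
noncomputable def rhd6cb68f8d67de0a2 : CRef := CRef.mk (Pat.mk 0x1200000003000000100000000000000000 0x400000006000000060000001e000000030000001f0000000f00000005 7 5) 0 0 (step_sound _ 130 [(rh361cc68994bd8a63.shift 0 3), rhde89b3e1647f6e21] (by decide +kernel))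
noncomputable def rhe1e323b7c97a3ef5 : CRef := CRef.mk (Pat.mk 0x800000008000000180000008000000000 0x140000007c0000000e0000001f000000ff0000001c 7 8) 0 0 (step_sound _ 35 [rh79e4170ed8274321, (rh895c5375da59f765.shift 1 0)] (by decide +kernel))
noncomputable def rh05e09c21a928b9af : CRef := CRef.mk (Pat.mk 0xc0000000c000000400000000000000000 0x1c0000001f000000380000000c0000000c0000007c0000003c0000001c 7 7) 0 0 (step_sound _ 163 [(rh281c6819542c66e6.shift 2 0), (rh503dd4575245365b.shift 2 2), (rhe72619c90b61a3ad.shift 2 0), (rhf1c9d6926074991b.shift 0 2), (rhffc7e7dce479b471.shift 0 2)] (by decide +kernel))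
noncomputable def rhdd68fc24310d27e3 : CRef := CRef.mk (Pat.mk 0x38000000180000000000000000 0x2200000022000000770000003f0000001e0000001400000014 7 7) 0 0 (step_sound _ 66 [(rh53b3c253cb0c65f4.shift 1 2), rhc5cf61bfccac3a92] (by decide +kernel))
noncomputable def rh62a4711043010a12 : CRef := CRef.mk (Pat.mk 0x1c00000018000000000000000000000000 0x200000002000000070000001f0000001f000000070000000600000002 7 5) 0 0 (step_sound _ 129 [rh481c9ab2c42732be, (rhb739f4f82bb681b4.shift 0 3)] (by decide +kernel))
noncomputable def rh89ce64e6308d3ffd : CRef := CRef.mk (Pat.mk 0x120000001e0000000c00000000 0x1f0000003f0000001e0000001e0000000e00000002 7 6) 0 0 (step_sound _ 129 [(rh2145e1d24b96a57e.shift 1 1), rhd37d92b1b042c317] (by decide +kernel))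
noncomputable def rh6ba594de584a9e3c : CRef := CRef.mk (Pat.mk 0xc0000000c00000008 0x180000007c0000003f0000000f0000000c0000000c 7 7) 0 0 (step_sound _ 98 [(rh2145e1d24b96a57e.shift 2 0), rha80b12384b650a6d] (by decide +kernel))
noncomputable def rheb04175f0a8689e2 : CRef := CRef.mk (Pat.mk 0x88000000180000003000000000 0x340000003400000037000000ff0000001f0000003800000028 7 8) 0 0 (step_sound _ 100 [(rh26ffcb37093465b4.shift 0 1), (rh4c60faed9e5f228f.shift 3 0), (rhb23658ecdd7ce5df.shift 3 0)] (by decide +kernel))
noncomputable def rh484a7f4f0fecce2e : CRef := CRef.mk (Pat.mk 0x10000000180000001c0000000800000000 0xc0000000f0000007c0000001f0000001c0000000f00000006 7 7) 0 0 (step_sound _ 131 [(rh01ff8e29f1e0af53.shift 0 2), (rh37d9ceebb86d75d1.shift 2 1), rhd06079d2f7a505aa] (by decide +kernel))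
noncomputable def rhd4ab9079bab7879c : CRef := CRef.mk (Pat.mk 0x8000000080000001c0000000c00000000 0x140000007c0000001f0000001c0000000f00000002 7 7) 0 0 (step_sound _ 130 [rh4be93da98760cfef, (rh50fbb5868c909700.shift 2 1)] (by decide +kernel))
noncomputable def rhabcff902e6668b20 : CRef := CRef.mk (Pat.mk 0x80000004c0000000c0000000000000000 0x6000000060000000f0000007c0000000f0000000600000004 7 7) 0 0 (step_sound _ 100 [(rh361cc68994bd8a63.shift 2 2), rha2cfccb812f329b8] (by decide +kernel))
noncomputable def rh45933d6a9168fb6a : CRef := CRef.mk (Pat.mk 0x1800000018000000000000000000000000 0xc0000001c0000001f000000380000001c0000000c0000000c0000000c 7 6) 0 0 (step_sound _ 67 [(rh84d1c02a8954c6a8.shift 3 1), (rh964f75781a0ff979.shift 0 1), (rh9954101f0efffb9e.shift 2 0)] (by decide +kernel))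
noncomputable def rh991c05553ebfc16e : CRef := CRef.mk (Pat.mk 0x40000006c0000004c0000004000000000 0x38000000780000003f0000006c0000006c0000004800000008 7 7) 0 0 (step_sound _ 35 [(rh7b1f1fb55310c477.shift 2 0), (rh82ea1a8795b8a307.shift 0 1)] (by decide +kernel))
noncomputable def rha8283d89e419fa81 : CRef := CRef.mk (Pat.mk 0x980000001800000000000000000000000000000000 0xc0000002f000000fc000000180000001c0000003c0000003c00000028 7 8) 0 0 (step_sound _ 165 [(rh361cc68994bd8a63.shift 3 4), rh8bfbe5e1ddb7f6a1] (by decide +kernel))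
noncomputable def rh20277466cec22ba9 : CRef := CRef.mk (Pat.mk 0xc0000000c000000000000000000000000 0x1c0000001c0000003c0000000f0000000c000000180000001800000018 7 6) 0 0 (step_sound _ 67 [(rh3cb04db3dd2b6a55.shift 2 0), (rh4ee84d7f73540b6b.shift 2 0), (rh555130c76c8b7190.shift 0 2)] (by decide +kernel))
noncomputable def rh6b82ad8538a2c276 : CRef := CRef.mk (Pat.mk 0x8000000080000001800000018000000000000000000000000 0x80000000c0000001f0000003f000000070000000200000002 7 6) 0 0 (step_sound _ 98 [(rh932754581e0f4330.shift 2 2), rhd8abe2cf75b06c77] (by decide +kernel))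
noncomputable def rh29dcd6f202bb903d : CRef := CRef.mk (Pat.mk 0x40000003c0000001c0000000000000000 0x20000000380000007c0000003c0000001c0000000f0000000e 7 7) 0 0 (step_sound _ 35 [(rh7b1f1fb55310c477.shift 2 0), rh7f1e2a8cdd2b35c0] (by decide +kernel))
noncomputable def rh68533a26f7edfd44 : CRef := CRef.mk (Pat.mk 0x3c000000180000001000000000 0x80000000e0000003c0000001e0000001f0000000e 7 6) 0 0 (step_sound _ 66 [rh00a29b95004a331a, (rheb0810cc63b001d8.shift 1 2)] (by decide +kernel))
noncomputable def rhabcad4f99cf46847 : CRef := CRef.mk (Pat.mk 0x1800000018000000100000000000000000 0x18000000180000003e0000007f0000003c 7 7) 0 0 (step_sound _ 36 [(rh7b1f1fb55310c477.shift 3 0), rhaf81cc574fb323e0] (by decide +kernel))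
noncomputable def rhbf84b86a987447b7 : CRef := CRef.mk (Pat.mk 0x100000001800000018000000000000000000000000 0x10000000180000001f0000003f0000003f0000003c 7 6) 0 0 (step_sound _ 68 [(rh53e41f96b2b88c97.shift 3 0), (rh820d4e04d5dcd02e.shift 3 0), rheda7d7c9e6e102f6] (by decide +kernel))
noncomputable def rh4e6e4f01458feea6 : CRef := CRef.mk (Pat.mk 0x180000001e00000002 0x50000000700000007000000030000001f0000001e00000006 7 5) 0 0 (step_sound _ 65 [(rh3244c3cc8379b070.shift 0 1), rh3995ce22386c1873] (by decide +kernel))
noncomputable def rh3505f2f91438b57d : CRef := CRef.mk (Pat.mk 0x180000001c000000000000000000000000 0xb0000000b0000001f0000001f000000070000000400000004 7 5) 0 0 (step_sound _ 97 [rh3a9117cb37491a91, (rh53b3c253cb0c65f4.shift 0 3)] (by decide +kernel))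
noncomputable def rh3a17e062c35cf8ef : CRef := CRef.mk (Pat.mk 0x38000000180000000000000000 0x400000004000000070000003f0000001f0000000b00000003 7 6) 0 0 (step_sound _ 98 [(rh71f2db6f0f8252e9.shift 0 2), (rhb14e2588a8d71db8.shift 0 2), rhcd4d16d28964fbaf, (rhdd3ef923ff6c7ad5.shift 1 1)] (by decide +kernel))
noncomputable def rhf6a52681dad7ce3f : CRef := CRef.mk (Pat.mk 0x800000008000000180000000c000000000000000000000000 0x80000000c0000001f0000003f000000130000000200000002 7 6) 0 0 (step_sound _ 100 [(rh55afc6a59410cf00.shift 3 2), rhd8abe2cf75b06c77] (by decide +kernel))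
noncomputable def rh86a88608d565b486 : CRef := CRef.mk (Pat.mk 0x380000001c000000000000000000000000 0xc0000000c0000001f000000380000001c0000000c0000000c0000000c 7 6) 0 0 (step_sound _ 67 [(rh9954101f0efffb9e.shift 2 0), (rha5dcd58df6282ff1.shift 0 1), (rhea7a1800d6f053bd.shift 3 0)] (by decide +kernel))
noncomputable def rh9acbeda4dd46eb2c : CRef := CRef.mk (Pat.mk 0x1c0000000e00000008 0x1e0000001e0000003f0000001e0000000e00000008 7 6) 0 0 (step_sound _ 130 [rh293b4e34463346d4, (rh6f1cbe15c631ee70.shift 2 0)] (by decide +kernel))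
noncomputable def rh05bfc9d638def702 : CRef := CRef.mk (Pat.mk 0x4000000440000000c0000000c00000000 0x7a0000003e0000006f0000000c0000000e00000002 7 7) 0 0 (step_sound _ 33 [(rh932754581e0f4330.shift 1 0), (rhfc4b544f4b9d4d9e.shift 0 1)] (by decide +kernel))
noncomputable def rhf4ea9b074c449713 : CRef := CRef.mk (Pat.mk 0x6c0000004c00000048 0x380000007c0000003f0000006c0000006c00000048 7 7) 0 0 (step_sound _ 98 [(rh2145e1d24b96a57e.shift 2 0), rh82ea1a8795b8a307] (by decide +kernel))
noncomputable def rhe53757e9b6e5b680 : CRef := CRef.mk (Pat.mk 0x800000018000000180000001e00000000 0x60000000f0000001b0000001f0000003e00000003 7 6) 0 0 (step_sound _ 65 [rh1804430689d29a28, (rh3244c3cc8379b070.shift 0 1)] (by decide +kernel))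
noncomputable def rhba63d255a8bbea6f : CRef := CRef.mk (Pat.mk 0x80000000c0000000c 0x1f0000001f0000003b0000000e0000000c 7 6) 0 0 (step_sound _ 99 [rh116fb55c07963c63, (rh5c5e593799055d58.shift 2 0)] (by decide +kernel))
noncomputable def rhcc5d7f5742aa6f0f : CRef := CRef.mk (Pat.mk 0x36000000260000002000000000 0xa0000001e0000001f0000001e00000036000000370000002300000003 7 6) 0 0 (step_sound _ 130 [(rh30a583d4be2fd14a.shift 0 1), (rh503dd4575245365b.shift 1 1), (rh68a777751bfeafdf.shift 1 1), rhe389f45105baff9f] (by decide +kernel))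
noncomputable def rh5427db86361c1fd4 : CRef := CRef.mk (Pat.mk 0x800000008000000180000000800000000 0x8000000180000001c0000001c0000000f0000001c0000000800000008 7 5) 0 0 (step_sound _ 130 [(rh50fbb5868c909700.shift 2 1), rhbb263a0b25b14ec1] (by decide +kernel))
noncomputable def rh9a5e90fb6c2b3692 : CRef := CRef.mk (Pat.mk 0x800000008000000180000000c00000000 0x40000000c0000000e0000001f0000001f00000013 7 5) 0 0 (step_sound _ 36 [(rh55afc6a59410cf00.shift 3 0), rh8ceade854434116d] (by decide +kernel))
noncomputable def rh12e1f87e8636d236 : CRef := CRef.mk (Pat.mk 0x800000008000000180000000800000000 0x40000000c0000000f0000001e0000000f0000000e 7 5) 0 0 (step_sound _ 34 [(rh932754581e0f4330.shift 2 0), rh9615f9b8d9accadb] (by decide +kernel))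
noncomputable def rh28a47b1f1561a6b9 : CRef := CRef.mk (Pat.mk 0x800000008000000180000001c00000000 0x140000003c0000000f0000001c0000001f00000003 7 6) 0 0 (step_sound _ 33 [rh404813dbdaa3b5a6, (rh53b3c253cb0c65f4.shift 0 1)] (by decide +kernel))
noncomputable def rh85d77ecd2c80b326 : CRef := CRef.mk (Pat.mk 0x1800000018000000000000000000000000 0xc0000000c0000000c0000001c000000380000001f0000001c0000000c 7 6) 0 0 (step_sound _ 163 [(rh55a1f6c57a317ce6.shift 3 1), rh921af43d3ba4d0b9, (rhb3e5613249985042.shift 2 0)] (by decide +kernel))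
noncomputable def rh3fe1c437754382b6 : CRef := CRef.mk (Pat.mk 0x400000004c0000006c000000040000000000000000 0x8000000480000006c0000006c0000003f0000007800000038 7 7) 0 0 (step_sound _ 163 [(rh5c5e593799055d58.shift 2 2), rh68b183541660a5b7] (by decide +kernel))
noncomputable def rh94c5fc1c0baff1ef : CRef := CRef.mk (Pat.mk 0x18000000980000000000000000 0x280000003c0000003c0000001c00000018000000fc0000002f0000000c 7 8) 0 0 (step_sound _ 69 [(rh2fe78cc5ca4405d8.shift 3 2), rhc0c91c0a1048a80d] (by decide +kernel))
noncomputable def rhc4ef6306db5f37fa : CRef := CRef.mk (Pat.mk 0xc0000000c000000000000000000000000 0x1800000018000000180000000c0000000f0000003c0000001c0000001c 7 6) 0 0 (step_sound _ 163 [(rh503dd4575245365b.shift 2 2), rh53f3e6031473637a, (rh642e50382fd7f7a3.shift 2 0)] (by decide +kernel))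
noncomputable def rh43b4f7d9d8c73dfd : CRef := CRef.mk (Pat.mk 0x18000000180000000800000008 0x200000002000000070000003f0000001f0000000c00000008 7 6) 0 0 (step_sound _ 98 [(rh50fbb5868c909700.shift 2 0), (rhf82a4e9f7d8e0938.shift 0 1)] (by decide +kernel))
noncomputable def rhfa48504c11e28fb8 : CRef := CRef.mk (Pat.mk 0x1c0000003c000000040000000000000000 0xe0000000f0000001c0000003c0000007c0000003800000020 7 7) 0 0 (step_sound _ 163 [rh361848c5e530bc5b, (rh5c5e593799055d58.shift 2 2)] (by decide +kernel))
noncomputable def rhf72c8328dc3ec8e4 : CRef := CRef.mk (Pat.mk 0x10000000180000003c0000000000000000 0xe0000001f0000001e0000003c0000000e00000008 7 6) 0 0 (step_sound _ 98 [rh1307d6909d5f0ebc, (rh3244c3cc8379b070.shift 1 2)] (by decide +kernel))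
noncomputable def rh16337c54e5e60ac4 : CRef := CRef.mk (Pat.mk 0x100000001800000018 0x3c0000007f0000003e0000001800000018 7 7) 0 0 (step_sound _ 100 [(rh5c5e593799055d58.shift 3 0), rhabf507d18231341f] (by decide +kernel))
noncomputable def rhdf1539d898777a52 : CRef := CRef.mk (Pat.mk 0x180000001800000010 0x3c0000003f0000003f0000001f0000001800000010 7 6) 0 0 (step_sound _ 100 [rh2f65ad3ee989cd6f, (rh5fa50b509d4ce753.shift 3 0), (rh7f9f3607ee25a93b.shift 3 0)] (by decide +kernel))
noncomputable def rhb96740ba38a6bf29 : CRef := CRef.mk (Pat.mk 0x20000001e0000001800000000000000000000000000000000 0x60000001e0000001f00000003000000070000000700000005 7 5) 0 0 (step_sound _ 129 [rh960b57e280e30fb6, (rheb0810cc63b001d8.shift 0 4)] (by decide +kernel))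
noncomputable def rh7992eb0daa364fff : CRef := CRef.mk (Pat.mk 0x1c000000180000000000000000 0x400000004000000070000001f0000001f0000000b0000000b 7 5) 0 0 (step_sound _ 97 [rh080fdc9fb1b3e40d, (rhb739f4f82bb681b4.shift 0 2)] (by decide +kernel))
noncomputable def rhbe7c469adf46a220 : CRef := CRef.mk (Pat.mk 0x1800000038000000000000000000000000 0x30000000b0000001f0000003f000000070000000400000004 7 6) 0 0 (step_sound _ 98 [(rh0e1512cbacfbd48b.shift 0 2), (rh88129595a1b18399.shift 1 0), (rhbb7213d4724395ac.shift 0 1), (rhbe5fc5902345a0b9.shift 0 3)] (by decide +kernel))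
noncomputable def rh0484b6509b470bb7 : CRef := CRef.mk (Pat.mk 0xc000000180000000800000008 0x200000002000000130000003f0000001f0000000c00000008 7 6) 0 0 (step_sound _ 100 [(rh2f68792b6b779e96.shift 3 0), (rhf82a4e9f7d8e0938.shift 0 1)] (by decide +kernel))
noncomputable def rhdf6436e71326bf33 : CRef := CRef.mk (Pat.mk 0x1c00000038000000000000000000000000 0xc0000000c0000000c0000001c000000380000001f0000000c0000000c 7 6) 0 0 (step_sound _ 163 [(rh3e595262c1b737ad.shift 3 2), (rhb3e5613249985042.shift 2 0), rhba986975ba1103df] (by decide +kernel))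
noncomputable def rh6717c29cf54c2308 : CRef := CRef.mk (Pat.mk 0x80000000e0000001c000000000000000000000000 0x80000000e0000001e0000003f0000001e0000001e 7 6) 0 0 (step_sound _ 34 [rh16d27819d2c713c2, (rh9e3edb185cc347de.shift 2 1)] (by decide +kernel))
noncomputable def rhe3d74dc6875acb98 : CRef := CRef.mk (Pat.mk 0xc0000000c000000440000000400000000 0x20000000e0000000c0000006f0000003e0000007a 7 7) 0 0 (step_sound _ 129 [(rh50fbb5868c909700.shift 1 1), rh56b76d33cc0c7fa5] (by decide +kernel))
noncomputable def rh90d2f49f506bd1dd : CRef := CRef.mk (Pat.mk 0x480000004c0000006c000000000000000000000000 0x480000006c0000006c0000003f0000007c00000038 7 7) 0 0 (step_sound _ 66 [rh68b183541660a5b7, (rh71222050f2c63a3a.shift 2 1)] (by decide +kernel))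
noncomputable def rh807247d9a0029607 : CRef := CRef.mk (Pat.mk 0x1e00000018000000180000000800000000 0x30000003e0000001f0000001b0000000f00000006 7 6) 0 0 (step_sound _ 97 [rh40ad02692ae12a97, (rheb0810cc63b001d8.shift 0 3)] (by decide +kernel))
noncomputable def rhdfb85d8e685264b4 : CRef := CRef.mk (Pat.mk 0xc0000000c000000080000000000000000 0xc0000000e0000003b0000001f0000001f 7 6) 0 0 (step_sound _ 35 [(rh7b1f1fb55310c477.shift 2 0), rha4545e55777d4c57] (by decide +kernel))
noncomputable def rh85519decc8e5d083 : CRef := CRef.mk (Pat.mk 0x20000000260000003600000000000000000000000000000000 0x30000002300000037000000360000001e0000001f0000001e0000000a 7 6) 0 0 (step_sound _ 98 [(rh3cb04db3dd2b6a55.shift 1 1), (rh56259dd1390eee46.shift 1 0), (rh83925760de8cb0a5.shift 0 1), (rhc7cbf1b986ad1490.shift 0 1)] (by decide +kernel))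
noncomputable def rhea017950332447f0 : CRef := CRef.mk (Pat.mk 0x8000000180000000800000008000000000000000000000000 0x8000000080000001c0000000f0000001c0000001c0000001800000008 7 5) 0 0 (step_sound _ 98 [(rh932754581e0f4330.shift 2 2), rhe7be35e5f4f42eb7] (by decide +kernel))
noncomputable def rh01f86b9786bd9499 : CRef := CRef.mk (Pat.mk 0xc00000018000000080000000800000000 0x130000001f0000001f0000000e0000000c00000004 7 5) 0 0 (step_sound _ 132 [(rh2f68792b6b779e96.shift 3 1), rh6fe3533b466b2991] (by decide +kernel))
noncomputable def rhbd9df789f891ff13 : CRef := CRef.mk (Pat.mk 0x800000018000000080000000800000000 0xe0000000f0000001e0000000f0000000c00000004 7 5) 0 0 (step_sound _ 130 [(rh50fbb5868c909700.shift 2 1), rhf870c61901764f57] (by decide +kernel))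
noncomputable def rh1b6a0bd10f8f81d2 : CRef := CRef.mk (Pat.mk 0x1c00000018000000080000000800000000 0x30000001f0000001c0000000f0000003c00000014 7 6) 0 0 (step_sound _ 129 [rh3aa8e3175ad84fc9, (rhb739f4f82bb681b4.shift 0 3)] (by decide +kernel))
noncomputable def rh024260ddf11de43b : CRef := CRef.mk (Pat.mk 0x100000001a000000880000000800000000 0x40000000c0000001f0000001b000000ff0000000e00000004 7 8) 0 0 (step_sound _ 131 [rh07243f0bfbe5a549, (rh771d065bdc85bf2d.shift 2 0), (rh9cac931137f1cfa0.shift 0 1)] (by decide +kernel))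
noncomputable def rh3eb7772926f2cb65 : CRef := CRef.mk (Pat.mk 0x1000000030000000180000000800000000 0x20000000660000003e0000003c0000001e0000000f00000002 7 7) 0 0 (step_sound _ 66 [rh31c977c241d2fc8b, (rh53b3c253cb0c65f4.shift 1 2)] (by decide +kernel))
noncomputable def rh3db3cec0079cd628 : CRef := CRef.mk (Pat.mk 0x480000004c00000044000000040000000000000000 0x2000000060000004e0000006c0000007f0000003e0000007a00000020 7 7) 0 0 (step_sound _ 162 [(rh771d065bdc85bf2d.shift 1 1), (rh8613c4d15736e5cc.shift 2 0), (rhbf976cf9e7c4c817.shift 0 1)] (by decide +kernel))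
noncomputable def rhae9f8046dbe91b1e : CRef := CRef.mk (Pat.mk 0x80000000c000000040000000000000000 0xc0000000c0000000c000000070000003e0000000e 7 6) 0 0 (step_sound _ 34 [rh68aef7c60be981ca, (rh71222050f2c63a3a.shift 2 0)] (by decide +kernel))
noncomputable def rhbe356a9805652aea : CRef := CRef.mk (Pat.mk 0xb00000009800000088000000080000000000000000 0x40000000f000000bf000000df000000f8000000780000005000000040 7 8) 0 0 (step_sound _ 163 [(rh5d9b544e5d59a29d.shift 0 3), (rh8613c4d15736e5cc.shift 3 0)] (by decide +kernel))
noncomputable def rh72c7977c130cc405 : CRef := CRef.mk (Pat.mk 0x1800000038000000000000000000000000 0x140000001f0000003f0000000f0000000c0000000c 7 6) 0 0 (step_sound _ 98 [(rh38b3b1b375fe87da.shift 1 0), (rhbe5fc5902345a0b9.shift 0 3), (rhcc2be1f880c5ea3e.shift 0 2)] (by decide +kernel))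
noncomputable def rh2a086e262886067d : CRef := CRef.mk (Pat.mk 0x100000001300000013000000000000000000000000 0xc0000000e0000000f0000001e0000001b00000013000000070000000700000006 7 5) 0 0 (step_sound _ 161 [rh17fd23ce851b0345, (rh1e309b005ffa1b36.shift 0 1), (rh377e4fdc1b1e4809.shift 0 3), (rh566659606c8abe04.shift 0 2)] (by decide +kernel))
noncomputable def rh68f2b6dc78a8a066 : CRef := CRef.mk (Pat.mk 0x9800000018000000080000000800000000 0x8000000f80000001e0000000f0000003c00000014 7 8) 0 0 (step_sound _ 133 [(rh361cc68994bd8a63.shift 3 3), rhe8443e1a8f39094e] (by decide +kernel))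
noncomputable def rh6b95404ef2d41242 : CRef := CRef.mk (Pat.mk 0x70000000f000000040000000000000000 0x200000003000000070000000f0000001f0000001b0000000a 7 5) 0 0 (step_sound _ 161 [(rh2145e1d24b96a57e.shift 1 2), rh795c8a3d80cc284e] (by decide +kernel))
noncomputable def rha88a296af148b25e : CRef := CRef.mk (Pat.mk 0x800000009800000098000000100000000000000000 0x80000008c000000df000000ff0000007b0000004a0000004a 7 8) 0 0 (step_sound _ 130 [rh1aac160392d92428, (rh3c32e5e2eb13941b.shift 2 0), (rh6292bd8784ece55f.shift 1 3)] (by decide +kernel))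
noncomputable def rh0f5b430620b278ee : CRef := CRef.mk (Pat.mk 0x1c00000038000000000000000000000000 0xc0000001c000000380000003f000000fe0000003c 7 8) 0 0 (step_sound _ 67 [(rh27b44a0202980be0.shift 2 0), (rh40241bd608e5be1a.shift 2 0), rh59884d4b0b1c90ac, (rh626600d0d66a16d6.shift 1 0)] (by decide +kernel))
noncomputable def rh53ff93931f1fe954 : CRef := CRef.mk (Pat.mk 0x1c0000001800000010 0x200000002000000030000001f0000001f00000037 7 6) 0 0 (step_sound _ 65 [rh8a56f550f5bf5ccc, (rhb739f4f82bb681b4.shift 0 1)] (by decide +kernel))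
noncomputable def rh41cbdafadb77a24d : CRef := CRef.mk (Pat.mk 0x300000001c000000180000000800000000 0x60000007f0000001c0000001c0000000f00000006 7 7) 0 0 (step_sound _ 131 [(rh18965a982d73c794.shift 2 3), rh9ecd6e690e10113f] (by decide +kernel))
noncomputable def rh0b27d9eb03cc6e70 : CRef := CRef.mk (Pat.mk 0xc0000000c0000000c 0x20000001a0000003b0000001f0000000e0000000c 7 6) 0 0 (step_sound _ 99 [(rh5c5e593799055d58.shift 2 0), rh6d24fbb6eb9b4726] (by decide +kernel))
noncomputable def rhf4ef86aeba7b430a : CRef := CRef.mk (Pat.mk 0x180000001a000000180000001000000000 0x30000000300000001f0000001e0000001f0000003000000020 7 6) 0 0 (step_sound _ 164 [(rh5c5e593799055d58.shift 3 2), rh81fc4573a4316265] (by decide +kernel))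
noncomputable def rhaf77160d00c42114 : CRef := CRef.mk (Pat.mk 0x180000001a00000018000000000000000000000000 0x400000005000000070000001f0000001b0000001f000000070000000700000005 7 5) 0 0 (step_sound _ 97 [(rh13e22583a37a3f05.shift 0 1), (rh6e1685e3533aff0e.shift 0 3), rh7483439ef78802bd, (rhcc6468ed8f53dcbd.shift 0 1)] (by decide +kernel))
noncomputable def rh11b651d36f317e04 : CRef := CRef.mk (Pat.mk 0x1a0000001e0000000000000000 0x50000000700000007000000030000001e0000001e0000000700000004 7 5) 0 0 (step_sound _ 33 [rh4cb3c08de25487c3, (rheb0810cc63b001d8.shift 0 1)] (by decide +kernel))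
noncomputable def rhac7df607e0efe43d : CRef := CRef.mk (Pat.mk 0x4c0000000c0000000c 0x1a0000003b0000007e0000000f0000000c 7 7) 0 0 (step_sound _ 68 [(rh361cc68994bd8a63.shift 2 1), rh7da831de0c47cf41] (by decide +kernel))
noncomputable def rh7ed964f48a49056a : CRef := CRef.mk (Pat.mk 0xc0000001e000000020000000200000000 0x40000000e0000001e0000003a0000001f0000001d 7 6) 0 0 (step_sound _ 129 [(rh2f68792b6b779e96.shift 1 1), rh6c705495e4929159] (by decide +kernel))
noncomputable def rhe37d1ee5d79a9fc4 : CRef := CRef.mk (Pat.mk 0x2000000030000000600000000 0x50000000700000007000000060000000600000007000000030000000600000004 7 3) 0 0 (step_sound _ 129 [(rh505916f9d65a01c8.shift 0 1), (rh55afc6a59410cf00.shift 1 0)] (by decide +kernel))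
noncomputable def rh29cad279ba07067a : CRef := CRef.mk (Pat.mk 0x6000000030000000600000000 0x50000000700000007000000060000000600000007000000030000000600000004 7 3) 0 0 (step_sound _ 129 [(rh54b781067fb568cb.shift 0 1), (rh55afc6a59410cf00.shift 1 0)] (by decide +kernel))
noncomputable def rh66b3d590724d05d1 : CRef := CRef.mk (Pat.mk 0x2400000006000000020000000000000000 0x10000001b0000003f00000006000000070000000700000007 7 6) 0 0 (step_sound _ 131 [rh013611e4aba9ec43, (rh361cc68994bd8a63.shift 1 3)] (by decide +kernel))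
noncomputable def rh1f9a4b017e1e4aaa : CRef := CRef.mk (Pat.mk 0x8000000880000001a000000100000000000000000 0x40000000e000000ff0000001b0000001f0000000c00000004 7 8) 0 0 (step_sound _ 67 [(rh114380420d2c6317.shift 0 1), (rhc4526fc8abf298b6.shift 2 0), (rhcefd35685d0581ea.shift 0 1)] (by decide +kernel))
noncomputable def rh089d964e82110b11 : CRef := CRef.mk (Pat.mk 0x80000001800000030000000100000000000000000 0x20000000f0000001e0000003c0000003e0000006600000020 7 7) 0 0 (step_sound _ 130 [rh62fb730989be34e8, (rhb739f4f82bb681b4.shift 1 3)] (by decide +kernel))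
noncomputable def rh59d350aaad49c210 : CRef := CRef.mk (Pat.mk 0x4000000440000004c000000480000000000000000 0x200000007a0000003e0000007f0000006c0000004e0000000600000002 7 7) 0 0 (step_sound _ 66 [(rh1f7d98a79686c1d4.shift 0 2), (rhb781b7d4512f8b10.shift 2 1), (rhc4526fc8abf298b6.shift 1 0)] (by decide +kernel))
noncomputable def rh246b9880e0d0c2e0 : CRef := CRef.mk (Pat.mk 0x40000000c0000000800000000 0xe0000003e000000070000000c0000000c0000000c 7 6) 0 0 (step_sound _ 130 [(rh2145e1d24b96a57e.shift 2 1), rh5d5d0bbe75ea7ea8] (by decide +kernel))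
noncomputable def rhad2491a10d7d492a : CRef := CRef.mk (Pat.mk 0x80000008800000098000000b00000000000000000 0x400000005000000078000000f8000000df000000bf0000000f00000004 7 8) 0 0 (step_sound _ 67 [rh1ee6fca8f7941981, (rhb781b7d4512f8b10.shift 3 1)] (by decide +kernel))
noncomputable def rh00da3380ab0ad3f9 : CRef := CRef.mk (Pat.mk 0x130000001300000010000000000000000000000000 0x60000000700000007000000130000001b0000001e0000000f0000000e0000000c 7 5) 0 0 (step_sound _ 97 [(rh36d02af028602191.shift 0 2), rh4c145d583973abd2, rh9b8fd965d90bc724, (rhfc7c29d8e65d775f.shift 0 2)] (by decide +kernel))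
noncomputable def rhd38911bea56681da : CRef := CRef.mk (Pat.mk 0x800000008000000180000009800000000 0x140000003c0000000f0000001e000000f800000008 7 8) 0 0 (step_sound _ 37 [(rh2fe78cc5ca4405d8.shift 3 1), rhc005cfcf61da3d30] (by decide +kernel))
noncomputable def rhd9fd4512593f4679 : CRef := CRef.mk (Pat.mk 0x40000000f000000070000000000000000 0xa0000001b0000001f0000000f000000070000000300000002 7 5) 0 0 (step_sound _ 33 [(rh71222050f2c63a3a.shift 1 0), (rhf10f208b209f3b08.shift 0 1)] (by decide +kernel))
noncomputable def rhafda2fa2e018255f : CRef := CRef.mk (Pat.mk 0x1000000098000000980000008000000000 0x4a0000004a0000007b000000ff000000df0000008c00000008 7 8) 0 0 (step_sound _ 66 [(rhd74ad36f893673c6.shift 0 1), (rhe7fe8f70b95afbf0.shift 2 0), (rhf9d36e158778ce35.shift 1 2)] (by decide +kernel))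
noncomputable def rh40bae0465e983163 : CRef := CRef.mk (Pat.mk 0x380000001c00000000 0x3c000000fe0000003f000000380000001c0000000c 7 8) 0 0 (step_sound _ 99 [rh28152048bc8b598f, (rh37d9ceebb86d75d1.shift 2 0), (rhb99f8f6e6677b04f.shift 2 0), (rhce297e260b3dcf12.shift 1 0)] (by decide +kernel))
noncomputable def rh4511d1d6433de07f : CRef := CRef.mk (Pat.mk 0x8000000180000001c0000003000000000 0x60000000f0000001c0000001c0000007f00000006 7 7) 0 0 (step_sound _ 35 [rh5e9a0708c51a799a, (rhf48373e13d2bc128.shift 2 1)] (by decide +kernel))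
noncomputable def rh81f9e706880a3c91 : CRef := CRef.mk (Pat.mk 0xc0000000c0000000c000000000000000000000000 0xc0000000e0000001f0000003b0000001a00000002 7 6) 0 0 (step_sound _ 67 [(rh7b1f1fb55310c477.shift 2 1), rhe26c97eb20232dfe] (by decide +kernel))
noncomputable def rhdf6310c512ddbfd7 : CRef := CRef.mk (Pat.mk 0x10000000180000001a000000180000000000000000 0x20000000300000001f0000001e0000001f0000003000000030 7 6) 0 0 (step_sound _ 36 [rh02065ea4937a4962, (rh7b1f1fb55310c477.shift 3 0)] (by decide +kernel))
noncomputable def rhd063fbfa4e70b9bf : CRef := CRef.mk (Pat.mk 0x180000001a00000018000000000000000000000000 0x500000007000000070000001f0000001b0000001f000000070000000500000004 7 5) 0 0 (step_sound _ 161 [(rh086f6046fa319626.shift 0 4), (rh2405fc3f4e66b324.shift 0 2), (rh3d98fac3888c5a99.shift 0 2), rha510b14be4c4ab8b] (by decide +kernel))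
noncomputable def rh7d022e0021f2e430 : CRef := CRef.mk (Pat.mk 0x1e0000001a00000000000000000000000000000000 0x4000000070000001e0000001e00000003000000070000000700000005 7 5) 0 0 (step_sound _ 193 [(rh3244c3cc8379b070.shift 0 5), rhafa404f0038a85a1] (by decide +kernel))
noncomputable def rhc184c7fb8eff9d78 : CRef := CRef.mk (Pat.mk 0xc0000000c0000004c0000000000000000 0xc0000000f0000007e0000003b0000001a 7 7) 0 0 (step_sound _ 68 [(rh2fe78cc5ca4405d8.shift 2 2), rhff0dee619d5f33bf] (by decide +kernel))
noncomputable def rhf13f708293a72c5d : CRef := CRef.mk (Pat.mk 0x2000000020000001e0000000c00000000 0x1d0000001f0000003a0000001e0000000e00000004 7 6) 0 0 (step_sound _ 33 [(rh55afc6a59410cf00.shift 1 0), (rh88c93931e6fd939b.shift 0 1)] (by decide +kernel))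
noncomputable def rh6e7fbfa39d08c5c7 : CRef := CRef.mk (Pat.mk 0x600000003000000020000000000000000000000000000000000000000 0x40000000600000003000000070000000600000006000000070000000700000005 7 3) 0 0 (step_sound _ 129 [rh2da232b9d4227eef, (rh2f68792b6b779e96.shift 1 4)] (by decide +kernel))
noncomputable def rh72e03255e234953d : CRef := CRef.mk (Pat.mk 0x600000003000000060000000000000000000000000000000000000000 0x40000000600000003000000070000000600000006000000070000000700000005 7 3) 0 0 (step_sound _ 129 [(rh2f68792b6b779e96.shift 1 4), rhf70fa7932a4faeed] (by decide +kernel))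
noncomputable def rhf657f5b2ca680928 : CRef := CRef.mk (Pat.mk 0x200000006000000240000000000000000 0x70000000700000007000000060000003f0000001b00000001 7 6) 0 0 (step_sound _ 67 [rh1395ac5902e14444, (rh2fe78cc5ca4405d8.shift 1 2)] (by decide +kernel))
noncomputable def rh1f3f33a43c815999 : CRef := CRef.mk (Pat.mk 0x180000001c000000100000001800000000 0x60000001f0000001c0000001e0000007c00000024 7 7) 0 0 (step_sound _ 37 [(rh55afc6a59410cf00.shift 4 0), rhee8ec45b00c034e3] (by decide +kernel))
noncomputable def rh5db8d9fe6e31c388 : CRef := CRef.mk (Pat.mk 0x180000001c000000000000000000000000 0xc0000000c0000000f0000007c0000001c0000000c0000000c0000000c 7 7) 0 0 (step_sound _ 133 [(rh18965a982d73c794.shift 2 3), rh7092979a6fa62a90] (by decide +kernel))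
noncomputable def rhe09b3b43cde84d84 : CRef := CRef.mk (Pat.mk 0x20000001a000000130000001200000000 0xe0000001f0000000b0000001b0000001b0000001200000002 7 5) 0 0 (step_sound _ 128 [(rh50fbb5868c909700.shift 0 1), rh597cffcd6974aab4] (by decide +kernel))
noncomputable def rhb060aca2ad7ec3d4 : CRef := CRef.mk (Pat.mk 0x6000000070000000c00000000 0xa0000000e0000000e000000040000001e000000070000000e00000008 7 5) 0 0 (step_sound _ 100 [(rh361cc68994bd8a63.shift 0 2), (rhfa3205aafd2af0b3.shift 1 0)] (by decide +kernel))
noncomputable def rh6713bf05d0fcc377 : CRef := CRef.mk (Pat.mk 0x80000001c0000001000000000 0xc0000000c0000000c0000001c0000001f00000017 7 5) 0 0 (step_sound _ 131 [(rh2145e1d24b96a57e.shift 3 1), rhcb4ab007ccdac052] (by decide +kernel))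
noncomputable def rh860b754a6362ccb4 : CRef := CRef.mk (Pat.mk 0x80000001c00000010000000000000000000000000 0x1c0000001c0000001c0000001c0000001f0000000f0000000c0000000c 7 5) 0 0 (step_sound _ 195 [(rh2145e1d24b96a57e.shift 3 3), rh6c6f85a177009b4b] (by decide +kernel))
noncomputable def rh1586acac7dc355e0 : CRef := CRef.mk (Pat.mk 0x80000000c000000180000000800000000 0x40000003c0000000f0000001e0000000f00000006 7 6) 0 0 (step_sound _ 130 [(rh50fbb5868c909700.shift 2 1), rhc9ea4589562d850a] (by decide +kernel))
noncomputable def rhb3774a94777b772d : CRef := CRef.mk (Pat.mk 0x100000001a000000080000000800000000 0xc0000000c0000000e0000001f0000001b0000000f0000000c00000004 7 5) 0 0 (step_sound _ 131 [(rh0ef6c71ce89c1c36.shift 2 0), rh4e80d67744da9df5, (rh9cac931137f1cfa0.shift 0 1)] (by decide +kernel))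
noncomputable def rh5fa9130e01af4634 : CRef := CRef.mk (Pat.mk 0x80000000c000000180000000800000000 0x40000000c0000000f0000001b0000001f00000016 7 5) 0 0 (step_sound _ 130 [(rh50fbb5868c909700.shift 2 1), rhb7b53f5f7612a74b] (by decide +kernel))
noncomputable def rh4ec0df7d52515497 : CRef := CRef.mk (Pat.mk 0x3000000030000000200000003000000000 0x30000000300000003e0000007e0000004f 7 7) 0 0 (step_sound _ 38 [(rh55afc6a59410cf00.shift 5 0), rh941d1b589138751e] (by decide +kernel))
noncomputable def rh8055bb9dd0aa04a2 : CRef := CRef.mk (Pat.mk 0x100000001c000000180000000000000000 0xc0000000c0000000f0000001f0000001c0000001c0000000c0000000c 7 5) 0 0 (step_sound _ 35 [(rh71222050f2c63a3a.shift 3 0), rhcf04c05685bc15f0] (by decide +kernel))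
noncomputable def rh859100a5910086ba : CRef := CRef.mk (Pat.mk 0x18000000300000001800000000 0x80000000a0000001f0000001e000000340000001e0000000c 7 6) 0 0 (step_sound _ 131 [rh288ce8bb1d617389, (rhc89253ff58c66167.shift 3 1)] (by decide +kernel))
noncomputable def rhce4a2fcfe006baa9 : CRef := CRef.mk (Pat.mk 0x1800000018000000180000001e00000000 0x40000001f0000001f0000001b0000003e00000023 7 6) 0 0 (step_sound _ 37 [(rh55afc6a59410cf00.shift 4 0), rhc927244dbbe9195e] (by decide +kernel))
noncomputable def rhb8dcac5bc32e77d9 : CRef := CRef.mk (Pat.mk 0x1c000000180000000800000000 0xc0000000e0000000f0000001c0000001c0000000f00000006 7 5) 0 0 (step_sound _ 131 [(rh771d065bdc85bf2d.shift 2 0), (rh7b9fbdf6d2d059e4.shift 2 1), rhb23b86f1cc387068, (rhbd1553ade3ecbf42.shift 2 0)] (by decide +kernel))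
noncomputable def rh37e8c6cc6d461d35 : CRef := CRef.mk (Pat.mk 0x80000000180000001800000008 0x1c0000001c000000ff0000001f0000001800000008 7 8) 0 0 (step_sound _ 99 [(rh1741680720c097b4.shift 2 0), rh38b9f7ce4e4d2b02, (rh7b9fbdf6d2d059e4.shift 2 0), (rhb1fd28edfbfa6afa.shift 3 0)] (by decide +kernel))
noncomputable def rhef2a5712647a9ea5 : CRef := CRef.mk (Pat.mk 0x180000003800000000000000000000000000000000 0x140000001c0000001c000000180000003c0000000f0000003c0000001c00000014 7 6) 0 0 (step_sound _ 99 [(rh215e11e099257d75.shift 3 2), (rh59884d4b0b1c90ac.shift 0 1), rhf2fbcf7dfa5cfb3d, (rhffb8e5993241bf15.shift 2 0)] (by decide +kernel))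
noncomputable def rhd14f712e2e2a926a : CRef := CRef.mk (Pat.mk 0xc000000180000000800000000000000000000000000000000 0x80000000f0000001c0000000f0000003c0000001c0000001c00000014 7 6) 0 0 (step_sound _ 193 [(rhb739f4f82bb681b4.shift 0 5), rhdc1def09f65ff79b] (by decide +kernel))
noncomputable def rh6a0019c7d12ce8d7 : CRef := CRef.mk (Pat.mk 0xc0000001c000000080000000000000000 0x20000000f0000001e0000003f0000003700000016 7 6) 0 0 (step_sound _ 129 [rha3b12b0ea0faee33, (rhb739f4f82bb681b4.shift 0 3)] (by decide +kernel))
noncomputable def rhaf2a243d55857b3c : CRef := CRef.mk (Pat.mk 0x8000000080000001a00000030000000000000000000000000 0x140000001c0000001c0000001b0000003f0000006c0000000c0000000c 7 7) 0 0 (step_sound _ 99 [(rh114380420d2c6317.shift 0 2), (rh2ba2f6ef2c217e2c.shift 2 2), (rh544fd3f279a4d968.shift 2 0), (rhb1c562e40ee61608.shift 2 0), rhcc747324ec4b3797] (by decide +kernel))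
noncomputable def rhe2e30dbdf27d477d : CRef := CRef.mk (Pat.mk 0x40000000c00000018000000080000000000000000 0x140000001c0000001c000000080000000c0000000c0000001c0000001f0000003700000010 7 6) 0 0 (step_sound _ 163 [rh572ca3a101cda4a1, (rh6d579815265cbca7.shift 0 1), (rhd4b4beefcd67f51e.shift 3 1), (rhfa3205aafd2af0b3.shift 2 2)] (by decide +kernel))
noncomputable def rh914087d91deeb0be : CRef := CRef.mk (Pat.mk 0x18000000100000001c0000001800000000 0x240000007c0000001e0000001c0000001f00000006 7 7) 0 0 (step_sound _ 133 [(rh2f68792b6b779e96.shift 4 1), rhaad2a28ad6e78ef9] (by decide +kernel))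
noncomputable def rh0027df1486d34edd : CRef := CRef.mk (Pat.mk 0x1c00000018000000000000000000000000 0xc0000000c0000000c0000001c0000007c0000000f0000000c0000000c 7 7) 0 0 (step_sound _ 101 [rhb3089d8e3a82a7bf, (rhf48373e13d2bc128.shift 2 3)] (by decide +kernel))
noncomputable def rhb4797a1c7ead2d88 : CRef := CRef.mk (Pat.mk 0x12000000130000001a000000020000000000000000 0x2000000120000001b0000001b0000000b0000001f0000000e 7 5) 0 0 (step_sound _ 64 [rh3eb5e220367b6a11, (rh932754581e0f4330.shift 0 1)] (by decide +kernel))
noncomputable def rh14de69240a9eb4a9 : CRef := CRef.mk (Pat.mk 0xc000000070000000600000000000000000000000000000000 0x80000000e000000070000001e000000040000000e0000000e0000000a 7 5) 0 0 (step_sound _ 132 [(rh2fe78cc5ca4405d8.shift 0 4), (rhe8826dab31f3e5a9.shift 1 0)] (by decide +kernel))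
noncomputable def rh1fd5746e30de88bb : CRef := CRef.mk (Pat.mk 0x100000001c000000080000000000000000 0x170000001f0000001c0000000c0000000c0000000c 7 5) 0 0 (step_sound _ 35 [rh21a27eae1cb3b40f, (rh71222050f2c63a3a.shift 3 0)] (by decide +kernel))
noncomputable def rhce067b16947af382 : CRef := CRef.mk (Pat.mk 0x100000001c000000080000000000000000 0xc0000000c0000000f0000001f0000001c0000001c0000001c0000001c 7 5) 0 0 (step_sound _ 35 [(rh71222050f2c63a3a.shift 3 0), rhd471147a3d11f4dd] (by decide +kernel))
noncomputable def rh10823c4aca8e6e63 : CRef := CRef.mk (Pat.mk 0x8000000180000000c0000000800000000 0x60000000f0000001e0000000f0000003c00000004 7 6) 0 0 (step_sound _ 34 [(rh488a92b50de4e3ef.shift 0 1), (rh932754581e0f4330.shift 2 0)] (by decide +kernel))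
noncomputable def rh8db695cf3349212e : CRef := CRef.mk (Pat.mk 0x8000000080000001a00000010000000000000000000000000 0x40000000c0000000f0000001b0000001f0000000e0000000c0000000c 7 5) 0 0 (step_sound _ 99 [(rh114380420d2c6317.shift 0 2), (rh4b2a93d088820e67.shift 0 2), (rha9a9dd876407ae9a.shift 2 0)] (by decide +kernel))
noncomputable def rha7a0ad9869202067 : CRef := CRef.mk (Pat.mk 0x8000000180000000c0000000800000000 0x160000001f0000001b0000000f0000000c00000004 7 5) 0 0 (step_sound _ 34 [(rh66c079c7210c772f.shift 0 1), (rh932754581e0f4330.shift 2 0)] (by decide +kernel))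
noncomputable def rhefeb60103a7845a9 : CRef := CRef.mk (Pat.mk 0x30000000200000003000000030 0x4f0000007e0000003e0000003000000030 7 7) 0 0 (step_sound _ 102 [(rh2f68792b6b779e96.shift 5 0), rh4f376cda3e556c0e] (by decide +kernel))
noncomputable def rhb3cf1a42181f2319 : CRef := CRef.mk (Pat.mk 0x180000001c00000010000000000000000000000000 0xc0000000c0000001c0000001c0000001f0000000f0000000c0000000c 7 5) 0 0 (step_sound _ 195 [(rh2145e1d24b96a57e.shift 3 3), rh3f10dcc50ed1f7e1] (by decide +kernel))
noncomputable def rhe6c37a9d815abc1e : CRef := CRef.mk (Pat.mk 0x180000003000000018000000000000000000000000 0xc0000001e000000340000001e0000001f0000000a00000008 7 6) 0 0 (step_sound _ 67 [(rh42548283029e2a39.shift 3 0), (rhbf60266ed9688b86.shift 0 1)] (by decide +kernel))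
noncomputable def rhac3dded86da619a4 : CRef := CRef.mk (Pat.mk 0x1e00000018000000180000001800000000 0x230000003e0000001b0000001f0000001f00000004 7 6) 0 0 (step_sound _ 133 [(rh2f68792b6b779e96.shift 4 1), rh8a3c897e1d701e23] (by decide +kernel))
noncomputable def rhfd1244b5f942cbaf : CRef := CRef.mk (Pat.mk 0x8000000180000001c000000000000000000000000 0x60000000f0000001c0000001c0000000f0000000e0000000c 7 5) 0 0 (step_sound _ 67 [(rh46530d756bdf8511.shift 2 0), (rh674dd4f5f6cca5c0.shift 2 0), (rhc4526fc8abf298b6.shift 2 0), (rhde1bb52c0ac1ef55.shift 0 1)] (by decide +kernel))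
noncomputable def rhdfe91081415a753c : CRef := CRef.mk (Pat.mk 0x80000001800000018000000800000000000000000 0x8000000180000001f000000ff0000001c0000001c 7 8) 0 0 (step_sound _ 67 [(rh46530d756bdf8511.shift 2 0), (rh6eff4158bb400f47.shift 2 0), (rh79e4170ed8274321.shift 0 1), (rhf57bd6481b8b2ca7.shift 3 0)] (by decide +kernel))
noncomputable def rh24d4d4a7690d5fea : CRef := CRef.mk (Pat.mk 0x3800000018000000000000000000000000 0x140000001c0000003c0000000f0000003c000000180000001c0000001c00000014 7 6) 0 0 (step_sound _ 163 [(rh14e0829dc73b6804.shift 2 2), (rh28152048bc8b598f.shift 0 2), (rh70e33bfdf511e144.shift 3 0), rhb81f4abb6875afa9] (by decide +kernel))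
noncomputable def rh56df600adb90bf68 : CRef := CRef.mk (Pat.mk 0x8000000180000000c00000000 0x140000001c0000001c0000003c0000000f0000001c0000000f00000008 7 6) 0 0 (step_sound _ 33 [(rh53b3c253cb0c65f4.shift 0 1), rh5ec2fda876f82206] (by decide +kernel))
noncomputable def rh441c13cef3a571ea : CRef := CRef.mk (Pat.mk 0x80000001c0000000c00000000 0x16000000370000003f0000001e0000000f00000002 7 6) 0 0 (step_sound _ 33 [(rh53b3c253cb0c65f4.shift 0 1), rh962431b152c02687] (by decide +kernel))
noncomputable def rhe4cc6393f3c23c99 : CRef := CRef.mk (Pat.mk 0x300000001a000000080000000800000000 0xc0000000c0000006c0000003f0000001b0000001c0000001c00000014 7 7) 0 0 (step_sound _ 131 [(rh9cac931137f1cfa0.shift 0 1), (rhcbaa34959f85e2ef.shift 2 0), rhe2a99da09057dfc6, (rhe43b4aaaf26647b5.shift 2 0), (rhea90e7358341a1a4.shift 2 0)] (by decide +kernel))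
noncomputable def rhde33a10a407e655a : CRef := CRef.mk (Pat.mk 0x8000000180000000c0000000400000000000000000000000000000000 0x10000000370000001f0000001c0000000c0000000c000000080000001c0000001c00000014 7 6) 0 0 (step_sound _ 131 [(rh64458eeee53982bb.shift 0 4), (rh9e3680845ae0253e.shift 0 3), (rha707fb719e87fe6e.shift 3 3), (rhe8826dab31f3e5a9.shift 2 0)] (by decide +kernel))
noncomputable def rh6133faec8f9b0103 : CRef := CRef.mk (Pat.mk 0x8000000880000001800000030000000000000000000000000 0xf40000007c000000df0000001800000038000000280000000800000008 7 8) 0 0 (step_sound _ 99 [(rh3a61644a128cd4ab.shift 0 2), (rh544fd3f279a4d968.shift 2 0), (rhb32faae6e8187273.shift 3 2), (rhefddf76ae3f6b005.shift 1 2), (rhfc4b544f4b9d4d9e.shift 1 3)] (by decide +kernel))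
noncomputable def rhf0662fa892a90129 : CRef := CRef.mk (Pat.mk 0x1800000018000000300000001000000000 0x40000001f0000001f0000003e0000007800000028 7 7) 0 0 (step_sound _ 97 [rh259e765a2b0bd3ea, (rhab22b5b56e7b3243.shift 1 2)] (by decide +kernel))
noncomputable def rh3c4a6ce6652bd85b : CRef := CRef.mk (Pat.mk 0x4000000040000000c00000018000000000000000000000000 0x1a0000003e0000000f0000000c0000001c000000160000000600000006 7 6) 0 0 (step_sound _ 195 [(rh6b4df1d196e30d4e.shift 1 0), (rh989d47d0e3b00ee1.shift 0 2), (rha7e5b30d6e5612d1.shift 2 2)] (by decide +kernel))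
noncomputable def rh4d681855812c288b : CRef := CRef.mk (Pat.mk 0x80000001c00000010000000180000000000000000 0xc0000001c0000001f0000001f0000000f0000000e 7 5) 0 0 (step_sound _ 99 [rh2db95101849a4233, (rh40241bd608e5be1a.shift 2 0), (rh46530d756bdf8511.shift 2 0)] (by decide +kernel))
noncomputable def rhabf404dcde258f31 : CRef := CRef.mk (Pat.mk 0x80000008800000018000000300000000000000000 0xf40000007c000000df000000180000003c0000006c00000004 7 8) 0 0 (step_sound _ 67 [(rh2ba2f6ef2c217e2c.shift 2 1), (rh3a61644a128cd4ab.shift 0 1), (rhc4526fc8abf298b6.shift 2 0), (rhfc4b544f4b9d4d9e.shift 1 2)] (by decide +kernel))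
noncomputable def rhae93e663416b4d44 : CRef := CRef.mk (Pat.mk 0x80000001c00000030000000000000000000000000 0x180000001c0000003f0000007f0000003400000020 7 7) 0 0 (step_sound _ 68 [rh1d82f5e3bed0039b, (rh7b1f1fb55310c477.shift 3 1)] (by decide +kernel))
noncomputable def rh82e5c46eb4189e34 : CRef := CRef.mk (Pat.mk 0x180000003c0000000000000000 0x20000000380000003800000018000000180000001f0000003f0000002800000008 7 6) 0 0 (step_sound _ 132 [(rh571950d89739e871.shift 3 1), (rhbe5fc5902345a0b9.shift 0 2), (rhc28deca3165f2c8d.shift 3 1), (rhf9366b6a121593ef.shift 3 0)] (by decide +kernel))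
noncomputable def rh172ed5ec80c11d8c : CRef := CRef.mk (Pat.mk 0x1c0000003c0000002000000000 0x1e0000001f0000001c0000003c0000002e00000008 7 6) 0 0 (step_sound _ 132 [rh1307d6909d5f0ebc, (rh2145e1d24b96a57e.shift 4 1)] (by decide +kernel))
noncomputable def rhdd228d7495546ede : CRef := CRef.mk (Pat.mk 0x180000009800000008 0x1c0000001c0000001f0000001f000000f800000008 7 8) 0 0 (step_sound _ 37 [rh0eaff7d6d074fe7c, (rh2fe78cc5ca4405d8.shift 3 1)] (by decide +kernel))
noncomputable def rh806ebeff7d7374dd : CRef := CRef.mk (Pat.mk 0x18000000380000000000000000 0x20000000380000003c0000001c0000001c000000180000003c0000002f0000000c 7 6) 0 0 (step_sound _ 132 [(rh1e309b005ffa1b36.shift 3 0), (rh503dd4575245365b.shift 3 1), rh86a283f715bd0e9f, (rhc28deca3165f2c8d.shift 3 1)] (by decide +kernel))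
noncomputable def rh41a986fca86cdb94 : CRef := CRef.mk (Pat.mk 0x200000006000000020000000200000000 0x40000000700000007000000030000000600000006000000030000000300000001 7 3) 0 0 (step_sound _ 32 [rh932754581e0f4330, (rha983290539995bec.shift 0 1)] (by decide +kernel))
noncomputable def rh563186a524acb4a4 : CRef := CRef.mk (Pat.mk 0xc0000001c000000000000000000000000 0x800000008000000080000000f0000001f0000003c0000001c0000001c 7 6) 0 0 (step_sound _ 128 [rh91070992a7b3efa7, (rhab22b5b56e7b3243.shift 0 3)] (by decide +kernel))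
noncomputable def rhfda3dc31c1fd0612 : CRef := CRef.mk (Pat.mk 0x400000004c0000006c000000040000000000000000 0x8000000480000006c0000006c0000003f0000007800000038 7 7) 0 0 (step_sound _ 163 [(rh5c5e593799055d58.shift 2 2), rhfdc4ff01115abbc4] (by decide +kernel))
noncomputable def rh2ad5b247aee95739 : CRef := CRef.mk (Pat.mk 0x1e0000001a00000008000000000000000000000000 0x4000000070000001e0000001a0000000f000000070000000700000005 7 5) 0 0 (step_sound _ 193 [(rh3244c3cc8379b070.shift 0 5), rh5fb6b1e208ec7050] (by decide +kernel))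
noncomputable def rh9244c5bcf2879a12 : CRef := CRef.mk (Pat.mk 0x1800000018000000100000000000000000 0x1000000018000000180000001f0000007c00000038 7 7) 0 0 (step_sound _ 36 [(rh7b1f1fb55310c477.shift 3 0), rheef8823181f1d3a6] (by decide +kernel))
noncomputable def rh6121012648d706fb : CRef := CRef.mk (Pat.mk 0x80000000c000000180000000000000000 0x180000001c0000003c0000000f0000000f0000001c0000000800000008 7 6) 0 0 (step_sound _ 97 [rh67b7f9f28f679738, (rhb739f4f82bb681b4.shift 0 2)] (by decide +kernel))
noncomputable def rh1bbe87e2a59c9ff5 : CRef := CRef.mk (Pat.mk 0x1e00000000000000100000003000000000 0x4000000070000001e000000030000001f0000003700000005 7 6) 0 0 (step_sound _ 97 [rh3039a3476aa31630, (rheb0810cc63b001d8.shift 0 3)] (by decide +kernel))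
noncomputable def rhce0e3321b8d65e61 : CRef := CRef.mk (Pat.mk 0xc0000001c000000300000003000000000 0x600000006000000060000000c0000001c0000003f0000007700000006 7 7) 0 0 (step_sound _ 66 [(rh9954101f0efffb9e.shift 1 0), (rh9b5857224768a516.shift 0 1), (rhcd4eff53da13612e.shift 1 0), (rhcd6baf37b3e5de21.shift 1 1)] (by decide +kernel))
noncomputable def rh7f8587f47b3a1e86 : CRef := CRef.mk (Pat.mk 0x1c00000018000000300000001000000000 0x200000002000000070000001f0000001c0000003e0000007400000020 7 7) 0 0 (step_sound _ 129 [rh3f7a0e9543d49a96, (rhb739f4f82bb681b4.shift 0 3)] (by decide +kernel))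
noncomputable def rhc760802b631e17f0 : CRef := CRef.mk (Pat.mk 0x1800000038000000000000000000000000 0xc0000000c0000000c0000001e000000380000001f0000000c0000000c 7 6) 0 0 (step_sound _ 130 [rh4605e053324a4351, (rhb739f4f82bb681b4.shift 1 3)] (by decide +kernel))
noncomputable def rhe1b103d69743c636 : CRef := CRef.mk (Pat.mk 0x1c000000080000000800000000 0x140000001f0000001f0000001c0000000c0000000c00000004 7 5) 0 0 (step_sound _ 131 [(rh1741680720c097b4.shift 2 1), (rh3b734c5288922837.shift 2 0), rh3f6099629722ac7c, (rh771d065bdc85bf2d.shift 2 0)] (by decide +kernel))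
noncomputable def rh714fb4f7a93a268e : CRef := CRef.mk (Pat.mk 0x3000000100000000380000001000000000 0x4000001ff000000fe0000018f000000380000001e00000004 7 9) 0 0 (step_sound _ 131 [(rh1c516df976aad272.shift 0 1), (rh63230689a38bd388.shift 0 1), (rh94eecf20a5b238dd.shift 1 0), (rhb6d9a4788e160121.shift 0 3), (rhe828f8f061fc5c62.shift 0 3)] (by decide +kernel))
noncomputable def rhd454d9c1f992fd76 : CRef := CRef.mk (Pat.mk 0x1c00000038000000000000000000000000 0xc0000000c0000000f0000001c000000380000001f0000000c0000000c 7 6) 0 0 (step_sound _ 67 [(rh40241bd608e5be1a.shift 2 0), rhaf10d9b96b28ff65, (rhc188b957360716f7.shift 0 1)] (by decide +kernel))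
noncomputable def rhb5a09ed44a7471a5 : CRef := CRef.mk (Pat.mk 0x3000000018000000880000000800000000 0x800000008000000280000003800000018000000df0000007c000000f4 7 8) 0 0 (step_sound _ 131 [(rh56b76d33cc0c7fa5.shift 1 0), (rh62be5c716da4c399.shift 3 0), (rhd8d5fbf074709d68.shift 1 0), (rhea90e7358341a1a4.shift 2 0), rhf0d38cf1e7116183] (by decide +kernel))
noncomputable def rh001a17fcab73eeeb : CRef := CRef.mk (Pat.mk 0x1000000030000000180000001800000000 0x28000000780000003e0000001f0000001f00000004 7 7) 0 0 (step_sound _ 65 [(rh24ae073cf30720c4.shift 1 2), rh2ec50dcf2b8ea916] (by decide +kernel))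
noncomputable def rh775ffdb06044a4df : CRef := CRef.mk (Pat.mk 0x180000000c000000040000000400000000 0x600000006000000160000001c0000000c0000000f0000003e0000001a 7 6) 0 0 (step_sound _ 35 [rh0b48232756d2831b, (rh5a7dce561d0bf78d.shift 2 0), (rh7ad1c933821e6e1f.shift 1 0)] (by decide +kernel))
noncomputable def rh2affbbf66a313b7d : CRef := CRef.mk (Pat.mk 0x18000000100000001c00000008 0xe0000000f0000001f0000001f0000001c0000000c 7 5) 0 0 (step_sound _ 67 [(rh37d9ceebb86d75d1.shift 2 0), (rh7b9fbdf6d2d059e4.shift 2 0), rh9ee4c2ff49028927] (by decide +kernel))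
noncomputable def rhd8539c57a05dfa2a : CRef := CRef.mk (Pat.mk 0x3000000018000000880000000800000000 0x40000006c0000003c00000018000000df0000007c000000f4 7 8) 0 0 (step_sound _ 131 [(rh56b76d33cc0c7fa5.shift 1 0), (rh771d065bdc85bf2d.shift 2 0), (rhe43b4aaaf26647b5.shift 2 0), rhf0d38cf1e7116183] (by decide +kernel))
noncomputable def rhfc3d58d370a2b291 : CRef := CRef.mk (Pat.mk 0x300000001c00000008 0x20000000340000007f0000003f0000001c00000018 7 7) 0 0 (step_sound _ 100 [(rh5c5e593799055d58.shift 3 0), rh63162ed89804a093] (by decide +kernel))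
noncomputable def rh5942faf723e664d1 : CRef := CRef.mk (Pat.mk 0x3c000000180000000000000000000000000000000000000000 0x8000000280000003f0000001f0000001800000018000000380000003800000020 7 6) 0 0 (step_sound _ 132 [(rh2222a27c490588f5.shift 3 0), (rhb0c1e7919d9be92d.shift 3 2), (rhb14e2588a8d71db8.shift 0 5), (rhc38f566cab2818e5.shift 3 2)] (by decide +kernel))
noncomputable def rh3eff4bbc7b8d6081 : CRef := CRef.mk (Pat.mk 0x200000003c0000001c0000000000000000 0x80000002e0000003c0000001c0000001f0000001e 7 6) 0 0 (step_sound _ 36 [rh00a29b95004a331a, (rh71222050f2c63a3a.shift 4 0)] (by decide +kernel))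
noncomputable def rh409d31dfc7a45237 : CRef := CRef.mk (Pat.mk 0x80000009800000018000000000000000000000000 0x8000000f80000001f0000001f0000001c0000001c 7 8) 0 0 (step_sound _ 133 [rh1d57a823387b5ddc, (rh361cc68994bd8a63.shift 3 3)] (by decide +kernel))
noncomputable def rh3b0397c76d601574 : CRef := CRef.mk (Pat.mk 0x38000000180000000000000000000000000000000000000000 0xc0000002f0000003c000000180000001c0000001c0000003c0000003800000020 7 6) 0 0 (step_sound _ 132 [(rh2222a27c490588f5.shift 3 0), (rh3cb04db3dd2b6a55.shift 3 2), (rh5beea0fb2d52a06b.shift 0 2), (rhfc7c29d8e65d775f.shift 3 3)] (by decide +kernel))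
noncomputable def rh7562c99e9f5a2f28 : CRef := CRef.mk (Pat.mk 0x200000002000000060000000200000000000000000000000000000000 0x10000000300000003000000060000000600000003000000070000000700000004 7 3) 0 0 (step_sound _ 224 [(rh50fbb5868c909700.shift 0 4), rhb924b9c6aabed5c6] (by decide +kernel))
noncomputable def rh95d3f48b4da68fc9 : CRef := CRef.mk (Pat.mk 0x1c0000000c000000000000000000000000 0x1c0000001c0000003c0000001f0000000f000000080000000800000008 7 6) 0 0 (step_sound _ 96 [(rh24ae073cf30720c4.shift 0 3), rh82822065305e0cde] (by decide +kernel))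
noncomputable def rhdac4f212680a31af : CRef := CRef.mk (Pat.mk 0x40000006c0000004c0000004000000000 0x38000000780000003f0000006c0000006c0000004800000008 7 7) 0 0 (step_sound _ 35 [(rh7b1f1fb55310c477.shift 2 0), (rh96cdada151fb258c.shift 0 1)] (by decide +kernel))
noncomputable def rh48a15509d2117973 : CRef := CRef.mk (Pat.mk 0x80000001a0000001e0000000000000000 0x500000007000000070000000f0000001a0000001e0000000700000004 7 5) 0 0 (step_sound _ 33 [(rheb0810cc63b001d8.shift 0 1), rhfc7f38e06c8a2116] (by decide +kernel))
noncomputable def rh0f675cdb19e6625e : CRef := CRef.mk (Pat.mk 0x10000000180000001800000000 0x380000007c0000001f000000180000001800000010 7 7) 0 0 (step_sound _ 132 [rh2b856cb44e4e309f, (rh5c5e593799055d58.shift 3 1)] (by decide +kernel))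
noncomputable def rhe6e15c94901d6426 : CRef := CRef.mk (Pat.mk 0x200000002000000030000000200000000000000000000000000000000 0x10000000300000003000000030000000300000006000000070000000700000001 7 3) 0 0 (step_sound _ 224 [rh509475ff030b1703, (rh50fbb5868c909700.shift 0 4)] (by decide +kernel))
noncomputable def rhdf5100fe8cc088fd : CRef := CRef.mk (Pat.mk 0x180000000c00000008000000000000000000000000 0x8000000080000001c0000000f0000000f0000003c0000001c00000018 7 6) 0 0 (step_sound _ 129 [(rh53b3c253cb0c65f4.shift 0 4), rha254bef914f3e162] (by decide +kernel))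
noncomputable def rhabdbc393d546be11 : CRef := CRef.mk (Pat.mk 0x3000000010000000000000001e0000000000000000 0x5000000370000001f000000030000001e0000000700000004 7 6) 0 0 (step_sound _ 97 [(rh3244c3cc8379b070.shift 0 2), rh71942ddb032e78b7] (by decide +kernel))
noncomputable def rh2a1b1cb9fedfb244 : CRef := CRef.mk (Pat.mk 0x30000000300000001c0000000c000000000000000000000000 0x6000000770000003f0000001c0000000c000000060000000600000006 7 7) 0 0 (step_sound _ 162 [(rh6d571b54e8dd9e33.shift 1 5), (rh85d8fbe61f816818.shift 0 4), (rhb3e5613249985042.shift 1 0), (rhdab0e6f012231ab6.shift 1 3)] (by decide +kernel))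
noncomputable def rh1a1e27864a65d223 : CRef := CRef.mk (Pat.mk 0x1000000030000000180000001c000000000000000000000000 0x20000000740000003e0000001c0000001f000000070000000200000002 7 7) 0 0 (step_sound _ 97 [(rh53b3c253cb0c65f4.shift 0 3), rhb96ca1f08ca97ac8] (by decide +kernel))
noncomputable def rh229a23df591ff6e6 : CRef := CRef.mk (Pat.mk 0x3800000018000000000000000000000000 0xc0000000c0000001f000000380000001e0000000c0000000c0000000c 7 6) 0 0 (step_sound _ 98 [(rh53b3c253cb0c65f4.shift 1 3), rhf162961ae74e187b] (by decide +kernel))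
noncomputable def rhfee86ab23a573a0d : CRef := CRef.mk (Pat.mk 0x8000000080000001c000000000000000000000000 0x40000000c0000000c0000001c0000001f0000001f00000014 7 5) 0 0 (step_sound _ 67 [(rh46baee19951a66e7.shift 2 0), (rh6eff4158bb400f47.shift 2 0), (rhc071260090cea32e.shift 0 1), (rhc4526fc8abf298b6.shift 2 0)] (by decide +kernel))
noncomputable def rhc617f6444579c950 : CRef := CRef.mk (Pat.mk 0x100000003800000100000000300000000000000000 0x40000001e000000380000018f000000fe000001ff00000004 7 9) 0 0 (step_sound _ 67 [(rh998cbc5b6e0cfcf4.shift 0 1), (rhd64445e5e724fed5.shift 1 1), (rhd8970f20df7aae31.shift 0 1), (rhf193011675629504.shift 0 1), rhf7e90babfc9f1a61] (by decide +kernel))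
noncomputable def rh0a0584dc96f7c367 : CRef := CRef.mk (Pat.mk 0x380000001c000000000000000000000000 0xc0000000c0000001f000000380000001c0000000f0000000c0000000c 7 6) 0 0 (step_sound _ 163 [(rh37d9ceebb86d75d1.shift 2 2), rh7dc69ad41d6e660d, (rhbdade720c6084246.shift 0 2)] (by decide +kernel))
noncomputable def rhd6cae3a89ed7fe10 : CRef := CRef.mk (Pat.mk 0x10000000130000001a000000020000000000000000 0x500000007000000070000001e0000001b0000001b0000000f0000000900000008 7 5) 0 0 (step_sound _ 161 [(rh04e571695666b5c1.shift 0 2), (rh1726a00b0a8befd0.shift 0 1), rh22f11455a56364ec] (by decide +kernel))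
noncomputable def rha8dae4a6283fcb12 : CRef := CRef.mk (Pat.mk 0x120000001300000012 0x50000000f0000000f0000000f0000001f0000001b00000012 7 5) 0 0 (step_sound _ 67 [(rhb2a0b9ccfb5cecd5.shift 0 1), rhf7873b924bf29a31] (by decide +kernel))
noncomputable def rhd65e234e33e3a1b6 : CRef := CRef.mk (Pat.mk 0x1000000003000000120000000200000000 0x500000007000000070000001e000000030000001e0000000600000004 7 5) 0 0 (step_sound _ 66 [(rh2fe78cc5ca4405d8.shift 0 2), rhe24554d2123fca38] (by decide +kernel))
noncomputable def rh0d44b57544dae185 : CRef := CRef.mk (Pat.mk 0x400000000c000000480000000800000000 0x18000000780000000c0000007f0000003c00000014 7 7) 0 0 (step_sound _ 68 [rh0ecdf52cf151ee42, (rh2fe78cc5ca4405d8.shift 2 2)] (by decide +kernel))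
noncomputable def rh4ee8738dfb755be0 : CRef := CRef.mk (Pat.mk 0x400000000c000000080000000800000000 0x140000001c0000001c000000780000000c0000000f0000003c00000014 7 7) 0 0 (step_sound _ 131 [(rh04e571695666b5c1.shift 2 1), (rh1726a00b0a8befd0.shift 2 0), rh641b5241be04eec6] (by decide +kernel))
noncomputable def rhcd6f12620c36a682 : CRef := CRef.mk (Pat.mk 0x2000000020000000600000000 0x500000007000000070000000200000002000000030000000700000005 7 3) 0 0 (step_sound _ 129 [rh1726a00b0a8befd0, (rh55afc6a59410cf00.shift 1 0)] (by decide +kernel))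
noncomputable def rh9d73e8b02b9a8e27 : CRef := CRef.mk (Pat.mk 0x3800000030000000100000003000000000 0x60000003e000000380000001f0000007c00000008 7 7) 0 0 (step_sound _ 35 [(rh5f735fc1ebd219f8.shift 0 1), (rh932754581e0f4330.shift 3 0)] (by decide +kernel))
noncomputable def rhea7a452624c2d472 : CRef := CRef.mk (Pat.mk 0x800000008000000180000000800000000 0x40000000c0000000f0000001e0000000f0000000e 7 5) 0 0 (step_sound _ 34 [rh92c9e5adf8770209, (rh932754581e0f4330.shift 2 0)] (by decide +kernel))
noncomputable def rh34097ee86ed23e08 : CRef := CRef.mk (Pat.mk 0x4000000400000000e0000000000000000 0x600000006000000730000003e0000000700000004 7 7) 0 0 (step_sound _ 68 [rh1f996174fe04e4c4, (rh45e9dfbd6bd5d256.shift 1 2), rha700292a805d5a54] (by decide +kernel))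
noncomputable def rha7a0a847d8d4d77d : CRef := CRef.mk (Pat.mk 0x20000001e00000002000000000000000000000000 0x4000000060000001e0000003e0000000f0000000700000005 7 6) 0 0 (step_sound _ 100 [rhc53719b0b756b83a, (rhe25b0a99195a5d59.shift 1 3)] (by decide +kernel))
noncomputable def rha242aefea148926b : CRef := CRef.mk (Pat.mk 0x10000000030000000000000002000000000000000000000000 0x5000000070000001f000000030000000300000007000000070000000700000005 7 5) 0 0 (step_sound _ 129 [(rh00c94e032c7db787.shift 0 2), rh0a6888916bcef86b, (rhb1a251d9bff81766.shift 0 2), (rhc3deac9be89f03d7.shift 0 1)] (by decide +kernel))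
noncomputable def rh5931525b362a352b : CRef := CRef.mk (Pat.mk 0x400000000c0000004000000008000000000000000000000000 0x40000001c0000007c0000000f0000007c0000001c0000000c0000000c00000004 7 7) 0 0 (step_sound _ 131 [(rh36b93069b258c830.shift 0 2), (rh43d8dfd721575dfb.shift 2 0), (rhb1a251d9bff81766.shift 2 2), (rhf69bb057b946b622.shift 2 2), (rhfc6b69bb98114330.shift 2 2)] (by decide +kernel))
noncomputable def rh54de2fdb00944588 : CRef := CRef.mk (Pat.mk 0x400000000c0000004000000008000000000000000000000000 0x40000001c0000007c0000000f00000078000000180000001c0000001c00000014 7 7) 0 0 (step_sound _ 131 [(rh0a6888916bcef86b.shift 2 0), (rh3e51582bc5cbc7e1.shift 2 0), (rh612f35418d67476f.shift 0 2), (rhfc6b69bb98114330.shift 2 2)] (by decide +kernel))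
noncomputable def rhf76f581d29a7b79e : CRef := CRef.mk (Pat.mk 0x380000006000000020000000000000000000000000 0x100000001000000018000000380000007e000000fc000000df0000005c00000014 7 8) 0 0 (step_sound _ 99 [(rh10443167fce1c74b.shift 1 0), (rh67d3ab9a640bfd15.shift 2 0), (rh844ebdfebc1d8882.shift 0 2), (rh9eeba1f74c32861b.shift 2 0), (rhc5a0d29a3b12ff5f.shift 2 0)] (by decide +kernel))
noncomputable def rh667434036d627f43 : CRef := CRef.mk (Pat.mk 0x10000000030000000000000002000000000000000000000000 0x1000000070000001f000000030000000300000003000000070000000700000005 7 5) 0 0 (step_sound _ 129 [rh0a6888916bcef86b, rh43d8dfd721575dfb, rh85788be75b83f6c1, rhd1779d7de7f8215b, (rhf69bb057b946b622.shift 0 2)] (by decide +kernel))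
noncomputable def rhd02cd602fd950687 : CRef := CRef.mk (Pat.mk 0x400000000c0000001800000008000000000000000000000000 0x10000000780000000f0000001c0000000c0000001c0000001c00000010 7 7) 0 0 (step_sound _ 161 [(rh85788be75b83f6c1.shift 2 0), (rhb739f4f82bb681b4.shift 0 4)] (by decide +kernel))
noncomputable def rh4f9803e0f496cc8a : CRef := CRef.mk (Pat.mk 0x8000000018000000080000001800000000 0x40000001c000000ff0000001f0000000f0000003c00000004 7 8) 0 0 (step_sound _ 131 [rh01b78e5ef59799ae, (rh38b9f7ce4e4d2b02.shift 0 1), (rh771d065bdc85bf2d.shift 2 0)] (by decide +kernel))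
noncomputable def rhbc848e7a23a64cbe : CRef := CRef.mk (Pat.mk 0x8000000018000000080000001800000000 0x14000000ff0000001f000000080000001800000010 7 8) 0 0 (step_sound _ 131 [(rh38b9f7ce4e4d2b02.shift 0 1), (rh55afc6a59410cf00.shift 3 0)] (by decide +kernel))
noncomputable def rhf356c5bf1a286bb3 : CRef := CRef.mk (Pat.mk 0x4000000000000001e00000000000000000000000000000000 0x4000000070000001e00000003000000070000000700000005 7 5) 0 0 (step_sound _ 97 [rh8e8f5415199bdb7b, (rheb0810cc63b001d8.shift 0 3)] (by decide +kernel))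
noncomputable def rh9a4d3b8eb9b70c80 : CRef := CRef.mk (Pat.mk 0x1e00000002000000000000000000000000 0x4000000070000001e0000003e0000000f0000000700000005 7 6) 0 0 (step_sound _ 161 [(rh3244c3cc8379b070.shift 0 4), rh45565fd35a914bd1] (by decide +kernel))
noncomputable def rhfb7caf9b059c03d8 : CRef := CRef.mk (Pat.mk 0x80000008000000018000000000000000000000000 0x800000008000001ec0000007e000000ff0000001400000014 7 9) 0 0 (step_sound _ 101 [(rh1f36686c55693598.shift 2 3), rh2415a65b4bc54724, (rha27877704a25a47c.shift 2 1), (rhefb19ffaaa7a0748.shift 1 2)] (by decide +kernel))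
noncomputable def rhde6acc11fb11a791 : CRef := CRef.mk (Pat.mk 0x6000000000000000600000000000000000000000000000000 0x1000000030000000700000007000000030000000700000007000000070000000700000005 7 3) 0 0 (step_sound _ 161 [rh4a68914b8a155f3e, (rh70e33bfdf511e144.shift 1 1), (rhe380c42df720a63d.shift 0 3), (rhffb8e5993241bf15.shift 0 1)] (by decide +kernel))
noncomputable def rh4a300ad94a5eb395 : CRef := CRef.mk (Pat.mk 0x8000000400000000c000000400000000000000000 0x40000000c0000000c0000001c0000007c0000000f0000007c0000001c00000004 7 7) 0 0 (step_sound _ 131 [(rh281c6819542c66e6.shift 2 0), (rh355dcdb377faff3b.shift 0 1), (rha670ede437c3112f.shift 2 0), (rhc9b7a010d6829066.shift 2 2), (rhd9b34bbb86b10264.shift 2 0)] (by decide +kernel))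
noncomputable def rh399f49418fb96d6a : CRef := CRef.mk (Pat.mk 0x8000000400000000c000000400000000000000000 0x140000001c0000001c00000018000000780000000f0000007c0000001c00000004 7 7) 0 0 (step_sound _ 131 [(rh2f51ab36adc3e505.shift 0 1), (rh32431e66bbf434a4.shift 2 2), (rh37f183b9ca321db4.shift 2 2), (rha670ede437c3112f.shift 2 0)] (by decide +kernel))
noncomputable def rhe3ed4de2c8902779 : CRef := CRef.mk (Pat.mk 0x200000006000000038000000000000000000000000 0x140000005c000000df000000fc0000007e00000038000000180000001000000010 7 8) 0 0 (step_sound _ 163 [rh3452acf58a5488fb, (rh4aa02f388b72c018.shift 2 2), (rh51b3569eaa51cd94.shift 2 3), (rhba3de35515f04ede.shift 2 2), (rheb4cd2959ba52ce2.shift 1 2)] (by decide +kernel))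
noncomputable def rh00cd02226a3f50e6 : CRef := CRef.mk (Pat.mk 0x20000000000000003000000100000000000000000 0x500000007000000070000000300000003000000030000001f0000000700000001 7 5) 0 0 (step_sound _ 129 [(rh32431e66bbf434a4.shift 0 2), (rh3307a5c61af0074c.shift 0 1), (rh7a7e08304268422e.shift 0 2), (rhc9b7a010d6829066.shift 0 2), rhd9b34bbb86b10264] (by decide +kernel))
noncomputable def rh8a4b8992e397d071 : CRef := CRef.mk (Pat.mk 0x8000000180000000c0000004000000000 0x100000001c0000001c0000000c0000001c0000000f0000007800000010 7 7) 0 0 (step_sound _ 65 [(rh3307a5c61af0074c.shift 2 0), (rh53b3c253cb0c65f4.shift 0 2)] (by decide +kernel))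
noncomputable def rhf0b7e2ff2c1a4b20 : CRef := CRef.mk (Pat.mk 0x180000000800000018000000800000000000000000 0x40000003c0000000f0000001f000000ff0000001c00000004 7 8) 0 0 (step_sound _ 67 [(rh79e4170ed8274321.shift 0 1), (rh9aab2e37f490e5ca.shift 0 1), (rhc4526fc8abf298b6.shift 2 0)] (by decide +kernel))
noncomputable def rh2f96ce69fd1b37fd : CRef := CRef.mk (Pat.mk 0x1800000008000000180000008000000000 0x1000000018000000080000001f000000ff00000014 7 8) 0 0 (step_sound _ 35 [(rh2f68792b6b779e96.shift 3 1), rh79e4170ed8274321] (by decide +kernel))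
noncomputable def rh4cbedccfcd2893c6 : CRef := CRef.mk (Pat.mk 0x20000001e0000000000000000 0x5000000070000000f0000003e0000001e0000000700000004 7 6) 0 0 (step_sound _ 33 [rh92123a3e6d6b5380, (rheb0810cc63b001d8.shift 0 1)] (by decide +kernel))
noncomputable def rha7beb7bc025362ba : CRef := CRef.mk (Pat.mk 0x18000000800000000800000000 0x1400000014000000ff0000007e000001ec0000000800000008 7 9) 0 0 (step_sound _ 101 [(rh70ec27f201c958bf.shift 2 0), rh756af6152439a71d, (rhadc58f335021d7cb.shift 1 2), (rhf1af73716833b731.shift 2 2)] (by decide +kernel))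
noncomputable def rh473338b8105f96bb : CRef := CRef.mk (Pat.mk 0x60000000000000006000000000000000000000000 0x5000000070000000700000007000000070000000300000007000000070000000300000001 7 3) 0 0 (step_sound _ 129 [(rh14e0829dc73b6804.shift 0 2), (rh215e11e099257d75.shift 1 2), (rh2eb9f452dc71df4a.shift 0 2), rhd8480aedf4075c15] (by decide +kernel))
noncomputable def rh107d500764a21788 : CRef := CRef.mk (Pat.mk 0xe000000400000000400000000 0x4000000070000003e000000730000000600000006 7 7) 0 0 (step_sound _ 100 [rh1479f73ca65829fa, rh43ca58b80ff240ff, (rheaa91b92daf0efc8.shift 1 2)] (by decide +kernel))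
noncomputable def rha3c24a5ec57718f4 : CRef := CRef.mk (Pat.mk 0x20000001e0000000200000000 0x5000000070000000f0000003e0000001e0000000600000004 7 6) 0 0 (step_sound _ 100 [(rh33e738c4ed385b9f.shift 1 2), rh3be1632435ad53f6] (by decide +kernel))
noncomputable def rhee161f7d9a712d26 : CRef := CRef.mk (Pat.mk 0x8000000480000000c0000004000000000 0x140000003c0000007f0000000c0000007800000018 7 7) 0 0 (step_sound _ 100 [(rh361cc68994bd8a63.shift 2 2), rh64961f51db74bf28] (by decide +kernel))
noncomputable def rh5377837824fa2ef4 : CRef := CRef.mk (Pat.mk 0x180000001300000012 0x50000000f0000000f0000000f0000001f0000001b00000012 7 5) 0 0 (step_sound _ 65 [(rhb2a0b9ccfb5cecd5.shift 0 1), rhdc3240ee6a15acf7] (by decide +kernel))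
noncomputable def rhd11b7994059dc011 : CRef := CRef.mk (Pat.mk 0x10000000130000005200000000000000000000000000000000 0x120000001b0000007e0000000f0000000e0000000c00000004 7 7) 0 0 (step_sound _ 131 [rh431466a3f3503f68, (rh5419adcd928dba20.shift 0 4)] (by decide +kernel))
noncomputable def rh3fb5a10016ea7097 : CRef := CRef.mk (Pat.mk 0x1000000003000000060000000000000000 0x40000000700000007000000070000001f00000003000000060000000600000002 7 5) 0 0 (step_sound _ 129 [(rh566659606c8abe04.shift 0 1), (rhc28deca3165f2c8d.shift 0 1), rhc47fe1bc6b175f77] (by decide +kernel))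
noncomputable def rhf361376b75d4a710 : CRef := CRef.mk (Pat.mk 0x100000001300000052000000000000000000000000 0x100000001000000110000001b0000007f0000000f0000000a00000008 7 7) 0 0 (step_sound _ 99 [(rh5419adcd928dba20.shift 0 3), rh799d78890a57c35d] (by decide +kernel))
noncomputable def rh527c6f14336d0e7c : CRef := CRef.mk (Pat.mk 0x10000000130000001a00000000000000000000000000000000 0x40000001f0000001b0000001a0000000f0000000f0000000f00000005 7 5) 0 0 (step_sound _ 99 [rh61cb6653771d0d75, (rhf9af042da61fc652.shift 3 1)] (by decide +kernel))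
noncomputable def rh225e8ebb80fdf0f8 : CRef := CRef.mk (Pat.mk 0x12000000030000000200000000000000000000000000000000 0x3000000030000001f000000030000000300000003000000070000000700000005 7 5) 0 0 (step_sound _ 195 [rh10fb76e373fe1580, (rhb2a0b9ccfb5cecd5.shift 0 5)] (by decide +kernel))
noncomputable def rh31a9f32ffcc8a712 : CRef := CRef.mk (Pat.mk 0x120000005300000058000000000000000000000000 0xa8000000e8000000ec000000fe0000005b000000f80000006c0000002800000008 7 8) 0 0 (step_sound _ 163 [(rha0c8bf950112835c.shift 2 0), (rhb2a0b9ccfb5cecd5.shift 0 4)] (by decide +kernel))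
noncomputable def rhba46b0d89cb38d71 : CRef := CRef.mk (Pat.mk 0x2000000030000005a0000000800000000 0x500000007000000070000000700000002000000030000007b0000000f00000005 7 7) 0 0 (step_sound _ 34 [(rh361cc68994bd8a63.shift 2 1), rh5789cbc359d40240] (by decide +kernel))
noncomputable def rh9d8f30e0d0dcf248 : CRef := CRef.mk (Pat.mk 0x6000000140000001600000002 0x280000003a0000003b0000003e000000160000003e0000000b 7 6) 0 0 (step_sound _ 35 [rha5e4328302fe4bfa, rheb0810cc63b001d8] (by decide +kernel))
noncomputable def rh3d30d2c8b4b2194e : CRef := CRef.mk (Pat.mk 0x140000003000000006000000040000000000000000 0x70000001f0000003300000006000000070000000300000001 7 6) 0 0 (step_sound _ 161 [rh8618d060f83f4227, (rhc10214bf3fe8094a.shift 1 4)] (by decide +kernel))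
noncomputable def rh2abaf7b3095088db : CRef := CRef.mk (Pat.mk 0x800000018000000530000005600000000 0x5000000a7000000e7000000ef0000007b0000005b000000f6000000a4 7 8) 0 0 (step_sound _ 129 [rh71aae90b29d9e2ee, rhce03627ab37d97fb, rhf69c3ee1f17ba239] (by decide +kernel))
noncomputable def rh9fe447593fbe7fbe : CRef := CRef.mk (Pat.mk 0x800000018000000530000005200000000 0xa0000000e6000000ef0000007a0000005b000000f3000000a1 7 8) 0 0 (step_sound _ 130 [rh85dc1815e914335e, (rhffcca2d88016c230.shift 2 0)] (by decide +kernel))
noncomputable def rh79c8a8cfe2c792e5 : CRef := CRef.mk (Pat.mk 0x2000000030000001200000000 0x400000007000000070000000300000003000000030000001e00000004 7 5) 0 0 (step_sound _ 34 [(rh2fe78cc5ca4405d8.shift 0 1), rhc28deca3165f2c8d] (by decide +kernel))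
noncomputable def rhdc42624347af028d : CRef := CRef.mk (Pat.mk 0x10000000030000000200000000000000000000000000000000 0x4000000070000000f0000001f000000030000000300000007000000070000000700000005 7 5) 0 0 (step_sound _ 193 [rh10fb76e373fe1580, rh3a8aeafbd4c5a8f0, (rh566659606c8abe04.shift 0 3), (rh6c1e14971d560b91.shift 0 3), (rhaac6df22c4ef4a49.shift 0 1)] (by decide +kernel))
noncomputable def rhb1a2e31b491e763d : CRef := CRef.mk (Pat.mk 0x1000000018000000100000001000000000 0x800000018000000180000003e0000007f0000002c 7 7) 0 0 (step_sound _ 131 [(rh50fbb5868c909700.shift 3 1), rhaf81cc574fb323e0] (by decide +kernel))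
noncomputable def rh2f10812183a53f25 : CRef := CRef.mk (Pat.mk 0x200000002000000030000000200000000000000000000000000000000 0x10000000300000003000000030000000300000006000000070000000700000001 7 3) 0 0 (step_sound _ 224 [(rh50fbb5868c909700.shift 0 4), rh9ea6a2e90ec08d42] (by decide +kernel))
noncomputable def rh04c04748d8e723dd : CRef := CRef.mk (Pat.mk 0x200000002000000020000000300000000000000000000000000000000 0x10000000300000003000000030000000300000006000000070000000700000001 7 3) 0 0 (step_sound _ 224 [rh248783b885999ea2, (rh50fbb5868c909700.shift 0 4)] (by decide +kernel))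
noncomputable def rh27475cab30f8eb5a : CRef := CRef.mk (Pat.mk 0x200000002000000030000001000000000000000000000000000000000 0x200000003000000030000001f00000007000000070000000700000005 7 5) 0 0 (step_sound _ 129 [(rh8cdd36b03d57a2f6.shift 0 2), rhbaa60a195ba1244c, (rhed841d9ebc5dd0e1.shift 0 1), (rhf8edb192cdea7ada.shift 0 3)] (by decide +kernel))
noncomputable def rhcf0f3bd774c9b84b : CRef := CRef.mk (Pat.mk 0x600000002000000030000000000000000000000000000000000000000 0x40000000600000002000000030000000300000007000000070000000700000005 7 3) 0 0 (step_sound _ 129 [(rh2f68792b6b779e96.shift 1 4), rhe4628cb10e78390b] (by decide +kernel))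
noncomputable def rhe47cbfed93d20d34 : CRef := CRef.mk (Pat.mk 0x80000000b000000080000000100000000000000000000000000000000 0x80000001f000000180000001f0000001c0000001c0000001c00000004 7 5) 0 0 (step_sound _ 164 [rh9f44c5443aa17efa, (rhc10214bf3fe8094a.shift 0 5)] (by decide +kernel))
noncomputable def rha3f377bfc4ee9606 : CRef := CRef.mk (Pat.mk 0x500000005800000041000000200000000000000000 0x50000000780000004f000000f8000000e800000080 7 8) 0 0 (step_sound _ 70 [(rh932754581e0f4330.shift 5 1), rhcc771d4fee9aee1c] (by decide +kernel))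
noncomputable def rha6078fa417d10ef7 : CRef := CRef.mk (Pat.mk 0x400000004000000050000000400000000 0x400000004000000ff0000007e000000f8 7 8) 0 0 (step_sound _ 35 [(rh55afc6a59410cf00.shift 2 0), rhc6fcfba5efa2f321] (by decide +kernel))
noncomputable def rhb826126e4a988313 : CRef := CRef.mk (Pat.mk 0x600000003000000100000000100000000 0x5000000070000000700000006000000030000001e0000000700000005 7 5) 0 0 (step_sound _ 65 [(rh5efaf85ec96fcaef.shift 0 1), rh8c01e5409b730b8b, rhda2741948fcf686a] (by decide +kernel))
noncomputable def rh75b56322188f6373 : CRef := CRef.mk (Pat.mk 0x600000003000000100000000100000000 0x5000000070000000700000006000000030000001f0000000f00000004 7 5) 0 0 (step_sound _ 65 [(rh588a20a2cf76910c.shift 0 1), (rh5efaf85ec96fcaef.shift 0 1), (rh9fb9dc683e09b5f3.shift 0 1), rhd77307199f2ae7b1] (by decide +kernel))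
noncomputable def rh089cf11448c139f2 : CRef := CRef.mk (Pat.mk 0x10000000100000000040000003c00000000 0x10000000180000000cc000000fe000001c7 7 9) 0 0 (step_sound _ 38 [(rh3f8766e6ecb455ce.shift 2 1), rha01615737b922ae1] (by decide +kernel))
noncomputable def rh53e2fbdb2f900359 : CRef := CRef.mk (Pat.mk 0x100000000300000019000000010000000000000000 0x60000001e000000030000001f000000070000000600000006 7 5) 0 0 (step_sound _ 97 [rh24354257e43b4196, (rh5419adcd928dba20.shift 0 3)] (by decide +kernel))
noncomputable def rh84bfb9cf6d67624b : CRef := CRef.mk (Pat.mk 0x2000000030000000200000000000000000000000000000000 0x500000007000000070000000700000002000000030000000300000007000000070000000700000001 7 3) 0 0 (step_sound _ 225 [(rh1741680720c097b4.shift 0 4), (rh32431e66bbf434a4.shift 0 4), rhe08b3642bf78c2d5] (by decide +kernel))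
noncomputable def rh9093c0855f689cdd : CRef := CRef.mk (Pat.mk 0x8000003c8000000080000000000000000 0x8000003ef0000007e0000007700000004 7 10) 0 0 (step_sound _ 69 [(rh80fcd6d0a18cb2dd.shift 5 2), rhf997647dd5bbd972] (by decide +kernel))
noncomputable def rhb666cc965902e784 : CRef := CRef.mk (Pat.mk 0x1e00000008000000080000000800000000 0x30000001e0000000b0000001f0000000f00000005 7 5) 0 0 (step_sound _ 97 [rh3c20459b161d5bc3, (rheb0810cc63b001d8.shift 0 3)] (by decide +kernel))
noncomputable def rh3d099b67400b5eba : CRef := CRef.mk (Pat.mk 0x10000000030000001a0000000300000000 0x50000000f0000001e000000030000001b0000000f00000004 7 5) 0 0 (step_sound _ 34 [(rh3fc040e777f1679e.shift 0 1), rh77e5f4ef6e9d04a2] (by decide +kernel))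
noncomputable def rh3b552d6e56c841dd : CRef := CRef.mk (Pat.mk 0x8000003c000000008000000000000000000000000 0x800000008000003ef0000007e000000770000000400000004 7 10) 0 0 (step_sound _ 101 [rh2d7b0b458848c264, (rh80fcd6d0a18cb2dd.shift 5 3)] (by decide +kernel))
noncomputable def rh8c0b4eb94240a6f8 : CRef := CRef.mk (Pat.mk 0x4000000000000000c000000280000000000000000 0x400000004000000060000000f0000007a0000001f0000000a 7 7) 0 0 (step_sound _ 130 [(rh2145e1d24b96a57e.shift 2 2), rh67df99a59361b45d] (by decide +kernel))
noncomputable def rhf4347dad4576cefc : CRef := CRef.mk (Pat.mk 0xa0000000b00000009000000000000000000000000 0x140000001c0000001c0000000a0000000b0000000d0000001f0000001d00000010 7 5) 0 0 (step_sound _ 64 [(rh71222050f2c63a3a.shift 0 1), rha97eafd389ee3ce1] (by decide +kernel))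
noncomputable def rh064af1fbcb545c11 : CRef := CRef.mk (Pat.mk 0x80000000b000000080000000100000000 0x140000001c0000001c0000001c000000080000001f0000001c0000000f00000004 7 5) 0 0 (step_sound _ 68 [(rhc10214bf3fe8094a.shift 0 2), rhe67f3053ba5f819b] (by decide +kernel))
noncomputable def rh70e513e6aaa4848c : CRef := CRef.mk (Pat.mk 0x80000000b000000080000000800000000000000000000000000000000 0x80000001f0000001800000018000000180000001c0000001c00000014 7 5) 0 0 (step_sound _ 164 [(rhc10214bf3fe8094a.shift 0 5), (rhf5becaca8d13cfd1.shift 2 0)] (by decide +kernel))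
noncomputable def rh26fc789329d7c4b0 : CRef := CRef.mk (Pat.mk 0x1e00000008000000080000000800000000 0x30000001e0000000b0000000f0000001f00000014 7 5) 0 0 (step_sound _ 36 [(rh55afc6a59410cf00.shift 3 0), rhcdc097cce0d90129] (by decide +kernel))
noncomputable def rh0f3bd9f59743e30c : CRef := CRef.mk (Pat.mk 0x2000000020000000200000004000000000 0x2000000020000001fe000001fe0000005f 7 9) 0 0 (step_sound _ 37 [(rh55afc6a59410cf00.shift 5 0), rheb58cd9086bf9207] (by decide +kernel))
noncomputable def rh2e609392e202475a : CRef := CRef.mk (Pat.mk 0x4000000000000000c000000280000000000000000 0x400000004000000060000000f0000007a0000001f0000000a 7 7) 0 0 (step_sound _ 68 [rha9f0a90eae30720a, (rhf48373e13d2bc128.shift 2 2)] (by decide +kernel))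
noncomputable def rhdc2fb49eef31a9fb : CRef := CRef.mk (Pat.mk 0x400000004000000050000000c00000000 0x80000000c00000004000000ff0000007e000000f0 7 8) 0 0 (step_sound _ 131 [(rh2f68792b6b779e96.shift 2 1), rhc6fcfba5efa2f321] (by decide +kernel))
noncomputable def rh25c8cf2c0b699319 : CRef := CRef.mk (Pat.mk 0x43000000580000004000000000 0xa0000000e0000000e0000000430000007e0000006000000020 7 8) 0 0 (step_sound _ 66 [(rh09d4dfe75d4407d6.shift 0 2), (rh45009313f1dc1cd3.shift 2 0)] (by decide +kernel))
noncomputable def rhd2e923d0ef5ea452 : CRef := CRef.mk (Pat.mk 0x10000000030000001800000001000000000000000000000000 0x1000000050000001f000000030000001e00000003000000070000000700000005 7 5) 0 0 (step_sound _ 129 [(rh5419adcd928dba20.shift 0 4), rh5465040e47158a83] (by decide +kernel))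
noncomputable def rha2792ba678e3dcd1 : CRef := CRef.mk (Pat.mk 0x10000000030000001800000001000000000000000000000000 0x5000000070000001f000000030000001e00000003000000070000000700000005 7 5) 0 0 (step_sound _ 129 [rh347ddf50cadeb605, (rh5419adcd928dba20.shift 0 4)] (by decide +kernel))
noncomputable def rhdd1a89908ba862f8 : CRef := CRef.mk (Pat.mk 0x1400000016000000100000001800000000 0x1400000016000000fa000000fe000001e7 7 9) 0 0 (step_sound _ 37 [(rh55afc6a59410cf00.shift 4 0), rhdcc9e41eff6e2938] (by decide +kernel))
noncomputable def rh2422930f8725375a : CRef := CRef.mk (Pat.mk 0x200000002000000060000000200000000000000000000000000000000 0x200000007000000070000000700000006000000070000000300000001 7 3) 0 0 (step_sound _ 98 [rh3ec3bdfe76766f99, (rhd3458b32566d63f7.shift 1 3)] (by decide +kernel))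
noncomputable def rhe17bf4a4dbd30e04 : CRef := CRef.mk (Pat.mk 0xa0000000800000008000000100000000000000000 0x1f0000007c000000080000001c0000001c00000004 7 7) 0 0 (step_sound _ 67 [rh36ba5421c6344682, (rh55afc6a59410cf00.shift 3 1)] (by decide +kernel))
noncomputable def rh6b7644617a28bc5d : CRef := CRef.mk (Pat.mk 0x6000000020000000200000000000000000000000000000000 0x500000007000000030000000200000002000000070000000700000005 7 3) 0 0 (step_sound _ 97 [(rh2f68792b6b779e96.shift 1 3), rh47992774edf9829f] (by decide +kernel))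
noncomputable def rhd2d370f5ea2dce1d : CRef := CRef.mk (Pat.mk 0x8000000018000000080000000800000000 0x40000007c000000fc000000180000001f0000003c00000014 7 8) 0 0 (step_sound _ 131 [(rh419bf8da7067186a.shift 2 0), rh641b5241be04eec6, (rh771d065bdc85bf2d.shift 2 0)] (by decide +kernel))
noncomputable def rh75248d3c513e8921 : CRef := CRef.mk (Pat.mk 0x20000000a0000000a000000000000000000000000 0x140000001c0000003c0000001e0000000b0000001e0000001c0000001c00000014 7 6) 0 0 (step_sound _ 163 [(rh2d3cd0799cc460f5.shift 2 0), (rh32650d1bea17c2f2.shift 0 2), (rh7de3bcb9295995b8.shift 0 2), rh9b578cfc7d2906a4, rhc9b40e78a993a2ef, (rhd03d0c8aad655629.shift 2 1)] (by decide +kernel))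
noncomputable def rha3a1db0dcf83f059 : CRef := CRef.mk (Pat.mk 0x300000012000000130000001200000000 0xe0000001e0000000b0000001f0000001b0000001200000002 7 5) 0 0 (step_sound _ 99 [rh597cffcd6974aab4, (rhb2a0b9ccfb5cecd5.shift 0 2)] (by decide +kernel))
noncomputable def rhbffa7d433fd798c9 : CRef := CRef.mk (Pat.mk 0x12000000030000000200000000000000000000000000000000 0x40000001e000000030000000300000003000000070000000700000004 7 5) 0 0 (step_sound _ 194 [rh2222a27c490588f5, (rh361cc68994bd8a63.shift 0 5)] (by decide +kernel))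
noncomputable def rhe4235f9ce2807813 : CRef := CRef.mk (Pat.mk 0x100000000300000018000000000000000000000000 0x70000000f0000001f000000030000001f000000070000000700000005 7 5) 0 0 (step_sound _ 97 [(rh5419adcd928dba20.shift 0 3), rh65a6f61db85a7574] (by decide +kernel))
noncomputable def rhd042ad9b7b17fe89 : CRef := CRef.mk (Pat.mk 0x10000000030000005800000008000000000000000000000000 0x40000001f000000030000007b0000000f000000070000000300000001 7 7) 0 0 (step_sound _ 98 [(rh361cc68994bd8a63.shift 2 3), rh5ba6f16b7fda75b7] (by decide +kernel))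
noncomputable def rh270d453340dd4fe5 : CRef := CRef.mk (Pat.mk 0x1f00000000 0x1f0000000ff000001de 7 9) 0 0 (step_sound _ 3 [(rh9867bd140e7f6515.shift 1 0), rhe25b0a99195a5d59] (by decide +kernel))
noncomputable def rhd946052d0c2b917f : CRef := CRef.mk (Pat.mk 0x30000000180000008800000000000000000000000000000000 0x200000002000000030000000380000001f000000ff000000170000003c0000003c00000028 7 8) 0 0 (step_sound _ 132 [(rh06809ab48db3b4f7.shift 3 0), (rh215e11e099257d75.shift 4 3), (rh9e141fa6bc2add05.shift 0 1)] (by decide +kernel))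
noncomputable def rhff9f641f02c9ce41 : CRef := CRef.mk (Pat.mk 0x100000001c00000018000000000000000000000000 0x4000000160000007c0000001f0000000f0000000a00000002 7 7) 0 0 (step_sound _ 67 [rh00447bb1c7c2959a, (rh71222050f2c63a3a.shift 3 1)] (by decide +kernel))
noncomputable def rh3dfa9d87ac050990 : CRef := CRef.mk (Pat.mk 0x200000003000000018000000080000000000000000 0x2800000038000000180000001f0000003c0000001c 7 6) 0 0 (step_sound _ 36 [rh1a7eb5e396bb8c9b, (rh9e3edb185cc347de.shift 4 1)] (by decide +kernel))
noncomputable def rhdc68795c32a03d79 : CRef := CRef.mk (Pat.mk 0x180000008c00000004 0x3000000030000001f000000ff00000007 7 8) 0 0 (step_sound _ 33 [(rh53b3c253cb0c65f4.shift 0 1), rh75868a9e50128894] (by decide +kernel))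
noncomputable def rhc6054f72e9f4917a : CRef := CRef.mk (Pat.mk 0x3800000010000000080000000000000000 0xc0000000c0000001f000000380000001e0000000f0000003c0000001c 7 6) 0 0 (step_sound _ 99 [(rh6cc2eb734a05defc.shift 0 2), rh977f273f77c6f2be, (rhea7a1800d6f053bd.shift 3 0)] (by decide +kernel))
noncomputable def rh5e8a24c02010f853 : CRef := CRef.mk (Pat.mk 0x3800000010000000080000000000000000 0xc0000000c0000001f000000380000001e0000001c0000000c0000000c 7 6) 0 0 (step_sound _ 99 [(rh6cc2eb734a05defc.shift 0 2), (rhb27f859d08a3ceca.shift 1 0), (rhea7a1800d6f053bd.shift 3 0)] (by decide +kernel))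
noncomputable def rh7dc6fa2a3b265b7e : CRef := CRef.mk (Pat.mk 0x12000000038000000100000001800000000 0x80000000c000001ff000000380000001f0000001f00000004 7 9) 0 0 (step_sound _ 135 [rh622c01dda223eab7, (rhb2a0b9ccfb5cecd5.shift 4 3)] (by decide +kernel))
noncomputable def rhc39df0604ee922b2 : CRef := CRef.mk (Pat.mk 0x40000000700000002000000000 0x80000001c0000001c0000007f0000007e0000003f00000008 7 7) 0 0 (step_sound _ 67 [(rh21d582c147e7e118.shift 1 1), (rh7fb660bc21ce4329.shift 1 2), (rh8aa80d8d90d3223c.shift 0 1), (rhcb74c5356c5222da.shift 2 0), (rheaad777ed634577b.shift 0 1)] (by decide +kernel))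
noncomputable def rh3c5302402d46d365 : CRef := CRef.mk (Pat.mk 0x9000000018000000080000000400000000 0x4000000ff0000001f000000080000000c0000000c 7 8) 0 0 (step_sound _ 35 [(rh71222050f2c63a3a.shift 3 0), rhd33e7d4e73f2717f] (by decide +kernel))
noncomputable def rh0c3959da2349e21d : CRef := CRef.mk (Pat.mk 0x580000004c0000004c000000000000000000000000 0x10000000580000006f0000007c0000003c0000002400000020 7 7) 0 0 (step_sound _ 129 [(rh53b3c253cb0c65f4.shift 0 4), (rh935c211bcea6f07b.shift 1 0)] (by decide +kernel))
noncomputable def rhb4313816b942b1bb : CRef := CRef.mk (Pat.mk 0x1000000018000000380000000000000000 0x40000001f0000001f0000003c0000000f0000000c 7 6) 0 0 (step_sound _ 97 [rha069e29cc8d9dd6b, (rhab22b5b56e7b3243.shift 1 2)] (by decide +kernel))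
noncomputable def rhd70a730385f171bf : CRef := CRef.mk (Pat.mk 0x90000000180000008c00000000 0xf00000001f000000ff00000007 7 8) 0 0 (step_sound _ 33 [(rh53b3c253cb0c65f4.shift 0 1), rhbe729c04bbd91ea3] (by decide +kernel))
noncomputable def rh92c3a37ac4b015de : CRef := CRef.mk (Pat.mk 0x300000001c0000008e00000000 0x30000000740000003e0000001c000000fe00000023 7 8) 0 0 (step_sound _ 132 [(rh5c5e593799055d58.shift 3 1), rhc4e1d4dad1b26723] (by decide +kernel))
noncomputable def rh03ed53576330a40c : CRef := CRef.mk (Pat.mk 0x1000000090000000180000001c000000000000000000000000 0x2000000074000000fe0000001c0000001f000000070000000200000002 7 8) 0 0 (step_sound _ 97 [rh1f520a9b16a837d1, (rh53b3c253cb0c65f4.shift 0 3)] (by decide +kernel))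
noncomputable def rh9ce5fdcabdfeca67 : CRef := CRef.mk (Pat.mk 0x60000000380000001c000000000000000000000000 0x2c0000002c0000007f000000380000001c0000000c0000000c0000000c 7 7) 0 0 (step_sound _ 197 [(rh5c5e593799055d58.shift 4 3), rh8726170846d6d67a] (by decide +kernel))
noncomputable def rh40fedc54f846b548 : CRef := CRef.mk (Pat.mk 0x600000003000000018000000000000000000000000 0xc0000000c000000780000003c0000003e0000000f0000000c00000008 7 7) 0 0 (step_sound _ 131 [(rh53b3c253cb0c65f4.shift 2 4), rh9c93fb6e6b33f62b] (by decide +kernel))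
noncomputable def rh78ffff805be6d489 : CRef := CRef.mk (Pat.mk 0x60000000600000003800000018000000000000000000000000 0xc000000ec0000007f00000038000000180000000c0000000c0000000c 7 8) 0 0 (step_sound _ 163 [(rh6d571b54e8dd9e33.shift 2 5), (rh9dc6f17ef8893ffe.shift 2 3), (rhb3e5613249985042.shift 2 0), (rhbdade720c6084246.shift 0 2), rhe97cde4106ffba59] (by decide +kernel))
noncomputable def rh7aaf0585026c93e5 : CRef := CRef.mk (Pat.mk 0x1000000010000000180000001e00000000 0x25000000370000001f0000001b0000001e00000007 7 6) 0 0 (step_sound _ 133 [(rh2f68792b6b779e96.shift 4 1), rh97f2b2d2f7d0ce77] (by decide +kernel))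
noncomputable def rh7b0dbe165b3dc6dc : CRef := CRef.mk (Pat.mk 0x100000001c0000008e000000000000000000000000 0x10000000100000001c0000001c000000fe000000270000000600000006 7 8) 0 0 (step_sound _ 196 [rh2a57b76fa718e9ce, (rh5c5e593799055d58.shift 3 3)] (by decide +kernel))
noncomputable def rhcc5f94dc782fd597 : CRef := CRef.mk (Pat.mk 0xb0000000980000008800000008000000000000000000000000 0x20000000b8000000d8000001ff0000007e000000770000005400000010 7 9) 0 0 (step_sound _ 100 [(rh046c5eb18e55a239.shift 3 0), (rh3fda782e653ad606.shift 0 1), (rh97c0bb1b783a0a3e.shift 3 1), (rha9efec28f6d60d2f.shift 3 1)] (by decide +kernel))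
noncomputable def rh22f6dd0ceab27685 : CRef := CRef.mk (Pat.mk 0x1800000038000000080000000000000000 0x180000003f0000007f0000007600000034 7 7) 0 0 (step_sound _ 98 [rh73c8d186d16263ed, (rhcc2be1f880c5ea3e.shift 0 2), (rhd301bf5e6d0f77b5.shift 1 0), (rhe153806bfe3acc65.shift 0 2)] (by decide +kernel))
noncomputable def rh16f30ea31c710a8b : CRef := CRef.mk (Pat.mk 0x100000000300000013000000000000000000000000 0x400000006000000060000001e000000030000001f000000060000000600000006 7 5) 0 0 (step_sound _ 98 [rh031d69212e73bc3d, (rh2fe78cc5ca4405d8.shift 0 3)] (by decide +kernel))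
noncomputable def rhfdc480d32b2ddaf9 : CRef := CRef.mk (Pat.mk 0xb00000009800000088000000080000000000000000 0x400000027000000bf000000df000000f8000000780000005000000040 7 8) 0 0 (step_sound _ 163 [(rh20595ccdccbf31d9.shift 0 3), (rh7881bba1e7287282.shift 3 0)] (by decide +kernel))
noncomputable def rh422d1427940f8e6a : CRef := CRef.mk (Pat.mk 0x90000000180000000800000000 0x1400000017000000ff0000001f0000000800000008 7 8) 0 0 (step_sound _ 101 [rh06ff295b6d86d646, (rh361cc68994bd8a63.shift 3 2)] (by decide +kernel))
noncomputable def rh96da54ea6eb24b81 : CRef := CRef.mk (Pat.mk 0x1e00000008000000080000000800000000 0x30000001e0000000b0000001f0000000f00000005 7 5) 0 0 (step_sound _ 34 [rh27855273df6c2703, (rh932754581e0f4330.shift 2 0)] (by decide +kernel))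
noncomputable def rhf3b221ba133fd01a : CRef := CRef.mk (Pat.mk 0x980000009800000088000000080000000000000000 0x98000000d8000000fe0000007f0000007400000040 7 8) 0 0 (step_sound _ 68 [rh4bf6b1e7eedfffec, (rh55afc6a59410cf00.shift 3 1)] (by decide +kernel))
noncomputable def rh5a6f1d5491640e22 : CRef := CRef.mk (Pat.mk 0x1a0000000a000000000000000000000000 0x500000007000000070000000f0000001a0000000f000000070000000700000005 7 5) 0 0 (step_sound _ 161 [rh2915a4f5aa0492ea, (rh5a30d2353dbd5b74.shift 0 1), rh794501743a61ce18, (rhff7b6894da85a153.shift 0 2)] (by decide +kernel))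
noncomputable def rhdad52172cfbe46bb : CRef := CRef.mk (Pat.mk 0x1800000010000000100000001000000000 0x270000003e0000007f0000001c0000001800000008 7 7) 0 0 (step_sound _ 133 [rh2a3410f35ae37ac3, (rh2f68792b6b779e96.shift 4 1)] (by decide +kernel))
noncomputable def rh3278fd1eeb522a09 : CRef := CRef.mk (Pat.mk 0x10000000300000001a0000000a00000000000000000000000000000000 0x25000000370000003f0000001b0000001e00000037000000380000003800000028 7 6) 0 0 (step_sound _ 132 [(rh7b652c76862f91c0.shift 0 3), (rh8379dda7bed67b0f.shift 3 1), (rha707fb719e87fe6e.shift 4 3), (rhd7614075a314ac03.shift 1 0)] (by decide +kernel))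
noncomputable def rh46d02cd886b7cc0f : CRef := CRef.mk (Pat.mk 0x900000001a0000000a000000000000000000000000 0x20000000f00000001b0000001f000000300000003000000030 7 8) 0 0 (step_sound _ 98 [(rh53b3c253cb0c65f4.shift 0 3), rhd060b3d5e535238f] (by decide +kernel))
noncomputable def rh2f511c88d9ed4437 : CRef := CRef.mk (Pat.mk 0x20000000600000002000000000000000000000000 0x50000000700000007000000060000000600000006000000070000000700000005 7 3) 0 0 (step_sound _ 193 [(rh1741680720c097b4.shift 0 3), rh49759b6975f15643, (rhd4b4beefcd67f51e.shift 1 2)] (by decide +kernel))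
noncomputable def rh1b97df9688dba0d7 : CRef := CRef.mk (Pat.mk 0x3000000018000000080000000800000000 0x4000000670000003f0000001e0000001c0000001c00000014 7 7) 0 0 (step_sound _ 98 [rh4375175ccf5b7eff, (rh53b3c253cb0c65f4.shift 1 3)] (by decide +kernel))
noncomputable def rh30f282e0a6c80d35 : CRef := CRef.mk (Pat.mk 0x300000001800000088000000000000000000000000 0x20000000380000001f000000ff000000370000003400000034 7 8) 0 0 (step_sound _ 100 [(rh8379dda7bed67b0f.shift 3 0), rh9e141fa6bc2add05, (rhb5cbc1e91eff6b9d.shift 1 0)] (by decide +kernel))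
noncomputable def rh215715478c21303e : CRef := CRef.mk (Pat.mk 0x90000000180000000a000000000000000000000000 0x3000000030000000f8000000180000003f000000370000001000000010 7 8) 0 0 (step_sound _ 98 [rh0492a7d5283b4883, (rh53b3c253cb0c65f4.shift 0 3)] (by decide +kernel))
noncomputable def rh3f965bfa273fda86 : CRef := CRef.mk (Pat.mk 0x10000000030000000140000003c000000000000000000000000 0x2000000020000001f40000003c000000140000003e000000070000000200000002 7 9) 0 0 (step_sound _ 65 [rh65ced04ba907505c, (rh80fcd6d0a18cb2dd.shift 1 2)] (by decide +kernel))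
noncomputable def rh9f67e100387e83a3 : CRef := CRef.mk (Pat.mk 0x8000000018000000080000000c00000000 0x14000000ff0000001f000000080000000c00000004 7 8) 0 0 (step_sound _ 131 [(rh38b9f7ce4e4d2b02.shift 0 1), (rh932754581e0f4330.shift 2 0)] (by decide +kernel))
noncomputable def rh9128edfd050b394d : CRef := CRef.mk (Pat.mk 0x800000003800000000 0xc70000007e000000e7 7 8) 0 0 (step_sound _ 38 [(rh428265de8cd3cd2d.shift 3 1), rhbb13f9e1d387f64a] (by decide +kernel))
noncomputable def rhce907bcfdc3c1988 : CRef := CRef.mk (Pat.mk 0x200000002000000020000000200000000000000000000000000000000 0x20000000200000003000000030000000300000007000000070000000700000001 7 3) 0 0 (step_sound _ 97 [(rh5baa46239919fe38.shift 0 1), (rh7928877f9bf74a91.shift 0 2), (rh8cdd36b03d57a2f6.shift 0 1), rhe84e00c98653ad0c] (by decide +kernel))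
noncomputable def rh340b378386c8e92b : CRef := CRef.mk (Pat.mk 0x80000000180000008a000000000000000000000000 0x1000000030000000f80000001f000000ff000000300000003000000030 7 8) 0 0 (step_sound _ 100 [rh2cf83a9545f16b9d, (rh8669cd65c4e7d87e.shift 3 0), (rhf1cf5c2b9141cce8.shift 0 3)] (by decide +kernel))
noncomputable def rh071dff6099056fad : CRef := CRef.mk (Pat.mk 0x80000000180000008e000000000000000000000000 0x1000000030000000f800000018000000fe000000370000003000000030 7 8) 0 0 (step_sound _ 100 [(rh8669cd65c4e7d87e.shift 3 0), (rhbbe16ff26f7822db.shift 1 0), (rhd89ac809456b9f74.shift 0 2)] (by decide +kernel))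
noncomputable def rh0bbd46f3b1d34fe5 : CRef := CRef.mk (Pat.mk 0x12000000030000000200000000000000000000000000000000 0x40000001f000000030000000200000002000000070000000700000005 7 5) 0 0 (step_sound _ 194 [rh06809ab48db3b4f7, (rh361cc68994bd8a63.shift 0 5)] (by decide +kernel))
noncomputable def rhab389758baad27be : CRef := CRef.mk (Pat.mk 0x1800000018000000100000001000000000 0x180000001c000000770000003e0000002f 7 7) 0 0 (step_sound _ 35 [rh21364e90c6c8326e, (rh932754581e0f4330.shift 3 0)] (by decide +kernel))
noncomputable def rh35a0c2cfc9163e0d : CRef := CRef.mk (Pat.mk 0x180000003a0000000000000000 0x4000000070000000f0000001f0000003e0000000700000004 7 6) 0 0 (step_sound _ 97 [rh560217ebcccc098c, (rhab22b5b56e7b3243.shift 1 2)] (by decide +kernel))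
noncomputable def rh6050bee48016523f : CRef := CRef.mk (Pat.mk 0x180000001a0000001000000000 0x4000000070000000f0000001b0000001e0000003700000004 7 6) 0 0 (step_sound _ 66 [rh8dd3cf5188c481bd, (rhe25b0a99195a5d59.shift 1 1)] (by decide +kernel))
noncomputable def rhe36f123e897478d4 : CRef := CRef.mk (Pat.mk 0x100000001a0000001a00000000 0x34000000340000001f0000001f0000001a00000002 7 6) 0 0 (step_sound _ 66 [(rhb739f4f82bb681b4.shift 0 1), rhbfb085386a0300a6] (by decide +kernel))
noncomputable def rh4ee6575ab943a406 : CRef := CRef.mk (Pat.mk 0x100000001a0000001a00000000 0x34000000340000001f0000001e0000001b00000002 7 6) 0 0 (step_sound _ 66 [rhbfb085386a0300a6, (rheb0810cc63b001d8.shift 0 1)] (by decide +kernel))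
noncomputable def rh895494d4db98bdf7 : CRef := CRef.mk (Pat.mk 0x1800000010000000180000000800000000 0x2c0000003f0000001f000000180000001800000010 7 6) 0 0 (step_sound _ 36 [rh323c3e782ab9eec1, (rh50fbb5868c909700.shift 3 1)] (by decide +kernel))
noncomputable def rhd926a964535711f6 : CRef := CRef.mk (Pat.mk 0x18000000d0000000180000000800000000 0x240000007f000000df000000180000001800000010 7 8) 0 0 (step_sound _ 133 [rh154b848d22aa446a, (rhd6e447e81774439e.shift 3 3)] (by decide +kernel))
noncomputable def rhf411018740259958 : CRef := CRef.mk (Pat.mk 0x1c00000018000000000000000000000000 0x2000000020000000f0000001f0000001f000000340000001400000010 7 6) 0 0 (step_sound _ 129 [rh488868f7fba40c60, (rhb739f4f82bb681b4.shift 0 3)] (by decide +kernel))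
noncomputable def rhfb34c423822c472c : CRef := CRef.mk (Pat.mk 0x1c000000180000000000000000 0x4000000040000000f0000001f0000001f0000000b0000000b 7 5) 0 0 (step_sound _ 97 [rh75d4fd59e4d145ad, (rhb739f4f82bb681b4.shift 0 2)] (by decide +kernel))
noncomputable def rhc9ce103cd31ebbb7 : CRef := CRef.mk (Pat.mk 0x3800000030000000300000000000000000 0xc0000001f000000380000003e0000007e0000000c0000000c 7 7) 0 0 (step_sound _ 99 [rh4dee3fdaf4de46c6, (rh8f7039354bfc4ec2.shift 1 0), (rhf56e6bc5d2f7fe77.shift 1 2)] (by decide +kernel))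
noncomputable def rh01720cfce81426f2 : CRef := CRef.mk (Pat.mk 0x80000009800000018000000000000000000000000 0x800000008000000df0000007f000000e60000000400000004 7 8) 0 0 (step_sound _ 98 [(rh76ac40e5db770964.shift 1 2), (rhb2afa9af710fc185.shift 0 2), (rhfafeb437ceb8396d.shift 2 0)] (by decide +kernel))
noncomputable def rh10adcc9eabc44b37 : CRef := CRef.mk (Pat.mk 0x880000001800000030000000000000000000000000 0x280000003c0000003c00000017000000ff0000001f00000038000000300000002000000020 7 8) 0 0 (step_sound _ 164 [(rh26ffcb37093465b4.shift 0 3), (rh70e33bfdf511e144.shift 4 0), (rh921a8f8cd2437502.shift 3 2)] (by decide +kernel))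
noncomputable def rh8a5a6ea90186a6dc : CRef := CRef.mk (Pat.mk 0x180000001c0000001000000000 0x20000000a0000000f0000001f0000007c0000001600000004 7 7) 0 0 (step_sound _ 131 [(rh2145e1d24b96a57e.shift 3 1), rhe68d15c665397540] (by decide +kernel))
noncomputable def rhc6c98f257caf9470 : CRef := CRef.mk (Pat.mk 0x8000000180000003000000020 0x1c0000003c0000001f000000180000003800000028 7 6) 0 0 (step_sound _ 132 [rh0fa1ea53a9bfe99c, (rh6f1cbe15c631ee70.shift 4 0)] (by decide +kernel))
noncomputable def rh34acd496cde8ee25 : CRef := CRef.mk (Pat.mk 0x40000008c000000180000000000000000 0x7000000ff0000001f0000000300000003 7 8) 0 0 (step_sound _ 97 [(rhb739f4f82bb681b4.shift 0 2), rhe898db53b4b114be] (by decide +kernel))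
noncomputable def rh33216de640c91506 : CRef := CRef.mk (Pat.mk 0x80000001000000038000000000000000000000000 0x1c0000003c0000000f0000001e000000380000001f0000000c0000000c 7 6) 0 0 (step_sound _ 131 [rh12d80a56212b187a, (rh1cf393a818e1cca8.shift 0 2), (rh3e595262c1b737ad.shift 3 2)] (by decide +kernel))
noncomputable def rhc6bd7a4e18331601 : CRef := CRef.mk (Pat.mk 0x80000001000000038000000000000000000000000 0xc0000000c0000001c0000001e000000380000001f0000000c0000000c 7 6) 0 0 (step_sound _ 131 [rh12d80a56212b187a, (rh3e595262c1b737ad.shift 3 2), (rh70e1ae7d5bbbbf54.shift 1 0)] (by decide +kernel))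
noncomputable def rh0938404a1275f099 : CRef := CRef.mk (Pat.mk 0x180000001000000038000001200000000000000000 0x40000001f0000001f00000038000001ff0000000c00000008 7 9) 0 0 (step_sound _ 71 [rh34fc9dbd5bc3b2df, (rh5419adcd928dba20.shift 4 2)] (by decide +kernel))
noncomputable def rh5f648fe2a095a1a8 : CRef := CRef.mk (Pat.mk 0x200000007000000040000000000000000000000000 0x80000003f0000007e0000007f0000001c0000001c00000008 7 7) 0 0 (step_sound _ 131 [(rh0de499e0455c9c14.shift 1 3), (rh5b2ce1e5aa4a4edd.shift 0 3), (rhbb9fa87427d0f17b.shift 2 0), (rhd1d05263fabc0227.shift 1 3), (rhf0dcb8af34d9ea65.shift 0 3)] (by decide +kernel))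
noncomputable def rh74da613a42b2435e : CRef := CRef.mk (Pat.mk 0x400000008000000180000009000000000 0xc0000000c000000080000001f000000ff00000004 7 8) 0 0 (step_sound _ 131 [rh02812f49083e4b14, (rh2145e1d24b96a57e.shift 3 1)] (by decide +kernel))
noncomputable def rh142c5eeb8c5640bc : CRef := CRef.mk (Pat.mk 0x4c0000004c0000005800000000 0x20000000240000003c0000007c0000006f0000005800000010 7 7) 0 0 (step_sound _ 65 [(rh4e516b2484174def.shift 1 0), (rhb739f4f82bb681b4.shift 0 1)] (by decide +kernel))
noncomputable def rhe4b5ce0c6c874422 : CRef := CRef.mk (Pat.mk 0x38000000180000001000000000 0xc0000000f0000003c0000001f0000001f00000004 7 6) 0 0 (step_sound _ 65 [(rh24ae073cf30720c4.shift 1 2), rha5673595b8209775] (by decide +kernel))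
noncomputable def rh65df5843fce57f95 : CRef := CRef.mk (Pat.mk 0x8c0000001800000090 0x7000000ff0000001f000000f0 7 8) 0 0 (step_sound _ 65 [rh9cfb2c644ad64779, (rhb739f4f82bb681b4.shift 0 1)] (by decide +kernel))
noncomputable def rh3f31d407a442c093 : CRef := CRef.mk (Pat.mk 0x8e0000001c000000300000000000000000 0x23000000fe0000001c0000003e0000007400000030 7 8) 0 0 (step_sound _ 36 [(rh7b1f1fb55310c477.shift 3 0), rhb76c55424e788e85] (by decide +kernel))
noncomputable def rh2426ab78476f2df5 : CRef := CRef.mk (Pat.mk 0x1c00000018000000900000001000000000 0x200000002000000070000001f0000001c000000fe0000007400000020 7 8) 0 0 (step_sound _ 129 [rh06db59202ed77879, (rhb739f4f82bb681b4.shift 0 3)] (by decide +kernel))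
noncomputable def rh7af0b224d989c0c2 : CRef := CRef.mk (Pat.mk 0x1c00000038000000600000000000000000 0xc0000000c0000000c0000001c000000380000007f0000002c0000002c 7 7) 0 0 (step_sound _ 37 [rh4c81e2c2f587c163, (rh7b1f1fb55310c477.shift 4 0)] (by decide +kernel))
noncomputable def rhf38a62f8f5e22c95 : CRef := CRef.mk (Pat.mk 0x1800000030000000600000000000000000 0x80000000c0000000f0000003e0000003c000000780000000c0000000c 7 7) 0 0 (step_sound _ 99 [(rhb739f4f82bb681b4.shift 2 2), rhe108e6229bd24660] (by decide +kernel))
noncomputable def rh11af4eb413f30520 : CRef := CRef.mk (Pat.mk 0x1800000038000000600000006000000000 0xc0000000c0000000c00000018000000380000007f000000ec0000000c 7 8) 0 0 (step_sound _ 67 [(rh548739421888b317.shift 0 1), (rh9954101f0efffb9e.shift 2 0), rhaf10d9b96b28ff65, (rhcd6baf37b3e5de21.shift 2 1), (rhe58a7845769190f3.shift 2 0)] (by decide +kernel))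
noncomputable def rh7cb4a9b5b09da590 : CRef := CRef.mk (Pat.mk 0x1e00000018000000100000001000000000 0x70000001e0000001b0000001f0000003700000025 7 6) 0 0 (step_sound _ 37 [(rh55afc6a59410cf00.shift 4 0), rh6b9ebbe3865fa35c] (by decide +kernel))
noncomputable def rhd6bd4e1df344c440 : CRef := CRef.mk (Pat.mk 0x8e0000001c000000100000000000000000 0x60000000600000027000000fe0000001c0000001c0000001000000010 7 8) 0 0 (step_sound _ 36 [(rh219e53d99be77634.shift 0 1), (rh7b1f1fb55310c477.shift 3 0)] (by decide +kernel))
noncomputable def rh4191ca5507ce8b92 : CRef := CRef.mk (Pat.mk 0x80000008800000098000000b000000000 0x1000000054000000770000007e000001ff000000d8000000b800000020 7 9) 0 0 (step_sound _ 132 [(rh18f8164b15c92bf2.shift 0 2), (rha61bfc5754658db7.shift 3 0), (rhb730ba14aa32bdb3.shift 3 1), (rhd921c046084f56e1.shift 3 0)] (by decide +kernel))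
noncomputable def rhb9b16228623b9b8d : CRef := CRef.mk (Pat.mk 0x80000003800000018 0x34000000760000007f0000003f00000018 7 7) 0 0 (step_sound _ 34 [rh2048d06f84da4daa, rhba89ab7cb81bcc90, (rhcd519a09ec6258d6.shift 1 0), rhe25191970535449e] (by decide +kernel))
noncomputable def rha8b02da4b279b3fc : CRef := CRef.mk (Pat.mk 0x130000000300000010000000000000000000000000 0x600000006000000060000001f000000030000001e000000060000000600000004 7 5) 0 0 (step_sound _ 162 [(rh361cc68994bd8a63.shift 0 4), rh4e6823d394bf7bfe] (by decide +kernel))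
noncomputable def rh62e23ba22a60e4e5 : CRef := CRef.mk (Pat.mk 0x80000008800000098000000b00000000000000000 0x400000005000000078000000f8000000df000000bf0000002700000004 7 8) 0 0 (step_sound _ 67 [rh66308995486c6adc, (rh6fe090fbac8927f0.shift 3 1)] (by decide +kernel))
noncomputable def rhd4ee616373a69375 : CRef := CRef.mk (Pat.mk 0x800000018000000900000000000000000 0x8000000080000001f000000ff0000001700000014 7 8) 0 0 (step_sound _ 69 [(rh2fe78cc5ca4405d8.shift 3 2), rhf3b59606dd37b422] (by decide +kernel))
noncomputable def rhe788e277f4def1eb : CRef := CRef.mk (Pat.mk 0x800000008000000080000001e00000000 0x140000001f0000000f0000000b0000001e00000003 7 5) 0 0 (step_sound _ 132 [(rh2f68792b6b779e96.shift 3 1), rh5077d2cacf8e5f3c] (by decide +kernel))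
noncomputable def rh27c39574d6b065ec : CRef := CRef.mk (Pat.mk 0x800000008000000080000001e00000000 0x50000000f0000001f0000000b0000001e00000003 7 5) 0 0 (step_sound _ 130 [rh3bc8ed1d6b1c7272, (rh50fbb5868c909700.shift 2 1)] (by decide +kernel))
noncomputable def rh491619d7874bdd53 : CRef := CRef.mk (Pat.mk 0x8000000880000009800000098 0x40000000740000007f000000fe000000d800000098 7 8) 0 0 (step_sound _ 100 [(rh2f68792b6b779e96.shift 3 0), rhcf11c0eee73f9cda] (by decide +kernel))
noncomputable def rh99946c4571618242 : CRef := CRef.mk (Pat.mk 0xa0000001a00000000000000000000000000000000 0x500000007000000070000000f0000001a0000000f000000070000000700000005 7 5) 0 0 (step_sound _ 97 [(rh823dec6b0a4c3fe8.shift 0 2), (rhbe5703805fd7fa8f.shift 0 2), (rhbf662421d2f80df0.shift 0 1), rhfd97b58967212f9b] (by decide +kernel))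
noncomputable def rh71d3f9b1ec257103 : CRef := CRef.mk (Pat.mk 0x1000000010000000100000001800000000 0x8000000180000001c0000007f0000003e00000027 7 7) 0 0 (step_sound _ 37 [(rh55afc6a59410cf00.shift 4 0), rhe37fdd2e3b95777f] (by decide +kernel))
noncomputable def rh2f63da6438174cc4 : CRef := CRef.mk (Pat.mk 0xa0000001a000000300000001000000000 0x280000003800000038000000370000001e0000001b0000003f0000003700000025 7 6) 0 0 (step_sound _ 132 [(rh14b51fa663a18e28.shift 1 2), (rh860fc38a6f91358e.shift 3 1), rhba2d13ad16ecf2cf, (rhd4b4beefcd67f51e.shift 4 0)] (by decide +kernel))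
noncomputable def rhf0157adac5d0436a : CRef := CRef.mk (Pat.mk 0xa0000001a0000009000000000 0x3000000030000000300000001f0000001b000000f000000020 7 8) 0 0 (step_sound _ 98 [rh3efefa0de97aa889, (rhb739f4f82bb681b4.shift 0 2)] (by decide +kernel))
noncomputable def rhaa0b58ab551de52c : CRef := CRef.mk (Pat.mk 0x20000000600000002000000000000000000000000 0x50000000700000007000000060000000600000006000000070000000700000005 7 3) 0 0 (step_sound _ 65 [(rh20e56a1196e70fcc.shift 0 1), rh6eff4158bb400f47, (rha707fb719e87fe6e.shift 1 1)] (by decide +kernel))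
noncomputable def rh521e822e8e52a8ac : CRef := CRef.mk (Pat.mk 0x80000000800000018000000300000000000000000 0x140000001c0000001c0000001e0000003f0000006700000004 7 7) 0 0 (step_sound _ 98 [rh8ad0d95ce80b5906, (rhb739f4f82bb681b4.shift 1 2)] (by decide +kernel))
noncomputable def rh6a9b5743ffa5827c : CRef := CRef.mk (Pat.mk 0x88000000180000003000000000 0x340000003400000037000000ff0000001f0000003800000020 7 8) 0 0 (step_sound _ 100 [(rh26ffcb37093465b4.shift 0 1), (rh860fc38a6f91358e.shift 3 0), (rhac82796e88eaef19.shift 1 0)] (by decide +kernel))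
noncomputable def rh3b18d37bfe48b686 : CRef := CRef.mk (Pat.mk 0xa00000018000000900000000000000000 0x1000000010000000370000003f00000018000000f80000003000000030 7 8) 0 0 (step_sound _ 130 [rh3f6a0d21a471d3b0, (rhb739f4f82bb681b4.shift 0 3)] (by decide +kernel))
noncomputable def rh125426cc7196637f : CRef := CRef.mk (Pat.mk 0x3c0000001400000030000001000000000000000000 0x200000002000000070000003e000000140000003c000001f40000002000000020 7 9) 0 0 (step_sound _ 193 [rh320f78b6c3fe0fef, (rh3f8766e6ecb455ce.shift 1 5)] (by decide +kernel))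
noncomputable def rh46ff3243d27be826 : CRef := CRef.mk (Pat.mk 0xc00000008000000180000008000000000 0x40000000c000000080000001f000000ff00000014 7 8) 0 0 (step_sound _ 35 [(rh50fbb5868c909700.shift 2 1), rh79e4170ed8274321] (by decide +kernel))
noncomputable def rheb0ee1f47322713f : CRef := CRef.mk (Pat.mk 0x3800000080 0xe70000007e000000c7 7 8) 0 0 (step_sound _ 38 [(rh96851dee118c1ba3.shift 3 0), rh988dac8d009f9f77] (by decide +kernel))
noncomputable def rhde6280409ab43150 : CRef := CRef.mk (Pat.mk 0x8a00000018000000800000000000000000 0x300000003000000030000000ff0000001f000000f80000003000000010 7 8) 0 0 (step_sound _ 132 [(rh14ee6c800684e33b.shift 0 3), (rh15835a07a070a5f0.shift 3 0), (rh3d698f173c8bf4e4.shift 0 2)] (by decide +kernel))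
noncomputable def rhdfbde5b0acf1808b : CRef := CRef.mk (Pat.mk 0x8e00000018000000800000000000000000 0x300000003000000037000000fe00000018000000f80000003000000010 7 8) 0 0 (step_sound _ 132 [(rh048a568a71929d31.shift 0 3), (rh15835a07a070a5f0.shift 3 0), (rh5ba2d67652840f34.shift 1 2)] (by decide +kernel))
noncomputable def rh1cc7c0a4374e72e9 : CRef := CRef.mk (Pat.mk 0x2000000030000001200000000 0x500000007000000070000000200000002000000030000001f00000004 7 5) 0 0 (step_sound _ 34 [(rh2fe78cc5ca4405d8.shift 0 1), rh921a8f8cd2437502] (by decide +kernel))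
noncomputable def rh4d33ae5f486df8f2 : CRef := CRef.mk (Pat.mk 0x10000000100000001800000018 0x2f0000003e000000770000001c00000018 7 7) 0 0 (step_sound _ 99 [rh49663d23d79e1275, (rh50fbb5868c909700.shift 3 0)] (by decide +kernel))
noncomputable def rhc0f9e5bbcd71a3d2 : CRef := CRef.mk (Pat.mk 0x3a00000018000000000000000000000000 0x4000000070000003e0000001f0000000f0000000700000004 7 6) 0 0 (step_sound _ 97 [(rh24ae073cf30720c4.shift 1 3), rh96485093a74f94a7] (by decide +kernel))
noncomputable def rh837581486774079d : CRef := CRef.mk (Pat.mk 0x100000001a00000018000000000000000000000000 0x4000000370000001e0000001b0000000f0000000700000004 7 6) 0 0 (step_sound _ 130 [(rh33e738c4ed385b9f.shift 1 4), rh80b5a57fbf7b06c1] (by decide +kernel))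
noncomputable def rh79af9630897d4dad : CRef := CRef.mk (Pat.mk 0x1a0000001a000000100000000000000000 0x20000001a0000001f0000001f0000003400000034 7 6) 0 0 (step_sound _ 98 [(rh53b3c253cb0c65f4.shift 0 3), rh86208607df960e92] (by decide +kernel))
noncomputable def rh95f309aa0679dd13 : CRef := CRef.mk (Pat.mk 0x1a0000001a000000100000000000000000 0x20000001b0000001e0000001f0000003400000034 7 6) 0 0 (step_sound _ 98 [(rh3244c3cc8379b070.shift 0 3), rh86208607df960e92] (by decide +kernel))
noncomputable def rhe17fc05566e42183 : CRef := CRef.mk (Pat.mk 0x800000018000000100000001800000000 0x1000000018000000180000001f0000003f0000002c 7 6) 0 0 (step_sound _ 132 [(rh932754581e0f4330.shift 3 0), rhdb7366e899be568e] (by decide +kernel))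
noncomputable def rh3c9e709b165902cc : CRef := CRef.mk (Pat.mk 0x800000018000000d00000001800000000 0x100000001800000018000000df0000007f00000024 7 8) 0 0 (step_sound _ 37 [(rh3fc040e777f1679e.shift 3 1), rh4ca8a533ceecb91e] (by decide +kernel))
noncomputable def rhdcf7f29e82ea01c9 : CRef := CRef.mk (Pat.mk 0x180000001c000000000000000000000000 0x1000000014000000340000001f0000001f0000000f0000000200000002 7 6) 0 0 (step_sound _ 97 [(rh53b3c253cb0c65f4.shift 0 3), rh9b358d6df03b7a78] (by decide +kernel))
noncomputable def rh82d555ca139397c6 : CRef := CRef.mk (Pat.mk 0x180000001c000000000000000000000000 0xb0000000b0000001f0000001f0000000f0000000400000004 7 5) 0 0 (step_sound _ 97 [(rh53b3c253cb0c65f4.shift 0 3), rhdafec236139b0749] (by decide +kernel))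
noncomputable def rhcbadaa9363159b40 : CRef := CRef.mk (Pat.mk 0x3000000030000000380000000000000000 0xc0000000c0000007e0000003e000000380000001f0000000c 7 7) 0 0 (step_sound _ 99 [(rh34517e326ddb5b25.shift 1 2), rh430f88a88b46a7ba, (rhaed54c24fb91f24a.shift 1 0)] (by decide +kernel))
noncomputable def rh63028c7995a5d373 : CRef := CRef.mk (Pat.mk 0x18000000980000000800000000 0x400000004000000e60000007f000000df0000000800000008 7 8) 0 0 (step_sound _ 98 [(rh9a7561f3bb06436e.shift 0 2), (rhdbc1e5024263a679.shift 1 0), (rhf9a6286f1d5377a2.shift 2 0)] (by decide +kernel))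
noncomputable def rh0e020e4be850a960 : CRef := CRef.mk (Pat.mk 0x580000005300000012000000000000000000000000 0x88000000cc000000f80000005b000000fe000001ec000000e8000000a0 7 9) 0 0 (step_sound _ 102 [rh4d454a15dbca0df6, rh7b484aeed5870a8c, (rh8062e0b2b3b80ab1.shift 3 0), (rhe0f2a8ce205c4846.shift 0 1)] (by decide +kernel))
noncomputable def rh3e4b9488ac4c48cd : CRef := CRef.mk (Pat.mk 0xf000000000 0xe000000fe0000007f 7 8) 0 0 (step_sound _ 35 [rh04797e9e06425c4e, (rh529b77dec6e034de.shift 1 0), (rh775ca1963e850b80.shift 1 0), (rheae1728ff4a56756.shift 2 0)] (by decide +kernel))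
noncomputable def rh089b387372e6da77 : CRef := CRef.mk (Pat.mk 0x20000000200000003000000030 0x5f0000007e000000700000003000000030 7 7) 0 0 (step_sound _ 100 [rh1be76180e9077aa8, (rh50fbb5868c909700.shift 4 0)] (by decide +kernel))
noncomputable def rh2e6caaa45a559674 : CRef := CRef.mk (Pat.mk 0x52000000130000001200000000 0x80000000e0000000e0000007e0000001b0000001300000001 7 7) 0 0 (step_sound _ 99 [(rhb2a0b9ccfb5cecd5.shift 0 2), rhee5a55b6a9ac5cd2] (by decide +kernel))
noncomputable def rhc8a0e5144fa25221 : CRef := CRef.mk (Pat.mk 0x380000006000000020000000000000000000000000 0x100000001000000018000000380000007e000000fc000000df0000005400000004 7 8) 0 0 (step_sound _ 99 [(rh5b19e38918de2877.shift 2 1), (rh844ebdfebc1d8882.shift 0 2), (rh9e4f5f4a33433ac3.shift 2 1), (rhc5a0d29a3b12ff5f.shift 2 0), (rhd81976f5609d641c.shift 1 2), (rhfafc9946dfd6dc3e.shift 2 1)] (by decide +kernel))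
noncomputable def rh701b10bfa25a93d3 : CRef := CRef.mk (Pat.mk 0xe00000008000000080000000800000000 0x20000000e0000000c0000003f0000003f00000016 7 6) 0 0 (step_sound _ 36 [(rh55afc6a59410cf00.shift 3 0), rh9f8446916da6a443] (by decide +kernel))
noncomputable def rh1d286e780360c6d2 : CRef := CRef.mk (Pat.mk 0x80000000c00000018000000080000000000000000 0x80000000c0000001f0000003f0000001700000002 7 6) 0 0 (step_sound _ 66 [(rh932754581e0f4330.shift 2 1), rhbac8aa6e1bfd49be] (by decide +kernel))
noncomputable def rh2b60ca869143ae83 : CRef := CRef.mk (Pat.mk 0x600000003000000060000000000000000000000000000000000000000 0x40000000600000003000000070000000600000006000000070000000700000005 7 3) 0 0 (step_sound _ 129 [(rh2f68792b6b779e96.shift 1 4), rh410c4b99ba6e975c] (by decide +kernel))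
noncomputable def rh344b027b4f3519e9 : CRef := CRef.mk (Pat.mk 0x58000000130000001200000000 0x80000000e0000000f0000007a0000001b0000001f00000001 7 7) 0 0 (step_sound _ 35 [rh0bb018cd1de4a9bc, (rh5419adcd928dba20.shift 0 1)] (by decide +kernel))
noncomputable def rhd9d7f55e653a9061 : CRef := CRef.mk (Pat.mk 0x8000000480000000b000000090000000000000000 0x160000003e0000006e0000000b0000000b0000000100000001 7 7) 0 0 (step_sound _ 162 [rh0527261f5bf37bd1, (rh50fbb5868c909700.shift 2 2)] (by decide +kernel))
noncomputable def rh1e799c93e7279403 : CRef := CRef.mk (Pat.mk 0x90000000b0000000a000000000000000000000000 0x100000001d0000001f0000000d0000000b0000000a0000001c0000001c00000014 7 5) 0 0 (step_sound _ 192 [(rh2145e1d24b96a57e.shift 0 3), rhf1723c31a25c5768] (by decide +kernel))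
noncomputable def rhbb62d6666e07104c : CRef := CRef.mk (Pat.mk 0x100000000300000006000000000000000000000000 0x400000006000000060000001e0000000300000007000000070000000700000005 7 5) 0 0 (step_sound _ 161 [(rh566659606c8abe04.shift 0 2), rh62825c4dfa6be415, (rhb23658ecdd7ce5df.shift 0 2)] (by decide +kernel))
noncomputable def rh5ad370b2afd973bd : CRef := CRef.mk (Pat.mk 0x1c0000000c0000000800000000 0x180000001a0000003b0000001e0000000f0000000c00000004 7 6) 0 0 (step_sound _ 65 [(rh53b3c253cb0c65f4.shift 0 2), rha6edc2b4e7852b08] (by decide +kernel))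
noncomputable def rhe92b9caae1839385 : CRef := CRef.mk (Pat.mk 0x260000000600000004000000000000000000000000 0xf0000001f000000370000000600000006000000030000000300000003 7 6) 0 0 (step_sound _ 193 [(rh2145e1d24b96a57e.shift 1 3), rhf265e7da73faf003] (by decide +kernel))
noncomputable def rh5d9989211af9d7d6 : CRef := CRef.mk (Pat.mk 0x180000001800000010000000000000000000000000 0x1c0000001f0000003c00000018000000180000000c0000000c0000000c 7 6) 0 0 (step_sound _ 195 [(rh2145e1d24b96a57e.shift 3 3), rhe7d5a6c106c98797] (by decide +kernel))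
noncomputable def rhda744085b7b5dfd1 : CRef := CRef.mk (Pat.mk 0x1c0000003000000030000000000000000000000000 0x80000001c0000003f0000007f0000000e0000000e0000000a 7 7) 0 0 (step_sound _ 130 [(rh1440f6a1c37c6417.shift 1 1), (rh90c14c1814f819fd.shift 1 0), (rh9b5857224768a516.shift 0 3), (rhcd6baf37b3e5de21.shift 1 3)] (by decide +kernel))
noncomputable def rhe012ffa67dd2c6eb : CRef := CRef.mk (Pat.mk 0x1800000030000000300000000000000000 0x8000000180000003e0000007e0000006f0000002c 7 7) 0 0 (step_sound _ 99 [rh1677df1397bc1b54, (rhad5d8fc3675c15dd.shift 1 2), (rhd6084ca99383f4c2.shift 1 0), (rheec99d8f9699a991.shift 1 0)] (by decide +kernel))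
noncomputable def rh1facce8ef24f846c : CRef := CRef.mk (Pat.mk 0x1000000003000000120000000000000000 0x4000000070000000f0000001f000000030000001f0000000700000002 7 5) 0 0 (step_sound _ 66 [(rh2fe78cc5ca4405d8.shift 0 2), rh67f9c2f7f3af6244] (by decide +kernel))
noncomputable def rhbceb45bae056aa38 : CRef := CRef.mk (Pat.mk 0x80000001c00000038000000100000000000000000 0x40000000c0000001c0000003e0000007c000000ef0000002c 7 8) 0 0 (step_sound _ 67 [(rh40241bd608e5be1a.shift 2 0), (rh417f8031ed7a64e9.shift 1 0), rhf556bc1b2b6776a3] (by decide +kernel))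
noncomputable def rhd7f085354b1a39c2 : CRef := CRef.mk (Pat.mk 0x800000009800000098000000100000000000000000 0x84000000df000000ff0000007b0000004a0000004a 7 8) 0 0 (step_sound _ 130 [rh1aac160392d92428, (rh39b258f71cdd1414.shift 2 0), (rh5bb78067c54b222b.shift 1 3)] (by decide +kernel))
noncomputable def rha957f5cc86e7dbe1 : CRef := CRef.mk (Pat.mk 0x1c0000003800000000000000000000000000000000 0xc0000001c000000380000007e0000007f0000003e00000028 7 7) 0 0 (step_sound _ 100 [(rh0a6888916bcef86b.shift 3 0), (rh1864e4c677b30864.shift 1 1), (rh3cb04db3dd2b6a55.shift 3 1), (rheb0f8008138d7607.shift 0 1)] (by decide +kernel))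
noncomputable def rhed9575cdee0ab1ad : CRef := CRef.mk (Pat.mk 0x180000001e000000000000000000000000 0x180000001e0000003f0000003c00000038 7 6) 0 0 (step_sound _ 68 [rh5ae3a6fca53165c1, (rhe25b0a99195a5d59.shift 1 2)] (by decide +kernel))
noncomputable def rh057c4fb73ca17b64 : CRef := CRef.mk (Pat.mk 0x1800000078000000000000000000000000 0x800000018000000780000003c0000001f0000001c 7 7) 0 0 (step_sound _ 67 [rh8a81244b44d96c38, (rheb0810cc63b001d8.shift 2 2)] (by decide +kernel))
noncomputable def rhc6a146d25e06303d : CRef := CRef.mk (Pat.mk 0x100000001000000018000000980000000000000000 0x800000018000000180000001f000000ff0000001700000004 7 8) 0 0 (step_sound _ 163 [rh1a65eda28804ac2d, (rh50fbb5868c909700.shift 3 2)] (by decide +kernel))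
noncomputable def rh9bb786ef3e042462 : CRef := CRef.mk (Pat.mk 0x10000000100000001800000018000000000000000000000000 0x800000018000000180000001f0000003f000000270000000400000004 7 6) 0 0 (step_sound _ 195 [(rh50fbb5868c909700.shift 3 3), rhd2077ac7a4ba6e2a] (by decide +kernel))
noncomputable def rh988789a164f1199b : CRef := CRef.mk (Pat.mk 0x80000000c000000440000000400000000 0x2000000060000000e0000000c0000007f0000003f0000001a 7 7) 0 0 (step_sound _ 130 [rh5e5fbea24e363f90, (rh6b45b4ee05d3aa15.shift 2 0), (rh968ba7b0df7e4096.shift 1 0)] (by decide +kernel))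
noncomputable def rh58e7ce167b4c58f9 : CRef := CRef.mk (Pat.mk 0xc0000001800000003000000000000000000000000 0x500000007000000070000000f0000001b00000003000000070000000700000005 7 5) 0 0 (step_sound _ 161 [rh14f0436b20a74f24, (rhb739f4f82bb681b4.shift 0 4)] (by decide +kernel))
noncomputable def rhc16df757c2ec1ce5 : CRef := CRef.mk (Pat.mk 0x12000000130000001a000000000000000000000000 0x1000000070000000700000006000000130000001b0000001b0000000b0000001f0000000c 7 5) 0 0 (step_sound _ 64 [(rh0db119afefb5ebc7.shift 0 1), (rh568dedf39348a228.shift 0 2), rh6cc58adde51746b5] (by decide +kernel))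
noncomputable def rhebeb1d2884d86247 : CRef := CRef.mk (Pat.mk 0x5a0000001300000010 0x10000000b0000000b0000000f0000007b0000001b00000011 7 7) 0 0 (step_sound _ 99 [rhdd4dec6046f57be9, (rhe072fffdd2fccf38.shift 3 0)] (by decide +kernel))
noncomputable def rh2b6f3d735bfdbe30 : CRef := CRef.mk (Pat.mk 0x200000002000000020000000300000000000000000000000000000000 0x40000000600000006000000030000000300000006000000070000000700000001 7 3) 0 0 (step_sound _ 226 [(rh2f68792b6b779e96.shift 1 4), rhbf341b4d3d4c4d22] (by decide +kernel))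
noncomputable def rh7e964456697e72b2 : CRef := CRef.mk (Pat.mk 0x800000038000000180000009000000000 0x400000004000000040000000f0000003c0000001f000000ff00000004 7 8) 0 0 (step_sound _ 65 [(rh24ae073cf30720c4.shift 1 2), rhec28cf51d6e2ae71] (by decide +kernel))
noncomputable def rhaea142b551fae2dd : CRef := CRef.mk (Pat.mk 0x8000000300000001c00000000 0x1c0000003c0000007e0000007f000000380000001c00000004 7 7) 0 0 (step_sound _ 131 [(rh0188917d0a15b7ff.shift 3 1), (rh2cc42727f986b943.shift 1 1), (rh6299d1722b6e1507.shift 2 0), (rh79a48be3ac30af6a.shift 2 0), rhb6ca4aefb06773a6] (by decide +kernel))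
noncomputable def rh24a38c3ca2fad7f6 : CRef := CRef.mk (Pat.mk 0x8000000880000001c000000300000000000000000 0x340000007c000000fc0000001c0000003f0000002700000004 7 8) 0 0 (step_sound _ 66 [(rh42548283029e2a39.shift 2 0), (rh76bd02b8ba6c79ea.shift 0 1), (rhf9af042da61fc652.shift 2 0)] (by decide +kernel))
noncomputable def rh088159be70fea814 : CRef := CRef.mk (Pat.mk 0x8000000000000001800000030000000000000000000000000 0xc0000000c0000001c0000001f0000003f0000000f0000000c0000000c 7 6) 0 0 (step_sound _ 163 [(rh2145e1d24b96a57e.shift 3 3), rheb4809ecc664799d] (by decide +kernel))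
noncomputable def rhbbf898d147e53635 : CRef := CRef.mk (Pat.mk 0x1000000003000000060000000200000000000000000000000000000000 0x40000001e00000003000000070000000700000003000000070000000700000005 7 5) 0 0 (step_sound _ 225 [(rh04e571695666b5c1.shift 0 4), rh78d78d3e585dd69b] (by decide +kernel))
noncomputable def rhb46695e692e52d88 : CRef := CRef.mk (Pat.mk 0x200000003000000120000000200000000000000000000000000000000 0x2000000030000001f0000000600000006000000070000000700000005 7 5) 0 0 (step_sound _ 162 [(rh2fe78cc5ca4405d8.shift 0 5), rh410c4b99ba6e975c] (by decide +kernel))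
noncomputable def rh4b7c6a3353f25f98 : CRef := CRef.mk (Pat.mk 0x10000000140000000600000002000000020000000000000000 0x28000000380000003800000030000000140000003e0000007b0000003e0000003800000020 7 7) 0 0 (step_sound _ 132 [(rh10773b53a9d72d47.shift 0 3), (rh24b1ac9e917f3bd8.shift 0 3), (rh3bf5d743c436b7b8.shift 1 0), (rh61ee5ba52d1904f1.shift 3 2), rh95259f4ed0444d48, (rhf4944603f7a2747c.shift 0 1)] (by decide +kernel))
noncomputable def rheb1cf7630c4718b6 : CRef := CRef.mk (Pat.mk 0x4000000040000000180000000a0000000000000000 0xa0000000e0000000e00000004000000078000000ef000000e0000000a0 7 8) 0 0 (step_sound _ 66 [(rh53b3c253cb0c65f4.shift 0 2), (rhe52695b087e24906.shift 2 0)] (by decide +kernel))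
noncomputable def rhea3aeba536f7ce5c : CRef := CRef.mk (Pat.mk 0x100000001400000006000000030000000000000000 0x200000003000000030000000140000003e0000003b0000003e0000002a 7 6) 0 0 (step_sound _ 100 [(rh361cc68994bd8a63.shift 0 2), rhd645d6ebdb059d1b] (by decide +kernel))
noncomputable def rhaa7a7a0fc4868fd8 : CRef := CRef.mk (Pat.mk 0xc00000048000000080000000800000000000000000000000000000000 0xc000000780000001f0000007c000000180000001c0000001c00000014 7 7) 0 0 (step_sound _ 99 [(rh1878d6b3c451fc5c.shift 2 0), rh7be476d398110fee, (rhd29a1fb688eae70f.shift 3 2)] (by decide +kernel))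
noncomputable def rh569cfe459e9e0c33 : CRef := CRef.mk (Pat.mk 0x20000000600000002000000020000000200000000000000000000000000000000 0x20000000600000007000000030000000300000002000000070000000700000005 7 3) 0 0 (step_sound _ 97 [(rhbaefcd01e0a8bca3.shift 1 3), rhf97245a3d45e02d4] (by decide +kernel))
noncomputable def rh70627328f86b69a8 : CRef := CRef.mk (Pat.mk 0x400000005800000043000000000000000000000000 0x20000000600000007e00000043000000e0000000e0000000a0 7 8) 0 0 (step_sound _ 130 [(rhbbf883590fc37e75.shift 2 0), (rhca9569cc80abfe76.shift 0 3)] (by decide +kernel))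
noncomputable def rh6668e42632f007c0 : CRef := CRef.mk (Pat.mk 0x1000000180000000300000010000000000000000000000000 0x1000000030000001f000000030000001e000000070000000700000005 7 5) 0 0 (step_sound _ 161 [(rhb2a0b9ccfb5cecd5.shift 0 4), rhc7572ca658ffdacf] (by decide +kernel))
noncomputable def rh063fde0fd37c0252 : CRef := CRef.mk (Pat.mk 0x16000000300000002600000000 0x7000000170000003f00000017000000370000002700000005 7 6) 0 0 (step_sound _ 132 [(rh2145e1d24b96a57e.shift 4 1), rhf8c9e5238c66a6f2] (by decide +kernel))
noncomputable def rhfd8d26ebb5df7133 : CRef := CRef.mk (Pat.mk 0x9000000180000000800000008 0x40000000c0000001c000000180000001f0000001c0000001800000008 7 5) 0 0 (step_sound _ 132 [(rhbaefcd01e0a8bca3.shift 3 0), (rhe7f7a271ea9f2620.shift 0 1)] (by decide +kernel))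
noncomputable def rh2926b8f0dc3058f0 : CRef := CRef.mk (Pat.mk 0x4000000050000000400000004 0xf80000007e000000ff0000000400000004 7 8) 0 0 (step_sound _ 99 [(rh2f68792b6b779e96.shift 2 0), (rh4063c4745695c9fd.shift 0 2)] (by decide +kernel))
noncomputable def rh0f63ac4a2890c272 : CRef := CRef.mk (Pat.mk 0x20000000410000005800000050 0x80000000e8000000f80000004f0000007800000050 7 8) 0 0 (step_sound _ 102 [(rh50fbb5868c909700.shift 5 0), rh88cd52b629aea10f] (by decide +kernel))
noncomputable def rhc20ef6ea94f41f77 : CRef := CRef.mk (Pat.mk 0x800000008000000180000009800000000 0x140000001c0000001800000018000000ff00000064 7 8) 0 0 (step_sound _ 132 [(rh2f68792b6b779e96.shift 3 1), rhbbe3da937dfc0637] (by decide +kernel))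
noncomputable def rh0ac2c7be15b134d5 : CRef := CRef.mk (Pat.mk 0x100000002000000030000001200000000000000000000000000000000 0x100000003000000030000001f00000006000000070000000700000001 7 5) 0 0 (step_sound _ 97 [rh653563a5bd605855, (rhffd04209dc8ea796.shift 0 3)] (by decide +kernel))
noncomputable def rhc8e64ff26830cd49 : CRef := CRef.mk (Pat.mk 0x4000000180000000e000000000000000000000000 0x100000003b0000001f0000001e0000000e000000060000000600000006 7 6) 0 0 (step_sound _ 66 [(rh8bd30f11bd9c01da.shift 0 2), (rha6cbd052c746e3e6.shift 1 0), rhce46a40da7da8a51, (rhf9366b6a121593ef.shift 2 0)] (by decide +kernel))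
noncomputable def rh1bdedcf86a4eb544 : CRef := CRef.mk (Pat.mk 0x8000000300000001800000088000000000000000000000000 0x28000000380000001f000000ff000000770000002400000024 7 8) 0 0 (step_sound _ 100 [rh7c7020abee36df62, rh8fea55a87ae27512, (rhc705a4e0321a1bff.shift 3 2)] (by decide +kernel))
noncomputable def rh7f9803a04bd21501 : CRef := CRef.mk (Pat.mk 0x100000001800000098000000000000000000000000 0x100000001f000000ff0000000f0000000c0000000c 7 8) 0 0 (step_sound _ 101 [rh1f59f5d74b39fa96, (rh2fe78cc5ca4405d8.shift 3 3)] (by decide +kernel))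
noncomputable def rh2eb4ab9867eeea15 : CRef := CRef.mk (Pat.mk 0x120000000300000010000000000000000000000000 0x400000006000000060000001e000000030000001f000000070000000700000005 7 5) 0 0 (step_sound _ 162 [(rh361cc68994bd8a63.shift 0 4), rh92a0e219f2d8e32e] (by decide +kernel))
noncomputable def rhbffee8330f79a213 : CRef := CRef.mk (Pat.mk 0x200000006000000020000000200000000000000000000000000000000 0x10000000300000007000000060000000200000002000000070000000700000005 7 3) 0 0 (step_sound _ 224 [(rh50fbb5868c909700.shift 0 4), rhd44c5255a25eff97] (by decide +kernel))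
noncomputable def rhe3db86fd46dd130f : CRef := CRef.mk (Pat.mk 0x2000000020000000600000022000000000000000000000000 0x10000000300000003000000060000003e000000070000000300000003 7 6) 0 0 (step_sound _ 98 [(rh55afc6a59410cf00.shift 1 2), rhb1fea747c0d350a3] (by decide +kernel))
noncomputable def rh48c47727a92b1a14 : CRef := CRef.mk (Pat.mk 0x70000000200000020000000200 0x38f000001fe000001fe0000030000000200 7 10) 0 0 (step_sound _ 99 [(rh4d8df14dca253e3c.shift 2 0), (rh775ca1963e850b80.shift 1 2), (rhb2afcb5db661472f.shift 0 2)] (by decide +kernel))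
noncomputable def rh999e60c270782f1d : CRef := CRef.mk (Pat.mk 0x8000000080000008800000018000000000000000000000000 0x80000000c0000000f000000fc000000180000000c0000000c0000000c 7 8) 0 0 (step_sound _ 132 [(rh2145e1d24b96a57e.shift 3 3), rh2324c23ad34f40cb] (by decide +kernel))
noncomputable def rhc122cf6cdec26e56 : CRef := CRef.mk (Pat.mk 0x700000022000000060 0x38e000001fe000003f700000060 7 10) 0 0 (step_sound _ 39 [(rh5a913b318216cdb5.shift 4 1), (rh615d2cd5c799b5dc.shift 0 1), (rh6b8d87dbabcee4bd.shift 3 0)] (by decide +kernel))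
noncomputable def rhea73a7dfb27367a9 : CRef := CRef.mk (Pat.mk 0x10000001800000003000000100000000000000000 0x50000000700000007000000030000001e000000030000001f0000000500000001 7 5) 0 0 (step_sound _ 129 [rh6c16936c4dc9af2e, (rhb2a0b9ccfb5cecd5.shift 0 3)] (by decide +kernel))
noncomputable def rh21cd9916e0625d8a : CRef := CRef.mk (Pat.mk 0x18000000100000001400000014 0x1e7000000fe000000fb0000001600000014 7 9) 0 0 (step_sound _ 101 [(rh2f68792b6b779e96.shift 4 0), rha9462dc5b36b8c9b] (by decide +kernel))
noncomputable def rh74e5b4bbdb03b72a : CRef := CRef.mk (Pat.mk 0x8000000080000000a00000008 0x140000001c0000001c0000000c0000001f0000007c0000001f00000008 7 7) 0 0 (step_sound _ 131 [(rh3ca48e2a6d60153d.shift 2 0), (rh66ee4e4e1313f0fc.shift 2 1), rh984d8ac0eeb3ca6d, (rhdf31d1055d6a4415.shift 0 1), (rheeb2dab003104552.shift 0 1)] (by decide +kernel))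
noncomputable def rh6807a10dba0e3fd1 : CRef := CRef.mk (Pat.mk 0x8000000080000000a00000008 0x100000001c0000001c0000000c0000001c0000001f00000008 7 5) 0 0 (step_sound _ 130 [(rh8d317a59902f7b3f.shift 0 1), (rhffd04209dc8ea796.shift 2 0)] (by decide +kernel))
noncomputable def rh2d385d8575299c6e : CRef := CRef.mk (Pat.mk 0x8000000080000000a00000008 0x140000001c0000001c00000018000000180000007c0000001f00000008 7 7) 0 0 (step_sound _ 131 [rh082a9c7b1a2bf320, (rh44f453b84f013105.shift 3 0), (rhb7e554dc0df58ef3.shift 0 1), (rheeb2dab003104552.shift 0 1)] (by decide +kernel))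
noncomputable def rh3409b0f62558ff0b : CRef := CRef.mk (Pat.mk 0x1200000053000000580000000000000000 0xa0000000e8000001ec000000fe0000005b000000f8000000cc00000088 7 9) 0 0 (step_sound _ 134 [(rh02aea0b077e71238.shift 0 1), rh3367652502228d5c, rh88e9d2203d3e6459, (rhbba60a05fb0c46a0.shift 3 0)] (by decide +kernel))
noncomputable def rha223b06eb4ab7e9f : CRef := CRef.mk (Pat.mk 0xf000000000 0x7f000000fe0000000e 7 8) 0 0 (step_sound _ 35 [(rh592c7139d2c44767.shift 1 0), (rh624e7875a244d2e7.shift 1 0), rhaeac014a58998cf3, (rhd5eb272e07a4e288.shift 2 1)] (by decide +kernel))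
noncomputable def rhb5fa061a04a7f251 : CRef := CRef.mk (Pat.mk 0x3000000030000000200000002000000000 0x3000000030000000700000007e0000005f 7 7) 0 0 (step_sound _ 36 [rh74bd69f167712e70, (rh932754581e0f4330.shift 4 0)] (by decide +kernel))
noncomputable def rhb3257eb51b6bc229 : CRef := CRef.mk (Pat.mk 0x120000001300000052000000000000000000000000 0x1000000130000001b0000007e0000000e0000000e00000008 7 7) 0 0 (step_sound _ 99 [rh374717c1c8c7bbcf, (rh5419adcd928dba20.shift 0 3)] (by decide +kernel))
noncomputable def rh2d2054a8283afcc1 : CRef := CRef.mk (Pat.mk 0x6000000030000001000000000000000000000000000000000 0x20000000600000006000000030000001f00000007000000070000000700000004 7 5) 0 0 (step_sound _ 129 [(rh12452934acb847d5.shift 0 3), rh2222a27c490588f5, (rh4c145d583973abd2.shift 0 1)] (by decide +kernel))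
noncomputable def rh0de8f4ef896631be : CRef := CRef.mk (Pat.mk 0x200000003000000120000000000000000 0x500000007000000070000000300000003000000030000001f0000000300000003 7 5) 0 0 (step_sound _ 67 [(rh5419adcd928dba20.shift 0 2), rhe9f3ae4f7b80396d] (by decide +kernel))
noncomputable def rheae17d1130039ec7 : CRef := CRef.mk (Pat.mk 0x200000006000000038000000000000000000000000 0x400000054000000df000000fc0000007e00000038000000180000001000000010 7 8) 0 0 (step_sound _ 163 [rh3452acf58a5488fb, (rh4de08abd31d9ffe6.shift 2 2), (rh697b6d46448d3c68.shift 1 0), (rh71f126fe145790e8.shift 2 2), (rhba3de35515f04ede.shift 2 2), (rhfa4e74cf276cb686.shift 2 1)] (by decide +kernel))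
noncomputable def rh2fc2e33584cb656e : CRef := CRef.mk (Pat.mk 0x800000008000000080000000e00000000 0x160000003f0000003f0000000c0000000e00000002 7 6) 0 0 (step_sound _ 132 [(rh2f68792b6b779e96.shift 3 1), rhc262b482c18ba545] (by decide +kernel))
noncomputable def rhfdb027e5be1c5c6a : CRef := CRef.mk (Pat.mk 0x8000000180000000c00000008 0x2000000170000003f0000001f0000000c00000008 7 6) 0 0 (step_sound _ 98 [(rh50fbb5868c909700.shift 2 0), rhf0d450b4a047dd83] (by decide +kernel))
noncomputable def rh2c1dc4fec0aa6c71 : CRef := CRef.mk (Pat.mk 0x6000000030000000600000000 0x50000000700000007000000060000000600000007000000030000000600000004 7 3) 0 0 (step_sound _ 129 [(rh09670c84f0ed1150.shift 0 1), (rh55afc6a59410cf00.shift 1 0)] (by decide +kernel))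
noncomputable def rh5071b108d0db1464 : CRef := CRef.mk (Pat.mk 0x120000001300000058000000000000000000000000 0x10000001f0000001b0000007a0000000f0000000e00000008 7 7) 0 0 (step_sound _ 163 [rha76e3b45fbe0b1a4, (rhb2a0b9ccfb5cecd5.shift 0 4)] (by decide +kernel))
noncomputable def rh179d065fc6281018 : CRef := CRef.mk (Pat.mk 0x12000000130000001800000000000000000000000000000000 0x120000001b0000001f0000000f0000000f0000000f00000005 7 5) 0 0 (step_sound _ 129 [(rh5419adcd928dba20.shift 0 4), rhb20c0fd23f48ed10] (by decide +kernel))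
noncomputable def rhca44ed8b43254344 : CRef := CRef.mk (Pat.mk 0x90000000b000000480000000800000000 0x1000000010000000b0000000b0000006e0000003e00000016 7 7) 0 0 (step_sound _ 34 [(rh932754581e0f4330.shift 2 0), rhdeca60fa266bf297] (by decide +kernel))
noncomputable def rhdaa7b104475e1f6c : CRef := CRef.mk (Pat.mk 0x60000000300000010000000000000000000000000 0x5000000070000000700000007000000030000001e000000060000000600000004 7 5) 0 0 (step_sound _ 97 [(rh000637b5a81e86aa.shift 0 1), rh4c145d583973abd2, (rh5efaf85ec96fcaef.shift 0 2)] (by decide +kernel))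
noncomputable def rhe076282df68226a9 : CRef := CRef.mk (Pat.mk 0x80000000c0000001c000000000000000000000000 0x40000000c0000000f0000001e0000003b0000001a00000018 7 6) 0 0 (step_sound _ 129 [rh454426a7f2bb43e8, (rhb739f4f82bb681b4.shift 0 3)] (by decide +kernel))
noncomputable def rh748f64a74f67a47c : CRef := CRef.mk (Pat.mk 0x400000006000000260000000000000000 0x300000003000000030000000600000006000000370000001f0000000f 7 6) 0 0 (step_sound _ 33 [rh418d0f54bcf582da, (rh71222050f2c63a3a.shift 1 0)] (by decide +kernel))
noncomputable def rh5998dcdfd0b03cdd : CRef := CRef.mk (Pat.mk 0x1000000018000000180000000000000000 0xc0000000c0000000c00000018000000180000003c0000001f0000001c 7 6) 0 0 (step_sound _ 35 [(rh71222050f2c63a3a.shift 3 0), rhacf07efdde0e084a] (by decide +kernel))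
noncomputable def rh7dd99c40dd8f3c05 : CRef := CRef.mk (Pat.mk 0x30000000300000001c00000000 0xa0000000e0000000e0000007f0000003f0000001c00000008 7 7) 0 0 (step_sound _ 66 [(rh0f1707c9c461f41c.shift 1 0), (rh114680e7a1ca66eb.shift 1 0), (rh6d571b54e8dd9e33.shift 1 2), (rh85d8fbe61f816818.shift 0 1)] (by decide +kernel))
noncomputable def rhaf50c754c3cc8571 : CRef := CRef.mk (Pat.mk 0x30000000300000001800000000 0x2c0000006f0000007e0000003e0000001800000008 7 7) 0 0 (step_sound _ 67 [(rh4994af439152da2a.shift 1 1), (rh8b2fda5a45b22ee6.shift 1 0), (rh90daca178e8688a7.shift 0 1), (rhab2ad169e49f9c5e.shift 1 2)] (by decide +kernel))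
noncomputable def rh8101de8a10825e2e : CRef := CRef.mk (Pat.mk 0x30000000200000003000000030 0x4f0000007e0000003e0000003000000030 7 7) 0 0 (step_sound _ 102 [(rh2f68792b6b779e96.shift 5 0), rhb53c85f6c35ef756] (by decide +kernel))
noncomputable def rhb83d2c0030c0ec65 : CRef := CRef.mk (Pat.mk 0x120000000300000010000000000000000000000000 0x2000000070000001f000000030000001f0000000f0000000700000004 7 5) 0 0 (step_sound _ 162 [(rh361cc68994bd8a63.shift 0 4), rhc4c6d4ea5c72a97a] (by decide +kernel))
noncomputable def rh3f4384b4b40d49f8 : CRef := CRef.mk (Pat.mk 0x10000000380000001c0000000800000000 0x2c000000ef0000007c0000003e0000001c0000000c00000004 7 8) 0 0 (step_sound _ 131 [(rh2d5278bf8bdc5a58.shift 1 0), (rh37d9ceebb86d75d1.shift 2 1), (rhdf8d307afd4a5706.shift 0 2)] (by decide +kernel))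
noncomputable def rhe20093ebb6d0a0a7 : CRef := CRef.mk (Pat.mk 0x10000000980000009800000080 0x4a0000004a0000007b000000ff000000df00000084 7 8) 0 0 (step_sound _ 34 [(rh2b3584ef0f05e9c2.shift 1 1), (rha235d9c8b0766a92.shift 2 0), rhd74ad36f893673c6] (by decide +kernel))
noncomputable def rh0c4b2a5e9566f518 : CRef := CRef.mk (Pat.mk 0x380000001c00000000 0x280000003e0000007f0000007e000000380000001c0000000c 7 7) 0 0 (step_sound _ 100 [rh084f753cabdc1c40, (rh32431e66bbf434a4.shift 3 0), (rh503dd4575245365b.shift 3 0), (rh9dbc063ae34b2487.shift 1 1)] (by decide +kernel))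
noncomputable def rh8c7c8a0d99f0a4c8 : CRef := CRef.mk (Pat.mk 0x1e00000018 0x380000003c0000003f0000001e00000018 7 6) 0 0 (step_sound _ 68 [(rh33e738c4ed385b9f.shift 1 1), rh40f56ec5f549e861] (by decide +kernel))
noncomputable def rh7f5ff820fa050db7 : CRef := CRef.mk (Pat.mk 0x780000001800000000 0x1c0000001f0000003c000000780000001800000008 7 7) 0 0 (step_sound _ 99 [(rh3244c3cc8379b070.shift 2 2), rhaf1889c8c18df41b] (by decide +kernel))
noncomputable def rhc5b507f3b9dbe039 : CRef := CRef.mk (Pat.mk 0x9800000018000000100000001000000000 0x400000017000000ff0000001f000000180000001800000008 7 8) 0 0 (step_sound _ 35 [(rh932754581e0f4330.shift 3 0), (rheb1b5fffd7fe33b9.shift 0 1)] (by decide +kernel))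
noncomputable def rh90b4a2bebec5a8e5 : CRef := CRef.mk (Pat.mk 0x1800000018000000100000001000000000 0x400000004000000270000003f0000001f000000180000001800000008 7 6) 0 0 (step_sound _ 35 [(rh8b47cd5f87b5015f.shift 0 1), (rh932754581e0f4330.shift 3 0)] (by decide +kernel))
noncomputable def rh09a9e319286e6f34 : CRef := CRef.mk (Pat.mk 0x4000000440000000c000000080000000000000000 0x1a0000003f0000007f0000000c0000000e0000000600000002 7 7) 0 0 (step_sound _ 66 [(rh1a57cbc5afc41b5f.shift 2 1), (rh46babd95cd71d0e0.shift 0 2), (rh6aa5625770489e83.shift 1 0)] (by decide +kernel))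
noncomputable def rhf3020d845e6fcf09 : CRef := CRef.mk (Pat.mk 0x3000000180000000c000000000000000000000000 0x50000000700000007000000030000001b0000000f000000070000000700000005 7 5) 0 0 (step_sound _ 97 [(rh53b3c253cb0c65f4.shift 0 3), rh703272b452d174e2] (by decide +kernel))
noncomputable def rhdc09f576138e123a : CRef := CRef.mk (Pat.mk 0x1a000000130000001200000000000000000000000000000000 0xc0000001f0000000b0000001b0000001b0000001300000006000000070000000700000001 7 5) 0 0 (step_sound _ 224 [rh509475ff030b1703, (rh7a467b4f421baab8.shift 0 4), (rhc17a6a02773cc5f6.shift 0 3)] (by decide +kernel))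
noncomputable def rhc09fd3463534d4d4 : CRef := CRef.mk (Pat.mk 0x10000000130000005a00000000000000000000000000000000 0x110000001b0000007b0000000f0000000b0000000b00000001 7 7) 0 0 (step_sound _ 99 [rhc048c9c38d5163f2, (rhf9af042da61fc652.shift 3 1)] (by decide +kernel))
noncomputable def rh5b5ceeb118a9ed7c : CRef := CRef.mk (Pat.mk 0x300000002000000020000000200000000 0x10000000700000007000000060000000300000003000000060000000600000004 7 3) 0 0 (step_sound _ 34 [(rh55afc6a59410cf00.shift 1 0), (rhd507afbfddef8731.shift 0 1)] (by decide +kernel))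
noncomputable def rhdb607f86315170d3 : CRef := CRef.mk (Pat.mk 0x90000000180000003800000008000000000000000000000000 0x4000000ff0000001f0000003c0000000f000000040000000400000004 7 8) 0 0 (step_sound _ 161 [rh22b94898f8611d9b, (rhab22b5b56e7b3243.shift 1 4)] (by decide +kernel))
noncomputable def rh88ac7488d15bed61 : CRef := CRef.mk (Pat.mk 0x1c0000003000000008000000000000000000000000 0x40000001c000000380000007f0000007e0000003c0000001c 7 7) 0 0 (step_sound _ 67 [(rh1c69bb92c13f27a0.shift 2 1), (rh53c798c09177b7db.shift 3 0), (rh86ff0b294d90594e.shift 1 0), (rhab082d0eddee63da.shift 2 0), (rhc615861594ff27b5.shift 0 1)] (by decide +kernel))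
noncomputable def rh454e93d9fd1cde42 : CRef := CRef.mk (Pat.mk 0x300000001c000000880000000800000000 0x4000000270000003f0000001c000000fc0000007c00000034 7 8) 0 0 (step_sound _ 130 [(rhc89253ff58c66167.shift 2 1), rhcce5b447ba70f1dc, (rhe072fffdd2fccf38.shift 2 1)] (by decide +kernel))
noncomputable def rhefcb4cb46d3a1398 : CRef := CRef.mk (Pat.mk 0x3000000018000000000000000800000000 0xc0000000c0000000f0000003f0000001f0000001c0000000c0000000c 7 6) 0 0 (step_sound _ 67 [rh0c88e85bf1a33774, (rh71222050f2c63a3a.shift 3 0)] (by decide +kernel))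
noncomputable def rh88c10c83b02a4a79 : CRef := CRef.mk (Pat.mk 0x200000006000000030000001000000000 0x50000000700000007000000030000000700000007000000030000001e00000004 7 5) 0 0 (step_sound _ 33 [(rh3e6987732fdd2dca.shift 0 1), rhf8edb192cdea7ada] (by decide +kernel))
noncomputable def rh3012105889e1bacf : CRef := CRef.mk (Pat.mk 0x2000000120000000300000002 0x5000000070000000700000006000000060000001f0000000300000002 7 5) 0 0 (step_sound _ 66 [rh09670c84f0ed1150, (rh361cc68994bd8a63.shift 0 1)] (by decide +kernel))
noncomputable def rh2de39e20a3deaa3b : CRef := CRef.mk (Pat.mk 0x200000002000000060000001400000010000000000000000000000000 0x20000000380000003e0000007b0000003e0000001400000030000000380000003800000028 7 7) 0 0 (step_sound _ 164 [(rh0139f4cea80ee4d7.shift 1 2), rh0edf840d1ad4e8e5, (rh221fe539b29f7cc4.shift 0 2), (rh7448f9cefc0787ad.shift 3 0), (rhb55c49f93d2c23ee.shift 0 1), (rhfb1db1011d1c5929.shift 0 2)] (by decide +kernel))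
noncomputable def rhbe54f843394cdd4c : CRef := CRef.mk (Pat.mk 0xa0000001800000040000000400000000000000000 0xa0000000e0000000ef0000007800000040000000e0000000e0000000a0 7 8) 0 0 (step_sound _ 162 [(rh2b437ef9c6ee466e.shift 2 0), (rhb739f4f82bb681b4.shift 0 4)] (by decide +kernel))
noncomputable def rh4e0bfcbeeacd805f : CRef := CRef.mk (Pat.mk 0x30000000600000014000000100000000000000000 0x2a0000003e0000003b0000003e00000014000000300000003000000020 7 6) 0 0 (step_sound _ 132 [(rh2fe78cc5ca4405d8.shift 0 4), rh6e2d469336402966] (by decide +kernel))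
noncomputable def rh3fe749ba9ec07189 : CRef := CRef.mk (Pat.mk 0x800000008000000480000000c 0x140000001c0000001c000000180000007c0000001f000000780000000c 7 7) 0 0 (step_sound _ 131 [(rh44f453b84f013105.shift 3 0), (rh80227680f2ba8044.shift 2 0), rha509a499af01cca2] (by decide +kernel))
noncomputable def rhb870aa2c50c4a860 : CRef := CRef.mk (Pat.mk 0x200000002000000020000000600000002 0x50000000700000007000000020000000300000003000000070000000600000002 7 3) 0 0 (step_sound _ 161 [rh81113ac73e974761, (rhd3458b32566d63f7.shift 1 1)] (by decide +kernel))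
noncomputable def rh673bbfdc3ccc7ed7 : CRef := CRef.mk (Pat.mk 0x1000000003000000180000000100000000 0x500000007000000070000001e000000030000001f0000000300000001 7 5) 0 0 (step_sound _ 65 [(rh5419adcd928dba20.shift 0 2), rhc084efbae32225ae] (by decide +kernel))
noncomputable def rh3084e2dbca8617a1 : CRef := CRef.mk (Pat.mk 0x260000003000000016000000000000000000000000 0x50000002700000037000000170000003f0000001700000007 7 6) 0 0 (step_sound _ 68 [(rh71222050f2c63a3a.shift 4 1), rh94e0d577f2e89218] (by decide +kernel))
noncomputable def rh945293a166e367f7 : CRef := CRef.mk (Pat.mk 0x800000008000000180000000900000000000000000000000000000000 0x8000000180000001c0000001f000000180000001c0000000c00000004 7 5) 0 0 (step_sound _ 100 [(rhd3458b32566d63f7.shift 3 3), rhf2da57fb5deb4fef] (by decide +kernel))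
noncomputable def rh7d0ea98b23f4080f : CRef := CRef.mk (Pat.mk 0x400000004000000050000000400000000 0x400000004000000ff0000007e000000f8 7 8) 0 0 (step_sound _ 35 [(rh55afc6a59410cf00.shift 2 0), rhcee971db22aaadb1] (by decide +kernel))
noncomputable def rh40fed994e48439f8 : CRef := CRef.mk (Pat.mk 0x9800000018000000080000000800000000 0x64000000ff00000018000000180000001c00000014 7 8) 0 0 (step_sound _ 36 [(rh55afc6a59410cf00.shift 3 0), rh5bb19c578143c761] (by decide +kernel))
noncomputable def rh40e1ca449fc7ebc6 : CRef := CRef.mk (Pat.mk 0x12000000030000000200000001 0x10000000700000007000000060000001f000000030000000300000001 7 5) 0 0 (step_sound _ 129 [(rh51662fbf082f281d.shift 0 1), rh79877ebd3ef475dd] (by decide +kernel))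
noncomputable def rh4952b0f5ec475c78 : CRef := CRef.mk (Pat.mk 0xe00000018000000040000000000000000 0x600000006000000060000000e0000001e0000001f0000003b00000010 7 6) 0 0 (step_sound _ 162 [(rh54cc50c8d4991b16.shift 1 1), rh78e4e141d0a4a072, (rhc38f566cab2818e5.shift 2 1), (rhd8a0883814f6bb6a.shift 0 1)] (by decide +kernel))
noncomputable def rh559f12a464bddd7e : CRef := CRef.mk (Pat.mk 0x88000000180000003000000008 0x240000002400000077000000ff0000001f0000003800000028 7 8) 0 0 (step_sound _ 100 [(rh518d6f6eeebddcb2.shift 3 0), (rh82d74fa7e4e9dd9d.shift 0 1), (rhff6c3bb58100dc1f.shift 0 1)] (by decide +kernel))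
noncomputable def rh2b1ede70f50c7531 : CRef := CRef.mk (Pat.mk 0x980000001800000010 0xc0000000c0000000f000000ff0000001f00000010 7 8) 0 0 (step_sound _ 69 [(rh361cc68994bd8a63.shift 3 1), rhab6aa8ed407f942a] (by decide +kernel))
noncomputable def rh65d4a2cb5ee937ee : CRef := CRef.mk (Pat.mk 0x100000000300000012000000000000000000000000 0x500000007000000070000001f000000030000001e000000060000000600000004 7 5) 0 0 (step_sound _ 98 [(rh2fe78cc5ca4405d8.shift 0 3), rh6cd6126d37d9f4d1] (by decide +kernel))
noncomputable def rh679fd8b96be65abb : CRef := CRef.mk (Pat.mk 0x200000002000000060000000200000000 0x50000000700000007000000020000000200000006000000070000000300000001 7 3) 0 0 (step_sound _ 32 [rh932754581e0f4330, (rhf3bc05ddeebb714c.shift 0 1)] (by decide +kernel))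
noncomputable def rh7f5a6fea872aff8d : CRef := CRef.mk (Pat.mk 0x2200000006000000020000000200000000 0x300000003000000070000003e00000006000000030000000300000001 7 6) 0 0 (step_sound _ 130 [(rh2f68792b6b779e96.shift 1 1), rh79f75d8a7a9cec99] (by decide +kernel))
noncomputable def rh93d731ed4ae5d1a8 : CRef := CRef.mk (Pat.mk 0x20000000200000000200000007000000000 0x20000000300000001fe000001fe0000038f 7 10) 0 0 (step_sound _ 35 [(rh592c7139d2c44767.shift 1 0), rhb103f40a53fe1424, (rhb8faeac02cdbfbfd.shift 2 0)] (by decide +kernel))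
noncomputable def rh555b9f6f6f811517 : CRef := CRef.mk (Pat.mk 0x1800000088000000080000000800000000 0xc0000000c0000000c00000018000000fc0000000f0000000c00000008 7 8) 0 0 (step_sound _ 100 [(rh172b7aa8e8689743.shift 0 1), (rh71222050f2c63a3a.shift 3 0)] (by decide +kernel))
noncomputable def rhb27d32cdf420c044 : CRef := CRef.mk (Pat.mk 0x60000002200000007000000000 0x60000003f7000001fe0000038e 7 10) 0 0 (step_sound _ 71 [(rh415fcfe4e9f7a6d1.shift 4 0), rhef25c460fa63fb95, (rhf4c4fb84e001466a.shift 3 1)] (by decide +kernel))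
noncomputable def rh21b02ce1f3f6563f : CRef := CRef.mk (Pat.mk 0x10000000030000001800000001000000000000000000000000 0x1000000050000001f000000030000001e00000003000000070000000700000005 7 5) 0 0 (step_sound _ 129 [(rh5419adcd928dba20.shift 0 4), rhb409b9d107623f9e] (by decide +kernel))
noncomputable def rhe77f7e5720b80116 : CRef := CRef.mk (Pat.mk 0x1400000014000000100000001800000000 0x1400000016000000fb000000fe000001e7 7 9) 0 0 (step_sound _ 37 [rh33ea71149fb82ea9, (rh55afc6a59410cf00.shift 4 0)] (by decide +kernel))
noncomputable def rh1fbbc54969deb57e : CRef := CRef.mk (Pat.mk 0x80000000a000000080000000800000000000000000000000000000000 0x80000001f0000007c0000001f0000000c0000001c0000001c00000014 7 7) 0 0 (step_sound _ 99 [(rh36ba5421c6344682.shift 0 1), rh6ee9fa4b4eeaa53a, (rh7928877f9bf74a91.shift 2 2), rh7a999d2919930dd0, (rh8d8bfe45b7d5275a.shift 2 0)] (by decide +kernel))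
noncomputable def rha9958f71dcf38deb : CRef := CRef.mk (Pat.mk 0x80000000a0000000800000008000000000000000000000000 0x80000001f0000001c0000000c0000001c0000001c00000010 7 5) 0 0 (step_sound _ 66 [rh692530de3a1d6b81, (rh79877ebd3ef475dd.shift 2 2)] (by decide +kernel))
noncomputable def rh61dacc860b4842b4 : CRef := CRef.mk (Pat.mk 0x80000000a000000080000000800000000000000000000000000000000 0x80000001f0000007c00000018000000180000001c0000001c00000014 7 7) 0 0 (step_sound _ 99 [(rh1ace9c25bd406288.shift 0 1), rh6ee9fa4b4eeaa53a, (rh929cf1c202877a71.shift 0 1), (rhd29a1fb688eae70f.shift 3 2)] (by decide +kernel))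
noncomputable def rh8f4b24c3cc76dc38 : CRef := CRef.mk (Pat.mk 0x120000001300000011000000030000000000000000 0x120000001b0000001f0000000f0000001e0000000e 7 5) 0 0 (step_sound _ 97 [rh0fbbb92589a12005, rh638374c40abf23b1, rh7ea0d7ff5cde5e75, rh820d4e04d5dcd02e, (rh9938ce373ed9d77d.shift 0 1)] (by decide +kernel))
noncomputable def rhf6a76b75b1629233 : CRef := CRef.mk (Pat.mk 0x160000001300000010000000010000000000000000 0x50000000700000007000000160000001b0000001f0000000f0000000c0000000c 7 5) 0 0 (step_sound _ 97 [rh4c145d583973abd2, (rh5efaf85ec96fcaef.shift 0 2), rh69d88cbb5684b192, (rh9fb9dc683e09b5f3.shift 0 2)] (by decide +kernel))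
noncomputable def rhc53efc28458cf0f1 : CRef := CRef.mk (Pat.mk 0x12000000130000001000000001 0x80000000b0000000f0000001f0000001b0000001f00000005 7 5) 0 0 (step_sound _ 99 [rh12ac2879b80238e4, (rhb2a0b9ccfb5cecd5.shift 0 2)] (by decide +kernel))
noncomputable def rhae5bb84161f1f0d2 : CRef := CRef.mk (Pat.mk 0x800000008000000080000000800000000 0x800000008000000ff0000007f000000f4 7 8) 0 0 (step_sound _ 36 [(rh55afc6a59410cf00.shift 3 0), rh7462485274e30943] (by decide +kernel))
noncomputable def rhf9dc12edad40519c : CRef := CRef.mk (Pat.mk 0x60000000200000002000000020 0x1f000000fe000001ff0000002000000020 7 9) 0 0 (step_sound _ 100 [(rh50fbb5868c909700.shift 4 0), (rh99c2f6734bf49fc3.shift 0 2)] (by decide +kernel))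
noncomputable def rh469930a298d2d075 : CRef := CRef.mk (Pat.mk 0x3800000008000000000000000800000000 0x70000003e0000007f000000060000000e0000000c 7 7) 0 0 (step_sound _ 130 [(rh0d378fd9e8917c5a.shift 0 3), (rh185f35b8bd8ec37f.shift 0 3), (rh6572bbe90580e1b8.shift 1 0), (rh775ca1963e850b80.shift 0 3)] (by decide +kernel))
noncomputable def rhb49cc5abe5813f44 : CRef := CRef.mk (Pat.mk 0xf000000020 0x18e000000fe0000003f 7 9) 0 0 (step_sound _ 35 [rh2efad3051cff7df1, (rh592c7139d2c44767.shift 1 0), (rh70543c5e7e75eabe.shift 1 0), rh91582111bb639861, (rheae1728ff4a56756.shift 2 0)] (by decide +kernel))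
noncomputable def rhd1652a1e1431a84e : CRef := CRef.mk (Pat.mk 0x10000000140000008000000008000000080000000000000000 0x1400000014000000f60000007e000000ff0000000800000008 7 8) 0 0 (step_sound _ 98 [(rh0588d2c7f2cab5e9.shift 2 0), (rh7ca3d4e8f52679c9.shift 0 2), (rh82020f427bd79aa1.shift 1 2)] (by decide +kernel))
noncomputable def rhd5e08b9e62fa7401 : CRef := CRef.mk (Pat.mk 0x10000001100000003000000000 0x1000000010000001d7000000fe000001ef 7 9) 0 0 (step_sound _ 35 [rh2020cb9c932ab11c, rh3d164a09ad92dabc, (rh40789fe01e004519.shift 1 0), (rhde10baa3043a2b46.shift 3 0)] (by decide +kernel))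
noncomputable def rh652f4c8b2fff750c : CRef := CRef.mk (Pat.mk 0x6000000030000000100000007000000000 0x10000000740000003c0000001f0000007e000000e7 7 8) 0 0 (step_sound _ 35 [rh708c3bc8fe2f3084, (rh975c4ddca9e0d579.shift 2 0), rhc91c6dd516df9bb2, (rhef1509742e676880.shift 2 0)] (by decide +kernel))
noncomputable def rh42dfa2940cbbe425 : CRef := CRef.mk (Pat.mk 0x400000000e0000000c0000000400000000 0x18000000780000000e0000003f0000003c00000010 7 7) 0 0 (step_sound _ 69 [(rh2fe78cc5ca4405d8.shift 1 2), rh96a3fd28e59a7563] (by decide +kernel))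
noncomputable def rhb1e8470e90b9b4f6 : CRef := CRef.mk (Pat.mk 0x130000001300000011000000010000000000000000 0x40000001f0000001b0000001f0000000f0000000a00000008 7 5) 0 0 (step_sound _ 162 [(rh361cc68994bd8a63.shift 0 4), rh7881bba1e7287282] (by decide +kernel))
noncomputable def rh5e2da94224e91930 : CRef := CRef.mk (Pat.mk 0x200000003000000100000000100000000 0x5000000070000000700000003000000030000001e0000000700000007 7 5) 0 0 (step_sound _ 65 [(rh5efaf85ec96fcaef.shift 0 1), rh752c9303f297f9fa, rhda2741948fcf686a] (by decide +kernel))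
noncomputable def rhf76b3e965b841936 : CRef := CRef.mk (Pat.mk 0xc000000180000000c000000000000000000000000 0x20000000f0000001e0000000f0000001e0000001c00000014 7 5) 0 0 (step_sound _ 97 [(rh53b3c253cb0c65f4.shift 0 3), rhe136ab24ac343574] (by decide +kernel))
noncomputable def rhe12012d34f4fe771 : CRef := CRef.mk (Pat.mk 0x100000001300000010000000030000000000000000 0x500000007000000070000001e0000001b0000001f0000000f0000000900000008 7 5) 0 0 (step_sound _ 97 [(rh038de9f6952c0fd9.shift 0 1), rh0fbbb92589a12005, (rh6e4c5959d08fc253.shift 0 1), (rh8ca74fa25325e393.shift 0 1)] (by decide +kernel))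
noncomputable def rhbf7e7c7d2359c2e7 : CRef := CRef.mk (Pat.mk 0x10000000130000001200000003000000000000000000000000 0x500000007000000070000001e0000001b0000001f0000000b0000001e0000000e00000004 7 5) 0 0 (step_sound _ 193 [(rh04e571695666b5c1.shift 0 3), rh687f2995eaa03e13, (rh9fb9dc683e09b5f3.shift 0 3)] (by decide +kernel))
noncomputable def rhb60d820cc668a5ac : CRef := CRef.mk (Pat.mk 0x80000000000000038000000100000000000000000 0x8000000080000000f0000003e000000770000001400000010 7 7) 0 0 (step_sound _ 131 [(rh2145e1d24b96a57e.shift 3 2), rh308b49319f98adbd] (by decide +kernel))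
noncomputable def rh59977fde88b96ce7 : CRef := CRef.mk (Pat.mk 0x3c00000010000000300000000000000000 0x4000000040000000e0000003c0000001e0000007e0000000f0000000e 7 7) 0 0 (step_sound _ 67 [(rh59377470057f4368.shift 1 1), (rh7a3be9fb1b7679f9.shift 1 2), rh8d4f678fa811d376, (rhd2f2d96a91c29b51.shift 1 0)] (by decide +kernel))
noncomputable def rh9fa83421e47d3d39 : CRef := CRef.mk (Pat.mk 0x1c00000018000000300000000000000000 0x40000001c00000018000000ff000000ef0000000c 7 8) 0 0 (step_sound _ 67 [(rh40241bd608e5be1a.shift 2 0), rh41eb4a13b78c152f, (rh7478433a598f2371.shift 2 0), (rh810fa74b1681ba9e.shift 0 1), (rh98dcf83e06bbd9f9.shift 2 0)] (by decide +kernel))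
noncomputable def rh1d413dd4e500227d : CRef := CRef.mk (Pat.mk 0x20000001c000000100000003000000000 0x30000001f0000001c000000fc000000ee 7 8) 0 0 (step_sound _ 67 [(rh22a65d20d3172694.shift 0 2), (rhcdfcb474973a5786.shift 1 0)] (by decide +kernel))
noncomputable def rh55123eee4b8ac293 : CRef := CRef.mk (Pat.mk 0xc000000180000000c000000000000000000000000 0x20000000f0000001b0000001f0000003c0000001400000004 7 6) 0 0 (step_sound _ 97 [rh43c7de430cdb33b9, (rh53b3c253cb0c65f4.shift 0 3)] (by decide +kernel))
noncomputable def rh8464c34b4eba5e43 : CRef := CRef.mk (Pat.mk 0x400000000c000000480000000c0000000000000000 0x18000000780000000f000000780000001f0000003000000010 7 7) 0 0 (step_sound _ 100 [(rh361cc68994bd8a63.shift 2 2), rh8c0ecb871746fad8] (by decide +kernel))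
noncomputable def rh78ffd887545956ac : CRef := CRef.mk (Pat.mk 0x10000000130000001a000000030000000000000000 0x500000007000000070000001e0000001b0000001b0000000b0000001e0000000e 7 5) 0 0 (step_sound _ 161 [(rh04e571695666b5c1.shift 0 2), rh3eb5e220367b6a11, (rh9fb9dc683e09b5f3.shift 0 2)] (by decide +kernel))
noncomputable def rh59383a4d2ec076cb : CRef := CRef.mk (Pat.mk 0x180000001000000018000000000000000000000000 0x18000000180000001f0000003f0000003e00000028 7 6) 0 0 (step_sound _ 68 [(rh8cdd36b03d57a2f6.shift 3 0), (rha613ffd40b6c9d24.shift 3 0), (rhbf47a77fd9b79932.shift 0 1), (rhe4441baab75a6f73.shift 3 0)] (by decide +kernel))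
noncomputable def rhf7373bebb6e77c93 : CRef := CRef.mk (Pat.mk 0x1800000008000000180000000000000000 0x140000001c0000000f0000007c0000001800000018 7 7) 0 0 (step_sound _ 35 [(rh2f68792b6b779e96.shift 3 1), rhc6a25c33e77daf0c] (by decide +kernel))
noncomputable def rhbb8a11291ee9661c : CRef := CRef.mk (Pat.mk 0x6000000020000000200000000000000000000000000000000 0x400000007000000030000000300000006000000070000000700000001 7 3) 0 0 (step_sound _ 97 [(rh2f68792b6b779e96.shift 1 3), rhe84e00c98653ad0c] (by decide +kernel))
noncomputable def rh48daaf0a2d62fac8 : CRef := CRef.mk (Pat.mk 0x6000000020000000200000000000000000000000000000000 0x400000007000000030000000300000003000000070000000700000004 7 3) 0 0 (step_sound _ 97 [(rh2f68792b6b779e96.shift 1 3), rh70bea776869aa1a2] (by decide +kernel))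
noncomputable def rh894ae99761dcc8d9 : CRef := CRef.mk (Pat.mk 0x4000000040000000f0000000000000000000000000 0x10000000500000007f000000fe000000370000002000000020 7 8) 0 0 (step_sound _ 99 [(rh5e601430b8bc2e39.shift 0 2), rh84dce1e038e43808, (rhd5eb272e07a4e288.shift 2 3)] (by decide +kernel))
noncomputable def rh8652e775ff0e9f83 : CRef := CRef.mk (Pat.mk 0x18000000020000001e00000000000000000000000000000000 0x70000001f000000060000001e00000033000000070000000700000005 7 6) 0 0 (step_sound _ 97 [rh9b28d65c4d3621f4, (rheb0810cc63b001d8.shift 0 3)] (by decide +kernel))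
noncomputable def rh5c4e8f1ca850e1cb : CRef := CRef.mk (Pat.mk 0xc000000180000000c0000000000000000 0xf0000001f0000003f0000003300000012 7 6) 0 0 (step_sound _ 65 [rh4761db200490dd80, (rh53b3c253cb0c65f4.shift 0 2)] (by decide +kernel))
noncomputable def rha0b9ce7dea8e39bc : CRef := CRef.mk (Pat.mk 0x8000000180000000c0000000000000000 0x140000001c0000001c0000001f0000003c0000001c0000000c0000000800000008 7 6) 0 0 (step_sound _ 132 [(rh0744e453cf6aca14.shift 0 2), (rh8f3e40d1e258cb76.shift 2 0), (rhea7a1800d6f053bd.shift 3 0)] (by decide +kernel))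
noncomputable def rh231570c0eeabc6f0 : CRef := CRef.mk (Pat.mk 0x3000000120000000300000000000000000000000000000000 0x1000000030000001e0000000700000006000000070000000700000001 7 5) 0 0 (step_sound _ 162 [rh32a427049fd021cb, (rh361cc68994bd8a63.shift 0 4)] (by decide +kernel))
noncomputable def rh8b342a3f95bb5c6a : CRef := CRef.mk (Pat.mk 0xc000000480000000c000000000000000000000000 0x40000000c0000007e0000001f000000330000001200000002 7 7) 0 0 (step_sound _ 132 [(rh361cc68994bd8a63.shift 2 3), rh4ba787857d60c373] (by decide +kernel))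
noncomputable def rh1dfdc683c7c17c32 : CRef := CRef.mk (Pat.mk 0x12000000030000000200000001 0x40000000700000007000000030000001f000000030000000300000001 7 5) 0 0 (step_sound _ 129 [rh79877ebd3ef475dd, (rhe184d9d1d9eef659.shift 0 1)] (by decide +kernel))
noncomputable def rh48980a58887652ab : CRef := CRef.mk (Pat.mk 0x400000000c000000180000000e0000000000000000 0x140000001c0000007c0000000f000000180000001e0000003000000010 7 7) 0 0 (step_sound _ 129 [(rh94470bca029251c1.shift 1 0), (rhb739f4f82bb681b4.shift 0 3)] (by decide +kernel))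
noncomputable def rh732dfd73a271848a : CRef := CRef.mk (Pat.mk 0x98000000180000000000000018 0x70000000ff0000001f0000001800000018 7 8) 0 0 (step_sound _ 101 [(rh361cc68994bd8a63.shift 3 2), rh7ec5b706618793d0] (by decide +kernel))
noncomputable def rh629adabffd279916 : CRef := CRef.mk (Pat.mk 0x9800000018000000000000001800000000 0x18000000f80000001e0000000f0000003c00000004 7 8) 0 0 (step_sound _ 133 [(rh361cc68994bd8a63.shift 3 3), rhc7197e2aaab726ce] (by decide +kernel))
noncomputable def rhc2a8eba46a5da047 : CRef := CRef.mk (Pat.mk 0x20000000000000007800000000 0x20000000200000003e0000007e00000057 7 7) 0 0 (step_sound _ 66 [rh1aff61c112ea49b0, (rh3f8766e6ecb455ce.shift 2 1)] (by decide +kernel))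
noncomputable def rh5567c9c793710161 : CRef := CRef.mk (Pat.mk 0x18000000000000001e000000000000000000000000 0x3a0000001f0000000f0000001e000000060000000400000004 7 6) 0 0 (step_sound _ 129 [(rh3244c3cc8379b070.shift 0 3), rh91fad976292bf08d] (by decide +kernel))
noncomputable def rh35721e7f29c6df53 : CRef := CRef.mk (Pat.mk 0x4000000000000000f000000000 0x400000004000000067000000fe000001bf 7 9) 0 0 (step_sound _ 70 [rh39044c6164022eb3, (rhba04d77b039f69d9.shift 4 0), (rhde10baa3043a2b46.shift 5 0)] (by decide +kernel))
noncomputable def rh7b438a6fd1714943 : CRef := CRef.mk (Pat.mk 0x8800000018000000080000000c00000000 0x18000000f80000001e0000000f0000003c00000010 7 8) 0 0 (step_sound _ 132 [(rh2f68792b6b779e96.shift 3 1), rh52653674b3dd49db] (by decide +kernel))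
noncomputable def rha94705fc46044d1b : CRef := CRef.mk (Pat.mk 0x10000001100000001800000000 0x1000000010000001d7000000fe000000ef 7 9) 0 0 (step_sound _ 37 [rh2020cb9c932ab11c, (rh36c0fb010e405737.shift 1 0), (rh969492b52b32ccec.shift 2 0), (rhde10baa3043a2b46.shift 3 0)] (by decide +kernel))
noncomputable def rh2b3af347fa02ca58 : CRef := CRef.mk (Pat.mk 0x3000000010000000180000001000000000 0x8000000380000001e000000380000001f0000001c 7 6) 0 0 (step_sound _ 35 [(rh932754581e0f4330.shift 3 0), rhd9fae7311b79059f] (by decide +kernel))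
noncomputable def rhdc43e6a1fdb7d875 : CRef := CRef.mk (Pat.mk 0x10000000030000000040000003800000000 0x2000000020000001f40000003c000000160000003e00000017 7 9) 0 0 (step_sound _ 133 [(rh00d6a6e3c7e3bb40.shift 4 0), rh4bfdfe52a9dc64a7] (by decide +kernel))
noncomputable def rh3a999951b86e4f32 : CRef := CRef.mk (Pat.mk 0x6000000020000000600000000000000000000000000000000 0x500000007000000030000000600000006000000070000000300000003 7 3) 0 0 (step_sound _ 97 [(rh2f68792b6b779e96.shift 1 3), rh7e7f4b7b9e2d5423] (by decide +kernel))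
noncomputable def rh0d6b516fa5ea0b40 : CRef := CRef.mk (Pat.mk 0x6000000030000000600000000 0x50000000700000007000000060000000600000007000000030000000600000004 7 3) 0 0 (step_sound _ 129 [(rh55afc6a59410cf00.shift 1 0), (rh5fcbc303396a64dc.shift 0 1)] (by decide +kernel))
noncomputable def rh86cf5cd85a9c6100 : CRef := CRef.mk (Pat.mk 0x20000001e00000000000000000000000000000000 0x4000000060000001e0000003f0000000f0000000700000005 7 6) 0 0 (step_sound _ 97 [rh45565fd35a914bd1, (rheb0810cc63b001d8.shift 0 3)] (by decide +kernel))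
noncomputable def rh97f1528b536af43b : CRef := CRef.mk (Pat.mk 0x1e0000000200000000000000000000000000000000 0x6000000070000001e0000003e00000007000000070000000300000001 7 6) 0 0 (step_sound _ 193 [rh0d461b43f68071be, (rh3244c3cc8379b070.shift 0 5)] (by decide +kernel))
noncomputable def rh3ea0601384bab685 : CRef := CRef.mk (Pat.mk 0x20000001e00000002000000000000000000000000 0x300000003000000060000001e0000003e000000070000000300000002 7 6) 0 0 (step_sound _ 100 [rhe0854b0923e42e2d, (rhe25b0a99195a5d59.shift 1 3)] (by decide +kernel))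
noncomputable def rhd89acbbc145658f1 : CRef := CRef.mk (Pat.mk 0x4000000007000000000 0x71f000003fe000003ef 7 11) 0 0 (step_sound _ 35 [(rh185f35b8bd8ec37f.shift 1 0), (rh4a48bdcac7eb7535.shift 2 0), rh708c3bc8fe2f3084, (rh775ca1963e850b80.shift 1 0)] (by decide +kernel))
noncomputable def rh2550b71238f829dc : CRef := CRef.mk (Pat.mk 0x18000000300000000c000000000000000000000000 0x80000000a0000000f0000001e000000340000000c0000000e0000000e0000000a 7 6) 0 0 (step_sound _ 162 [rh3f890e09e1d46e97, (rhb739f4f82bb681b4.shift 1 4)] (by decide +kernel))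
noncomputable def rhb57bf8585a8f422d : CRef := CRef.mk (Pat.mk 0x4000000400000000e0000000000000000 0x600000006000000730000003e0000007700000004 7 7) 0 0 (step_sound _ 68 [(rh0edd3afef6b5d7e0.shift 0 1), rh1f996174fe04e4c4, (rhc13dbb2602bbcc3a.shift 1 1), (rhe1acdd61ceb524d1.shift 0 1)] (by decide +kernel))
noncomputable def rh7bd517417e797094 : CRef := CRef.mk (Pat.mk 0x18000000000000001e000000000000000000000000 0x70000001f000000070000001e000000070000000600000004 7 5) 0 0 (step_sound _ 129 [(rh3244c3cc8379b070.shift 0 3), rhe734b770c481feb3] (by decide +kernel))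
noncomputable def rh60bb6fceb47db467 : CRef := CRef.mk (Pat.mk 0x20000000260000002000000006000000000000000000000000 0x22000000360000007c0000001f0000001e0000001e0000000a 7 7) 0 0 (step_sound _ 132 [(rhc13ae28137ba9813.shift 0 3), (rhc4713ca36c943a51.shift 1 1), (rhc66e181dd76dbde1.shift 1 0)] (by decide +kernel))
noncomputable def rhb8146c0a70b21fea : CRef := CRef.mk (Pat.mk 0x80000007800000040000000000000000000000000 0xc0000000c00000018000000780000007c0000001f0000001c0000000c 7 7) 0 0 (step_sound _ 99 [rhe98693832be5a47a, (rheb0810cc63b001d8.shift 2 3)] (by decide +kernel))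
noncomputable def rhd4582841eca1c57e : CRef := CRef.mk (Pat.mk 0x180000001e00000000000000000000000000000000 0x1000000030000001f0000001e00000007000000070000000700000001 7 5) 0 0 (step_sound _ 161 [(rh3244c3cc8379b070.shift 0 4), rh3d9a98e0965b8696] (by decide +kernel))
noncomputable def rhc1ea310e2ecda8bf : CRef := CRef.mk (Pat.mk 0x10000000180000001c000000000000000800000000 0x18000000180000001a0000001f0000001c000000040000000c0000000c 7 5) 0 0 (step_sound _ 196 [rh004ff21326bfb526, (rh5c5e593799055d58.shift 3 3)] (by decide +kernel))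
noncomputable def rhccc7a77a2900cc24 : CRef := CRef.mk (Pat.mk 0x10000000120000001e000000100000000800000000 0x20000000320000001e0000001e000000170000000e0000000e 7 6) 0 0 (step_sound _ 65 [(rh7334c7bf7e4debda.shift 1 0), (rheb0810cc63b001d8.shift 0 2)] (by decide +kernel))
noncomputable def rh9887616343b87ff1 : CRef := CRef.mk (Pat.mk 0x1e0000000000000008000000000000000000000000 0x100000001f00000038000000080000001c0000001c00000014 7 6) 0 0 (step_sound _ 132 [(rhe25b0a99195a5d59.shift 1 4), rhf7483e85ec31d66e] (by decide +kernel))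
noncomputable def rhac0018b62bb36f86 : CRef := CRef.mk (Pat.mk 0x1e00000010000000080000000000000000 0x80000001f000000180000000f0000003c0000001c 7 6) 0 0 (step_sound _ 99 [rh59884d4b0b1c90ac, (rhb739f4f82bb681b4.shift 0 3)] (by decide +kernel))
noncomputable def rh53c646ccda0e783c : CRef := CRef.mk (Pat.mk 0x1a0000001a000000080000000800000000 0x30000001f0000001a0000001f0000000f00000005 7 5) 0 0 (step_sound _ 130 [rh3c20459b161d5bc3, (rhb739f4f82bb681b4.shift 0 3)] (by decide +kernel))
noncomputable def rhcdca8e17054a8510 : CRef := CRef.mk (Pat.mk 0x40000003400000010000000100000000000000000 0x2000000060000000600000006000000360000001f0000001f0000000e0000000a 7 6) 0 0 (step_sound _ 98 [rh70c84d92cd1e9a1d, (rh7183d73c74feafce.shift 1 2), (rh794501743a61ce18.shift 1 0), rh8872976d1a76cb28, (rhe95a2e51b0ee5fdb.shift 1 0)] (by decide +kernel))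
noncomputable def rhab3acdd4e950f148 : CRef := CRef.mk (Pat.mk 0x1a0000000a000000080000000800000000 0x30000001e0000000b0000001f0000000f00000005 7 5) 0 0 (step_sound _ 34 [rh8080e17d593dc7a8, (rh932754581e0f4330.shift 2 0)] (by decide +kernel))
noncomputable def rh37ad3135243bbdba : CRef := CRef.mk (Pat.mk 0xa0000001a00000008000000000000000000000000 0x100000003000000030000000f0000001b0000000f000000030000000300000001 7 5) 0 0 (step_sound _ 160 [rh56b7333c87c56aab, (rhc10214bf3fe8094a.shift 0 4)] (by decide +kernel))
noncomputable def rh2e6b56485668d558 : CRef := CRef.mk (Pat.mk 0x100000001800000090000000080000000000000000 0x180000001f000000ff0000000f0000000c00000004 7 8) 0 0 (step_sound _ 99 [(rh71222050f2c63a3a.shift 3 1), rh9e141fa6bc2add05] (by decide +kernel))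
noncomputable def rh61e0d0d348b5564c : CRef := CRef.mk (Pat.mk 0x20000000000000007800000000 0x2000000020000000370000007e0000003e 7 7) 0 0 (step_sound _ 2 [(rh80fcd6d0a18cb2dd.shift 2 0), rhf94cb91b71961ad4] (by decide +kernel))
noncomputable def rh7f76d08e24449b56 : CRef := CRef.mk (Pat.mk 0x8000000000000001e00000000000000000000000000000000 0xe0000000f0000001e00000007000000070000000700000005 7 5) 0 0 (step_sound _ 161 [(rh3244c3cc8379b070.shift 0 4), rh3fdc563b3a4fa77c] (by decide +kernel))
noncomputable def rh0ebec13c619669fc : CRef := CRef.mk (Pat.mk 0x3000000110000001300000012 0xe0000001e0000000f0000001f0000001b00000012 7 5) 0 0 (step_sound _ 65 [rh48b1fafb6c0406a9, rh536a742fa1fb43a4, rh5fa50b509d4ce753, rh6a6060c6b6bde3df, rh794dbc5fabb61407] (by decide +kernel))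
noncomputable def rh25c5e2298e5b100a : CRef := CRef.mk (Pat.mk 0x1000000100000000300000006000000000000000000000000 0x5000000070000001e0000000300000006000000070000000700000005 7 5) 0 0 (step_sound _ 161 [(rh2eb4aa0a5736a97d.shift 0 2), (rh6196b452c518de56.shift 0 2), rh62825c4dfa6be415] (by decide +kernel))
noncomputable def rh342611c936f24af5 : CRef := CRef.mk (Pat.mk 0x1000000100000001300000016000000000000000000000000 0xc0000000c0000000f0000001f0000001b00000016000000070000000700000005 7 5) 0 0 (step_sound _ 161 [(rh0fd707edf5b3f4b4.shift 0 2), (rh566659606c8abe04.shift 0 2), rh62825c4dfa6be415, rhbba7d23481996066] (by decide +kernel))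
noncomputable def rh94dbce66c1c40cb4 : CRef := CRef.mk (Pat.mk 0x1000000100000001300000012000000000000000000000000 0x50000001f0000001b0000001f0000000f0000000b00000008 7 5) 0 0 (step_sound _ 99 [(rh5419adcd928dba20.shift 0 3), rh968e694ddb785ebe] (by decide +kernel))
noncomputable def rh590cd271dca6c6e3 : CRef := CRef.mk (Pat.mk 0x2000000020000000200000006000000000 0x2000000020000001ff000000fe0000001f 7 9) 0 0 (step_sound _ 36 [rh2b54d5a05a791b0a, (rh932754581e0f4330.shift 4 0)] (by decide +kernel))
noncomputable def rhbc79a0c00168db1f : CRef := CRef.mk (Pat.mk 0x800000000000000080000003800000000 0xc0000000e000000060000007f0000003e00000007 7 7) 0 0 (step_sound _ 34 [(rh4c622fddc53a5f99.shift 0 1), rh592c7139d2c44767, rh9e97bba44c1b13e4, (rhef58e7552e82967d.shift 1 0)] (by decide +kernel))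
noncomputable def rh3b5c03bebe0f2b7f : CRef := CRef.mk (Pat.mk 0x20000000f000000000 0x3f000000fe0000018e 7 9) 0 0 (step_sound _ 35 [(rh0c928d324d409faa.shift 1 0), rh1f9701c4cf497514, (rh775ca1963e850b80.shift 1 0), rh92473603100bcf5b, (rhd5eb272e07a4e288.shift 2 1)] (by decide +kernel))
noncomputable def rh0729fe3d519cd3dc : CRef := CRef.mk (Pat.mk 0x800000008000000800000001400000010 0x800000008000000ff0000007e000000f60000001400000014 7 8) 0 0 (step_sound _ 98 [(rh00d6a6e3c7e3bb40.shift 2 0), rh442da0cb64270d5f, (rh46cec5aa7e4f60a1.shift 1 0)] (by decide +kernel))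
noncomputable def rh23bc48af4596d9a6 : CRef := CRef.mk (Pat.mk 0x30000001100000001000000000 0x1ef000000fe000001d70000001000000010 7 9) 0 0 (step_sound _ 99 [(rh261f868a429ae0e3.shift 3 0), rh3750db7c0e07a4f5, rh3c854e66629c2f4d, (rh9a42f4164057f645.shift 1 2)] (by decide +kernel))
noncomputable def rh9601cb5687c04431 : CRef := CRef.mk (Pat.mk 0x7000000010000000300000006000000000 0xe70000007e0000001f0000003c0000007400000010 7 8) 0 0 (step_sound _ 131 [(rh15b856e33c69f807.shift 0 3), (rh371357d551e5b98c.shift 2 1), (rha196aecd14f1a0a5.shift 2 0), (rha47cb51b81f70185.shift 0 1)] (by decide +kernel))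
noncomputable def rh917c0ab664e1f0d1 : CRef := CRef.mk (Pat.mk 0x40000000c0000000e0000004000000000 0x100000003c0000003f0000000e0000007800000018 7 7) 0 0 (step_sound _ 101 [(rh361cc68994bd8a63.shift 1 2), rhda69328782527ce9] (by decide +kernel))
noncomputable def rh653bd924d4805703 : CRef := CRef.mk (Pat.mk 0x100000011000000130000001300000000 0x80000000a0000000f0000001f0000001b0000001f00000004 7 5) 0 0 (step_sound _ 34 [(rh2fe78cc5ca4405d8.shift 0 1), rh6fe090fbac8927f0] (by decide +kernel))
end Crest.Agent.S0047.Helper85.Cert
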