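import Crest.Agent.Lib.S0047.Helper85CertPL6F0
import Crest.Agent.Lib.S0047.Helper85CertPL6F1
import Crest.Agent.Lib.S0047.Helper85CertPL6F2
import Crest.Agent.Lib.S0047.Helper85CertPL6F3
import Crest.Agent.Lib.S0047.Helper85CertPL6F4
import Crest.Agent.Lib.S0047.Helper85CertPL6F5
import Crest.Agent.Lib.S0047.Helper85CertPL6F6
import Crest.Agent.Lib.S0047.Helper85CertPL6F7
import Crest.Agent.Lib.S0047.Helper85CertPL6F8
import Crest.Agent.Lib.S0047.Helper85CertPL6F9
import Crest.Agent.Lib.S0047.Helper85CertPL6F10
import Crest.Agent.Lib.S0047.Helper85CertPL6F11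
import Crest.Agent.Lib.S0047.Helper85CertPL6F12
set_option autoImplicit false
set_option linter.all false
set_option Elab.async false
namespace Crest.Agent.S0047.Helper85.Cert
open Crest.Agent.S0047.Helper85

noncomputable def rhac5647042e2e81df : CRef := CRef.mk (Pat.mk 0x1000000100000000300000002000000000000000000000000 0x7000000070000001e0000000300000003000000070000000700000005 7 5) 0 0 (step_sound _ 161 [(rh2eb4aa0a5736a97d.shift 0 2), rh62825c4dfa6be415, (rha52e0141694f1c7d.shift 0 2)] (by decide +kernel))
noncomputable def rhf47c8b45a166b750 : CRef := CRef.mk (Pat.mk 0xc000000180000000c00000000 0x140000001c0000001e0000000f0000001e0000000f00000002 7 5) 0 0 (step_sound _ 97 [(rhb739f4f82bb681b4.shift 0 2), rhd330b68ae4da22da] (by decide +kernel))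
noncomputable def rh1dc907ad64fc5ee1 : CRef := CRef.mk (Pat.mk 0x3000000100000001300000010000000000000000000000000 0x8000000090000000f0000001f0000001b0000001e000000070000000700000005 7 5) 0 0 (step_sound _ 161 [(rh007b8c853ca5ccaf.shift 0 2), (rh6a6060c6b6bde3df.shift 0 3), (rhb7ec845def264386.shift 0 2), rhc46b61bcbcf6c641] (by decide +kernel))
noncomputable def rh3458cca790d68fb0 : CRef := CRef.mk (Pat.mk 0x3000000120000001300000010000000000000000000000000 0x40000000e0000001e0000000b0000001f0000001b0000001e000000070000000700000005 7 5) 0 0 (step_sound _ 97 [rhbba7d23481996066, (rhc62a0f6f354fb64a.shift 0 2), (rhf8edb192cdea7ada.shift 0 2)] (by decide +kernel))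
noncomputable def rhfd73fc08c9f56e93 : CRef := CRef.mk (Pat.mk 0x1000000038000000000000000800000000 0x1000000014000000770000003e0000000f0000000800000008 7 7) 0 0 (step_sound _ 67 [(rh71222050f2c63a3a.shift 3 0), (rhf6c1be9d65ff8773.shift 0 1)] (by decide +kernel))
noncomputable def rh2fdd9932c8d6780e : CRef := CRef.mk (Pat.mk 0x30000000100000003c000000000000000000000000 0xe0000000f0000007e0000001e0000003c0000000e0000000400000004 7 7) 0 0 (step_sound _ 163 [(rh2a234c628119f8f5.shift 1 1), (rh5bf1017ae96b8606.shift 0 3), (rh87863097b6e41cbf.shift 1 2), (rhad7f111fb10ea859.shift 1 0)] (by decide +kernel))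
noncomputable def rhe216a2795ead1c45 : CRef := CRef.mk (Pat.mk 0x30000000180000001c00000000 0xc000000ef000000ff000000180000001c00000004 7 8) 0 0 (step_sound _ 99 [(rh1b048598a8b37bd5.shift 2 1), (rh30b1045e318f0560.shift 0 2), (rh37d9ceebb86d75d1.shift 2 0), (rhcec05e2f45773d62.shift 2 1), (rhdfed4ebb0eb54f43.shift 0 1)] (by decide +kernel))
noncomputable def rhaaacf7390db65c0d : CRef := CRef.mk (Pat.mk 0x30000000100000001c00000002 0xee000000fc0000001c0000001f00000003 7 8) 0 0 (step_sound _ 67 [(rh67abd3c8ad4c71cd.shift 1 2), rhd74396e693bc7125] (by decide +kernel))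
noncomputable def rh965c3be468ddab89 : CRef := CRef.mk (Pat.mk 0xc000000180000000c00000000 0x4000000140000003c0000001f0000001b0000000f00000002 7 6) 0 0 (step_sound _ 97 [rh4f743d23e8539ca2, (rhb739f4f82bb681b4.shift 0 2)] (by decide +kernel))
noncomputable def rh9bf6ac8dea9c2a25 : CRef := CRef.mk (Pat.mk 0xc000000480000000c0000004000000000 0x10000000300000001f000000780000000f0000007800000018 7 7) 0 0 (step_sound _ 100 [(rh2fe78cc5ca4405d8.shift 2 3), rhbce87b457901278b] (by decide +kernel))
noncomputable def rh764594db9c017076 : CRef := CRef.mk (Pat.mk 0x30000001a0000001300000010000000000000000000000000 0xe0000001e0000000b0000001b0000001b0000001e000000070000000700000005 7 5) 0 0 (step_sound _ 97 [(rh597cffcd6974aab4.shift 0 2), rhbba7d23481996066, (rhf8edb192cdea7ada.shift 0 2)] (by decide +kernel))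
noncomputable def rhf642cc89098c085b : CRef := CRef.mk (Pat.mk 0x180000001000000018 0x280000003e0000003f0000001f0000001800000018 7 6) 0 0 (step_sound _ 100 [rh16c06fcd9214b8a6, (rh9a369cb82ea472da.shift 3 0), (rhc85cc95794737cf7.shift 3 0), (rhe62cab2ff5ad6fe2.shift 3 0)] (by decide +kernel))
noncomputable def rh055d0d8807ebf4ec : CRef := CRef.mk (Pat.mk 0x18000000080000001800000000 0x18000000180000007c0000000f0000001c00000014 7 7) 0 0 (step_sound _ 131 [(rh55afc6a59410cf00.shift 3 0), rh84209ff6d6eb5fc2] (by decide +kernel))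
noncomputable def rh9bd84e06d77e62f6 : CRef := CRef.mk (Pat.mk 0x2000000020000000600000000 0x100000007000000070000000600000003000000030000000700000004 7 3) 0 0 (step_sound _ 129 [(rh55afc6a59410cf00.shift 1 0), (rhe01cfd8f0577defd.shift 0 1)] (by decide +kernel))
noncomputable def rh765b1706fd596fc7 : CRef := CRef.mk (Pat.mk 0x2000000020000000600000000 0x400000007000000070000000300000003000000030000000700000004 7 3) 0 0 (step_sound _ 129 [(rh55afc6a59410cf00.shift 1 0), (rhb86ed18ea7f07181.shift 0 1)] (by decide +kernel))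
noncomputable def rha5448565c09b6f50 : CRef := CRef.mk (Pat.mk 0xf0000000400000004000000000 0x200000002000000037000000fe0000007f0000005000000010 7 8) 0 0 (step_sound _ 99 [rh0c63d79b2c046ce4, (rh36eba2a3de447758.shift 0 2), (rheae1728ff4a56756.shift 2 2)] (by decide +kernel))
noncomputable def rhcd7475ef09546e4f : CRef := CRef.mk (Pat.mk 0x1e000000020000001800000000 0x50000000700000007000000330000001e000000060000001f00000007 7 6) 0 0 (step_sound _ 129 [(rh3244c3cc8379b070.shift 0 3), rhf4fe2a9a61c0466a] (by decide +kernel))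
noncomputable def rh81d899bb162558be : CRef := CRef.mk (Pat.mk 0xc000000180000000c 0x12000000330000003f0000001f0000000f 7 6) 0 0 (step_sound _ 65 [rh55213f7a88ba4f48, (rhb739f4f82bb681b4.shift 0 1)] (by decide +kernel))
noncomputable def rh4f2180497ed22584 : CRef := CRef.mk (Pat.mk 0xc000000180000000800000000000000000000000000000000 0x8000000080000000c0000001c0000003c0000001f0000001c0000001c00000014 7 6) 0 0 (step_sound _ 132 [(rh3e595262c1b737ad.shift 3 3), rh5df54b300623b540, (rh6e451cd30e20dffc.shift 2 1)] (by decide +kernel))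
noncomputable def rhf6d82f1f6c96273d : CRef := CRef.mk (Pat.mk 0x3000000120000000300000000 0x1000000070000000700000006000000070000001e0000000300000001 7 5) 0 0 (step_sound _ 66 [(rh2fe78cc5ca4405d8.shift 0 2), rhb2d999c672507e3f] (by decide +kernel))
noncomputable def rh5923bba055a032c3 : CRef := CRef.mk (Pat.mk 0xc000000480000000c00000000 0x200000012000000330000001f0000007e0000000c00000004 7 7) 0 0 (step_sound _ 68 [(rh2fe78cc5ca4405d8.shift 2 2), rhff5a5327b891f055] (by decide +kernel))
noncomputable def rh90d877f11235d11f : CRef := CRef.mk (Pat.mk 0x100000002000000030000001200000000000000000000000000000000 0x100000003000000030000001f00000003000000070000000700000004 7 5) 0 0 (step_sound _ 97 [rh1b2ef21da274e605, (rhffd04209dc8ea796.shift 0 3)] (by decide +kernel))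
noncomputable def rh6148fa15a8ea5229 : CRef := CRef.mk (Pat.mk 0xe000000180000000c000000400000000000000000 0x10000000300000001e000000180000000f0000007c0000001c00000014 7 7) 0 0 (step_sound _ 97 [(rh53b3c253cb0c65f4.shift 0 3), (rh9f048d6dc58fc190.shift 1 0)] (by decide +kernel))
noncomputable def rh1b29b20cab12bc92 : CRef := CRef.mk (Pat.mk 0x1800000000000000180000009800000000 0x18000000180000001f000000ff00000070 7 8) 0 0 (step_sound _ 37 [(rh2fe78cc5ca4405d8.shift 3 1), rhb56de53d787cbb34] (by decide +kernel))
noncomputable def rhb294636a9d1af784 : CRef := CRef.mk (Pat.mk 0x1800000000000000180000009800000000 0x40000003c0000000f0000001e000000f800000018 7 8) 0 0 (step_sound _ 37 [(rh2fe78cc5ca4405d8.shift 3 1), rh770788b133c39947] (by decide +kernel))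
noncomputable def rh0a39ef4d7d86e336 : CRef := CRef.mk (Pat.mk 0x78000000000000002000000000 0x570000007e0000003e0000002000000020 7 7) 0 0 (step_sound _ 66 [(rh80fcd6d0a18cb2dd.shift 2 2), rh9d95baa02eac1fb8] (by decide +kernel))
noncomputable def rh368bcaef720bd0af : CRef := CRef.mk (Pat.mk 0x1e000000000000001800000000 0x400000004000000060000001e0000000f0000001f0000003a 7 6) 0 0 (step_sound _ 65 [rhe82d2562c7d49447, (rheb0810cc63b001d8.shift 0 2)] (by decide +kernel))
noncomputable def rh5a86b7d35ebf3fc4 : CRef := CRef.mk (Pat.mk 0xf0000000000000004000000000 0x1bf000000fe000000670000004000000040 7 9) 0 0 (step_sound _ 70 [(rh261f868a429ae0e3.shift 5 0), (rh8e4e59df125f891a.shift 0 2), (rhd4d36b4007f546b1.shift 4 0)] (by decide +kernel))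
noncomputable def rh36f0cb2abfee7f5c : CRef := CRef.mk (Pat.mk 0xc00000008000000180000008800000000 0x100000003c0000000f0000001e000000f800000018 7 8) 0 0 (step_sound _ 36 [(rh55afc6a59410cf00.shift 3 0), rh9840ff601bb1a122] (by decide +kernel))
noncomputable def rh0c73448074db8fb0 : CRef := CRef.mk (Pat.mk 0x18000001100000001000000000 0xef000000fe000001d70000001000000010 7 9) 0 0 (step_sound _ 101 [(rh261f868a429ae0e3.shift 3 0), rh3750db7c0e07a4f5, (rh675da2bd003e49f9.shift 2 0), (rh981e53b33f264963.shift 1 2)] (by decide +kernel))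
noncomputable def rh95763d2e7d52b196 : CRef := CRef.mk (Pat.mk 0x1000000018000000100000003000000000 0x1c0000001f000000380000001e0000003800000008 7 6) 0 0 (step_sound _ 131 [rh476bae6b91c61d68, (rh50fbb5868c909700.shift 3 1)] (by decide +kernel))
noncomputable def rh12d1f72ca852c6aa : CRef := CRef.mk (Pat.mk 0x380000000400000030000001000000000000000000 0x170000003e000000160000003c000001f40000002000000020 7 9) 0 0 (step_sound _ 69 [(rh0588d2c7f2cab5e9.shift 4 0), (rhd309f0d3b6387b09.shift 0 2)] (by decide +kernel))
noncomputable def rh4f89f9aa69c353f7 : CRef := CRef.mk (Pat.mk 0x6000000020000000600000000 0x300000003000000070000000600000006000000030000000700000005 7 3) 0 0 (step_sound _ 129 [(rh55afc6a59410cf00.shift 1 0), rh5d0e630d7c825104] (by decide +kernel))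
noncomputable def rh603f61259d1e12be : CRef := CRef.mk (Pat.mk 0x600000003000000060000000000000000000000000000000000000000 0x40000000600000003000000070000000600000006000000070000000700000005 7 3) 0 0 (step_sound _ 129 [(rh2f68792b6b779e96.shift 1 4), rhe283c5d1853bfe2a] (by decide +kernel))
noncomputable def rh213a78bf0780c83b : CRef := CRef.mk (Pat.mk 0x1e0000000200000000 0x5000000070000000f0000003f0000001e0000000600000004 7 6) 0 0 (step_sound _ 97 [(rh3244c3cc8379b070.shift 0 2), rh92123a3e6d6b5380] (by decide +kernel))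
noncomputable def rh6d6b2bc7cb570ef8 : CRef := CRef.mk (Pat.mk 0x20000001e000000020000000000000000 0x200000003000000070000003e0000001e000000060000000300000003 7 6) 0 0 (step_sound _ 132 [(rh33e738c4ed385b9f.shift 1 3), rh6cfcf701ed458a3a] (by decide +kernel))
noncomputable def rhbfede768b9b07797 : CRef := CRef.mk (Pat.mk 0x7000000400 0x3ef000003fe0000071f 7 11) 0 0 (step_sound _ 35 [rh15b856e33c69f807, (rh4c622fddc53a5f99.shift 1 1), (rh592c7139d2c44767.shift 1 0), (rha2c3460320009baa.shift 2 0)] (by decide +kernel))
noncomputable def rhc228ee9a1cd04719 : CRef := CRef.mk (Pat.mk 0xc0000003000000018000000000000000000000000 0xa0000000e0000000e0000000c000000340000001e0000000f0000000a00000008 7 6) 0 0 (step_sound _ 98 [(rh53b3c253cb0c65f4.shift 1 3), rhf68d87a9cc7d7e5d] (by decide +kernel))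
noncomputable def rh389af9323abc94f7 : CRef := CRef.mk (Pat.mk 0xe000000400000000400000000 0x4000000770000003e000000730000000600000006 7 7) 0 0 (step_sound _ 100 [rh1479f73ca65829fa, (rh1a48baf448afc5e7.shift 1 2), (rh22b38309c56a80eb.shift 0 3), (rhaf61538b68a500a8.shift 0 2)] (by decide +kernel))
noncomputable def rh7ca554f1b40b6ca2 : CRef := CRef.mk (Pat.mk 0x1e000000000000001800000000 0x400000006000000070000001e000000070000001f00000007 7 5) 0 0 (step_sound _ 65 [rh995c9236cf723fc5, (rheb0810cc63b001d8.shift 0 2)] (by decide +kernel))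
noncomputable def rh676396a51c9b450e : CRef := CRef.mk (Pat.mk 0x6000000200000002600000020 0xa0000001e0000001e0000001f0000007c0000003600000022 7 7) 0 0 (step_sound _ 68 [(rh130c4691a5653274.shift 0 2), (rh23625f181fa295a9.shift 1 0), (rh86b03a2164139a93.shift 1 0)] (by decide +kernel))
noncomputable def rh79b2e424592c064c : CRef := CRef.mk (Pat.mk 0x4000000078000000080000000000000000 0xc0000001c0000001f0000007c00000078000000180000000c0000000c 7 7) 0 0 (step_sound _ 131 [(rh3244c3cc8379b070.shift 2 3), rh99f5f813586d9e41] (by decide +kernel))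
noncomputable def rhec26a2350d17aaca : CRef := CRef.mk (Pat.mk 0x1e000000180000000000000000 0x10000000700000007000000070000001e0000001f0000000300000001 7 5) 0 0 (step_sound _ 65 [rh09c9e89936164a5e, (rheb0810cc63b001d8.shift 0 2)] (by decide +kernel))
noncomputable def rh1c1376a909b2fe89 : CRef := CRef.mk (Pat.mk 0x8000000000000001c00000018000000100000000000000000 0xc0000000c000000040000001c0000001f0000001a0000001800000018 7 5) 0 0 (step_sound _ 36 [(rh7b1f1fb55310c477.shift 3 0), rhb81b2b905d9e54de] (by decide +kernel))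
noncomputable def rhb81d623340b2d3ba : CRef := CRef.mk (Pat.mk 0x8000000100000001e000000120000001000000000 0xe0000000e000000170000001e0000001e0000003200000020 7 6) 0 0 (step_sound _ 129 [(rh11b3c84d1c0edb27.shift 1 0), (rh3244c3cc8379b070.shift 0 3)] (by decide +kernel))
noncomputable def rhecee3631ccd53610 : CRef := CRef.mk (Pat.mk 0x8000000000000001e00000000 0x140000001c0000001c00000008000000380000001f00000010 7 6) 0 0 (step_sound _ 68 [rh1b505036c10d5a3b, (rh33e738c4ed385b9f.shift 1 1)] (by decide +kernel))
noncomputable def rh449f245d62bfb222 : CRef := CRef.mk (Pat.mk 0x8000000100000001e00000000 0x1c0000003c0000000f000000180000001f00000008 7 6) 0 0 (step_sound _ 67 [rh28152048bc8b598f, (rh53b3c253cb0c65f4.shift 0 1)] (by decide +kernel))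
noncomputable def rh44be20fc84585162 : CRef := CRef.mk (Pat.mk 0x8000000080000001a0000001a00000000 0x50000000f0000001f0000001a0000001f00000003 7 5) 0 0 (step_sound _ 34 [(rh53b3c253cb0c65f4.shift 0 1), rh82cc46a5a0857fb5] (by decide +kernel))
noncomputable def rhf1f0b6c6ad4cd3da : CRef := CRef.mk (Pat.mk 0x10000000100000003400000004000000000000000000000000 0xa0000000e0000001f0000001f0000003600000006000000060000000600000002 7 6) 0 0 (step_sound _ 162 [(rh04bc0bc315096e76.shift 1 1), (rh4f599728ef256801.shift 0 2), (rhbe5703805fd7fa8f.shift 1 2), (rhd9730e0c6a9c266d.shift 0 2), (rhf2eb0d5b8c248a4e.shift 1 0)] (by decide +kernel))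
noncomputable def rh55aac5348564f5f5 : CRef := CRef.mk (Pat.mk 0x8000000080000000a0000001a00000000 0x50000000f0000001f0000000b0000001e00000003 7 5) 0 0 (step_sound _ 130 [(rh50fbb5868c909700.shift 2 1), rh56deb74d5b879a67] (by decide +kernel))
noncomputable def rhca8625714f44deb5 : CRef := CRef.mk (Pat.mk 0x80000001a0000000a000000000000000000000000 0x100000003000000030000000f0000001b0000000f000000030000000300000001 7 5) 0 0 (step_sound _ 96 [(rh1c62b6193297d9e3.shift 0 3), rh9ddfd3dc5a9f3434] (by decide +kernel))
noncomputable def rh6f2bc3ab1000e855 : CRef := CRef.mk (Pat.mk 0x8000000900000001800000010 0x40000000c0000000f000000ff0000001f00000018 7 8) 0 0 (step_sound _ 67 [(rh2145e1d24b96a57e.shift 3 0), rh26ffcb37093465b4] (by decide +kernel))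
noncomputable def rhb830c427c90d44d4 : CRef := CRef.mk (Pat.mk 0x78000000000000002000000000 0x3e0000007e000000370000002000000020 7 7) 0 0 (step_sound _ 130 [rh145e6d9246a42c98, (rh3f8766e6ecb455ce.shift 2 3)] (by decide +kernel))
noncomputable def rh815323fc4347d821 : CRef := CRef.mk (Pat.mk 0x1e0000000000000008 0x50000000700000007000000070000001e0000000f0000000e 7 5) 0 0 (step_sound _ 33 [rh015128f9dcb2c5e8, (rheb0810cc63b001d8.shift 0 1)] (by decide +kernel))
noncomputable def rha58760f2ecd36de8 : CRef := CRef.mk (Pat.mk 0x10000001800000003000000000000000000000000 0x50000000700000007000000030000001e00000003000000070000000700000005 7 5) 0 0 (step_sound _ 129 [(rhb2a0b9ccfb5cecd5.shift 0 3), rhba495c25097cce55] (by decide +kernel))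
noncomputable def rh3df29aba6c2b9ff3 : CRef := CRef.mk (Pat.mk 0xc0000003800000018000000000000000000000000 0xc0000003c0000001e0000001f0000001f0000000c 7 6) 0 0 (step_sound _ 68 [(rh7b1f1fb55310c477.shift 3 1), rhd0373a56eff86ca6] (by decide +kernel))
noncomputable def rh09fa886eef6664b2 : CRef := CRef.mk (Pat.mk 0x4000000200000000c000000280000000000000000 0x40000001c000000780000000c0000007c0000001f00000004 7 7) 0 0 (step_sound _ 68 [rh734c3cc43485f2d2, (rhf48373e13d2bc128.shift 2 2)] (by decide +kernel))
noncomputable def rhbe6be317c0f45535 : CRef := CRef.mk (Pat.mk 0x2000000000000001a00000010 0x50000000700000007000000030000001e00000033 7 6) 0 0 (step_sound _ 34 [rhcf4f251a01a4e3e0, (rhe25b0a99195a5d59.shift 1 0)] (by decide +kernel))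
noncomputable def rh248fcd68bb785bad : CRef := CRef.mk (Pat.mk 0x1e000000100000000800000000 0x4000000040000000f0000001e0000001f0000000b0000000b 7 5) 0 0 (step_sound _ 65 [rh8ad9036f89f58782, (rheb0810cc63b001d8.shift 0 2)] (by decide +kernel))
noncomputable def rhbcb5ce8976c1b5b3 : CRef := CRef.mk (Pat.mk 0x1000000000000000380000003000000010 0xff0000007e0000002f000000380000003800000010 7 8) 0 0 (step_sound _ 133 [rh20ae9580083b2056, (rhee230b994cc8b773.shift 4 0)] (by decide +kernel))
noncomputable def rh4d02ae931481892e : CRef := CRef.mk (Pat.mk 0x1e0000000800000008 0x100000007000000070000000f0000001e0000000f0000000a 7 5) 0 0 (step_sound _ 33 [rhb08642453d869133, (rheb0810cc63b001d8.shift 0 1)] (by decide +kernel))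
noncomputable def rhe3cc687b2b177653 : CRef := CRef.mk (Pat.mk 0x1e000000000000000000000000 0x200000003000000070000003f0000001e000000070000000200000002 7 6) 0 0 (step_sound _ 129 [(rh3244c3cc8379b070.shift 0 3), rhaab1c7ecf389e307] (by decide +kernel))
noncomputable def rh63250e489b65c600 : CRef := CRef.mk (Pat.mk 0x700000002000000020 0x4000000040000000e70000007e0000006700000020 7 8) 0 0 (step_sound _ 102 [(rh7ebe43b541af2bd4.shift 0 1), (rhbfb5770941270498.shift 5 0)] (by decide +kernel))
noncomputable def rhb2799a2d9a4d4545 : CRef := CRef.mk (Pat.mk 0xe0000000b00000002000000000000000000000000 0x140000001c0000001c0000000e0000000b0000001f0000001c0000001400000004 7 5) 0 0 (step_sound _ 99 [rh68f4aa9286a5d728, (rhbbfb944354d9e46e.shift 0 1), (rhd01ed0cc6ce530d4.shift 1 2), (rhda7c17c004b4f878.shift 0 2)] (by decide +kernel))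
noncomputable def rh0f48a90b4d889945 : CRef := CRef.mk (Pat.mk 0x1000000080000002d00000008 0x1000000014000000770000007e0000002f00000028 7 7) 0 0 (step_sound _ 68 [(rh24ae073cf30720c4.shift 0 1), rh4df22c7f38e9da92] (by decide +kernel))
noncomputable def rh4fc958d04f888cc0 : CRef := CRef.mk (Pat.mk 0x50000000200000002000000020 0x8000000080000004f000000fe000000ff0000003000000020 7 8) 0 0 (step_sound _ 101 [(rh2f68792b6b779e96.shift 5 0), (rhaf7cfbda5497da77.shift 0 1)] (by decide +kernel))
noncomputable def rh10c03fd30aa23561 : CRef := CRef.mk (Pat.mk 0x7000000120 0xe000000fe000001bf 7 9) 0 0 (step_sound _ 39 [(rh96851dee118c1ba3.shift 4 0), rhadd3d436cf3306c8] (by decide +kernel))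
noncomputable def rhb49b0fd37d009a4a : CRef := CRef.mk (Pat.mk 0x2000000120000001a00000010000000000000000000000000 0xd0000000f0000001e0000001a0000001f000000070000000700000005 7 5) 0 0 (step_sound _ 97 [(rh67ce2f56e3648f2b.shift 0 3), rh95311890f436bcdc, (rhd630af2e39ca770f.shift 0 2)] (by decide +kernel))
noncomputable def rhbe8af0daf1ab405b : CRef := CRef.mk (Pat.mk 0x2000000120000001a00000000000000000000000000000000 0x4000000060000003f0000001a0000000f000000070000000700000005 7 6) 0 0 (step_sound _ 97 [(rh2cb2f677c4cfd632.shift 0 2), rh95311890f436bcdc, (rhd630af2e39ca770f.shift 0 2)] (by decide +kernel))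
noncomputable def rh419b05225c061a67 : CRef := CRef.mk (Pat.mk 0x20000001200000018000000100000000000000000 0xc000000ef000000ff000000180000001c0000000c0000000c 7 8) 0 0 (step_sound _ 131 [(rh7a1e396defbf2429.shift 0 3), (rhb7674d85f64945d6.shift 0 3), (rhc0f16577d60c5686.shift 0 2), rhf87c372b50bebde7] (by decide +kernel))
noncomputable def rh5b04283243ca9ec0 : CRef := CRef.mk (Pat.mk 0x2000000120000001a00000010000000000000000000000000 0xd0000000f0000001f0000001a00000013000000070000000700000005 7 5) 0 0 (step_sound _ 97 [(rh67ce2f56e3648f2b.shift 0 3), rh95311890f436bcdc, (rhc4055b4872d6fb38.shift 0 2), (rhc4526fc8abf298b6.shift 0 1)] (by decide +kernel))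
noncomputable def rhe137cf72b4d2699e : CRef := CRef.mk (Pat.mk 0x4000000160000001e00000018000000000000000000000000 0x4000000160000001e0000001a0000003f0000003f00000038 7 6) 0 0 (step_sound _ 68 [(rh28777d918bf71cd7.shift 0 1), (rh6eff4158bb400f47.shift 3 0), (rh820d4e04d5dcd02e.shift 3 0), (rhf2c54251c789958e.shift 2 0)] (by decide +kernel))
noncomputable def rh317b10d8bcd07a0c : CRef := CRef.mk (Pat.mk 0x4000000160000001c000000000000000000000000 0x28000000380000003c000000160000001e0000003b0000003a00000028 7 6) 0 0 (step_sound _ 68 [(rh3a8915bcf3615c60.shift 1 1), (rh593d20ba42f5a889.shift 0 1), (rhc67097bb8db3eb74.shift 1 1), (rhcfae684d46939137.shift 1 0)] (by decide +kernel))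
noncomputable def rhf5bab88091b19b4c : CRef := CRef.mk (Pat.mk 0x20000000b0000000c000000000000000000000000 0x140000001c0000001c0000001e0000000b0000000c0000001c0000001c00000014 7 5) 0 0 (step_sound _ 163 [rh32ed7c24a64682a4, (rh3453b8d8ca7f70b3.shift 0 2), (rh3a925e7b8292dc86.shift 0 2), (rh68a777751bfeafdf.shift 2 2)] (by decide +kernel))
noncomputable def rh60131db1effcf1bc : CRef := CRef.mk (Pat.mk 0x80000002d00000008000000000000000000000000 0x280000002f0000007e000000760000001400000010 7 7) 0 0 (step_sound _ 100 [(rh8da83cdfdd3e606a.shift 1 0), (rhab22b5b56e7b3243.shift 0 3)] (by decide +kernel))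
noncomputable def rhefd9cbb6976c16a6 : CRef := CRef.mk (Pat.mk 0x800000048000000080000001e00000000 0x40000000f0000007f0000000b0000001e00000003 7 7) 0 0 (step_sound _ 130 [rh0483d77324b29e63, (rh50fbb5868c909700.shift 2 1)] (by decide +kernel))
noncomputable def rh68271ae7d7bf0c6f : CRef := CRef.mk (Pat.mk 0x8000000480000001800000000 0x140000001c0000001c0000001c0000003c0000000f000000fc0000001800000008 7 8) 0 0 (step_sound _ 131 [rh5ee4dc8825dcefa0, (rhb008b0c579a72809.shift 2 1), (rhba97f7f4ade5e136.shift 2 1), (rhc13e0e232ea6d223.shift 2 1), (rhc85cc95794737cf7.shift 2 1)] (by decide +kernel))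
noncomputable def rh8effc1b4b248b652 : CRef := CRef.mk (Pat.mk 0xe0000000e00000000 0xa0000000f0000000f0000003f0000003e0000000e00000002 7 6) 0 0 (step_sound _ 98 [(rh32431e66bbf434a4.shift 1 0), (rh37d9ceebb86d75d1.shift 1 0), (rh5081f157185e0b65.shift 0 1)] (by decide +kernel))
noncomputable def rh9c2f0cab5f877e58 : CRef := CRef.mk (Pat.mk 0x80000001c000000000000001800000050 0x4000000040000003e0000003f000000070000001a000000f2 7 8) 0 0 (step_sound _ 5 [rhb98c3efd0afc4d49, (rhf48373e13d2bc128.shift 3 0)] (by decide +kernel))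
noncomputable def rh1c900ba7e7dcfea1 : CRef := CRef.mk (Pat.mk 0x180000001e00000000 0x40000000700000007000000030000001f0000001e00000007 7 5) 0 0 (step_sound _ 65 [(rh3244c3cc8379b070.shift 0 1), rhcc060b63639cd8ff] (by decide +kernel))
noncomputable def rhb27bd2e2f859c92b : CRef := CRef.mk (Pat.mk 0x40000000e000000000 0x3ef000001fe0000003f 7 10) 0 0 (step_sound _ 36 [(rh1f9701c4cf497514.shift 1 0), (rh6cc0f305be0098c0.shift 3 0), rhf7943763ae823400] (by decide +kernel))
noncomputable def rh1be7c23515f7561e : CRef := CRef.mk (Pat.mk 0x1c0000001c0000000000000000 0x1c0000001e0000001f0000001c0000001f0000000c00000004 7 5) 0 0 (step_sound _ 64 [(rh24ae073cf30720c4.shift 0 2), rhe724c6b9921c5a8a] (by decide +kernel))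
noncomputable def rh7e08d51ecc561f42 : CRef := CRef.mk (Pat.mk 0xf0000000e00000000 0x1c0000007c0000001e0000000f0000000e00000002 7 7) 0 0 (step_sound _ 99 [(rh063f0d92a3134ed5.shift 1 0), (rh33e738c4ed385b9f.shift 0 2)] (by decide +kernel))
noncomputable def rh6501c3f7dd16f957 : CRef := CRef.mk (Pat.mk 0x18000000380000000000000000 0x7c0000007c0000001f00000078000000780000000c00000004 7 7) 0 0 (step_sound _ 131 [rh138b0b3138b2dc1f, (rh2b4f3c0785538b0e.shift 0 1), (rh38b6a0047f80df8c.shift 2 0), (rh495a39b8a06d7922.shift 1 2), (rhd1b2b8205149f44b.shift 0 1)] (by decide +kernel))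
noncomputable def rha0b477990853c656 : CRef := CRef.mk (Pat.mk 0x40000000e000000000 0xff000001fe0000003f 7 9) 0 0 (step_sound _ 36 [(rh1f9701c4cf497514.shift 1 0), (rh592c7139d2c44767.shift 2 0), (rhaeebc73f5a9c796a.shift 3 0), rhf7943763ae823400] (by decide +kernel))
noncomputable def rh0b3aeb0090bdcea4 : CRef := CRef.mk (Pat.mk 0x200000012000000060000001000000000 0xc0000000c0000000f0000003e000000060000003c0000000c 7 6) 0 0 (step_sound _ 98 [(rh52727595f5cdd972.shift 1 0), (rh6493ceb007f59211.shift 0 2)] (by decide +kernel))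
noncomputable def rh7f087df5357cf790 : CRef := CRef.mk (Pat.mk 0x800000008000000080000000800000008 0x800000008000000180000007c0000001f0000001c00000008 7 7) 0 0 (step_sound _ 100 [(rh22a2cda2d822a778.shift 0 1), (rh2f68792b6b779e96.shift 3 0)] (by decide +kernel))
noncomputable def rhfcfd3e419d242bd7 : CRef := CRef.mk (Pat.mk 0x1000000010000000100000001800000000 0x200000003000000010000000ff0000007e00000027 7 8) 0 0 (step_sound _ 37 [(rh55afc6a59410cf00.shift 4 0), rh62ae98124b601fcf] (by decide +kernel))
noncomputable def rhb2e9f9e85c9ec8af : CRef := CRef.mk (Pat.mk 0x4000000040000000400000004 0x600000006000000060000003c0000000f0000000e 7 6) 0 0 (step_sound _ 129 [rh87919bd563354cbc, (rhffd04209dc8ea796.shift 1 0)] (by decide +kernel))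
noncomputable def rhd5973d0d3a54b5c4 : CRef := CRef.mk (Pat.mk 0x60000000200000002000000020 0x8000000080000001f000000fe000000ff0000003000000020 7 8) 0 0 (step_sound _ 100 [(rh189b8e8517d2f5f2.shift 0 1), (rh50fbb5868c909700.shift 4 0)] (by decide +kernel))
noncomputable def rhaffe506ab24ba1e1 : CRef := CRef.mk (Pat.mk 0x2000000020000000200000002 0x400000007000000070000000700000006000000060000000600000002 7 3) 0 0 (step_sound _ 129 [rh0ac7068d00303fbb, (rh44f453b84f013105.shift 1 0), (rh66ee4e4e1313f0fc.shift 0 1), (rhc85cc95794737cf7.shift 0 1)] (by decide +kernel))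
noncomputable def rhfdcd97de63d4a58a : CRef := CRef.mk (Pat.mk 0x60000000200000002000000020 0x8000000080000001f000000fe000000ff0000003000000020 7 8) 0 0 (step_sound _ 100 [(rh50fbb5868c909700.shift 4 0), (rhdd20ae54af0f25e9.shift 0 1)] (by decide +kernel))
noncomputable def rhae182e3a57d967e7 : CRef := CRef.mk (Pat.mk 0x80000000c0000000800000000 0x140000001c0000001c00000018000000080000001f0000003c00000014 7 6) 0 0 (step_sound _ 131 [(rh03dfdf12d5937476.shift 2 0), (rh20e56a1196e70fcc.shift 2 0), (rhced6d86d2069808b.shift 3 0), rheecca8248285d065] (by decide +kernel))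
noncomputable def rhcd7dd4c3ff57fa1b : CRef := CRef.mk (Pat.mk 0x1000000010000000100000003800000000 0x280000003800000010000000ff0000007e00000007 7 8) 0 0 (step_sound _ 131 [(rh50fbb5868c909700.shift 3 1), rh62ae98124b601fcf] (by decide +kernel))
noncomputable def rhe36b351fe63a9d07 : CRef := CRef.mk (Pat.mk 0x2000000020000000200000002 0x100000007000000070000000700000003000000030000000300000002 7 3) 0 0 (step_sound _ 129 [rh3ca48e2a6d60153d, (rhc85cc95794737cf7.shift 0 1), rhd534da25a9e1909f, (rhe01cfd8f0577defd.shift 0 1)] (by decide +kernel))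
noncomputable def rhebd3c11f59be2cbd : CRef := CRef.mk (Pat.mk 0x200000002000000120000001e00000002 0x32000000360000003f0000001e0000001e00000002 7 6) 0 0 (step_sound _ 66 [(rh2145e1d24b96a57e.shift 1 1), rhfde29145e43e3241] (by decide +kernel))
noncomputable def rh1d78dab1cd5f7e30 : CRef := CRef.mk (Pat.mk 0x20000001e0000000000000000 0x10000000700000007000000070000003e0000001e0000000700000002 7 6) 0 0 (step_sound _ 33 [rh56d5dded4a3ed926, (rheb0810cc63b001d8.shift 0 1)] (by decide +kernel))
noncomputable def rh9a398c421f851ed5 : CRef := CRef.mk (Pat.mk 0x60000001000000012000000100000000000000000 0xa0000000e0000000e00000006000000340000001e0000003f0000000e0000000a 7 6) 0 0 (step_sound _ 98 [(rh042e0f0ce201750f.shift 0 1), (rh754e1d71ee5f2d0f.shift 1 0), (rhabf575676fe0ef70.shift 1 2), rhcb51f3f897da837e] (by decide +kernel))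
noncomputable def rh48c40cc15fec64ff : CRef := CRef.mk (Pat.mk 0xc0000002000000024000000200000000000000000 0x140000003c0000000f000000680000003c0000007e0000001c00000014 7 7) 0 0 (step_sound _ 99 [(rh042e0f0ce201750f.shift 1 1), rh840e77d6e39d0784, (rhabf575676fe0ef70.shift 2 2)] (by decide +kernel))
noncomputable def rh7bd5a9e447539348 : CRef := CRef.mk (Pat.mk 0x1c00000029000000080000000000000000 0x10000000700000007c0000002f000000780000007000000040 7 7) 0 0 (step_sound _ 98 [(rh24ae073cf30720c4.shift 0 3), (rh7e26fc757017dc21.shift 2 0)] (by decide +kernel))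
noncomputable def rhcbb0a083822849da : CRef := CRef.mk (Pat.mk 0x20000000300000002000000000000000000000000 0x1000000070000000700000007000000030000000300000002000000070000000700000005 7 3) 0 0 (step_sound _ 65 [rh6eff4158bb400f47, (rha7bb430bc20854cc.shift 0 2)] (by decide +kernel))
noncomputable def rhe4d523cfb9e4c280 : CRef := CRef.mk (Pat.mk 0xc0000002000000008000000000000000000000000 0x40000001f00000078000000080000001c0000001c00000014 7 7) 0 0 (step_sound _ 131 [(rh0a6888916bcef86b.shift 2 0), (rh0d2de1b76a94234f.shift 2 0), (rh126557da767e56cc.shift 0 4)] (by decide +kernel))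
noncomputable def rh380e962e68659d29 : CRef := CRef.mk (Pat.mk 0x10000000120000000600000002 0x50000000700000007000000070000003f0000001e0000000600000002 7 6) 0 0 (step_sound _ 97 [rh1741680720c097b4, rh2e8c37f65ed14456, rh35c5f1c53251aa1b, rh8d9483ddda77e992, rhc3115e0f4b0bf27b] (by decide +kernel))
noncomputable def rh99701c9008ca365f : CRef := CRef.mk (Pat.mk 0x800000008000000580000001800000000 0x340000003f00000038000000f80000001800000008 7 8) 0 0 (step_sound _ 132 [rh2e9e98bf9a2cd69e, (rh2f68792b6b779e96.shift 3 1)] (by decide +kernel))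
noncomputable def rh8842204726d92ebd : CRef := CRef.mk (Pat.mk 0x20000000200000002000000100000000000000000 0x500000007000000070000000300000003000000060000001f0000000700000001 7 5) 0 0 (step_sound _ 65 [(rh20e56a1196e70fcc.shift 0 1), rh9aa6ac2fc87719f2, rhc4526fc8abf298b6] (by decide +kernel))
noncomputable def rhe6a79c0cf523c83e : CRef := CRef.mk (Pat.mk 0x20000000200000002000000100000000000000000 0x500000007000000070000000600000006000000060000001f0000000700000001 7 5) 0 0 (step_sound _ 65 [(rh20e56a1196e70fcc.shift 0 1), rh9aa6ac2fc87719f2, rhcab3157f7bdcba3e, (rhced6d86d2069808b.shift 1 1)] (by decide +kernel))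
noncomputable def rh7d5778ca233fe3ca : CRef := CRef.mk (Pat.mk 0x1c0000000e00000048 0x200000002000000030000001f0000003e0000007f 7 7) 0 0 (step_sound _ 5 [(rh5419adcd928dba20.shift 2 0), rh87770a5d796454cb] (by decide +kernel))
noncomputable def rh9a323e9da0964c84 : CRef := CRef.mk (Pat.mk 0x1000000038000000600000000000000000 0x2c0000002c0000006c0000003e000000780000007f0000000c0000000c 7 7) 0 0 (step_sound _ 131 [rh0f7c042760344783, rh8929e57de7e5ccc8, (rhc96c66aeb8f7600c.shift 1 2), (rhe2b63c00a3d7bb73.shift 1 3)] (by decide +kernel))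
noncomputable def rhf22663d8ae703112 : CRef := CRef.mk (Pat.mk 0x7000000120 0xe000000fe000001bf 7 9) 0 0 (step_sound _ 39 [rh7c446a5779c6be66, (rh96851dee118c1ba3.shift 4 0)] (by decide +kernel))
noncomputable def rha579923211fdca03 : CRef := CRef.mk (Pat.mk 0x8000000180000009000000010 0x20000000200000007f0000007e000000df00000010 7 8) 0 0 (step_sound _ 69 [rh174fce71736e2b46, (rh8a14c52668870c9c.shift 2 1), (rha58dc15cc172d020.shift 1 0)] (by decide +kernel))
noncomputable def rh6c4088caf4e79528 : CRef := CRef.mk (Pat.mk 0x1200000006000000020000000000000000 0x300000007000000070000001e00000006000000060000000300000003 7 5) 0 0 (step_sound _ 130 [rh2f13d6c59e90a428, (rh84d1c02a8954c6a8.shift 1 1), (rha526367301f98c3f.shift 0 2)] (by decide +kernel))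
noncomputable def rhd1252e1f21e0b11f : CRef := CRef.mk (Pat.mk 0x1e000000100000000800000000 0x400000004000000070000001e0000001f0000000b0000000b 7 5) 0 0 (step_sound _ 65 [rh6c43e63ebc8747e1, (rheb0810cc63b001d8.shift 0 2)] (by decide +kernel))
noncomputable def rh507c820bd498f3fc : CRef := CRef.mk (Pat.mk 0xf000000000 0xe7000000fe0000007f 7 8) 0 0 (step_sound _ 35 [rh4ee24c8c3be77869, (rh9e97bba44c1b13e4.shift 1 0), rhcdce1b8bf0ff89c0, (rheae1728ff4a56756.shift 2 0)] (by decide +kernel))
noncomputable def rh1204534f571ff564 : CRef := CRef.mk (Pat.mk 0xa0000001a 0xe7000000ff0000001b 7 8) 0 0 (step_sound _ 34 [rh101e72857d6da29e, rhb739f4f82bb681b4] (by decide +kernel))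
noncomputable def rh9254dec333938b9b : CRef := CRef.mk (Pat.mk 0xe0000001a000000900000009000000080 0x100000001400000077000000fe0000005a000000ff000000d700000080 7 8) 0 0 (step_sound _ 70 [(rh5419adcd928dba20.shift 3 2), rha97ebd84de2b6644] (by decide +kernel))
noncomputable def rh7fd8ed24bbbb36db : CRef := CRef.mk (Pat.mk 0xa0000001a000000800000009000000080 0x140000001400000077000000fe0000005b000000fa000000d000000090 7 8) 0 0 (step_sound _ 68 [(rh7b1f1fb55310c477.shift 3 0), rhd5ff80da70fdb659] (by decide +kernel))
noncomputable def rh8c3824639aafa6dc : CRef := CRef.mk (Pat.mk 0xa0000001a000000820000001000000000 0x500000007000000070000000b0000001a000000ff0000001700000011 7 8) 0 0 (step_sound _ 68 [rh31ca4cd81de4c439, (rh7b1f1fb55310c477.shift 3 0)] (by decide +kernel))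
noncomputable def rhb590877b0889964f : CRef := CRef.mk (Pat.mk 0x20000000200000002000000000000000000000000 0x50000000700000007000000030000000300000006000000070000000700000005 7 3) 0 0 (step_sound _ 65 [rh8cdd36b03d57a2f6, rh8ff3dde5b1c639e0, (rha087c6594f4bfb59.shift 0 1), rhc4526fc8abf298b6] (by decide +kernel))
noncomputable def rh373f3823e471b2e8 : CRef := CRef.mk (Pat.mk 0x200000002000000020000000000000000 0x50000000700000007000000070000000300000003000000030000000300000001 7 3) 0 0 (step_sound _ 161 [(rh1741680720c097b4.shift 0 2), (rh193da7fc9e1674f1.shift 0 1), (rh20966da26a1c2ae8.shift 0 1), (rh771d065bdc85bf2d.shift 0 1), rhc4526fc8abf298b6] (by decide +kernel))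
noncomputable def rh361f97a87e2d3c75 : CRef := CRef.mk (Pat.mk 0xa0000001a000000820000001000000000 0x500000007000000070000000a0000001b000000ff0000001400000010 7 8) 0 0 (step_sound _ 68 [(rh43b5f59df03a9217.shift 0 1), (rh7b1f1fb55310c477.shift 3 0)] (by decide +kernel))
noncomputable def rhfb405cddc3b2faa4 : CRef := CRef.mk (Pat.mk 0x200000002000000020000001200000000 0x100000007000000070000000600000003000000030000001e00000004 7 5) 0 0 (step_sound _ 34 [(rh55afc6a59410cf00.shift 1 0), (rhfbe0dda884cb6bbf.shift 0 1)] (by decide +kernel))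
noncomputable def rhd72e035d2f16b543 : CRef := CRef.mk (Pat.mk 0x400000007000000000 0xce0000007e00000077 7 8) 0 0 (step_sound _ 35 [rh04797e9e06425c4e, (rh33e738c4ed385b9f.shift 3 1)] (by decide +kernel))
noncomputable def rh2688986e4e43cd69 : CRef := CRef.mk (Pat.mk 0xc000000180000000000000000 0x40000000600000007000000ff0000001f0000000700000007 7 8) 0 0 (step_sound _ 97 [(rhb739f4f82bb681b4.shift 0 2), rhbafbfed6b08feb21] (by decide +kernel))
noncomputable def rh8b7eb3f9c2659971 : CRef := CRef.mk (Pat.mk 0xc000000180000000000000000 0x1000000014000000f4000000ff0000001f0000000b00000002 7 8) 0 0 (step_sound _ 97 [(rhb739f4f82bb681b4.shift 0 2), rhbb0cdf0279d98a0c] (by decide +kernel))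
noncomputable def rh36715497e7b80dfd : CRef := CRef.mk (Pat.mk 0xc000000180000000000000000 0x6000000e7000000ff0000001f0000000700000007 7 8) 0 0 (step_sound _ 97 [rh0e3d5f92838cb078, (rhb739f4f82bb681b4.shift 0 2)] (by decide +kernel))
noncomputable def rhf8bc6388eed92c5e : CRef := CRef.mk (Pat.mk 0xc000000180000000000000000 0x400000006000000e7000000ff0000001f0000000f00000007 7 8) 0 0 (step_sound _ 97 [rh535c343e8d5d4019, (rhb739f4f82bb681b4.shift 0 2)] (by decide +kernel))
noncomputable def rhcbc039085bf4df34 : CRef := CRef.mk (Pat.mk 0xc0000001800000000 0x1000000010000000f7000000ff0000001c00000008 7 8) 0 0 (step_sound _ 65 [rh95a83982027b0798, (rhb739f4f82bb681b4.shift 0 1)] (by decide +kernel))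
noncomputable def rh15cd5b8c43895894 : CRef := CRef.mk (Pat.mk 0xc000000180000000000000000 0x1000000012000000f3000000ff0000001f0000000c00000004 7 8) 0 0 (step_sound _ 97 [rha51c438bc5171201, (rhb739f4f82bb681b4.shift 0 2)] (by decide +kernel))
noncomputable def rhfc71a8e2f9894675 : CRef := CRef.mk (Pat.mk 0x180000001800000030 0x2000000020000000770000007f0000001e00000030 7 7) 0 0 (step_sound _ 34 [rh5a0870ca5698f657, (rhb739f4f82bb681b4.shift 1 0)] (by decide +kernel))
noncomputable def rh750befad281eee48 : CRef := CRef.mk (Pat.mk 0x80000001c0000001800000008 0x770000007f0000001c0000001800000018 7 7) 0 0 (step_sound _ 100 [(rh5c5e593799055d58.shift 3 0), rhda59c0a26ce799ec] (by decide +kernel))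
noncomputable def rhee0a8129e9bedfc2 : CRef := CRef.mk (Pat.mk 0x2000000020000000300000007000000000 0x100000003000000030000000770000007e0000000f 7 7) 0 0 (step_sound _ 132 [(rh50fbb5868c909700.shift 4 1), rh79ab994228e1f405] (by decide +kernel))
noncomputable def rh3a3ab2664d1381f5 : CRef := CRef.mk (Pat.mk 0x3000000020000000300000007000000000 0x400000007000000030000000770000007e0000000f 7 7) 0 0 (step_sound _ 134 [(rh2f68792b6b779e96.shift 5 1), rh79ab994228e1f405] (by decide +kernel))
noncomputable def rh8fdc94bd12046e05 : CRef := CRef.mk (Pat.mk 0x1c000000180000000000000000 0x400000004000000070000003f0000001b0000000a00000008 7 6) 0 0 (step_sound _ 97 [rh12d62920e2962a1a, (rhb739f4f82bb681b4.shift 0 2)] (by decide +kernel))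
noncomputable def rh74b8be03d75336da : CRef := CRef.mk (Pat.mk 0xc0000000c00000008 0x16000000370000007f0000007c0000000e 7 7) 0 0 (step_sound _ 36 [rh4b2f0b3b6f128794, (rh6b7258f8de49d45f.shift 1 0), (rh79b3c29022acbdf3.shift 1 1)] (by decide +kernel))
noncomputable def rhc12dc80f9bd33ca4 : CRef := CRef.mk (Pat.mk 0xc0000001800000000 0x1400000014000000f7000000ff0000001b0000000a 7 8) 0 0 (step_sound _ 65 [rhad39c119dd984724, (rhb739f4f82bb681b4.shift 0 1)] (by decide +kernel))
noncomputable def rhd8eb0630a2f45a00 : CRef := CRef.mk (Pat.mk 0x18000000380000000000000000 0x3c0000007c0000001e00000018000000380000001f0000000c 7 7) 0 0 (step_sound _ 132 [rh3e4e9f5e09ce5b9e, (rh503dd4575245365b.shift 3 1), (rh6609c8b2261018fb.shift 1 1)] (by decide +kernel))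
noncomputable def rh58bfa41d6562f9d8 : CRef := CRef.mk (Pat.mk 0x200000000c00000028000000000000000000000000 0x10000000140000001f0000007c0000000e00000078000000180000001000000010 7 7) 0 0 (step_sound _ 100 [rha8070c63b88805cd, (rhf48373e13d2bc128.shift 2 3)] (by decide +kernel))
noncomputable def rhc92adb09026e8c0a : CRef := CRef.mk (Pat.mk 0x1000000018000000180000001000000000 0x2c0000003f0000001f000000180000001800000008 7 6) 0 0 (step_sound _ 131 [(rh50fbb5868c909700.shift 3 1), rh8897986f936f289a] (by decide +kernel))
noncomputable def rh52da69560d6afc2c : CRef := CRef.mk (Pat.mk 0x1800000018000000100000001000000000 0x1000000018000000180000001f0000003f0000002c 7 6) 0 0 (step_sound _ 35 [(rh932754581e0f4330.shift 3 0), rhdb7366e899be568e] (by decide +kernel))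
noncomputable def rh262447fc156361c7 : CRef := CRef.mk (Pat.mk 0x8000000030000000600000000000000000000000000000000 0x2000000060000001f000000030000000700000007000000070000000700000001 7 5) 0 0 (step_sound _ 193 [rh6793437a59e53157, (rh70e33bfdf511e144.shift 1 1), (rhb23658ecdd7ce5df.shift 0 3)] (by decide +kernel))
noncomputable def rh4310fc046cc18785 : CRef := CRef.mk (Pat.mk 0x800000008000000180000001800000000 0x40000000c0000000c0000001f0000003f00000007 7 6) 0 0 (step_sound _ 34 [(rh932754581e0f4330.shift 2 0), rhca96e4283eec034c] (by decide +kernel))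
noncomputable def rh4e7ceac3c24ebede : CRef := CRef.mk (Pat.mk 0x1800000018000000080000000800000000 0x70000003f0000001f0000000c0000000c00000004 7 6) 0 0 (step_sound _ 130 [rh05ccb7e19c2e6b1b, (rh50fbb5868c909700.shift 2 1)] (by decide +kernel))
noncomputable def rhcd0c09a8bae76a72 : CRef := CRef.mk (Pat.mk 0x600000003000000080000000000000000 0x100000007000000070000000700000007000000030000001f0000000600000002 7 5) 0 0 (step_sound _ 65 [rh000637b5a81e86aa, (rh215e11e099257d75.shift 1 1), (rh3fc2f55984029a22.shift 0 1)] (by decide +kernel))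
noncomputable def rhe8045cab2fcb988d : CRef := CRef.mk (Pat.mk 0x2000000030000000a00000000 0x100000007000000070000000600000003000000030000001e00000004 7 5) 0 0 (step_sound _ 34 [rhcc21179e9c7abcbc, (rhf48373e13d2bc128.shift 0 1)] (by decide +kernel))
noncomputable def rhe71ac8da02dbefd9 : CRef := CRef.mk (Pat.mk 0xa000000030000000200000000000000000000000000000000 0x40000001e000000030000000300000006000000070000000700000001 7 5) 0 0 (step_sound _ 194 [(rh18965a982d73c794.shift 0 5), rhc850ef9393baf884] (by decide +kernel))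
noncomputable def rh7ec013b03c8736a1 : CRef := CRef.mk (Pat.mk 0x120000001e0000001200000000000000000000000000000000 0x50000000700000007000000160000001e0000001e0000000f0000000f0000000700000005 7 5) 0 0 (step_sound _ 97 [(rha087c6594f4bfb59.shift 0 2), (rhfa69f2377056ccc5.shift 0 2), rhffb8e5993241bf15] (by decide +kernel))
noncomputable def rh2dd67086abd50df0 : CRef := CRef.mk (Pat.mk 0x380000000c00000020000000000000000000000000 0xa0000001f0000003a0000000f0000003e0000001c0000001c00000018 7 6) 0 0 (step_sound _ 129 [(rh53b3c253cb0c65f4.shift 0 4), rhc157c8e4aa5f9578] (by decide +kernel))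
noncomputable def rh753d8769fe7793a5 : CRef := CRef.mk (Pat.mk 0x5000000018000000480000000800000000 0x8000000080000000c000000fc000000180000007f0000003c00000014 7 8) 0 0 (step_sound _ 133 [(rh18965a982d73c794.shift 3 3), rh2239e14ef000e4ff] (by decide +kernel))
noncomputable def rhcfabe2dc485cc206 : CRef := CRef.mk (Pat.mk 0x1000000018000000480000000000000000 0x80000000c0000000c0000001c000000180000007f0000003c0000001c 7 7) 0 0 (step_sound _ 35 [rh4a20a06433d492e0, (rh71222050f2c63a3a.shift 3 0)] (by decide +kernel))
noncomputable def rh89609278b6780218 : CRef := CRef.mk (Pat.mk 0x1800000018000000180000001c00000000 0x40000001f0000001f0000001b0000001f00000003 7 5) 0 0 (step_sound _ 33 [(rh53b3c253cb0c65f4.shift 0 1), rhc1ef5d4f9e205127] (by decide +kernel))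
noncomputable def rhb406d3ee55f767b6 : CRef := CRef.mk (Pat.mk 0x120000001e00000012000000000000000000000000 0x5000000070000000f0000000f0000001e0000001e00000016000000070000000700000005 7 5) 0 0 (step_sound _ 193 [(rh14e0829dc73b6804.shift 0 3), (rh67ce2f56e3648f2b.shift 0 3), rh95311890f436bcdc] (by decide +kernel))
noncomputable def rhb1536bcd9f25cbb5 : CRef := CRef.mk (Pat.mk 0x200000000c000000380000000000000000 0x180000001c0000001c0000003e0000000f0000003a0000001f0000000a 7 6) 0 0 (step_sound _ 97 [rh5c63837a42bd238e, (rhb739f4f82bb681b4.shift 0 2)] (by decide +kernel))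
noncomputable def rh04addc76c3cd212c : CRef := CRef.mk (Pat.mk 0x8000000480000001800000050000000000000000000000000 0x140000003c0000007f00000018000000fc0000000c0000000800000008 7 8) 0 0 (step_sound _ 101 [rha6d00b03b1fbd172, (rhf48373e13d2bc128.shift 3 3)] (by decide +kernel))
noncomputable def rhed4f3b9859dbf25d : CRef := CRef.mk (Pat.mk 0x480000001800000010000000000000000000000000 0x1c0000003c0000007f000000180000001c0000000c0000000c00000008 7 7) 0 0 (step_sound _ 195 [(rh2145e1d24b96a57e.shift 3 3), rh3928431b5e859835] (by decide +kernel))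
noncomputable def rhed31eb97e70978b8 : CRef := CRef.mk (Pat.mk 0x1c00000018000000180000001800000000 0x30000001f0000001b0000001f0000001f00000004 7 5) 0 0 (step_sound _ 129 [(rhb739f4f82bb681b4.shift 0 3), rhcfd46bd877dcc179] (by decide +kernel))
noncomputable def rh1c2e5d1f85693edf : CRef := CRef.mk (Pat.mk 0x10000000070000001c000000000000000000000000 0xa0000003e000000070000001c0000000f0000000e0000000a 7 6) 0 0 (step_sound _ 162 [(rh4fd54f6717f3e7ac.shift 0 4), (rh7a20fdf79b9062e8.shift 1 0), (rhaa02d759ac0b5be0.shift 1 1), rhb437a80e8a99758d] (by decide +kernel))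
noncomputable def rhd23d3b38a1da9c9f : CRef := CRef.mk (Pat.mk 0x1c000000070000001000000000 0xa0000000e0000000f0000001c000000070000003e0000000a 7 6) 0 0 (step_sound _ 34 [(rh250a4da46cd7f68e.shift 1 0), rh252b5ef4d7eacff7, (rh68691964b29f233d.shift 0 1), (rh873152f5c63c9e04.shift 1 0)] (by decide +kernel))
noncomputable def rhb1e8ee2230336338 : CRef := CRef.mk (Pat.mk 0x800000008000000180000001800000000 0x40000000c0000000c0000001f0000001f0000000f 7 5) 0 0 (step_sound _ 34 [rh7b379c970561687c, (rh932754581e0f4330.shift 2 0)] (by decide +kernel))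
noncomputable def rh8bf52c477d698a46 : CRef := CRef.mk (Pat.mk 0x1000000018000000180000001c00000000 0x20000000310000001f0000001f0000001f00000003 7 6) 0 0 (step_sound _ 33 [(rh53b3c253cb0c65f4.shift 0 1), rh56f07decfb4aa036] (by decide +kernel))
noncomputable def rh6ae7ab53853a913f : CRef := CRef.mk (Pat.mk 0x1c00000018000000180000001800000000 0x30000001f0000001b0000001f0000001f00000004 7 5) 0 0 (step_sound _ 129 [rh8a3c897e1d701e23, (rhb739f4f82bb681b4.shift 0 3)] (by decide +kernel))
noncomputable def rh1662f65ed666287e : CRef := CRef.mk (Pat.mk 0x2000000020000000600000000 0x500000007000000070000000200000002000000030000000700000005 7 3) 0 0 (step_sound _ 129 [rh193da7fc9e1674f1, (rh55afc6a59410cf00.shift 1 0)] (by decide +kernel))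
noncomputable def rh648a4a8f5d0ea464 : CRef := CRef.mk (Pat.mk 0x800000008000000180000000c00000000 0x40000000c0000000e0000001f0000001f00000013 7 5) 0 0 (step_sound _ 36 [rh537493fa63bde2ed, (rh55afc6a59410cf00.shift 3 0)] (by decide +kernel))
noncomputable def rh46105479cc697833 : CRef := CRef.mk (Pat.mk 0x8000000480000001800000000 0x1c0000001f0000003c000000f80000001c00000008 7 8) 0 0 (step_sound _ 68 [(rh51246ab843efda05.shift 2 1), (rh6493ceb007f59211.shift 2 1), rhbcfe8b514a771277, (rhd11dc6dd83191698.shift 2 1)] (by decide +kernel))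
noncomputable def rh07142bfaba471b53 : CRef := CRef.mk (Pat.mk 0x2000000000000001600000010 0x5000000070000000700000002000000030000001e00000034 7 6) 0 0 (step_sound _ 35 [rhcec0ed83a4ad6cfa, (rhe25b0a99195a5d59.shift 1 0)] (by decide +kernel))
noncomputable def rhfdb7a135f424ad69 : CRef := CRef.mk (Pat.mk 0x80000001800000018000000100000000000000000 0x340000003f0000001f00000018000000180000000800000008 7 6) 0 0 (step_sound _ 67 [(rh161e32243bff89f3.shift 0 2), (rh1e309b005ffa1b36.shift 3 0), (rh84d1c02a8954c6a8.shift 3 1), (rhdf997f77704b6375.shift 2 0)] (by decide +kernel))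
noncomputable def rh233a76cd06273ad7 : CRef := CRef.mk (Pat.mk 0x2000000120000000200000000000000000000000000000000 0x50000000f0000001f0000000200000003000000070000000700000005 7 5) 0 0 (step_sound _ 97 [rh95311890f436bcdc, (rhc3115e0f4b0bf27b.shift 0 3), (rhc4055b4872d6fb38.shift 0 2), (rhc4526fc8abf298b6.shift 0 1)] (by decide +kernel))
noncomputable def rh61c77d157628455f : CRef := CRef.mk (Pat.mk 0x300000002000000030000000000000000000000000000000000000000 0x10000000300000002000000030000000300000007000000070000000700000001 7 3) 0 0 (step_sound _ 129 [(rh50fbb5868c909700.shift 0 4), rhe08b3642bf78c2d5] (by decide +kernel))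
noncomputable def rhe4849805307f1679 : CRef := CRef.mk (Pat.mk 0x1800000008000000180000001e00000000 0x60000007f0000003f0000001f0000001e00000002 7 7) 0 0 (step_sound _ 65 [rh05153283f94893c9, (rh3244c3cc8379b070.shift 0 1)] (by decide +kernel))
noncomputable def rh333c1cc79040032b : CRef := CRef.mk (Pat.mk 0x2000000120000000200000000000000000000000000000000 0x1000000070000000f0000001e0000000300000007000000070000000700000005 7 5) 0 0 (step_sound _ 97 [(rh771d065bdc85bf2d.shift 0 2), (rh8cdd36b03d57a2f6.shift 0 1), rh95311890f436bcdc, (rhc3115e0f4b0bf27b.shift 0 3)] (by decide +kernel))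
noncomputable def rhe10e4699e05d08a7 : CRef := CRef.mk (Pat.mk 0x2000000120000000200000000000000000000000000000000 0x500000007000000070000001f0000000200000003000000070000000700000005 7 5) 0 0 (step_sound _ 97 [(rh1741680720c097b4.shift 0 3), (rh6290225f7e481854.shift 0 2), rh95311890f436bcdc, (rhc4526fc8abf298b6.shift 0 1)] (by decide +kernel))
noncomputable def rhac896e42bf3e13c0 : CRef := CRef.mk (Pat.mk 0x200000002000000020000000200000000000000000000000000000000 0x200000003000000030000000300000007000000070000000700000005 7 3) 0 0 (step_sound _ 97 [rh011177a61dcb3783, (rh6eff4158bb400f47.shift 0 1), (rh7928877f9bf74a91.shift 0 2), rhe84e00c98653ad0c] (by decide +kernel))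
noncomputable def rh8c9f90f5a2d5a18f : CRef := CRef.mk (Pat.mk 0x1000000010000000100000001800000000 0x800000018000000180000003f0000007e00000027 7 7) 0 0 (step_sound _ 37 [(rh55afc6a59410cf00.shift 4 0), rhd58a1db5f0b480d4] (by decide +kernel))
noncomputable def rh4de12cc7feafb128 : CRef := CRef.mk (Pat.mk 0x400000002000000020000000200000000000000000000000000000000 0x400000007000000030000000300000006000000070000000700000001 7 3) 0 0 (step_sound _ 97 [(rhbaefcd01e0a8bca3.shift 1 3), rhe84e00c98653ad0c] (by decide +kernel))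
noncomputable def rhc005ae0319fe48cc : CRef := CRef.mk (Pat.mk 0xc0000002000000024000000200000000000000000 0x140000001c0000001c0000001c000000780000003e0000006f0000000c00000004 7 7) 0 0 (step_sound _ 99 [(rh1dbae68ba0c9a230.shift 2 0), (rha3fd83893c3ef42f.shift 0 2), (rhabf575676fe0ef70.shift 2 2), (rhc8450956778d39a6.shift 0 2)] (by decide +kernel))
noncomputable def rh663a636482f535f0 : CRef := CRef.mk (Pat.mk 0x2000000120000001200000010000000000000000000000000 0x8000000090000000f0000001f0000001a00000017000000070000000700000005 7 5) 0 0 (step_sound _ 97 [(rh6290225f7e481854.shift 0 2), (rh8cdd36b03d57a2f6.shift 0 1), (rh8ff3dde5b1c639e0.shift 0 1), (rh9bb2bee4114890af.shift 0 3), rhc850b49d039efae1] (by decide +kernel))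
noncomputable def rh8a348cd0146fd655 : CRef := CRef.mk (Pat.mk 0x2000000120000000200000000000000000000000000000000 0x50000000700000007000000060000003e0000000300000007000000070000000700000005 7 6) 0 0 (step_sound _ 97 [(rh1726a00b0a8befd0.shift 0 2), (rh31d8278b7e19baad.shift 0 2), (rh8cdd36b03d57a2f6.shift 0 1), rh95311890f436bcdc] (by decide +kernel))
noncomputable def rh5160138ce69f6052 : CRef := CRef.mk (Pat.mk 0x3000000020000000200000002000000000 0x4f000000fe000000fc000000300000003000000010 7 8) 0 0 (step_sound _ 134 [(rh2f68792b6b779e96.shift 5 1), rh52da0a4b82c097b2] (by decide +kernel))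
noncomputable def rh9471088d8f494770 : CRef := CRef.mk (Pat.mk 0x2000000020000000200000000000000000000000000000000 0x40000000700000007000000070000000300000003000000070000000700000005 7 3) 0 0 (step_sound _ 97 [(rh20966da26a1c2ae8.shift 0 2), (rhc4055b4872d6fb38.shift 0 2), (rhc4526fc8abf298b6.shift 0 1), rhc850b49d039efae1] (by decide +kernel))
noncomputable def rh6384ca9923a7e2b7 : CRef := CRef.mk (Pat.mk 0x3000000100000001200000010000000000000000000000000 0x8000000090000000f0000001f0000001a00000017000000070000000700000005 7 5) 0 0 (step_sound _ 161 [(rh0a6888916bcef86b.shift 0 1), (rh6a6060c6b6bde3df.shift 0 3), rh985335d5e81225b5, (rhd1779d7de7f8215b.shift 0 1)] (by decide +kernel))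
noncomputable def rh7ad9335bdd999f56 : CRef := CRef.mk (Pat.mk 0x80000000000000038000000100000000000000000 0x8000000080000000f0000003e000000370000001400000010 7 6) 0 0 (step_sound _ 131 [(rh2145e1d24b96a57e.shift 3 2), rh56b522415e590c1b] (by decide +kernel))
noncomputable def rh5c8f5b6734dfd8f9 : CRef := CRef.mk (Pat.mk 0x4000000000000001e00000000000000000000000000000000 0x4000000070000001e00000003000000070000000700000005 7 5) 0 0 (step_sound _ 97 [rhad04ba821d7b8f41, (rheb0810cc63b001d8.shift 0 3)] (by decide +kernel))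
noncomputable def rh048f60a5b77a1af0 : CRef := CRef.mk (Pat.mk 0x18000000800000009000000080 0x40000000470000007e000001f7000000fc00000180 7 9) 0 0 (step_sound _ 70 [(rh0edeea44351ef76d.shift 0 2), (rh23625f181fa295a9.shift 3 0), (rha01c240a652a6443.shift 2 0)] (by decide +kernel))
noncomputable def rh0b5a0d988777eb72 : CRef := CRef.mk (Pat.mk 0x300000000000000060000000200000000000000000000000000000000 0x10000000300000007000000060000000200000002000000070000000700000005 7 3) 0 0 (step_sound _ 193 [(rh50fbb5868c909700.shift 0 4), rhb2334dead4e9a08c] (by decide +kernel))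
noncomputable def rh35c57459bec5e8de : CRef := CRef.mk (Pat.mk 0xc00000008000000180000000800000000 0xc0000000e0000001f0000001f00000017 7 5) 0 0 (step_sound _ 34 [rh17be463b1ba4b67e, (rh932754581e0f4330.shift 2 0)] (by decide +kernel))
noncomputable def rh989950486071371a : CRef := CRef.mk (Pat.mk 0x180000008000000090000000800000000000000000 0x4000000040000000ef0000007e000001ef000000f8000001bc0000001000000010 7 9) 0 0 (step_sound _ 101 [rh3aec07aa190a18dd, (rhabf575676fe0ef70.shift 4 2), (rhc8450956778d39a6.shift 2 2)] (by decide +kernel))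
noncomputable def rhb43a63bf123b720f : CRef := CRef.mk (Pat.mk 0xc000000180000000800000000 0x12000000330000003f0000001f0000000c00000004 7 6) 0 0 (step_sound _ 97 [(rhb739f4f82bb681b4.shift 0 2), rhdf0908344ce03366] (by decide +kernel))
noncomputable def rha2d608bbf475f0c5 : CRef := CRef.mk (Pat.mk 0x6000000020000000200000000000000000000000000000000 0x500000007000000030000000200000002000000070000000700000005 7 3) 0 0 (step_sound _ 97 [(rh2f68792b6b779e96.shift 1 3), rhc850b49d039efae1] (by decide +kernel))
noncomputable def rh13944d096ef01147 : CRef := CRef.mk (Pat.mk 0x1800000018000000080000000800000000 0xf0000001f0000001f0000000c0000000c00000004 7 5) 0 0 (step_sound _ 130 [rh26ed837772191e44, (rh50fbb5868c909700.shift 2 1)] (by decide +kernel))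
noncomputable def rh3c44a6ff6b1725ba : CRef := CRef.mk (Pat.mk 0x1c00000018000000180000001000000000 0x30000001f0000001f0000001f0000003100000020 7 6) 0 0 (step_sound _ 129 [rh7144ca2961b89b79, (rhb739f4f82bb681b4.shift 0 3)] (by decide +kernel))
noncomputable def rh1421e40f6ee4155f : CRef := CRef.mk (Pat.mk 0x1800000018000000180000001c00000000 0x40000001f0000001f0000001b0000001f00000003 7 5) 0 0 (step_sound _ 33 [(rh53b3c253cb0c65f4.shift 0 1), rhc927244dbbe9195e] (by decide +kernel))
noncomputable def rhd7bd9d00d87c3c7a : CRef := CRef.mk (Pat.mk 0xc00000018000000080000000800000000 0x130000001f0000001f0000000e0000000c00000004 7 5) 0 0 (step_sound _ 132 [(rh2f68792b6b779e96.shift 3 1), rh464b95f0b9f8bbd1] (by decide +kernel))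
noncomputable def rhb5a72d8a8a00877e : CRef := CRef.mk (Pat.mk 0x1800000048000000080000000000000000 0x80000001c000000f80000003c0000001f0000001c 7 8) 0 0 (step_sound _ 100 [(rh51246ab843efda05.shift 2 2), (rhb7616ccf0736ebbe.shift 2 2), rhbf85a2209f4b6e6e, (rhfd0f316c42bbba52.shift 2 3)] (by decide +kernel))
noncomputable def rh7e2356b24464a5ca : CRef := CRef.mk (Pat.mk 0x10000000160000000000000002000000000000000000000000 0x340000001e0000000300000002000000070000000700000005 7 6) 0 0 (step_sound _ 163 [(rh33e738c4ed385b9f.shift 1 5), rh6575a3502d20688c] (by decide +kernel))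
noncomputable def rhe0c3f2217ea1932c : CRef := CRef.mk (Pat.mk 0x1000000018000000180000000800000000 0x80000000800000018000000180000001f0000003f00000034 7 6) 0 0 (step_sound _ 131 [rh2daa9eb87d6bf46c, (rh55a1f6c57a317ce6.shift 3 0), (rh925a1628dd8a50da.shift 2 0), (rhfc7c29d8e65d775f.shift 3 1)] (by decide +kernel))
noncomputable def rh1a77ad8ec79f7516 : CRef := CRef.mk (Pat.mk 0x2000000120000000200000000 0x5000000070000000700000003000000020000001f0000000f00000005 7 5) 0 0 (step_sound _ 129 [rh771d065bdc85bf2d, rha087c6594f4bfb59, rhdb57bcbe4a84bd4b, rhed79e5c5ffee0217] (by decide +kernel))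
noncomputable def rhc521446c57d25f07 : CRef := CRef.mk (Pat.mk 0x3000000020000000300000000 0x10000000700000007000000070000000300000003000000020000000300000001 7 3) 0 0 (step_sound _ 129 [rh932754581e0f4330, (rhd91b73d7ee353e95.shift 0 1)] (by decide +kernel))
noncomputable def rh6b8445460f3ccb2a : CRef := CRef.mk (Pat.mk 0x1e00000018000000080000001800000000 0x20000001e0000001f0000003f0000007f00000006 7 7) 0 0 (step_sound _ 97 [rh0138e92724967df6, (rheb0810cc63b001d8.shift 0 3)] (by decide +kernel))
noncomputable def rh7b3ed3f133a6b817 : CRef := CRef.mk (Pat.mk 0x200000012000000020000000000000000 0x5000000070000000700000007000000030000001e0000000f0000000700000001 7 5) 0 0 (step_sound _ 161 [(rha087c6594f4bfb59.shift 0 1), rhc4526fc8abf298b6, (rhc85cc95794737cf7.shift 0 2), (rhdb57bcbe4a84bd4b.shift 0 1)] (by decide +kernel))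
noncomputable def rh5630a3094bbb3d03 : CRef := CRef.mk (Pat.mk 0x200000012000000020000000000000000 0x5000000070000000700000003000000020000001f000000070000000700000005 7 5) 0 0 (step_sound _ 161 [rh6eff4158bb400f47, (rh771d065bdc85bf2d.shift 0 1), (rha087c6594f4bfb59.shift 0 1), (rhc0693af77a9e9811.shift 0 1)] (by decide +kernel))
noncomputable def rh52361f9a80a83625 : CRef := CRef.mk (Pat.mk 0x2000000020000000200000002 0x500000007000000070000000700000003000000030000000300000002 7 3) 0 0 (step_sound _ 129 [(rh1741680720c097b4.shift 0 1), rh3ca48e2a6d60153d, rh7d1f984d8d7198f5, (rhe01cfd8f0577defd.shift 0 1)] (by decide +kernel))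
noncomputable def rhf63555b3ca00b367 : CRef := CRef.mk (Pat.mk 0x1800000010000000100000001000000000 0x270000007e0000003f000000180000001800000008 7 7) 0 0 (step_sound _ 133 [(rh2f68792b6b779e96.shift 4 1), rhe631362f3397b4df] (by decide +kernel))
noncomputable def rh91282f98d4e8ad3c : CRef := CRef.mk (Pat.mk 0x2000000020000000200000004 0x100000007000000070000000600000003000000030000000700000004 7 3) 0 0 (step_sound _ 129 [(rhd3458b32566d63f7.shift 1 0), (rhe01cfd8f0577defd.shift 0 1)] (by decide +kernel))
noncomputable def rh31f00c7311489cfb : CRef := CRef.mk (Pat.mk 0x2000000024000000200000000c000000000000000000000000 0x40000000c0000006f0000003e000000780000001c0000001c0000001c00000014 7 7) 0 0 (step_sound _ 163 [(rh31615b1785c2b9a4.shift 2 0), (rh499fe0919994f2c0.shift 0 4), (rhabf575676fe0ef70.shift 2 4), (rhc8ffc5931fd66d8a.shift 0 4)] (by decide +kernel))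
noncomputable def rh5620272feb6af862 : CRef := CRef.mk (Pat.mk 0x100000001200000012000000020000000000000000 0x50000000700000007000000170000001a0000001f0000000f0000000900000008 7 5) 0 0 (step_sound _ 161 [(rh193da7fc9e1674f1.shift 0 1), (rh20966da26a1c2ae8.shift 0 1), rh7d6bd9522969cc3e, (rhc0693af77a9e9811.shift 0 1), (rhc85cc95794737cf7.shift 0 2)] (by decide +kernel))
noncomputable def rh60066c4bcf4ccbe4 : CRef := CRef.mk (Pat.mk 0x20000001200000002000000000000000000000000 0x5000000070000000700000007000000030000003e00000006000000070000000700000005 7 6) 0 0 (step_sound _ 193 [(rh43903eb41aa6ae4c.shift 0 2), rh47992774edf9829f, (rha087c6594f4bfb59.shift 0 2), (rhc85cc95794737cf7.shift 0 3)] (by decide +kernel))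
noncomputable def rhd720d9242027bc00 : CRef := CRef.mk (Pat.mk 0x2000000020000000200000003000000000 0x100000003000000030000000fc000000fe0000004f 7 8) 0 0 (step_sound _ 38 [(rh55afc6a59410cf00.shift 5 0), rhaca7daf06cc997a3] (by decide +kernel))
noncomputable def rh4777911c697a36c8 : CRef := CRef.mk (Pat.mk 0x200000002000000020000000000000000 0x50000000700000007000000030000000300000007000000070000000700000004 7 3) 0 0 (step_sound _ 161 [(rh193da7fc9e1674f1.shift 0 1), (rh771d065bdc85bf2d.shift 0 1), rh8ff3dde5b1c639e0, (rhed79e5c5ffee0217.shift 0 1)] (by decide +kernel))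
noncomputable def rhe820ab453c857b49 : CRef := CRef.mk (Pat.mk 0x100000001200000010000000030000000000000000 0x50000000700000007000000170000001a0000001f0000000f0000000900000008 7 5) 0 0 (step_sound _ 97 [rh0fbbb92589a12005, (rh32431e66bbf434a4.shift 0 1), (rh7a7e08304268422e.shift 0 1), (rha6dfe1edc6ae80dd.shift 0 1)] (by decide +kernel))
noncomputable def rhb7b766ca92a6e766 : CRef := CRef.mk (Pat.mk 0x1000000038000000000000000800000000 0x1000000014000000370000003e0000000f0000000800000008 7 6) 0 0 (step_sound _ 67 [(rh3b811bc68ae5ecc7.shift 0 1), (rh71222050f2c63a3a.shift 3 0)] (by decide +kernel))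
noncomputable def rhe8d57b97e55d6ec7 : CRef := CRef.mk (Pat.mk 0x1e0000000000000004 0x50000000700000007000000030000001e0000000700000004 7 5) 0 0 (step_sound _ 97 [(rh3244c3cc8379b070.shift 0 2), rh9cb8c3063250d63b] (by decide +kernel))
noncomputable def rh17be84a0a5ae24c3 : CRef := CRef.mk (Pat.mk 0x800000009000000080000000180000000000000000 0x180000000fc000001f70000007e0000004700000040 7 9) 0 0 (step_sound _ 102 [(rh4ebc50eb75d04575.shift 0 1), (rh698bc218bb526124.shift 2 3), (rhc4713ca36c943a51.shift 3 0)] (by decide +kernel))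
noncomputable def rh2dcaf53458c5c627 : CRef := CRef.mk (Pat.mk 0x200000006000000000000000300000000 0x50000000700000007000000020000000200000006000000070000000300000001 7 3) 0 0 (step_sound _ 65 [(rh716f496a6f55b076.shift 0 1), rh932754581e0f4330] (by decide +kernel))
noncomputable def rhb9adf74fa6d7ddae : CRef := CRef.mk (Pat.mk 0x800000018000000080000000c 0x170000001f0000001f0000000e0000000c 7 5) 0 0 (step_sound _ 98 [(rh50fbb5868c909700.shift 2 0), rh558856eec88e5eda] (by decide +kernel))
noncomputable def rh1ee26cd45ea62c4c : CRef := CRef.mk (Pat.mk 0x80000000900000008000000018000000000000000000000000 0x1000000010000001bc000000f8000001ef0000007e000000ef0000004000000040 7 9) 0 0 (step_sound _ 165 [rh42735e3053477178, (rhabf575676fe0ef70.shift 4 4), (rhc8ffc5931fd66d8a.shift 2 4)] (by decide +kernel))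
noncomputable def rh0ff963783a3dd728 : CRef := CRef.mk (Pat.mk 0x8000000180000000c0000000000000000 0x40000000c0000001f0000003f0000003300000012 7 6) 0 0 (step_sound _ 65 [(rh53b3c253cb0c65f4.shift 0 2), rh7f094f845c26c09d] (by decide +kernel))
noncomputable def rh5354e47e6ed2ac33 : CRef := CRef.mk (Pat.mk 0x8000000080000000e0000000000000000000000000000000000000000 0x8000000080000000f0000003c0000001c0000001c0000001c00000004 7 6) 0 0 (step_sound _ 131 [(rh11e4e94f09451f20.shift 0 3), (rh8cdd36b03d57a2f6.shift 2 2), (rhbdde238153e38af9.shift 0 3), (rhe0be7ab05c8f9e7a.shift 2 0)] (by decide +kernel))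
noncomputable def rhbd4b69c657792f99 : CRef := CRef.mk (Pat.mk 0xc0000001a0000001e00000000000000000000000000000000 0xf0000001e0000001e00000003000000070000000700000005 7 5) 0 0 (step_sound _ 193 [(rhb739f4f82bb681b4.shift 0 5), rhc69ebda51d6ec2a0] (by decide +kernel))
noncomputable def rhc522833f09a27255 : CRef := CRef.mk (Pat.mk 0x14000000340000000400000000 0xa0000000e0000000f0000001e000000f60000000600000002 7 8) 0 0 (step_sound _ 99 [rh710ea07bce94546b, (rhb739f4f82bb681b4.shift 1 2)] (by decide +kernel))
noncomputable def rhb68af66c5945057d : CRef := CRef.mk (Pat.mk 0x200000006800000048000000000000000000000000 0x140000003c0000007c0000003f0000006c0000004c0000000c0000000c00000004 7 7) 0 0 (step_sound _ 197 [(rh2145e1d24b96a57e.shift 5 3), rhd8dd8d719dd9d3ad] (by decide +kernel))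
noncomputable def rhb0e13791a95643de : CRef := CRef.mk (Pat.mk 0x10000000f000000080 0x77000001fe000000c7 7 9) 0 0 (step_sound _ 69 [rhbd2ff28a4a1671c5, (rhf48373e13d2bc128.shift 4 1)] (by decide +kernel))
noncomputable def rh9cbb0e312d7cbbb3 : CRef := CRef.mk (Pat.mk 0x200000006000000020000000000000000000000000000000000000000 0x100000007000000070000000600000006000000060000000300000007000000070000000700000005 7 3) 0 0 (step_sound _ 129 [rh56b3da42fd9f0d97, (rh5a860b5057e1e4c5.shift 0 4), (rha707fb719e87fe6e.shift 1 3), (rhffb8e5993241bf15.shift 0 1)] (by decide +kernel))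
noncomputable def rh24ea301ad3b731d7 : CRef := CRef.mk (Pat.mk 0x800000060000000680000004000000000 0x140000001c0000007c0000002f0000007c0000006c0000004c00000004 7 7) 0 0 (step_sound _ 165 [rh57c98ee9455ff0af, (rh6f1cbe15c631ee70.shift 5 1)] (by decide +kernel))
noncomputable def rhd333a05ea47170bd : CRef := CRef.mk (Pat.mk 0x3000000020000000200000002000000000 0x4f000000fe0000007c000000380000003000000010 7 8) 0 0 (step_sound _ 134 [(rh2f68792b6b779e96.shift 5 1), rhd6978727f3267641] (by decide +kernel))
noncomputable def rhd2a0fb2755dd4492 : CRef := CRef.mk (Pat.mk 0x20000000a0000001e00000010 0x1000000070000001f0000000e0000000a0000001e00000013 7 5) 0 0 (step_sound _ 1 [rh19bf93c71b92b699, rheb0810cc63b001d8] (by decide +kernel))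
noncomputable def rh981ab2a0ed6ff8b7 : CRef := CRef.mk (Pat.mk 0x2000000180000001200000010 0x4000000040000000e0000000f0000001a0000001f0000003a 7 6) 0 0 (step_sound _ 35 [rh39f426ebe0691969, rha7650242991e43d9] (by decide +kernel))
noncomputable def rh3b2041359e6d1085 : CRef := CRef.mk (Pat.mk 0xe0000000800000008 0x40000001c0000001c0000001c0000003c0000000f0000000800000008 7 6) 0 0 (step_sound _ 99 [(rha7bb430bc20854cc.shift 2 0), (rhc85cc95794737cf7.shift 2 0), rhdab32775f5c78fcf, rhee06b87c7471f87e] (by decide +kernel))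
noncomputable def rh81cb3c29c6fb1814 : CRef := CRef.mk (Pat.mk 0x1e0000001a0000000c 0x50000000700000007000000030000001e0000001e0000000f 7 5) 0 0 (step_sound _ 1 [rh53b3c253cb0c65f4, rhbd7eac49f5f61dc9] (by decide +kernel))
noncomputable def rh2d49e5c3e37433a0 : CRef := CRef.mk (Pat.mk 0x40000003400000014000000000000000000000000 0x200000006000000f60000001e0000000f0000000e0000000a 7 8) 0 0 (step_sound _ 99 [rh39b752ec3e03e928, (rh53b3c253cb0c65f4.shift 1 3)] (by decide +kernel))
noncomputable def rhb09adbbb08a74166 : CRef := CRef.mk (Pat.mk 0x480000006800000020000000000000000000000000 0x40000000c0000000c0000004c0000006c0000003f0000007c0000003c00000014 7 7) 0 0 (step_sound _ 69 [(rh71222050f2c63a3a.shift 5 1), rhbc760808bb3cf655] (by decide +kernel))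
noncomputable def rh1b3382ecb325b895 : CRef := CRef.mk (Pat.mk 0x80000000f000000010 0xc7000001fe00000077 7 9) 0 0 (step_sound _ 5 [(rh18965a982d73c794.shift 4 0), rh262f33c15d188304] (by decide +kernel))
noncomputable def rhc1cef1f6a0bbb739 : CRef := CRef.mk (Pat.mk 0x20000000600000002000000000000000000000000 0x500000007000000070000000700000003000000060000000600000006000000070000000700000001 7 3) 0 0 (step_sound _ 193 [(rh14e0829dc73b6804.shift 0 3), rhb72c6d3b8f00eaae, (rhd4b4beefcd67f51e.shift 1 2), (rhf348a8440bec9afc.shift 0 3)] (by decide +kernel))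
noncomputable def rha7737f43cfd9648e : CRef := CRef.mk (Pat.mk 0x40000000680000006000000008000000000000000000000000 0x40000004c0000006c0000007c0000002f0000007c0000001c00000014 7 7) 0 0 (step_sound _ 69 [rh008ca0c4b9b8c196, (rh9e3edb185cc347de.shift 5 2)] (by decide +kernel))
noncomputable def rha8d064aec974c436 : CRef := CRef.mk (Pat.mk 0x2000000020000000200000003000000000 0x1000000030000000380000007c000000fe0000004f 7 8) 0 0 (step_sound _ 38 [rh20afe66d95bdac90, (rh55afc6a59410cf00.shift 5 0)] (by decide +kernel))
noncomputable def rh9656a0adefdbe6cb : CRef := CRef.mk (Pat.mk 0x100000001e0000000a00000002000000000000000000000000 0x130000001e0000000a0000000e0000001f0000000700000001 7 5) 0 0 (step_sound _ 193 [(rh3244c3cc8379b070.shift 0 5), rh5afc3ee6276cd6e5] (by decide +kernel))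
noncomputable def rh659afc200d078d35 : CRef := CRef.mk (Pat.mk 0x10000000120000001800000002000000000000000000000000 0x3a0000001f0000001a0000000f0000000e0000000400000004 7 6) 0 0 (step_sound _ 163 [(rh7dcc577706dd2abd.shift 0 4), rhba76486610caf785] (by decide +kernel))
noncomputable def rh58144e795052c1ef : CRef := CRef.mk (Pat.mk 0x1200000003000000100000000000000000 0x500000007000000070000001f000000070000001f0000000700000003 7 5) 0 0 (step_sound _ 130 [(rh361cc68994bd8a63.shift 0 3), rh9513dabc3e7f6f28] (by decide +kernel))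
noncomputable def rh2444e76f61b71095 : CRef := CRef.mk (Pat.mk 0x100000001a0000000e0000000200000000 0x3000000070000003f0000001e0000000e0000000a00000008 7 6) 0 0 (step_sound _ 98 [(rh33e738c4ed385b9f.shift 1 3), rhf2bd11c507e23bae] (by decide +kernel))
noncomputable def rh5e2610addfc44fc1 : CRef := CRef.mk (Pat.mk 0x1a0000001e000000100000000000000000 0x3000000030000000300000001e0000001e0000001b0000003000000030 7 6) 0 0 (step_sound _ 65 [(rh514fa485ecc97095.shift 1 0), (rheb0810cc63b001d8.shift 0 2)] (by decide +kernel))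
noncomputable def rhb4ad437697e531bf : CRef := CRef.mk (Pat.mk 0x180000001e000000000000000000000000 0x3c0000003c0000001f0000001e000000380000000800000008 7 6) 0 0 (step_sound _ 68 [rh83f064ef56050fe8, (rhe25b0a99195a5d59.shift 1 2)] (by decide +kernel))
noncomputable def rhe49fd810008e80f2 : CRef := CRef.mk (Pat.mk 0x180000001e0000000000000000 0x10000000700000007000000070000001f0000001e0000000700000004 7 5) 0 0 (step_sound _ 97 [rh2b942c42ac6e0661, (rh3244c3cc8379b070.shift 0 2)] (by decide +kernel))
noncomputable def rh4943ef6bf3d7ba14 : CRef := CRef.mk (Pat.mk 0x180000001e000000000000000000000000 0x20000000300000001f0000001e000000380000001800000018 7 6) 0 0 (step_sound _ 68 [rha6c40cd2c88be7b9, (rhe25b0a99195a5d59.shift 1 2)] (by decide +kernel))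
noncomputable def rhc9f5bcb8a5b2f67c : CRef := CRef.mk (Pat.mk 0x1a0000001e000000100000001000000000 0x3000000030000001e0000001e000000170000003c00000028 7 6) 0 0 (step_sound _ 65 [rh5e665549157bf15b, (rheb0810cc63b001d8.shift 0 2)] (by decide +kernel))
noncomputable def rh8c892ddaa71499ee : CRef := CRef.mk (Pat.mk 0x100000001c000000100000001000000000 0xc0000001f0000003c0000001e0000007800000028 7 7) 0 0 (step_sound _ 131 [(rh50fbb5868c909700.shift 3 1), rhbf1253774c14558a] (by decide +kernel))
noncomputable def rh34dc8da0cdeaa1ff : CRef := CRef.mk (Pat.mk 0x6000000038000000000000000000000000 0x1000000010000000380000003c0000007f00000078000000380000001000000010 7 7) 0 0 (step_sound _ 68 [rh66c0439a462c197e, (rhcf80391c5046a495.shift 4 0), (rhd3d458da9b6d39df.shift 2 2), (rhf9366b6a121593ef.shift 4 0)] (by decide +kernel))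
noncomputable def rha80c708cfbead677 : CRef := CRef.mk (Pat.mk 0xc00000007000000200000000000000000 0x80000000c0000000e000000060000000e0000000f0000003e0000000e00000002 7 6) 0 0 (step_sound _ 67 [(rh370e4f27ca237734.shift 1 0), (rh390a1514d2789f9d.shift 0 2), (rh9c1d2b0fc40551bc.shift 0 1), (rhb7fa30b750bea7ea.shift 1 1)] (by decide +kernel))
noncomputable def rhd7c567a927574595 : CRef := CRef.mk (Pat.mk 0x60000000300000010000000000000000000000000 0x5000000070000000700000006000000030000001f000000070000000700000005 7 5) 0 0 (step_sound _ 97 [(rh12452934acb847d5.shift 0 2), rh1b9022be4f7af407, (rh215e11e099257d75.shift 1 2), (rh5efaf85ec96fcaef.shift 0 2)] (by decide +kernel))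
noncomputable def rh70ed70107638c6e9 : CRef := CRef.mk (Pat.mk 0x100000000300000012000000000000000000000000 0x3000000070000001f000000070000001f000000070000000700000005 7 5) 0 0 (step_sound _ 98 [(rh2fe78cc5ca4405d8.shift 0 3), rh50ab1db514048e8b] (by decide +kernel))
noncomputable def rh0e016af0ed99a6ab : CRef := CRef.mk (Pat.mk 0x20000000e0000001a000000100000000000000000 0x80000000a0000000e0000001e0000003f0000000700000003 7 6) 0 0 (step_sound _ 98 [(rhe25b0a99195a5d59.shift 1 2), rhf2c2afe0a2201c94] (by decide +kernel))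
noncomputable def rhebfae94a1e240809 : CRef := CRef.mk (Pat.mk 0x100000001e0000001a000000000000000000000000 0x30000000300000001b0000001e0000001e000000300000003000000030 7 6) 0 0 (step_sound _ 161 [(rh3244c3cc8379b070.shift 0 4), (rh550e3b0136cfc468.shift 1 0)] (by decide +kernel))
noncomputable def rhd07c256e62afe48e : CRef := CRef.mk (Pat.mk 0x1e000000180000000000000000 0x800000008000000380000001e0000001f0000003c0000003c 7 6) 0 0 (step_sound _ 132 [(rh33e738c4ed385b9f.shift 1 3), rhc567d49310d9b615] (by decide +kernel))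
noncomputable def rhd7b9ae8619b220a0 : CRef := CRef.mk (Pat.mk 0x1e0000001800000000000000000000000000000000 0x4000000070000001e0000001f00000007000000070000000700000001 7 5) 0 0 (step_sound _ 129 [rh19f1e3ad90798091, (rheb0810cc63b001d8.shift 0 4)] (by decide +kernel))
noncomputable def rh5e8a0bfcf7618516 : CRef := CRef.mk (Pat.mk 0x1e000000180000000000000000 0x1800000018000000380000001e0000001f0000003000000020 7 6) 0 0 (step_sound _ 132 [rh17707bfb73998a57, (rh33e738c4ed385b9f.shift 1 3)] (by decide +kernel))
noncomputable def rha7b489ab1f604df5 : CRef := CRef.mk (Pat.mk 0x10000000100000001e0000001a0000000000000000 0x280000003c000000170000001e0000001e0000000300000003 7 6) 0 0 (step_sound _ 129 [(rh3244c3cc8379b070.shift 0 3), rhec7d9ad151910e77] (by decide +kernel))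
noncomputable def rhf17f441682b5e6f8 : CRef := CRef.mk (Pat.mk 0x10000000100000001c0000001000000000 0x28000000780000001e0000003c0000001f0000000c 7 7) 0 0 (step_sound _ 35 [(rh932754581e0f4330.shift 3 0), rhff9ae35b09d46fb0] (by decide +kernel))
noncomputable def rh555ceee39862ac7d : CRef := CRef.mk (Pat.mk 0x380000006000000000000000000000000000000000 0x100000001000000038000000780000007f0000003c000000380000001000000010 7 7) 0 0 (step_sound _ 196 [(rh7494a966108a2ece.shift 0 2), (rh8b1a4197a7bd1ecb.shift 2 0), (rhc2c7bae8f445c890.shift 4 2), (rhc38f566cab2818e5.shift 4 2)] (by decide +kernel))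
noncomputable def rh05e81f00c7f62ca1 : CRef := CRef.mk (Pat.mk 0x20000000070000000c00000000000000000000000000000000 0x20000000e0000003e0000000f0000000e000000060000000e0000000c00000008 7 6) 0 0 (step_sound _ 195 [(rh284958ad31771189.shift 0 2), (rh6f816688efc691b5.shift 0 5), (rhd0961db51271b5fd.shift 1 2), (rhf80c84dcd34c16d6.shift 1 0)] (by decide +kernel))
noncomputable def rh0e3fd6f9f7c56c6c : CRef := CRef.mk (Pat.mk 0x100000000300000006000000000000000000000000 0x500000007000000070000001f0000000300000006000000070000000700000005 7 5) 0 0 (step_sound _ 161 [rh62825c4dfa6be415, (rh70e33bfdf511e144.shift 1 0), (rhc47fe1bc6b175f77.shift 0 1), (rhfb9fb48a5e63ed80.shift 0 2)] (by decide +kernel))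
noncomputable def rhc3c85d91d0ac033e : CRef := CRef.mk (Pat.mk 0x100000001c00000090000000000000000000000000 0x80000001800000018000000180000003c000000ff0000000e0000000400000004 7 8) 0 0 (step_sound _ 101 [(rh2fe78cc5ca4405d8.shift 3 3), rh683cfd9f29dd7e3a] (by decide +kernel))
noncomputable def rh058b3baf2a1f70c5 : CRef := CRef.mk (Pat.mk 0x1e0000000e0000000200000000 0x100000003c0000003f0000001e0000000e0000000600000004 7 6) 0 0 (step_sound _ 129 [(rh3244c3cc8379b070.shift 0 3), (rha5a06d4841a09a6e.shift 1 0)] (by decide +kernel))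
noncomputable def rh91a354e885dc0f48 : CRef := CRef.mk (Pat.mk 0x1e0000001e000000020000000000000000 0x18000000180000003b0000001e0000001e000000060000000600000002 7 6) 0 0 (step_sound _ 161 [(rh3244c3cc8379b070.shift 0 4), (rhe0ff8ca01c27513c.shift 1 0)] (by decide +kernel))
noncomputable def rh380d707ab50b892b : CRef := CRef.mk (Pat.mk 0xd0000000f000000010000000000000000 0x140000001c0000001e0000001a0000000f0000000f000000050000000100000001 7 5) 0 0 (step_sound _ 129 [(rh84d1c02a8954c6a8.shift 0 1), (rhc148a8f25cdeeb08.shift 0 2), rhea7a1800d6f053bd] (by decide +kernel))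
noncomputable def rh764fcefe6d9a6d6b : CRef := CRef.mk (Pat.mk 0xd0000000f000000010000000100000000 0x140000001c0000001c000000180000000f0000000f000000050000000100000001 7 5) 0 0 (step_sound _ 129 [rh71222050f2c63a3a, (rhc148a8f25cdeeb08.shift 0 2)] (by decide +kernel))
noncomputable def rha796fa52bdbf3739 : CRef := CRef.mk (Pat.mk 0x100000001c00000090000000000000000000000000 0x10000000180000003c000000ff0000002e0000000400000004 7 8) 0 0 (step_sound _ 101 [(rh2fe78cc5ca4405d8.shift 3 3), rha700c09e3935e1ca] (by decide +kernel))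
noncomputable def rh9d6f8faf656a0a57 : CRef := CRef.mk (Pat.mk 0x180000001000000010000000000000000000000000 0x18000000180000003e0000007f0000003e00000028 7 7) 0 0 (step_sound _ 68 [(rh249043d60780d0bb.shift 0 1), (rh6eff4158bb400f47.shift 3 0), (rha613ffd40b6c9d24.shift 3 0), (rhe4441baab75a6f73.shift 3 0)] (by decide +kernel))
noncomputable def rhf95bda2b09d25edf : CRef := CRef.mk (Pat.mk 0x1800000030000000180000001800000000 0x200000007e0000003e000000380000001f00000004 7 7) 0 0 (step_sound _ 133 [(rh2f68792b6b779e96.shift 4 1), rh9dc2dfda8ecb5642] (by decide +kernel))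
noncomputable def rhc150b639ade37442 : CRef := CRef.mk (Pat.mk 0x1a0000001e000000100000000800000000 0x4000000070000001e0000001e0000001b0000000f00000007 7 5) 0 0 (step_sound _ 65 [rh7e5a7567e85f199e, (rheb0810cc63b001d8.shift 0 2)] (by decide +kernel))
noncomputable def rhf11c180ee7210978 : CRef := CRef.mk (Pat.mk 0x1a0000001e000000100000000800000000 0x70000001e0000001e0000001b0000000f0000000e 7 5) 0 0 (step_sound _ 67 [rh394d64c8549e0ae5, (rh71222050f2c63a3a.shift 3 0)] (by decide +kernel))
noncomputable def rh22fd2aedb85dd47f : CRef := CRef.mk (Pat.mk 0x180000001e000000000000000000000000 0x10000000100000003c0000001f0000001e0000000b0000000a00000002 7 6) 0 0 (step_sound _ 129 [(rh3244c3cc8379b070.shift 0 3), rh5f0341571c3af442] (by decide +kernel))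
noncomputable def rhd1e50a2a087f5b51 : CRef := CRef.mk (Pat.mk 0x10000000100000001800000088000000000000000000000000 0x8000000180000001800000038000000ff000000770000003000000030 7 8) 0 0 (step_sound _ 100 [(rh2386d7c29ba9e7c7.shift 0 2), (rh6fd0b617f255f89c.shift 1 0), rhe1d4bc43c9f1699d, (rhf8edb192cdea7ada.shift 3 2)] (by decide +kernel))
noncomputable def rh9d5f9964e46b4125 : CRef := CRef.mk (Pat.mk 0x1000000018000000880000000000000000 0xc0000001f00000038000000f80000001e0000001c 7 8) 0 0 (step_sound _ 35 [rh63f9635ea15ac146, (rh71222050f2c63a3a.shift 3 0)] (by decide +kernel))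
noncomputable def rh502c001bd9d174e1 : CRef := CRef.mk (Pat.mk 0x180000001e000000100000001000000000 0x140000001c0000001e0000001b0000001f0000000e 7 5) 0 0 (step_sound _ 35 [(rh932754581e0f4330.shift 3 0), rhf48f79d922f223b7] (by decide +kernel))
noncomputable def rh166f126d1798b47c : CRef := CRef.mk (Pat.mk 0x1a0000001e0000000000000000000000000000000000000000 0x40000001e0000001e0000001e0000000b0000000f0000000f0000000700000005 7 5) 0 0 (step_sound _ 129 [rh2d4cc8be52fdcdaf, (rheb0810cc63b001d8.shift 0 4)] (by decide +kernel))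
noncomputable def rh8dfd2e44885dccbf : CRef := CRef.mk (Pat.mk 0x900000001c00000010000000000000000000000000 0x4000000040000000e000000ff0000003c00000018000000180000001800000008 7 8) 0 0 (step_sound _ 165 [rh294d952f834204d8, (rh361cc68994bd8a63.shift 3 4)] (by decide +kernel))
noncomputable def rhb62edbf18b8ea5b2 : CRef := CRef.mk (Pat.mk 0x20000000e0000001e000000000000000000000000 0x4000000060000000e0000001e0000003f0000003c00000010 7 6) 0 0 (step_sound _ 65 [(rh543e9b01594ab558.shift 1 0), (rheb0810cc63b001d8.shift 0 2)] (by decide +kernel))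
noncomputable def rh51472befb67cfb50 : CRef := CRef.mk (Pat.mk 0x20000001e0000001e000000000000000000000000 0x200000006000000060000001e0000001e0000003b0000001800000018 7 6) 0 0 (step_sound _ 65 [(rheb0810cc63b001d8.shift 0 2), (rhefe6d67f6f3567a4.shift 1 0)] (by decide +kernel))
noncomputable def rha7d1e73d528d717b : CRef := CRef.mk (Pat.mk 0x10000000f0000000d00000000000000000000000000000000 0x100000001000000050000000f0000000f0000001a0000001e0000001c00000014 7 5) 0 0 (step_sound _ 129 [rh234d3faffc55fe0d, (rh3e595262c1b737ad.shift 0 3), (rh55a1f6c57a317ce6.shift 0 2)] (by decide +kernel))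
noncomputable def rha412d8a223f8c324 : CRef := CRef.mk (Pat.mk 0x1000000010000000f0000000d00000000000000000000000000000000 0x100000001000000050000000f0000000f000000180000001c0000001c00000014 7 5) 0 0 (step_sound _ 129 [(rh2145e1d24b96a57e.shift 0 4), rh234d3faffc55fe0d] (by decide +kernel))
noncomputable def rhf7d638497f1e4071 : CRef := CRef.mk (Pat.mk 0x900000001c0000001000000000 0x4000000040000002e000000ff0000003c0000001800000010 7 8) 0 0 (step_sound _ 101 [(rh361cc68994bd8a63.shift 3 2), rh42366ffcc503224f] (by decide +kernel))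
noncomputable def rh3fe627b4a17a5c9f : CRef := CRef.mk (Pat.mk 0x100000001000000018 0x280000003e0000007f0000003e0000001800000018 7 7) 0 0 (step_sound _ 100 [(rh1741680720c097b4.shift 3 0), rh596b207bc053b644, (rh9a369cb82ea472da.shift 3 0), (rhe62cab2ff5ad6fe2.shift 3 0)] (by decide +kernel))
noncomputable def rh13817f2655fdda18 : CRef := CRef.mk (Pat.mk 0x1800000018000000300000001800000000 0x40000001f000000380000003e0000007e00000020 7 7) 0 0 (step_sound _ 37 [(rh55afc6a59410cf00.shift 4 0), (rhb790acdeea333cb6.shift 0 1)] (by decide +kernel))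
noncomputable def rh04a80dfbd4bdd13b : CRef := CRef.mk (Pat.mk 0x8000000100000001e0000001a0000000000000000 0x70000000f0000001b0000001e0000001e0000000700000004 7 5) 0 0 (step_sound _ 129 [(rh3244c3cc8379b070.shift 0 3), rh7b31600d6ae92eeb] (by decide +kernel))
noncomputable def rh15c2e01fba4be427 : CRef := CRef.mk (Pat.mk 0x8000000100000001e0000001a00000000 0xe0000000f0000001b0000001e0000001e00000007 7 5) 0 0 (step_sound _ 99 [(rh2145e1d24b96a57e.shift 3 1), rh36b52a1cac65ff98] (by decide +kernel))
noncomputable def rh9ee9ef9e8348f62e : CRef := CRef.mk (Pat.mk 0x10000000100000001e00000010 0x2f0000003e000000170000001e00000014 7 6) 0 0 (step_sound _ 65 [(rh3244c3cc8379b070.shift 0 1), rhd610dfe3801a7382] (by decide +kernel))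
noncomputable def rhfe08a85aecacbe80 : CRef := CRef.mk (Pat.mk 0x1e00000018000000000000000000000000 0x20000000a0000000b0000001e0000001f0000003c0000001000000010 7 6) 0 0 (step_sound _ 97 [rh984eab48e45c588f, (rheb0810cc63b001d8.shift 0 3)] (by decide +kernel))
noncomputable def rh160bb2cc6df447ce : CRef := CRef.mk (Pat.mk 0x2000000030000000200000000000000000000000000000000 0x100000007000000070000000700000003000000030000000200000007000000070000000700000005 7 3) 0 0 (step_sound _ 97 [rh0a6888916bcef86b, (rh6eff4158bb400f47.shift 0 1), (rhd91b73d7ee353e95.shift 0 3)] (by decide +kernel))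
noncomputable def rh3f7590892e5cb373 : CRef := CRef.mk (Pat.mk 0x8800000018000000100000001000000000 0x300000003000000077000000ff00000038000000180000001800000008 7 8) 0 0 (step_sound _ 132 [(rh04e571695666b5c1.shift 3 1), rh79b4850e0737c6c7, (rha9f47b3d592a5ca2.shift 1 1), (rhfc65d810a86f213b.shift 0 2)] (by decide +kernel))
noncomputable def rh7d1b67e42a2269d8 : CRef := CRef.mk (Pat.mk 0x88000000180000001000000000 0x1c0000001e000000f8000000380000001f0000000c 7 8) 0 0 (step_sound _ 131 [(rh2145e1d24b96a57e.shift 3 1), rh381769bac8eef29e] (by decide +kernel))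
noncomputable def rh213d7a9a3a2c0cd1 : CRef := CRef.mk (Pat.mk 0x10000000100000001e0000001800000000 0xe0000001f0000001b0000001e0000001c00000014 7 5) 0 0 (step_sound _ 131 [rh443f7b03c05ed95c, (rh50fbb5868c909700.shift 3 1)] (by decide +kernel))
noncomputable def rh12fa343d93f70f99 : CRef := CRef.mk (Pat.mk 0x1e0000001a0000000000000000 0x5000000070000000f0000000f0000000b0000001e0000001e0000001e00000004 7 5) 0 0 (step_sound _ 129 [(rh3244c3cc8379b070.shift 0 3), rh7a92e08bc72fce3e] (by decide +kernel))
noncomputable def rhcef3b775146be3e5 : CRef := CRef.mk (Pat.mk 0x1c000000180000000800000000 0x40000000c0000000c0000001c0000001c0000001f00000017 7 5) 0 0 (step_sound _ 131 [rh5d56d46834d1bb87, (rh968ba7b0df7e4096.shift 2 0), (rhd4b4beefcd67f51e.shift 3 0)] (by decide +kernel))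
noncomputable def rh0d93ce26a8b0a932 : CRef := CRef.mk (Pat.mk 0x20000000600000002000000000000000000000000 0x50000000700000007000000060000000600000006000000070000000700000005 7 3) 0 0 (step_sound _ 193 [(rh1741680720c097b4.shift 0 3), rh95311890f436bcdc, (rhd4b4beefcd67f51e.shift 1 2)] (by decide +kernel))
noncomputable def rhe1e9e1ac7d23d82b : CRef := CRef.mk (Pat.mk 0x1e000000180000000000000000 0x4000000040000000f0000001e0000001b0000000f0000000f 7 5) 0 0 (step_sound _ 129 [(rh3244c3cc8379b070.shift 0 3), rh3b2fa748bdf0f301] (by decide +kernel))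
noncomputable def rh34fa40dcee9c45e8 : CRef := CRef.mk (Pat.mk 0x1e0000001a000000000000000000000000 0x4000000040000000f0000001e0000001e0000003b0000001a00000010 7 6) 0 0 (step_sound _ 161 [(rh3244c3cc8379b070.shift 0 4), rhe3fe393f1305e60f] (by decide +kernel))
noncomputable def rhbefcb7dcde8b8707 : CRef := CRef.mk (Pat.mk 0x12000000160000001000000010 0x2f0000003e0000001e000000160000001400000010 7 6) 0 0 (step_sound _ 131 [(rh28226889eac7c211.shift 0 1), (rhffd04209dc8ea796.shift 3 0)] (by decide +kernel))
noncomputable def rh5283ce000dfc3dbd : CRef := CRef.mk (Pat.mk 0x90000000d0000000d000000000000000000000000 0x170000001f0000000f0000000d0000000d000000180000001800000018 7 5) 0 0 (step_sound _ 67 [(rh3cb04db3dd2b6a55.shift 2 0), (rh50fe5c6ab81d2d57.shift 0 2), (rh820d4e04d5dcd02e.shift 2 0)] (by decide +kernel))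
noncomputable def rhfa78c6b5c6036616 : CRef := CRef.mk (Pat.mk 0x80000000c00000018000000080000000000000000 0x80000000c0000001f0000003f0000003700000012 7 6) 0 0 (step_sound _ 66 [(rh932754581e0f4330.shift 2 1), rh97c9e0d60ca2bf5c] (by decide +kernel))
noncomputable def rhe643c415ee942cf2 : CRef := CRef.mk (Pat.mk 0x100000001c0000003000000010000000000000000000000000 0xe0000001f0000001c0000003e0000003e0000006e0000002200000002 7 7) 0 0 (step_sound _ 195 [(rh50fbb5868c909700.shift 3 3), rhc6af8d8605f72e5d] (by decide +kernel))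
noncomputable def rhded9ff1cbe86b6ca : CRef := CRef.mk (Pat.mk 0x900000001c00000030000000000000000000000000 0x80000001800000018000000f80000003c0000003f0000000e0000000400000004 7 8) 0 0 (step_sound _ 165 [(rh361cc68994bd8a63.shift 3 4), rh683cfd9f29dd7e3a] (by decide +kernel))
noncomputable def rhd5f847f00611d1de : CRef := CRef.mk (Pat.mk 0x1000000038000000600000000000000000 0xc0000001e00000038000000780000007c0000003f 7 7) 0 0 (step_sound _ 37 [rh0b52421c2a44901b, (rh7b1f1fb55310c477.shift 4 0)] (by decide +kernel))
noncomputable def rh037408bb717fecca : CRef := CRef.mk (Pat.mk 0x8000000180000001000000000 0x1c0000003c0000000f000000180000001800000018 7 6) 0 0 (step_sound _ 131 [(rh2145e1d24b96a57e.shift 3 1), rhb4cd9b48f1a797b9] (by decide +kernel))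
noncomputable def rh39c1fc7021d2dd05 : CRef := CRef.mk (Pat.mk 0x80000001800000030000000000000000000000000 0x180000001800000018000000380000003f0000002c0000000c0000000c 7 6) 0 0 (step_sound _ 195 [(rh2145e1d24b96a57e.shift 3 3), rh3b4b3ba7dd7b33b1] (by decide +kernel))
noncomputable def rh0ea7c3c63498df9f : CRef := CRef.mk (Pat.mk 0x1800000018000000100000000000000000 0x180000001c000000370000003e0000003f 7 6) 0 0 (step_sound _ 36 [rh31777fc800f41966, (rh7b1f1fb55310c477.shift 3 0)] (by decide +kernel))
noncomputable def rhd777406fc1cb696e : CRef := CRef.mk (Pat.mk 0xe00000018000000000000000000000000 0x120000003b0000001e0000001f0000003c0000001c00000010 7 6) 0 0 (step_sound _ 132 [(rh34b1188e635efc8d.shift 1 1), rh93dd27b7c6d53f09] (by decide +kernel))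
noncomputable def rhb1d93f3d48dff2c3 : CRef := CRef.mk (Pat.mk 0x800000018000000100000000000000000 0x1c0000003c0000000f000000380000001f0000000c00000004 7 6) 0 0 (step_sound _ 163 [rh0cf8255394ebb291, (rh2145e1d24b96a57e.shift 3 2)] (by decide +kernel))
noncomputable def rh0ae5f4bd4a748cc7 : CRef := CRef.mk (Pat.mk 0x8000000180000001c000000000000000000000000 0x170000001f0000001c0000001c0000000c0000000c00000004 7 5) 0 0 (step_sound _ 67 [(rh1e97d325738011eb.shift 0 1), (rh6aa5625770489e83.shift 2 0), (rha707fb719e87fe6e.shift 3 1)] (by decide +kernel))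
noncomputable def rha1bb609c7cfcbfbc : CRef := CRef.mk (Pat.mk 0x20000000600000002000000000000000000000000 0x50000000700000007000000060000000600000006000000070000000700000005 7 3) 0 0 (step_sound _ 65 [rh6eff4158bb400f47, (rha087c6594f4bfb59.shift 0 1), (rha707fb719e87fe6e.shift 1 1)] (by decide +kernel))
noncomputable def rh86e9b23779442736 : CRef := CRef.mk (Pat.mk 0x180000001e000000000000000000000000 0xf0000000f0000001b0000001e0000000f0000000400000004 7 5) 0 0 (step_sound _ 65 [rhdc1db1323929c554, (rheb0810cc63b001d8.shift 0 2)] (by decide +kernel))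
noncomputable def rhbee88536d0384830 : CRef := CRef.mk (Pat.mk 0x1a0000001e000000000000000000000000 0x100000001a0000003b0000001e0000001e0000000f0000000400000004 7 6) 0 0 (step_sound _ 65 [rh95ba05a4bb49d34e, (rheb0810cc63b001d8.shift 0 2)] (by decide +kernel))
noncomputable def rh4fd8fb411cd06528 : CRef := CRef.mk (Pat.mk 0x100000001000000016000000120000000000000000 0x1000000014000000160000001e0000003e0000002f 7 6) 0 0 (step_sound _ 35 [(rh79877ebd3ef475dd.shift 3 1), rhc179ebda0b7a1178] (by decide +kernel))
noncomputable def rhba6f756b227beefc : CRef := CRef.mk (Pat.mk 0xd0000000d000000090000000000000000 0x1800000018000000180000000d0000000d0000000f0000001f00000017 7 5) 0 0 (step_sound _ 163 [rh1b6e981516bdbed0, (rh503dd4575245365b.shift 2 2), (rh5fa50b509d4ce753.shift 2 2)] (by decide +kernel))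
noncomputable def rh50d725eea37ce2f2 : CRef := CRef.mk (Pat.mk 0x8000000180000000c00000008 0x12000000370000003f0000001f0000000c00000008 7 6) 0 0 (step_sound _ 98 [(rh451d90438770a4a9.shift 0 1), (rh50fbb5868c909700.shift 2 0)] (by decide +kernel))
noncomputable def rh6324bad4622325a2 : CRef := CRef.mk (Pat.mk 0x10000000300000001c0000001000000000 0x2000000220000006e0000003e0000003e0000001c0000001f0000000e 7 7) 0 0 (step_sound _ 35 [(rh932754581e0f4330.shift 3 0), rhd648c8885de03ee4] (by decide +kernel))
noncomputable def rh79e18c7f0bd74a50 : CRef := CRef.mk (Pat.mk 0x300000001c00000090000000000000000000000000 0x4000000040000000e0000003f0000003c000000f8000000180000001800000008 7 8) 0 0 (step_sound _ 101 [rh294d952f834204d8, (rh2fe78cc5ca4405d8.shift 3 3)] (by decide +kernel))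
noncomputable def rhfee50c63635088b9 : CRef := CRef.mk (Pat.mk 0x60000000380000001000000000 0x3f0000007c00000078000000380000001e0000000c 7 7) 0 0 (step_sound _ 133 [(rh5c5e593799055d58.shift 4 1), rhbd21bd15481995cd] (by decide +kernel))
noncomputable def rhbc343beb35af32be : CRef := CRef.mk (Pat.mk 0x1000000018000000080000000000000000 0x1800000018000000180000000f0000003c0000001c 7 6) 0 0 (step_sound _ 35 [(rh71222050f2c63a3a.shift 3 0), rhdc75b37da3483bfa] (by decide +kernel))
noncomputable def rhdc7e9364bc747883 : CRef := CRef.mk (Pat.mk 0x3000000018000000080000000000000000 0xc0000000c0000002c0000003f00000038000000180000001800000018 7 6) 0 0 (step_sound _ 35 [(rh71222050f2c63a3a.shift 3 0), rhb79eea4e197e174f] (by decide +kernel))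
noncomputable def rhb2a28379b4d84ac8 : CRef := CRef.mk (Pat.mk 0x100000001800000018 0x3f0000003e000000370000001c00000018 7 6) 0 0 (step_sound _ 100 [(rh5c5e593799055d58.shift 3 0), rh5e76a8fd2325dee9] (by decide +kernel))
noncomputable def rh9a291ac088a44618 : CRef := CRef.mk (Pat.mk 0x180000000e0000000000000000 0x100000001c0000003c0000001f0000001e0000003b00000012 7 6) 0 0 (step_sound _ 68 [rh8e53d4e5cc04c5ec, (rhea719cc8bd0bdd28.shift 1 0)] (by decide +kernel))
noncomputable def rh756c74969463808e : CRef := CRef.mk (Pat.mk 0x1000000018000000080000000000000000 0x40000000c0000001f000000380000000f0000003c0000001c 7 6) 0 0 (step_sound _ 35 [rh1b9a634cf8a7451d, (rh71222050f2c63a3a.shift 3 0)] (by decide +kernel))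
noncomputable def rh010598802585d3f5 : CRef := CRef.mk (Pat.mk 0x180000001c000000080000000800000000 0x40000001c0000003c0000007f0000007e00000034 7 7) 0 0 (step_sound _ 130 [(rh50fbb5868c909700.shift 2 1), rha8817013b2dd87d2] (by decide +kernel))
noncomputable def rh4a0a9e7716f84bce : CRef := CRef.mk (Pat.mk 0x8000000180000000c00000044000000000000000000000000 0x60000000f0000001c0000000c0000007f000000380000001800000018 7 7) 0 0 (step_sound _ 99 [rh6fd0b617f255f89c, (rh9e3680845ae0253e.shift 0 2), (rhf8edb192cdea7ada.shift 2 2)] (by decide +kernel))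
noncomputable def rhc99038cb100e4ee2 : CRef := CRef.mk (Pat.mk 0x100000001c000000880000000000000000 0x8000000080000000f0000001f0000001c000000fe0000007e0000003c 7 8) 0 0 (step_sound _ 35 [(rh71222050f2c63a3a.shift 3 0), rhff7afa03e29fb171] (by decide +kernel))
noncomputable def rh81ea6aa777366e40 : CRef := CRef.mk (Pat.mk 0x1a0000001e0000000000000000000000000000000000000000 0x500000007000000070000001e0000001e0000000300000007000000070000000700000005 7 5) 0 0 (step_sound _ 129 [rh76b7d3c0dfd139e2, (rheb0810cc63b001d8.shift 0 4)] (by decide +kernel))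
noncomputable def rh1d385386d25488b4 : CRef := CRef.mk (Pat.mk 0xc0000001c000000400000000800000000 0x40000000c0000001c0000007c0000001f00000017 7 7) 0 0 (step_sound _ 67 [rh09d7039791c52acf, (rh50fbb5868c909700.shift 2 1)] (by decide +kernel))
noncomputable def rhe081fd9b80201e9c : CRef := CRef.mk (Pat.mk 0x10000000f0000000f000000300000000000000000 0x300000003000000030000000f0000000f000000340000001e0000000e 7 6) 0 0 (step_sound _ 192 [(rh2145e1d24b96a57e.shift 0 3), rh3b378c797f77d469] (by decide +kernel))
noncomputable def rh0ba00633885eb3e9 : CRef := CRef.mk (Pat.mk 0xc0000000c0000000000000008 0xe0000003e000000070000000c0000000c0000000c00000008 7 6) 0 0 (step_sound _ 130 [(rh9607ace265ad3036.shift 0 1), (rh9e07f76261b05888.shift 2 0)] (by decide +kernel))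
noncomputable def rh1b92fd512ce175c8 : CRef := CRef.mk (Pat.mk 0x1c0000001e00000000 0x50000000700000007000000030000001f0000001e00000004 7 5) 0 0 (step_sound _ 65 [rh24a8265e54870ed0, (rh3244c3cc8379b070.shift 0 1)] (by decide +kernel))
noncomputable def rhd84d19bdf570ce06 : CRef := CRef.mk (Pat.mk 0x180000000e000000000000000000000000 0x20000000e0000000f0000001f0000001e000000370000001200000002 7 6) 0 0 (step_sound _ 100 [rhe5d09daf39286758, (rhea719cc8bd0bdd28.shift 1 1)] (by decide +kernel))
noncomputable def rhb814456c6481bc85 : CRef := CRef.mk (Pat.mk 0x8000000080000001c0000001800000000 0x340000007e0000007f0000003c0000001c00000004 7 7) 0 0 (step_sound _ 34 [(rh932754581e0f4330.shift 2 0), (rhb9fb05152355d6d8.shift 0 1)] (by decide +kernel))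
noncomputable def rhd14220ca1755ac48 : CRef := CRef.mk (Pat.mk 0x440000000c000000180000000800000000 0x1800000018000000380000007f0000000c0000001c0000000f00000006 7 7) 0 0 (step_sound _ 131 [(rh04e571695666b5c1.shift 2 1), rh6d579815265cbca7, (rha9f47b3d592a5ca2.shift 0 1)] (by decide +kernel))
noncomputable def rh9e7eb64093edc09a : CRef := CRef.mk (Pat.mk 0x880000001c00000010000000000000000000000000 0x3c0000007e000000fe0000001c0000001f0000000f0000000800000008 7 8) 0 0 (step_sound _ 195 [(rh2145e1d24b96a57e.shift 3 3), rh865494be64574309] (by decide +kernel))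
noncomputable def rhb0e34a6262492046 : CRef := CRef.mk (Pat.mk 0x1e0000001a000000000000000000000000 0x5000000070000000700000007000000030000001e0000001e000000070000000700000005 7 5) 0 0 (step_sound _ 161 [(rh3244c3cc8379b070.shift 0 4), rh844e37eade03c7fc] (by decide +kernel))
noncomputable def rh0fd89807ad0bcbeb : CRef := CRef.mk (Pat.mk 0x8000000400000001c0000000c00000000 0x170000001f0000007c0000001c0000000c00000004 7 7) 0 0 (step_sound _ 99 [(rh4568d4730e611012.shift 0 1), (rh932754581e0f4330.shift 2 0)] (by decide +kernel))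
noncomputable def rh58260040f5df8a8e : CRef := CRef.mk (Pat.mk 0x300000000f0000000f000000010000000000000000 0xe0000001e000000340000000f0000000f000000030000000300000003 7 6) 0 0 (step_sound _ 32 [rh493833c91216b60d, rh71222050f2c63a3a] (by decide +kernel))
noncomputable def rh01fe463c915afd3c : CRef := CRef.mk (Pat.mk 0x8000000000000000c0000000c000000000000000000000000 0x80000000c0000000c0000000c000000070000003e0000000e 7 6) 0 0 (step_sound _ 66 [rh0bb3bf9cae16a8bf, (rhee230b994cc8b773.shift 2 2)] (by decide +kernel))
noncomputable def rhad0643c423a787fa : CRef := CRef.mk (Pat.mk 0x1e0000001c00000000000000000000000000000000 0x40000001e0000001f00000003000000070000000700000005 7 5) 0 0 (step_sound _ 129 [rh368d6c923f096099, (rheb0810cc63b001d8.shift 0 4)] (by decide +kernel))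
noncomputable def rh14659965e3782cea : CRef := CRef.mk (Pat.mk 0xe00000018000000000000000000000000 0x200000012000000370000001e0000001f0000000f0000000e00000002 7 6) 0 0 (step_sound _ 132 [(rh34b1188e635efc8d.shift 1 1), rha89c43eb2e8e4595] (by decide +kernel))
noncomputable def rh6eb702912009ce27 : CRef := CRef.mk (Pat.mk 0x80000000c000000180000000c0000000000000000 0x40000000c0000000c0000001f0000003f0000003300000012 7 6) 0 0 (step_sound _ 162 [(rh50fbb5868c909700.shift 2 2), rh97c9e0d60ca2bf5c] (by decide +kernel))
noncomputable def rh29e0ca93f2bd96af : CRef := CRef.mk (Pat.mk 0x1000000018000000800000001800000000 0x1000000038000001ef0000007e0000006f 7 9) 0 0 (step_sound _ 67 [(rh71222050f2c63a3a.shift 3 0), rhb1592c93b9263262] (by decide +kernel))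
noncomputable def rhc3f2132704145109 : CRef := CRef.mk (Pat.mk 0x100000001800000080000000180000000000000000 0x1000000038000001ef0000007e000000ff00000004 7 9) 0 0 (step_sound _ 69 [(rh1f36686c55693598.shift 2 2), (rh6fba981bb8ec7da0.shift 1 1), (rhacc9bbdc1b978c29.shift 0 1), (rhc318c00060e6cd76.shift 0 1), rhc401206b143aa231, (rhe95c071a658174bf.shift 2 1), (rhefb19ffaaa7a0748.shift 1 1)] (by decide +kernel))
noncomputable def rh0025cc51ca3fe979 : CRef := CRef.mk (Pat.mk 0x60000000380000001000000000 0x40000000680000007c0000007f000000780000003000000020 7 7) 0 0 (step_sound _ 133 [rh1b97119e12aa0c95, (rh5c5e593799055d58.shift 4 1)] (by decide +kernel))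
noncomputable def rh48f970c406779c5d : CRef := CRef.mk (Pat.mk 0xc000000180000000c0000000800000000 0x12000000330000003f0000001f0000000c0000000c00000004 7 6) 0 0 (step_sound _ 34 [(rh451d90438770a4a9.shift 0 2), (rh932754581e0f4330.shift 2 0)] (by decide +kernel))
noncomputable def rh6ca3451713930659 : CRef := CRef.mk (Pat.mk 0x18000000800000001800000010 0x6f0000007e000001ef0000003800000010 7 9) 0 0 (step_sound _ 67 [(rh2145e1d24b96a57e.shift 3 0), rh6e1072559409c527] (by decide +kernel))
noncomputable def rhb27efdb874cdc612 : CRef := CRef.mk (Pat.mk 0x18000000800000001800000010 0x4000000ff0000007e000001ef0000003800000010 7 9) 0 0 (step_sound _ 101 [(rh31d55dd32e48ae3d.shift 1 2), (rh3cc1d144187adebf.shift 2 0), rh5b69042dbaf8379a, (rh93f0e85e241a7ddc.shift 0 2), (rhadc58f335021d7cb.shift 1 2), rhe883adbd60e3e4d2, (rhf1af73716833b731.shift 2 2)] (by decide +kernel))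
noncomputable def rhfd6f0b103196719d : CRef := CRef.mk (Pat.mk 0x100000003800000060000000000000000000000000 0x2000000030000000780000007f0000007c0000006800000040 7 7) 0 0 (step_sound _ 69 [rh4601f3d70c217f76, (rh7b1f1fb55310c477.shift 4 1)] (by decide +kernel))
noncomputable def rh60ef4995b1f84f64 : CRef := CRef.mk (Pat.mk 0x3000000018000000180000001a000000000000000000000000 0x5000000370000001f0000003f0000001b000000070000000700000005 7 6) 0 0 (step_sound _ 129 [(rh086f6046fa319626.shift 0 3), (rh50c9a591b6085b12.shift 0 2), (rh69d525c98ea542d2.shift 0 4), rh71f5c72563106717] (by decide +kernel))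
noncomputable def rh4e92ebbe5ff82759 : CRef := CRef.mk (Pat.mk 0x180000001a0000000000000000 0x6000000070000001f0000001f0000000700000006 7 5) 0 0 (step_sound _ 66 [(rh53b3c253cb0c65f4.shift 0 2), rhf9971318f3fd5918] (by decide +kernel))
noncomputable def rhc54499a394b6b23d : CRef := CRef.mk (Pat.mk 0x1a00000018000000180000003000000000 0x500000007000000070000001b0000003f0000001f0000003700000005 7 6) 0 0 (step_sound _ 97 [rh1f690bfcb5d80fa5, (rh504a6fdd21c68b6d.shift 0 1), (rh6e1685e3533aff0e.shift 0 3), rh74852c0f35221dd6] (by decide +kernel))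
noncomputable def rhc55e661b08b45364 : CRef := CRef.mk (Pat.mk 0x400000000c00000018000000000000000000000000 0x1000000018000000180000001c0000007c0000000f0000001c000000180000001800000010 7 7) 0 0 (step_sound _ 129 [(rhb739f4f82bb681b4.shift 0 3), (rhbd83b70a67e7f1bf.shift 2 0)] (by decide +kernel))
noncomputable def rh12b2ede94f7befcd : CRef := CRef.mk (Pat.mk 0x100000003800000060000000000000000000000000 0x2c0000003e000000780000007f000000ec0000006c00000040 7 8) 0 0 (step_sound _ 99 [(rh44d259ae29f7fee5.shift 2 0), (rh793930867e49eec7.shift 2 1), (rhb2e482cfc0fdb522.shift 1 1), (rhf0f55c4504412200.shift 0 3)] (by decide +kernel))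
noncomputable def rh20aa4f45d68bc15e : CRef := CRef.mk (Pat.mk 0xf0000000c000000000000000000000000 0xc0000000c0000001c0000000f0000000c000000180000001800000018 7 5) 0 0 (step_sound _ 163 [(rh200491c3f6e9f883.shift 2 0), (rh33e738c4ed385b9f.shift 0 4)] (by decide +kernel))
noncomputable def rh832afe40d6b04f58 : CRef := CRef.mk (Pat.mk 0x100000000700000006000000000000000000000000 0x60000000e0000003e00000007000000060000000c0000000c0000000c 7 6) 0 0 (step_sound _ 162 [(rh200491c3f6e9f883.shift 1 0), (rh4fd54f6717f3e7ac.shift 0 4), (rhac87745fc25574dc.shift 1 0)] (by decide +kernel))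
noncomputable def rh48703a3be20de620 : CRef := CRef.mk (Pat.mk 0x10000000100000001e00000010 0x2e0000003e000000170000001e00000013 7 6) 0 0 (step_sound _ 1 [rhc89c6bee8350f561, rheb0810cc63b001d8] (by decide +kernel))
noncomputable def rha4272e0aa8a5ea23 : CRef := CRef.mk (Pat.mk 0x600000003000000020000000000000000000000000000000000000000 0x40000000600000007000000030000000200000002000000070000000700000005 7 3) 0 0 (step_sound _ 129 [(rh2f68792b6b779e96.shift 1 4), rhfdb013c4d9a1c697] (by decide +kernel))
noncomputable def rhc0001e053d3dc35a : CRef := CRef.mk (Pat.mk 0x12000000030000000200000002 0x40000000600000007000000030000001f000000070000000300000002 7 5) 0 0 (step_sound _ 128 [(rh4fc6dceda52f0a93.shift 0 1), rhffd04209dc8ea796] (by decide +kernel))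
noncomputable def rh88fe0961c71cacfb : CRef := CRef.mk (Pat.mk 0x400000000c00000048000000000000000000000000 0x10000000180000001c0000007c0000001f00000078000000180000001800000010 7 7) 0 0 (step_sound _ 100 [(rh2fe78cc5ca4405d8.shift 2 3), rha6b931bd9de5a194] (by decide +kernel))
noncomputable def rhf18b9669b15c940f : CRef := CRef.mk (Pat.mk 0x180000000c0000004000000000000000000000000000000000 0x1000000018000000180000001c0000000f0000007c0000001c000000180000001800000010 7 7) 0 0 (step_sound _ 161 [(rh53b3c253cb0c65f4.shift 0 5), (rhdae02db131b4ef8f.shift 2 0)] (by decide +kernel))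
noncomputable def rh659b7ea4f38ba254 : CRef := CRef.mk (Pat.mk 0x60000000380000001000000000 0x400000006c000000ec0000007f000000780000003e0000002c 7 8) 0 0 (step_sound _ 99 [(rh61a7a430091acda3.shift 2 0), (rh642fafb4709e98e4.shift 1 0), (rhefd1f92d87146dd0.shift 2 1), (rhf60aa8aede119d3b.shift 0 2)] (by decide +kernel))
noncomputable def rheaef37d0961f23e1 : CRef := CRef.mk (Pat.mk 0x600000007000000100000000000000000 0xc0000000c0000000c00000006000000070000003e0000000e00000006 7 6) 0 0 (step_sound _ 66 [(rh68691964b29f233d.shift 0 2), (rh985294ffbed587a6.shift 1 0), (rha4834afc06b6b8b3.shift 1 0)] (by decide +kernel))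
noncomputable def rhf4e63142e6871d41 : CRef := CRef.mk (Pat.mk 0x100000001e000000100000001000000000 0x130000001e000000170000003e0000002e 7 6) 0 0 (step_sound _ 129 [(rh3244c3cc8379b070.shift 0 3), rh8e2847f7c49fbe0d] (by decide +kernel))
noncomputable def rhe76451963c0d974a : CRef := CRef.mk (Pat.mk 0x2000000030000000600000000 0x50000000700000007000000020000000200000003000000070000000600000004 7 3) 0 0 (step_sound _ 129 [(rh06938129f11756c8.shift 0 1), (rh55afc6a59410cf00.shift 1 0)] (by decide +kernel))
noncomputable def rhc91b188b7f6449f3 : CRef := CRef.mk (Pat.mk 0x200000002000000030000001200000000000000000000000000000000 0x200000003000000070000001f00000003000000070000000600000004 7 5) 0 0 (step_sound _ 96 [(rh79877ebd3ef475dd.shift 0 3), rh8dbb9abd5915952f] (by decide +kernel))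
noncomputable def rh1a715a3f421bc02d : CRef := CRef.mk (Pat.mk 0x480000000c00000040000000000000000000000000 0x100000001800000018000000780000001f0000007c0000001c0000001800000010 7 7) 0 0 (step_sound _ 164 [(rh361cc68994bd8a63.shift 2 4), rh7a90e0713d3777eb] (by decide +kernel))
noncomputable def rh8bacad09a3fe8b20 : CRef := CRef.mk (Pat.mk 0x1a0000001e000000100000000000000000 0x1000000010000000340000001e0000001e0000001b0000003200000032 7 6) 0 0 (step_sound _ 65 [(rh0f58a5049a5936ae.shift 1 0), (rheb0810cc63b001d8.shift 0 2)] (by decide +kernel))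
noncomputable def rh703c8f6407983e4e : CRef := CRef.mk (Pat.mk 0x8000000180000000c0000004000000000 0x170000001f0000001c0000000c0000007c00000014 7 7) 0 0 (step_sound _ 35 [rhb21789aa77e9eb60, (rhf8edb192cdea7ada.shift 2 0)] (by decide +kernel))
noncomputable def rhc05ca29dea29957f : CRef := CRef.mk (Pat.mk 0x20000000200000006000000060 0xde000000fe000000ff0000006000000060 7 8) 0 0 (step_sound _ 102 [(rh2f68792b6b779e96.shift 5 0), rhbca219ebd2747681] (by decide +kernel))
noncomputable def rhb778e23283cb2230 : CRef := CRef.mk (Pat.mk 0x180000001e000000000000000000000000 0x100000001a0000003b0000001f0000001e0000000e0000000400000004 7 6) 0 0 (step_sound _ 129 [(rh3244c3cc8379b070.shift 0 3), rh7777759922bb04a8] (by decide +kernel))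
noncomputable def rh79a10eb4fb0b57c1 : CRef := CRef.mk (Pat.mk 0x180000001e000000100000000000000000 0x20000001b0000001e0000001f0000003400000034 7 6) 0 0 (step_sound _ 129 [(rh3244c3cc8379b070.shift 0 3), rh86208607df960e92] (by decide +kernel))
noncomputable def rh815767f867c3c94f : CRef := CRef.mk (Pat.mk 0xa0000001e0000000000000000000000000000000000000000 0x4000000040000000c0000000e0000000e0000001e0000000b00000007000000070000000700000005 7 5) 0 0 (step_sound _ 129 [rh0e3aca0ad74d67e6, (rheb0810cc63b001d8.shift 0 4)] (by decide +kernel))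
noncomputable def rhfd0fbe343c3d8645 : CRef := CRef.mk (Pat.mk 0xa0000001e00000012000000000000000000000000 0x10000000f0000001f0000000e0000001e00000012000000070000000700000005 7 5) 0 0 (step_sound _ 195 [(rh2145e1d24b96a57e.shift 3 3), rh33ef193380107b8e] (by decide +kernel))
noncomputable def rh44d469ce9238181e : CRef := CRef.mk (Pat.mk 0x9400000018000000000000000000000000 0x400000007000000ff0000001f0000000c0000000800000008 7 8) 0 0 (step_sound _ 133 [(rh361cc68994bd8a63.shift 3 3), rh7fb5948e0ac9c193] (by decide +kernel))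
noncomputable def rh93231295e8c7ce73 : CRef := CRef.mk (Pat.mk 0x80000003800000010000000000000000000000000 0x1000000018000000780000003e0000001f0000001c0000000c 7 7) 0 0 (step_sound _ 68 [rh3f986f585475a861, (rh7b1f1fb55310c477.shift 3 1)] (by decide +kernel))
noncomputable def rhc24c6d0a52df1cd2 : CRef := CRef.mk (Pat.mk 0x140000001c00000008000000000000000000000000 0xe0000000f0000001c0000001c0000000f000000060000000600000006 7 5) 0 0 (step_sound _ 194 [(rh2145e1d24b96a57e.shift 2 3), rh761153be89256d1a] (by decide +kernel))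
noncomputable def rh366fd3c353de60e4 : CRef := CRef.mk (Pat.mk 0x1a0000001e000000000000000000000000 0x20000001a0000001e0000003f0000003400000034 7 6) 0 0 (step_sound _ 68 [rh86208607df960e92, (rhe25b0a99195a5d59.shift 1 2)] (by decide +kernel))
noncomputable def rha8c5bceee2b73e0c : CRef := CRef.mk (Pat.mk 0x1600000018000000000000000000000000 0x2000000070000001f0000001f000000070000000600000002 7 5) 0 0 (step_sound _ 131 [rh7c9725a9459931bc, (rhb739f4f82bb681b4.shift 0 3)] (by decide +kernel))
noncomputable def rh46513b21ce7f7a38 : CRef := CRef.mk (Pat.mk 0x10000000100000001800000088000000000000000000000000 0x2c0000007f0000003f0000001f000000ff000000270000000400000004 7 8) 0 0 (step_sound _ 100 [(rh1bdd005d5e40569b.shift 0 3), rh9e141fa6bc2add05, (rhf8edb192cdea7ada.shift 3 2)] (by decide +kernel))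
noncomputable def rh2fb2abca57e1419c : CRef := CRef.mk (Pat.mk 0x1000000018000000080000000000000000 0xc0000000c0000000c0000001f000000380000001c0000000c0000000c 7 6) 0 0 (step_sound _ 35 [rh18fd8eaa7240b2d4, (rh71222050f2c63a3a.shift 3 0)] (by decide +kernel))
noncomputable def rh26c1f1c45fdba1a4 : CRef := CRef.mk (Pat.mk 0x1000000090000000180000001800000000 0x2800000078000000dc000000380000001f00000004 7 8) 0 0 (step_sound _ 131 [(rh50fbb5868c909700.shift 3 1), rhc8d1e3cf02b68856] (by decide +kernel))
noncomputable def rh33a4530129083b07 : CRef := CRef.mk (Pat.mk 0x10000000180000001c0000000800000000 0xc0000000f0000007c0000001f0000001c0000000f00000006 7 7) 0 0 (step_sound _ 131 [(rh01ff8e29f1e0af53.shift 0 2), (rh03dfdf12d5937476.shift 2 0), rh2a5d240361e75206, (rh37d9ceebb86d75d1.shift 2 1)] (by decide +kernel))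
noncomputable def rh759e6aaa4cbc726d : CRef := CRef.mk (Pat.mk 0x40000003400000010000000000000000000000000 0x2000000060000000600000006000000360000001e0000000f0000000e0000000a 7 6) 0 0 (step_sound _ 98 [(rh58e6d0ca13cfa9ea.shift 1 1), (rh7183d73c74feafce.shift 1 2), (rh738feff674d58b9d.shift 1 0), (rh794501743a61ce18.shift 1 0), (rhaf7955adbc1f7ff4.shift 1 0), rhb3ca6e872ccd0f8f] (by decide +kernel))
noncomputable def rh49baecebbfe15048 : CRef := CRef.mk (Pat.mk 0x10000000380000001c0000000000000000 0x200000006000000370000003f0000001c0000000c0000000c 7 6) 0 0 (step_sound _ 35 [(rh71222050f2c63a3a.shift 3 0), rhb23d8a720469abba] (by decide +kernel))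
noncomputable def rhcad4769be2bc6f16 : CRef := CRef.mk (Pat.mk 0x1000000038000000180000000800000000 0xc0000000f0000007e000000380000001e0000000c00000004 7 7) 0 0 (step_sound _ 66 [(rh53b3c253cb0c65f4.shift 1 2), rhe4bee344425a8921] (by decide +kernel))
noncomputable def rh2fd837c1b3dc9d14 : CRef := CRef.mk (Pat.mk 0x100000001e0000001a000000000000000000000000 0x32000000320000001b0000001e0000001e000000340000001000000010 7 6) 0 0 (step_sound _ 161 [(rh3244c3cc8379b070.shift 0 4), (rhb4b820fcf4dfcf3d.shift 1 0)] (by decide +kernel))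
noncomputable def rhfb1c18d1b9d9fae2 : CRef := CRef.mk (Pat.mk 0x400000000c000000180000000800000000 0x140000007c0000000c0000001c0000001f00000017 7 7) 0 0 (step_sound _ 131 [(rh04e571695666b5c1.shift 2 1), rha7f1df9541b640ab] (by decide +kernel))
noncomputable def rh777d8a53f6522b7c : CRef := CRef.mk (Pat.mk 0x6000000060000000200000002000000000 0x6000000060000000ff000000fe000000de 7 8) 0 0 (step_sound _ 38 [(rh55afc6a59410cf00.shift 5 0), rhf25a1fd1f43e3d41] (by decide +kernel))
noncomputable def rh68203db27b70906d : CRef := CRef.mk (Pat.mk 0x1e00000018000000000000000000000000 0x4000000040000000e0000001e0000001f0000003b0000001a00000010 7 6) 0 0 (step_sound _ 97 [rha11b6cd6fcd3a9f8, (rheb0810cc63b001d8.shift 0 3)] (by decide +kernel))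
noncomputable def rh7052275de093c3e1 : CRef := CRef.mk (Pat.mk 0x100000001e0000001800000000 0x34000000340000001f0000001e0000001b00000002 7 6) 0 0 (step_sound _ 33 [rhbfb085386a0300a6, (rheb0810cc63b001d8.shift 0 1)] (by decide +kernel))
noncomputable def rh0a7eae12eaa3e2ee : CRef := CRef.mk (Pat.mk 0x1e0000000a00000000000000000000000000000000 0x50000000700000007000000070000000b0000001e0000000e0000000e0000000c0000000400000004 7 5) 0 0 (step_sound _ 193 [(rh3244c3cc8379b070.shift 0 5), rhd10111d26217aee9] (by decide +kernel))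
noncomputable def rh5b14afa794b0e2e1 : CRef := CRef.mk (Pat.mk 0x120000001e0000000a000000000000000000000000 0x50000000700000007000000120000001e0000000e0000001f0000000f00000001 7 5) 0 0 (step_sound _ 67 [(rh71222050f2c63a3a.shift 3 1), rheee68653d3479b41] (by decide +kernel))
noncomputable def rhc41ee8b4f645d521 : CRef := CRef.mk (Pat.mk 0x18000000940000000000000000 0x8000000080000000c0000001f000000ff0000000700000004 7 8) 0 0 (step_sound _ 69 [(rh2fe78cc5ca4405d8.shift 3 2), rh42df28ac82255d23] (by decide +kernel))
noncomputable def rhfdb321702ac18442 : CRef := CRef.mk (Pat.mk 0x10000000380000000800000000 0xc0000001c0000001f0000003e000000780000001800000010 7 7) 0 0 (step_sound _ 132 [(rh5c5e593799055d58.shift 3 1), rhead6ea60363c78e5] (by decide +kernel))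
noncomputable def rh567d3032b176e7e3 : CRef := CRef.mk (Pat.mk 0x80000001c000000140000000000000000 0x600000006000000060000000f0000001c0000001c0000000f0000000e 7 5) 0 0 (step_sound _ 34 [rh5085c5a1c613113b, (rh71222050f2c63a3a.shift 2 0)] (by decide +kernel))
noncomputable def rh19cd09d0f5c71e61 : CRef := CRef.mk (Pat.mk 0x1e0000001a00000000 0x34000000340000003f0000001e0000001a00000002 7 6) 0 0 (step_sound _ 100 [(rh33e738c4ed385b9f.shift 1 2), rhbfb085386a0300a6] (by decide +kernel))
noncomputable def rh69c0727cabe26add : CRef := CRef.mk (Pat.mk 0x18000000160000000000000000 0x200000006000000070000001f0000001f0000000700000002 7 5) 0 0 (step_sound _ 67 [(rh53b3c253cb0c65f4.shift 0 2), rhf8810ee27d69252f] (by decide +kernel))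
noncomputable def rh518a564e93045e5d : CRef := CRef.mk (Pat.mk 0x8800000018000000100000001000000000 0x40000000400000027000000ff0000001f0000003f0000007f0000002c 7 8) 0 0 (step_sound _ 132 [(rh04e571695666b5c1.shift 3 1), (rh26ffcb37093465b4.shift 0 2), rhe6ef61fbdfe1a05d] (by decide +kernel))
noncomputable def rhb471e6dda963c9fc : CRef := CRef.mk (Pat.mk 0x80000001800000010000000000000000000000000 0xc0000000c0000001c000000380000001f0000000c0000000c0000000c 7 6) 0 0 (step_sound _ 195 [(rh2145e1d24b96a57e.shift 3 3), rh37a366f51b0427a3] (by decide +kernel))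
noncomputable def rhd9775e76b9bd2de1 : CRef := CRef.mk (Pat.mk 0x1800000018000000900000001000000000 0x40000001f00000038000000dc0000007800000028 7 8) 0 0 (step_sound _ 35 [rh35b3774a5fdad35f, (rh932754581e0f4330.shift 3 0)] (by decide +kernel))
noncomputable def rhde69f708829ac721 : CRef := CRef.mk (Pat.mk 0x80000001c00000018000000100000000000000000 0x60000000f0000001c0000001f0000007c0000000f0000000c 7 7) 0 0 (step_sound _ 67 [(rh40241bd608e5be1a.shift 2 0), rha6f802784adb25e2, (rhb16ff3a9326c3f7f.shift 0 1), (rhe286c75f2739cce2.shift 2 1)] (by decide +kernel))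
noncomputable def rhd671e98fe3036812 : CRef := CRef.mk (Pat.mk 0x100000003400000004000000000000000000000000 0xa0000000e0000000f0000001e0000003600000006000000060000000600000002 7 6) 0 0 (step_sound _ 162 [(rh2c3a2ea36ddad983.shift 0 2), (rh58ffa0133807a088.shift 1 2), (rhbe5703805fd7fa8f.shift 1 2), (rhc9980783718588ac.shift 1 1), (rhceb5f5a915f974ce.shift 1 1), (rhf2eb0d5b8c248a4e.shift 1 0)] (by decide +kernel))
noncomputable def rh23f489e7dae165b2 : CRef := CRef.mk (Pat.mk 0x1c00000038000000100000000000000000 0xc0000000c0000001c0000003f000000370000000600000002 7 6) 0 0 (step_sound _ 163 [rh19b44777cf142372, (rh2145e1d24b96a57e.shift 3 2)] (by decide +kernel))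
noncomputable def rh437c9511455a1e61 : CRef := CRef.mk (Pat.mk 0x80000001800000038000000100000000000000000 0x40000000c0000001e000000380000007e0000000f0000000c 7 7) 0 0 (step_sound _ 130 [rh45046051ad81b0dd, (rhb739f4f82bb681b4.shift 1 3)] (by decide +kernel))
noncomputable def rh0b089fae14e9d2f1 : CRef := CRef.mk (Pat.mk 0x1200000003000000060000000000000000 0x50000000700000007000000030000001f00000007000000070000000300000001 7 5) 0 0 (step_sound _ 130 [(rh361cc68994bd8a63.shift 0 3), rh42f97d50d39764e3] (by decide +kernel))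
noncomputable def rh6d6be729dacc9a59 : CRef := CRef.mk (Pat.mk 0x80000000e0000001800000000000000000000000000000000 0x40000000c0000000e0000001b0000001f0000001e0000001c00000014 7 5) 0 0 (step_sound _ 99 [(rh0a6888916bcef86b.shift 2 0), (rh8cdd36b03d57a2f6.shift 2 1), (rhe03ee404dc074495.shift 0 2), (rhe286c75f2739cce2.shift 2 2)] (by decide +kernel))
noncomputable def rh0efcd3f5ca38cfe0 : CRef := CRef.mk (Pat.mk 0x180000000e000000180000000000000000 0x140000001c0000000e0000001b0000001f00000016 7 5) 0 0 (step_sound _ 35 [(rh2f68792b6b779e96.shift 3 1), rhe03ee404dc074495] (by decide +kernel))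
noncomputable def rhae3e36366d12e3cd : CRef := CRef.mk (Pat.mk 0x1000000010000000180000001800000000 0x2c0000003f00000038000000380000001f00000004 7 6) 0 0 (step_sound _ 131 [(rh50fbb5868c909700.shift 3 1), rhc0f24196ecce55d5] (by decide +kernel))
noncomputable def rhe3dbe8f11c676a0f : CRef := CRef.mk (Pat.mk 0x2000000030000000200000000000000000000000000000000 0x100000007000000070000000700000003000000030000000200000007000000070000000700000005 7 3) 0 0 (step_sound _ 97 [rh0a6888916bcef86b, (rh8cdd36b03d57a2f6.shift 0 1), (rha7bb430bc20854cc.shift 0 3), (rhe286c75f2739cce2.shift 0 2)] (by decide +kernel))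
noncomputable def rhb9d68e7cd466af25 : CRef := CRef.mk (Pat.mk 0x900000001800000038000000000000000000000000 0xf00000003f0000003f000000680000002800000020 7 8) 0 0 (step_sound _ 129 [rh5fc1fef39b1b7115, (rhab22b5b56e7b3243.shift 1 3)] (by decide +kernel))
noncomputable def rhb08df400a8290686 : CRef := CRef.mk (Pat.mk 0x480000000c0000000c 0x1f0000001f0000007c0000000c0000000c 7 7) 0 0 (step_sound _ 99 [(rh5c5e593799055d58.shift 2 0), rhb377ae37fe053066] (by decide +kernel))
noncomputable def rh169c8587e9bc9740 : CRef := CRef.mk (Pat.mk 0x20000000060000000600000002 0x80000000f0000001f0000003f0000000e0000000600000002 7 6) 0 0 (step_sound _ 97 [rh3b2a2a3ab01d5482, rh7b9fbdf6d2d059e4, (rhb1fd28edfbfa6afa.shift 1 0)] (by decide +kernel))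
noncomputable def rhe8d31e49457d6a9f : CRef := CRef.mk (Pat.mk 0x9000000018000000180000000800000000 0x2c0000002c0000006f000000fc000000380000001f0000000c00000004 7 8) 0 0 (step_sound _ 133 [(rh361cc68994bd8a63.shift 3 3), rh6322238a7b5bb05e] (by decide +kernel))
noncomputable def rh070d1c18fe0cd5fc : CRef := CRef.mk (Pat.mk 0x4000000440000000e00000018000000080000000000000000 0x34000000f60000001e0000001b0000003a0000003200000030 7 8) 0 0 (step_sound _ 132 [(rh3ecae443342617e2.shift 3 0), (rhd1474a84c69f0140.shift 0 1)] (by decide +kernel))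
noncomputable def rhc51e9eef92ceb5de : CRef := CRef.mk (Pat.mk 0x440000000e00000018000000080000000000000000 0x30000000f40000001e0000001f0000003f0000003200000030 7 8) 0 0 (step_sound _ 132 [(rh0bf19fab06097111.shift 0 1), (rh3ecae443342617e2.shift 3 0)] (by decide +kernel))
noncomputable def rh7ea382b98d27bedb : CRef := CRef.mk (Pat.mk 0x80000000e000000480000000800000000 0x40000000c0000000e0000006f0000003e00000016 7 7) 0 0 (step_sound _ 130 [(rh50fbb5868c909700.shift 2 1), rh7717b903295fcb36] (by decide +kernel))
noncomputable def rh32de1c09ccc8e6c6 : CRef := CRef.mk (Pat.mk 0x1400000003000000060000000000000000000000000000000000000000 0x40000001e00000007000000070000000700000003000000030000000300000001 7 5) 0 0 (step_sound _ 225 [rh132431c72dcbe68c, (rh361cc68994bd8a63.shift 0 6)] (by decide +kernel))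
noncomputable def rhddf2ad02f7d15a2c : CRef := CRef.mk (Pat.mk 0x6000000030000001200000000000000000000000000000000 0x10000000300000007000000070000001f00000003000000070000000700000005 7 5) 0 0 (step_sound _ 130 [(rh2fe78cc5ca4405d8.shift 0 4), rh406ea608ecb6dcfc] (by decide +kernel))
noncomputable def rh3fb63470d3d42e89 : CRef := CRef.mk (Pat.mk 0x180000000e0000000800000000 0x140000001c0000001e0000001f0000001b0000000e0000000c00000004 7 5) 0 0 (step_sound _ 131 [(rh03dfdf12d5937476.shift 2 0), (rh32431e66bbf434a4.shift 2 1), rhaffe2788911e208f, (rhc85cc95794737cf7.shift 2 1)] (by decide +kernel))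
noncomputable def rh78254d41759720f6 : CRef := CRef.mk (Pat.mk 0x180000000e0000001800000000 0x160000001f0000001b0000000e0000001c00000014 7 5) 0 0 (step_sound _ 131 [(rh55afc6a59410cf00.shift 3 0), rhaffe2788911e208f] (by decide +kernel))
noncomputable def rhe2889920feb41ea5 : CRef := CRef.mk (Pat.mk 0x1800000018000000100000001000000000 0x40000001f00000038000000380000003f0000002c 7 6) 0 0 (step_sound _ 35 [rh3d412c1829b6ae43, (rh932754581e0f4330.shift 3 0)] (by decide +kernel))
noncomputable def rh2252b8da6e6831c7 : CRef := CRef.mk (Pat.mk 0x2000000030000000200000000000000000000000000000000 0x500000007000000070000000700000002000000030000000300000007000000070000000700000001 7 3) 0 0 (step_sound _ 225 [(rh03dfdf12d5937476.shift 0 3), (rh32431e66bbf434a4.shift 0 4), (rhc85cc95794737cf7.shift 0 4), rhe0be7ab05c8f9e7a] (by decide +kernel))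
noncomputable def rhce698ba6d035a43f : CRef := CRef.mk (Pat.mk 0x380000001800000090 0x2000000028000000680000003f0000003f000000f0 7 8) 0 0 (step_sound _ 33 [rh202f73f5918c85f1, (rh24ae073cf30720c4.shift 1 1)] (by decide +kernel))
noncomputable def rh18cabc9a3fb38b04 : CRef := CRef.mk (Pat.mk 0xc0000000c000000480000000000000000 0xc0000000c0000007c0000001f0000001f 7 7) 0 0 (step_sound _ 35 [(rh7b1f1fb55310c477.shift 2 0), rhd2168cf9106a7ba7] (by decide +kernel))
noncomputable def rh003769f94c3a82e9 : CRef := CRef.mk (Pat.mk 0x2000000060000000600000020000000000000000000000000 0x2000000060000000e0000003f0000001f0000000f00000008 7 6) 0 0 (step_sound _ 97 [rh0107c0ad5e24ada2, (rh46530d756bdf8511.shift 0 1), (rhf57bd6481b8b2ca7.shift 1 1)] (by decide +kernel))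
noncomputable def rhb82f9ea48cb080de : CRef := CRef.mk (Pat.mk 0x8000000180000001800000090000000000000000000000000 0x40000000c0000001f00000038000000fc0000006f0000002c0000002c 7 8) 0 0 (step_sound _ 101 [(rh2fe78cc5ca4405d8.shift 3 3), rhc092c8f90e895b07] (by decide +kernel))
noncomputable def rhd992f6aae1112388 : CRef := CRef.mk (Pat.mk 0x8000000180000000e0000004400000004 0x30000000320000003a0000001b0000001e000000f600000034 7 8) 0 0 (step_sound _ 68 [(rh52727595f5cdd972.shift 3 0), rh768a472a1ebe455c] (by decide +kernel))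
noncomputable def rhacb64126916f370d : CRef := CRef.mk (Pat.mk 0x8000000180000000e0000004400000000 0x30000000320000003f0000001f0000001e000000f400000030 7 8) 0 0 (step_sound _ 68 [(rh52727595f5cdd972.shift 3 0), (rhfcbe31f2f547bfce.shift 0 1)] (by decide +kernel))
noncomputable def rh6ce07b0bc5d1170f : CRef := CRef.mk (Pat.mk 0x1000000010000000180000001000000000 0x2c0000007f0000003e000000180000001800000008 7 7) 0 0 (step_sound _ 35 [(rh932754581e0f4330.shift 3 0), (rhabf507d18231341f.shift 0 1)] (by decide +kernel))
noncomputable def rh9067a749d3ada477 : CRef := CRef.mk (Pat.mk 0x8000000480000000e0000000800000000 0x160000003e0000006f0000000e0000000c00000004 7 7) 0 0 (step_sound _ 34 [(rh932754581e0f4330.shift 2 0), (rhf9d197ceef248ae8.shift 0 1)] (by decide +kernel))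
noncomputable def rh0e3f947242a26eb1 : CRef := CRef.mk (Pat.mk 0x6000000030000001400000000 0x10000000300000003000000030000000700000007000000070000001e00000004 7 5) 0 0 (step_sound _ 33 [(rh2fe78cc5ca4405d8.shift 0 1), rha22bc776e3a426e7] (by decide +kernel))
noncomputable def rh51804096c81a098a : CRef := CRef.mk (Pat.mk 0x12000000030000000200000000000000000000000000000000 0x1000000030000001f000000070000000300000003000000070000000700000005 7 5) 0 0 (step_sound _ 194 [(rh361cc68994bd8a63.shift 0 5), rh406ea608ecb6dcfc] (by decide +kernel))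
noncomputable def rh3e86a33b5c98ab1a : CRef := CRef.mk (Pat.mk 0x6000000030000000200000000000000000000000000000000 0x500000007000000070000000300000006000000070000000300000007000000070000000700000001 7 3) 0 0 (step_sound _ 225 [(rh32431e66bbf434a4.shift 0 4), (rhb6f7e56bf89163d9.shift 0 4), rhe0be7ab05c8f9e7a] (by decide +kernel))
noncomputable def rhac84a362fd769c9a : CRef := CRef.mk (Pat.mk 0x8000000180000001000000000 0x1c0000003c0000000f000000380000001f0000000c 7 6) 0 0 (step_sound _ 131 [(rh2145e1d24b96a57e.shift 3 1), rh55dbdc333f43e763] (by decide +kernel))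
noncomputable def rh7ba7f7732625eca2 : CRef := CRef.mk (Pat.mk 0x10000000030000000600000000000000000000000000000000 0x500000007000000070000001f000000030000000700000006000000060000000600000004 7 5) 0 0 (step_sound _ 193 [(rh566659606c8abe04.shift 0 3), (rh70e33bfdf511e144.shift 1 1), rh807a3fca9b5109b0, (rhfb9fb48a5e63ed80.shift 0 3)] (by decide +kernel))
noncomputable def rhf067533ef3ca3e01 : CRef := CRef.mk (Pat.mk 0x800000018000000300000001000000000 0x140000001f00000038000000380000003e0000002c 7 6) 0 0 (step_sound _ 132 [rhd0bee3ce7d34c07a, (rhd4b4beefcd67f51e.shift 4 0)] (by decide +kernel))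
noncomputable def rh605bd8206c148d95 : CRef := CRef.mk (Pat.mk 0x2000000060000000c000000000000000000000000 0x70000000700000007000000060000000f0000001b0000000300000003 7 5) 0 0 (step_sound _ 193 [(rh2145e1d24b96a57e.shift 1 3), rh54a4ef39e3c35e0a] (by decide +kernel))
noncomputable def rh0e7b0537fe37f12c : CRef := CRef.mk (Pat.mk 0x100000000300000006000000000000000000000000 0x500000007000000070000001e0000000300000006000000070000000700000005 7 5) 0 0 (step_sound _ 161 [(rh566659606c8abe04.shift 0 2), rh62825c4dfa6be415, (rh70e33bfdf511e144.shift 1 0), (rhfb9fb48a5e63ed80.shift 0 2)] (by decide +kernel))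
noncomputable def rhd7cab93cf15eb971 : CRef := CRef.mk (Pat.mk 0x100000000300000006000000000000000000000000 0x400000006000000060000001e0000000300000007000000070000000700000005 7 5) 0 0 (step_sound _ 161 [(rh566659606c8abe04.shift 0 2), rh62825c4dfa6be415, (rh70e33bfdf511e144.shift 1 0), (rhb23658ecdd7ce5df.shift 0 2)] (by decide +kernel))
noncomputable def rhe2608be91ada6d5e : CRef := CRef.mk (Pat.mk 0x80000001800000038000000080000001000000000 0x40000000f0000003c0000003e000000680000003000000030 7 7) 0 0 (step_sound _ 162 [(rh50fbb5868c909700.shift 2 2), rhb95e88f925966fd5] (by decide +kernel))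
noncomputable def rha8b45d2c26d4a107 : CRef := CRef.mk (Pat.mk 0xc0000001e000000120000000000000000 0x100000001c0000001e0000001e0000003f0000003e 7 6) 0 0 (step_sound _ 36 [(rh7b1f1fb55310c477.shift 3 0), rh93b9d3daba2bb1cf] (by decide +kernel))
noncomputable def rh7802b0788f140374 : CRef := CRef.mk (Pat.mk 0xc0000001c000000000000000000000000 0x600000006000000060000000c0000001c0000000f0000000e0000000e 7 5) 0 0 (step_sound _ 162 [rh09c3cee1e3581333, (rh3e595262c1b737ad.shift 2 2), (rhb3e5613249985042.shift 1 0)] (by decide +kernel))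
noncomputable def rhb6f0e8cb45aa3ad3 : CRef := CRef.mk (Pat.mk 0x20000000300000002000000000000000000000000 0x5000000070000000700000003000000030000000300000003000000070000000700000005 7 3) 0 0 (step_sound _ 193 [(rh03dfdf12d5937476.shift 0 2), (rh32431e66bbf434a4.shift 0 3), rhc850b49d039efae1] (by decide +kernel))
noncomputable def rh704c734d870d6fb3 : CRef := CRef.mk (Pat.mk 0x180000000c0000000800000000 0x40000001c0000001f0000001f0000001c0000000c0000000c00000004 7 5) 0 0 (step_sound _ 131 [(rh03dfdf12d5937476.shift 2 0), (rh1741680720c097b4.shift 2 1), (rh976a48eb1c80a12f.shift 2 1), rhe5fce868e21152e4] (by decide +kernel))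
noncomputable def rh7f8b017491bdbc1e : CRef := CRef.mk (Pat.mk 0x2000000030000000200000000000000000000000000000000 0x100000007000000070000000700000003000000030000000200000007000000070000000700000005 7 3) 0 0 (step_sound _ 97 [rh0a6888916bcef86b, (rh8cdd36b03d57a2f6.shift 0 1), (rhd91b73d7ee353e95.shift 0 3)] (by decide +kernel))
noncomputable def rh0a6837be2b6c97fb : CRef := CRef.mk (Pat.mk 0x400000007800000000 0x67000000fe000001c7 7 9) 0 0 (step_sound _ 7 [(rh96851dee118c1ba3.shift 3 0), rhdeb87edc1918de6d] (by decide +kernel))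
noncomputable def rheea756d338f63b3a : CRef := CRef.mk (Pat.mk 0x7000000000 0x1e7000000fe000001df 7 9) 0 0 (step_sound _ 35 [(rh27ce058b59d72f64.shift 2 0), (rh42d32bf970c9c157.shift 2 0), rh988dac8d009f9f77, (rha93a5dd541ab8209.shift 3 0)] (by decide +kernel))
noncomputable def rh833b7874e35532d1 : CRef := CRef.mk (Pat.mk 0xa0000001e0000001200000008000000000000000000000000 0x40000000e0000001e0000001a0000001f000000170000000700000005 7 5) 0 0 (step_sound _ 100 [(rh7b1f1fb55310c477.shift 3 2), rhed896ebca2d92c8e] (by decide +kernel))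
noncomputable def rh205d134347061cb7 : CRef := CRef.mk (Pat.mk 0x20000001e0000000000000008000000080000000000000000 0x4000000060000001e000000030000000f0000001f0000000700000005 7 5) 0 0 (step_sound _ 129 [rhcb0013984dfabc36, (rheb0810cc63b001d8.shift 0 4)] (by decide +kernel))
noncomputable def rh7e729d6a7814282b : CRef := CRef.mk (Pat.mk 0x1e000000100000000800000000 0x4000000040000000f0000001e0000001b0000000f0000000e 7 5) 0 0 (step_sound _ 129 [(rh3244c3cc8379b070.shift 0 3), rhdb6279ff7e71d3d7] (by decide +kernel))
noncomputable def rh89e64f2fa689a92a : CRef := CRef.mk (Pat.mk 0x80000000f00000000000000040000000000000000 0xc0000000f000000180000001f0000007c00000010 7 7) 0 0 (step_sound _ 99 [rh0862652dfa775836, (rhe25b0a99195a5d59.shift 0 3)] (by decide +kernel))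
noncomputable def rh48632ff08a630567 : CRef := CRef.mk (Pat.mk 0x120000001e000000100000000000000000 0x34000000340000001e0000001e0000001b0000000f0000000e 7 6) 0 0 (step_sound _ 67 [rh06a9ffedb62b3336, (rh1e309b005ffa1b36.shift 3 0), rhe7ffeb0eae699482] (by decide +kernel))
noncomputable def rh05c2018fa1e25f80 : CRef := CRef.mk (Pat.mk 0x120000001600000012000000000000000000000000 0x1d0000001f0000001e0000001600000012000000070000000700000005 7 5) 0 0 (step_sound _ 65 [(rh4b4ed3d4487f9b3e.shift 0 2), rh8cdd36b03d57a2f6, (rha707fb719e87fe6e.shift 1 1)] (by decide +kernel))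
noncomputable def rhf6b58f36ccd0861b : CRef := CRef.mk (Pat.mk 0x8000000090000000b00000009000000000000000000000000 0xa0000000b0000000b0000000d0000001f0000001d00000010 7 5) 0 0 (step_sound _ 66 [(rh79877ebd3ef475dd.shift 2 2), rh8ec9b3b7d4e51fee] (by decide +kernel))
noncomputable def rh02fa2cd79e26ebb3 : CRef := CRef.mk (Pat.mk 0x120000001a0000000200000002 0x3d0000001f0000001e0000001a0000000a00000002 7 6) 0 0 (step_sound _ 130 [(rh2da470d4e7282b1b.shift 0 1), (rhbaefcd01e0a8bca3.shift 1 0)] (by decide +kernel))
noncomputable def rhc6fc557f89345728 : CRef := CRef.mk (Pat.mk 0x4000000020000001a000000120000000000000000 0x10000000f0000001f0000000a0000001a0000001a0000001000000010 7 5) 0 0 (step_sound _ 161 [rh2201daf3cceb057f, (rh2f68792b6b779e96.shift 1 2)] (by decide +kernel))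
noncomputable def rhf97958e61d9cb1c7 : CRef := CRef.mk (Pat.mk 0xf000000000000000000000000 0x40000001c0000001c0000001c0000001c0000000f0000001c0000000c0000000c 7 5) 0 0 (step_sound _ 131 [(rh33e738c4ed385b9f.shift 0 3), rhe8b9d1056c263a08] (by decide +kernel))
noncomputable def rh090a121bd4f7c195 : CRef := CRef.mk (Pat.mk 0x2000000030000000200000000000000000000000000000000 0x500000007000000070000000700000002000000030000000300000007000000070000000700000001 7 3) 0 0 (step_sound _ 225 [(rh32431e66bbf434a4.shift 0 4), (rhc85cc95794737cf7.shift 0 4), rhe08b3642bf78c2d5] (by decide +kernel))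
noncomputable def rh0cc88aba61ec009f : CRef := CRef.mk (Pat.mk 0x7800000040 0x1c7000000fe00000067 7 9) 0 0 (step_sound _ 71 [(rh428265de8cd3cd2d.shift 3 1), rh7eb3727eb367fa5a] (by decide +kernel))
noncomputable def rhd41035d39ff02fe7 : CRef := CRef.mk (Pat.mk 0x7000000000 0x1df000000fe000001e7 7 9) 0 0 (step_sound _ 35 [(rh3947d1dfff0afc6c.shift 2 0), (rh3fc3a7fb6866dcd4.shift 3 0), (rh56a24c72f1c55520.shift 2 1), rhbb13f9e1d387f64a] (by decide +kernel))
noncomputable def rh44680e250406f18d : CRef := CRef.mk (Pat.mk 0x8000000120000001e0000000a00000000 0x500000007000000170000001f0000001a0000001e0000000e00000004 7 5) 0 0 (step_sound _ 132 [rh164370e2998a741e, (rh5c5e593799055d58.shift 3 1)] (by decide +kernel))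
noncomputable def rh40c3005243f5c871 : CRef := CRef.mk (Pat.mk 0x800000008000000000000001e0000000200000000 0x5000000070000001f0000000f000000030000001e0000000600000004 7 5) 0 0 (step_sound _ 97 [(rh3244c3cc8379b070.shift 0 2), rh974652345d249a5d] (by decide +kernel))
noncomputable def rhb0cc89533f22af42 : CRef := CRef.mk (Pat.mk 0x8000000100000001e000000000000000000000000 0xe0000000f0000001b0000001e0000000f0000000400000004 7 5) 0 0 (step_sound _ 65 [rhd6d70ceadd0c5c29, (rheb0810cc63b001d8.shift 0 2)] (by decide +kernel))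
noncomputable def rh95b2cb8b7f4c38e5 : CRef := CRef.mk (Pat.mk 0x4000000000000000f00000008 0x100000007c0000001f000000180000000f0000000c 7 7) 0 0 (step_sound _ 67 [(rh33e738c4ed385b9f.shift 0 1), rhbd305e04395d6fd1] (by decide +kernel))
noncomputable def rh4572a62812e2ec95 : CRef := CRef.mk (Pat.mk 0x100000001e000000120000000000000000 0xe0000000f0000001b0000001e0000001e0000003400000034 7 6) 0 0 (step_sound _ 131 [rh0f34aa0857dd05ce, rhf2a4c806acdb958d, (rhfc7c29d8e65d775f.shift 3 1)] (by decide +kernel))
noncomputable def rh1ce7ed7c6048a841 : CRef := CRef.mk (Pat.mk 0x1200000016000000120000000000000000 0x5000000070000000700000012000000160000001e0000001f0000001d 7 5) 0 0 (step_sound _ 161 [rh1d7501508b9f88fc, (rhc85cc95794737cf7.shift 0 2), (rhd4b4beefcd67f51e.shift 1 1)] (by decide +kernel))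
noncomputable def rhfa75700c83922aad : CRef := CRef.mk (Pat.mk 0x90000000b0000000900000008 0x100000001d0000001f0000000d0000000b0000000b0000000a 7 5) 0 0 (step_sound _ 130 [rh7520cd7877e2d351, (rhffd04209dc8ea796.shift 2 0)] (by decide +kernel))
noncomputable def rh5474ac059eadf761 : CRef := CRef.mk (Pat.mk 0x2000000020000001a000000120000000000000000 0x20000000a0000001a0000001e0000001f0000003d 7 6) 0 0 (step_sound _ 34 [rhab00c3182c831267, (rhd3458b32566d63f7.shift 1 1)] (by decide +kernel))
noncomputable def rh5948c076a599186c : CRef := CRef.mk (Pat.mk 0x120000001a00000002000000040000000000000000 0x10000000100000001a0000001a0000000a0000001f0000000f00000001 7 5) 0 0 (step_sound _ 65 [(rh55afc6a59410cf00.shift 1 1), rh69dbe9c61334d67e] (by decide +kernel))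
noncomputable def rh0d5f00f2e3e338ad : CRef := CRef.mk (Pat.mk 0xf0000000000000000000000000000000000000000 0xc0000000c0000001c0000000f0000001c0000001c0000001c0000001c00000004 7 5) 0 0 (step_sound _ 131 [rha3c546beb8829d15, (rhe25b0a99195a5d59.shift 0 4)] (by decide +kernel))
noncomputable def rh1773693aa87f208b : CRef := CRef.mk (Pat.mk 0x1e000000000000000000000000 0x50000000700000007000000070000001e000000070000000600000006 7 5) 0 0 (step_sound _ 129 [(rh3244c3cc8379b070.shift 0 3), rh81660f5c36cadd8d] (by decide +kernel))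
noncomputable def rhfc882fe82af9c3da : CRef := CRef.mk (Pat.mk 0x80000000180000001800000008 0x1c0000001c000000ff0000001f0000001800000008 7 8) 0 0 (step_sound _ 99 [rh38b9f7ce4e4d2b02, (rh7b9fbdf6d2d059e4.shift 2 0), (rhb1fd28edfbfa6afa.shift 3 0)] (by decide +kernel))
noncomputable def rh1bc6498f5ba4e1e8 : CRef := CRef.mk (Pat.mk 0x9000000018000000380000000000000000 0xc0000000f000000fc000000180000003c0000000f0000000c 7 8) 0 0 (step_sound _ 35 [(rh71222050f2c63a3a.shift 3 0), rh8d974fece6b46dee] (by decide +kernel))
noncomputable def rhf68b145ddcdc8b3f : CRef := CRef.mk (Pat.mk 0x40000001e00000000000000000000000000000000 0x4000000070000001e00000003000000070000000700000005 7 5) 0 0 (step_sound _ 161 [(rh3244c3cc8379b070.shift 0 4), rh368d6c923f096099] (by decide +kernel))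
noncomputable def rh5ce62e77ea6a23f8 : CRef := CRef.mk (Pat.mk 0x18000000980000000000000000 0x8000000080000000c0000001f000000ff0000000700000004 7 8) 0 0 (step_sound _ 69 [(rh2fe78cc5ca4405d8.shift 3 2), rh4304caa7aaf5d23c] (by decide +kernel))
noncomputable def rh64854facbab1ad73 : CRef := CRef.mk (Pat.mk 0x100000000300000006000000000000000000000000 0x500000007000000070000001e0000000300000007000000070000000700000005 7 5) 0 0 (step_sound _ 161 [(rh566659606c8abe04.shift 0 2), rh62825c4dfa6be415, (rhb23658ecdd7ce5df.shift 0 2), (rhfb9fb48a5e63ed80.shift 0 2)] (by decide +kernel))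
noncomputable def rh7b6376742f9400ab : CRef := CRef.mk (Pat.mk 0x600000027000000020000000400000000 0xa0000000e0000003f0000001e0000003c00000018 7 6) 0 0 (step_sound _ 66 [(rh50fbb5868c909700.shift 1 1), rhe5b61e8fde75b4bb] (by decide +kernel))
noncomputable def rh4631e385ee25dded : CRef := CRef.mk (Pat.mk 0x440000000c000000440000000400000000 0x180000007c0000000c0000007c0000000f0000000a 7 7) 0 0 (step_sound _ 131 [(rh2f68792b6b779e96.shift 2 1), rhcc8330cbf5c4e703] (by decide +kernel))
noncomputable def rh79e32805541677ca : CRef := CRef.mk (Pat.mk 0x1800000030000001100000003800000000 0x1e000000340000019e000000fe000001c7 7 9) 0 0 (step_sound _ 130 [rhac7d353a5474aff9, (rhb739f4f82bb681b4.shift 1 3)] (by decide +kernel))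
noncomputable def rh51ea68a1376ace25 : CRef := CRef.mk (Pat.mk 0x200000002000000220000000200000000 0x5000000070000000700000002000000020000007e0000001f00000004 7 7) 0 0 (step_sound _ 34 [(rh55afc6a59410cf00.shift 1 0), (rhad2a1708d0e22f9c.shift 0 1)] (by decide +kernel))
noncomputable def rhd6df9037bf148874 : CRef := CRef.mk (Pat.mk 0x900000001800000008000000080000000000000000 0x2c000000ff0000003800000018000000180000001000000010 7 8) 0 0 (step_sound _ 165 [(rh361cc68994bd8a63.shift 3 4), rh88ce08a2b2376755] (by decide +kernel))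
noncomputable def rh65f4922c8c2e87f9 : CRef := CRef.mk (Pat.mk 0x60000000300000010000000010000000000000000 0x5000000070000000700000006000000070000001e000000070000000700000004 7 5) 0 0 (step_sound _ 97 [rh5799bc112efcbb34, (rh8c01e5409b730b8b.shift 0 1), (rhf7acaebcded2f86e.shift 0 2)] (by decide +kernel))
noncomputable def rhf3df48e2bad30f6c : CRef := CRef.mk (Pat.mk 0x60000000300000010000000010000000000000000 0x5000000070000000700000006000000070000001f000000070000000600000004 7 5) 0 0 (step_sound _ 97 [(rh3820f35d5e705bec.shift 1 0), (rh588a20a2cf76910c.shift 0 2), (rhb77bfac3e9efecea.shift 0 2), (rhf7acaebcded2f86e.shift 0 2)] (by decide +kernel))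
noncomputable def rhee928e29a7e62817 : CRef := CRef.mk (Pat.mk 0x8800000018000000180000003000000000 0x200000002000000067000000ff000000380000001e0000003000000020 7 8) 0 0 (step_sound _ 65 [(rhab22b5b56e7b3243.shift 1 1), rhfd47a67dda6ef9cc] (by decide +kernel))
noncomputable def rhce279e175f0338bb : CRef := CRef.mk (Pat.mk 0x24000000040000000c000000020000000000000000 0x140000007c0000000c0000000c0000001f0000007c00000018 7 7) 0 0 (step_sound _ 67 [(rh2145e1d24b96a57e.shift 2 2), rha4b3d7bb7b89ac40] (by decide +kernel))
noncomputable def rh472311b50863267e : CRef := CRef.mk (Pat.mk 0x1200000003000000070000000000000000000000000 0x1e0000000770000007e000000cf0000004000000040 7 9) 0 0 (step_sound _ 166 [(rh361cc68994bd8a63.shift 4 4), rh3a3748708a2a2417] (by decide +kernel))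
noncomputable def rh862c36d5a39ebbb1 : CRef := CRef.mk (Pat.mk 0x300000012000000010000000000000000 0x5000000070000000700000002000000030000001f000000070000000500000004 7 5) 0 0 (step_sound _ 98 [(rh2fe78cc5ca4405d8.shift 0 3), rh4a54b5ea173d09f9] (by decide +kernel))
noncomputable def rh501c1b3f6c9d6a52 : CRef := CRef.mk (Pat.mk 0x130000001a00000003000000000000000000000000 0x130000001b0000000f0000001f0000000f00000005 7 5) 0 0 (step_sound _ 99 [(rh1c62b6193297d9e3.shift 0 3), rhc839fc910549cb4e] (by decide +kernel))
noncomputable def rhbe4d955a2823203c : CRef := CRef.mk (Pat.mk 0x400000000c000000180000000e0000000000000000 0x30000000f00000001c0000001f0000003e000000f300000032 7 8) 0 0 (step_sound _ 68 [(rh334b688aefa48318.shift 2 0), (rh78974448101547fe.shift 1 0), rhc4658766f200b447] (by decide +kernel))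
noncomputable def rh36c2ae8404e63c83 : CRef := CRef.mk (Pat.mk 0x8000000480000000c0000000000000000 0x80000007f0000003f0000003700000010 7 7) 0 0 (step_sound _ 100 [(rh361cc68994bd8a63.shift 2 2), rhfb882c9c6b5528d7] (by decide +kernel))
noncomputable def rh90d90aefe11780af : CRef := CRef.mk (Pat.mk 0x180000000c00000018000000040000000000000000 0x10000000180000000c0000001f0000003f0000003300000012 7 6) 0 0 (step_sound _ 67 [(rh2f68792b6b779e96.shift 3 2), rh97c9e0d60ca2bf5c] (by decide +kernel))
noncomputable def rhf9aa1aea0941c399 : CRef := CRef.mk (Pat.mk 0x12000000030000000200000002 0x40000000600000007000000030000001f000000070000000300000002 7 5) 0 0 (step_sound _ 128 [(rhe3428b1e8a82e7f2.shift 0 1), rhffd04209dc8ea796] (by decide +kernel))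
noncomputable def rhb200040bb154dbd4 : CRef := CRef.mk (Pat.mk 0x20000000060000000c0000000200000000 0x20000000e0000000e0000001f0000007e0000000e0000000e0000000e00000004 7 7) 0 0 (step_sound _ 130 [(rh51698cea9087386d.shift 1 0), (rh518d6f6eeebddcb2.shift 1 1), (rh927c870b1977d574.shift 0 2), (rhb77bfac3e9efecea.shift 1 1)] (by decide +kernel))
noncomputable def rhf063c34fdb8e3b1c : CRef := CRef.mk (Pat.mk 0xc00000018000000040000000000000000 0x4000000040000000c0000000c0000001f0000003f0000007b00000012 7 7) 0 0 (step_sound _ 67 [rh6a7842d1b9fdbc66, rh97c9e0d60ca2bf5c, (rhb1a251d9bff81766.shift 2 1)] (by decide +kernel))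
noncomputable def rhb668a93affbcad08 : CRef := CRef.mk (Pat.mk 0x400000000c0000004800000004000000000000000000000000 0x40000001c0000007c0000001c000000780000001f000000780000001800000010 7 7) 0 0 (step_sound _ 132 [(rh2fe78cc5ca4405d8.shift 2 4), rh528e10b975a602fe] (by decide +kernel))
noncomputable def rhfb45dc91be7b1753 : CRef := CRef.mk (Pat.mk 0xc00000018000000040000000000000000 0x140000001c0000001f0000003f0000007b0000001a 7 7) 0 0 (step_sound _ 67 [(rh668fc65514a55b16.shift 2 0), rh6a7842d1b9fdbc66, rh97c9e0d60ca2bf5c] (by decide +kernel))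
noncomputable def rhb7219ef0a2e38313 : CRef := CRef.mk (Pat.mk 0x18000000800000001800000030 0x7f0000007e000001ef0000003800000030 7 9) 0 0 (step_sound _ 67 [(rh2145e1d24b96a57e.shift 3 0), rh7f9f39a172544465] (by decide +kernel))
noncomputable def rhf033863bb7051c88 : CRef := CRef.mk (Pat.mk 0x200000000000000030000000600000000 0x50000000700000007000000020000000200000003000000070000000600000004 7 3) 0 0 (step_sound _ 97 [(rh06938129f11756c8.shift 0 1), (rh55afc6a59410cf00.shift 1 0)] (by decide +kernel))
noncomputable def rhb4da0633f9c60a31 : CRef := CRef.mk (Pat.mk 0x8800000018000000100000001800000000 0x200000002000000077000000ff000000380000001f0000003f00000004 7 8) 0 0 (step_sound _ 132 [(rh04e571695666b5c1.shift 3 1), rh4fd328685a9042c0, (rhfc65d810a86f213b.shift 0 2)] (by decide +kernel))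
noncomputable def rhec4090ef8b39fac7 : CRef := CRef.mk (Pat.mk 0x480000000c00000008000000040000000000000000 0x100000007c0000000c000000080000001f0000007800000010 7 7) 0 0 (step_sound _ 164 [(rh361cc68994bd8a63.shift 2 4), rh410b2d5cb6d6cca6] (by decide +kernel))
noncomputable def rh2662059f10b002ab : CRef := CRef.mk (Pat.mk 0x1000000010000000100000002000000000 0x1000000010000000ff000000fe0000002f 7 8) 0 0 (step_sound _ 36 [(rh55afc6a59410cf00.shift 4 0), rhe9b49dd16e8c84ca] (by decide +kernel))
noncomputable def rh906b02cb2885dc07 : CRef := CRef.mk (Pat.mk 0x2000000020000000200000004 0x500000007000000070000000200000002000000030000000700000005 7 3) 0 0 (step_sound _ 129 [rh1726a00b0a8befd0, (rhd3458b32566d63f7.shift 1 0)] (by decide +kernel))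
noncomputable def rh9db499c9f3e9a8e7 : CRef := CRef.mk (Pat.mk 0x2000000120000000300000000 0x5000000070000000700000002000000020000001e0000000700000001 7 5) 0 0 (step_sound _ 66 [(rh361cc68994bd8a63.shift 0 1), rh55777c14eaf54302] (by decide +kernel))
noncomputable def rhc995ebf4417e407a : CRef := CRef.mk (Pat.mk 0x400000000c000000400000000c000000000000000000000000 0x40000001c0000007c0000001c000000780000001f000000780000001800000010 7 7) 0 0 (step_sound _ 131 [rh5d7a1789ccad5d1e, (rhb1a251d9bff81766.shift 2 2), (rhe592aca24e1e4cb2.shift 0 1)] (by decide +kernel))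
noncomputable def rh18355b30ef73d3e8 : CRef := CRef.mk (Pat.mk 0x180000008000000018000000000000000000000000 0x2800000038000001f70000007e000000ff0000003000000020 7 9) 0 0 (step_sound _ 132 [rh400ee49dd4ebac3a, (rh6a7842d1b9fdbc66.shift 1 1), (rhdddca37c4662ca83.shift 3 1), (rhf6e91876d8890934.shift 3 0)] (by decide +kernel))
noncomputable def rh9735b6fb702b6423 : CRef := CRef.mk (Pat.mk 0x8000000010000000000000003800000000 0x40000001f000000030000000670000003e00000077 7 9) 0 0 (step_sound _ 34 [rh0d378fd9e8917c5a, rh185f35b8bd8ec37f, (rh34ce3ceebcf9b29a.shift 2 0), rh592c7139d2c44767] (by decide +kernel))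
noncomputable def rhbb082eb609cfe56e : CRef := CRef.mk (Pat.mk 0x10000000020000001000000007000000000000000000000000 0x20000000a0000003e000000060000003c0000000f0000000e0000000e0000000a 7 6) 0 0 (step_sound _ 130 [(rh0a0f710953c43ccf.shift 1 0), (rh5acb6dc3b47c700e.shift 0 3)] (by decide +kernel))
noncomputable def rh2c1bec4ded2666b0 : CRef := CRef.mk (Pat.mk 0x1000000010000000300000001000000000 0x1000000010000000770000003e0000002f 7 7) 0 0 (step_sound _ 37 [(rh55afc6a59410cf00.shift 4 0), rha40fbb241e27bfba] (by decide +kernel))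
noncomputable def rh92dbf289a70dd34e : CRef := CRef.mk (Pat.mk 0x18000000980000000800000000 0xc0000000c0000000c00000038000000ff0000000e00000004 7 8) 0 0 (step_sound _ 69 [(rh2fe78cc5ca4405d8.shift 3 2), rhade21cda799c6fdb] (by decide +kernel))
noncomputable def rh58a4bce27a18509f : CRef := CRef.mk (Pat.mk 0x1000000010000000180000003000000000 0x1000000010000000f8000000ff0000000f 7 8) 0 0 (step_sound _ 35 [(rh932754581e0f4330.shift 3 0), rhadec87ca519a3ac3] (by decide +kernel))
noncomputable def rh4a7d7b5f4f2b6fd5 : CRef := CRef.mk (Pat.mk 0x1800000038000000080000000800000000 0x380000003f0000007f0000006e00000024 7 7) 0 0 (step_sound _ 34 [(rh932754581e0f4330.shift 2 0), rhf7affe3579d99523] (by decide +kernel))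
noncomputable def rh6ccdc9605097efd5 : CRef := CRef.mk (Pat.mk 0x3000000010000000100000001800000000 0x30000000300000007f0000007e000000e7 7 8) 0 0 (step_sound _ 37 [(rh55afc6a59410cf00.shift 4 0), rhdf7dab140f58ecc7] (by decide +kernel))
noncomputable def rh2311c2ae46997870 : CRef := CRef.mk (Pat.mk 0x1800000088000000080000001800000000 0x38000000ff0000006e0000007800000028 7 8) 0 0 (step_sound _ 100 [rh1c636b43a8f687ef, (rh71222050f2c63a3a.shift 3 0)] (by decide +kernel))
noncomputable def rhc366d44422cfceba : CRef := CRef.mk (Pat.mk 0x1e00000002000000000000000000000000 0x600000006000000070000001e00000006000000070000000700000005 7 5) 0 0 (step_sound _ 161 [(rh3244c3cc8379b070.shift 0 4), rhc7e5ab9102d7be76] (by decide +kernel))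
noncomputable def rhd6a543980fee235b : CRef := CRef.mk (Pat.mk 0xf000000000 0xe000000fe0000007f 7 8) 0 0 (step_sound _ 35 [rh04797e9e06425c4e, (rh592c7139d2c44767.shift 1 0), (rhd9e126b8d991d1d4.shift 1 0), (rheae1728ff4a56756.shift 2 0)] (by decide +kernel))
noncomputable def rh06c54508efd5b78e : CRef := CRef.mk (Pat.mk 0x1e00000000000000000000000000000000 0x600000006000000070000001e00000007000000070000000700000005 7 5) 0 0 (step_sound _ 161 [(rh3244c3cc8379b070.shift 0 4), rh4ecd82622bb2807a] (by decide +kernel))
noncomputable def rhebdf8a79685b253f : CRef := CRef.mk (Pat.mk 0x100000001c000000080000000000000000 0xc0000000c0000000f0000001f0000001c0000001f0000003c0000001c 7 6) 0 0 (step_sound _ 35 [(rh71222050f2c63a3a.shift 3 0), rh7a421bfe33f4f6db] (by decide +kernel))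
noncomputable def rhc2254054aa567fd3 : CRef := CRef.mk (Pat.mk 0x8000000100000001c0000000800000000 0xc0000000e0000000f0000001c0000001c0000000f00000006 7 5) 0 0 (step_sound _ 99 [(rh37d9ceebb86d75d1.shift 2 1), (rh7b9fbdf6d2d059e4.shift 2 1), rhde1bb52c0ac1ef55] (by decide +kernel))
noncomputable def rh56e0a0be54e1894f : CRef := CRef.mk (Pat.mk 0x18000000d00000001000000000 0x670000007e000000d70000001000000010 7 8) 0 0 (step_sound _ 101 [(rhd6e447e81774439e.shift 3 2), rhe363d1375c84c1f2] (by decide +kernel))
noncomputable def rh7e91eb228d58437f : CRef := CRef.mk (Pat.mk 0x80000003800000000000000000000000000000000 0x140000001c0000001c0000000c000000780000001f0000001c0000001c00000014 7 7) 0 0 (step_sound _ 99 [(rh19b19bf0872cfe73.shift 2 0), (rh7d830273a9d6bf55.shift 2 0), (rh8774521e81d4f0dc.shift 2 2), (rhd1c1bbf10d9d7a4b.shift 0 2), (rhd9106766b9ff53c0.shift 2 3)] (by decide +kernel))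
noncomputable def rhcaf9d6b2d4250c67 : CRef := CRef.mk (Pat.mk 0x40000001c000000080000000000000000 0x8000000180000001b0000001f0000001c0000001f0000003c0000001c 7 6) 0 0 (step_sound _ 35 [rh681b3d5c394e141d, (rh7b1f1fb55310c477.shift 2 0)] (by decide +kernel))
noncomputable def rh9c4aa89fe3e19a97 : CRef := CRef.mk (Pat.mk 0x40000001c00000008000000000000000000000000 0x1c0000003c0000000f0000001c0000000f000000060000000600000006 7 6) 0 0 (step_sound _ 194 [rh20c60a9e737030c6, (rh2145e1d24b96a57e.shift 2 3)] (by decide +kernel))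
noncomputable def rh7e36fcb8550a5960 : CRef := CRef.mk (Pat.mk 0x7000000030000000200000000 0x2000000060000000600000007000000070000001f0000001d 7 5) 0 0 (step_sound _ 129 [rh0ff7ca71cb891e23, rh3f10543b05decd5c, (rh503dd4575245365b.shift 0 1)] (by decide +kernel))
noncomputable def rh303f0e5282a8371c : CRef := CRef.mk (Pat.mk 0x80000003800000008000000000000000000000000 0x1000000018000000780000000f0000003c0000001c00000014 7 7) 0 0 (step_sound _ 98 [(rh18965a982d73c794.shift 2 3), rh45aad2296a582ddd] (by decide +kernel))
noncomputable def rhc80ba0a8a87c5874 : CRef := CRef.mk (Pat.mk 0x40000001c00000008000000000000000000000000 0xc0000000c0000000c0000003c0000000f000000060000000600000006 7 6) 0 0 (step_sound _ 194 [(rh2145e1d24b96a57e.shift 2 3), rhd4806b0cf9dc8d58] (by decide +kernel))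
noncomputable def rh38e98a39fbf2939a : CRef := CRef.mk (Pat.mk 0xf000000000 0xf7000000fe0000007f 7 8) 0 0 (step_sound _ 35 [rh138c3774b73e0afc, (rh6601aa2ad49f5c8a.shift 1 0), rh988dac8d009f9f77, (rh9e97bba44c1b13e4.shift 1 0), (rheae1728ff4a56756.shift 2 0)] (by decide +kernel))
noncomputable def rhe9c3fa6cccae3b13 : CRef := CRef.mk (Pat.mk 0x180000001c0000000800000000 0xc0000001f0000001f0000001c0000001c0000000c00000004 7 5) 0 0 (step_sound _ 132 [rh29f8a89728dbb0f4, (rh5c5e593799055d58.shift 3 1)] (by decide +kernel))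
noncomputable def rh38fb9deebdacfdc8 : CRef := CRef.mk (Pat.mk 0xf000000000 0x7f000001fe0000000e 7 9) 0 0 (step_sound _ 35 [rh138c3774b73e0afc, (rh592c7139d2c44767.shift 1 0), (rhd5eb272e07a4e288.shift 2 1), (rhd64ac1b1180c5fc8.shift 1 1)] (by decide +kernel))
noncomputable def rh285a3e21cc6061bd : CRef := CRef.mk (Pat.mk 0x100000001e00000000000000000000000000000000 0x8000000180000001f00000030000000380000003800000028 7 6) 0 0 (step_sound _ 163 [(rh234d3faffc55fe0d.shift 1 0), (rh53b3c253cb0c65f4.shift 0 4)] (by decide +kernel))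
noncomputable def rhcdbae199e29b6a4f : CRef := CRef.mk (Pat.mk 0x20000001e000000000000000000000000 0x50000000700000007000000060000001e000000070000000600000006 7 5) 0 0 (step_sound _ 65 [(rheb0810cc63b001d8.shift 0 2), rhec171c2521398518] (by decide +kernel))
noncomputable def rh207cfd9c044cf941 : CRef := CRef.mk (Pat.mk 0xf000000000 0x7f000000fe0000000e 7 8) 0 0 (step_sound _ 35 [(rh4481494b8c6286f7.shift 1 0), (rh775ca1963e850b80.shift 1 0), rhaeac014a58998cf3, (rhd5eb272e07a4e288.shift 2 1)] (by decide +kernel))
noncomputable def rhb595b331e657aa2c : CRef := CRef.mk (Pat.mk 0x80000001c00000010000000000000000000000000 0x1c0000003c0000001f0000001c0000001f0000000f0000000c0000000c 7 6) 0 0 (step_sound _ 195 [(rh2145e1d24b96a57e.shift 3 3), rhe68f38a5f56f26d7] (by decide +kernel))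
noncomputable def rh62293d4d2214dbc9 : CRef := CRef.mk (Pat.mk 0x80000001c00000010000000080000000000000000 0x60000000f0000001c0000001c0000000f0000000e0000000c 7 5) 0 0 (step_sound _ 99 [(rh40241bd608e5be1a.shift 2 0), (rh46530d756bdf8511.shift 2 0), (rhb23b86f1cc387068.shift 0 1)] (by decide +kernel))
noncomputable def rhccdc418c5a37a28d : CRef := CRef.mk (Pat.mk 0x10000000d00000001800000000 0x1000000010000000d70000007e00000067 7 8) 0 0 (step_sound _ 37 [(rh3fc040e777f1679e.shift 3 1), rh506caafe38f6a489] (by decide +kernel))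
noncomputable def rhdb6ad9054628f17c : CRef := CRef.mk (Pat.mk 0x3800000008000000000000000000000000 0x140000001c0000001c0000001f000000780000000c0000001c0000001c00000014 7 7) 0 0 (step_sound _ 163 [rh68869c06f0be1da0, (rh7d830273a9d6bf55.shift 2 0), (rh8774521e81d4f0dc.shift 2 2), (rhb5ba847c57864cbc.shift 2 2), (rhd9106766b9ff53c0.shift 2 3)] (by decide +kernel))
noncomputable def rh6f2b59a7c05e06fb : CRef := CRef.mk (Pat.mk 0x80000001c00000004000000000000000000000000 0x1c0000003c0000001f0000001c0000001f0000001b0000001800000008 7 6) 0 0 (step_sound _ 195 [(rh5c5e593799055d58.shift 2 3), rh921d4a762d8c7ba0] (by decide +kernel))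
noncomputable def rh762cfac2eb3b9ad3 : CRef := CRef.mk (Pat.mk 0x80000001c000000040000000000000000 0x600000006000000060000000f0000001c0000000f0000003c0000001c 7 6) 0 0 (step_sound _ 34 [rh32485817747f77f3, (rh71222050f2c63a3a.shift 2 0)] (by decide +kernel))
noncomputable def rhf3a5f7dfc12e094d : CRef := CRef.mk (Pat.mk 0x20000000300000007000000000000000000000000 0x1d0000001f0000000700000007000000060000000600000002 7 5) 0 0 (step_sound _ 65 [(rh21abbb0076c5bdaf.shift 0 1), rh3cb04db3dd2b6a55, rha327c50ba1fc214e] (by decide +kernel))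
noncomputable def rhcc87e2d5d9dda917 : CRef := CRef.mk (Pat.mk 0x8000000380000000800000000 0x140000001c0000003c0000000f000000780000001800000010 7 7) 0 0 (step_sound _ 98 [rha538c21b219771ff, (rhf48373e13d2bc128.shift 2 2)] (by decide +kernel))
noncomputable def rh99ba061c30dc4c31 : CRef := CRef.mk (Pat.mk 0x80000001c000000040000000000000000 0x600000006000000060000000f0000003c0000000c0000000c0000000c 7 6) 0 0 (step_sound _ 34 [(rh71222050f2c63a3a.shift 2 0), rhb539ad84d0c044ca] (by decide +kernel))
noncomputable def rhd12dead1e978399a : CRef := CRef.mk (Pat.mk 0x7000000008 0x770000007e000000ec 7 8) 0 0 (step_sound _ 35 [rh6c92adc4b31fcdd5, (rheb0810cc63b001d8.shift 2 0)] (by decide +kernel))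
noncomputable def rh60648fb9b8df41c0 : CRef := CRef.mk (Pat.mk 0xf000000000 0x7f000000fe000000f7 7 8) 0 0 (step_sound _ 35 [(rh0d378fd9e8917c5a.shift 1 0), rh598c96e05d977516, rhbb13f9e1d387f64a, (rhd161285105292100.shift 1 0), (rhd5eb272e07a4e288.shift 2 1)] (by decide +kernel))
noncomputable def rhb97d5a7e7999a19a : CRef := CRef.mk (Pat.mk 0x80000001c00000018000000000000000000000000 0x40000000c0000001c0000001c0000001f0000001f0000000c 7 5) 0 0 (step_sound _ 68 [rh5fbbeb39a5c0f570, (rh7b1f1fb55310c477.shift 3 1)] (by decide +kernel))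
noncomputable def rh1253c215c12f4310 : CRef := CRef.mk (Pat.mk 0xf000000000 0xe000001fe0000007f 7 9) 0 0 (step_sound _ 35 [rh598c96e05d977516, (rh775ca1963e850b80.shift 1 0), (rh94c710ab1ea57720.shift 1 0), (rheae1728ff4a56756.shift 2 0)] (by decide +kernel))
noncomputable def rh442e67139a662716 : CRef := CRef.mk (Pat.mk 0x20000000300000002000000000000000000000000 0x1000000070000000700000007000000030000000300000002000000070000000700000005 7 3) 0 0 (step_sound _ 65 [rh5c651669912fbab1, rh8cdd36b03d57a2f6, (rhd91b73d7ee353e95.shift 0 2), (rhe286c75f2739cce2.shift 0 1)] (by decide +kernel))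
noncomputable def rh20a944a0e95c783c : CRef := CRef.mk (Pat.mk 0x20000000600000002000000000000000000000000 0x40000000600000006000000060000000600000006000000070000000700000005 7 3) 0 0 (step_sound _ 193 [(rh14f80659e6313cc6.shift 1 3), rh49759b6975f15643, (rhd4b4beefcd67f51e.shift 1 2)] (by decide +kernel))
noncomputable def rh957c6f6c91365c95 : CRef := CRef.mk (Pat.mk 0x2000000030000000200000000000000000000000000000000 0x5000000070000000700000002000000030000000300000007000000070000000700000001 7 3) 0 0 (step_sound _ 225 [(rh03dfdf12d5937476.shift 0 3), (rh769be3fe24eee174.shift 0 4), (rhc85cc95794737cf7.shift 0 4), rhe08b3642bf78c2d5] (by decide +kernel))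
noncomputable def rh8b47f6d3f26d9283 : CRef := CRef.mk (Pat.mk 0x20000000600000002000000000000000000000000 0x50000000700000007000000060000000600000006000000060000000600000004 7 3) 0 0 (step_sound _ 65 [(rh20e56a1196e70fcc.shift 0 1), (rh301a6b3a9154ed36.shift 1 0), (rha707fb719e87fe6e.shift 1 1)] (by decide +kernel))
noncomputable def rhb80515605443557f : CRef := CRef.mk (Pat.mk 0x90000000b00000008000000040000000000000000 0x1000000010000000b0000000b0000000a0000001f0000001e00000010 7 5) 0 0 (step_sound _ 67 [rh707bc8304f381931, (rh932754581e0f4330.shift 2 1)] (by decide +kernel))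
noncomputable def rh2b8a9fe9bffb42b7 : CRef := CRef.mk (Pat.mk 0x8000000480000001c0000000800000000 0x170000001f0000007c0000001c0000000c00000004 7 7) 0 0 (step_sound _ 100 [(rh361cc68994bd8a63.shift 2 2), rhd2ce9161fbc8be7e] (by decide +kernel))
noncomputable def rh011518c4733e3011 : CRef := CRef.mk (Pat.mk 0x400000000c000000180000000000000000 0x100000001800000018000000180000007c0000001f0000001c0000001800000008 7 7) 0 0 (step_sound _ 97 [(rh2d6f15a43321faad.shift 2 0), (rhb739f4f82bb681b4.shift 0 2)] (by decide +kernel))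
noncomputable def rh3f29e71633996f42 : CRef := CRef.mk (Pat.mk 0x400000000c000000480000000000000000 0x140000001c0000001c0000007c0000001f000000780000001800000008 7 7) 0 0 (step_sound _ 68 [rh2522513f6d2b3ea4, (rh2fe78cc5ca4405d8.shift 2 2)] (by decide +kernel))
noncomputable def rhe5af82f1721304f6 : CRef := CRef.mk (Pat.mk 0x180000000c0000000800000000 0x140000001f0000001f0000001c0000000c0000000c00000004 7 5) 0 0 (step_sound _ 131 [(rh03dfdf12d5937476.shift 2 0), (rh1741680720c097b4.shift 2 1), rhb21789aa77e9eb60] (by decide +kernel))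
noncomputable def rha80f473e899b2d1f : CRef := CRef.mk (Pat.mk 0x120000000200000002000000000000000000000000 0x500000007000000070000001f0000000600000003000000030000000300000001 7 5) 0 0 (step_sound _ 65 [(rh1726a00b0a8befd0.shift 0 1), (rh771d065bdc85bf2d.shift 0 1), (rhb9834bf7884fd26e.shift 0 2), rhcab3157f7bdcba3e] (by decide +kernel))
noncomputable def rha4644d8277f344b8 : CRef := CRef.mk (Pat.mk 0x3000000030000000200000003000000000 0x30000000380000003e0000007e0000004f 7 7) 0 0 (step_sound _ 38 [(rh55afc6a59410cf00.shift 5 0), rhc5bc17d30c73a29c] (by decide +kernel))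
noncomputable def rhb33adeffb73ebed9 : CRef := CRef.mk (Pat.mk 0x3800000020000000000000000000000000 0x4000000170000007e0000003e000000680000002800000020 7 7) 0 0 (step_sound _ 130 [(rhafa5a7051d37b143.shift 1 1), (rhbf16b676fa95bcc8.shift 1 0), (rhd1d05263fabc0227.shift 0 3)] (by decide +kernel))
noncomputable def rhacb9c406a8c74341 : CRef := CRef.mk (Pat.mk 0x200000000c0000000c000000000000000000000000 0xc0000001f000000780000000c0000000c0000001c0000001c0000001c 7 7) 0 0 (step_sound _ 163 [(rh19164014fbbda9ed.shift 2 0), (rh503dd4575245365b.shift 2 2), (rh8aeb7f9031bede11.shift 2 0), (rhcde9ba80e1f7840a.shift 0 3)] (by decide +kernel))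
noncomputable def rha51492af436893ed : CRef := CRef.mk (Pat.mk 0xc0000001a00000002000000000000000000000000 0x140000001c0000001e0000001f0000007c0000001c00000014 7 7) 0 0 (step_sound _ 99 [rh49e937fef83925ff, (rhd1779d7de7f8215b.shift 2 0), (rhda02c4ce0b224328.shift 0 3)] (by decide +kernel))
noncomputable def rhf91074c71e1ee924 : CRef := CRef.mk (Pat.mk 0xe0000001a00000002000000000000000000000000 0x140000001e0000001a0000001f0000007f0000001f00000015 7 7) 0 0 (step_sound _ 99 [rh1b9022be4f7af407, rh49e937fef83925ff, (rhd8a13c7f042cc6ea.shift 1 2)] (by decide +kernel))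
noncomputable def rha88610d1a6ef75a7 : CRef := CRef.mk (Pat.mk 0x60000001a000000020000000000000000 0x60000001e0000003f0000000f00000007 7 6) 0 0 (step_sound _ 98 [(rheb0810cc63b001d8.shift 0 2), rhfe33765a17a787ca] (by decide +kernel))
noncomputable def rhebca3adafb798950 : CRef := CRef.mk (Pat.mk 0x80000001c000000480000000800000000 0x40000000c0000001c0000007c0000001f00000017 7 7) 0 0 (step_sound _ 68 [(rh2fe78cc5ca4405d8.shift 2 2), rh4f4bb60af547fd11] (by decide +kernel))
noncomputable def rhe01ac23c3e93dbb4 : CRef := CRef.mk (Pat.mk 0x180000000c0000004000000000000000000000000000000000 0x8000000180000001c0000001f0000007c00000018000000180000001800000010 7 7) 0 0 (step_sound _ 161 [(rh53b3c253cb0c65f4.shift 0 5), (rha9059ac5164f5966.shift 2 0)] (by decide +kernel))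
noncomputable def rhf92610fb00690c59 : CRef := CRef.mk (Pat.mk 0x480000000c00000040000000000000000000000000 0x800000018000000780000001f0000007c0000001c0000001c00000014 7 7) 0 0 (step_sound _ 164 [(rh361cc68994bd8a63.shift 2 4), rh56d43b3c08d854f8] (by decide +kernel))
noncomputable def rh2b342287611906be : CRef := CRef.mk (Pat.mk 0x80000000c00000018000000000000000000000000 0x40000000c0000000c0000001c0000001f0000001f00000014 7 5) 0 0 (step_sound _ 67 [(rh6eff4158bb400f47.shift 2 0), (rha7f1df9541b640ab.shift 0 1), (rhe286c75f2739cce2.shift 2 1)] (by decide +kernel))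
noncomputable def rh9a10ede7917326db : CRef := CRef.mk (Pat.mk 0x20000000200000012000000000000000000000000 0x1000000030000000300000003000000060000001f000000070000000700000005 7 5) 0 0 (step_sound _ 193 [rh47992774edf9829f, (rh5abfc4c9d959be03.shift 0 2), (rh9aa6ac2fc87719f2.shift 0 1), (rhc4526fc8abf298b6.shift 0 1)] (by decide +kernel))
noncomputable def rhdebad1ff0712b889 : CRef := CRef.mk (Pat.mk 0x30000000200000003000000030 0x4f0000007e0000003e0000003800000030 7 7) 0 0 (step_sound _ 102 [(rh2f68792b6b779e96.shift 5 0), rh9cef20c64a0ddc04] (by decide +kernel))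
noncomputable def rhab2d0b2fbf579746 : CRef := CRef.mk (Pat.mk 0x20000000380000000000000000 0x2000000028000000680000003e0000007e0000001700000004 7 7) 0 0 (step_sound _ 66 [(rh21460d2d48a35cb8.shift 1 0), (rh21d582c147e7e118.shift 0 1), (rh7389ce0f5df2a3df.shift 1 1)] (by decide +kernel))
noncomputable def rha5bcb9c19860faf0 : CRef := CRef.mk (Pat.mk 0xc0000000c000000200000000000000000 0x1c0000001c0000001c0000000c0000000c000000780000001f0000000c 7 7) 0 0 (step_sound _ 67 [rh38744284f81f2e95, (rh3cb04db3dd2b6a55.shift 2 0), (rh6b7fca735142933a.shift 2 1), (rh7dea84c185fa7892.shift 2 1)] (by decide +kernel))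
noncomputable def rh04c51f7f10c01fc5 : CRef := CRef.mk (Pat.mk 0x20000001a0000000c00000000 0x140000001c0000007c0000001f0000001e0000001c00000014 7 7) 0 0 (step_sound _ 99 [(rh7a7e08304268422e.shift 2 0), rhbe4c8798541a44ad, (rhd8be3b7ca6adb62f.shift 0 2)] (by decide +kernel))
noncomputable def rh68a54c1cf70d3e04 : CRef := CRef.mk (Pat.mk 0x20000001a0000000e00000000 0x150000001f0000007f0000001f0000001a0000001e00000014 7 7) 0 0 (step_sound _ 99 [(rh5fc67bac28a8b5bb.shift 1 0), rhbe4c8798541a44ad, rhfb9fb48a5e63ed80] (by decide +kernel))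
noncomputable def rh655caa2f2fd5fd70 : CRef := CRef.mk (Pat.mk 0x20000001a00000006 0x70000000f0000003f0000001e00000006 7 6) 0 0 (step_sound _ 34 [(rh3244c3cc8379b070.shift 0 1), rhd447f8f18bc0d94a] (by decide +kernel))
noncomputable def rh3d44f0a8525e81a5 : CRef := CRef.mk (Pat.mk 0x8000000180000001c000000100000000000000000 0x170000001f0000001c0000001c0000001c0000000c0000000c 7 5) 0 0 (step_sound _ 67 [(rh1e309b005ffa1b36.shift 3 0), (rhc4526fc8abf298b6.shift 2 0), (rhcc0b998e30e606a0.shift 0 1)] (by decide +kernel))
noncomputable def rhd499da3447cd2f43 : CRef := CRef.mk (Pat.mk 0x100000001c000000180000000800000000 0xc0000000c0000001c0000001c0000001c0000001f00000017 7 5) 0 0 (step_sound _ 131 [(rh771d065bdc85bf2d.shift 2 0), rhba638d1b68590935, (rhfc7c29d8e65d775f.shift 3 1)] (by decide +kernel))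
noncomputable def rhfb42c09541988aac : CRef := CRef.mk (Pat.mk 0x1000000010000000180000001800000000 0x2c0000003f0000001f000000180000001800000010 7 6) 0 0 (step_sound _ 131 [rh323c3e782ab9eec1, (rh50fbb5868c909700.shift 3 1)] (by decide +kernel))
noncomputable def rhaa0e543bdcebd29e : CRef := CRef.mk (Pat.mk 0x80000000f0000000000000000 0x1c0000003c0000000f0000000f0000001c0000000c 7 6) 0 0 (step_sound _ 35 [rh991cf53549871a3b, (rhe25b0a99195a5d59.shift 0 1)] (by decide +kernel))
noncomputable def rh9e26cbf840adee11 : CRef := CRef.mk (Pat.mk 0xf000000080000000000000000 0xc0000001c0000000f0000000f0000003c0000001c 7 6) 0 0 (step_sound _ 131 [(rh33e738c4ed385b9f.shift 0 3), rh71683d90e5140b28] (by decide +kernel))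
noncomputable def rhfa744b509e7e69f3 : CRef := CRef.mk (Pat.mk 0x1e000000040 0xf000001fe000000ff 7 9) 0 0 (step_sound _ 36 [(rh3918eeb6c53434d8.shift 1 0), rh554009a2f490582e, (rha0ae8adeb1dbcf8d.shift 1 0), (rheae1728ff4a56756.shift 3 0)] (by decide +kernel))
noncomputable def rh274118944d245832 : CRef := CRef.mk (Pat.mk 0x78000000100000000000000000 0x4000000040000000e0000007e000000370000000200000002 7 7) 0 0 (step_sound _ 130 [(rh3f8766e6ecb455ce.shift 2 3), rhd402b3e5c025c443] (by decide +kernel))
noncomputable def rheba7d54923b0dec4 : CRef := CRef.mk (Pat.mk 0x800000000000000100000003800000000 0x8000000080000003e000000ff000000c7 7 8) 0 0 (step_sound _ 67 [rha1d3b3378370ef82, (rhe2b63c00a3d7bb73.shift 1 1), rhfc39f041bb105480] (by decide +kernel))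
noncomputable def rhe620defc67453408 : CRef := CRef.mk (Pat.mk 0x2000000020000000200000003000000000 0x100000003000000020000001fe000000fe0000004f 7 9) 0 0 (step_sound _ 38 [(rh55afc6a59410cf00.shift 5 0), rhccb787986ef413a0] (by decide +kernel))
noncomputable def rhe45bb01ac4479772 : CRef := CRef.mk (Pat.mk 0x2000000020000000000000007000000000 0x20000000200000002f0000007e000000ef 7 8) 0 0 (step_sound _ 35 [(rh49bdc49f6b132823.shift 3 0), (rh592c7139d2c44767.shift 1 0), rh708c3bc8fe2f3084] (by decide +kernel))
noncomputable def rhb40da17b8b619f22 : CRef := CRef.mk (Pat.mk 0x4000000000000000000000007800000000 0x4000000040000000ce0000007e00000037 7 8) 0 0 (step_sound _ 70 [(rh33e738c4ed385b9f.shift 3 1), rhd3511a1ffe3d351e] (by decide +kernel))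
noncomputable def rh97bdf0e9e8dcc28c : CRef := CRef.mk (Pat.mk 0x80000000a000000080000000800000000 0x80000000f0000007c0000007e000000f4 7 8) 0 0 (step_sound _ 34 [rh0ec2382b32a42144, (rh932754581e0f4330.shift 2 0)] (by decide +kernel))
noncomputable def rh44ea481e962519f9 : CRef := CRef.mk (Pat.mk 0x1e0000001000000010000000180000000000000000 0x70000003e0000001b000000120000001e0000003000000020 7 6) 0 0 (step_sound _ 36 [rh82dbb2a811ff8735, (rhffd04209dc8ea796.shift 3 1)] (by decide +kernel))
noncomputable def rhbbb03ad99d265c45 : CRef := CRef.mk (Pat.mk 0x1e0000001000000010000000300000001000000000 0x4000000070000003e0000001300000012000000f20000001800000008 7 8) 0 0 (step_sound _ 35 [(rh4cadbc20473cb535.shift 0 1), (rh932754581e0f4330.shift 3 0)] (by decide +kernel))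
noncomputable def rh774743791e4471f2 : CRef := CRef.mk (Pat.mk 0x400000007000000040000000400000000 0x4000000070000003e0000003f0000007a 7 7) 0 0 (step_sound _ 33 [rh78bf3dca3f0ef968, (rh932754581e0f4330.shift 1 0)] (by decide +kernel))
noncomputable def rh61a6fa8e2424243b : CRef := CRef.mk (Pat.mk 0x80000000a0000000800000008000000000000000000000000 0x10000000180000000f0000000c0000000c0000001c0000001c00000010 7 5) 0 0 (step_sound _ 196 [rh0e0726b30f9aa72d, (rh2f68792b6b779e96.shift 3 3)] (by decide +kernel))
noncomputable def rh53c0a6bc31fc445c : CRef := CRef.mk (Pat.mk 0x180000000a000000080000000800000000000000000000000000000000 0x180000000f0000007c0000001f0000000c0000001c0000001c00000014 7 7) 0 0 (step_sound _ 194 [(rh53b3c253cb0c65f4.shift 0 6), rh874890f1e023bbfc] (by decide +kernel))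
noncomputable def rhb06c1ab6a73015a1 : CRef := CRef.mk (Pat.mk 0x800000018000000180000001800000000 0x18000000180000001c000000ff000000e7 7 8) 0 0 (step_sound _ 34 [(rh932754581e0f4330.shift 2 0), rhf86335e9ec8a1938] (by decide +kernel))
noncomputable def rhf64e3cdee122ddfe : CRef := CRef.mk (Pat.mk 0xf000000040000000000000000 0x2000000020000000700000003f0000003e0000001000000010 7 7) 0 0 (step_sound _ 68 [(rh96851dee118c1ba3.shift 0 2), (rhbacce1a49aabf8ab.shift 1 0)] (by decide +kernel))
noncomputable def rh17c44794849beffc : CRef := CRef.mk (Pat.mk 0x180000001e000000080000000c00000000 0x1b0000001e000001dc000000fc000000f0 7 9) 0 0 (step_sound _ 36 [rh1cab97c6889177df, (rh55afc6a59410cf00.shift 3 0)] (by decide +kernel))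
noncomputable def rh98676b1f4c927e47 : CRef := CRef.mk (Pat.mk 0x600000006000000020000000300000000 0x60000000e0000007b0000003f0000007c 7 7) 0 0 (step_sound _ 34 [(rh55afc6a59410cf00.shift 1 0), rh7e021f606e96b058] (by decide +kernel))
noncomputable def rh67bdc841705b645f : CRef := CRef.mk (Pat.mk 0x1000000000000000080000001c00000000 0x10000000100000007c000000ff000000e3 7 8) 0 0 (step_sound _ 68 [(rh0bb882ba86b2372d.shift 0 1), rh45c45079fb1e92ed, (rhde83e62c415bcc31.shift 2 0), (rhf9d36e158778ce35.shift 1 1)] (by decide +kernel))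
noncomputable def rhd275c188bb062996 : CRef := CRef.mk (Pat.mk 0x600000002000000020000000200000000 0x60000000e0000003f0000001f0000003d 7 6) 0 0 (step_sound _ 34 [(rh55afc6a59410cf00.shift 1 0), rhd538ee43c30aba29] (by decide +kernel))
noncomputable def rh443c7b3254f5e65b : CRef := CRef.mk (Pat.mk 0x800000000000000000000000700000004 0x800000008000000f80000007f000000fe 7 8) 0 0 (step_sound _ 35 [rh52f94888bbeb9de6, rh6f53ac66167616a2, rhe29fb5dfd03cc063, rhfca48bdea898f94b] (by decide +kernel))
noncomputable def rh1a127fc7471c4614 : CRef := CRef.mk (Pat.mk 0x2000000020000000000000005000000040 0x2000000020000000270000007e000000e7 7 8) 0 0 (step_sound _ 37 [rhc59ba9a1f24cb412, (rhff0f29cb645b05f7.shift 5 0)] (by decide +kernel))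
noncomputable def rh7fcea06424a643f2 : CRef := CRef.mk (Pat.mk 0x3800000000 0x3e7000001fe000003df 7 10) 0 0 (step_sound _ 38 [(rh06db8ceda6269a47.shift 2 0), (rh205dc383ce3b31ea.shift 2 0), (rh3b00e9e9432b8f40.shift 2 0), (rh3fc3a7fb6866dcd4.shift 3 0), rh988dac8d009f9f77] (by decide +kernel))
noncomputable def rh72b2b5614a542436 : CRef := CRef.mk (Pat.mk 0x400000004000000000000000e00000000 0x400000004000000f40000007e000000f7 7 8) 0 0 (step_sound _ 36 [rh205dc383ce3b31ea, rh316d0c7c5292e4bb, rh3b00e9e9432b8f40, (rh3fc3a7fb6866dcd4.shift 1 0)] (by decide +kernel))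
noncomputable def rhdf7c7c6d155ed2f8 : CRef := CRef.mk (Pat.mk 0x800000008000000080000001800000000 0x800000008000001ff000000fe000001e4 7 9) 0 0 (step_sound _ 34 [rh27a98746c8065cd1, (rh932754581e0f4330.shift 2 0)] (by decide +kernel))
noncomputable def rh8dd0bcfa2b541f12 : CRef := CRef.mk (Pat.mk 0x1000000000000000000000001e0000001e000000000000000000000000 0x1000000010000000100000001e0000001e0000003f0000000b00000003 7 6) 0 0 (step_sound _ 164 [rh81378a1316c60854, (rhee230b994cc8b773.shift 3 3)] (by decide +kernel))
noncomputable def rhea4157a0a89ac41d : CRef := CRef.mk (Pat.mk 0x1000000000000000000000000e00000008 0x1000000010000000f00000007e000000ff 7 8) 0 0 (step_sound _ 36 [rh205dc383ce3b31ea, (rh300eedc557b86950.shift 1 0), (rhfca48bdea898f94b.shift 1 0)] (by decide +kernel))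
noncomputable def rhda51b6a18a91e9e4 : CRef := CRef.mk (Pat.mk 0x1e0000000200000000000000000000000000000000 0x600000006000000070000001e0000000600000007000000070000000700000005 7 5) 0 0 (step_sound _ 193 [(rh3244c3cc8379b070.shift 0 5), rhd37b5d59e7e30cba] (by decide +kernel))
noncomputable def rhdb909085e775a4a4 : CRef := CRef.mk (Pat.mk 0x1c00000010000000100000001000000000 0x200000002000000030000003f0000001f000000140000001000000010 7 6) 0 0 (step_sound _ 99 [(rh7b1f1fb55310c477.shift 3 0), (rhf82a4e9f7d8e0938.shift 0 2)] (by decide +kernel))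
noncomputable def rh205d2373c91defc1 : CRef := CRef.mk (Pat.mk 0x80000000a0000000800000008000000000000000000000000 0x10000000180000000f0000000c000000180000001c0000001c00000004 7 5) 0 0 (step_sound _ 196 [(rh2f68792b6b779e96.shift 3 3), rhe4f40abe6faedc45] (by decide +kernel))
noncomputable def rh1a51befed60b53dd : CRef := CRef.mk (Pat.mk 0x1c00000018000000100000000800000000 0x1c0000007f000000770000001e00000014 7 7) 0 0 (step_sound _ 101 [rhab683638ce7ac4bc, (rhf48373e13d2bc128.shift 2 3)] (by decide +kernel))
noncomputable def rh16c6ab373202da1b : CRef := CRef.mk (Pat.mk 0x180000000c000000080000000800000000000000000000000000000000 0x780000000c0000000f0000007c000000180000001c0000001c00000014 7 7) 0 0 (step_sound _ 229 [(rh18965a982d73c794.shift 2 6), rhb792ca9aa5a506c2] (by decide +kernel))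
noncomputable def rh38497638916a38c6 : CRef := CRef.mk (Pat.mk 0x40000000f000000040000000000000000 0x1c0000000f0000001e0000007c0000001c 7 7) 0 0 (step_sound _ 67 [rhd599edade4065ea1, (rhe25b0a99195a5d59.shift 0 2)] (by decide +kernel))
noncomputable def rh743587a59db56a03 : CRef := CRef.mk (Pat.mk 0x80000001e000000080000000000000000 0x380000003e0000000f0000003c0000001c 7 6) 0 0 (step_sound _ 65 [(rh3b979dd43a4ef322.shift 1 0), (rheb0810cc63b001d8.shift 0 2)] (by decide +kernel))
noncomputable def rhde588f480392264b : CRef := CRef.mk (Pat.mk 0x1800000038000000100000001000000000 0x40000001e000000380000007c0000001f0000000c 7 7) 0 0 (step_sound _ 130 [(rhb739f4f82bb681b4.shift 1 3), rhdc1c0c16c2a4b291] (by decide +kernel))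
noncomputable def rh176ec6ecefc73f1f : CRef := CRef.mk (Pat.mk 0x2000000000000000000000003c0000001c000000000000000800000000 0x2000000020000000230000003f0000001c0000001c0000001c00000014 7 6) 0 0 (step_sound _ 129 [rh529aad0c391f6c52, (rhb739f4f82bb681b4.shift 0 3)] (by decide +kernel))
noncomputable def rhfb7adce55fd8880a : CRef := CRef.mk (Pat.mk 0x4000000000000000040000007c00000038000000000000001000000000 0x4000000040000000440000007c000000380000002f0000007e000000ff 7 8) 0 0 (step_sound _ 37 [(rhb505705f313d68be.shift 5 1), (rhd02f44a45c1a55c1.shift 4 0), rhd9099c0fcccab693] (by decide +kernel))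
noncomputable def rhe1f711e9bcdcf7b8 : CRef := CRef.mk (Pat.mk 0x1000000010000000100000001800000000 0x1000000010000000ff000000fe000001e7 7 9) 0 0 (step_sound _ 37 [rh36bee48b13d0f906, (rh55afc6a59410cf00.shift 4 0)] (by decide +kernel))
noncomputable def rhda13bf75e51d42a6 : CRef := CRef.mk (Pat.mk 0xc00000008000000000000003c00000000000000000000000000000000 0xf0000007c000000700000003c00000060000000700000007000000050 7 7) 0 0 (step_sound _ 165 [(rh33e738c4ed385b9f.shift 2 4), rh739d9af03f816b0b] (by decide +kernel))
noncomputable def rh7542131adc1aa0d7 : CRef := CRef.mk (Pat.mk 0xf00000000000000000000000000000000 0x40000000c0000001c0000000f0000001c0000001c0000001c00000014 7 5) 0 0 (step_sound _ 99 [rhc0cfff9cca2e2ae2, (rhe25b0a99195a5d59.shift 0 3)] (by decide +kernel))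
noncomputable def rheb928ba02c1bb8b4 : CRef := CRef.mk (Pat.mk 0x200000002000000020000000200000000000000000000000000000000 0x10000000300000007000000060000000600000003000000070000000700000004 7 3) 0 0 (step_sound _ 224 [rh118a82f34281509b, (rh50fbb5868c909700.shift 0 4)] (by decide +kernel))
noncomputable def rh0057bf2ed1c643a3 : CRef := CRef.mk (Pat.mk 0x80000000800000008000000080000000800000000000000000000000000000000 0x8000000180000007c0000000f0000001c000000180000001c0000001c00000014 7 7) 0 0 (step_sound _ 99 [(rh9b4dba8c043d8c52.shift 0 3), (rhd29a1fb688eae70f.shift 3 2), (rhf97245a3d45e02d4.shift 2 0)] (by decide +kernel))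
noncomputable def rhb28d70720f337bcb : CRef := CRef.mk (Pat.mk 0x80000000800000008000000080000000800000000000000000000000000000000 0x8000000180000007c0000001f0000000c000000080000001c0000001c00000014 7 7) 0 0 (step_sound _ 162 [rh04890f807bcd6f7c, (rh932754581e0f4330.shift 2 4)] (by decide +kernel))
noncomputable def rh135e4dfc2226d772 : CRef := CRef.mk (Pat.mk 0x3000000030000000200000002000000000 0xf0000003e000000ff000000700000003e00000018 7 8) 0 0 (step_sound _ 36 [rh648066be61c98290, (rh932754581e0f4330.shift 4 0)] (by decide +kernel))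
noncomputable def rh3e2dc9d20b376ff1 : CRef := CRef.mk (Pat.mk 0x1000000010000000100000003800000000 0x800000018000000180000003e000000ff000000c6 7 8) 0 0 (step_sound _ 131 [rh41cd4512e521788a, (rh50fbb5868c909700.shift 3 1)] (by decide +kernel))
noncomputable def rh2fa6876bc5d9c7cb : CRef := CRef.mk (Pat.mk 0x1000000010000000100000001000000000 0x1000000010000000ff000000fe0000002f 7 8) 0 0 (step_sound _ 35 [(rh932754581e0f4330.shift 3 0), rhd9722cb2c16a04f3] (by decide +kernel))
noncomputable def rh40810c163117d68c : CRef := CRef.mk (Pat.mk 0x1800000038000000100000000000000000 0x1e0000003f0000007f0000000600000006 7 7) 0 0 (step_sound _ 130 [rh1ffd366bc23a24b3, (rhb739f4f82bb681b4.shift 1 3)] (by decide +kernel))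
noncomputable def rhc9adee06efc10ab6 : CRef := CRef.mk (Pat.mk 0x8000000080000000000000010000000140000000e0000000000000000 0x80000003800000030000000300000001e0000003f0000003000000020 7 6) 0 0 (step_sound _ 99 [(rh521093436c3d21b6.shift 1 0), (rh53b3c253cb0c65f4.shift 0 2)] (by decide +kernel))
noncomputable def rh6602a7c6805e8a1a : CRef := CRef.mk (Pat.mk 0x8000000180000001e00000002 0x500000007000000070000000f0000001b0000001e00000006 7 5) 0 0 (step_sound _ 65 [(rh3244c3cc8379b070.shift 0 1), rh5545ba46bce0adc6] (by decide +kernel))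
noncomputable def rh44387fa9c06e0d2b : CRef := CRef.mk (Pat.mk 0x8000000080000000e000000000000000000000000 0x8000000ff0000007e000000f00000001000000010 7 8) 0 0 (step_sound _ 100 [(rh394e80a462af5b2f.shift 0 2), (rh8377537580a72741.shift 1 2), (rhd132b680030c88e0.shift 1 0), (rhe6bdd62e1711df0b.shift 1 3)] (by decide +kernel))
noncomputable def rhefd08f920351276a : CRef := CRef.mk (Pat.mk 0x180000000a00000000 0x38000000ff000000e7 7 8) 0 0 (step_sound _ 34 [(rh53b3c253cb0c65f4.shift 0 1), rhb72fb263fa9dc0ad] (by decide +kernel))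
noncomputable def rhc21bc5d93c5770e7 : CRef := CRef.mk (Pat.mk 0x80000000a0000000800000008000000000000000000000000 0x180000001f0000000c000000180000001c0000001c00000004 7 5) 0 0 (step_sound _ 68 [rh26b7f40eec588933, (rhd3458b32566d63f7.shift 3 2)] (by decide +kernel))
noncomputable def rh7ee559e0b2173ec0 : CRef := CRef.mk (Pat.mk 0xa000000020000000000000001000000070000000000000000 0xa0000001e0000001c0000007f0000003f0000007800000008 7 7) 0 0 (step_sound _ 67 [(rh167fff566cb27b75.shift 0 1), (rh2aac33c566332a8c.shift 0 1), (rh3fc3a7fb6866dcd4.shift 0 1), rh578bea06d7421f4f, (rh790acd67f4fffd04.shift 0 2)] (by decide +kernel))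
noncomputable def rh5ca3840da9e83c1a : CRef := CRef.mk (Pat.mk 0x8000000080000000e000000000000000000000000 0x80000007c000000fe000000ff0000001000000010 7 8) 0 0 (step_sound _ 100 [(rha866c51301bf0130.shift 1 2), (rhc3fe8bc0649644d1.shift 0 1), (rhc7b95363f9049b11.shift 1 0), (rhd132b680030c88e0.shift 1 0)] (by decide +kernel))
noncomputable def rh2cc67ae61edd03dc : CRef := CRef.mk (Pat.mk 0x40000000400000007000000040 0x20000000600000005f000001fe0000007f 7 9) 0 0 (step_sound _ 101 [(rh50fbb5868c909700.shift 5 0), rh6e9177f6985b9407] (by decide +kernel))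
noncomputable def rh52d416b6acb09eb7 : CRef := CRef.mk (Pat.mk 0x20000000200000001800000018000000040000000000000000 0x2200000062000000df000000ff000000c60000000400000004 7 8) 0 0 (step_sound _ 101 [(rh51e1c6fcf00b5e70.shift 3 2), rh55c3f0c47362bbf8] (by decide +kernel))
noncomputable def rha03b15ffdc27be10 : CRef := CRef.mk (Pat.mk 0x8000000100000001c000000100000000000000000 0xa0000001b0000003f000000170000001400000004 7 6) 0 0 (step_sound _ 131 [rh08b442d520f588b0, (rh7b1f1fb55310c477.shift 3 1)] (by decide +kernel))
noncomputable def rhddc3a4b352a66132 : CRef := CRef.mk (Pat.mk 0x8000000100000001c000000100000000000000000 0xc0000001f0000003f000000130000001200000002 7 6) 0 0 (step_sound _ 131 [(rh7b1f1fb55310c477.shift 3 1), rhd8abe2cf75b06c77] (by decide +kernel))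
noncomputable def rhc4c2b6ca8dd8bf9c : CRef := CRef.mk (Pat.mk 0x180000001c0000000000000000 0x200000002000000070000001f0000003f0000000400000004 7 6) 0 0 (step_sound _ 65 [(rh53b3c253cb0c65f4.shift 0 2), rh949976fa5cb15df0] (by decide +kernel))
noncomputable def rhfb0864d8983e37ee : CRef := CRef.mk (Pat.mk 0x8000000100000001c0000001000000000 0x30000000b0000001f0000001f0000001700000014 7 5) 0 0 (step_sound _ 99 [(rh7b1f1fb55310c477.shift 3 0), rhbb7213d4724395ac] (by decide +kernel))
noncomputable def rh1e1ac93a173399bb : CRef := CRef.mk (Pat.mk 0x18000000100000001c0000001000000000 0x2000000020000001f0000001f0000007c0000001600000014 7 7) 0 0 (step_sound _ 99 [(rh7b1f1fb55310c477.shift 3 0), rhe703915caf390f05] (by decide +kernel))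
noncomputable def rh1fab2f508e558282 : CRef := CRef.mk (Pat.mk 0x80000001c000000040000001000000000 0x600000006000000060000000f0000001c000000070000003e00000006 7 6) 0 0 (step_sound _ 34 [(rh71222050f2c63a3a.shift 2 0), rhb9a14cc2bf7ca41b] (by decide +kernel))
noncomputable def rh7980c084e5a2508a : CRef := CRef.mk (Pat.mk 0x4000000000000000000000001800000000000000380000000000000000 0x100000007c0000001c0000000c000000180000001f000000f80000001c00000008 7 8) 0 0 (step_sound _ 99 [(rh6c358308cb551af8.shift 2 0), (rh88d29e99557eedac.shift 2 1), (rhf60aa8aede119d3b.shift 0 2)] (by decide +kernel))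
noncomputable def rh7eec747258500b6d : CRef := CRef.mk (Pat.mk 0xa0000000200000001800000018000000140000000000000000 0xa2000000e2000003df000001ff000003fc0000000600000006 7 10) 0 0 (step_sound _ 101 [(rh51e1c6fcf00b5e70.shift 3 2), (rh653dd416ea360d58.shift 2 2), (rh7414e988019ffba0.shift 2 2), (rh79b3c29022acbdf3.shift 2 3), (rhdf4d6f1e644f86a2.shift 2 2), rhe5e73707e1570203] (by decide +kernel))
noncomputable def rh9f46cebbd77ea71a : CRef := CRef.mk (Pat.mk 0x100000000000000002000000028000000280000000000000000 0x10000000110000003b0000001fe000001ef0000002000000020 7 10) 0 0 (step_sound _ 100 [(rh2820ca9a6c4f41b4.shift 0 2), (rh3d8b13f45fa02e2e.shift 1 0), (rh8ee80cc30e93a344.shift 2 2), (rhb1d4c672c39fd791.shift 2 2)] (by decide +kernel))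
noncomputable def rhcccb769001e7fd5d : CRef := CRef.mk (Pat.mk 0x100000001c000000140000000000000000 0xa0000000b0000001f0000003f000000140000001400000004 7 6) 0 0 (step_sound _ 131 [(rh4821dcf828b9d7bf.shift 2 0), rh885066b7bd8b27f9, (rhd361a1b8e258f449.shift 0 2), (rhfc7c29d8e65d775f.shift 3 1)] (by decide +kernel))
noncomputable def rh1604d298968a6f05 : CRef := CRef.mk (Pat.mk 0x180000001c000000140000000000000000 0x200000002000000070000001f0000007c000000740000001e00000016 7 7) 0 0 (step_sound _ 36 [(rh7b1f1fb55310c477.shift 3 0), rhcd88eeeeb8d03df1] (by decide +kernel))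
noncomputable def rh79e9e49a44a69e40 : CRef := CRef.mk (Pat.mk 0x10000000000000000200000002000000020000000200000000 0x1000000070000001f000000060000000200000002000000030000000300000001 7 5) 0 0 (step_sound _ 32 [(rh11db82d3f08a1900.shift 0 1), rh932754581e0f4330] (by decide +kernel))
noncomputable def rhbeeb5b6a1614ba10 : CRef := CRef.mk (Pat.mk 0x10000000000000000000000002800000028 0x1000000010000000387000001fe000001ef 7 10) 0 0 (step_sound _ 36 [rh2820ca9a6c4f41b4, rh3918eeb6c53434d8, (rh81964bdb208cb197.shift 2 0), (rh8ee80cc30e93a344.shift 2 0), (rhb1d4c672c39fd791.shift 2 0)] (by decide +kernel))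
noncomputable def rh2e5eb6eba75947cc : CRef := CRef.mk (Pat.mk 0x80000000800000000000000040000000e00000000 0x800000038000000300000007f0000003e00000077 7 7) 0 0 (step_sound _ 36 [rh06db8ceda6269a47, rh3b00e9e9432b8f40, rhfa9ddc4fd7f1eb21] (by decide +kernel))
noncomputable def rh36efc73395149816 : CRef := CRef.mk (Pat.mk 0x80000001a0000001e00000000 0x100000007000000070000000f0000001e0000001e00000003 7 5) 0 0 (step_sound _ 1 [rhcf2f6ec456840809, rheb0810cc63b001d8] (by decide +kernel))
noncomputable def rh3b766c197fe19002 : CRef := CRef.mk (Pat.mk 0x1000000010000000100000001800000000 0x80000001800000010000000ff000000fe00000027 7 8) 0 0 (step_sound _ 37 [rh3b51734cfd5ac5ac, (rh55afc6a59410cf00.shift 4 0)] (by decide +kernel))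
noncomputable def rh95b1c67da8338b3e : CRef := CRef.mk (Pat.mk 0xc00000008000000200000001c00000000 0x2f0000007c000000600000007c000000e0 7 8) 0 0 (step_sound _ 37 [(rh33e738c4ed385b9f.shift 2 1), rh5357a77916d7d836] (by decide +kernel))
noncomputable def rhecab815d28b38d35 : CRef := CRef.mk (Pat.mk 0x200000007000000000 0x7ef000003fe0000038f 7 11) 0 0 (step_sound _ 35 [(rh55c4ed4acec0f063.shift 1 0), (rh592c7139d2c44767.shift 1 0), (rh8d33df7ee954b6ed.shift 3 0), rha4e887c2a2a0f60b, (rhec46bd5500c722c9.shift 2 1)] (by decide +kernel))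
noncomputable def rh061cd29c2d4d3df3 : CRef := CRef.mk (Pat.mk 0x10000000200000007000000038000000000000000000000000 0x10000000ff0000007e000000380000000c0000000c0000000c 7 8) 0 0 (step_sound _ 131 [(rh3e0b38310ac09007.shift 0 4), (rh9d28402fdf0c02f9.shift 2 0), (rhba89ab7cb81bcc90.shift 1 3), (rhec46bd5500c722c9.shift 2 4)] (by decide +kernel))
noncomputable def rha6fe76383d94ebc9 : CRef := CRef.mk (Pat.mk 0x1800000010000000180000000c00000000 0x70000001f0000001e0000007c0000000c00000004 7 7) 0 0 (step_sound _ 99 [(rh3ca01cbd5ed32c8b.shift 0 1), (rh932754581e0f4330.shift 2 0)] (by decide +kernel))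
noncomputable def rhb6cb688e1e09da79 : CRef := CRef.mk (Pat.mk 0x3000000020000000100000001800000000 0xf0000003e00000077000000100000001800000008 7 7) 0 0 (step_sound _ 100 [(rh932754581e0f4330.shift 3 0), (rha82d1bb5d88b22d5.shift 0 1)] (by decide +kernel))
noncomputable def rhb4e9139ef6806937 : CRef := CRef.mk (Pat.mk 0x10000000180000001c 0x6000000060000007f0000007f0000001c 7 7) 0 0 (step_sound _ 37 [(rh18965a982d73c794.shift 2 0), rh4f71e1691a03ef23] (by decide +kernel))
noncomputable def rh760768b52a3c5f47 : CRef := CRef.mk (Pat.mk 0x40000000f00000000 0x1fc000000ff000001f0 7 9) 0 0 (step_sound _ 36 [(rh35e918dd76851f8c.shift 1 0), (rh4134bf0d9a53ff6e.shift 1 0), (rh9890f9d77740bbed.shift 0 1), rh9c71485ed59a17cd, (rhf5fa5e48e0784de2.shift 1 0)] (by decide +kernel))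
noncomputable def rhe1a71f68e7af08e4 : CRef := CRef.mk (Pat.mk 0x380000001800000010000000000000000000000000 0xc0000000f0000003c000000180000001c0000000c0000000c0000000c 7 6) 0 0 (step_sound _ 195 [(rh2145e1d24b96a57e.shift 3 3), rh330e51e681702a60] (by decide +kernel))
noncomputable def rh61fc01b276c27a00 : CRef := CRef.mk (Pat.mk 0x280000000800000000000000040000000e00000000 0x20000000280000003800000030000000ff0000007e000000f0 7 8) 0 0 (step_sound _ 36 [rh3fe88affbb7e4f13, (rh9c94213f6896c74a.shift 1 0), (rha93a5dd541ab8209.shift 1 0), (rhe3060b190bc0bc78.shift 0 1)] (by decide +kernel))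
noncomputable def rh6543bbf43e71ac7a : CRef := CRef.mk (Pat.mk 0x200000007000000010 0xc0000000c000000fe0000007e0000001f 7 8) 0 0 (step_sound _ 35 [rh5b2ce1e5aa4a4edd, (rhaa3beb7004a1e218.shift 2 0), (rhec46bd5500c722c9.shift 2 1)] (by decide +kernel))
noncomputable def rhf0b499fba42fe51c : CRef := CRef.mk (Pat.mk 0x8000000080000000f00000000000000000000000000000000 0x40000000c0000000c0000000f000000180000001c0000001c00000014 7 5) 0 0 (step_sound _ 99 [(rh47992774edf9829f.shift 2 0), (rhe25b0a99195a5d59.shift 0 3)] (by decide +kernel))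
noncomputable def rh8139b293fe6a9b84 : CRef := CRef.mk (Pat.mk 0x1a0000001000000002000000000000000000000000 0x40000001e0000003300000002000000070000000700000005 7 6) 0 0 (step_sound _ 162 [rh6575a3502d20688c, (rhe25b0a99195a5d59.shift 1 4)] (by decide +kernel))
noncomputable def rhdae8802aa1c6b8e6 : CRef := CRef.mk (Pat.mk 0x1000000030000000200000000800000000 0x10000000100000001f0000003e0000006f0000000800000008 7 7) 0 0 (step_sound _ 164 [(rh2145e1d24b96a57e.shift 4 2), rhb602a1e03e9f071f] (by decide +kernel))
noncomputable def rh8da1091cccc51351 : CRef := CRef.mk (Pat.mk 0x400000007800000000000000200000002800000000 0x5c000000f800000180000001ef000000fe000000ef 7 9) 0 0 (step_sound _ 36 [rh60cf39b278dc3bb4, (rh7109e54bdd9169dc.shift 2 1), (rha11dfd15f08f96e3.shift 2 1), rha4e887c2a2a0f60b] (by decide +kernel))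
noncomputable def rh9033d4dd7a934d39 : CRef := CRef.mk (Pat.mk 0x3c00000000000000000000000400000000 0x70000003e00000003000000070000000700000005 7 6) 0 0 (step_sound _ 161 [(rh3f8766e6ecb455ce.shift 1 4), rh4a9181fbc826c4de] (by decide +kernel))
noncomputable def rh125a33bad65ba726 : CRef := CRef.mk (Pat.mk 0x100000001c000000000000003800000000 0xf00000007c000000e7000000fe000001c7 7 9) 0 0 (step_sound _ 70 [rh5e601430b8bc2e39, (rh9c0c987cd4d55b29.shift 2 2), (rhfb7b2b7f3800d903.shift 2 0)] (by decide +kernel))
noncomputable def rh8d2713e2e287ebae : CRef := CRef.mk (Pat.mk 0x400000000000000080000000e000000000000000000000000 0x5000000070000000f0000001b0000001e0000003b0000001000000010 7 6) 0 0 (step_sound _ 100 [(rh55a0927ffbbcbd8a.shift 0 2), (rhbbdb8ee59ca3931f.shift 1 0)] (by decide +kernel))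
noncomputable def rh26ac81903d4f0969 : CRef := CRef.mk (Pat.mk 0x1400000000000000000000001e00000000 0x1000000070000001f00000006000000030000001e00000003 7 5) 0 0 (step_sound _ 65 [(rh3244c3cc8379b070.shift 0 1), rh38694c9c324ce88b] (by decide +kernel))
noncomputable def rh49846b79d756d913 : CRef := CRef.mk (Pat.mk 0x18000000100000001c0000001000000000 0x2000000020000001f0000001f0000007c0000001600000014 7 7) 0 0 (step_sound _ 99 [rh30c4671047d46b83, (rh7b1f1fb55310c477.shift 3 0)] (by decide +kernel))
noncomputable def rhdd5696e42e56377b : CRef := CRef.mk (Pat.mk 0x80000000a0000001e00000000000000000000000000000000 0x400000004000000040000000e0000000e0000001e0000000b000000070000000700000005 7 5) 0 0 (step_sound _ 97 [rhd9a687a3b8533857, (rheb0810cc63b001d8.shift 0 3)] (by decide +kernel))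
noncomputable def rh2957c4cc869e5708 : CRef := CRef.mk (Pat.mk 0x40000000700000002000000000000000000000000 0xc0000000c0000003c0000000f0000003e0000000c0000000c0000000c 7 6) 0 0 (step_sound _ 194 [(rh5c5e593799055d58.shift 1 3), rhef312a387b1fa939] (by decide +kernel))
noncomputable def rhddb62b46690203e5 : CRef := CRef.mk (Pat.mk 0x500000007000000020000000000000000 0x400000004000000770000003f0000007f0000000800000008 7 7) 0 0 (step_sound _ 162 [(rh5c5e593799055d58.shift 1 2), rhf16f1e9a0c5b1487] (by decide +kernel))
noncomputable def rha26f419eec247473 : CRef := CRef.mk (Pat.mk 0xa000000020000000000000004000000070000000000000000 0xa0000000e0000000c0000003e0000000f0000003c0000000c 7 6) 0 0 (step_sound _ 130 [rh0ed2b89c713d047f, (rhcfdf45280693d3da.shift 1 2)] (by decide +kernel))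
noncomputable def rhe62591aef300aec6 : CRef := CRef.mk (Pat.mk 0x100000003400000000000000380000000000000000 0x80000001e00000034000001c7000000fe000001cf00000008 7 9) 0 0 (step_sound _ 66 [(rh10e3074efe589034.shift 1 1), (rh38177c7aa33d7786.shift 1 1), (rh592c7139d2c44767.shift 0 1), (rh9cb1ae0e1c12574f.shift 1 0), (rhcb500f09795e10dd.shift 1 0)] (by decide +kernel))
noncomputable def rh4a20ac7afc87e99b : CRef := CRef.mk (Pat.mk 0x3c00000000 0x380000001ff000003fc 7 10) 0 0 (step_sound _ 38 [(rh10e3074efe589034.shift 2 0), (rh4ad5fc38f1b69f65.shift 2 0), rh94c710ab1ea57720] (by decide +kernel))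
noncomputable def rh8cf0181d02cc9f2b : CRef := CRef.mk (Pat.mk 0x80000000000000070000000000000000000000000 0x8000000080000000e0000007e000000ff0000001000000010 7 8) 0 0 (step_sound _ 99 [(rh04797e9e06425c4e.shift 0 2), (rh0d378fd9e8917c5a.shift 1 2), (rh185f35b8bd8ec37f.shift 1 2), (rh592c7139d2c44767.shift 1 2), (rh95b4c7d6d9b6685a.shift 2 0)] (by decide +kernel))
noncomputable def rh1bd1ffd5ccb9b7fd : CRef := CRef.mk (Pat.mk 0xf000000000 0x7000003fe000000ff 7 10) 0 0 (step_sound _ 35 [(rh992f31992592569e.shift 2 0), rhbb13f9e1d387f64a, (rheae1728ff4a56756.shift 2 0)] (by decide +kernel))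
noncomputable def rh4408ee43fb1ddf12 : CRef := CRef.mk (Pat.mk 0x1000000030000000000000003800000000 0xb8000000f0000000c70000007e000000f7 7 8) 0 0 (step_sound _ 34 [rh0d378fd9e8917c5a, rh185f35b8bd8ec37f, rh592c7139d2c44767, (rhaed03d8d807cdb25.shift 2 0)] (by decide +kernel))
noncomputable def rh4720fe996927e97d : CRef := CRef.mk (Pat.mk 0x4800000070000000000000002800000028 0x58000000f000000180000000fc000001ef 7 9) 0 0 (step_sound _ 103 [(rh3f8766e6ecb455ce.shift 3 3), rhae50a5d81c334da4] (by decide +kernel))
noncomputable def rh232478a9d80dd61b : CRef := CRef.mk (Pat.mk 0x10800000008000000000000002800000028 0x1080000010800000388000001fc000001ef 7 10) 0 0 (step_sound _ 36 [rh2820ca9a6c4f41b4, (rh87fdadf854dfc1ed.shift 1 0), (rh8ee80cc30e93a344.shift 2 0), (rhb1d4c672c39fd791.shift 2 0)] (by decide +kernel))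
noncomputable def rh11dd23444d8c33e6 : CRef := CRef.mk (Pat.mk 0x4000000004000000000000000e00000002 0x4400000044000000e40000007e00000073 7 8) 0 0 (step_sound _ 66 [(rh5c5e593799055d58.shift 1 0), rhb1d4c672c39fd791] (by decide +kernel))
noncomputable def rh610000747ee1c669 : CRef := CRef.mk (Pat.mk 0x400000002000000020000000200000000000000000000000000000000 0x500000007000000030000000200000002000000070000000700000005 7 3) 0 0 (step_sound _ 97 [rh47992774edf9829f, (rhbaefcd01e0a8bca3.shift 1 3)] (by decide +kernel))
noncomputable def rh55de085fe2c305a7 : CRef := CRef.mk (Pat.mk 0x10000000000000000000000002800000028 0x1000000010000000387000001fe000001ef 7 10) 0 0 (step_sound _ 36 [rh2820ca9a6c4f41b4, rh3918eeb6c53434d8, (rh8ee80cc30e93a344.shift 2 0), (rhb1d4c672c39fd791.shift 2 0)] (by decide +kernel))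
noncomputable def rhe7a4fdd1ecb6b0a1 : CRef := CRef.mk (Pat.mk 0x4000000040000000000000002000000020000000200000000000000000000000000000000 0x4000000060000000200000006000000060000000600000007000000070000000700000004 7 3) 0 0 (step_sound _ 225 [(rh1006c02ae4212ff0.shift 1 5), rh818f9895cd65703b] (by decide +kernel))
noncomputable def rh8d410e81c580f9d4 : CRef := CRef.mk (Pat.mk 0x10000000000000000000000003000000028 0x1000000010000000387000001fe000001ef 7 10) 0 0 (step_sound _ 35 [rh2820ca9a6c4f41b4, rh3918eeb6c53434d8, (rh8ee80cc30e93a344.shift 2 0), (rhb1d4c672c39fd791.shift 2 0)] (by decide +kernel))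
noncomputable def rh8d36113e88d845e0 : CRef := CRef.mk (Pat.mk 0x1c0000001e000000080000001000000000 0x1f0000001e000000f80000007c000001ec 7 9) 0 0 (step_sound _ 35 [(rh7b1f1fb55310c477.shift 2 0), rh9d78cdd9e94f7075] (by decide +kernel))
noncomputable def rh4a57edb730aadb8a : CRef := CRef.mk (Pat.mk 0x10000000000000001e0000001e000000180000000000000000 0x1000000070000001f000000070000001e0000001e000000180000001000000010 7 5) 0 0 (step_sound _ 36 [(rh35750271219aea01.shift 0 2), (rh7b1f1fb55310c477.shift 3 0)] (by decide +kernel))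
noncomputable def rh9751345583b54b0b : CRef := CRef.mk (Pat.mk 0x400000004000000050000000000000000000000000 0x48000003ff000003fe000003df0000009000000090 7 10) 0 0 (step_sound _ 101 [(rh6393ba424d15bf34.shift 3 0), rh6950163afae95e32, (rha4e887c2a2a0f60b.shift 1 2), (rhdda18f14314c6e63.shift 0 2)] (by decide +kernel))
noncomputable def rh14884d6cb68b1292 : CRef := CRef.mk (Pat.mk 0x1800000038000000100000001800000000 0x4000000040000001e0000003f000000770000001e00000006 7 7) 0 0 (step_sound _ 130 [rh808eed30ff57b018, (rhb739f4f82bb681b4.shift 1 3)] (by decide +kernel))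
noncomputable def rhd3d91023f1c11d59 : CRef := CRef.mk (Pat.mk 0x140000000400000000000000030000000e000000000000000000000000 0x10000000140000001c000000180000007f0000000f000000180000001800000010 7 7) 0 0 (step_sound _ 131 [rh521093436c3d21b6, (rhd5c831412170e0ad.shift 0 2), (rhff7d63dcb3cf9f74.shift 0 3)] (by decide +kernel))
noncomputable def rhd6c17a657eb5f7bf : CRef := CRef.mk (Pat.mk 0x60000000c0000000800000004 0x30000000300000003000000060000003f0000003f00000004 7 6) 0 0 (step_sound _ 68 [rh1296427888b5b913, (rhf48373e13d2bc128.shift 1 2)] (by decide +kernel))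
noncomputable def rhe20bcaddb59e2e67 : CRef := CRef.mk (Pat.mk 0x4000000000000000000000001e00000008 0x4000000040000000e0000000fe0000019f 7 9) 0 0 (step_sound _ 1 [(rh0c222878d2803007.shift 1 0), rheb0810cc63b001d8] (by decide +kernel))
noncomputable def rh6c22cdca9a55de25 : CRef := CRef.mk (Pat.mk 0x1e000000180000001000000000 0x40000000c0000000f0000001e0000001f0000001b00000003 7 5) 0 0 (step_sound _ 65 [rh5bcc6748607a38fd, (rheb0810cc63b001d8.shift 0 2)] (by decide +kernel))
noncomputable def rh3c9532b361aaaf68 : CRef := CRef.mk (Pat.mk 0x1800000010000000200000003000000000 0x80000001800000010000000770000003e0000000f 7 7) 0 0 (step_sound _ 68 [(rh50fbb5868c909700.shift 3 1), rha40fbb241e27bfba] (by decide +kernel))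
noncomputable def rh697ed245e41c611b : CRef := CRef.mk (Pat.mk 0x60000001a00000010000000000000000000000000 0x4000000060000001e00000033000000070000000700000005 7 6) 0 0 (step_sound _ 130 [rh368d6c923f096099, (rhe25b0a99195a5d59.shift 1 3)] (by decide +kernel))
noncomputable def rh7ccf3f603f87c1ba : CRef := CRef.mk (Pat.mk 0xc00000018000000100000001800000000 0x40000000c0000007c0000001e0000001f00000007 7 7) 0 0 (step_sound _ 67 [(rh50fbb5868c909700.shift 2 1), rhb188102cff6c29c3] (by decide +kernel))
noncomputable def rhbcb7352d3d9f0105 : CRef := CRef.mk (Pat.mk 0x3000000030000000200000001000000000 0xf0000003e000000f7000000f80000003e00000028 7 8) 0 0 (step_sound _ 37 [rh5435e11e57d4e802, (rh7b1f1fb55310c477.shift 4 0)] (by decide +kernel))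
noncomputable def rhedc12914631f5fa4 : CRef := CRef.mk (Pat.mk 0x1e00000018000000000000000000000000 0x4000000070000001e0000001f000000070000000700000005 7 5) 0 0 (step_sound _ 97 [rhddc2a751cbad2852, (rheb0810cc63b001d8.shift 0 3)] (by decide +kernel))
noncomputable def rh663ef16a1cc80197 : CRef := CRef.mk (Pat.mk 0x20000000200000001800000018000000100000000000000000 0x2800000068000000df000000ff000000df0000000400000004 7 8) 0 0 (step_sound _ 163 [(rh2145e1d24b96a57e.shift 3 2), rh6e3f880f2b60b02f] (by decide +kernel))
noncomputable def rh1cc6a76e43083efc : CRef := CRef.mk (Pat.mk 0x10000000000000000000000002000000020000000200000004 0x1000000070000001f000000070000000300000002000000020000000600000004 7 5) 0 0 (step_sound _ 129 [(rh66634620e9620dc6.shift 0 1), (rhd3458b32566d63f7.shift 1 0)] (by decide +kernel))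
noncomputable def rh6a622c0e66d4c0f9 : CRef := CRef.mk (Pat.mk 0x5000000010000000000000000800000008000000080000000800000008 0x400000005000000070000001e0000000fc000001ff000000280000000800000008 7 9) 0 0 (step_sound _ 132 [rh408575947030aee3, (rhbaefcd01e0a8bca3.shift 3 0)] (by decide +kernel))
noncomputable def rh232468d9f272e606 : CRef := CRef.mk (Pat.mk 0xe00000002 0xf8000000ff0000007e 7 8) 0 0 (step_sound _ 36 [rh3e1b7b343686dca1, rh9ec7ecdaaa77c3cb, (rhd584a578337d0023.shift 1 0), (rhf3baec4a0a3dd35e.shift 1 0)] (by decide +kernel))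
noncomputable def rh08ef1a550cd0d261 : CRef := CRef.mk (Pat.mk 0x7000000010000000100000000000000000 0xf0000007e000000f7000000100000001000000010 7 8) 0 0 (step_sound _ 131 [(rh132883a60cd8aed8.shift 2 1), (rhbb13f9e1d387f64a.shift 0 3), (rhf0af91ceeb6f9504.shift 2 0)] (by decide +kernel))
noncomputable def rh93825f5e728aeb5b : CRef := CRef.mk (Pat.mk 0x200000006000000020000000100000000000000000000000000000000 0x600000006000000060000000300000003000000070000000700000005 7 3) 0 0 (step_sound _ 129 [rh7892838aec40c3e1, (rh932754581e0f4330.shift 0 3)] (by decide +kernel))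
noncomputable def rh0a8f401740d0da41 : CRef := CRef.mk (Pat.mk 0xa00000002000000000000000100000007000000000 0x80000000a0000000e0000000c0000000ff0000007e000000e7 7 8) 0 0 (step_sound _ 35 [rh14ee58c1672e9101, (rh2381ca26b8b38d1e.shift 2 0), (rh3fe88affbb7e4f13.shift 2 0), rhbb13f9e1d387f64a] (by decide +kernel))
noncomputable def rh0dd57e1c77649845 : CRef := CRef.mk (Pat.mk 0x200000002000000000000000000000007c00000010 0x200000006000000040000000c70000007f000000dc 7 8) 0 0 (step_sound _ 70 [(rh33e738c4ed385b9f.shift 3 1), rhd1e6aefb3fed7420] (by decide +kernel))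
noncomputable def rh140976695715d8e5 : CRef := CRef.mk (Pat.mk 0x200000003000000020000000400000000000000000000000000000000 0x300000003000000030000000600000006000000070000000700000005 7 3) 0 0 (step_sound _ 129 [(rh55afc6a59410cf00.shift 1 3), rhc46b61bcbcf6c641] (by decide +kernel))
noncomputable def rh61109e2ac5d46fd5 : CRef := CRef.mk (Pat.mk 0x180000001e00000000 0x10000000300000003000000030000001f0000001e00000007 7 5) 0 0 (step_sound _ 65 [(rh3244c3cc8379b070.shift 0 1), rhb9f1da0846113dec] (by decide +kernel))
noncomputable def rh14f0649c351b0eb7 : CRef := CRef.mk (Pat.mk 0x1e00000008 0x1c7000000fe000001cc 7 9) 0 0 (step_sound _ 65 [(rh3244c3cc8379b070.shift 0 1), (rhc6fce18dad12aa73.shift 1 0)] (by decide +kernel))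
noncomputable def rhe3714ee5692a3e38 : CRef := CRef.mk (Pat.mk 0x1000000010000000100000001000000000 0x800000018000000180000003e000000ff0000002e 7 8) 0 0 (step_sound _ 37 [(rh55afc6a59410cf00.shift 4 0), rha50afdf6813e44b3] (by decide +kernel))
noncomputable def rh9482602681e8791e : CRef := CRef.mk (Pat.mk 0x1800000000000000000000001e000000000000000000000000 0x40000001e00000007000000070000001e000000070000000600000006 7 5) 0 0 (step_sound _ 129 [(rh3244c3cc8379b070.shift 0 3), rhd0203f94a1262055] (by decide +kernel))
noncomputable def rhf7cd006c0817214d : CRef := CRef.mk (Pat.mk 0x100000001e000000100000001000000000 0x130000001e000000170000003e0000002e 7 6) 0 0 (step_sound _ 129 [(rh3244c3cc8379b070.shift 0 3), rh366c9071b1db2055] (by decide +kernel))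
noncomputable def rhceb67c7899738093 : CRef := CRef.mk (Pat.mk 0x20000000e00000004 0x1e3000000fe000001e6 7 9) 0 0 (step_sound _ 36 [(rh1ebc468ecb90f73c.shift 1 0), (rh3244c3cc8379b070.shift 0 1)] (by decide +kernel))
noncomputable def rh0e51915d4ba61866 : CRef := CRef.mk (Pat.mk 0x100000001c000000080000000800000000 0xc0000000c0000000c0000001f000000ff000000ec0000000c00000004 7 8) 0 0 (step_sound _ 131 [(rh0ef6c71ce89c1c36.shift 2 0), (rhb0fbf278214acd23.shift 0 2), (rhc647a25a08ddf0ec.shift 0 1)] (by decide +kernel))
noncomputable def rh22e925655c07f4ca : CRef := CRef.mk (Pat.mk 0x40000000f000000020 0x40000000400000007f000000fe000001b7 7 9) 0 0 (step_sound _ 35 [rh60cb2f41c3946025, rh71dceadd0e07b1ae, (rh7fb660bc21ce4329.shift 1 1), (rhd5eb272e07a4e288.shift 2 1)] (by decide +kernel))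
noncomputable def rh07d1eff637b84cbf : CRef := CRef.mk (Pat.mk 0x40000000f000000000 0x67000000fe000001bf 7 9) 0 0 (step_sound _ 35 [rh55f6bc4d69c1947b, rh71dceadd0e07b1ae, (rheae1728ff4a56756.shift 2 0)] (by decide +kernel))
noncomputable def rh5e265b5b30f99924 : CRef := CRef.mk (Pat.mk 0x80000001e00000000 0x1cc000000fe000001c7 7 9) 0 0 (step_sound _ 1 [(rh2cecd1f20da9622e.shift 1 0), rheb0810cc63b001d8] (by decide +kernel))
noncomputable def rhf527709f74998536 : CRef := CRef.mk (Pat.mk 0x100000001e000000000000000000000000 0x7000000070000001f0000001e000000070000000600000006 7 5) 0 0 (step_sound _ 129 [rh2564f7cee2121f35, (rh3244c3cc8379b070.shift 0 3)] (by decide +kernel))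
noncomputable def rh7b6f93b80ab2294a : CRef := CRef.mk (Pat.mk 0x38000000040000000000000000 0xa0000000e0000000e0000000f0000007c0000000c0000000c0000000c 7 7) 0 0 (step_sound _ 130 [(rh4df35fbc131eb4ae.shift 0 3), (rh983ee6ed91d00a12.shift 1 0), (rh9bdb2f981711dfd3.shift 1 0), (rhe9d682012dbceb06.shift 2 2)] (by decide +kernel))
noncomputable def rh303d7f35d57e8fb4 : CRef := CRef.mk (Pat.mk 0x2000000020000000000000001c000000140000000000000000 0x2a0000007e0000001f0000001f0000001c0000000400000004 7 7) 0 0 (step_sound _ 131 [(rh10604fd5dc6dbd11.shift 0 2), rh8542a544f803cbf0, (rhadf429772c25fde0.shift 2 0)] (by decide +kernel))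
noncomputable def rhf18dcc925de519d0 : CRef := CRef.mk (Pat.mk 0x80000001a00000003000000000000000000000000 0x500000007000000070000000f0000001a00000003000000070000000700000005 7 5) 0 0 (step_sound _ 161 [rh281c6819542c66e6, (rh32431e66bbf434a4.shift 0 2), (rh46990448042cc692.shift 0 2), rhfd97b58967212f9b] (by decide +kernel))
noncomputable def rhdbf7fc5480bb2158 : CRef := CRef.mk (Pat.mk 0x3000000000000000140000001e00000000 0x60000003e000000070000001f0000001f00000008 7 6) 0 0 (step_sound _ 65 [(rh3244c3cc8379b070.shift 0 1), rhaca2be09f5621c86] (by decide +kernel))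
noncomputable def rhe1a42aa75f25337a : CRef := CRef.mk (Pat.mk 0x10000000000000001c0000000200000002 0x1000000070000001f000000070000001e0000000300000002 7 5) 0 0 (step_sound _ 65 [rhd1eaabbbb651379a, (rheb0810cc63b001d8.shift 0 1)] (by decide +kernel))
noncomputable def rh8c84597491cc1916 : CRef := CRef.mk (Pat.mk 0x5000000050000000000000000000000000 0x8000000180000001c000000ff0000007e0000001f0000000800000008 7 8) 0 0 (step_sound _ 99 [rh4bf563342507cf12, (rh63b4a96fa77f65ad.shift 2 0), (rha3fd83893c3ef42f.shift 1 2), (rhb3f0701341c741cf.shift 1 2), (rhe33d9496e10d8eb0.shift 1 3)] (by decide +kernel))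
noncomputable def rhf6293b576a2c752d : CRef := CRef.mk (Pat.mk 0x100000003c0000000800000000 0xe0000000f0000001e0000003c0000000e00000004 7 6) 0 0 (step_sound _ 98 [(rh3244c3cc8379b070.shift 1 2), rh50917131082a6d3c] (by decide +kernel))
noncomputable def rh8ba25a2277fee101 : CRef := CRef.mk (Pat.mk 0x40000000500000005000000000 0x2000000020000000300000007f000001fe000003df00000010 7 10) 0 0 (step_sound _ 69 [(rh2820ca9a6c4f41b4.shift 1 1), (rh3918eeb6c53434d8.shift 1 1), (rh7b5944e255a6a1fe.shift 3 0), (rh8ee80cc30e93a344.shift 3 1), (rh9a42962339040345.shift 0 1)] (by decide +kernel))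
noncomputable def rh69c86f14a1fa43ec : CRef := CRef.mk (Pat.mk 0x2000000020000000000000001c000000140000000000000000 0x28000000380000001c0000001f000000370000000400000004 7 6) 0 0 (step_sound _ 97 [rh22bc9d46c0dc19ea, (rhe25b0a99195a5d59.shift 1 2)] (by decide +kernel))
noncomputable def rh220c7768764e3771 : CRef := CRef.mk (Pat.mk 0x5000000010000000000000000e0000000a 0x5000000070000001e0000000fe000001fb 7 9) 0 0 (step_sound _ 36 [(rhdfe0d210c70a591a.shift 1 0), rheb0810cc63b001d8] (by decide +kernel))
noncomputable def rh50bf62e75569d623 : CRef := CRef.mk (Pat.mk 0x1000000010000000020000000a0000000a000000000000000000000000 0x170000001f0000000e0000000a0000000a000000070000000700000005 7 5) 0 0 (step_sound _ 195 [(rh04253f50b6dd0619.shift 3 3), rh0e80cf0ae8f04b90] (by decide +kernel))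
noncomputable def rhca1b381f161b1610 : CRef := CRef.mk (Pat.mk 0x1800000010000000100000001000000000 0x270000003e0000003f0000001c0000001800000008 7 6) 0 0 (step_sound _ 133 [(rh2f68792b6b779e96.shift 4 1), rh66db805c0bbd1611] (by decide +kernel))
noncomputable def rh928b1b9b02e2976a : CRef := CRef.mk (Pat.mk 0x100000001000000010000000020000000a0000000a 0x40000001f000000170000001f0000000b0000000a0000000a 7 5) 0 0 (step_sound _ 99 [rh040b22608c41e90d, (rh04253f50b6dd0619.shift 3 0)] (by decide +kernel))
noncomputable def rh04abb22aa9df78eb : CRef := CRef.mk (Pat.mk 0x40000000400000000000000028000000280000000000000000 0x44000000e4000001ae000000fc000001ef0000000800000008 7 9) 0 0 (step_sound _ 165 [(rh04253f50b6dd0619.shift 5 2), rhaac76420fb8862c0] (by decide +kernel))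
noncomputable def rh585a80d39591c17d : CRef := CRef.mk (Pat.mk 0x80000000000000000000000090000000f00000000000000000000000000000000 0x8000000180000001c0000000f0000000f000000180000001c0000001c00000014 7 5) 0 0 (step_sound _ 99 [rh75797a307df00655, (rhe25b0a99195a5d59.shift 0 3)] (by decide +kernel))
noncomputable def rh690f26b67ca15585 : CRef := CRef.mk (Pat.mk 0x1000000010000000000000000a0000001a0000000000000000 0x120000001a0000000b0000003e0000003e0000007400000010 7 7) 0 0 (step_sound _ 131 [(rh1006c02ae4212ff0.shift 3 2), rh25df610afc8a06c4] (by decide +kernel))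
noncomputable def rh8f23606baa98b532 : CRef := CRef.mk (Pat.mk 0x10000000000000000000000002000000020000000a00000000 0x40000001f000000070000000300000002000000730000003e00000074 7 7) 0 0 (step_sound _ 129 [(rhb9471a58a9808ccb.shift 0 1), rhc2d38a69b00a9b0b] (by decide +kernel))
noncomputable def rh1f6fd311369e1322 : CRef := CRef.mk (Pat.mk 0x20000001a000000000000000000000000 0x50000000700000007000000060000003e000000770000000600000004 7 7) 0 0 (step_sound _ 98 [(rh06db8ceda6269a47.shift 0 2), (rh2aac33c566332a8c.shift 1 2), rh3be70ec8769870df] (by decide +kernel))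
noncomputable def rhc102a6951e639ca9 : CRef := CRef.mk (Pat.mk 0x140000003c000000240000000000000000 0xe0000000f0000001c0000003c0000002c0000007c0000003c 7 7) 0 0 (step_sound _ 37 [rh1d884ac29e11c21e, (rh7b1f1fb55310c477.shift 4 0)] (by decide +kernel))
noncomputable def rhefead1d90041f107 : CRef := CRef.mk (Pat.mk 0x300000000000000014000000340000000000000000 0xf0000007e0000000f0000001e000000f40000000400000004 7 8) 0 0 (step_sound _ 163 [(rh3b8783f67dd38410.shift 0 2), (rh3d628e1523de5159.shift 0 1), (rh8bd708696176511f.shift 1 1), (rh95336c3bcd924844.shift 0 2), (rhfd7ded15bb65c3b3.shift 1 0)] (by decide +kernel))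
noncomputable def rha0d820a33733a68f : CRef := CRef.mk (Pat.mk 0x2000000028000000000000000000000000 0x28000001ff000001fe000001c70000004400000044 7 9) 0 0 (step_sound _ 100 [(rh46dbadd1a3bb9b48.shift 2 0), (rha11dfd15f08f96e3.shift 2 3), rha4d4c393798a804f, (rha4e887c2a2a0f60b.shift 0 2)] (by decide +kernel))
noncomputable def rhf05ceac9b0d440e4 : CRef := CRef.mk (Pat.mk 0x2000000020000000200000000000000000000000000000000 0x10000000300000007000000070000000700000007000000070000000600000004 7 3) 0 0 (step_sound _ 97 [rh4cae674e8fd8dc57, (rh565a0c22519f57e9.shift 0 2), (rhc9ac229b3c77cd55.shift 0 2)] (by decide +kernel))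
noncomputable def rh152edaac1271de5b : CRef := CRef.mk (Pat.mk 0x2000000020000000200000000000000000000000000000000 0x10000000300000007000000070000000600000007000000070000000700000005 7 3) 0 0 (step_sound _ 97 [rh4cae674e8fd8dc57, (rh8065c10b3cae6218.shift 0 2), (rhc4526fc8abf298b6.shift 0 1), rhcaeb492376c707d4, rhf62e0bde5b9f0689] (by decide +kernel))
noncomputable def rhfafaaca2cb9574e5 : CRef := CRef.mk (Pat.mk 0x800000008000000080000000c00000000000000000000000000000000 0x8000000180000007c0000001f0000000c000000080000001c0000001c00000014 7 7) 0 0 (step_sound _ 162 [rh04890f807bcd6f7c, (rh5c5e593799055d58.shift 2 4)] (by decide +kernel))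
noncomputable def rha7788a23a70e77b5 : CRef := CRef.mk (Pat.mk 0x80000000800000008000000080000000000000000 0x80000001c0000001f0000007c000000180000001800000008 7 7) 0 0 (step_sound _ 68 [(rh55afc6a59410cf00.shift 3 1), rha66aedb5034a3914] (by decide +kernel))
noncomputable def rhcb236ea576025317 : CRef := CRef.mk (Pat.mk 0x40000000400000000000000020000000e0000000300000000000000000 0x40000001c000000180000001f8000000fe000001f70000001800000010 7 9) 0 0 (step_sound _ 100 [(rh4c11c491f4d8ec0e.shift 3 0), (rha77f4270ff83068f.shift 0 2), (rhf63fad18013868a1.shift 1 2), (rhfa9ddc4fd7f1eb21.shift 3 2)] (by decide +kernel))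
noncomputable def rh1aa43eac5796afc1 : CRef := CRef.mk (Pat.mk 0x8000000180000000c0000000000000000 0x40000000c0000001f0000003f0000003300000012 7 6) 0 0 (step_sound _ 65 [(rh53b3c253cb0c65f4.shift 0 2), rhed7672605ccf0247] (by decide +kernel))
noncomputable def rh1ea8e67d5f436bf6 : CRef := CRef.mk (Pat.mk 0x100000003000000018 0x3c000000ff000000fc 7 8) 0 0 (step_sound _ 38 [(rh18965a982d73c794.shift 3 0), rh86a3d2e7b95db50e] (by decide +kernel))
noncomputable def rhd5c0f23f15caa6c9 : CRef := CRef.mk (Pat.mk 0x40000000400000000000000020000000e0000000300000000000000000 0x40000001c0000001a0000001f8000000fe000001f70000004000000040 7 9) 0 0 (step_sound _ 100 [(rha77f4270ff83068f.shift 0 2), (rhbd68d223a126eb87.shift 3 0), (rhf63fad18013868a1.shift 1 2), (rhfa9ddc4fd7f1eb21.shift 3 2)] (by decide +kernel))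
noncomputable def rhc7d898515ebf1fc2 : CRef := CRef.mk (Pat.mk 0x1000000000000000180000001e0000000000000000 0x40000001f000000070000001f0000001e0000000700000004 7 5) 0 0 (step_sound _ 97 [(rh3244c3cc8379b070.shift 0 2), rhd64a9a9603ddda18] (by decide +kernel))
noncomputable def rh70ce3f2ebb688499 : CRef := CRef.mk (Pat.mk 0xd0000000f000000080000000000000000 0x1000000010000000f0000000f0000000f0000003e0000001e 7 6) 0 0 (step_sound _ 35 [rh73981df1da71b7b1, (rh7b1f1fb55310c477.shift 2 0)] (by decide +kernel))
noncomputable def rh5d7beceefb622ddd : CRef := CRef.mk (Pat.mk 0x100000001e000000100000001c00000000 0x200000002000000170000001e000001dc000000fc000001e0 7 9) 0 0 (step_sound _ 129 [(rh3244c3cc8379b070.shift 0 3), (rhba4fc5b8738de410.shift 1 0)] (by decide +kernel))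
noncomputable def rhaea13fd5c9452024 : CRef := CRef.mk (Pat.mk 0x40000000f000000000000000200000000 0x1c0000000f0000001c0000001e0000001f 7 5) 0 0 (step_sound _ 131 [(rh33e738c4ed385b9f.shift 0 3), rh8e7b04f0bc1aed42] (by decide +kernel))
noncomputable def rh0f2f5a94e5b54817 : CRef := CRef.mk (Pat.mk 0x180000001c00000000000000000000000000000000 0x8000000180000001f00000030000000380000003800000028 7 6) 0 0 (step_sound _ 129 [(rh234d3faffc55fe0d.shift 1 0), (rh53b3c253cb0c65f4.shift 0 4)] (by decide +kernel))
noncomputable def rhc3475aa1b87613a5 : CRef := CRef.mk (Pat.mk 0x2000000000000000180000001c000000000000000000000000 0xc0000003c0000000f000000780000003c0000001f0000001c0000001c 7 7) 0 0 (step_sound _ 133 [(rh18965a982d73c794.shift 2 3), rh22236f6a88f34b3d] (by decide +kernel))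
noncomputable def rh16dc24e044feaae7 : CRef := CRef.mk (Pat.mk 0x180000001c0000000000000000 0x200000006000000070000007f0000003c0000000c0000000c 7 7) 0 0 (step_sound _ 101 [(rh18965a982d73c794.shift 2 2), rh700ceab276ec67cf] (by decide +kernel))
noncomputable def rh873d7742e0d81ba6 : CRef := CRef.mk (Pat.mk 0x180000001c000000000000000000000000 0x180000003f0000003f0000003000000030 7 6) 0 0 (step_sound _ 97 [(rh53b3c253cb0c65f4.shift 0 3), rh6ae21157da276552] (by decide +kernel))
noncomputable def rhed01363aaf4471ee : CRef := CRef.mk (Pat.mk 0x40000001c0000000e000000080000000000000000 0x40000001f0000001e0000003f0000003200000032 7 6) 0 0 (step_sound _ 65 [(rh42548283029e2a39.shift 1 0), rh9bfd2ebd00fee012, (rhf9af042da61fc652.shift 1 0)] (by decide +kernel))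
noncomputable def rh2f797446c33a3b58 : CRef := CRef.mk (Pat.mk 0x20000000000000001800000018000000000000000000000000 0xc0000003c0000000f0000001f000000380000001f0000001c00000008 7 6) 0 0 (step_sound _ 163 [(rh4bf8c03067d58b2e.shift 0 2), (rh55a1f6c57a317ce6.shift 3 1), rhf4cb22eed2bebbf5] (by decide +kernel))
noncomputable def rhd2a80c4cf4536a01 : CRef := CRef.mk (Pat.mk 0x20000000200000000000000018000000180000000000000000 0x2400000064000000ce000000ff000000f80000000800000008 7 8) 0 0 (step_sound _ 98 [(rhad5d8fc3675c15dd.shift 0 2), (rhf01bbe3337a5d489.shift 1 0)] (by decide +kernel))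
noncomputable def rha955dcaf922e95b2 : CRef := CRef.mk (Pat.mk 0x40000000400000000000000030000000b000000000000000000000000 0x40000001c000000180000001f0000001b0000001e0000001c00000014 7 5) 0 0 (step_sound _ 131 [(rh26cf6cd574a72447.shift 0 3), (rhceeda1aa5100bccb.shift 0 3), rhe673baf37e340621] (by decide +kernel))
noncomputable def rh40c96dfe17741e7f : CRef := CRef.mk (Pat.mk 0x1800000018000000080000000800000000 0x180000007c0000007f0000007c00000074 7 7) 0 0 (step_sound _ 66 [(rh0bb882ba86b2372d.shift 0 2), (rh11dc80fa34316fed.shift 2 0), rh42e615827c8908b1, (rh574fdbf07bdd18b9.shift 0 2)] (by decide +kernel))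
noncomputable def rhe28489d2674387af : CRef := CRef.mk (Pat.mk 0x20000000200000000000000000000000180000000800000008 0x200000006000000044000001c7000000fe000001ff00000028 7 9) 0 0 (step_sound _ 69 [rh145ff31644ad4168, (rh431713d3d1936f8e.shift 2 0), (rh5a97d4715e8dc358.shift 2 0), (rhb02f9c2bd63f56db.shift 2 1), (rhf0f55c4504412200.shift 0 1)] (by decide +kernel))
noncomputable def rh11aca9a9537d59a4 : CRef := CRef.mk (Pat.mk 0x1800000018000000080000001c 0x70000001f0000001b0000000f0000001f 7 5) 0 0 (step_sound _ 98 [(rh50fbb5868c909700.shift 2 0), rhfac3e0d9c2cfdf19] (by decide +kernel))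
noncomputable def rheeb298c644020810 : CRef := CRef.mk (Pat.mk 0x1000000018000000080000000000000000 0x40000000c0000001f00000078000000780000001e0000001c 7 7) 0 0 (step_sound _ 35 [(rh71222050f2c63a3a.shift 3 0), rhecab8d346317b143] (by decide +kernel))
noncomputable def rhdca9f447b7c826d2 : CRef := CRef.mk (Pat.mk 0x2000000070000000180000000000000000 0x1c0000001e0000003f0000007e000000f8000000c800000040 7 8) 0 0 (step_sound _ 99 [(rh0d378fd9e8917c5a.shift 1 2), (rh715ef4deafe86686.shift 2 0), (rh864763d2a0942e3f.shift 0 2), (rhdb59abeef17dd46c.shift 1 1)] (by decide +kernel))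
noncomputable def rhfba2defcdbec12f4 : CRef := CRef.mk (Pat.mk 0x10000000180000000c000000000000000000000000 0x80000001a0000001b0000003f000000370000001400000004 7 6) 0 0 (step_sound _ 97 [rh0a6f9830ab03c5c4, (rh53b3c253cb0c65f4.shift 0 3)] (by decide +kernel))
noncomputable def rhb88301188eae2339 : CRef := CRef.mk (Pat.mk 0x2000000020000000000000001c00000018 0x2000000060000000c7000000ff000000d8 7 8) 0 0 (step_sound _ 33 [rhb739f4f82bb681b4, rhf30efa8202c91a19] (by decide +kernel))
noncomputable def rhf199887f50d2050e : CRef := CRef.mk (Pat.mk 0x40000003800000000000000000000000000000000 0xc0000000c0000000c0000007c0000000f0000000e0000000e0000000a 7 7) 0 0 (step_sound _ 98 [(rh02442741c13cb048.shift 1 0), (rh3b98845ede295126.shift 1 2), (rh3cc5c7fb74c49f61.shift 0 3), (rhe9d682012dbceb06.shift 2 3)] (by decide +kernel))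
noncomputable def rh9544ed608c649338 : CRef := CRef.mk (Pat.mk 0xa0000001e000000120000000000000000 0x6000000060000000e0000001e0000001e0000003f00000015 7 6) 0 0 (step_sound _ 36 [rh02f58afa5e3b8441, (rh7b1f1fb55310c477.shift 3 0)] (by decide +kernel))
noncomputable def rh1b9dae9b5f081ec1 : CRef := CRef.mk (Pat.mk 0x18000000180000000000000000 0x8000000080000007f000000ff000000e700000004 7 8) 0 0 (step_sound _ 66 [(rh51fb37c6ec9ae4f5.shift 0 1), (rhab2ad169e49f9c5e.shift 0 2), (rhd7c0a18f92b59752.shift 0 1), (rhf0fe7b2d87944c7e.shift 1 0)] (by decide +kernel))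
noncomputable def rha598999fc2aeda36 : CRef := CRef.mk (Pat.mk 0x400000004000000000000000b0000000a000000000000000000000000 0x40000001c000000180000001b0000001e0000003c0000001c00000014 7 6) 0 0 (step_sound _ 98 [(rh1a2aab9c32dc0480.shift 1 0), (rhf48373e13d2bc128.shift 0 3)] (by decide +kernel))
noncomputable def rhba1d4568c344bb60 : CRef := CRef.mk (Pat.mk 0xd0000000f000000010000000000000000 0xd0000000f0000001b0000001f0000001f 7 5) 0 0 (step_sound _ 67 [(rhe25b0a99195a5d59.shift 0 2), rheb18e89817c02915] (by decide +kernel))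
noncomputable def rhcd7751e771562057 : CRef := CRef.mk (Pat.mk 0x20000000200000000000000030000000180000000000000000 0x2400000064000000ce000000ff000000f80000000800000008 7 8) 0 0 (step_sound _ 102 [(rh18965a982d73c794.shift 3 2), rh89bc7773e58984ce] (by decide +kernel))
noncomputable def rh0323aab125c50769 : CRef := CRef.mk (Pat.mk 0x2000000020000000600000002000000000000000000000000 0x2000000060000001f0000003f0000003d0000000800000008 7 6) 0 0 (step_sound _ 98 [(rh55afc6a59410cf00.shift 1 2), rh82090ec55eeaade9] (by decide +kernel))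
noncomputable def rhafa445209071e29b : CRef := CRef.mk (Pat.mk 0x20000000200000006000000020000000000000000000000000000000000000000 0x20000000600000006000000060000000600000006000000070000000700000005 7 3) 0 0 (step_sound _ 129 [(rh127b405bd7f7b930.shift 1 2), (rh3820f35d5e705bec.shift 1 1), rh7892838aec40c3e1, (rhd29a1fb688eae70f.shift 1 3)] (by decide +kernel))
noncomputable def rhda432e4b2ba2aa89 : CRef := CRef.mk (Pat.mk 0x20000000200000006000000020000000000000000000000000000000000000000 0x20000000600000006000000070000000300000007000000070000000700000005 7 3) 0 0 (step_sound _ 129 [rh7892838aec40c3e1, (rh7928877f9bf74a91.shift 0 3), (rh8a1bd34420cccc7f.shift 0 1), (rh91a545eb3be094e3.shift 0 2)] (by decide +kernel))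
noncomputable def rh54257df8acac0b4d : CRef := CRef.mk (Pat.mk 0x1000000070000000200000000000000000 0x8000000080000001f7000001fe000000f70000004000000040 7 9) 0 0 (step_sound _ 99 [(rh39ee55465d7f1610.shift 0 2), (rh4ba4898ba561af3f.shift 3 0), (rh988dac8d009f9f77.shift 0 2), (rha03f6e28ea70fc7d.shift 2 2)] (by decide +kernel))
noncomputable def rh3910448e169e3eab : CRef := CRef.mk (Pat.mk 0xf00000002 0xf80000007f000000e7 7 8) 0 0 (step_sound _ 67 [(rh33e738c4ed385b9f.shift 0 1), rh6287b81491833f3f] (by decide +kernel))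
noncomputable def rh3915ac739bc6321f : CRef := CRef.mk (Pat.mk 0xe00000014000000000000000000000000 0x80000000c0000003f0000001e0000003b0000001200000012 7 6) 0 0 (step_sound _ 99 [rhaa03c26b0cd09fca, (rhb739f4f82bb681b4.shift 0 3)] (by decide +kernel))
noncomputable def rhccaceb2d6d132f7a : CRef := CRef.mk (Pat.mk 0x1c00000008000000080000000000000000 0x30000000f00000003f000000f8000000380000003000000030 7 8) 0 0 (step_sound _ 100 [(rh4bda4bc0d95c438c.shift 1 2), (rh8ee80cc30e93a344.shift 1 3), (rhad5d8fc3675c15dd.shift 0 3), (rhf530a7b6dc94bfc6.shift 2 0)] (by decide +kernel))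
noncomputable def rhcd717259c611d3c9 : CRef := CRef.mk (Pat.mk 0x1c000000180000000000000000 0x2000000020000001f0000000ff000001dc0000001000000010 7 9) 0 0 (step_sound _ 97 [(rh1c110b532cc33039.shift 2 0), (rhb739f4f82bb681b4.shift 0 2)] (by decide +kernel))
noncomputable def rh6bccb8d5f2a5a9be : CRef := CRef.mk (Pat.mk 0x40000000400000000000000080000000e00000000000000000000000000000000 0x40000000c000000080000000c0000000f0000007c0000001c0000001c00000010 7 7) 0 0 (step_sound _ 195 [rh73d91be13d4f0de7, (rhcfdf45280693d3da.shift 2 4)] (by decide +kernel))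
noncomputable def rh913edd1e892a09fd : CRef := CRef.mk (Pat.mk 0xa000000020000000000000004000000070000000000000000 0x80000000a0000000e0000000c0000003e000000070000003e0000000c 7 6) 0 0 (step_sound _ 130 [rh904a690f3c54c5f2, (rhcfdf45280693d3da.shift 1 2)] (by decide +kernel))
noncomputable def rh937a27f26253f544 : CRef := CRef.mk (Pat.mk 0x140000000400000000000000080000000e0000000000000000 0x140000001c00000018000000180000000f0000007c00000018 7 7) 0 0 (step_sound _ 131 [rh725cc2ef7c09644d, (rhcfdf45280693d3da.shift 2 2)] (by decide +kernel))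
noncomputable def rhf0fff9b8fff7f776 : CRef := CRef.mk (Pat.mk 0x8000000080000001c0000000800000000 0x8000000e8000000ff0000001f00000010 7 8) 0 0 (step_sound _ 36 [(rh55afc6a59410cf00.shift 3 0), (rh93dada6cc3ed2a8c.shift 0 1)] (by decide +kernel))
noncomputable def rh2576a49d57ece4bc : CRef := CRef.mk (Pat.mk 0x10000000f000000000 0x37000000fe000001ce 7 9) 0 0 (step_sound _ 7 [rh46ee5e638df64166, (rhe25b0a99195a5d59.shift 4 0)] (by decide +kernel))
noncomputable def rhc893f8e485dabf36 : CRef := CRef.mk (Pat.mk 0x200000002000000000000000000000007800000000 0x200000006000000040000000e70000007e00000070 7 8) 0 0 (step_sound _ 70 [(rh33e738c4ed385b9f.shift 3 1), rh61cd35dd66dff74b] (by decide +kernel))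
noncomputable def rh34b3df9f15589b89 : CRef := CRef.mk (Pat.mk 0xf000000000 0x1c7000000fe0000007f 7 9) 0 0 (step_sound _ 71 [(rh33e738c4ed385b9f.shift 4 1), rhff7cad73b215a905] (by decide +kernel))
noncomputable def rhea0bc6f2085a1a95 : CRef := CRef.mk (Pat.mk 0x100000000000000002000000020000000e000000000000000000000000 0x10000000180000003b000000fe0000007f000000ec0000000400000004 7 8) 0 0 (step_sound _ 66 [(rh08edf065357d68e5.shift 1 0), rh5dbb6833632f66b1, (rhb3900a4f3f103126.shift 0 2)] (by decide +kernel))
noncomputable def rh3abbdf84403897b9 : CRef := CRef.mk (Pat.mk 0x40000000400000000000000080000000f00000000000000000000000000000000 0x40000000c000000080000000c0000000f0000001c0000001c0000001c00000010 7 5) 0 0 (step_sound _ 195 [(rhcfdf45280693d3da.shift 2 4), rhf87103f77a8c33b0] (by decide +kernel))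
noncomputable def rhc33780f73196dd1c : CRef := CRef.mk (Pat.mk 0x20000000f000000000 0x67000000fe000001c7 7 9) 0 0 (step_sound _ 7 [rh02c7cdbf40b73d2c, (rhe25b0a99195a5d59.shift 4 0)] (by decide +kernel))
noncomputable def rh5b3c10f60ef4222d : CRef := CRef.mk (Pat.mk 0xa000000020000000000000001000000070000000000000000 0xa0000001e0000001c0000007f0000003f0000007800000008 7 7) 0 0 (step_sound _ 67 [rh00884b217a316448, (rh167fff566cb27b75.shift 0 1), (rh2aac33c566332a8c.shift 0 1), (rh3fc3a7fb6866dcd4.shift 0 1), (rh790acd67f4fffd04.shift 0 2)] (by decide +kernel))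
noncomputable def rhb6575f72d06eebf8 : CRef := CRef.mk (Pat.mk 0x40000000400000000000000000000000e000000100000000000000000 0x40000001c00000018000000780000001f0000001c0000001c00000004 7 7) 0 0 (step_sound _ 131 [(rh7d16f3cc3f666137.shift 0 1), (rha11dfd15f08f96e3.shift 0 3), (rhbf97bb6b2e703b2d.shift 2 0)] (by decide +kernel))
noncomputable def rhff67a8d5795fe3a4 : CRef := CRef.mk (Pat.mk 0x1000000010000000380000000000000000 0x60000001e000000770000003e0000000f00000008 7 7) 0 0 (step_sound _ 66 [(rh41e5c97375b3cd26.shift 1 0), (rh592c7139d2c44767.shift 0 1), (rhec46bd5500c722c9.shift 1 2)] (by decide +kernel))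
noncomputable def rh957ebd2bfa44abcc : CRef := CRef.mk (Pat.mk 0x80000001e00000004000000000000000800000000 0x80000001e00000034000000f40000007e000000ff 7 8) 0 0 (step_sound _ 36 [rh338f617d6242140e, (rhdb89fb63ff941e36.shift 1 1)] (by decide +kernel))
noncomputable def rh4d2b3a97d07567ed : CRef := CRef.mk (Pat.mk 0x80000000800000000000000100000001e00000000000000000000000800000000 0x80000001800000010000000180000001f00000030000000380000003800000028 7 6) 0 0 (step_sound _ 228 [(rh2613c889e411427e.shift 3 4), rheed68bb0bdc20193] (by decide +kernel))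
noncomputable def rh3a334ef82de53551 : CRef := CRef.mk (Pat.mk 0x40000000400000000000000080000000f800000020 0x40000000c0000000800000008e000000fe000001b7 7 9) 0 0 (step_sound _ 103 [rh8941baf23665e2f6, (rhcfdf45280693d3da.shift 6 1)] (by decide +kernel))
noncomputable def rh4a9468c696d78e52 : CRef := CRef.mk (Pat.mk 0x1800000018000000000000000000000000 0x2000000020000000f0000000fe000000ff000000e00000002000000020 7 8) 0 0 (step_sound _ 133 [(rh2612b4f73ba7c3b3.shift 2 3), (rh2820ca9a6c4f41b4.shift 0 3), (rh506f97418b5b70f4.shift 1 0), (rh808de112c023e0ce.shift 2 2)] (by decide +kernel))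
noncomputable def rhed960203f32757ad : CRef := CRef.mk (Pat.mk 0x100000001e00000000000000000000000200000000 0x180000001e000000370000003c0000003e00000028 7 6) 0 0 (step_sound _ 100 [rhc0020215ee234fd7, (rhe25b0a99195a5d59.shift 1 3)] (by decide +kernel))
noncomputable def rh60371f4fc4ccdcec : CRef := CRef.mk (Pat.mk 0x140000001e0000000000000000000000020000000000000000 0x1c0000001e000000340000003e0000003f0000003800000028 7 6) 0 0 (step_sound _ 132 [rh363d6dadaacff30a, (rhe25b0a99195a5d59.shift 1 4)] (by decide +kernel))
noncomputable def rh7af8a7f581225d5e : CRef := CRef.mk (Pat.mk 0x140000001e00000000000000000000000200000000 0x1c0000001e000000360000003e0000003b00000020 7 6) 0 0 (step_sound _ 65 [(rh04253f50b6dd0619.shift 1 1), rh65042eab28345ed2] (by decide +kernel))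
noncomputable def rh4289e834c09fdda6 : CRef := CRef.mk (Pat.mk 0x40000001e00000000 0x1cc000000fe000001c7 7 9) 0 0 (step_sound _ 1 [(rhe4909b58bb712816.shift 1 0), rheb0810cc63b001d8] (by decide +kernel))
noncomputable def rhabf86be4015a1e4d : CRef := CRef.mk (Pat.mk 0x100000003800000000 0x3be000001fe000001c7 7 10) 0 0 (step_sound _ 66 [(rh508d31626b5d2be8.shift 1 1), rh89828354c362fe41, (rhb5a4df103f91c93d.shift 2 0)] (by decide +kernel))
noncomputable def rhd6c1d584e46bad4e : CRef := CRef.mk (Pat.mk 0x1000000010000000140000003c00000000 0x280000007c0000001e000000140000003e00000007 7 7) 0 0 (step_sound _ 1 [(rh80fcd6d0a18cb2dd.shift 1 0), rhcf6f93d5748779eb] (by decide +kernel))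
noncomputable def rh398f38c76fd248cf : CRef := CRef.mk (Pat.mk 0x1000000010000000200000007000000000 0x10000000100000007f000001fe0000000f 7 9) 0 0 (step_sound _ 68 [(rh4ca5dae25f5c14ff.shift 2 1), (rh79b3c29022acbdf3.shift 3 1), rha40fbb241e27bfba] (by decide +kernel))
noncomputable def rh21af45ec9f402856 : CRef := CRef.mk (Pat.mk 0x2000000020000000200000007000000000 0x400000006000000020000001ff000001fe0000000f 7 9) 0 0 (step_sound _ 134 [(rh2f68792b6b779e96.shift 5 1), rhaa239a5c5fd20f51] (by decide +kernel))
noncomputable def rh7fc8b770ebe5724b : CRef := CRef.mk (Pat.mk 0x3000000020000000200000007000000000 0x400000007000000038000000ff0000007e0000000f 7 8) 0 0 (step_sound _ 134 [(rh2f68792b6b779e96.shift 5 1), rha56fa34c07554be9] (by decide +kernel))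
noncomputable def rh9c4a694ab3d12622 : CRef := CRef.mk (Pat.mk 0x800000028000000080000001c00000000 0x100000003800000028000001ff000000fe000000e0 7 9) 0 0 (step_sound _ 132 [(rh2f68792b6b779e96.shift 3 1), rha36f754ee4f9dbee] (by decide +kernel))
noncomputable def rh4c6c98914bc1a4c9 : CRef := CRef.mk (Pat.mk 0x3000000038000000200000003000000000 0x3000000038000000ef0000007e0000004f 7 8) 0 0 (step_sound _ 38 [rh236a20d1044f1152, (rh55afc6a59410cf00.shift 5 0)] (by decide +kernel))
noncomputable def rh391dd96e0c89e197 : CRef := CRef.mk (Pat.mk 0x70000000b000000020000000200000000 0x180000001f0000000b0000001e0000001f00000005 7 5) 0 0 (step_sound _ 131 [(rh18965a982d73c794.shift 0 3), rhbea7e280301f311a] (by decide +kernel))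
noncomputable def rh23fb9fec68bf76db : CRef := CRef.mk (Pat.mk 0x2000000020000000200000003000000000 0x2000000020000001ff000001fe0000004f 7 9) 0 0 (step_sound _ 38 [(rh55afc6a59410cf00.shift 5 0), rhaa239a5c5fd20f51] (by decide +kernel))
noncomputable def rh6197279da0b28749 : CRef := CRef.mk (Pat.mk 0x20000007c00000050000000100000001000000000 0xc30000007e00000050000000f8000000f0000000a0 7 8) 0 0 (step_sound _ 129 [(rh3244c3cc8379b070.shift 0 4), (rh6efbbe82509d261b.shift 3 0)] (by decide +kernel))
noncomputable def rh4397de840afcb735 : CRef := CRef.mk (Pat.mk 0x100000000e0000000a000000020000000200000000 0x300000001e0000000a0000007f0000003e00000004 7 7) 0 0 (step_sound _ 132 [(rh33e738c4ed385b9f.shift 1 4), rhf10162167d847a18] (by decide +kernel))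
noncomputable def rha355fbd4fbd4a199 : CRef := CRef.mk (Pat.mk 0x40000002c00000028000000200000002000000000 0x40000002c000000280000006f0000003e00000017 7 7) 0 0 (step_sound _ 36 [rh4bdfd85a5cd1beb0, (rh932754581e0f4330.shift 4 0)] (by decide +kernel))
noncomputable def rhd64c3122339b289e : CRef := CRef.mk (Pat.mk 0x3c00000028000000080000000800000000 0xe00000007c000000280000007c0000002f00000004 7 8) 0 0 (step_sound _ 166 [(rh428265de8cd3cd2d.shift 2 4), rh55af133cf0e2e320] (by decide +kernel))
noncomputable def rh672a51149fa25971 : CRef := CRef.mk (Pat.mk 0x20000000a0000000a000000020000000000000000 0x140000001c0000001e0000000b0000001a0000001e0000001e00000004 7 5) 0 0 (step_sound _ 34 [rh9056f0156915f869, (rhd3458b32566d63f7.shift 1 1)] (by decide +kernel))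
noncomputable def rh78bce38d2b28aa66 : CRef := CRef.mk (Pat.mk 0x8000000280000000800000008000000040000000000000000 0xf0000007c00000018000000080000001c0000001c00000010 7 7) 0 0 (step_sound _ 67 [rh794ff21983719ec9, (rh932754581e0f4330.shift 2 1)] (by decide +kernel))
noncomputable def rhb6b23671e296826e : CRef := CRef.mk (Pat.mk 0x3800000008000000080000000800000008000000000000000000000000 0x780000000f0000000c00000008000000080000001c0000001c00000014 7 7) 0 0 (step_sound _ 194 [(rh18965a982d73c794.shift 2 6), rh5738351d3e2847d7] (by decide +kernel))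
noncomputable def rhf0aa506182671f59 : CRef := CRef.mk (Pat.mk 0x20000000a0000000a000000020000000600000003 0xc0000001e0000000b0000001b0000001a0000001e00000013 7 5) 0 0 (step_sound _ 36 [rh361cc68994bd8a63, rhfe5bd5d2691602a3] (by decide +kernel))
noncomputable def rhf7d000525154c5b6 : CRef := CRef.mk (Pat.mk 0xa0000000a0000000a000000040000000000000000 0x1000000018000000180000000b0000001f0000007a000000170000000700000001 7 7) 0 0 (step_sound _ 100 [rh823c71de927b23dc, (rh9ebd639649ea671c.shift 0 3), (rhf64821747b7b1be1.shift 3 2)] (by decide +kernel))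
noncomputable def rh5182aee9a587141e : CRef := CRef.mk (Pat.mk 0x800000028000000280000000800000000 0x5000000070000000f0000000780000002f0000007c0000007800000040 7 8) 0 0 (step_sound _ 133 [(rh1d991cfd4e134774.shift 2 1), (rh875b06254eb4f481.shift 0 1), (rh884f9b42c93cbb87.shift 0 1), rhaefbe595090da7d6, (rhb20d3951e6be7214.shift 3 0)] (by decide +kernel))
noncomputable def rhe28d51e58d268b16 : CRef := CRef.mk (Pat.mk 0x80000000a0000000a000000020000000200000000 0x8000000080000000b0000001e0000003a0000001f0000003d 7 6) 0 0 (step_sound _ 34 [rh0919b6bf5df06643, (rh55afc6a59410cf00.shift 1 0)] (by decide +kernel))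
noncomputable def rhae18d5d38738ebe6 : CRef := CRef.mk (Pat.mk 0x80000000a0000000a000000020000000200000000 0x140000001c0000001c000000180000000a0000001a0000001a0000001f00000005 7 5) 0 0 (step_sound _ 34 [(rh55afc6a59410cf00.shift 1 0), rh939cd600b90fdeba] (by decide +kernel))
noncomputable def rh9fec5f19ce893209 : CRef := CRef.mk (Pat.mk 0x80000000a0000000a000000020000000200000000 0x140000001c0000001c0000000c0000000a0000001a0000001a0000001f00000005 7 5) 0 0 (step_sound _ 195 [rh23b335396a05fb5c, (rh5ad9898cc32ef511.shift 2 1), (rhc85cc95794737cf7.shift 2 3), rhe9850e9c4b0c5c3d] (by decide +kernel))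
noncomputable def rh6001e699e40fe003 : CRef := CRef.mk (Pat.mk 0x20000000a0000000a000000020000000200000002 0xc0000001e0000000b0000001f0000001a0000001200000012 7 5) 0 0 (step_sound _ 128 [rh7b39b303bf913754, rhffd04209dc8ea796] (by decide +kernel))
noncomputable def rh089a35bad79b642b : CRef := CRef.mk (Pat.mk 0x200000002000000020000000100000000 0x500000007000000070000000200000002000000060000000700000005 7 3) 0 0 (step_sound _ 33 [rh932754581e0f4330, rha087c6594f4bfb59] (by decide +kernel))
noncomputable def rh25a3c5d74d9bc3fa : CRef := CRef.mk (Pat.mk 0x50000000500000005000000010000000000000000 0x20000000600000007000000050000000d0000000f0000000f00000002 7 4) 0 0 (step_sound _ 33 [(rhd3458b32566d63f7.shift 0 1), rhd869aaa1cdd1f6cb] (by decide +kernel))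
noncomputable def rh598d9d5a77122418 : CRef := CRef.mk (Pat.mk 0x80000000a0000000a000000020000000400000000 0x40000000c0000000a0000001f0000007a0000001e00000004 7 7) 0 0 (step_sound _ 2 [rh321876ff67f5d513, (rhbe0e43a3bc50a43f.shift 1 0)] (by decide +kernel))
noncomputable def rha577da2f3ca7d83b : CRef := CRef.mk (Pat.mk 0x50000000500000005000000010000000000000000 0x80000000c0000000d000000050000000d0000000f0000000f00000002 7 4) 0 0 (step_sound _ 33 [rh17f9e15738026036, (rhd3458b32566d63f7.shift 0 1)] (by decide +kernel))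
noncomputable def rh06f1c17b7aa8d8de : CRef := CRef.mk (Pat.mk 0xa0000000a0000000a000000020000000000000000 0xa0000000b0000001f0000003e0000001e00000004 7 6) 0 0 (step_sound _ 34 [rh332efe8daf6103fe, (rhd3458b32566d63f7.shift 1 1)] (by decide +kernel))
noncomputable def rh06772b481b5ae650 : CRef := CRef.mk (Pat.mk 0x8000000080000000a000000000000000000000000 0x140000001c0000001c00000018000000080000001f0000003c0000001c00000014 7 6) 0 0 (step_sound _ 67 [(rh1726a00b0a8befd0.shift 2 1), (rh6eff4158bb400f47.shift 2 0), (rh840a02bbd56aedea.shift 0 1), (rhced6d86d2069808b.shift 3 1)] (by decide +kernel))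
noncomputable def rh17ef02bfbea9e4d4 : CRef := CRef.mk (Pat.mk 0x1400000014000000140000000c00000000 0x300000003c000000170000001f0000007f00000070 7 7) 0 0 (step_sound _ 67 [rh155e8352b4111ea7, (rh5c5e593799055d58.shift 3 1)] (by decide +kernel))
noncomputable def rh6e0a5d61d19f6b7d : CRef := CRef.mk (Pat.mk 0xa00000002000000020000000200000002000000000000000000000000 0x40000001e00000003000000070000000600000006000000030000000300000001 7 5) 0 0 (step_sound _ 226 [(rh2f68792b6b779e96.shift 1 4), rh3032f6e811053f1f] (by decide +kernel))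
noncomputable def rh185e279297798aa6 : CRef := CRef.mk (Pat.mk 0xa0000000300000000000000000 0x400000004000000f70000007e0000000f00000008 7 8) 0 0 (step_sound _ 67 [(rh3e0b38310ac09007.shift 0 2), rh549c735a133989e6, (rha4e887c2a2a0f60b.shift 0 1), (rhcb00ab67b46fb179.shift 3 2)] (by decide +kernel))
noncomputable def rhbeb1d0eae72df3db : CRef := CRef.mk (Pat.mk 0x20000000f000000000 0x3f000000fe0000018e 7 9) 0 0 (step_sound _ 35 [rh1f9701c4cf497514, (rh592c7139d2c44767.shift 1 0), rh92473603100bcf5b, (rhd5eb272e07a4e288.shift 2 1), (rhf87dc096ad6b06e9.shift 1 0)] (by decide +kernel))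
noncomputable def rhc11d0d8a3a310ef7 : CRef := CRef.mk (Pat.mk 0xe00000016000000040000000700000000 0x300000003e000000160000003e0000003f00000021 7 6) 0 0 (step_sound _ 65 [rh5ff1674700f1ef3f, rh932754581e0f4330] (by decide +kernel))
noncomputable def rha6b6c4cb4f6fd869 : CRef := CRef.mk (Pat.mk 0x200000002000000020000000380000000000000000 0x400000006400000024000000370000007e0000000f00000008 7 7) 0 0 (step_sound _ 166 [(rh2f68792b6b779e96.shift 5 2), rh549c735a133989e6] (by decide +kernel))
noncomputable def rh2dc984680a1d9c3d : CRef := CRef.mk (Pat.mk 0x1c000000180000000000000000 0x4000000070000001f0000001b0000000f00000007 7 5) 0 0 (step_sound _ 97 [rh2e7d4dac8c353942, (rhb739f4f82bb681b4.shift 0 2)] (by decide +kernel))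
noncomputable def rhcbc0e6b0de5b1155 : CRef := CRef.mk (Pat.mk 0x200000002000000120000000000000000 0x100000007000000070000000700000003000000030000001f0000000600000004 7 5) 0 0 (step_sound _ 161 [(rh1741680720c097b4.shift 0 2), rh8ff3dde5b1c639e0, (rhd2a6aa75971f4bc3.shift 0 1), (rhf515f701b82bbaa6.shift 0 2)] (by decide +kernel))
noncomputable def rh44ec5e4264b63946 : CRef := CRef.mk (Pat.mk 0x2000000020000000200000000000000000000000000000000 0x5000000070000000700000003000000030000000600000007000000070000000700000005 7 3) 0 0 (step_sound _ 97 [(rh6eff4158bb400f47.shift 0 1), (rha087c6594f4bfb59.shift 0 2), (rhc4526fc8abf298b6.shift 0 1), rhc850b49d039efae1] (by decide +kernel))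
noncomputable def rh6af40ba4c5de00df : CRef := CRef.mk (Pat.mk 0x800000008000000480000000c00000000 0x40000000c0000000f0000007e0000000f0000000a 7 7) 0 0 (step_sound _ 68 [(rh361cc68994bd8a63.shift 2 1), rh9615f9b8d9accadb] (by decide +kernel))
noncomputable def rh43b5b6213fbf2db3 : CRef := CRef.mk (Pat.mk 0x200000002000000020000000000000000 0x10000000700000007000000070000000300000003000000030000000300000001 7 3) 0 0 (step_sound _ 161 [(rh1741680720c097b4.shift 0 2), (rh20966da26a1c2ae8.shift 0 1), rhc4526fc8abf298b6, (rhf515f701b82bbaa6.shift 0 2)] (by decide +kernel))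
noncomputable def rhc9117c7e05881b72 : CRef := CRef.mk (Pat.mk 0x180000001e0000000000000000 0x500000007000000070000001f0000001e0000000700000004 7 5) 0 0 (step_sound _ 97 [(rh3244c3cc8379b070.shift 0 2), rhb04ebd012d5de17f] (by decide +kernel))
noncomputable def rh536921fdcf45dccc : CRef := CRef.mk (Pat.mk 0x180000001800000000 0x400000004000000e7000000ff0000001f00000008 7 8) 0 0 (step_sound _ 69 [(rh2612b4f73ba7c3b3.shift 2 1), (rh30b1045e318f0560.shift 0 1), rha92a316f980eef78] (by decide +kernel))
noncomputable def rha30e9719150721ce : CRef := CRef.mk (Pat.mk 0x2000000000000001000000013000000140000000000000000 0x20000000380000003e0000003800000030000000130000001e000000f800000020 7 8) 0 0 (step_sound _ 164 [(rh1efe470493b598b7.shift 1 2), (rh6ca00577e7bd8bb4.shift 1 0), (rhd4e264f2ee3d23be.shift 0 1)] (by decide +kernel))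
noncomputable def rh423af0bd02fdf2da : CRef := CRef.mk (Pat.mk 0xc00000018000000180000001800000000 0x20000000f0000001f0000001f0000003c0000000c 7 6) 0 0 (step_sound _ 98 [(rh7b1f1fb55310c477.shift 2 0), rha429d218761cf231] (by decide +kernel))
noncomputable def rh40c1aa678ef6a813 : CRef := CRef.mk (Pat.mk 0x800000018000000180000001800000000 0x40000000f0000001c0000001c0000001f0000000f 7 5) 0 0 (step_sound _ 130 [(rh50fbb5868c909700.shift 2 1), rh576d812308835c7e] (by decide +kernel))
noncomputable def rh2938af74a723da04 : CRef := CRef.mk (Pat.mk 0x800000018000000180000000800000000 0x40000000c0000001f0000001b0000000f0000000e 7 5) 0 0 (step_sound _ 130 [(rh50fbb5868c909700.shift 2 1), rhbf7d7f94858df2aa] (by decide +kernel))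
noncomputable def rhb338e9cabce25268 : CRef := CRef.mk (Pat.mk 0x8000000000000003800000018 0x2c0000002c000000670000003f0000001f 7 7) 0 0 (step_sound _ 34 [rh535107619cc5e4dc, (rh68da57567b86e05e.shift 1 0), rhb14e2588a8d71db8, rhba89ab7cb81bcc90] (by decide +kernel))
noncomputable def rh77c0a217cac7c101 : CRef := CRef.mk (Pat.mk 0x4000000200000003800000000 0xa0000000e0000000e00000004000000370000003e0000000f 7 6) 0 0 (step_sound _ 34 [rh21d582c147e7e118, rh592c7139d2c44767, (rh7fb660bc21ce4329.shift 0 1), (rhae61128d65827350.shift 1 0)] (by decide +kernel))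
noncomputable def rh132e8b4115802db3 : CRef := CRef.mk (Pat.mk 0x1800000010000000100000000200000000 0x80000001800000010000000370000003e0000000f 7 6) 0 0 (step_sound _ 36 [(rh50fbb5868c909700.shift 3 1), rheb1bf0ecafcea10d] (by decide +kernel))
noncomputable def rh55fe3182bebc491c : CRef := CRef.mk (Pat.mk 0x1c00000012000000100000000200000000 0xc0000001e000000130000001e0000001f00000005 7 5) 0 0 (step_sound _ 36 [rh2ed268add170536d, (rh50fbb5868c909700.shift 3 1)] (by decide +kernel))
noncomputable def rh8ab144743d715b5f : CRef := CRef.mk (Pat.mk 0x1e000000120000001000000002000000000000000000000000 0xc0000001e00000012000000120000003b0000001f0000000f00000005 7 6) 0 0 (step_sound _ 129 [(rh2f68792b6b779e96.shift 1 3), rhcaba53e52965ee65] (by decide +kernel))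
noncomputable def rh339c0a111e1920b9 : CRef := CRef.mk (Pat.mk 0x200000002000000020000000200000000000000000000000000000000 0x200000003000000030000000300000007000000070000000700000001 7 3) 0 0 (step_sound _ 97 [(rh1d4d582b4a5524fc.shift 0 1), (rh6eff4158bb400f47.shift 0 1), (rh7928877f9bf74a91.shift 0 2), rhe84e00c98653ad0c] (by decide +kernel))
noncomputable def rh17b288cfff1da6ea : CRef := CRef.mk (Pat.mk 0x1c00000018000000100000000000000000 0x40000001c000000180000007c0000001f0000001c 7 7) 0 0 (step_sound _ 36 [(rh7b1f1fb55310c477.shift 3 0), rhdc1c0c16c2a4b291] (by decide +kernel))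
noncomputable def rhfd63afcb92e1e147 : CRef := CRef.mk (Pat.mk 0x2000000000000000600000013000000100000000000000000 0x20000000380000003e000000380000003e00000013000000300000003000000020 7 6) 0 0 (step_sound _ 132 [(rh361cc68994bd8a63.shift 0 3), (rh8eae7edef4456675.shift 1 0)] (by decide +kernel))
noncomputable def rhe7a225c6775a4191 : CRef := CRef.mk (Pat.mk 0x20000003c00000024000000200000002000000000 0x30000003e00000024000000740000003e00000017 7 7) 0 0 (step_sound _ 129 [(rh3244c3cc8379b070.shift 0 4), rh55e086f2250aee3a] (by decide +kernel))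
noncomputable def rhf791c62307fb06df : CRef := CRef.mk (Pat.mk 0x1e000000000000000000000000 0x1000000038000000380000003f0000001e000000380000001000000010 7 6) 0 0 (step_sound _ 132 [(rh33e738c4ed385b9f.shift 1 3), rh890e40963ccca8ae] (by decide +kernel))
noncomputable def rhb8cb4bffa7c72137 : CRef := CRef.mk (Pat.mk 0x7000000000000000200000002 0xa0000000e0000000e000000040000000f0000003e0000000e00000002 7 6) 0 0 (step_sound _ 130 [(rh04253f50b6dd0619.shift 1 0), rh0e6429627e90a91f] (by decide +kernel))
noncomputable def rhd33beae08f69b6d9 : CRef := CRef.mk (Pat.mk 0x1c000000020000000a0000000a000000020000000000000000 0xf00000007c000000fa0000000a0000000a0000001f0000001900000010 7 8) 0 0 (step_sound _ 197 [(rh3fc3a7fb6866dcd4.shift 2 5), rheb6c4c823865ce70] (by decide +kernel))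
noncomputable def rh1f4773ad863a4162 : CRef := CRef.mk (Pat.mk 0x300000000c00000008000000280000001800000000 0x50000000700000006f0000007c000000280000007c00000064 7 7) 0 0 (step_sound _ 34 [rh349d0d447f8dfad7, (rh932754581e0f4330.shift 2 0)] (by decide +kernel))
noncomputable def rh37e1fa78c3e02457 : CRef := CRef.mk (Pat.mk 0x300000002000000020 0x10000000700000007000000070000001f70000003e0000007000000020 7 9) 0 0 (step_sound _ 101 [(rh0de078aa0be653b2.shift 4 0), (rh0f88566f1a09c677.shift 2 0), rh3c74cf66486b6bd2, (rha7bb430bc20854cc.shift 4 0)] (by decide +kernel))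
noncomputable def rh1b9ada9647cec197 : CRef := CRef.mk (Pat.mk 0x4000000000000000f00000000000000000000000000000000 0x40000001c0000000f000000180000001c0000001c00000014 7 5) 0 0 (step_sound _ 99 [rh41a3dc34bd4cc3e2, (rhe25b0a99195a5d59.shift 0 3)] (by decide +kernel))
noncomputable def rhad3f1265f0b6ec22 : CRef := CRef.mk (Pat.mk 0x2000000020000000000000001800000000 0x40000000600000006000000020000000e70000007e000000ff 7 8) 0 0 (step_sound _ 37 [rh392d7678b3ef63ac, (rh3a2a22c59b172258.shift 4 0), rh900144b0f9adb2af, rhdc6ecbaaaf37a6e5] (by decide +kernel))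
noncomputable def rh7f2894320d5c4c16 : CRef := CRef.mk (Pat.mk 0x30000000800000008000000080000000400000000 0x140000001e0000001b0000000800000008000000180000001c00000014 7 5) 0 0 (step_sound _ 35 [(rh932754581e0f4330.shift 2 0), rhcadfe49164deda00] (by decide +kernel))
noncomputable def rh8ac3cc5e149c24ca : CRef := CRef.mk (Pat.mk 0x300000001000000040000000000000002000000000 0x8000000080000003c7000001fe000003fe00000040000000e0000000e0000000a0 7 10) 0 0 (step_sound _ 166 [rh077a9a4cc924c930, (rh352b7f91eba0c81f.shift 3 4), (rh6f262db603c89561.shift 4 2), (rhd1f216945c3e1a0b.shift 3 0), (rhf0f55c4504412200.shift 1 4)] (by decide +kernel))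
noncomputable def rh530737fce91db0a2 : CRef := CRef.mk (Pat.mk 0x1e00000000000000200000003800000000 0x70000001e00000003000000670000003e00000060 7 7) 0 0 (step_sound _ 34 [(rh33e738c4ed385b9f.shift 2 1), rhe1e9f6ee72e9a15d] (by decide +kernel))
noncomputable def rh8333c4bd7c656596 : CRef := CRef.mk (Pat.mk 0x1000000070000000200000000000000000 0x1f0000007e000000ff0000000c0000000c 7 8) 0 0 (step_sound _ 99 [(rh2efad3051cff7df1.shift 0 2), (rh4f8edb321cf5b49d.shift 1 2), (rh6a5e123be6984ba7.shift 2 0), (rha03f6e28ea70fc7d.shift 2 2), (rhb2afcb5db661472f.shift 0 2)] (by decide +kernel))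
noncomputable def rh9da097a2f040ea6a : CRef := CRef.mk (Pat.mk 0x1e00000010000000000000000000000000 0x4000000040000003f0000001f000000070000000200000002 7 6) 0 0 (step_sound _ 97 [rh36e2fcb0dd4ce465, (rheb0810cc63b001d8.shift 0 3)] (by decide +kernel))
noncomputable def rhf2a6f205bc2dd868 : CRef := CRef.mk (Pat.mk 0x20000001e00000002000000000000000000000000 0x300000003000000060000001e0000003e000000070000000700000002 7 6) 0 0 (step_sound _ 100 [(rhe25b0a99195a5d59.shift 1 3), rhf0a84a98dc27822a] (by decide +kernel))
noncomputable def rh985c666587eb6c3f : CRef := CRef.mk (Pat.mk 0xa0000000200000002000000000000000000000000 0x740000003e0000007300000002000000070000000700000005 7 7) 0 0 (step_sound _ 65 [rh6eff4158bb400f47, (rhd0e7f0fbf0cb2aca.shift 0 2)] (by decide +kernel))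
noncomputable def rh23ce5619305fee81 : CRef := CRef.mk (Pat.mk 0x80000000a0000000a000000000000000600000000 0x80000000a0000000a0000007b0000003e00000074 7 7) 0 0 (step_sound _ 35 [(rh072ce4b569e16e7a.shift 2 0), (rh7611754620ec4708.shift 1 0), (rh90c4546f59aef0d0.shift 1 0), rh96c84747a3ad56d1] (by decide +kernel))
noncomputable def rh7303246287e0be0a : CRef := CRef.mk (Pat.mk 0x200000002000000020000000000000001800000000 0x200000002000000020000000e70000007e000000ff 7 8) 0 0 (step_sound _ 37 [(rh072ce4b569e16e7a.shift 4 0), rh392d7678b3ef63ac, rh900144b0f9adb2af, rhdc6ecbaaaf37a6e5] (by decide +kernel))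
noncomputable def rh0e218b55d9487fc5 : CRef := CRef.mk (Pat.mk 0x10000000f0000000000000000 0x1c0000001c0000001f0000000f0000001c0000000c 7 5) 0 0 (step_sound _ 99 [(rh33e738c4ed385b9f.shift 0 2), rh4932cdc401d7c9a3] (by decide +kernel))
noncomputable def rh165e3f00a233b6af : CRef := CRef.mk (Pat.mk 0x6000000000000000a0000000a00000008 0x740000003e0000007b0000001a0000001a00000008 7 7) 0 0 (step_sound _ 97 [rh0eaa6b7299c40cdd, (rh2f68792b6b779e96.shift 1 1)] (by decide +kernel))
noncomputable def rh1b80a69c4b670f84 : CRef := CRef.mk (Pat.mk 0x7000000000 0x1ff000000fe0000000f 7 9) 0 0 (step_sound _ 35 [rh15b856e33c69f807, (rh4c622fddc53a5f99.shift 1 1), (rh592c7139d2c44767.shift 1 0), (rh9e97bba44c1b13e4.shift 1 0), rhaeac014a58998cf3, (rhb18e6c78a554867d.shift 2 1)] (by decide +kernel))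
noncomputable def rh012db007bcb18160 : CRef := CRef.mk (Pat.mk 0x1c00000000 0x1ef000000fe000001e7 7 9) 0 0 (step_sound _ 37 [(rh3fc3a7fb6866dcd4.shift 2 0), (rh45f730bcf36fcf64.shift 1 0), rh592c7139d2c44767, (rhb18e6c78a554867d.shift 1 1), (rhe401600d466b97cd.shift 1 0)] (by decide +kernel))
noncomputable def rh85cb3828eadc3450 : CRef := CRef.mk (Pat.mk 0x100000002000000020000000a00000002 0x10000000300000002000000720000003e00000077 7 7) 0 0 (step_sound _ 129 [rh1b0ca7176473ea92, (rh50fbb5868c909700.shift 0 1)] (by decide +kernel))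
noncomputable def rh065f3ddae6d0709b : CRef := CRef.mk (Pat.mk 0xa0000000200000008000000000000000000000000 0x1000000010000000700000007e0000007f000000080000001c0000001c00000014 7 7) 0 0 (step_sound _ 164 [(rh7c06803154092368.shift 0 2), (rhc42297b4a2656f14.shift 0 4), (rhc6338602faf8e7de.shift 0 4), rhc7cb99f69e3fab20, (rhe2d1e09dd3b8803a.shift 1 2)] (by decide +kernel))
noncomputable def rh9308b8e69ccc3d87 : CRef := CRef.mk (Pat.mk 0xa000000020000000800000000 0x1000000010000000f80000007e000000ff0000000800000008 7 8) 0 0 (step_sound _ 100 [(rh7ae033213d92c77b.shift 1 0), rh7c06803154092368, (rhd1b3471765a9f135.shift 0 2), rhea3ca5d52ed23da3] (by decide +kernel))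
noncomputable def rh389c71b61d63ca2a : CRef := CRef.mk (Pat.mk 0x18000000100000001000000010 0x400000004000000270000007e000000ff0000001800000010 7 8) 0 0 (step_sound _ 101 [(rh2f68792b6b779e96.shift 4 0), (rhc584af121433e43a.shift 0 1)] (by decide +kernel))
noncomputable def rh87deea997987d089 : CRef := CRef.mk (Pat.mk 0x2000000010000000100000001000000000 0x3000000030000000100000001f0000007c00000028 7 7) 0 0 (step_sound _ 132 [(rh2f68792b6b779e96.shift 4 1), rheef8823181f1d3a6] (by decide +kernel))
noncomputable def rh9e8a45bc44d032b2 : CRef := CRef.mk (Pat.mk 0x4000000040000000400000004 0x600000006000000060000003c0000000f0000000e 7 6) 0 0 (step_sound _ 129 [rhbb0650a008116cff, (rhffd04209dc8ea796.shift 1 0)] (by decide +kernel))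
noncomputable def rh8f7a88b0b2be2898 : CRef := CRef.mk (Pat.mk 0x10000000300000001000000000 0x2800000038000000380000001800000010000000ff0000007e00000028 7 8) 0 0 (step_sound _ 132 [(rh14e0829dc73b6804.shift 3 1), (rh771d065bdc85bf2d.shift 3 0), (rhb0de455c382c5b1c.shift 1 0), rheef8823181f1d3a6] (by decide +kernel))
noncomputable def rh010fc4f2dd216d36 : CRef := CRef.mk (Pat.mk 0x800000008000000080000001800000008 0x800000008000003ff000001fe000003cf 7 10) 0 0 (step_sound _ 37 [(rh02a67351009626f5.shift 2 0), rh2820ca9a6c4f41b4, (rh352b7f91eba0c81f.shift 2 0), rh8423cfba4e63a652] (by decide +kernel))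
noncomputable def rh7247bc4627a16b0c : CRef := CRef.mk (Pat.mk 0x800000008000000080000000800000008 0x140000001c0000001c000000080000000c0000001f0000007c0000001c00000008 7 7) 0 0 (step_sound _ 98 [(rh3ab37a18b1a0f297.shift 0 1), (rh50fbb5868c909700.shift 2 0)] (by decide +kernel))
noncomputable def rh83714816f4b15a68 : CRef := CRef.mk (Pat.mk 0x1e000000080000000800000000 0x40000000400000006000000070000001e0000003f0000000b00000003 7 6) 0 0 (step_sound _ 68 [rh21b0f5113d9663bc, (rhe25b0a99195a5d59.shift 1 2)] (by decide +kernel))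
noncomputable def rh5539f4a7f16e4da8 : CRef := CRef.mk (Pat.mk 0x20000000300000002000000000000000000000000 0x1000000070000000700000007000000030000000300000002000000070000000700000005 7 3) 0 0 (step_sound _ 193 [rh47992774edf9829f, (rh4e2df8342d3b8ae8.shift 0 3), (rhc85cc95794737cf7.shift 0 3), (rhcaa2c1a05e34bcba.shift 0 1)] (by decide +kernel))
noncomputable def rh1aff377368479d05 : CRef := CRef.mk (Pat.mk 0x120000001800000008 0x1c0000001c000000ff000000ff0000001800000008 7 8) 0 0 (step_sound _ 67 [rh00715ddcf8ecd76b, (rh039962d58f508af9.shift 0 1), rh0cf8a3cd1e9bb579, rh50eaecb9bcc2f5b3] (by decide +kernel))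
noncomputable def rh00e5429bfb6aa774 : CRef := CRef.mk (Pat.mk 0xf00000000 0xfe0000007f00000070 7 8) 0 0 (step_sound _ 36 [rh184ca551843f9973, (rh3fc3a7fb6866dcd4.shift 1 0), (rh9890f9d77740bbed.shift 0 1), (rhbdb07089a4623ed7.shift 1 0)] (by decide +kernel))
noncomputable def rha5e0f1e43c24309e : CRef := CRef.mk (Pat.mk 0x200000003000000004000000000000000c00000000 0xc0000000c0000007e0000007e00000007000000060000000c0000000c 7 7) 0 0 (step_sound _ 130 [(rh36a57c5f2b6aeda1.shift 1 2), (rh760717e835f8c2f3.shift 1 3), rhd7383e6e876f0e67, (rhe8bdd1a43498df4e.shift 1 0)] (by decide +kernel))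
noncomputable def rh31533a4fbcdea4bf : CRef := CRef.mk (Pat.mk 0x1800000002000000300000002600000020 0x40000007e000001f3000000320000002600000024 7 9) 0 0 (step_sound _ 101 [rhbfec9fb548803dd2, (rhffd04209dc8ea796.shift 4 0)] (by decide +kernel))
noncomputable def rh7320b56634d3886a : CRef := CRef.mk (Pat.mk 0x18000000020000003000000026000000200000000000000000 0x40000007e000001e30000003200000026000000740000007000000050 7 9) 0 0 (step_sound _ 165 [(rh8cdd36b03d57a2f6.shift 4 0), (rhbfec9fb548803dd2.shift 0 2)] (by decide +kernel))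
noncomputable def rh6c3cfac4f06dc090 : CRef := CRef.mk (Pat.mk 0x18000000020000003800000028000000000000000000000000 0x400000004000000e70000007f000001fb0000003a00000028000000700000007000000050 7 9) 0 0 (step_sound _ 194 [(rh5641ed1c27a23066.shift 0 3), (rh73f5f7cdf41b5bc9.shift 0 4), (rh7b8a3f2a217d2093.shift 1 3), (rhe3e50c3fc6f4d709.shift 2 0)] (by decide +kernel))
noncomputable def rh7198def3152eab5c : CRef := CRef.mk (Pat.mk 0x3000000000000000200000002000000000000000000000000 0x500000007000000060000000200000002000000070000000700000005 7 3) 0 0 (step_sound _ 161 [rh49759b6975f15643, (rh50fbb5868c909700.shift 0 3)] (by decide +kernel))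
noncomputable def rha14125c7dfda9d47 : CRef := CRef.mk (Pat.mk 0xe000000000000000800000008000000000000000000000000 0x700000003f0000007800000008000000080000001c0000001c00000014 7 7) 0 0 (step_sound _ 196 [(rh4fc80024ed3db095.shift 1 3), (rh75eca5012e6213df.shift 0 2), (rha93a5dd541ab8209.shift 1 5), (rhb60df880055ffe7d.shift 2 0)] (by decide +kernel))
noncomputable def rhec920829c5f8ad15 : CRef := CRef.mk (Pat.mk 0x80000000c000000000000001000000010 0x1ff000000fe000000f00000001000000010 7 9) 0 0 (step_sound _ 100 [(rh2613c889e411427e.shift 3 0), (rhd439dca3540591af.shift 0 2)] (by decide +kernel))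
noncomputable def rhc9cfa3e71f7ae31d : CRef := CRef.mk (Pat.mk 0xb0000000f00000000 0x100000001c0000001c0000001c0000000f0000000f00000018 7 5) 0 0 (step_sound _ 3 [rhdfe8c6387df09594, rhe25b0a99195a5d59] (by decide +kernel))
noncomputable def rhd82de6e5a2ce54e7 : CRef := CRef.mk (Pat.mk 0xe000000000000000400000004 0xe70000007e000000e40000000400000004 7 8) 0 0 (step_sound _ 129 [(rh1e581fcebcca7a34.shift 0 2), (rh2613c889e411427e.shift 1 0)] (by decide +kernel))
noncomputable def rh311254c446b68106 : CRef := CRef.mk (Pat.mk 0x2000000020000000040000001000000010 0x1e0000000fc000001df0000001000000010 7 9) 0 0 (step_sound _ 100 [(rh04253f50b6dd0619.shift 4 0), (rhc09148393168e59a.shift 0 2)] (by decide +kernel))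
noncomputable def rh96506dac5eafec0d : CRef := CRef.mk (Pat.mk 0x30000000c000000050000000000000000000000000 0x2800000028000000780000007e000000df00000050000000180000001800000008 7 8) 0 0 (step_sound _ 132 [(rh215e11e099257d75.shift 4 2), (rh52351bc4066e3cbb.shift 3 2), (rhd8480aedf4075c15.shift 3 0), (rhdec4381b3919a2c7.shift 0 3)] (by decide +kernel))
noncomputable def rhac1000ca8703d9b1 : CRef := CRef.mk (Pat.mk 0x10000000d000000050000000000000000000000000 0x2800000028000000780000007e000000df00000050000000180000001800000008 7 8) 0 0 (step_sound _ 165 [(rh215e11e099257d75.shift 4 2), (rh52351bc4066e3cbb.shift 3 2), (rhd8480aedf4075c15.shift 3 0), (rhdec4381b3919a2c7.shift 0 3)] (by decide +kernel))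
noncomputable def rh5164112ed736214c : CRef := CRef.mk (Pat.mk 0x6000000020000000e0000000a000000000000000000000000 0x190000001f0000007e0000000e0000000a0000001c0000001c00000014 7 7) 0 0 (step_sound _ 192 [(rh50fbb5868c909700.shift 0 3), rhe3e50c3fc6f4d709] (by decide +kernel))
noncomputable def rh7574608ac1db3e93 : CRef := CRef.mk (Pat.mk 0x120000003000000006000000000000000000000000 0x500000007000000070000001e0000003200000006000000070000000700000005 7 6) 0 0 (step_sound _ 162 [rh8fb113ee94ec2fe7, (rhc10214bf3fe8094a.shift 1 4)] (by decide +kernel))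
noncomputable def rhf5fc36e157c9939c : CRef := CRef.mk (Pat.mk 0x20000003a0000002a000000020000000000000000 0x140000001e000000370000003b0000002a000000230000002300000001 7 6) 0 0 (step_sound _ 160 [(rh5f81ea591ca03fb3.shift 0 1), rhe4441baab75a6f73] (by decide +kernel))
noncomputable def rhc4b1f3d15039547a : CRef := CRef.mk (Pat.mk 0x4000000020000003a0000002a0000000000000000 0x1000000170000001f000000320000003a0000002a0000002000000020 7 6) 0 0 (step_sound _ 161 [rh2e3bbba8b789075e, (rh2f68792b6b779e96.shift 1 2)] (by decide +kernel))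
noncomputable def rh2344e8bb445172d2 : CRef := CRef.mk (Pat.mk 0xe000000180000000c00000000 0x14000000f7000000fe0000001a0000000f00000002 7 8) 0 0 (step_sound _ 33 [(rh53b3c253cb0c65f4.shift 0 1), rhb8515492ef94bfe4] (by decide +kernel))
noncomputable def rh4d2a054ed6195303 : CRef := CRef.mk (Pat.mk 0x4000000050000000400000004 0x7a0000003e000000770000000400000004 7 7) 0 0 (step_sound _ 99 [(rh2f68792b6b779e96.shift 2 0), rh5a281f6b25f3c6cc] (by decide +kernel))
noncomputable def rh94bfc7b0597a1632 : CRef := CRef.mk (Pat.mk 0xa0000001800000008 0x400000014000000ff000000ff0000001800000008 7 8) 0 0 (step_sound _ 66 [(rhb739f4f82bb681b4.shift 0 1), rhe959701115a78cea] (by decide +kernel))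
noncomputable def rhc927e7e6351ad112 : CRef := CRef.mk (Pat.mk 0x2000000380000002c000000000000000000000000 0x100000005a000000fe0000003a0000002f000000260000002400000004 7 8) 0 0 (step_sound _ 97 [(rh53b3c253cb0c65f4.shift 0 3), (rhbdf6848831d495e5.shift 1 0)] (by decide +kernel))
noncomputable def rhb17fe90e1de9c130 : CRef := CRef.mk (Pat.mk 0x6000000180000000800000000 0x14000000f4000000ff0000001f0000000b00000002 7 8) 0 0 (step_sound _ 99 [rh2a206bbe534d73c6, (rhb739f4f82bb681b4.shift 0 2)] (by decide +kernel))
noncomputable def rh6944a238d7c4ec23 : CRef := CRef.mk (Pat.mk 0x60000001c00000000000000000000000000000000 0x4000000070000001e00000003000000070000000700000005 7 5) 0 0 (step_sound _ 129 [(rh3244c3cc8379b070.shift 0 4), rh368d6c923f096099] (by decide +kernel))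
noncomputable def rh10c6c2c3da962758 : CRef := CRef.mk (Pat.mk 0x80000000b000000180000000800000000 0x2000000120000001e0000000b0000001b0000000f00000005 7 5) 0 0 (step_sound _ 132 [(rh2f68792b6b779e96.shift 3 1), rh6ac673da74501ff1] (by decide +kernel))
noncomputable def rh1a0e0b75332b9954 : CRef := CRef.mk (Pat.mk 0x30000001800000008000000000000000000000000 0x3000000030000001f0000000f000000070000000700000005 7 5) 0 0 (step_sound _ 129 [rh2cb9eae81fef5e13, (rh5419adcd928dba20.shift 0 4)] (by decide +kernel))
noncomputable def rhf900cf5d3716b858 : CRef := CRef.mk (Pat.mk 0x20000001e0000000000000000 0x50000000700000007000000020000003e0000000700000004 7 6) 0 0 (step_sound _ 33 [rha0cf86d215cf873e, (rheb0810cc63b001d8.shift 0 1)] (by decide +kernel))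
noncomputable def rh43e5309922239189 : CRef := CRef.mk (Pat.mk 0x40000003000000018000000000000000000000000 0x6000000760000003f0000001e0000000f0000000e0000000a 7 7) 0 0 (step_sound _ 98 [(rh53b3c253cb0c65f4.shift 1 3), rh92c4f675c4878534] (by decide +kernel))
noncomputable def rh9bd464d72418e132 : CRef := CRef.mk (Pat.mk 0x100000001c000000100000001000000000 0x8000000380000003800000038000000180000001f000000100000001800000008 7 6) 0 0 (step_sound _ 3 [(rh140d987a8619920f.shift 0 1), (rh79877ebd3ef475dd.shift 3 0)] (by decide +kernel))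
noncomputable def rhce5c5e3502eab792 : CRef := CRef.mk (Pat.mk 0x40000000c00000014000000000000000000000000 0xc0000000c0000000c0000000f0000001c0000000f0000000e00000006 7 5) 0 0 (step_sound _ 99 [rh32b4338b512b3613, (rh55a1f6c57a317ce6.shift 2 1), (rha5b9eb9647a4db41.shift 1 0)] (by decide +kernel))
noncomputable def rhde41330a4adeacf8 : CRef := CRef.mk (Pat.mk 0x80000000c0000001800000010000000000000000000000000 0x40000000c0000000f0000001c0000001f0000000f0000000c00000008 7 5) 0 0 (step_sound _ 161 [rh799c2a8eb59f74ab, (rhb739f4f82bb681b4.shift 0 4)] (by decide +kernel))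
noncomputable def rhb220b02469f067dd : CRef := CRef.mk (Pat.mk 0x30000000600000004 0xa0000001f0000003f0000001f00000004 7 6) 0 0 (step_sound _ 97 [(rh2145e1d24b96a57e.shift 1 0), rh325ea5cd28395dbe] (by decide +kernel))
noncomputable def rhd1df61ef3d0778c7 : CRef := CRef.mk (Pat.mk 0x60000000c0000000800000000 0x140000003c0000003e0000003e0000000b00000002 7 6) 0 0 (step_sound _ 130 [rh1de9db2225e22019, (rh2145e1d24b96a57e.shift 2 1)] (by decide +kernel))
noncomputable def rh14a19bb675b34f77 : CRef := CRef.mk (Pat.mk 0x60000000c00000008000000000000000000000000 0x40000000e0000000e0000003c0000000f000000060000000600000006 7 6) 0 0 (step_sound _ 132 [rh80221fea40f98679, (rhf48373e13d2bc128.shift 1 4)] (by decide +kernel))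
noncomputable def rh50c6b507fb91315b : CRef := CRef.mk (Pat.mk 0x180000001c0000001000000000 0x20000000a0000000f0000001f0000007c0000001600000004 7 7) 0 0 (step_sound _ 131 [(rh2145e1d24b96a57e.shift 3 1), rh7b9389c532b951ca] (by decide +kernel))
noncomputable def rh32ed449c336a9e09 : CRef := CRef.mk (Pat.mk 0x20000000600000002000000000000000000000000 0x4000000070000000700000003000000060000000600000006000000070000000700000001 7 3) 0 0 (step_sound _ 66 [(rh478c4cadbcd4e066.shift 1 1), (rhc51c89c0d5581847.shift 0 2), rhf57aef432b6ec1e1] (by decide +kernel))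
noncomputable def rh5e6a269e3b11e54a : CRef := CRef.mk (Pat.mk 0x1e0000000200000000 0x500000007000000070000003f0000001e0000000600000002 7 6) 0 0 (step_sound _ 97 [(rh3244c3cc8379b070.shift 0 2), rh49e9842bc3ff8239] (by decide +kernel))
noncomputable def rhb5015606df5d2f13 : CRef := CRef.mk (Pat.mk 0x1e000000100000001000000000 0x400000004000000370000003e000000130000001a00000008 7 6) 0 0 (step_sound _ 132 [(rh33e738c4ed385b9f.shift 1 3), rh5e726a38d4303980] (by decide +kernel))
noncomputable def rh5380fe2eb4b012cd : CRef := CRef.mk (Pat.mk 0x1e0000001a00000008000000000000000000000000 0x70000001e0000001e0000000f000000070000000700000005 7 5) 0 0 (step_sound _ 193 [(rh3244c3cc8379b070.shift 0 5), rhfb0a9e5ef18cc3a1] (by decide +kernel))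
noncomputable def rhec979629f7f835e6 : CRef := CRef.mk (Pat.mk 0x40000000e000000180000000000000000 0xe7000000fe0000001f0000000b0000000b 7 8) 0 0 (step_sound _ 35 [rh0c2a3049bbbc63ad, (rh7b1f1fb55310c477.shift 2 0)] (by decide +kernel))
noncomputable def rhd361313adbd6ceb8 : CRef := CRef.mk (Pat.mk 0x180000001c000000300000000000000000 0x40000000e0000000f000001de000001fc0000003e0000000800000008 7 9) 0 0 (step_sound _ 163 [(rh2145e1d24b96a57e.shift 3 2), rh42c09a3e6911bec1] (by decide +kernel))
noncomputable def rh7e73e40251326cba : CRef := CRef.mk (Pat.mk 0x18000000180000000000000010 0x1c0000003c0000000f00000018000000180000001800000010 7 6) 0 0 (step_sound _ 131 [(rh28152048bc8b598f.shift 0 1), (rh9e07f76261b05888.shift 3 0)] (by decide +kernel))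
noncomputable def rh5b1cc133f89c4a32 : CRef := CRef.mk (Pat.mk 0x80000000e00000018000000000000000000000000 0x200000002000000ef000000fe0000001f000000070000000600000002 7 8) 0 0 (step_sound _ 132 [(rh2395824d1086e2bc.shift 0 1), (rh36095876875a1ad2.shift 0 3), (rh412d230494194d0a.shift 0 3), (rh47c07cd0cc865f65.shift 0 3), rh481c9ab2c42732be, (rhc6956c01bebae6c8.shift 0 3)] (by decide +kernel))
noncomputable def rh7f06f0d66ad32591 : CRef := CRef.mk (Pat.mk 0x100000001c0000001000000010 0x2000000020000000b0000001f0000003f0000001400000010 7 6) 0 0 (step_sound _ 99 [(rh50fbb5868c909700.shift 3 0), (rhe62dad4106b3ff88.shift 0 1)] (by decide +kernel))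
noncomputable def rhbd81797e761b1a1a : CRef := CRef.mk (Pat.mk 0x30000000280000000000000080 0x387000001fe000001ef0000008000000080 7 10) 0 0 (step_sound _ 99 [(rh2820ca9a6c4f41b4.shift 0 2), (rh3918eeb6c53434d8.shift 0 2), (rh504df99a2451d493.shift 2 0), (rh8ee80cc30e93a344.shift 2 2)] (by decide +kernel))
noncomputable def rhbba2c239aa95994a : CRef := CRef.mk (Pat.mk 0x80000000c0000001800000010000000000000000000000000 0x10000000780000001f0000001c0000001c0000000c0000000c0000000c 7 7) 0 0 (step_sound _ 161 [(rhb739f4f82bb681b4.shift 0 4), (rhe1b5f1db90aa7cc3.shift 1 0)] (by decide +kernel))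
noncomputable def rha8b8cd489df8f7b7 : CRef := CRef.mk (Pat.mk 0x80000000c0000001800000010000000000000000000000000 0x100000007c0000000f000000780000001e0000000c0000000c0000000c 7 7) 0 0 (step_sound _ 161 [(rh2032190e18cdd245.shift 1 0), (rhb739f4f82bb681b4.shift 0 4)] (by decide +kernel))
noncomputable def rh8fd117af1e4fe66b : CRef := CRef.mk (Pat.mk 0x80000000c0000001800000010000000000000000000000000 0x100000007c0000001f00000018000000180000000c0000000c0000000c 7 7) 0 0 (step_sound _ 161 [(rhb739f4f82bb681b4.shift 0 4), (rhd2b2ab44e2921d07.shift 1 0)] (by decide +kernel))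
noncomputable def rhe76c94b69ac6091e : CRef := CRef.mk (Pat.mk 0xe0000001800000010 0x3000000038000000ff000000fe0000001f00000010 7 8) 0 0 (step_sound _ 99 [(rh2145e1d24b96a57e.shift 3 0), rhdf2dbf5dfcc0ac60] (by decide +kernel))
noncomputable def rh5642a6f45d885063 : CRef := CRef.mk (Pat.mk 0x80000000c00000018000000180000000000000000 0x100000001c0000000c0000001f0000001f0000000700000002 7 5) 0 0 (step_sound _ 66 [rh42957523712ad798, (rh932754581e0f4330.shift 2 1)] (by decide +kernel))
noncomputable def rh122cd325d6f3fe51 : CRef := CRef.mk (Pat.mk 0x1c0000001000000010 0x28000000380000003f0000007f0000001700000010 7 7) 0 0 (step_sound _ 100 [(rh018f2ebb4d91ad9d.shift 1 0), (rh1741680720c097b4.shift 3 0), (rhdab32775f5c78fcf.shift 1 0), rhe72119375f8d0613] (by decide +kernel))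
noncomputable def rh589c8ae891e6bf01 : CRef := CRef.mk (Pat.mk 0xc0000006800000020000000000000000000000000 0xc0000000c0000006c0000003c0000001f0000001c00000014 7 7) 0 0 (step_sound _ 99 [(rh0a6888916bcef86b.shift 2 0), (rh3984a1b7de841ff3.shift 1 0), (rh794501743a61ce18.shift 2 0), rh8ae707ccbbf43205, (rhe4e4efb231e692a9.shift 2 0)] (by decide +kernel))
noncomputable def rh3c30c8055d7e13c6 : CRef := CRef.mk (Pat.mk 0x1e000000620000002000000000 0x10000000120000003b0000001e0000006e0000003c0000000c 7 7) 0 0 (step_sound _ 129 [(rh3244c3cc8379b070.shift 0 3), (rhfbe9be5cc827e16c.shift 1 0)] (by decide +kernel))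
noncomputable def rhe86a237a17356ab2 : CRef := CRef.mk (Pat.mk 0x80000000a0000001800000008 0x40000001c0000001c0000001c0000000c0000000f0000001800000008 7 5) 0 0 (step_sound _ 131 [(rh3ca48e2a6d60153d.shift 2 0), (rh43887acd5536933c.shift 0 1), rh6753e24591d0cacc, (rhc85cc95794737cf7.shift 2 1)] (by decide +kernel))
noncomputable def rhbd12d67b56b3a18b : CRef := CRef.mk (Pat.mk 0x2000000020000000e0000000a0000000000000000 0x300000003000000170000003e0000000e0000000a0000000800000008 7 6) 0 0 (step_sound _ 192 [rhed808ce57f454405, (rhffd04209dc8ea796.shift 0 2)] (by decide +kernel))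
noncomputable def rh9ce86bf1fa49fcf0 : CRef := CRef.mk (Pat.mk 0xe0000001800000008 0x180000001c000000ff000000fe0000001800000008 7 8) 0 0 (step_sound _ 68 [(rh36095876875a1ad2.shift 0 1), (rh5421160f8e9bcf07.shift 1 0), rh940a891607560725] (by decide +kernel))
noncomputable def rh68fc8604eafce2e3 : CRef := CRef.mk (Pat.mk 0x280000000c000000000000000400000000 0xa0000001f0000007a0000000f000000060000000400000004 7 7) 0 0 (step_sound _ 132 [(rh18965a982d73c794.shift 2 3), rh6339d2ba5ee7f374] (by decide +kernel))
noncomputable def rh2d6292e9915b0989 : CRef := CRef.mk (Pat.mk 0x20000000e0000000b0000000000000000 0x40000000600000006000000160000003e0000000e0000000b0000000900000008 7 6) 0 0 (step_sound _ 161 [(rh932754581e0f4330.shift 0 1), (rhae1dd4283bf2190f.shift 1 0)] (by decide +kernel))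
noncomputable def rhba0cadad884e7b0c : CRef := CRef.mk (Pat.mk 0x8000000080000001800000008 0x180000001c0000001f0000007c0000001800000008 7 7) 0 0 (step_sound _ 132 [(rhbaefcd01e0a8bca3.shift 3 0), rhd0b9f788349388ba] (by decide +kernel))
noncomputable def rhaa4937157f620ec5 : CRef := CRef.mk (Pat.mk 0xa000000180000000a00000000 0x14000000f7000000ff0000001a0000000a00000002 7 8) 0 0 (step_sound _ 98 [(rhb739f4f82bb681b4.shift 0 2), rhb8515492ef94bfe4] (by decide +kernel))
noncomputable def rh1dd00983a80a782f : CRef := CRef.mk (Pat.mk 0x100000001800000002000000180000000c00000000 0x50000003f0000001f000000030000001a0000000f00000004 7 6) 0 0 (step_sound _ 33 [rh1d1d8b956a9c8d38, (rh53b3c253cb0c65f4.shift 0 1)] (by decide +kernel))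
noncomputable def rh5171bad11988e096 : CRef := CRef.mk (Pat.mk 0x7000000000000000e0000000b000000010000000000000000 0x10000000180000001f0000007c0000000e0000000b0000001d0000001d00000015 7 7) 0 0 (step_sound _ 32 [rh71222050f2c63a3a, rhf7c9c3af28796251] (by decide +kernel))
noncomputable def rhcfd856fe4b7cfa5e : CRef := CRef.mk (Pat.mk 0xf0000000000000004 0x140000001c0000001c000000180000000f0000001c00000004 7 5) 0 0 (step_sound _ 35 [rh589757d5078cba71, (rhe25b0a99195a5d59.shift 0 1)] (by decide +kernel))
noncomputable def rh3d6455680b89d287 : CRef := CRef.mk (Pat.mk 0x1000000018000000020000002000000020 0x3ff000001fe000003e30000002000000020 7 10) 0 0 (step_sound _ 101 [(rh12b1d0190104f169.shift 0 2), (rh2613c889e411427e.shift 4 0)] (by decide +kernel))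
noncomputable def rhcb40e638d6d82ada : CRef := CRef.mk (Pat.mk 0x80000001e00000000 0x1800000038000000380000003f0000001e00000030 7 6) 0 0 (step_sound _ 68 [rh072588235e8cf92a, (rh33e738c4ed385b9f.shift 1 1)] (by decide +kernel))
noncomputable def rh1eef45d71b73a217 : CRef := CRef.mk (Pat.mk 0x100000001c00000002 0x1f000000ff000000e3 7 8) 0 0 (step_sound _ 33 [rh2200ebeb76adc7be, rheb0810cc63b001d8] (by decide +kernel))
noncomputable def rh61c1432f4163f3ca : CRef := CRef.mk (Pat.mk 0x8000000080000000c0000000800000000 0x170000001f0000007c0000000f0000000c00000004 7 7) 0 0 (step_sound _ 34 [(rh36a3d6b491ba0447.shift 0 1), (rh932754581e0f4330.shift 2 0)] (by decide +kernel))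
noncomputable def rh78f759e424d35eaf : CRef := CRef.mk (Pat.mk 0xb000000180000000800000000 0x140000001c0000001c0000001e0000001b0000001e0000000c00000004 7 5) 0 0 (step_sound _ 66 [(rh09d4dfe75d4407d6.shift 0 2), rh46aa441443c6e3d0] (by decide +kernel))
noncomputable def rhe86b6dd4fd230cd3 : CRef := CRef.mk (Pat.mk 0x120000003000000006000000000000000000000000 0x500000007000000070000001e0000003200000006000000070000000700000005 7 6) 0 0 (step_sound _ 162 [rh784eb864b6890e43, (rhc10214bf3fe8094a.shift 1 4)] (by decide +kernel))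
noncomputable def rhbf2363c3d7d988f3 : CRef := CRef.mk (Pat.mk 0x2000000180000000e000000040000000000000000 0xb0000000f0000001b0000000e000000070000000300000001 7 5) 0 0 (step_sound _ 163 [(rh5c5e593799055d58.shift 2 2), rhf1733c1efd9afc2f] (by decide +kernel))
noncomputable def rh444da232525db12e : CRef := CRef.mk (Pat.mk 0x200000002000000000000000600000000 0x200000006000000070000000700000003000000030000000600000006 7 3) 0 0 (step_sound _ 65 [(rh55afc6a59410cf00.shift 1 0), rhe28105107b36988f] (by decide +kernel))
noncomputable def rh0a5a2e4d6ae73ece : CRef := CRef.mk (Pat.mk 0xe000000000000001000000010000000000000000000000000 0xf70000007e000000f80000001000000010000000380000003800000028 7 8) 0 0 (step_sound _ 196 [(rh3fc3a7fb6866dcd4.shift 1 5), (rh45f730bcf36fcf64.shift 0 5), (rh4af9117a15c443e9.shift 1 0), (rhb18e6c78a554867d.shift 0 6), (rhe401600d466b97cd.shift 0 5)] (by decide +kernel))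
noncomputable def rhc1eb0e8e3daa047e : CRef := CRef.mk (Pat.mk 0x30000000040000001000000014 0x1cf000000fe000001d60000001400000014 7 9) 0 0 (step_sound _ 99 [(rh2af2a57ff79386f9.shift 1 0), rh687076296dd60842, (rh7b8a3f2a217d2093.shift 2 0), rhee37d230d297e9fd] (by decide +kernel))
noncomputable def rh594ac2bd7b54a39a : CRef := CRef.mk (Pat.mk 0x3000000004000000400000004400000040 0x7000000fe000000e6000000440000004400000040 7 8) 0 0 (step_sound _ 102 [rhe28f41f5056d178e, (rhffd04209dc8ea796.shift 5 0)] (by decide +kernel))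
noncomputable def rhf1ff944bb86b3a50 : CRef := CRef.mk (Pat.mk 0x30000000040000004000000044000000400000000000000000 0x7000000fe000000c60000004400000044000000e0000000e0000000a0 7 8) 0 0 (step_sound _ 166 [(rh8cdd36b03d57a2f6.shift 5 0), (rhe28f41f5056d178e.shift 0 2)] (by decide +kernel))
noncomputable def rh69fa3f61121e4144 : CRef := CRef.mk (Pat.mk 0x800000008000000000000001400000014 0xff0000007e000000f40000001400000014 7 8) 0 0 (step_sound _ 98 [(rh04253f50b6dd0619.shift 2 0), rh66a9169e95403dec] (by decide +kernel))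
noncomputable def rh0eb34c720862f00d : CRef := CRef.mk (Pat.mk 0x1000000004000000300000001400000000 0x8000001ff000000fe000001de000000340000001400000004 7 9) 0 0 (step_sound _ 131 [(rh0073af956b115b56.shift 2 0), (rh093db254d29e43d1.shift 0 1), (rh465bb582b4677232.shift 0 3), (rh7697a0a97776f263.shift 1 1), (rhbe01a68e96627bfe.shift 1 1)] (by decide +kernel))
noncomputable def rh92eb8a3f9e036452 : CRef := CRef.mk (Pat.mk 0x10000000040000000400000004000000000000000000000000 0xa000001ff000000fe000001ce0000000600000004000000060000000600000002 7 9) 0 0 (step_sound _ 195 [(rh08d50fe567eb1045.shift 2 2), (rh1725eba4bd36066a.shift 1 0), (rh3bde0bd801823f5c.shift 1 3), (rh465bb582b4677232.shift 0 5)] (by decide +kernel))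
noncomputable def rh512f4e9450c7c26c : CRef := CRef.mk (Pat.mk 0x26000000380000002c000000000000000000000000 0x4000000140000003e000000360000003a0000002f000000720000007000000050 7 7) 0 0 (step_sound _ 97 [(rh0d68ff94aba0a9dc.shift 1 0), (rh53b3c253cb0c65f4.shift 0 3)] (by decide +kernel))
noncomputable def rh724651232aad8528 : CRef := CRef.mk (Pat.mk 0x60000000200000002000000000000000000000000 0x4000000070000000700000003000000060000000600000003000000070000000700000005 7 3) 0 0 (step_sound _ 65 [(rh5e39eb1b2a64ac26.shift 0 1), rh6eff4158bb400f47, (rh8c3839f9b9075f23.shift 1 0), rha8bc3cae4d77a08f] (by decide +kernel))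
noncomputable def rha37a5c91c22105f3 : CRef := CRef.mk (Pat.mk 0x1000000032000000380000002c00000000 0x64000000640000007e0000003e0000003a0000002f00000002 7 7) 0 0 (step_sound _ 98 [(rhc10214bf3fe8094a.shift 1 2), rhf242f03e812e9753] (by decide +kernel))
noncomputable def rhe9729b82f59f9809 : CRef := CRef.mk (Pat.mk 0xc000000000000001800000008 0x20000000ff0000007e000000f00000001800000008 7 8) 0 0 (step_sound _ 100 [(rh4d8114ee4aff13cc.shift 0 2), (rh55acdb8233e2cee1.shift 0 2), (rh9b369c25e38cd91a.shift 1 0), (rhd39a9343b15da591.shift 1 0), (rhfba1d3a0b8bf2136.shift 1 0)] (by decide +kernel))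
noncomputable def rhf09b08d10097eb4a : CRef := CRef.mk (Pat.mk 0x130000001000000011000000000000000000000000 0x2a0000003a0000003f000000330000001100000011000000390000003800000028 7 6) 0 0 (step_sound _ 196 [(rh1741680720c097b4.shift 3 3), (rh49759b6975f15643.shift 3 0), (rha25b7542b24b352b.shift 0 2)] (by decide +kernel))
noncomputable def rh3ee6a03a31275d8e : CRef := CRef.mk (Pat.mk 0x10000000c000000160000000000000000 0x60000000e0000000e0000001f0000003c000000160000001200000010 7 6) 0 0 (step_sound _ 100 [(rh18965a982d73c794.shift 1 2), rh3eebddc798fcd9a0] (by decide +kernel))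
noncomputable def rh72d46c3d1a169e7a : CRef := CRef.mk (Pat.mk 0xa000000180000000a00000000 0x10000000f7000000ff0000001b0000000a00000002 7 8) 0 0 (step_sound _ 98 [(rhb739f4f82bb681b4.shift 0 2), rhe11afaf67790b1c8] (by decide +kernel))
noncomputable def rhcc660c82c5ae9cf5 : CRef := CRef.mk (Pat.mk 0x2000000380000002c000000000000000000000000 0x100000001a0000003e0000003a0000002f000000260000002400000004 7 6) 0 0 (step_sound _ 97 [(rh53b3c253cb0c65f4.shift 0 3), (rh9464e17000dc04a8.shift 1 0)] (by decide +kernel))
noncomputable def rhd01f53eb3bf20b62 : CRef := CRef.mk (Pat.mk 0x1e000000020000000000000000 0x5000000070000000700000007000000070000001e000000060000000600000006 7 5) 0 0 (step_sound _ 129 [(rh3244c3cc8379b070.shift 0 3), rh8b09ffbbab21f854] (by decide +kernel))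
noncomputable def rhe22f206674b6451c : CRef := CRef.mk (Pat.mk 0xf000000000 0x7000001fe000000ff 7 9) 0 0 (step_sound _ 35 [rhbb13f9e1d387f64a, (rheae1728ff4a56756.shift 2 0), (rhf9dc53ff440b8418.shift 2 0)] (by decide +kernel))
noncomputable def rh4f66e4e496c29cbc : CRef := CRef.mk (Pat.mk 0x7000000000 0x1ff000000fe00000077 7 9) 0 0 (step_sound _ 35 [rh04797e9e06425c4e, rh15b856e33c69f807, rh4ee24c8c3be77869, (rh61325f73ebf98108.shift 1 1), (rhb18e6c78a554867d.shift 2 1)] (by decide +kernel))
noncomputable def rh588ce071dcaabc27 : CRef := CRef.mk (Pat.mk 0xf000000000 0xf000000fe000000ff 7 8) 0 0 (step_sound _ 35 [rh04797e9e06425c4e, (rh0d378fd9e8917c5a.shift 1 0), (rh185f35b8bd8ec37f.shift 1 0), (rh775ca1963e850b80.shift 1 0), rhbb13f9e1d387f64a, (rheae1728ff4a56756.shift 2 0)] (by decide +kernel))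
noncomputable def rh4d130876d1f164a0 : CRef := CRef.mk (Pat.mk 0x7000000000 0x1ff000000fe0000000f 7 9) 0 0 (step_sound _ 35 [(rh0cc4c691701426ad.shift 2 1), rh15b856e33c69f807, (rh592c7139d2c44767.shift 1 0), (rh9e97bba44c1b13e4.shift 1 0)] (by decide +kernel))
noncomputable def rh09ee132b0c9bd8f5 : CRef := CRef.mk (Pat.mk 0x40000003c000000000000000000000000 0x8000000080000000c0000001c0000007f0000003c0000001c00000018 7 7) 0 0 (step_sound _ 131 [rhac5c31cf0dc9561b, (rhf48373e13d2bc128.shift 2 3)] (by decide +kernel))
noncomputable def rh91b4bbc1d90c7d0b : CRef := CRef.mk (Pat.mk 0x3800000008000000000000000000000000 0x140000001c0000001c0000001f000000780000000c0000001c0000001c00000014 7 7) 0 0 (step_sound _ 163 [(rh8774521e81d4f0dc.shift 2 2), (rhcea87fa9fe548f5b.shift 1 0), (rhd9106766b9ff53c0.shift 2 3), (rhf60aa8aede119d3b.shift 0 4)] (by decide +kernel))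
noncomputable def rh1ac7d339f035520b : CRef := CRef.mk (Pat.mk 0x80000003800000008000000000000000000000000 0x80000000800000018000000380000003e0000001f0000001c0000001c 7 6) 0 0 (step_sound _ 100 [(rh3af54b5f78790764.shift 1 2), rh49905bd3aa3e7134, (rh55a1f6c57a317ce6.shift 3 1), (rha40d42a2e34c408d.shift 3 1)] (by decide +kernel))
noncomputable def rhf03c4ffe64c777a2 : CRef := CRef.mk (Pat.mk 0x800000038000000080000000000000000 0xc0000001c0000001f0000003e00000038000000180000000800000008 7 6) 0 0 (step_sound _ 132 [(rh3f09e2870ec06b4b.shift 1 0), (rh4c793daa798ff822.shift 0 2), (rh84d1c02a8954c6a8.shift 3 1), (rhadf429772c25fde0.shift 3 0)] (by decide +kernel))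
noncomputable def rh5d551c31036948c3 : CRef := CRef.mk (Pat.mk 0x1c00000006000000000000000000000000 0xa0000000e0000000e0000000e0000000f0000001c0000000e0000000e0000000e0000000a 7 5) 0 0 (step_sound _ 162 [(rh32431e66bbf434a4.shift 1 2), (rhc252441a73d811a8.shift 1 1), rhcea87fa9fe548f5b, (rhf515bd7a6bdea78b.shift 1 2)] (by decide +kernel))
noncomputable def rh47ca132480fc32c7 : CRef := CRef.mk (Pat.mk 0x1e000000000000000000000000 0x1000000070000000700000007000000070000001e000000070000000600000006 7 5) 0 0 (step_sound _ 65 [(rheb0810cc63b001d8.shift 0 2), rhf929396ede32b50f] (by decide +kernel))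
noncomputable def rhcd94e27c99497a78 : CRef := CRef.mk (Pat.mk 0x700000002000000020 0x4000000040000000ee0000007e0000003700000020 7 8) 0 0 (step_sound _ 102 [(rh3e0b38310ac09007.shift 1 2), (rhbfb5770941270498.shift 5 0), (rhda5bd266f468b314.shift 0 1)] (by decide +kernel))
noncomputable def rhbe2f3d4c917ee168 : CRef := CRef.mk (Pat.mk 0x60000001800000008 0x400000014000000ff000000ff0000001800000008 7 8) 0 0 (step_sound _ 67 [(rhb739f4f82bb681b4.shift 0 1), rhe959701115a78cea] (by decide +kernel))
noncomputable def rh7f4135a6fa77026a : CRef := CRef.mk (Pat.mk 0x2000000020000000e0000000e0000000a0000000000000000 0x7c0000003f0000007b0000000e0000000e0000000a0000000800000008 7 7) 0 0 (step_sound _ 195 [rh09a42fed23f84208, (rh15c2321f8ed670ce.shift 0 3), (rh2b3ddcfe37fa1a69.shift 0 2), (rh45e9bbc9c117588b.shift 0 2), (rha799fda0b978792d.shift 2 2)] (by decide +kernel))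
noncomputable def rhdd452e78acc4ce20 : CRef := CRef.mk (Pat.mk 0x30000000200000002000000020 0x8000000080000004e000000fe0000007f0000003000000020 7 8) 0 0 (step_sound _ 102 [(rh2f68792b6b779e96.shift 5 0), (rh6cf81d183966688f.shift 0 1)] (by decide +kernel))
noncomputable def rh1a96a7c54f46d178 : CRef := CRef.mk (Pat.mk 0x80000000c000000180000001000000000 0x3000000032000000fb000000ff0000001f0000001c0000000c 7 8) 0 0 (step_sound _ 97 [rha630d6fa3d151299, (rhb739f4f82bb681b4.shift 0 2)] (by decide +kernel))
noncomputable def rhc575b7e1010db4bb : CRef := CRef.mk (Pat.mk 0x1e000000000000000000000000 0x50000000700000007000000070000001e000000070000000600000006 7 5) 0 0 (step_sound _ 65 [rh7b79ce6adb6f344d, (rheb0810cc63b001d8.shift 0 2)] (by decide +kernel))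
noncomputable def rha074b596ddba7932 : CRef := CRef.mk (Pat.mk 0x80000000a0000002800000028 0x740000007e0000007b0000002800000028 7 7) 0 0 (step_sound _ 100 [(rh2f68792b6b779e96.shift 3 0), rhb755a5fd28b8da30] (by decide +kernel))
noncomputable def rhb63fe9eb57c45467 : CRef := CRef.mk (Pat.mk 0x80000000b000000180000000800000000 0x2000000120000001e0000000b0000001b0000000f00000005 7 5) 0 0 (step_sound _ 132 [(rh2f68792b6b779e96.shift 3 1), rh5dfebfbc3a1b96b4] (by decide +kernel))
noncomputable def rh2732d51da4b78d5f : CRef := CRef.mk (Pat.mk 0x80000000b000000180000000800000000 0x2000000060000001e0000000b0000001b0000000f00000005 7 5) 0 0 (step_sound _ 130 [(rh50fbb5868c909700.shift 2 1), rhec0ae968bf34fbee] (by decide +kernel))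
noncomputable def rh4ba51498c54f4175 : CRef := CRef.mk (Pat.mk 0x20000000200000002c0000002400000004 0x4000000040000001f0000003e0000006b0000002e0000002c00000004 7 7) 0 0 (step_sound _ 132 [rh352c504ad40db03f, (rh50fbb5868c909700.shift 4 1)] (by decide +kernel))
noncomputable def rh36422e4e7a526054 : CRef := CRef.mk (Pat.mk 0x3000000010000000100000001000000000 0xf0000003e0000003f0000001c0000001800000008 7 6) 0 0 (step_sound _ 131 [(rh50fbb5868c909700.shift 3 1), rhbc75d58fe242baed] (by decide +kernel))
noncomputable def rhe9d07ed2f561035a : CRef := CRef.mk (Pat.mk 0x600000000000000060000000000000000000000000000000000000000 0x40000000600000007000000070000000700000007000000070000000700000005 7 3) 0 0 (step_sound _ 129 [(rh02ef15e22aa7db92.shift 1 2), (rh717fdb4ad97a9d8f.shift 0 1), (rh7d7eaefe27cdd7b0.shift 1 4), (rh9a6f86e8f4a0ec0a.shift 1 2), (rhabfe588ce4ea32b5.shift 0 2), rhf77e75462fdb7efe] (by decide +kernel))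
noncomputable def rhff394a85ff296817 : CRef := CRef.mk (Pat.mk 0x30000000200000002000000000000000000000000 0x1000000070000000700000006000000030000000300000003000000070000000700000005 7 3) 0 0 (step_sound _ 65 [(rh108d4fcec14f4028.shift 0 1), rh8cdd36b03d57a2f6, rha613ffd40b6c9d24] (by decide +kernel))
noncomputable def rh7b3828af614c0a71 : CRef := CRef.mk (Pat.mk 0x200000002000000060000000200000000 0x50000000700000007000000020000000200000006000000070000000300000001 7 3) 0 0 (step_sound _ 32 [(rh61257be8a2a27e51.shift 0 1), rh932754581e0f4330] (by decide +kernel))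
noncomputable def rhe4409a634f4ac19d : CRef := CRef.mk (Pat.mk 0x80000000c0000001800000010000000000000000000000000 0x140000001c0000001f0000001c0000001f0000000f0000000c0000000c 7 5) 0 0 (step_sound _ 161 [rh9a87973712d297f3, (rhb739f4f82bb681b4.shift 0 4)] (by decide +kernel))
noncomputable def rh57153ff097b88f9c : CRef := CRef.mk (Pat.mk 0x3800000040 0xe70000007e000000c7 7 8) 0 0 (step_sound _ 38 [rh15b856e33c69f807, (rhe25b0a99195a5d59.shift 3 0)] (by decide +kernel))
noncomputable def rh2342f206a8a64b2d : CRef := CRef.mk (Pat.mk 0x180000001800000030 0xc0000000c000000ef000000ff0000001f00000030 7 8) 0 0 (step_sound _ 69 [(rh2ed427353258d8dd.shift 1 0), (rh30b1045e318f0560.shift 0 1), rhaa5e37873c1fbb65] (by decide +kernel))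
noncomputable def rhc772f6e9dea1a42c : CRef := CRef.mk (Pat.mk 0x1800000018000000300000002000000000 0xe7000000ff000000d8000000f00000003000000010 7 8) 0 0 (step_sound _ 133 [(rh30b1045e318f0560.shift 0 3), (rh88b18f70d98dafc2.shift 3 0), (rhb0c1e7919d9be92d.shift 3 0)] (by decide +kernel))
noncomputable def rh5b3a9df881306da7 : CRef := CRef.mk (Pat.mk 0x2000000030000000600000004000000000000000000000000 0xd0000001f0000001b0000001f00000007000000030000000300000003 7 5) 0 0 (step_sound _ 131 [rh1d76a6b8d8527f39, (rhf48373e13d2bc128.shift 0 4)] (by decide +kernel))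
noncomputable def rh6291649859f7d266 : CRef := CRef.mk (Pat.mk 0x1000000018000000300000000000000000 0x40000000c0000002e000000ff0000001f000000380000001000000010 7 8) 0 0 (step_sound _ 131 [(rh0a444d2316a5537b.shift 1 0), (rhc38f566cab2818e5.shift 3 0), (rhe0dedc17f8e95fbb.shift 0 2)] (by decide +kernel))
noncomputable def rhd0f1b3cb55cbf465 : CRef := CRef.mk (Pat.mk 0x2000000030000000e00000006 0xd0000001f0000007f0000000f00000006 7 7) 0 0 (step_sound _ 96 [rh50fbb5868c909700, rhe21597e8277096ec] (by decide +kernel))
noncomputable def rhf1f7e820b25a1f06 : CRef := CRef.mk (Pat.mk 0x160000000c0000000800000000 0x200000012000000330000001e0000003e0000000c00000004 7 6) 0 0 (step_sound _ 68 [rhef99170d83932e11, (rhf48373e13d2bc128.shift 1 2)] (by decide +kernel))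
noncomputable def rh8890a2107ac3536f : CRef := CRef.mk (Pat.mk 0x30000000600000004000000000000000000000000 0x1f0000001f000000070000000600000006000000030000000300000003 7 5) 0 0 (step_sound _ 193 [(rh2145e1d24b96a57e.shift 1 3), rh6844e411fefe99c7] (by decide +kernel))
end Crest.Agent.S0047.Helper85.Cert
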