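import Crest.Agent.Lib.S0047.Helper85CertPL6F0
import Crest.Agent.Lib.S0047.Helper85CertPL6F1
import Crest.Agent.Lib.S0047.Helper85CertPL6F2
import Crest.Agent.Lib.S0047.Helper85CertPL6F3
import Crest.Agent.Lib.S0047.Helper85CertPL6F4
import Crest.Agent.Lib.S0047.Helper85CertPL6F5
import Crest.Agent.Lib.S0047.Helper85CertPL6F6
import Crest.Agent.Lib.S0047.Helper85CertPL6F7
import Crest.Agent.Lib.S0047.Helper85CertPL6F8
import Crest.Agent.Lib.S0047.Helper85CertPL6F9
import Crest.Agent.Lib.S0047.Helper85CertPL6F10
import Crest.Agent.Lib.S0047.Helper85CertPL6F11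
import Crest.Agent.Lib.S0047.Helper85CertPL6F12
set_option autoImplicit false
set_option linter.all false
set_option Elab.async false
namespace Crest.Agent.S0047.Helper85.Cert
open Crest.Agent.S0047.Helper85

noncomputable def rh020a1347009e98b9 : CRef := CRef.mk (Pat.mk 0x80000000e000000180000004000000000 0x30000000300000007f000000fe000000dc0000004000000040 7 8) 0 0 (step_sound _ 100 [(rh412d230494194d0a.shift 0 2), (rhc31e1a2727346e0c.shift 1 0), rhd138e8d26baecac9, (rhd283a685d2618d5b.shift 0 2)] (by decide +kernel))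
noncomputable def rh1c0bc56c2bbe970a : CRef := CRef.mk (Pat.mk 0xc000000180000001000000000 0x400000014000000f7000000ff0000001c0000001800000008 7 8) 0 0 (step_sound _ 97 [(rhb739f4f82bb681b4.shift 0 2), rhc1743faf47b80a48] (by decide +kernel))
noncomputable def rhded9b1eff8c514b5 : CRef := CRef.mk (Pat.mk 0x180000001c0000000000000000 0x200000002000000070000001f0000003f0000000400000004 7 6) 0 0 (step_sound _ 65 [rh5101caf89bac367c, (rh53b3c253cb0c65f4.shift 0 2)] (by decide +kernel))
noncomputable def rhf386699c7f7a7dee : CRef := CRef.mk (Pat.mk 0xe0000000800000008 0x400000014000000160000003f0000003e0000001a0000000a 7 6) 0 0 (step_sound _ 68 [rh4e57dd92c4f29827, (rh94246470f0e6fdf7.shift 1 0)] (by decide +kernel))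
noncomputable def rh1cead203137e9b93 : CRef := CRef.mk (Pat.mk 0x1000000038000000180000001000000000 0x240000003e000000380000001f0000001f0000000c 7 6) 0 0 (step_sound _ 35 [rh85a64421afca52cf, (rh932754581e0f4330.shift 3 0)] (by decide +kernel))
noncomputable def rh13d4a0c417b9c5bd : CRef := CRef.mk (Pat.mk 0x200000007000000020000000200000000 0x300000003000000070000001e00000007000000030000000300000001 7 5) 0 0 (step_sound _ 130 [(rh2f68792b6b779e96.shift 1 1), rh8265abadb17c30c5] (by decide +kernel))
noncomputable def rhe2cec9762afc786b : CRef := CRef.mk (Pat.mk 0x80000000b0000001800000008000000000000000000000000 0x90000000b0000001f0000000f000000070000000300000001 7 5) 0 0 (step_sound _ 98 [rh5466715ca68519b4, (rh932754581e0f4330.shift 2 2)] (by decide +kernel))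
noncomputable def rh4d798349a89301b1 : CRef := CRef.mk (Pat.mk 0x80000000b000000180000000800000000 0x2000000120000001f0000000b000000190000000f00000005 7 5) 0 0 (step_sound _ 132 [(rh2f68792b6b779e96.shift 3 1), rhcf679b661722e5f7] (by decide +kernel))
noncomputable def rh8bd76c4c91d64559 : CRef := CRef.mk (Pat.mk 0x30000001800000008000000000000000000000000 0x10000000100000003000000030000001f0000000f000000070000000700000005 7 5) 0 0 (step_sound _ 129 [(rh5419adcd928dba20.shift 0 4), rh61c2eaf59dd95fac] (by decide +kernel))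
noncomputable def rh4d79f822a1a1ed72 : CRef := CRef.mk (Pat.mk 0x16000000340000001000000000 0x28000000380000003b0000003e00000036000000340000001e0000000c 7 6) 0 0 (step_sound _ 132 [(rh4a57183b91ec83ec.shift 1 1), (rh64bc0dab78a08b48.shift 3 1), (rh6b0cc764f89c397f.shift 0 1), (rhccb3a79fd989e123.shift 3 1), (rhdb0129b6c42b3c14.shift 1 0)] (by decide +kernel))
noncomputable def rh71ac770aa1625c5f : CRef := CRef.mk (Pat.mk 0x10000000180000003000000020000000000000000000000000 0x2e0000003f000000380000003800000038000000180000001800000018 7 6) 0 0 (step_sound _ 100 [(rh1152aee0afa96cae.shift 3 0), (rhaeecc7287588a69b.shift 3 0), (rhb1c562e40ee61608.shift 3 0), (rhcebf3869a7708aac.shift 0 2)] (by decide +kernel))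
noncomputable def rh2f1f42444a562377 : CRef := CRef.mk (Pat.mk 0x80000000e000000180000001800000000 0x2000000120000001b0000003e0000001f0000001c00000008 7 6) 0 0 (step_sound _ 132 [rh21173ca47143c81e, (rh2f68792b6b779e96.shift 3 1)] (by decide +kernel))
noncomputable def rh2e6e98f23489e744 : CRef := CRef.mk (Pat.mk 0xc000000180000001000000000 0x3400000034000000f7000000ff0000001f0000001800000008 7 8) 0 0 (step_sound _ 97 [rh1843059052e72e4b, (rhb739f4f82bb681b4.shift 0 2)] (by decide +kernel))
noncomputable def rh92a58601b1d8077f : CRef := CRef.mk (Pat.mk 0x20000000e0000000a0000000800000000 0x300000007000000070000000e0000000e0000000e0000000e00000006 7 4) 0 0 (step_sound _ 130 [(rhc89253ff58c66167.shift 2 1), rhdabc5688984dab19] (by decide +kernel))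
noncomputable def rh2728c03367c410e2 : CRef := CRef.mk (Pat.mk 0x180000001c000000100000001000000000 0x170000001f0000001c0000001c0000001c0000000c 7 5) 0 0 (step_sound _ 35 [(rh932754581e0f4330.shift 3 0), rhb1e79d2c1c402a60] (by decide +kernel))
noncomputable def rhde3ed961eb432876 : CRef := CRef.mk (Pat.mk 0x180000001c000000100000000800000000 0x170000001f0000001c0000007c0000000c00000004 7 7) 0 0 (step_sound _ 67 [(rh5c5e593799055d58.shift 3 1), rhf30e2499254ddf23] (by decide +kernel))
noncomputable def rh9485c0e130697c34 : CRef := CRef.mk (Pat.mk 0x1c0000001000000010 0x8000000380000003800000038000000780000001f0000001000000010 7 7) 0 0 (step_sound _ 100 [rh12155d67af2d0ad6, (rh4017de503635a93b.shift 2 0), (rh559a0cc70401df55.shift 3 0), (rhc85cc95794737cf7.shift 3 0), (rhdab32775f5c78fcf.shift 1 0)] (by decide +kernel))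
noncomputable def rha15903eb1bcf16d5 : CRef := CRef.mk (Pat.mk 0xf000000080000000800000000 0x140000001c0000001c000000180000000f0000000c0000000c00000004 7 5) 0 0 (step_sound _ 131 [(rh193da7fc9e1674f1.shift 2 0), (rh33e738c4ed385b9f.shift 0 3)] (by decide +kernel))
noncomputable def rh6fd46a0846eae517 : CRef := CRef.mk (Pat.mk 0xc0000003800000010000000000000000000000000 0x4000000140000003c0000000f000000380000001e0000000c0000000c0000000c 7 6) 0 0 (step_sound _ 161 [(rhb739f4f82bb681b4.shift 0 4), (rhc294d3f3f0a2ded0.shift 1 0)] (by decide +kernel))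
noncomputable def rhfbf07de32ecfd2f4 : CRef := CRef.mk (Pat.mk 0x120000001a0000001a00000004 0x50000003700000037000000120000001a0000001e00000004 7 6) 0 0 (step_sound _ 129 [(rh40cd4612b7ed25ec.shift 0 1), (rhd3458b32566d63f7.shift 1 0)] (by decide +kernel))
noncomputable def rh80762ac8182d9399 : CRef := CRef.mk (Pat.mk 0x80000001e0000000a0000000000000000 0x500000007000000070000000b0000001e0000000e0000000e00000004 7 5) 0 0 (step_sound _ 129 [(rh3244c3cc8379b070.shift 0 3), rhbd1d999d8c40bf86] (by decide +kernel))
noncomputable def rhf89d9478b5f90bc7 : CRef := CRef.mk (Pat.mk 0x100000001c000000340000000000000000 0x40000000e0000000f0000001f0000003c0000003c0000000e0000000c 7 6) 0 0 (step_sound _ 131 [rh14c4c0066d15855e, (rh4821dcf828b9d7bf.shift 2 0), (rhadf429772c25fde0.shift 2 0), (rheaa0e3c47ddb5ce8.shift 0 1)] (by decide +kernel))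
noncomputable def rhb854d1754ef6c91d : CRef := CRef.mk (Pat.mk 0x100000001c0000003400000000000000000000000000000000 0xe0000001f0000001c0000003c0000000e0000000e0000000e0000000a 7 6) 0 0 (step_sound _ 98 [(rh02141ff03484786c.shift 1 1), (rh1b9022be4f7af407.shift 1 0), (rhc44f3d0820d0aee0.shift 1 1), (rhfa937ba1294516fe.shift 0 2)] (by decide +kernel))
noncomputable def rhc472f8ac7fc4eb99 : CRef := CRef.mk (Pat.mk 0x2000000060000001a0000000000000000000000000000000000000000 0x400000006000000060000001e0000000700000007000000070000000700000005 7 5) 0 0 (step_sound _ 129 [(rh1b9022be4f7af407.shift 0 1), (rh5710f30ba40ee3ec.shift 0 3), rh7892838aec40c3e1, (rh8cdd36b03d57a2f6.shift 0 2), (rha707fb719e87fe6e.shift 1 3)] (by decide +kernel))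
noncomputable def rh02e9fafe8fd96002 : CRef := CRef.mk (Pat.mk 0x1c0000001c000000100000000000000000 0xe0000000e0000000f0000001c0000001c000000160000000600000006 7 5) 0 0 (step_sound _ 66 [(rh420f120aaee04983.shift 0 2), (rh84d1c02a8954c6a8.shift 2 1), (rh9954101f0efffb9e.shift 1 0)] (by decide +kernel))
noncomputable def rhd0fef68a7b674f72 : CRef := CRef.mk (Pat.mk 0x6000000030000000400000004 0x50000000700000007000000020000000200000007000000070000000500000004 7 3) 0 0 (step_sound _ 129 [(rh038de9f6952c0fd9.shift 0 1), (rh2613c889e411427e.shift 1 0)] (by decide +kernel))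
noncomputable def rha0b1876c15605c05 : CRef := CRef.mk (Pat.mk 0x180000001e000000060000000000000000 0x180000001e0000003f0000001e0000001e000000060000000200000002 7 6) 0 0 (step_sound _ 130 [(rh503dd4575245365b.shift 1 1), (rh8a962ce9d7529bca.shift 0 2), rhf708d9c22d38334b] (by decide +kernel))
noncomputable def rhdeb9d2989f296e94 : CRef := CRef.mk (Pat.mk 0x3c00000008000000200000003000000000 0x60000003c000000080000006f0000003e00000007 7 7) 0 0 (step_sound _ 162 [(rh3244c3cc8379b070.shift 1 4), rh4bdfd85a5cd1beb0] (by decide +kernel))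
noncomputable def rhe9e5573cf9b13a35 : CRef := CRef.mk (Pat.mk 0x200000003800000018000000200000002000000000 0x2000000038000000180000007f0000003e0000001f 7 7) 0 0 (step_sound _ 36 [rh409bd042928aed17, (rh9e3edb185cc347de.shift 4 1)] (by decide +kernel))
noncomputable def rh469e0c7f5a4feabc : CRef := CRef.mk (Pat.mk 0x80000002000000030000000100000000000000000 0x8000000080000006f0000003e0000001f0000001400000014 7 7) 0 0 (step_sound _ 36 [(rh71222050f2c63a3a.shift 4 0), rhe24336dbfafa70a5] (by decide +kernel))
noncomputable def rh10f0822a4f7470ae : CRef := CRef.mk (Pat.mk 0xf0000000800000008 0x40000001c0000001c0000001c0000001c0000000f0000000800000008 7 5) 0 0 (step_sound _ 99 [(rh33e738c4ed385b9f.shift 0 2), (rh559a0cc70401df55.shift 2 0)] (by decide +kernel))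
noncomputable def rhf7bfa696246e1215 : CRef := CRef.mk (Pat.mk 0x1e000000000000000000000000 0x200000007000000070000003f0000001e000000070000000200000002 7 6) 0 0 (step_sound _ 65 [rh903bd2c25264cc4a, (rheb0810cc63b001d8.shift 0 2)] (by decide +kernel))
noncomputable def rh522bfaffcb994ed7 : CRef := CRef.mk (Pat.mk 0x1c0000001c000000000000000000000000 0x1e0000003e0000000f0000001c0000001c0000000c0000000c00000004 7 6) 0 0 (step_sound _ 163 [(rh1cf393a818e1cca8.shift 0 2), (rh281c6819542c66e6.shift 2 0), (rh503dd4575245365b.shift 2 2), (rh731f3ebca979647f.shift 0 1)] (by decide +kernel))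
noncomputable def rhfce8ec15120b1ac8 : CRef := CRef.mk (Pat.mk 0x100000001e000000100000001000000000 0x14000000140000003e0000001f0000001b0000000a 7 6) 0 0 (step_sound _ 35 [(rh932754581e0f4330.shift 3 0), rhc0d8439f31654470] (by decide +kernel))
noncomputable def rh4bde6bd61829688a : CRef := CRef.mk (Pat.mk 0x6000000180000000e000000000000000000000000 0x100000003a0000001e0000001f0000000e000000040000000400000004 7 6) 0 0 (step_sound _ 66 [(rh6dc5e2fbc5de0f52.shift 1 1), (rh9e31b4c71549e5e2.shift 1 0), rha3138e2669583714, (rhdb2909ac5c854515.shift 1 2), (rhf2f81545e8aac642.shift 1 0)] (by decide +kernel))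
noncomputable def rh9d6ab6a82043c88d : CRef := CRef.mk (Pat.mk 0x6000000180000000c000000000000000000000000 0x20000001a0000003e0000001e0000001c0000000f000000060000000600000006 7 6) 0 0 (step_sound _ 97 [(rh53b3c253cb0c65f4.shift 0 3), (rh8c6d16ddf90b9295.shift 1 0)] (by decide +kernel))
noncomputable def rh078f4f3247d56360 : CRef := CRef.mk (Pat.mk 0x60000001a0000000a00000000 0x130000003f0000003e0000001b0000000a00000002 7 6) 0 0 (step_sound _ 130 [(rh71222050f2c63a3a.shift 1 0), (rhc9935fd27f471a52.shift 0 1)] (by decide +kernel))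
noncomputable def rh47505ce0e7147710 : CRef := CRef.mk (Pat.mk 0x400000006000000180000000a00000000 0x130000003f0000003e0000001b0000000a00000002 7 6) 0 0 (step_sound _ 65 [(rh71222050f2c63a3a.shift 1 0), (rhc9935fd27f471a52.shift 0 1)] (by decide +kernel))
noncomputable def rhafa7debcbabdd1bb : CRef := CRef.mk (Pat.mk 0x18000000180000006000000020 0xe7000000ff000000f80000006000000020 7 8) 0 0 (step_sound _ 98 [(rh327d12bec9a5544d.shift 2 0), (rh6292bd8784ece55f.shift 1 2), (rha14478d91faf3ae3.shift 0 2), (rhad5d8fc3675c15dd.shift 0 2)] (by decide +kernel))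
noncomputable def rh49c84b4b6b7f889e : CRef := CRef.mk (Pat.mk 0x18000000180000000000000010 0x1c0000003c0000000f00000018000000180000001800000010 7 6) 0 0 (step_sound _ 131 [(rh1cf393a818e1cca8.shift 0 1), (rh9e07f76261b05888.shift 3 0)] (by decide +kernel))
noncomputable def rh8ab8ca759e5a7140 : CRef := CRef.mk (Pat.mk 0x60000001c0000000c 0x20000001a000000ff000000fe0000001f0000000c 7 8) 0 0 (step_sound _ 97 [(rhc89253ff58c66167.shift 1 0), (rhe072fffdd2fccf38.shift 1 0), rhf33fda90a6bde5dd] (by decide +kernel))
noncomputable def rh19f00468d16b30a5 : CRef := CRef.mk (Pat.mk 0x1a00000038000000280000000000000000 0x1c0000001c0000001f000000db000000f8000000280000002000000020 7 8) 0 0 (step_sound _ 163 [(rh1741680720c097b4.shift 2 2), (rh2ddd6c94c59240f8.shift 3 2), (rh47f6ce8608325cf5.shift 2 0), (rhc89d3265e5632fc6.shift 0 2)] (by decide +kernel))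
noncomputable def rh9eb167871f7ba80d : CRef := CRef.mk (Pat.mk 0x90000001c00000014 0x28000000780000007f0000007c00000014 7 7) 0 0 (step_sound _ 99 [(rh5c5e593799055d58.shift 2 0), rhbd7ded1b1990b870] (by decide +kernel))
noncomputable def rh19edcc26b17bf335 : CRef := CRef.mk (Pat.mk 0x400000006000000300000001000000000 0x5000000070000000700000006000000360000001e00000006 7 6) 0 0 (step_sound _ 33 [(rh00d6a6e3c7e3bb40.shift 1 0), (rh42c82c3a21b75df8.shift 1 0), (rh580df77fe152422b.shift 1 0), rhfb12d2db40e4b3eb] (by decide +kernel))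
noncomputable def rh0e1c908aa72ce316 : CRef := CRef.mk (Pat.mk 0x30000000180000000000000006000000300000001000000000 0x500000007000000370000001f0000000700000007000000370000001f00000005 7 6) 0 0 (step_sound _ 161 [(rh24ae073cf30720c4.shift 1 5), rh5274bdb88bc355e1] (by decide +kernel))
noncomputable def rh55d630c386875143 : CRef := CRef.mk (Pat.mk 0x1a0000001000000006000000300000001000000000 0x1e0000003700000006000000370000001f00000005 7 6) 0 0 (step_sound _ 162 [rh439fe184282dd11d, (rhe25b0a99195a5d59.shift 1 4)] (by decide +kernel))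
noncomputable def rh88145f2376c8dc44 : CRef := CRef.mk (Pat.mk 0x30000001800000008000000000000000000000000 0x10000000300000003000000030000001f0000000f000000030000000300000001 7 5) 0 0 (step_sound _ 129 [(rh5419adcd928dba20.shift 0 4), rhd74abf47eb7c129d] (by decide +kernel))
noncomputable def rha5af5f299b34de8a : CRef := CRef.mk (Pat.mk 0x20000001e000000020000000000000000 0x200000007000000070000003e0000001e000000060000000300000003 7 6) 0 0 (step_sound _ 132 [rh00043dc59e018c55, (rh33e738c4ed385b9f.shift 1 3)] (by decide +kernel))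
noncomputable def rhc75a3564cdf11cdc : CRef := CRef.mk (Pat.mk 0x2c00000038000000180000000000000000 0x6c0000003f0000001b0000000f0000000e 7 7) 0 0 (step_sound _ 98 [(rh33e738c4ed385b9f.shift 2 3), rh50c225b5fb366cec] (by decide +kernel))
noncomputable def rhef361b1db5790df6 : CRef := CRef.mk (Pat.mk 0xc0000000e000000180000000800000000 0x100000001f0000007e0000001f0000000b00000003 7 7) 0 0 (step_sound _ 132 [(rh2f68792b6b779e96.shift 3 1), rh6d7c2c041b8746bb] (by decide +kernel))
noncomputable def rh186a81581a6a7e7a : CRef := CRef.mk (Pat.mk 0x180000001c0000001000000000 0x20000000a0000000f0000001f0000007c0000001600000004 7 7) 0 0 (step_sound _ 131 [(rh2145e1d24b96a57e.shift 3 1), rheb9a1268b7ab304c] (by decide +kernel))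
noncomputable def rhfa79672e8a43e295 : CRef := CRef.mk (Pat.mk 0x8000000020000001e0000000e000000020000000000000000 0x3f0000001f000000120000001e0000000e000000020000000200000002 7 6) 0 0 (step_sound _ 193 [(rh2145e1d24b96a57e.shift 1 3), rh6173e9a931e5114a] (by decide +kernel))
noncomputable def rh01b73b68359c2e1f : CRef := CRef.mk (Pat.mk 0x80000000e000000180000001000000000 0x34000000360000007f0000007e0000001c0000001800000008 7 7) 0 0 (step_sound _ 130 [(rh4e448da1f2ebc7c7.shift 1 0), (rh5d54cb79a67f97ab.shift 2 0), (rhb93ea0e21248128a.shift 0 1)] (by decide +kernel))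
noncomputable def rhb39bbd02d7aa1dd4 : CRef := CRef.mk (Pat.mk 0x1e0000000800000008 0x6000000060000000f0000001e0000003f0000000c 7 6) 0 0 (step_sound _ 36 [(rhe25b0a99195a5d59.shift 1 1), rhff60e4c5a2b76c5f] (by decide +kernel))
noncomputable def rh3918d96d7d9146eb : CRef := CRef.mk (Pat.mk 0x1c0000001000000010 0x8000000380000003800000038000000380000001f0000001000000010 7 6) 0 0 (step_sound _ 100 [rh12155d67af2d0ad6, (rh1741680720c097b4.shift 3 0), (rhd91b73d7ee353e95.shift 3 0), (rhdab32775f5c78fcf.shift 1 0)] (by decide +kernel))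
noncomputable def rhe9005be8dce43a68 : CRef := CRef.mk (Pat.mk 0x80000000c0000001800000010000000000000000000000000 0x340000007f0000003c00000078000000180000000c0000000c0000000c 7 7) 0 0 (step_sound _ 133 [rh37fcd83deb12c4fe, (rhf48373e13d2bc128.shift 2 4)] (by decide +kernel))
noncomputable def rhf5ccbd9087578dc3 : CRef := CRef.mk (Pat.mk 0x40000001e00000000000000000000000000000000 0x4000000070000001e00000003000000070000000700000005 7 5) 0 0 (step_sound _ 161 [(rh3244c3cc8379b070.shift 0 4), rhd338c361a7c5fdfe] (by decide +kernel))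
noncomputable def rh5f251ea50dbd4c37 : CRef := CRef.mk (Pat.mk 0x20000000e0000000800000000000000000 0x20000000a0000003e7000007fe000000df0000004000000040 7 11) 0 0 (step_sound _ 100 [(rh0de499e0455c9c14.shift 2 2), (rh6dca2897ad71631e.shift 4 0), (rhbd2ff28a4a1671c5.shift 0 2), (rhf6e608969d9be0a7.shift 2 2)] (by decide +kernel))
noncomputable def rh858a7e28662c0118 : CRef := CRef.mk (Pat.mk 0x3800000038000000200000000000000000 0x1c0000003c0000001f0000003800000038000000280000000800000008 7 6) 0 0 (step_sound _ 163 [(rh2b4f3c0785538b0e.shift 0 2), (rh4f89f797aa397115.shift 3 2), (rhdd02f250a5673105.shift 1 1), (rhf7c77fe48087fd5b.shift 2 0)] (by decide +kernel))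
noncomputable def rh71fd4ce61976df02 : CRef := CRef.mk (Pat.mk 0x1e00000018000000000000000000000000 0x200000006000000070000001e0000001f000000070000000600000002 7 5) 0 0 (step_sound _ 97 [rh284d90cd4d03bd85, (rheb0810cc63b001d8.shift 0 3)] (by decide +kernel))
noncomputable def rh07074420cd7bb978 : CRef := CRef.mk (Pat.mk 0x20000000e000000080 0x7e7000003fe000000ff 7 11) 0 0 (step_sound _ 36 [(rh0de499e0455c9c14.shift 2 0), (rh21485744e9e3c6c6.shift 3 0), rhbd2ff28a4a1671c5, (rhf6e608969d9be0a7.shift 2 0)] (by decide +kernel))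
noncomputable def rhc4131633dab05806 : CRef := CRef.mk (Pat.mk 0x40000001c00000018000000080000000000000000 0x800000008000000ec000000fc0000001e0000000f0000000600000002 7 8) 0 0 (step_sound _ 133 [(rh2612b4f73ba7c3b3.shift 2 3), (rh9462503d16fc4086.shift 2 3), (rhb0c2c62f63c289c4.shift 1 2), rhb5186f50b3db3c21] (by decide +kernel))
noncomputable def rhf5c017a3c2b7e0ba : CRef := CRef.mk (Pat.mk 0x800000008000000380000001000000000 0x140000001f00000038000000f80000001e0000000c 7 8) 0 0 (step_sound _ 35 [(rh4dc133ee0ba1420a.shift 1 1), rh56faab813ac4ea9f, (rhf5094ad2a427d4d3.shift 1 0)] (by decide +kernel))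
noncomputable def rh3b45b37158409020 : CRef := CRef.mk (Pat.mk 0x20000000e0000000800000000000000000 0x20000000200000006f000000fe000000ff0000001000000010 7 8) 0 0 (step_sound _ 100 [(rh36eba2a3de447758.shift 1 2), (rhbd2ff28a4a1671c5.shift 0 2), (rhcfde16a7ff36af03.shift 3 0)] (by decide +kernel))
noncomputable def rh866c2d93a161c3f4 : CRef := CRef.mk (Pat.mk 0x1000000018000000300000002000000000 0x80000001800000018000000770000003e0000001f 7 7) 0 0 (step_sound _ 36 [rh91a2298d1796b84e, (rhe286c75f2739cce2.shift 3 0)] (by decide +kernel))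
noncomputable def rhdd467f9cdb224cdf : CRef := CRef.mk (Pat.mk 0x2000000060000000200000000000000000000000000000000 0x5000000070000000700000006000000060000000600000006000000070000000700000005 7 3) 0 0 (step_sound _ 97 [rh1b9022be4f7af407, (rh20e56a1196e70fcc.shift 0 2), (rha707fb719e87fe6e.shift 1 2)] (by decide +kernel))
noncomputable def rh7e56b91726d0b647 : CRef := CRef.mk (Pat.mk 0x1c00000018000000180000000000000000 0x14000000160000007c0000001f0000001f0000000200000002 7 7) 0 0 (step_sound _ 196 [rh76f4b5735e9ab88e, (rhee230b994cc8b773.shift 3 2)] (by decide +kernel))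
noncomputable def rhcdde6d7bc40e4bb4 : CRef := CRef.mk (Pat.mk 0x8000000180000001c0000000000000000 0x6000000060000000f0000001f0000007c0000000c0000000c 7 7) 0 0 (step_sound _ 98 [rh361578be98b9df5c, (rhad5d8fc3675c15dd.shift 0 2), rhaed54c24fb91f24a] (by decide +kernel))
noncomputable def rh9f254fcbdfeefb81 : CRef := CRef.mk (Pat.mk 0x80000007800000020000000000000000000000000 0x8000000f80000003c0000001f0000001c0000001c 7 8) 0 0 (step_sound _ 99 [rhe8d9b24dfad10bda, (rheb0810cc63b001d8.shift 2 3)] (by decide +kernel))
noncomputable def rh4b72cf4a8bbd352e : CRef := CRef.mk (Pat.mk 0x20000000e000000090 0x67000000fe000000df 7 8) 0 0 (step_sound _ 36 [rhbd2ff28a4a1671c5, (rheb0810cc63b001d8.shift 3 0)] (by decide +kernel))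
noncomputable def rh05b45f17d817b10b : CRef := CRef.mk (Pat.mk 0x40000001e0000000000000000 0x200000002000000070000003f0000001f0000000400000004 7 6) 0 0 (step_sound _ 97 [(rh3244c3cc8379b070.shift 0 2), rh8b99f5a3eacfe558] (by decide +kernel))
noncomputable def rhb1f5ad2500550291 : CRef := CRef.mk (Pat.mk 0x40000001c000000100000000000000000 0x34000000340000003f0000001f0000001c0000000800000008 7 6) 0 0 (step_sound _ 67 [rh0693a0ad7c8af654, (rh5d54cb79a67f97ab.shift 2 0), (rhe0be4fc57991ca79.shift 0 2)] (by decide +kernel))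
noncomputable def rh2b1a1d49bb9c484e : CRef := CRef.mk (Pat.mk 0x40000003c0000001c0000000800000000 0x20000000700000007c0000003c0000001c0000000f00000006 7 7) 0 0 (step_sound _ 132 [(rh5c5e593799055d58.shift 3 1), rh8e19e50581375996] (by decide +kernel))
noncomputable def rh3e58306bfa190149 : CRef := CRef.mk (Pat.mk 0x20000000e00000008000000000 0x18000000180000001ff000000fe000000df00000040 7 9) 0 0 (step_sound _ 68 [(rh0de499e0455c9c14.shift 2 1), (rh14ebe618fe80128a.shift 3 0), (rh152d3b71cd350273.shift 1 1), (rhbd2ff28a4a1671c5.shift 0 1)] (by decide +kernel))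
noncomputable def rh70e34184530296ae : CRef := CRef.mk (Pat.mk 0x2000000020000000300000000 0x500000007000000070000000200000002000000060000000700000005 7 3) 0 0 (step_sound _ 129 [rh20e56a1196e70fcc, rh932754581e0f4330] (by decide +kernel))
noncomputable def rhe4a42abbbbe0e378 : CRef := CRef.mk (Pat.mk 0x20000001a0000000a000000000000000000000000 0xa0000001f0000007a0000000f000000040000000400000004 7 7) 0 0 (step_sound _ 98 [(rh53b3c253cb0c65f4.shift 0 3), rhe9df01bc5609bcc4] (by decide +kernel))
noncomputable def rhb4748319fb2e44b9 : CRef := CRef.mk (Pat.mk 0x4000000140000000600000000000000000 0x10000000d0000001ff000000fe0000001f00000008 7 9) 0 0 (step_sound _ 68 [rh364cb9946f5256ab, (rha4e887c2a2a0f60b.shift 1 1), (rhcb00ab67b46fb179.shift 4 2), (rhd448602067bf58b6.shift 2 1)] (by decide +kernel))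
noncomputable def rhe644eb1cd8f767e3 : CRef := CRef.mk (Pat.mk 0x20000000e0000000800000000000000000 0x200000002000000067000000fe000000ff0000001000000010 7 8) 0 0 (step_sound _ 100 [(rhbd2ff28a4a1671c5.shift 0 2), (rhcfde16a7ff36af03.shift 3 0)] (by decide +kernel))
noncomputable def rh895512040732b67d : CRef := CRef.mk (Pat.mk 0x10000000580000004000000000 0xc0000000c0000000fc0000007f0000006f00000020 7 8) 0 0 (step_sound _ 69 [(rh0de499e0455c9c14.shift 1 1), (rh14ebe618fe80128a.shift 2 0), (rh152d3b71cd350273.shift 0 1)] (by decide +kernel))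
noncomputable def rhb3c00181835503b4 : CRef := CRef.mk (Pat.mk 0x400000016000000100000000000000000 0x34000000340000003f0000001e0000001f0000000a00000002 7 6) 0 0 (step_sound _ 65 [(rh88dba4532714a535.shift 0 1), (rhadf429772c25fde0.shift 1 0)] (by decide +kernel))
noncomputable def rh3bfd72564429151e : CRef := CRef.mk (Pat.mk 0x20000000b0000000800000000000000000 0x1a0000001a0000001ff000000fe000000ef0000004000000040 7 9) 0 0 (step_sound _ 102 [(rh14ebe618fe80128a.shift 3 1), (rh152d3b71cd350273.shift 1 2), (rh31edea79c38d604a.shift 3 0), (rhbd2ff28a4a1671c5.shift 0 2)] (by decide +kernel))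
noncomputable def rh7e4fe7c1e14f38b1 : CRef := CRef.mk (Pat.mk 0x20000000b0000000800000000000000000 0x200000002000000067000000fe000000ff0000001000000010 7 8) 0 0 (step_sound _ 102 [(rhbd2ff28a4a1671c5.shift 0 2), (rhcfde16a7ff36af03.shift 3 0)] (by decide +kernel))
noncomputable def rh5e311fb0adc959bf : CRef := CRef.mk (Pat.mk 0x18000000080000000800000000000000000000000000000000 0x40000000c0000003c0000000f0000000c0000001c0000001c0000001c00000014 7 6) 0 0 (step_sound _ 99 [(rh47992774edf9829f.shift 2 0), (rh6eff4158bb400f47.shift 2 1), (rh771d065bdc85bf2d.shift 2 2), (rh9aab2e37f490e5ca.shift 0 2)] (by decide +kernel))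
noncomputable def rh4b8d3c113cac4076 : CRef := CRef.mk (Pat.mk 0x10000000100000007800000000 0x1c0000001f000000380000001c0000007800000010 7 7) 0 0 (step_sound _ 67 [rh0ce05fa10fc4a611, (rh3244c3cc8379b070.shift 2 1)] (by decide +kernel))
noncomputable def rh830524983b23eddc : CRef := CRef.mk (Pat.mk 0x8000000280000003800000000 0x280000007c000001ef0000003c00000010 7 9) 0 0 (step_sound _ 4 [rh1c1654fb32da0aaa, (rh2145e1d24b96a57e.shift 3 0)] (by decide +kernel))
noncomputable def rhfaf121bd5b878f40 : CRef := CRef.mk (Pat.mk 0x80000002800000038000000000000000000000000 0x200000007c000001ef0000003c000000180000001000000010 7 9) 0 0 (step_sound _ 68 [(rh1c1654fb32da0aaa.shift 0 2), (rh79ad7b82ec8c35e2.shift 3 0)] (by decide +kernel))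
noncomputable def rha3f95589f80c87aa : CRef := CRef.mk (Pat.mk 0x2000000020000000200000002 0x100000007000000070000000700000003000000030000000300000002 7 3) 0 0 (step_sound _ 129 [rh3ca48e2a6d60153d, (rhc85cc95794737cf7.shift 0 1), rhf04ce9dde6ca99d0, (rhf515f701b82bbaa6.shift 0 1)] (by decide +kernel))
noncomputable def rh3e98d5159dc2b280 : CRef := CRef.mk (Pat.mk 0x400000014000000140000000400000000000000000000000000000000 0x4000000360000001e000000070000000e0000000e0000000e00000002 7 6) 0 0 (step_sound _ 98 [(rh67ad2f8b2370a0fa.shift 0 1), (rh7928877f9bf74a91.shift 1 2), (rh8cdd36b03d57a2f6.shift 1 1), (rhe84e00c98653ad0c.shift 1 0)] (by decide +kernel))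
noncomputable def rhee3ad1a66c51093e : CRef := CRef.mk (Pat.mk 0xa0000000a0000000200000002000000000000000000000000 0x1b0000000f0000000600000003000000070000000700000004 7 5) 0 0 (step_sound _ 64 [(rh79877ebd3ef475dd.shift 0 2), rh9628481f97abdc76] (by decide +kernel))
noncomputable def rhecf163fb90743fed : CRef := CRef.mk (Pat.mk 0x100000003c00000018000000200000000000000000 0x170000003f00000018000000f00000003800000018 7 8) 0 0 (step_sound _ 68 [(rh55afc6a59410cf00.shift 4 1), rh56a849381c68f45f] (by decide +kernel))
noncomputable def rhba6620038af86015 : CRef := CRef.mk (Pat.mk 0x5800000018000000000000000000000000 0x20000007b0000003f000000070000000400000004 7 7) 0 0 (step_sound _ 98 [(rh361cc68994bd8a63.shift 2 3), rh9ecea4e1d309003f] (by decide +kernel))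
noncomputable def rh5f3fcb0278f75f5c : CRef := CRef.mk (Pat.mk 0x80000000b000000020 0x19f000000fe0000006f 7 9) 0 0 (step_sound _ 38 [(rh33e738c4ed385b9f.shift 4 1), rhad247eb3373f4ddc] (by decide +kernel))
noncomputable def rh0d1553da6ca96a4b : CRef := CRef.mk (Pat.mk 0x5800000000 0x3ff000001fe00000387 7 10) 0 0 (step_sound _ 37 [rh15b856e33c69f807, (rh394e80a462af5b2f.shift 2 0), (rh3fab90c0b35cbbff.shift 3 0), (rh4c622fddc53a5f99.shift 1 1), rhd4999ead6bb0c91f] (by decide +kernel))
noncomputable def rhf6a00e39d98991ed : CRef := CRef.mk (Pat.mk 0x160000000c00000008 0x200000016000000370000001e0000003c0000000c 7 6) 0 0 (step_sound _ 36 [(rhf48373e13d2bc128.shift 1 1), rhfb3b6c205e1924b6] (by decide +kernel))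
noncomputable def rh44dad3b9f0ade61b : CRef := CRef.mk (Pat.mk 0x1000000010000000500000000800000000 0x1000000010000000770000003e0000002f 7 7) 0 0 (step_sound _ 36 [(rh932754581e0f4330.shift 3 0), rhf747e75c56839347] (by decide +kernel))
noncomputable def rhb9fc678fef34c2f8 : CRef := CRef.mk (Pat.mk 0x60000003000000014000000000000000000000000 0x5000000070000000700000006000000330000001f000000070000000700000005 7 6) 0 0 (step_sound _ 97 [(rh1c62b6193297d9e3.shift 1 3), rh6b07ea3b6822fafc] (by decide +kernel))
noncomputable def rh3375b4624a8ea661 : CRef := CRef.mk (Pat.mk 0x60000001800000008000000000000000000000000 0x600000006000000060000003c0000000f000000060000000600000006 7 6) 0 0 (step_sound _ 130 [rh16d76f90f0fb4f0a, (rhf48373e13d2bc128.shift 1 4)] (by decide +kernel))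
noncomputable def rhdf5994432b0eae46 : CRef := CRef.mk (Pat.mk 0x3000000040000001400000000000000000 0x20000000207000007fe000003e7000001600000010000000100 7 11) 0 0 (step_sound _ 103 [(rh4c1da394ff107098.shift 0 3), (rh57de502f033bde6e.shift 4 0), (rh83ec37ff6e78b01f.shift 3 3)] (by decide +kernel))
noncomputable def rh949aad91152c3c2c : CRef := CRef.mk (Pat.mk 0x1e000000020000000000000000 0x50000000700000007000000070000001e000000060000000600000006 7 5) 0 0 (step_sound _ 129 [(rh3244c3cc8379b070.shift 0 3), rh90110b2d98f1ac91] (by decide +kernel))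
noncomputable def rh9eef68063efe4653 : CRef := CRef.mk (Pat.mk 0x3c000000000000000000000000 0x1000000010000000380000003f0000001f0000000800000008 7 6) 0 0 (step_sound _ 65 [(rh80fcd6d0a18cb2dd.shift 1 2), rha691650621101090] (by decide +kernel))
noncomputable def rhfa8b2bda9d4ce189 : CRef := CRef.mk (Pat.mk 0x40000000c000000380000001000000000 0x20000000e6000000fc0000003f0000001f00000008 7 8) 0 0 (step_sound _ 35 [(rh52d439a3c8fba5f2.shift 0 1), (rh7b1f1fb55310c477.shift 2 0)] (by decide +kernel))
noncomputable def rhc5ad862e5e765d7f : CRef := CRef.mk (Pat.mk 0x1000000018000000300000002000000000 0x40000000d0000000f8000000ff0000002f00000008 7 8) 0 0 (step_sound _ 70 [rh09c4dd60b8271d2d, (rhf48373e13d2bc128.shift 3 2)] (by decide +kernel))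
noncomputable def rh130899da3617ea38 : CRef := CRef.mk (Pat.mk 0x70000000300000008000000000000000000000000 0x40000001f0000001b000000080000001c0000001c00000014 7 5) 0 0 (step_sound _ 163 [(rh18965a982d73c794.shift 0 4), rh33d3f1ba39b8bd00] (by decide +kernel))
noncomputable def rhaf58610a239b8be6 : CRef := CRef.mk (Pat.mk 0x10000000e0000000000000010000000000000000000000000 0xb0000001e0000003000000010000000380000003800000028 7 6) 0 0 (step_sound _ 164 [(rh33d3f1ba39b8bd00.shift 1 0), (rh3f8766e6ecb455ce.shift 0 5)] (by decide +kernel))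
noncomputable def rhd22ee77b1538e581 : CRef := CRef.mk (Pat.mk 0x20000000e0000000a0000000800000000 0x30000000700000007000000060000000e0000000e0000000e00000006 7 4) 0 0 (step_sound _ 130 [(rh84d1c02a8954c6a8.shift 1 1), rhdabc5688984dab19, (rhe072fffdd2fccf38.shift 2 1)] (by decide +kernel))
noncomputable def rhb94ea3485c38af92 : CRef := CRef.mk (Pat.mk 0xf0000000000000008000000000000000000000000 0x180000001f00000018000000080000001c0000001c00000014 7 5) 0 0 (step_sound _ 131 [rh42c8dabea78e6889, (rhe25b0a99195a5d59.shift 0 4)] (by decide +kernel))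
noncomputable def rh539d68e90cf61ab3 : CRef := CRef.mk (Pat.mk 0x20000000600000002000000000000000000000000 0x50000000700000007000000060000000600000006000000070000000700000005 7 3) 0 0 (step_sound _ 65 [(rh20e56a1196e70fcc.shift 0 1), (rh301a6b3a9154ed36.shift 1 0), rh91a545eb3be094e3] (by decide +kernel))
noncomputable def rhc5692e990969062c : CRef := CRef.mk (Pat.mk 0x1e0000000a00000008 0x5000000070000000700000006000000070000001e0000000e0000000c 7 5) 0 0 (step_sound _ 97 [(rh3244c3cc8379b070.shift 0 2), rh9485f2cc7a45dbe6] (by decide +kernel))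
noncomputable def rh4b0c5992d5644f77 : CRef := CRef.mk (Pat.mk 0x18000000140000001000000000 0x4000000040000003f0000003f0000003300000002 7 6) 0 0 (step_sound _ 65 [(rh5360fcf49c083c33.shift 0 1), (rh97a8f44166bcecc0.shift 0 2), rhd5ee933379a05b11] (by decide +kernel))
noncomputable def rh68ae634e1ebb8f05 : CRef := CRef.mk (Pat.mk 0x4000000050000000400000004 0x80000000e0000000e0000000e0000003c0000000f0000000c00000004 7 6) 0 0 (step_sound _ 130 [(rh44f453b84f013105.shift 2 0), (rh66ee4e4e1313f0fc.shift 1 1), rhb3a7ae187078b962, (rhc85cc95794737cf7.shift 1 1)] (by decide +kernel))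
noncomputable def rh59715b3e1c0e1f10 : CRef := CRef.mk (Pat.mk 0x8000000080000000800000008 0x1800000018000000180000007c0000001f0000000c 7 7) 0 0 (step_sound _ 132 [(rhbaefcd01e0a8bca3.shift 3 0), rhd9d86b1ebb024656] (by decide +kernel))
noncomputable def rhda3b772f537e2d17 : CRef := CRef.mk (Pat.mk 0x2000000020000000200000001 0x400000007000000070000000300000006000000060000000700000001 7 3) 0 0 (step_sound _ 129 [(rh66ee4e4e1313f0fc.shift 0 1), rh79877ebd3ef475dd] (by decide +kernel))
noncomputable def rhdbb967939a65c35f : CRef := CRef.mk (Pat.mk 0x8000000080000000a00000008 0x40000001c0000001c000000180000000c0000001f00000018 7 5) 0 0 (step_sound _ 132 [(rhbaefcd01e0a8bca3.shift 3 0), rhf43b8b58324dbb47] (by decide +kernel))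
noncomputable def rh33d3936ab5c150af : CRef := CRef.mk (Pat.mk 0x8000000080000000a00000008 0x1800000018000000180000000f0000003e0000001c 7 6) 0 0 (step_sound _ 132 [rha9863b04be8991ce, (rhbaefcd01e0a8bca3.shift 3 0)] (by decide +kernel))
noncomputable def rh142161f605ffde05 : CRef := CRef.mk (Pat.mk 0x8000000080000000800000008 0xc0000000c0000000c0000007c0000001f0000000c 7 7) 0 0 (step_sound _ 130 [rhcefc26e4f41f33a2, (rhffd04209dc8ea796.shift 2 0)] (by decide +kernel))
noncomputable def rhb6c27a98f4d72bd8 : CRef := CRef.mk (Pat.mk 0x800000008000000080000000e000000000000002000000000 0x800000008000000ef0000007e000000700000002000000020 7 8) 0 0 (step_sound _ 100 [rh2a535ce68d5cfc5d, (rh55afc6a59410cf00.shift 3 2)] (by decide +kernel))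
noncomputable def rh1a495691ad1342a8 : CRef := CRef.mk (Pat.mk 0x1e000000180000000800000000 0xc0000000f0000003f0000001e0000001c0000000c00000004 7 6) 0 0 (step_sound _ 129 [(rh3244c3cc8379b070.shift 0 3), rh468167f18c831be9] (by decide +kernel))
noncomputable def rh6e4d1fadc2cc6305 : CRef := CRef.mk (Pat.mk 0x100000001c000000100000001000000000 0xc0000001f0000007c000000780000001e0000000c 7 7) 0 0 (step_sound _ 131 [rh19ed158a9234409d, (rh50fbb5868c909700.shift 3 1)] (by decide +kernel))
noncomputable def rh575258433db03adf : CRef := CRef.mk (Pat.mk 0xc0000000a000000080000002c00000000 0x130000001f000000fe000001fe0000002e00000020 7 9) 0 0 (step_sound _ 132 [(rh2f68792b6b779e96.shift 3 1), rh655011c4a5930d25] (by decide +kernel))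
noncomputable def rh36ff6538fbd78e14 : CRef := CRef.mk (Pat.mk 0x100000001400000018000000180000000000000000 0x40000001e0000007c000000ff0000001f0000000200000002 7 8) 0 0 (step_sound _ 101 [(rh2612b4f73ba7c3b3.shift 2 2), rh642c8b3c131e8fa1, (rh8abea2a7b1fd427a.shift 2 2)] (by decide +kernel))
noncomputable def rh490a9b9add858d8e : CRef := CRef.mk (Pat.mk 0x180000001c000000100000001000000000 0x200000002000000070000001f0000007c000000760000001e0000000c 7 7) 0 0 (step_sound _ 35 [(rh932754581e0f4330.shift 3 0), rhcbbf5c25ee45f545] (by decide +kernel))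
noncomputable def rh7b1a472830052447 : CRef := CRef.mk (Pat.mk 0x3c000000040000001000000018000000000000000000000000 0x60000003c000000040000003e0000001e000000070000000200000002 7 6) 0 0 (step_sound _ 226 [(rh3244c3cc8379b070.shift 1 6), rh483532e42617465d] (by decide +kernel))
noncomputable def rhd571a921aeb5e3f2 : CRef := CRef.mk (Pat.mk 0x80000001e00000000 0x1cc000000fe000001c7 7 9) 0 0 (step_sound _ 1 [(rh00f58009bf555daa.shift 1 0), rheb0810cc63b001d8] (by decide +kernel))
noncomputable def rh3451010e1d5b1b23 : CRef := CRef.mk (Pat.mk 0xc00000005000000040000001600000000 0x1e0000000fc000001ff000000ff0000001700000010 7 9) 0 0 (step_sound _ 132 [(rh352b7f91eba0c81f.shift 1 3), (rh67e5914ef7f4941c.shift 0 3), (rha734d7cf2092a913.shift 2 1), rha75e3ef8be8f45f1] (by decide +kernel))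
noncomputable def rh49641957cbb326ff : CRef := CRef.mk (Pat.mk 0x20000001e0000001800000008000000000000000000000000 0x60000001e0000001b0000000f000000070000000700000005 7 5) 0 0 (step_sound _ 129 [rh8206d63bc204c22e, (rheb0810cc63b001d8.shift 0 4)] (by decide +kernel))
noncomputable def rhdfc0d155aa86391c : CRef := CRef.mk (Pat.mk 0x180000000800000008 0x140000001c0000001c0000001c0000001f000000780000001800000008 7 7) 0 0 (step_sound _ 99 [(rh252bad32582c99d7.shift 2 0), (rh3290eb83f8a84c79.shift 2 0), (rh5a860b5057e1e4c5.shift 2 0), (rhc85cc95794737cf7.shift 2 0), rhdb019b0e908810fb] (by decide +kernel))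
noncomputable def rh9d4a6eefee7d94bf : CRef := CRef.mk (Pat.mk 0x70000000800000008000000000000000000000000 0x180000001f00000018000000080000001c0000001c00000014 7 5) 0 0 (step_sound _ 163 [rh42c8dabea78e6889, (rhe25b0a99195a5d59.shift 0 4)] (by decide +kernel))
noncomputable def rh0c8e775413ad3410 : CRef := CRef.mk (Pat.mk 0x1e00000008 0xe7000000fe000001d8 7 9) 0 0 (step_sound _ 65 [(rh3244c3cc8379b070.shift 0 1), (rhea8024f69d23ee02.shift 1 0)] (by decide +kernel))
noncomputable def rhc62042521d9abd61 : CRef := CRef.mk (Pat.mk 0x20000001e0000001800000000000000000000000000000000 0x60000001e0000001f00000003000000070000000700000005 7 5) 0 0 (step_sound _ 129 [rh683cbe238d57cb1e, (rheb0810cc63b001d8.shift 0 4)] (by decide +kernel))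
noncomputable def rh13ef087501181018 : CRef := CRef.mk (Pat.mk 0x140000001c00000018000000000000000000000000 0x18000000180000001c0000003c0000001f000000070000000600000006 7 6) 0 0 (step_sound _ 196 [(rh5c5e593799055d58.shift 3 3), rhd7558310e3540a8c] (by decide +kernel))
noncomputable def rh54b773a31d7f998b : CRef := CRef.mk (Pat.mk 0x140000001c00000010000000000000000000000000 0x6000000160000007c0000007c0000001f0000000f0000000a0000000a 7 7) 0 0 (step_sound _ 99 [(rh1e309b005ffa1b36.shift 3 1), (rh4f7aa851c68c5803.shift 2 0), (rh5d54cb79a67f97ab.shift 2 1), (rha40d42a2e34c408d.shift 2 1), rhc8d1fd3270b20169] (by decide +kernel))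
noncomputable def rhe56ade3d7de9e8e5 : CRef := CRef.mk (Pat.mk 0x1a000000020000002000000000 0xe70000007e000000630000002000000020 7 8) 0 0 (step_sound _ 98 [rh2a535ce68d5cfc5d, (rheb0810cc63b001d8.shift 0 2)] (by decide +kernel))
noncomputable def rh4d0f0fbc7bcac2aa : CRef := CRef.mk (Pat.mk 0x8000000080000001800000008000000000000000000000000 0x800000018000000180000000c0000001f0000007c00000010 7 7) 0 0 (step_sound _ 66 [rh47fb02839486912c, (rh79877ebd3ef475dd.shift 2 2)] (by decide +kernel))
noncomputable def rhd36e9d397848a01d : CRef := CRef.mk (Pat.mk 0x2000000020000000e0000000000000000000000000 0x20000000200000003f000000fe0000003e0000001000000010 7 8) 0 0 (step_sound _ 100 [(rh1e8d6e1ef30e2d92.shift 3 0), (rh281c6819542c66e6.shift 4 0), (rh2b264ec59419670e.shift 0 2)] (by decide +kernel))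
noncomputable def rh54d83e3d8794d2de : CRef := CRef.mk (Pat.mk 0xa000000020000002200000002 0xe40000007e000000730000002200000022 7 8) 0 0 (step_sound _ 98 [(rh2f68792b6b779e96.shift 1 0), rh880f707c990d6f11] (by decide +kernel))
noncomputable def rhc3f5459af1e11bcb : CRef := CRef.mk (Pat.mk 0x40000000a000000020000002200000000 0xe40000007e000000730000002200000022 7 8) 0 0 (step_sound _ 98 [(rh71222050f2c63a3a.shift 1 0), rh880f707c990d6f11] (by decide +kernel))
noncomputable def rh029f82fcbdb61681 : CRef := CRef.mk (Pat.mk 0x20000000200000002000000000000000000000000 0x50000000700000007000000060000000300000003000000070000000700000005 7 3) 0 0 (step_sound _ 193 [(rh1741680720c097b4.shift 0 3), (rh3b734c5288922837.shift 0 2), rh49759b6975f15643, (rh771d065bdc85bf2d.shift 0 2)] (by decide +kernel))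
noncomputable def rh880da9da7c4375b5 : CRef := CRef.mk (Pat.mk 0xa0000000a00000002000000020000000100000000 0x500000007000000070000007a0000001f00000006000000060000000300000003 7 7) 0 0 (step_sound _ 33 [rh932754581e0f4330, rhcb2c396347eb9181] (by decide +kernel))
noncomputable def rh82689e3572614c3c : CRef := CRef.mk (Pat.mk 0x400000005000000050 0x3c7000000fe0000007f 7 10) 0 0 (step_sound _ 37 [(rha11dfd15f08f96e3.shift 3 1), rhacf582b6743d2a8e, (rhf0f55c4504412200.shift 1 0)] (by decide +kernel))
noncomputable def rh78ab6b15defe4c66 : CRef := CRef.mk (Pat.mk 0x2000000060000000200000002 0x50000000700000007000000070000000300000007000000060000000600000002 7 3) 0 0 (step_sound _ 129 [(rh14e0829dc73b6804.shift 0 1), rh3ca48e2a6d60153d, (rh3da62da861143b9a.shift 0 1), (rh697682f290203ad5.shift 0 1)] (by decide +kernel))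
noncomputable def rhec873418c52e17df : CRef := CRef.mk (Pat.mk 0x4000000070000000400000010000000000000000000000000 0x200000003c0000003f0000003f00000010000000380000003800000028 7 6) 0 0 (step_sound _ 132 [rh63083e557184b0c1, (rh68691964b29f233d.shift 0 4), (rhc1db5918def9f13b.shift 0 4), (rhe28dc3223a412fc9.shift 0 4)] (by decide +kernel))
noncomputable def rh2d2b5ce08866f677 : CRef := CRef.mk (Pat.mk 0x400000006000000060000000a0000000000000000 0x10000000100000003c000000fe0000007e000000eb0000000800000008 7 8) 0 0 (step_sound _ 99 [(rh08edf065357d68e5.shift 2 0), (rh1a07419cf7b31cc5.shift 0 2), (rh946fef404b5a1533.shift 1 0), (rha9e1a5d55b907abf.shift 0 2), (rhcaea2482bc503952.shift 1 2), (rhdf5658f8b5990bd3.shift 1 1)] (by decide +kernel))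
noncomputable def rhccf01267a8e22d44 : CRef := CRef.mk (Pat.mk 0xe0000000a00000008 0x40000001400000016000000770000003e0000007a0000000a 7 7) 0 0 (step_sound _ 68 [(rh3fc3a7fb6866dcd4.shift 1 1), (rh94246470f0e6fdf7.shift 1 0), rhbedb750d2144541e, rhf6271806d5dafbc1] (by decide +kernel))
noncomputable def rh7d808fdd70fddd3a : CRef := CRef.mk (Pat.mk 0x1c000000140000001000000000 0xa0000000e0000000f0000001c0000001c0000001f0000000e 7 5) 0 0 (step_sound _ 131 [(rh8eb2d15efc505b0f.shift 2 1), rhde0eeac45a6b82c8, (rhf9366b6a121593ef.shift 2 0)] (by decide +kernel))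
noncomputable def rh6c12a951fc218f4a : CRef := CRef.mk (Pat.mk 0x40000000f00000002 0x1fc000000ff000001c6 7 9) 0 0 (step_sound _ 36 [(rh9890f9d77740bbed.shift 0 1), (rhd584a578337d0023.shift 1 0), (rhe4909b58bb712816.shift 1 0)] (by decide +kernel))
noncomputable def rh16d5150a4767b77a : CRef := CRef.mk (Pat.mk 0x20000000200000002000000000000000000000000 0x50000000700000007000000060000000300000003000000070000000700000005 7 3) 0 0 (step_sound _ 193 [(rh1741680720c097b4.shift 0 3), (rh20966da26a1c2ae8.shift 0 2), rh95311890f436bcdc, (rh968ba7b0df7e4096.shift 0 2)] (by decide +kernel))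
noncomputable def rh5ee59631b78366af : CRef := CRef.mk (Pat.mk 0x10000000500000007000000000 0x2800000038000000380000003800000010000000f70000007e00000007 7 8) 0 0 (step_sound _ 35 [(rh33e738c4ed385b9f.shift 3 1), rh501dec27d23193f4] (by decide +kernel))
noncomputable def rh20b43b266d7c2aff : CRef := CRef.mk (Pat.mk 0x100000001c00000006 0xe0000000f0000003b0000001f00000006 7 6) 0 0 (step_sound _ 33 [(rh33e738c4ed385b9f.shift 1 1), rhad2380584ffc4aaa] (by decide +kernel))
noncomputable def rh1728f021e30dac24 : CRef := CRef.mk (Pat.mk 0x2000000020000000200000002 0x400000006000000060000000600000006000000070000000700000003 7 3) 0 0 (step_sound _ 129 [rh18657af0f84e8ce8, rh20966da26a1c2ae8, (rh44f453b84f013105.shift 1 0), rh48b6caf271765322] (by decide +kernel))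
noncomputable def rh2dded4de7467a50a : CRef := CRef.mk (Pat.mk 0x100000002000000020000000200000000 0x400000006000000070000000300000006000000070000000700000001 7 3) 0 0 (step_sound _ 129 [rh48b6caf271765322, (rh50fbb5868c909700.shift 0 1)] (by decide +kernel))
noncomputable def rh58cdb5d012614265 : CRef := CRef.mk (Pat.mk 0xc000000180000005000000000 0x38000000380000007c000000ff000000df0000005000000040 7 8) 0 0 (step_sound _ 97 [(rhb739f4f82bb681b4.shift 0 2), rhdbe23968eb6350bb] (by decide +kernel))
noncomputable def rh70c1215e274bcde9 : CRef := CRef.mk (Pat.mk 0x1000000018000000300000002000000000 0x40000000d0000000f8000000ff0000002f00000008 7 8) 0 0 (step_sound _ 70 [rh69c8fbaabdde5141, (rhf48373e13d2bc128.shift 3 2)] (by decide +kernel))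
noncomputable def rh25e211d7b3b069c9 : CRef := CRef.mk (Pat.mk 0xc0000001800000010 0x2000000020000000700000003f0000003f00000010 7 7) 0 0 (step_sound _ 65 [rh87a538dae2f64ca0, (rhb739f4f82bb681b4.shift 0 1)] (by decide +kernel))
noncomputable def rh1d68c17f6f76e498 : CRef := CRef.mk (Pat.mk 0x1c000000180000001000000000 0xa0000000b0000003f0000001f0000001400000004 7 6) 0 0 (step_sound _ 97 [rh34b97fbe6a82fc2c, (rhb739f4f82bb681b4.shift 0 2)] (by decide +kernel))
noncomputable def rh2f839bb7d4855196 : CRef := CRef.mk (Pat.mk 0x1c000000180000004000000000 0x73000000ff000000d80000004000000040 7 8) 0 0 (step_sound _ 97 [(rhb739f4f82bb681b4.shift 0 2), rhd138e8d26baecac9] (by decide +kernel))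
noncomputable def rh8c91c389190d4d29 : CRef := CRef.mk (Pat.mk 0x3000000010000000300000006000000000 0x80000007c0000001f00000070000001fe00000018 7 9) 0 0 (step_sound _ 39 [rh7815b7de1084ee95, (rhf48373e13d2bc128.shift 4 1)] (by decide +kernel))
noncomputable def rhb575a9824cd1368d : CRef := CRef.mk (Pat.mk 0xc00000004000000040000000400000000 0x720000003e00000077000000040000000400000004 7 7) 0 0 (step_sound _ 129 [(rh50fbb5868c909700.shift 1 1), rh60077372923b2654] (by decide +kernel))
noncomputable def rh2851888b3c4a1188 : CRef := CRef.mk (Pat.mk 0x380000000000000000000000a0 0x3df000001fe000001e7000000a0000000a0 7 10) 0 0 (step_sound _ 102 [(rh3947d1dfff0afc6c.shift 2 2), (rh50466f969e689d1a.shift 2 0), (rh66c438da7fa185e0.shift 3 0), (rhb18e6c78a554867d.shift 2 3), (rhbb13f9e1d387f64a.shift 0 2)] (by decide +kernel))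
noncomputable def rh0e2ea7bdec6e4998 : CRef := CRef.mk (Pat.mk 0x3800000000 0x1ff000000fe000001c7 7 9) 0 0 (step_sound _ 38 [rh15b856e33c69f807, (rh3947d1dfff0afc6c.shift 2 0), (rh3fc3a7fb6866dcd4.shift 3 0)] (by decide +kernel))
noncomputable def rh614c52ace41ea637 : CRef := CRef.mk (Pat.mk 0x6000000000000000600000004000000000000000000000000 0x700000007000000030000000600000006000000030000000300000003 7 3) 0 0 (step_sound _ 161 [(rh2145e1d24b96a57e.shift 1 3), rh6b4df1d196e30d4e] (by decide +kernel))
noncomputable def rh14467f8282d505bd : CRef := CRef.mk (Pat.mk 0x18000000180000000800000000 0xe7000000ff0000001f0000000800000008 7 8) 0 0 (step_sound _ 101 [(rh2612b4f73ba7c3b3.shift 2 2), (rh30b1045e318f0560.shift 0 2), rh9dbf2da3fc59a178] (by decide +kernel))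
noncomputable def rh93c574659acb2483 : CRef := CRef.mk (Pat.mk 0xe0000001000000000 0x400000004000000370000003e0000003300000002 7 6) 0 0 (step_sound _ 68 [rhb218ed1e2f167f52, (rhe25b0a99195a5d59.shift 1 1)] (by decide +kernel))
noncomputable def rh11e87f691963957b : CRef := CRef.mk (Pat.mk 0x80000000e000000180000005000000000 0x3400000034000000ff000000fe000000db0000005200000040 7 8) 0 0 (step_sound _ 100 [(rh21460d2d48a35cb8.shift 0 1), (rhb218ed1e2f167f52.shift 0 1), (rhbbcffa81b3b7626a.shift 2 1), rhd138e8d26baecac9, (rhd283a685d2618d5b.shift 0 2)] (by decide +kernel))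
noncomputable def rh89996d87f6b89247 : CRef := CRef.mk (Pat.mk 0x100000001e0000001a0000000000000000 0x34000000340000001f0000001e0000001e0000000200000002 7 6) 0 0 (step_sound _ 129 [(rh3244c3cc8379b070.shift 0 3), (rhb2f2527392337ea6.shift 1 0)] (by decide +kernel))
noncomputable def rh4248338305cb82eb : CRef := CRef.mk (Pat.mk 0x1e0000000600000000000000000000000000000000 0x700000007000000070000001e0000000600000003000000070000000700000005 7 5) 0 0 (step_sound _ 97 [(rh6153ca5282c9993b.shift 0 3), (rh9954101f0efffb9e.shift 0 1), rhffb8e5993241bf15] (by decide +kernel))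
noncomputable def rh15b34523ff6a72f8 : CRef := CRef.mk (Pat.mk 0x1e0000001a00000000000000000000000000000000 0x40000003e0000001e00000003000000070000000700000005 7 6) 0 0 (step_sound _ 130 [(rh18965a982d73c794.shift 1 4), rhd338c361a7c5fdfe] (by decide +kernel))
noncomputable def rh43c679e92ed48ac8 : CRef := CRef.mk (Pat.mk 0x2000000020000001a000000000000000000000000 0x5000000070000000700000002000000020000001e000000070000000700000005 7 5) 0 0 (step_sound _ 65 [(rh20e56a1196e70fcc.shift 0 1), (rh5710f30ba40ee3ec.shift 0 1), rh6eff4158bb400f47] (by decide +kernel))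
noncomputable def rhf06d6fe02dfd6c4b : CRef := CRef.mk (Pat.mk 0x180000002800000020000000000000000000000000 0x1800000018000000180000001c000000fc0000002f0000001c0000001c00000014 7 8) 0 0 (step_sound _ 132 [(rh79b3c29022acbdf3.shift 2 4), (rh8c29b1e2f83d279d.shift 2 2), rhe3ea9236aab91452] (by decide +kernel))
noncomputable def rh6b9e543cb5f40f43 : CRef := CRef.mk (Pat.mk 0x8000000000000001c0000003800000020 0x140000001c0000001c0000001c0000003f00000027 7 6) 0 0 (step_sound _ 132 [(rh6f1cbe15c631ee70.shift 4 0), rhaeed8d909fdb031b] (by decide +kernel))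
noncomputable def rhf836ef2ed0ead080 : CRef := CRef.mk (Pat.mk 0x3800000000 0x1f7000000fe000001cf 7 9) 0 0 (step_sound _ 34 [(rh205dc383ce3b31ea.shift 1 0), (rh4c622fddc53a5f99.shift 0 1), rh775ca1963e850b80, rh9e97bba44c1b13e4] (by decide +kernel))
noncomputable def rh5e75fb029809b1ac : CRef := CRef.mk (Pat.mk 0x30000000100000001000000014 0x1cf000000fe000001de0000001400000014 7 9) 0 0 (step_sound _ 99 [(rh50fbb5868c909700.shift 3 0), rh6b33e5464215409a] (by decide +kernel))
noncomputable def rhcbd1b5215bf1b870 : CRef := CRef.mk (Pat.mk 0xa000000130000001000000010000000000000000000000000 0x200000003e000000330000001000000010000000380000003800000028 7 6) 0 0 (step_sound _ 196 [(rh49759b6975f15643.shift 3 0), (rhb2a0b9ccfb5cecd5.shift 0 5)] (by decide +kernel))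
noncomputable def rh57e9280fc8464d3c : CRef := CRef.mk (Pat.mk 0x1000000018000000280000000800000000 0x140000001c0000001c0000000f0000007c000000180000007c0000000f00000004 7 7) 0 0 (step_sound _ 131 [(rh0ef6c71ce89c1c36.shift 2 0), rhc8fd50c44a2112a0, (rhdda86859723ff859.shift 0 2)] (by decide +kernel))
noncomputable def rh79965f1c9ad9336a : CRef := CRef.mk (Pat.mk 0x10000000100000001000000018 0x2f0000007e0000007e0000001800000018 7 7) 0 0 (step_sound _ 99 [rh20454a86987f297a, (rh50fbb5868c909700.shift 3 0)] (by decide +kernel))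
noncomputable def rhed66c2bfbb7ced41 : CRef := CRef.mk (Pat.mk 0x180000002800000000000000000000000000000000 0xc0000000c0000000c0000001f000000fc0000000f0000001c0000001c00000014 7 8) 0 0 (step_sound _ 99 [(rh1acc902755b48b28.shift 1 1), rh81bce9c9b9373a54, (rhaf7955adbc1f7ff4.shift 2 0), (rhb61e5423e068bdb4.shift 0 2), (rhc0490f0dbe0fb27c.shift 0 1), rhf3d731143f641bef] (by decide +kernel))
noncomputable def rhe606281d1dd3918a : CRef := CRef.mk (Pat.mk 0x1e000000080000000800000000 0x4000000040000000f0000001e0000003f0000000b00000003 7 6) 0 0 (step_sound _ 68 [(rhe25b0a99195a5d59.shift 1 2), rhfe60da947a37e2e0] (by decide +kernel))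
noncomputable def rha080951b5eb8114c : CRef := CRef.mk (Pat.mk 0x3000000000000000380000002000000020 0x10000000100000001f0000007e000000ef000000380000003f00000024 7 8) 0 0 (step_sound _ 131 [rh2af8dabd69baa977, (rh91d8ce4dac8e4598.shift 3 1), (rhc4282c4921034716.shift 2 0), (rhcb9c9b99670e1770.shift 0 1)] (by decide +kernel))
noncomputable def rhb5bfe58352afe42b : CRef := CRef.mk (Pat.mk 0x38000000000000001800000000 0x1ef000000fe000001cf0000001800000010 7 9) 0 0 (step_sound _ 102 [(rh15b856e33c69f807.shift 0 2), (rh23e8e8e874e3cb38.shift 2 0), (rh3fc3a7fb6866dcd4.shift 3 2), (rh71bbb00ef1ecd8fb.shift 2 0)] (by decide +kernel))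
noncomputable def rh24374e67fef9a685 : CRef := CRef.mk (Pat.mk 0xe000000000000000600000000 0x500000007000000770000003e000000730000000600000004 7 7) 0 0 (step_sound _ 100 [rh33dce1b509d116b7, (rh3947d1dfff0afc6c.shift 0 2), (rh3fc3a7fb6866dcd4.shift 1 2), (rh56a24c72f1c55520.shift 0 3)] (by decide +kernel))
noncomputable def rh086be0b50f52c83d : CRef := CRef.mk (Pat.mk 0x78000000000000006000000000 0xc70000007e000000ce0000006000000020 7 8) 0 0 (step_sound _ 66 [(rh80fcd6d0a18cb2dd.shift 2 2), rh9160444072d48ad3] (by decide +kernel))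
noncomputable def rhbe7b39cdc8b0e114 : CRef := CRef.mk (Pat.mk 0x140000003c00000000 0x60000000e0000000f0000001c0000007c0000000e 7 7) 0 0 (step_sound _ 67 [rh8aaf7c5b6807cf9b, (rhf48373e13d2bc128.shift 2 1)] (by decide +kernel))
noncomputable def rhefff89cc57c18275 : CRef := CRef.mk (Pat.mk 0x80000000c000000180000000000000000 0x3000000034000000ff000000ff0000001f0000000300000002 7 8) 0 0 (step_sound _ 97 [rha47ad9c55360c4d5, (rhb739f4f82bb681b4.shift 0 2)] (by decide +kernel))
noncomputable def rhbd0e754d4374ae88 : CRef := CRef.mk (Pat.mk 0x60000000c0000000800000000 0x14000000340000003e0000003f0000000b00000002 7 6) 0 0 (step_sound _ 130 [(rh2145e1d24b96a57e.shift 2 1), rhc912496193655f67] (by decide +kernel))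
noncomputable def rhe3189b76617ffe83 : CRef := CRef.mk (Pat.mk 0x40000001c0000001800000000000000000000000000000000 0x20000000f0000001f0000001e0000000f0000000e0000000400000004 7 5) 0 0 (step_sound _ 99 [(rh7b1f1fb55310c477.shift 2 2), rhbc0e90b77070df91] (by decide +kernel))
noncomputable def rhed30f7be3e6fadeb : CRef := CRef.mk (Pat.mk 0x100000001800000038000000200000000000000000 0x2c0000003f0000003800000038000000380000001800000010 7 6) 0 0 (step_sound _ 67 [rh313b5cccb090c944, (rh71222050f2c63a3a.shift 3 1)] (by decide +kernel))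
noncomputable def rhe54392b04addbc3b : CRef := CRef.mk (Pat.mk 0x80000001800000028000000000000000000000000 0x18000000180000001800000018000000380000001f0000001c0000001c 7 6) 0 0 (step_sound _ 100 [rh1f4b58e63a85b455, (rha40d42a2e34c408d.shift 3 1), (rha5b9eb9647a4db41.shift 2 0)] (by decide +kernel))
noncomputable def rh5d1061c7fc39a560 : CRef := CRef.mk (Pat.mk 0x800000032000000320000001000000000 0x500000017000000170000001f000000330000003b0000001b00000009 7 6) 0 0 (step_sound _ 132 [(rh925a1628dd8a50da.shift 3 0), rha305005416dc176a] (by decide +kernel))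
noncomputable def rh0abe565c5c618a9f : CRef := CRef.mk (Pat.mk 0x100000001800000078000000200000000000000000 0x2c0000003f00000038000000780000003c0000001000000010 7 7) 0 0 (step_sound _ 67 [rh313b5cccb090c944, (rheb0810cc63b001d8.shift 2 2)] (by decide +kernel))
noncomputable def rhc95ed67c46d1fb6c : CRef := CRef.mk (Pat.mk 0x20000001e00000000 0x5000000070000000700000007000000720000003e00000007 7 7) 0 0 (step_sound _ 1 [rh5829879cea92bf55, rheb0810cc63b001d8] (by decide +kernel))
noncomputable def rhba8cb7e2a8842091 : CRef := CRef.mk (Pat.mk 0x40000001e000000100000000000000000 0x2000000070000001e0000001f0000000700000007 7 5) 0 0 (step_sound _ 129 [(rh3244c3cc8379b070.shift 0 3), rh7a743960f07e8d7c] (by decide +kernel))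
noncomputable def rhd81d6c23917c75fe : CRef := CRef.mk (Pat.mk 0x100000011000000170000001400000010 0x80000003e0000003b00000033000000170000001500000010 7 6) 0 0 (step_sound _ 133 [(rhbaefcd01e0a8bca3.shift 4 0), (rhf6332433d186e82a.shift 0 1)] (by decide +kernel))
noncomputable def rhbac16b6dad4cbcf5 : CRef := CRef.mk (Pat.mk 0x600000022000000060000002200000000 0x390000003f00000076000000260000002600000004 7 7) 0 0 (step_sound _ 34 [(rh55afc6a59410cf00.shift 1 0), (rh9af5d2cb94dbca4f.shift 0 1)] (by decide +kernel))
noncomputable def rh6660819361b8cbea : CRef := CRef.mk (Pat.mk 0xc0000003800000020000000000000000000000000 0x140000001c0000001c0000001c0000000c000000380000003e0000001f0000001c0000001c 7 6) 0 0 (step_sound _ 99 [rh33bdfe6074083fee, (rh56259dd1390eee46.shift 2 0), (rhb1a251d9bff81766.shift 2 2), (rhd14aaaca395abbb6.shift 1 2)] (by decide +kernel))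
noncomputable def rhbfd19230331e0b2a : CRef := CRef.mk (Pat.mk 0x8000000080000003800000020 0x140000001c0000001c0000001f0000007c000000180000003800000020 7 7) 0 0 (step_sound _ 131 [(rh1741680720c097b4.shift 2 1), rh244b57623c129d1a, (rh5bd4bc0c2c48140c.shift 2 1), (rh74077b621f65b9d0.shift 3 0), (rhba97f7f4ade5e136.shift 2 1)] (by decide +kernel))
noncomputable def rh7534b993f7f2407f : CRef := CRef.mk (Pat.mk 0x2000000020000000600000002000000000000000000000000 0x4000000070000000700000003000000060000000600000002000000070000000700000005 7 3) 0 0 (step_sound _ 224 [rh339a606530f5a062, (rhffd04209dc8ea796.shift 0 3)] (by decide +kernel))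
noncomputable def rh7f4d5d897a11cece : CRef := CRef.mk (Pat.mk 0x80000001800000010000000000000000000000000 0x7c0000007e0000007f0000001800000018000000080000000800000008 7 7) 0 0 (step_sound _ 195 [(rh2145e1d24b96a57e.shift 3 3), rh5cafc4a102b34bd9] (by decide +kernel))
noncomputable def rhdaacfcdb44ac33c9 : CRef := CRef.mk (Pat.mk 0x80000001800000010000000000000000000000000 0x38000000780000001e000000380000001f0000000c0000000c0000000c 7 7) 0 0 (step_sound _ 195 [(rh2145e1d24b96a57e.shift 3 3), rhc5f0f10b8f3beb69] (by decide +kernel))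
noncomputable def rhd78edc3e6782fb81 : CRef := CRef.mk (Pat.mk 0x80000001800000010000000000000000000000000 0x7c0000007e0000007f00000018000000180000000c0000000c0000000c 7 7) 0 0 (step_sound _ 195 [(rh2145e1d24b96a57e.shift 3 3), rh823cf6f3fa122233] (by decide +kernel))
noncomputable def rh2381d594bbe73ac3 : CRef := CRef.mk (Pat.mk 0x80000001800000010000000000000000000000000 0x1c0000001e00000078000000380000001f0000000c0000000c0000000c 7 7) 0 0 (step_sound _ 195 [rh1ad717749cad4966, (rh2145e1d24b96a57e.shift 3 3)] (by decide +kernel))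
noncomputable def rhf228060db6a5a0d6 : CRef := CRef.mk (Pat.mk 0xc000000060000000c00000008 0xa0000001b0000003f0000003e0000000f00000008 7 6) 0 0 (step_sound _ 100 [(rh18965a982d73c794.shift 1 2), rhe2180cc9169987c7] (by decide +kernel))
noncomputable def rhc227a3a65e78cda7 : CRef := CRef.mk (Pat.mk 0x18000000380000002000000000 0xc0000001c0000001c000000180000003c0000002f0000000c 7 6) 0 0 (step_sound _ 132 [(rh2145e1d24b96a57e.shift 4 1), rh7620edc7277206dc] (by decide +kernel))
noncomputable def rh1431e9557db421e0 : CRef := CRef.mk (Pat.mk 0x60000000e0000000800000000 0x30000000700000007000000060000001e0000000b00000003 7 5) 0 0 (step_sound _ 130 [(rh2145e1d24b96a57e.shift 2 1), rh3dcbad35de31d504] (by decide +kernel))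
noncomputable def rhd8692b3b1222004d : CRef := CRef.mk (Pat.mk 0xe0000001800000000 0x400000004000000370000003e0000003b00000002 7 6) 0 0 (step_sound _ 68 [rh3b471f90e4c861d8, (rhe25b0a99195a5d59.shift 1 1)] (by decide +kernel))
noncomputable def rh0e2fcfc2ba4706c9 : CRef := CRef.mk (Pat.mk 0x80000001800000010000000000000000000000000 0x1c0000003c0000000f000000380000001f0000000c0000000c0000000c 7 6) 0 0 (step_sound _ 195 [(rh2145e1d24b96a57e.shift 3 3), rh8953c8370edd8f8e] (by decide +kernel))
noncomputable def rh6c75caa31449ea01 : CRef := CRef.mk (Pat.mk 0x80000001800000010000000000000000000000000 0x100000001c0000001f0000003c0000001f0000000c0000000c0000000c 7 6) 0 0 (step_sound _ 99 [rh2b53232dd95bba35, rh4505f5afe22da3c0, rha96e545ecf4c54e9, (rhe94c2c075aecb6f6.shift 2 0)] (by decide +kernel))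
noncomputable def rh801704ac2108f0da : CRef := CRef.mk (Pat.mk 0xc0000001c00000010000000000000000000000000 0x1200000032000000f70000003f0000001c0000001c0000000c0000000c0000000c 7 8) 0 0 (step_sound _ 161 [rh690c804819e68196, (rhb739f4f82bb681b4.shift 0 4)] (by decide +kernel))
noncomputable def rh645d098bb1fb7a2a : CRef := CRef.mk (Pat.mk 0x1800000038000000000000000000000000 0x140000001c0000003c0000000f00000018000000780000001f0000001c00000018 7 7) 0 0 (step_sound _ 163 [(rh1cf393a818e1cca8.shift 0 2), rh2fe7fc5c8eedc242, (rh3e595262c1b737ad.shift 3 2), (rhfb9fb48a5e63ed80.shift 2 2)] (by decide +kernel))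
noncomputable def rh2708953ad7f3ec2f : CRef := CRef.mk (Pat.mk 0x60000001c000000100000000000000000 0x4000000040000000e0000001f0000001b0000000f0000000f 7 5) 0 0 (step_sound _ 67 [(rh157ff1c9038f6a9d.shift 0 1), (rha40d42a2e34c408d.shift 2 0), rhc323cfa1a624f679] (by decide +kernel))
noncomputable def rhad6dab671ca02130 : CRef := CRef.mk (Pat.mk 0x400000004000000140000001400000000 0x600000006000000070000001f0000001f0000000c 7 5) 0 0 (step_sound _ 35 [(rh55afc6a59410cf00.shift 2 0), rh5b6fcd83eee5cd7a] (by decide +kernel))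
noncomputable def rh97fd6cb0f7facd4b : CRef := CRef.mk (Pat.mk 0x400000004000000140000001c00000000 0x1c0000003c0000000f0000001f0000001c00000004 7 6) 0 0 (step_sound _ 67 [(rh2145e1d24b96a57e.shift 2 1), rhc8ac18dd48df12ce] (by decide +kernel))
noncomputable def rh664b5337f2a646aa : CRef := CRef.mk (Pat.mk 0x1800000010000000100000001000000000 0x270000007e0000003f000000180000001800000008 7 7) 0 0 (step_sound _ 133 [(rh2f68792b6b779e96.shift 4 1), rh4a557f7005e7111a] (by decide +kernel))
noncomputable def rh21631644dc857a70 : CRef := CRef.mk (Pat.mk 0x2000000020000000200000000000000000000000000000000 0x60000000600000007000000030000000300000007000000070000000700000001 7 3) 0 0 (step_sound _ 97 [(rh20966da26a1c2ae8.shift 0 2), (rh8cdd36b03d57a2f6.shift 0 1), rh8e3b1d976c2c4cbf, (rhf517b930ee0bd92d.shift 0 1)] (by decide +kernel))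
noncomputable def rhd5f6183f8813d5c9 : CRef := CRef.mk (Pat.mk 0x200000002000000020000000200000000 0x300000003000000070000000600000006000000060000000600000006 7 3) 0 0 (step_sound _ 130 [rh2a387b8752161036, (rh2f68792b6b779e96.shift 1 1)] (by decide +kernel))
noncomputable def rhb7df8ae3bf861082 : CRef := CRef.mk (Pat.mk 0x1000000010000000500000005000000000 0x1000000010000000f70000007e00000027 7 8) 0 0 (step_sound _ 37 [(rh55afc6a59410cf00.shift 4 0), rhdda18f14314c6e63] (by decide +kernel))
noncomputable def rhc057269070d94e52 : CRef := CRef.mk (Pat.mk 0x2000000020000000200000000000000000000000000000000 0x50000000700000007000000030000000200000007000000070000000700000005 7 3) 0 0 (step_sound _ 97 [(rh1741680720c097b4.shift 0 3), rh47992774edf9829f, (rh6aa5625770489e83.shift 0 1), (rh8cdd36b03d57a2f6.shift 0 1)] (by decide +kernel))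
noncomputable def rh73b053102c085a2b : CRef := CRef.mk (Pat.mk 0x40000001e0000000000000000 0xa0000000e0000000e000000040000003e0000000700000002 7 6) 0 0 (step_sound _ 33 [(rh1b8a60a3380156d8.shift 1 0), (rheb0810cc63b001d8.shift 0 1)] (by decide +kernel))
noncomputable def rh8a6153997a0900e9 : CRef := CRef.mk (Pat.mk 0x20000000e00000008000000000 0x20000000200000007f000000fe000000df00000010 7 8) 0 0 (step_sound _ 68 [(rh04029d7e2e3adf1c.shift 3 0), (rhbd2ff28a4a1671c5.shift 0 1), (rhf8c499ff59dad3f0.shift 0 1)] (by decide +kernel))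
noncomputable def rh5695e0afd76d11ac : CRef := CRef.mk (Pat.mk 0x2000000020000000200000000000000000000000000000000 0x50000000700000007000000070000000200000006000000070000000700000005 7 3) 0 0 (step_sound _ 97 [rh49759b6975f15643, (rh8ff3dde5b1c639e0.shift 0 1), (rhc4055b4872d6fb38.shift 0 2), (rhc85cc95794737cf7.shift 0 3)] (by decide +kernel))
noncomputable def rh605ebd1d430ac774 : CRef := CRef.mk (Pat.mk 0x200000002000000020000000200000000000000000000000000000000 0x200000003000000030000000300000007000000070000000700000001 7 3) 0 0 (step_sound _ 97 [(rh6eff4158bb400f47.shift 0 1), (rh7928877f9bf74a91.shift 0 2), rh8e3b1d976c2c4cbf, (rhc5b48f2c1b7901f8.shift 0 1)] (by decide +kernel))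
noncomputable def rhab726308d791659d : CRef := CRef.mk (Pat.mk 0x4000000040000000400000010000000000000000000000000 0xa0000000e0000000e0000000c000000070000001e0000000e0000000e0000000a 7 5) 0 0 (step_sound _ 98 [(rh49759b6975f15643.shift 1 0), (rh8335cee50bf8d60c.shift 0 2), (rhc85cc95794737cf7.shift 1 3)] (by decide +kernel))
noncomputable def rh2afa1d0fbf3c7ea2 : CRef := CRef.mk (Pat.mk 0x400000004000000040000001400000010 0x280000003c0000003e0000003e0000003700000012 7 6) 0 0 (step_sound _ 131 [(rh2f68792b6b779e96.shift 2 1), rhb4409d12de3f3be0] (by decide +kernel))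
noncomputable def rhfe0d5bcb446c4590 : CRef := CRef.mk (Pat.mk 0x200000002000000020000000200000000 0x40000000700000007000000030000000600000006000000070000000300000001 7 3) 0 0 (step_sound _ 32 [(rh6c4a572e054eb6de.shift 0 1), rh932754581e0f4330] (by decide +kernel))
noncomputable def rhf5924acdbae8c415 : CRef := CRef.mk (Pat.mk 0x800000008000000280000000800000000 0x100000001f000000ff000001e80000000800000008 7 9) 0 0 (step_sound _ 132 [(rh2f68792b6b779e96.shift 3 1), rhd754f15233c89ee9] (by decide +kernel))
noncomputable def rh3f4b6143bffe42f2 : CRef := CRef.mk (Pat.mk 0x180000000c000000080000002000000020 0x800000048000000780000006f0000007c0000006400000020 7 7) 0 0 (step_sound _ 97 [(rh12b188d0719d20c0.shift 1 0), (rh53b3c253cb0c65f4.shift 0 3)] (by decide +kernel))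
noncomputable def rhc72e96788d84d26a : CRef := CRef.mk (Pat.mk 0x2000000020000000a0000000a00000000 0x4000000060000003f0000003a0000000f00000003 7 6) 0 0 (step_sound _ 130 [(rh2f68792b6b779e96.shift 1 1), rh733de04018e11237] (by decide +kernel))
noncomputable def rhaf1b82d98f26c7fa : CRef := CRef.mk (Pat.mk 0x4000000040000001400000010000000000000000000000000 0xc0000000c0000000c000000370000001e0000000e0000000e0000000a 7 6) 0 0 (step_sound _ 98 [(rh210928190827b327.shift 0 2), (rh2e88faa7cc86f648.shift 0 2), (rh49759b6975f15643.shift 1 0), (rh65a643973921d367.shift 1 2), (rh8335cee50bf8d60c.shift 0 2)] (by decide +kernel))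
noncomputable def rhd2d8243099941405 : CRef := CRef.mk (Pat.mk 0xc00000004000000040000001400000010 0x720000003f0000003c000000140000001600000012 7 7) 0 0 (step_sound _ 129 [rh070036782196e57a, (rh50fbb5868c909700.shift 1 1)] (by decide +kernel))
noncomputable def rh08df39bbe0538737 : CRef := CRef.mk (Pat.mk 0xf0000000300000000000000010 0x18f000000fe000000770000001000000010 7 9) 0 0 (step_sound _ 135 [rh00aee29d00007ae9, (rh33e738c4ed385b9f.shift 4 3)] (by decide +kernel))
noncomputable def rh449c60416d0f2b7a : CRef := CRef.mk (Pat.mk 0x20000000200000002000000060000000a0000002000000000 0x200000002000000e20000007f0000007b0000002000000020 7 8) 0 0 (step_sound _ 99 [(rh2e238dbc5d535351.shift 0 2), rh880f707c990d6f11, (rh8ee80cc30e93a344.shift 0 2), (rh9f67957f47428996.shift 0 2)] (by decide +kernel))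
noncomputable def rhc290ede2c9503189 : CRef := CRef.mk (Pat.mk 0x1000000010000000380000001c000000000000000000000000 0x8000000180000003f0000003f0000001c000000060000000600000006 7 6) 0 0 (step_sound _ 130 [(rh163bfaf424edf86a.shift 1 0), (rh34517e326ddb5b25.shift 0 3), (rhba89ab7cb81bcc90.shift 0 3), (rhedf6b6c69a16cbd5.shift 0 4)] (by decide +kernel))
noncomputable def rhf7e32aa46f3e264f : CRef := CRef.mk (Pat.mk 0x8000000080000000c0000000800000000 0x60000000f0000007e0000001f0000000c00000004 7 7) 0 0 (step_sound _ 34 [(rh8388090a3990ce94.shift 0 1), (rh932754581e0f4330.shift 2 0)] (by decide +kernel))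
noncomputable def rh3fb59ec2dd6e2e4f : CRef := CRef.mk (Pat.mk 0x20000000200000003800000030 0x1f0000003e0000007f0000003800000030 7 7) 0 0 (step_sound _ 100 [(rh50fbb5868c909700.shift 4 0), rhca73c83edd3db24f] (by decide +kernel))
noncomputable def rhb1f6541fba5daf75 : CRef := CRef.mk (Pat.mk 0x1c00000018000000000000000000000000 0x2000000070000001f0000001f000000070000000600000002 7 5) 0 0 (step_sound _ 129 [rh730c9a9ef26b5f23, (rhb739f4f82bb681b4.shift 0 3)] (by decide +kernel))
noncomputable def rh09cd2fa25ab4ab59 : CRef := CRef.mk (Pat.mk 0x1800000010000000380000001800000000 0x70000001f0000001e0000003c0000001e00000004 7 6) 0 0 (step_sound _ 34 [rh4e4bc1c77b0b80a8, (rh53b3c253cb0c65f4.shift 1 1)] (by decide +kernel))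
noncomputable def rh53ab9c44e5523f4f : CRef := CRef.mk (Pat.mk 0x1000000038000000180000000000000000 0x6000000060000007f0000003f0000001e0000000400000004 7 7) 0 0 (step_sound _ 66 [(rh53b3c253cb0c65f4.shift 1 2), rhad893ead5c50c724] (by decide +kernel))
noncomputable def rh908ce0d6a2da594d : CRef := CRef.mk (Pat.mk 0x1a0000001e00000000 0x50000000700000007000000030000001e0000001e00000007 7 5) 0 0 (step_sound _ 1 [rhc7d892247a348c3c, rheb0810cc63b001d8] (by decide +kernel))
noncomputable def rh57eb4a4f7b6bad04 : CRef := CRef.mk (Pat.mk 0x200000002000000020000000200000000 0x50000000700000007000000070000000300000003000000030000000300000002 7 3) 0 0 (step_sound _ 161 [(rh1726a00b0a8befd0.shift 0 1), (rh3ca48e2a6d60153d.shift 0 1), (rhc85cc95794737cf7.shift 0 2), rhd0e8c2498b2d628e] (by decide +kernel))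
noncomputable def rh5e3032c9de3478a4 : CRef := CRef.mk (Pat.mk 0x3000000010000000100000001000000000 0xf0000003e0000007f0000001c0000001800000008 7 7) 0 0 (step_sound _ 131 [(rh50fbb5868c909700.shift 3 1), rh76f25d919876a11c] (by decide +kernel))
noncomputable def rh4d377ad1bcf5ba9b : CRef := CRef.mk (Pat.mk 0x1c00000008000000080000002800000020 0x30000003f000000ff0000002c0000002c00000024 7 8) 0 0 (step_sound _ 34 [(rh932754581e0f4330.shift 2 0), rhbffb53deaed7117e] (by decide +kernel))
noncomputable def rh5e61bfb09d99a74f : CRef := CRef.mk (Pat.mk 0x8000000280000002800000020 0x500000007f000001fe000000ff0000002800000020 7 9) 0 0 (step_sound _ 101 [(rh0363d47a46978688.shift 2 0), rh47cc8c896ef8b20e, (rh7182140bdec2c358.shift 2 0), (rhafab112a4c4dda0f.shift 3 0), (rhf7f93c5bcb3c6a1c.shift 2 0)] (by decide +kernel))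
noncomputable def rh2f17d0bd74f94d49 : CRef := CRef.mk (Pat.mk 0xa0000000a0000000a0000000800000000 0x100000007e0000003e0000007b0000000c00000004 7 7) 0 0 (step_sound _ 132 [(rh2f68792b6b779e96.shift 3 1), rhb106b9e77bf11152] (by decide +kernel))
noncomputable def rh8e77ed8198b1a0fa : CRef := CRef.mk (Pat.mk 0x2000000020000000200000002 0x400000007000000070000000700000006000000060000000600000002 7 3) 0 0 (step_sound _ 129 [(rh44f453b84f013105.shift 1 0), rhbdb34f420224b15e, (rhc2034d656568cc12.shift 0 1), (rhc85cc95794737cf7.shift 0 1)] (by decide +kernel))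
noncomputable def rh25fe4b8a41ce3528 : CRef := CRef.mk (Pat.mk 0x1000000050000000400000010000000000 0x73e000003fe000003c70000010000000100 7 11) 0 0 (step_sound _ 101 [(rh1e85c14727cd8249.shift 3 0), (rh884748027da7bf6a.shift 0 2), (rh8ee80cc30e93a344.shift 3 2), (rha9fbfd4bb8cf890b.shift 1 3)] (by decide +kernel))
noncomputable def rh1f40cef2bd635046 : CRef := CRef.mk (Pat.mk 0x400000004000000040000001400000010 0x7a0000003f0000003c000000140000001400000010 7 7) 0 0 (step_sound _ 131 [rh19b91d2603a55eca, (rh2f68792b6b779e96.shift 2 1)] (by decide +kernel))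
noncomputable def rh5bdb82c5aff3e1e9 : CRef := CRef.mk (Pat.mk 0x100000003000000018000000480000000000000000 0x8000000080000000c0000003e00000038000001fe000000df0000003400000010 7 9) 0 0 (step_sound _ 98 [(rh53b3c253cb0c65f4.shift 1 3), rhbb5e192b91ed84bd] (by decide +kernel))
noncomputable def rhc0aa9d6f922fdfb9 : CRef := CRef.mk (Pat.mk 0x1000000018000000480000004800000000 0x80000000f000000078000000cf0000007800000020 7 8) 0 0 (step_sound _ 102 [(rh6a0e9ad42869ccdd.shift 3 0), (rh7d6b7fe41d7986d2.shift 2 0), (rhcaa7ba44a31c4370.shift 2 2), rhdd2c4cce7eb00991] (by decide +kernel))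
noncomputable def rha4a49a5b3e61c223 : CRef := CRef.mk (Pat.mk 0x1000000010000000380000000c00000000 0xc0000000c000000ff000000ff0000003c0000001c00000014 7 8) 0 0 (step_sound _ 99 [rh1ddd5c1789a1e32b, (rh5da8874cbad56186.shift 1 1), (rhb69bc438e154a59a.shift 2 0), rhbe62e74046a9b706, (rhc3b618ba71007413.shift 0 1), (rhd0ce071ce58f6608.shift 1 0)] (by decide +kernel))
noncomputable def rhdf88e75bb107bccf : CRef := CRef.mk (Pat.mk 0x1000000018000000480000004000000000 0xc0000000c0000000f0000007e00000078000000d80000007800000038 7 8) 0 0 (step_sound _ 35 [(rh71222050f2c63a3a.shift 3 0), rhad84e3c1ca240422] (by decide +kernel))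
noncomputable def rhb82863bbe502095d : CRef := CRef.mk (Pat.mk 0x1c00000018000000180000000800000000 0x3f0000001f0000001b0000000f00000006 7 6) 0 0 (step_sound _ 129 [(rhb739f4f82bb681b4.shift 0 3), rhf8e4c4b8101f31dd] (by decide +kernel))
noncomputable def rhc3af0662083a35cb : CRef := CRef.mk (Pat.mk 0xc00000018000000180000000800000000 0xf0000003f0000001b0000000f00000006 7 6) 0 0 (step_sound _ 129 [rh3cd9e1181e6e57dd, (rhb739f4f82bb681b4.shift 0 3)] (by decide +kernel))
noncomputable def rh81970e97986de7e3 : CRef := CRef.mk (Pat.mk 0x1a0000001e0000000000000000000000000000000000000000 0x500000007000000070000001e0000001e0000000300000007000000070000000700000005 7 5) 0 0 (step_sound _ 129 [rhe75eb9eee25e96a4, (rheb0810cc63b001d8.shift 0 4)] (by decide +kernel))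
noncomputable def rh1a9d4b22bf65da91 : CRef := CRef.mk (Pat.mk 0x1000000030000000200000001800000010 0x10000000100000001f0000003e0000006f0000001800000018 7 7) 0 0 (step_sound _ 164 [(rh2145e1d24b96a57e.shift 4 2), rh50d2da62f206e6c0] (by decide +kernel))
noncomputable def rhfe32ef2431ddd872 : CRef := CRef.mk (Pat.mk 0x10000000180000000e000000180000000000000000 0x200000006000000370000001f0000001e0000001f0000003200000032 7 6) 0 0 (step_sound _ 100 [rh23d2566fce68d118, (rh85903b4a8dd8ebcd.shift 0 1), (rh8cdc9a84da84a1a4.shift 0 2), rhee2f2527188aceae] (by decide +kernel))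
noncomputable def rh74d28e14039479b5 : CRef := CRef.mk (Pat.mk 0x3800000048 0xe7000000ff000000d8 7 8) 0 0 (step_sound _ 38 [(rhe25b0a99195a5d59.shift 3 0), rhf733c2a41d57dd22] (by decide +kernel))
noncomputable def rh3976b3e712357808 : CRef := CRef.mk (Pat.mk 0x10000000100000003800000008 0xc0000001e000000770000003e0000000f 7 7) 0 0 (step_sound _ 34 [(rh1ebcceca75f2a414.shift 1 0), rh592c7139d2c44767, (rhec46bd5500c722c9.shift 1 1)] (by decide +kernel))
noncomputable def rh3ccd95a742957c8d : CRef := CRef.mk (Pat.mk 0x8000000180000000e00000024 0x400000004000000060000000f0000001f000000fe0000006c 7 8) 0 0 (step_sound _ 36 [(rh20aaab6250709fa0.shift 1 0), (rh41a0b53fa256048c.shift 2 0), (rh6a5f02fdaaf1ad36.shift 2 0), rh957f73c257a5d6a9] (by decide +kernel))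
noncomputable def rhfb7138ddc37afe6e : CRef := CRef.mk (Pat.mk 0x380000002c000000200000002000000000 0x8000000080000003c0000006c0000006f0000003e00000017 7 7) 0 0 (step_sound _ 36 [(rh932754581e0f4330.shift 4 0), rh9d735a830e772e74] (by decide +kernel))
noncomputable def rh3dca10f68e32356c : CRef := CRef.mk (Pat.mk 0xa0000001e0000000000000020000000000000000000000000 0xc0000000e0000001e000000070000003f0000000f0000000700000005 7 6) 0 0 (step_sound _ 129 [rh60758b663ec2c6b4, (rheb0810cc63b001d8.shift 0 4)] (by decide +kernel))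
noncomputable def rh310809b5afd7178c : CRef := CRef.mk (Pat.mk 0x80000001e00000020000000200000000000000000 0x80000000a0000000f0000001e0000006f0000003f0000000700000001 7 7) 0 0 (step_sound _ 66 [(rh00d6a6e3c7e3bb40.shift 2 1), (rh0bfe5a46b29c1d06.shift 0 2), (rh0f4eadd452a7fff7.shift 1 1), (rh580df77fe152422b.shift 2 1), rhbbb250e614f2d445] (by decide +kernel))
noncomputable def rh1881150757042a5e : CRef := CRef.mk (Pat.mk 0x40000000f000000000 0x7c000000fe00000077 7 8) 0 0 (step_sound _ 67 [(rh3f8766e6ecb455ce.shift 3 1), rhe0454b13325e59a8] (by decide +kernel))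
noncomputable def rh3c680b2677ad07cc : CRef := CRef.mk (Pat.mk 0x1a0000001e00000000 0x1a0000003e000000f30000001e0000001e0000000c 7 8) 0 0 (step_sound _ 100 [rh114680e7a1ca66eb, (rh503dd4575245365b.shift 3 0), (rh5f9246af2c22b38b.shift 1 1)] (by decide +kernel))
noncomputable def rhbd2f970efb06b840 : CRef := CRef.mk (Pat.mk 0xa0000000b000000000000000400000004 0x140000001c0000003c0000001e0000001b000000180000001c00000004 7 6) 0 0 (step_sound _ 67 [(rh53890bdb671992e3.shift 0 1), (rheea67dfebd0f8008.shift 2 0)] (by decide +kernel))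
noncomputable def rh515ba69bc9f6cfd4 : CRef := CRef.mk (Pat.mk 0x2000000070000000800000008 0x400000004000000060000000e0000001e0000000f0000001a00000008 7 5) 0 0 (step_sound _ 67 [rhb062f1af0f56487d, (rhe25b0a99195a5d59.shift 0 1)] (by decide +kernel))
noncomputable def rheabf12eceb817c33 : CRef := CRef.mk (Pat.mk 0x80000001c000000200000002000000000 0x10000000100000001a0000007b0000003f0000002f0000002c00000004 7 7) 0 0 (step_sound _ 132 [(rh3ba695d91ad9a720.shift 2 1), rh9ecea4e1d309003f, (rhf9d36e158778ce35.shift 1 3)] (by decide +kernel))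
noncomputable def rhe57981fbf93748bd : CRef := CRef.mk (Pat.mk 0x1000000038000000000000000800000000 0x1000000014000000770000003e0000000f0000000800000008 7 7) 0 0 (step_sound _ 67 [(rh6c095cf38d67439e.shift 0 1), (rh71222050f2c63a3a.shift 3 0)] (by decide +kernel))
noncomputable def rh5c92b555375c6fc5 : CRef := CRef.mk (Pat.mk 0x10000000380000000000000008 0x1000000014000000770000003e0000001f00000008 7 7) 0 0 (step_sound _ 66 [(rh592c7139d2c44767.shift 0 1), (rh8fb0084491a57a54.shift 1 0), (rhec46bd5500c722c9.shift 1 2), (rhedf6b6c69a16cbd5.shift 0 2)] (by decide +kernel))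
noncomputable def rh2ca527717a38ccc0 : CRef := CRef.mk (Pat.mk 0x180000001e00000002000000040000000000000000 0x100000001b0000001e0000000a0000001f0000000f00000001 7 5) 0 0 (step_sound _ 161 [(rh3244c3cc8379b070.shift 0 4), rhccf89c9ffd5d0082] (by decide +kernel))
noncomputable def rha444659785782dfe : CRef := CRef.mk (Pat.mk 0x1c0000003800000008 0x2000000034000000760000003c0000003f0000001f 7 7) 0 0 (step_sound _ 100 [(rh5c5e593799055d58.shift 3 0), rh6ca7559e65528c0d] (by decide +kernel))
noncomputable def rhf43001231729af4a : CRef := CRef.mk (Pat.mk 0x300000001c00000040000000480000000000000000 0x300000003c0000001c000000de0000007e0000003700000010 7 8) 0 0 (step_sound _ 68 [(rh2fcaff2b3056f25c.shift 0 1), (rh7b08a2a7822d5c27.shift 3 1), (rha824c0078c17a338.shift 3 0)] (by decide +kernel))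
noncomputable def rhd12d038eeccacdc7 : CRef := CRef.mk (Pat.mk 0xf000000000 0xe000000fe0000007f 7 8) 0 0 (step_sound _ 35 [(rh592c7139d2c44767.shift 1 0), rh598c96e05d977516, (rhd9e126b8d991d1d4.shift 1 0), (rheae1728ff4a56756.shift 2 0)] (by decide +kernel))
noncomputable def rh1aa7dc47e3d83d8f : CRef := CRef.mk (Pat.mk 0x8000000180000000800000028 0x1800000018000000180000001f000000ff000001e8 7 9) 0 0 (step_sound _ 132 [rh2702d5c822338de9, (rhbaefcd01e0a8bca3.shift 3 0)] (by decide +kernel))
noncomputable def rh6a4c4980304e3079 : CRef := CRef.mk (Pat.mk 0x2000000060000000200000002 0x50000000700000007000000030000000300000007000000060000000600000002 7 3) 0 0 (step_sound _ 129 [rh3ca48e2a6d60153d, (rh697682f290203ad5.shift 0 1)] (by decide +kernel))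
noncomputable def rhc84db1eb99a0ec99 : CRef := CRef.mk (Pat.mk 0x8000000080000000c0000000400000010 0x170000001f0000007c0000000f0000001c00000010 7 7) 0 0 (step_sound _ 35 [(rh36a3d6b491ba0447.shift 0 1), (rhd3458b32566d63f7.shift 3 0)] (by decide +kernel))
noncomputable def rh58588a0851aa0563 : CRef := CRef.mk (Pat.mk 0x70000000100000004000000000 0x8000000080000001f0000007e000000ff000000d000000010 7 8) 0 0 (step_sound _ 99 [(rh775ca1963e850b80.shift 1 2), (rh8d88e35d1550fc8b.shift 2 1), (rhbb13f9e1d387f64a.shift 0 2), (rhd5889c99d29bf7d6.shift 2 0), (rhd775e363b5918508.shift 2 0)] (by decide +kernel))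
noncomputable def rhd505a797ae3fbd7b : CRef := CRef.mk (Pat.mk 0x40000000e000000020000000800000028 0x400000004000000ff0000007e000000f20000003800000028 7 8) 0 0 (step_sound _ 162 [rh5566a094057828e6, (rh5c5e593799055d58.shift 1 2)] (by decide +kernel))
noncomputable def rhf93e26a977e90a26 : CRef := CRef.mk (Pat.mk 0x20000000f000000030 0x67000000fe000001f7 7 9) 0 0 (step_sound _ 7 [rh2fa29ea9c0c7b7e2, (rhe25b0a99195a5d59.shift 4 0)] (by decide +kernel))
noncomputable def rh548ea71dd05ba8de : CRef := CRef.mk (Pat.mk 0x20000000600000003000000010 0x80000007c0000007f0000007c00000010 7 7) 0 0 (step_sound _ 35 [(rh53b3c253cb0c65f4.shift 2 1), rhebf7c2c85cb31197] (by decide +kernel))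
noncomputable def rhba7200611f75b287 : CRef := CRef.mk (Pat.mk 0xf000000010 0x1ce000000fe00000037 7 9) 0 0 (step_sound _ 71 [(rh33e738c4ed385b9f.shift 4 1), rhe3ef2a7310fcd076] (by decide +kernel))
noncomputable def rh131db79810bf719a : CRef := CRef.mk (Pat.mk 0x400000006000000020000000a000000080 0x1000000010000003ff000001fe0000036f000001a800000080 7 10) 0 0 (step_sound _ 100 [(rh45d804d194928a22.shift 3 0), (rh8a8d47c6b76fa957.shift 0 1), (rhb103f40a53fe1424.shift 1 2), (rhc79afbbc1a481a0d.shift 0 2)] (by decide +kernel))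
noncomputable def rhe228f3a2fcca18cc : CRef := CRef.mk (Pat.mk 0x400000006000000020000000800000008 0x20000000300000003000000370000003e0000003e0000001a0000000a 7 6) 0 0 (step_sound _ 99 [(rh2613c889e411427e.shift 2 0), rhdf6ae5b985679189] (by decide +kernel))
noncomputable def rhe6a3ea5f82b1a46e : CRef := CRef.mk (Pat.mk 0x400000006000000000000000800000028 0xff0000007e000000f80000003800000028 7 8) 0 0 (step_sound _ 99 [(rh2613c889e411427e.shift 2 0), rh5566a094057828e6] (by decide +kernel))
noncomputable def rhad644a1d3193cb38 : CRef := CRef.mk (Pat.mk 0xa0000000e000000010000000400000004 0xee0000007e000000eb0000000c00000004 7 8) 0 0 (step_sound _ 67 [(rhe4909b58bb712816.shift 0 2), (rheea67dfebd0f8008.shift 2 0)] (by decide +kernel))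
noncomputable def rhc696611cf5943b88 : CRef := CRef.mk (Pat.mk 0x40000000e00000002000000020 0x1000000010000000ff000000fe0000006f00000020 7 8) 0 0 (step_sound _ 68 [(rh1c1037cb5b3fe471.shift 3 0), (rhb103f40a53fe1424.shift 1 1), (rhb12ffaec36122c99.shift 1 1), (rhc79afbbc1a481a0d.shift 0 1)] (by decide +kernel))
noncomputable def rh732ebb461c8de17d : CRef := CRef.mk (Pat.mk 0x1800000038000000000000000000000000 0x1c0000001c0000001f0000001f00000038000000080000000800000008 7 6) 0 0 (step_sound _ 67 [(rh84d1c02a8954c6a8.shift 3 1), (rhb4f98c2fffd2babf.shift 0 2), (rhda49d08e88765cc3.shift 1 0)] (by decide +kernel))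
noncomputable def rh55a2c8edecde0f89 : CRef := CRef.mk (Pat.mk 0x180000001e00000002 0x500000007000000070000000f0000001b0000001e00000006 7 5) 0 0 (step_sound _ 65 [(rh3244c3cc8379b070.shift 0 1), rhe11335e247051b3b] (by decide +kernel))
noncomputable def rh3786e859c99c7bbd : CRef := CRef.mk (Pat.mk 0x80000000c0000000c 0x1f0000001f0000007c0000000f0000000c 7 7) 0 0 (step_sound _ 99 [rh36a3d6b491ba0447, (rh5c5e593799055d58.shift 2 0)] (by decide +kernel))
noncomputable def rh53fa3ef75dc95ef7 : CRef := CRef.mk (Pat.mk 0x100000001a0000001800000028 0xc0000001f0000001b0000003f0000006f 7 7) 0 0 (step_sound _ 34 [rh0877361953863fc7, rh5946445507e063ae, (rh5c36e97be8af272f.shift 0 1)] (by decide +kernel))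
noncomputable def rh638c4a4d14e9932c : CRef := CRef.mk (Pat.mk 0x18000000180000002000000000 0x10000000100000001000000018000000ff000001ef00000008 7 9) 0 0 (step_sound _ 132 [(rh493ba90d7b88e72e.shift 3 1), (rh503dd4575245365b.shift 3 1), rh6c59de89e64dec72] (by decide +kernel))
noncomputable def rh35d58b67bc9dbbdc : CRef := CRef.mk (Pat.mk 0xc0000000d000000000000001000000010 0x10000000700000007e0000006f000000200000003000000010 7 7) 0 0 (step_sound _ 132 [(rh24ae073cf30720c4.shift 0 3), (rhb27d3b17c8b08638.shift 1 0)] (by decide +kernel))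
noncomputable def rhbe9281ed9d334d6d : CRef := CRef.mk (Pat.mk 0x180000000e0000002000000000 0x200000006000000070000001f000000fe0000006700000002 7 8) 0 0 (step_sound _ 68 [(rh20aaab6250709fa0.shift 1 1), (rh41a0b53fa256048c.shift 2 1), (rh9d1db2a55d27de19.shift 0 1), rha82bf9e83b78fa91] (by decide +kernel))
noncomputable def rh41471af5a49de9fe : CRef := CRef.mk (Pat.mk 0x20000001600000016000000100000001000000000 0x60000000600000002000000160000001e000000330000001e0000000a 7 6) 0 0 (step_sound _ 193 [(rh2145e1d24b96a57e.shift 1 3), rhef175cb31fa13d0d] (by decide +kernel))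
noncomputable def rh1650954c69305558 : CRef := CRef.mk (Pat.mk 0x1e00000006000000100000000000000000 0x4000000340000001e0000003e000000370000000200000002 7 6) 0 0 (step_sound _ 100 [rhdc104defcae90311, (rhe25b0a99195a5d59.shift 1 3)] (by decide +kernel))
noncomputable def rh31a483d007a1a37a : CRef := CRef.mk (Pat.mk 0x100000003c0000000800000000 0xe0000000f0000001e0000003c0000000e00000004 7 6) 0 0 (step_sound _ 34 [rhdb59abeef17dd46c, (rheb0810cc63b001d8.shift 1 1)] (by decide +kernel))
noncomputable def rh70b117bb37d22235 : CRef := CRef.mk (Pat.mk 0x400000006000000120000001000000000 0x300000003000000030000000600000006000000370000001f00000007 7 6) 0 0 (step_sound _ 33 [rh068804ff0f603c7f, (rh71222050f2c63a3a.shift 1 0)] (by decide +kernel))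
noncomputable def rh5cb8cb0fc0ea277d : CRef := CRef.mk (Pat.mk 0x180000001e000000000000000000000000 0x500000007000000070000001f0000001e000000070000000600000004 7 5) 0 0 (step_sound _ 129 [(rh3244c3cc8379b070.shift 0 3), rh3eb5fd478d936ea3] (by decide +kernel))
noncomputable def rh58bd9c951d232c21 : CRef := CRef.mk (Pat.mk 0x200000002000000020000000200000000000000000000000000000000 0x10000000300000003000000030000000700000006000000070000000700000001 7 3) 0 0 (step_sound _ 97 [(rh3ca48e2a6d60153d.shift 0 3), rh8e3b1d976c2c4cbf, (rhd29a1fb688eae70f.shift 1 2)] (by decide +kernel))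
noncomputable def rhd4543eeb66087ac5 : CRef := CRef.mk (Pat.mk 0x1800000028000000880000000800000000 0x380000001fc000001ef000000880000008800000008 7 10) 0 0 (step_sound _ 133 [(rh2820ca9a6c4f41b4.shift 0 3), (rh880f707c990d6f11.shift 2 1), (rh8ee80cc30e93a344.shift 2 3), (rhfb6a70ff77f7aa91.shift 1 0)] (by decide +kernel))
noncomputable def rh1daa79b2ca5afe65 : CRef := CRef.mk (Pat.mk 0x40000000400000004000000060000001400000010 0xa0000000e0000000e00000004000000040000000c0000003c0000001f0000001400000014 7 6) 0 0 (step_sound _ 99 [(rh43012ea34c1b670f.shift 0 2), (rh697682f290203ad5.shift 1 2), (rhca55eb29bb71b527.shift 1 0)] (by decide +kernel))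
noncomputable def rhec0fd8e37c7f1e0b : CRef := CRef.mk (Pat.mk 0x3000000010000000040000003800000000 0xf40000003e000000060000003e00000007 7 8) 0 0 (step_sound _ 34 [(rh3244c3cc8379b070.shift 1 1), rhbd1f8aa5902e0373] (by decide +kernel))
noncomputable def rh6063f6a9ac176357 : CRef := CRef.mk (Pat.mk 0x200000002000000020000000200000000 0x40000000700000007000000070000000600000006000000060000000300000001 7 3) 0 0 (step_sound _ 32 [(rh8529fe9f47ce3d5b.shift 0 1), rh932754581e0f4330] (by decide +kernel))
noncomputable def rh4137ecf29d8d47a4 : CRef := CRef.mk (Pat.mk 0x38000000100000004000000040 0x270000007e000000f70000004000000040 7 8) 0 0 (step_sound _ 70 [(rh7344b4efa7925350.shift 2 2), (rh8643f959d8b300ed.shift 3 0), rha3e495edc4c73dc5] (by decide +kernel))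
noncomputable def rh7ca27706802ae01c : CRef := CRef.mk (Pat.mk 0x3c00000038000000200000002000000000 0x40000003c000000380000006f0000003e0000001f 7 7) 0 0 (step_sound _ 36 [(rh932754581e0f4330.shift 4 0), rhb10afc25474bb052] (by decide +kernel))
noncomputable def rh146897a2df8f93ff : CRef := CRef.mk (Pat.mk 0x3800000010000000400000004000000000 0x2000000020000000ff0000003e00000017000000d80000007800000028 7 8) 0 0 (step_sound _ 165 [(rh4821dcf828b9d7bf.shift 4 1), (rh74715872e40c4514.shift 1 0), (rhb103f40a53fe1424.shift 0 3), (rhb12ffaec36122c99.shift 0 3)] (by decide +kernel))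
noncomputable def rh6603468c6c90590f : CRef := CRef.mk (Pat.mk 0x100000001e00000008 0x380000003c0000001f0000001e00000038 7 6) 0 0 (step_sound _ 4 [(rhe25b0a99195a5d59.shift 1 0), rhfbf0ff5aea53edb6] (by decide +kernel))
noncomputable def rhd02f31f03d8cd0fa : CRef := CRef.mk (Pat.mk 0x6000000000000000700000002 0x500000007000000070000000600000006000000030000000700000006 7 3) 0 0 (step_sound _ 65 [(rh2f68792b6b779e96.shift 1 0), rh48ea389700101016] (by decide +kernel))
noncomputable def rh6af8e9878b75b2ef : CRef := CRef.mk (Pat.mk 0x30000000000000001800000010 0x4000000ff0000007e0000000f0000001800000010 7 8) 0 0 (step_sound _ 99 [rh099d444677688b93, (rh22d326bdf3fdc35e.shift 0 2), rh258776cefd9add5d, rha7e001a1a361e023, (rhb6d9a4788e160121.shift 0 2)] (by decide +kernel))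
noncomputable def rh9206e1b8c410c918 : CRef := CRef.mk (Pat.mk 0x6000000000000000200000002000000080000000800000000 0x5000000070000000300000002000000020000001b0000000f00000005 7 5) 0 0 (step_sound _ 161 [(rh2f68792b6b779e96.shift 1 3), rhc52c029bf82e7b5b] (by decide +kernel))
noncomputable def rh383509f03a4ef313 : CRef := CRef.mk (Pat.mk 0x8000000000000000e0000000400000010 0x1e0000001f0000003b0000000e0000001c00000010 7 6) 0 0 (step_sound _ 99 [rh57b70c9de7763e02, (rh5c5e593799055d58.shift 2 1)] (by decide +kernel))
noncomputable def rh25f25c73d947b25d : CRef := CRef.mk (Pat.mk 0x1e000000180000000000000000 0x4000000040000000f0000001e0000001b0000000f0000000f 7 5) 0 0 (step_sound _ 129 [(rh3244c3cc8379b070.shift 0 3), rh44cf2675fd1e2f52] (by decide +kernel))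
noncomputable def rhb5834c364ee7f1ed : CRef := CRef.mk (Pat.mk 0x4000000040000001400000010000000000000000000000000 0x20000000600000006000000340000001e0000000f0000000e0000000a 7 6) 0 0 (step_sound _ 98 [rh2fa53bdbc15a5acb, (rh65a643973921d367.shift 1 2), (rh8ff3dde5b1c639e0.shift 1 1), (rhc4526fc8abf298b6.shift 1 1), (rhc850b49d039efae1.shift 1 0)] (by decide +kernel))
noncomputable def rh6170251e3fb969bc : CRef := CRef.mk (Pat.mk 0x20000000200000002000000080000000800000000 0x500000007000000070000000600000003000000030000001b0000000f00000005 7 5) 0 0 (step_sound _ 193 [(rh1741680720c097b4.shift 0 3), rh69f414f97ce48269, (rh968ba7b0df7e4096.shift 0 2)] (by decide +kernel))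
noncomputable def rh7e15c60d08ba6906 : CRef := CRef.mk (Pat.mk 0x80000000800000008000000200000002000000000 0x140000001c0000003c0000001f00000008000000080000006c0000003c00000014 7 7) 0 0 (step_sound _ 195 [(rh1741680720c097b4.shift 2 3), (rh5ee4dc8825dcefa0.shift 0 2), (rh69f414f97ce48269.shift 2 0), (rhc52c029bf82e7b5b.shift 2 0)] (by decide +kernel))
noncomputable def rhf3b9ae500a25b3ec : CRef := CRef.mk (Pat.mk 0x800000028000000200000008000000000 0x39f000001fe000001e70000008000000080 7 10) 0 0 (step_sound _ 100 [(rh3918eeb6c53434d8.shift 0 2), (rh8ee80cc30e93a344.shift 2 2), (rhb92050df94e34733.shift 2 0)] (by decide +kernel))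
noncomputable def rhb32d4e18bcf58864 : CRef := CRef.mk (Pat.mk 0x180000000c000000020000000a00000018 0x50000000f0000001b0000000f000000020000000f00000019 7 5) 0 0 (step_sound _ 97 [rh1eff84344f7c427b, (rh53b3c253cb0c65f4.shift 0 3)] (by decide +kernel))
noncomputable def rh06af26bb22b80e31 : CRef := CRef.mk (Pat.mk 0x80000002c0000002000000020 0x5c000000780000007c0000002f0000002400000020 7 7) 0 0 (step_sound _ 101 [(rh093d7bbb7554fd96.shift 2 0), (rh1741680720c097b4.shift 4 0), rh938a14aa6d864ef7, (rhe33d9496e10d8eb0.shift 0 2)] (by decide +kernel))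
noncomputable def rh0148121832c40153 : CRef := CRef.mk (Pat.mk 0xd0000000c000000040000001000000000 0x2000000020000001ef000000fc000001fc0000001000000010 7 9) 0 0 (step_sound _ 100 [(rh747a45730e394d78.shift 2 0), (rhab22b5b56e7b3243.shift 0 3)] (by decide +kernel))
noncomputable def rhc34e1f1d94555df0 : CRef := CRef.mk (Pat.mk 0xa0000000a0000000800000028 0xf00000007e0000007b0000002800000028 7 8) 0 0 (step_sound _ 100 [(rh2f68792b6b779e96.shift 3 0), rh60bd3f42939d7877] (by decide +kernel))
noncomputable def rh1797956f75453f58 : CRef := CRef.mk (Pat.mk 0x20000000140000001600000010 0xa0000003e0000003a000000170000001e00000034 7 6) 0 0 (step_sound _ 100 [(rh2f68792b6b779e96.shift 4 0), rhd51457dc271c2009] (by decide +kernel))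
noncomputable def rh1fc9eec48d36a747 : CRef := CRef.mk (Pat.mk 0x100000001400000016000000100000001000000000 0x80000001800000018000000140000001e000000330000001e0000000a 7 6) 0 0 (step_sound _ 65 [rh24dc7b831b52881b, rh5ce1d71398a3b99a, (rh9f39e957047c5ac5.shift 1 0), (rhcaa7ba44a31c4370.shift 0 2)] (by decide +kernel))
noncomputable def rhe154f3ac482a1ed9 : CRef := CRef.mk (Pat.mk 0x400000006000000100000001a00000000 0x300000003000000030000000600000006000000370000001e00000004 7 6) 0 0 (step_sound _ 34 [rh014b1660a666b506, (rh33e738c4ed385b9f.shift 1 1)] (by decide +kernel))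
noncomputable def rh91cf0b9afc46888c : CRef := CRef.mk (Pat.mk 0x3c00000008000000200000003000000000 0x60000003c000000080000006f0000003e00000007 7 7) 0 0 (step_sound _ 162 [rh2be17e318623b768, (rh3244c3cc8379b070.shift 1 4)] (by decide +kernel))
noncomputable def rh591b01406a282cb2 : CRef := CRef.mk (Pat.mk 0xc0000000c000000200000003000000000 0xa0000000e0000000e000000060000000e0000000e0000006f0000003e00000007 7 7) 0 0 (step_sound _ 162 [(rh075c000f61097791.shift 1 1), rh2be17e318623b768, (rh3e595262c1b737ad.shift 2 2)] (by decide +kernel))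
noncomputable def rh93fc2f27f568ffca : CRef := CRef.mk (Pat.mk 0x1400000014000000100000001000000000 0x80000003c0000001e000000330000001e0000000a 7 6) 0 0 (step_sound _ 131 [(rh50fbb5868c909700.shift 3 1), rh7cf58e13f0654539] (by decide +kernel))
noncomputable def rh3d4a60679b162094 : CRef := CRef.mk (Pat.mk 0x4000000040000000e000000020 0x3000000078000001de000000fe0000003f 7 9) 0 0 (step_sound _ 36 [(rh775ca1963e850b80.shift 2 0), (rha61d37f119958567.shift 3 0), (rhec46bd5500c722c9.shift 3 1), rhedb6065a2c9ab664] (by decide +kernel))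
noncomputable def rha5d38f9a98799ae9 : CRef := CRef.mk (Pat.mk 0x100000001c00000014000000100000001000000000 0x30000000300000001c0000007f000000f70000001800000008 7 8) 0 0 (step_sound _ 165 [(rh2f68792b6b779e96.shift 4 2), rhc3bf89be2f37886f] (by decide +kernel))
noncomputable def rh30ad95eb8e381685 : CRef := CRef.mk (Pat.mk 0x800000008000000080000000a000000080000000800000000 0x40000000c0000000c000000080000000c0000001f000000780000000c00000004 7 7) 0 0 (step_sound _ 68 [rha7872a8894fb7e25, (rhd3458b32566d63f7.shift 3 2)] (by decide +kernel))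
noncomputable def rh604213686e5ca165 : CRef := CRef.mk (Pat.mk 0x40000002c00000028000000200000002000000000 0x40000002c000000280000006f0000003e00000017 7 7) 0 0 (step_sound _ 35 [(rh9e07f76261b05888.shift 2 1), rhd5a9d40479a44184] (by decide +kernel))
noncomputable def rhd90f8139b586504a : CRef := CRef.mk (Pat.mk 0x800000028000000200000008000000000 0x38f000001fe000001e70000008000000080 7 10) 0 0 (step_sound _ 100 [(rh1e85c14727cd8249.shift 2 0), (rh3918eeb6c53434d8.shift 0 2), (rh8ee80cc30e93a344.shift 2 2), (rha9fbfd4bb8cf890b.shift 0 3)] (by decide +kernel))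
noncomputable def rhb61b0cfc7aa28d63 : CRef := CRef.mk (Pat.mk 0x400000002c0000002800000020000000200000000000000000 0x140000007c000000640000002c000000780000006f0000003e0000001f00000014 7 7) 0 0 (step_sound _ 67 [(rh4d5fe445aa18b8ce.shift 2 1), (rh743560c7d9ebb960.shift 2 0), (rhcb03ecba11fbd411.shift 2 2), (rhd5a9d40479a44184.shift 0 1)] (by decide +kernel))
noncomputable def rh93eb07b717545299 : CRef := CRef.mk (Pat.mk 0x1e0000000400000000 0x50000000700000007000000030000001e0000000700000004 7 5) 0 0 (step_sound _ 33 [rh24a8265e54870ed0, (rheb0810cc63b001d8.shift 0 1)] (by decide +kernel))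
noncomputable def rh6bede0152d0c3b2d : CRef := CRef.mk (Pat.mk 0x78000000080000002000000020 0x67000000ff000000d80000006000000020 7 8) 0 0 (step_sound _ 70 [rh7cd0853d3996bbd1, (rhe25b0a99195a5d59.shift 3 2)] (by decide +kernel))
noncomputable def rh1d854bcb5967f770 : CRef := CRef.mk (Pat.mk 0x4000000040000001400000010000000000000000000000000 0xc0000000c0000000c000000370000001e0000000e0000000e0000000a 7 6) 0 0 (step_sound _ 98 [(rh2e88faa7cc86f648.shift 0 2), (rh3f5207fbbe366c95.shift 0 2), (rh49759b6975f15643.shift 1 0), (rh65a643973921d367.shift 1 2)] (by decide +kernel))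
noncomputable def rhc400d3ce99a0a6f7 : CRef := CRef.mk (Pat.mk 0x40000001400000004000000000000000000000000 0xa0000003e00000037000000040000000e0000000e0000000a 7 6) 0 0 (step_sound _ 66 [(rh1d90b59f780b588e.shift 0 2), (rh6ad36dcc9e0282b1.shift 0 1), (rh8cdd36b03d57a2f6.shift 1 0)] (by decide +kernel))
noncomputable def rh87d339b4ab848dd1 : CRef := CRef.mk (Pat.mk 0x4000000040000001400000010000000000000000000000000 0x60000000600000006000000370000001e0000000e0000000e0000000a 7 6) 0 0 (step_sound _ 98 [(rh210928190827b327.shift 0 2), (rh2e88faa7cc86f648.shift 0 2), (rh47992774edf9829f.shift 1 0), (rhe8768a83bdb59c61.shift 1 2)] (by decide +kernel))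
noncomputable def rhb7441be5a609ec86 : CRef := CRef.mk (Pat.mk 0x8000000080000002800000020000000000000000000000000 0x140000003c0000000f000000680000003c0000001c0000001c00000014 7 7) 0 0 (step_sound _ 99 [(rh47992774edf9829f.shift 2 0), (rh5ee4dc8825dcefa0.shift 0 2), (rh65a643973921d367.shift 2 2)] (by decide +kernel))
noncomputable def rh8a0c9226b01bcc4b : CRef := CRef.mk (Pat.mk 0x3800000010000000100000001000000000 0xc6000000ff0000003e000000180000001800000008 7 8) 0 0 (step_sound _ 35 [(rh932754581e0f4330.shift 3 0), (rhe29bdd3b0182f363.shift 0 1)] (by decide +kernel))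
noncomputable def rh797d676c64e7c689 : CRef := CRef.mk (Pat.mk 0x8000000080000002800000000000000000000000000000000 0x140000001c0000003c0000007f0000006e0000000c0000001c0000001c00000014 7 7) 0 0 (step_sound _ 99 [(rh20966da26a1c2ae8.shift 2 2), (rh5ee4dc8825dcefa0.shift 0 2), (rh6f23c9f62b90bad8.shift 1 0), (rh771d065bdc85bf2d.shift 2 2)] (by decide +kernel))
noncomputable def rh6a5aeac7ed90cff2 : CRef := CRef.mk (Pat.mk 0x40000001e000000100000000000000000 0x2000000070000001e0000001f0000000700000007 7 5) 0 0 (step_sound _ 129 [(rh3244c3cc8379b070.shift 0 3), rh854ebce8547817ad] (by decide +kernel))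
noncomputable def rh38c48ba9476d7db9 : CRef := CRef.mk (Pat.mk 0x1000000070000000400000000000000000 0x1000000010000001d7000003fe0000007f0000000800000008 7 10) 0 0 (step_sound _ 99 [(rh205fa186fd02054c.shift 2 2), (rh3423e5ac208fb65b.shift 2 0), (rh6cc0f305be0098c0.shift 2 2), (rh88c620441a3a17ea.shift 0 2)] (by decide +kernel))
noncomputable def rhfc4a245e16829331 : CRef := CRef.mk (Pat.mk 0x40000001e00000010 0x1c0000003c000000370000001f00000018 7 6) 0 0 (step_sound _ 65 [(rh3244c3cc8379b070.shift 0 1), rheebcee348b34f65b] (by decide +kernel))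
noncomputable def rh5872c8a4baa85d64 : CRef := CRef.mk (Pat.mk 0x40000001c00000018 0x1c0000003c000000370000001f00000018 7 6) 0 0 (step_sound _ 33 [rhb739f4f82bb681b4, rhbb7c18cfa355d63d] (by decide +kernel))
noncomputable def rhb04a223b5b480d63 : CRef := CRef.mk (Pat.mk 0x8000000080000000c00000018 0x140000001c0000001c00000018000000780000001f0000000f00000018 7 7) 0 0 (step_sound _ 131 [(rh44f453b84f013105.shift 3 0), rh5dc3ee573a52504d, (rh9fb9dc683e09b5f3.shift 2 1), rhd0167e7a885ccd61] (by decide +kernel))
noncomputable def rha53d4da53c213560 : CRef := CRef.mk (Pat.mk 0x2000000020000000a00000008000000000000000000000000 0x300000003000000730000007e0000000f000000070000000700000005 7 7) 0 0 (step_sound _ 97 [(rhac9541fb68ca21da.shift 0 2), (rhaf477bfe5ceac6e7.shift 0 2), rhc850b49d039efae1] (by decide +kernel))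
noncomputable def rh6d3d9f6644f5aff5 : CRef := CRef.mk (Pat.mk 0x8000000080000002800000020000000000000000000000000 0x140000003c0000000f000000780000003c0000001c0000001c00000014 7 7) 0 0 (step_sound _ 99 [(rh72db19c50fa261a5.shift 0 2), (rhaf477bfe5ceac6e7.shift 2 2), (rhc850b49d039efae1.shift 2 0)] (by decide +kernel))
noncomputable def rh4e3d858bcc92b057 : CRef := CRef.mk (Pat.mk 0x1c000000080000000c0000002000000020 0xe0000000ff0000007f0000002c0000002000000020 7 8) 0 0 (step_sound _ 100 [(rh1ebae77060ef1c3f.shift 2 0), (rh93dada6cc3ed2a8c.shift 0 3), (rhdeca8db941583de2.shift 0 3)] (by decide +kernel))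
noncomputable def rh81f70310891ad40b : CRef := CRef.mk (Pat.mk 0x3000000030000000000000008000000080 0x8000000080000000c000000ff000001fe0000019f0000008000000080 7 9) 0 0 (step_sound _ 102 [(rh79b3c29022acbdf3.shift 3 3), (rh9579f843e76344b7.shift 4 0), (rhdb32b4d1dc4da50a.shift 0 2)] (by decide +kernel))
noncomputable def rh6e0ed5368abae388 : CRef := CRef.mk (Pat.mk 0x30000000200000002000000020 0x8000000080000004f000000fe0000007f0000003000000020 7 8) 0 0 (step_sound _ 102 [(rh2f68792b6b779e96.shift 5 0), (rhfe620314540a5b2f.shift 0 1)] (by decide +kernel))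
noncomputable def rhb6bc6a1b5e02e711 : CRef := CRef.mk (Pat.mk 0xf000000000000000a0000002c0000000000000000 0x5f000000f80000007e0000002c0000002000000020 7 8) 0 0 (step_sound _ 132 [(rh3711227b7a3d6ab4.shift 1 0), (rh96851dee118c1ba3.shift 0 4)] (by decide +kernel))
noncomputable def rh031c560f15c5701a : CRef := CRef.mk (Pat.mk 0x80000000800000028000000200000000000000000 0x40000000c0000000c0000000e0000003f0000003e0000001c0000001c 7 6) 0 0 (step_sound _ 67 [(rh2dadb5131a148eed.shift 1 0), (rh771d065bdc85bf2d.shift 2 1), (rh8cdd36b03d57a2f6.shift 2 0), (rh905e10946450bea1.shift 0 1)] (by decide +kernel))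
noncomputable def rhaf6a37ca66e6ff15 : CRef := CRef.mk (Pat.mk 0x40000001400000014000000000000000000000000 0x400000006000000370000001e0000000f0000000e0000000e 7 6) 0 0 (step_sound _ 66 [rh79943c3c334ec884, (rh8cdd36b03d57a2f6.shift 1 0), (rhea8014c6e0bdabf0.shift 0 1)] (by decide +kernel))
noncomputable def rh04976e0fcd24e9f6 : CRef := CRef.mk (Pat.mk 0x2000000028000000280000002000000000 0x1000000030000001ef000001fe0000003000000010 7 9) 0 0 (step_sound _ 36 [(rh6c07ada285d9d93d.shift 0 1), (rh932754581e0f4330.shift 4 0)] (by decide +kernel))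
noncomputable def rhb7a13aec94a9d108 : CRef := CRef.mk (Pat.mk 0x80000000a0000000a0000000800000000 0x170000001f0000007a0000001f0000000c00000004 7 7) 0 0 (step_sound _ 34 [(rh694eb410966dc463.shift 0 1), (rh932754581e0f4330.shift 2 0)] (by decide +kernel))
noncomputable def rhc6e8aef153ac6024 : CRef := CRef.mk (Pat.mk 0x20000000280000002800000030 0x5000000070000001ef000001fe00000030 7 9) 0 0 (step_sound _ 102 [(rh2f68792b6b779e96.shift 5 0), rh6c07ada285d9d93d] (by decide +kernel))
noncomputable def rh794e4f32b610cd92 : CRef := CRef.mk (Pat.mk 0x100000001400000014000000100000000000000000 0x1400000014000000360000001e0000001b0000000a00000002 7 6) 0 0 (step_sound _ 67 [(rh932754581e0f4330.shift 3 1), rhdb6284af14052c8a] (by decide +kernel))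
noncomputable def rh8e34d4b3514b14da : CRef := CRef.mk (Pat.mk 0x4000000000000000700000004000000000 0x4000000040000003c7000000fe0000006700000020 7 10) 0 0 (step_sound _ 102 [(rh03dfdf12d5937476.shift 5 0), (rh12ede8e9f54410a0.shift 0 1), (rha11dfd15f08f96e3.shift 3 2)] (by decide +kernel))
noncomputable def rh55528658b277a62a : CRef := CRef.mk (Pat.mk 0x200000002000000020000000200000000 0x10000000700000007000000060000000700000003000000030000000300000001 7 3) 0 0 (step_sound _ 161 [(rh44f453b84f013105.shift 1 1), rh7928877f9bf74a91, (rhe01cfd8f0577defd.shift 0 2)] (by decide +kernel))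
noncomputable def rha047bd2e9b79bb5d : CRef := CRef.mk (Pat.mk 0x200000000c0000001800000000 0x140000001c0000001c0000007c0000000f0000001800000010 7 7) 0 0 (step_sound _ 65 [(rhb739f4f82bb681b4.shift 0 1), (rhfa8da77ce9e49723.shift 1 0)] (by decide +kernel))
noncomputable def rhf3e7cb7c9fbd8e80 : CRef := CRef.mk (Pat.mk 0x280000000c0000000800000000 0x140000001c0000001e000000780000000f0000000c00000004 7 7) 0 0 (step_sound _ 100 [(rh18965a982d73c794.shift 2 2), rha752d1d096a00cb4] (by decide +kernel))
noncomputable def rh47bfa6ae0878606f : CRef := CRef.mk (Pat.mk 0x10000000060000000e00000018000000000000000000000000 0x70000003f0000003f000000060000000e0000001a0000000f0000000f00000005 7 6) 0 0 (step_sound _ 97 [(rh84d1c02a8954c6a8.shift 1 2), (rhcb13d5eb0d34c64c.shift 0 1), (rhd19737f19714ab5f.shift 0 3), rhffb8e5993241bf15] (by decide +kernel))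
noncomputable def rhae4ade170f8df138 : CRef := CRef.mk (Pat.mk 0x1000000050000000400000000000000000 0x5000000050000003df000001fe0000007f0000002800000028 7 10) 0 0 (step_sound _ 101 [rh064fce833c9f3a5a, (rh15b595d8d47c4c81.shift 3 2), (rha9fbfd4bb8cf890b.shift 1 3), (rhac68cbb3d18114bc.shift 2 0)] (by decide +kernel))
noncomputable def rh9894146c1beb233a : CRef := CRef.mk (Pat.mk 0x200000002000000020000000200000002 0x50000000700000007000000060000000700000003000000030000000300000002 7 3) 0 0 (step_sound _ 96 [rh50fbb5868c909700, (rh510121e41792eb88.shift 0 1)] (by decide +kernel))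
noncomputable def rh6a3796e3b60ea782 : CRef := CRef.mk (Pat.mk 0x1e0000000200000000 0x50000000700000007000000030000003e0000000600000004 7 6) 0 0 (step_sound _ 34 [(rh18965a982d73c794.shift 1 1), rh24a8265e54870ed0] (by decide +kernel))
noncomputable def rheed586b219c48754 : CRef := CRef.mk (Pat.mk 0x1c0000001000000010 0x80000003800000038000000380000007c0000001f0000001000000010 7 7) 0 0 (step_sound _ 100 [(rh4017de503635a93b.shift 2 0), rh5f6e55153a82500a, (rha7bb430bc20854cc.shift 3 0), (rhdab32775f5c78fcf.shift 1 0)] (by decide +kernel))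
noncomputable def rh8871afab693366f8 : CRef := CRef.mk (Pat.mk 0x1000000018000000380000000000000000 0xc0000000c0000001c0000001e0000003c0000000f0000000c 7 6) 0 0 (step_sound _ 98 [rh7620edc7277206dc, (rhb739f4f82bb681b4.shift 1 2)] (by decide +kernel))
noncomputable def rh72a6967bcb3e8856 : CRef := CRef.mk (Pat.mk 0xc0000000a000000080000000800000000 0xe00000007f000000ff000000080000000c00000004 7 8) 0 0 (step_sound _ 34 [(rh07f76501df229635.shift 0 3), (rh932754581e0f4330.shift 2 0)] (by decide +kernel))
noncomputable def rh7019145761c91580 : CRef := CRef.mk (Pat.mk 0xc0000000e00000000 0x200000002000000030000003f0000007e00000007 7 7) 0 0 (step_sound _ 68 [(rh18965a982d73c794.shift 1 1), rh655414e0374007e5] (by decide +kernel))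
noncomputable def rh77f6f461db03cd5a : CRef := CRef.mk (Pat.mk 0x1a0000001e00000000 0x50000000700000007000000030000001e0000003e00000004 7 6) 0 0 (step_sound _ 66 [rh24a8265e54870ed0, (rhf48373e13d2bc128.shift 1 1)] (by decide +kernel))
noncomputable def rhfef4d340dcd2f9e6 : CRef := CRef.mk (Pat.mk 0x1e00000010000000000000000000000000 0x4000000040000003f0000001f000000070000000200000002 7 6) 0 0 (step_sound _ 97 [rh055d33eb93b36aee, (rheb0810cc63b001d8.shift 0 3)] (by decide +kernel))
noncomputable def rh8e1335091da3f204 : CRef := CRef.mk (Pat.mk 0x100000001c00000010000000180000000000000000 0x14000000160000007c0000001f0000001f0000000200000002 7 7) 0 0 (step_sound _ 99 [(rh5c5e593799055d58.shift 3 2), rh8c7a82c9de025ae8] (by decide +kernel))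
noncomputable def rh25ecea5b84de649c : CRef := CRef.mk (Pat.mk 0x1e0000001a000000180000000000000000 0x10000000700000007000000070000001e0000001e0000001f0000000700000005 7 5) 0 0 (step_sound _ 161 [(rh3244c3cc8379b070.shift 0 4), rha427bd58acc14c87] (by decide +kernel))
noncomputable def rhf826af8b6e8a4ecf : CRef := CRef.mk (Pat.mk 0x100000001c000000100000000800000000 0x14000000140000003f0000001f0000000b00000002 7 6) 0 0 (step_sound _ 67 [(rh5c5e593799055d58.shift 3 1), rhed24867bc10f35b7] (by decide +kernel))
noncomputable def rh069f83e72ce850d0 : CRef := CRef.mk (Pat.mk 0xe000000010000002000000000 0xe70000007e000000630000002000000020 7 8) 0 0 (step_sound _ 100 [rh2a535ce68d5cfc5d, (rh80fcd6d0a18cb2dd.shift 0 2)] (by decide +kernel))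
noncomputable def rh49b08549d36d71b6 : CRef := CRef.mk (Pat.mk 0x180000001c000000100000000800000000 0x2000000070000001f0000007c0000001e0000000f00000006 7 7) 0 0 (step_sound _ 130 [(rh6d642e7da0705ca4.shift 0 1), rhd5bde4325e7bac79, (rhe2b63c00a3d7bb73.shift 0 3)] (by decide +kernel))
noncomputable def rh48a7371ed7f6afc4 : CRef := CRef.mk (Pat.mk 0x1a00000006000000020000000000000000 0x50000000700000007000000070000001e00000006000000060000000200000002 7 5) 0 0 (step_sound _ 130 [(rh24a8265e54870ed0.shift 0 2), (rhadf429772c25fde0.shift 1 0), (rhea7a1800d6f053bd.shift 1 0)] (by decide +kernel))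
noncomputable def rhe5f37375e6838098 : CRef := CRef.mk (Pat.mk 0x1c000000100000001000000000 0x280000003800000038000000f00000003f000000180000001800000008 7 8) 0 0 (step_sound _ 132 [(rh1726a00b0a8befd0.shift 3 0), (rh684e729394fba19d.shift 2 1), rh7e006c20120efa8c, (rhdab32775f5c78fcf.shift 1 1)] (by decide +kernel))
noncomputable def rh07d2b32b8eb46caa : CRef := CRef.mk (Pat.mk 0x80000001e00000018000000100000000000000000 0x80000003e0000001f0000001f0000000700000003 7 6) 0 0 (step_sound _ 97 [rhdb0606d5a4991774, (rheb0810cc63b001d8.shift 0 3)] (by decide +kernel))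
noncomputable def rh0fa8fe7e80538fc5 : CRef := CRef.mk (Pat.mk 0x80000001c00000018000000100000000000000000 0x140000001c0000001c0000001c0000001f0000000f00000008 7 5) 0 0 (step_sound _ 67 [(rh1e309b005ffa1b36.shift 3 0), (rhdc8b228a734a5e78.shift 0 1), (rhe286c75f2739cce2.shift 2 1)] (by decide +kernel))
noncomputable def rhd39dfbb42336d5c1 : CRef := CRef.mk (Pat.mk 0x80000001e0000001a000000100000000000000000 0x140000001c0000007e0000001a0000001f0000000e00000008 7 7) 0 0 (step_sound _ 67 [(rh1e309b005ffa1b36.shift 3 0), (rh70096abdef94190e.shift 0 1), (rhe286c75f2739cce2.shift 2 1)] (by decide +kernel))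
noncomputable def rh8861fe8508a52327 : CRef := CRef.mk (Pat.mk 0x1c00000018000000000000000000000000 0x4000000040000003f0000001f000000070000000200000002 7 6) 0 0 (step_sound _ 129 [rh41b813ae66f111d8, (rhb739f4f82bb681b4.shift 0 3)] (by decide +kernel))
noncomputable def rh1616d58fa9580b5a : CRef := CRef.mk (Pat.mk 0x80000001e000000100000001000000000 0x3200000032000000370000001f0000003e0000001c0000001c00000008 7 6) 0 0 (step_sound _ 129 [(rh3244c3cc8379b070.shift 0 3), rhc8b3295883d30083] (by decide +kernel))
noncomputable def rh972bb7eab3cd4172 : CRef := CRef.mk (Pat.mk 0x20000000600000012000000000000000000000000 0x60000000600000006000000060000001e000000070000000700000003 7 5) 0 0 (step_sound _ 98 [(rh3e595262c1b737ad.shift 1 2), rh8e183e4aa0fe2131, rha5b9eb9647a4db41] (by decide +kernel))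
noncomputable def rh6b661178b0d42ad2 : CRef := CRef.mk (Pat.mk 0xc0000001c0000001000000010000000000000000000000000 0x200000002000000070000001f0000001c0000001c0000001f0000000f0000000800000008 7 5) 0 0 (step_sound _ 193 [rh04af1d3cd8afeaa3, (rhb739f4f82bb681b4.shift 0 5)] (by decide +kernel))
noncomputable def rh41d27c8918c78f49 : CRef := CRef.mk (Pat.mk 0x700000004000000040 0x30000000300000007f000000fe0000006f00000048 7 8) 0 0 (step_sound _ 101 [rh925c7fab5e04aef5, (rhc89253ff58c66167.shift 5 0), (rhe072fffdd2fccf38.shift 5 0)] (by decide +kernel))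
noncomputable def rh08382f5750e772fb : CRef := CRef.mk (Pat.mk 0x3000000038000000200000002000000000 0x3000000078000001ff0000003c00000018 7 9) 0 0 (step_sound _ 36 [(rh932754581e0f4330.shift 4 0), rhde8b74c1da6a450d] (by decide +kernel))
noncomputable def rh016b7fb4adeb2c74 : CRef := CRef.mk (Pat.mk 0x80000000c00000018000000000000000000000000 0x40000000c0000000f0000001e0000001f0000001e00000014 7 5) 0 0 (step_sound _ 129 [rh1610c4f7bb2681f8, (rhb739f4f82bb681b4.shift 0 3)] (by decide +kernel))
noncomputable def rh460ef8a16a630ac7 : CRef := CRef.mk (Pat.mk 0x300000001a0000001000000016000000100000001000000000 0x500000007000000f70000001b0000001300000037000000370000001f0000000c 7 8) 0 0 (step_sound _ 129 [(rh14e0829dc73b6804.shift 0 2), (rh1a618833940cef6c.shift 1 0), (rh588456ce1c48765f.shift 0 1), (rh70e33bfdf511e144.shift 1 0)] (by decide +kernel))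
noncomputable def rh3e6284beeee901f4 : CRef := CRef.mk (Pat.mk 0x3800000018000000000000000000000000 0xc0000000c0000000f0000003c000000180000001c0000000c0000000c 7 6) 0 0 (step_sound _ 163 [rh1034981a9105a4d5, (rh3e595262c1b737ad.shift 3 2), (rhb3e5613249985042.shift 2 0)] (by decide +kernel))
noncomputable def rh11043f09ca00c114 : CRef := CRef.mk (Pat.mk 0x1e000000080000000800000000 0x4000000040000003c0000001e0000003f0000000f00000002 7 6) 0 0 (step_sound _ 68 [rh329337374d1d8c20, (rhe25b0a99195a5d59.shift 1 2)] (by decide +kernel))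
noncomputable def rhebb92fbad159623f : CRef := CRef.mk (Pat.mk 0x38000000140000001000000000 0x180000001800000018000000780000003c0000001f0000000c 7 7) 0 0 (step_sound _ 67 [(rh18965a982d73c794.shift 2 2), rh3c4770c49b8e92c5] (by decide +kernel))
noncomputable def rhbbae0dfe893739e6 : CRef := CRef.mk (Pat.mk 0x600000016000000000000000000000000 0x30000000300000003000000060000001e000000070000000700000007 7 5) 0 0 (step_sound _ 161 [rh30ce7ebb6ec38f49, (rh3e595262c1b737ad.shift 1 2), (rh55a1f6c57a317ce6.shift 1 1), rhb3e5613249985042] (by decide +kernel))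
noncomputable def rh0934ff8de95614fb : CRef := CRef.mk (Pat.mk 0x100000007000000060000000300000000 0xe0000001e0000001b0000001f000000060000000300000001 7 5) 0 0 (step_sound _ 129 [rh932754581e0f4330, (rhd9a3ab7bed17fe4f.shift 0 2)] (by decide +kernel))
noncomputable def rha83d79144127ede0 : CRef := CRef.mk (Pat.mk 0x38000000140000001000000058000000000000000000000000 0x1c0000000f8000000f6000000ff0000005e000000e0000000e0000000a0 7 9) 0 0 (step_sound _ 166 [rh29ffae73d09c0c67, (rh320c6d97c59498d4.shift 3 3), (rhd5041491555e8d86.shift 3 5)] (by decide +kernel))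
noncomputable def rhefe7683ab1569a9b : CRef := CRef.mk (Pat.mk 0xe000000080000002800000000 0x10000000f70000007e0000007f0000002800000020 7 8) 0 0 (step_sound _ 100 [(rh1e66368eb2587cec.shift 0 1), rh2a535ce68d5cfc5d, (rh47c07cd0cc865f65.shift 0 2)] (by decide +kernel))
noncomputable def rh556de5ec9b2d68fe : CRef := CRef.mk (Pat.mk 0xa000000080000000800000000 0x140000001c0000001c0000007c0000000f0000000c0000000c00000004 7 7) 0 0 (step_sound _ 131 [(rh1726a00b0a8befd0.shift 2 0), (rh1741680720c097b4.shift 2 1), (rh20966da26a1c2ae8.shift 2 0), (rh771d065bdc85bf2d.shift 2 0), (rhb034511df68c2fcf.shift 0 1)] (by decide +kernel))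
noncomputable def rhd54f51bffaf9c7cd : CRef := CRef.mk (Pat.mk 0x1000000018000000100000001000000000 0xc0000001f000000380000001e0000007800000028 7 7) 0 0 (step_sound _ 131 [(rh50fbb5868c909700.shift 3 1), rhc1ae80ce1be37e6c] (by decide +kernel))
noncomputable def rhc935d6bf8d4554ca : CRef := CRef.mk (Pat.mk 0x3800000010000000100000001000000000 0x7000000fe000000ff000000100000003800000028 7 8) 0 0 (step_sound _ 35 [(rh932754581e0f4330.shift 3 0), rhab45d626ac459a2e] (by decide +kernel))
noncomputable def rhf8585ff23c89dd9d : CRef := CRef.mk (Pat.mk 0x1800000010000000100000001000000000 0x20000000780000001e0000003e000000ff0000002c 7 8) 0 0 (step_sound _ 99 [(rhc0ddb33d3a52722b.shift 1 1), rhed9f5db7123fd789] (by decide +kernel))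
noncomputable def rhaae63ed1df69e921 : CRef := CRef.mk (Pat.mk 0x4000000040000000400000000 0xa0000000e0000000e0000000f0000003c000000060000000600000006 7 6) 0 0 (step_sound _ 130 [(rh1726a00b0a8befd0.shift 1 0), (rh20966da26a1c2ae8.shift 1 0), rh305945700f20b255, (rh771d065bdc85bf2d.shift 1 0)] (by decide +kernel))
noncomputable def rh66985b33f05f085d : CRef := CRef.mk (Pat.mk 0x20000000200000002000000000000000000000000 0x5000000070000000700000007000000030000000300000003000000030000000300000001 7 3) 0 0 (step_sound _ 193 [(rh1726a00b0a8befd0.shift 0 2), (rhc4526fc8abf298b6.shift 0 1), (rhc85cc95794737cf7.shift 0 3), rhe520c97f67e4a7f2, (rhf515f701b82bbaa6.shift 0 3)] (by decide +kernel))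
noncomputable def rh8c10fbbf228246de : CRef := CRef.mk (Pat.mk 0x60000000400000004000000040000000000000000 0x4000000040000000e0000003e0000000f000000060000000400000004 7 6) 0 0 (step_sound _ 34 [rhd109c93c943daa25, (rhffd04209dc8ea796.shift 1 1)] (by decide +kernel))
noncomputable def rhefb655bc9dc4b926 : CRef := CRef.mk (Pat.mk 0x2000000020000000200000002 0x1000000070000000700000006000000030000000700000007 7 3) 0 0 (step_sound _ 130 [rh9e8fb6c307c2a9fc, (rhbaefcd01e0a8bca3.shift 1 0)] (by decide +kernel))
noncomputable def rhfc1c3ad1943f4ce4 : CRef := CRef.mk (Pat.mk 0x1800000018000000280000000800000000 0x4000000040000000fe0000007c0000002f0000007800000030 7 8) 0 0 (step_sound _ 36 [(rh55afc6a59410cf00.shift 3 0), rhbbba7c5f25d753b7] (by decide +kernel))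
noncomputable def rh2b2b868914cf5269 : CRef := CRef.mk (Pat.mk 0x800000008000000080000000800000000 0x18000000180000007c0000000f0000000c0000000c 7 7) 0 0 (step_sound _ 132 [(rh2f68792b6b779e96.shift 3 1), rh880676d5de68d76b] (by decide +kernel))
noncomputable def rh230196991b533796 : CRef := CRef.mk (Pat.mk 0x8000000080000002800000008 0xf40000007f0000007f0000002800000028 7 8) 0 0 (step_sound _ 98 [(rh50fbb5868c909700.shift 2 0), rh60d0184bbcb57e23] (by decide +kernel))
noncomputable def rh28b8ebab497582c2 : CRef := CRef.mk (Pat.mk 0x38000000100000000000000038 0x70000003e000000770000000e0000003e 7 7) 0 0 (step_sound _ 98 [(rh39d5114717aca7de.shift 1 0), (rh775ca1963e850b80.shift 0 2), (rha03f6e28ea70fc7d.shift 1 2)] (by decide +kernel))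
noncomputable def rhe0bb19a74dac0e8f : CRef := CRef.mk (Pat.mk 0x200000002000000020000000200000000 0x100000007000000070000000600000003000000030000000700000004 7 3) 0 0 (step_sound _ 2 [(rhd3458b32566d63f7.shift 1 0), (rhe01cfd8f0577defd.shift 0 1)] (by decide +kernel))
noncomputable def rh8effc0bc40fc9a1f : CRef := CRef.mk (Pat.mk 0x1c00000008000000200000001c 0xe30000007e0000006f000000270000003f 7 8) 0 0 (step_sound _ 101 [rh4ef7f14991e09906, (rh500a083f39e7580c.shift 2 0), (rhaf9f2efc81a8312b.shift 1 2)] (by decide +kernel))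
noncomputable def rh46ee9589056da47f : CRef := CRef.mk (Pat.mk 0x200000002000000020000000200000002 0x400000006000000060000000300000007000000070000000700000003 7 3) 0 0 (step_sound _ 96 [rh48b6caf271765322, rh50fbb5868c909700] (by decide +kernel))
noncomputable def rh1a003d2d6ee8bdf3 : CRef := CRef.mk (Pat.mk 0x1000000010000000500000007c00000002 0xa0000000f0000000f8000000500000007e000000c3 7 8) 0 0 (step_sound _ 33 [(rh751d00eed2838c47.shift 3 0), rheb0810cc63b001d8] (by decide +kernel))
noncomputable def rh81929ebdcd88ced8 : CRef := CRef.mk (Pat.mk 0x2000000020000000a0000000e00000010 0x740000003e0000000f0000000a0000001e00000030 7 7) 0 0 (step_sound _ 36 [rh3532d91cf13339ef, (rhe25b0a99195a5d59.shift 1 0)] (by decide +kernel))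
noncomputable def rh43e04de95ca7b50e : CRef := CRef.mk (Pat.mk 0x800000004000000040000001400000000 0xf80000007f0000007e0000001400000014 7 8) 0 0 (step_sound _ 99 [(rh71222050f2c63a3a.shift 2 0), rhfe79dc477dd9ca37] (by decide +kernel))
noncomputable def rh751ea8b7d9ae00ec : CRef := CRef.mk (Pat.mk 0x200000006000000020000000000000000 0x50000000700000007000000030000000700000007000000030000000300000001 7 3) 0 0 (step_sound _ 161 [(rh1726a00b0a8befd0.shift 0 1), (rh64bc0dab78a08b48.shift 0 2), (rh8c78e8168348e56f.shift 0 1), rhc4526fc8abf298b6] (by decide +kernel))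
noncomputable def rh33285f5cb23dfeae : CRef := CRef.mk (Pat.mk 0x80000001800000008000000000000000000000000 0x140000001c0000001c00000008000000080000007c0000000f0000000c0000000400000004 7 7) 0 0 (step_sound _ 98 [(rh038de9f6952c0fd9.shift 2 2), (rh0bb882ba86b2372d.shift 0 3), (rh281c6819542c66e6.shift 2 0), (rhfafeb437ceb8396d.shift 2 0)] (by decide +kernel))
noncomputable def rhf04156ac2116da42 : CRef := CRef.mk (Pat.mk 0x8000000180000000800000000 0x140000001c0000001c0000000c000000180000007c0000000f00000004 7 7) 0 0 (step_sound _ 34 [(rh038de9f6952c0fd9.shift 2 0), (rh0bb882ba86b2372d.shift 0 1), (rha8241f37c79477a8.shift 2 0)] (by decide +kernel))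
noncomputable def rhe0c8a49b739e3452 : CRef := CRef.mk (Pat.mk 0x18000000080000002800000000 0x400000004000000e60000007f0000007f0000002800000028 7 8) 0 0 (step_sound _ 98 [(rhbb8e511c88a569cf.shift 1 0), (rhf9a6286f1d5377a2.shift 2 0), rhfb8d6d010fff3768] (by decide +kernel))
noncomputable def rhe41b82ee4046c96f : CRef := CRef.mk (Pat.mk 0x40000000400000006000000020000000800000000 0x40000003c0000007f0000007b0000000800000008 7 7) 0 0 (step_sound _ 99 [(rh3b5346b2e316d790.shift 2 0), rh619bcc8fbfd1202d, (rh8e7a0f2310eb9682.shift 0 2)] (by decide +kernel))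
noncomputable def rhd5fd12ce73981d70 : CRef := CRef.mk (Pat.mk 0x100000001000000008000000280000000000000000 0x5000000050000000f00000007c0000002f0000002000000020 7 8) 0 0 (step_sound _ 100 [(rh5c5e593799055d58.shift 3 2), rh62d88e678e46ad09] (by decide +kernel))
noncomputable def rh539f21f05a725cb0 : CRef := CRef.mk (Pat.mk 0x1c00000008000000280000001c00000000 0x430000007f0000007c0000002f0000007c00000060 7 7) 0 0 (step_sound _ 66 [(rh37e797645f9ca3ee.shift 2 0), (rhe2b63c00a3d7bb73.shift 0 1), (rhea609c59296ddef5.shift 0 1)] (by decide +kernel))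
noncomputable def rh6d975e8071206a4e : CRef := CRef.mk (Pat.mk 0xc00000008000000220000001c00000000 0x2f0000007c000000260000007c000000e0 7 8) 0 0 (step_sound _ 37 [(rh3f8766e6ecb455ce.shift 1 1), rh5357a77916d7d836] (by decide +kernel))
noncomputable def rh1bdeccdac6a19781 : CRef := CRef.mk (Pat.mk 0x20000000200000002000000020000000000000000 0x5000000070000000700000003000000030000000300000003000000030000000200000002 7 3) 0 0 (step_sound _ 193 [(rh0105b2139521f473.shift 0 1), (rh1726a00b0a8befd0.shift 0 2), (rh3ca48e2a6d60153d.shift 0 2), rh5baa46239919fe38] (by decide +kernel))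
noncomputable def rhf5dc3031944634e1 : CRef := CRef.mk (Pat.mk 0xe000000080000000800000008 0xf00000007e000000ef0000000800000008 7 8) 0 0 (step_sound _ 100 [(rh205dc383ce3b31ea.shift 0 2), (rh2f68792b6b779e96.shift 3 0)] (by decide +kernel))
noncomputable def rhe070bfb7116d4f71 : CRef := CRef.mk (Pat.mk 0x20000000a0000001a0000000800000000 0x150000001f0000001f0000000a0000000a0000001e0000000f00000004 7 5) 0 0 (step_sound _ 34 [(rh038de9f6952c0fd9.shift 2 0), (rh1148744b53f3df58.shift 0 1), rh75c7a92d24270dd4] (by decide +kernel))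
noncomputable def rh6a8ae1d697a946e3 : CRef := CRef.mk (Pat.mk 0x2000000020000000200000002 0x400000007000000070000000700000006000000060000000600000002 7 3) 0 0 (step_sound _ 129 [(rh44f453b84f013105.shift 1 0), (rh66ee4e4e1313f0fc.shift 0 1), rhbdb34f420224b15e, (rhc85cc95794737cf7.shift 0 1)] (by decide +kernel))
noncomputable def rh095d11db37e360fb : CRef := CRef.mk (Pat.mk 0x3800000010000000100000005000000000 0x1c7000000fe000000f7000000500000005800000008 7 9) 0 0 (step_sound _ 35 [(rh6a690b10e3d8f396.shift 0 1), (rh932754581e0f4330.shift 3 0)] (by decide +kernel))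
noncomputable def rha61ea2035407f682 : CRef := CRef.mk (Pat.mk 0x400000007e00000020000000080000000c00000000 0x4000000040000000430000007e000000230000001f0000000f00000001 7 7) 0 0 (step_sound _ 198 [rh27855273df6c2703, (rh5c5e593799055d58.shift 5 3)] (by decide +kernel))
noncomputable def rh804b910d693ffeca : CRef := CRef.mk (Pat.mk 0xc00000008000000080000000800000000 0xf00000007f000000ff000000080000001800000010 7 8) 0 0 (step_sound _ 132 [(rh2f68792b6b779e96.shift 3 1), rh2f6bf0f82896aaba] (by decide +kernel))
noncomputable def rha43e05e5af517eab : CRef := CRef.mk (Pat.mk 0x2000000060000000500000001000000000 0x270000007e000000f70000001000000010 7 8) 0 0 (step_sound _ 100 [(rh554009a2f490582e.shift 0 2), (rh71222050f2c63a3a.shift 4 0)] (by decide +kernel))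
noncomputable def rh0b6b924d1ee61398 : CRef := CRef.mk (Pat.mk 0x4000000080000000a0000000a0000000800000000 0x40000000e0000000a0000000a0000000b0000001f00000017 7 5) 0 0 (step_sound _ 194 [rh7f2806f42fc916f0, (rhcfdf45280693d3da.shift 2 2)] (by decide +kernel))
noncomputable def rh1a45afd4bdbd59be : CRef := CRef.mk (Pat.mk 0x200000001000000014000000140000001000000000 0x20000000300000001400000014000000160000003e0000002f 7 6) 0 0 (step_sound _ 164 [(rh2f68792b6b779e96.shift 4 2), rhf92c094e260f0cb7] (by decide +kernel))
noncomputable def rh678ee25ab6677b3a : CRef := CRef.mk (Pat.mk 0x2000000020000000280000002800000000 0x5c000000f80000007c0000002f0000002c0000000c 7 8) 0 0 (step_sound _ 132 [rh0d93f4ad69411906, (rh50fbb5868c909700.shift 4 1)] (by decide +kernel))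
noncomputable def rh812dac314b763352 : CRef := CRef.mk (Pat.mk 0x80000000e000000020 0x18e000000fe0000003f 7 9) 0 0 (step_sound _ 36 [(rh33e738c4ed385b9f.shift 4 1), rhaf1ec2635341a594] (by decide +kernel))
noncomputable def rh908224c331c3ade2 : CRef := CRef.mk (Pat.mk 0x80000000e0000000a 0x1000000010000001f8000000fe000000eb 7 9) 0 0 (step_sound _ 36 [(rh11bf24d715040742.shift 1 0), rheb0810cc63b001d8] (by decide +kernel))
noncomputable def rh8258c5243468dac5 : CRef := CRef.mk (Pat.mk 0x180000001c000000040000000000000000 0x40000000c0000001f0000001f000000070000000600000004 7 5) 0 0 (step_sound _ 97 [(rh53b3c253cb0c65f4.shift 0 3), rhabd31e8dc559760d] (by decide +kernel))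
noncomputable def rh38067e6b6ce141b5 : CRef := CRef.mk (Pat.mk 0x40000000200000002000000038000000080000000000000000 0x6000000060000000300000003f0000007c000000080000000800000008 7 7) 0 0 (step_sound _ 197 [rh0e886c4273f7d3b6, (rh2f68792b6b779e96.shift 5 3)] (by decide +kernel))
noncomputable def rh28774e2ed1db6703 : CRef := CRef.mk (Pat.mk 0x4000000020000000200000002800000008 0x10000000700000007000000020000000300000007c0000000f 7 7) 0 0 (step_sound _ 133 [(rh2f68792b6b779e96.shift 5 1), rh46d3d3952d361273] (by decide +kernel))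
noncomputable def rhf9a66d96a28cdf01 : CRef := CRef.mk (Pat.mk 0x100000001c000000140000000000000000 0x3800000038000000f8000000ff0000003c000000140000000400000004 7 8) 0 0 (step_sound _ 131 [(rh4821dcf828b9d7bf.shift 2 0), (rh556f0db4a0ac0500.shift 2 2), rh9708bf10ec0e21c3, (rhb205823628854a5f.shift 0 2)] (by decide +kernel))
noncomputable def rh8e3699cd1de33d56 : CRef := CRef.mk (Pat.mk 0x10000000100000001c00000010 0x1800000018000000380000001f0000003f00000010 7 6) 0 0 (step_sound _ 131 [(rhd6a9dfc31771a11e.shift 0 1), (rhffd04209dc8ea796.shift 3 0)] (by decide +kernel))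
noncomputable def rhc67c1d8c90c417d2 : CRef := CRef.mk (Pat.mk 0x1c00000008000000020000000200000000000000000000000000000000 0x2000000020000000600000007e0000007f000000160000000200000002000000070000000700000005 7 7) 0 0 (step_sound _ 194 [(rh342674f15b21836f.shift 1 5), (rh574fdbf07bdd18b9.shift 0 6), rh648e4b160e405460] (by decide +kernel))
noncomputable def rh1263b29acdae1637 : CRef := CRef.mk (Pat.mk 0x8000000080000000a0000000a 0x40000001c0000001c000000180000001c0000001e0000000b 7 5) 0 0 (step_sound _ 132 [rh50cefcd0dfdf7d49, (rhbaefcd01e0a8bca3.shift 3 0)] (by decide +kernel))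
noncomputable def rhc00e3709da7a0ee4 : CRef := CRef.mk (Pat.mk 0x58000000180000000000000000 0x3000000030000007f0000001f0000000700000004 7 7) 0 0 (step_sound _ 66 [(rh361cc68994bd8a63.shift 2 2), rhbb7213d4724395ac] (by decide +kernel))
noncomputable def rh8859c2feca56c58d : CRef := CRef.mk (Pat.mk 0x8000000080000000800000000000000000000000000000000 0xc0000000c0000000c0000000f0000003c0000001c0000001c00000014 7 6) 0 0 (step_sound _ 99 [(rh641b5241be04eec6.shift 0 2), (rh6aa5625770489e83.shift 2 1), (rh6eff4158bb400f47.shift 2 1), (rh8ff3dde5b1c639e0.shift 2 1), (rhc850b49d039efae1.shift 2 0)] (by decide +kernel))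
noncomputable def rh6afaa25bbddb952d : CRef := CRef.mk (Pat.mk 0x50000000500000001000000010 0x270000007e000000f70000001000000010 7 8) 0 0 (step_sound _ 101 [(rh2f68792b6b779e96.shift 4 0), (rh554009a2f490582e.shift 0 2)] (by decide +kernel))
noncomputable def rhf87bb549df8daa76 : CRef := CRef.mk (Pat.mk 0x4000000020000000a0000000a00000008 0x1000000170000001f0000001a0000001a0000001a00000008 7 5) 0 0 (step_sound _ 129 [(rh2f68792b6b779e96.shift 1 1), rhaead5e75ca7c79d2] (by decide +kernel))
noncomputable def rh09a318581bdcafaa : CRef := CRef.mk (Pat.mk 0x200000002000000020000000200000000000000000000000000000000 0x20000000300000003000000030000000300000003000000070000000700000005 7 3) 0 0 (step_sound _ 97 [(rh5baa46239919fe38.shift 0 1), (rh7928877f9bf74a91.shift 0 2), rhc850b49d039efae1] (by decide +kernel))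
noncomputable def rhf2c48e0b4e983efd : CRef := CRef.mk (Pat.mk 0x1800000018000000180000001800000000 0x40000001f000000180000001f0000003f00000024 7 6) 0 0 (step_sound _ 130 [(rh50fbb5868c909700.shift 2 1), rhed1434e9a6adf44a] (by decide +kernel))
noncomputable def rh3dc3c4a4177851a7 : CRef := CRef.mk (Pat.mk 0x20000000280000000800000000 0x1000000010000001ff000000fe0000000f00000008 7 9) 0 0 (step_sound _ 68 [(rh2820ca9a6c4f41b4.shift 0 1), (rh3b7aa82f3989f392.shift 2 0), (rhb12ffaec36122c99.shift 0 1), (rhff7d63dcb3cf9f74.shift 2 2)] (by decide +kernel))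
noncomputable def rh9234eb75db3115ca : CRef := CRef.mk (Pat.mk 0x100000001400000014000000000000000000000000 0x20000000fc0000001e000000160000003e0000003f00000028 7 8) 0 0 (step_sound _ 68 [(rh8cdd36b03d57a2f6.shift 3 0), (rhb034511df68c2fcf.shift 1 2), (rhf92c094e260f0cb7.shift 0 1)] (by decide +kernel))
noncomputable def rhae671ae2d483218f : CRef := CRef.mk (Pat.mk 0x200000002800000028000000000000000000000000 0x380000007c0000002f0000007c0000007e00000050 7 7) 0 0 (step_sound _ 69 [(rh8cdd36b03d57a2f6.shift 4 0), rhb1c71edfb25a22b9, rhc9691855023d17bc, (rhf92c094e260f0cb7.shift 1 1)] (by decide +kernel))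
noncomputable def rhb1e5de4461a46b0c : CRef := CRef.mk (Pat.mk 0x1000000014000000140000001000000000 0x200000003400000014000000160000003e0000002f 7 6) 0 0 (step_sound _ 133 [(rh2f68792b6b779e96.shift 4 1), rhf92c094e260f0cb7] (by decide +kernel))
noncomputable def rhbdc6cf54b62ab269 : CRef := CRef.mk (Pat.mk 0x1000000050000000100000003000000000 0x5000000050000000f7000000fe000001cf 7 9) 0 0 (step_sound _ 35 [(rh932754581e0f4330.shift 3 0), rhe1fbe113516bd430] (by decide +kernel))
noncomputable def rhc6d41d49bc867876 : CRef := CRef.mk (Pat.mk 0x1000000050000000100000001800000000 0x5000000050000000f7000000fe000001e7 7 9) 0 0 (step_sound _ 37 [rh12e9a12cef189c2b, (rh55afc6a59410cf00.shift 4 0)] (by decide +kernel))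
noncomputable def rhffc127fdad508eca : CRef := CRef.mk (Pat.mk 0x20000000200000002000000020000000200000000000000000000000000000000 0x20000000300000003000000030000000700000006000000070000000700000005 7 3) 0 0 (step_sound _ 97 [(rh1fe7bd026babc309.shift 0 2), rh47992774edf9829f, (rhd29a1fb688eae70f.shift 1 2)] (by decide +kernel))
noncomputable def rh2ffbad66362bf448 : CRef := CRef.mk (Pat.mk 0x8000000000000000a0000000600000004 0x800000008000000eb0000007e000000fc 7 8) 0 0 (step_sound _ 35 [rhbdcf55c1371f7baf, (rhee230b994cc8b773.shift 2 0)] (by decide +kernel))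
noncomputable def rhfff620b7ead7f1c9 : CRef := CRef.mk (Pat.mk 0x200000000800000028000000300000000000000000 0x300000007c0000002f000000700000007000000040 7 7) 0 0 (step_sound _ 133 [(rh932754581e0f4330.shift 4 1), rhb1c71edfb25a22b9] (by decide +kernel))
noncomputable def rh13dcb419a0b3210d : CRef := CRef.mk (Pat.mk 0x100000001000000070000000200000000000000000 0x100000001f0000007e000000ef0000002800000020 7 8) 0 0 (step_sound _ 37 [(rh30d9c62d6504241b.shift 0 1), (rh7b1f1fb55310c477.shift 4 0)] (by decide +kernel))
noncomputable def rh4d8855e9b75aeeea : CRef := CRef.mk (Pat.mk 0x7000000000000000080000000c00000004 0x70000007e000000ef000000080000000c00000004 7 8) 0 0 (step_sound _ 131 [(rhbb13f9e1d387f64a.shift 0 3), (rhee230b994cc8b773.shift 2 0)] (by decide +kernel))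
noncomputable def rhdcd02f3945d78570 : CRef := CRef.mk (Pat.mk 0x4000000010000000140000003c0000000000000000 0x30000000780000003e0000001c0000007f0000000400000004 7 7) 0 0 (step_sound _ 99 [rh57b15866aebf44bb, (rhf48373e13d2bc128.shift 2 2)] (by decide +kernel))
noncomputable def rhf1522487bc4aba26 : CRef := CRef.mk (Pat.mk 0x2000000020000000280000002800000020 0x600000006000000070000000300000007c0000002f00000020 7 7) 0 0 (step_sound _ 166 [rh883caa96f023ff35, (rhbaefcd01e0a8bca3.shift 5 1)] (by decide +kernel))
noncomputable def rh862b36e76af9d541 : CRef := CRef.mk (Pat.mk 0x40000000200000002000000028000000280000002000000000 0x400000006000000020000000200000007c0000002f0000007800000050 7 7) 0 0 (step_sound _ 197 [rh16fb77bd2911dcdf, (rh2f68792b6b779e96.shift 5 3)] (by decide +kernel))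
noncomputable def rh028c27d7536d6fab : CRef := CRef.mk (Pat.mk 0x280000000800000008000000000000000000000000 0x1d8000000f8000001cc0000000f0000003c0000001c00000014 7 9) 0 0 (step_sound _ 67 [(rh15c2321f8ed670ce.shift 2 2), (rh641b5241be04eec6.shift 0 1), (rh6eff4158bb400f47.shift 2 0)] (by decide +kernel))
noncomputable def rh4e7e77cf47fd17c1 : CRef := CRef.mk (Pat.mk 0x2000000070000000000000004000000000 0x670000007e000000c70000004000000040 7 8) 0 0 (step_sound _ 70 [(rh57585ecc72cf7beb.shift 0 2), (rh7b1f1fb55310c477.shift 5 0)] (by decide +kernel))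
noncomputable def rhe440f16f623b3a36 : CRef := CRef.mk (Pat.mk 0x1e000000120000000a0000000000000000 0x1f0000001a0000000b0000001f0000001f 7 5) 0 0 (step_sound _ 99 [rh82d36ba703c98abc, (rhb739f4f82bb681b4.shift 0 3)] (by decide +kernel))
noncomputable def rhb419aeb1b264be1d : CRef := CRef.mk (Pat.mk 0x200000002000000020000000200000000000000000000000000000000 0x2000000020000000300000003000000030000000300000003000000070000000700000005 7 3) 0 0 (step_sound _ 97 [(rh0105b2139521f473.shift 0 2), rh43000f16a4e76173, (rh7928877f9bf74a91.shift 0 2), rhc850b49d039efae1] (by decide +kernel))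
noncomputable def rhcdda4b197feddfc7 : CRef := CRef.mk (Pat.mk 0x1e0000001e00000000 0x1a0000001a0000003b0000001e0000001e00000030 7 6) 0 0 (step_sound _ 97 [(rh3244c3cc8379b070.shift 0 2), (rhe8834493b7818ca1.shift 1 0)] (by decide +kernel))
noncomputable def rhdeb294b8773e6217 : CRef := CRef.mk (Pat.mk 0x100000003800000000 0x7be000003fe000007c7 7 11) 0 0 (step_sound _ 38 [rh14ee58c1672e9101, (rh1e581fcebcca7a34.shift 3 0), (rhe3060b190bc0bc78.shift 2 1), (rhf5fa5e48e0784de2.shift 3 0)] (by decide +kernel))
noncomputable def rha6639611707d9bb9 : CRef := CRef.mk (Pat.mk 0x20000000080000002800000000000000100000000000000000 0x8000000080000002c0000002c0000002f0000007c0000001c0000001c00000014 7 7) 0 0 (step_sound _ 99 [(rh2977b00063528966.shift 3 0), (rha822df604b29e217.shift 2 0), (rhdda46eaef4f805d4.shift 2 1), (rhf5d22310555a63fd.shift 0 2)] (by decide +kernel))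
noncomputable def rhdc5b620c3d0e408c : CRef := CRef.mk (Pat.mk 0xa0000000e00000008 0x1000000010000001fb000000fe000000e8 7 9) 0 0 (step_sound _ 36 [(rh11bf24d715040742.shift 1 0), (rh3244c3cc8379b070.shift 0 1)] (by decide +kernel))
noncomputable def rhbbb314024c840ffd : CRef := CRef.mk (Pat.mk 0x6000000020000000a0000000a00000008 0x1000000130000001f0000001a0000001b0000000f00000008 7 5) 0 0 (step_sound _ 160 [rh9c5cbaddc92e2ce0, (rhffd04209dc8ea796.shift 0 1)] (by decide +kernel))
noncomputable def rh6766f36cd8b0fcdd : CRef := CRef.mk (Pat.mk 0x20000000280000002800000000000000100000000000000000 0x2c0000007c0000002e0000007f0000007c0000004c00000004 7 7) 0 0 (step_sound _ 99 [(rh399605dbb4cb20a8.shift 2 1), rh4b37e72d8cc1386d, (rha7381c9f1229ca7e.shift 3 2)] (by decide +kernel))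
noncomputable def rhd78c75d6225bf36b : CRef := CRef.mk (Pat.mk 0x280000000800000000000000100000000000000000 0x80000000c0000007c0000000f0000001c0000001c0000001c00000014 7 7) 0 0 (step_sound _ 99 [(rh06b15449b0ac06f8.shift 0 2), (rh2977b00063528966.shift 3 0), (rha822df604b29e217.shift 2 0)] (by decide +kernel))
noncomputable def rh27a3aeb0baaf99c8 : CRef := CRef.mk (Pat.mk 0x100000005000000000000000700000000000000000 0x50000000580000004f0000007e000000ef00000020 7 8) 0 0 (step_sound _ 67 [(rh15bb890f8606eef4.shift 2 0), (rh185f35b8bd8ec37f.shift 1 1), (rh708c3bc8fe2f3084.shift 0 1), (rheb505ef94539da28.shift 2 1)] (by decide +kernel))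
noncomputable def rh445f9fd0b32326e2 : CRef := CRef.mk (Pat.mk 0x1c00000000 0xe0000001fe0000007f 7 9) 0 0 (step_sound _ 37 [rh185f35b8bd8ec37f, (rh27ce058b59d72f64.shift 1 0), (rh5a3838f97a0a62d4.shift 1 0)] (by decide +kernel))
noncomputable def rh9a39fe698e9c4421 : CRef := CRef.mk (Pat.mk 0x800000008000000000000001800000000 0xc0000000c0000000f0000007c0000001800000018 7 7) 0 0 (step_sound _ 67 [(rh55afc6a59410cf00.shift 3 0), rh5e28859c83254139] (by decide +kernel))
noncomputable def rhbf18564f4153aed4 : CRef := CRef.mk (Pat.mk 0x800000008000000000000001e0000000000000000 0x1f0000000f000000330000001e0000000700000004 7 6) 0 0 (step_sound _ 100 [rh30648cc896830bae, (rh33e738c4ed385b9f.shift 1 2)] (by decide +kernel))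
noncomputable def rhc6ecd736b0441ddb : CRef := CRef.mk (Pat.mk 0x20000000000000004800000058000000480000000000000000 0x100000007c0000001f0000004800000058000000780000007c00000074 7 7) 0 0 (step_sound _ 163 [(rh1d7501508b9f88fc.shift 2 0), (rhd4b4beefcd67f51e.shift 3 1), (rhf5606019df7b5253.shift 0 2)] (by decide +kernel))
noncomputable def rh67ad09856ded9a8b : CRef := CRef.mk (Pat.mk 0x800000008000000020000001e000000020000000000000000 0x80000000e000000360000001e0000003e0000000700000007 7 6) 0 0 (step_sound _ 68 [rh22732e6ac76c7ebf, (rhe25b0a99195a5d59.shift 1 2)] (by decide +kernel))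
noncomputable def rh4d1908549a908796 : CRef := CRef.mk (Pat.mk 0x80000000800000000000000180000000000000000 0xc0000000c0000000f0000007f0000003c0000000c00000004 7 7) 0 0 (step_sound _ 99 [(rh01b78e5ef59799ae.shift 0 1), (rh5e28859c83254139.shift 0 1), (rhc4526fc8abf298b6.shift 2 0)] (by decide +kernel))
noncomputable def rh8e7afb4ce2ebf224 : CRef := CRef.mk (Pat.mk 0x200000002000000020000000200000000000000000000000000000000 0x20000000300000003000000030000000300000007000000070000000700000005 7 3) 0 0 (step_sound _ 97 [rh47992774edf9829f, (rh6eff4158bb400f47.shift 0 1), (rh7928877f9bf74a91.shift 0 2), (rhad70d0fdc149d4f7.shift 0 2), rhe84e00c98653ad0c] (by decide +kernel))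
noncomputable def rh229b112a85ddf3cf : CRef := CRef.mk (Pat.mk 0x800000002000000020000000200000000000000000000000000000000 0x40000001f00000007000000030000000600000006000000070000000700000005 7 5) 0 0 (step_sound _ 97 [(rh5185aff44ac7341e.shift 0 3), rhc850b49d039efae1, (rhced6d86d2069808b.shift 1 2)] (by decide +kernel))
noncomputable def rhb74e0e512d560f44 : CRef := CRef.mk (Pat.mk 0x6000000050000000100000000000000010 0x70000007e000000ff000000100000001000000010 7 8) 0 0 (step_sound _ 131 [(rh824d79d8da16a934.shift 0 3), (rh85e7ecae9fcdb14c.shift 2 0), (rhec97b8c64d9609d7.shift 3 0)] (by decide +kernel))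
noncomputable def rh7f652c889515e47f : CRef := CRef.mk (Pat.mk 0x2000000020000000000000003800000000 0x2000000020000000670000003e00000077 7 7) 0 0 (step_sound _ 69 [(rh932754581e0f4330.shift 4 0), rhdd9e55ff3fbee3a6] (by decide +kernel))
noncomputable def rhb96c1ac664c53919 : CRef := CRef.mk (Pat.mk 0x20000000280000002800000000000000000000000000000000 0x10000000380000007c0000002f0000007c0000007e0000007000000050 7 7) 0 0 (step_sound _ 101 [rh1cfa8e038e2f7eb2, (rh8cdd36b03d57a2f6.shift 4 1), (rhb1c71edfb25a22b9.shift 0 1), (rhecb05418617e3639.shift 0 2), (rhf92c094e260f0cb7.shift 1 2)] (by decide +kernel))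
noncomputable def rhb31231eacc44e2a6 : CRef := CRef.mk (Pat.mk 0x100000001400000014000000000000000000000000 0x200000003400000034000000160000003e0000003f00000028 7 6) 0 0 (step_sound _ 68 [(rh6c59ce14113da07f.shift 4 0), (rhcab3157f7bdcba3e.shift 3 0), (rhf92c094e260f0cb7.shift 0 1)] (by decide +kernel))
noncomputable def rhfea4b5d4977b5fa6 : CRef := CRef.mk (Pat.mk 0xc0000000d0000000000000000 0x10000000700000007c0000007f0000006000000060 7 7) 0 0 (step_sound _ 100 [(rh18a8efa221e72e64.shift 2 0), (rh24ae073cf30720c4.shift 0 2)] (by decide +kernel))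
noncomputable def rh34a93c151b4b4607 : CRef := CRef.mk (Pat.mk 0x40000000a0000000a0000000800000000 0xe60000007e000000eb0000000800000008 7 8) 0 0 (step_sound _ 98 [(rh468410627fe4275f.shift 0 2), (rh7b1f1fb55310c477.shift 2 0)] (by decide +kernel))
noncomputable def rhd0143aa5dbe454f2 : CRef := CRef.mk (Pat.mk 0x800000008000000080000000a0000000a0000000800000000 0x40000000c0000000c000000080000000c0000001e0000000b0000001e00000014 7 5) 0 0 (step_sound _ 226 [rh8cc5cea920eb6bbb, (rhffd04209dc8ea796.shift 2 3)] (by decide +kernel))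
noncomputable def rh35eb7b22430ef97e : CRef := CRef.mk (Pat.mk 0x800000008000000080000000a0000000a0000000800000000 0x10000000180000001800000008000000180000001e0000000b0000001e00000014 7 5) 0 0 (step_sound _ 228 [rha3ef673b7a16e49f, (rhbaefcd01e0a8bca3.shift 3 3)] (by decide +kernel))
noncomputable def rhec7776fc1f61cf1a : CRef := CRef.mk (Pat.mk 0x14000000140000001000000000 0x28000000380000003c00000014000000160000003e0000002f 7 6) 0 0 (step_sound _ 132 [(rh1741680720c097b4.shift 3 1), rhf92c094e260f0cb7] (by decide +kernel))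
noncomputable def rhe411305559c6292c : CRef := CRef.mk (Pat.mk 0x180000000e00000002000000020000000800000018 0x50000000f0000007b0000000e00000002000000030000000f00000019 7 7) 0 0 (step_sound _ 165 [(rh18965a982d73c794.shift 2 4), rh5f8414d437761990] (by decide +kernel))
noncomputable def rhfa0ae52c89f2dc49 : CRef := CRef.mk (Pat.mk 0xa0000000a000000080000000000000000 0x140000001c0000001c0000001e0000000b0000001e0000001a00000010 7 5) 0 0 (step_sound _ 163 [(rh1741680720c097b4.shift 2 2), (rh6c59ce14113da07f.shift 3 0), (rhd6792861bc511454.shift 0 1)] (by decide +kernel))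
noncomputable def rh41337900a1779cda : CRef := CRef.mk (Pat.mk 0x4000000080000000a0000000a0000000200000000 0x100000001d0000001f0000000b0000000b0000000a0000000200000002 7 5) 0 0 (step_sound _ 163 [(rh50fbb5868c909700.shift 2 2), rh58e8f8705795e950] (by decide +kernel))
noncomputable def rh61228bdc610929fd : CRef := CRef.mk (Pat.mk 0x80000001a00000002 0x1f8000000fe000000e3 7 9) 0 0 (step_sound _ 34 [(rh8d33df7ee954b6ed.shift 1 0), rheb0810cc63b001d8] (by decide +kernel))
noncomputable def rh85b3b73f596abc44 : CRef := CRef.mk (Pat.mk 0x38000000400000003000000018 0x70000007e000000ce000000340000001e 7 8) 0 0 (step_sound _ 102 [rhb9cfe1a7cf1b8051, (rhe25b0a99195a5d59.shift 3 2)] (by decide +kernel))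
noncomputable def rh9386d01ee076ebbe : CRef := CRef.mk (Pat.mk 0x18000000200000002000000020 0x770000003e000000670000002000000020 7 7) 0 0 (step_sound _ 101 [(rh50fbb5868c909700.shift 4 0), (rhb91f4bb19a3798b5.shift 0 2)] (by decide +kernel))
noncomputable def rh2b86dc46c3654f23 : CRef := CRef.mk (Pat.mk 0x800000028000000280000000000000000 0x140000001c0000001c0000001c000000f80000002c0000007c0000002f00000004 7 8) 0 0 (step_sound _ 163 [(rh193da7fc9e1674f1.shift 2 1), (rh771d065bdc85bf2d.shift 2 1), rh8eac6cac8aa6544c, (rh9ad50898512442c9.shift 2 1)] (by decide +kernel))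
noncomputable def rh1465a2189fee1c4d : CRef := CRef.mk (Pat.mk 0x20000000200000002000000000000000000000000 0x50000000700000007000000060000000300000003000000070000000700000005 7 3) 0 0 (step_sound _ 193 [(rh1741680720c097b4.shift 0 3), rh49759b6975f15643, (rh771d065bdc85bf2d.shift 0 2)] (by decide +kernel))
noncomputable def rhf0ba6d9011d881e7 : CRef := CRef.mk (Pat.mk 0x4000000140000001c0000000400000000 0x780000003c000000160000001c0000001f00000008 7 7) 0 0 (step_sound _ 35 [(rh55afc6a59410cf00.shift 2 0), (rhde91081c935620f3.shift 0 1)] (by decide +kernel))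
noncomputable def rh87a2596b5d3912bb : CRef := CRef.mk (Pat.mk 0x20000000a0000000a00000002000000020000000200000000 0x3c0000001e0000000b0000000e0000000e000000060000000200000002 7 6) 0 0 (step_sound _ 98 [rh408d9c02bfde272a, (rh55afc6a59410cf00.shift 1 2)] (by decide +kernel))
noncomputable def rh9cf7297d06ed1243 : CRef := CRef.mk (Pat.mk 0x20000000a0000000a00000000000000000000000000000000 0x50000000700000007000000030000000a0000000b0000000f0000000f0000000d0000000400000004 7 4) 0 0 (step_sound _ 225 [(rh193da7fc9e1674f1.shift 0 3), (rh605ef5a5ae48f4b0.shift 1 0), (rh771d065bdc85bf2d.shift 0 3), (rh894af4fb1b7acafc.shift 0 2), (rh8cdd36b03d57a2f6.shift 0 2)] (by decide +kernel))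
noncomputable def rh1f0e294022ec1749 : CRef := CRef.mk (Pat.mk 0x400000004000000040000000600000000 0x80000000c0000000c0000003f0000003f00000038 7 6) 0 0 (step_sound _ 35 [(rh55afc6a59410cf00.shift 2 0), rh6bbbfef548c00c6a] (by decide +kernel))
noncomputable def rh61cfb5b13b322220 : CRef := CRef.mk (Pat.mk 0x80000002000000014000000140000001000000000 0xef0000007e0000007600000014000000160000001600000002 7 8) 0 0 (step_sound _ 165 [(rh1006c02ae4212ff0.shift 4 1), rh19012990bb6c478a] (by decide +kernel))
noncomputable def rhddb69792f7cee2c5 : CRef := CRef.mk (Pat.mk 0x8000000080000000800000008 0xf40000007f000000ff0000000800000008 7 8) 0 0 (step_sound _ 98 [(rh50fbb5868c909700.shift 2 0), rh615166cbf48a3aed] (by decide +kernel))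
noncomputable def rh9a2d563d4264a103 : CRef := CRef.mk (Pat.mk 0x2000000020000000200000002 0x400000007000000070000000300000003000000070000000700000006 7 3) 0 0 (step_sound _ 129 [rh0427fc1b2878eb21, rh3ca48e2a6d60153d, rh5abfc4c9d959be03] (by decide +kernel))
noncomputable def rhc88bbec83666372d : CRef := CRef.mk (Pat.mk 0x1a0000000a000000080000000800000000 0x50000000700000007000000030000001e0000000b0000000f0000001900000010 7 5) 0 0 (step_sound _ 161 [(rh01e48cd9f335aa73.shift 0 3), rhbf1563c9c0fdc8af, (rhe8a9e0e6037b7c6e.shift 0 2)] (by decide +kernel))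
noncomputable def rhe8029d0ddc9db6fd : CRef := CRef.mk (Pat.mk 0x20000001a0000000a0000000800000008000000040000000000000000 0x10000000100000003000000030000001e0000000a0000000a000000080000001c0000001c00000010 7 5) 0 0 (step_sound _ 67 [rh0242566a19512c31, (rh932754581e0f4330.shift 2 1)] (by decide +kernel))
noncomputable def rh24b0c8d93e572669 : CRef := CRef.mk (Pat.mk 0x400000004000000040000001400000010000000100000001800000000 0x400000004000000040000001600000016000000170000003e00000027 7 6) 0 0 (step_sound _ 37 [(rh55afc6a59410cf00.shift 4 0), rhcc15f543ceaced74] (by decide +kernel))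
noncomputable def rh1bb85fba5246ed3f : CRef := CRef.mk (Pat.mk 0x120000000a0000000a000000080000000800000000 0x500000007000000170000001a0000000a0000000b0000000f0000001900000010 7 5) 0 0 (step_sound _ 163 [(rh2f68792b6b779e96.shift 3 2), rhbf1563c9c0fdc8af] (by decide +kernel))
noncomputable def rha6feae150252ebbf : CRef := CRef.mk (Pat.mk 0x120000000a0000000a000000080000000800000000 0x1000000130000001f0000000a0000000b0000000f0000001900000010 7 5) 0 0 (step_sound _ 163 [(rh2f68792b6b779e96.shift 3 2), rh3ade51fed27d2662] (by decide +kernel))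
noncomputable def rh4b72b10192f8e2d6 : CRef := CRef.mk (Pat.mk 0x100000005000000050000000400000004000000040000000000000000 0x20000000f0000000f0000000d0000000500000004000000040000000c0000000c00000008 7 4) 0 0 (step_sound _ 35 [rh6abefeae38a49414, (rhd3458b32566d63f7.shift 2 1)] (by decide +kernel))
noncomputable def rh722520fd85d64154 : CRef := CRef.mk (Pat.mk 0x20000000a0000000a00000008000000040000000000000000 0x20000000b0000000b0000000b0000001f0000001d00000010 7 5) 0 0 (step_sound _ 67 [(rh932754581e0f4330.shift 2 1), rhd707860b378e173b] (by decide +kernel))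
noncomputable def rh2e3a79f85931144a : CRef := CRef.mk (Pat.mk 0x4000000140000001400000010 0xa0000002e0000003f0000003e000000340000001400000014 7 6) 0 0 (step_sound _ 100 [(rh1741680720c097b4.shift 3 0), rh61a2c639fbf7f45b, (rha85fa825b683a638.shift 1 0), (rhafab112a4c4dda0f.shift 2 0), (rhc141ced936e58bb7.shift 1 0)] (by decide +kernel))
noncomputable def rhc0548a6d3f57214b : CRef := CRef.mk (Pat.mk 0x6000000020000000a0000000a00000008 0x1000000130000001f0000003a0000001e0000000b00000008 7 6) 0 0 (step_sound _ 160 [rhc7a1226f1611f14e, (rhffd04209dc8ea796.shift 0 1)] (by decide +kernel))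
noncomputable def rh061d0e5123c81c7b : CRef := CRef.mk (Pat.mk 0xa0000000a0000000a00000008 0x100000001c0000001c0000001c0000001b0000001e0000000b00000008 7 5) 0 0 (step_sound _ 68 [(rh01e48cd9f335aa73.shift 0 1), (rh5b85ac987260870e.shift 2 0)] (by decide +kernel))
noncomputable def rh50118a2af38f8326 : CRef := CRef.mk (Pat.mk 0xa0000000a00000002 0xff0000007e000000e3 7 8) 0 0 (step_sound _ 36 [rh01e48cd9f335aa73, (rh9ebd639649ea671c.shift 0 1), rhddd4f794ddae41ad] (by decide +kernel))
noncomputable def rhe36a05302c74b633 : CRef := CRef.mk (Pat.mk 0x8000000280000002800000020000000000000000000000000 0x4000000440000004c000000ff000000780000002c0000002c0000001c0000001c00000014 7 8) 0 0 (step_sound _ 164 [(rh0aefef67a4f5e36d.shift 2 3), (rhb5ba847c57864cbc.shift 2 3), (rhd9106766b9ff53c0.shift 2 4), rhe50e98fcb446d38b] (by decide +kernel))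
noncomputable def rhadc72b25ef2c49bb : CRef := CRef.mk (Pat.mk 0x20000000a0000000200000000000000000000000000000000 0x500000007000000070000003e0000000300000003000000070000000700000005 7 6) 0 0 (step_sound _ 97 [rh49759b6975f15643, rh7274c92c9430072f, (rh771d065bdc85bf2d.shift 0 2), (rhc85cc95794737cf7.shift 0 3)] (by decide +kernel))
noncomputable def rh607fd3a059dabcfa : CRef := CRef.mk (Pat.mk 0x3000000020000000a0000000a000000080 0x140000001f7000001be000001e7000000a0000000a0 7 9) 0 0 (step_sound _ 100 [(rh7b1f1fb55310c477.shift 4 0), rhda2de025f631d460] (by decide +kernel))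
noncomputable def rhca64a7758cbce6c8 : CRef := CRef.mk (Pat.mk 0x2000000020000000a0000000a00000008000000000 0x140000001f7000001be000001e7000000b0000000b000000010 7 9) 0 0 (step_sound _ 132 [(rh0f88566f1a09c677.shift 2 2), (rh1fe1990399eaff20.shift 2 1), (rhda2de025f631d460.shift 0 1), (rhe162ec1e3ee087bd.shift 4 0)] (by decide +kernel))
noncomputable def rh234ffb82d1d5ba32 : CRef := CRef.mk (Pat.mk 0x600000002000000180000000800000008 0x730000003e0000007b000000180000000800000008 7 7) 0 0 (step_sound _ 132 [rh00aece6d9b3843e3, (rh05d27bef815d92ea.shift 0 3), (rh4d477abd4f690b79.shift 0 1), (rhd932d223c9e56252.shift 3 0), rheed407ef56c77dd2] (by decide +kernel))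
noncomputable def rhe8dd5b18280e9d90 : CRef := CRef.mk (Pat.mk 0x3000000020000000a0000000a000000080000000800000000 0x40000001e0000001f0000001a0000000a0000000a000000180000001800000010 7 5) 0 0 (step_sound _ 226 [rh86da5a55c7218468, (rhbaefcd01e0a8bca3.shift 1 3)] (by decide +kernel))
noncomputable def rh363aecca38732be8 : CRef := CRef.mk (Pat.mk 0x2000000020000000a0000000a0000000000000000 0x20000000a0000000a0000001b0000001f0000003d 7 6) 0 0 (step_sound _ 32 [rh299c5ef2b8c8848b, (rh79877ebd3ef475dd.shift 0 1)] (by decide +kernel))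
noncomputable def rh783787acb01f866b : CRef := CRef.mk (Pat.mk 0x30000000a0000000a0000000a000000010000000000000000 0x130000001e0000000a0000000a0000001b0000001f00000014 7 5) 0 0 (step_sound _ 65 [rh772b308f12cf7c50, (rh932754581e0f4330.shift 0 1)] (by decide +kernel))
noncomputable def rhb51a75106cefb72a : CRef := CRef.mk (Pat.mk 0x30000000a0000000a0000000a0000000100000000 0x140000001e0000001b0000000a0000000a0000001e0000001300000001 7 5) 0 0 (step_sound _ 33 [rh932754581e0f4330, (rhb39d9c63ded617d1.shift 0 1)] (by decide +kernel))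
noncomputable def rh01e80c9d3d7bd2e9 : CRef := CRef.mk (Pat.mk 0x400000004000000140000001e00000000 0xa0000001f0000003c000000140000003e00000070 7 7) 0 0 (step_sound _ 5 [rh958169f2fe31a0b3, (rh96851dee118c1ba3.shift 1 0)] (by decide +kernel))
noncomputable def rhffa37fad5ee06a89 : CRef := CRef.mk (Pat.mk 0x400000002000000020000000a0000000a00000000000000000000000000000000 0x40000001e0000003b0000001a0000000a0000001f0000007d0000001c0000001400000014 7 7) 0 0 (step_sound _ 99 [(rh2aea2d122d965746.shift 0 3), (rh52609c77cd8a1cdc.shift 0 1), (rh772b018c11e2d4b9.shift 1 0), rhb0f7373017cbff8c] (by decide +kernel))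
noncomputable def rh9068a4ce54bd881f : CRef := CRef.mk (Pat.mk 0x280000002800000028000000200000000000000000 0x28000000280000007c0000003f0000003c00000010 7 7) 0 0 (step_sound _ 36 [(rh79877ebd3ef475dd.shift 4 1), rhed30245d9ad59a8c] (by decide +kernel))
noncomputable def rhfc15e75b6322a824 : CRef := CRef.mk (Pat.mk 0x280000002800000028000000000000000000000000 0x50000000700000007000000028000000280000007c0000001f0000001c00000014 7 7) 0 0 (step_sound _ 67 [(rh8cdd36b03d57a2f6.shift 2 0), (rhc8fd50c44a2112a0.shift 0 1), (rhe6fa192f79d3524d.shift 3 1)] (by decide +kernel))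
noncomputable def rha72fb7b64218017f : CRef := CRef.mk (Pat.mk 0x20000000a0000000a000000000000000000000000 0x5000000070000000f0000000a0000000b0000001e0000003c0000001000000010 7 6) 0 0 (step_sound _ 193 [(rh1741680720c097b4.shift 0 3), rh9c1a909469b2c0df] (by decide +kernel))
noncomputable def rhbea8fa60c8478ac3 : CRef := CRef.mk (Pat.mk 0x20000000200000002000000180000001000000000 0x500000007000000070000000300000002000000030000001f0000003300000001 7 6) 0 0 (step_sound _ 65 [(rh060a1852313b8263.shift 0 2), rh35b80a50a4320679, (rh7174a5174d2fbf5b.shift 0 1), (rh771d065bdc85bf2d.shift 0 1), (rh8cb8b486b69e3808.shift 0 2)] (by decide +kernel))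
noncomputable def rhc0ceadf7175d46f3 : CRef := CRef.mk (Pat.mk 0xe0000000a000000080000001000000000 0x50000000700000007000000030000001e0000000b0000000f0000001900000011 7 5) 0 0 (step_sound _ 161 [rh19b19bf0872cfe73, rhb4e7b166f44d575d, (rhb5ba847c57864cbc.shift 0 2), (rhd9106766b9ff53c0.shift 0 3)] (by decide +kernel))
noncomputable def rh78ca88bbe8b82146 : CRef := CRef.mk (Pat.mk 0x1c000000140000001000000000 0x80000000a0000000e0000001f0000001c000000170000003e00000006 7 6) 0 0 (step_sound _ 131 [rh3d8f670373730b7b, (rh4821dcf828b9d7bf.shift 2 0), (rh8045a4749be85c44.shift 2 1), (rh8f17af7e187d9ab9.shift 2 1)] (by decide +kernel))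
noncomputable def rh09715d74987d9263 : CRef := CRef.mk (Pat.mk 0x1a0000000a000000080000001000000000 0x50000000700000007000000030000001e0000000b0000000f0000001900000011 7 5) 0 0 (step_sound _ 161 [(rh01e48cd9f335aa73.shift 0 3), rh5c8c873042790be0, rhb4e7b166f44d575d, (rhe8a9e0e6037b7c6e.shift 0 2)] (by decide +kernel))
noncomputable def rhb1cb9ef765eda7cc : CRef := CRef.mk (Pat.mk 0x1c000000140000001000000000 0x8000000280000003e0000007f0000007c000000140000001400000004 7 7) 0 0 (step_sound _ 131 [(rh4821dcf828b9d7bf.shift 2 0), (rh8045a4749be85c44.shift 2 1), (rh8f17af7e187d9ab9.shift 2 1), rhaee146a5ed47b762] (by decide +kernel))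
noncomputable def rhe20dae37a7d35570 : CRef := CRef.mk (Pat.mk 0x20000000a0000001e00000002 0x1000000070000001f0000000e0000000a0000001e00000032 7 6) 0 0 (step_sound _ 4 [(rhe25b0a99195a5d59.shift 1 0), rhf7dc14cf7727ed27] (by decide +kernel))
noncomputable def rhace61e953d1da71a : CRef := CRef.mk (Pat.mk 0x8000000020000000a0000001a00000002000000000000000000000000 0x80000000a0000000a0000001a00000013000000170000001f00000004 7 5) 0 0 (step_sound _ 100 [(rh6f1cbe15c631ee70.shift 3 3), rhaa60b5f8e34f770e] (by decide +kernel))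
noncomputable def rhdc0fae2126abe0b5 : CRef := CRef.mk (Pat.mk 0x800000028000000380000000800000000 0x30000000780000002f0000003c0000001e00000010 7 7) 0 0 (step_sound _ 36 [(rh41fabc94a01ab69f.shift 0 1), (rh55afc6a59410cf00.shift 3 0)] (by decide +kernel))
noncomputable def rhd2b043a5d883d101 : CRef := CRef.mk (Pat.mk 0x20000000a000000020000000200000002000000000000000000000000 0x30000001f000000060000000200000002000000070000000700000005 7 5) 0 0 (step_sound _ 224 [rh54686e43d847ebb4, (rhffd04209dc8ea796.shift 0 3)] (by decide +kernel))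
noncomputable def rh1f44343b1d5b92f7 : CRef := CRef.mk (Pat.mk 0x20000000200000002000000000000000000000000 0x50000000700000007000000060000000200000007000000070000000700000005 7 3) 0 0 (step_sound _ 193 [(rh1741680720c097b4.shift 0 3), rh49759b6975f15643, (rh8cdd36b03d57a2f6.shift 0 1)] (by decide +kernel))
noncomputable def rhd9db86898c79b07f : CRef := CRef.mk (Pat.mk 0x20000000a000000080000000800000000 0x140000001c0000001c0000001e0000000b0000000c0000000c00000004 7 5) 0 0 (step_sound _ 131 [(rh1726a00b0a8befd0.shift 2 0), (rh20966da26a1c2ae8.shift 2 0), (rh771d065bdc85bf2d.shift 2 0), (rh9258736a7488cc35.shift 0 1)] (by decide +kernel))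
noncomputable def rh8cea9db4ec833c71 : CRef := CRef.mk (Pat.mk 0x20000000a000000080000000800000000 0x140000001c0000003c0000001e0000000b0000007c0000001e00000014 7 7) 0 0 (step_sound _ 131 [(rh1726a00b0a8befd0.shift 2 0), (rh9258736a7488cc35.shift 0 1), (rhac13d16ea91712e4.shift 1 0), (rhced6d86d2069808b.shift 3 0), (rhe917e21515f56543.shift 0 1)] (by decide +kernel))
noncomputable def rh3f01d519c89dae69 : CRef := CRef.mk (Pat.mk 0x4000000140000001c000000000000000000000000 0x4000000140000007e0000007f0000006e0000002a 7 7) 0 0 (step_sound _ 66 [(rh0baba60cfcfd994b.shift 1 0), (rh157b220518f94713.shift 1 1), (rh8cdd36b03d57a2f6.shift 1 0), (rhfbf2eae4035425b6.shift 0 1)] (by decide +kernel))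
noncomputable def rh07693351fde3b739 : CRef := CRef.mk (Pat.mk 0x100000001000000070000000000000000000000000 0x100000001f0000007e000000ff0000002800000020 7 8) 0 0 (step_sound _ 99 [(rh0d378fd9e8917c5a.shift 1 2), (rh42c212064b599c2b.shift 2 0), (rhae036cc4ef671676.shift 2 1), (rhbb13f9e1d387f64a.shift 0 2), (rhc6563beaa1184505.shift 1 2)] (by decide +kernel))
noncomputable def rh0c2f4b02e0e0aed2 : CRef := CRef.mk (Pat.mk 0x20000000a0000001a0000000000000010000000100000000000000000 0x4000000060000000b0000001e0000000b0000003f0000003f0000000700000001 7 6) 0 0 (step_sound _ 129 [(rh01e48cd9f335aa73.shift 0 4), (rh12c3a9649a480f2c.shift 0 1), (rh5710f30ba40ee3ec.shift 0 3), rhfb66006ff6847edf] (by decide +kernel))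
noncomputable def rh41eabee7f4bf7591 : CRef := CRef.mk (Pat.mk 0x1e0000001e000000020000000000000000 0x1e0000001e0000003a0000001f0000001f 7 6) 0 0 (step_sound _ 33 [(rh71222050f2c63a3a.shift 1 0), rhbb800f924649866f] (by decide +kernel))
noncomputable def rh6fb4c1ed0bc7fafa : CRef := CRef.mk (Pat.mk 0x60000001e000000000000000000000000 0x60000001e0000003f0000000f00000007 7 6) 0 0 (step_sound _ 68 [rha0acaf2f21dde3aa, (rhe25b0a99195a5d59.shift 1 2)] (by decide +kernel))
noncomputable def rh92905a14a5924c32 : CRef := CRef.mk (Pat.mk 0x2000000020000000a0000000a00000002000000010000001000000000 0x2000000020000000a0000000e0000001e0000001b0000001f00000014 7 5) 0 0 (step_sound _ 65 [(rh932754581e0f4330.shift 0 1), rhd65f9de7d8e6151f] (by decide +kernel))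
noncomputable def rh2681c2ca7a6ff84d : CRef := CRef.mk (Pat.mk 0x20000000a0000000a00000000000000100000001000000000 0x4000000060000000a0000001a0000001f0000001f0000001f00000005 7 5) 0 0 (step_sound _ 97 [(rh1189c60906519afd.shift 0 1), rh12c3a9649a480f2c, (rh3da9c40ca9e6de97.shift 0 1), (rh8cdd36b03d57a2f6.shift 0 1), rhef3ba3c62dc7a15c] (by decide +kernel))
noncomputable def rhf7be7edcff819b27 : CRef := CRef.mk (Pat.mk 0x400000014000000140000000000000020000000200000000000000000 0x40000001400000054000001df000000fe000001ff0000002000000020 7 9) 0 0 (step_sound _ 100 [rhde8c4aee66591e82, (rhff0f29cb645b05f7.shift 4 2)] (by decide +kernel))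
noncomputable def rh59dfbba68678bb8f : CRef := CRef.mk (Pat.mk 0x100000002000000020000000a0000000a000000020000001000000010 0x4000000070000000700000002000000020000000a0000001a0000001f0000001c00000010 7 5) 0 0 (step_sound _ 225 [(rh50fbb5868c909700.shift 0 4), rh97ac5ea29f7dcf5a] (by decide +kernel))
noncomputable def rhd01ee1ae2d45971d : CRef := CRef.mk (Pat.mk 0x1000000010000000000000003000000020 0x1000000038000001ef000000fe000001ff 7 9) 0 0 (step_sound _ 69 [rh75896e0eb776b05e, (rhcfdf45280693d3da.shift 4 0)] (by decide +kernel))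
noncomputable def rh6cacf9973f44fd0a : CRef := CRef.mk (Pat.mk 0x1000000050000000f000000000000000800000008 0x100000001000000350000003f000000360000001e0000000a 7 6) 0 0 (step_sound _ 65 [rh0ae9dbd79e2b7480, (rh2145e1d24b96a57e.shift 0 2)] (by decide +kernel))
noncomputable def rh7b8563c70e04f408 : CRef := CRef.mk (Pat.mk 0x3400000014000000100000001000000000 0x20000000200000006000000060000003c00000016000000370000001e0000000b 7 6) 0 0 (step_sound _ 162 [(rh01e48cd9f335aa73.shift 1 3), rh8a10ecec20eaf28b, (rhe8a9e0e6037b7c6e.shift 1 2)] (by decide +kernel))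
noncomputable def rh09ed511f34c217be : CRef := CRef.mk (Pat.mk 0x180000001400000014000000100000001000000000 0x200000002000000070000001e0000003400000016000000370000001e0000000b 7 6) 0 0 (step_sound _ 162 [(rh38dab6a66c300bf2.shift 0 3), rh8a10ecec20eaf28b, (rhb1e85508c6bcb2d1.shift 0 2)] (by decide +kernel))
noncomputable def rh91883fc11fdbd862 : CRef := CRef.mk (Pat.mk 0x4000000140000001c000000000000000000000000 0x1000000014000000140000001f0000007f0000002a0000000a 7 7) 0 0 (step_sound _ 67 [rh5dac8f4ce31c0fc3, (rh79ad7b82ec8c35e2.shift 2 0), (rhb10481e8122aee97.shift 2 0)] (by decide +kernel))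
noncomputable def rhfb33572181b1be4d : CRef := CRef.mk (Pat.mk 0x40000001400000014000000000000000000000000 0xa0000000e0000001e00000014000000170000003e0000007a0000002000000020 7 7) 0 0 (step_sound _ 194 [(rh1e5b32304cb1377e.shift 0 2), (rh771d065bdc85bf2d.shift 1 2), (rh9c1a909469b2c0df.shift 1 0), (rhc85cc95794737cf7.shift 1 3)] (by decide +kernel))
noncomputable def rhfd8d9e89e6899ce9 : CRef := CRef.mk (Pat.mk 0x80000002800000028000000000000000000000000 0x140000001c0000003c000000380000002f0000007c000000f80000005000000040 7 8) 0 0 (step_sound _ 195 [(rh6c59ce14113da07f.shift 3 1), (rh9c1a909469b2c0df.shift 2 0), (rhc85cc95794737cf7.shift 2 3), (rhfb2f47ebeee1de4a.shift 0 2)] (by decide +kernel))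
noncomputable def rhc556797fa8fb9818 : CRef := CRef.mk (Pat.mk 0x6000000030000000a0000000a00000002000000000000000000000000 0x100000001e0000001b0000001a0000000b0000001e0000003c0000001000000010 7 6) 0 0 (step_sound _ 228 [rh221772e2b326a855, (rh361cc68994bd8a63.shift 0 6)] (by decide +kernel))
noncomputable def rh964c21dd7972aa0f : CRef := CRef.mk (Pat.mk 0x800000008000000080000000000000000 0x140000001c0000001c0000000c0000000c0000000f0000003c0000001c00000010 7 6) 0 0 (step_sound _ 163 [(rh193da7fc9e1674f1.shift 2 1), (rh5ad9898cc32ef511.shift 2 0), (rh641b5241be04eec6.shift 0 1), (rh771d065bdc85bf2d.shift 2 1)] (by decide +kernel))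
noncomputable def rhf341e6e58aa99e84 : CRef := CRef.mk (Pat.mk 0x1000000050000000100000001800000000 0x5000000050000000f7000000fe000001e7 7 9) 0 0 (step_sound _ 37 [(rh55afc6a59410cf00.shift 4 0), rhe1fbe113516bd430] (by decide +kernel))
noncomputable def rhce1a07ba380b9e1c : CRef := CRef.mk (Pat.mk 0x20000000600000002000000000000000000000000 0x50000000700000007000000060000000600000006000000070000000700000005 7 3) 0 0 (step_sound _ 193 [rh49759b6975f15643, (rhc85cc95794737cf7.shift 0 3), (rhd4b4beefcd67f51e.shift 1 2)] (by decide +kernel))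
noncomputable def rhb2b3bc57f88669aa : CRef := CRef.mk (Pat.mk 0x180000001a0000001a000000300000000000000000 0x1000000070000003f0000001b0000001b000000f70000000700000005 7 8) 0 0 (step_sound _ 70 [(rhf48373e13d2bc128.shift 3 2), rhfa476e6ebf1b515f] (by decide +kernel))
noncomputable def rh7814e101873e2401 : CRef := CRef.mk (Pat.mk 0x2000000020000000200000004 0x500000007000000070000000200000002000000030000000700000005 7 3) 0 0 (step_sound _ 129 [rh193da7fc9e1674f1, (rhd3458b32566d63f7.shift 1 0)] (by decide +kernel))
noncomputable def rh050076ee0f1cf48e : CRef := CRef.mk (Pat.mk 0x4000000140000000e0000000c0000000000000000 0x300000003c000000170000007e0000007c0000000400000004 7 7) 0 0 (step_sound _ 100 [rhb7211bccc90b854a, (rhb762f327c85d41a0.shift 1 2), (rhf5e124ec5c58a2dd.shift 1 2)] (by decide +kernel))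
noncomputable def rh54ac73e6028745be : CRef := CRef.mk (Pat.mk 0xc0000001c000000180000000000000000 0xf0000001f0000001b0000000f0000000e 7 5) 0 0 (step_sound _ 97 [rh399f1274c7f8ecf2, (rhb739f4f82bb681b4.shift 0 2)] (by decide +kernel))
noncomputable def rh88951a4da7bb05fe : CRef := CRef.mk (Pat.mk 0x2c0000001c000000180000000800000000 0x20000000200000002c0000007f0000001b0000000f00000006 7 7) 0 0 (step_sound _ 97 [rh70c3cc26fb1bda1f, (rhb739f4f82bb681b4.shift 0 2)] (by decide +kernel))
noncomputable def rhafaca9a1819cc53b : CRef := CRef.mk (Pat.mk 0x14000000170000000400000000 0xa0000000e0000000e0000001400000014000000170000003e00000008 7 6) 0 0 (step_sound _ 35 [(rh89ade209b3e28f13.shift 0 1), (rha07b6d60a252eb2f.shift 1 0), (rhfa3205aafd2af0b3.shift 1 0)] (by decide +kernel))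
noncomputable def rh802cdfb13477c77f : CRef := CRef.mk (Pat.mk 0x80000002800000018000000380000000000000000 0x200000007c0000002f0000007e000000380000000800000008 7 7) 0 0 (step_sound _ 98 [rha02c15ad071161bb, (rhb739f4f82bb681b4.shift 1 2)] (by decide +kernel))
noncomputable def rh51de2d9833731a7e : CRef := CRef.mk (Pat.mk 0x100000001800000038000000180000000000000000 0x340000001f0000003f0000007f0000000600000006 7 7) 0 0 (step_sound _ 98 [(rh3c3e23a02e82b2ed.shift 0 2), (rh69b67487c0e38ef6.shift 1 0), (rh775ca1963e850b80.shift 0 2), rha69556eb144a89cb, (rhcc2be1f880c5ea3e.shift 0 2)] (by decide +kernel))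
noncomputable def rh6c5ef952db83b9bb : CRef := CRef.mk (Pat.mk 0x140000001c0000000c0000000000000000 0x1000000012000000170000001f0000003f0000003400000004 7 6) 0 0 (step_sound _ 65 [(rh53b3c253cb0c65f4.shift 0 2), rh62c0fa2be6c1eeaa] (by decide +kernel))
noncomputable def rha734fb3532ac168f : CRef := CRef.mk (Pat.mk 0x10000000180000001c00000000 0x1c0000001f0000007c000000180000001c00000004 7 7) 0 0 (step_sound _ 132 [(rh5c5e593799055d58.shift 3 1), rhe749b27bf08cfb1f] (by decide +kernel))
noncomputable def rh4b28d8e46a8dd5fc : CRef := CRef.mk (Pat.mk 0x18000000180000001c0000000800000000 0x60000001f0000001b0000007f0000000c00000004 7 7) 0 0 (step_sound _ 34 [(rh917c6b25c671e42d.shift 0 1), (rh932754581e0f4330.shift 2 0)] (by decide +kernel))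
noncomputable def rh7e1aa4108f9642d0 : CRef := CRef.mk (Pat.mk 0x10000000180000001c000000000000000000000000 0xc0000000f0000001f0000001c0000001c0000000c0000000c00000004 7 5) 0 0 (step_sound _ 67 [(rh71222050f2c63a3a.shift 3 1), rhc9228e7c1522daa3] (by decide +kernel))
noncomputable def rha4274e905d36f2e5 : CRef := CRef.mk (Pat.mk 0x400000004000000070000000000000000000000000 0x680000006f000001fe0000003f0000003000000010 7 9) 0 0 (step_sound _ 99 [(rh551591afa7e9bd9a.shift 0 2), (rh8abd09d8de48e907.shift 2 0), (rhafa5a7051d37b143.shift 2 0), (rhfb6ae56749c07bd5.shift 2 0)] (by decide +kernel))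
noncomputable def rh6b53c99d0f9dc858 : CRef := CRef.mk (Pat.mk 0x80000000a0000000e00000002000000000000000000000000 0x60000000e0000000e0000000e00000006000000070000000700000003 7 4) 0 0 (step_sound _ 98 [(rh55a1f6c57a317ce6.shift 1 1), rha5b9eb9647a4db41, (rhf9af042da61fc652.shift 2 1)] (by decide +kernel))
noncomputable def rh58fd1360b5efe236 : CRef := CRef.mk (Pat.mk 0x280000001e000000000000000000000000 0x20000000200000002c0000007e000000e70000004000000040 7 8) 0 0 (step_sound _ 65 [(rhbb29e4eea572ef31.shift 1 0), (rheb0810cc63b001d8.shift 0 2)] (by decide +kernel))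
noncomputable def rhc88a7f9d3265eec9 : CRef := CRef.mk (Pat.mk 0x20000001c0000000200000000 0x50000000700000007000000030000003e0000000600000004 7 6) 0 0 (step_sound _ 65 [(rh3244c3cc8379b070.shift 0 2), rha0cf86d215cf873e] (by decide +kernel))
noncomputable def rh5d4f5d0600b1b55f : CRef := CRef.mk (Pat.mk 0x20000001c000000020000000000000000 0x30000000700000007000000070000001e000000060000000600000006 7 5) 0 0 (step_sound _ 97 [rh240362b9f63323a5, (rh3244c3cc8379b070.shift 0 3)] (by decide +kernel))
noncomputable def rhbd30fffb93947b5d : CRef := CRef.mk (Pat.mk 0x6000000040000000080000000c00000004 0x70000007e000000ef000000080000000c00000004 7 8) 0 0 (step_sound _ 131 [(rh824d79d8da16a934.shift 0 3), (rhee230b994cc8b773.shift 2 0)] (by decide +kernel))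
noncomputable def rh6b238bd284d6063c : CRef := CRef.mk (Pat.mk 0x3c000000100000000000000000 0x4000000040000000e0000003f0000001f0000000800000008 7 6) 0 0 (step_sound _ 65 [(rh80fcd6d0a18cb2dd.shift 1 2), rh9a457372ae2c6b7e] (by decide +kernel))
noncomputable def rhc369afff83cd5edc : CRef := CRef.mk (Pat.mk 0x80000003c000000140000000000000000 0x40000000e0000003c0000001c0000001f0000001e 7 6) 0 0 (step_sound _ 36 [(rh7b1f1fb55310c477.shift 3 0), rhbcbf9ccfe9127848] (by decide +kernel))
noncomputable def rhcead13b46599db51 : CRef := CRef.mk (Pat.mk 0x400000004000000078000000000000000000000000 0x4000000040000000470000007e0000003e0000002000000020 7 7) 0 0 (step_sound _ 69 [rh419a9adb3eb18e1a, (rh5c5e593799055d58.shift 5 2)] (by decide +kernel))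
noncomputable def rhbc8629ac803144db : CRef := CRef.mk (Pat.mk 0x400000004000000078000000000000000000000000 0x40000000400000004e0000007e000000370000002000000020 7 7) 0 0 (step_sound _ 69 [(rh5c5e593799055d58.shift 5 2), rha6f8243219ccc849] (by decide +kernel))
noncomputable def rh6cdf0ce7194f9719 : CRef := CRef.mk (Pat.mk 0x20000000200000003e000000000000000000000000 0x24000000240000002e0000003f000000180000001800000018 7 6) 0 0 (step_sound _ 68 [rh3c8941c6523087bc, (rh5c5e593799055d58.shift 4 2)] (by decide +kernel))
noncomputable def rh657c6254087e5e89 : CRef := CRef.mk (Pat.mk 0xf8000000400000000000000000 0x200000002000000037000000fe000000780000005000000050 7 8) 0 0 (step_sound _ 133 [(rh50e736ca27d8bdbd.shift 3 0), (rh7c6074bd7239ae5e.shift 3 0), rhbcda507247a7aa0a, (rhc38f566cab2818e5.shift 5 0), (rhcfde16a7ff36af03.shift 3 0)] (by decide +kernel))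
noncomputable def rha1fbfdb48b318f22 : CRef := CRef.mk (Pat.mk 0x1000000010000000100000001000000000 0x180000001800000018000000380000001f0000001c 7 6) 0 0 (step_sound _ 35 [(rh932754581e0f4330.shift 3 0), rhe07e4e3e516a3829] (by decide +kernel))
noncomputable def rhaff94cf16ca3715b : CRef := CRef.mk (Pat.mk 0x300000000800000008000000000000000000000000 0x140000001c0000039f000001f80000039c0000000c0000001c0000001c00000014 7 10) 0 0 (step_sound _ 163 [(rh1b9022be4f7af407.shift 2 0), (rh215e11e099257d75.shift 3 2), (rh6287b81491833f3f.shift 2 4), (rh78d31f6353731921.shift 0 2)] (by decide +kernel))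
noncomputable def rhb24d078cc6b7d565 : CRef := CRef.mk (Pat.mk 0x1800000014000000140000000000000000 0x780000001f000000170000003c0000003c 7 7) 0 0 (step_sound _ 99 [rh1eaf351f621cd348, (rh77388b24933283ea.shift 1 0), (rhf9d36e158778ce35.shift 1 3)] (by decide +kernel))
noncomputable def rh84e949c13db5466f : CRef := CRef.mk (Pat.mk 0x7000000018000000280000000000000000 0x4000000040000000ec00000078000000380000002f0000003c0000001c 7 8) 0 0 (step_sound _ 35 [rh2fc35fe4a1bb10a3, (rh71222050f2c63a3a.shift 3 0)] (by decide +kernel))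
noncomputable def rh853776de505393b7 : CRef := CRef.mk (Pat.mk 0x3800000018000000100000000000000000 0x1000000010000000380000001e0000007c0000002f0000000c 7 7) 0 0 (step_sound _ 98 [(rh53b3c253cb0c65f4.shift 1 3), rh6943e289cc8cb8e0] (by decide +kernel))
noncomputable def rh824b8ae1ed2d68f4 : CRef := CRef.mk (Pat.mk 0x300000000800000028000000000000000000000000 0x540000005c000000ff000000780000002c0000002c0000003c0000001c00000014 7 8) 0 0 (step_sound _ 163 [(rh1b9022be4f7af407.shift 2 0), (rh215e11e099257d75.shift 3 2), (rh78d31f6353731921.shift 0 2), (rhb1706090587d9c69.shift 2 2)] (by decide +kernel))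
noncomputable def rhb637dd29b22214d1 : CRef := CRef.mk (Pat.mk 0x40000000c000000020000000a0000000000000000 0x40000007e0000007e0000000b0000000a00000002 7 7) 0 0 (step_sound _ 33 [(rh1006c02ae4212ff0.shift 1 1), rh2bbf631c2b2f8857] (by decide +kernel))
noncomputable def rhc528a042941590bd : CRef := CRef.mk (Pat.mk 0x3000000008000000280000000000000000 0x100000001000000018000000380000007c0000002f0000002800000008 7 7) 0 0 (step_sound _ 164 [rh3d2341c1a30e083f, (rhd918c3fd221dc9f8.shift 3 1), (rhfb5c2c8bb92800a5.shift 0 1)] (by decide +kernel))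
noncomputable def rh000f0aac0862950e : CRef := CRef.mk (Pat.mk 0x90000000c000000080000000000000000 0x180000001c0000001c0000000f0000000c0000000c0000001800000018 7 5) 0 0 (step_sound _ 130 [rh782e3b29f3c9405d, (rha5f24c89d51c7855.shift 0 2), (rhfc7c29d8e65d775f.shift 2 1)] (by decide +kernel))
noncomputable def rhf81377684843aa23 : CRef := CRef.mk (Pat.mk 0x800000000000000300000001000000010 0x1ff000000fc000001f0000000300000003000000010 7 9) 0 0 (step_sound _ 133 [(rh7451f34b061ea69b.shift 4 0), (rh869c9696bcd1f865.shift 0 1), (rhb009278fdd334770.shift 4 0), (rhb4f20551e8d6399f.shift 3 0)] (by decide +kernel))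
noncomputable def rh9588f9419ecfa885 : CRef := CRef.mk (Pat.mk 0xc000000020000000a0000000000000000 0x1000000014000000340000003e0000001f0000000a0000000a00000002 7 6) 0 0 (step_sound _ 98 [(rh40dfdc6f98d3f7a5.shift 0 1), (rh4821dcf828b9d7bf.shift 1 0), (rh58143bc52b108d9e.shift 0 1)] (by decide +kernel))
noncomputable def rh9ad09b07c2517f51 : CRef := CRef.mk (Pat.mk 0xc000000020000000a00000000000000000000000000000000 0x400000004000000060000007e0000007e0000000b0000000a000000070000000700000005 7 7) 0 0 (step_sound _ 226 [rh648e4b160e405460, (rh751f91025c6ba4fe.shift 1 4), (rhd918c3fd221dc9f8.shift 1 3), (rhe5ac811fba7144a3.shift 0 3)] (by decide +kernel))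
noncomputable def rhee9cb52cb74fc61a : CRef := CRef.mk (Pat.mk 0x30000000080000002800000000000000000000000000000000 0x140000001c0000001c000000380000007c0000002f0000002c0000001c0000001c00000014 7 7) 0 0 (step_sound _ 228 [(rh5abd33fb7e390499.shift 2 3), (rh648e4b160e405460.shift 2 0), (rh751f91025c6ba4fe.shift 3 4), (rhfb5c2c8bb92800a5.shift 0 3)] (by decide +kernel))
noncomputable def rhc71651cfcc703c30 : CRef := CRef.mk (Pat.mk 0x80000000e00000002 0x1f8000000fe000000e3 7 9) 0 0 (step_sound _ 36 [(rh8d33df7ee954b6ed.shift 1 0), rheb0810cc63b001d8] (by decide +kernel))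
noncomputable def rh95efd1cf0c5746a1 : CRef := CRef.mk (Pat.mk 0x1c000000060000000a0000000200000000 0x200000012000000330000001e0000003e0000000b0000001f00000019 7 6) 0 0 (step_sound _ 129 [rh4cba6bdef69ccb76, (rh5d014c1f02ddef8a.shift 0 1), rh68ea42903d7a7e03, rhd9048603f1912b39] (by decide +kernel))
noncomputable def rh32fbb0eb1e2a5a95 : CRef := CRef.mk (Pat.mk 0x6000000040000000400000004 0x1000000010000000f80000007f000000fe0000000c00000004 7 8) 0 0 (step_sound _ 99 [(rh2f68792b6b779e96.shift 2 0), (rh428cb39c95118ca8.shift 0 1)] (by decide +kernel))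
noncomputable def rh6088d92095ce3ced : CRef := CRef.mk (Pat.mk 0x8000000080000000a0000000a 0x100000001c0000001c0000000c0000001c0000001e0000000b 7 5) 0 0 (step_sound _ 130 [rhe34ab5f3d374db8d, (rhffd04209dc8ea796.shift 2 0)] (by decide +kernel))
noncomputable def rhd7d75b5967375383 : CRef := CRef.mk (Pat.mk 0x8000000080000000800000006000000020000000000000000 0x8000000080000000f0000003e00000006000000030000000300000003 7 6) 0 0 (step_sound _ 130 [(rh5c5e593799055d58.shift 2 3), rhe9f7dd1bfae76340] (by decide +kernel))
noncomputable def rhb37d10878ef9fdff : CRef := CRef.mk (Pat.mk 0x20000000a000000020000000a000000020000000400000000 0x3d0000001f0000001a0000000a0000000a000000020000000600000004 7 6) 0 0 (step_sound _ 33 [(rh55afc6a59410cf00.shift 1 0), (rhc66073bed5be7c9c.shift 0 3)] (by decide +kernel))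
noncomputable def rha935f04428b9b3d7 : CRef := CRef.mk (Pat.mk 0x20000000a0000000200000002000000000000000000000000 0x1000000030000001e0000000600000003000000070000000700000004 7 5) 0 0 (step_sound _ 192 [(rh50fbb5868c909700.shift 0 3), rhf4a57ab87671329b] (by decide +kernel))
noncomputable def rh5c32f74b30561a7b : CRef := CRef.mk (Pat.mk 0xa000000020000000200000000000000000000000000000000 0x740000003e000000770000000200000007000000070000000700000005 7 7) 0 0 (step_sound _ 97 [rh49759b6975f15643, (rh6eff4158bb400f47.shift 0 1), (rhd0e7f0fbf0cb2aca.shift 0 3)] (by decide +kernel))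
noncomputable def rh9b29dae0d43b2d3e : CRef := CRef.mk (Pat.mk 0xc0000000200000008000000000000000000000000 0x1000000010000000f80000007e000000ff000000080000001c0000001c00000014 7 8) 0 0 (step_sound _ 164 [rh46c37df404c3dbe4, (rh54138ccbdc55d5fe.shift 0 2), (rhf2b3bcf1454375d8.shift 1 4)] (by decide +kernel))
noncomputable def rhcdd58f08d08e99c7 : CRef := CRef.mk (Pat.mk 0x100000001400000014000000000000000000000000 0x200000007c0000001e000000160000003e0000003f00000028 7 7) 0 0 (step_sound _ 68 [(rh73c42531adaf2c9a.shift 1 1), (rh8cdd36b03d57a2f6.shift 3 0), (rhf92c094e260f0cb7.shift 0 1)] (by decide +kernel))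
noncomputable def rh6a20d286960c1d2e : CRef := CRef.mk (Pat.mk 0x1000000010000000100000001800000000 0x1000000010000003be000001fe000001e7 7 10) 0 0 (step_sound _ 37 [(rh55afc6a59410cf00.shift 4 0), rh81a28bb442b3acab] (by decide +kernel))
noncomputable def rhe493c35485accc44 : CRef := CRef.mk (Pat.mk 0x8000000020000000a0000000200000000000000000000000000000000 0x4000000040000000c0000000e0000000f0000000b0000000b00000007000000070000000700000005 7 4) 0 0 (step_sound _ 97 [(rh6eff4158bb400f47.shift 0 1), rh832d53b0c7150d1d, (rhc8bd5a66cad88589.shift 1 3), rhe84e00c98653ad0c] (by decide +kernel))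
noncomputable def rheb86abade925f4f9 : CRef := CRef.mk (Pat.mk 0x3000000008000000280000000800000004 0x20000003a0000007e0000002f0000007e0000006c 7 7) 0 0 (step_sound _ 100 [(rh71222050f2c63a3a.shift 3 0), rh828844083f058f18] (by decide +kernel))
noncomputable def rh8e517fa6b945e71e : CRef := CRef.mk (Pat.mk 0x180000001c0000000000000000 0x6000000070000001f0000001f0000000700000006 7 5) 0 0 (step_sound _ 65 [(rh53b3c253cb0c65f4.shift 0 2), rhb76f73ba1b17dc0a] (by decide +kernel))
noncomputable def rhabda7ab599cf968f : CRef := CRef.mk (Pat.mk 0x80000000a0000000a0000000000000004 0x50000001f0000001f0000001a0000000b0000000b0000000f00000004 7 5) 0 0 (step_sound _ 129 [(rhd0a81469ef1007b4.shift 0 1), (rhd3d019a85ab3f7d5.shift 1 0)] (by decide +kernel))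
noncomputable def rhd5529ece0511c5ec : CRef := CRef.mk (Pat.mk 0x2000000028000000280000000000000010 0x140000001c0000001c000000280000007c0000002f0000003c00000010 7 7) 0 0 (step_sound _ 36 [(rheea67dfebd0f8008.shift 4 0), rhf74786dbfa21d64d] (by decide +kernel))
noncomputable def rh7b072b6bc015633a : CRef := CRef.mk (Pat.mk 0x1000000010000000000000003800000000000000000000000000000000 0x100000001c0000001f0000003c000000080000001c0000001c00000014 7 6) 0 0 (step_sound _ 99 [(rh3c88ce959c0e423f.shift 3 3), rhe6b1d044815b204b] (by decide +kernel))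
noncomputable def rh81a4bd9cd463d933 : CRef := CRef.mk (Pat.mk 0x200000002000000000000000700000000000000000 0x7c0000003c0000000f0000007e000000ff00000010 7 8) 0 0 (step_sound _ 67 [(rh04797e9e06425c4e.shift 0 1), (rh0d378fd9e8917c5a.shift 1 1), (rh185f35b8bd8ec37f.shift 1 1), (rh30648cc896830bae.shift 2 0), (rhbb13f9e1d387f64a.shift 0 1)] (by decide +kernel))
noncomputable def rh9807e2531bf250a4 : CRef := CRef.mk (Pat.mk 0x78000000200000000000000000 0x4000000040000000e0000007e000000370000000200000002 7 7) 0 0 (step_sound _ 130 [(rh3f8766e6ecb455ce.shift 2 3), rh635b90fca20971c4] (by decide +kernel))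
noncomputable def rh9e1996f91404ff23 : CRef := CRef.mk (Pat.mk 0x400000004000000000000001e 0xa0000000e0000000e000000040000000400000006000000070000001e 7 5) 0 0 (step_sound _ 33 [rh3244c3cc8379b070, (rh4c3e5a718d5ddd53.shift 1 0)] (by decide +kernel))
noncomputable def rhda6b3a426e23c4f9 : CRef := CRef.mk (Pat.mk 0x20000000000000001c000000000000000000000000 0x2000000020000003e0000001fe000003ff0000005000000050 7 10) 0 0 (step_sound _ 101 [(rh06db8ceda6269a47.shift 1 2), (rh185f35b8bd8ec37f.shift 0 2), (rh3b00e9e9432b8f40.shift 1 2), (rh3fc3a7fb6866dcd4.shift 2 2), (rh994d16f2e8192ea2.shift 2 0), (rhd047222165077818.shift 1 2)] (by decide +kernel))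
noncomputable def rh0f02edc349a8fd7d : CRef := CRef.mk (Pat.mk 0x200000007000000000 0x3fc000001fe00000387 7 10) 0 0 (step_sound _ 35 [(rh394e80a462af5b2f.shift 2 0), (rh56a24c72f1c55520.shift 2 1), rhb103f40a53fe1424, (rhec46bd5500c722c9.shift 2 1)] (by decide +kernel))
noncomputable def rh311b656578419992 : CRef := CRef.mk (Pat.mk 0xc00000004000000040000000400000000 0xc0000000c0000003f0000003f0000003a 7 6) 0 0 (step_sound _ 35 [(rh55afc6a59410cf00.shift 2 0), rha2d3b83e56e59afa] (by decide +kernel))
noncomputable def rh6c438e0caa8f5cea : CRef := CRef.mk (Pat.mk 0x800000008000000080000000c0000000000000000 0x80000001c0000007e0000007f0000000c0000000800000008 7 7) 0 0 (step_sound _ 98 [rh474ecc789a925947, (rh5c5e593799055d58.shift 2 2)] (by decide +kernel))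
noncomputable def rh0aac1eeb518e599b : CRef := CRef.mk (Pat.mk 0x4000000040000000400000004000000000000000000000000 0x40000000e0000000f0000003e0000000c0000000c0000000400000004 7 6) 0 0 (step_sound _ 99 [(rh55afc6a59410cf00.shift 2 2), rhf9ddebef867b462a] (by decide +kernel))
noncomputable def rhc327fd764d7dbb61 : CRef := CRef.mk (Pat.mk 0x800000000000000060000001c00000000000000000000000000000000 0x80000000c0000003e0000001f00000033000000070000000700000005 7 6) 0 0 (step_sound _ 129 [rh368d6c923f096099, (rhb730f1529b3f9bbe.shift 0 3)] (by decide +kernel))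
noncomputable def rh0c1247d2085639c7 : CRef := CRef.mk (Pat.mk 0x1e00000018000000000000000000000000 0x30000003e0000001f000000070000000600000006 7 6) 0 0 (step_sound _ 97 [rh2d43008dadbc4acf, (rheb0810cc63b001d8.shift 0 3)] (by decide +kernel))
noncomputable def rh87d2cb0c10d78b5f : CRef := CRef.mk (Pat.mk 0x400000004000000040000000000000000 0xa0000000e0000000e0000000c0000000c000000070000003e0000000e00000008 7 6) 0 0 (step_sound _ 162 [(rh1726a00b0a8befd0.shift 1 1), (rh1904b52b42aee148.shift 0 1), (rh6c59ce14113da07f.shift 2 0)] (by decide +kernel))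
noncomputable def rhb51701da8fb469a0 : CRef := CRef.mk (Pat.mk 0x800000002000000020000000200000002 0x740000003e00000077000000020000000200000002 7 7) 0 0 (step_sound _ 130 [(rh2d9f8128359127b8.shift 0 1), (rhbaefcd01e0a8bca3.shift 1 0)] (by decide +kernel))
noncomputable def rh1fcfb3ba8021b3f8 : CRef := CRef.mk (Pat.mk 0x400000002000000020000000200000000000000000000000000000000 0x400000007000000030000000300000003000000070000000700000004 7 3) 0 0 (step_sound _ 97 [rh43000f16a4e76173, (rhbaefcd01e0a8bca3.shift 1 3)] (by decide +kernel))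
noncomputable def rh8973603b931eab33 : CRef := CRef.mk (Pat.mk 0x800000008000000080000000c00000000 0x8000000080000007f000000ff000000f0 7 8) 0 0 (step_sound _ 36 [(rh55afc6a59410cf00.shift 3 0), rhfeb0a7f75f9f287a] (by decide +kernel))
noncomputable def rhf132787c7cf85609 : CRef := CRef.mk (Pat.mk 0x1800000038000000100000000000000000 0x1e0000003f0000007f0000000600000006 7 7) 0 0 (step_sound _ 130 [(rhb739f4f82bb681b4.shift 1 3), rhfc37059f5f5176b7] (by decide +kernel))
noncomputable def rha92621d9bab90637 : CRef := CRef.mk (Pat.mk 0x2000000008000000080000000800000000 0x140000001c000001de000000f8000001cc0000000f0000003c00000014 7 9) 0 0 (step_sound _ 131 [(rh15c2321f8ed670ce.shift 2 1), rh641b5241be04eec6, (rhd6172124d67dc146.shift 1 1)] (by decide +kernel))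
noncomputable def rh4fb92a02837ecf2e : CRef := CRef.mk (Pat.mk 0x20000000080000000800000008000000000000000000000000 0x140000001c0000001e000000780000001c0000000f0000003c0000001c0000001c00000014 7 7) 0 0 (step_sound _ 195 [(rh49759b6975f15643.shift 2 0), (rh641b5241be04eec6.shift 0 2), (rhcab3157f7bdcba3e.shift 2 1), (rhd6172124d67dc146.shift 1 3)] (by decide +kernel))
noncomputable def rh020aef1d719b1ffe : CRef := CRef.mk (Pat.mk 0x4000000080000000200000002000000000000000000000000 0x100000007000000770000003e0000007300000003000000070000000700000005 7 7) 0 0 (step_sound _ 161 [(rh69b437885e194d7f.shift 0 2), rh984bfc6de6c2c524, (rhb7f088ebf5701d6e.shift 0 2)] (by decide +kernel))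
noncomputable def rh72ba651d9167611a : CRef := CRef.mk (Pat.mk 0x20000000500000001000000010 0x1ff000000fe000001f70000001000000010 7 9) 0 0 (step_sound _ 100 [(rh2f68792b6b779e96.shift 4 0), (rh558e5df511d3e813.shift 0 2)] (by decide +kernel))
noncomputable def rhdeae53ad6bad283f : CRef := CRef.mk (Pat.mk 0x2000000050000000100000001000000000 0x2000000038000000380000001f000000fe000003f7000000180000001800000008 7 10) 0 0 (step_sound _ 132 [(rh0fd870c734e6c513.shift 3 0), (rh5e39eb1b2a64ac26.shift 3 0), (rh5e573cd0624fcd45.shift 0 1), (rhcde48410e07a2440.shift 3 0)] (by decide +kernel))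
noncomputable def rh3ac383cd49d84f0e : CRef := CRef.mk (Pat.mk 0x7000000040000000400000004 0x780000007f000000fc0000000400000004 7 8) 0 0 (step_sound _ 99 [(rh04b5a123ea5003fa.shift 0 2), (rh2f68792b6b779e96.shift 2 0)] (by decide +kernel))
noncomputable def rh732b3e40045726da : CRef := CRef.mk (Pat.mk 0x300000004000000010000000100000000000000000 0x2000000038000000380000001f0000003e0000007700000018000000180000001800000008 7 7) 0 0 (step_sound _ 132 [(rh5e39eb1b2a64ac26.shift 3 1), (rh5e573cd0624fcd45.shift 0 2), (rh771d065bdc85bf2d.shift 3 1), (rha8bc3cae4d77a08f.shift 3 0)] (by decide +kernel))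
noncomputable def rhcddc3f885aed8b45 : CRef := CRef.mk (Pat.mk 0x3000000040000000100000001000000000 0x2000000038000000380000001f000003be000001f7000003980000001800000018 7 10) 0 0 (step_sound _ 100 [(rh5e39eb1b2a64ac26.shift 3 0), (rh5e573cd0624fcd45.shift 0 1), (rh69b437885e194d7f.shift 3 0), (rh771d065bdc85bf2d.shift 3 0)] (by decide +kernel))
noncomputable def rh6c33ea1677f40c0b : CRef := CRef.mk (Pat.mk 0x6000000180000000a0000000a00000000 0x40000000700000017000000130000003e0000001e0000001b0000000b00000003 7 6) 0 0 (step_sound _ 97 [rh5e39eb1b2a64ac26, (rh6f2fcdf9cb354735.shift 1 0), rhbf49009d353dda8d, rhfe6c30340ff9103a] (by decide +kernel))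
noncomputable def rh4dd1a2e1e273a1e5 : CRef := CRef.mk (Pat.mk 0xf00000000 0x70000007f000000fe 7 8) 0 0 (step_sound _ 36 [rh4ad5fc38f1b69f65, rhcd73b1fae15d2e7a, rhdf5957807fc5cfb7, rhe401600d466b97cd] (by decide +kernel))
noncomputable def rh51c02b70e3a8b8ce : CRef := CRef.mk (Pat.mk 0xc000000080000000800000008 0x140000001c0000001c000000180000001f0000007c0000001800000008 7 7) 0 0 (step_sound _ 68 [(rh4ca5dae25f5c14ff.shift 0 2), (rhcc733c6eb332fe88.shift 2 0), (rhdeca8db941583de2.shift 0 2)] (by decide +kernel))
noncomputable def rhdc33f0ce705a398b : CRef := CRef.mk (Pat.mk 0x1e0000001000000000 0x2800000038000000380000003f0000001e0000001800000018 7 6) 0 0 (step_sound _ 100 [rh2731b22c42e90b73, (rh33e738c4ed385b9f.shift 1 2)] (by decide +kernel))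
noncomputable def rh1c87c72915d1cd71 : CRef := CRef.mk (Pat.mk 0x7000000020000000000000002 0xe0000000e0000000e000000070000001e0000000e00000002 7 5) 0 0 (step_sound _ 130 [(rh7de6c1e888eaa7e0.shift 0 1), (rh9e3edb185cc347de.shift 1 0)] (by decide +kernel))
noncomputable def rh62d0b7e6eaa0d5fe : CRef := CRef.mk (Pat.mk 0x40000000e00000008 0x3000000030000000ff000000fe000001f8 7 9) 0 0 (step_sound _ 36 [(rh04b5a123ea5003fa.shift 1 0), rhdb56e91014969ee5, (rhe3060b190bc0bc78.shift 0 1)] (by decide +kernel))
noncomputable def rh5c8f0f3c33484b2e : CRef := CRef.mk (Pat.mk 0x1c000000100000000000000010 0x1ff000000fe000001d00000001000000010 7 9) 0 0 (step_sound _ 101 [(rh4c622fddc53a5f99.shift 0 3), (rh63bb75a038171f49.shift 2 0), (rh685154626316017f.shift 2 0), (rhd1f9989d6034576a.shift 3 0)] (by decide +kernel))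
noncomputable def rh4ff48f80bb566260 : CRef := CRef.mk (Pat.mk 0x2000000060000000400000001000000010 0x670000007e000000d70000001000000010 7 8) 0 0 (step_sound _ 100 [(rh04253f50b6dd0619.shift 4 0), (rh57585ecc72cf7beb.shift 0 2)] (by decide +kernel))
noncomputable def rhf9579f65cc312aa8 : CRef := CRef.mk (Pat.mk 0xa000000020000000a000000020000000100000000 0x1000000010000000300000001e0000001f0000000a0000000a0000000300000001 7 6) 0 0 (step_sound _ 33 [(rh5a56401f87eda0cc.shift 0 1), rh932754581e0f4330] (by decide +kernel))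
noncomputable def rhd6b377c49c03cc07 : CRef := CRef.mk (Pat.mk 0xa000000020000000a000000020000000400000000 0x1000000010000000300000001e0000001f0000000a0000000a0000000600000004 7 6) 0 0 (step_sound _ 33 [(rh55afc6a59410cf00.shift 1 0), (rh5a56401f87eda0cc.shift 0 1)] (by decide +kernel))
noncomputable def rha996f40faaa47d07 : CRef := CRef.mk (Pat.mk 0x400000002000000020000000a000000020000000800000000 0x40000001600000012000000320000001e0000001f0000000800000008 7 6) 0 0 (step_sound _ 193 [(rh2f68792b6b779e96.shift 1 3), rh673c15db04a3ea08] (by decide +kernel))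
noncomputable def rhf5711e6cda93f8dd : CRef := CRef.mk (Pat.mk 0x20000000a000000020000000a0000000300000006 0x3d0000001f0000001a0000000a0000000a000000030000001e 7 6) 0 0 (step_sound _ 4 [rh2fe78cc5ca4405d8, (rhc66073bed5be7c9c.shift 0 2)] (by decide +kernel))
noncomputable def rhfb26ac7b7317c22a : CRef := CRef.mk (Pat.mk 0x20000001e0000000200000000000000000000000000000000 0x10000000700000007000000360000001e0000003600000003000000070000000700000004 7 6) 0 0 (step_sound _ 196 [(rh33e738c4ed385b9f.shift 1 5), rh7278af142b268e60] (by decide +kernel))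
noncomputable def rh77b326eeb7ddea82 : CRef := CRef.mk (Pat.mk 0x20000001e00000002000000000000000000000000 0x4000000070000000700000007000000360000001e00000002000000070000000700000005 7 6) 0 0 (step_sound _ 164 [(rh33e738c4ed385b9f.shift 1 4), rhb2147935ca93e326] (by decide +kernel))
noncomputable def rh5a981efdd1c06ef5 : CRef := CRef.mk (Pat.mk 0x180000000c000000000000000000000000 0x30000000b0000001f0000001f000000370000001400000010 7 6) 0 0 (step_sound _ 97 [(rh53b3c253cb0c65f4.shift 0 3), rha8673eb57f4f7b1f] (by decide +kernel))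
noncomputable def rh766f9586f57a1a1b : CRef := CRef.mk (Pat.mk 0x600000003800000000000000000000000000000000 0x40000001c0000001c0000005c0000007f000000780000007e0000003e0000003c00000018 7 7) 0 0 (step_sound _ 101 [(rh000637b5a81e86aa.shift 4 1), (rh15590a39afd9a120.shift 4 0), (rh9bb5c7e5c08d4582.shift 4 1), rhbc3cfe4edfdf514b] (by decide +kernel))
noncomputable def rh6d77264db34dca25 : CRef := CRef.mk (Pat.mk 0x5800000008000000000000000000000000 0x40000001c0000003c0000001f0000007c000000180000001c0000001c00000014 7 7) 0 0 (step_sound _ 163 [(rh4d6a2612ebfeb13d.shift 2 0), (rh61e3a6d5a5969a25.shift 0 2), (rh6661a04aba01afe6.shift 0 2), (rh6d406e32c1bd7163.shift 2 2)] (by decide +kernel))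
noncomputable def rh28025ef24e5874a5 : CRef := CRef.mk (Pat.mk 0xc000000040000000400000000 0xa0000000e0000000e0000000c0000000f0000003e0000003a 7 6) 0 0 (step_sound _ 130 [rh7297d7527063f333, (rh762a1aeaf83c662a.shift 1 0), (rhc17b7d8fab3dfe57.shift 1 0), (rhd7cb8ed87e2022d8.shift 1 0)] (by decide +kernel))
noncomputable def rh5dc82c1d190162a9 : CRef := CRef.mk (Pat.mk 0x1e000000020000000000000000 0x50000000700000007000000370000001e000000060000000600000006 7 6) 0 0 (step_sound _ 129 [(rh3244c3cc8379b070.shift 0 3), rhaa63cbda9c59dd98] (by decide +kernel))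
noncomputable def rh6e14a657e8a9ad94 : CRef := CRef.mk (Pat.mk 0x1e000000000000000000000000 0x6000000070000001e0000003f0000000700000007 7 6) 0 0 (step_sound _ 65 [rh88be999d08c58ca0, (rheb0810cc63b001d8.shift 0 2)] (by decide +kernel))
noncomputable def rh3d55c962efc97033 : CRef := CRef.mk (Pat.mk 0xf0000000800000000000000000000000000000000 0x140000001c0000001c000000180000000f0000000c0000001c0000001c0000001c00000004 7 5) 0 0 (step_sound _ 195 [(rh33e738c4ed385b9f.shift 0 5), (rh79ab5936b19702e1.shift 2 0)] (by decide +kernel))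
noncomputable def rh462949f01729691b : CRef := CRef.mk (Pat.mk 0x780000000800000000000000000000000000000000 0x100000001c0000001c0000001c000000180000007c000000f80000001f0000001c0000001c00000014 7 8) 0 0 (step_sound _ 99 [(rh15590a39afd9a120.shift 2 0), (rh3820f35d5e705bec.shift 3 0), (rh6e548e70b89cae82.shift 2 0), (rhcba374b5fac35fcd.shift 0 2), (rhffb8e5993241bf15.shift 2 0)] (by decide +kernel))
noncomputable def rha88a0bea46b2bd39 : CRef := CRef.mk (Pat.mk 0x180000000e000000000000000000000000 0x30000000b0000001f0000003e000000370000001400000010 7 6) 0 0 (step_sound _ 100 [rh2fb7851f2066c386, (rh3f38de6b95fe6c30.shift 0 1), (rh89813eb7e46c5c2d.shift 0 1)] (by decide +kernel))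
noncomputable def rha29ee7a1ca98d49b : CRef := CRef.mk (Pat.mk 0x800000058000000080000000800000000 0x100000005800000058000001f8000000ff000001f4 7 9) 0 0 (step_sound _ 36 [rh1499e3bb759f633b, (rh55afc6a59410cf00.shift 3 0)] (by decide +kernel))
noncomputable def rhc34dec65db64a3cb : CRef := CRef.mk (Pat.mk 0x200000006000000020000000200000000 0x40000000700000007000000070000000600000006000000020000000700000005 7 3) 0 0 (step_sound _ 32 [rh4e200292c7fdb9e6, rh932754581e0f4330] (by decide +kernel))
noncomputable def rhf16dd60258258ea0 : CRef := CRef.mk (Pat.mk 0xe000000180000000000000000 0x300000003c0000003f0000001e0000001f0000001b0000001b 7 6) 0 0 (step_sound _ 100 [rh531cacad9958d8ca, rha98a7604d83e09e2, rhc0fc7017c0a08396, rhf560572d1bf302d3] (by decide +kernel))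
noncomputable def rh7e01063a2c3d9f95 : CRef := CRef.mk (Pat.mk 0xe00000018000000000000000000000000 0x30000000380000003f0000001e0000001f0000003b0000003a00000012 7 6) 0 0 (step_sound _ 132 [rh0e49c6479123d39e, (rha98a7604d83e09e2.shift 0 1), (rhc0fc7017c0a08396.shift 0 1), rhe34a1c258d6aede1] (by decide +kernel))
noncomputable def rhe46518009099d575 : CRef := CRef.mk (Pat.mk 0x40000002c0000000800000008000000000000000000000000 0x280000002c0000002f0000007c0000003f000000370000001400000004 7 7) 0 0 (step_sound _ 132 [rh13b0e6b5298d4cfa, (rhcef2e169e61d8e2d.shift 1 1), (rhdeca8db941583de2.shift 0 4)] (by decide +kernel))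
noncomputable def rh54b98e1e5f485867 : CRef := CRef.mk (Pat.mk 0x4000000040000002c00000008000000000000000000000000 0x780000007c0000006c0000003f0000007c000000760000007600000056 7 7) 0 0 (step_sound _ 101 [(rh8c25cb665ab79ec0.shift 0 3), (rh8f0056e2861f9709.shift 1 0), (rha6816dee951f7ee6.shift 2 3), (rhc13b8275d62a523b.shift 1 0)] (by decide +kernel))
noncomputable def rh084f9cdf04287bac : CRef := CRef.mk (Pat.mk 0x40000000c00000008000000000000000000000000 0x3e0000003e0000000f0000000c0000000c000000060000000600000006 7 6) 0 0 (step_sound _ 194 [(rh2145e1d24b96a57e.shift 2 3), rhea6a3e1acb4dff2b] (by decide +kernel))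
noncomputable def rh2095657b577cfaf2 : CRef := CRef.mk (Pat.mk 0x800000018000000100000001000000000 0x3000000030000000340000001f0000001f000000f80000003e0000002e 7 8) 0 0 (step_sound _ 132 [(rh2e613271d4582ec0.shift 3 0), rh37ee672a86f8c995, (rhd742e99cd55c0932.shift 1 0), (rhedf6a18f6f88178e.shift 1 0), (rhfe3da786f6345b6b.shift 3 0)] (by decide +kernel))
noncomputable def rh0413e58b4da5c19c : CRef := CRef.mk (Pat.mk 0x600000003800000000000000000000000000000000 0x780000007c0000007c000000f80000003e0000003f0000001c00000008 7 8) 0 0 (step_sound _ 100 [(rh60a6f7364c9801a6.shift 2 2), rha591e3158bca7b02, (rhcf80391c5046a495.shift 4 1), (rhf91b1398c815afd2.shift 4 1), (rhf9366b6a121593ef.shift 4 1)] (by decide +kernel))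
noncomputable def rhf9608739eff42b06 : CRef := CRef.mk (Pat.mk 0x180000000e000000000000000000000000 0x3000000030000001f0000003e0000007f0000003400000030 7 7) 0 0 (step_sound _ 100 [(rh3f38de6b95fe6c30.shift 0 1), (rh89813eb7e46c5c2d.shift 0 1), (rhc6ebdb02f2c2b584.shift 0 2), rhe1d6434dd39ac9e4] (by decide +kernel))
noncomputable def rh52a02e7b1b221c52 : CRef := CRef.mk (Pat.mk 0xc000000040000000400000000 0x40000000e0000000e0000000e0000000c0000000f0000003e0000003a 7 6) 0 0 (step_sound _ 130 [(rh0a1276863f86678c.shift 1 0), rh61dc55d5e9fb84f4, (rh91429c40af715d36.shift 1 0), (rhd7cb8ed87e2022d8.shift 1 0), (rhf5f21a325060f1ca.shift 1 0)] (by decide +kernel))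
noncomputable def rh69dbcbccc7eb9fcb : CRef := CRef.mk (Pat.mk 0xb000000090 0xe000000fe000001f7 7 9) 0 0 (step_sound _ 38 [rh80b840f1d7bf53f7, (rhe25b0a99195a5d59.shift 4 0)] (by decide +kernel))
noncomputable def rhee62d8c8b1e195e1 : CRef := CRef.mk (Pat.mk 0x580000004800000008000000000000000000000000 0x58000000580000007e0000007f0000007c00000014 7 7) 0 0 (step_sound _ 67 [(rh29f6d70517a8f684.shift 0 1), (rh8aec56c4ee12918c.shift 2 0), (rh8c3839f9b9075f23.shift 3 0), (rh8cdd36b03d57a2f6.shift 2 0)] (by decide +kernel))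
noncomputable def rh6c806305b257ce29 : CRef := CRef.mk (Pat.mk 0xb000000090000000100000000000000000000000000000000 0x10000000170000001f0000003a0000000f0000001b0000001f0000001e0000001e0000001e00000014 7 6) 0 0 (step_sound _ 257 [rh5d1d9d64721da87c, (rhb009278fdd334770.shift 0 4), (rhd549a60e320760ae.shift 0 2)] (by decide +kernel))
noncomputable def rh9253f1abbc890a40 : CRef := CRef.mk (Pat.mk 0x380000009000000000000000000000000000000000 0x2f0000003e000000f70000001e0000001e0000000e0000000a 7 8) 0 0 (step_sound _ 162 [(rh5bb78067c54b222b.shift 1 4), (rh775ca1963e850b80.shift 0 4), (rh928e5cb30776da25.shift 1 0)] (by decide +kernel))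
noncomputable def rh13b7180d7541d2c3 : CRef := CRef.mk (Pat.mk 0x1700000012000000000000000000000000 0x280000003800000038000000350000001f0000001a0000003e0000003a00000020 7 6) 0 0 (step_sound _ 65 [(rh261f868a429ae0e3.shift 0 1), rh8033e608fcf93d08] (by decide +kernel))
noncomputable def rh9a47e5b5e1031eef : CRef := CRef.mk (Pat.mk 0x5800000058000000000000000000000000 0x100000005000000058000000d8000000fc000000ff0000003e 7 8) 0 0 (step_sound _ 68 [(rh170dcf5697840e6b.shift 3 0), (rh1864e4c677b30864.shift 1 0), rh2cf03e78a38b582d, rh45c941cb0a464635, (rh8e05ebcc7978e7fa.shift 3 0), (rhdf47b082306c38f4.shift 2 0)] (by decide +kernel))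
noncomputable def rhafa555fa2a1048b6 : CRef := CRef.mk (Pat.mk 0x1800000018000000080000000000000000 0x10000000100000001f000000ff0000007c0000002000000020 7 8) 0 0 (step_sound _ 164 [(rh5c5e593799055d58.shift 3 2), rh8ab69222bbebc4df] (by decide +kernel))
noncomputable def rhe2a30d43cffd6462 : CRef := CRef.mk (Pat.mk 0x1c000000180000000000000000 0x400000004000000070000001f0000001f0000000b0000000b 7 5) 0 0 (step_sound _ 97 [rh9ec62b339c14daaf, (rhb739f4f82bb681b4.shift 0 2)] (by decide +kernel))
noncomputable def rha3972226d6d63d35 : CRef := CRef.mk (Pat.mk 0x700000006000000000000000000000000 0x40000000400000004000000070000001f0000003e0000000e00000006 7 6) 0 0 (step_sound _ 99 [rh9cd95bcddc4e1dd1, (rhf48373e13d2bc128.shift 0 3)] (by decide +kernel))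
noncomputable def rhdd7055cbc7689a59 : CRef := CRef.mk (Pat.mk 0x180000001800000008000000000000000000000000 0x100000005000000070000001f000000ff0000001f000000070000000700000005 7 8) 0 0 (step_sound _ 161 [rh408238d137f14a18, (rh63973ee2238d2449.shift 1 3), (rh84c02a25cd68aeb0.shift 0 2), (rhcd6baf37b3e5de21.shift 0 4)] (by decide +kernel))
noncomputable def rh6b84bc6e7c4d9b45 : CRef := CRef.mk (Pat.mk 0x1800000038000000000000000000000000 0x140000001f0000003f0000006f0000002c0000002c 7 7) 0 0 (step_sound _ 98 [(rh01672ff4d11ff85a.shift 1 0), (rh0e1512cbacfbd48b.shift 0 2), rh64b325a235d46f0c] (by decide +kernel))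
noncomputable def rhbfb5ae93cd8efb34 : CRef := CRef.mk (Pat.mk 0x100000005800000018000000000000000000000000 0x100000005c000000f8000001ff000000fe000001ff 7 9) 0 0 (step_sound _ 35 [rh740b007b6bf97667, (rh9e3edb185cc347de.shift 3 1)] (by decide +kernel))
noncomputable def rha432b88664897657 : CRef := CRef.mk (Pat.mk 0x1800000038000000000000000000000000 0x600000006000000060000001e0000003f0000007f0000000c0000000c 7 7) 0 0 (step_sound _ 130 [rh57916e7191924ec0, (rhb739f4f82bb681b4.shift 1 3)] (by decide +kernel))
noncomputable def rh560c420e5d44cfab : CRef := CRef.mk (Pat.mk 0x1800000018000000080000000000000000 0x180000003c0000001f0000007c0000007c 7 7) 0 0 (step_sound _ 35 [(rh71222050f2c63a3a.shift 3 0), rh96ec8fd8c493d17a] (by decide +kernel))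
noncomputable def rh9cc1ebe6adba144f : CRef := CRef.mk (Pat.mk 0x580000001800000008000000000000000000000000 0x100000005000000058000000ff000001ff000000f70000003400000024 7 9) 0 0 (step_sound _ 228 [rh87207d5568a8053d, (rhee230b994cc8b773.shift 3 3)] (by decide +kernel))
noncomputable def rh5dc3aa472b02d75a : CRef := CRef.mk (Pat.mk 0xc0000000c000000000000000400000000 0xa0000000e0000000c0000000f0000003e0000003a 7 6) 0 0 (step_sound _ 66 [(rh2f68792b6b779e96.shift 2 1), rhe718d6eb78dbc521] (by decide +kernel))
noncomputable def rh861c0accd35fad1b : CRef := CRef.mk (Pat.mk 0xc0000000c000000000000000400000000 0x20000000e0000000c0000000f0000003e0000003e 7 6) 0 0 (step_sound _ 66 [(rh71222050f2c63a3a.shift 2 0), rhe718d6eb78dbc521] (by decide +kernel))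
noncomputable def rh1f9e8110a3d5ce35 : CRef := CRef.mk (Pat.mk 0x3000000030000000000000001000000000 0x6000000260000003e0000003e000001ef000000fe000001ff 7 9) 0 0 (step_sound _ 99 [(rh17138c9775c4b3bb.shift 1 0), rh33fb4d581ffdedf3, (rh640f7d27b4b363ce.shift 1 0), (rhbb7213d4724395ac.shift 1 1)] (by decide +kernel))
noncomputable def rh487b1afaa0f1e283 : CRef := CRef.mk (Pat.mk 0x1800000038000000000000000000000000 0x10000000100000001f0000003f000000760000002000000020 7 7) 0 0 (step_sound _ 129 [(rhab22b5b56e7b3243.shift 1 3), rhde9b6ff2a9fa0924] (by decide +kernel))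
noncomputable def rh963e954187d4de2e : CRef := CRef.mk (Pat.mk 0x380000006000000000000000000000000000000000 0x1c0000001f000000780000007f0000001c0000001c0000001c00000014 7 7) 0 0 (step_sound _ 131 [(rh3818acfe606469fd.shift 2 0), (rha17e700762ae999e.shift 0 1), (rhc516de0a53f15488.shift 2 0), (rhf0f55c4504412200.shift 0 4)] (by decide +kernel))
noncomputable def rh819b9a4a15380371 : CRef := CRef.mk (Pat.mk 0x10000000f000000000 0x37000000fe000001ce 7 9) 0 0 (step_sound _ 7 [rh581c3e0ee06c10ae, (rhe25b0a99195a5d59.shift 4 0)] (by decide +kernel))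
noncomputable def rh8060fc09b96a427d : CRef := CRef.mk (Pat.mk 0x200000002000000160000001000000000000000000000000000000000 0x2000000032000000360000001e000000f40000003f0000007c0000002800000008 7 8) 0 0 (step_sound _ 98 [rh02a9e283a01f6ce3, (rh3b5346b2e316d790.shift 1 2)] (by decide +kernel))
noncomputable def rh013aed1a046daf0b : CRef := CRef.mk (Pat.mk 0x4000000040000002c00000020000000000000000000000000 0x40000000700000007c0000006c0000003f000000380000007c0000007800000050 7 7) 0 0 (step_sound _ 165 [(rh18d535efac7ae8c3.shift 2 0), (rh9548c07d1d1f2a1b.shift 2 2), (rhaa12a0717d8bf97a.shift 1 1), (rhcbfc68714a7b5008.shift 0 1), (rhcd84dddaa7d402a3.shift 2 0)] (by decide +kernel))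
noncomputable def rh3e18215144d4435e : CRef := CRef.mk (Pat.mk 0x2000000020000001600000010000000000000000000000000000000000000000000000000 0x280000003e00000036000000160000007c000000ff000000fe00000038000000380000003800000028 7 8) 0 0 (step_sound _ 164 [(rh082d3a3a549ef919.shift 1 3), (rh114a8dd312f9ed17.shift 1 1), (rh354ce0c995277d71.shift 1 4), (rh7d87331220ddfdae.shift 1 2), (rh901f36cd51f6ab01.shift 1 3), (rh9601c39a822121e4.shift 1 2), (rhb315a85a512e425b.shift 1 4), (rhb9b22c29b5c4bbe2.shift 0 2), (rhdd92da0b921c6b75.shift 0 1), (rhf33c3346852eb168.shift 1 0)] (by decide +kernel))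
noncomputable def rhadfc8943d65ac1e6 : CRef := CRef.mk (Pat.mk 0xa0000001a000000000000000000000000 0x1800000018000000380000001f0000001b000000300000003000000030 7 6) 0 0 (step_sound _ 130 [rh079294ef3843c9e4, (rhb739f4f82bb681b4.shift 0 3)] (by decide +kernel))
noncomputable def rhc23f6eb63da853fe : CRef := CRef.mk (Pat.mk 0xa0000001a000000000000000000000000 0x3800000038000000380000001e0000001f000000300000003000000030 7 6) 0 0 (step_sound _ 132 [(rh2571e002cf8ced3e.shift 1 0), rhbcde27d809ea301f, (rhda02c4ce0b224328.shift 0 3)] (by decide +kernel))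
noncomputable def rh47d06f803397c215 : CRef := CRef.mk (Pat.mk 0x200000000000000028000000600000000000000000 0x58000000f80000007c0000003f0000006c0000004400000004 7 8) 0 0 (step_sound _ 133 [(rh55afc6a59410cf00.shift 5 1), rhd6bdafc111df190e] (by decide +kernel))
noncomputable def rh992ad8ac5bfb98fe : CRef := CRef.mk (Pat.mk 0x200000000000000028000001600000000000000000 0x1000000010000003ff000001fe000003df0000017c0000016c0000000c0000000c 7 10) 0 0 (step_sound _ 164 [rh2236d678346e41a4, (rh34cc191a9b026198.shift 1 2), rh5af38850ce216c33, (rh7edd4704d75d1850.shift 1 2), (rh8349f4d047af5f60.shift 2 0), (rh9bebfcd90360ae12.shift 0 2), (rha1e349017fbd7d29.shift 2 2), (rhbcc9cf275db873ab.shift 0 2), (rhe4c0edfad7684a5c.shift 1 2)] (by decide +kernel))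
noncomputable def rh1bec56d117fd4aa6 : CRef := CRef.mk (Pat.mk 0x3800000060000000000000000000000000 0x140000005c0000007c000000fc000001ff0000007800000070000000d0000000d0000000c0 7 9) 0 0 (step_sound _ 163 [(rh003009ba70030ade.shift 2 0), (rh08975c65ea0b4b7d.shift 0 1), (rh63cac7fc6e8da7e7.shift 2 0), (rhf60aa8aede119d3b.shift 0 4)] (by decide +kernel))
noncomputable def rh0871c99603043602 : CRef := CRef.mk (Pat.mk 0x80000006800000000000000000000000000000000 0x40000001c0000001c0000003c0000000f0000007c0000001c0000001c0000001c00000014 7 7) 0 0 (step_sound _ 162 [(rh5419adcd928dba20.shift 2 4), rhda25147164b63d92] (by decide +kernel))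
noncomputable def rhae94b112a1ecd8a9 : CRef := CRef.mk (Pat.mk 0x2800000068000000000000000000000000 0x540000007c0000007f0000007c0000006f0000006c0000005c0000005c00000054 7 7) 0 0 (step_sound _ 165 [(rh046c5eb18e55a239.shift 5 0), (rh14e0829dc73b6804.shift 4 2), rhd4c1ba04cb92d80b] (by decide +kernel))
noncomputable def rh17347e41b7f37c7f : CRef := CRef.mk (Pat.mk 0x140000003400000000000000000000000000000000 0xa0000001e0000001e000000340000003e0000006f0000007e0000002a00000008 7 7) 0 0 (step_sound _ 101 [(rh06fff1f39171959d.shift 1 0), (rh36062883057175d6.shift 0 3), (rha40d42a2e34c408d.shift 4 1)] (by decide +kernel))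
noncomputable def rh09c0c59504450ae9 : CRef := CRef.mk (Pat.mk 0x50000000d0000000000000000000000000 0x1800000038000000f7000000fe000001bf000000b0000000b0 7 9) 0 0 (step_sound _ 101 [(rh1f3457966fbb2589.shift 2 0), (rh399e9b75af826177.shift 3 0), (rh4c063b89d42a2070.shift 2 2), (rh904a68b3af65663a.shift 0 2)] (by decide +kernel))
noncomputable def rh3c14758db1b2e75f : CRef := CRef.mk (Pat.mk 0xa0000001a000000000000000000000000 0xb0000000f0000001e0000001e000000370000001600000016 7 6) 0 0 (step_sound _ 68 [rh663eda5194fae33c, (rha40d42a2e34c408d.shift 3 0), rhc4a4d2ad9cd68f45] (by decide +kernel))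
noncomputable def rh672e5ec084d1aedf : CRef := CRef.mk (Pat.mk 0x140000003400000000000000000000000000000000 0xa0000001e0000001f0000001c0000003e0000006e0000000e0000000e0000000a 7 7) 0 0 (step_sound _ 98 [(rh712b6e7d90bff97a.shift 1 0), (rh8570a33ad083cab6.shift 0 1), (rh8bd96f5b419af924.shift 1 1), (rhad3b8c8d5ef4cf3e.shift 1 0)] (by decide +kernel))
noncomputable def rh2cee4750d21868a9 : CRef := CRef.mk (Pat.mk 0x50000000d000000000000000000000000000000000 0x7800000078000000f7000000fe0000003f000000380000003800000018 7 8) 0 0 (step_sound _ 133 [(rh090b4962a8ea1743.shift 3 0), (rh4c063b89d42a2070.shift 2 3), (rh7f0f728c796044ac.shift 1 3), (rhb7d3270c0e378e75.shift 3 1), (rhdda18f14314c6e63.shift 0 3)] (by decide +kernel))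
noncomputable def rh809a1253f2420189 : CRef := CRef.mk (Pat.mk 0x2800000068000000000000000000000000 0x100000001c0000007c000000ff000000ff000000780000006c0000005c0000005c00000054 7 8) 0 0 (step_sound _ 163 [rh1fbeb11103e992d8, (rh3b715f2a33042916.shift 0 1), rh45fc2747d8f982ed, (rh52da073bee7ff9eb.shift 1 0), (rh659eb6aa1e5d49ed.shift 2 0), rh754b3e9140074007, (rhd8b25551300d05b1.shift 2 0)] (by decide +kernel))
noncomputable def rh40e0c8b0874e2bff : CRef := CRef.mk (Pat.mk 0x50000000d0000000000000000000000000 0x5000000070000000f7000000fe000001bf000000b0000000b0 7 9) 0 0 (step_sound _ 101 [(rh1f3457966fbb2589.shift 2 0), (rh4c063b89d42a2070.shift 2 2), (rh904a68b3af65663a.shift 0 2), (rhe0b31598095804a5.shift 3 0)] (by decide +kernel))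
noncomputable def rhbcdfe97cbbee9280 : CRef := CRef.mk (Pat.mk 0xc0000006000000000000000000000000000000000 0x40000001c0000001c0000003c0000000f0000007c0000001c0000001c0000001c00000014 7 7) 0 0 (step_sound _ 131 [(rh5419adcd928dba20.shift 2 4), rhda25147164b63d92] (by decide +kernel))
noncomputable def rhc8e6e99051961d3c : CRef := CRef.mk (Pat.mk 0x18000000180000000800000000 0xc0000001c0000001f0000001f000000780000001e00000010 7 7) 0 0 (step_sound _ 131 [rh29ced3c447a99b4d, (rh55a1f6c57a317ce6.shift 3 0), (rh90b823c913a425e8.shift 2 1)] (by decide +kernel))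
noncomputable def rh9f65e75e8fb3d228 : CRef := CRef.mk (Pat.mk 0xc0000000c000000080000000000000000 0x80000000c0000000f0000007c0000001c0000001c 7 7) 0 0 (step_sound _ 35 [rh7117344086adf9af, (rh7b1f1fb55310c477.shift 2 0)] (by decide +kernel))
noncomputable def rheb9ec557e6a20437 : CRef := CRef.mk (Pat.mk 0x600000006000000020000000000000000 0x400000006000000070000003e0000003f0000000c0000000c 7 6) 0 0 (step_sound _ 162 [rh19e0ed46435ffa08, (rh5c5e593799055d58.shift 1 2)] (by decide +kernel))
noncomputable def rh1525fb0628cce104 : CRef := CRef.mk (Pat.mk 0xc0000000c000000080000000000000000 0x20000000f0000003c0000000e0000007c0000001c 7 7) 0 0 (step_sound _ 35 [(rh7b1f1fb55310c477.shift 2 0), rh95b1b627a42fdd18] (by decide +kernel))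
noncomputable def rh3f9c63b3d912531e : CRef := CRef.mk (Pat.mk 0xc0000000c000000080000000000000000 0x4000000060000000f0000007e0000007f0000003400000014 7 7) 0 0 (step_sound _ 162 [(rh2145e1d24b96a57e.shift 2 2), rh5b43b97f0bb60d71] (by decide +kernel))
noncomputable def rh3d2451c52b67fe55 : CRef := CRef.mk (Pat.mk 0x40000002c0000000c00000000000000000000000000000000 0x8000000080000002c0000002c0000002f0000007c000000380000001000000010 7 7) 0 0 (step_sound _ 99 [rh6923ec868440dab3, (rh7b1f1fb55310c477.shift 2 2)] (by decide +kernel))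
noncomputable def rhe19a836095b72aa7 : CRef := CRef.mk (Pat.mk 0x3800000030000000000000000000000000 0xff0000007e0000003f00000038000000fe000000540000001000000010 7 8) 0 0 (step_sound _ 197 [(rh372b992859050e31.shift 3 2), (rh746067a60ac8ead7.shift 0 2), (rhb8fddd58ad9026ec.shift 4 2), (rhd9907c6fa023d767.shift 3 0)] (by decide +kernel))
noncomputable def rhe0a52f06a00dcf6c : CRef := CRef.mk (Pat.mk 0x1800000018000000080000000000000000 0x8000000180000003c0000001f0000001c0000001c 7 6) 0 0 (step_sound _ 35 [(rh71222050f2c63a3a.shift 3 0), rh832214c8bfb029d7] (by decide +kernel))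
noncomputable def rhd3ad7570e04482d6 : CRef := CRef.mk (Pat.mk 0x1800000018000000000000000000000000 0x1800000018000000180000003c000000ff0000003e00000038 7 8) 0 0 (step_sound _ 68 [(rh36a6df2b3dd177a0.shift 1 0), (rh3cb04db3dd2b6a55.shift 3 0), rhd901206d497fba4d] (by decide +kernel))
noncomputable def rh45ebb5574bfcf660 : CRef := CRef.mk (Pat.mk 0x600000006000000020000000000000000 0x20000000600000006000000070000003f0000000f 7 6) 0 0 (step_sound _ 33 [(rh71222050f2c63a3a.shift 1 0), rhf612971067a4160f] (by decide +kernel))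
noncomputable def rhaacbc26ca10d836c : CRef := CRef.mk (Pat.mk 0x2c0000000c00000008000000000000000000000000 0x80000000c0000002c0000002c0000002f0000007c000000300000001000000010 7 7) 0 0 (step_sound _ 194 [(rh2145e1d24b96a57e.shift 2 3), rh6923ec868440dab3] (by decide +kernel))
noncomputable def rh622efe1f4a6c8030 : CRef := CRef.mk (Pat.mk 0x5800000018000000000000000000000000 0x480000005f000000ff000000e70000002400000024 7 8) 0 0 (step_sound _ 101 [rh513c0b2cf11728aa, (rh70c6b6c826784699.shift 2 0), (rh79b3c29022acbdf3.shift 2 3)] (by decide +kernel))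
noncomputable def rh5d3fa09e2e98c6ef : CRef := CRef.mk (Pat.mk 0x38000000100000001000000000 0xff0000007e0000003f0000003e000000760000003000000020 7 8) 0 0 (step_sound _ 165 [(rh7451f34b061ea69b.shift 4 1), (rhb009278fdd334770.shift 4 1), (rhd932d223c9e56252.shift 4 1), rhffde72ddfd4a3747] (by decide +kernel))
noncomputable def rhd02cbfb217ca1151 : CRef := CRef.mk (Pat.mk 0x38000000100000000000000000 0x80000000f0000003e0000007f0000000600000006 7 7) 0 0 (step_sound _ 98 [(rh775ca1963e850b80.shift 0 2), (rha03f6e28ea70fc7d.shift 1 2), (rhda7d1e246a276c6f.shift 1 0)] (by decide +kernel))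
noncomputable def rh12b4fe866d47fa27 : CRef := CRef.mk (Pat.mk 0x38000000100000001000000000 0xff0000007e0000003f00000038000000380000003000000020 7 8) 0 0 (step_sound _ 163 [(rh92d527fd57e151ef.shift 3 1), rhbdcb5b8b4bf6b62d, (rhdf6eda84f2eabc48.shift 3 1)] (by decide +kernel))
noncomputable def rha7bd6ce1e976fe89 : CRef := CRef.mk (Pat.mk 0x38000000100000001000000000 0x280000003c0000003c0000003e0000003e0000003f0000001f0000003000000020 7 6) 0 0 (step_sound _ 132 [(rh54e71fcb58017c89.shift 3 1), (rh6e43e9887ec6e5de.shift 0 1), (rh870e4c10eb76f448.shift 3 1), (rhc17b7d8fab3dfe57.shift 3 0), (rhd41c4688bb1ee153.shift 3 0), (rhd45fa81d5cfb9751.shift 3 0), (rhdeff9f7901b67b7d.shift 3 0)] (by decide +kernel))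
noncomputable def rhc31d2aa80b4d98ff : CRef := CRef.mk (Pat.mk 0x1c00000008000000080000000000000000 0x10000000180000001f000000fc000000f80000003000000030 7 8) 0 0 (step_sound _ 100 [(rh6292bd8784ece55f.shift 1 3), (rhcb3e6598d67b4132.shift 2 0), rhe6aacfe85f7225f3] (by decide +kernel))
noncomputable def rheb86adf23b0f4f57 : CRef := CRef.mk (Pat.mk 0x800000018000000080000000800000000 0x170000001f0000001e0000000f0000000c00000004 7 5) 0 0 (step_sound _ 34 [(rh932754581e0f4330.shift 2 0), (rhad40e145b6fd70d7.shift 0 1)] (by decide +kernel))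
noncomputable def rh796994ed9655fcac : CRef := CRef.mk (Pat.mk 0x8000000180000000800000008 0x8000000180000001c0000001f0000001c0000001c00000008 7 5) 0 0 (step_sound _ 98 [rh3316f66cb55958ee, (rh50fbb5868c909700.shift 2 0)] (by decide +kernel))
noncomputable def rh11c66812f801e06e : CRef := CRef.mk (Pat.mk 0x200000006000000020000000200000000 0x40000000600000007000000030000000700000006000000060000000300000001 7 3) 0 0 (step_sound _ 0 [rh79877ebd3ef475dd, (rhc30986a36c402b34.shift 0 1)] (by decide +kernel))
noncomputable def rh64026281cb8af316 : CRef := CRef.mk (Pat.mk 0x800000018000000080000000800000000 0x170000001f0000001e0000000f0000000c00000004 7 5) 0 0 (step_sound _ 130 [(rh50fbb5868c909700.shift 2 1), rhe9e3efd86885797f] (by decide +kernel))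
noncomputable def rh66849a444b1d37bd : CRef := CRef.mk (Pat.mk 0x20000000600000002000000020000000000000000 0x40000000700000007000000030000000600000006000000060000000600000004 7 3) 0 0 (step_sound _ 34 [rh48a009774cd40bae, (rhd3458b32566d63f7.shift 1 1)] (by decide +kernel))
noncomputable def rh59280170108ae34f : CRef := CRef.mk (Pat.mk 0x20000000600000002000000020000000000000000 0x40000000700000007000000030000000600000006000000030000000300000001 7 3) 0 0 (step_sound _ 32 [(rh79877ebd3ef475dd.shift 0 1), rhe70151e18210dfbc] (by decide +kernel))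
noncomputable def rh7253c7cf23958a38 : CRef := CRef.mk (Pat.mk 0xc000000040000000400000000 0xa0000000e0000000e0000000c0000000f0000003e0000003a 7 6) 0 0 (step_sound _ 130 [(rh55a026e6f690bbaf.shift 1 0), rh7297d7527063f333, (rh762a1aeaf83c662a.shift 1 0), (rhc17b7d8fab3dfe57.shift 1 0), (rhd7cb8ed87e2022d8.shift 1 0)] (by decide +kernel))
noncomputable def rhcc245062980faa6d : CRef := CRef.mk (Pat.mk 0x800000008000000180000000800000000 0x1000000018000000180000001c000000ff00000074 7 8) 0 0 (step_sound _ 34 [(rh932754581e0f4330.shift 2 0), rhad0934b22b37e0cb] (by decide +kernel))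
noncomputable def rhb15baf0c4e174b18 : CRef := CRef.mk (Pat.mk 0x200000002000000060000000200000000 0x200000006000000070000000700000007000000070000000300000001 7 3) 0 0 (step_sound _ 0 [(rh47b14c8d210e4def.shift 0 1), rh79877ebd3ef475dd] (by decide +kernel))
noncomputable def rh0c9ee98506dd5425 : CRef := CRef.mk (Pat.mk 0x20000000200000006000000020000000000000000 0x10000000700000007000000060000000600000006000000030000000300000001 7 3) 0 0 (step_sound _ 32 [rh4e2da8ffde709d9e, (rh79877ebd3ef475dd.shift 0 1)] (by decide +kernel))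
noncomputable def rha016bb014f29ae56 : CRef := CRef.mk (Pat.mk 0x20000000200000006000000020000000000000000 0x40000000700000007000000030000000600000006000000030000000300000001 7 3) 0 0 (step_sound _ 32 [rh5f29f14eb2f496c3, (rh79877ebd3ef475dd.shift 0 1)] (by decide +kernel))
noncomputable def rh095df066704a2793 : CRef := CRef.mk (Pat.mk 0x60000000c000000040000000000000000 0xa0000000e0000000c0000000f0000003e0000003a 7 6) 0 0 (step_sound _ 34 [rh022945335250c898, (rh50fbb5868c909700.shift 1 1)] (by decide +kernel))
noncomputable def rhed03b5fb8ef3e670 : CRef := CRef.mk (Pat.mk 0x1800000010000000100000000000000000 0x800000018000000180000003c000000ff0000002e 7 8) 0 0 (step_sound _ 36 [rh0bb2428119dee8d7, (rh50fbb5868c909700.shift 3 1)] (by decide +kernel))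
noncomputable def rhfa07de3497b06ba3 : CRef := CRef.mk (Pat.mk 0xc00000018000000080000000000000000 0x10000000330000001f0000001f0000000f0000000f00000004 7 6) 0 0 (step_sound _ 129 [rha8a3898ade1058e7, (rhb739f4f82bb681b4.shift 0 3)] (by decide +kernel))
noncomputable def rh915d16b10f803709 : CRef := CRef.mk (Pat.mk 0xc000000180000000800000000 0x14000000370000001f0000001f0000000f00000002 7 6) 0 0 (step_sound _ 97 [rh8edd840e5450c0b9, (rhb739f4f82bb681b4.shift 0 2)] (by decide +kernel))
noncomputable def rh50ff9beafed219d9 : CRef := CRef.mk (Pat.mk 0xc00000018000000080000000000000000 0x170000001f0000001c0000000e0000007c00000014 7 7) 0 0 (step_sound _ 35 [(rh50fbb5868c909700.shift 2 1), rhc585ea5d686b41f1] (by decide +kernel))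
noncomputable def rh487489a9737765fd : CRef := CRef.mk (Pat.mk 0x200000006000000020000000000000000 0x500000007000000070000000200000006000000070000000700000005 7 3) 0 0 (step_sound _ 161 [rh8cdd36b03d57a2f6, rhb106de594f87c71e, (rhd4b4beefcd67f51e.shift 1 1)] (by decide +kernel))
noncomputable def rha193d2bc4aa4e82d : CRef := CRef.mk (Pat.mk 0x800000058000000080000000800000000 0x100000005800000058000001f8000000ff000001f4 7 9) 0 0 (step_sound _ 132 [(rh2f68792b6b779e96.shift 3 1), rhf723baab40601734] (by decide +kernel))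
noncomputable def rh3a5b5c8a4729cf85 : CRef := CRef.mk (Pat.mk 0x200000006000000020000000200000000 0x100000007000000070000000600000006000000060000000700000005 7 3) 0 0 (step_sound _ 0 [rh79877ebd3ef475dd, rh8a6cff9a235067f2] (by decide +kernel))
noncomputable def rha84c0eec207934c7 : CRef := CRef.mk (Pat.mk 0xc0000000c000000000000000800000000 0x40000000c0000000f0000007c0000001f00000017 7 7) 0 0 (step_sound _ 67 [(rh50fbb5868c909700.shift 2 1), rhd742e99cd55c0932] (by decide +kernel))
noncomputable def rh7a5c5391dd170b5d : CRef := CRef.mk (Pat.mk 0x2c0000000c000000000000000800000000 0x20000002f0000007e000000f40000007e000000ff 7 8) 0 0 (step_sound _ 34 [rh31baa31b3d46af04, (rh8556ce617a451e36.shift 2 0), rha2d33111dc954f8b, rhedd6f04555dbc405] (by decide +kernel))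
noncomputable def rh0428fd9d76234700 : CRef := CRef.mk (Pat.mk 0x1800000018000000000000000000000000 0xc0000000c0000000c0000001c000000380000001f0000001c0000000c 7 6) 0 0 (step_sound _ 163 [(rh55a1f6c57a317ce6.shift 3 1), rh9edbaaacd1949fa9, (rhdb891aab85de5d49.shift 2 0)] (by decide +kernel))
noncomputable def rh1d6e62e92ca8bc21 : CRef := CRef.mk (Pat.mk 0x80000001800000018000000000000000000000000 0x40000000c0000001c0000001f000000ff000000fc0000000c 7 8) 0 0 (step_sound _ 68 [(rh7b1f1fb55310c477.shift 3 1), rhe35afae26fd02320] (by decide +kernel))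
noncomputable def rha0ffb5052e03d4a9 : CRef := CRef.mk (Pat.mk 0xc0000000c000000080000000000000000 0xc0000000f0000007c0000001f0000001f 7 7) 0 0 (step_sound _ 35 [(rh7b1f1fb55310c477.shift 2 0), rhd742e99cd55c0932] (by decide +kernel))
noncomputable def rh0229a69b6ace6f6b : CRef := CRef.mk (Pat.mk 0x1800000018000000100000000000000000 0x80000000800000018000000ff000000ff0000000400000004 7 8) 0 0 (step_sound _ 163 [(rh2145e1d24b96a57e.shift 3 2), rhc20bf614dbad47bf] (by decide +kernel))
noncomputable def rh7e4f53079f8f5038 : CRef := CRef.mk (Pat.mk 0x8000000180000001800000000 0xc0000000c0000000c0000001f0000003f00000007 7 6) 0 0 (step_sound _ 131 [(rh2145e1d24b96a57e.shift 3 1), rh5aca1e19d8013396] (by decide +kernel))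
noncomputable def rhad5b886cef6414f4 : CRef := CRef.mk (Pat.mk 0x800000018000000180000000000000000 0x2000000020000000f0000001f0000003f0000003600000016 7 6) 0 0 (step_sound _ 36 [(rh7b1f1fb55310c477.shift 3 0), rhe04da3bc8ca60902] (by decide +kernel))
noncomputable def rh0339d4d9000d3804 : CRef := CRef.mk (Pat.mk 0x800000018000000080000000800000000 0x170000001f0000001c0000000e0000007c00000014 7 7) 0 0 (step_sound _ 130 [(rh50fbb5868c909700.shift 2 1), rhc585ea5d686b41f1] (by decide +kernel))
noncomputable def rhbbd854dc2b305b83 : CRef := CRef.mk (Pat.mk 0x200000006000000020000000200000000 0x300000003000000070000000600000006000000030000000700000005 7 3) 0 0 (step_sound _ 2 [rh52e1e841d02c25bb, (rhd3458b32566d63f7.shift 1 0)] (by decide +kernel))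
noncomputable def rhd652f3dcd67a598f : CRef := CRef.mk (Pat.mk 0x80000001800000018000000000000000000000000 0x500000015000000370000001f0000001f0000003f000000170000001700000005 7 6) 0 0 (step_sound _ 129 [(rh6d4e60afcd903d8e.shift 0 1), rhb74aedd3e0c8c30a, (rhcd6baf37b3e5de21.shift 0 3), (rhd52f7a8c90844d66.shift 0 1)] (by decide +kernel))
noncomputable def rh50f4b13c656de75b : CRef := CRef.mk (Pat.mk 0x4000000000000000c0000000c000000000000000000000000 0x40000000c0000000c0000000c000000380000001f0000001c 7 6) 0 0 (step_sound _ 67 [rh36a6df2b3dd177a0, (rh6f1cbe15c631ee70.shift 2 2)] (by decide +kernel))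
noncomputable def rha5df79ab17c4ded6 : CRef := CRef.mk (Pat.mk 0x800000000000000580000001800000000 0x20000001ff000001fe000003d70000005c000000f800000020 7 10) 0 0 (step_sound _ 132 [rh190f50f8cfe53995, (rh4c61a8d65f05c464.shift 3 1), (rha4526ab414a0412b.shift 2 0), (rhfc441f2c09ed4f3e.shift 2 0)] (by decide +kernel))
noncomputable def rh69214e42b9588364 : CRef := CRef.mk (Pat.mk 0x2c0000000c00000008000000000000000000000000 0x40000002c0000002c0000003f00000078000000300000001000000010 7 7) 0 0 (step_sound _ 226 [(rh6f1cbe15c631ee70.shift 2 3), rhc7cd2e91d7001867] (by decide +kernel))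
noncomputable def rh77b284f264cca119 : CRef := CRef.mk (Pat.mk 0x2c0000000d00000000000000000000000000000000 0x2c0000002c0000002f000000780000003f0000001c00000010 7 7) 0 0 (step_sound _ 99 [(rh36a6df2b3dd177a0.shift 0 1), (rh3cb04db3dd2b6a55.shift 2 1), rhca6605344f7259cc] (by decide +kernel))
noncomputable def rh65e8d289571528ea : CRef := CRef.mk (Pat.mk 0x180000001a000000000000000000000000 0x5000000170000003f0000001f0000001f0000001b000000170000001700000015 7 6) 0 0 (step_sound _ 129 [(rh086f6046fa319626.shift 0 3), (rh0c01d91ba3e46555.shift 0 1), rhd4adaf48c529f632, rhe8099882995c63f6] (by decide +kernel))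
noncomputable def rhbb7eb1bc9161fca5 : CRef := CRef.mk (Pat.mk 0x8000000180000001800000000 0x1800000018000000180000001c000000ff00000064 7 8) 0 0 (step_sound _ 131 [(rh2145e1d24b96a57e.shift 3 1), rh5741ae92e0aa0f9c] (by decide +kernel))
noncomputable def rha7e1eae3051dcbd6 : CRef := CRef.mk (Pat.mk 0x80000001800000018000000000000000000000000 0x2000000020000001f0000001f0000007f000000f40000003400000020 7 8) 0 0 (step_sound _ 68 [(rh7b1f1fb55310c477.shift 3 1), rha3bc8fde1705ddca] (by decide +kernel))
noncomputable def rhc1d5a8115d40e00b : CRef := CRef.mk (Pat.mk 0x1e000000020000000000000000 0x50000000700000007000000070000001e000000360000000600000006 7 6) 0 0 (step_sound _ 129 [(rh3244c3cc8379b070.shift 0 3), rh517c20dc31e3a4b6] (by decide +kernel))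
noncomputable def rh5b2431ecaa34bdb7 : CRef := CRef.mk (Pat.mk 0x20000001e00000002000000000000000000000000 0x4000000070000000700000007000000060000001e00000032000000070000000700000005 7 6) 0 0 (step_sound _ 65 [rh8cdd36b03d57a2f6, (rha707fb719e87fe6e.shift 1 1), (rhf33a8cb4f24bd80f.shift 0 1)] (by decide +kernel))
noncomputable def rh4c891b8b51270e40 : CRef := CRef.mk (Pat.mk 0x180000000e000000000000000000000000 0x30000001b0000001f0000001e0000003f0000003c0000003c 7 6) 0 0 (step_sound _ 100 [rh0e503157379b1584, rh2fb7851f2066c386, rh899d6420917dc49f, (rhbbe16ff26f7822db.shift 1 0)] (by decide +kernel))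
noncomputable def rh5873adf55a8721f4 : CRef := CRef.mk (Pat.mk 0x6000000038000000000000000000000000 0x40000000c0000001c0000007f000000780000001f0000001c0000001c 7 7) 0 0 (step_sound _ 131 [(rh12eb4baa7f87f3d6.shift 2 0), (rh2df6e0c6035c44f3.shift 2 0), rh94aac3870eca1fed, (rheb7fec5f3ca5d1b7.shift 2 0), (rhf60aa8aede119d3b.shift 0 3)] (by decide +kernel))
noncomputable def rh0df15f115d7321d7 : CRef := CRef.mk (Pat.mk 0x20000001e00000002000000000000000000000000 0x400000006000000060000001e00000036000000070000000700000005 7 6) 0 0 (step_sound _ 65 [(rh85815cf6b58664df.shift 0 1), rh8cdd36b03d57a2f6, (rha707fb719e87fe6e.shift 1 1)] (by decide +kernel))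
noncomputable def rh4101d2a22a613325 : CRef := CRef.mk (Pat.mk 0x20000000600000002000000000000000000000000 0x500000007000000070000000600000006000000070000000700000001 7 3) 0 0 (step_sound _ 65 [(rh91429c40af715d36.shift 0 1), (rha707fb719e87fe6e.shift 1 1), rhf5c5d32370337121] (by decide +kernel))
noncomputable def rh5699b5a6d867db4b : CRef := CRef.mk (Pat.mk 0x1800000008000000080000000800000000 0x18000000180000003e0000007f00000074 7 7) 0 0 (step_sound _ 36 [rh1a7f387949e50f60, (rh55afc6a59410cf00.shift 3 0)] (by decide +kernel))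
noncomputable def rhdb433150ac3724ff : CRef := CRef.mk (Pat.mk 0x1e00000002000000000000000000000000 0x400000006000000070000001e00000006000000070000000700000005 7 5) 0 0 (step_sound _ 161 [(rh3244c3cc8379b070.shift 0 4), rh4d6a2612ebfeb13d] (by decide +kernel))
noncomputable def rh681e735b6bb0309e : CRef := CRef.mk (Pat.mk 0x1e000000000000000000000000 0x3000000070000003f0000001e000000070000000600000002 7 6) 0 0 (step_sound _ 65 [rh68290b7da9a13d8b, (rheb0810cc63b001d8.shift 0 2)] (by decide +kernel))
noncomputable def rh5dd640d223b2d1be : CRef := CRef.mk (Pat.mk 0x80000000f00000000000000000000000000000000 0x40000001c0000001c0000001c0000000c0000000f000000180000001c0000001c00000014 7 5) 0 0 (step_sound _ 99 [(rh2b95ce330a9b3a2e.shift 2 0), (rhe25b0a99195a5d59.shift 0 3)] (by decide +kernel))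
noncomputable def rh835d39aa2151bdc8 : CRef := CRef.mk (Pat.mk 0x8000000780000000000000000000000000000000000000000 0x4000000040000001c0000001f000000f80000007c000000180000001c0000001c0000001c00000010 7 8) 0 0 (step_sound _ 227 [(rh046c5eb18e55a239.shift 3 2), rh0bbbe720dc07bd9a, (rh70e33bfdf511e144.shift 3 2), (rh7a01b931a6db6519.shift 2 4)] (by decide +kernel))
noncomputable def rh70686b4d10e1445f : CRef := CRef.mk (Pat.mk 0xe000000180000000000000000 0x300000003c0000003f0000001e0000001f0000001b0000001b 7 6) 0 0 (step_sound _ 100 [rh531cacad9958d8ca, rha98a7604d83e09e2, rhafa8ad03fb07c74b, rhc0fc7017c0a08396] (by decide +kernel))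
noncomputable def rh824161701068d17b : CRef := CRef.mk (Pat.mk 0x90000000f00000000000000000000000000000000 0x40000001c0000001c0000001c0000000f0000000f000000180000001c0000001c00000014 7 5) 0 0 (step_sound _ 99 [rh3139076b15d8b071, (rhe25b0a99195a5d59.shift 0 3)] (by decide +kernel))
noncomputable def rh86e6ad5598f63c8a : CRef := CRef.mk (Pat.mk 0xc00000018000000000000000000000000 0x14000000770000003f0000001f0000000b0000000b00000002 7 7) 0 0 (step_sound _ 129 [rh3ab16a0ea989f385, (rhb739f4f82bb681b4.shift 0 3)] (by decide +kernel))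
noncomputable def rh28da1cdd2b6848e5 : CRef := CRef.mk (Pat.mk 0x800000018000000180000000000000000 0x4000000040000000e000000ff0000001f0000001800000010 7 8) 0 0 (step_sound _ 4 [(rh96d1baa65b121e84.shift 0 1), (rh9e07f76261b05888.shift 3 0)] (by decide +kernel))
noncomputable def rhd289b4ee9f91a8f2 : CRef := CRef.mk (Pat.mk 0xc0000000c000000000000000000000000 0x1c0000001e000000780000001f0000000c0000000c0000000c0000000c 7 7) 0 0 (step_sound _ 163 [(rh1e309b005ffa1b36.shift 2 1), (rh7db208d87386469c.shift 1 2), rhf762cbba6fa7cf86] (by decide +kernel))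
noncomputable def rha832569f8360a8fa : CRef := CRef.mk (Pat.mk 0x200000006000000060000000000000000 0x40000000c0000003f0000003e000000070000000600000004 7 6) 0 0 (step_sound _ 34 [(rh2d62db8bd1705ece.shift 0 1), (rh7b1f1fb55310c477.shift 1 0)] (by decide +kernel))
noncomputable def rhffb604b8162c4d79 : CRef := CRef.mk (Pat.mk 0x80000000c0000002c000000000000000000000000 0x1000000010000000300000007c0000002f0000002c0000002c0000000c00000008 7 7) 0 0 (step_sound _ 66 [rh08cbe09bc716bf6c, (rh71222050f2c63a3a.shift 2 1)] (by decide +kernel))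
noncomputable def rh6a24a4c74def6bc8 : CRef := CRef.mk (Pat.mk 0x18000000180000000000000000 0x400000004000000ef000000ff0000001f0000000800000008 7 8) 0 0 (step_sound _ 101 [rh041ec1996439bb76, (rh30b1045e318f0560.shift 0 2), (rh4dc133ee0ba1420a.shift 1 2)] (by decide +kernel))
noncomputable def rh385a11d9ae8280af : CRef := CRef.mk (Pat.mk 0x38000000180000000000000000 0x2000000020000000760000003f0000001f0000001000000010 7 7) 0 0 (step_sound _ 65 [rh16ad2d6c8dc616da, (rh24ae073cf30720c4.shift 1 2)] (by decide +kernel))
noncomputable def rha4c38b8a0f311ac4 : CRef := CRef.mk (Pat.mk 0x800000008000000080000001800000000 0x1c0000003c0000000f000000780000001800000008 7 7) 0 0 (step_sound _ 68 [(rh2145e1d24b96a57e.shift 3 1), rh4fc2683d0f08f33c] (by decide +kernel))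
noncomputable def rhb7c789d99587c37b : CRef := CRef.mk (Pat.mk 0x200000002000000160000000200000000 0x1d0000001f0000003e0000001f0000000600000004 7 6) 0 0 (step_sound _ 34 [(rh55afc6a59410cf00.shift 1 0), (rh9839decae94601ac.shift 0 1)] (by decide +kernel))
noncomputable def rhc4717b05cfd3ae1f : CRef := CRef.mk (Pat.mk 0x200000002000000060000000200000000000000000000000000000000 0x50000000700000002000000060000000600000007000000070000000700000004 7 3) 0 0 (step_sound _ 224 [(rh50fbb5868c909700.shift 0 4), rh61d1bb5ba34a3d1f] (by decide +kernel))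
noncomputable def rha28de4a5e06cd236 : CRef := CRef.mk (Pat.mk 0x180000000e000000000000000000000000 0x320000003b0000001f0000001e0000003f0000003c00000038 7 6) 0 0 (step_sound _ 100 [rh0e503157379b1584, rh2fb7851f2066c386, (rhc86f4fd2698ba85a.shift 0 1), (rhe93df55a4201268e.shift 0 1)] (by decide +kernel))
noncomputable def rhc1260dfaefed4b09 : CRef := CRef.mk (Pat.mk 0x8000000080000000c00000004000000000000000000000000 0x170000001f0000007c0000000f0000000c000000180000001800000018 7 7) 0 0 (step_sound _ 99 [(rh32c2fef5aa348c66.shift 0 3), (rh82c6aec0c6f8e399.shift 2 0), (rhd9164732ba75fd1b.shift 2 0), (rhdd11e03a2f8b13b6.shift 2 0)] (by decide +kernel))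
noncomputable def rh5bbcbc09c1673f4c : CRef := CRef.mk (Pat.mk 0x80000002c0000000400000004000000000000000000000000 0x4600000056000000760000007c0000003f0000006c0000007e0000007a0000004800000008 7 7) 0 0 (step_sound _ 197 [(rh9f2591205204f08d.shift 2 5), (rha31cdc86c9c772cb.shift 2 0), (rhdbad845edadf662c.shift 1 2), (rhe33d9496e10d8eb0.shift 0 5)] (by decide +kernel))
noncomputable def rh937dae9b5787cef6 : CRef := CRef.mk (Pat.mk 0x80000000c000000040000000400000000 0x600000006000000160000003c0000000f0000000f0000003e0000003a 7 6) 0 0 (step_sound _ 130 [rh42eeeaf8cbfaff8e, (rh43f7aebc74997e86.shift 1 0), (rhea90e7358341a1a4.shift 1 0), rhf18a21e6e7a6c73d] (by decide +kernel))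
noncomputable def rh0e73dd20fcbb3de4 : CRef := CRef.mk (Pat.mk 0x20000001e000000020000000000000000 0x4000000070000000700000007000000060000001e000000360000000700000007 7 6) 0 0 (step_sound _ 33 [rh0429c9071f066fc7, (rha707fb719e87fe6e.shift 1 0), rhae796c826032a322] (by decide +kernel))
noncomputable def rh28aae5a51a9520ec : CRef := CRef.mk (Pat.mk 0x1c00000030000000000000000000000000 0xc0000001c0000001c0000003c0000003f0000003e0000003c00000008 7 6) 0 0 (step_sound _ 163 [rh07962527c61356c4, (rh5d54cb79a67f97ab.shift 3 1), (rh7e1098702e50f2b0.shift 3 1), (rh840a50ebb9b65cf8.shift 1 1), (rha40d42a2e34c408d.shift 3 1)] (by decide +kernel))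
noncomputable def rhd3c7050886528739 : CRef := CRef.mk (Pat.mk 0x20000001e0000000200000000000000000000000000000000 0x50000000700000007000000020000001e0000003600000007000000070000000700000004 7 6) 0 0 (step_sound _ 132 [rh3df0e85aff8338af, (rhe25b0a99195a5d59.shift 1 4)] (by decide +kernel))
noncomputable def rhc2bc69758e491b10 : CRef := CRef.mk (Pat.mk 0xe00000018000000000000000000000000 0x6000000770000003e0000001f000000070000000700000002 7 7) 0 0 (step_sound _ 132 [rh38944da09e6b0442, (rhafa8ad03fb07c74b.shift 0 1), (rhb18e6c78a554867d.shift 0 4), (rhbcdfbe15be8b72fd.shift 0 1)] (by decide +kernel))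
noncomputable def rhe92e0927fe7da6f9 : CRef := CRef.mk (Pat.mk 0x8000000180000000c0000000000000000 0x1800000018000000380000001f0000001f0000001800000018 7 6) 0 0 (step_sound _ 163 [(rh99fe19aac3024111.shift 0 1), (rhca18712e5e5c7b8f.shift 3 0), (rhd4b4beefcd67f51e.shift 3 1)] (by decide +kernel))
noncomputable def rh62cd66cf8e06b8ac : CRef := CRef.mk (Pat.mk 0x8000000180000000c000000000000000000000000 0x1000000018000000180000001f0000007c0000001c00000004 7 7) 0 0 (step_sound _ 97 [(rh403db54d92b08bb3.shift 1 0), (rh53b3c253cb0c65f4.shift 0 3)] (by decide +kernel))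
noncomputable def rh7bf180edc4e0c81f : CRef := CRef.mk (Pat.mk 0x200000006000000020000000200000000 0x60000000600000006000000070000003f0000000d 7 6) 0 0 (step_sound _ 0 [rh79877ebd3ef475dd, rha3746fa128f08036] (by decide +kernel))
noncomputable def rh3e9d1c7de4d29b0f : CRef := CRef.mk (Pat.mk 0x20000000200000006000000000000000000000000 0x40000000700000007000000070000000600000007000000030000000300000002 7 3) 0 0 (step_sound _ 193 [(rh6aa5625770489e83.shift 0 1), (rh8eb288e2ea66037a.shift 0 1), (rhd0d01d2b9e5cc624.shift 0 2), (rhd530ff4f3feedadc.shift 0 1), rhdfd10cc9da38ede8] (by decide +kernel))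
noncomputable def rhb6962de7f6357b3f : CRef := CRef.mk (Pat.mk 0x4000000040000000c000000000000000000000000 0x3a0000003e0000000f0000000c0000000e0000000e0000000e 7 6) 0 0 (step_sound _ 66 [(rh398538c89d4a7d72.shift 0 1), (rh8cdd36b03d57a2f6.shift 1 0), (rheacedd262407fad2.shift 1 0)] (by decide +kernel))
noncomputable def rh88799141b845498b : CRef := CRef.mk (Pat.mk 0x380000006000000000000000000000000000000000 0x380000003e000000fe000000780000007f0000005c0000004c0000004c00000004 7 8) 0 0 (step_sound _ 197 [(rh046c5eb18e55a239.shift 5 1), rhab013d21b440909a, (rhb23658ecdd7ce5df.shift 4 3)] (by decide +kernel))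
noncomputable def rhac125f1a2852a9ed : CRef := CRef.mk (Pat.mk 0x90000000f000000000 0xf7000000fe0000018e 7 9) 0 0 (step_sound _ 7 [rh3d92b62a1b4cc5a5, (rhe25b0a99195a5d59.shift 4 0)] (by decide +kernel))
noncomputable def rh4101b74537c0c53c : CRef := CRef.mk (Pat.mk 0x2000000120000001600000000 0x5000000070000000700000002000000320000001e00000034 7 6) 0 0 (step_sound _ 35 [(rh33e738c4ed385b9f.shift 1 1), rh709711d5cb9c893d] (by decide +kernel))
noncomputable def rh787857ca97c4f2d8 : CRef := CRef.mk (Pat.mk 0x4000000240000002c00000000 0xa0000003e0000003f0000007f0000006c0000003e00000062 7 7) 0 0 (step_sound _ 130 [(rh5af6eb118e13ffba.shift 1 0), (rh9869829a310d6961.shift 0 1), (rhc2588e0111bba9c1.shift 1 0), (rhd62cc330e8a28dc8.shift 1 0)] (by decide +kernel))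
noncomputable def rhbe80dc133771a3b9 : CRef := CRef.mk (Pat.mk 0x1000000090000000b000000000000000000000000 0x140000001e0000001e0000003e0000001f0000001b0000000f0000003a0000001f00000017 7 6) 0 0 (step_sound _ 33 [rh3b5346b2e316d790, rh8ff571457df3cf13, rh9eb2e97fc3aff560] (by decide +kernel))
noncomputable def rh9975a0a3bd979e51 : CRef := CRef.mk (Pat.mk 0x1200000016000000000000000000000000 0x80000002a0000003b0000001e0000001f000000340000003400000014 7 6) 0 0 (step_sound _ 131 [(rh37526e112293ad37.shift 1 0), (rh3ec8ec076f6e0db2.shift 0 3), (rh6cf15cfcfa447745.shift 0 1), rhdcb8aa14549c35dc] (by decide +kernel))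
noncomputable def rhe4fc9966a5b877eb : CRef := CRef.mk (Pat.mk 0x5800000018000000000000000000000000 0x3e0000007f000000fe000000d800000018000000100000001000000010 7 8) 0 0 (step_sound _ 164 [(rh6609c8b2261018fb.shift 1 2), (rh799d8dd471fa94d2.shift 1 2), (rh7db208d87386469c.shift 2 2), (rh9dbc063ae34b2487.shift 1 3), (rhafa7fde1e959f301.shift 3 2), (rhc6901b4ecc8a474f.shift 0 1), (rhf53bfbcd8330112c.shift 3 0)] (by decide +kernel))
noncomputable def rhbcf1e4333962f677 : CRef := CRef.mk (Pat.mk 0xc0000000e000000000000000000000000 0xc0000001c0000003c0000003f0000000e000000080000000800000008 7 6) 0 0 (step_sound _ 132 [(rh18965a982d73c794.shift 1 3), rhb97e6206a97a2a48] (by decide +kernel))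
noncomputable def rhd287d3262d5aeccd : CRef := CRef.mk (Pat.mk 0x80000001800000018000000000000000000000000 0x500000015000000370000001f000000ff0000001f000000170000001700000005 7 8) 0 0 (step_sound _ 97 [rh3310823be38a730e, (rh575d50f69cb144b3.shift 0 1), (rh6d571b54e8dd9e33.shift 0 3), (rhf85bc9858ee6fb4e.shift 1 1)] (by decide +kernel))
noncomputable def rh1c2c9f5ca79fcc31 : CRef := CRef.mk (Pat.mk 0x3800000018000000000000000000000000 0xc0000000c0000000f0000003f0000001f000000060000000600000006 7 6) 0 0 (step_sound _ 130 [(rh0f1a4de7adb62776.shift 1 0), (rh583cd2949503eb8f.shift 0 3), (rhba89ab7cb81bcc90.shift 0 3)] (by decide +kernel))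
noncomputable def rhd96d814e5f0a3cba : CRef := CRef.mk (Pat.mk 0x180000005800000010 0x1ff000000fe000001ff000000f80000005e00000010 7 9) 0 0 (step_sound _ 131 [(rh6f1cbe15c631ee70.shift 3 0), rhee020b5f44b073d3] (by decide +kernel))
noncomputable def rhc192ad8c02b3afda : CRef := CRef.mk (Pat.mk 0x3800000018000000000000000000000000 0xc0000000c0000007e0000003f0000001e000000060000000600000006 7 7) 0 0 (step_sound _ 98 [(rh53b3c253cb0c65f4.shift 1 3), rh76e0c6a262c63c20] (by decide +kernel))
noncomputable def rh6538a682f5a23107 : CRef := CRef.mk (Pat.mk 0x80000001800000018 0x7c0000007c0000001f0000007c00000018 7 7) 0 0 (step_sound _ 99 [(rh2145e1d24b96a57e.shift 3 0), rhe59f1345ef823739] (by decide +kernel))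
noncomputable def rh9b56a7d913ff6566 : CRef := CRef.mk (Pat.mk 0x800000018000000580000000000000000 0x34000000f7000000ff000000ff000000580000005000000010 7 8) 0 0 (step_sound _ 4 [(rh48a1075465f85a8c.shift 0 1), (rh9e07f76261b05888.shift 3 0)] (by decide +kernel))
noncomputable def rh60950afcf52113df : CRef := CRef.mk (Pat.mk 0x4000000000000000c0000000c00000000 0x3a0000003e0000000f0000000c0000000e0000000a 7 6) 0 0 (step_sound _ 98 [(rh55afc6a59410cf00.shift 2 0), rhdb5cb1654c05ec60] (by decide +kernel))
noncomputable def rha8dc5b7fb8620646 : CRef := CRef.mk (Pat.mk 0x4000000000000000c0000000c00000000 0x3e0000003e0000000f0000000c0000000e00000002 7 6) 0 0 (step_sound _ 98 [(rh2145e1d24b96a57e.shift 2 1), rhdb5cb1654c05ec60] (by decide +kernel))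
noncomputable def rhde168714eb3e63b8 : CRef := CRef.mk (Pat.mk 0x100000000000000030000000300000000000000000 0x1ff000000fe000001ef0000003e0000003e0000002600000006 7 9) 0 0 (step_sound _ 99 [(rh47a88073edc5a79c.shift 0 1), (rh8fc8102a12cae270.shift 1 2), (rhaf6a81b3e08a0cbc.shift 1 2), (rhb458910feb3ee319.shift 1 2), (rhcd4d16d28964fbaf.shift 1 0)] (by decide +kernel))
noncomputable def rhcc117b6a7ab1b78f : CRef := CRef.mk (Pat.mk 0x800000018000000180000000000000000 0x20000000200000007c000000ff0000001f0000001000000010 7 8) 0 0 (step_sound _ 36 [(rh00cd90bbe5c9cc68.shift 0 1), (rh7b1f1fb55310c477.shift 3 0)] (by decide +kernel))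
noncomputable def rhe2c82c225a81e40a : CRef := CRef.mk (Pat.mk 0x180000000e000000000000000000000000 0x32000000370000001f0000001e0000003f0000003e0000003a 7 6) 0 0 (step_sound _ 100 [rh0e503157379b1584, rh985b564f2c18451d, rhab5eeb9ff42099e0, (rhe93df55a4201268e.shift 0 1)] (by decide +kernel))
noncomputable def rh312d01ca4cb393cf : CRef := CRef.mk (Pat.mk 0x80000000b000000010 0x1ce000000fe00000037 7 9) 0 0 (step_sound _ 38 [(rh33e738c4ed385b9f.shift 4 1), rh6e6b50710d33e3c7] (by decide +kernel))
noncomputable def rh7f40149e5f5f9d85 : CRef := CRef.mk (Pat.mk 0x80000000b000000010000000100000000 0x4000000140000001e0000001f0000007a0000000f0000001b0000001900000010 7 7) 0 0 (step_sound _ 161 [rha1f97258f66dad78, (rhb009278fdd334770.shift 0 1)] (by decide +kernel))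
noncomputable def rh6485b2e55ba9765a : CRef := CRef.mk (Pat.mk 0x100000001600000002000000020000000000000000 0x280000003c0000003e0000001c0000001f000000360000003a0000003800000028 7 6) 0 0 (step_sound _ 100 [(rh7004e0a8c598abb6.shift 0 1), (rh9765e413c7f50252.shift 1 0), (rhd3489b46d8aacf69.shift 1 0), (rhe039d27f63c82531.shift 1 2)] (by decide +kernel))
noncomputable def rh43b632ddd08f442e : CRef := CRef.mk (Pat.mk 0x1000000016000000020000000200000000 0x28000000380000003800000038000000fe000000ff000000fc00000016000000360000003200000020 7 8) 0 0 (step_sound _ 164 [(rh0dd8ec4eca3d0437.shift 0 1), (rh14731c9d267d89b5.shift 0 1), (rh2c2ec980cbdd966d.shift 1 0), (rh4c4098e8a4e70532.shift 1 1), (rh7e07827f2e342b81.shift 1 0), (rh85a479b3b29d2fea.shift 1 2), (rh91e89503dcfa7603.shift 3 0), (rha1abe84bb644bbad.shift 1 0), (rhda9a8b0efdf7c575.shift 1 1), (rhdcfee4e2b4c66533.shift 1 1)] (by decide +kernel))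
noncomputable def rh1d3ad7d03a0b2d39 : CRef := CRef.mk (Pat.mk 0x1a0000000a000000000000000000000000 0x3000000030000000300000001b0000001f000000380000001800000018 7 6) 0 0 (step_sound _ 98 [(rh53b3c253cb0c65f4.shift 0 3), rh5c6d4e4b6729a1f0] (by decide +kernel))
noncomputable def rh458e8a02054bfba8 : CRef := CRef.mk (Pat.mk 0x1a0000000a000000000000000000000000 0x3000000030000000300000001f0000001e000000380000003800000038 7 6) 0 0 (step_sound _ 100 [rh2447edb8dfa9fe34, (rh687fb10dc768ee8c.shift 1 0), (rhd8be3b7ca6adb62f.shift 0 3)] (by decide +kernel))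
noncomputable def rh8c3f72a8762b083f : CRef := CRef.mk (Pat.mk 0x300000000600000000000000000000000000000000 0xa0000000e0000000e0000003e000000070000003e0000000e0000000e00000002 7 6) 0 0 (step_sound _ 162 [(rhb2a0b9ccfb5cecd5.shift 1 4), rhbdb23743a00d1810] (by decide +kernel))
noncomputable def rh577f8466712c7604 : CRef := CRef.mk (Pat.mk 0x300000001400000000000000100000000000000000 0x22000000360000003f0000003e0000007c0000002c00000008 7 7) 0 0 (step_sound _ 100 [(rh2f68792b6b779e96.shift 4 2), rh7bf73640d3b2e540] (by decide +kernel))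
noncomputable def rh31e572803fcd7b47 : CRef := CRef.mk (Pat.mk 0x160000000280000000000000020000000000000000000000000 0x80000016c0000017c000003df000001fe000003ff0000001400000010 7 10) 0 0 (step_sound _ 100 [rh33c34a2d9c908f91, rh437efb4df994e945, rh4bad496999be50c9, (rh5ce578ce227ae3d3.shift 0 1), (rh71fbd2f94e25c40e.shift 2 2), (rhc13aa18277e2876c.shift 0 2), (rhe6af401aa1f6ed0e.shift 2 2), (rheacd287c8bd0b14d.shift 1 2)] (by decide +kernel))
noncomputable def rh32202d7597e21e7f : CRef := CRef.mk (Pat.mk 0x60000000380000000000000000000000000000000000000000 0xc0000000c0000000d00000007000000078000001ff000000fc0000007c0000005c00000014 7 9) 0 0 (step_sound _ 131 [(rhb0328bf92ef38aef.shift 2 1), rhdb6537c5dbb0c8d8, (rhf0f55c4504412200.shift 0 4), (rhf43f79ca50336d91.shift 2 2)] (by decide +kernel))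
noncomputable def rhb43b949359068807 : CRef := CRef.mk (Pat.mk 0x340000000400000000000000000000000000000000 0xa0000000e0000000e0000003e000000070000003e0000000e0000000e00000002 7 6) 0 0 (step_sound _ 129 [(rhb2a0b9ccfb5cecd5.shift 1 4), rhbdb23743a00d1810] (by decide +kernel))
noncomputable def rh64d884d79074c724 : CRef := CRef.mk (Pat.mk 0x340000001400000000000000000000000000000000 0xa0000000e0000002e00000036000000370000003e0000003f0000003e0000002a 7 6) 0 0 (step_sound _ 100 [(rh15590a39afd9a120.shift 3 0), rh1d5bfa1bd10682c5, (rh3820f35d5e705bec.shift 4 0), (rhffb8e5993241bf15.shift 3 0)] (by decide +kernel))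
noncomputable def rh92b77a19ac7edef6 : CRef := CRef.mk (Pat.mk 0x3400000014000000000000000000000000 0x80000002a0000007e0000006f0000003e000000340000001e0000001e0000000a 7 7) 0 0 (step_sound _ 165 [(rha1c9c4ff6128330d.shift 1 0), (rhc6d97e87e239aaa7.shift 0 3), (rhcf80391c5046a495.shift 4 1)] (by decide +kernel))
noncomputable def rhc432085876c2a708 : CRef := CRef.mk (Pat.mk 0xd000000050000000000000000000000000 0x3000000030000001bf000000fe000000f70000003c0000003800000018 7 9) 0 0 (step_sound _ 133 [(rh4f8edb321cf5b49d.shift 2 3), (rh554009a2f490582e.shift 0 3), (rh8541c1118a66360a.shift 2 0), (rhb2afcb5db661472f.shift 1 3), (rhf6ae01779605d33d.shift 3 1)] (by decide +kernel))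
noncomputable def rh519946d9da06d75b : CRef := CRef.mk (Pat.mk 0x1a0000000a0000000000000000 0x1600000016000000370000001e0000001e0000000f0000000f 7 6) 0 0 (step_sound _ 132 [rh07993ee57ad7f2d1, rh35ebc9b0ff9fdc9f, (rhcf80391c5046a495.shift 3 0)] (by decide +kernel))
noncomputable def rh62945dbf321cafab : CRef := CRef.mk (Pat.mk 0x1a0000000a000000000000000000000000 0x70000000700000007000000170000001f0000000e0000000f0000000f0000000d 7 5) 0 0 (step_sound _ 161 [(rh40ab251310aa27c7.shift 0 1), rh4fb505962e0453a1, rh8b37cb65627f8d57, rhfb24f9e5e729af53, rhfd0e11092a1ca0cb] (by decide +kernel))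
noncomputable def rh6f57a60ded81698f : CRef := CRef.mk (Pat.mk 0xd0000000500000000000000000 0x1800000038000000380000003f000000fe000000f70000007800000078 7 8) 0 0 (step_sound _ 101 [(rh4f8edb321cf5b49d.shift 2 2), (rh554009a2f490582e.shift 0 2), (rh7aa33ac17843d981.shift 3 0), (rh87ca7af6d3ad336e.shift 3 0), (rhb2afcb5db661472f.shift 1 2)] (by decide +kernel))
noncomputable def rh24aa77844cfb6ef9 : CRef := CRef.mk (Pat.mk 0x68000000280000000000000000000000000000000000000000 0x540000005c0000005c0000006c00000078000000ff000000ff000000fc0000001c00000014 7 8) 0 0 (step_sound _ 131 [(rh09e068874c118f83.shift 0 1), (rh13953f598edca916.shift 2 2), (rh6ddadbbf205209c9.shift 2 2), (rh8ea24082e2eb6e0b.shift 0 2), (rh9a1fa2eb22a2ccf9.shift 1 0), (rhb79014dc6adecfdf.shift 1 3), (rhdb02979a25b3f450.shift 2 1), (rhfdc52892caee784c.shift 2 2)] (by decide +kernel))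
noncomputable def rhe743a5324cad0c40 : CRef := CRef.mk (Pat.mk 0x340000001400000000000000000000000000000000 0x280000002c0000006f0000003e0000003c0000001e0000001e0000000600000002 7 7) 0 0 (step_sound _ 163 [rh1a328f92c0781375, (rh4f8edb321cf5b49d.shift 0 4), (rh88ab48d76511735c.shift 1 2), (rha93e53e7ff5202e5.shift 1 2), (rha95d08f4398e77ca.shift 1 2)] (by decide +kernel))
noncomputable def rh8a16a62594fd5cc0 : CRef := CRef.mk (Pat.mk 0x300000001600000000000000000000000000000000 0xa0000000e0000000e0000003e000000370000001e0000000e0000000e00000002 7 6) 0 0 (step_sound _ 162 [rh3ba93e79b93c080b, (rhb2a0b9ccfb5cecd5.shift 1 4)] (by decide +kernel))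
noncomputable def rhc491596abc3e9509 : CRef := CRef.mk (Pat.mk 0x80000001800000018000000000000000000000000 0x100000001c000000f80000001f0000001f0000001c0000000c 7 8) 0 0 (step_sound _ 67 [(rha211d01cabb9a959.shift 0 1), (rhbb83b53687587fb2.shift 2 0), (rhea7a1800d6f053bd.shift 3 0)] (by decide +kernel))
noncomputable def rhda73b6b2287c2f9f : CRef := CRef.mk (Pat.mk 0x10000000180000001800000000 0x38000000780000001e000000380000001f00000004 7 7) 0 0 (step_sound _ 132 [rh3ff576ab9a9b8a15, (rh5c5e593799055d58.shift 3 1)] (by decide +kernel))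
noncomputable def rheacf3f10d376cc8b : CRef := CRef.mk (Pat.mk 0x1000000018000000180000000000000000 0x20000000680000007e000000ff0000001e0000000c0000000c 7 8) 0 0 (step_sound _ 35 [rh2c2746d59b8ec4d9, (rh71222050f2c63a3a.shift 3 0)] (by decide +kernel))
noncomputable def rh4f8e1e9192e1a110 : CRef := CRef.mk (Pat.mk 0xc0000002c000000040000000000000000 0x1000000010000000380000007c0000002f0000002c0000002c0000000800000008 7 7) 0 0 (step_sound _ 163 [rh08cbe09bc716bf6c, (rh5c5e593799055d58.shift 2 2)] (by decide +kernel))
noncomputable def rh8883949c8064ab5b : CRef := CRef.mk (Pat.mk 0x3000000038000000000000000000000000 0xce000000fe000000380000003f000000fe000001ff 7 9) 0 0 (step_sound _ 36 [rh715031eb40333aa9, (rh83fe195d1da49e28.shift 3 0), (rha6dcf5687a38bd63.shift 1 0), (rhafa0e2b379956f4b.shift 1 0)] (by decide +kernel))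
noncomputable def rh8b0094ba8f23dc34 : CRef := CRef.mk (Pat.mk 0x2000000020000000200000006000000000000000000000000 0x700000007000000060000000600000006000000030000000300000003 7 3) 0 0 (step_sound _ 130 [(rh2145e1d24b96a57e.shift 1 3), rh39a4e8b4b1f70048] (by decide +kernel))
noncomputable def rh788924cf265c037a : CRef := CRef.mk (Pat.mk 0x20000000200000002000000060000000000000000 0x50000000700000007000000020000000200000006000000070000000300000001 7 3) 0 0 (step_sound _ 32 [(rh79877ebd3ef475dd.shift 0 1), rhf904c19540491c53] (by decide +kernel))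
noncomputable def rhe5b02b5252f38894 : CRef := CRef.mk (Pat.mk 0x100000001000000038000000000000000000000000 0x30000000760000003e0000003f0000007e000001ff 7 9) 0 0 (step_sound _ 37 [rh301e6376417e4da4, (rh3b5346b2e316d790.shift 4 0), (rh5278689ccab1c3c2.shift 4 0), (rhc140869848ea0f2e.shift 4 1)] (by decide +kernel))
noncomputable def rhdd99997e845451cb : CRef := CRef.mk (Pat.mk 0x10000000380000000000000000 0x6000000060000007f0000003e0000000f00000008 7 7) 0 0 (step_sound _ 66 [(rh775ca1963e850b80.shift 0 1), (rhec46bd5500c722c9.shift 1 2), (rhfbac4fd0c7870155.shift 1 0)] (by decide +kernel))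
noncomputable def rh6e23a448f7c77090 : CRef := CRef.mk (Pat.mk 0x100000001000000038000000000000000000000000 0x1000000038000000380000003f0000007e000001ff 7 9) 0 0 (step_sound _ 35 [(rh06181a2dc624c6f8.shift 3 1), rh9df5639c5a1265a8, (rhdebc43b768884653.shift 3 0)] (by decide +kernel))
noncomputable def rh0ce47ac4758ed52c : CRef := CRef.mk (Pat.mk 0x1000000010000000380000000000000000000000000000000000000000 0x100000001f0000003f0000003e0000003e0000003c0000003c00000028 7 6) 0 0 (step_sound _ 132 [(rh42c1819b1f4b9e1d.shift 3 0), (rh577e507722c77691.shift 0 1), (rh79c32624aec606d0.shift 3 0), (rh839bc275b7f0d03f.shift 3 1), (rh8cdd36b03d57a2f6.shift 3 2), (rhed841d9ebc5dd0e1.shift 3 1)] (by decide +kernel))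
noncomputable def rhb8a2c2ce27e98cda : CRef := CRef.mk (Pat.mk 0x200000002000000020000000600000000 0x600000006000000070000000300000003000000070000000700000001 7 3) 0 0 (step_sound _ 0 [(rh4349017c02dcea3a.shift 0 1), rh79877ebd3ef475dd] (by decide +kernel))
noncomputable def rhee75f39e3d4ee43a : CRef := CRef.mk (Pat.mk 0x800000008000000180000000800000000 0x40000000c0000000f0000001e0000001f00000017 7 5) 0 0 (step_sound _ 34 [(rh932754581e0f4330.shift 2 0), rhebe75bec992bebde] (by decide +kernel))
noncomputable def rh6f5af34ca1669b89 : CRef := CRef.mk (Pat.mk 0x80000000800000018000000000000000000000000 0x100000001c0000001c0000000f0000007c0000001c0000000c0000000c0000000c 7 7) 0 0 (step_sound _ 195 [(rh6aa5625770489e83.shift 2 1), (rh8eb288e2ea66037a.shift 2 1), (rha8aad234cebf975b.shift 0 2), (rhd0d01d2b9e5cc624.shift 2 2), (rhf298b62e627925a7.shift 2 0)] (by decide +kernel))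
noncomputable def rh878184729b42f65e : CRef := CRef.mk (Pat.mk 0x800000018000000180000000000000000 0x4000000040000007f000000ff0000001e0000000c00000004 7 8) 0 0 (step_sound _ 101 [(rh4dc133ee0ba1420a.shift 1 2), (rhb762f327c85d41a0.shift 2 2), rhcbe8238e6f04ca48] (by decide +kernel))
noncomputable def rh6d3fb1240dc3afce : CRef := CRef.mk (Pat.mk 0x800000018000000180000000000000000 0x20000000200000007f000000ff0000001e0000001000000010 7 8) 0 0 (step_sound _ 101 [(rh4dc133ee0ba1420a.shift 1 2), rha452e263956ae924, (rhb762f327c85d41a0.shift 2 2)] (by decide +kernel))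
noncomputable def rh0211ef4fb87ca7dd : CRef := CRef.mk (Pat.mk 0x800000008000000080000000800000000 0x170000003f0000003f0000000c0000000c00000004 7 6) 0 0 (step_sound _ 34 [(rh932754581e0f4330.shift 2 0), (rhe3f2c9eb0dc0ad22.shift 0 1)] (by decide +kernel))
noncomputable def rh7e9e852849652949 : CRef := CRef.mk (Pat.mk 0x800000018000000080000000800000000 0x74000000ff0000001f000000180000001800000010 7 8) 0 0 (step_sound _ 36 [(rh55afc6a59410cf00.shift 3 0), (rhf079d9b1acc1f1f8.shift 0 1)] (by decide +kernel))
noncomputable def rhc1fdef7c4962bf20 : CRef := CRef.mk (Pat.mk 0x20000000200000002000000000000000000000000 0x100000003000000030000000300000006000000070000000700000005 7 3) 0 0 (step_sound _ 65 [rh46baee19951a66e7, rh6aa5625770489e83, rh8cdd36b03d57a2f6, (rhd7cb8ed87e2022d8.shift 0 1), rhf5c5d32370337121] (by decide +kernel))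
noncomputable def rhf2d48adcfe2d3357 : CRef := CRef.mk (Pat.mk 0x40000000c0000000600000000 0x3a0000003e0000000f0000000c0000000e0000000a 7 6) 0 0 (step_sound _ 130 [(rh932754581e0f4330.shift 1 0), rhb7d8082d486d6fd1] (by decide +kernel))
noncomputable def rh695dc2d0b8bced4e : CRef := CRef.mk (Pat.mk 0x8000000180000000c0000000000000000 0x40000000f0000000f0000001f0000001f0000003300000010 7 6) 0 0 (step_sound _ 65 [(rh53b3c253cb0c65f4.shift 0 2), rh5a9ae117bfed00c8] (by decide +kernel))
noncomputable def rh70ea185f46510c82 : CRef := CRef.mk (Pat.mk 0x8000000180000000c0000000000000000 0x20000000f0000001f0000001f0000003700000014 7 6) 0 0 (step_sound _ 65 [(rh53b3c253cb0c65f4.shift 0 2), rhf36cf5923d964e09] (by decide +kernel))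
noncomputable def rhdd66d31c22a5ec33 : CRef := CRef.mk (Pat.mk 0x4000000040000002c0000000400000000 0xfa0000007f000000fc0000002c0000002e0000000a 7 8) 0 0 (step_sound _ 35 [(rh55afc6a59410cf00.shift 2 0), rh8f9c0fcc27beee9a] (by decide +kernel))
noncomputable def rhd0ea105707b7bda9 : CRef := CRef.mk (Pat.mk 0xc0000000c0000000400000000 0x160000003e0000003e0000003f0000000e0000000600000002 7 6) 0 0 (step_sound _ 131 [(rh5c5e593799055d58.shift 2 1), rhf157fa2dc52b918d] (by decide +kernel))
noncomputable def rh51a4c7217f5de878 : CRef := CRef.mk (Pat.mk 0xc0000002e00000000 0xff0000007f000000fc0000003e0000002e00000006 7 8) 0 0 (step_sound _ 131 [rhb203019bae8de18f, (rhb8fddd58ad9026ec.shift 2 0), rhbff59b534bbe1f21] (by decide +kernel))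
noncomputable def rh2144b02621191bb0 : CRef := CRef.mk (Pat.mk 0x18000000180000000000000000 0x7000000770000007f0000001f0000000f0000000c 7 7) 0 0 (step_sound _ 66 [rh53d4641f2998f402, (rhab2ad169e49f9c5e.shift 0 2), rhbb7213d4724395ac] (by decide +kernel))
noncomputable def rhd4f86ac92e73840e : CRef := CRef.mk (Pat.mk 0x600000006000000020000000000000000 0x300000003000000030000000600000006000000030000000700000007 7 3) 0 0 (step_sound _ 33 [rh43f7aebc74997e86, (rh71222050f2c63a3a.shift 1 0)] (by decide +kernel))
noncomputable def rh7cd579e87cc5ae23 : CRef := CRef.mk (Pat.mk 0x18000000180000000800000000 0xc000000fc000000ff0000001f0000001c0000000c00000004 7 8) 0 0 (step_sound _ 132 [(rh5c5e593799055d58.shift 3 1), rhc2bff1c878ebe3d0] (by decide +kernel))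
noncomputable def rh0a034e1b30c2546f : CRef := CRef.mk (Pat.mk 0x80000000c0000000c 0x1f0000001f0000007c0000001f0000000c 7 7) 0 0 (step_sound _ 99 [(rh5c5e593799055d58.shift 2 0), rh968d01191fff519f] (by decide +kernel))
noncomputable def rhecb820c0a5ea90f6 : CRef := CRef.mk (Pat.mk 0x1000000018000000180000000000000000 0x400000004000000ff000000ff000000180000000800000008 7 8) 0 0 (step_sound _ 35 [(rh13057205fd3efed5.shift 0 1), (rh71222050f2c63a3a.shift 3 0)] (by decide +kernel))
noncomputable def rha93fc486b259121b : CRef := CRef.mk (Pat.mk 0x800000008000000180000000800000000 0x140000003c0000000f0000001e0000001f00000017 7 6) 0 0 (step_sound _ 34 [(rh932754581e0f4330.shift 2 0), rhfc7b9948b3a4379e] (by decide +kernel))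
noncomputable def rh7dbcc74ef8a1cc2f : CRef := CRef.mk (Pat.mk 0x180000001800000008000000000000000000000000 0x7000000070000003f0000001f0000001f000000370000001700000005 7 6) 0 0 (step_sound _ 129 [rh3ae91ce563ba88aa, (rh654de5a59a70eb94.shift 0 2), (rh6d571b54e8dd9e33.shift 0 4), (rhfb48a445bef9445e.shift 0 2)] (by decide +kernel))
noncomputable def rh764330b8fc8b2f51 : CRef := CRef.mk (Pat.mk 0x6000000060000000000000002 0xe0000000f0000003c00000006000000060000000600000002 7 6) 0 0 (step_sound _ 130 [(rh7db208d87386469c.shift 0 1), (rh9e3edb185cc347de.shift 1 0)] (by decide +kernel))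
noncomputable def rh0ad32c85a0f637e8 : CRef := CRef.mk (Pat.mk 0x30000000b000000000000000100000000000000000 0x40000001f0000000be000007af000003fe000003ff00000040 7 11) 0 0 (step_sound _ 69 [(rhae8119b957cc0711.shift 2 1), rhaee65c54031a7fa5, (rhbcedfca2885d6e85.shift 4 1), (rhd623c6c3488460e1.shift 2 1)] (by decide +kernel))
noncomputable def rhf9286bb3fd2afa18 : CRef := CRef.mk (Pat.mk 0xd0000000c000000000000000000000000 0x1c0000001e000000780000000f0000000c0000000c0000000c0000000c 7 7) 0 0 (step_sound _ 163 [(rh1e309b005ffa1b36.shift 2 1), (rh7db208d87386469c.shift 1 2), rha777b0f7cf5730cf] (by decide +kernel))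
noncomputable def rhb54574eab3165886 : CRef := CRef.mk (Pat.mk 0x1a0000001800000000000000000000000000000000 0x100000013000000130000001b0000001f0000001f0000003f0000001f00000005 7 6) 0 0 (step_sound _ 129 [rh040ae2d8f1f84987, rh5ecefeb66d11f988, (rh6e1685e3533aff0e.shift 0 4), rh87252bc7942497eb] (by decide +kernel))
noncomputable def rh5553668a3d77c7db : CRef := CRef.mk (Pat.mk 0x1800000018000000080000000000000000 0x64000000ff0000001f000000180000001800000018 7 8) 0 0 (step_sound _ 35 [(rh71222050f2c63a3a.shift 3 0), rhfed23893d36f9371] (by decide +kernel))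
noncomputable def rhbc28541ddf05f887 : CRef := CRef.mk (Pat.mk 0x1800000018000000080000000000000000 0x34000000740000007f0000001f0000001f0000001200000002 7 7) 0 0 (step_sound _ 164 [(rh5c5e593799055d58.shift 3 2), rh5d93c7c5fb04bc9e] (by decide +kernel))
noncomputable def rh5df07c322c81d0ac : CRef := CRef.mk (Pat.mk 0x1e000000000000000000000000 0x3000000070000003f0000001e000000070000000600000002 7 6) 0 0 (step_sound _ 129 [(rh3244c3cc8379b070.shift 0 3), rhc96087dad1ccd54e] (by decide +kernel))
noncomputable def rh3e8313526cad7bd5 : CRef := CRef.mk (Pat.mk 0x100000001e000000000000000000000000 0x280000003800000038000000180000001e0000003b0000001800000008 7 6) 0 0 (step_sound _ 68 [rhb565d0cffe6f0c90, (rhe25b0a99195a5d59.shift 1 2)] (by decide +kernel))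
noncomputable def rhcf85bf14b0081173 : CRef := CRef.mk (Pat.mk 0x100000001e0000001000000000 0x28000000380000003c0000001f0000001e0000001800000008 7 6) 0 0 (step_sound _ 97 [(rh3244c3cc8379b070.shift 0 2), (rhc9a466d3e0d91ee1.shift 1 0)] (by decide +kernel))
noncomputable def rh6f17e5a4cc637f63 : CRef := CRef.mk (Pat.mk 0xf00000008000000000000000000000000 0x40000001c0000001c0000001c0000001c0000000f000000080000001c0000001c00000014 7 5) 0 0 (step_sound _ 163 [(rh2b95ce330a9b3a2e.shift 2 0), (rh33e738c4ed385b9f.shift 0 4)] (by decide +kernel))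
noncomputable def rhd6db1120eeedebe2 : CRef := CRef.mk (Pat.mk 0x1e000000000000000000000000 0x18000000380000001e0000003f0000003800000038 7 6) 0 0 (step_sound _ 68 [rh01821f6b6ba98ec9, (rhe25b0a99195a5d59.shift 1 2)] (by decide +kernel))
noncomputable def rh5591619a4e3c8ee8 : CRef := CRef.mk (Pat.mk 0x1e00000002000000000000000000000000 0x200000002000000070000001e0000003e000000070000000700000002 7 6) 0 0 (step_sound _ 100 [rh5b72d0d5571147ef, (rhe25b0a99195a5d59.shift 1 3)] (by decide +kernel))
noncomputable def rh0146d3c7254963b0 : CRef := CRef.mk (Pat.mk 0x80000007800000008000000000000000000000000 0x18000000d800000078000000380000001f0000001c00000014 7 8) 0 0 (step_sound _ 166 [(rh33e738c4ed385b9f.shift 3 4), rhbae0aeb1f0e9a1bd] (by decide +kernel))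
noncomputable def rh3fa30c482a54b896 : CRef := CRef.mk (Pat.mk 0x1e000000000000000000000000 0x30000000380000003f0000001e000000380000001800000010 7 6) 0 0 (step_sound _ 132 [(rh33e738c4ed385b9f.shift 1 3), rh43669ae820463571] (by decide +kernel))
noncomputable def rh17803e7ca2204fe4 : CRef := CRef.mk (Pat.mk 0x8000000780000000000000000 0x1c0000001f00000038000000780000001c00000018 7 7) 0 0 (step_sound _ 35 [rh191ae820961aeaf1, (rheb0810cc63b001d8.shift 2 1)] (by decide +kernel))
noncomputable def rh4ef555e3378cd09c : CRef := CRef.mk (Pat.mk 0x1e000000020000000000000000 0x200000007000000070000003f0000001e000000060000000200000002 7 6) 0 0 (step_sound _ 129 [(rh3244c3cc8379b070.shift 0 3), rh39df8526cb5ca735] (by decide +kernel))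
noncomputable def rh084a1a7cc4919751 : CRef := CRef.mk (Pat.mk 0x20000001e0000000200000000000000000000000000000000 0x50000000700000007000000320000001e0000000600000007000000070000000700000004 7 6) 0 0 (step_sound _ 196 [(rh33e738c4ed385b9f.shift 1 5), rh3df0e85aff8338af] (by decide +kernel))
noncomputable def rh42dc64155cb27fae : CRef := CRef.mk (Pat.mk 0x780000004800000000000000000000000000000000 0x7000000070000000f000000078000000780000003e0000007f0000003c00000014 7 8) 0 0 (step_sound _ 99 [(rh0c020da8b72242dd.shift 2 1), (rh15590a39afd9a120.shift 2 0), rh296a8dd78651da26, (rhffb8e5993241bf15.shift 2 0)] (by decide +kernel))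
noncomputable def rh50bcdaea9466e34c : CRef := CRef.mk (Pat.mk 0x20000001e00000000000000000000000000000000 0x200000002000000060000001e0000003f000000070000000700000002 7 6) 0 0 (step_sound _ 97 [rh01fea88d0d58a3f3, (rheb0810cc63b001d8.shift 0 3)] (by decide +kernel))
noncomputable def rhe0b18cec0c73e504 : CRef := CRef.mk (Pat.mk 0x20000001e00000002000000000000000000000000 0x4000000070000000700000003000000360000001e00000006000000070000000700000001 7 6) 0 0 (step_sound _ 164 [(rh33e738c4ed385b9f.shift 1 4), rhfbad94e780eb7ada] (by decide +kernel))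
noncomputable def rhef7f68f85270b7e2 : CRef := CRef.mk (Pat.mk 0x20000001e0000000200000000000000000000000000000000 0x10000000700000007000000060000001e0000003600000003000000070000000700000004 7 6) 0 0 (step_sound _ 132 [(rhe25b0a99195a5d59.shift 1 4), rhe2f98bffcd2d6845] (by decide +kernel))
noncomputable def rh247b1b312968654e : CRef := CRef.mk (Pat.mk 0x1e00000010000000000000000000000000 0x280000003800000038000000380000001e0000001f000000380000003000000010 7 6) 0 0 (step_sound _ 164 [rh2359abd9b7180a4d, (rh33e738c4ed385b9f.shift 1 4)] (by decide +kernel))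
noncomputable def rh8d51102f15eddff6 : CRef := CRef.mk (Pat.mk 0x100000001e00000000000000000000000000000000 0x1000000010000000180000001e0000003f000000380000003800000010 7 6) 0 0 (step_sound _ 100 [rhd83b9a0f765e124b, (rhe25b0a99195a5d59.shift 1 3)] (by decide +kernel))
noncomputable def rhdc4b40baf083de44 : CRef := CRef.mk (Pat.mk 0x100000001e00000010000000000000000000000000 0x80000003800000038000000300000001b0000001e00000018000000380000003800000020 7 6) 0 0 (step_sound _ 161 [(rh31b47a8106da7745.shift 3 0), (rh3244c3cc8379b070.shift 0 4)] (by decide +kernel))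
noncomputable def rh18320a8915d8245b : CRef := CRef.mk (Pat.mk 0x1e000000100000000000000000 0x1000000038000000380000003f0000001e000000180000001000000010 7 6) 0 0 (step_sound _ 132 [rh0b72c516991819a0, (rh33e738c4ed385b9f.shift 1 3)] (by decide +kernel))
noncomputable def rhc2dfb3e8136fee69 : CRef := CRef.mk (Pat.mk 0x100000001e0000001000000000000000000000000000000000 0x200000003800000038000000180000001e0000001b00000030000000380000003800000008 7 6) 0 0 (step_sound _ 129 [(rh309ab5bf421da4ab.shift 3 0), (rheb0810cc63b001d8.shift 0 4)] (by decide +kernel))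
noncomputable def rh7a938961673de768 : CRef := CRef.mk (Pat.mk 0x100000001e00000010000000000000000000000000 0x8000000380000003800000038000000180000001e00000013000000380000003800000028 7 6) 0 0 (step_sound _ 97 [(rh2b95ce330a9b3a2e.shift 3 0), (rheb0810cc63b001d8.shift 0 3)] (by decide +kernel))
noncomputable def rh25c3edeeccd88835 : CRef := CRef.mk (Pat.mk 0x80000001c00000010000000000000000000000000 0xc0000000c0000001c0000001c0000001f0000000f0000000c00000008 7 5) 0 0 (step_sound _ 195 [(rh2145e1d24b96a57e.shift 3 3), rh6dfe11bc271bc1a3] (by decide +kernel))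
noncomputable def rh95e7ec0557ce3673 : CRef := CRef.mk (Pat.mk 0x200000007000000040000000400000000 0xc0000000c0000000c0000001e00000007000000070000003e0000000a 7 6) 0 0 (step_sound _ 130 [(rh712526e472efe489.shift 0 1), rhcefbdf9a88ffacc9, (rhfe3da786f6345b6b.shift 1 0)] (by decide +kernel))
noncomputable def rhac4c5099c437bc6d : CRef := CRef.mk (Pat.mk 0x100000001e0000001000000000000000000000000000000000 0x280000003800000038000000130000001e0000001800000038000000380000003800000008 7 6) 0 0 (step_sound _ 193 [(rh3244c3cc8379b070.shift 0 5), (rh79ab5936b19702e1.shift 3 0)] (by decide +kernel))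
noncomputable def rhc4530bfdcf454122 : CRef := CRef.mk (Pat.mk 0x1c0000000e0000000000000000 0x1c0000003e0000000f0000001c0000000e0000000600000006 7 6) 0 0 (step_sound _ 131 [(rh1e309b005ffa1b36.shift 2 0), (rh831308d8f3ed6f7c.shift 0 1), rhbe253d1426d5780c] (by decide +kernel))
noncomputable def rh1fdcf3d004703f52 : CRef := CRef.mk (Pat.mk 0x380000001c000000000000000000000000 0xc0000000c0000000f0000003c0000001c0000000c0000000c0000000c 7 6) 0 0 (step_sound _ 163 [(rh0efea48c36e092f0.shift 0 2), (rh37d9ceebb86d75d1.shift 2 2), rhe747072653adbf64] (by decide +kernel))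
noncomputable def rh3d515351684ebc3b : CRef := CRef.mk (Pat.mk 0x38000000180000000000000000 0x2000000020000000770000003f000000180000001000000010 7 7) 0 0 (step_sound _ 98 [rh362d0a5ceb7baa4f, rh3e145dbdeb24b3b3, (rhba89ab7cb81bcc90.shift 0 2), (rhc76e5e57485f4c6b.shift 1 0)] (by decide +kernel))
noncomputable def rhfb254c3f0f0d6721 : CRef := CRef.mk (Pat.mk 0x40000000c0000000c000000000000000000000000 0x180000003c0000000f0000000c0000000e0000000e00000006 7 6) 0 0 (step_sound _ 66 [(rh3f5f851240f54d80.shift 0 1), (rhbb83b53687587fb2.shift 1 0), (rhea7a1800d6f053bd.shift 2 0)] (by decide +kernel))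
noncomputable def rh6b2ddea21bacc1ad : CRef := CRef.mk (Pat.mk 0x1c0000000c000000000000000000000000 0x180000003a0000001f0000000c0000000c0000000e0000000e 7 6) 0 0 (step_sound _ 66 [(rhaab0b73245454834.shift 0 1), (rhc7de2f8c5681fc94.shift 1 0), (rhea7a1800d6f053bd.shift 2 0)] (by decide +kernel))
noncomputable def rhb9dbd94779f879ce : CRef := CRef.mk (Pat.mk 0xc0000000c000000080000000000000000 0x1c0000003c0000000f0000000c0000000e0000000600000006 7 6) 0 0 (step_sound _ 162 [(rh2145e1d24b96a57e.shift 2 2), rh42efa1d0574f5be1] (by decide +kernel))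
noncomputable def rhed2a7436b1d2577f : CRef := CRef.mk (Pat.mk 0x300000003000000020000000000000000 0x600000006000000060000000300000003000000030000000700000007 7 3) 0 0 (step_sound _ 33 [rh7b1f1fb55310c477, rhfe3da786f6345b6b] (by decide +kernel))
noncomputable def rh10ac217c01e7b836 : CRef := CRef.mk (Pat.mk 0x1e0000000200000000000000000000000000000000 0x50000000700000007000000030000001e0000000600000007000000070000000700000004 7 5) 0 0 (step_sound _ 193 [(rh3244c3cc8379b070.shift 0 5), rh3df0e85aff8338af] (by decide +kernel))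
noncomputable def rhcf6cc60a4df9bd1b : CRef := CRef.mk (Pat.mk 0x120000001e00000000000000000000000000000000 0x40000000700000007000000070000001e0000001e00000003000000070000000700000005 7 5) 0 0 (step_sound _ 97 [rh820f62b2d8f36d59, (rheb0810cc63b001d8.shift 0 3)] (by decide +kernel))
noncomputable def rh3900e52f8448d18b : CRef := CRef.mk (Pat.mk 0x20000001e00000002000000000000000000000000 0x4000000070000000700000007000000060000001e00000032000000070000000700000005 7 6) 0 0 (step_sound _ 100 [rhb2147935ca93e326, (rhe25b0a99195a5d59.shift 1 3)] (by decide +kernel))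
noncomputable def rh39ab4e3343a25598 : CRef := CRef.mk (Pat.mk 0x1c00000038000000000000000000000000 0xe0000000f0000001c0000003f0000007f0000001800000018 7 7) 0 0 (step_sound _ 98 [(rh0e1512cbacfbd48b.shift 0 2), rh73bdb5ca643225c4, (rhf56dc6c929980f59.shift 0 2)] (by decide +kernel))
noncomputable def rh516ec97ce4272871 : CRef := CRef.mk (Pat.mk 0x1c00000038000000000000000000000000 0xc0000001c0000003c000001f8000000ff000001fe 7 9) 0 0 (step_sound _ 36 [(rh1070a7b780452bab.shift 1 0), rha24a115af3ff1fc7, (rhdd1b84382d19bcbb.shift 3 0)] (by decide +kernel))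
noncomputable def rh34a60603075bb545 : CRef := CRef.mk (Pat.mk 0xe0000001c000000000000000000000000 0x4000000060000000e0000001c0000000f0000007e0000001c 7 7) 0 0 (step_sound _ 67 [(rh3cb04db3dd2b6a55.shift 2 0), rh3fb8e8d0c4e7ce04, (rh7c4e28a233c466a7.shift 1 0)] (by decide +kernel))
noncomputable def rh3641cba41fec1efc : CRef := CRef.mk (Pat.mk 0x1c00000038000000000000000000000000 0xc0000000c0000000c0000001c0000003c0000000f0000001c0000001c 7 6) 0 0 (step_sound _ 67 [rh36b2f586494ff929, (rh40241bd608e5be1a.shift 2 0), (rhfa0908562b32562c.shift 0 1)] (by decide +kernel))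
noncomputable def rh4ffde9ebfa0cf529 : CRef := CRef.mk (Pat.mk 0x1c00000038000000000000000000000000 0x40000001c0000003f0000007f0000000e0000000e 7 7) 0 0 (step_sound _ 98 [(rh0e1512cbacfbd48b.shift 0 2), (rh1cd8c68b5f96ad28.shift 1 0), (rhf56dc6c929980f59.shift 0 2)] (by decide +kernel))
noncomputable def rhdc6714be957238db : CRef := CRef.mk (Pat.mk 0x80000001c00000018000000000000000000000000 0x40000000c0000001c0000001c0000001f0000001f0000000c 7 5) 0 0 (step_sound _ 68 [rh61d8d420d44ab10c, (rh7b1f1fb55310c477.shift 3 1)] (by decide +kernel))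
noncomputable def rh5997ccb989bf048f : CRef := CRef.mk (Pat.mk 0x1c00000010000000100000001000000000 0x40000001c000000180000003c000000ff0000002c 7 8) 0 0 (step_sound _ 35 [rh563cd3ca6e93896e, (rh932754581e0f4330.shift 3 0)] (by decide +kernel))
noncomputable def rhba8680e1a24db430 : CRef := CRef.mk (Pat.mk 0x1c00000002000000000000000000000000 0x4000000070000000700000007000000070000001e00000003000000070000000700000005 7 5) 0 0 (step_sound _ 129 [rh6e924361a5088852, (rheb0810cc63b001d8.shift 0 3)] (by decide +kernel))
noncomputable def rhcfb35c6e1c6a2224 : CRef := CRef.mk (Pat.mk 0x380000002400000020000000000000000000000000 0x100000001c0000001e000000380000003f0000007c0000001c0000001c00000014 7 7) 0 0 (step_sound _ 131 [(rh4b4a2336dfb4aa01.shift 1 2), rh8b67a0833dc46f16, (rheea1a90336e79c71.shift 0 4)] (by decide +kernel))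
noncomputable def rh02ab523d701d946f : CRef := CRef.mk (Pat.mk 0x380000001c0000000000000000 0x18000000180000007f0000003f0000001c0000000f0000000e 7 7) 0 0 (step_sound _ 98 [rh587bfbc385af09d2, (rhba89ab7cb81bcc90.shift 0 2), (rhe25191970535449e.shift 0 2)] (by decide +kernel))
noncomputable def rh9d7ad819415181de : CRef := CRef.mk (Pat.mk 0x1c0000000e00000000 0xff0000007f000000fc0000001e0000000e00000006 7 8) 0 0 (step_sound _ 131 [rh06b854ab7059fd5b, (rhb8fddd58ad9026ec.shift 2 0), rhbff59b534bbe1f21] (by decide +kernel))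
noncomputable def rh686b95f3dcc0a409 : CRef := CRef.mk (Pat.mk 0x600000007000000020000000000000000 0x200000003000000030000000700000007000000030000000700000007 7 3) 0 0 (step_sound _ 33 [(rh71222050f2c63a3a.shift 1 0), rhfbd5fa067492bff7] (by decide +kernel))
noncomputable def rh8e923fbd1c5ac157 : CRef := CRef.mk (Pat.mk 0x180000001c0000000800000000 0xc0000001f0000001f0000001c0000001c0000000c00000004 7 5) 0 0 (step_sound _ 132 [rh2d6fc3d8efd85437, (rh5c5e593799055d58.shift 3 1)] (by decide +kernel))
noncomputable def rh26c0a77fbc4a27a4 : CRef := CRef.mk (Pat.mk 0x380000001c0000000000000000 0x60000000e0000007f0000003f0000001c0000000400000004 7 7) 0 0 (step_sound _ 98 [(rh55c4d0b17faeacbd.shift 1 0), (rhba89ab7cb81bcc90.shift 0 2), (rhe25191970535449e.shift 0 2)] (by decide +kernel))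
noncomputable def rh26dad12c7805091f : CRef := CRef.mk (Pat.mk 0x2000000020000000200000003 0x400000007000000070000000700000006000000060000000300000003 7 3) 0 0 (step_sound _ 98 [(rh2f68792b6b779e96.shift 1 0), rh3f524fb401a83858] (by decide +kernel))
noncomputable def rh1cee59bcf1412330 : CRef := CRef.mk (Pat.mk 0x800000008000000080000000e00000000 0x160000003f0000003f0000000c0000000e00000002 7 6) 0 0 (step_sound _ 130 [(rh50fbb5868c909700.shift 2 1), rha1b992466a55d538] (by decide +kernel))
noncomputable def rh4f0287253522beef : CRef := CRef.mk (Pat.mk 0x20000001c0000000000000000000000000000000000000000 0x50000000700000007000000030000001e0000000700000007000000070000000700000004 7 5) 0 0 (step_sound _ 161 [(rh3244c3cc8379b070.shift 0 5), rhcee0247e05a0be3b] (by decide +kernel))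
noncomputable def rh78717a21f7505fa2 : CRef := CRef.mk (Pat.mk 0x200000002400000038000000000000000000000000 0x140000001c0000001c0000007c0000003f000000380000001e0000001c00000010 7 7) 0 0 (step_sound _ 131 [(rh2b583106c288bf2c.shift 1 0), rhb7f08d0e6f84cafc, (rhc02b3aee7ab87ee1.shift 0 3)] (by decide +kernel))
noncomputable def rh494f78b5277e74f9 : CRef := CRef.mk (Pat.mk 0x10000000120000001c000000000000000000000000 0x60000000e0000003f0000001e0000001e0000000f0000000e00000008 7 6) 0 0 (step_sound _ 130 [rh2b583106c288bf2c, (rh4222f06ebc2fd935.shift 0 1), (rh597ecaf5c4490700.shift 1 0), (rh5a251e149421c1f5.shift 1 2), (rh996ffea2ee0b5f1a.shift 0 1)] (by decide +kernel))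
noncomputable def rhe30a75a8ad7ac1c8 : CRef := CRef.mk (Pat.mk 0x7000000060000000200000000 0x30000000f0000001f000000070000001e0000000600000004 7 5) 0 0 (step_sound _ 129 [rh053434308e1163f5, (rh4fe4d7a5510902ea.shift 0 1), (rh55a1f6c57a317ce6.shift 1 0)] (by decide +kernel))
noncomputable def rh179e353ffe4c3109 : CRef := CRef.mk (Pat.mk 0x38000000700000000000000000 0x1ff000000fe000001ff00000038000000780000005000000010 7 9) 0 0 (step_sound _ 165 [(rh5105f69098a4a2c2.shift 4 1), rh964d1dd2be92866d, (rh9b32778d424b58d6.shift 4 1)] (by decide +kernel))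
noncomputable def rh7504938ef9e8ff83 : CRef := CRef.mk (Pat.mk 0xe0000001c000000000000000000000000 0x1c0000003c0000000e0000001c000000380000001f0000001c 7 6) 0 0 (step_sound _ 67 [rh36a6df2b3dd177a0, (rh3cb04db3dd2b6a55.shift 2 0), (rh4b0a39b29844ef60.shift 1 1)] (by decide +kernel))
noncomputable def rh5ed5c7a3ad4353c1 : CRef := CRef.mk (Pat.mk 0x80000001c000000100000000000000000 0x30000000780000001c000000380000001f0000001c 7 7) 0 0 (step_sound _ 36 [rh5ec3cce39d96cbd0, (rh7b1f1fb55310c477.shift 3 0)] (by decide +kernel))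
noncomputable def rhd9294ea8499c96b5 : CRef := CRef.mk (Pat.mk 0x1c00000018000000000000000000000000 0x10000000100000001c0000007f000000770000002000000020 7 7) 0 0 (step_sound _ 101 [rh9719862407c339b6, (rhf48373e13d2bc128.shift 2 3)] (by decide +kernel))
noncomputable def rh988a26b090d270a7 : CRef := CRef.mk (Pat.mk 0x180000003800000000000000000000000000000000 0x180000001800000018000000180000003c0000000f0000001c0000001c00000004 7 6) 0 0 (step_sound _ 99 [rh09b7e12dd0eecb61, (rh36b2f586494ff929.shift 0 1), (rhea7a1800d6f053bd.shift 3 1)] (by decide +kernel))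
noncomputable def rh71a49414e3d4afee : CRef := CRef.mk (Pat.mk 0x300000003000000020000000000000000 0x600000006000000060000000300000003000000060000000700000007 7 3) 0 0 (step_sound _ 33 [rh2e613271d4582ec0, rh7b1f1fb55310c477] (by decide +kernel))
noncomputable def rha40dd5fb5eea7704 : CRef := CRef.mk (Pat.mk 0x700000006000000000000000000000000 0x60000000600000006000000070000001f0000003d0000000c00000008 7 6) 0 0 (step_sound _ 99 [rhd118b43a97c4b0ee, (rhf48373e13d2bc128.shift 0 3)] (by decide +kernel))
noncomputable def rh3c690349ae80fe37 : CRef := CRef.mk (Pat.mk 0x8000000080000001c00000010000000000000000000000000 0x140000003e0000007f0000001c00000078000000280000000800000008 7 7) 0 0 (step_sound _ 99 [(rh238a9bffe3d423e0.shift 0 2), (rh544fd3f279a4d968.shift 2 0), (rh7176a54275fd3e59.shift 2 2), (rhc0386b341e90eb68.shift 2 0), (rhf2cf2b04bfc2f1fb.shift 1 2)] (by decide +kernel))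
noncomputable def rhde23771369361fb8 : CRef := CRef.mk (Pat.mk 0x40000000e000000080000000800000000 0x1800000018000000180000003c0000000e000000380000001f00000014 7 6) 0 0 (step_sound _ 131 [(rh2e613271d4582ec0.shift 2 0), (rh712526e472efe489.shift 1 1), rhb20dd801f506db0f] (by decide +kernel))
noncomputable def rheade208bcb38adda : CRef := CRef.mk (Pat.mk 0x8000000080000001c0000001000000000 0x140000001e0000007c0000001c0000007f00000067 7 7) 0 0 (step_sound _ 35 [rh771a36149ae58414, rha0b07cf10a24615f, (rhf2cf2b04bfc2f1fb.shift 1 0)] (by decide +kernel))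
noncomputable def rh4d14d1147a355f35 : CRef := CRef.mk (Pat.mk 0x1400000010000000100000001000000000 0x1400000014000000360000007f0000001e00000008 7 7) 0 0 (step_sound _ 35 [(rh932754581e0f4330.shift 3 0), (rha24fe6418644f33f.shift 0 1)] (by decide +kernel))
noncomputable def rhcbc4ce7e87f8da4f : CRef := CRef.mk (Pat.mk 0x200000002000000020000000200000000000000000000000000000000 0x200000006000000060000000600000007000000070000000700000004 7 3) 0 0 (step_sound _ 97 [(rh4bbb81894b96eb05.shift 0 1), (rh8cdd36b03d57a2f6.shift 0 1), rhb4d78cd0e58cc17c, (rhd29a1fb688eae70f.shift 1 2)] (by decide +kernel))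
noncomputable def rh28bfb080bbcf0c5b : CRef := CRef.mk (Pat.mk 0x40000000700000014000000000000000000000000 0x2800000038000000380000003e000000370000003c000000780000003800000028 7 7) 0 0 (step_sound _ 164 [(rh2d96a2b65e99bc6c.shift 1 0), (rh4fd54f6717f3e7ac.shift 0 4), rh85768bfcc3505b3d] (by decide +kernel))
noncomputable def rhf0fc6f1b221f30e1 : CRef := CRef.mk (Pat.mk 0x80000000e00000008 0x140000001c0000001c000000fc0000007f000000ff0000000e00000008 7 8) 0 0 (step_sound _ 99 [rh38d4dfd7f23f3412, (rh69f0587a21bb077f.shift 2 0), (rh7ea825414409ee7b.shift 1 0), (rhc85cc95794737cf7.shift 2 0), rhe20250c4be3cf124] (by decide +kernel))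
noncomputable def rhcd796ea92ed297d3 : CRef := CRef.mk (Pat.mk 0x2000000000000000700000004000000000000000000000000 0x600000006000000070000000700000007000000030000000300000002 7 3) 0 0 (step_sound _ 194 [(rh045a29dae8c97265.shift 1 2), rh3155e4e09b62f080, (rhdb2909ac5c854515.shift 1 3), rhe6be12c3e0a80949] (by decide +kernel))
noncomputable def rh1e9736407406b8d1 : CRef := CRef.mk (Pat.mk 0x100000000000000038000000a000000000 0x3ff000001fe000003f7000000b8000000b000000010 7 10) 0 0 (step_sound _ 133 [(rh045a29dae8c97265.shift 4 0), (rh121af72e99f723ec.shift 3 0), (rhbc15097ef6099017.shift 0 1), (rhdb2909ac5c854515.shift 4 1)] (by decide +kernel))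
noncomputable def rh980f03751d75f82c : CRef := CRef.mk (Pat.mk 0x8000000000000001c00000010 0x8000001ff000000ff000001ff0000001c00000010 7 9) 0 0 (step_sound _ 131 [rhc6e8905996d73eef, (rhff0f29cb645b05f7.shift 3 0)] (by decide +kernel))
noncomputable def rh34879d5b5c2c3a68 : CRef := CRef.mk (Pat.mk 0x20000000000000007000000140000000000000000000000000 0x2800000038000003ff000001fe000003bf000001700000017e000000380000003800000030 7 10) 0 0 (step_sound _ 196 [(rh0b3c48131f2f4114.shift 1 3), (rh2a7290f520cbd832.shift 4 3), (rh6c67473eb51e5e68.shift 0 1), (rh88ad93b4d994e412.shift 4 0), (rhcd0345b64343403d.shift 1 2), (rhfde6efd0081da9b8.shift 3 1)] (by decide +kernel))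
noncomputable def rh8a7cfc4def78df05 : CRef := CRef.mk (Pat.mk 0x100000000000000038000000a0000000000000000000000000 0x8000003ef000001fe000003ff000000b8000000b8000000180000001800000010 7 10) 0 0 (step_sound _ 197 [(rh121af72e99f723ec.shift 3 2), (rh7269453adb3a6f3b.shift 1 2), (rh9b372e84da0147fa.shift 0 1), (rhcba44d7234f960dc.shift 0 2), (rhd6fee5195dc50d27.shift 1 3), (rhe6be12c3e0a80949.shift 3 0)] (by decide +kernel))
noncomputable def rh46b64634d1ad3f1c : CRef := CRef.mk (Pat.mk 0x100000000000000038000000a000000000 0x1000000014000001ff000000fe000001ef000000b8000000b800000018 7 9) 0 0 (step_sound _ 133 [(rh045a29dae8c97265.shift 4 0), rh0b404ca790f0043f, (rh1f801de833242f93.shift 0 1), (rh472b9f06ce865e42.shift 2 0), (rh7269453adb3a6f3b.shift 1 0)] (by decide +kernel))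
noncomputable def rhc609daf111b01177 : CRef := CRef.mk (Pat.mk 0x8000000000000001c00000010000000000000000000000000 0xc0000000c0000001c0000001c0000001f0000000f0000000c00000008 7 5) 0 0 (step_sound _ 163 [(rh2145e1d24b96a57e.shift 3 3), rh6dfe11bc271bc1a3] (by decide +kernel))
noncomputable def rh773b81dbf2b21f1b : CRef := CRef.mk (Pat.mk 0x1c0000001800000010000000000000000000000000 0x100000001c000000ff000000ff0000000f0000000c00000004 7 8) 0 0 (step_sound _ 99 [rhc44c1820a4d8567b, (rhea7a1800d6f053bd.shift 3 1)] (by decide +kernel))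
noncomputable def rhaa8706992b193d6e : CRef := CRef.mk (Pat.mk 0x1c00000018000000100000000000000000 0x1c0000007f000000770000001e0000001c 7 7) 0 0 (step_sound _ 101 [rh7fda8096b055b8b2, (rhf48373e13d2bc128.shift 2 3)] (by decide +kernel))
noncomputable def rh153412c56eab4e09 : CRef := CRef.mk (Pat.mk 0x1c00000018000000100000000000000000 0x1c0000007f0000007f0000001600000016 7 7) 0 0 (step_sound _ 101 [rhee28a5c2ec10673f, (rhf48373e13d2bc128.shift 2 3)] (by decide +kernel))
noncomputable def rhba18e5b832923b55 : CRef := CRef.mk (Pat.mk 0x1c00000010000000100000001000000000 0x140000001c0000003c0000001f0000003800000028 7 6) 0 0 (step_sound _ 5 [rh38de7e82c779277e, (rhd3458b32566d63f7.shift 4 0)] (by decide +kernel))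
noncomputable def rhda052f5e4a1a82dc : CRef := CRef.mk (Pat.mk 0x200000003000000020000000200000000000000000000000000000000 0x40000001e00000003000000070000000600000006000000070000000700000005 7 5) 0 0 (step_sound _ 226 [rh288be84e59575f22, (rh2f68792b6b779e96.shift 1 4)] (by decide +kernel))
noncomputable def rhcbce6c4a87ce2afc : CRef := CRef.mk (Pat.mk 0x80000000e000000080000000800000000 0x80000000e0000007f000000ff000000f4 7 8) 0 0 (step_sound _ 34 [(rh932754581e0f4330.shift 2 0), rhe893c18461f246bc] (by decide +kernel))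
noncomputable def rh26a46130e897c10b : CRef := CRef.mk (Pat.mk 0x6000000040000000400000004000000000000000000000000 0x4000000060000007c0000007e0000007f000000380000001000000010 7 7) 0 0 (step_sound _ 99 [(rh55afc6a59410cf00.shift 2 2), rhe5bb2adb50749edc] (by decide +kernel))
noncomputable def rhaded98ef7fb5094f : CRef := CRef.mk (Pat.mk 0x200000003000000020000000200000000 0x600000006000000070000000300000003000000060000000700000005 7 3) 0 0 (step_sound _ 0 [rh79877ebd3ef475dd, rhd0638bd6fe8b58b9] (by decide +kernel))
noncomputable def rh4f100b2046dafeeb : CRef := CRef.mk (Pat.mk 0x700000006000000000000000000000000 0x40000000400000006000000070000001f0000003e0000000e0000000c 7 6) 0 0 (step_sound _ 99 [rh8c616c4ebdf3ee57, (rhf48373e13d2bc128.shift 0 3)] (by decide +kernel))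
noncomputable def rh523aac8d369e36da : CRef := CRef.mk (Pat.mk 0x1c00000018000000000000000000000000 0xc0000001c0000001c0000001c0000007c0000000f0000000c00000008 7 7) 0 0 (step_sound _ 101 [rhd8346fd56ce86e26, (rhf48373e13d2bc128.shift 2 3)] (by decide +kernel))
noncomputable def rhec62997ff840da06 : CRef := CRef.mk (Pat.mk 0x700000006000000000000000000000000 0x60000000f0000001f0000000700000006000000070000000700000002 7 5) 0 0 (step_sound _ 65 [rh40241bd608e5be1a, (rhdd4ba812df0fca9a.shift 0 1), (rhea7a1800d6f053bd.shift 1 0)] (by decide +kernel))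
noncomputable def rh7472882c232e68b6 : CRef := CRef.mk (Pat.mk 0x38000000000000000000000000 0x20000000e0000000e0000000e0000007f0000003e0000000f0000000c0000000c 7 7) 0 0 (step_sound _ 98 [(rh46332abad5027c18.shift 1 0), (rh61325f73ebf98108.shift 0 3), (rh7654d7b92c96fe12.shift 0 2), (rh775ca1963e850b80.shift 0 2)] (by decide +kernel))
noncomputable def rh8bc3327fa6faac05 : CRef := CRef.mk (Pat.mk 0x7000000040000000000000000 0xc0000000f0000000f0000001f000000070000003f0000001f0000000d 7 6) 0 0 (step_sound _ 129 [(rh5d54cb79a67f97ab.shift 1 0), (rh7e1098702e50f2b0.shift 1 0), rh7e6f91393ca98373, (rha40d42a2e34c408d.shift 1 0), rhbc53cbf6dcd83651] (by decide +kernel))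
noncomputable def rheb38467d669bf196 : CRef := CRef.mk (Pat.mk 0x16000000100000000000000000 0x6000000070000001e0000003f0000000700000007 7 6) 0 0 (step_sound _ 99 [rh4368217ec1272ce6, (rhe25b0a99195a5d59.shift 1 2)] (by decide +kernel))
noncomputable def rh8c2bcbc84662fd1d : CRef := CRef.mk (Pat.mk 0x2c000000200000000000000000 0x2c0000006f0000003e0000003f0000001e0000001e 7 7) 0 0 (step_sound _ 100 [(rh4368217ec1272ce6.shift 1 0), (rh775ca1963e850b80.shift 0 2), (rh8859ac061aed93d9.shift 1 0), (rhdceeca65bdd8095a.shift 0 2)] (by decide +kernel))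
noncomputable def rh84ef0c07c339b0fd : CRef := CRef.mk (Pat.mk 0x2c0000002000000000000000000000000000000000 0x40000002c0000002c0000002f0000007e0000007e0000003e0000001e00000014 7 7) 0 0 (step_sound _ 131 [(rh10e632a752ee89b7.shift 1 0), (rh8c25cb665ab79ec0.shift 0 4), (rha45bcd1a02ddba08.shift 1 1), (rhe09cfcd5f84c47cb.shift 1 1)] (by decide +kernel))
noncomputable def rh5a751a1e6d9b8c5b : CRef := CRef.mk (Pat.mk 0xe0000000800000000000000000000000000000000 0x140000001c0000003c0000000e0000007c000000380000001f0000001c00000014 7 7) 0 0 (step_sound _ 99 [(rh0a6888916bcef86b.shift 2 0), rh2d5581c417ad61f3, (rh7b24c4ccc068b0b2.shift 2 2), (rh7f4585616ba89c60.shift 1 2), (rhf9a6286f1d5377a2.shift 2 2)] (by decide +kernel))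
noncomputable def rh855eb102cd8b6316 : CRef := CRef.mk (Pat.mk 0xe0000000800000000000000000000000000000000 0x140000001c0000003c0000000e000000380000001f000000fc0000001c00000014 7 8) 0 0 (step_sound _ 99 [(rh0a6888916bcef86b.shift 2 0), (rh78289852fc6942a8.shift 1 2), (rhb1a251d9bff81766.shift 2 2), rhcd4ff5e74873e18b] (by decide +kernel))
noncomputable def rha710556b0eb1c31e : CRef := CRef.mk (Pat.mk 0x2c0000002000000000000000000000000000000000 0x140000001c0000001c0000007c0000002f0000007c0000001f0000001c0000001c00000014 7 7) 0 0 (step_sound _ 131 [rh84940e8be3cf8fb1, (rh8c25cb665ab79ec0.shift 0 4), (rhbb2258de3c9392a8.shift 0 1), rhdd654bbc0781e67b] (by decide +kernel))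
noncomputable def rh7f9fbe0f9ddf70a7 : CRef := CRef.mk (Pat.mk 0x80000000a0000000800000000000000000000000000000000 0x140000001c0000003e0000000f0000000c000000180000001c0000001c00000004 7 6) 0 0 (step_sound _ 99 [rh15f0ce6ac32bde25, (rh46baee19951a66e7.shift 2 1), (rh482d647aab4b93ee.shift 2 1), (rh50381b1ee12ee04f.shift 0 2), (rh516963541d5f8797.shift 1 2), (rh9925428958c3c857.shift 0 1)] (by decide +kernel))
noncomputable def rh7f0d646bedd75431 : CRef := CRef.mk (Pat.mk 0x80000000a00000008000000000000000000000000 0x100000007c0000000f000000080000001c0000001c00000014 7 7) 0 0 (step_sound _ 67 [rh0ac77ce6e22e19ad, (rh8cdd36b03d57a2f6.shift 2 0), (rhb61eb019e882de17.shift 0 1), rhcda1c8ee340e0d2d] (by decide +kernel))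
noncomputable def rha58607731c8b4809 : CRef := CRef.mk (Pat.mk 0x20000000200000002000000000000000000000000 0x500000007000000070000000200000003000000070000000700000005 7 3) 0 0 (step_sound _ 65 [(rh0fd870c734e6c513.shift 0 1), rh482d647aab4b93ee, rh8cdd36b03d57a2f6] (by decide +kernel))
noncomputable def rh5c84380a1a981cd8 : CRef := CRef.mk (Pat.mk 0x80000000a00000008000000000000000000000000 0x140000001e0000000f000000080000001c0000001c00000014 7 5) 0 0 (step_sound _ 67 [(rh8cdd36b03d57a2f6.shift 2 0), rh9925428958c3c857, (rhbdbc38e9704037ba.shift 0 1), rhdd4416e6ec31cff9] (by decide +kernel))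
noncomputable def rh14332322a797c1bd : CRef := CRef.mk (Pat.mk 0x10000000140000001000000000 0x28000000380000007e000000fe0000001f0000001800000008 7 8) 0 0 (step_sound _ 132 [rha94490687c60c4d4, (rhc85cc95794737cf7.shift 3 1), (rhee3e780382d15f79.shift 1 1)] (by decide +kernel))
noncomputable def rhdae0f9eaff3e1309 : CRef := CRef.mk (Pat.mk 0x80000000a00000008000000000000000000000000 0x40000001c0000001e0000000f0000000c0000001c0000001c00000014 7 5) 0 0 (step_sound _ 67 [(rh0fd870c734e6c513.shift 2 1), (rh8cdd36b03d57a2f6.shift 2 0), rh9925428958c3c857] (by decide +kernel))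
noncomputable def rh8115e28e85126967 : CRef := CRef.mk (Pat.mk 0x2800000028000000000000000000000000 0x6000000160000003f000000fe000001ff0000002800000028 7 9) 0 0 (step_sound _ 100 [(rh1aae126fdb0efa1d.shift 2 2), (rh3645b78449801401.shift 0 1), (rh5b6d2bf6893374d1.shift 1 0), (rha9fbfd4bb8cf890b.shift 0 3)] (by decide +kernel))
noncomputable def rhd75e5f3a38258c04 : CRef := CRef.mk (Pat.mk 0x28000000280000000000000000000000000000000000000000 0x140000001c0000001c0000003c000000f8000001df0000001c0000001c0000001c00000010 7 9) 0 0 (step_sound _ 164 [(rh18e52402a635c204.shift 0 2), (rh1aae126fdb0efa1d.shift 2 4), (rh24e72371d7873615.shift 2 2), rhd18d4b378d20653d] (by decide +kernel))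
noncomputable def rh6c7343313a6621b0 : CRef := CRef.mk (Pat.mk 0x2800000028000000000000000000000000 0x8000000180000003f000000fe000001f70000003400000034 7 9) 0 0 (step_sound _ 100 [(rh1aae126fdb0efa1d.shift 2 2), rh26e1017678d9da1f, (rha9fbfd4bb8cf890b.shift 0 3), rhfe93ff8f121320b2] (by decide +kernel))
noncomputable def rhe1bead3c6a8aa02a : CRef := CRef.mk (Pat.mk 0x5000000050000000000000000000000000 0x300000003c0000003e0000007f0000007f000000fc0000007c0000007c 7 8) 0 0 (step_sound _ 99 [(rh0b4c800e40daca93.shift 1 0), (rh2fa164ba5c06bb6d.shift 2 0), rh751bd15d29e3f2b1, (rh7d95800e7735246b.shift 2 0), (rh9483e1c452b29f0f.shift 2 0), rhd5b4e0a5c05f6439, (rhe4a6d2255d83faf5.shift 1 0)] (by decide +kernel))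
noncomputable def rh61059692574bb803 : CRef := CRef.mk (Pat.mk 0x28000000280000000000000000000000000000000000000000 0x140000001c0000001c0000002f000000fe0000007f0000001c0000001c0000001c00000010 7 8) 0 0 (step_sound _ 164 [(rh24e72371d7873615.shift 2 2), (rh26e1017678d9da1f.shift 0 2), rh35c1cdedc435622b, (rha9fbfd4bb8cf890b.shift 0 5)] (by decide +kernel))
noncomputable def rhdd65185d0f7d0f34 : CRef := CRef.mk (Pat.mk 0x28000000280000000000000000000000000000000000000000 0x1c0000001c0000001f00000038000000fe000001ff0000003c0000003c0000001c00000010 7 9) 0 0 (step_sound _ 164 [rh35c1cdedc435622b, (rh5b6d2bf6893374d1.shift 1 2), (rha13423141a6dee87.shift 0 2), (rha2cb1977398e6365.shift 0 2), rhd18d4b378d20653d, (rhfe93ff8f121320b2.shift 0 2)] (by decide +kernel))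
noncomputable def rhcc740d453bafdd8f : CRef := CRef.mk (Pat.mk 0x140000001400000000000000000000000000000000 0x20000000e0000000e0000000e0000001e000000370000003e0000000e0000000e0000000a 7 6) 0 0 (step_sound _ 98 [(rh0eb09afa9815783c.shift 1 1), (rh406170d06d2e1040.shift 1 1), (rh4e9d0b2b6a8ba645.shift 1 0), (rh7fd74e6b1fad4415.shift 1 0), (rhc5c5b88722b9bb4a.shift 1 1), (rhe19deee2c270a386.shift 1 1), (rhfdee0034602635ef.shift 0 2)] (by decide +kernel))
noncomputable def rhda8c66aa781fe452 : CRef := CRef.mk (Pat.mk 0xa000000080000000800000000 0x40000001c0000003c0000000e0000007e0000001f00000016 7 7) 0 0 (step_sound _ 131 [(rh0fd870c734e6c513.shift 2 0), (rh29dd5384d80ecb1e.shift 2 0), (rhabedd109a9a37101.shift 2 0), rhd2a508818eb3867e] (by decide +kernel))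
noncomputable def rh65f26d0c8df040dd : CRef := CRef.mk (Pat.mk 0x100000001000000010000000000000000000000000 0x80000001800000018000000ff0000007e0000003f00000028 7 8) 0 0 (step_sound _ 68 [(rh0c1c1b53bc5a1510.shift 3 0), (rh3181373a30ceb9e3.shift 3 0), (rhaced9bf34d7f5960.shift 0 1), (rhcae87bda2c3c01d2.shift 3 0)] (by decide +kernel))
noncomputable def rh6915951241de8e98 : CRef := CRef.mk (Pat.mk 0x5000000050000000000000000000000000 0x58000000580000005e000001fe0000007f0000003800000028 7 9) 0 0 (step_sound _ 101 [rh23bfd094535a79e0, (rh24e72371d7873615.shift 3 0), (rh25ced0b4575960fe.shift 1 0), (rha9fbfd4bb8cf890b.shift 1 3)] (by decide +kernel))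
noncomputable def rh1cbeb98d022c59ac : CRef := CRef.mk (Pat.mk 0x2800000028000000000000000000000000 0x38000000780000002f000001fe000003f80000005000000050 7 10) 0 0 (step_sound _ 100 [(rh35a02af777b98683.shift 2 0), rh850bd2b83b86d6a2, (rha9fbfd4bb8cf890b.shift 0 3), (rhf9580640a27249ea.shift 1 0)] (by decide +kernel))
noncomputable def rh8443d3fc8028cd5d : CRef := CRef.mk (Pat.mk 0x2800000028000000000000000000000000 0x50000000740000007c0000007c0000002f000000f8000001fc0000007c00000054 7 9) 0 0 (step_sound _ 102 [(rh47082137e9cd2755.shift 2 2), (rh53567e131628b92e.shift 2 0), (rh56e90c12f0808c38.shift 2 0), rh66fdee857a24091f, (rheb35796aefd5d255.shift 2 0)] (by decide +kernel))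
noncomputable def rh36b2afc14b11904f : CRef := CRef.mk (Pat.mk 0x2800000028000000000000000000000000 0x140000001c0000005c0000007f000000ff0000002f0000007c0000006f0000004c0000004c 7 8) 0 0 (step_sound _ 163 [(rh1359922a99d3d421.shift 2 1), (rh144c921ae3171e1e.shift 1 2), (rh195e2e6861faf39a.shift 2 1), (rh1aab93d8dd87c147.shift 0 2), (rh22e3873261c6c95d.shift 2 2), rh384816bea6041b97, rh65d01379fd6ff22b, rh6d3fabaf7ec9c89d, (rh7863e25d1d742d32.shift 2 1), rha98a27a39ca716f5] (by decide +kernel))
noncomputable def rh6efb738a61011c43 : CRef := CRef.mk (Pat.mk 0x280000002800000000000000000000000000000000 0x140000001c000000fc0000007c0000002f0000003e0000007f0000007c0000005400000050 7 8) 0 0 (step_sound _ 195 [(rh1dbd5905aef3dade.shift 2 0), (rh22e3873261c6c95d.shift 2 3), (rh25271c74be886731.shift 2 1), (rh2b6ecd6b948e770d.shift 0 1), (rh9025223dca583e9f.shift 2 1), rh9d84eae4e5650c9b] (by decide +kernel))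
noncomputable def rhdf7a3a044de904fe : CRef := CRef.mk (Pat.mk 0xa0000000a00000000000000000000000000000000000000000 0x500000007000000070000000bf000003fe0000077e00000070000000700000007000000040 7 11) 0 0 (step_sound _ 166 [(rh1561ff1fafeb7917.shift 4 4), (rh35c1cdedc435622b.shift 2 0), (rh69c6c37a1cdfd058.shift 0 1), (rha9fbfd4bb8cf890b.shift 2 5)] (by decide +kernel))
noncomputable def rh5fc189ca6e8e0fa4 : CRef := CRef.mk (Pat.mk 0x28000000280000000000000000000000000000000000000000 0x5000000070000000700000002f000000fc000001fc00000070000000700000007000000010 7 9) 0 0 (step_sound _ 164 [(rh1561ff1fafeb7917.shift 2 4), (rh7a593c64f6eb9643.shift 2 0), (rha9fbfd4bb8cf890b.shift 0 5)] (by decide +kernel))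
noncomputable def rha9176e8bd3bf4bff : CRef := CRef.mk (Pat.mk 0x280000002800000000000000000000000000000000 0x540000007c0000007c000000280000007c000001ff000000fc0000005400000054 7 9) 0 0 (step_sound _ 99 [rh0115c66452a97d07, rh2c9824e3d3e9dab7, (rh4a605cc958097ade.shift 2 0), (rh60f6231d213c6ef9.shift 2 1), (rhc5c5b88722b9bb4a.shift 2 1), (rhe323009b509138a7.shift 0 2)] (by decide +kernel))
noncomputable def rhc51a013d4f425f25 : CRef := CRef.mk (Pat.mk 0x28000000280000000000000000000000000000000000000000 0x5000000070000000780000002f0000007e000001f700000074000000740000007000000010 7 9) 0 0 (step_sound _ 164 [(rh26e1017678d9da1f.shift 0 2), (rh35a02af777b98683.shift 2 2), (rha7c1da122ef3c297.shift 2 0), (rha9fbfd4bb8cf890b.shift 0 5)] (by decide +kernel))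
noncomputable def rhfa47ea0bb77adff7 : CRef := CRef.mk (Pat.mk 0x280000002800000000000000000000000000000000 0x40000005c000000fc0000007c0000002f0000006e000000fc0000007e0000005c00000014 7 8) 0 0 (step_sound _ 99 [(rh0aae1ee34b51faa6.shift 2 1), (rh0eb09afa9815783c.shift 2 1), (rh30afbeb9a1894893.shift 1 0), (rh4692eec48c60ad82.shift 2 0), (rh5c5fc92a22ce9407.shift 2 1), (rh72ef61a7f3630de0.shift 1 2), (rhd24db5edf9fa939b.shift 0 1), (rhe8a7723f405835bc.shift 0 2)] (by decide +kernel))
noncomputable def rh1976e6a21e904e01 : CRef := CRef.mk (Pat.mk 0x16000000100000000000000000 0x1000000070000000700000007000000070000001e000000370000000600000006 7 6) 0 0 (step_sound _ 99 [rh46332abad5027c18, (rhe25b0a99195a5d59.shift 1 2)] (by decide +kernel))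
noncomputable def rh17ef84de4fc1bdd3 : CRef := CRef.mk (Pat.mk 0x2c000000200000000000000000 0x20000000e0000000e0000002e0000006e0000003e0000003f0000001c0000001c 7 7) 0 0 (step_sound _ 100 [(rh46332abad5027c18.shift 1 0), (rh8859ac061aed93d9.shift 1 0), (rhdceeca65bdd8095a.shift 0 2)] (by decide +kernel))
noncomputable def rh9ff396067a2e3425 : CRef := CRef.mk (Pat.mk 0x2c000000200000000000000000 0x20000000e0000000e0000000e0000007f0000003e0000003f0000000c0000000c 7 7) 0 0 (step_sound _ 100 [(rh46332abad5027c18.shift 1 0), (rh61325f73ebf98108.shift 0 3), (rhdceeca65bdd8095a.shift 0 2)] (by decide +kernel))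
noncomputable def rh131b19269d79d13d : CRef := CRef.mk (Pat.mk 0x80000000a00000008000000000000000000000000 0x140000001e0000000f000000080000001c0000001c00000014 7 5) 0 0 (step_sound _ 67 [(rh46baee19951a66e7.shift 2 0), (rh6aa5625770489e83.shift 2 0), (rh8cdd36b03d57a2f6.shift 2 0), (rhbdbc38e9704037ba.shift 0 1)] (by decide +kernel))
end Crest.Agent.S0047.Helper85.Cert
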