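import Crest.Agent.Lib.S0047.Helper85CertPL5F0
import Crest.Agent.Lib.S0047.Helper85CertPL5F1
import Crest.Agent.Lib.S0047.Helper85CertPL5F2
import Crest.Agent.Lib.S0047.Helper85CertPL5F3
import Crest.Agent.Lib.S0047.Helper85CertPL5F4
import Crest.Agent.Lib.S0047.Helper85CertPL5F5
import Crest.Agent.Lib.S0047.Helper85CertPL5F6
import Crest.Agent.Lib.S0047.Helper85CertPL5F7
import Crest.Agent.Lib.S0047.Helper85CertPL5F8
import Crest.Agent.Lib.S0047.Helper85CertPL5F9
import Crest.Agent.Lib.S0047.Helper85CertPL5F10
import Crest.Agent.Lib.S0047.Helper85CertPL5F11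
import Crest.Agent.Lib.S0047.Helper85CertPL5F12
set_option autoImplicit false
set_option linter.all false
set_option Elab.async false
namespace Crest.Agent.S0047.Helper85.Cert
open Crest.Agent.S0047.Helper85

noncomputable def rhf826c6b73aca288d : CRef := CRef.mk (Pat.mk 0x1000000018000000500000004000000000 0x20000000200000007f000000ff000000df000000500000005800000018 6 8) 0 0 (step_sound _ 131 [(rh27c9106f6babc842.shift 1 0), (rh3cb04db3dd2b6a55.shift 3 0), (rh8f027d7bef68c27d.shift 0 1)] (by decide +kernel))
noncomputable def rh523c30775c382bfb : CRef := CRef.mk (Pat.mk 0x1000000018000000500000004000000000 0xc0000002c000000ff000000df0000005f0000005c00000018 6 8) 0 0 (step_sound _ 131 [(rh27c9106f6babc842.shift 1 0), (rh3cb04db3dd2b6a55.shift 3 0), rh80b578288da15354] (by decide +kernel))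
noncomputable def rh78e08efebdfe3e47 : CRef := CRef.mk (Pat.mk 0x4000000060000000400000000 0xe0000000f0000003c000000060000000600000006 6 6) 0 0 (step_sound _ 130 [(rh03dfdf12d5937476.shift 1 0), rh1bd0c14c4de1ef4d] (by decide +kernel))
noncomputable def rh456a3283a6a4a5e9 : CRef := CRef.mk (Pat.mk 0x80000000c000000080000000000000000 0x180000001c0000003c0000000f0000000c0000000c0000000c0000000c 6 6) 0 0 (step_sound _ 130 [(rh0d27ced009cad5ca.shift 2 0), (rh1ef0fd2ac09a778d.shift 0 1), (rh3cb04db3dd2b6a55.shift 2 0)] (by decide +kernel))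
noncomputable def rhae853812b66bb5e0 : CRef := CRef.mk (Pat.mk 0x1000000058000000480000000000000000 0x2c000000ef000000ff0000005f0000005c0000001c0000001c 6 8) 0 0 (step_sound _ 131 [rh870281ab139b9053, (rha34bd16ba30bb185.shift 0 1), (rhfaed4418c4d78e8f.shift 2 0)] (by decide +kernel))
noncomputable def rhb5ec8486eae36709 : CRef := CRef.mk (Pat.mk 0x80000000c0000000400000000 0x40000001e0000003f0000003f0000000f0000000e0000000a 6 6) 0 0 (step_sound _ 131 [(rh5c5e593799055d58.shift 2 1), rhb90c3e3de9811026] (by decide +kernel))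
noncomputable def rh1d0b0a3c6f51529f : CRef := CRef.mk (Pat.mk 0x2000000020000001a0000000800000000 0x5000000070000001f0000001e0000001b0000001e0000003b00000010 6 6) 0 0 (step_sound _ 36 [(rh7174a5174d2fbf5b.shift 0 1), rh717a5ca21244e10e, rhe8b4934e472993d6] (by decide +kernel))
noncomputable def rhff729c16316de54a : CRef := CRef.mk (Pat.mk 0x80000000800000068000000200000000000000000 0x100000007c0000002f000000780000002c0000000c00000004 6 7) 0 0 (step_sound _ 130 [(rh5419adcd928dba20.shift 2 3), rhe7a5f9eb4b6a0715] (by decide +kernel))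
noncomputable def rha1a577fd68ecd424 : CRef := CRef.mk (Pat.mk 0x800000008000000680000002000000000 0x140000001c0000001c0000007f000000fc0000006c00000078000000e000000040 6 8) 0 0 (step_sound _ 163 [(rh10b7907e281d6ef1.shift 2 2), rh80545d60332f2fec, (rha99a3a07ed47ab8d.shift 2 0), (rhc85cc95794737cf7.shift 2 2), (rhf45225cee61080d2.shift 2 2)] (by decide +kernel))
noncomputable def rh7865043f0e018291 : CRef := CRef.mk (Pat.mk 0x8000000080000002800000020 0x1c0000001c0000001c0000001f000000fc0000002c0000002800000028 6 8) 0 0 (step_sound _ 131 [(rh187733abe5006915.shift 2 0), (rh5e727940cea29a80.shift 2 0), (rhc4055b4872d6fb38.shift 2 0), (rhc85cc95794737cf7.shift 2 1), rhc8e5a5606908e7d0] (by decide +kernel))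
noncomputable def rhd1a7153b74913c43 : CRef := CRef.mk (Pat.mk 0x2000000020000001a00000000 0x50000000700000007000000030000001e00000033 6 6) 0 0 (step_sound _ 34 [(rh3244c3cc8379b070.shift 0 1), rh6478298f3f21393e] (by decide +kernel))
noncomputable def rh59c4ba0bdf4c9f43 : CRef := CRef.mk (Pat.mk 0xc000000340000001000000000 0x80000000a0000000f0000003c0000003c0000001600000006 6 6) 0 0 (step_sound _ 131 [(rh8eb2d15efc505b0f.shift 2 1), rhb3783f572df1475f, (rhf9366b6a121593ef.shift 2 0)] (by decide +kernel))
noncomputable def rh6c78af2ad637a9d8 : CRef := CRef.mk (Pat.mk 0xa000000180000000800000000 0x1c0000003c0000000f000000780000001800000010 6 7) 0 0 (step_sound _ 98 [(rh0f2ad82ddeefe864.shift 1 0), (rhb739f4f82bb681b4.shift 0 2)] (by decide +kernel))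
noncomputable def rhb6bbf1b8e0d619f0 : CRef := CRef.mk (Pat.mk 0x50000000c0000000400000000 0xa0000000e0000001e0000000f0000003c0000000c00000008 6 6) 0 0 (step_sound _ 130 [(rh087dc13f35ec4046.shift 0 1), (rhc85cc95794737cf7.shift 1 1), (rhd4b4beefcd67f51e.shift 2 0)] (by decide +kernel))
noncomputable def rh36fa5a9e87ad6f72 : CRef := CRef.mk (Pat.mk 0x14000000340000001000000000 0x280000003b0000003e00000036000000340000003400000020 6 6) 0 0 (step_sound _ 132 [(rhc85cc95794737cf7.shift 3 1), (rhd4b4beefcd67f51e.shift 4 0), (rhfe2f5f0e94653451.shift 0 1)] (by decide +kernel))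
noncomputable def rhb55f1a29bce9ac15 : CRef := CRef.mk (Pat.mk 0x400000002000000020000000200000000000000000000000000000000 0x400000007000000030000000300000003000000070000000700000004 6 3) 0 0 (step_sound _ 97 [(rhbaefcd01e0a8bca3.shift 1 3), rhc324b959c2cd5e2b] (by decide +kernel))
noncomputable def rhb2e9fa111791276b : CRef := CRef.mk (Pat.mk 0x1000000008000000080000002800000020 0xd800000078000000ef0000007e0000006f00000024 6 8) 0 0 (step_sound _ 69 [(rh1a6c6a67a3e976d9.shift 0 1), (rh371f6fd719518bfc.shift 1 0), (rh41eae2fac3de5cd9.shift 2 0), (rh8e01dfdd2d022281.shift 1 0)] (by decide +kernel))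
noncomputable def rh6f92d849ef5f2072 : CRef := CRef.mk (Pat.mk 0x3000000020000000800000008000000000 0x1000000018f000001fe000001ff000001800000018000000100 6 9) 0 0 (step_sound _ 131 [(rh7bf656776bcdbf43.shift 2 0), (rh8ee80cc30e93a344.shift 2 3), (rhc21a95c499b3efdb.shift 2 3), (rhef10fae1657207bc.shift 0 3)] (by decide +kernel))
noncomputable def rh5b7c25578bf8ebab : CRef := CRef.mk (Pat.mk 0x2000000020000000a00000008 0x500000007000000070000003e0000000b0000000b0000000b 6 6) 0 0 (step_sound _ 129 [rh187733abe5006915, rh20966da26a1c2ae8, rh565a0c22519f57e9, (rhc85cc95794737cf7.shift 0 1)] (by decide +kernel))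
noncomputable def rh3b73fff9f005e55b : CRef := CRef.mk (Pat.mk 0x400000004000000040000001400000010 0xa0000003f0000003f000000140000001400000010 6 6) 0 0 (step_sound _ 131 [(rh2f68792b6b779e96.shift 2 1), rh47e776f0e4d3f92f] (by decide +kernel))
noncomputable def rha3ca12991df5858c : CRef := CRef.mk (Pat.mk 0x8000000080000002800000028 0x740000007f0000007f0000002800000028 6 7) 0 0 (step_sound _ 98 [(rh50fbb5868c909700.shift 2 0), rh88bb2403be416090] (by decide +kernel))
noncomputable def rh351cf76840ef9cf4 : CRef := CRef.mk (Pat.mk 0x800000028000000200000000000000000 0x100000001f000000fe000001ef0000000800000008 6 9) 0 0 (step_sound _ 100 [(rh3918eeb6c53434d8.shift 0 2), (rh8ee80cc30e93a344.shift 2 2), (rha3494eb53bee01dd.shift 2 2), (rhebe9f0dc13d89c6c.shift 2 0)] (by decide +kernel))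
noncomputable def rh12db92d523aa5194 : CRef := CRef.mk (Pat.mk 0x38000000000000000000000000 0x4000000770000007e0000000f0000000800000008 6 7) 0 0 (step_sound _ 98 [(rh61325f73ebf98108.shift 0 3), (rh7654d7b92c96fe12.shift 0 2), (rh775ca1963e850b80.shift 0 2), (rhafa5a7051d37b143.shift 1 0)] (by decide +kernel))
noncomputable def rhef178723fad67842 : CRef := CRef.mk (Pat.mk 0x40000001c00000010000000000000000000000000 0x4000000040000000c0000003c0000007f0000000f0000000c00000004 6 7) 0 0 (step_sound _ 99 [(rh5d54cb79a67f97ab.shift 2 1), (rha40d42a2e34c408d.shift 2 1), rhe0630501002572b7] (by decide +kernel))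
noncomputable def rh7fbeb074c0d20e2a : CRef := CRef.mk (Pat.mk 0x40000001c000000180000000000000000 0x18000000180000001c0000001c0000007c0000000f0000000c 6 7) 0 0 (step_sound _ 35 [rh27c2202d6a886cf3, (rh7b1f1fb55310c477.shift 2 0)] (by decide +kernel))
noncomputable def rh51278663a7d64a36 : CRef := CRef.mk (Pat.mk 0x40000001c00000018000000000000000000000000 0x6000000060000000e0000001c0000007f000000060000000400000004 6 7) 0 0 (step_sound _ 101 [rhb935d214f02e33fb, (rhf48373e13d2bc128.shift 2 3)] (by decide +kernel))
noncomputable def rh63ac5d7eaa6d8c56 : CRef := CRef.mk (Pat.mk 0x20000000200000006000000000000000000000000 0x5000000070000000700000003000000070000000700000006000000030000000300000003 6 3) 0 0 (step_sound _ 65 [(rh1ffd91322bb18093.shift 0 2), rh6aa5625770489e83, rheacedd262407fad2] (by decide +kernel))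
noncomputable def rh2048b9855f7c15ab : CRef := CRef.mk (Pat.mk 0x800000018000000080000000000000000 0x1c0000001c0000001f00000078000000180000000c0000000c0000000c 6 7) 0 0 (step_sound _ 132 [(rh53d93716fa7ff217.shift 0 1), (rh9bac905cb1020fca.shift 2 0), (rhea7a1800d6f053bd.shift 3 0)] (by decide +kernel))
noncomputable def rh8d02c9f33e051d63 : CRef := CRef.mk (Pat.mk 0x4000000040000001c0000001000000000 0xc0000000e0000000f0000003f0000001c0000001400000004 6 6) 0 0 (step_sound _ 99 [rh146d5fff78aa98a8, (rh46cb53bd77e415aa.shift 0 1), rhfc74dae190a15da9] (by decide +kernel))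
noncomputable def rhf5815e56377ddf29 : CRef := CRef.mk (Pat.mk 0x8000000080000003800000020 0x40000001c0000001c000000180000007c0000003f0000003800000028 6 7) 0 0 (step_sound _ 66 [rh5350a5c3672f0581, (rh88e4342af732efba.shift 2 0), (rhc02b3aee7ab87ee1.shift 0 1)] (by decide +kernel))
noncomputable def rh20acedd11cd2828b : CRef := CRef.mk (Pat.mk 0x80000000800000038000000200000000000000000 0x4000000160000007f0000003f000000380000002c0000000c00000004 6 7) 0 0 (step_sound _ 164 [(rh044c98165ddc91cc.shift 0 2), rh55203c3261200b55, (rhb8c18aeece372d98.shift 2 0), (rhfdd14058eaa9f9ec.shift 3 2)] (by decide +kernel))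
noncomputable def rhdbaffde9ea0ca776 : CRef := CRef.mk (Pat.mk 0x4000000040000001c00000010 0xa0000000e0000000f0000003c0000000c0000001c00000010 6 6) 0 0 (step_sound _ 130 [(rh65909b08999dc522.shift 1 1), (rh74077b621f65b9d0.shift 2 0), (rhc85cc95794737cf7.shift 1 1), rhdacd99aa77b05603] (by decide +kernel))
noncomputable def rhc8d87857cd4a1a6a : CRef := CRef.mk (Pat.mk 0x4000000040000001c000000100000000000000000 0xe0000000e0000000f0000003f0000001c000000160000000600000006 6 6) 0 0 (step_sound _ 131 [rh2b76a34e110926d0, (rh46cb53bd77e415aa.shift 0 2), (rhe5f654762a2757a0.shift 1 0), (rhfc74dae190a15da9.shift 0 1)] (by decide +kernel))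
noncomputable def rh6559c1b37b741ede : CRef := CRef.mk (Pat.mk 0x2000000020000000a0000000c0000000000000000 0x200000002000000030000007e0000007c0000000400000004 6 7) 0 0 (step_sound _ 98 [(rh2145e1d24b96a57e.shift 1 2), rh5b3d0471ae4ad01d] (by decide +kernel))
noncomputable def rhd351028b4234a131 : CRef := CRef.mk (Pat.mk 0x800000008000000280000003000000000 0x380000007c0000002f00000038000000fe00000044 6 8) 0 0 (step_sound _ 68 [rh1543682d0afc803a, (rh2145e1d24b96a57e.shift 3 1)] (by decide +kernel))
noncomputable def rh95388497e8f54457 : CRef := CRef.mk (Pat.mk 0x80000000800000008000000280000002000000000 0x40000007f0000007c00000028000000780000007000000050 6 7) 0 0 (step_sound _ 162 [(rh50fbb5868c909700.shift 2 2), rh84a64553713948cf] (by decide +kernel))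
noncomputable def rh925183b655681fc2 : CRef := CRef.mk (Pat.mk 0x200000002000000020000000a00000000 0x400000007000000070000000300000003000000030000001e00000004 6 5) 0 0 (step_sound _ 34 [(rh55afc6a59410cf00.shift 1 0), (rhf91c42965b0b55a9.shift 0 1)] (by decide +kernel))
noncomputable def rhdad8220a6cd60687 : CRef := CRef.mk (Pat.mk 0x200000002000000020000000a00000000 0x50000000700000007000000060000000600000007000000030000001e00000004 6 5) 0 0 (step_sound _ 34 [(rh55afc6a59410cf00.shift 1 0), (rh6cb300a8a81c60e1.shift 0 1)] (by decide +kernel))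
noncomputable def rha2009a262f25f02e : CRef := CRef.mk (Pat.mk 0x20000001a000000080000000000000000 0x4000000070000001e0000003f0000000300000003 6 6) 0 0 (step_sound _ 98 [rh18ce1c06357adb0d, (rh3244c3cc8379b070.shift 0 3)] (by decide +kernel))
noncomputable def rh1f11f3806b0e7523 : CRef := CRef.mk (Pat.mk 0xa000000180000000800000000 0x140000001c0000003c0000000f000000180000001c00000014 6 6) 0 0 (step_sound _ 131 [(rh762a1aeaf83c662a.shift 2 0), (rhd4b4beefcd67f51e.shift 3 0), rhf95806441cf28459] (by decide +kernel))
noncomputable def rh27ccc3b87268a2ca : CRef := CRef.mk (Pat.mk 0x200000002000000020000000a000000000000000000000000 0x20000000200000006000000060000001f000000030000000300000002 6 5) 0 0 (step_sound _ 64 [(rh79877ebd3ef475dd.shift 0 2), rha7f4ddb95da48714] (by decide +kernel))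
noncomputable def rh909b4dffbd113a60 : CRef := CRef.mk (Pat.mk 0x20000000a0000000a00000000 0x50000000700000007000000020000001a0000000f00000005 6 5) 0 0 (step_sound _ 129 [rh762a1aeaf83c662a, (rhc85cc95794737cf7.shift 0 1), rhe8768a83bdb59c61] (by decide +kernel))
noncomputable def rhb02c57409ba18ec3 : CRef := CRef.mk (Pat.mk 0x800000008000000680000002000000000 0x140000007c0000002f000000780000002800000008 6 7) 0 0 (step_sound _ 98 [(rh5419adcd928dba20.shift 2 2), rhe07086f5016912cc] (by decide +kernel))
noncomputable def rha5a03244e899509c : CRef := CRef.mk (Pat.mk 0xa0000000a0000000800000000 0x140000001c0000001e0000000f0000001e0000003800000010 6 6) 0 0 (step_sound _ 131 [rh358c231171d2d7ca, (rh7e90affc6ee08a22.shift 0 1), (rhc17b7d8fab3dfe57.shift 2 0)] (by decide +kernel))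
noncomputable def rh7c377d2256e75779 : CRef := CRef.mk (Pat.mk 0xa0000000a0000000800000000 0x140000001c0000001e0000000f0000007e0000000c00000004 6 7) 0 0 (step_sound _ 131 [(rh762a1aeaf83c662a.shift 2 0), (rh7e90affc6ee08a22.shift 0 1), rh91da0006f5df7f0b] (by decide +kernel))
noncomputable def rha9891382d4830bbd : CRef := CRef.mk (Pat.mk 0x1000000014000000140000001000000000 0x2c0000007f0000003c0000001c0000007800000028 6 7) 0 0 (step_sound _ 37 [(rh55afc6a59410cf00.shift 4 0), rhdb7081e5d95ff0b1] (by decide +kernel))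
noncomputable def rhf8f79df7a30ca28e : CRef := CRef.mk (Pat.mk 0x80000000a000000080000000800000000 0x8000000080000001f000000780000001c00000014 6 7) 0 0 (step_sound _ 2 [(rh79877ebd3ef475dd.shift 2 0), rhdc8c05ba9d0622cf] (by decide +kernel))
noncomputable def rh2bb65c9c1806ce16 : CRef := CRef.mk (Pat.mk 0xa0000000a00000008 0x1f000000fe000000fc 6 8) 0 0 (step_sound _ 36 [(rh327ea1939c92a27f.shift 1 0), (rh9ebd639649ea671c.shift 0 1), rhb8c2ec168a9ed19f, (rhd8be3b7ca6adb62f.shift 0 1)] (by decide +kernel))
noncomputable def rhb46a7b339e4b279a : CRef := CRef.mk (Pat.mk 0x200000002000000020000000000000000 0x500000007000000070000000300000006000000070000000700000004 6 3) 0 0 (step_sound _ 161 [(rh12461e137161f2e1.shift 0 1), rh46baee19951a66e7, (rhc85cc95794737cf7.shift 0 2)] (by decide +kernel))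
noncomputable def rhcd8c2876e3909fb3 : CRef := CRef.mk (Pat.mk 0x2000000020000000a000000020000000000000000 0x6000000060000003e000000070000000600000006 6 6) 0 0 (step_sound _ 34 [rh7b7aea069deba254, (rhd3458b32566d63f7.shift 1 1)] (by decide +kernel))
noncomputable def rhaa3486953425d73e : CRef := CRef.mk (Pat.mk 0x80000002800000028000000000000000000000000 0x800000008000000e8000000fc0000001f0000001c00000014 6 8) 0 0 (step_sound _ 67 [(rh8cdd36b03d57a2f6.shift 2 0), (rhc8fd50c44a2112a0.shift 0 1), (rhf69842878991996e.shift 2 1)] (by decide +kernel))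
noncomputable def rhe382f86513959cd2 : CRef := CRef.mk (Pat.mk 0x20000000a0000000a0000000200000000 0x1d0000000f0000001a0000000e0000000600000004 6 5) 0 0 (step_sound _ 34 [(rh55afc6a59410cf00.shift 1 0), (rh78f97edf6de3f6e9.shift 0 1)] (by decide +kernel))
noncomputable def rhbc6c8589eec50122 : CRef := CRef.mk (Pat.mk 0x280000003c000000000000000000000000 0x8000000080000002f0000003f0000001c0000001c0000001c 6 6) 0 0 (step_sound _ 163 [(rha768b229dc254047.shift 3 0), rhb95a3234de168ec3, (rhde10baa3043a2b46.shift 2 2), (rhfafeb437ceb8396d.shift 2 0)] (by decide +kernel))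
noncomputable def rhd517ebcd131bbf76 : CRef := CRef.mk (Pat.mk 0x2800000028000000000000000000000000 0x20000001ef0000007e000000c70000004000000040 6 9) 0 0 (step_sound _ 100 [(rh5ea5b6c71c5c47fb.shift 2 0), (rha11dfd15f08f96e3.shift 2 3), (rha9fbfd4bb8cf890b.shift 0 3), (rhb12ffaec36122c99.shift 0 2), (rhd117684c4a851b90.shift 1 3)] (by decide +kernel))
noncomputable def rh112dd31db144d735 : CRef := CRef.mk (Pat.mk 0x2800000028000000000000000000000000 0x20000001ef000000fe000001df0000004000000040 6 9) 0 0 (step_sound _ 100 [(rh5ea5b6c71c5c47fb.shift 2 0), (rha11dfd15f08f96e3.shift 2 3), (rhb12ffaec36122c99.shift 0 2), (rhd117684c4a851b90.shift 1 3), (rhfea987b6f2003d48.shift 2 2)] (by decide +kernel))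
noncomputable def rh6d070143010365d5 : CRef := CRef.mk (Pat.mk 0xa0000000e000000000000000000000000 0xa0000003a0000003e000000370000001400000014 6 6) 0 0 (step_sound _ 100 [rh5002fd5ca5291a69, (rhe7d1749390aefb37.shift 1 0), rhefb519189d8f62d1] (by decide +kernel))
noncomputable def rh065d11488daa6fe7 : CRef := CRef.mk (Pat.mk 0x800000028000000280000000000000000 0x14000000140000003e0000007f0000006c000000280000000c00000004 6 7) 0 0 (step_sound _ 162 [(rh0dbc8abee7ad42d4.shift 2 1), (rhb84baac6207e4014.shift 2 0), (rhbab796f6dafe9186.shift 2 2), (rhbec796c3ea7a32e6.shift 1 1), (rhe0e86b5867e969be.shift 0 1)] (by decide +kernel))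
noncomputable def rhd2f6bb1288d36d0d : CRef := CRef.mk (Pat.mk 0xa0000000e000000000000000000000000 0x80000003b0000001e000000330000001000000010 6 6) 0 0 (step_sound _ 100 [(rh3244c3cc8379b070.shift 0 3), rhefb519189d8f62d1] (by decide +kernel))
noncomputable def rh054cae44ffedf79a : CRef := CRef.mk (Pat.mk 0x200000002000000020000000000000000 0x500000007000000070000000600000003000000030000000300000001 6 3) 0 0 (step_sound _ 161 [(rh20966da26a1c2ae8.shift 0 1), rh367118e0bf0473e0, (rh565a0c22519f57e9.shift 0 1), (rh762a1aeaf83c662a.shift 0 1), (rhc85cc95794737cf7.shift 0 2)] (by decide +kernel))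
noncomputable def rh7053687f880f33b6 : CRef := CRef.mk (Pat.mk 0x400000014000000040000000400000000 0xa0000003e00000037000000040000000600000002 6 6) 0 0 (step_sound _ 1 [(rh1d90b59f780b588e.shift 0 1), (rh79877ebd3ef475dd.shift 1 0)] (by decide +kernel))
noncomputable def rh517f7ea899666a81 : CRef := CRef.mk (Pat.mk 0x20000001e000000020000000000000000 0x6000000060000001e0000003e0000000700000007 6 6) 0 0 (step_sound _ 68 [rhded110ed8c960ef7, (rhe25b0a99195a5d59.shift 1 2)] (by decide +kernel))
noncomputable def rh46778aeefcf6d76c : CRef := CRef.mk (Pat.mk 0x200000003000000020000000200000000 0x10000000700000007000000070000000300000003000000020000000600000004 6 3) 0 0 (step_sound _ 34 [(rh55afc6a59410cf00.shift 1 0), (rh61a265477cc71d12.shift 0 1)] (by decide +kernel))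
noncomputable def rh097a8214b5852d20 : CRef := CRef.mk (Pat.mk 0x7800000000 0xe0000000ff0000003c 6 8) 0 0 (step_sound _ 3 [rhc6d8d083c79a9348, (rheb0810cc63b001d8.shift 2 0)] (by decide +kernel))
noncomputable def rhd2053798cf91e388 : CRef := CRef.mk (Pat.mk 0x7800000000 0xe0000000ff0000003c 6 8) 0 0 (step_sound _ 70 [(rh33e738c4ed385b9f.shift 3 1), rh38b2e5d9d012fb61] (by decide +kernel))
noncomputable def rh518971a4afa7de09 : CRef := CRef.mk (Pat.mk 0x140000001400000004000000000000000000000000 0x2000000060000001600000014000000160000001f0000003e0000000a00000008 6 6) 0 0 (step_sound _ 67 [(rh74149a5557f64ba4.shift 1 1), (rha0d97ddec4fdd57b.shift 2 0), (rhaf349dd7709502bf.shift 1 2), (rhb6e11cfc959c8a3c.shift 0 1), (rheece6aff2001ab10.shift 2 0)] (by decide +kernel))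
noncomputable def rh807cce3c0d449a1e : CRef := CRef.mk (Pat.mk 0x30000001a000000060000000200000000 0x8000000080000001f0000001b0000001e0000001200000012 6 5) 0 0 (step_sound _ 96 [rh6515a91ab04217d4, rh7b1f1fb55310c477] (by decide +kernel))
noncomputable def rh7c0ee1e2d26a8687 : CRef := CRef.mk (Pat.mk 0x2000000060000000200000001000000000000000000000000 0x2000000070000000700000007000000070000000600000002 6 3) 0 0 (step_sound _ 97 [rh6333418176ede241, (rh932754581e0f4330.shift 0 2)] (by decide +kernel))
noncomputable def rh63dced063d3ec848 : CRef := CRef.mk (Pat.mk 0x30000001a000000060000000000000000 0xa0000000f0000003a0000001e0000003400000010 6 6) 0 0 (step_sound _ 131 [(rhc10214bf3fe8094a.shift 0 3), (rhf2372eebce3472ca.shift 1 0)] (by decide +kernel))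
noncomputable def rh4856766d64383744 : CRef := CRef.mk (Pat.mk 0x40000000c00000004000000060000000000000000 0x400000004000000060000000f0000003e000000060000000400000004 6 6) 0 0 (step_sound _ 194 [(rh79877ebd3ef475dd.shift 1 2), rha3ecc7c6acb14750] (by decide +kernel))
noncomputable def rh41048afe698407dc : CRef := CRef.mk (Pat.mk 0x1a0000000a0000000200000002 0xb0000000f0000001b0000000e0000000600000006 6 5) 0 0 (step_sound _ 128 [rh0414b52e652d555f, rhffd04209dc8ea796] (by decide +kernel))
noncomputable def rh9498b12f918ce30a : CRef := CRef.mk (Pat.mk 0x6800000008000000080000001800000000 0x200000006800000048000000ff0000007e00000024 6 8) 0 0 (step_sound _ 34 [rh56c40d661cec60f2, (rh932754581e0f4330.shift 2 0)] (by decide +kernel))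
noncomputable def rhe2cc0d9d55c42d59 : CRef := CRef.mk (Pat.mk 0x1400000014000000040000000400000000 0x1000000014000000140000003c0000003f0000003a 6 6) 0 0 (step_sound _ 35 [(rh55afc6a59410cf00.shift 2 0), rhbf7616913467870e] (by decide +kernel))
noncomputable def rh429656c4bdd004d9 : CRef := CRef.mk (Pat.mk 0x20000001a000000020000000200000000 0x3000000030000003b0000001f0000000600000004 6 6) 0 0 (step_sound _ 128 [rh029b6ceff91484a8, (rh50fbb5868c909700.shift 0 1)] (by decide +kernel))
noncomputable def rh2bbfc39375aea374 : CRef := CRef.mk (Pat.mk 0x10000001a0000000a0000000200000000 0x90000000f0000001a0000001e0000001300000011 6 5) 0 0 (step_sound _ 129 [rh3f167a6ae0da8247, (rh50fbb5868c909700.shift 0 1)] (by decide +kernel))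
noncomputable def rhff07ed552b644278 : CRef := CRef.mk (Pat.mk 0x1a0000000a000000000000000000000000 0x1a0000001a0000001a0000000f0000003e0000001c00000004 6 6) 0 0 (step_sound _ 98 [(rh43bf56a7235efcb1.shift 1 0), (rh53b3c253cb0c65f4.shift 0 3)] (by decide +kernel))
noncomputable def rh37c2ba6883c89054 : CRef := CRef.mk (Pat.mk 0x1000000010000000100000000a00000000 0x280000003c000000f0000000300000003e00000037 6 8) 0 0 (step_sound _ 36 [(rh305945700f20b255.shift 2 0), rh9b79cd1bc448a214] (by decide +kernel))
noncomputable def rh6cb33c1b1a733882 : CRef := CRef.mk (Pat.mk 0xc0000000c000000050000000400000000 0xc0000001c000000370000001e0000003a 6 6) 0 0 (step_sound _ 33 [rh0ad513941016f775, (rh932754581e0f4330.shift 1 0)] (by decide +kernel))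
noncomputable def rh5572c636538b3c75 : CRef := CRef.mk (Pat.mk 0xd0000000500000004000000000000000000000000 0x50000000d0000000d0000000f0000001e0000000e0000000a 6 5) 0 0 (step_sound _ 66 [(rh4484f1f6caa2756c.shift 0 1), (rh67d2d5a07ad83471.shift 1 0), (rh8c3839f9b9075f23.shift 2 0), (rha8bc3cae4d77a08f.shift 1 0)] (by decide +kernel))
noncomputable def rh56b05f3795e64f26 : CRef := CRef.mk (Pat.mk 0x60000000200000002000000000000000000000000 0x6000000060000000600000006000000070000000700000001 6 3) 0 0 (step_sound _ 65 [(rh2f68792b6b779e96.shift 1 2), rh67d2d5a07ad83471] (by decide +kernel))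
noncomputable def rh14061fa143511e7e : CRef := CRef.mk (Pat.mk 0x180000001a000000120000001000000000 0x40000001f0000001b0000001e0000003800000028 6 6) 0 0 (step_sound _ 37 [(rh55afc6a59410cf00.shift 4 0), rhd79d52371fb5e7f2] (by decide +kernel))
noncomputable def rh6b5dfae983be0244 : CRef := CRef.mk (Pat.mk 0x8000000080000001a0000000200000000 0x140000001e0000007f0000001a0000000f0000000e 6 7) 0 0 (step_sound _ 35 [(rh305945700f20b255.shift 1 0), rh3cf2764919f34f47, rheaf4189574da5b8b] (by decide +kernel))
noncomputable def rh61ac1ef0c2f77d9f : CRef := CRef.mk (Pat.mk 0x80000001a000000120000001000000000 0x1000000010000000180000003b000000fe0000003c00000028 6 8) 0 0 (step_sound _ 132 [(rh0d121b9f000f4687.shift 1 0), (rh3ca4c10fdf355329.shift 2 0), rhabfbfc9e84ce2d24, (rhcb3cc4493dd1ddec.shift 1 0), (rhfcde4125e83054cb.shift 1 0)] (by decide +kernel))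
noncomputable def rh603b58037db264ca : CRef := CRef.mk (Pat.mk 0x4000000040000000c0000000900000000 0x180000003c0000000f0000001c0000000f00000006 6 6) 0 0 (step_sound _ 34 [rh9b98860b308510c2, rhd65b950e17d04dd6] (by decide +kernel))
noncomputable def rhb4765c74a85c9509 : CRef := CRef.mk (Pat.mk 0x2000000060000000200000004 0x100000007000000070000000600000006000000060000000600000004 6 3) 0 0 (step_sound _ 129 [(rh35c5f1c53251aa1b.shift 0 1), (rhd3458b32566d63f7.shift 1 0)] (by decide +kernel))
noncomputable def rhe0dec116d57544aa : CRef := CRef.mk (Pat.mk 0x8000000180000000a00000000 0x140000001c0000001c00000008000000180000000f00000004 6 5) 0 0 (step_sound _ 34 [(rh32431e66bbf434a4.shift 2 0), (rh53b3c253cb0c65f4.shift 0 1)] (by decide +kernel))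
noncomputable def rh10b77e1eac635185 : CRef := CRef.mk (Pat.mk 0x80000001a000000060000000000000000 0x40000000c0000000f0000003a0000001e0000003e00000010 6 6) 0 0 (step_sound _ 67 [(rh04ced5f58dc875e7.shift 1 1), (rh9be069fbbecfe378.shift 1 0), (rhe9d21ca4de82bc56.shift 0 1)] (by decide +kernel))
noncomputable def rhf9f69c06e6d16316 : CRef := CRef.mk (Pat.mk 0x10000000340000000c000000000000000000000000 0xa0000000f0000001e000000360000000e0000000e0000000600000002 6 6) 0 0 (step_sound _ 162 [(rh4882a33f21f09e0f.shift 1 1), (rh53287dc308810e87.shift 1 1), (rh9b45980480369234.shift 0 2), (rhf2eb0d5b8c248a4e.shift 1 0)] (by decide +kernel))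
noncomputable def rhfa3fb64ab7f564bc : CRef := CRef.mk (Pat.mk 0x80000001a000000020000000000000000 0x10000000340000001f0000003b0000001f0000003a00000018 6 6) 0 0 (step_sound _ 67 [(rh60a781551e50bc18.shift 0 2), rh6f628703170d3df2, rh70c88061d19295ac] (by decide +kernel))
noncomputable def rhf00ffa848eb8744f : CRef := CRef.mk (Pat.mk 0x3000000060000000300000000 0x200000006000000070000000700000007000000060000000300000001 6 3) 0 0 (step_sound _ 129 [rh932754581e0f4330, (rhe0416c1b0e2a4508.shift 0 1)] (by decide +kernel))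
noncomputable def rhf46b39396e6480d6 : CRef := CRef.mk (Pat.mk 0x10000000a0000001a000000020000000200000000 0x1c0000000f0000001a0000001a000000130000000300000001 6 5) 0 0 (step_sound _ 32 [rh932754581e0f4330, (rhf9cdf29caa1e90fc.shift 0 1)] (by decide +kernel))
noncomputable def rh251a64182c0fd2b1 : CRef := CRef.mk (Pat.mk 0x80000001a000000020000000000000000 0x40000001c0000003c0000001f0000003b0000001f0000001a00000008 6 6) 0 0 (step_sound _ 67 [(rh0fe9fa7db1515f92.shift 2 0), (rh60a781551e50bc18.shift 0 2), rh6f628703170d3df2] (by decide +kernel))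
noncomputable def rh05b17f93018545a9 : CRef := CRef.mk (Pat.mk 0x4000000040000003400000004 0xa0000003f0000003f0000003400000004 6 6) 0 0 (step_sound _ 99 [(rh2f68792b6b779e96.shift 2 0), rhf0b2b07e489fca5f] (by decide +kernel))
noncomputable def rh4ab73194455a61f4 : CRef := CRef.mk (Pat.mk 0x800000068000000180000000800000000 0x140000003c00000068000000180000001f00000014 6 7) 0 0 (step_sound _ 34 [(rh932754581e0f4330.shift 2 0), rhb3cb658d44e691b9] (by decide +kernel))
noncomputable def rhde167e5f9ee0b3c2 : CRef := CRef.mk (Pat.mk 0x4000000040000003400000004 0x3a0000003e000000370000003400000024 6 6) 0 0 (step_sound _ 97 [(rh50fbb5868c909700.shift 1 0), rh94e01749497dba25] (by decide +kernel))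
noncomputable def rh62b0378f92644851 : CRef := CRef.mk (Pat.mk 0x20000001a00000002000000000000000000000000 0x50000001f0000003b00000002000000070000000700000005 6 6) 0 0 (step_sound _ 162 [rh1b9022be4f7af407, (rh60c8c357ee95cc83.shift 0 4), (rh9d15916a925d4940.shift 0 2)] (by decide +kernel))
noncomputable def rh09387dde597ce57b : CRef := CRef.mk (Pat.mk 0x100000001000000038000000000000000000000000 0x10000000170000003e000000770000002000000020 6 7) 0 0 (step_sound _ 69 [(rh79ad7b82ec8c35e2.shift 4 0), (rhc92c11e8da6c894f.shift 0 2)] (by decide +kernel))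
noncomputable def rha05f8e412b607849 : CRef := CRef.mk (Pat.mk 0x20000001a0000000b000000000000000000000000 0x4000000040000000d0000000f0000001b0000000b0000000b0000000300000003 6 5) 0 0 (step_sound _ 162 [rh1cda65b5c64f5dda, rh9ac41c7b0c47146e, (rheae1012c426b8935.shift 1 2), (rhf2019483e9703d11.shift 0 2)] (by decide +kernel))
noncomputable def rh89a6eb7e3968858f : CRef := CRef.mk (Pat.mk 0x6000000020000000200000004 0x400000007000000070000000300000006000000060000000600000004 6 3) 0 0 (step_sound _ 129 [(rh72afbdc90680d7b8.shift 0 1), (rhd3458b32566d63f7.shift 1 0)] (by decide +kernel))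
noncomputable def rh3ae567c18828c4dd : CRef := CRef.mk (Pat.mk 0x1a0000000a000000000000000000000000 0x20000003a0000003f000000070000000400000004 6 6) 0 0 (step_sound _ 98 [(rh53b3c253cb0c65f4.shift 0 3), rh9a7bfd14ff7942bc] (by decide +kernel))
noncomputable def rhb9607afc3cd6ba2b : CRef := CRef.mk (Pat.mk 0x1a0000000e000000000000000000000000 0x20000003a0000003e000000370000000400000004 6 6) 0 0 (step_sound _ 100 [(rh33e738c4ed385b9f.shift 1 3), rh72647915080d7d02] (by decide +kernel))
noncomputable def rh391617e2f0a93e14 : CRef := CRef.mk (Pat.mk 0xc0000000700000000000000000000000000000000 0xa0000000e0000000e0000000c000000070000003e0000000e0000000e0000000a 6 6) 0 0 (step_sound _ 98 [rh3f069944e50c0cbf, (rh430b3eb90f34d167.shift 0 2), (rhbfcaf333e353a827.shift 1 2), (rhffb8e5993241bf15.shift 1 0)] (by decide +kernel))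
noncomputable def rh757819123010274f : CRef := CRef.mk (Pat.mk 0x10000000180000000a00000000 0x380000003800000038000000380000003e00000037 6 6) 0 0 (step_sound _ 132 [rh251b0c008acf0203, (rh5c5e593799055d58.shift 3 1)] (by decide +kernel))
noncomputable def rhfb45a41e8425ee21 : CRef := CRef.mk (Pat.mk 0x20000000600000002000000020000000000000000 0x300000003000000030000000600000006000000030000000300000003 6 3) 0 0 (step_sound _ 32 [(rh79877ebd3ef475dd.shift 0 1), rhe4053cb9d4f2ef82] (by decide +kernel))
noncomputable def rh27e25cc78547879f : CRef := CRef.mk (Pat.mk 0x3800000010000000c000000000 0x1c7000000fe000001be000000c000000040 6 9) 0 0 (step_sound _ 66 [(rh72297cd55a503360.shift 1 2), (rh72e22f8ff4816922.shift 0 2), (rhf13f312beb2a646b.shift 2 0)] (by decide +kernel))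
noncomputable def rh2f7e59c25c59915c : CRef := CRef.mk (Pat.mk 0x400000034000000040000000e 0xa0000000e000000340000003f0000003f 6 6) 0 0 (step_sound _ 97 [(rh50fbb5868c909700.shift 1 0), rhb12a891bc26239fe] (by decide +kernel))
noncomputable def rhe0bb77b4dbd2288b : CRef := CRef.mk (Pat.mk 0x1a0000000200000006000000020000000000000000 0x3a0000003f00000006000000030000000300000003 6 6) 0 0 (step_sound _ 32 [(rh79877ebd3ef475dd.shift 0 1), rhd3c966ace34946de] (by decide +kernel))
noncomputable def rh1751f8b8f06a9336 : CRef := CRef.mk (Pat.mk 0x18000000020000000200000002000000010000000000000000 0x190000000f0000000600000002000000070000000700000004 6 5) 0 0 (step_sound _ 65 [(rh932754581e0f4330.shift 0 1), rha4c3e007886917da] (by decide +kernel))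
noncomputable def rhe66b102d6557917c : CRef := CRef.mk (Pat.mk 0x3800000010000000100000001000000000 0x70000007f0000003e000000180000001800000008 6 7) 0 0 (step_sound _ 35 [(rh932754581e0f4330.shift 3 0), (rhb1cd64e6cd340f1d.shift 0 1)] (by decide +kernel))
noncomputable def rh935ec10e58072ec6 : CRef := CRef.mk (Pat.mk 0xc00000004000000040000000000000000 0xc0000000c00000004000000070000003e0000000a 6 6) 0 0 (step_sound _ 34 [rh13b591e6d05322b1, (rh2f68792b6b779e96.shift 2 1)] (by decide +kernel))
noncomputable def rheef8212e03c72039 : CRef := CRef.mk (Pat.mk 0x1a000000030000000200000001000000000000000000000000 0x1b0000000f0000000600000003000000070000000600000004 6 5) 0 0 (step_sound _ 97 [rh097bb3fde29ec130, (rh932754581e0f4330.shift 0 2)] (by decide +kernel))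
noncomputable def rh7f9222fe26e32fd0 : CRef := CRef.mk (Pat.mk 0xc000000180000000800000008000000000000000000000000 0xf00000018000000180000000c0000001c0000001c00000010 6 5) 0 0 (step_sound _ 193 [(rh8a1bd34420cccc7f.shift 2 0), (rhb739f4f82bb681b4.shift 0 5)] (by decide +kernel))
noncomputable def rh4c9ef44d4f5ee662 : CRef := CRef.mk (Pat.mk 0x8000000080000001a00000012000000000000000000000000 0x140000001e0000007c0000001b0000001e0000000c0000000c0000000c 6 7) 0 0 (step_sound _ 99 [(rh305945700f20b255.shift 1 2), (rh30fb2484d31c5faa.shift 0 2), (rha9a9dd876407ae9a.shift 2 0)] (by decide +kernel))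
noncomputable def rhbb411e0fc958625b : CRef := CRef.mk (Pat.mk 0x8000000080000001a0000001200000000 0x140000001e000000780000003b0000001e00000008 6 7) 0 0 (step_sound _ 35 [(rh305945700f20b255.shift 1 0), (rh9ce9666211d7d662.shift 0 1)] (by decide +kernel))
noncomputable def rh0024bba0b80456d5 : CRef := CRef.mk (Pat.mk 0x40000000c000000090000000800000000 0x8000000080000000c0000000c0000007f0000001f00000016 6 7) 0 0 (step_sound _ 131 [(rh7133a7a78d762f91.shift 1 0), rh9487a1c21b038ccd, rhb1111a1bcb4ac16d, rhcb3cc4493dd1ddec, rhfcde4125e83054cb] (by decide +kernel))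
noncomputable def rhbd5aca5d260ddaa9 : CRef := CRef.mk (Pat.mk 0xa0000001a00000002000000000000000000000000 0x10000001d0000000f0000001b0000001a00000012000000070000000700000005 6 5) 0 0 (step_sound _ 192 [(rh114f4abf4ea101c9.shift 0 2), (rh9030d61819b24aaf.shift 0 3), rhc05d451ce3dd5e48] (by decide +kernel))
noncomputable def rhfd9553feaebcd262 : CRef := CRef.mk (Pat.mk 0xe0000001200000002000000020000000000000000 0x300000001e0000003200000002000000070000000700000005 6 6) 0 0 (step_sound _ 164 [rh0274cbe0c043f1a8, (rhe25b0a99195a5d59.shift 1 4)] (by decide +kernel))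
noncomputable def rh2fddc3e5be0cffb4 : CRef := CRef.mk (Pat.mk 0x8000000080000001a0000000200000000000000000000000000000000 0x40000000c0000000f0000003b0000001e0000001e000000060000000400000004 6 6) 0 0 (step_sound _ 131 [(rh66d93aa3738235ba.shift 1 0), (rheaf4189574da5b8b.shift 0 3), (rhfc9d2512fa555345.shift 0 3)] (by decide +kernel))
noncomputable def rh39421cb5a82fefcc : CRef := CRef.mk (Pat.mk 0x400000004000000050000000100000000000000000000000000000000 0xa0000000e0000000e00000005000000050000000700000007000000030000000200000002 6 4) 0 0 (step_sound _ 130 [(rh1741680720c097b4.shift 1 4), rh66d93aa3738235ba] (by decide +kernel))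
noncomputable def rhf43be9e603194a9e : CRef := CRef.mk (Pat.mk 0x2000000020000000600000004000000000000000000000000 0x100000003000000030000000600000006000000070000000300000003 6 3) 0 0 (step_sound _ 97 [(rh55afc6a59410cf00.shift 1 2), rha9a9dd876407ae9a] (by decide +kernel))
noncomputable def rh7977cca6ebb8d57c : CRef := CRef.mk (Pat.mk 0xa0000001a0000000200000004 0x90000000f0000001e0000001a0000001600000014 6 5) 0 0 (step_sound _ 129 [rhc3f1fc87bacfa842, (rhd3458b32566d63f7.shift 1 0)] (by decide +kernel))
noncomputable def rh3824feab809a83eb : CRef := CRef.mk (Pat.mk 0xa0000001a00000002000000000000000000000000 0x1d0000000f0000001b0000001a00000016000000070000000700000005 6 5) 0 0 (step_sound _ 192 [(rh9030d61819b24aaf.shift 0 3), rhc05d451ce3dd5e48, (rhd23cdb3fcba554f1.shift 0 1)] (by decide +kernel))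
noncomputable def rh6fbfe95e10184265 : CRef := CRef.mk (Pat.mk 0x280000004800000008000000000000000000000000 0x40000001f00000078000000cc00000018000000180000001000000010 6 8) 0 0 (step_sound _ 68 [(rh05eea61af164c4ad.shift 0 2), (rh2977b00063528966.shift 3 0), (rh5666a7219a7df38c.shift 2 1)] (by decide +kernel))
noncomputable def rh6b2401b9916e863f : CRef := CRef.mk (Pat.mk 0x2000000020000000200000006000000000000000000000000 0x300000003000000030000000600000006000000030000000300000003 6 3) 0 0 (step_sound _ 192 [(rh50fbb5868c909700.shift 0 3), rhbb3996f5a4b726c7] (by decide +kernel))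
noncomputable def rhbc4118ca589e5aca : CRef := CRef.mk (Pat.mk 0x8000000080000001a00000012000000000000000000000000 0x1000000018000000180000003b0000001e0000000c0000000c0000000c 6 6) 0 0 (step_sound _ 99 [(rh946fbe1ddfc14810.shift 2 0), (rh9b98860b308510c2.shift 1 2), (rh9ce9666211d7d662.shift 0 3)] (by decide +kernel))
noncomputable def rh9aca9a31004a9830 : CRef := CRef.mk (Pat.mk 0x140000003400000004000000000000000000000000 0xa0000001f0000003c000000760000001c0000001c0000000800000008 6 7) 0 0 (step_sound _ 67 [(rh5666a7219a7df38c.shift 1 1), (rha0d97ddec4fdd57b.shift 2 0), (rhdec85e13ff70c10d.shift 0 2), (rheece6aff2001ab10.shift 2 0)] (by decide +kernel))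
noncomputable def rh209fff658f9e6bfa : CRef := CRef.mk (Pat.mk 0x14000000040000000400000008 0xa0000001e00000037000000040000000c0000000c 6 6) 0 0 (step_sound _ 130 [(rhd3458b32566d63f7.shift 2 0), rheb70b8a8fbf2830d] (by decide +kernel))
noncomputable def rh5cb93da93234a12a : CRef := CRef.mk (Pat.mk 0x1000000010000000120000000a00000000 0x280000003c000000f0000000330000001e00000010 6 8) 0 0 (step_sound _ 36 [(rh305945700f20b255.shift 2 0), (rh9ce9666211d7d662.shift 0 1)] (by decide +kernel))
noncomputable def rhdef1137b3014024c : CRef := CRef.mk (Pat.mk 0x1000000010000000140000001000000000 0x1000000010000000360000003e0000002f 6 6) 0 0 (step_sound _ 37 [rh2aaa2d799f053650, (rh55afc6a59410cf00.shift 4 0)] (by decide +kernel))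
noncomputable def rhb979880fa957efe1 : CRef := CRef.mk (Pat.mk 0x68000000080000000800000000 0x40000001c0000003c000000680000000f0000003c00000014 6 7) 0 0 (step_sound _ 131 [rh161c003cd166b8ec, (rh2f7aebebd7d680c3.shift 2 1), (rh771d065bdc85bf2d.shift 2 0)] (by decide +kernel))
noncomputable def rh05d04936b4a5e493 : CRef := CRef.mk (Pat.mk 0x1a0000000e000000000000000000000000 0xe0000000f0000001a0000000e0000000e0000000400000004 6 5) 0 0 (step_sound _ 66 [(rh583df6bcba00f617.shift 0 2), (rhade0f4c81793f68e.shift 1 0), (rhcf80391c5046a495.shift 2 0)] (by decide +kernel))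
noncomputable def rhc0e8f02ceab6dbde : CRef := CRef.mk (Pat.mk 0x7800000000 0x3c000000ff000000e0 6 8) 0 0 (step_sound _ 67 [(rh3244c3cc8379b070.shift 2 1), rhedaf679cda8997d1] (by decide +kernel))
noncomputable def rhdceb5e6cd223697b : CRef := CRef.mk (Pat.mk 0x4000000060000000600000000 0xe0000000f0000003c000000060000000600000004 6 6) 0 0 (step_sound _ 130 [rh305945700f20b255, (rh5c5e593799055d58.shift 1 1)] (by decide +kernel))
noncomputable def rh03ca9335106b34cd : CRef := CRef.mk (Pat.mk 0x40000000e0000000a000000020000000000000000 0x40000000f0000001b0000001f0000003800000010 6 6) 0 0 (step_sound _ 100 [rh5719fa8207bae500, (rhb739f4f82bb681b4.shift 0 3)] (by decide +kernel))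
noncomputable def rhc85aa36aca002f4f : CRef := CRef.mk (Pat.mk 0x40000000e0000000a0000000200000000 0x100000003c0000000e0000007b0000001f0000001c 6 7) 0 0 (step_sound _ 35 [rh4b95feabad09c01e, (rh7b1f1fb55310c477.shift 2 0)] (by decide +kernel))
noncomputable def rhe69ecbd8938ac080 : CRef := CRef.mk (Pat.mk 0x4000000040000000e000000000000000000000000 0x140000003c0000001f000000780000000800000008 6 7) 0 0 (step_sound _ 132 [(rh6870ff15d3813450.shift 1 3), rh786a49ef9d97e607, (rh7dcd5319f4f71bec.shift 0 3), rh834ef1c974e4840e] (by decide +kernel))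
noncomputable def rh0aa7d1d25f792b56 : CRef := CRef.mk (Pat.mk 0x200000007000000000 0x1f0000000fe000001e7 6 9) 0 0 (step_sound _ 35 [(rh5c4e3b9267338a4f.shift 3 0), rhc7d592a49b2c2ab2, (rhec46bd5500c722c9.shift 2 1)] (by decide +kernel))
noncomputable def rha3299991d9536132 : CRef := CRef.mk (Pat.mk 0x2000000020000000f000000000 0x2000000020000000200000003f000000fe0000000e 6 8) 0 0 (step_sound _ 35 [rh1f9701c4cf497514, (rh592c7139d2c44767.shift 1 0), (rhd5eb272e07a4e288.shift 2 1), (rhedcde8e48f7f561c.shift 1 0)] (by decide +kernel))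
noncomputable def rh562b2101dbd20143 : CRef := CRef.mk (Pat.mk 0x20000000b0000000f000000000000000000000000 0x140000001c0000001c0000001e0000000b0000000f000000060000000600000006 6 5) 0 0 (step_sound _ 163 [rh02688bd1f8c0d9df, (rh68a777751bfeafdf.shift 2 2), (rha56f4c4626a53b18.shift 1 0), (rhd496eab5cc21e549.shift 0 2)] (by decide +kernel))
noncomputable def rh364bbb610d92995c : CRef := CRef.mk (Pat.mk 0x1c0000000800000008 0x1000000010000000700000003f0000001f00000008 6 7) 0 0 (step_sound _ 33 [(rh0d086598dac1d042.shift 1 0), (rh72297cd55a503360.shift 0 1), rhc38e884ec3171344] (by decide +kernel))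
noncomputable def rh3b7b266d689fbbaa : CRef := CRef.mk (Pat.mk 0x300000001000000070000000300000000 0x1c0000001f00000007000000070000000700000005 6 5) 0 0 (step_sound _ 97 [rh43c7095c87df45e4, rh71222050f2c63a3a] (by decide +kernel))
noncomputable def rh98f018df1a2a3f1f : CRef := CRef.mk (Pat.mk 0x4000000040000001c0000000e 0x180000003c000000370000001f0000003e 6 6) 0 0 (step_sound _ 99 [(rh2f68792b6b779e96.shift 2 0), rh563f3a99178d9008] (by decide +kernel))
noncomputable def rh6e84c20b67440bb4 : CRef := CRef.mk (Pat.mk 0x80000001c000000040000000000000000 0x3f0000003f000000740000000400000004 6 7) 0 0 (step_sound _ 34 [(rh71222050f2c63a3a.shift 2 0), (rhcbb59bc309171cfe.shift 0 2)] (by decide +kernel))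
noncomputable def rhf74fde2ced99cbe2 : CRef := CRef.mk (Pat.mk 0x400000006000000070000000100000000 0xa0000003e0000003e000000070000000500000004 6 6) 0 0 (step_sound _ 129 [rh08986ef6a4f24d76, (rh5c5e593799055d58.shift 0 1)] (by decide +kernel))
noncomputable def rh38cd9cf6c8e249d1 : CRef := CRef.mk (Pat.mk 0x80000001e000000060000000400000000 0x3b0000001e000000360000003c00000018 6 6) 0 0 (step_sound _ 132 [rh069f2d0ec3d2a08d, (rh33e738c4ed385b9f.shift 1 3)] (by decide +kernel))
noncomputable def rhc6b4afa6ebd07226 : CRef := CRef.mk (Pat.mk 0x140000000700000004000000000000000000000000 0x40000001400000014000000170000003e0000001a0000000800000008 6 6) 0 0 (step_sound _ 99 [(rh14aea11f3e9516d0.shift 1 0), (rh89ade209b3e28f13.shift 0 3), (rhb23658ecdd7ce5df.shift 1 2), (rhfa19c8c9744d6e19.shift 0 2)] (by decide +kernel))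
noncomputable def rh71510b032c02f092 : CRef := CRef.mk (Pat.mk 0x38000000000000000000000000 0x40000001f70000007e000000f00000002000000020 6 9) 0 0 (step_sound _ 134 [(rh834ef1c974e4840e.shift 2 0), (rha2e182fd6274be10.shift 0 2), (rhba3fefaa894766da.shift 3 3)] (by decide +kernel))
noncomputable def rh2076dd2092f8b656 : CRef := CRef.mk (Pat.mk 0x1000000070000000200000003000000000 0x10000000f80000003f0000007e0000000f 6 8) 0 0 (step_sound _ 35 [rh565d9b8ceec3e645, rh61a0202de37988d6, rha4102890a42c81c6, (rhf455a135017a3282.shift 2 0)] (by decide +kernel))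
noncomputable def rh7137fe2c8900c160 : CRef := CRef.mk (Pat.mk 0x400000004000000000000001c00000000 0x400000006000000e30000007e000000f7 6 8) 0 0 (step_sound _ 37 [rh185f35b8bd8ec37f, rh991258cf66a6a461, (rha93a5dd541ab8209.shift 2 0)] (by decide +kernel))
noncomputable def rh8eaac4b014231a3e : CRef := CRef.mk (Pat.mk 0x4000000040000001c00000008000000000000000000000000 0x80000000c0000000c0000003c0000000f000000060000000600000006 6 6) 0 0 (step_sound _ 98 [(rh4dc133ee0ba1420a.shift 0 3), (rh946fbe1ddfc14810.shift 1 0), (rhf5094ad2a427d4d3.shift 0 2)] (by decide +kernel))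
noncomputable def rh455c27449d64ea24 : CRef := CRef.mk (Pat.mk 0x200000002000000070000000300000000 0x50000000700000006000000070000001f0000001c 6 5) 0 0 (step_sound _ 128 [(rh50fbb5868c909700.shift 0 1), rh806a30ccd3d3e25c] (by decide +kernel))
noncomputable def rh921092b6ff72a9ee : CRef := CRef.mk (Pat.mk 0x300000007000000000000000200000000 0x1d0000001f00000007000000060000000600000004 6 5) 0 0 (step_sound _ 65 [rh0eaaadb4a79b89e9, (rh50fbb5868c909700.shift 0 1)] (by decide +kernel))
noncomputable def rhfc930f9bddd85f48 : CRef := CRef.mk (Pat.mk 0x80000000c0000001c000000000000000000000000 0x10000000780000001f0000001c000000180000001800000018 6 7) 0 0 (step_sound _ 129 [(rhb739f4f82bb681b4.shift 0 3), (rhf8461f830324ba81.shift 1 0)] (by decide +kernel))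
noncomputable def rhb746c14e3ef5a7b7 : CRef := CRef.mk (Pat.mk 0x3800000000 0x7e0000007e000000f7 6 8) 0 0 (step_sound _ 34 [rh185f35b8bd8ec37f, (rh533304e70e39450e.shift 1 0), rh9e97bba44c1b13e4] (by decide +kernel))
noncomputable def rhe16ce511d14595ea : CRef := CRef.mk (Pat.mk 0x38000000000000000000000000 0x20000000f70000007e000001f00000004000000040 6 9) 0 0 (step_sound _ 70 [(rh0d3c8bf4bf97ae4a.shift 3 2), (rh2e55065c211d34ed.shift 2 0), (rh6aa0ed61cce1493b.shift 2 2), (rh782848cf5e4b1e5e.shift 2 2), (rhc88dbad8567ff01b.shift 0 2)] (by decide +kernel))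
noncomputable def rh3cc329973a365029 : CRef := CRef.mk (Pat.mk 0x38000000000000000000000000 0x40000001f00000007e000000f70000002000000020 6 9) 0 0 (step_sound _ 134 [(rh834ef1c974e4840e.shift 2 0), (rhb61ade19d028b468.shift 0 2), (rhba3fefaa894766da.shift 3 3)] (by decide +kernel))
noncomputable def rh0eadbca7f75f3bf3 : CRef := CRef.mk (Pat.mk 0x1e0000000000000000 0x800000008000000380000001f0000003300000010 6 6) 0 0 (step_sound _ 33 [rh3bc20d0d8c73da06, (rheb0810cc63b001d8.shift 0 1)] (by decide +kernel))
noncomputable def rh309ea988ccf3c5e8 : CRef := CRef.mk (Pat.mk 0x20000001e0000000000000000 0x200000002000000320000003e0000003700000004 6 6) 0 0 (step_sound _ 33 [(rhae2d5c0f36ca7608.shift 1 0), (rheb0810cc63b001d8.shift 0 1)] (by decide +kernel))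
noncomputable def rheac5ba6efd47d678 : CRef := CRef.mk (Pat.mk 0x400000004000000240000003400000000 0x3a0000003e00000077000000340000003400000010 6 7) 0 0 (step_sound _ 131 [rh16ad52829f65a5db, (rh2f68792b6b779e96.shift 2 1)] (by decide +kernel))
noncomputable def rhb969fa8ba3b3fcbb : CRef := CRef.mk (Pat.mk 0x800000008000000080000003800000000 0x1c0000001f00000038000000180000003800000020 6 6) 0 0 (step_sound _ 68 [(rh2145e1d24b96a57e.shift 3 1), rhf3f04f2e70bf25cc] (by decide +kernel))
noncomputable def rhb348d3f5a54aac3a : CRef := CRef.mk (Pat.mk 0x800000058000000380000000000000000 0x10000000370000003f00000078000000380000003000000030 6 7) 0 0 (step_sound _ 36 [rh45f1197fee09613b, (rh7b1f1fb55310c477.shift 3 0)] (by decide +kernel))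
noncomputable def rh6ac6befd8fa4f4b0 : CRef := CRef.mk (Pat.mk 0x10000000b0000000f0000000000000000 0x60000000e0000001f0000000b0000000f0000000600000006 6 5) 0 0 (step_sound _ 33 [rh74b598004bb9e239, rh7b1f1fb55310c477] (by decide +kernel))
noncomputable def rh0010d4b44862a10d : CRef := CRef.mk (Pat.mk 0x2000000160000001c0000000000000000 0x18000000180000003b0000001e0000001c0000000400000004 6 6) 0 0 (step_sound _ 99 [(rh1595c39662a666bb.shift 1 0), (rh3244c3cc8379b070.shift 0 3)] (by decide +kernel))
noncomputable def rhb3b1bbcc0d0fbf9e : CRef := CRef.mk (Pat.mk 0x200000002000000030000000200000000000000000000000000000000 0x200000002000000030000000300000007000000070000000700000001 6 3) 0 0 (step_sound _ 97 [(rh4d70d27262289c21.shift 0 1), (rh7928877f9bf74a91.shift 0 2), (rh8cdd36b03d57a2f6.shift 0 1), rhbaff7ec0fcc038ba] (by decide +kernel))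
noncomputable def rhe48f5c47be1f6e00 : CRef := CRef.mk (Pat.mk 0x100000007000000020000000200000000 0xf0000001f00000007000000060000000600000004 6 5) 0 0 (step_sound _ 129 [(rh50fbb5868c909700.shift 0 1), rhf644b3f7f54bbc91] (by decide +kernel))
noncomputable def rhedb5c0ef153ed839 : CRef := CRef.mk (Pat.mk 0x300000007000000030000000200000000 0x1c0000001f00000007000000070000000700000005 6 5) 0 0 (step_sound _ 32 [rh0eaaadb4a79b89e9, rh71222050f2c63a3a] (by decide +kernel))
noncomputable def rhb08132e42e5c2e8b : CRef := CRef.mk (Pat.mk 0x4000000040000001c0000000800000000 0xa0000000f0000003c0000003c0000000f00000004 6 6) 0 0 (step_sound _ 34 [rh305945700f20b255, (rh4dc133ee0ba1420a.shift 0 1)] (by decide +kernel))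
noncomputable def rh539635c43f092905 : CRef := CRef.mk (Pat.mk 0x180000001c00000010 0x20000000280000007f0000007f0000001c00000010 6 7) 0 0 (step_sound _ 99 [(rh2145e1d24b96a57e.shift 3 0), rh68d48541bd3f106c] (by decide +kernel))
noncomputable def rh65b6137b613c3b3f : CRef := CRef.mk (Pat.mk 0x4000000070000001c000000000000000000000000 0x1a0000003e000000170000001c0000001c0000000c00000008 6 6) 0 0 (step_sound _ 67 [(rh1b50c9b2ad0b9a60.shift 0 1), (rh79ad7b82ec8c35e2.shift 2 0), rhe139380d68eae545] (by decide +kernel))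
noncomputable def rh04b16b10eb37026a : CRef := CRef.mk (Pat.mk 0x1c0000000c0000000800000000 0x1800000018000000180000001c0000001f0000007800000010 6 7) 0 0 (step_sound _ 65 [(rh53b3c253cb0c65f4.shift 0 2), (rha5dc3864e160c44a.shift 1 0)] (by decide +kernel))
noncomputable def rh1fcbfae0bd83d262 : CRef := CRef.mk (Pat.mk 0x30000000600000006 0x1f0000001f000000070000000600000006 6 5) 0 0 (step_sound _ 97 [(rh2145e1d24b96a57e.shift 1 0), rh83aedc160a7f657e] (by decide +kernel))
noncomputable def rh27f9cc92c916aa05 : CRef := CRef.mk (Pat.mk 0x100000001e000000000000000000000000 0x20000001b0000003f000000070000000400000004 6 6) 0 0 (step_sound _ 129 [(rh3244c3cc8379b070.shift 0 3), rhffe265237d4a8bf4] (by decide +kernel))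
noncomputable def rhc3525dd5b9dd89b5 : CRef := CRef.mk (Pat.mk 0x200000002000000060000000c000000000000000000000000 0x2000000060000003e0000003f0000003b0000000200000002 6 6) 0 0 (step_sound _ 100 [rh1d0ac581f18dd026, (rhf48373e13d2bc128.shift 1 3)] (by decide +kernel))
noncomputable def rha1dfaa4b0e5164ad : CRef := CRef.mk (Pat.mk 0x4000000040000000c000000180000000000000000 0x40000007c000000ff0000001f0000000200000002 6 8) 0 0 (step_sound _ 97 [(rhb739f4f82bb681b4.shift 0 2), rhfc4f661c27d040d5] (by decide +kernel))
noncomputable def rh352d9399b5081eee : CRef := CRef.mk (Pat.mk 0xc0000000e000000080000000000000000 0xe0000000f0000003c0000000e0000000e0000000600000006 6 6) 0 0 (step_sound _ 162 [(rh2145e1d24b96a57e.shift 2 2), rhded6f33cb2115a86] (by decide +kernel))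
noncomputable def rh707beaee57f52872 : CRef := CRef.mk (Pat.mk 0x200000006000000020000000400000000 0x40000000700000007000000070000000600000006000000020000000600000004 6 3) 0 0 (step_sound _ 33 [(rh55afc6a59410cf00.shift 1 0), (rhd89aece9dac39914.shift 0 1)] (by decide +kernel))
noncomputable def rhad8dd6be3da81651 : CRef := CRef.mk (Pat.mk 0x2000000120000001e000000020000000000000000 0x90000000f0000001a0000001e0000003e0000001e0000001c 6 6) 0 0 (step_sound _ 34 [rhb2900f27f08b3286, (rhd3458b32566d63f7.shift 1 1)] (by decide +kernel))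
noncomputable def rh030b40c8527a16fb : CRef := CRef.mk (Pat.mk 0x2000000120000001e0000001000000000000000000000000000000000 0x1000000012000000120000001e0000001f0000003c000000380000003800000028 6 6) 0 0 (step_sound _ 100 [(rh470dc4650433fbae.shift 0 2), (rh89cf5152879421f3.shift 3 0), (rh8cdd36b03d57a2f6.shift 3 1), (rh8ff71bc284510f75.shift 3 1), (rhbaff7ec0fcc038ba.shift 3 0)] (by decide +kernel))
noncomputable def rh01e96e5140c5755b : CRef := CRef.mk (Pat.mk 0x1000000080000000c00000008000000000000000000000000 0x140000001c0000001f0000000c0000000c0000000c0000001c0000001c00000010 6 5) 0 0 (step_sound _ 195 [(rh1741680720c097b4.shift 2 3), (rhc5e3f303bbfd8dcf.shift 0 3), (rhed841d9ebc5dd0e1.shift 2 0)] (by decide +kernel))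
noncomputable def rhd11d10d86b2f8859 : CRef := CRef.mk (Pat.mk 0x1000000090000000f000000010000000000000000 0x2000000070000000d0000000f0000001f0000001a00000018 6 5) 0 0 (step_sound _ 67 [rh520048d45bd71775, (rhe25b0a99195a5d59.shift 0 2)] (by decide +kernel))
noncomputable def rhc98846061407cbba : CRef := CRef.mk (Pat.mk 0x2000000120000001e00000002 0x1d0000001f0000001a0000001e00000032 6 6) 0 0 (step_sound _ 4 [rh52f1f1058b5f7a6f, (rhe25b0a99195a5d59.shift 1 0)] (by decide +kernel))
noncomputable def rh445c5f9b767b987d : CRef := CRef.mk (Pat.mk 0x2000000120000001a00000002 0x3d0000001f0000001a0000001a0000000a 6 6) 0 0 (step_sound _ 98 [(rh2f68792b6b779e96.shift 1 0), rh57d33fa649f849f2] (by decide +kernel))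
noncomputable def rh67b6d7f7c21ae307 : CRef := CRef.mk (Pat.mk 0x600000006000000000000000e00000000 0x300000003e0000003f000000780000001e00000008 6 7) 0 0 (step_sound _ 132 [(rh287a7b2bc7251e56.shift 1 1), (rh29fdf8f921e1de28.shift 0 1), rhafd7dc3b9c2dc10b, (rhd11dc6dd83191698.shift 0 3)] (by decide +kernel))
noncomputable def rheaca61f7b6300775 : CRef := CRef.mk (Pat.mk 0x100000007000000020000000200000000 0x2000000060000001e0000001f00000007000000070000000600000004 6 5) 0 0 (step_sound _ 129 [(rh028809442a7beef4.shift 0 1), rh0eaaadb4a79b89e9, rh330f820e7f44bd5b, (rhc82d36bfb2f35839.shift 0 1), rhf644b3f7f54bbc91] (by decide +kernel))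
noncomputable def rha627acec9d629f35 : CRef := CRef.mk (Pat.mk 0x4000000060000001c0000000800000000 0x2000000330000003e0000003e0000001c0000000f00000006 6 6) 0 0 (step_sound _ 129 [(rh3adbc395facab8f1.shift 0 1), (rh3cb04db3dd2b6a55.shift 1 0), rh4181d888a9c2d7d1] (by decide +kernel))
noncomputable def rh2bfd20ad06a88b15 : CRef := CRef.mk (Pat.mk 0x4000000040000000700000004 0xa0000003f0000003f0000000700000004 6 6) 0 0 (step_sound _ 97 [(rh50fbb5868c909700.shift 1 0), rhca7643d48eeb75e8] (by decide +kernel))
noncomputable def rhf3791e3fc6142e86 : CRef := CRef.mk (Pat.mk 0x8000000180000000c000000100000000000000000 0x8000000180000003f0000003f0000000400000004 6 6) 0 0 (step_sound _ 97 [(rh53b3c253cb0c65f4.shift 0 3), rhda4b429055f88d04] (by decide +kernel))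
noncomputable def rh18d72f62729943e8 : CRef := CRef.mk (Pat.mk 0x1e000000180000000800000000 0xc0000000c0000001e0000001b0000001f00000016 6 5) 0 0 (step_sound _ 65 [rh95c470ebe1be0a98, (rheb0810cc63b001d8.shift 0 2)] (by decide +kernel))
noncomputable def rh5452e32b1bab697a : CRef := CRef.mk (Pat.mk 0x200000006000000040000000000000000 0x3000000030000000300000006000000070000000700000001 6 3) 0 0 (step_sound _ 161 [rh08c75accbceac6f3, (rh2145e1d24b96a57e.shift 1 2)] (by decide +kernel))
noncomputable def rh30761c8ae97067ff : CRef := CRef.mk (Pat.mk 0x20000000600000006000000040000000000000000 0xd0000003f0000000700000006000000060000000200000002 6 6) 0 0 (step_sound _ 65 [(rh84d1c02a8954c6a8.shift 1 1), rhdf997f77704b6375, (rhef4c5250813696d3.shift 0 2)] (by decide +kernel))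
noncomputable def rh249fb3ed69219bce : CRef := CRef.mk (Pat.mk 0x180000001c000000100000001800000000 0x10000000180000001f0000001c000000fc00000024 6 8) 0 0 (step_sound _ 67 [(rh2f68792b6b779e96.shift 3 1), rheedd64c777ea6f94] (by decide +kernel))
noncomputable def rh30799a62b75c23c9 : CRef := CRef.mk (Pat.mk 0x80000000800000018000000100000000000000000 0x8000000f80000007f000000ff0000000400000004 6 8) 0 0 (step_sound _ 98 [(rh339ae43a89d2c3a2.shift 1 0), (rh3ce854f4a795c89f.shift 0 2), (rh8ee80cc30e93a344.shift 1 2), rhbe46b4122a8d7f0c, rhe1219aaf688c3b9f] (by decide +kernel))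
noncomputable def rh007baba6eba7b9ea : CRef := CRef.mk (Pat.mk 0x2000000060000000200000002 0x400000007000000070000000700000006000000060000000200000002 6 3) 0 0 (step_sound _ 129 [(rh1741680720c097b4.shift 0 1), (rh44f453b84f013105.shift 1 0), rh59eb96be50c59f3a, (rh64bc0dab78a08b48.shift 0 1)] (by decide +kernel))
noncomputable def rhdb2600a847273fc5 : CRef := CRef.mk (Pat.mk 0x200000006000000120000000200000000000000000000000000000000 0x2000000060000001e0000000300000003000000070000000700000005 6 5) 0 0 (step_sound _ 97 [(rh7928877f9bf74a91.shift 0 2), rh984bfc6de6c2c524, (rhfc1184fab773b2b6.shift 0 2)] (by decide +kernel))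
noncomputable def rh031124573f7c2f61 : CRef := CRef.mk (Pat.mk 0x200000006000000020000000200000000 0x40000000700000007000000070000000600000006000000020000000300000001 6 3) 0 0 (step_sound _ 32 [(rh522ecf462bdca2e3.shift 0 1), rh932754581e0f4330] (by decide +kernel))
noncomputable def rh88688cfef49cfe9f : CRef := CRef.mk (Pat.mk 0x10000000f000000090000000100000000 0x180000001a0000001f0000000f0000000d0000000700000002 6 5) 0 0 (step_sound _ 131 [(rh33e738c4ed385b9f.shift 0 3), rh65d4cadbdf005e7f] (by decide +kernel))
noncomputable def rhcde5728f600bb6ff : CRef := CRef.mk (Pat.mk 0x100000001e000000120000000200000000 0x2800000038000000380000003c0000001f0000001e000000120000001200000010 6 6) 0 0 (step_sound _ 164 [(rh032606ba2cf201a0.shift 0 1), (rh42ab489a1be3958e.shift 3 2), (rh69f0587a21bb077f.shift 3 2), (rhc85cc95794737cf7.shift 3 2), (rhcaa2c1a05e34bcba.shift 3 0)] (by decide +kernel))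
noncomputable def rhafe97f46963dbce5 : CRef := CRef.mk (Pat.mk 0x20000000300000002000000000000000000000000 0x40000000700000007000000030000000300000003000000070000000700000005 6 3) 0 0 (step_sound _ 65 [(rh0e734f8ca6503511.shift 0 1), (rh1dffa6d8a02b5f3a.shift 0 2), rh6eff4158bb400f47] (by decide +kernel))
noncomputable def rhb9831e53396f30f9 : CRef := CRef.mk (Pat.mk 0x20000001a000000120000000200000000 0xa0000001a0000001a0000001f0000003d 6 6) 0 0 (step_sound _ 34 [rh319c8019a5c49c0c, (rh55afc6a59410cf00.shift 1 0)] (by decide +kernel))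
noncomputable def rh358c3012ea04bddb : CRef := CRef.mk (Pat.mk 0x20000001e000000120000000200000000 0x320000001e0000001a0000001f0000001d 6 6) 0 0 (step_sound _ 132 [(rh33e738c4ed385b9f.shift 1 3), rha8d4999eda0f9ec8] (by decide +kernel))
noncomputable def rhcb3abe4c0241db1d : CRef := CRef.mk (Pat.mk 0x200000002000000120000000200000000 0x2000000020000003a0000001f0000003d 6 6) 0 0 (step_sound _ 34 [(rh55afc6a59410cf00.shift 1 0), rh6c8cf47a0b8c0fba] (by decide +kernel))
noncomputable def rh0d11a751507083cf : CRef := CRef.mk (Pat.mk 0xe00000000000000060000000600000000 0x80000001e000000780000003f0000003e00000030 6 7) 0 0 (step_sound _ 36 [(rh1c38a0f61050241e.shift 0 1), rh6849a65d0780d10e, (rh9d386040b49b48e7.shift 1 0), (rhfd0f316c42bbba52.shift 0 1)] (by decide +kernel))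
noncomputable def rh9551af2d9205c9fe : CRef := CRef.mk (Pat.mk 0x400000006000000030000000200000000 0x300000003000000030000000600000006000000070000001f0000001d 6 5) 0 0 (step_sound _ 129 [rh03dfdf12d5937476, rh59a8450f63fdff62, rh871caa7606de9ca4, rhcbaa34959f85e2ef] (by decide +kernel))
noncomputable def rh701870544881cd13 : CRef := CRef.mk (Pat.mk 0x40000001c0000000c000000000000000000000000 0x40000001c0000007f0000007f0000001800000018 6 7) 0 0 (step_sound _ 35 [rh5c7fa21f80a55cf9, (rh9e07f76261b05888.shift 2 1)] (by decide +kernel))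
noncomputable def rh5d36b24d3ac5a5d9 : CRef := CRef.mk (Pat.mk 0x8000000100000001c0000001000000000 0x20000000200000007f0000007f0000001c0000001000000010 6 7) 0 0 (step_sound _ 99 [(rh68d48541bd3f106c.shift 0 1), (rh7b1f1fb55310c477.shift 3 0)] (by decide +kernel))
noncomputable def rh8fd0ef559203cc11 : CRef := CRef.mk (Pat.mk 0x70000000c0000000c0000000000000000 0x8000000180000000f0000000c0000001f0000007800000018 6 7) 0 0 (step_sound _ 35 [rh1bf9e7f30e0f2dab, (rh7b1f1fb55310c477.shift 2 0)] (by decide +kernel))
noncomputable def rh956e257dd5ed2933 : CRef := CRef.mk (Pat.mk 0x4000000120000001a00000002 0x28000000390000003f0000001f000000120000001a0000000a 6 6) 0 0 (step_sound _ 97 [(rh2f68792b6b779e96.shift 1 0), rh90ed844544e9bdb8] (by decide +kernel))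
noncomputable def rh963770b8b25b3cfc : CRef := CRef.mk (Pat.mk 0x1e000000100000000000000000 0x2000000030000003f0000001f0000000400000004 6 6) 0 0 (step_sound _ 65 [rhbfedffabbb60c912, (rheb0810cc63b001d8.shift 0 2)] (by decide +kernel))
noncomputable def rh5a1dda93ea86a8ee : CRef := CRef.mk (Pat.mk 0x1c000000000000000000000000 0x20000000ff0000003e000000770000001000000010 6 8) 0 0 (step_sound _ 133 [(rh039b8263e0627d20.shift 0 2), (rh834ef1c974e4840e.shift 1 0), (rh90fcc1b0fe0017ad.shift 1 3), (rhb8022f71dc28021b.shift 1 3), (rhba3fefaa894766da.shift 2 3)] (by decide +kernel))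
noncomputable def rhcb6bcb73424f5111 : CRef := CRef.mk (Pat.mk 0x100000001c00000018000000000000000000000000 0x100000001c0000007f0000007f0000002800000020 6 7) 0 0 (step_sound _ 67 [(rh71222050f2c63a3a.shift 3 1), rhf23d78e1543076a5] (by decide +kernel))
noncomputable def rhee4f0b4f01bb30f1 : CRef := CRef.mk (Pat.mk 0x8000000080000001800000018 0x340000007f0000003e0000001800000018 6 7) 0 0 (step_sound _ 100 [(rh2f68792b6b779e96.shift 3 0), rhe6c9672ec197abd6] (by decide +kernel))
noncomputable def rh1db4e06c25c4d4cf : CRef := CRef.mk (Pat.mk 0x40000001c0000000c0000000000000000 0x180000007a0000001f0000001c0000000c0000000400000004 6 7) 0 0 (step_sound _ 131 [rh3f09e2870ec06b4b, (rh84d1c02a8954c6a8.shift 2 1), (rhad590f0693506156.shift 0 2)] (by decide +kernel))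
noncomputable def rh1df76c7e7b2d8de4 : CRef := CRef.mk (Pat.mk 0x4000000040000001c0000000400000000 0xa0000000f0000003f0000001c0000000400000004 6 6) 0 0 (step_sound _ 131 [(rh2f68792b6b779e96.shift 2 1), rhd60ebf537c048b2c] (by decide +kernel))
noncomputable def rhbd1eebb2c3ff6107 : CRef := CRef.mk (Pat.mk 0x30000000100000001000000014 0xf0000007e000000fe0000001400000014 6 8) 0 0 (step_sound _ 99 [rh1b7deed2876c5eba, (rh50fbb5868c909700.shift 3 0)] (by decide +kernel))
noncomputable def rhb44485453b2205d7 : CRef := CRef.mk (Pat.mk 0x20000000600000002000000000000000000000000 0x4000000070000000700000007000000060000000600000002000000070000000700000005 6 3) 0 0 (step_sound _ 65 [rh6eff4158bb400f47, (rha707fb719e87fe6e.shift 1 1), (rhd89aece9dac39914.shift 0 2)] (by decide +kernel))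
noncomputable def rh48ff90d9265d40c7 : CRef := CRef.mk (Pat.mk 0x10000000f0000000c0000000000000000 0x700000007000000070000000f0000000f0000007e0000000a 6 7) 0 0 (step_sound _ 130 [(rh1ca57632399d2034.shift 1 0), (rh3e595262c1b737ad.shift 2 1), rh59e7c4701aa8ca2b] (by decide +kernel))
noncomputable def rhc3523e57029333dd : CRef := CRef.mk (Pat.mk 0x7800000040 0x3c0000007f00000067 6 7) 0 0 (step_sound _ 34 [(rh96851dee118c1ba3.shift 2 0), rhd325fcc4a674fdfe] (by decide +kernel))
noncomputable def rhe3f3463fe062b57f : CRef := CRef.mk (Pat.mk 0x1800000038000000080000000000000000 0x1c0000001f0000003800000038000000380000003000000020 6 6) 0 0 (step_sound _ 164 [(rh5c5e593799055d58.shift 3 2), rhf5fd04145212d27f] (by decide +kernel))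
noncomputable def rh2c0c47a199c2e0fc : CRef := CRef.mk (Pat.mk 0x80000000c0000001c0000003000000000 0x2000000020000003f0000001f0000001c0000003400000024 6 6) 0 0 (step_sound _ 97 [rh69f5dcea583a15b3, (rhb739f4f82bb681b4.shift 0 2)] (by decide +kernel))
noncomputable def rh18783cb2029772f7 : CRef := CRef.mk (Pat.mk 0x200000003000000070000000c00000000 0xc0000000c0000001e0000001f0000000f0000000d00000009 6 5) 0 0 (step_sound _ 32 [rh6595adeeb2fb8654, rh71222050f2c63a3a] (by decide +kernel))
noncomputable def rh8ee3ac1471aaf617 : CRef := CRef.mk (Pat.mk 0x60000000c000000180000000800000000 0xa0000000e0000000c0000001c0000001f00000016 6 5) 0 0 (step_sound _ 131 [(rh474875b2ab064539.shift 1 0), rha9f7b2eea21b2c00, (rhd4b4beefcd67f51e.shift 3 0)] (by decide +kernel))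
noncomputable def rh57b6ae9e866a218e : CRef := CRef.mk (Pat.mk 0x20000001e00000002000000040000000000000000 0x10000000320000001e0000003a0000001f0000000f00000001 6 6) 0 0 (step_sound _ 65 [(rh55afc6a59410cf00.shift 1 1), rha419f8278c1a82e8] (by decide +kernel))
noncomputable def rhaf270dcbf6a42261 : CRef := CRef.mk (Pat.mk 0x20000001e0000000200000004000000000000000000000000 0xa0000001e0000003a0000001f0000003d0000003800000008 6 6) 0 0 (step_sound _ 132 [rh59d93a31c4a5c1fa, (rhe25b0a99195a5d59.shift 1 4)] (by decide +kernel))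
noncomputable def rh75f3e1b8421f5813 : CRef := CRef.mk (Pat.mk 0x2000000020000001e00000012 0x1d0000001f0000003a0000001e00000012 6 6) 0 0 (step_sound _ 68 [(rh33e738c4ed385b9f.shift 1 1), rh52f1f1058b5f7a6f] (by decide +kernel))
noncomputable def rhba804b84dee47b97 : CRef := CRef.mk (Pat.mk 0x60000000c000000080000000800000000 0xa0000000e0000000c0000007c0000001f00000016 6 7) 0 0 (step_sound _ 34 [(rh23aad281f166fc15.shift 1 0), (rh2e09a1f486fce422.shift 1 0), rhf7c27e59b1d77735] (by decide +kernel))
noncomputable def rh373667474aafa28f : CRef := CRef.mk (Pat.mk 0xc00000018000000080000000000000000 0xc0000000c000000180000000f0000003c00000014 6 6) 0 0 (step_sound _ 35 [(rh50fbb5868c909700.shift 2 1), rhf3d11b058448e968] (by decide +kernel))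
noncomputable def rh9a699cd7f4dbed76 : CRef := CRef.mk (Pat.mk 0x80000003800000008000000000000000000000000 0x80000000800000008000000380000007f0000001e0000001400000004 6 7) 0 0 (step_sound _ 66 [(rh7e2b5fc52af4e919.shift 2 2), (rh86aa94d7c0c1e10d.shift 1 1), (rhb01ac4982a11ea27.shift 2 0), rhc31d01c7dd067313] (by decide +kernel))
noncomputable def rhbe2baa205312da68 : CRef := CRef.mk (Pat.mk 0x80000001e00000018000000100000000000000000 0x40000000c0000001e0000001b0000001f0000000e0000000c 6 5) 0 0 (step_sound _ 67 [(rh292171eb41eea2cc.shift 0 1), (rh46530d756bdf8511.shift 2 0), (rhe286c75f2739cce2.shift 2 1)] (by decide +kernel))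
noncomputable def rh85efd1e2f2c42ddd : CRef := CRef.mk (Pat.mk 0x20000001e0000000200000000 0x100000007000000070000003e0000001e0000000600000006 6 6) 0 0 (step_sound _ 100 [(rh33e738c4ed385b9f.shift 1 2), rhd993386784fec5a8] (by decide +kernel))
noncomputable def rhb44c1555a6ad8ac0 : CRef := CRef.mk (Pat.mk 0x200000002000000070000000c0000000100000000 0xc0000003f00000007000000070000000e0000000b00000003 6 6) 0 0 (step_sound _ 65 [(rh429b9bd2d8e93879.shift 0 1), rh752c9303f297f9fa, rhe867068ce7ea9877] (by decide +kernel))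
noncomputable def rh53834f4c8bd2c639 : CRef := CRef.mk (Pat.mk 0x1a00000018000000000000000000000000 0x80000001c0000001f0000001b000000180000001c0000001c0000001c 6 5) 0 0 (step_sound _ 67 [(rh160d525394f12cfd.shift 0 2), (rhde06902b74e919fc.shift 2 0), (rhea7a1800d6f053bd.shift 3 0)] (by decide +kernel))
noncomputable def rh384f6f6296a2182e : CRef := CRef.mk (Pat.mk 0x80000000e0000000c0000000000000000 0x2000000020000007f0000007e0000000c0000000400000004 6 7) 0 0 (step_sound _ 34 [(rh41a6113a5a9be7e7.shift 0 1), (rh71222050f2c63a3a.shift 2 0)] (by decide +kernel))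
noncomputable def rhdaf3ea57664bea8e : CRef := CRef.mk (Pat.mk 0x80000000c0000001c0000000000000000 0x20000000f0000003c0000003c0000000600000006 6 6) 0 0 (step_sound _ 34 [(rh71222050f2c63a3a.shift 2 0), rh73d5c96b92820100] (by decide +kernel))
noncomputable def rh9d1bdc1a1646c1c9 : CRef := CRef.mk (Pat.mk 0xc0000001c000000000000000000000000 0x8000000080000000c0000000c0000003c0000001f0000001c00000008 6 6) 0 0 (step_sound _ 163 [(rh1e309b005ffa1b36.shift 2 1), (rh571950d89739e871.shift 2 2), rh64bb50761e3923d6] (by decide +kernel))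
noncomputable def rhfd0036212ace426a : CRef := CRef.mk (Pat.mk 0x1000000010000000380000001800000000 0xc0000001f0000001f000000380000001800000010 6 6) 0 0 (step_sound _ 131 [(rh50fbb5868c909700.shift 3 1), rha4aa9e78ef6b791a] (by decide +kernel))
noncomputable def rh1c7350dbe55ddeca : CRef := CRef.mk (Pat.mk 0x8000000080000001c0000001c00000000 0x140000001c000000180000001c0000007f00000060 6 7) 0 0 (step_sound _ 132 [(rh2f68792b6b779e96.shift 3 1), rhf9c23affc3a78c99] (by decide +kernel))
noncomputable def rh4a3458baae28de85 : CRef := CRef.mk (Pat.mk 0x40000000e000000080000000800000000 0x180000003c0000000e0000000f0000003c00000014 6 6) 0 0 (step_sound _ 131 [(rh712526e472efe489.shift 1 1), rhd97e3ad6649814b3] (by decide +kernel))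
noncomputable def rhc7b47f93266b0cfd : CRef := CRef.mk (Pat.mk 0x6000000060000000c0000000400000000 0x180000003f0000003e0000000c0000000c00000008 6 6) 0 0 (step_sound _ 131 [(rh2f68792b6b779e96.shift 2 1), rh3d2007c8b6a7a3ad] (by decide +kernel))
noncomputable def rhd95954340e2fbf38 : CRef := CRef.mk (Pat.mk 0xe0000001c000000000000000000000000 0x14000000370000003e0000001c0000000c0000000c0000000c 6 6) 0 0 (step_sound _ 67 [rh066c7692cce40b50, (rh3cb04db3dd2b6a55.shift 2 0), (rh438ef3803f1c81a0.shift 0 2)] (by decide +kernel))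
noncomputable def rh3fc3c8b5ce499e13 : CRef := CRef.mk (Pat.mk 0x300000007000000020000000000000000 0x1c0000001f00000007000000060000000600000006 6 5) 0 0 (step_sound _ 33 [rh0eaaadb4a79b89e9, rh7b1f1fb55310c477] (by decide +kernel))
noncomputable def rhb7782adcbb03c7b7 : CRef := CRef.mk (Pat.mk 0x2000000060000000e000000040000000000000000 0x10000000b0000003e0000001e0000003f0000001300000013 6 6) 0 0 (step_sound _ 100 [(rh39a75a3d1c69be24.shift 0 2), rh8cd7ffe18900bf90, rhee9494424fa1796d] (by decide +kernel))
noncomputable def rh8e16ad693f79269c : CRef := CRef.mk (Pat.mk 0x8000000080000001c0000000000000000 0x1000000018000000180000003c0000007f0000003c 6 7) 0 0 (step_sound _ 35 [(rh9f15cace915e145a.shift 2 0), rhb3458ff9694087f9, rhd65e52c5f80caa3b] (by decide +kernel))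
noncomputable def rh79464e2b86481fa3 : CRef := CRef.mk (Pat.mk 0x2000000020000000700000000000000000000000000000000 0x200000002000000060000000700000007000000070000000600000002 6 3) 0 0 (step_sound _ 96 [(rh5c5e593799055d58.shift 0 3), rhee47d95cec925ce0] (by decide +kernel))
noncomputable def rh8b3e23dc5e515904 : CRef := CRef.mk (Pat.mk 0xe0000001c00000000 0x18000000180000007f0000007e0000001c00000018 6 7) 0 0 (step_sound _ 99 [rh1e3b5386eed67ec1, (rh571950d89739e871.shift 2 0)] (by decide +kernel))
noncomputable def rh1a61b61e3f367940 : CRef := CRef.mk (Pat.mk 0x340000001c0000000000000000 0x1c0000001e000000340000001c0000007f0000002a 6 7) 0 0 (step_sound _ 35 [rh2420ce23e32af1a0, (rh3077540e42cd79dc.shift 1 1), (rh40510545dd0289a1.shift 2 0)] (by decide +kernel))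
noncomputable def rh38f0fb95a88aa8b6 : CRef := CRef.mk (Pat.mk 0xc0000001a0000000a0000000800000000 0xf0000001a0000000b0000001f00000017 6 5) 0 0 (step_sound _ 129 [(rhb739f4f82bb681b4.shift 0 3), rhfe85ef6f8dfaf75c] (by decide +kernel))
noncomputable def rhea3d6ec7fa4706f6 : CRef := CRef.mk (Pat.mk 0x10000000100000001a0000000a000000000000000000000000 0x800000018000000180000003b0000001e000000300000003000000030 6 6) 0 0 (step_sound _ 100 [(rh9ce9666211d7d662.shift 0 3), (rhdd11e03a2f8b13b6.shift 3 0)] (by decide +kernel))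
noncomputable def rhe63f804e7ce73b19 : CRef := CRef.mk (Pat.mk 0xa0000001a000000020000000000000000 0x1000000030000000b0000000a0000003b0000001f0000003500000010 6 6) 0 0 (step_sound _ 66 [(rh51ff335405c97b2c.shift 0 2), (rhe380c42df720a63d.shift 0 1), (rhf2372eebce3472ca.shift 1 0)] (by decide +kernel))
noncomputable def rh02f1a9587eb333d0 : CRef := CRef.mk (Pat.mk 0x800000018000000020000000000000000 0x140000001c0000001c0000001c0000001c000000180000001f0000001c00000010 6 5) 0 0 (step_sound _ 163 [(rh35b637737a675811.shift 0 1), (rh4e64b7e82c9211af.shift 2 2), (rh70e33bfdf511e144.shift 3 0), (rheaa992f44778090f.shift 0 1)] (by decide +kernel))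
noncomputable def rh85639243514ab051 : CRef := CRef.mk (Pat.mk 0x40000000c0000000400000000 0xa0000000e0000000f0000003c0000000c0000000c0000000c 6 6) 0 0 (step_sound _ 130 [(rh1741680720c097b4.shift 1 1), rh305945700f20b255, (rhd4b4beefcd67f51e.shift 2 0)] (by decide +kernel))
noncomputable def rhe907bfb2280a18a5 : CRef := CRef.mk (Pat.mk 0x80000001a0000000a00000000 0x40000000c0000000f0000001a0000000f0000000e 6 5) 0 0 (step_sound _ 34 [(rh53b3c253cb0c65f4.shift 0 1), rhe9d21ca4de82bc56] (by decide +kernel))
noncomputable def rh01b3c1357dc39fe6 : CRef := CRef.mk (Pat.mk 0x1400000004000000040000000000000000 0x80000000e0000001e0000003700000006000000060000000600000002 6 6) 0 0 (step_sound _ 162 [(rh20966da26a1c2ae8.shift 1 1), (rhc4526fc8abf298b6.shift 1 0), (rheb70b8a8fbf2830d.shift 0 1)] (by decide +kernel))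
noncomputable def rhebd59031dcdfd5d6 : CRef := CRef.mk (Pat.mk 0x1000000008000000080000001a000000080000000000000000 0x18000000180000000c0000001f0000001b000000080000000800000008 6 5) 0 0 (step_sound _ 195 [(rh2f68792b6b779e96.shift 3 3), rh6fe71c6961286277] (by decide +kernel))
noncomputable def rhd602d1b97db51e18 : CRef := CRef.mk (Pat.mk 0x2000000020000001e00000000 0x50000000700000007000000020000001e00000033 6 6) 0 0 (step_sound _ 1 [rheb0810cc63b001d8, rheec8ae7ada8ac4e3] (by decide +kernel))
noncomputable def rha0caf797f3ff7416 : CRef := CRef.mk (Pat.mk 0x6000000020000001a0000000a0000000000000000 0x1000000130000001f000000120000001a0000001a0000000800000008 6 5) 0 0 (step_sound _ 192 [rhe9474d03effd11f7, (rhffd04209dc8ea796.shift 0 2)] (by decide +kernel))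
noncomputable def rhdeb52af3bc45e818 : CRef := CRef.mk (Pat.mk 0x20000000200000002000000000000000000000000 0x50000000700000007000000070000000300000003000000030000000100000001 6 3) 0 0 (step_sound _ 64 [(rh267727717dc604b3.shift 0 1), rh3743dbe66b959104, (rh43ffdfde5e27da4c.shift 0 1), (rhb77bfac3e9efecea.shift 0 2)] (by decide +kernel))
noncomputable def rh05e0bcd2f4116389 : CRef := CRef.mk (Pat.mk 0x40000000800000068000000080000000000000000 0xc0000000c000000680000003f0000003800000010 6 7) 0 0 (step_sound _ 35 [rha195eeb79f27b68c, (rhffd04209dc8ea796.shift 2 1)] (by decide +kernel))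
noncomputable def rh8a44e44af3b52b57 : CRef := CRef.mk (Pat.mk 0x20000001a0000001e000000000000000000000000 0x20000001a0000001e0000003f0000003400000030 6 6) 0 0 (step_sound _ 65 [(rh5165eed026f7cb84.shift 1 0), (rheb0810cc63b001d8.shift 0 2)] (by decide +kernel))
noncomputable def rh2f456b52cca59d1a : CRef := CRef.mk (Pat.mk 0x40000003400000014000000000000000000000000 0x200000006000000360000001e0000000f0000000e0000000e 6 6) 0 0 (step_sound _ 66 [(rh378c544d8190faf9.shift 0 1), (rh5105acd8a9ec5812.shift 1 0), (rh8ff3dde5b1c639e0.shift 1 0)] (by decide +kernel))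
noncomputable def rh74221a1ce8038979 : CRef := CRef.mk (Pat.mk 0x20000001a0000000a000000000000000000000000 0x1000000130000001b0000001a0000000f0000001f00000005 6 5) 0 0 (step_sound _ 65 [(rh852865f1f7bf94fe.shift 0 1), rh8cdd36b03d57a2f6, rh8ff3dde5b1c639e0, rhc4526fc8abf298b6] (by decide +kernel))
noncomputable def rhb86f8c359c5b8429 : CRef := CRef.mk (Pat.mk 0x200000002000000020000000200000002000000000000000000000000 0x200000002000000030000000300000007000000070000000700000001 6 3) 0 0 (step_sound _ 66 [rh78ebaebada09b245, (rhd3458b32566d63f7.shift 1 2)] (by decide +kernel))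
noncomputable def rh83bc76d6b62360b5 : CRef := CRef.mk (Pat.mk 0x200000002000000020000001a00000002 0x30000000300000007000000060000000f0000001b00000002 6 5) 0 0 (step_sound _ 98 [(rh2f68792b6b779e96.shift 1 0), (rhfe49cb91b66e3865.shift 0 1)] (by decide +kernel))
noncomputable def rh9323631ea85d900e : CRef := CRef.mk (Pat.mk 0x100000002000000020000000200000018 0x4000000070000000700000002000000060000000f00000019 6 5) 0 0 (step_sound _ 129 [(rh50fbb5868c909700.shift 0 1), rh935e980c17a584f0] (by decide +kernel))
noncomputable def rh6d0569de0453e71d : CRef := CRef.mk (Pat.mk 0x20000001a00000002000000000000000000000000 0x50000000f0000001a00000002000000070000000700000005 6 5) 0 0 (step_sound _ 65 [rh2626bf2cd7609b56, (rh2f7aebebd7d680c3.shift 0 2), rh8cdd36b03d57a2f6] (by decide +kernel))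
noncomputable def rh1a625e3c9434efee : CRef := CRef.mk (Pat.mk 0x600000002000000020000000000000000 0x40000000700000007000000030000000600000006000000070000000700000005 6 3) 0 0 (step_sound _ 161 [(rh72afbdc90680d7b8.shift 0 2), rh8cdd36b03d57a2f6] (by decide +kernel))
noncomputable def rhd6a4414310581d00 : CRef := CRef.mk (Pat.mk 0x40000000c000000090000000800000000 0x8000000080000000c0000000c0000007f0000001f00000016 6 7) 0 0 (step_sound _ 131 [(rh3ca4c10fdf355329.shift 1 0), rhb1111a1bcb4ac16d, rhcb3cc4493dd1ddec, rhfcde4125e83054cb] (by decide +kernel))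
noncomputable def rh0d11766df30aeb49 : CRef := CRef.mk (Pat.mk 0x4000000040000000c0000000900000000 0xa0000000f0000003c0000001c0000000f00000006 6 6) 0 0 (step_sound _ 34 [rh305945700f20b255, rh9b98860b308510c2] (by decide +kernel))
noncomputable def rhf1d1ac747eec4e14 : CRef := CRef.mk (Pat.mk 0x20000000200000002000000000000000000000000 0x50000000700000007000000030000000300000006000000070000000700000005 6 3) 0 0 (step_sound _ 66 [rh08c75accbceac6f3, (rh2f7ef8ef5c94975a.shift 1 0), (rhba97f7f4ade5e136.shift 0 2)] (by decide +kernel))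
noncomputable def rh74c475c8b3a9da2d : CRef := CRef.mk (Pat.mk 0xa0000001a00000002000000060000000000000000 0x8000000080000001a0000001a000000120000001f0000001300000001 6 5) 0 0 (step_sound _ 32 [rh5d5fb30bd13e1075, (rh79877ebd3ef475dd.shift 0 1)] (by decide +kernel))
noncomputable def rhaac461888f755c19 : CRef := CRef.mk (Pat.mk 0x4000000040000000c00000009000000000000000000000000 0xa0000000f0000003e0000001c0000000f000000060000000600000006 6 6) 0 0 (step_sound _ 98 [(rh305945700f20b255.shift 0 2), (rh9b98860b308510c2.shift 0 2), (rha9a9dd876407ae9a.shift 1 0)] (by decide +kernel))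
noncomputable def rh91413b63662c8c12 : CRef := CRef.mk (Pat.mk 0x500000005000000010000000200000000 0x20000000200000006000000070000000700000005000000050000000300000002 6 3) 0 0 (step_sound _ 32 [(rh16f92f1c149db50f.shift 0 1), rh55afc6a59410cf00] (by decide +kernel))
noncomputable def rhc6463d74407cd4f3 : CRef := CRef.mk (Pat.mk 0x20000000a0000001a0000000200000000 0x4000000060000000f0000003b0000001e0000000c 6 6) 0 0 (step_sound _ 130 [(rh2f68792b6b779e96.shift 1 1), rh834298ab15ffb7b0] (by decide +kernel))
noncomputable def rh17f01ed4ed63060b : CRef := CRef.mk (Pat.mk 0x20000000a0000001a00000002 0x10000000700000007000000060000000f0000001b00000002 6 5) 0 0 (step_sound _ 130 [(rh9103ba40ffab22e2.shift 0 1), (rhbaefcd01e0a8bca3.shift 1 0)] (by decide +kernel))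
noncomputable def rhbe283bd58fd67095 : CRef := CRef.mk (Pat.mk 0x20000000a0000001a00000002 0x40000000700000007000000030000000f0000001b00000002 6 5) 0 0 (step_sound _ 64 [(rhc10214bf3fe8094a.shift 0 1), rhe90487692b2a42fe] (by decide +kernel))
noncomputable def rh4017251efac0244d : CRef := CRef.mk (Pat.mk 0x60000000a0000001a000000020000000000000000 0x10000000b0000001f0000000a0000001a0000001a0000001000000010 6 5) 0 0 (step_sound _ 192 [rh0a521e874439b647, (rhffd04209dc8ea796.shift 0 2)] (by decide +kernel))
noncomputable def rh642d9f6137a30689 : CRef := CRef.mk (Pat.mk 0x1a0000000000000000 0x4000000040000003f0000003f0000003b00000002 6 6) 0 0 (step_sound _ 66 [rh21460d2d48a35cb8, (rh2381ca26b8b38d1e.shift 0 1)] (by decide +kernel))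
noncomputable def rh96c7f707bea99b74 : CRef := CRef.mk (Pat.mk 0x4000000040000000e000000080000000000000000 0x14000000360000001e0000003b0000000a0000000a 6 6) 0 0 (step_sound _ 35 [(rh7b1f1fb55310c477.shift 2 0), rhb63f23ca8ee319cb] (by decide +kernel))
noncomputable def rhb82c892115b12889 : CRef := CRef.mk (Pat.mk 0xf00000004000000000000000000000000 0xc0000000c0000001c0000000f0000001c000000180000001800000018 6 5) 0 0 (step_sound _ 163 [(rh33e738c4ed385b9f.shift 0 4), rh46f7088379a9b2d8] (by decide +kernel))
noncomputable def rhfe8763e059bbd621 : CRef := CRef.mk (Pat.mk 0x4000000040000001e00000008 0x180000003c000000370000001e00000038 6 6) 0 0 (step_sound _ 68 [(rh33e738c4ed385b9f.shift 1 1), rh99cc03d62322624a] (by decide +kernel))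
noncomputable def rh1c67e5b3f9deaae5 : CRef := CRef.mk (Pat.mk 0x80000001c000000100000001000000000 0x20000000220000007e0000003c000000760000003e0000000f 6 7) 0 0 (step_sound _ 66 [(rh0a7014a658746ef4.shift 1 0), (rh0aefef67a4f5e36d.shift 1 1), rh963de7c22839d482] (by decide +kernel))
noncomputable def rh4d72501e9a1677d5 : CRef := CRef.mk (Pat.mk 0x4000000060000000400000000000000000000000000000000 0x4000000040000000400000006000000070000003e0000000e0000000e00000002 6 6) 0 0 (step_sound _ 98 [(rh2840436db7424bdf.shift 1 1), (rh4ed972033d0a12ff.shift 1 0), (rh6eff4158bb400f47.shift 1 1), (rh81b7e492bbe9bc86.shift 1 0), (rh8ff71bc284510f75.shift 1 1), (rhe81dfc0a63bb579e.shift 0 2)] (by decide +kernel))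
noncomputable def rh1546e2a3e653dbf8 : CRef := CRef.mk (Pat.mk 0x700000006000000020000000000000000 0xc0000003c0000000f000000060000000e0000000c0000000c 6 6) 0 0 (step_sound _ 162 [(rh5c5e593799055d58.shift 1 2), rhbfb4d1154f993d60] (by decide +kernel))
noncomputable def rh53a826bce8ba335b : CRef := CRef.mk (Pat.mk 0xc0000000c000000040000000400000000 0xc0000000c0000003e0000007f0000001a 6 7) 0 0 (step_sound _ 35 [(rh55afc6a59410cf00.shift 2 0), rh59d89ad9ae689cb9] (by decide +kernel))
noncomputable def rhd0412b58ec137e9d : CRef := CRef.mk (Pat.mk 0x60000001e0000000400000000 0xa0000000b0000003e0000001e0000003400000010 6 6) 0 0 (step_sound _ 100 [(rh33e738c4ed385b9f.shift 1 2), rhd0eaf608081d3210] (by decide +kernel))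
noncomputable def rhe4bcf77fb379312d : CRef := CRef.mk (Pat.mk 0x60000001e00000004 0x1800000018000000380000003e0000001f00000004 6 6) 0 0 (step_sound _ 68 [(rh33e738c4ed385b9f.shift 1 1), rhdf9e1c36a9565cd2] (by decide +kernel))
noncomputable def rh274af268928ab1aa : CRef := CRef.mk (Pat.mk 0xc0000000700000000000000000000000000000000 0xa0000000e0000000e0000000c000000070000003e0000000e0000000e0000000a 6 6) 0 0 (step_sound _ 98 [(rh215e11e099257d75.shift 2 2), (rh7e6c0749b1cabd18.shift 0 2), rhb6e5fd90818b20b8, (rhffb8e5993241bf15.shift 1 0)] (by decide +kernel))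
noncomputable def rh93cd3876ecb74842 : CRef := CRef.mk (Pat.mk 0x1a0000000e000000040000000400000000 0x400000004000000340000001e0000000e0000000f0000003e0000000a 6 6) 0 0 (step_sound _ 130 [(rh27fff1f9ab8f90a9.shift 1 0), (rh4522ea7bef838818.shift 1 0), rh7ab2b85ee5f92f48, (rh8af9a32e61457eb0.shift 2 0)] (by decide +kernel))
noncomputable def rhdf0a573fd208c713 : CRef := CRef.mk (Pat.mk 0xc0000000700000002000000000000000000000000 0xc0000000c0000000c000000070000001e0000000c0000000c0000000c 6 5) 0 0 (step_sound _ 194 [rh17160e5dca41bea7, (rh5c5e593799055d58.shift 1 3)] (by decide +kernel))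
noncomputable def rh1884d079e27942be : CRef := CRef.mk (Pat.mk 0x80000000e0000000c000000000000000000000000 0x80000001e0000003f0000003c0000001400000010 6 6) 0 0 (step_sound _ 66 [(rh71222050f2c63a3a.shift 2 1), rh8b967be2c36d3b82] (by decide +kernel))
noncomputable def rh74d7a1840536e62c : CRef := CRef.mk (Pat.mk 0x100000001c00000018000000000000000000000000 0x100000001f0000001c000000f80000003800000038 6 8) 0 0 (step_sound _ 129 [(rhb739f4f82bb681b4.shift 0 3), (rhd8f429786e6ff0e8.shift 2 0)] (by decide +kernel))
noncomputable def rh0f98cf88c6b784e8 : CRef := CRef.mk (Pat.mk 0x10000000140000001c0000001000000000 0x28000000780000001c0000001f0000001400000014 6 7) 0 0 (step_sound _ 131 [rh399c5923aab4017c, (rh50fbb5868c909700.shift 3 1)] (by decide +kernel))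
noncomputable def rh462fe2fb006bc1ed : CRef := CRef.mk (Pat.mk 0x20000000600000012000000000000000000000000 0x30000000300000006000000060000001e000000070000000700000002 6 5) 0 0 (step_sound _ 98 [(rh3e595262c1b737ad.shift 1 2), rh708738f1a30da4fa, rhe3770ae6e6afc7af] (by decide +kernel))
noncomputable def rh170f76c368f01934 : CRef := CRef.mk (Pat.mk 0x200000002000000070000000200000000 0x80000000c0000003e0000003e000000070000001e0000000a 6 6) 0 0 (step_sound _ 130 [(rh2f68792b6b779e96.shift 1 1), rha11fca3094092a4f] (by decide +kernel))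
noncomputable def rh99d19f4e5c6263a4 : CRef := CRef.mk (Pat.mk 0x80000001c00000006000000000000000000000000 0xc0000001c0000003e0000003f0000001600000002 6 6) 0 0 (step_sound _ 66 [rh3823a13274111863, (rh71222050f2c63a3a.shift 2 1)] (by decide +kernel))
noncomputable def rh74b4dde7a4913b74 : CRef := CRef.mk (Pat.mk 0x100000001e000000120000000000000000 0x1000000014000000170000001e0000001e0000000b0000000b 6 5) 0 0 (step_sound _ 129 [rh153eacbc41f9a568, (rh3244c3cc8379b070.shift 0 3)] (by decide +kernel))
noncomputable def rh712a6e1153ab9018 : CRef := CRef.mk (Pat.mk 0x380000000000000000 0x800000008000000ee0000007c0000001f00000004 6 8) 0 0 (step_sound _ 34 [(rh4c5c51b0ae60cece.shift 0 1), (rh73f5f7cdf41b5bc9.shift 1 0), (rhbd67ec2162f87882.shift 1 1), (rhe1c32197ffb40f8f.shift 0 1), (rhe9a32cb39b958db8.shift 0 1)] (by decide +kernel))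
noncomputable def rhc66c3cf68cae2d28 : CRef := CRef.mk (Pat.mk 0x600000007000000000000000000000000 0x2000000070000000700000007000000070000001f0000000e00000002 6 5) 0 0 (step_sound _ 161 [(rh37d9ceebb86d75d1.shift 0 2), rh383db82cbe7a2eeb, (rhde10baa3043a2b46.shift 0 2)] (by decide +kernel))
noncomputable def rh7eb7e05683a3f514 : CRef := CRef.mk (Pat.mk 0xa000000030000000200000000 0x4000000070000001f0000001b000000030000000300000003 6 5) 0 0 (step_sound _ 129 [rh03dfdf12d5937476, (rh2daca00c3d73fad7.shift 0 1), rhf68f58b66a8139c9] (by decide +kernel))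
noncomputable def rhf1ef3c5961f167c9 : CRef := CRef.mk (Pat.mk 0x2000000060000000200000004 0x100000003000000030000000200000006000000070000000700000005 6 3) 0 0 (step_sound _ 129 [rhcd6e5052db4dc6a7, (rhd3458b32566d63f7.shift 1 0)] (by decide +kernel))
noncomputable def rh97da1ffb6b383e55 : CRef := CRef.mk (Pat.mk 0x400000007000000040000000400000000 0x40000000f0000003f0000003e0000000a 6 6) 0 0 (step_sound _ 33 [rh400c7516e9ba6ecd, (rh932754581e0f4330.shift 1 0)] (by decide +kernel))
noncomputable def rh23cdc5c2712ba3ef : CRef := CRef.mk (Pat.mk 0x2000000030000000200000002 0x100000007000000070000000700000003000000030000000200000002 6 3) 0 0 (step_sound _ 129 [rh3ca48e2a6d60153d, (rh4e2df8342d3b8ae8.shift 0 1), rh5b8ed3f93df90ce5, (rhc85cc95794737cf7.shift 0 1)] (by decide +kernel))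
noncomputable def rh4dc63e5aeff20e3f : CRef := CRef.mk (Pat.mk 0x600000004000000040000000000000000 0x600000006000000040000003c0000000f0000000a 6 6) 0 0 (step_sound _ 34 [(rh50fbb5868c909700.shift 1 1), rhac13d16ea91712e4] (by decide +kernel))
noncomputable def rhecb5758bbe22b5f0 : CRef := CRef.mk (Pat.mk 0x8000000480000001e00000010000000000000000000000000 0x34000000fc000000dc0000003e0000001f0000000b0000000a0000000a 6 8) 0 0 (step_sound _ 99 [(rh16aa8deac015341b.shift 2 1), (rh229881a96a2b32fa.shift 2 0), rh38944da09e6b0442, (rh5a21143955ad5638.shift 0 2), (rhb1bf05aef70c346b.shift 3 2)] (by decide +kernel))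
noncomputable def rh4ac21d4f632f9940 : CRef := CRef.mk (Pat.mk 0x1e000000100000001000000000 0x4000000040000003e0000001f0000003300000002 6 6) 0 0 (step_sound _ 65 [rhe1666e33f795fde7, (rheb0810cc63b001d8.shift 0 2)] (by decide +kernel))
noncomputable def rh962f136ba95c74ed : CRef := CRef.mk (Pat.mk 0x3800000010 0x1c7000001fe000001fe 6 9) 0 0 (step_sound _ 38 [(rh269f3e050f7dc7b9.shift 2 0), (rha93a5dd541ab8209.shift 3 0), rhd1ff8027c4c86c76] (by decide +kernel))
noncomputable def rha4b226867853f48a : CRef := CRef.mk (Pat.mk 0x10000000700000002000000020 0x4000000040000000fe0000007e0000003700000020 6 8) 0 0 (step_sound _ 67 [(rh13cff1aaa4924947.shift 2 0), (rh2efad3051cff7df1.shift 0 1), (rh49606a42a30c7ac4.shift 3 0), (rhe0f805967f3463ab.shift 1 1)] (by decide +kernel))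
noncomputable def rh97ba1ee0cf4b7d57 : CRef := CRef.mk (Pat.mk 0x400000004000000060000000200000008 0x40000007c0000007f0000007b00000008 6 7) 0 0 (step_sound _ 67 [rh2ee44980f35f2d69, (rhfa35e196e150edb4.shift 0 1), rhfec22aa83ece2027] (by decide +kernel))
noncomputable def rh5c301a18fcbccb50 : CRef := CRef.mk (Pat.mk 0xc000000040000001c00000008 0x200000002000000f30000007e000000f60000001c00000008 6 8) 0 0 (step_sound _ 100 [rh629560b04dc05533, (rh648846ccf64492b9.shift 1 0), (rhe308b926a0bdad2f.shift 1 2)] (by decide +kernel))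
noncomputable def rha33ef240af5b07f1 : CRef := CRef.mk (Pat.mk 0x1e000000000000000c00000000 0xc0000000c0000000c0000001f000000380000000c00000004 6 6) 0 0 (step_sound _ 68 [rha9b1454a384cff90, (rhe25b0a99195a5d59.shift 1 2)] (by decide +kernel))
noncomputable def rh909238eed06baff9 : CRef := CRef.mk (Pat.mk 0x1e0000000000000008 0x1000000010000000380000003f0000007800000008 6 7) 0 0 (step_sound _ 100 [(rh33e738c4ed385b9f.shift 1 2), rhb8f415117956f37c] (by decide +kernel))
noncomputable def rh642a28b79ec1ad73 : CRef := CRef.mk (Pat.mk 0x30000000100000007000000010 0xf0000007e000000f70000007800000010 6 8) 0 0 (step_sound _ 99 [(rh50fbb5868c909700.shift 3 0), (rh889dce6a60d172eb.shift 0 1)] (by decide +kernel))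
noncomputable def rhdf2255d8cc6b88cf : CRef := CRef.mk (Pat.mk 0x4000000060000001c0000000800000000 0x3a0000003e0000000e0000001c0000000f00000002 6 6) 0 0 (step_sound _ 34 [(rh83aedc160a7f657e.shift 1 1), rhf5094ad2a427d4d3] (by decide +kernel))
noncomputable def rh32371985c64dcf66 : CRef := CRef.mk (Pat.mk 0x1e00000012000000000000000000000000 0x50000000700000007000000070000001e0000001e000000070000000300000002 6 5) 0 0 (step_sound _ 161 [rh137d7dfa92d91645, (rh3244c3cc8379b070.shift 0 4)] (by decide +kernel))
noncomputable def rh190e491999714745 : CRef := CRef.mk (Pat.mk 0x40000000f000000030000000000000000 0x80000001c0000000f0000001f0000001c0000000c 6 5) 0 0 (step_sound _ 131 [rh063d2210da79eeef, (rh33e738c4ed385b9f.shift 0 3)] (by decide +kernel))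
noncomputable def rh01ef145b8180c3b8 : CRef := CRef.mk (Pat.mk 0x7000000040000000400000000 0xe0000001e000000070000003c0000000f0000000a 6 6) 0 0 (step_sound _ 130 [(rh4017de503635a93b.shift 0 1), rh7133a7a78d762f91] (by decide +kernel))
noncomputable def rh9a75461eca290f5d : CRef := CRef.mk (Pat.mk 0x4000000060000000e00000008 0x12000000330000003f0000003e0000001f00000008 6 6) 0 0 (step_sound _ 100 [rh1b879ff3850eb8a5, rh1c27d27764d9265b, rh53192c562b6e3c57, rhcdc251e8e67b1401, (rhfb6c88cd6e08b813.shift 0 1)] (by decide +kernel))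
noncomputable def rh42c42cf2105061ca : CRef := CRef.mk (Pat.mk 0x2000000070000000500000004000000000 0x40000000f00000007e00000077000001e0000000a0 6 9) 0 0 (step_sound _ 99 [(rhab33f02cabeab5dc.shift 3 0), (rhec46bd5500c722c9.shift 2 3), (rhfd3b863ea463319a.shift 0 2)] (by decide +kernel))
noncomputable def rhb1a87e56a1e435be : CRef := CRef.mk (Pat.mk 0xe000000040000000400000000 0x730000003e000000740000000400000004 6 7) 0 0 (step_sound _ 129 [(rh4a0cb3a9508b05dd.shift 0 2), (rh7b1f1fb55310c477.shift 1 0)] (by decide +kernel))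
noncomputable def rh62a423a29f15e06c : CRef := CRef.mk (Pat.mk 0x18000000080000003800000000 0x54000001f6000000fe000001ef0000003800000010 6 9) 0 0 (step_sound _ 101 [(rh2820ca9a6c4f41b4.shift 0 2), (rh667ae0e57209b03e.shift 1 0), (rh7bd1353fa01bb0bc.shift 1 0), (rhfa35e196e150edb4.shift 2 2)] (by decide +kernel))
noncomputable def rh18400e6b535d2191 : CRef := CRef.mk (Pat.mk 0x14000000040000001c0000000800000000 0x800000008000000080000003e000000fc0000003e0000000f00000006 6 8) 0 0 (step_sound _ 101 [(rh5ca1b0eab7f14ed8.shift 2 1), rh8078be2587e6ef45, (rh9578164826709400.shift 1 2)] (by decide +kernel))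
noncomputable def rh57844cd19117821a : CRef := CRef.mk (Pat.mk 0x2000000120000001e000000020000000000000000 0xa0000001a0000001e0000003e0000001f0000001d 6 6) 0 0 (step_sound _ 68 [rha4a8a599f763540c, (rhe25b0a99195a5d59.shift 1 2)] (by decide +kernel))
noncomputable def rh1c99d78a8ce76bad : CRef := CRef.mk (Pat.mk 0x100000007000000020000000200000000 0x60000001e0000001f00000007000000070000000700000004 6 5) 0 0 (step_sound _ 129 [rh0eaaadb4a79b89e9, (rh6ce4e20cab3d27ba.shift 0 1), rhc5dda5c85486a818] (by decide +kernel))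
noncomputable def rhf58f74b6bb35e1f9 : CRef := CRef.mk (Pat.mk 0x38000000000000000000000000 0x40000001f70000007e000000e70000002000000020 6 9) 0 0 (step_sound _ 134 [(rh5e601430b8bc2e39.shift 0 2), (rh834ef1c974e4840e.shift 2 0), (rhb8022f71dc28021b.shift 2 3), (rhba3fefaa894766da.shift 3 3)] (by decide +kernel))
noncomputable def rh58e80c0105df09bd : CRef := CRef.mk (Pat.mk 0x4000000000000000c0000000e0000000000000000 0x16000000160000003b0000003e0000000e0000000800000008 6 6) 0 0 (step_sound _ 100 [rh01132bb023ed3604, (rh18965a982d73c794.shift 1 2)] (by decide +kernel))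
noncomputable def rhb031471c86461fe0 : CRef := CRef.mk (Pat.mk 0x1c000000000000000000000000 0x10000000770000003e000000f80000002000000020 6 8) 0 0 (step_sound _ 69 [(rh0d3c8bf4bf97ae4a.shift 2 2), (rh2e55065c211d34ed.shift 1 0), (rh6aa0ed61cce1493b.shift 1 2), (rh7126354e3cba7e68.shift 0 2), (rh782848cf5e4b1e5e.shift 1 2)] (by decide +kernel))
noncomputable def rh6690507952428926 : CRef := CRef.mk (Pat.mk 0x1c0000003000000018000000000000000000000000 0x80000000a0000000f0000001c000000340000001e0000000f0000000a00000008 6 6) 0 0 (step_sound _ 98 [(rh53b3c253cb0c65f4.shift 1 3), rh89fe1d4ff4de83ec] (by decide +kernel))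
noncomputable def rh0565fa4c6c198833 : CRef := CRef.mk (Pat.mk 0xc0000001c000000080000000000000000 0x80000000c0000001c0000000f0000003c0000001c 6 6) 0 0 (step_sound _ 35 [(rh7b1f1fb55310c477.shift 2 0), rh7e82451033ba2948] (by decide +kernel))
noncomputable def rhce533b0f49ea7588 : CRef := CRef.mk (Pat.mk 0x80000000c0000003800000000000000000000000000000000 0xc0000000c000000380000001f0000001c0000001c00000014 6 6) 0 0 (step_sound _ 99 [(rh0a6888916bcef86b.shift 2 0), (rh852e818bc8629e77.shift 0 2), (rha8adab4bc30e0ea1.shift 2 1), (rhfbf2eae4035425b6.shift 1 2)] (by decide +kernel))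
noncomputable def rh320b7f4202d931aa : CRef := CRef.mk (Pat.mk 0x20000000280000006000000000 0x1000000010000000300000007c0000003f0000006000000020 6 7) 0 0 (step_sound _ 66 [rh0218fec4ac002d38, (rhc10214bf3fe8094a.shift 2 1)] (by decide +kernel))
noncomputable def rh5fb73594573b013f : CRef := CRef.mk (Pat.mk 0x140000001c000000080000000800000000 0x680000007c0000001c0000003e0000007f00000016 6 7) 0 0 (step_sound _ 131 [(rh4f402ce420c5c06c.shift 2 0), (rh7ab2b85ee5f92f48.shift 1 0), (rh977d386b2b3169bd.shift 2 0), rhb1111a1bcb4ac16d] (by decide +kernel))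
noncomputable def rh65801ad1dfa9a797 : CRef := CRef.mk (Pat.mk 0x3000000028000000c000000040 0x87000000fe000001ef000000c000000040 6 9) 0 0 (step_sound _ 99 [(rh2820ca9a6c4f41b4.shift 0 2), (rh36adbd9013e048fc.shift 2 0), (rh3918eeb6c53434d8.shift 0 2), (rh8ee80cc30e93a344.shift 2 2)] (by decide +kernel))
noncomputable def rh10575d97defecd50 : CRef := CRef.mk (Pat.mk 0x1c0000000000000000 0x1000000010000000700000003e000000ff00000020 6 8) 0 0 (step_sound _ 37 [(rh0d3c8bf4bf97ae4a.shift 2 1), (rh0deb2ebc850de581.shift 1 0), (rh1387195064741994.shift 0 1), (rh6aa0ed61cce1493b.shift 1 1)] (by decide +kernel))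
noncomputable def rhd98809ae50b5d1b4 : CRef := CRef.mk (Pat.mk 0x2000000030000000a0000000000000000 0x300000003000000030000001b0000001f00000007 6 5) 0 0 (step_sound _ 33 [rh4160eb3d8501e3b6, rhe286c75f2739cce2] (by decide +kernel))
noncomputable def rh4e40312747d1b190 : CRef := CRef.mk (Pat.mk 0x1000000018000000110000001000000000 0x1800000018000000180000001f0000007800000028 6 7) 0 0 (step_sound _ 35 [rh1df5c2849d2149f2, (rh932754581e0f4330.shift 3 0)] (by decide +kernel))
noncomputable def rh078d5218324930db : CRef := CRef.mk (Pat.mk 0x2800000038000000100000001000000000 0xd0000000f8000000380000003e0000007f0000002c 6 8) 0 0 (step_sound _ 132 [(rh4f402ce420c5c06c.shift 3 0), (rh67b1f7e21d653710.shift 1 0), rh850e201bd523cd31, (rha90ace3b4967360c.shift 3 0)] (by decide +kernel))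
noncomputable def rhb8e9158fa35dbbaf : CRef := CRef.mk (Pat.mk 0x4000000100000001c000000080000000000000000 0x60000000e0000003c0000001c0000000f0000000600000004 6 6) 0 0 (step_sound _ 130 [rh02ebf059a75c0c5a, (rh2145e1d24b96a57e.shift 2 2)] (by decide +kernel))
noncomputable def rhc6987c02866cdfcb : CRef := CRef.mk (Pat.mk 0x14000000100000001c0000000800000000 0x6000000360000003e0000001c0000000f00000006 6 6) 0 0 (step_sound _ 98 [(rh2145e1d24b96a57e.shift 2 1), rhf58eb78f299f3e51] (by decide +kernel))
noncomputable def rh0eebea40984c4f8d : CRef := CRef.mk (Pat.mk 0x14000000100000001c0000000800000000 0x60000003e000000360000001c0000000f00000006 6 6) 0 0 (step_sound _ 98 [(rh2145e1d24b96a57e.shift 2 1), rh83796761e2f125d3] (by decide +kernel))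
noncomputable def rha990a23627e282c7 : CRef := CRef.mk (Pat.mk 0x14000000100000001c0000000800000000 0x20000003e000000fc0000001c0000000f00000002 6 8) 0 0 (step_sound _ 101 [(rh80f90a60d87caa0d.shift 2 2), (rhb39e643696198ada.shift 1 2), rhf2549dc0da66b756] (by decide +kernel))
noncomputable def rh962a1c4c40d67703 : CRef := CRef.mk (Pat.mk 0x7000000030000000200000000000000000 0x1000000010000000780000007c0000003f0000000800000008 6 7) 0 0 (step_sound _ 99 [rh20bb97f1f0fdc8f3, (rh53b3c253cb0c65f4.shift 2 3)] (by decide +kernel))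
noncomputable def rh71e37676039c5294 : CRef := CRef.mk (Pat.mk 0x1c0000000a000000000000000000000000 0xc0000000c0000003c0000001e000000370000001200000002 6 6) 0 0 (step_sound _ 98 [(rh18965a982d73c794.shift 1 3), rhae0d2afb4bbaac6c] (by decide +kernel))
noncomputable def rh2e1a61e17d79f15b : CRef := CRef.mk (Pat.mk 0x100000001c00000008000000000000000800000000 0x100000001f0000007f000000700000003800000018 6 7) 0 0 (step_sound _ 100 [(rh3c345e034217bb7b.shift 1 0), rh791425c240ba3bca, (rhad5d8fc3675c15dd.shift 0 3)] (by decide +kernel))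
noncomputable def rh8b95f46f9f58265f : CRef := CRef.mk (Pat.mk 0x10000000100000001c000000180000000000000000 0x2000000038000000180000001f0000001f0000003000000030 6 6) 0 0 (step_sound _ 97 [rh022042513a96faf6, (rhb739f4f82bb681b4.shift 0 2)] (by decide +kernel))
noncomputable def rha1cb4a760a1b0c48 : CRef := CRef.mk (Pat.mk 0xa0000003800000008000000000000000000000000 0x80000000a0000000a0000003a0000001f000000160000000400000004 6 6) 0 0 (step_sound _ 98 [rh8ff055ce628c134b, (rhbb339bb7e4e96b38.shift 2 2), (rheea1a90336e79c71.shift 0 3)] (by decide +kernel))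
noncomputable def rh3b344021d4c04528 : CRef := CRef.mk (Pat.mk 0x80000000e000000180000000800000000 0xc0000000e0000001b0000001f00000017 6 5) 0 0 (step_sound _ 36 [rh54c959373dc82211, (rh55afc6a59410cf00.shift 3 0)] (by decide +kernel))
noncomputable def rh0b25213a3fe63400 : CRef := CRef.mk (Pat.mk 0xc0000001e0000000000000000 0xc0000000c0000000c0000001e0000000f0000000e 6 5) 0 0 (step_sound _ 33 [(rh4bbb847fbca0e3bd.shift 1 0), (rheb0810cc63b001d8.shift 0 1)] (by decide +kernel))
noncomputable def rh0689d9d8d07c97bc : CRef := CRef.mk (Pat.mk 0x7000000048 0x770000007e0000006c 6 7) 0 0 (step_sound _ 35 [rhc88dbad8567ff01b, (rheb0810cc63b001d8.shift 2 0)] (by decide +kernel))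
noncomputable def rh827fdeebe8619b53 : CRef := CRef.mk (Pat.mk 0x200000002000000030000000200000000000000000000000000000000 0x200000002000000030000000300000007000000070000000700000001 6 3) 0 0 (step_sound _ 97 [(rh4d70d27262289c21.shift 0 1), (rh7928877f9bf74a91.shift 0 2), (rh8cdd36b03d57a2f6.shift 0 1), rhbaff7ec0fcc038ba, (rhc8d8968d053fe9bb.shift 0 1)] (by decide +kernel))
noncomputable def rh90c2ff1aa06a1109 : CRef := CRef.mk (Pat.mk 0x38000000000000000000000000 0x40000001f70000007e000000e70000002000000020 6 9) 0 0 (step_sound _ 134 [(rh5e601430b8bc2e39.shift 0 2), (rh834ef1c974e4840e.shift 2 0), (rhba3fefaa894766da.shift 3 3)] (by decide +kernel))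
noncomputable def rh57045861078f78c7 : CRef := CRef.mk (Pat.mk 0x40000001c00000004000000000000000000000000 0x400000004000000040000001c0000003f0000000f0000000e0000000e 6 6) 0 0 (step_sound _ 99 [rh1b23f6887ff7eb2c, (rh3af54b5f78790764.shift 0 2), (rh55a1f6c57a317ce6.shift 2 1)] (by decide +kernel))
noncomputable def rh719e5767e6e34794 : CRef := CRef.mk (Pat.mk 0x20000000300000002000000000000000000000000 0x1000000070000000700000007000000030000000300000002000000070000000700000005 6 3) 0 0 (step_sound _ 193 [(rh1741680720c097b4.shift 0 3), (rh42ab489a1be3958e.shift 0 3), rh9e174856810c5f95, (rhb71a391a0ebc5b57.shift 0 2), (rhcaa2c1a05e34bcba.shift 0 1)] (by decide +kernel))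
noncomputable def rh6125035e0152dcfd : CRef := CRef.mk (Pat.mk 0x20000000a00000012000000060000000000000000 0xa0000000a0000000a0000001e0000003f0000001000000010 6 6) 0 0 (step_sound _ 98 [(rh2145e1d24b96a57e.shift 1 2), rh260082dfbe684224] (by decide +kernel))
noncomputable def rh3a1a75fb4c6378c1 : CRef := CRef.mk (Pat.mk 0x100000001c0000000000000000 0x8000000080000003b0000001f0000003000000010 6 6) 0 0 (step_sound _ 65 [rh035ec83edc8ef9d7, (rh33e738c4ed385b9f.shift 1 2)] (by decide +kernel))
noncomputable def rh5fc30480a1b36bda : CRef := CRef.mk (Pat.mk 0x1a0000001a0000000200000000 0x150000003f0000001e0000001a0000000a0000000a 6 6) 0 0 (step_sound _ 129 [(rh2f7aebebd7d680c3.shift 0 1), (rh5e05da03898e7023.shift 0 1), (rh9c2e993369b51ae9.shift 1 0), (rh9ecbabba39dc6774.shift 0 1)] (by decide +kernel))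
noncomputable def rh53b97eb641616b6c : CRef := CRef.mk (Pat.mk 0x100000001c000000000000000000000000 0x18000000180000001f0000003f000000700000003000000020 6 7) 0 0 (step_sound _ 129 [(rh15b4c7f64ffd8e41.shift 0 3), (rhaca49fe9a456473e.shift 1 0), (rhd78eefdcbd4794e2.shift 0 1)] (by decide +kernel))
noncomputable def rhb134aea1dfc73163 : CRef := CRef.mk (Pat.mk 0x80000000e000000080000000800000000 0x40000000c0000000e0000003a0000001f00000017 6 6) 0 0 (step_sound _ 130 [(rh50fbb5868c909700.shift 2 1), rh7995ccdad824d670] (by decide +kernel))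
noncomputable def rhe7d9b96ecbf969aa : CRef := CRef.mk (Pat.mk 0x2000000030000000200000002 0x100000007000000070000000700000003000000030000000200000002 6 3) 0 0 (step_sound _ 129 [(rh1741680720c097b4.shift 0 1), rh3ca48e2a6d60153d, (rh4e2df8342d3b8ae8.shift 0 1), rhf06a227ba195dbc0] (by decide +kernel))
noncomputable def rh06287b955b426aaf : CRef := CRef.mk (Pat.mk 0x80000000c0000001c0000000000000000 0x6000000160000003e0000000f0000001c0000000c0000000c 6 6) 0 0 (step_sound _ 97 [(rh5447eb11ecf34727.shift 1 0), (rhb739f4f82bb681b4.shift 0 2)] (by decide +kernel))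
noncomputable def rhf0b26b88a3413ae1 : CRef := CRef.mk (Pat.mk 0x80000001c000000100000000000000000 0x2000000020000001f0000003f0000001e0000000400000004 6 6) 0 0 (step_sound _ 97 [(rh6765e7960b108c8d.shift 0 2), rh7d16b6293961da2a] (by decide +kernel))
noncomputable def rhc435795b0e309875 : CRef := CRef.mk (Pat.mk 0x1c0000000000000000 0x1000000010000000770000003e000000f800000020 6 8) 0 0 (step_sound _ 37 [(rh0d3c8bf4bf97ae4a.shift 2 1), (rh0deb2ebc850de581.shift 1 0), (rh6aa0ed61cce1493b.shift 1 1), (rh7126354e3cba7e68.shift 0 1)] (by decide +kernel))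
noncomputable def rhfd07ec84b90b0eb1 : CRef := CRef.mk (Pat.mk 0x20000000e0000000000000000 0x1000000010000000330000001f0000003800000008 6 6) 0 0 (step_sound _ 68 [(rh3244c3cc8379b070.shift 0 2), rha4cf9251629f1722] (by decide +kernel))
noncomputable def rh6b929d35c161bd41 : CRef := CRef.mk (Pat.mk 0x8000000080000000e0000000800000000 0x140000003c0000003f0000000e0000000800000008 6 6) 0 0 (step_sound _ 130 [rh11aa1728f3af130f, (rh50fbb5868c909700.shift 2 1)] (by decide +kernel))
noncomputable def rh0716e05268e6cc45 : CRef := CRef.mk (Pat.mk 0x40000000400000007000000040000000000000000 0xa0000000e0000000e0000000c0000000c0000001e00000007000000040000000400000004 6 5) 0 0 (step_sound _ 194 [(rh40258e4c7a147e8b.shift 1 2), (rh44f453b84f013105.shift 2 2), rh7561e21521b299e7, (rhb77bfac3e9efecea.shift 1 3)] (by decide +kernel))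
noncomputable def rhfd9c17cd9e9c5cb8 : CRef := CRef.mk (Pat.mk 0x60000000c0000000c0000000800000000 0x60000000f0000007e0000007f00000006 6 7) 0 0 (step_sound _ 68 [(rh6e18dbbfa959deb2.shift 0 1), (rh79b3c29022acbdf3.shift 1 2), rh7dbaa07dac5d3784] (by decide +kernel))
noncomputable def rh75dc76bf3b73e05f : CRef := CRef.mk (Pat.mk 0x200000003000000060000000200000000 0x1d0000001f00000007000000060000000600000004 6 5) 0 0 (step_sound _ 34 [(rh55afc6a59410cf00.shift 1 0), (rh83aedc160a7f657e.shift 0 1)] (by decide +kernel))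
noncomputable def rh9b00261659c6c8e7 : CRef := CRef.mk (Pat.mk 0x200000003000000060000000200000000 0x200000002000000070000000700000007000000070000000300000001 6 3) 0 0 (step_sound _ 128 [rh2b277e447d454ab3, (rh50fbb5868c909700.shift 0 1)] (by decide +kernel))
noncomputable def rhc9fe73600feb5007 : CRef := CRef.mk (Pat.mk 0x300000001000000060000000600000000 0x1c0000001f0000001b0000000e0000000600000004 6 5) 0 0 (step_sound _ 97 [(rh328952966679b03a.shift 0 1), (rh55afc6a59410cf00.shift 1 0)] (by decide +kernel))
noncomputable def rh9f85399da230e4d3 : CRef := CRef.mk (Pat.mk 0x200000002000000060000000200000000000000000000000000000000 0x10000000300000002000000060000000600000007000000070000000700000004 6 3) 0 0 (step_sound _ 97 [rh5bb331872301d326, (rh96f119fce01cb5f6.shift 0 1), (rhcf713fb9e4c35c86.shift 0 1), (rhd29a1fb688eae70f.shift 1 2)] (by decide +kernel))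
noncomputable def rhab534de19aad5334 : CRef := CRef.mk (Pat.mk 0x4000000040000000c00000000 0xa0000000e0000000e0000000f0000003e0000000c0000000c00000004 6 6) 0 0 (step_sound _ 130 [(rh1148744b53f3df58.shift 1 1), rh9a2a463c8ba8caec, (rha1447db93ca109b8.shift 2 1)] (by decide +kernel))
noncomputable def rh9ea8b358079bad0b : CRef := CRef.mk (Pat.mk 0x4000000040000001c0000000c00000000 0x1a0000003e000000370000001c0000000e00000002 6 6) 0 0 (step_sound _ 131 [rh2cc7cdadeed6296a, (rh2f68792b6b779e96.shift 2 1)] (by decide +kernel))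
noncomputable def rh6d59d6c575cd8a46 : CRef := CRef.mk (Pat.mk 0x4000000040000001c0000000000000000 0xa0000000f0000003c0000003c0000000600000006 6 6) 0 0 (step_sound _ 34 [(rh157b220518f94713.shift 1 0), rh305945700f20b255] (by decide +kernel))
noncomputable def rhe26522fe8baf0b26 : CRef := CRef.mk (Pat.mk 0x200000002000000060000000200000000000000000000000000000000 0x200000002000000060000000600000007000000070000000700000004 6 3) 0 0 (step_sound _ 97 [(rh10452bc14d0b4b6a.shift 0 1), (rh6eff4158bb400f47.shift 0 1), rh8a1bd34420cccc7f, (rhd29a1fb688eae70f.shift 1 2)] (by decide +kernel))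
noncomputable def rh337efc9fbda80c1a : CRef := CRef.mk (Pat.mk 0x30000000600000002000000000000000000000000 0x3000000030000000600000006000000070000000700000003 6 3) 0 0 (step_sound _ 65 [(rh50fbb5868c909700.shift 0 2), rhcaf13074474f34c3] (by decide +kernel))
noncomputable def rh846d4e7c5a63d199 : CRef := CRef.mk (Pat.mk 0x200000003000000060000000200000000 0x8000000080000000c0000001e0000000f000000060000000600000002 6 5) 0 0 (step_sound _ 130 [(rh2f68792b6b779e96.shift 1 1), rhff586c1cba3b288f] (by decide +kernel))
noncomputable def rh081698f3e6ac6997 : CRef := CRef.mk (Pat.mk 0xc000000060000000c00000004 0x10000000320000003f0000003e0000000c00000004 6 6) 0 0 (step_sound _ 97 [(rh0b3eebefddfe07c0.shift 0 1), (rh50fbb5868c909700.shift 1 0)] (by decide +kernel))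
noncomputable def rh938f23a2ce8d0a6c : CRef := CRef.mk (Pat.mk 0x3800000000 0xff0000007e000000f0 6 8) 0 0 (step_sound _ 66 [(rh0f8451c1712073f5.shift 1 0), (rh4f4774ab6982c560.shift 2 0), (rh8c12fdbbddc1e7ab.shift 0 1)] (by decide +kernel))
noncomputable def rh680864a9f906706f : CRef := CRef.mk (Pat.mk 0xe000000380000000800000000 0x180000001c0000001c0000003e0000000e0000003a0000001f00000012 6 6) 0 0 (step_sound _ 130 [rh98c4708aaf0a5506, (rhc89253ff58c66167.shift 2 1), (rhf7718475f45e1e99.shift 1 0)] (by decide +kernel))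
noncomputable def rhd7a9d95b0c04a4c1 : CRef := CRef.mk (Pat.mk 0x8000000180000003800000020 0xc0000001f0000007c000000180000003800000020 6 7) 0 0 (step_sound _ 100 [(rh01ff8e29f1e0af53.shift 0 1), (rh2145e1d24b96a57e.shift 4 0)] (by decide +kernel))
noncomputable def rhdab4c569351364e8 : CRef := CRef.mk (Pat.mk 0x800000018000000380000002000000000 0x140000001f0000001f000000380000002800000008 6 6) 0 0 (step_sound _ 132 [(rh2145e1d24b96a57e.shift 4 1), rhc5fcd363134bce71] (by decide +kernel))
noncomputable def rh5f3d4c4c05c047d2 : CRef := CRef.mk (Pat.mk 0xe0000001c000000100000000000000000 0x200000002000000270000007e0000001c000000140000001400000010 6 7) 0 0 (step_sound _ 36 [(rh7b1f1fb55310c477.shift 3 0), (rha1caad567ab8c6b4.shift 0 1)] (by decide +kernel))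
noncomputable def rh4e79f40c72e7f94a : CRef := CRef.mk (Pat.mk 0x20000000e0000000a0000000000000000 0x40000000700000007000000070000003e0000000e0000000a0000000a0000000a 6 6) 0 0 (step_sound _ 161 [(rh1741680720c097b4.shift 0 2), (rh4545046f80935371.shift 0 1), (rh4726b755b8eb397c.shift 0 1), (rh64bc0dab78a08b48.shift 0 2), (rh715bd1825497d69a.shift 1 0), rh8c1d47d14292b804] (by decide +kernel))
noncomputable def rh0f774b6bf7d8842a : CRef := CRef.mk (Pat.mk 0x20000000e0000000200000000 0x50000000700000007000000020000001e0000000300000001 6 5) 0 0 (step_sound _ 32 [(rh18965a982d73c794.shift 0 1), rh68a777751bfeafdf] (by decide +kernel))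
noncomputable def rh3a68243454dd4ddf : CRef := CRef.mk (Pat.mk 0x20000000a0000000b00000000 0x5000000070000001e0000000a0000000b0000000b 6 5) 0 0 (step_sound _ 129 [rh1da7a0935fbd0dca, rh932754581e0f4330] (by decide +kernel))
noncomputable def rh77642ae559e58a6b : CRef := CRef.mk (Pat.mk 0x2000000030000000700000000000000000 0x8000000080000003f0000007c000000780000001000000010 6 7) 0 0 (step_sound _ 99 [(rhb739f4f82bb681b4.shift 2 2), rhbfe0159ae8f7fabb] (by decide +kernel))
noncomputable def rh71d57ddb192a9a27 : CRef := CRef.mk (Pat.mk 0x4000000160000000e00000008 0x2000000fb0000003e000000360000001e00000008 6 8) 0 0 (step_sound _ 100 [(rh28733be19412e815.shift 0 1), (rh382cce9752f1d426.shift 1 0), (rha7c0d53f5e6c6372.shift 1 0)] (by decide +kernel))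
noncomputable def rh3fd2143fce3d7b25 : CRef := CRef.mk (Pat.mk 0x380000001c000000100000001000000000 0x14000000160000003f0000003c0000001e000000f800000020 6 8) 0 0 (step_sound _ 37 [(rh55afc6a59410cf00.shift 4 0), (rh705e7c85eba5c5e8.shift 0 1)] (by decide +kernel))
noncomputable def rh51a2fc1d86c1f523 : CRef := CRef.mk (Pat.mk 0x180000001c0000001000000030 0x10000000300000001f0000003e0000001f000000f8 6 8) 0 0 (step_sound _ 35 [(rh3c3e23a02e82b2ed.shift 1 0), (rh84d1c02a8954c6a8.shift 3 0), rh9502fb3f55017c7f] (by decide +kernel))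
noncomputable def rhdc9fa3497eb53270 : CRef := CRef.mk (Pat.mk 0x180000003800000008 0x180000001c0000001f0000007e0000003800000008 6 7) 0 0 (step_sound _ 99 [(rhc45960fcf2a66b44.shift 3 0), rhe8d0a17a8109e5fb, (rhfffc65e29fee7a84.shift 1 0)] (by decide +kernel))
noncomputable def rh2c7ca9b3bf24677d : CRef := CRef.mk (Pat.mk 0x2000000030000000200000000000000000000000000000000 0x5000000070000000700000002000000030000000300000007000000070000000700000001 6 3) 0 0 (step_sound _ 97 [(rh2840436db7424bdf.shift 0 1), (rh3d48cb4e7e716da9.shift 0 2), (rh8cdd36b03d57a2f6.shift 0 1), (rh8ff71bc284510f75.shift 0 1), rhbaff7ec0fcc038ba] (by decide +kernel))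
noncomputable def rh5637725a593b7752 : CRef := CRef.mk (Pat.mk 0x6000000120000000a0000000200000000 0x10000000100000003f0000001e0000000a0000000a0000000a 6 6) 0 0 (step_sound _ 98 [rh45e346eb229ab3ee, (rh71222050f2c63a3a.shift 1 0)] (by decide +kernel))
noncomputable def rh82903d5f52f66a46 : CRef := CRef.mk (Pat.mk 0x18000000300000001c000000000000000000000000 0x80000000a0000000f0000001e000000340000001c0000000f0000000a00000008 6 6) 0 0 (step_sound _ 162 [rh89fe1d4ff4de83ec, (rhb739f4f82bb681b4.shift 1 4)] (by decide +kernel))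
noncomputable def rhd62678b19d6e639f : CRef := CRef.mk (Pat.mk 0x380000000000000000 0x2000000020000000f00000007e000001f700000040 6 9) 0 0 (step_sound _ 38 [(rh0d3c8bf4bf97ae4a.shift 3 1), (rh0deb2ebc850de581.shift 2 0), (rh6aa0ed61cce1493b.shift 2 1), (rh782848cf5e4b1e5e.shift 2 1), (rh988050a6fa3e9d04.shift 0 1)] (by decide +kernel))
noncomputable def rhe1f3219f49387fae : CRef := CRef.mk (Pat.mk 0x8000000080000001c0000001600000000 0x140000001c0000001c0000001c0000007e00000063 6 7) 0 0 (step_sound _ 35 [rh52db8f9374849729, (rhc8031c215ef64696.shift 2 0), (rhf2362e95aa73f806.shift 2 0)] (by decide +kernel))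
noncomputable def rhd25990882328e19b : CRef := CRef.mk (Pat.mk 0x200000007000000000 0x3bf000001fe0000038e 6 10) 0 0 (step_sound _ 35 [rh1f9701c4cf497514, (rh775ca1963e850b80.shift 1 0), (rhafaa61f79143ceed.shift 1 0), (rhd107e57b3b42fcdf.shift 2 0), (rhec0f150ffdda098a.shift 1 0)] (by decide +kernel))
noncomputable def rh2c45383e45d83d54 : CRef := CRef.mk (Pat.mk 0x100000003800000000 0xfe0000007f00000007 6 8) 0 0 (step_sound _ 34 [(rh56a24c72f1c55520.shift 1 1), rhafaa61f79143ceed, (rhec46bd5500c722c9.shift 1 1)] (by decide +kernel))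
noncomputable def rh078f99faf3a778c5 : CRef := CRef.mk (Pat.mk 0x80000007800000000 0xf8000000ff00000007 6 8) 0 0 (step_sound _ 70 [(rh33e738c4ed385b9f.shift 3 1), rh37eeff0c3c4d4122] (by decide +kernel))
noncomputable def rh33d5fc9daae85c0e : CRef := CRef.mk (Pat.mk 0x60000001c000000080000000800000000 0x10000000730000007e0000001c0000001c0000001c00000014 6 7) 0 0 (step_sound _ 132 [(rh69755ef358ebfd54.shift 3 1), rh837f2f242894e5a8, (rhbfb5770941270498.shift 3 1)] (by decide +kernel))
noncomputable def rh8c7066fccec6c587 : CRef := CRef.mk (Pat.mk 0x38000000000000000000000000 0x40000001f70000007e000000e70000002000000020 6 9) 0 0 (step_sound _ 134 [(rh551591afa7e9bd9a.shift 0 2), (rh834ef1c974e4840e.shift 2 0), (rhba3fefaa894766da.shift 3 3)] (by decide +kernel))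
noncomputable def rhfd6665136de87475 : CRef := CRef.mk (Pat.mk 0x38000000000000000000000000 0x40000001f70000007e000000f00000002000000020 6 9) 0 0 (step_sound _ 134 [(rh834ef1c974e4840e.shift 2 0), (rh90fcc1b0fe0017ad.shift 2 3), (rha2e182fd6274be10.shift 0 2), (rhba3fefaa894766da.shift 3 3)] (by decide +kernel))
noncomputable def rhf93c8e588e7d38cc : CRef := CRef.mk (Pat.mk 0x600000003000000060000000200000000000000000000000000000000 0x1e00000003000000070000000600000006000000070000000700000005 6 5) 0 0 (step_sound _ 227 [(rh18965a982d73c794.shift 0 6), rh3e3fd9dffbbee25b] (by decide +kernel))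
noncomputable def rh0ff4e66a85fe86a9 : CRef := CRef.mk (Pat.mk 0x2000000060000000200000000000000000000000000000000 0x5000000070000000700000002000000060000000600000007000000070000000700000004 6 3) 0 0 (step_sound _ 225 [(rh1741680720c097b4.shift 0 4), rh4e0a00af34735ff2, (rhd4b4beefcd67f51e.shift 1 3)] (by decide +kernel))
noncomputable def rh6566b88c0b12c1fc : CRef := CRef.mk (Pat.mk 0x40000000e000000040000000600000000 0x180000003c0000000e0000003c0000000f00000008 6 6) 0 0 (step_sound _ 131 [(rh2f68792b6b779e96.shift 2 1), rhe2b6bcb4ab60c04b] (by decide +kernel))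
noncomputable def rh3ece5860861ca566 : CRef := CRef.mk (Pat.mk 0x200000007000000030000000200000000 0xc0000001e00000007000000070000001e0000000c 6 5) 0 0 (step_sound _ 130 [(rh2f68792b6b779e96.shift 1 1), rh755154be1e5158ce] (by decide +kernel))
noncomputable def rhe04fc0b842997c1d : CRef := CRef.mk (Pat.mk 0x1c0000000c000000040000000000000000 0x100000001c0000000c0000003c0000000f0000000e 6 6) 0 0 (step_sound _ 34 [rh6cb0e5959253c9cf, (rh71222050f2c63a3a.shift 2 0)] (by decide +kernel))
noncomputable def rhf666040947505768 : CRef := CRef.mk (Pat.mk 0x140000001e000000040000000000000000 0x10000000140000001e0000003f0000000b0000000a 6 6) 0 0 (step_sound _ 65 [rha30e284cc65e9499, (rheb0810cc63b001d8.shift 0 2)] (by decide +kernel))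
noncomputable def rha96069da9be69738 : CRef := CRef.mk (Pat.mk 0x400000007000000050000000000000000 0x20000000e0000000e0000000e0000000700000007000000050000000500000005 6 4) 0 0 (step_sound _ 162 [rh40bdf45b35d5214a, (rh42ab489a1be3958e.shift 1 2), (rhc85cc95794737cf7.shift 1 2), (rhcaa2c1a05e34bcba.shift 1 0)] (by decide +kernel))
noncomputable def rh956b0faff08aff88 : CRef := CRef.mk (Pat.mk 0x3800000058000000080000000800000000 0x2000000038000000780000003c0000001f00000014 6 7) 0 0 (step_sound _ 36 [(rh55afc6a59410cf00.shift 3 0), rh596495a47f18b273] (by decide +kernel))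
noncomputable def rha823780809c9967c : CRef := CRef.mk (Pat.mk 0xc00000016000000020000000000000000 0xc0000000c0000000c0000001e0000003b0000001000000010 6 6) 0 0 (step_sound _ 99 [(rheb0810cc63b001d8.shift 0 2), (rhec3b003719047807.shift 1 0)] (by decide +kernel))
noncomputable def rh5182d511e1827bca : CRef := CRef.mk (Pat.mk 0xc0000000c000000040000000000000000 0x40000000c0000000c000000070000003e0000000e 6 6) 0 0 (step_sound _ 34 [(rh71222050f2c63a3a.shift 2 0), rhe81dfc0a63bb579e] (by decide +kernel))
noncomputable def rh425204b1d9123688 : CRef := CRef.mk (Pat.mk 0x380000005a000000080000000000000000 0x20000000380000007b0000001f0000001800000018 6 7) 0 0 (step_sound _ 35 [(rh71222050f2c63a3a.shift 3 0), rhe797a3b51f96dc73] (by decide +kernel))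
noncomputable def rh96375176a47470c9 : CRef := CRef.mk (Pat.mk 0x180000005a000000080000000000000000 0x1000000010000000180000007b0000001f0000003000000010 6 7) 0 0 (step_sound _ 164 [rh003ddae2ea9e8034, (rh5c5e593799055d58.shift 3 2)] (by decide +kernel))
noncomputable def rh9660b80a5b4883b2 : CRef := CRef.mk (Pat.mk 0xc00000016000000020000000000000000 0xc0000000c0000001c0000001e000000330000001000000010 6 6) 0 0 (step_sound _ 99 [(rh96159445973467c3.shift 1 0), (rheb0810cc63b001d8.shift 0 2)] (by decide +kernel))
noncomputable def rh6ec780babe35b220 : CRef := CRef.mk (Pat.mk 0x70000000b0000000000000000 0x40000001c0000000f0000001b0000001e0000001c 6 5) 0 0 (step_sound _ 99 [(rhe25b0a99195a5d59.shift 0 2), rhe5880a632366aa31] (by decide +kernel))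
noncomputable def rh531932020321e89d : CRef := CRef.mk (Pat.mk 0xe00000016000000000000000000000000 0x80000000c0000000e0000001e0000003b0000001200000012 6 6) 0 0 (step_sound _ 65 [rh260082dfbe684224, (rhea7a1800d6f053bd.shift 1 0)] (by decide +kernel))
noncomputable def rh32f2708c074bfacb : CRef := CRef.mk (Pat.mk 0x200000007000000030000000200000000 0xc0000001e00000007000000070000001e0000000c 6 5) 0 0 (step_sound _ 130 [rh017a73cf4ac84e83, (rh2f68792b6b779e96.shift 1 1)] (by decide +kernel))
noncomputable def rh991603e4b166eb03 : CRef := CRef.mk (Pat.mk 0x1c0000000e000000080000000000000000 0x1c0000007e0000007f0000003000000030 6 7) 0 0 (step_sound _ 100 [(rh87ee923877636e52.shift 1 2), rhd3114851a34382be, (rhf10fa853c2693a25.shift 0 2)] (by decide +kernel))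
noncomputable def rh2aee7b66eec415db : CRef := CRef.mk (Pat.mk 0x3800000018000000080000000000000000 0x200000003800000018000000380000001f0000001c 6 6) 0 0 (step_sound _ 35 [(rh71222050f2c63a3a.shift 3 0), rhdaec39178448f92a] (by decide +kernel))
noncomputable def rh1e97a2dd154b281f : CRef := CRef.mk (Pat.mk 0x80000000b0000000b000000000000000000000000 0x100000001e0000001f0000000e0000000b0000000b0000001d0000001c00000014 6 5) 0 0 (step_sound _ 194 [(rhbba7d23481996066.shift 2 0), (rhce1391072bc7801c.shift 0 2)] (by decide +kernel))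
noncomputable def rh56f08f789b6923af : CRef := CRef.mk (Pat.mk 0xc00000016000000020000000000000000 0x8000000080000000c0000001e0000003b0000001200000012 6 6) 0 0 (step_sound _ 33 [rh260082dfbe684224, (rh71222050f2c63a3a.shift 1 0)] (by decide +kernel))
noncomputable def rhdc641f10cc8c2b92 : CRef := CRef.mk (Pat.mk 0x8000000080000000e00000004000000000000000000000000 0x60000000f0000003c0000000e0000003c000000180000001800000018 6 6) 0 0 (step_sound _ 99 [(rh271fa525e6d3787d.shift 0 2), (rh42afa1af9fffa0e1.shift 1 2), (rhdd11e03a2f8b13b6.shift 2 0)] (by decide +kernel))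
noncomputable def rh3a66e8a83c378784 : CRef := CRef.mk (Pat.mk 0x200000006000000030000000300000000 0x4000000060000000e0000001b0000001f0000001c 6 5) 0 0 (step_sound _ 130 [(rh2f68792b6b779e96.shift 1 1), rh87d485692c6d158b] (by decide +kernel))
noncomputable def rhda7b61c57ca91e4b : CRef := CRef.mk (Pat.mk 0x2000000070000000200000002 0x40000000700000007000000070000001e000000070000000200000002 6 5) 0 0 (step_sound _ 129 [(rh44f453b84f013105.shift 1 0), (rh64bc0dab78a08b48.shift 0 1), rh724d6ed95fc6d924, (rhc85cc95794737cf7.shift 0 1)] (by decide +kernel))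
noncomputable def rh8cb103324546c2d9 : CRef := CRef.mk (Pat.mk 0x100000001400000014000000040000000000000000 0x1400000014000000140000003f0000003e0000002a 6 6) 0 0 (step_sound _ 35 [(rha7381c9f1229ca7e.shift 2 1), rhb6e11cfc959c8a3c, (rhebbfc1325fb53d6f.shift 3 0)] (by decide +kernel))
noncomputable def rh683d8caf32c4eeb1 : CRef := CRef.mk (Pat.mk 0xc00000014000000040000000400000000 0x40000000c0000001c0000000f0000003c0000001c 6 6) 0 0 (step_sound _ 35 [(rh55afc6a59410cf00.shift 2 0), rhd252072856beafb9] (by decide +kernel))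
noncomputable def rh86542c313e3c55a0 : CRef := CRef.mk (Pat.mk 0x4000000060000000600000000 0xe0000000f0000003c000000060000000600000004 6 6) 0 0 (step_sound _ 130 [(rh5c5e593799055d58.shift 1 1), rhab3c3f3ae8c9664f] (by decide +kernel))
noncomputable def rhfa6cbd6dd03781f3 : CRef := CRef.mk (Pat.mk 0x40000000e00000016000000000000000000000000 0x80000000c0000000e0000001e0000003b0000001200000010 6 6) 0 0 (step_sound _ 65 [rh260082dfbe684224, (rh71222050f2c63a3a.shift 1 1)] (by decide +kernel))
noncomputable def rhb92dcb7a9ed3ce27 : CRef := CRef.mk (Pat.mk 0x10000000180000000c00000008 0x20000000300000001f000000ff0000007c 6 8) 0 0 (step_sound _ 33 [(rh53b3c253cb0c65f4.shift 0 1), rhc104498b355f0445] (by decide +kernel))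
noncomputable def rhc333da79eae28264 : CRef := CRef.mk (Pat.mk 0x80000000e00000006000000040000000000000000 0x80000001f0000003e0000003e0000003300000012 6 6) 0 0 (step_sound _ 68 [rh46fd159d79a130f9, rh526941cda37e6069, rh67fefdc2d0e87ce4, rhe5ab5773184dec9e, rhf05707dfa99a940f] (by decide +kernel))
noncomputable def rh4887c4353f9c05ec : CRef := CRef.mk (Pat.mk 0x40000000700000003000000020000000000000000 0x1c0000000f0000001f0000001e0000000c00000008 6 5) 0 0 (step_sound _ 99 [rh258cb346ecbfc314, rh6c5bba6fbb46b7c5, (rhd5041491555e8d86.shift 0 3), (rhf9a0c9517571d87f.shift 0 1)] (by decide +kernel))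
noncomputable def rhc32ab6aea16948b8 : CRef := CRef.mk (Pat.mk 0x1c0000000c00000006 0x1800000018000000380000001f0000003c00000006 6 6) 0 0 (step_sound _ 36 [(rh18965a982d73c794.shift 1 0), rheaf084005eae2bfe] (by decide +kernel))
noncomputable def rh8a8fc8620f62f5ac : CRef := CRef.mk (Pat.mk 0x380000001800000008 0x10000000f0000000ff0000003800000008 6 8) 0 0 (step_sound _ 100 [(rh0a9f0b838d537430.shift 0 1), (rh5c5e593799055d58.shift 3 0)] (by decide +kernel))
noncomputable def rh1d5609feff06cf69 : CRef := CRef.mk (Pat.mk 0xe0000000600000000 0x800000008000000380000003f0000003600000010 6 6) 0 0 (step_sound _ 68 [(rh18965a982d73c794.shift 1 1), rh52b4b7b516a7d39e] (by decide +kernel))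
noncomputable def rhe5250eb0543b4f16 : CRef := CRef.mk (Pat.mk 0xc0000001c00000004 0x1000000018000000780000007e0000001f0000000c 6 7) 0 0 (step_sound _ 99 [(rh5c5e593799055d58.shift 2 0), rh8e95d053fbeaa01f] (by decide +kernel))
noncomputable def rh9dae6ccd17fa7b61 : CRef := CRef.mk (Pat.mk 0x180000001c000000100000000000000000 0x1000000010000000180000001c0000007c0000002f0000000c 6 7) 0 0 (step_sound _ 67 [rh2b7bd790d70dbc72, (rh84d1c02a8954c6a8.shift 3 1), (rh8af73b7df2d2ba44.shift 2 1)] (by decide +kernel))
noncomputable def rh642e496cfcf6dbfb : CRef := CRef.mk (Pat.mk 0x400000006000000030000000300000000 0x2000000060000000e0000001b0000001f0000001c 6 5) 0 0 (step_sound _ 129 [(rh5c5e593799055d58.shift 0 1), rh87d485692c6d158b] (by decide +kernel))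
noncomputable def rh34be386ff1f6a0b9 : CRef := CRef.mk (Pat.mk 0x4000000100000001c0000000600000000 0x1e0000001f0000001b0000001f0000000e00000008 6 5) 0 0 (step_sound _ 99 [(rh28684772f5aa3734.shift 0 1), (rh4a07daf82040e119.shift 0 1), (rhc4d61533d68dee1f.shift 0 1), (rhef9ffd4d19a15879.shift 2 0)] (by decide +kernel))
noncomputable def rh0cb844c90683f0ea : CRef := CRef.mk (Pat.mk 0x4000000100000001c0000000400000000 0x800000038000000fc0000003f000000f80000001c0000000c00000008 6 8) 0 0 (step_sound _ 132 [(rh0e93b50f4d99aa7b.shift 0 1), (rh22316f9c09191c5b.shift 1 1), (rh6a0dccdff71238d6.shift 1 0), (rh976a48eb1c80a12f.shift 3 1)] (by decide +kernel))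
noncomputable def rh05904faa364d0f76 : CRef := CRef.mk (Pat.mk 0x8000000180000000e0000000400000000 0x70000000f0000001e0000001e0000003700000010 6 6) 0 0 (step_sound _ 68 [(rh66d0ca03d9234b4c.shift 0 1), (rh78974448101547fe.shift 1 0)] (by decide +kernel))
noncomputable def rh1f85d60d4d5bbcc0 : CRef := CRef.mk (Pat.mk 0x10000000400000007000000030000000200000000 0x30000000b0000001e00000007000000070000001e0000000c 6 5) 0 0 (step_sound _ 129 [(rh16567ae718d9fd54.shift 0 2), rh755154be1e5158ce] (by decide +kernel))
noncomputable def rhec426d87a90b7cfe : CRef := CRef.mk (Pat.mk 0x180000000e000000080000000000000000 0x1c000000fe0000007f0000003000000030 6 8) 0 0 (step_sound _ 100 [rh2d432a4e867e50f2, (rh76c4edc656936505.shift 1 2), (rhb447f348b8f2aaa5.shift 0 2), (rhc6919780d26a686c.shift 1 2)] (by decide +kernel))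
noncomputable def rh8f5e97e3f1dc5445 : CRef := CRef.mk (Pat.mk 0x20000000300000001800000018000000000000000800000000 0x2000000070000000df000000ff000000c70000000c0000000c 6 8) 0 0 (step_sound _ 101 [(rh51e1c6fcf00b5e70.shift 3 2), rhae7e2b8ce2819d28, (rhfdd338b587cdea0b.shift 1 3)] (by decide +kernel))
noncomputable def rhcedb35828d87d2e6 : CRef := CRef.mk (Pat.mk 0x2000000030000000180000001800000000 0x2800000078000000df000000ff000000c7 6 8) 0 0 (step_sound _ 37 [rh42ef1c5fc08c7964, (rh51e1c6fcf00b5e70.shift 3 0), (rhfdd338b587cdea0b.shift 1 1)] (by decide +kernel))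
noncomputable def rhaa4bd7df969ebae1 : CRef := CRef.mk (Pat.mk 0xc00000007000000020000000000000000 0x200000002000000020000001e00000007000000070000000300000003 6 5) 0 0 (step_sound _ 129 [(rh18965a982d73c794.shift 0 3), rh4f4c4c1027c971e0] (by decide +kernel))
noncomputable def rh6a2aff8ddcd9dc56 : CRef := CRef.mk (Pat.mk 0x1000000018000000080000001000000000 0x800000018000000180000000f0000003c0000001c 6 6) 0 0 (step_sound _ 35 [(rh71222050f2c63a3a.shift 3 0), rhf19240af8a218f1b] (by decide +kernel))
noncomputable def rh30b0cc6f47c8ef75 : CRef := CRef.mk (Pat.mk 0x180000000c0000000c0000000000000000 0x4000000040000003c0000000f0000000e0000000600000006 6 6) 0 0 (step_sound _ 97 [(rh53b3c253cb0c65f4.shift 0 3), (rh917a89c549281cbe.shift 1 0)] (by decide +kernel))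
noncomputable def rh198ba47e4f8edef2 : CRef := CRef.mk (Pat.mk 0x400000016000000140000000000000000 0x2000000060000003e0000001f0000000300000003 6 6) 0 0 (step_sound _ 65 [rh338da26de1ef36c6, rha7a6eca08357f0df, (rhd11dc6dd83191698.shift 0 2)] (by decide +kernel))
noncomputable def rh9f0d881ef581fdb4 : CRef := CRef.mk (Pat.mk 0x10000000180000001c00000028000000000000000000000000 0x20000000300000003c0000007c0000003f000000160000001600000002 6 7) 0 0 (step_sound _ 98 [(rh2612b4f73ba7c3b3.shift 1 3), (rh6dcb6e4d6a6b5038.shift 1 1), rhba9e8146026dae1c] (by decide +kernel))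
noncomputable def rhf1d8f9b698f98f50 : CRef := CRef.mk (Pat.mk 0x400000006000000080000000800000000 0x180000003c0000000f000000780000001800000018 6 7) 0 0 (step_sound _ 99 [(rh7b1f1fb55310c477.shift 2 0), rh83261caa9d757b45] (by decide +kernel))
noncomputable def rh33b38de34a24084e : CRef := CRef.mk (Pat.mk 0x10000000180000000c000000000000000000000000 0x10000000380000001f000000380000001800000018 6 6) 0 0 (step_sound _ 97 [(rh53b3c253cb0c65f4.shift 0 3), (rhf6ee49bec159cae2.shift 1 0)] (by decide +kernel))
noncomputable def rh4ea7f4ba6de1a3a3 : CRef := CRef.mk (Pat.mk 0x18000000180000000c0000000c00000000 0x40000001f000000180000001c0000007c00000070 6 7) 0 0 (step_sound _ 130 [(rh50fbb5868c909700.shift 2 1), rh5b9522c69367ba66] (by decide +kernel))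
noncomputable def rh10b8519c5e063322 : CRef := CRef.mk (Pat.mk 0xc0000000c000000060000000000000000 0x18000000780000001f0000000c0000000f0000001800000018 6 7) 0 0 (step_sound _ 163 [(rh5c5e593799055d58.shift 2 2), rh73a8d4d1f56d46c1] (by decide +kernel))
noncomputable def rh15444abfedbc098e : CRef := CRef.mk (Pat.mk 0x2000000030000000180000000000000000 0x1e00000007f0000001f0000001000000010 6 9) 0 0 (step_sound _ 36 [(rh6847b991c3555125.shift 0 2), (rh71222050f2c63a3a.shift 4 0)] (by decide +kernel))
noncomputable def rh911ef3408c557f10 : CRef := CRef.mk (Pat.mk 0x180000000e00000000 0x3f000000fe000000e0 6 8) 0 0 (step_sound _ 36 [(rh33e738c4ed385b9f.shift 1 1), rh883451bd3feec117] (by decide +kernel))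
noncomputable def rh3863454fb35478eb : CRef := CRef.mk (Pat.mk 0x80000000e00000006000000040000000000000000 0x80000001f0000003e0000003f0000003300000012 6 6) 0 0 (step_sound _ 68 [rh46fd159d79a130f9, rh8cf15799fe3e4381, rh9f1838818b033f4f, rhe5ab5773184dec9e, rhf05707dfa99a940f] (by decide +kernel))
noncomputable def rhc0f521032e0434c0 : CRef := CRef.mk (Pat.mk 0x80000000e00000006000000040000000000000000 0x380000001e0000003e0000003f0000001800000010 6 6) 0 0 (step_sound _ 100 [rh2803229b05a4c7b5, rh71b3b4e4185ed0e6, (rhd5041491555e8d86.shift 1 3), (rhf9a0c9517571d87f.shift 1 1)] (by decide +kernel))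
noncomputable def rh72714801bea570ce : CRef := CRef.mk (Pat.mk 0x80000000c00000004000000000000000000000000 0x18000000180000001c0000000f0000003c000000180000000800000008 6 6) 0 0 (step_sound _ 195 [(rh5c5e593799055d58.shift 2 3), rhbede5b5599826d04] (by decide +kernel))
noncomputable def rh38a17cf34b16806c : CRef := CRef.mk (Pat.mk 0x1000000030000000180000000800000000 0xc0000001e0000003c0000003e0000000f00000004 6 6) 0 0 (step_sound _ 66 [rh50824dbbbdd956f6, (rh53b3c253cb0c65f4.shift 1 2)] (by decide +kernel))
noncomputable def rhb1a9641e1c1e53f4 : CRef := CRef.mk (Pat.mk 0x18000000080000000c0000000c 0x70000001f0000007a0000001f0000000c 6 7) 0 0 (step_sound _ 98 [rh2f80ad7ffe2e9ba8, (rh50fbb5868c909700.shift 2 0)] (by decide +kernel))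
noncomputable def rh232eab322b518542 : CRef := CRef.mk (Pat.mk 0x1e000000080000000800000000 0x4000000040000000c0000001e0000003f0000000f00000002 6 6) 0 0 (step_sound _ 68 [rhadec0b23d94befe2, (rhe25b0a99195a5d59.shift 1 2)] (by decide +kernel))
noncomputable def rhfe1dec8b8db647e1 : CRef := CRef.mk (Pat.mk 0x80000003800000018000000000000000000000000 0x1000000018000000380000003e0000000f0000000c0000000c 6 6) 0 0 (step_sound _ 98 [(rh53b3c253cb0c65f4.shift 1 3), rhba4021636480f5ad] (by decide +kernel))
noncomputable def rhc054d09dfa39b7ac : CRef := CRef.mk (Pat.mk 0x100000001c0000000c0000000800000000 0xc000000fc0000003c0000003c0000000f00000006 6 8) 0 0 (step_sound _ 130 [(rh2145e1d24b96a57e.shift 2 1), rh901e9a3b6ee71e4f] (by decide +kernel))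
noncomputable def rh669f7a664ff577c4 : CRef := CRef.mk (Pat.mk 0x100000001c00000018000000080000000000000000 0x4000000040000001c0000001f0000001c000000f80000003000000010 6 8) 0 0 (step_sound _ 128 [(rhab22b5b56e7b3243.shift 0 3), (rhc251cad2c5d11a88.shift 2 0)] (by decide +kernel))
noncomputable def rhb9c18b5acde8ff5b : CRef := CRef.mk (Pat.mk 0x10000000c0000000700000002000000020000000000000000 0x90000000d0000000f0000001f0000001e0000000c0000000c 6 5) 0 0 (step_sound _ 96 [(rh6f1cbe15c631ee70.shift 0 2), rh820a958e8ba35b00] (by decide +kernel))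
noncomputable def rha3385596c878255a : CRef := CRef.mk (Pat.mk 0x2000000180000000e000000040000000400000000 0x400000006000000160000001c0000000e0000003e0000000f0000000a 6 6) 0 0 (step_sound _ 130 [(rh5410b6b3ceda500c.shift 1 1), rh9ee3848b537ea47a, (rhbe7adcf16e4dec1b.shift 1 2)] (by decide +kernel))
noncomputable def rh56b5cc8a29e50472 : CRef := CRef.mk (Pat.mk 0x200000003000000010000000000000000 0x6000000070000000700000003000000030000000300000002 6 3) 0 0 (step_sound _ 161 [(rh5c5e593799055d58.shift 0 2), rh85a2c4cfeb3c2e45] (by decide +kernel))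
noncomputable def rhe7b2d19496b2c25e : CRef := CRef.mk (Pat.mk 0x180000000e000000000000000000000000 0x8000000080000001f0000003e0000007f0000001400000014 6 7) 0 0 (step_sound _ 100 [rh9cf1eae2eabf38ec, (rhbbe16ff26f7822db.shift 1 0), (rhe401600d466b97cd.shift 0 2)] (by decide +kernel))
noncomputable def rh230a2cf0e0a5aeec : CRef := CRef.mk (Pat.mk 0x10000000380000001c0000000800000000 0x2800000028000000780000003e0000001c0000001f00000004 6 7) 0 0 (step_sound _ 131 [(rh37d9ceebb86d75d1.shift 2 1), rh4c65f10359450326, (rhfc7c29d8e65d775f.shift 3 1)] (by decide +kernel))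
noncomputable def rh861a62bc242d9901 : CRef := CRef.mk (Pat.mk 0x40000000c000000060000000200000000 0x18000000180000001c0000000c0000007e0000007f00000018 6 7) 0 0 (step_sound _ 131 [rh15ced007ad23b6d1, (rh84d1c02a8954c6a8.shift 2 1), rhbd78abdca3aaeb9f] (by decide +kernel))
noncomputable def rhaa19237f86ec600e : CRef := CRef.mk (Pat.mk 0x1800000018000000040000000600000000 0x10000000300000003000000038000000180000003f0000003700000030 6 6) 0 0 (step_sound _ 68 [(rh6a159b1535d67e15.shift 0 1), (rhb28dff842a7744c7.shift 3 0), (rhcc9e16a06547b9c5.shift 1 0), (rhfea10ff459c6dc05.shift 3 0)] (by decide +kernel))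
noncomputable def rh83f1b5efda06e53f : CRef := CRef.mk (Pat.mk 0x180000000e00000004000000060000000000000000 0x100000001c0000001e0000003c0000001f0000003800000018 6 6) 0 0 (step_sound _ 100 [rh05314c7cc02da3e7, (rh6511e0625cc92620.shift 0 1), (rh8a4541a76e7d5d38.shift 0 2), (rhd5041491555e8d86.shift 1 3)] (by decide +kernel))
noncomputable def rh4cc620b3a3687ee3 : CRef := CRef.mk (Pat.mk 0x6000000030000000100000001800000000 0x7000000070000000d70000007e000000ef 6 8) 0 0 (step_sound _ 37 [rh3d164a09ad92dabc, (rhde10baa3043a2b46.shift 3 0), (rhe237ceca1ca3d57b.shift 2 0), rhf6dd15a66aea03cb] (by decide +kernel))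
noncomputable def rhafa02a75cfb03a91 : CRef := CRef.mk (Pat.mk 0x600000003000000010000000180000000000000000 0x400000006000000070000000f70000007e000000ef00000020 6 8) 0 0 (step_sound _ 69 [(rh828fef42727e7be2.shift 4 0), (rhdb7b1946f411de5f.shift 1 2), (rhf6dd15a66aea03cb.shift 0 1)] (by decide +kernel))
noncomputable def rha80fa6bdebf20e2a : CRef := CRef.mk (Pat.mk 0xc00000006000000020000000200000000 0x3b0000003f00000006000000060000000600000004 6 6) 0 0 (step_sound _ 132 [(rh18965a982d73c794.shift 1 3), rh9bed6090409d1093] (by decide +kernel))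
noncomputable def rh8ad692101900c06f : CRef := CRef.mk (Pat.mk 0x180000001e000000080000000000000000 0x180000003e0000000f0000003c0000001c 6 6) 0 0 (step_sound _ 35 [rh4890a12c75191028, (rh71222050f2c63a3a.shift 3 0)] (by decide +kernel))
noncomputable def rh760d8e2c575b743b : CRef := CRef.mk (Pat.mk 0x180000001e000000280000000000000000 0x180000001e0000006f0000003c0000001c 6 7) 0 0 (step_sound _ 35 [(rh71222050f2c63a3a.shift 3 0), rhcd965181f0e6e5db] (by decide +kernel))
noncomputable def rha374421dcb7e30b8 : CRef := CRef.mk (Pat.mk 0x180000000c000000040000000000000000 0x140000003c0000000f0000000c0000000c0000000c 6 6) 0 0 (step_sound _ 97 [(rh138f18a302b072d2.shift 1 0), (rh53b3c253cb0c65f4.shift 0 3)] (by decide +kernel))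
noncomputable def rh16f2a238cbf3488f : CRef := CRef.mk (Pat.mk 0x180000000c0000000c0000000000000000 0x10000000180000000f0000003f0000003800000010 6 6) 0 0 (step_sound _ 97 [(rh53b3c253cb0c65f4.shift 0 3), rhd9a03a17cb3bba9c] (by decide +kernel))
noncomputable def rhfbafae97a595971a : CRef := CRef.mk (Pat.mk 0x180000001c00000000 0x18000000ff000000e7 6 8) 0 0 (step_sound _ 33 [(rh53b3c253cb0c65f4.shift 0 1), rha1eb337eeb07c2e7] (by decide +kernel))
noncomputable def rh9effbfbbcc50df23 : CRef := CRef.mk (Pat.mk 0xc00000007000000020000000000000000 0x2000000020000001e00000007000000070000000700000003 6 5) 0 0 (step_sound _ 129 [(rh18965a982d73c794.shift 0 3), rh8ef2df872268fcd8] (by decide +kernel))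
noncomputable def rhee25b84a7ad1d950 : CRef := CRef.mk (Pat.mk 0xe0000000e000000000000000000000000 0xa0000000e0000003e000000070000000600000006 6 6) 0 0 (step_sound _ 100 [rh85d8c28f8fbce67f, (rhf48373e13d2bc128.shift 1 3)] (by decide +kernel))
noncomputable def rh32e22e50afcba7d8 : CRef := CRef.mk (Pat.mk 0xc0000001e000000000000000000000000 0x8000000080000001f0000001e000000340000001400000010 6 6) 0 0 (step_sound _ 129 [(rh10ccf09b5eaa2039.shift 1 0), (rh3244c3cc8379b070.shift 0 3)] (by decide +kernel))
noncomputable def rh7611979493a4847b : CRef := CRef.mk (Pat.mk 0xc0000001c000000080000000800000000 0xf0000001c0000003c0000001f00000017 6 6) 0 0 (step_sound _ 36 [(rh55afc6a59410cf00.shift 3 0), rhc5199ddf111222ef] (by decide +kernel))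
noncomputable def rh9b3cdc11ae7a4db7 : CRef := CRef.mk (Pat.mk 0x180000000c00000000 0x3f0000003f00000070 6 7) 0 0 (step_sound _ 33 [rh149367f9f1f8871e, (rh53b3c253cb0c65f4.shift 0 1)] (by decide +kernel))
noncomputable def rhdd3e8b7b4c506bf2 : CRef := CRef.mk (Pat.mk 0xe00000004000000060000000600000000 0xf0000003c0000000e0000003e00000038 6 6) 0 0 (step_sound _ 35 [rh13b9c360dd67ed7c, (rh55afc6a59410cf00.shift 2 0)] (by decide +kernel))
noncomputable def rh5c462388eaeccdb2 : CRef := CRef.mk (Pat.mk 0x400000006000000020000000300000000000000000 0x2000000060000000e0000001ef000000fe000001cf00000040 6 9) 0 0 (step_sound _ 67 [(rh1b627eaab79632a1.shift 2 0), (rh26e1c318b7907940.shift 2 1), (rh271de49530410bf6.shift 2 0), (rhb12ffaec36122c99.shift 0 1), (rhcd0dffaa4480f90b.shift 1 1)] (by decide +kernel))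
noncomputable def rh228e7d41bded17d5 : CRef := CRef.mk (Pat.mk 0x100000001000000018000000080000000800000000 0x14000001f6000000fe000001ef0000002800000020 6 9) 0 0 (step_sound _ 101 [(rh2820ca9a6c4f41b4.shift 0 2), (rh352b7f91eba0c81f.shift 2 2), (rha8e118612a5545ec.shift 1 1), (rhc32688944b7f7dbb.shift 2 0)] (by decide +kernel))
noncomputable def rh4b32f5d4beafe9b0 : CRef := CRef.mk (Pat.mk 0x2000000020000000300000001000000000 0x20000001fe000000fe000001df00000040 6 9) 0 0 (step_sound _ 67 [(rh33bdc805d0683d44.shift 1 1), (rh42c149c634520fed.shift 2 0), (rh7f0f728c796044ac.shift 0 1), (rha11dfd15f08f96e3.shift 2 2)] (by decide +kernel))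
noncomputable def rh80aebd4b54e96e5c : CRef := CRef.mk (Pat.mk 0x1e0000000a0000000000000000 0x4000000040000003e0000003e0000003300000002 6 6) 0 0 (step_sound _ 68 [rh2283b862b4e53142, (rhe25b0a99195a5d59.shift 1 2)] (by decide +kernel))
noncomputable def rhf41c48fa5922cdbb : CRef := CRef.mk (Pat.mk 0xc0000001c000000080000000800000000 0x100000001c0000001f0000003b0000000f00000006 6 6) 0 0 (step_sound _ 132 [(rh2f68792b6b779e96.shift 3 1), rha764cf1d3d7bd69c] (by decide +kernel))
noncomputable def rh263a6dc0b917e0a6 : CRef := CRef.mk (Pat.mk 0x1e000000180000000000000000 0x4000000040000003e0000001f0000003300000002 6 6) 0 0 (step_sound _ 65 [rh2283b862b4e53142, (rheb0810cc63b001d8.shift 0 2)] (by decide +kernel))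
noncomputable def rh30a57ec70c1e846b : CRef := CRef.mk (Pat.mk 0x800000008000000180000003800000000 0x140000001c00000018000000180000003f00000064 6 7) 0 0 (step_sound _ 34 [rh1f4a2a17c4a45e9d, (rh932754581e0f4330.shift 2 0)] (by decide +kernel))
noncomputable def rh9358b6182fde97a7 : CRef := CRef.mk (Pat.mk 0xc00000016000000020000000000000000 0xc0000000c0000000c0000001e0000003b0000001000000010 6 6) 0 0 (step_sound _ 162 [rh260082dfbe684224, (rh5c5e593799055d58.shift 1 2)] (by decide +kernel))
noncomputable def rh77f8450846b645a0 : CRef := CRef.mk (Pat.mk 0x1e0000000000000000 0x400000004000000070000003e0000003300000002 6 6) 0 0 (step_sound _ 97 [rh108dc19176929e17, (rh3244c3cc8379b070.shift 0 2)] (by decide +kernel))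
noncomputable def rh7f8f6b92964d5635 : CRef := CRef.mk (Pat.mk 0x600000007000000000000000000000000 0x2000000060000000600000006000000070000001f0000000f00000003 6 5) 0 0 (step_sound _ 161 [(rh37d9ceebb86d75d1.shift 0 2), (rh3e595262c1b737ad.shift 1 2), rhc378b5278af6607c] (by decide +kernel))
noncomputable def rh770a2a585d91b923 : CRef := CRef.mk (Pat.mk 0x40000000c0000000e0000000a000000000000000000000000 0x2000000060000000f0000003e0000007e000000340000001400000010 6 7) 0 0 (step_sound _ 100 [(rh20aaab6250709fa0.shift 0 3), (rh67c040bdddfb4fb2.shift 1 0), (rh89ade209b3e28f13.shift 1 3), (rhae2edff970a530ce.shift 1 3)] (by decide +kernel))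
noncomputable def rhde17febc9c07d705 : CRef := CRef.mk (Pat.mk 0x8000000180000001c0000000c00000000 0x40000000c0000001c0000001c0000007f00000013 6 7) 0 0 (step_sound _ 36 [rh1491f566c810e097, (rh7b1f1fb55310c477.shift 3 0)] (by decide +kernel))
noncomputable def rhf861918dc08abf67 : CRef := CRef.mk (Pat.mk 0x30000000180000000c0000000800000000 0x800000038000000780000002f0000007c00000034 6 7) 0 0 (step_sound _ 65 [(rh0c0c17a8bb95707c.shift 1 0), (rh53b3c253cb0c65f4.shift 0 2)] (by decide +kernel))
noncomputable def rh908db6f891e2832e : CRef := CRef.mk (Pat.mk 0x100000001c000000100000000000000000 0x1000000010000000100000007c0000007f0000006f00000028 6 7) 0 0 (step_sound _ 67 [(rh121397a93ef3afd3.shift 2 1), (rh1e309b005ffa1b36.shift 3 0), rhe00ac20c6cdce694] (by decide +kernel))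
noncomputable def rhdf5dcc9796bf92aa : CRef := CRef.mk (Pat.mk 0x180000001c00000006000000040000000000000000 0x180000001c0000003e0000003e0000003b00000002 6 6) 0 0 (step_sound _ 68 [(rh17f8b9a6f88f2867.shift 1 1), (rh44f1f7cd75d8905a.shift 1 1), (rh558e6fee747fbc33.shift 1 1), (rhc7c3f7a20b3208f5.shift 1 1), rhffdfe66d110cb31a] (by decide +kernel))
noncomputable def rh94d8ccd87c6f4ad5 : CRef := CRef.mk (Pat.mk 0x3800000030000000100000001800000000 0xf80000003c000001df000000fe000001e7 6 9) 0 0 (step_sound _ 37 [rh39e0a79baee328e5, (rh55afc6a59410cf00.shift 4 0)] (by decide +kernel))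
noncomputable def rhbdcf45b39658da01 : CRef := CRef.mk (Pat.mk 0xc0000000c0000000400000004 0x400000006000000060000003e0000000f0000000600000004 6 6) 0 0 (step_sound _ 129 [(rh0073aa65e43ac61d.shift 0 1), (rhffd04209dc8ea796.shift 1 0)] (by decide +kernel))
noncomputable def rh3bc6606f5d748010 : CRef := CRef.mk (Pat.mk 0x200000002000000020000000300000000 0x500000007000000070000000200000002000000030000000700000004 6 3) 0 0 (step_sound _ 161 [(rh79877ebd3ef475dd.shift 0 1), rh894b223e2396ecd3] (by decide +kernel))
noncomputable def rh80b1bbc0c829553e : CRef := CRef.mk (Pat.mk 0x100000001e0000000000000000 0x10000000300000001f0000003f0000000800000008 6 6) 0 0 (step_sound _ 97 [rh0226886c380c23e8, (rh3244c3cc8379b070.shift 0 2)] (by decide +kernel))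
noncomputable def rhc31f864c98680f5e : CRef := CRef.mk (Pat.mk 0x1e000000100000000000000000 0x4000000040000000f0000003f000000180000000800000008 6 6) 0 0 (step_sound _ 129 [(rh3244c3cc8379b070.shift 0 3), rh3a924a7605734e63] (by decide +kernel))
noncomputable def rh10d099892b789c75 : CRef := CRef.mk (Pat.mk 0x6000000060000000e0000000400000000 0x80000000f0000003e0000000e0000003c00000018 6 6) 0 0 (step_sound _ 35 [(rh55afc6a59410cf00.shift 2 0), rh5b967d8b02a27e55] (by decide +kernel))
noncomputable def rh3d304d32c3d9ab28 : CRef := CRef.mk (Pat.mk 0x200000003000000070000000200000000 0xc0000001e00000007000000070000001e0000000c 6 5) 0 0 (step_sound _ 34 [rh24f49b243d70c044, (rh55afc6a59410cf00.shift 1 0)] (by decide +kernel))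
noncomputable def rh0ce26822ca0276aa : CRef := CRef.mk (Pat.mk 0x40000001e0000001400000000 0xa0000000b0000003f0000001e0000001400000010 6 6) 0 0 (step_sound _ 97 [(rh3244c3cc8379b070.shift 0 2), rh39abb0b6cda25940] (by decide +kernel))
noncomputable def rh97df5f882a50f3de : CRef := CRef.mk (Pat.mk 0x5000000070000000400000000000000000000000000000000 0x5000000050000000500000007000000070000000e0000000e0000000e00000002 6 4) 0 0 (step_sound _ 98 [(rh3935d5a6e45c29bf.shift 0 2), (rh6eff4158bb400f47.shift 1 1), (rh8ff71bc284510f75.shift 1 1), (rhbaff7ec0fcc038ba.shift 1 0)] (by decide +kernel))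
noncomputable def rhb2ec91a2152e842a : CRef := CRef.mk (Pat.mk 0x3800000018000000000000000000000000 0xc0000000c0000000f0000003c00000018000000180000001800000018 6 6) 0 0 (step_sound _ 163 [(rh0efea48c36e092f0.shift 0 2), rh23d1be744f2ebe94, (rh55a1f6c57a317ce6.shift 3 1)] (by decide +kernel))
noncomputable def rh12a1589e620e16b0 : CRef := CRef.mk (Pat.mk 0x8000000580000003800000000 0x18000000380000001f000000780000003800000020 6 7) 0 0 (step_sound _ 131 [(rh2145e1d24b96a57e.shift 3 1), rh47328d81ac9dedcf] (by decide +kernel))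
noncomputable def rh32ae5b462c22425c : CRef := CRef.mk (Pat.mk 0x80000005a000000180000000000000000 0x10000000300000001f0000007b000000180000001000000010 6 7) 0 0 (step_sound _ 36 [(rh1c3c3eecb52bb78e.shift 0 2), (rh7b1f1fb55310c477.shift 3 0)] (by decide +kernel))
noncomputable def rh1a3a38a6fa23c3f3 : CRef := CRef.mk (Pat.mk 0x2000000160000000c0000000000000000 0x1000000010000000330000001e0000001c0000000c0000000c 6 6) 0 0 (step_sound _ 99 [(rh3244c3cc8379b070.shift 0 3), (rh3d3d998f5c02544a.shift 1 0)] (by decide +kernel))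
noncomputable def rha16f3b18d91770f3 : CRef := CRef.mk (Pat.mk 0x200000003000000070000000200000000 0xc0000001e00000007000000070000001e0000000c 6 5) 0 0 (step_sound _ 34 [(rh55afc6a59410cf00.shift 1 0), rhe63812221c7caf65] (by decide +kernel))
noncomputable def rh9f48e603e887f94a : CRef := CRef.mk (Pat.mk 0x80000000e0000001c 0x30000000300000007f0000007e0000001c 6 7) 0 0 (step_sound _ 36 [rh1973362723cba897, rh6e8a826a5508ce46, (rh9462503d16fc4086.shift 1 0)] (by decide +kernel))
noncomputable def rh01277b18f7422269 : CRef := CRef.mk (Pat.mk 0xb000000070000000000000000 0x1c0000001e0000001b0000000f0000001c00000004 6 5) 0 0 (step_sound _ 67 [(rh33e738c4ed385b9f.shift 0 2), rh5c3b1ef299498214] (by decide +kernel))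
noncomputable def rh3d2a6472da9b64a7 : CRef := CRef.mk (Pat.mk 0x8000000180000003800000000 0x1c0000001f00000038000000180000003800000020 6 6) 0 0 (step_sound _ 131 [(rh2145e1d24b96a57e.shift 3 1), rh23238c967e55cddb] (by decide +kernel))
noncomputable def rh5dc20b8d4538a68c : CRef := CRef.mk (Pat.mk 0x1c0000000e000000000000000000000000 0xa0000003b0000001f0000000e0000000c0000000c0000000c 6 6) 0 0 (step_sound _ 66 [(rh79ac4757f7fcfa7a.shift 1 0), (rhb99e40ab417ed064.shift 0 2), (rhea7a1800d6f053bd.shift 2 0)] (by decide +kernel))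
noncomputable def rh1e9807f5b8b2578b : CRef := CRef.mk (Pat.mk 0xb0000000f00000008000000000000000000000000 0x140000001c0000001d0000000b0000000f0000000e0000001f0000001e00000010 6 5) 0 0 (step_sound _ 66 [(rh0db119afefb5ebc7.shift 2 1), (rh9fb9dc683e09b5f3.shift 2 2), rha31ac673217c9972] (by decide +kernel))
noncomputable def rh6493fe73b946fb14 : CRef := CRef.mk (Pat.mk 0x160000000e0000000400000000 0x10000000120000003b0000001e0000000e0000000c00000008 6 6) 0 0 (step_sound _ 129 [(rh2145e1d24b96a57e.shift 1 1), rh45e346eb229ab3ee] (by decide +kernel))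
noncomputable def rhc0d131f7ded4d94e : CRef := CRef.mk (Pat.mk 0x1c000000040000000e00000008 0x2000000130000001f0000003f0000000e00000008 6 6) 0 0 (step_sound _ 67 [(rh2f68792b6b779e96.shift 3 0), (rh9c5841c347f228c2.shift 0 1)] (by decide +kernel))
noncomputable def rh5b5412608571c6cf : CRef := CRef.mk (Pat.mk 0x40000000e000000080000000800000000 0x1800000018000000180000003c0000000e0000003c0000000f00000006 6 6) 0 0 (step_sound _ 131 [rh62777f1585c1177a, (rh712526e472efe489.shift 1 1), (rh929981d1a150078c.shift 2 0)] (by decide +kernel))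
noncomputable def rh2e8a948bec17054c : CRef := CRef.mk (Pat.mk 0x300000003000000060000000200000000 0x1c0000001f0000001b0000000e0000000600000004 6 5) 0 0 (step_sound _ 34 [(rh328952966679b03a.shift 0 1), (rh55afc6a59410cf00.shift 1 0)] (by decide +kernel))
noncomputable def rh1dab1a0e90908a59 : CRef := CRef.mk (Pat.mk 0x4000000140000001400000010 0xa0000003e0000003f000000140000001400000014 6 6) 0 0 (step_sound _ 131 [rh23d0e80c801fc3e0, (rh81a0b468accb8b7e.shift 2 0), (rhc0a100117aedecfa.shift 1 0)] (by decide +kernel))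
noncomputable def rhec6a930a8883144a : CRef := CRef.mk (Pat.mk 0x400000004000000140000000c00000000 0x1c0000003c0000000f0000001c0000000c00000004 6 6) 0 0 (step_sound _ 131 [(rh2f68792b6b779e96.shift 2 1), rhfcd9a92ccbac1667] (by decide +kernel))
noncomputable def rh22c1f3f3d176ad6f : CRef := CRef.mk (Pat.mk 0x300000007000000020000000000000000 0xe0000001f00000007000000060000000600000006 6 5) 0 0 (step_sound _ 33 [rh7b1f1fb55310c477, rhf644b3f7f54bbc91] (by decide +kernel))
noncomputable def rhec92932606d40fa6 : CRef := CRef.mk (Pat.mk 0x1c000000000000000000000000 0x20000000ff0000003e000000700000001000000010 6 8) 0 0 (step_sound _ 133 [(rh834ef1c974e4840e.shift 1 0), (rh90fcc1b0fe0017ad.shift 1 3), (rhb8022f71dc28021b.shift 1 3), (rhba3fefaa894766da.shift 2 3), (rhfa569934339c5693.shift 0 2)] (by decide +kernel))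
noncomputable def rh0ffdeaaa150f2828 : CRef := CRef.mk (Pat.mk 0x8000000080000001e000000000000000400000000 0x140000003c0000000f0000003e000000080000000c0000000c 6 6) 0 0 (step_sound _ 129 [(rh3244c3cc8379b070.shift 0 3), (rhd2ce4b02c87f1dee.shift 1 0)] (by decide +kernel))
noncomputable def rh2fcfe62c50103cda : CRef := CRef.mk (Pat.mk 0xa0000001e000000100000001000000000 0x200000002000000170000001e0000003e0000001c0000001800000008 6 6) 0 0 (step_sound _ 130 [rh95f469c858c36667, (rhf48373e13d2bc128.shift 1 3)] (by decide +kernel))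
noncomputable def rh87103801d59f4ace : CRef := CRef.mk (Pat.mk 0x80000000400000004000000040000000000000000 0xc0000000c000000040000003c0000000f0000000a 6 6) 0 0 (step_sound _ 34 [rh3ca4c10fdf355329, (rhbaefcd01e0a8bca3.shift 2 1)] (by decide +kernel))
noncomputable def rh63f530b3afa96b4e : CRef := CRef.mk (Pat.mk 0x8000000040000000c000000000000000000000000 0x80000000a0000000f0000003c000000040000000c0000000e0000000e0000000a 6 6) 0 0 (step_sound _ 162 [(rh1b9022be4f7af407.shift 1 0), (rh1d74ace842e9b695.shift 0 2), (rh215e11e099257d75.shift 2 2), (rh32c58e03f09ef244.shift 2 2), (rh70e33bfdf511e144.shift 2 0)] (by decide +kernel))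
noncomputable def rh7152b4525ee2017e : CRef := CRef.mk (Pat.mk 0x800000008000000180000003000000000 0x400000004000000340000007f0000007e000000180000003800000020 6 7) 0 0 (step_sound _ 130 [rhc001be25ad260437, (rhf9a6286f1d5377a2.shift 2 1), rhfc08a55dcae0848d] (by decide +kernel))
noncomputable def rh4f5541688264df47 : CRef := CRef.mk (Pat.mk 0x1000000030000000e0000000200000000 0x2000000060000000e0000001f0000001b0000000f0000000600000004 6 5) 0 0 (step_sound _ 129 [(rh028809442a7beef4.shift 0 1), rh45d4a03fbbb5ba58, (rhd4b4beefcd67f51e.shift 1 0)] (by decide +kernel))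
noncomputable def rh727f56d8356846fe : CRef := CRef.mk (Pat.mk 0xa000000020000000e00000000 0x400000004000000040000001f0000007e0000001f00000002 6 7) 0 0 (step_sound _ 68 [(rh5ca1b0eab7f14ed8.shift 1 0), (rh9578164826709400.shift 0 1), (rhbc7f7beda4cbdc7e.shift 0 1)] (by decide +kernel))
noncomputable def rh8874248995376170 : CRef := CRef.mk (Pat.mk 0x28000000080000001800000010000000000000000000000000 0x1f70000007e0000001800000018000000180000000c0000000c0000000c 6 9) 0 0 (step_sound _ 196 [(rh94a707a6801781d8.shift 0 3), (rha45f50e2d37cac99.shift 2 0), (rhdbbda056112f07df.shift 3 2), (rhfb2dc840317dabeb.shift 2 3)] (by decide +kernel))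
noncomputable def rh0be252359e29e14a : CRef := CRef.mk (Pat.mk 0x180000001800000070000000000000000000000000 0xc0000000f0000007c000000380000007c000000e40000002000000020 6 8) 0 0 (step_sound _ 195 [rh1ffd2c09bf35b66f, (rh2145e1d24b96a57e.shift 3 3)] (by decide +kernel))
noncomputable def rh6e1ce98cbceb55cc : CRef := CRef.mk (Pat.mk 0x8000000080000001800000000 0x140000001f00000038000000080000001800000018 6 6) 0 0 (step_sound _ 131 [(rh55afc6a59410cf00.shift 3 0), rhb569fc3d362b7913] (by decide +kernel))
noncomputable def rh07b63021ebbf206b : CRef := CRef.mk (Pat.mk 0x40000000400000006000000020000000800000000 0x40000007c0000003e0000007b0000000800000008 6 7) 0 0 (step_sound _ 99 [(rh3b5346b2e316d790.shift 2 0), (rhfa35e196e150edb4.shift 0 2)] (by decide +kernel))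
noncomputable def rhdb0f0fa9c55255f0 : CRef := CRef.mk (Pat.mk 0x180000000800000038000000100000000000000000 0x1e00000007c0000002f00000038000000300000001000000010 6 9) 0 0 (step_sound _ 36 [(rh7b1f1fb55310c477.shift 3 0), (rhed4673141d99f263.shift 0 1)] (by decide +kernel))
noncomputable def rhacf38d93acfcb0c8 : CRef := CRef.mk (Pat.mk 0x18000000080000003800000010 0x4000001e6000000fc000001ef0000003800000018 6 9) 0 0 (step_sound _ 101 [(rh2820ca9a6c4f41b4.shift 0 2), (rh2a4ffcc2731c90e6.shift 1 0), (rha08a5baa0353fca4.shift 1 0), (rhe308b926a0bdad2f.shift 2 2)] (by decide +kernel))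
noncomputable def rhe662dab3c3251c44 : CRef := CRef.mk (Pat.mk 0x18000000300000002000000020 0x4000000040000000f8000000ff0000003e00000020 6 8) 0 0 (step_sound _ 70 [rhb0ecd5f6988228b2, (rhf48373e13d2bc128.shift 3 2)] (by decide +kernel))
noncomputable def rha5161e3d84bdc3c7 : CRef := CRef.mk (Pat.mk 0xc000000180000001000000010 0x1000000010000000370000003f0000001f0000001800000010 6 6) 0 0 (step_sound _ 97 [rh3cb73f93766ebb9f, (rhb739f4f82bb681b4.shift 0 2)] (by decide +kernel))
noncomputable def rhc6e3f3ecd5751d77 : CRef := CRef.mk (Pat.mk 0x600000006000000020000000200000000 0x2000000060000000e0000001b0000001f0000001d 6 5) 0 0 (step_sound _ 32 [rh35d175d97e0a20e2, rh932754581e0f4330] (by decide +kernel))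
noncomputable def rh3517838f6e404d74 : CRef := CRef.mk (Pat.mk 0x2000000020000000c0000001c000000000000000000000000 0x180000001f0000001e0000000c0000001c000000180000001800000018 6 5) 0 0 (step_sound _ 67 [(rhb28b6027e12c5e11.shift 2 0), (rhb6d752f7f81ec7bc.shift 0 2), (rhfc7c29d8e65d775f.shift 2 1)] (by decide +kernel))
noncomputable def rhaf7e63adbfbf688b : CRef := CRef.mk (Pat.mk 0x2000000020000001e0000001400000000 0x20000000380000003f0000003e0000001e0000001400000010 6 6) 0 0 (step_sound _ 100 [(rh33e738c4ed385b9f.shift 1 2), rhaa5e8b2784572945] (by decide +kernel))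
noncomputable def rh4538f6fe848c3f81 : CRef := CRef.mk (Pat.mk 0x5000000060000000a00000000 0xe0000001e00000007000000060000000e0000000c 6 5) 0 0 (step_sound _ 130 [(rh5c5e593799055d58.shift 1 1), rhc3830a68545a0d60] (by decide +kernel))
noncomputable def rha00c9fbd66487763 : CRef := CRef.mk (Pat.mk 0x20000000a0000000e0000000000000000 0x1000000010000000330000007e0000001e0000000800000008 6 7) 0 0 (step_sound _ 100 [rh09ba32f78f358d5d, (rh0ea7de2da709317e.shift 0 2), (rh572132728df34c43.shift 1 2)] (by decide +kernel))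
noncomputable def rh94d8b48966daa29f : CRef := CRef.mk (Pat.mk 0x4000000140000001c0000002800000000 0x1b0000001e000000340000001c0000003c00000020 6 6) 0 0 (step_sound _ 132 [(rh5c5e593799055d58.shift 3 1), rhefa4889b9274c977] (by decide +kernel))
noncomputable def rh3e09635db0d6686b : CRef := CRef.mk (Pat.mk 0x3800000000 0x1ff0000007e000000f0 6 9) 0 0 (step_sound _ 70 [rha2e182fd6274be10, (rhb8022f71dc28021b.shift 2 1), (rhba3fefaa894766da.shift 3 1), (rhd14628fea3bd9904.shift 1 0)] (by decide +kernel))
noncomputable def rh32b020d2b557819b : CRef := CRef.mk (Pat.mk 0x1c000000020000000000000000 0x10000000300000001f0000003b0000000800000008 6 6) 0 0 (step_sound _ 97 [rhafce7c2a98f15f1d, (rheb0810cc63b001d8.shift 0 2)] (by decide +kernel))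
noncomputable def rhd6ad30c3113e045f : CRef := CRef.mk (Pat.mk 0x3800000000 0x1ff0000007e000000e7 6 9) 0 0 (step_sound _ 70 [rh5e601430b8bc2e39, (rhba3fefaa894766da.shift 3 1), (rhd14628fea3bd9904.shift 1 0)] (by decide +kernel))
noncomputable def rha6eab35ec4aee1b2 : CRef := CRef.mk (Pat.mk 0xc0000000f00000000 0x1c0000001c0000007c0000000e0000000f00000018 6 7) 0 0 (step_sound _ 3 [(rh6e3d62e5dc7de74d.shift 1 0), rhe25b0a99195a5d59] (by decide +kernel))
noncomputable def rh25945e6c392f2346 : CRef := CRef.mk (Pat.mk 0x40000000c0000000e0000000300000000 0x1000000030000000ff0000003e0000000e0000000b00000001 6 8) 0 0 (step_sound _ 100 [(rh18965a982d73c794.shift 1 2), rh56fc069c0e953fb6] (by decide +kernel))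
noncomputable def rhc24145a149bfa710 : CRef := CRef.mk (Pat.mk 0x1e00000006000000040000000000000000 0x10000000340000001e0000003e0000000f0000000a00000002 6 6) 0 0 (step_sound _ 164 [rh25542d7130130dbd, (rh33e738c4ed385b9f.shift 1 4)] (by decide +kernel))
noncomputable def rh168c7eab4c98eefe : CRef := CRef.mk (Pat.mk 0x6000000020000000200000002000000000000000000000000 0x100000007000000060000000200000002000000070000000700000005 6 3) 0 0 (step_sound _ 65 [(rhbaefcd01e0a8bca3.shift 1 2), rhcf713fb9e4c35c86] (by decide +kernel))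
noncomputable def rhe91bbc81f0de2ec1 : CRef := CRef.mk (Pat.mk 0x200000002000000060000000200000000000000000000000000000000 0x200000002000000060000000700000007000000070000000700000004 6 3) 0 0 (step_sound _ 97 [(rh7928877f9bf74a91.shift 0 2), rh8a1bd34420cccc7f, (rhd29a1fb688eae70f.shift 1 2)] (by decide +kernel))
noncomputable def rhbf6f0bc8764df428 : CRef := CRef.mk (Pat.mk 0xe0000001c0000000400000000 0x1c0000007c0000001e0000001c0000000f00000002 6 7) 0 0 (step_sound _ 131 [rh215532fb13b504eb, (rh5c5e593799055d58.shift 2 1)] (by decide +kernel))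
noncomputable def rh0023b7a2ba1fbedc : CRef := CRef.mk (Pat.mk 0x800000008000000180000000800000000 0x140000001c0000001c00000008000000180000000f00000004 6 5) 0 0 (step_sound _ 34 [(rh0733ccfc6b9d1d3b.shift 0 1), (rh932754581e0f4330.shift 2 0)] (by decide +kernel))
noncomputable def rh6c3c322346faebb6 : CRef := CRef.mk (Pat.mk 0x1c00000038000000000000000000000000 0xc0000000c0000000c0000001c0000003c0000000f0000000c0000000c 6 6) 0 0 (step_sound _ 67 [(rh40241bd608e5be1a.shift 2 0), (rh4c7c0cea13ff91e8.shift 0 1), rh609c5f22d4c52017] (by decide +kernel))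
noncomputable def rh26206a6c25d64b72 : CRef := CRef.mk (Pat.mk 0x38000000000000000000000000 0x40000001f0000007c000000ee0000000800000008 6 8) 0 0 (step_sound _ 130 [(rh40811da85268475d.shift 0 3), (rh4df35fbc131eb4ae.shift 0 3), (rh8bb330ee5aea9f6b.shift 1 0), (rh8c12fdbbddc1e7ab.shift 0 3), (rh99c4f2cb47723b80.shift 1 2)] (by decide +kernel))
noncomputable def rhc6f1569af89f4e8e : CRef := CRef.mk (Pat.mk 0x80000007800000000 0x380000007f000000e7 6 8) 0 0 (step_sound _ 6 [rhd1ce6ea7fa3d44a4, (rhe25b0a99195a5d59.shift 3 0)] (by decide +kernel))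
noncomputable def rhec212d6a98d7fa6b : CRef := CRef.mk (Pat.mk 0x10000000700000000000000000 0x10000000100000003e0000007f000000ec00000008 6 8) 0 0 (step_sound _ 99 [(rhc02b3aee7ab87ee1.shift 1 2), rhd3cf9442b0b4a5eb, (rhd8e93bbc8568df99.shift 2 2), (rhdbcea10a0fbe5ba6.shift 1 2)] (by decide +kernel))
noncomputable def rhdc9ca97282fe2120 : CRef := CRef.mk (Pat.mk 0x200000003000000070000000c0000000000000000 0xd0000001f00000007000000070000000e0000000a00000002 6 5) 0 0 (step_sound _ 65 [(rh8dfd472a79f6bb14.shift 0 1), rha327c50ba1fc214e, (rhfc7c29d8e65d775f.shift 0 1)] (by decide +kernel))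
noncomputable def rh0d182310bd616a52 : CRef := CRef.mk (Pat.mk 0x40000001e00000012000000000000000200000000 0xc0000000c0000001c0000001e0000001a0000007c0000001f00000008 6 7) 0 0 (step_sound _ 67 [(rh522e176cc596fc24.shift 1 1), (rh6c574ba1646780be.shift 0 1), (rha510588bba5f6b6d.shift 1 1), rhc7d9f31c3f373cb4] (by decide +kernel))
noncomputable def rhb3a09f75f03f99bb : CRef := CRef.mk (Pat.mk 0xa0000003800000008000000000000000000000000 0xa0000000a0000003a0000001f0000000e0000000400000004 6 6) 0 0 (step_sound _ 98 [(rh281c6819542c66e6.shift 2 0), rh8ff055ce628c134b, (rheea1a90336e79c71.shift 0 3)] (by decide +kernel))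
noncomputable def rhea641c077f5c0081 : CRef := CRef.mk (Pat.mk 0x40000000e00000018000000080000000000000000 0x80000000c0000000e0000001f0000003f0000003600000010 6 6) 0 0 (step_sound _ 68 [rh1ff1c4032a3ec08f, (rh3e595262c1b737ad.shift 3 1), (rhfa1c14ffe5905733.shift 0 1)] (by decide +kernel))
noncomputable def rh0b846c84734c1eeb : CRef := CRef.mk (Pat.mk 0x7c000000000000000000000000 0x1000000010000000380000007f0000001c0000000800000008 6 7) 0 0 (step_sound _ 67 [rh0fa534de089c342a, (rheb0810cc63b001d8.shift 2 2)] (by decide +kernel))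
noncomputable def rh22253cc2ecdeed10 : CRef := CRef.mk (Pat.mk 0x3800000004 0x770000003e00000066 6 7) 0 0 (step_sound _ 34 [rh574c8d3fb915a494, (rheb0810cc63b001d8.shift 1 0)] (by decide +kernel))
noncomputable def rh086043eb0000f414 : CRef := CRef.mk (Pat.mk 0x80000000f00000000000000000000000000000000 0x40000000c0000000c0000000f0000001c0000001c0000001c00000014 6 5) 0 0 (step_sound _ 99 [(rh7fe297edb3fab9c8.shift 2 0), (rhe25b0a99195a5d59.shift 0 3)] (by decide +kernel))
noncomputable def rh4352c0334182e5e2 : CRef := CRef.mk (Pat.mk 0x7800000000 0x70000007e000000ee 6 8) 0 0 (step_sound _ 6 [rh375838d6a4a0543d, (rhe25b0a99195a5d59.shift 3 0)] (by decide +kernel))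
noncomputable def rh0f22f18c7ebf56de : CRef := CRef.mk (Pat.mk 0x180000000800000038000000000000000000000000 0x1000000050000000f00000007c0000002f00000038000000f00000005000000010 6 8) 0 0 (step_sound _ 165 [(rh2820ca9a6c4f41b4.shift 0 4), (rh312f48898b66b953.shift 3 0)] (by decide +kernel))
noncomputable def rh87f0a84a34a9ca10 : CRef := CRef.mk (Pat.mk 0x40000001c000000080000000800000000 0x10000000180000001c0000003c0000003f0000000f00000006 6 6) 0 0 (step_sound _ 66 [(rh4dc133ee0ba1420a.shift 0 2), rh6ba895d2fd4a5e4a] (by decide +kernel))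
noncomputable def rhaed9419fda2f116a : CRef := CRef.mk (Pat.mk 0x200000001000000070000000300000000 0x40000000600000007000000070000001f0000001d 6 5) 0 0 (step_sound _ 97 [rh71222050f2c63a3a, rh806a30ccd3d3e25c] (by decide +kernel))
noncomputable def rh52b7e0ca4d29925a : CRef := CRef.mk (Pat.mk 0x340000000000000000 0x8000000080000007f0000007e0000000700000004 6 7) 0 0 (step_sound _ 67 [(rh21460d2d48a35cb8.shift 1 0), (rh4c622fddc53a5f99.shift 0 2), (rh9e97bba44c1b13e4.shift 0 1)] (by decide +kernel))
noncomputable def rh9432ce08f088b50a : CRef := CRef.mk (Pat.mk 0x100000001a000000000000000000000000 0x2000000330000003e000000070000000400000004 6 6) 0 0 (step_sound _ 98 [(rh33e738c4ed385b9f.shift 1 3), rhafa5a7051d37b143] (by decide +kernel))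
noncomputable def rh827d2e6532dd5b6d : CRef := CRef.mk (Pat.mk 0x2000000034000000000000000000000000 0x4000000370000007e0000000f0000000800000008 6 7) 0 0 (step_sound _ 99 [(rh21d582c147e7e118.shift 0 2), (rh7fb660bc21ce4329.shift 0 3), (rhafa5a7051d37b143.shift 1 0)] (by decide +kernel))
noncomputable def rh242eb5ea6ef18cf9 : CRef := CRef.mk (Pat.mk 0x30000000100000001a0000000800000000 0x2800000038000000180000001b0000001f00000014 6 6) 0 0 (step_sound _ 36 [(rh2f68792b6b779e96.shift 4 1), rhb5c2dab81678b5bb] (by decide +kernel))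
noncomputable def rhf0b6b30d77c8fe17 : CRef := CRef.mk (Pat.mk 0xe0000000200000003 0x800000008000000380000003f0000003e00000013 6 6) 0 0 (step_sound _ 36 [rh0deb2ebc850de581, rhc8a7d491c3699fdc, rhd0cda9340b872954] (by decide +kernel))
noncomputable def rh14fc1a52bdde6e0b : CRef := CRef.mk (Pat.mk 0x80000000c00000006000000040000000000000000 0x140000001c0000001c0000000e0000003e0000003b00000008 6 6) 0 0 (step_sound _ 67 [(rh3221340876a785f6.shift 1 1), (rh46d2b4ab8aeb8b13.shift 0 1), (rhb23658ecdd7ce5df.shift 1 1), (rhe3cfb1d09dcf475a.shift 1 0)] (by decide +kernel))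
noncomputable def rh69939f524559ea81 : CRef := CRef.mk (Pat.mk 0x380000000c0000000000000000 0xc0000001c0000001f0000003c0000001c0000000c00000008 6 6) 0 0 (step_sound _ 131 [(rh97bfcfad088be050.shift 1 0), (rhcd32f2ed6c1181e7.shift 2 1), (rhd8b13a8b32a0b481.shift 0 1)] (by decide +kernel))
noncomputable def rh9f2a6816a64448ca : CRef := CRef.mk (Pat.mk 0x200000003e000000120000000000000000 0x40000000c0000002c0000007f0000001a0000001800000010 6 7) 0 0 (step_sound _ 36 [(rh71222050f2c63a3a.shift 4 0), (rh8657e0a0a8ae9fe0.shift 0 1)] (by decide +kernel))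
noncomputable def rh1f88dd8190035238 : CRef := CRef.mk (Pat.mk 0x100000001a000000080000000800000000 0xc0000001e0000003f0000000f0000003e00000014 6 6) 0 0 (step_sound _ 65 [rh387ee86f184b0e23, rh97f4178c9ecf7a2e, (rhda02c4ce0b224328.shift 0 2)] (by decide +kernel))
noncomputable def rh7628628bab87b9d7 : CRef := CRef.mk (Pat.mk 0x100000001a000000080000000000000000 0x4000000040000001e0000003f0000001f0000000200000002 6 6) 0 0 (step_sound _ 98 [(rhe3dc93746cbe6e7c.shift 0 2), rhe99dcc9c35c954fb] (by decide +kernel))
noncomputable def rh6e223a0ec0eeae85 : CRef := CRef.mk (Pat.mk 0x100000001a0000000c000000080000000000000000 0x2c0000003e0000003b0000001c0000007c0000003400000010 6 7) 0 0 (step_sound _ 68 [(rh3221340876a785f6.shift 2 1), (rh8474c333d5b7d478.shift 0 1), (rhe3cfb1d09dcf475a.shift 2 0)] (by decide +kernel))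
noncomputable def rh57b6d3b774fb4785 : CRef := CRef.mk (Pat.mk 0x10000000100000001a0000000e000000000000000000000000 0xc0000000c0000003e0000001e0000001b0000000e000000060000000400000004 6 6) 0 0 (step_sound _ 161 [(rh177a65ca83ff870a.shift 0 2), (rha768b229dc254047.shift 1 0), (rhe2789ddd35219d79.shift 0 2)] (by decide +kernel))
noncomputable def rhaa74b54f6d4da885 : CRef := CRef.mk (Pat.mk 0x8000000080000000c00000004000000000000000000000000 0x170000001f0000003c0000000c0000000c000000180000001800000018 6 6) 0 0 (step_sound _ 99 [(rh3502d92c6cce609b.shift 2 0), (rh754ed8af3fcc8232.shift 0 3), (rh82c6aec0c6f8e399.shift 2 0), (rhdd11e03a2f8b13b6.shift 2 0), (rhfd2c478b9dbde44e.shift 2 2)] (by decide +kernel))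
noncomputable def rh189a23078f11f5b0 : CRef := CRef.mk (Pat.mk 0xc0000001c000000000000000000000000 0x80000000c0000000c0000000c0000001f0000003c0000001800000018 6 6) 0 0 (step_sound _ 67 [(rh0017a6511cb35c30.shift 0 1), (rh267543c1c418c231.shift 2 0), (rh3cb04db3dd2b6a55.shift 2 0)] (by decide +kernel))
noncomputable def rh74848dc4936d59a8 : CRef := CRef.mk (Pat.mk 0x20000001e0000000000000000 0x10000000300000003e0000003f0000000800000008 6 6) 0 0 (step_sound _ 100 [rh0226886c380c23e8, (rh33e738c4ed385b9f.shift 1 2)] (by decide +kernel))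
noncomputable def rh4a123942ee53ce13 : CRef := CRef.mk (Pat.mk 0x20000001e0000000000000000 0x2000000030000003e0000003f0000000400000004 6 6) 0 0 (step_sound _ 98 [rh2a2c9eb013bbac78, (rhf48373e13d2bc128.shift 1 2)] (by decide +kernel))
noncomputable def rh24870bcba793cecf : CRef := CRef.mk (Pat.mk 0x20000000200000006000000000000000000000000 0x40000000700000007000000070000000600000006000000030000000300000003 6 3) 0 0 (step_sound _ 65 [(rh64bc0dab78a08b48.shift 0 2), rh8c1d47d14292b804, (rhc85cc95794737cf7.shift 0 2), rhcab3157f7bdcba3e] (by decide +kernel))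
noncomputable def rhdee4e889186bfb4a : CRef := CRef.mk (Pat.mk 0x80000000a000000080000000800000000 0x140000001f0000003b000000080000001800000010 6 6) 0 0 (step_sound _ 36 [(rh018f2ebb4d91ad9d.shift 0 1), (rh55afc6a59410cf00.shift 3 0)] (by decide +kernel))
noncomputable def rh94b0bed3e14f231a : CRef := CRef.mk (Pat.mk 0x400000004000000040000000c00000000 0xe0000000f0000003c0000000c0000000c00000004 6 6) 0 0 (step_sound _ 131 [(rh2f68792b6b779e96.shift 2 1), rh9e8e701d333e216c] (by decide +kernel))
noncomputable def rh00467b73770fa53e : CRef := CRef.mk (Pat.mk 0x1e0000001c000000000000000000000000 0x180000001b0000001e0000001c0000007c0000003c0000000c 6 7) 0 0 (step_sound _ 161 [(rh3244c3cc8379b070.shift 0 4), (rh55c3b4072d15e6e1.shift 1 0)] (by decide +kernel))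
noncomputable def rhb7524f637b9b0ca3 : CRef := CRef.mk (Pat.mk 0x6000000060000000200000000 0x30000000f0000003f00000007000000060000000600000004 6 6) 0 0 (step_sound _ 130 [(rh5c5e593799055d58.shift 1 1), rh7beffdc4aaa32384] (by decide +kernel))
noncomputable def rh88e59f609f03d8f7 : CRef := CRef.mk (Pat.mk 0x280000002800000030000000000000000000000000 0x20000000280000002f0000007c000000180000001000000010 6 7) 0 0 (step_sound _ 68 [rh4e122cdbfc16a401, (rh5c5e593799055d58.shift 4 2)] (by decide +kernel))
noncomputable def rh9a90cab755c9a8a7 : CRef := CRef.mk (Pat.mk 0x10000000140000001800000000 0x1000000010000000360000003e0000002f 6 6) 0 0 (step_sound _ 132 [rh2d4579bccb0e0d04, (rh932754581e0f4330.shift 3 0)] (by decide +kernel))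
noncomputable def rhbd6c6b783a4cebba : CRef := CRef.mk (Pat.mk 0x6800000008 0xe0000000ff0000003c 6 8) 0 0 (step_sound _ 36 [rh8b24b8cfbab3984a, (rheb0810cc63b001d8.shift 2 0)] (by decide +kernel))
noncomputable def rha4e822fc56c110cb : CRef := CRef.mk (Pat.mk 0xc0000001c000000000000000000000000 0x80000000c0000000c0000000c0000001f0000003c0000001800000018 6 6) 0 0 (step_sound _ 67 [(rh0017a6511cb35c30.shift 0 1), (rh267543c1c418c231.shift 2 0), (rhfc7c29d8e65d775f.shift 2 1)] (by decide +kernel))
noncomputable def rhb1581db069832897 : CRef := CRef.mk (Pat.mk 0x10000000100000001a0000000a000000000000000000000000 0x2000000030000000300000003b0000001e000000300000003000000030 6 6) 0 0 (step_sound _ 100 [(rh82c6aec0c6f8e399.shift 3 0), (rh9ce9666211d7d662.shift 0 3)] (by decide +kernel))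
noncomputable def rh9482f13f5bcc05e5 : CRef := CRef.mk (Pat.mk 0x100000001a0000000a0000000800000000 0xc0000000c0000000c000000180000003b0000001e0000003c00000014 6 6) 0 0 (step_sound _ 131 [(rh0ef6c71ce89c1c36.shift 2 0), (rha71eeaa5a6d7c6ed.shift 1 0), rhb6c382dc9015d826, (rhcbaa34959f85e2ef.shift 2 0), (rhea90e7358341a1a4.shift 2 0)] (by decide +kernel))
noncomputable def rha5002fa4e88b7e0f : CRef := CRef.mk (Pat.mk 0x800000018000000020000000000000000 0x40000000c0000001c0000001c0000001c000000180000001f0000001c00000010 6 5) 0 0 (step_sound _ 163 [(rh35b637737a675811.shift 0 1), (rh4e64b7e82c9211af.shift 2 2), (rh70e33bfdf511e144.shift 3 0)] (by decide +kernel))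
noncomputable def rh6251d061324e2271 : CRef := CRef.mk (Pat.mk 0x8000000080000001a0000000200000000 0x140000001c0000001f0000003a0000001e0000001e 6 6) 0 0 (step_sound _ 35 [rh4213941770608396, (rhc4055b4872d6fb38.shift 2 0), (rhe17e69e1de5088c4.shift 1 0)] (by decide +kernel))
noncomputable def rh88a9578416d94e0e : CRef := CRef.mk (Pat.mk 0x4000000040000000400000008 0xa0000000f0000003c000000040000000c0000000c 6 6) 0 0 (step_sound _ 130 [rh305945700f20b255, (rhd3458b32566d63f7.shift 2 0)] (by decide +kernel))
noncomputable def rh15b06da94cf9137e : CRef := CRef.mk (Pat.mk 0x200000002000000020000000200000000 0x4000000070000000700000003000000030000000300000003 6 3) 0 0 (step_sound _ 128 [(rh50fbb5868c909700.shift 0 1), rhf09e010130ad488f] (by decide +kernel))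
noncomputable def rh9d7427a623ba0d2f : CRef := CRef.mk (Pat.mk 0x20000001a0000000300000000000000000000000000000000 0x50000000f0000001b0000000300000003000000070000000700000004 6 5) 0 0 (step_sound _ 97 [(rh2f7aebebd7d680c3.shift 0 3), rh95fda1105234af5f, (rhd1fa8140a3eb151f.shift 0 1)] (by decide +kernel))
noncomputable def rh05b3d254a0cdb83e : CRef := CRef.mk (Pat.mk 0x18000000d000000010 0x2000000020000000770000007e000000d700000010 6 8) 0 0 (step_sound _ 69 [rh3013c60725dd9a46, (rhd6e447e81774439e.shift 3 1)] (by decide +kernel))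
noncomputable def rhc5d0582f73dc4e79 : CRef := CRef.mk (Pat.mk 0x20000001a0000000c00000000 0x140000001c0000001c0000001f0000003b0000000c00000004 6 6) 0 0 (step_sound _ 99 [(rh052037c23179916b.shift 0 2), (rh68a777751bfeafdf.shift 2 0)] (by decide +kernel))
noncomputable def rh600d55775855330a : CRef := CRef.mk (Pat.mk 0x20000001a00000002000000000000000000000000 0x50000001f0000003b00000002000000070000000700000005 6 6) 0 0 (step_sound _ 162 [(rh60c8c357ee95cc83.shift 0 4), (rh9d15916a925d4940.shift 0 2), rhffb8e5993241bf15] (by decide +kernel))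
noncomputable def rh9a26806a85fc71b4 : CRef := CRef.mk (Pat.mk 0x8000000080000000a0000000200000000000000000000000000000000 0x140000001c0000001e0000000b0000001e0000001e000000060000000400000004 6 5) 0 0 (step_sound _ 131 [(rh66d93aa3738235ba.shift 1 0), (rh9dd6be3b36b4a2a5.shift 0 3), (rhc4055b4872d6fb38.shift 2 3)] (by decide +kernel))
noncomputable def rh908665df60ad5099 : CRef := CRef.mk (Pat.mk 0x140000001400000004000000000000000000000000 0x1600000016000000160000001c0000000f0000000e0000000a 6 5) 0 0 (step_sound _ 66 [(rh885a8f1e65602644.shift 0 1), (rh8ff3dde5b1c639e0.shift 1 0), (rhc4526fc8abf298b6.shift 1 0)] (by decide +kernel))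
noncomputable def rh225b902af6311e9d : CRef := CRef.mk (Pat.mk 0x4000000020000000200000002000000000000000000000000 0x400000006000000060000000200000002000000070000000700000005 6 3) 0 0 (step_sound _ 226 [(rh1006c02ae4212ff0.shift 1 3), rhc94dfb5f501cb051] (by decide +kernel))
noncomputable def rh8a1e2eee9cc6d209 : CRef := CRef.mk (Pat.mk 0x4000000040000000d0000000100000000000000000000000000000000 0xa0000000f0000003d0000001d0000000f0000000f000000030000000200000002 6 6) 0 0 (step_sound _ 130 [(rh305945700f20b255.shift 0 3), rh66d93aa3738235ba, (rhe17e69e1de5088c4.shift 0 3)] (by decide +kernel))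
noncomputable def rhe290e7a55488f919 : CRef := CRef.mk (Pat.mk 0x40000000c000000010000000000000000 0x20000000e0000000e0000000e0000000e0000001c0000000f0000000e0000000a 6 5) 0 0 (step_sound _ 162 [(rh4e64b7e82c9211af.shift 1 2), (rh52bbedde8910f8a3.shift 0 1), (rh70e33bfdf511e144.shift 2 0), (rh9b8f7cfaa987950d.shift 1 0)] (by decide +kernel))
noncomputable def rh68a5b6287ab53bb5 : CRef := CRef.mk (Pat.mk 0x80000000c000000050000000400000000 0x400000006000000060000000e0000001c0000000f0000001e0000003a 6 6) 0 0 (step_sound _ 130 [(rh771d065bdc85bf2d.shift 1 0), rha71eeaa5a6d7c6ed, (rhbad6ff9bdc3f8001.shift 1 0), rhc9c3a9c8d6e0efda, (rhea90e7358341a1a4.shift 1 0)] (by decide +kernel))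
noncomputable def rhabd1d2070263aa54 : CRef := CRef.mk (Pat.mk 0x100000001a0000000a00000000 0x3800000038000000380000003b0000001e00000010 6 6) 0 0 (step_sound _ 132 [(rh5c5e593799055d58.shift 3 1), rhd196f8b78c35570e] (by decide +kernel))
noncomputable def rh1fca12a0640f3a5e : CRef := CRef.mk (Pat.mk 0x28000000680000000800000000 0x1c0000001c0000003c0000003f0000006c0000000c00000004 6 7) 0 0 (step_sound _ 98 [rh300786cfaf61bbf9, (rhc10214bf3fe8094a.shift 2 2)] (by decide +kernel))
noncomputable def rh838d200559159a0a : CRef := CRef.mk (Pat.mk 0xa0000001a0000000200000000 0x50000001f0000000f0000001a0000001b0000001300000001 6 5) 0 0 (step_sound _ 129 [rh20966da26a1c2ae8, rh771d065bdc85bf2d, (rh9f762535f7adf79d.shift 0 1), (rhc85cc95794737cf7.shift 0 1)] (by decide +kernel))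
noncomputable def rha7669746846de340 : CRef := CRef.mk (Pat.mk 0x180000000a0000000800000000 0x800000008000000380000003f0000000f00000004 6 6) 0 0 (step_sound _ 66 [rh41ac50d8461636ce, (rh53b3c253cb0c65f4.shift 0 2)] (by decide +kernel))
noncomputable def rh61f0c6ef3c1361e7 : CRef := CRef.mk (Pat.mk 0x80000001c0000000c000000040000000000000000 0x140000001c0000001c0000003c0000000f0000000a00000008 6 6) 0 0 (step_sound _ 67 [(rhb0c1e7919d9be92d.shift 2 0), (rhbae069776425adec.shift 0 1), (rhfc7c29d8e65d775f.shift 2 1)] (by decide +kernel))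
noncomputable def rha4993cf8c7076df9 : CRef := CRef.mk (Pat.mk 0x80000001c000000070000000400000000 0x240000007c0000001c000000170000003e0000001a 6 7) 0 0 (step_sound _ 35 [(rh688f36e28d6273d1.shift 1 0), (rh89ade209b3e28f13.shift 0 1), (rhb23658ecdd7ce5df.shift 1 0)] (by decide +kernel))
noncomputable def rh9d5036d7db97d665 : CRef := CRef.mk (Pat.mk 0x180000001c000000040000000400000000 0x740000007f0000001c0000003c0000000f0000000a 6 7) 0 0 (step_sound _ 35 [rh1e273754ee843479, (rh2c7fc7a7cc8a47be.shift 3 0), rha3a035462e5edf29, (rhd6e64bb7d1c8c62d.shift 2 0)] (by decide +kernel))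
noncomputable def rha5b1740ebccaaa10 : CRef := CRef.mk (Pat.mk 0x180000001c000000040000000400000000 0x3000000030000000300000001f0000001e0000003c0000002c00000008 6 6) 0 0 (step_sound _ 164 [(rh1e309b005ffa1b36.shift 3 1), (rh50945c69de428f0a.shift 1 1), rhaddb4f79efc35004] (by decide +kernel))
noncomputable def rh2ebd835ad6236ef2 : CRef := CRef.mk (Pat.mk 0xc00000006000000020000000600000000 0x80000000c000000070000003e0000003f00000008 6 6) 0 0 (step_sound _ 66 [(rh2f68792b6b779e96.shift 2 1), rhac43f9d0116938b1] (by decide +kernel))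
noncomputable def rh40bd69aad7921746 : CRef := CRef.mk (Pat.mk 0x10000000100000001a0000001800000000 0x1000000010000000fb000000ff00000020 6 8) 0 0 (step_sound _ 37 [(rh55afc6a59410cf00.shift 4 0), (rh6c1c444ab4ca27dc.shift 0 1)] (by decide +kernel))
noncomputable def rh8838cf1885bcaa3f : CRef := CRef.mk (Pat.mk 0x10000000180000000c0000000800000000 0x8000000080000000f0000001f0000001c0000001c0000001c00000014 6 5) 0 0 (step_sound _ 131 [(rh03dfdf12d5937476.shift 2 0), rh33e591d1663cc4bf, (rh4fe28d9656358ab8.shift 2 0)] (by decide +kernel))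
noncomputable def rhcf26ec993e8f7076 : CRef := CRef.mk (Pat.mk 0x180000000e000000080000000000000000 0xe0000000f0000003c0000000e0000000e0000000600000006 6 6) 0 0 (step_sound _ 130 [(rh18965a982d73c794.shift 1 3), rhda0491c5ee69f919] (by decide +kernel))
noncomputable def rh19dce625cf00b403 : CRef := CRef.mk (Pat.mk 0x180000000c0000000800000000 0x800000008000000380000003f0000000f00000004 6 6) 0 0 (step_sound _ 65 [rh41ac50d8461636ce, (rh53b3c253cb0c65f4.shift 0 2)] (by decide +kernel))
noncomputable def rh6d1b27ff17673fe8 : CRef := CRef.mk (Pat.mk 0x3000000018000000180000000800000000 0xc0000000c00000078000000380000003f0000000f00000004 6 7) 0 0 (step_sound _ 131 [rh362da68dd10412a4, (rhcec05e2f45773d62.shift 2 2)] (by decide +kernel))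
noncomputable def rh915cd4d572ce73f3 : CRef := CRef.mk (Pat.mk 0xc0000001c00000004 0x1800000018000000380000007f0000001e00000004 6 7) 0 0 (step_sound _ 131 [(rh0f187056ef5cdcc0.shift 0 1), (rhee230b994cc8b773.shift 2 0)] (by decide +kernel))
noncomputable def rh2dbbb45430103352 : CRef := CRef.mk (Pat.mk 0x40000001c0000000c0000000000000000 0x180000007a0000001f0000001c0000000c0000000400000004 6 7) 0 0 (step_sound _ 131 [(rh1e309b005ffa1b36.shift 2 0), (rhad590f0693506156.shift 0 2), rhda49d08e88765cc3] (by decide +kernel))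
noncomputable def rh495b4182db13668f : CRef := CRef.mk (Pat.mk 0x8000000280000000e0000000000000000 0x4000000140000003c0000003f0000000e0000000a00000008 6 6) 0 0 (step_sound _ 98 [(rh361cc68994bd8a63.shift 1 2), rhfc4c1430e53c5b78] (by decide +kernel))
noncomputable def rh0129fa4880a22b39 : CRef := CRef.mk (Pat.mk 0x8000000280000000e0000000400000000 0x160000001f0000003a0000001e0000000e00000008 6 6) 0 0 (step_sound _ 100 [(rh3fc040e777f1679e.shift 1 2), rhe2980b9c4f477b83] (by decide +kernel))
noncomputable def rh1596386b10463091 : CRef := CRef.mk (Pat.mk 0x10000000100000001c0000000c00000000 0x28000000780000001e0000001c0000007f00000017 6 7) 0 0 (step_sound _ 131 [(rh34969f5e351ad088.shift 1 0), (rh88b27e1475b6bec5.shift 2 1), rha025026f8b8f522f, (rhb8fddd58ad9026ec.shift 2 0)] (by decide +kernel))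
noncomputable def rh1bd512093e5c9bf6 : CRef := CRef.mk (Pat.mk 0x8000000080000000e00000006000000000000000000000000 0x40000000d0000000f0000001e0000003e000000030000000300000003 6 6) 0 0 (step_sound _ 65 [rh2e6a4fa3ff75ba87, (rh32095080727db72c.shift 0 2), (rhea7a1800d6f053bd.shift 1 0)] (by decide +kernel))
noncomputable def rhaffbfd274a4a6204 : CRef := CRef.mk (Pat.mk 0x3800000010000000180000000800000000 0x20000000380000001e000000380000001f00000014 6 6) 0 0 (step_sound _ 36 [(rh2f68792b6b779e96.shift 4 1), rhdaae011bf01303a8] (by decide +kernel))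
noncomputable def rh281fe778948c1b23 : CRef := CRef.mk (Pat.mk 0xc000000280000000800000000 0x770000003e000000680000000800000008 6 7) 0 0 (step_sound _ 100 [(rh261f868a429ae0e3.shift 2 0), (rh3b1401306f573ad9.shift 1 0), (rh8177de947f319ea5.shift 0 2), (rha077024870a355a3.shift 1 0)] (by decide +kernel))
noncomputable def rh642f41e878d368ad : CRef := CRef.mk (Pat.mk 0x1800000010000000180000000800000000 0x80000000c0000003f0000001f0000003c0000000c00000004 6 6) 0 0 (step_sound _ 99 [(rh48c26f06fe65ca5e.shift 0 1), (rh925a1628dd8a50da.shift 2 0)] (by decide +kernel))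
noncomputable def rhd0fc4e8d0b5336cf : CRef := CRef.mk (Pat.mk 0xe00000006000000040000000000000000 0x3000000030000001e00000006000000070000000300000003 6 5) 0 0 (step_sound _ 161 [rh0d923e35326744ed, (rh2145e1d24b96a57e.shift 1 2)] (by decide +kernel))
noncomputable def rh7816dcb058263442 : CRef := CRef.mk (Pat.mk 0x80000000c000000060000001400000000 0x20000000b0000001e0000003e0000003c00000010 6 6) 0 0 (step_sound _ 37 [rh01ef8ccb1c2965f8, (rh5419adcd928dba20.shift 1 1)] (by decide +kernel))
noncomputable def rh300bda96c26f04d5 : CRef := CRef.mk (Pat.mk 0x1000000010000000180000002800000000 0xc0000001f00000038000000180000003800000030 6 6) 0 0 (step_sound _ 36 [(rh55afc6a59410cf00.shift 4 0), rha06847d8752fa06c] (by decide +kernel))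
noncomputable def rh72c0183b1155e373 : CRef := CRef.mk (Pat.mk 0x1000000010000000180000002800000000 0xc0000001f000000380000001c000000f800000010 6 8) 0 0 (step_sound _ 36 [(rh79b3c29022acbdf3.shift 2 1), rha06847d8752fa06c] (by decide +kernel))
noncomputable def rh597c3fb4d7a1f47a : CRef := CRef.mk (Pat.mk 0x1e00000004000000000000000000000000 0x600000006000000070000001e00000007000000030000000300000003 6 5) 0 0 (step_sound _ 161 [rh25f6b69693ec80dc, (rh3244c3cc8379b070.shift 0 4)] (by decide +kernel))
noncomputable def rhb08035540ac8c35f : CRef := CRef.mk (Pat.mk 0x8000000080000001c00000014 0x20000000f0000003f0000001e00000034 6 6) 0 0 (step_sound _ 33 [rhb5026552920bacb8, (rhe25b0a99195a5d59.shift 1 0)] (by decide +kernel))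
noncomputable def rhf10296a67cedf7f2 : CRef := CRef.mk (Pat.mk 0x40000000c0000000600000002000000000000000000000000 0xa0000000e0000000c0000000f0000003e0000000c0000000c00000004 6 6) 0 0 (step_sound _ 98 [(rh31abe7672c23f898.shift 1 0), (rh36d4d92ef3dad5f8.shift 0 2), (rha707fb719e87fe6e.shift 2 2)] (by decide +kernel))
noncomputable def rh64afaa346b99ec3a : CRef := CRef.mk (Pat.mk 0x80000000c000000040000000600000000 0x600000006000000060000000c0000000c0000003f0000003f00000018 6 6) 0 0 (step_sound _ 130 [(rh001df559c085f6ec.shift 1 1), rh3e78a1e3d90ce0a5, (rh4f01fe223ae1129c.shift 1 1), rhf4b26e788aa444b9] (by decide +kernel))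
noncomputable def rh436d35f99138204e : CRef := CRef.mk (Pat.mk 0x1000000010000000000000000e00000001 0x1000000030000000630000003e00000073 6 7) 0 0 (step_sound _ 36 [rh6e5525376c9f0ffa, rh80fcd6d0a18cb2dd] (by decide +kernel))
noncomputable def rha7764e385a27880c : CRef := CRef.mk (Pat.mk 0x1000000018000000080000000800000000 0xc0000001f000000380000000f0000003c00000014 6 6) 0 0 (step_sound _ 131 [(rhc647a25a08ddf0ec.shift 0 1), rhf3d11b058448e968] (by decide +kernel))
noncomputable def rhfc44827fa813ac50 : CRef := CRef.mk (Pat.mk 0x10000000380000002000000010 0x600000006000000060000000770000003e0000003000000010 6 7) 0 0 (step_sound _ 66 [(rh5e2669d9bb9bb7fe.shift 2 0), (rhd1d05263fabc0227.shift 0 1), (rhec46bd5500c722c9.shift 1 2)] (by decide +kernel))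
noncomputable def rhe5a752cd5340bd32 : CRef := CRef.mk (Pat.mk 0x60000000c000000060000000000000000 0x80000003e0000003f000000070000000400000004 6 6) 0 0 (step_sound _ 100 [(rhf48373e13d2bc128.shift 1 3), rhfc3b3745c3fdbaa9] (by decide +kernel))
noncomputable def rh0ea5b4df99340550 : CRef := CRef.mk (Pat.mk 0xc000000180000000c 0x12000000330000003f0000001f0000000c 6 6) 0 0 (step_sound _ 65 [(rhb739f4f82bb681b4.shift 0 1), rhe521b4edb5a4595c] (by decide +kernel))
noncomputable def rh1d9456fbf898673e : CRef := CRef.mk (Pat.mk 0x40000000400000006000000000000000000000000 0x80000000e0000000e000000070000003e0000000e00000006 6 6) 0 0 (step_sound _ 65 [rh3a82e4b62b5793c3, (rh42548283029e2a39.shift 1 0), (rhf9af042da61fc652.shift 1 0)] (by decide +kernel))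
noncomputable def rhba346319869ca484 : CRef := CRef.mk (Pat.mk 0x1c0000000c000000040000000000000000 0x100000001c0000000c0000003c0000000f0000000e 6 6) 0 0 (step_sound _ 34 [(rh71222050f2c63a3a.shift 2 0), rhb7feb5aae5ace0ce] (by decide +kernel))
noncomputable def rhf0b261f9918088a1 : CRef := CRef.mk (Pat.mk 0x200000003000000018000000180000000000000000 0x640000003c0000001c000000fc0000000f0000000c 6 8) 0 0 (step_sound _ 35 [(rh71222050f2c63a3a.shift 3 0), rhf333e93df316a673] (by decide +kernel))
noncomputable def rh37304d38897cd90e : CRef := CRef.mk (Pat.mk 0x80000000c0000001c000000000000000000000000 0xc0000000c0000000e0000001e000000330000000200000002 6 6) 0 0 (step_sound _ 68 [rh0658e6e220595fac, (rh2145e1d24b96a57e.shift 3 2)] (by decide +kernel))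
noncomputable def rh20eddd543cb3a807 : CRef := CRef.mk (Pat.mk 0x18000000080000000600000006000000000000000000000000 0x30000003b0000003f0000000600000007000000030000000300000002 6 6) 0 0 (step_sound _ 161 [(rh1ca57632399d2034.shift 0 1), (rh37b3c0214c205de8.shift 0 4), rhf601da3be3b85307] (by decide +kernel))
noncomputable def rh13644f59d0c0e8f6 : CRef := CRef.mk (Pat.mk 0x8000000080000000c0000000400000000 0x140000003c0000000f0000000e0000007c00000018 6 7) 0 0 (step_sound _ 35 [(rh36d4d92ef3dad5f8.shift 1 0), rh5ee4dc8825dcefa0, (rh9688f1ad5c9f5013.shift 1 0)] (by decide +kernel))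
noncomputable def rhbd90872730db07ce : CRef := CRef.mk (Pat.mk 0x80000007000000018 0x800000008000000ec0000007f00000038 6 8) 0 0 (step_sound _ 35 [(rh3244c3cc8379b070.shift 2 1), rhc842a18a36847944] (by decide +kernel))
noncomputable def rh05c6d685631c4c03 : CRef := CRef.mk (Pat.mk 0x10000000180000001000000018 0x2e000000ff000000f80000001800000018 6 8) 0 0 (step_sound _ 99 [(rh50fbb5868c909700.shift 3 0), rh96cc8bc894da8e39] (by decide +kernel))
noncomputable def rh0b76732beeeb55db : CRef := CRef.mk (Pat.mk 0x100000000000000038000000180000000c 0x3000000030000000600000003e0000003c0000000f 6 7) 0 0 (step_sound _ 1 [rh53b3c253cb0c65f4, (rh8c3db3f2c175a5d8.shift 1 0)] (by decide +kernel))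
noncomputable def rhcf58696d24c492b4 : CRef := CRef.mk (Pat.mk 0x8000000080000001c0000001c 0x60000000f0000003b0000001f0000001c 6 6) 0 0 (step_sound _ 33 [rh51624a0372ba35e4, rhb739f4f82bb681b4] (by decide +kernel))
noncomputable def rh84a20e363d095667 : CRef := CRef.mk (Pat.mk 0x1000000038000000180000000000000000 0x400000004000000760000003f0000003c0000000800000008 6 7) 0 0 (step_sound _ 35 [(rh55a5fef6392e2182.shift 0 1), (rh71222050f2c63a3a.shift 3 0)] (by decide +kernel))
noncomputable def rhd51b1a2ac76829e8 : CRef := CRef.mk (Pat.mk 0x120000001e0000000c00000000 0x3e0000003f0000001e0000001e0000001c00000010 6 6) 0 0 (step_sound _ 132 [(rh5c5e593799055d58.shift 3 1), rhacd8f38d4f2a50f3] (by decide +kernel))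
noncomputable def rhbd9441a19eea56cb : CRef := CRef.mk (Pat.mk 0xc000000080000000c0000000c00000000 0x120000003f0000003f0000000c0000001c00000010 6 6) 0 0 (step_sound _ 132 [(rh2f68792b6b779e96.shift 3 1), rh75053e02f68f23f7] (by decide +kernel))
noncomputable def rh1eaa614d5065b42c : CRef := CRef.mk (Pat.mk 0x600000006000000030000000000000000 0x600000006000000070000001f0000001f 6 5) 0 0 (step_sound _ 33 [rh59a8450f63fdff62, (rh71222050f2c63a3a.shift 1 0)] (by decide +kernel))
noncomputable def rhb4caa40d2b8e6d1e : CRef := CRef.mk (Pat.mk 0x1c0000007000000018000000000000000000000000 0x80000000a0000000f0000001c000000740000003c0000000f0000000a00000008 6 7) 0 0 (step_sound _ 98 [(rh3fc040e777f1679e.shift 2 3), rh89fe1d4ff4de83ec] (by decide +kernel))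
noncomputable def rh7cfe4fd9c964e024 : CRef := CRef.mk (Pat.mk 0xe0000001800000008 0x400000014000000f7000000fe0000001b0000000a 6 8) 0 0 (step_sound _ 68 [(rh36095876875a1ad2.shift 0 1), rh43dc67402634d54f, (rh5421160f8e9bcf07.shift 1 0)] (by decide +kernel))
noncomputable def rh332598df91949cce : CRef := CRef.mk (Pat.mk 0x80000000e000000060000000400000000 0x6000000060000000e0000000e0000000f0000003c00000018 6 6) 0 0 (step_sound _ 161 [(rh6f1cbe15c631ee70.shift 1 1), rhd5ce515dd238c8f8] (by decide +kernel))
noncomputable def rh957cdce866de298f : CRef := CRef.mk (Pat.mk 0x10000000180000001c0000000c 0xec000000fc0000001f0000001f0000000c 6 8) 0 0 (step_sound _ 99 [rh08d15d6b7577ea1a, (rh5c5e593799055d58.shift 2 0)] (by decide +kernel))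
noncomputable def rhd1f1edd0c73a6f77 : CRef := CRef.mk (Pat.mk 0x10000000180000000c0000000c 0xe0000003f0000001f0000000c0000000c 6 6) 0 0 (step_sound _ 99 [(rh5c5e593799055d58.shift 2 0), rhdb562990d287f667] (by decide +kernel))
noncomputable def rhbdf95f3c485a348b : CRef := CRef.mk (Pat.mk 0x180000001c0000000c 0xe0000000f0000001b0000001f0000000c 6 5) 0 0 (step_sound _ 99 [rh4fb3082d08f8dd8a, (rh5c5e593799055d58.shift 2 0)] (by decide +kernel))
noncomputable def rha96af818de359c1a : CRef := CRef.mk (Pat.mk 0x8000000080000000e000000060000000000000000 0x160000001f0000007e0000000e0000000f0000001800000010 6 7) 0 0 (step_sound _ 132 [rh808d547c7e0a7ab6, (rh80f90a60d87caa0d.shift 1 3), (rh8cfe05f18b5615b1.shift 0 1)] (by decide +kernel))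
noncomputable def rh4995fc7a28037e80 : CRef := CRef.mk (Pat.mk 0x80000003c000000180000001000000000 0xe0000003c0000001c0000001f0000000f 6 6) 0 0 (step_sound _ 130 [(rh3244c3cc8379b070.shift 1 3), rh49c19d5e04bef9a6] (by decide +kernel))
noncomputable def rh1051338684e051f1 : CRef := CRef.mk (Pat.mk 0x3800000018000000000000000000000000 0xc0000002f0000003c000000180000001c0000001c0000001c 6 6) 0 0 (step_sound _ 68 [(rh3cb04db3dd2b6a55.shift 3 0), (rhb0c1e7919d9be92d.shift 3 0), rhfadfb915cb711078] (by decide +kernel))
noncomputable def rhcb52012f3bfca0e7 : CRef := CRef.mk (Pat.mk 0x800000000000000380000001800000010 0x200000007c000001e00000003f0000003800000010 6 9) 0 0 (step_sound _ 101 [(rh0df0e7db506e769f.shift 0 1), (rh69755ef358ebfd54.shift 4 0), (rh6a0d432b8da5b206.shift 2 1)] (by decide +kernel))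
noncomputable def rh0edba1266cd7c468 : CRef := CRef.mk (Pat.mk 0x3800000018000000080000000000000000 0xc0000002c00000038000000380000001f0000001400000010 6 6) 0 0 (step_sound _ 68 [(rh6b3bb66c895a6c10.shift 0 1), (rhb0c1e7919d9be92d.shift 3 0), (rhfb76b5b414952735.shift 3 1)] (by decide +kernel))
noncomputable def rh24228745fa22aa14 : CRef := CRef.mk (Pat.mk 0x8000000080000001c00000000 0x1c0000003c0000000f0000001c0000001c00000008 6 6) 0 0 (step_sound _ 131 [(rh2f6cd3183cec8379.shift 2 1), rh59c6c9d9132801ae] (by decide +kernel))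
noncomputable def rhe7039b60c5db921b : CRef := CRef.mk (Pat.mk 0x18000000180000000c0000000c00000000 0x20000003f0000001f0000000f0000001c00000010 6 6) 0 0 (step_sound _ 65 [rh16b76ab99baeda4b, (rh53b3c253cb0c65f4.shift 0 2)] (by decide +kernel))
noncomputable def rhbffd4221055bdc84 : CRef := CRef.mk (Pat.mk 0x8000000180000000c0000000400000000 0x160000001f0000001e0000000f0000000c00000008 6 5) 0 0 (step_sound _ 65 [rh46d807f6e271ad3d, (rh53b3c253cb0c65f4.shift 0 2)] (by decide +kernel))
noncomputable def rh090e536c80c4bdda : CRef := CRef.mk (Pat.mk 0x1e0000000a000000080000000000000000 0xa0000000b0000001e0000000e0000003f0000001700000001 6 6) 0 0 (step_sound _ 161 [(rh3244c3cc8379b070.shift 0 4), rhbe832dd0e678179a] (by decide +kernel))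
noncomputable def rh16456de3625fa6ce : CRef := CRef.mk (Pat.mk 0xf0000000500000000000000000 0x100000001f000000fe000000770000002000000020 6 8) 0 0 (step_sound _ 99 [(rh53eb6371c64e8c0d.shift 2 2), (rh70d33a5977aff97b.shift 2 0), (rh88c620441a3a17ea.shift 0 2), (rhd5eb272e07a4e288.shift 2 3)] (by decide +kernel))
noncomputable def rh0048578d99d3f53e : CRef := CRef.mk (Pat.mk 0x200000003000000020000000300000000000000000 0x30000000300000003f000001fe0000004f00000008 6 9) 0 0 (step_sound _ 70 [(rh55afc6a59410cf00.shift 5 1), rhd0eac2eab3a49309] (by decide +kernel))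
noncomputable def rhcd61223f8ca2975f : CRef := CRef.mk (Pat.mk 0x20000000a0000000300000001000000000000000000000000 0x50000000f0000001f0000000300000007000000060000000600000002 6 5) 0 0 (step_sound _ 164 [(rhb2a0b9ccfb5cecd5.shift 0 4), rhbd445e4fb413ccd5] (by decide +kernel))
noncomputable def rh61374aa91e2a6364 : CRef := CRef.mk (Pat.mk 0x8000000080000000c00000004000000000000000000000000 0x140000003c0000000f0000000f0000003c000000180000001800000018 6 6) 0 0 (step_sound _ 99 [(rh5ee4dc8825dcefa0.shift 0 2), (rh8ff3dde5b1c639e0.shift 2 1), (rhdd11e03a2f8b13b6.shift 2 0), (rhfe557af9112f51d6.shift 0 2)] (by decide +kernel))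
noncomputable def rha4a87044b427e9e6 : CRef := CRef.mk (Pat.mk 0x8000000080000000c0000000400000000 0x140000001e0000007c0000000f0000003c00000018 6 7) 0 0 (step_sound _ 100 [rh02f99bbc1f377c55, (rh0bb882ba86b2372d.shift 0 2), (rhf03d2d27d34cf817.shift 1 0)] (by decide +kernel))
noncomputable def rhd7971da1d4ab05d8 : CRef := CRef.mk (Pat.mk 0x800000038000000100000001800000000 0x40000001e0000003c0000001f0000001f00000004 6 6) 0 0 (step_sound _ 130 [rh443551ddd324c10d, (rhd8e93bbc8568df99.shift 1 3)] (by decide +kernel))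
noncomputable def rh76f0c8e87f70c7ce : CRef := CRef.mk (Pat.mk 0x80000003800000010000000080000000000000000 0x40000000f0000003c0000001e0000000c0000000c0000000c 6 6) 0 0 (step_sound _ 99 [(rh46530d756bdf8511.shift 2 0), (rhe4b1ebfeeae13b7b.shift 1 1), (rhf7445aa7664b4cd2.shift 0 1)] (by decide +kernel))
noncomputable def rhfc3ddb351f92d57c : CRef := CRef.mk (Pat.mk 0xc0000001c000000080000000800000000 0x20000000f0000001c0000000f0000003c00000014 6 6) 0 0 (step_sound _ 36 [(rh55afc6a59410cf00.shift 3 0), rhce8cf937c2f79f00] (by decide +kernel))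
noncomputable def rh215877a1a3bba209 : CRef := CRef.mk (Pat.mk 0x10000000100000001e0000000200000000 0x6000000370000001f0000001e0000000600000006 6 6) 0 0 (step_sound _ 97 [rh12a658487e7da690, (rh3244c3cc8379b070.shift 0 2)] (by decide +kernel))
noncomputable def rh7acb273e489d9f09 : CRef := CRef.mk (Pat.mk 0x8000000080000000e0000000400000000 0x60000000f0000003c0000000e0000003c00000018 6 6) 0 0 (step_sound _ 35 [rh271fa525e6d3787d, (rh42afa1af9fffa0e1.shift 1 0)] (by decide +kernel))
noncomputable def rhd243b9b11655854f : CRef := CRef.mk (Pat.mk 0x800000008000000080000000400000000 0x140000003c0000000f000000080000000c0000000c 6 6) 0 0 (step_sound _ 35 [rh5ee4dc8825dcefa0, (rh932754581e0f4330.shift 2 0)] (by decide +kernel))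
noncomputable def rh165688b39d91a6bb : CRef := CRef.mk (Pat.mk 0x1e000000180000000000000000 0xa0000000b0000001e0000001f0000003400000014 6 6) 0 0 (step_sound _ 65 [rhdb8919f0fe688407, (rheb0810cc63b001d8.shift 0 2)] (by decide +kernel))
noncomputable def rh787bd74571696212 : CRef := CRef.mk (Pat.mk 0x1a0000000e000000000000000000000000 0xe0000000f0000001a0000000e0000000e0000000400000004 6 5) 0 0 (step_sound _ 66 [(rh3077540e42cd79dc.shift 0 2), (rhade0f4c81793f68e.shift 1 0), (rhcf80391c5046a495.shift 2 0)] (by decide +kernel))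
noncomputable def rhd42708f73eb32aab : CRef := CRef.mk (Pat.mk 0x100000001a0000000c000000000000000000000000 0xa0000001f0000001b0000000f0000000e0000000400000004 6 5) 0 0 (step_sound _ 97 [rh18a5fcc8c0135054, (rh53b3c253cb0c65f4.shift 0 3)] (by decide +kernel))
noncomputable def rh3411daa15b6aaec6 : CRef := CRef.mk (Pat.mk 0x700000006000000030000000000000000 0x10000000700000006000000070000001f0000001d 6 5) 0 0 (step_sound _ 33 [(rh50fbb5868c909700.shift 0 1), rh59a8450f63fdff62] (by decide +kernel))
noncomputable def rhb90bbf6b81b548c9 : CRef := CRef.mk (Pat.mk 0x1800000018000000080000000c00000000 0x40000001c000000180000003e0000007f00000030 6 7) 0 0 (step_sound _ 36 [(rh55afc6a59410cf00.shift 3 0), rhc1b4f88904a306e9] (by decide +kernel))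
noncomputable def rhde4c2e51f3d680f0 : CRef := CRef.mk (Pat.mk 0x180000001e000000000000000800000000 0x180000003e000000170000003c0000001c 6 6) 0 0 (step_sound _ 65 [(rhde654f192f78c1d2.shift 1 0), (rheb0810cc63b001d8.shift 0 2)] (by decide +kernel))
noncomputable def rh6c1b4388fe2cd851 : CRef := CRef.mk (Pat.mk 0x80000000c0000000c000000000000000000000000 0x80000000c0000001f0000007c0000001c0000000c 6 7) 0 0 (step_sound _ 34 [rh01716bff61dc89e3, (rh9e3edb185cc347de.shift 2 1)] (by decide +kernel))
noncomputable def rh292609265646204c : CRef := CRef.mk (Pat.mk 0x100000001800000018000000000000000000000000 0x300000001f0000001c000000f80000003800000038 6 8) 0 0 (step_sound _ 130 [(rh34517e326ddb5b25.shift 0 3), (rh8559b8298a4b3c38.shift 2 0)] (by decide +kernel))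
noncomputable def rh5629239feb97069a : CRef := CRef.mk (Pat.mk 0x1e0000001a0000000000000000 0x400000006000000070000001e0000001e0000000f0000000e 6 5) 0 0 (step_sound _ 129 [(rh3244c3cc8379b070.shift 0 3), rh5b9a0f4f94121591] (by decide +kernel))
noncomputable def rh40e12b7f1fab7a7a : CRef := CRef.mk (Pat.mk 0x1c00000038000000080000000000000000 0x1c0000003f0000007f0000000600000006 6 7) 0 0 (step_sound _ 98 [(rh85c0b598b01483fb.shift 1 0), (rhcc2be1f880c5ea3e.shift 0 2), (rhf56dc6c929980f59.shift 0 2)] (by decide +kernel))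
noncomputable def rhf2f4cc2e6c45f090 : CRef := CRef.mk (Pat.mk 0x20000001e0000001a0000000000000000 0x180000001c000000360000001e0000001e0000000300000003 6 6) 0 0 (step_sound _ 132 [rh07bd8a7e6471476a, (rh33e738c4ed385b9f.shift 1 3)] (by decide +kernel))
noncomputable def rh4a02c07793363ecd : CRef := CRef.mk (Pat.mk 0x1c00000018000000000000000000000000 0x10000000100000001c0000007f000000770000002000000020 6 7) 0 0 (step_sound _ 101 [rh38e9b2b287d8d5ac, (rhf48373e13d2bc128.shift 2 3)] (by decide +kernel))
noncomputable def rh08abff04cb81ee34 : CRef := CRef.mk (Pat.mk 0x8000000180000000800000000 0x140000001c0000003c0000000f000000180000001c0000000c 6 6) 0 0 (step_sound _ 131 [(rh00b80ab7bd129302.shift 2 0), (rh3da62da861143b9a.shift 2 1), rh5ee4dc8825dcefa0] (by decide +kernel))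
noncomputable def rh2a06ad0ad7900043 : CRef := CRef.mk (Pat.mk 0xc00000008000000180000001800000000 0xc0000000c0000001f0000003f00000007 6 6) 0 0 (step_sound _ 34 [(rh932754581e0f4330.shift 2 0), rhbca22981d3151c8c] (by decide +kernel))
noncomputable def rhe4e2853fe0f31065 : CRef := CRef.mk (Pat.mk 0x20000000400000004000000040000000000000000 0x60000000600000004000000070000003e0000000a 6 6) 0 0 (step_sound _ 34 [rhe81dfc0a63bb579e, (rhffd04209dc8ea796.shift 1 1)] (by decide +kernel))
noncomputable def rh952c0a1819cb068e : CRef := CRef.mk (Pat.mk 0xc00000018000000080000001800000000 0x20000000f0000001c0000000f0000003c0000000c 6 6) 0 0 (step_sound _ 34 [rh92f68c9cec1358a6, (rh932754581e0f4330.shift 2 0)] (by decide +kernel))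
noncomputable def rh536b459816461d68 : CRef := CRef.mk (Pat.mk 0x20000000200000002000000000000000000000000 0x100000003000000030000000200000007000000070000000700000005 6 3) 0 0 (step_sound _ 65 [rh2626bf2cd7609b56, (rh5abfc4c9d959be03.shift 0 1), (rh771d065bdc85bf2d.shift 0 1), (rhc4ec57a3756c3a6c.shift 0 1)] (by decide +kernel))
noncomputable def rha8c4e2bd8a83035f : CRef := CRef.mk (Pat.mk 0x80000001a0000001c 0x30000000300000003f0000001e0000003c 6 6) 0 0 (step_sound _ 34 [rhd283a685d2618d5b, (rhf48373e13d2bc128.shift 1 0)] (by decide +kernel))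
noncomputable def rhf7e9f7382d186f96 : CRef := CRef.mk (Pat.mk 0x180000000c000000000000000000000000 0x80000001c000000ff000000370000001000000010 6 8) 0 0 (step_sound _ 97 [(rh53b3c253cb0c65f4.shift 0 3), rh7a6e8d40f87384b7] (by decide +kernel))
noncomputable def rhdfa5e0df05b1d145 : CRef := CRef.mk (Pat.mk 0x1a0000000600000002 0x10000000700000007000000070000001e0000000600000002 6 5) 0 0 (step_sound _ 97 [rh149cef5e083db7fb, rh35c5f1c53251aa1b, rh5e05da03898e7023, rhc85cc95794737cf7] (by decide +kernel))
noncomputable def rhc992e8778e90e386 : CRef := CRef.mk (Pat.mk 0x800000018000000080000000800000000 0x1800000018000000180000000f0000003c00000014 6 6) 0 0 (step_sound _ 132 [(rh2f68792b6b779e96.shift 3 1), rhf1a8127573b72831] (by decide +kernel))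
noncomputable def rhbdede0250b3f68c4 : CRef := CRef.mk (Pat.mk 0x30000000040000000400000004000000000000000000000000 0xa0000001e0000003600000004000000060000003e0000000f0000000a00000002 6 6) 0 0 (step_sound _ 65 [(rh3743dbe66b959104.shift 1 0), (rh544d3caba1e1e2bb.shift 1 0), (rh6ef020bad9500726.shift 1 2), (rh86aa94d7c0c1e10d.shift 0 1)] (by decide +kernel))
noncomputable def rhe4f18f348db65b80 : CRef := CRef.mk (Pat.mk 0x4000000000000000e00000002 0x400000006000000070000003e00000076 6 7) 0 0 (step_sound _ 130 [(rh3c88ce959c0e423f.shift 1 0), rh6f940788225ad31f] (by decide +kernel))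
noncomputable def rh8c1c0aaacb9bc91a : CRef := CRef.mk (Pat.mk 0x4000000180000000e000000020000000000000000 0x2000000070000001f000000fe000000760000000600000004 6 8) 0 0 (step_sound _ 100 [(rh28f05ee6149ea5f2.shift 0 1), (rh76c4edc656936505.shift 1 2), rhe30aa3fc1732ba53] (by decide +kernel))
noncomputable def rh6df6fdbd3ea74d09 : CRef := CRef.mk (Pat.mk 0x4000000180000000e0000000200000000 0x7000000070000001b000000fe000000e600000006 6 8) 0 0 (step_sound _ 97 [(rh4dec404a6c0e229a.shift 1 0), (rh7e4deef4d82b6307.shift 0 1), rh9edfad969ef34b1f] (by decide +kernel))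
noncomputable def rhf9a7b81f921d0ea9 : CRef := CRef.mk (Pat.mk 0x80000000e0000000200000002000000000000000000000000 0x1000000030000000b0000000e0000000700000007000000070000000700000001 6 4) 0 0 (step_sound _ 64 [(rh008016032b58ffa9.shift 0 1), (rh22fed74339665de5.shift 0 1), rh544d3caba1e1e2bb, (rhe16036ff578a11df.shift 0 2)] (by decide +kernel))
noncomputable def rh1bc186178822409c : CRef := CRef.mk (Pat.mk 0xa0000001a0000000c00000000 0xc0000000c0000000c0000001f0000001b0000000c00000004 6 5) 0 0 (step_sound _ 98 [rh88c815b0af71dbd9, (rhb739f4f82bb681b4.shift 0 2)] (by decide +kernel))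
noncomputable def rhea2a3bb38849eba2 : CRef := CRef.mk (Pat.mk 0x80000006800000028000000000000000000000000 0x10000000140000003c0000003f0000006c000000280000000c0000000c00000004 6 7) 0 0 (step_sound _ 196 [(rh09801475d705d836.shift 3 2), (rh11b43ff7770a4f1a.shift 2 2), (rh1725eba4bd36066a.shift 2 0), (rh22d86f446f3de558.shift 0 2), (rhe3eb073ac1aea888.shift 2 3)] (by decide +kernel))
noncomputable def rh2e26d760543bfba2 : CRef := CRef.mk (Pat.mk 0x18000000080000000800000008 0xe40000007e000000ff0000000800000008 6 8) 0 0 (step_sound _ 98 [(rh50fbb5868c909700.shift 2 0), (rh66b3ed115746f627.shift 0 2)] (by decide +kernel))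
noncomputable def rhd9021519dbdedff4 : CRef := CRef.mk (Pat.mk 0x3000000180000000600000000 0x50000000700000007000000030000001e0000000600000004 6 5) 0 0 (step_sound _ 65 [rh14e0829dc73b6804, (rh5419adcd928dba20.shift 0 2)] (by decide +kernel))
noncomputable def rh8affd0201b09ed09 : CRef := CRef.mk (Pat.mk 0xa0000001800000002000000000000000000000000 0x10000000f0000001f00000002000000030000000300000001 6 5) 0 0 (step_sound _ 160 [(rhc10214bf3fe8094a.shift 0 4), rhf1bb73b92594d85b] (by decide +kernel))
noncomputable def rhb7ab1be108d9773c : CRef := CRef.mk (Pat.mk 0x14000000300000001c000000000000000000000000 0x80000000a0000000f0000001e000000340000001c0000000f0000000a00000008 6 6) 0 0 (step_sound _ 163 [rh89fe1d4ff4de83ec, (rhb739f4f82bb681b4.shift 1 4)] (by decide +kernel))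
noncomputable def rh4d77df3f69a32479 : CRef := CRef.mk (Pat.mk 0xa000000180000000e000000000000000000000000 0x10000000330000001e0000001e0000000e000000060000000400000004 6 6) 0 0 (step_sound _ 66 [(rh016cdad10fac5d9c.shift 0 2), (rhce88038d11f24fde.shift 1 0), (rhf9af042da61fc652.shift 2 0)] (by decide +kernel))
noncomputable def rh83e0b68a1db901b1 : CRef := CRef.mk (Pat.mk 0xc0000000e000000000000000000000000 0x4000000040000000f0000007e000000730000000200000002 6 7) 0 0 (step_sound _ 100 [(rh7d1513f5e0dc9931.shift 0 2), rh88129595a1b18399, (rhe3060b190bc0bc78.shift 0 3)] (by decide +kernel))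
noncomputable def rh2e585ef8a40d4019 : CRef := CRef.mk (Pat.mk 0x200000006000000070000000000000000 0xc0000000c0000000e000000060000000f0000003c0000000c 6 6) 0 0 (step_sound _ 34 [rh24676cbc4f786d14, (rh7b1f1fb55310c477.shift 1 0)] (by decide +kernel))
noncomputable def rh4ff9e934a1040195 : CRef := CRef.mk (Pat.mk 0xc0000000e0000000000000000 0xc0000000c0000000f0000003e0000003800000018 6 6) 0 0 (step_sound _ 68 [(rhe3060b190bc0bc78.shift 0 2), (rhf58d8e840e8c47e3.shift 1 0)] (by decide +kernel))
noncomputable def rha4666164837ebbed : CRef := CRef.mk (Pat.mk 0x4000000060000000c00000000 0x80000000e0000000f0000003c0000000e0000000e00000004 6 6) 0 0 (step_sound _ 130 [rh305945700f20b255, (rh769be3fe24eee174.shift 1 1), (rh85a605aac6183f28.shift 1 1)] (by decide +kernel))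
noncomputable def rheb06b56db219f4c6 : CRef := CRef.mk (Pat.mk 0x200000003000000060000000600000000 0xc0000001e00000007000000070000003e00000008 6 6) 0 0 (step_sound _ 130 [(rh2f68792b6b779e96.shift 1 1), rhab1645d3db667ad9] (by decide +kernel))
noncomputable def rh9174eae91ea9faf8 : CRef := CRef.mk (Pat.mk 0x2000000020000000600000002000000000000000000000000 0x400000006000000060000000600000006000000070000000300000003 6 3) 0 0 (step_sound _ 98 [(rh55afc6a59410cf00.shift 1 2), rh946fbe1ddfc14810] (by decide +kernel))
noncomputable def rh32e4382af431e69f : CRef := CRef.mk (Pat.mk 0xf800000010 0x18e000000fe00000037 6 9) 0 0 (step_sound _ 71 [(rh33e738c4ed385b9f.shift 4 1), rhc7e8e87a0b43237b] (by decide +kernel))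
noncomputable def rh399ed785045a9621 : CRef := CRef.mk (Pat.mk 0x1e000000120000000000000000 0x6000000070000001e0000001e0000000700000007 6 5) 0 0 (step_sound _ 129 [(rh3244c3cc8379b070.shift 0 3), rhded110ed8c960ef7] (by decide +kernel))
noncomputable def rhcce3c38bd8e0fcf5 : CRef := CRef.mk (Pat.mk 0x20000001e0000001a00000000 0x1f0000001f0000003a0000001e0000001e00000004 6 6) 0 0 (step_sound _ 100 [(rh33e738c4ed385b9f.shift 1 2), rha8a51b88046a8381] (by decide +kernel))
noncomputable def rhd302cb3782bc272a : CRef := CRef.mk (Pat.mk 0x2000000060000001a00000000000000000000000000000000 0x200000002000000060000001e0000000f000000070000000700000001 6 5) 0 0 (step_sound _ 97 [(rh1a8dbc25a5363993.shift 0 2), (rh5710f30ba40ee3ec.shift 0 2), rha52e1acf7ed5511e, (rhd630af2e39ca770f.shift 0 2)] (by decide +kernel))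
noncomputable def rh4bddccd4c658ff9c : CRef := CRef.mk (Pat.mk 0x1e000000000000000000000000 0x4000000370000003e000000030000000200000002 6 6) 0 0 (step_sound _ 132 [(rh33e738c4ed385b9f.shift 1 3), rh39b8dd00bfd24308] (by decide +kernel))
noncomputable def rh77eaed713e1bf287 : CRef := CRef.mk (Pat.mk 0x4000000070000000c00000008000000000000000000000000 0x80000003c0000000f0000000e0000000e000000060000000600000004 6 6) 0 0 (step_sound _ 195 [(rh284958ad31771189.shift 0 2), (rh572132728df34c43.shift 0 5), (rhbce0f12bd9296d97.shift 1 0)] (by decide +kernel))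
noncomputable def rh61d8e2f44a44b238 : CRef := CRef.mk (Pat.mk 0x1e00000010000000100000001000000000 0x30000001e00000014000000760000003e00000028 6 7) 0 0 (step_sound _ 35 [rh37c601ec378a0fc8, (rh932754581e0f4330.shift 3 0)] (by decide +kernel))
noncomputable def rh93810f0e564ccf83 : CRef := CRef.mk (Pat.mk 0x80000000e0000001800000010000000000000000000000000 0x10000000780000001e0000001e0000003f0000000e0000000e00000008 6 7) 0 0 (step_sound _ 66 [(rh02fc6c204d2df1c2.shift 0 1), (rh91424b9aa6f4515a.shift 1 2), (rhdf97dd955cd90ddd.shift 1 0), (rhf9582ff5662029e8.shift 2 2)] (by decide +kernel))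
noncomputable def rh73bc720268b1d9cc : CRef := CRef.mk (Pat.mk 0x1e00000018000000000000000000000000 0x2000000020000000b0000001e0000001f000000340000001000000010 6 6) 0 0 (step_sound _ 97 [rh6fe628e6bb6a3525, (rheb0810cc63b001d8.shift 0 3)] (by decide +kernel))
noncomputable def rh3f9f901c53591aea : CRef := CRef.mk (Pat.mk 0xe0000001a00000010000000100000000000000000 0x1000000030000001e0000001e000000330000001f0000000700000001 6 6) 0 0 (step_sound _ 97 [rh14df1ce3628a00a2, (rh56bb2513d081979b.shift 0 1), rh5c8c873042790be0, (rhbf14f049e425ac01.shift 0 3)] (by decide +kernel))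
noncomputable def rhfcd6360ab84cf7f3 : CRef := CRef.mk (Pat.mk 0x80000000e0000001a000000100000000000000000 0x10000000780000001e0000001e0000003b0000000f0000000e 6 7) 0 0 (step_sound _ 98 [rhaf36dd76c23255ac, (rhe25b0a99195a5d59.shift 1 2)] (by decide +kernel))
noncomputable def rhd231c2a275285ada : CRef := CRef.mk (Pat.mk 0x60000001e000000020000000000000000 0x60000001e0000003e0000000f00000007 6 6) 0 0 (step_sound _ 33 [(rh71222050f2c63a3a.shift 1 0), rhf46c78010ac0227d] (by decide +kernel))
noncomputable def rhf364ee22d55c9fe6 : CRef := CRef.mk (Pat.mk 0x1c00000038000000200000002000000000 0x40000001c0000003e0000003f0000006e0000000c 6 7) 0 0 (step_sound _ 67 [(rh40241bd608e5be1a.shift 2 0), rh59dd3c2f3f749df0] (by decide +kernel))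
noncomputable def rhc0a31e137d23e2bb : CRef := CRef.mk (Pat.mk 0x80000000e0000001a000000100000000000000000 0x80000000e0000001e0000003f0000000700000003 6 6) 0 0 (step_sound _ 98 [rh69c97e361bfcdb15, (rhe25b0a99195a5d59.shift 1 2)] (by decide +kernel))
noncomputable def rhb8f81924b57aafef : CRef := CRef.mk (Pat.mk 0xe0000001a0000000000000000 0x50000000700000007000000030000001e0000001b0000000f00000005 6 5) 0 0 (step_sound _ 129 [rh3f6896ff5702037c, (rhb5ba847c57864cbc.shift 0 1), (rhd9106766b9ff53c0.shift 0 2)] (by decide +kernel))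
noncomputable def rh83f828cadeee64b2 : CRef := CRef.mk (Pat.mk 0x6000000080000001c0000000000000000 0x60000007f0000007f0000000300000002 6 7) 0 0 (step_sound _ 98 [rh2f0e9c9ab520be2e, (rh525b1307409128b7.shift 1 2), (rhe2b63c00a3d7bb73.shift 0 2)] (by decide +kernel))
noncomputable def rhc395a336a968c380 : CRef := CRef.mk (Pat.mk 0xa0000003800000008000000000000000000000000 0x10000000180000001a0000000a0000003a0000001f000000060000000400000004 6 6) 0 0 (step_sound _ 98 [(rh57a06b43e72703e1.shift 2 2), rh8ff055ce628c134b, (rheea1a90336e79c71.shift 0 3)] (by decide +kernel))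
noncomputable def rh43fc124c0717bc1e : CRef := CRef.mk (Pat.mk 0xe000000180000000800000000000000000000000000000000 0x10000000180000001a0000000e0000001c0000001f0000000c0000001c0000001800000010 6 5) 0 0 (step_sound _ 98 [(rh6692864d249c2590.shift 2 0), (rhabb5f9e1a50ef2dd.shift 0 2), (rhf387e76ea145b531.shift 2 3)] (by decide +kernel))
noncomputable def rhf7f6d147c3b11c66 : CRef := CRef.mk (Pat.mk 0xe00000008000000080000000400000000 0xa0000000e0000000c0000000f0000003c00000018 6 6) 0 0 (step_sound _ 66 [(rh5c5e593799055d58.shift 2 1), rh8b24fb6e4eeb6db7] (by decide +kernel))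
noncomputable def rhd3397a4ecc834565 : CRef := CRef.mk (Pat.mk 0x60000000400000004000000000000000000000000 0x400000006000000060000003c0000000f0000000e0000000a 6 6) 0 0 (step_sound _ 66 [(rh7133a7a78d762f91.shift 0 1), (rha613ffd40b6c9d24.shift 1 0), (rhe4441baab75a6f73.shift 1 0)] (by decide +kernel))
noncomputable def rhbf889a3dd74656a1 : CRef := CRef.mk (Pat.mk 0xa0000003800000008000000000000000000000000 0x80000000a0000000a0000003a0000001f000000160000000400000004 6 6) 0 0 (step_sound _ 98 [rh8ff055ce628c134b, (rhbb339bb7e4e96b38.shift 2 2), (rhe37fd36562dd8e20.shift 0 2), (rheea1a90336e79c71.shift 0 3)] (by decide +kernel))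
noncomputable def rh7daca1c865c11ba6 : CRef := CRef.mk (Pat.mk 0x400000000000000100000003800000000 0x400000004000000fe000000ff00000007 6 8) 0 0 (step_sound _ 34 [rh846eed1434641323, (rhec46bd5500c722c9.shift 1 1), (rhfac487b7191118c9.shift 1 0)] (by decide +kernel))
noncomputable def rh91b04dc3bc5faef4 : CRef := CRef.mk (Pat.mk 0x300000002000000020000000000000000 0x400000006000000060000000300000007000000070000000700000007 6 3) 0 0 (step_sound _ 161 [(rh20966da26a1c2ae8.shift 0 1), rh2840436db7424bdf, rh8cdd36b03d57a2f6, (rhced6d86d2069808b.shift 1 1)] (by decide +kernel))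
noncomputable def rh222c63b80ed938e9 : CRef := CRef.mk (Pat.mk 0x8000000080000000e0000000800000000 0x160000001f0000003b0000000e0000000c00000004 6 6) 0 0 (step_sound _ 34 [(rh922ed1c4e0d2a3bb.shift 0 1), (rh932754581e0f4330.shift 2 0)] (by decide +kernel))
noncomputable def rh2a8cdf535ecbcf7d : CRef := CRef.mk (Pat.mk 0x1e0000001a00000000000000000000000000000000 0x200000002000000030000001e0000001e00000007000000070000000700000004 6 5) 0 0 (step_sound _ 193 [(rh3244c3cc8379b070.shift 0 5), rhee299fef33b323a9] (by decide +kernel))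
noncomputable def rh07abf7355862b294 : CRef := CRef.mk (Pat.mk 0x1e0000001a000000000000000000000000 0x50000000700000007000000030000001e0000001e000000070000000700000005 6 5) 0 0 (step_sound _ 161 [(rh3244c3cc8379b070.shift 0 4), rh8874a68efa090777] (by decide +kernel))
noncomputable def rha9e55a93ae242e0c : CRef := CRef.mk (Pat.mk 0xf00000004000000040000000000000000 0x400000004000000040000000f0000001c0000000e0000000600000006 6 5) 0 0 (step_sound _ 99 [(rh4f4c4c1027c971e0.shift 1 0), (rhe25b0a99195a5d59.shift 0 3)] (by decide +kernel))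
noncomputable def rh7aa5145c880b4a70 : CRef := CRef.mk (Pat.mk 0x20000000a0000000a000000080000000000000000 0xa0000000a0000000a0000003f0000001f00000015 6 6) 0 0 (step_sound _ 34 [(rh4020ef0ffe567459.shift 1 1), rh9284d38f8133d700, rhac4b4763407a46df] (by decide +kernel))
noncomputable def rhd9d254896b6b8474 : CRef := CRef.mk (Pat.mk 0x3c00000030000000100000001000000000 0x60000003c000000360000003f0000003f0000002f 6 6) 0 0 (step_sound _ 35 [rh3e436022c2e556fc, (rh932754581e0f4330.shift 3 0)] (by decide +kernel))
noncomputable def rh336d97b5541cdb7c : CRef := CRef.mk (Pat.mk 0x1c00000010000000100000001000000000 0x360000003c000000340000001f0000001800000008 6 6) 0 0 (step_sound _ 35 [(rh1a6e2fc4c2d16788.shift 0 1), (rh932754581e0f4330.shift 3 0)] (by decide +kernel))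
noncomputable def rh536313be0f9243b5 : CRef := CRef.mk (Pat.mk 0x60000000400000004000000000000000000000000 0x400000006000000060000003c0000000f0000000e0000000a 6 6) 0 0 (step_sound _ 66 [(rha613ffd40b6c9d24.shift 1 0), (rhac13d16ea91712e4.shift 0 1), (rhe4441baab75a6f73.shift 1 0)] (by decide +kernel))
noncomputable def rhc8496c73ece69751 : CRef := CRef.mk (Pat.mk 0xc0000000c000000080000000c00000000 0x100000001c0000000f0000007e0000001f00000002 6 7) 0 0 (step_sound _ 132 [(rh2f68792b6b779e96.shift 3 1), rha5f2a9fea75e94ba] (by decide +kernel))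
noncomputable def rh34484bb08175b38c : CRef := CRef.mk (Pat.mk 0xc00000008000000080000001c00000000 0x100000001c0000000c0000003f0000003f00000003 6 6) 0 0 (step_sound _ 132 [(rh2f68792b6b779e96.shift 3 1), rh3e50a038ba7d8ed0] (by decide +kernel))
noncomputable def rh0dcef456e2ae223c : CRef := CRef.mk (Pat.mk 0x80000000800000008000000080000000c0000000800000000 0x140000001c0000001c0000000800000008000000080000000f0000001800000010 6 5) 0 0 (step_sound _ 36 [(rh55afc6a59410cf00.shift 3 0), (rh7e3fd002aa70da8f.shift 0 1)] (by decide +kernel))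
noncomputable def rhd110c7c9670d8516 : CRef := CRef.mk (Pat.mk 0x100000002000000060000000200000000000000000000000000000000 0x100000007000000060000000200000002000000070000000700000005 6 3) 0 0 (step_sound _ 97 [rh1b9022be4f7af407, (rhffd04209dc8ea796.shift 0 3)] (by decide +kernel))
noncomputable def rhe7e896686a6bb765 : CRef := CRef.mk (Pat.mk 0x4000000040000000c0000000800000000 0x80000000c0000000c0000003e0000007f00000016 6 7) 0 0 (step_sound _ 34 [(rh22fa1117f605cb3f.shift 1 0), rha71afc656c87d410] (by decide +kernel))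
noncomputable def rh7ae66c9e45c17054 : CRef := CRef.mk (Pat.mk 0x800000008000000180000000000000000 0x10000000180000001800000018000000780000007e0000000f00000004 6 7) 0 0 (step_sound _ 164 [(rh08d50fe567eb1045.shift 3 1), (rh66769d3256397137.shift 1 1), rhccce7ec739887e81] (by decide +kernel))
noncomputable def rhd03a1d62a906c1c4 : CRef := CRef.mk (Pat.mk 0xc00000006000000040000000e00000000 0x100000003c0000000e0000003f0000003f00000010 6 6) 0 0 (step_sound _ 132 [(rh18965a982d73c794.shift 1 3), rh8dc8ef7ec7f835d2] (by decide +kernel))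
noncomputable def rhfdfb1053c4004326 : CRef := CRef.mk (Pat.mk 0xc00000008000000080000000c000000000000000000000000 0x80000000c0000001c0000003c0000000f000000080000000800000008 6 6) 0 0 (step_sound _ 130 [(rh5c5e593799055d58.shift 2 3), rh98fe03b4552f6a6d] (by decide +kernel))
noncomputable def rhfb6a81457d5304e0 : CRef := CRef.mk (Pat.mk 0x100000001c00000014000000000000000000000000 0x14000000140000001c0000001f0000000f0000000a00000002 6 5) 0 0 (step_sound _ 99 [(rh1e309b005ffa1b36.shift 3 1), rh8f7039354bfc4ec2] (by decide +kernel))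
noncomputable def rh93a4744a52e9c01c : CRef := CRef.mk (Pat.mk 0x100000001c000000140000000800000000 0x16000000160000003c0000001c0000000f00000002 6 6) 0 0 (step_sound _ 67 [(rh5c5e593799055d58.shift 3 1), rhee5b01ddcc81cea2] (by decide +kernel))
noncomputable def rh72a53ccab2fa8473 : CRef := CRef.mk (Pat.mk 0x100000001c000000000000000000000000 0x4000000370000003e000000030000000200000002 6 6) 0 0 (step_sound _ 97 [(rh33e738c4ed385b9f.shift 1 3), rhefd858cfdc5d2964] (by decide +kernel))
noncomputable def rh5c57ac78389e3187 : CRef := CRef.mk (Pat.mk 0x1c00000018000000080000000000000000 0x6000000060000003c0000001f0000000f0000000200000002 6 6) 0 0 (step_sound _ 98 [(rh4dc133ee0ba1420a.shift 0 3), rha0e4d5ff8ce6597a, (rhee5b01ddcc81cea2.shift 0 1)] (by decide +kernel))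
noncomputable def rh34bf6fc4773ea961 : CRef := CRef.mk (Pat.mk 0x80000000c00000008000000000000000000000000 0x10000000780000001f000000080000001c0000001c00000014 6 7) 0 0 (step_sound _ 164 [(rh1b9022be4f7af407.shift 2 0), (rh274a837cd7eaa569.shift 2 0), (rh69012675dfdb1a5b.shift 0 4)] (by decide +kernel))
noncomputable def rh3b7309ea13071c87 : CRef := CRef.mk (Pat.mk 0x1e00000002000000000000000400000000 0x330000001e00000002000000070000000700000005 6 6) 0 0 (step_sound _ 164 [(rh33e738c4ed385b9f.shift 1 4), rhed2257d4723009e0] (by decide +kernel))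
noncomputable def rhc6139ebce48a736d : CRef := CRef.mk (Pat.mk 0x400000002000000030000000200000000000000000000000000000000 0x400000006000000030000000300000003000000070000000700000004 6 3) 0 0 (step_sound _ 97 [rh89cf5152879421f3, (rhbaefcd01e0a8bca3.shift 1 3)] (by decide +kernel))
noncomputable def rh0dc57efc2516155e : CRef := CRef.mk (Pat.mk 0x600000003000000060000000200000000000000000000000000000000 0x1e00000003000000070000000600000007000000070000000700000004 6 5) 0 0 (step_sound _ 227 [(rh18965a982d73c794.shift 0 6), rh52be3046160229e9] (by decide +kernel))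
noncomputable def rh7a06040754dc7fdf : CRef := CRef.mk (Pat.mk 0x1e00000004000000040000000000000000 0x40000001e000000070000000e0000000e0000000e 6 5) 0 0 (step_sound _ 97 [(rh21ec48dd0948616f.shift 1 0), (rheb0810cc63b001d8.shift 0 3)] (by decide +kernel))
noncomputable def rh1ac771f043654656 : CRef := CRef.mk (Pat.mk 0x200000003c00000028000000080000000000000000 0xc0000002c0000003e0000002f0000007e0000007600000004 6 7) 0 0 (step_sound _ 68 [rh42be0d878a7406f4, (rh929a6d7e4f51e395.shift 3 1), (rh979bf0c0182ae827.shift 1 1), (rha5e04c769727c05c.shift 1 1)] (by decide +kernel))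
noncomputable def rhd19a5c56299c5470 : CRef := CRef.mk (Pat.mk 0xf000000020 0xe000000fe000001bf 6 9) 0 0 (step_sound _ 35 [(rh2921619f5029adb1.shift 1 0), rh2efad3051cff7df1, (rh86b7c0b083dc15c8.shift 1 0), (rheae1728ff4a56756.shift 2 0)] (by decide +kernel))
noncomputable def rhd563817defd8eec8 : CRef := CRef.mk (Pat.mk 0x200000001c000000000000000000000000 0x2000000330000003e000000070000000400000004 6 6) 0 0 (step_sound _ 97 [rh0cf480bf0f3cfd64, (rh428265de8cd3cd2d.shift 1 3)] (by decide +kernel))
noncomputable def rh21bd420074f29ccc : CRef := CRef.mk (Pat.mk 0x6000000020000000400000000 0x500000007000000070000000600000006000000060000000600000006 6 3) 0 0 (step_sound _ 129 [(rh390a8df03c6c5a62.shift 1 0), (rh8f4050c06a082165.shift 1 0), (rhba97f7f4ade5e136.shift 0 1)] (by decide +kernel))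
noncomputable def rhed02fdedf28f576e : CRef := CRef.mk (Pat.mk 0x180000000c00000010000000000000000000000000 0x140000001c0000001c000000180000000c000000780000001f0000001400000010 6 7) 0 0 (step_sound _ 99 [(rh215e11e099257d75.shift 3 2), (rh2ae9b26091ae7592.shift 0 1), (rh70e33bfdf511e144.shift 3 0), (rhe8f9550119ab603c.shift 3 1), (rhfb9fb48a5e63ed80.shift 2 2)] (by decide +kernel))
noncomputable def rh531376a1ff80a61c : CRef := CRef.mk (Pat.mk 0x100000001c000000000000000000000000 0x18000000180000001f0000003f000000700000003000000020 6 7) 0 0 (step_sound _ 129 [(rh15b4c7f64ffd8e41.shift 0 3), (rh9bdd97b56ac4cd22.shift 0 1), (rhc64669d5d47baf59.shift 1 0)] (by decide +kernel))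
noncomputable def rhaf7efdf73b7dab8e : CRef := CRef.mk (Pat.mk 0x3c0000000c000000080000000800000000 0x3c0000006c0000003c0000001f00000017 6 7) 0 0 (step_sound _ 34 [rh6ab45e77d8eb4514, (rh932754581e0f4330.shift 2 0)] (by decide +kernel))
noncomputable def rhad0fc085c8ae8505 : CRef := CRef.mk (Pat.mk 0x38000000080000000800000000 0x1c0000001f0000003c0000000f0000000c00000004 6 6) 0 0 (step_sound _ 131 [(rh039efe07c35de3d4.shift 1 1), rh11a290682a49cce6, (rh53509d91ff78ed56.shift 0 1)] (by decide +kernel))
noncomputable def rhfdccb31c146e6f09 : CRef := CRef.mk (Pat.mk 0x40000000c000000380000000800000000 0x800000018000000180000001c0000001c0000003c0000000f00000004 6 6) 0 0 (step_sound _ 34 [(rh1ed7a3503fa50fc8.shift 0 1), (rhd26de72c9c0fab4b.shift 2 0), (rhe2659a108a30dabb.shift 2 0)] (by decide +kernel))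
noncomputable def rh1db85feadd1419c7 : CRef := CRef.mk (Pat.mk 0xc000000180000007000000000 0x280000007c0000002f000000780000007000000040 6 7) 0 0 (step_sound _ 69 [rhe2acccda336fd16c, (rhf48373e13d2bc128.shift 2 2)] (by decide +kernel))
noncomputable def rh01ce503243c280c1 : CRef := CRef.mk (Pat.mk 0x3000000060000001c00000000 0x1e0000001e0000000f0000001e0000001c00000010 6 5) 0 0 (step_sound _ 67 [rhc062547b86609067, (rhf48373e13d2bc128.shift 0 2)] (by decide +kernel))
noncomputable def rh967c26fd716e95a8 : CRef := CRef.mk (Pat.mk 0xe0000001800000010 0x1c0000001c000000ff000000fe0000001b00000012 6 8) 0 0 (step_sound _ 68 [(rh36095876875a1ad2.shift 0 1), rh44dd78dd79fc4e0b, (rhd2f04bd8cfbf81b3.shift 1 0)] (by decide +kernel))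
noncomputable def rh2d029b7490692967 : CRef := CRef.mk (Pat.mk 0x200000006000000020000000200000000 0x40000000700000007000000070000000600000006000000020000000300000001 6 3) 0 0 (step_sound _ 32 [rh932754581e0f4330, (rhd89aece9dac39914.shift 0 1)] (by decide +kernel))
noncomputable def rh508cf7b83591fafe : CRef := CRef.mk (Pat.mk 0x1c000000000000000000000000 0x20000000f80000003e000000770000001000000010 6 8) 0 0 (step_sound _ 133 [(rh834ef1c974e4840e.shift 1 0), (rh90fcc1b0fe0017ad.shift 1 3), (rhb85d2033d50567b5.shift 0 2), (rhba3fefaa894766da.shift 2 3)] (by decide +kernel))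
noncomputable def rhdb416bc3effdda7a : CRef := CRef.mk (Pat.mk 0x1e0000000000000000 0x8000000080000003b0000001f0000003000000010 6 6) 0 0 (step_sound _ 97 [rh2fa8a6cd8a03c75c, (rh3244c3cc8379b070.shift 0 2)] (by decide +kernel))
noncomputable def rh7b914b4d17019098 : CRef := CRef.mk (Pat.mk 0x20000000300000002000000000000000000000000 0x40000000700000007000000030000000300000003000000070000000700000005 6 3) 0 0 (step_sound _ 193 [(rh79e70552f96217b9.shift 0 3), rh9e174856810c5f95] (by decide +kernel))
noncomputable def rh7074c509649dda25 : CRef := CRef.mk (Pat.mk 0x1c0000000800000030 0x20000000600000007f0000007f00000030 6 7) 0 0 (step_sound _ 36 [(rh29b1d96689613142.shift 1 0), (rh6292bd8784ece55f.shift 1 1), rhace16348de435294] (by decide +kernel))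
noncomputable def rh03a334a9493a1b22 : CRef := CRef.mk (Pat.mk 0x80000000c000000040000001c00000000 0x60000000f0000003c0000000f0000001c00000010 6 6) 0 0 (step_sound _ 67 [(rh29572a3c0c1f3a32.shift 0 1), (rh55afc6a59410cf00.shift 3 0)] (by decide +kernel))
noncomputable def rh4bcd8f4624a9ed68 : CRef := CRef.mk (Pat.mk 0x100000002000000020000000600000000000000000000000000000000 0x100000003000000060000000600000003000000070000000700000004 6 3) 0 0 (step_sound _ 97 [rh248a87c7370a10b9, (rhffd04209dc8ea796.shift 0 3)] (by decide +kernel))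
noncomputable def rh58883927da1fd3ed : CRef := CRef.mk (Pat.mk 0x400000007000000140000000000000000 0x8000000080000001a0000003e00000017000000140000001400000004 6 6) 0 0 (step_sound _ 131 [(rh000637b5a81e86aa.shift 1 0), (rh80f90a60d87caa0d.shift 0 3), (rhb3de2b4a5511b94a.shift 1 1)] (by decide +kernel))
noncomputable def rhfe7b6743425fbf51 : CRef := CRef.mk (Pat.mk 0x40000000e0000001c 0x30000000300000007f0000007e0000001c 6 7) 0 0 (step_sound _ 36 [(rh226655e3fe6b4a8a.shift 1 0), (rhb762f327c85d41a0.shift 1 0), rhbe218c4b64d0fb80] (by decide +kernel))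
noncomputable def rh0bf50f1ba706dfbb : CRef := CRef.mk (Pat.mk 0xc00000004000000040000001c00000000 0x120000007f0000003f0000000c0000001c00000010 6 7) 0 0 (step_sound _ 129 [rh316779fa70280f04, (rh50fbb5868c909700.shift 1 1)] (by decide +kernel))
noncomputable def rh8ef5cc14c86f766e : CRef := CRef.mk (Pat.mk 0xc00000004000000040000001400000000 0x3c0000007f000000360000001400000014 6 7) 0 0 (step_sound _ 99 [(rh71222050f2c63a3a.shift 2 0), rh8e08e9692487b39b] (by decide +kernel))
noncomputable def rh5371a9ff125f7805 : CRef := CRef.mk (Pat.mk 0x400000007000000140000000000000000 0x8000000080000000e0000003e00000017000000140000001400000004 6 6) 0 0 (step_sound _ 131 [(rh000637b5a81e86aa.shift 1 0), (rh3105794ef2f0e619.shift 1 1), (rh80f90a60d87caa0d.shift 0 3)] (by decide +kernel))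
noncomputable def rh2b4921d7d65a5cdf : CRef := CRef.mk (Pat.mk 0x200000002000000060000000200000000000000000000000000000000 0x10000000300000002000000060000000600000007000000070000000700000004 6 3) 0 0 (step_sound _ 224 [rh4e0a00af34735ff2, (rh50fbb5868c909700.shift 0 4)] (by decide +kernel))
noncomputable def rh943fed4b2f26fe17 : CRef := CRef.mk (Pat.mk 0x60000001c000000180000000800000000 0xa0000000e0000001f0000001c0000001f00000016 6 5) 0 0 (step_sound _ 97 [(rhb739f4f82bb681b4.shift 0 2), rhdb45db45d2f1520c] (by decide +kernel))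
noncomputable def rhf54f595c650c751c : CRef := CRef.mk (Pat.mk 0x38000000000000000000000000 0x40000001f0000007c000000ee0000000800000008 6 8) 0 0 (step_sound _ 130 [(rh15b4c7f64ffd8e41.shift 1 3), (rh40811da85268475d.shift 0 3), (rh8bb330ee5aea9f6b.shift 1 0), (rh8c12fdbbddc1e7ab.shift 0 3), (rh99c4f2cb47723b80.shift 1 2)] (by decide +kernel))
noncomputable def rhbfcde629ebb7f226 : CRef := CRef.mk (Pat.mk 0x6000000040000000e0000000600000000 0x380000003e000000360000001f0000003e00000004 6 6) 0 0 (step_sound _ 131 [(rh2f68792b6b779e96.shift 2 1), rh3d6748dee6669795] (by decide +kernel))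
noncomputable def rh239c77a27785e809 : CRef := CRef.mk (Pat.mk 0xe000000020000000a000000000000000000000000 0x10000000320000001f0000003e0000001f000000040000000400000004 6 6) 0 0 (step_sound _ 132 [(rh145d76ef68087b05.shift 0 3), (rh25e9f702f1c420f8.shift 0 3), (rh9395e33280d9cda1.shift 1 0)] (by decide +kernel))
noncomputable def rh041f17bd144d76bd : CRef := CRef.mk (Pat.mk 0x1000000018000000080000002800000000 0xc0000000c0000000c0000001800000018000000180000007e000000f7 6 8) 0 0 (step_sound _ 36 [rh334e342bd9da48dc, (rh4c0b5733d656b062.shift 1 0), (rh5efb70d687a431f8.shift 2 0), (rh9c5accf51f70f9a4.shift 2 0)] (by decide +kernel))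
noncomputable def rha81a8f9351dce681 : CRef := CRef.mk (Pat.mk 0x200000002000000030000000400000000 0x400000007000000070000000300000003000000030000000600000004 6 3) 0 0 (step_sound _ 33 [(rh55afc6a59410cf00.shift 1 0), (rh69f0587a21bb077f.shift 0 1)] (by decide +kernel))
noncomputable def rhafe3773349343285 : CRef := CRef.mk (Pat.mk 0x2000000060000000200000002000000000000000000000000 0x100000003000000070000000600000006000000070000000300000001 6 3) 0 0 (step_sound _ 98 [(rh55afc6a59410cf00.shift 1 2), rh62e05db1b73ac916] (by decide +kernel))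
noncomputable def rheb1522bc5533b969 : CRef := CRef.mk (Pat.mk 0x380000000000000000 0x8000000080000000f0000007e0000007700000004 6 7) 0 0 (step_sound _ 66 [(rh0d378fd9e8917c5a.shift 0 1), (rh185f35b8bd8ec37f.shift 0 1), (rh43dc67402634d54f.shift 1 0)] (by decide +kernel))
noncomputable def rh9c7c89bed7c21dd7 : CRef := CRef.mk (Pat.mk 0xc000000180000000c0000000800000000000000000000000000000000 0xf000000180000001c0000000c0000000c0000001c0000001c00000010 6 5) 0 0 (step_sound _ 225 [(rh889ca84faf480060.shift 2 0), (rhb739f4f82bb681b4.shift 0 6)] (by decide +kernel))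
noncomputable def rh301f1d1e45f49dfc : CRef := CRef.mk (Pat.mk 0x2000000030000000e0000000200000000 0xd0000001f0000001b0000000e0000000600000004 6 5) 0 0 (step_sound _ 130 [(rh2f68792b6b779e96.shift 1 1), rh5701b20fd9176727] (by decide +kernel))
noncomputable def rh95db920f843d9a42 : CRef := CRef.mk (Pat.mk 0x4000000040000001c0000000400000000 0x1a0000003e000000370000001c0000000c00000008 6 6) 0 0 (step_sound _ 35 [(rh18833f4945ec6b8e.shift 0 1), (rh55afc6a59410cf00.shift 2 0)] (by decide +kernel))
noncomputable def rhbe3a0307df134d82 : CRef := CRef.mk (Pat.mk 0x4000000040000001c00000008000000000000000000000000 0x80000000c0000000c0000003c0000000f000000060000000600000006 6 6) 0 0 (step_sound _ 98 [(rh4dc133ee0ba1420a.shift 0 3), (rh946fbe1ddfc14810.shift 1 0)] (by decide +kernel))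
noncomputable def rh8460eb502a58a198 : CRef := CRef.mk (Pat.mk 0x2000000060000000200000002 0x400000007000000070000000700000006000000060000000200000002 6 3) 0 0 (step_sound _ 129 [(rh1741680720c097b4.shift 0 1), (rh44f453b84f013105.shift 1 0), (rh5a26a7d31d0f2e10.shift 0 1), rhb67cb32759fb664f] (by decide +kernel))
noncomputable def rh248ba068e4157087 : CRef := CRef.mk (Pat.mk 0x600000006000000010000000300000000 0x4000000060000000e0000001b0000001f0000001c 6 5) 0 0 (step_sound _ 65 [(rh2f68792b6b779e96.shift 1 1), rh87d485692c6d158b] (by decide +kernel))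
noncomputable def rh7138ef1aa5ce54f0 : CRef := CRef.mk (Pat.mk 0x1c00000004000000040000000800000000 0x140000001c0000000c0000001f0000007800000010 6 7) 0 0 (step_sound _ 67 [(rh2145e1d24b96a57e.shift 2 1), rh3898390db5fb7e6a] (by decide +kernel))
noncomputable def rhf75ea05cf792f6ab : CRef := CRef.mk (Pat.mk 0x200000006000000030000000200000000 0x40000000600000006000000070000001f0000001d 6 5) 0 0 (step_sound _ 34 [(rh55afc6a59410cf00.shift 1 0), rhf22d9deb3ad9aff0] (by decide +kernel))
noncomputable def rh47b2f1c5c9d80d18 : CRef := CRef.mk (Pat.mk 0x20000000200000006000000020000000200000000 0x40000000700000007000000030000000600000006000000020000000300000001 6 3) 0 0 (step_sound _ 32 [(rh64bc0dab78a08b48.shift 0 2), rh932754581e0f4330] (by decide +kernel))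
noncomputable def rhdca1a5b980ca5325 : CRef := CRef.mk (Pat.mk 0x40000001e00000000 0x600000007000000070000003f0000001e00000003 6 6) 0 0 (step_sound _ 65 [(rh3244c3cc8379b070.shift 0 1), rh897cccfc662b4d97] (by decide +kernel))
noncomputable def rh6e0941ccd1ab3252 : CRef := CRef.mk (Pat.mk 0x4000000040000000c0000000c 0x1a0000003f0000003f0000000c0000000c 6 6) 0 0 (step_sound _ 99 [(rh2f68792b6b779e96.shift 2 0), rhfb291fac4cfbfd46] (by decide +kernel))
noncomputable def rh97e6c2331b3e7b97 : CRef := CRef.mk (Pat.mk 0x1e00000008 0xe3000000fe000001f8 6 9) 0 0 (step_sound _ 65 [(rh3244c3cc8379b070.shift 0 1), (rhe17348fd73e0781b.shift 1 0)] (by decide +kernel))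
noncomputable def rh084c67c001a79fc0 : CRef := CRef.mk (Pat.mk 0x80000000c000000080000000c0000000000000000 0x80000000c0000003f0000003f0000001300000002 6 6) 0 0 (step_sound _ 68 [(rh55afc6a59410cf00.shift 3 1), rh75b8e63c7ce93dc2] (by decide +kernel))
noncomputable def rh67a9dbdf12fd5db7 : CRef := CRef.mk (Pat.mk 0x80000000c000000080000000800000000000000000000000000000000 0x80000000c0000007c0000001f0000000c0000001c0000001c00000014 6 7) 0 0 (step_sound _ 99 [rh2b652555cdbfcf59, (rh7928877f9bf74a91.shift 2 2), (rhc05d451ce3dd5e48.shift 2 0)] (by decide +kernel))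
noncomputable def rh3e4990bf326add1a : CRef := CRef.mk (Pat.mk 0x200000003000000020000000200000000000000000000000000000000 0x200000003000000070000000600000006000000070000000700000005 6 3) 0 0 (step_sound _ 97 [rha6e4ed44f7b6a7de, rhc05d451ce3dd5e48, (rhd29a1fb688eae70f.shift 1 2), rhe880c8eb626b6670] (by decide +kernel))
noncomputable def rhaa726c25e33d80d8 : CRef := CRef.mk (Pat.mk 0xe00000018000000000000000000000000 0x400000077000000fe0000001f000000030000000300000002 6 8) 0 0 (step_sound _ 132 [rh38944da09e6b0442, (rh40635836353d44db.shift 0 3), (rh9ef3e32da0a3dd82.shift 0 3), (rhafa8ad03fb07c74b.shift 0 1), (rhb18e6c78a554867d.shift 0 4)] (by decide +kernel))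
noncomputable def rh3bfd4a7b99f4c090 : CRef := CRef.mk (Pat.mk 0x1800000070000000000000002000000020 0x6000000060000001fc000001f80000007f000000c70000006000000020 6 9) 0 0 (step_sound _ 134 [(rh125e5fc82c000abb.shift 2 0), rh6eb544d41e180c4d, (rh7e103d6836dd7d51.shift 0 2), (rh8fba37a232e728fc.shift 3 0)] (by decide +kernel))
noncomputable def rh9adf26149cd3da8c : CRef := CRef.mk (Pat.mk 0x800000008000000180000001000000000 0x140000001e00000078000000380000001f0000000c 6 7) 0 0 (step_sound _ 35 [(rh305945700f20b255.shift 1 0), rh3233f5ce9eefd643, rh6fae963f33cfdfd7] (by decide +kernel))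
noncomputable def rhdb466f1d0808608b : CRef := CRef.mk (Pat.mk 0x600000004000000060000000c00000000 0xc0000000f0000003c0000000e0000003c00000010 6 6) 0 0 (step_sound _ 131 [rh1e996525357a5a4d, (rh2f68792b6b779e96.shift 2 1)] (by decide +kernel))
noncomputable def rhc6d4f4be371c18bb : CRef := CRef.mk (Pat.mk 0x180000000c000000080000001800000000 0x20000000780000001c000001f8000000ff000001e4 6 9) 0 0 (step_sound _ 34 [(rh932754581e0f4330.shift 2 0), rhab7df5b5c1c536ae] (by decide +kernel))
noncomputable def rh2d6c92ff65c1169c : CRef := CRef.mk (Pat.mk 0x200000002000000030000000200000000 0x60000000600000006000000070000001e0000000e 6 5) 0 0 (step_sound _ 130 [(rh2f68792b6b779e96.shift 1 1), rh37c9b24804160eb7] (by decide +kernel))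
noncomputable def rhcaff4701fd7d277b : CRef := CRef.mk (Pat.mk 0xe00000000000000060000000400000000 0x780000001f000000780000000e0000003c00000018 6 7) 0 0 (step_sound _ 99 [(rh07d9da5b7e224558.shift 0 1), (rh87ec52b0a4a7ddb0.shift 0 1), (rh8ee80cc30e93a344.shift 0 3), (rhac160a555f45b187.shift 1 0)] (by decide +kernel))
noncomputable def rh5b4913fc800fbe63 : CRef := CRef.mk (Pat.mk 0x38000000000000001000000010 0x670000003e000000670000003000000010 6 7) 0 0 (step_sound _ 98 [(rh1fbc9fee05401eba.shift 2 0), (rh592c7139d2c44767.shift 0 2), (rh83991d5a1aeac4df.shift 1 0)] (by decide +kernel))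
noncomputable def rh94c118babe108846 : CRef := CRef.mk (Pat.mk 0x60000000400000004000000000000000000000000 0xc0000000e0000000e0000003c0000000f0000000e0000000a 6 6) 0 0 (step_sound _ 66 [(rh257d7200ab2a6828.shift 1 0), (rh3ca4c10fdf355329.shift 0 1), (rhcab3157f7bdcba3e.shift 1 0)] (by decide +kernel))
noncomputable def rhee79d57fb93e8945 : CRef := CRef.mk (Pat.mk 0x600000003000000020000000200000000000000000000000000000000 0x600000007000000070000000600000006000000060000000600000004 6 3) 0 0 (step_sound _ 97 [(rhbaefcd01e0a8bca3.shift 1 3), rhe880c8eb626b6670] (by decide +kernel))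
noncomputable def rh85be7bd06c5a35e0 : CRef := CRef.mk (Pat.mk 0x2000000020000000600000000 0x500000007000000070000000200000002000000060000000600000004 6 3) 0 0 (step_sound _ 129 [(rh1148744b53f3df58.shift 0 1), (rh55afc6a59410cf00.shift 1 0)] (by decide +kernel))
noncomputable def rh9cd786fac175c56e : CRef := CRef.mk (Pat.mk 0x200000002000000000000000600000000 0x500000007000000070000000200000002000000060000000600000004 6 3) 0 0 (step_sound _ 65 [(rh1148744b53f3df58.shift 0 1), (rh55afc6a59410cf00.shift 1 0)] (by decide +kernel))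
noncomputable def rhf9a9d9c1750d420a : CRef := CRef.mk (Pat.mk 0x80000000c000000080000000800000000 0xe0000000f0000003c0000000c0000000c00000004 6 6) 0 0 (step_sound _ 130 [(rh50fbb5868c909700.shift 2 1), rhe93a1469eabff810] (by decide +kernel))
noncomputable def rh340635556be1dbb8 : CRef := CRef.mk (Pat.mk 0x80000000c0000000800000008 0x800000018000000380000001f0000003800000018 6 6) 0 0 (step_sound _ 100 [(rh2f68792b6b779e96.shift 3 0), rhbde007d47b9dc637] (by decide +kernel))
noncomputable def rhc876342db1d01ce9 : CRef := CRef.mk (Pat.mk 0x1e000000180000000000000010 0x30000000300000003f0000001e000000180000001000000010 6 6) 0 0 (step_sound _ 131 [(rh9e07f76261b05888.shift 3 0), (rhd283a685d2618d5b.shift 0 2)] (by decide +kernel))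
noncomputable def rh0bc9bb32df19cee7 : CRef := CRef.mk (Pat.mk 0x1e000000180000000000000010 0x4000000040000000f0000003e0000001b0000001200000010 6 6) 0 0 (step_sound _ 131 [(rh44dd78dd79fc4e0b.shift 0 1), (rh9e07f76261b05888.shift 3 0)] (by decide +kernel))
noncomputable def rh4645c49ba201db05 : CRef := CRef.mk (Pat.mk 0x60000001c0000000800000008 0x140000003e000000360000001f0000003800000008 6 6) 0 0 (step_sound _ 130 [(rh2145e1d24b96a57e.shift 2 1), rhb973b6a066a49940] (by decide +kernel))
noncomputable def rhf020c567461b41ab : CRef := CRef.mk (Pat.mk 0x20000000e000000000000000000000000 0x10000000330000001f000000380000000800000008 6 6) 0 0 (step_sound _ 100 [(rh3244c3cc8379b070.shift 0 3), rhafce7c2a98f15f1d] (by decide +kernel))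
noncomputable def rh45655b6362362285 : CRef := CRef.mk (Pat.mk 0x200000038000000000000001000000000 0x10000000730000003e000000670000003000000030 6 7) 0 0 (step_sound _ 98 [(rh00b511fddce6f168.shift 0 2), (rh7be56dea451b252f.shift 2 0)] (by decide +kernel))
noncomputable def rh12ea257fe3cab258 : CRef := CRef.mk (Pat.mk 0x120000000e000000000000000000000000 0x10000000300000001e0000003f000000780000000800000008 6 7) 0 0 (step_sound _ 100 [(rh2aac33c566332a8c.shift 1 2), rh9483656c38360087, (rhdc9b566064fc5d7d.shift 0 1)] (by decide +kernel))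
noncomputable def rhaf8c610e60e794be : CRef := CRef.mk (Pat.mk 0x800000008000000180000000000000000 0x140000003c0000000f000000380000001f0000001c 6 6) 0 0 (step_sound _ 35 [rh2c5a6414b11f54f4, rh59c6c9d9132801ae] (by decide +kernel))
noncomputable def rhdf2b2e14724960e3 : CRef := CRef.mk (Pat.mk 0x800000008000000180000001000000000 0x140000003c0000000f000000380000001f0000000c 6 6) 0 0 (step_sound _ 35 [rh6fae963f33cfdfd7, rh900a894640be090c] (by decide +kernel))
noncomputable def rhd1f1a10296de2697 : CRef := CRef.mk (Pat.mk 0xc0000001e000000080000000000000000 0xc0000001e0000003f0000003300000012 6 6) 0 0 (step_sound _ 68 [rh98969c2b5bc7fe0a, (rhe25b0a99195a5d59.shift 1 2)] (by decide +kernel))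
noncomputable def rh799b0e31f9fb89b0 : CRef := CRef.mk (Pat.mk 0x100000006000000030000000200000004 0x40000000600000006000000030000001e000000070000000700000004 6 5) 0 0 (step_sound _ 129 [(rh7fe0063505842155.shift 0 1), (rhd3458b32566d63f7.shift 1 0)] (by decide +kernel))
noncomputable def rh03c266e186afa8a3 : CRef := CRef.mk (Pat.mk 0x100000000000000030000000200000000000000000000000000000000 0x100000003000000030000000300000007000000070000000700000005 6 3) 0 0 (step_sound _ 97 [rh230ee59bbfb914bf, (rh3a1cc22ead2eadb0.shift 0 2), (rh50a14b5cf38c0cd7.shift 0 2), (rh92d527fd57e151ef.shift 0 3)] (by decide +kernel))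
noncomputable def rh893d61229f052779 : CRef := CRef.mk (Pat.mk 0x30000000200000002000000000000000000000000 0x5000000070000000600000002000000070000000700000001 6 3) 0 0 (step_sound _ 65 [(rh50fbb5868c909700.shift 0 2), rhceaabac02e703afb] (by decide +kernel))
noncomputable def rh13c281181c871aa9 : CRef := CRef.mk (Pat.mk 0x6000000040000000c0000000c00000000 0x80000000e0000003c0000000f0000003c00000014 6 6) 0 0 (step_sound _ 131 [(rh2f68792b6b779e96.shift 2 1), rh35562bf0fbea4a15] (by decide +kernel))
noncomputable def rh6d64ad01a7253191 : CRef := CRef.mk (Pat.mk 0xc0000000800000008000000000000000000000000 0x80000000c0000000c0000000f0000003c0000001c00000014 6 6) 0 0 (step_sound _ 67 [(rh257d7200ab2a6828.shift 2 0), (rh641b5241be04eec6.shift 0 1), (rhe4441baab75a6f73.shift 2 0)] (by decide +kernel))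
noncomputable def rh6149c36f4e47bf5e : CRef := CRef.mk (Pat.mk 0x60000000400000004000000000000000000000000 0x400000006000000060000003c0000000f0000000e0000000a 6 6) 0 0 (step_sound _ 66 [(rh257d7200ab2a6828.shift 1 0), (rh3ca4c10fdf355329.shift 0 1), (rhe4441baab75a6f73.shift 1 0)] (by decide +kernel))
noncomputable def rh98dca482c599e716 : CRef := CRef.mk (Pat.mk 0x8000000000000001800000018000000000000000000000000 0x140000003c0000000f000000380000001f0000000c0000000c0000000c 6 6) 0 0 (step_sound _ 163 [(rh6fae963f33cfdfd7.shift 0 2), (rh900a894640be090c.shift 0 2), (rha9a9dd876407ae9a.shift 2 0)] (by decide +kernel))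
noncomputable def rh909dc93349c2378d : CRef := CRef.mk (Pat.mk 0x4000000000000000c0000000e000000000000000000000000 0xc0000000c0000001c0000001e000000330000001000000010 6 6) 0 0 (step_sound _ 65 [rhe05f4c001cebd64c, (rhee230b994cc8b773.shift 1 2)] (by decide +kernel))
noncomputable def rhb27f28571e67c9a2 : CRef := CRef.mk (Pat.mk 0x18000000080000001800000018 0x2000000078000000ee000000ff00000038 6 8) 0 0 (step_sound _ 34 [(rha26e9b3d1f2cd227.shift 1 0), rhad5d8fc3675c15dd] (by decide +kernel))
noncomputable def rh5c466db4c2d28f16 : CRef := CRef.mk (Pat.mk 0x1c0000000800000008 0x400000004000000e60000007c000000ef00000008 6 8) 0 0 (step_sound _ 98 [(rh4a0cb3a9508b05dd.shift 1 1), rh960a8f47a8f1fa0e, (rha086f24fc46b4198.shift 1 1), (rhe072fffdd2fccf38.shift 2 0)] (by decide +kernel))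
noncomputable def rheb81e3aff294c7ec : CRef := CRef.mk (Pat.mk 0x10000000180000000e0000000000000004 0x3000000030000000320000001b0000003e0000003700000004 6 6) 0 0 (step_sound _ 164 [rh384fcdf43c4657c9, (rh5c5e593799055d58.shift 3 2)] (by decide +kernel))
noncomputable def rhbd290fe0f454bd3b : CRef := CRef.mk (Pat.mk 0x180000000c000000080000000c 0x70000007e0000007c0000000c0000000c 6 7) 0 0 (step_sound _ 98 [rh2f9cba0992b64cfb, (rh50fbb5868c909700.shift 2 0)] (by decide +kernel))
noncomputable def rhd3dad72a4cac3b56 : CRef := CRef.mk (Pat.mk 0x18000000080000001800000018 0x240000007c0000006f0000007c00000018 6 7) 0 0 (step_sound _ 98 [(rh50fbb5868c909700.shift 2 0), rh9b7644b5feaf0e6b] (by decide +kernel))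
noncomputable def rhd533626e3eba7c93 : CRef := CRef.mk (Pat.mk 0x1c00000004000000080000000c 0x130000007e0000007c0000000c0000000c 6 7) 0 0 (step_sound _ 67 [(rh2f68792b6b779e96.shift 3 0), rh2f9cba0992b64cfb] (by decide +kernel))
noncomputable def rhbe2a7fa56228b764 : CRef := CRef.mk (Pat.mk 0x20000001c0000000400000000 0x8000000080000003b0000001f0000003400000010 6 6) 0 0 (step_sound _ 65 [(rh3244c3cc8379b070.shift 0 2), rhdf99670cc890a965] (by decide +kernel))
noncomputable def rh6cff7b3065f53f7c : CRef := CRef.mk (Pat.mk 0x1e000000000000000000000008 0x8000000380000001e000000330000001800000018 6 6) 0 0 (step_sound _ 65 [(rh0b0ff5b6a06014fe.shift 1 0), (rheb0810cc63b001d8.shift 0 2)] (by decide +kernel))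
noncomputable def rh7088a5034302b3ba : CRef := CRef.mk (Pat.mk 0x780000001800000000 0x10000000100000003e0000007f0000001800000008 6 7) 0 0 (step_sound _ 98 [(rh3f8766e6ecb455ce.shift 2 2), rh408973e54453a147] (by decide +kernel))
noncomputable def rh4157563391205dd5 : CRef := CRef.mk (Pat.mk 0x100000001e00000000 0x18000000ff000000e7 6 8) 0 0 (step_sound _ 1 [rhc90f784d7ec4cdda, rheb0810cc63b001d8] (by decide +kernel))
noncomputable def rhfde62706795aed9b : CRef := CRef.mk (Pat.mk 0x120000001c0000000000000000 0x4000000040000001f0000003f0000000300000002 6 6) 0 0 (step_sound _ 65 [(rh3244c3cc8379b070.shift 0 2), rhb48c7ee127287bcc] (by decide +kernel))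
noncomputable def rhcfa560c21c583976 : CRef := CRef.mk (Pat.mk 0x1c00000008000000000000001800000000 0xc0000001c0000000f0000007c0000001800000008 6 7) 0 0 (step_sound _ 67 [rh06e02cef0009a548, (rh50fbb5868c909700.shift 2 1)] (by decide +kernel))
noncomputable def rh149c69a8be718d2c : CRef := CRef.mk (Pat.mk 0x1c0000000800000000 0x400000004000000ef0000007e0000000f00000002 6 8) 0 0 (step_sound _ 33 [(rh076be03eb7063320.shift 0 1), (rh72297cd55a503360.shift 0 1), rh73f5f7cdf41b5bc9, (rhc083815ec94cd2b2.shift 1 1)] (by decide +kernel))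
noncomputable def rhda8e1541dcadb2ff : CRef := CRef.mk (Pat.mk 0x1c00000008000000000000001800000000 0x800000008000000080000007c0000000f0000007c0000001800000008 6 7) 0 0 (step_sound _ 98 [(rh4dc133ee0ba1420a.shift 0 3), rh5a3dc4cb0ccbbb55, (rhdd751302cc181003.shift 2 0)] (by decide +kernel))
noncomputable def rha069b61ddc8583fa : CRef := CRef.mk (Pat.mk 0x10000000080000000000000018000000000000000000000000 0x140000001c0000003c0000001f0000001c000000180000000c0000000c00000004 6 6) 0 0 (step_sound _ 131 [(rh08d50fe567eb1045.shift 3 2), (rh1725eba4bd36066a.shift 2 0), (rh22d86f446f3de558.shift 0 2), (rh739b1d2a1da9317d.shift 2 3), (rh87d5e4118780fa3b.shift 3 2)] (by decide +kernel))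
noncomputable def rh96af8e11ba301808 : CRef := CRef.mk (Pat.mk 0xc000000000000000c0000000000000000 0x4000000140000007c0000001f000000780000000c0000000c00000008 6 7) 0 0 (step_sound _ 99 [(rh6589ff203f2415cf.shift 0 1), (rhb1a251d9bff81766.shift 2 1), (rhc86e3ab3c2b165e9.shift 1 0)] (by decide +kernel))
noncomputable def rh08a6f5ab2795622c : CRef := CRef.mk (Pat.mk 0xc000000000000000c000000000000000000000000 0x4000000140000003c0000000f000000080000000c0000001c0000001c00000014 6 6) 0 0 (step_sound _ 131 [(rh0a6888916bcef86b.shift 2 0), (rh281c6819542c66e6.shift 2 0), (rha83495199c8d8363.shift 0 2), (rhb1a251d9bff81766.shift 2 2)] (by decide +kernel))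
noncomputable def rh76149ee3548e2ac0 : CRef := CRef.mk (Pat.mk 0x380000001000000010 0x2000000020000000770000003e0000003700000010 6 7) 0 0 (step_sound _ 101 [(rh52a80f206a70e131.shift 0 1), (rha4e887c2a2a0f60b.shift 0 1), (rhbfb5770941270498.shift 4 0)] (by decide +kernel))
noncomputable def rh2e41b20450b0fa6f : CRef := CRef.mk (Pat.mk 0x700000006000000030000000000000000 0x2000000070000001e000000070000001e0000000e 6 5) 0 0 (step_sound _ 100 [(rh2fe78cc5ca4405d8.shift 0 3), rh68d3b8acf1216a71] (by decide +kernel))
noncomputable def rhb04ec85e0e4bd851 : CRef := CRef.mk (Pat.mk 0x1c000000180000000c0000000000000000 0x80000001f000000180000001c0000007800000038 6 7) 0 0 (step_sound _ 129 [(rh68d3b8acf1216a71.shift 2 0), (rhb739f4f82bb681b4.shift 0 3)] (by decide +kernel))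
noncomputable def rhad3d2f9aa683e1b5 : CRef := CRef.mk (Pat.mk 0x20000000600000002000000180000000000000000 0x100000007000000070000000600000006000000060000001b0000000f00000005 6 5) 0 0 (step_sound _ 194 [rh5c17f35af4ccaa8d, (rh5fcbac5b57173fc5.shift 1 2), (rhe7d208b70c184706.shift 0 3)] (by decide +kernel))
noncomputable def rhd88c62b1d0fa1b83 : CRef := CRef.mk (Pat.mk 0x1e000000000000000800000000 0x3b0000001f000000300000001800000018 6 6) 0 0 (step_sound _ 132 [rh2128ce59b18e1eff, (rh33e738c4ed385b9f.shift 1 3)] (by decide +kernel))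
noncomputable def rh5074ff075b6db927 : CRef := CRef.mk (Pat.mk 0x3c00000002 0x1c000000ff000000e3 6 8) 0 0 (step_sound _ 33 [rhdd4756ed63c5dbcb, rheb0810cc63b001d8] (by decide +kernel))
noncomputable def rh4a1b52639b860c7d : CRef := CRef.mk (Pat.mk 0xe000000000000000800000000 0x80000007f0000003e000000700000001800000018 6 7) 0 0 (step_sound _ 100 [(rh7be56dea451b252f.shift 1 0), (rha93a5dd541ab8209.shift 1 2), (rhb18e6c78a554867d.shift 0 3), (rhe401600d466b97cd.shift 0 2)] (by decide +kernel))
noncomputable def rhbfa1bb315eb6e1bc : CRef := CRef.mk (Pat.mk 0x20000001e0000000200000000 0x3000000070000000f0000003e0000001e0000000600000002 6 6) 0 0 (step_sound _ 100 [(rh33e738c4ed385b9f.shift 1 2), rh8809c4560da56088] (by decide +kernel))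
noncomputable def rh61e64c9f040d646e : CRef := CRef.mk (Pat.mk 0x30000000f0000000000000004 0x140000001e0000001b0000000f0000001c00000004 6 5) 0 0 (step_sound _ 35 [rh97eff879ed1d5c0b, (rhe25b0a99195a5d59.shift 0 1)] (by decide +kernel))
noncomputable def rhabaf0198068bc76f : CRef := CRef.mk (Pat.mk 0x8000000080000001c000000100000000000000000 0x2000000020000001f80000007c0000003f000000170000000400000004 6 9) 0 0 (step_sound _ 132 [(rh2391b325a64c4473.shift 2 2), rha8bc06e5ccb21da0, (rhf9d36e158778ce35.shift 1 3)] (by decide +kernel))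
noncomputable def rhf83ffaa7923f3949 : CRef := CRef.mk (Pat.mk 0x1e000000060000000000000000 0x4000000040000001f0000003e0000003300000002 6 6) 0 0 (step_sound _ 68 [rh2a4d1febe9f720a7, (rhe25b0a99195a5d59.shift 1 2)] (by decide +kernel))
noncomputable def rhfc3850163b770ae9 : CRef := CRef.mk (Pat.mk 0x80000000e0000000a0000000000000000 0x18000000180000000f0000000e0000003c00000014 6 6) 0 0 (step_sound _ 132 [(rh53b3c253cb0c65f4.shift 0 3), (rhcd75c6b6cd6e185f.shift 1 0)] (by decide +kernel))
noncomputable def rh594e1a0e516c2324 : CRef := CRef.mk (Pat.mk 0x20000000e0000000a00000000000000000000000000000000 0x500000007000000070000000a0000000e0000000e0000000e0000000c0000000400000004 6 4) 0 0 (step_sound _ 98 [(rh0db24d183fcfcaaa.shift 1 0), (rh1148744b53f3df58.shift 0 3), (rh390a8df03c6c5a62.shift 1 2)] (by decide +kernel))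
noncomputable def rh7c524514a7849fc4 : CRef := CRef.mk (Pat.mk 0x1e000000080000000000000000 0x10000000300000003e0000003f0000000800000008 6 6) 0 0 (step_sound _ 68 [(rhe25b0a99195a5d59.shift 1 2), rhfb7adb62270065c0] (by decide +kernel))
noncomputable def rh430a50cdc91ff38c : CRef := CRef.mk (Pat.mk 0xf000000040 0x1f000000fe0000007f 6 8) 0 0 (step_sound _ 35 [rh88c620441a3a17ea, (rhd5eb272e07a4e288.shift 2 1), (rheae1728ff4a56756.shift 2 0)] (by decide +kernel))
noncomputable def rh1f092b53c5372091 : CRef := CRef.mk (Pat.mk 0x1e00000018000000000000000000000000 0xb0000003e0000001f000000300000001000000010 6 6) 0 0 (step_sound _ 97 [rh719fbd64269e2fef, (rheb0810cc63b001d8.shift 0 3)] (by decide +kernel))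
noncomputable def rh78d7d760078befda : CRef := CRef.mk (Pat.mk 0xc0000001c000000080000000800000000 0xc0000001e0000007c0000001f00000017 6 7) 0 0 (step_sound _ 34 [(rh932754581e0f4330.shift 2 0), rh93940ff4541b5073] (by decide +kernel))
noncomputable def rhc804cf998c08629d : CRef := CRef.mk (Pat.mk 0x70000000e000000000000000000000000 0x40000000e0000001e000000070000000e0000000e0000000e0000000c 6 5) 0 0 (step_sound _ 162 [(rh503dd4575245365b.shift 1 2), (rh571950d89739e871.shift 1 2), rhd8eafc9cebbbc864] (by decide +kernel))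
noncomputable def rhb1ffd8f819b295b8 : CRef := CRef.mk (Pat.mk 0x1c00000018000000000000000000000000 0x10000000100000003c0000007f000000700000002000000020 6 7) 0 0 (step_sound _ 101 [rhe3eb5cc39f4ec9b6, (rhf48373e13d2bc128.shift 2 3)] (by decide +kernel))
noncomputable def rh0404ae5794f766b5 : CRef := CRef.mk (Pat.mk 0x2000000060000001c000000040000000000000000 0x5000000170000003e0000001f0000003e0000000a00000008 6 6) 0 0 (step_sound _ 97 [(rh3ac6bf92fa22d71c.shift 0 1), rhafce7c2a98f15f1d, rhf93e7885282cbc00] (by decide +kernel))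
noncomputable def rhd860c1abe0894a1a : CRef := CRef.mk (Pat.mk 0xe0000000800000004000000000000000000000000 0x4000000140000001c0000000f000000080000000c0000001c0000001c00000014 6 5) 0 0 (step_sound _ 99 [(rh0a6888916bcef86b.shift 2 0), (rhb1a251d9bff81766.shift 2 2), (rhe0a9329fca2c5630.shift 0 2), (rhf8be2f0da0b4d587.shift 2 2)] (by decide +kernel))
noncomputable def rh324a41ec6bd7e2d5 : CRef := CRef.mk (Pat.mk 0x30000000200000001000000000000000000000000 0x50000000700000007000000030000000600000007000000070000000700000005 6 3) 0 0 (step_sound _ 97 [rh0a6888916bcef86b, (rh0aef438d1c50436b.shift 0 2), (rh958ac04a5d3bcb36.shift 0 2), (rhb1a251d9bff81766.shift 0 2)] (by decide +kernel))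
noncomputable def rhc2c9f92e4931be7b : CRef := CRef.mk (Pat.mk 0x700000004000000020000000000000000 0x80000000e0000000e0000000f0000001c0000000e0000000e00000004 6 5) 0 0 (step_sound _ 66 [(rh0aef438d1c50436b.shift 1 1), (rh958ac04a5d3bcb36.shift 1 1), rhebb306d4866abd5e] (by decide +kernel))
noncomputable def rhe784abf069f814d5 : CRef := CRef.mk (Pat.mk 0x800000008000000080000001800000000 0x800000008000000ff0000007e000000e4 6 8) 0 0 (step_sound _ 34 [rh71e9fc42ca0769eb, (rh932754581e0f4330.shift 2 0)] (by decide +kernel))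
noncomputable def rh8b0c335e49a23e7e : CRef := CRef.mk (Pat.mk 0x400000008000000080000000800000000 0xc0000000c000000080000000f0000003c00000014 6 6) 0 0 (step_sound _ 131 [(rh50fbb5868c909700.shift 2 1), rh641b5241be04eec6] (by decide +kernel))
noncomputable def rh9a909b3557b462bd : CRef := CRef.mk (Pat.mk 0x100000001000000018000000080000002000000000 0x10000000700000007e0000002f0000007c00000008 6 7) 0 0 (step_sound _ 35 [(rh71222050f2c63a3a.shift 3 0), (rh7f9656c9646c636f.shift 0 1)] (by decide +kernel))
noncomputable def rh6c21600e29956ae7 : CRef := CRef.mk (Pat.mk 0x40000001e000000000000000800000008 0x340000001e000000130000007a0000001f 6 7) 0 0 (step_sound _ 65 [rh442363765b76cf33, (rheb0810cc63b001d8.shift 0 2)] (by decide +kernel))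
noncomputable def rh78a8697fba378c13 : CRef := CRef.mk (Pat.mk 0x20000000e00000000000000040000000400000000 0x1b0000001f000000380000000c0000000c00000008 6 6) 0 0 (step_sound _ 132 [(rh3244c3cc8379b070.shift 0 4), rhc67871fc88359092] (by decide +kernel))
noncomputable def rh07aebf238cfe606a : CRef := CRef.mk (Pat.mk 0x80000003c00000000 0x18000000ff000000e7 6 8) 0 0 (step_sound _ 6 [(rh96851dee118c1ba3.shift 2 0), rhc6d7e3d9ebf2506f] (by decide +kernel))
noncomputable def rhca7a9642e2890640 : CRef := CRef.mk (Pat.mk 0x40000001c00000000 0x3e0000007f00000070 6 7) 0 0 (step_sound _ 37 [rh0ffe27c19d003fc0, (rh3244c3cc8379b070.shift 1 1)] (by decide +kernel))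
noncomputable def rh15d6cb490ff76dea : CRef := CRef.mk (Pat.mk 0x1c00000008000000080000000800000000 0xe0000000ff0000007f000000080000000c00000004 6 8) 0 0 (step_sound _ 34 [(rh6a821513b363b51a.shift 0 3), (rh932754581e0f4330.shift 2 0)] (by decide +kernel))
noncomputable def rh53e82a7e7c085009 : CRef := CRef.mk (Pat.mk 0x20000000700000000000000000 0x10000000100000003f000001fe0000000e00000008 6 9) 0 0 (step_sound _ 67 [(rh21460d2d48a35cb8.shift 2 0), (rh592c7139d2c44767.shift 1 1), (rhafaa61f79143ceed.shift 1 1), (rhbc6c1ead0c708fe0.shift 0 2), (rhec0f150ffdda098a.shift 1 1), (rhf0dcb8af34d9ea65.shift 0 1)] (by decide +kernel))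
noncomputable def rh5ffdd9d93158bdb9 : CRef := CRef.mk (Pat.mk 0x20000000200000000000000040000000000000000 0x50000000700000007000000070000000600000006000000070000000700000001 6 3) 0 0 (step_sound _ 97 [rh0fd65e3cf503e830, (rh8a3dccad1db54ca6.shift 0 1), (rhde061a0c3cca9b80.shift 0 2)] (by decide +kernel))
noncomputable def rh0c3a7bcf21d43ce4 : CRef := CRef.mk (Pat.mk 0x10000000380000002000000000 0x8000000080000001e000000ff0000003e00000004 6 8) 0 0 (step_sound _ 99 [rh124e4c8ec04b1110, (rh44e676bb7316853f.shift 0 1), (rhe2b63c00a3d7bb73.shift 1 2)] (by decide +kernel))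
noncomputable def rhf31e8e8c36ac2538 : CRef := CRef.mk (Pat.mk 0x60000000e0000000000000000 0x3000000030000003e0000003e0000000700000004 6 6) 0 0 (step_sound _ 68 [(rhf48373e13d2bc128.shift 1 2), rhf67a63a8c112a4d0] (by decide +kernel))
noncomputable def rhd98b4ac71925cca5 : CRef := CRef.mk (Pat.mk 0xc0000001c000000100000001000000000 0x170000007f0000001c000000380000003800000028 6 7) 0 0 (step_sound _ 129 [rh947e8d32ac4376f1, (rhb739f4f82bb681b4.shift 0 3)] (by decide +kernel))
noncomputable def rhaa2e758fc2005eec : CRef := CRef.mk (Pat.mk 0x3c000000100000000000000000 0x10000000300000007f0000001e0000000800000008 6 7) 0 0 (step_sound _ 66 [rh97c673cedfbd3c23, (rheb0810cc63b001d8.shift 1 2)] (by decide +kernel))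
noncomputable def rhc35b191691153e69 : CRef := CRef.mk (Pat.mk 0xc0000001c000000080000000800000000 0x30000003f0000001f0000000c0000000c00000004 6 6) 0 0 (step_sound _ 129 [rh6430697d2174e779, (rhb739f4f82bb681b4.shift 0 3)] (by decide +kernel))
noncomputable def rh86a5f89b39456ed5 : CRef := CRef.mk (Pat.mk 0x40000000e000000180000000000000000 0x70000003e0000001f0000000f0000000a 6 6) 0 0 (step_sound _ 35 [(rh7b1f1fb55310c477.shift 2 0), rh9b6ec48a77bb101f] (by decide +kernel))
noncomputable def rh62e4fbe425dea25a : CRef := CRef.mk (Pat.mk 0x60000001c0000001000000000 0x2000000030000003e0000001f0000003400000004 6 6) 0 0 (step_sound _ 65 [rh2a2c9eb013bbac78, (rhe25b0a99195a5d59.shift 1 1)] (by decide +kernel))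
noncomputable def rh5f6cfa2de7644c22 : CRef := CRef.mk (Pat.mk 0x30000000e0000000800000004000000000000000000000000 0x10000000b0000000f0000007a0000001e0000001c0000001400000004 6 7) 0 0 (step_sound _ 132 [rha5b069cd7b4420a4, (rhb739f4f82bb681b4.shift 0 4)] (by decide +kernel))
noncomputable def rh5f357e601b0077e0 : CRef := CRef.mk (Pat.mk 0x6000000180000001000000008000000000000000000000000 0x80000002f0000003e000000180000001000000018000000380000003800000028 6 6) 0 0 (step_sound _ 100 [(rh0a6888916bcef86b.shift 3 0), (rh281c6819542c66e6.shift 3 0), (rh453ab78a19930874.shift 0 2), (rh47ecea03df6fae84.shift 3 1), (rhb1a251d9bff81766.shift 3 2)] (by decide +kernel))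
noncomputable def rha9f17b3251ebe0df : CRef := CRef.mk (Pat.mk 0x400000004000000000000000e00000018 0x400000004000000060000000600000073000000fe0000001f 6 8) 0 0 (step_sound _ 65 [rh04affa16fd411ea8, rh958a77832533e858, rhb65a3b8959c1cf11, (rhd918c3fd221dc9f8.shift 1 0)] (by decide +kernel))
noncomputable def rh1ddfce57311b68eb : CRef := CRef.mk (Pat.mk 0x18000000700000000000000000 0xc0000000c0000000f80000007f000000ee00000020 6 8) 0 0 (step_sound _ 67 [(rh185f35b8bd8ec37f.shift 1 1), (rh2381ca26b8b38d1e.shift 2 1), (rh245928b0a8b00d1d.shift 3 0), (rh9e97bba44c1b13e4.shift 1 1), (rhe74f96057964b96f.shift 0 1)] (by decide +kernel))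
noncomputable def rhddba0309546bdfb3 : CRef := CRef.mk (Pat.mk 0xc000000180000000800000000 0x140000001c0000001c0000000c000000780000001f00000004 6 7) 0 0 (step_sound _ 69 [rh72364c8a5c6db0b6, (rhf48373e13d2bc128.shift 2 2)] (by decide +kernel))
noncomputable def rhb922bfd4570238a1 : CRef := CRef.mk (Pat.mk 0xc0000001800000008000000000000000000000000 0x1000000018000000180000000c000000780000001f0000000c0000000400000004 6 7) 0 0 (step_sound _ 133 [rhb540a02b7e5898ca, (rhf48373e13d2bc128.shift 2 4)] (by decide +kernel))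
noncomputable def rh148a6667ad5dbb7e : CRef := CRef.mk (Pat.mk 0x1000000038000000000000000000000000 0x4000000040000001e0000007c0000000f0000000800000008 6 7) 0 0 (step_sound _ 130 [(rh508d31626b5d2be8.shift 1 3), (rh54c49bb299227e8d.shift 1 3), rh611dbeaef9e2d7da, (rhea212a187e58a08e.shift 1 0)] (by decide +kernel))
noncomputable def rh124c3ce23345bdd8 : CRef := CRef.mk (Pat.mk 0x40000001e000000080000000800000000 0x80000003c0000001e0000003b0000001f00000016 6 6) 0 0 (step_sound _ 68 [rh82e95cb22f2dba05, (rhe25b0a99195a5d59.shift 1 2)] (by decide +kernel))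
noncomputable def rhea223014e913127c : CRef := CRef.mk (Pat.mk 0x100000001000000038000000000000002000000000 0x100000001c000000f80000000f0000007c00000008 6 8) 0 0 (step_sound _ 67 [(rh69e72e84bbe83205.shift 2 0), (rha83d0a1d851c6a27.shift 2 2), rhc00d011886fceffb, (rhf9af042da61fc652.shift 3 0)] (by decide +kernel))
noncomputable def rhfb5f72cbed3f3c19 : CRef := CRef.mk (Pat.mk 0x600000004000000000000000400000000 0x600000006000000040000003c0000000f0000000a 6 6) 0 0 (step_sound _ 66 [rh3ca4c10fdf355329, (rh50fbb5868c909700.shift 1 1)] (by decide +kernel))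
noncomputable def rh1ec95b0f47336ac2 : CRef := CRef.mk (Pat.mk 0xc00000038000000100000001000000000 0x7c0000003e000000770000001e0000000c 6 7) 0 0 (step_sound _ 98 [(rh9e97bba44c1b13e4.shift 0 2), (rha03f6e28ea70fc7d.shift 1 2), (rhae1003c84e4b307a.shift 1 0)] (by decide +kernel))
noncomputable def rh737d104f97747221 : CRef := CRef.mk (Pat.mk 0x60000001a0000000000000000 0x50000000700000007000000060000001f0000000300000003 6 5) 0 0 (step_sound _ 33 [(rh215e11e099257d75.shift 1 0), rh393c739438a2b520, rhec5c45900e0e4fe3] (by decide +kernel))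
noncomputable def rh74e59fc408e5ce0f : CRef := CRef.mk (Pat.mk 0x1800000070000000000000002000000000 0x1000000030000000f80000007f000000cf0000006800000020 6 8) 0 0 (step_sound _ 99 [(rh031a926e4a883687.shift 2 1), (rh3e9601eff8aa538d.shift 0 2), (rh4ff7d8537adf0731.shift 2 0)] (by decide +kernel))
noncomputable def rhc545b009dc018e51 : CRef := CRef.mk (Pat.mk 0x1000000038000000000000000000000000 0x20000003f7000001fe000001c70000004000000040 6 10) 0 0 (step_sound _ 102 [(rh16c09bea24aec334.shift 0 2), (rh5dffc5561274dae0.shift 2 0), (rha93a5dd541ab8209.shift 3 2), (rhe755d80139a0ae3f.shift 1 2), (rhf5fa5e48e0784de2.shift 3 2)] (by decide +kernel))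
noncomputable def rh827172953bd53079 : CRef := CRef.mk (Pat.mk 0x800000008000000080000001c00000000 0x40000000c0000000c0000003f0000007f00000003 6 7) 0 0 (step_sound _ 130 [(rh50fbb5868c909700.shift 2 1), rh9e67d482fd3c1285] (by decide +kernel))
noncomputable def rh49dddae0f319a902 : CRef := CRef.mk (Pat.mk 0x800000008000000080000000c00000000 0xc0000000c0000000c0000003c0000000f0000000a 6 6) 0 0 (step_sound _ 66 [rh04aa474d63f24212, (rh5c5e593799055d58.shift 2 1)] (by decide +kernel))
noncomputable def rhefe62a323bff1045 : CRef := CRef.mk (Pat.mk 0x18000000380000000000000000 0x20000000600000007e0000003f0000001700000010 6 7) 0 0 (step_sound _ 98 [rh3a8ee565fbf33170, (rhb739f4f82bb681b4.shift 1 2)] (by decide +kernel))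
noncomputable def rhaaafb91565a90b82 : CRef := CRef.mk (Pat.mk 0x3000000018000000000000001800000008 0x60000000f000000078000001e00000007f0000007f 6 9) 0 0 (step_sound _ 37 [rh2820ca9a6c4f41b4, (rh3badb3709c7508e9.shift 2 0), (rh57079c96556cf2c7.shift 2 0), rhf5f7e133f0dae5b1] (by decide +kernel))
noncomputable def rhd8e54442d1658934 : CRef := CRef.mk (Pat.mk 0x3000000018000000000000001800000008 0x3e000001fe000001e00000007c0000003f 6 9) 0 0 (step_sound _ 98 [rh1ec31c04ebc6fb29, (rh53b3c253cb0c65f4.shift 1 3)] (by decide +kernel))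
noncomputable def rh605618741aa11e3c : CRef := CRef.mk (Pat.mk 0x70000000180000000000000000 0x60000000ee0000007f000000f8000000e000000060 6 8) 0 0 (step_sound _ 99 [(rh1ae0746674388f39.shift 3 0), (rh210e2d9c685c857e.shift 0 2), (rh2456963ff1f7bf23.shift 1 2), (rh4c622fddc53a5f99.shift 1 3), (rhb2d1aa7b1ffc4eb6.shift 2 2)] (by decide +kernel))
noncomputable def rha552ca6c4da268f6 : CRef := CRef.mk (Pat.mk 0x180000000e000000000000000000000000 0x1000000010000000380000001f000000fe000000f80000001000000010 6 8) 0 0 (step_sound _ 100 [(rh6f9b955097eeb2e4.shift 0 2), (rh883451bd3feec117.shift 0 2), (rhbbe16ff26f7822db.shift 1 0)] (by decide +kernel))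
noncomputable def rhdb7753e5c78ef69d : CRef := CRef.mk (Pat.mk 0xc00000004000000040000000400000000 0x320000003f0000003f0000000c0000000c00000008 6 6) 0 0 (step_sound _ 129 [(rh50fbb5868c909700.shift 1 1), rhc797bccf0e1e8140] (by decide +kernel))
noncomputable def rhded43325d622e2f5 : CRef := CRef.mk (Pat.mk 0x80000001e000000000000000400000004 0xb0000001e000000320000001f0000003e 6 6) 0 0 (step_sound _ 68 [rh385eb00e58f5b438, (rhe25b0a99195a5d59.shift 1 2)] (by decide +kernel))
noncomputable def rha2167b53a5c2000b : CRef := CRef.mk (Pat.mk 0x40000000200000002000000020000000000000000 0x10000000300000007000000070000000300000003000000030000000200000002 6 3) 0 0 (step_sound _ 161 [(rh2f68792b6b779e96.shift 1 2), rhb5e2811106eb513a] (by decide +kernel))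
noncomputable def rhc4613a2be9451049 : CRef := CRef.mk (Pat.mk 0x40000000c000000060000000200000000 0x18000000180000001c0000000c0000001e0000003f0000003c 6 6) 0 0 (step_sound _ 131 [(rhd575de2d44b7fb32.shift 1 0), (rhea7a1800d6f053bd.shift 2 0), rhf777fc9d789d1569] (by decide +kernel))
noncomputable def rhd26525e43545aa5e : CRef := CRef.mk (Pat.mk 0x400000000000000040000000600000000 0xa0000000f0000003c000000040000000600000006 6 6) 0 0 (step_sound _ 98 [(rh932754581e0f4330.shift 1 0), rhf149b0c20b930719] (by decide +kernel))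
noncomputable def rhefb99cd4dbd26958 : CRef := CRef.mk (Pat.mk 0x200000000000000070000000300000000 0x40000000600000006000000070000001f0000000f 6 5) 0 0 (step_sound _ 97 [rh932754581e0f4330, rhd915d793561220ee] (by decide +kernel))
noncomputable def rh696df640edb52c67 : CRef := CRef.mk (Pat.mk 0x8000000100000001e0000000400000000 0x200000003a0000003e000000120000001e0000003700000004 6 6) 0 0 (step_sound _ 36 [rh9caf4909bca84b42, (rhe25b0a99195a5d59.shift 1 1)] (by decide +kernel))
noncomputable def rhf594241a9646d621 : CRef := CRef.mk (Pat.mk 0x4000000100000000e00000000000000000000000000000000 0x1c0000001c000000180000001f000000380000001c0000000c00000004 6 6) 0 0 (step_sound _ 163 [(rh53b3c253cb0c65f4.shift 0 4), (rh5cef4e00b6ad8a6f.shift 1 0)] (by decide +kernel))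
noncomputable def rh03db4a31433599ab : CRef := CRef.mk (Pat.mk 0x4000000100000000e0000000000000000 0x40000001c0000001f000000780000000f0000000c00000008 6 7) 0 0 (step_sound _ 99 [(rh53b3c253cb0c65f4.shift 0 2), rhc4ec2b00fdfd49a5] (by decide +kernel))
noncomputable def rh2ca223b4f9e6836a : CRef := CRef.mk (Pat.mk 0x2000000080000000f0000000000000000 0x100000001e0000001f0000000c0000000f0000001c0000000c 6 5) 0 0 (step_sound _ 35 [rhb93464389b9704ed, (rhe25b0a99195a5d59.shift 0 1)] (by decide +kernel))
noncomputable def rh9b70f74acf52addc : CRef := CRef.mk (Pat.mk 0x1000000008000000080000000800000000 0x1800000018000000080000000f0000003c00000014 6 6) 0 0 (step_sound _ 131 [rh161c003cd166b8ec, (rh2f68792b6b779e96.shift 3 1)] (by decide +kernel))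
noncomputable def rha8f782836094663a : CRef := CRef.mk (Pat.mk 0xc00000004000000040000000400000000 0x40000000c0000000c0000000f0000003c0000001c 6 6) 0 0 (step_sound _ 35 [(rh55afc6a59410cf00.shift 2 0), rhcbbe7719bad8ee64] (by decide +kernel))
noncomputable def rh3ce012580aa39743 : CRef := CRef.mk (Pat.mk 0x2000000020000000200000002 0x5000000070000000700000003000000070000000700000006 6 3) 0 0 (step_sound _ 129 [rh3ca48e2a6d60153d, rh3ce7792043b47634, (rhc85cc95794737cf7.shift 0 1)] (by decide +kernel))
noncomputable def rhce714864e67ec59a : CRef := CRef.mk (Pat.mk 0x800000008000000080000000800000000 0x140000003c0000000f000000080000000c0000000c 6 6) 0 0 (step_sound _ 34 [rh245d56c915813f64, (rh932754581e0f4330.shift 2 0)] (by decide +kernel))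
noncomputable def rh4b842c4a473f1f31 : CRef := CRef.mk (Pat.mk 0x1c00000008000000080000000800000000 0xe3000000fe0000007e0000000c0000000c00000004 6 8) 0 0 (step_sound _ 34 [(rh54b051f028acf409.shift 0 1), (rh932754581e0f4330.shift 2 0)] (by decide +kernel))
noncomputable def rh1c19a9a52f48d063 : CRef := CRef.mk (Pat.mk 0x180000001c00000000 0x18000000ff000000e7 6 8) 0 0 (step_sound _ 33 [rh383aa5f99c690fc3, (rh53b3c253cb0c65f4.shift 0 1)] (by decide +kernel))
noncomputable def rha87f6802c0500a0b : CRef := CRef.mk (Pat.mk 0x400000006000000020000000200000000 0x300000003000000070000000600000006000000030000000300000001 6 3) 0 0 (step_sound _ 129 [rh0ef6c71ce89c1c36, (rh2f68792b6b779e96.shift 1 1)] (by decide +kernel))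
noncomputable def rh993c0e1f870e4ba3 : CRef := CRef.mk (Pat.mk 0x3800000010000000100000000000000000 0xc0000000f0000007c0000001e0000001c0000000c0000000c 6 7) 0 0 (step_sound _ 99 [(rh1a21dc65618c6a90.shift 0 2), (rh4dc133ee0ba1420a.shift 1 3), rhfadfb915cb711078] (by decide +kernel))
noncomputable def rh5f67c3a11fbd231b : CRef := CRef.mk (Pat.mk 0xc00000004000000040000000400000000 0x140000003c0000000f0000000c0000000c0000000c 6 6) 0 0 (step_sound _ 99 [rh60f7890073fd1121, (rh71222050f2c63a3a.shift 2 0)] (by decide +kernel))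
noncomputable def rhf82fb4c850dd4fb8 : CRef := CRef.mk (Pat.mk 0x800000008000000080000000000000004 0x140000003c0000000f000000080000000c0000000c 6 6) 0 0 (step_sound _ 35 [rh5ee4dc8825dcefa0, (rh79877ebd3ef475dd.shift 2 0)] (by decide +kernel))
noncomputable def rhee6c4a8bf64855ae : CRef := CRef.mk (Pat.mk 0x8000000080000000800000000 0x140000001c0000003c0000000f000000180000001800000018 6 6) 0 0 (step_sound _ 131 [rh59c6c9d9132801ae, (rh5abfc4c9d959be03.shift 2 0), (rhced6d86d2069808b.shift 3 0)] (by decide +kernel))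
noncomputable def rh80b92a3bcc93de92 : CRef := CRef.mk (Pat.mk 0x200000003000000000000000300000001800000000 0x1fe000000fe0000000f000000380000001e00000004 6 9) 0 0 (step_sound _ 131 [rh45cfe21f74b715e3, (rh676276dcb55ce347.shift 1 1), (rha11dfd15f08f96e3.shift 2 4), (rhb103f40a53fe1424.shift 0 3), (rhde9f3e00a2d7e84a.shift 1 0)] (by decide +kernel))
noncomputable def rhe29e526a754105b6 : CRef := CRef.mk (Pat.mk 0x2000000030000000000000003000000018 0x1f80000007c0000000f000000ff000000f8 6 9) 0 0 (step_sound _ 38 [(rh18965a982d73c794.shift 3 0), rhc7f0434056cb8a4d] (by decide +kernel))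
noncomputable def rhdca2fcd9a23bf162 : CRef := CRef.mk (Pat.mk 0x180000000e000000000000000000000000 0xa0000001f000000fe0000007f0000001400000014 6 8) 0 0 (step_sound _ 66 [rh2ef1f5b3eb84ef3a, rhd1358474cab01e00, (rhf91b1398c815afd2.shift 2 0)] (by decide +kernel))
noncomputable def rhc0161cdf4d2cf7d1 : CRef := CRef.mk (Pat.mk 0x7000000018000000000000000000000000 0x80000001f0000007f000000f80000001c0000001800000008 6 8) 0 0 (step_sound _ 131 [(rh04adde65229dd8ca.shift 0 3), (rh38a0850c9fea941e.shift 2 1), (rha40994045c6a855c.shift 2 0)] (by decide +kernel))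
noncomputable def rh1a85e118a7c39928 : CRef := CRef.mk (Pat.mk 0x800000008000000000000001e00000004 0x1f0000003e000000130000001e00000034 6 6) 0 0 (step_sound _ 65 [(rh3244c3cc8379b070.shift 0 1), rh9a977dc0b8bb6299] (by decide +kernel))
noncomputable def rhe53c1a59108aa44d : CRef := CRef.mk (Pat.mk 0x3800000010000000100000001000000000 0x70000007e000000ff000000100000003000000020 6 8) 0 0 (step_sound _ 37 [(rh55afc6a59410cf00.shift 4 0), (rhc8dbae6d14db7fac.shift 0 3)] (by decide +kernel))
noncomputable def rh3ca40f7bde03b7c7 : CRef := CRef.mk (Pat.mk 0x20000000300000001c0000001000000000000000000000000000000000 0x10000000740000003c0000001c0000007c0000002f0000000c0000000400000004 6 7) 0 0 (step_sound _ 131 [(rh121397a93ef3afd3.shift 2 3), (rh1e309b005ffa1b36.shift 3 2), rhb7795a2ed739ec31] (by decide +kernel))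
noncomputable def rhaed552e37f4cd7fc : CRef := CRef.mk (Pat.mk 0x10000000100000001c0000000000000008 0x8000000380000001f0000007c0000000e0000000c 6 7) 0 0 (step_sound _ 99 [rh2eb911c301b29c6f, (rh9e3edb185cc347de.shift 3 0)] (by decide +kernel))
noncomputable def rhb8a261df00ef0731 : CRef := CRef.mk (Pat.mk 0x5000000070000000000000000000000000 0x180000001c0000007f0000007e0000001f0000001800000008 6 7) 0 0 (step_sound _ 99 [(rh551591afa7e9bd9a.shift 0 2), (rhc2cbfab6cb3a2186.shift 2 1), (rhcfde16a7ff36af03.shift 2 0)] (by decide +kernel))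
noncomputable def rh4654f954252f42d9 : CRef := CRef.mk (Pat.mk 0x180000000c00000010000000000000000000000000 0x10000000180000000f0000007c0000001f0000001c00000014 6 7) 0 0 (step_sound _ 99 [(rh1b9022be4f7af407.shift 2 0), (rh5ac338b5fcda750b.shift 0 3), (rhcd163f1646ad2f99.shift 0 1)] (by decide +kernel))
noncomputable def rh78872fa192f44b48 : CRef := CRef.mk (Pat.mk 0x80000001e00000002000000040000000000000000 0x80000003b0000001e000000120000001f0000001700000001 6 6) 0 0 (step_sound _ 161 [(rh3244c3cc8379b070.shift 0 4), rh94fba449c38eab96] (by decide +kernel))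
noncomputable def rh8c18b78dd6bcba35 : CRef := CRef.mk (Pat.mk 0x180000000800000010000000000000000000000000 0x100000001800000018000000180000000f0000007c0000001e0000001400000010 6 7) 0 0 (step_sound _ 99 [(rh215e11e099257d75.shift 3 2), (rh25fa3af2cfc2e502.shift 1 1), (rh32c58e03f09ef244.shift 3 2), (rh70e33bfdf511e144.shift 3 0), (rhf19240af8a218f1b.shift 0 2)] (by decide +kernel))
noncomputable def rh061b2d3d6bcbbed4 : CRef := CRef.mk (Pat.mk 0x200000002000000000000000100000000 0x100000007000000070000000700000007000000070000000700000003 6 3) 0 0 (step_sound _ 65 [rhc0b1b6ec899c810a, (rhe16036ff578a11df.shift 0 1), rhf4b53f8ba1873014] (by decide +kernel))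
noncomputable def rh8d3053bbd22b1455 : CRef := CRef.mk (Pat.mk 0x8000000080000000c000000100000000000000000 0x100000001c0000001c0000000f000000180000001800000008 6 5) 0 0 (step_sound _ 67 [(rh55afc6a59410cf00.shift 3 1), rhf4545da3950224b4] (by decide +kernel))
noncomputable def rhec0ceb7ff41553d0 : CRef := CRef.mk (Pat.mk 0x20000000200000002000000020000000000000000 0x6000000070000000700000003000000030000000300000002 6 3) 0 0 (step_sound _ 64 [rh214b5f744448ca32, (rh932754581e0f4330.shift 0 1)] (by decide +kernel))
noncomputable def rhcf4bc65093a4e1d8 : CRef := CRef.mk (Pat.mk 0x180000000800000008 0x4000000f70000007e000000ff00000008 6 8) 0 0 (step_sound _ 69 [(rh2820ca9a6c4f41b4.shift 0 1), rhc9c7cf671dc35cad, (rhda6f673521835f26.shift 0 1), (rhf0f55c4504412200.shift 0 1)] (by decide +kernel))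
noncomputable def rhafd570af0838a4e5 : CRef := CRef.mk (Pat.mk 0x380000001c0000001000000000 0x1c0000001f0000003c0000001c0000007800000020 6 7) 0 0 (step_sound _ 131 [(rh2145e1d24b96a57e.shift 3 1), rh7fa6382dfc6783a6] (by decide +kernel))
noncomputable def rhfcbf691f40052c7b : CRef := CRef.mk (Pat.mk 0x20000001c000000060000000400000000 0x10000000320000001f0000003e0000000c0000000c 6 6) 0 0 (step_sound _ 97 [(rh7b1f1fb55310c477.shift 1 0), rhb32eb569dfc388a6] (by decide +kernel))
noncomputable def rhfd56582272240d25 : CRef := CRef.mk (Pat.mk 0x4000000180000000c00000008 0x10000000180000001c0000000f000000180000001c0000000c 6 5) 0 0 (step_sound _ 99 [(rh50fbb5868c909700.shift 2 0), rhc3c45143d7dede26] (by decide +kernel))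
noncomputable def rhf45eff413ccd9376 : CRef := CRef.mk (Pat.mk 0x20000000200000002000000000000000000000000 0x50000000700000007000000070000000600000006000000070000000300000001 6 3) 0 0 (step_sound _ 192 [(rh114f4abf4ea101c9.shift 0 2), rh374ae440e8011597, (rhf3c18d8cfe33c40d.shift 0 2)] (by decide +kernel))
noncomputable def rhd0fbb255a4c31e87 : CRef := CRef.mk (Pat.mk 0x80000000c000000040000000400000000 0x600000006000000060000000f0000003c0000000e0000000e00000002 6 6) 0 0 (step_sound _ 130 [(rh0ef6c71ce89c1c36.shift 1 0), (rh771d065bdc85bf2d.shift 1 0), (rhad2e5f3a7ec95118.shift 1 0), (rhcf85c92937975d4d.shift 0 1)] (by decide +kernel))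
noncomputable def rh22f588d0f215729e : CRef := CRef.mk (Pat.mk 0xe000000040000000000000008 0x700000007f0000003f0000000800000008 6 7) 0 0 (step_sound _ 100 [rhaf936b924497e278, (rhaf9f2efc81a8312b.shift 0 2), (rhd542320a7a4dc2c4.shift 0 2)] (by decide +kernel))
noncomputable def rh88fd9d25b8da6576 : CRef := CRef.mk (Pat.mk 0x200000007000000000 0x1f7000001fe0000038e 6 10) 0 0 (step_sound _ 35 [(rh096767d96a1b3292.shift 3 0), rh1f9701c4cf497514, (rhec46bd5500c722c9.shift 2 1)] (by decide +kernel))
noncomputable def rhe9e3c95ffca13135 : CRef := CRef.mk (Pat.mk 0x800000008000000080000000800000000 0x140000001f00000038000000080000001800000018 6 6) 0 0 (step_sound _ 36 [rh2726962e49a46af1, (rh55afc6a59410cf00.shift 3 0)] (by decide +kernel))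
noncomputable def rhfa41466d9f81bdb9 : CRef := CRef.mk (Pat.mk 0x200000002000000000000000700000005000000000000000000000000 0x20000000e0000001c0000001f0000001f0000001c0000000c00000008 6 5) 0 0 (step_sound _ 162 [rha597fdf21e533acf, (rhcfdf45280693d3da.shift 1 3)] (by decide +kernel))
noncomputable def rh566b39f484098291 : CRef := CRef.mk (Pat.mk 0x100000001e000000080000000800000000 0xc0000000c0000000c000000180000001f0000000c0000000c00000004 6 5) 0 0 (step_sound _ 131 [(rh0ef6c71ce89c1c36.shift 2 0), (rh53b3c253cb0c65f4.shift 0 3)] (by decide +kernel))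
noncomputable def rhd176691bf67d17f3 : CRef := CRef.mk (Pat.mk 0x2000000020000000300000001000000010 0x80000007c000001ef0000007c000000d800000050 6 9) 0 0 (step_sound _ 67 [(rh2221efc44f1b9a1f.shift 2 0), (rha11dfd15f08f96e3.shift 2 2), rhb98e183a12ed98e4, (rheb15cf8ac6b18c5f.shift 2 0)] (by decide +kernel))
noncomputable def rh206cdf9c7b80caac : CRef := CRef.mk (Pat.mk 0x1c00000006000000000000000200000000 0x8000000080000003f0000001f00000036000000130000000300000001 6 6) 0 0 (step_sound _ 129 [rh662aa6c91d45906c, (rhf41a34b41b8c2138.shift 0 2), (rhff683014c19dc64a.shift 0 1)] (by decide +kernel))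
noncomputable def rhb9a8d6fdc4bdd175 : CRef := CRef.mk (Pat.mk 0x800000000000000380000000c00000000 0x8000000080000007f0000003e0000000c00000004 6 7) 0 0 (step_sound _ 99 [(rh476ca6439068be11.shift 0 1), (rh932754581e0f4330.shift 2 0)] (by decide +kernel))
noncomputable def rhfef45cf6c536ce51 : CRef := CRef.mk (Pat.mk 0x1e000000060000000000000000 0x80000003b0000001e0000003e0000003000000030 6 6) 0 0 (step_sound _ 68 [rh741369cff117c171, (rhe25b0a99195a5d59.shift 1 2)] (by decide +kernel))
noncomputable def rha9e92f7618c065c2 : CRef := CRef.mk (Pat.mk 0x180000001e000000000000000400000000 0x600000006000000070000001f0000003e000000020000000600000006 6 6) 0 0 (step_sound _ 129 [(rh3244c3cc8379b070.shift 0 3), rhf5ad212bbb559f42] (by decide +kernel))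
noncomputable def rhec695a7f3a8f949f : CRef := CRef.mk (Pat.mk 0x180000000c 0x700000007f0000003e 6 7) 0 0 (step_sound _ 37 [(rh18965a982d73c794.shift 2 0), rh32ba4427a7d050e9] (by decide +kernel))
noncomputable def rh14eb64f7ef43303a : CRef := CRef.mk (Pat.mk 0x100000001000000018000000080000000800000000 0x14000000760000007e000001ef0000007c00000020 6 9) 0 0 (step_sound _ 101 [(rh2820ca9a6c4f41b4.shift 0 2), (rh2ead9b9cc22afc12.shift 1 0), (rha8e118612a5545ec.shift 1 1), rhca300808da6dc72d] (by decide +kernel))
noncomputable def rhc3c231bd96b5cfa3 : CRef := CRef.mk (Pat.mk 0x1000000010000000180000000c0000000000000000 0x12000000330000001f0000003f0000003400000004 6 6) 0 0 (step_sound _ 65 [(rh53b3c253cb0c65f4.shift 0 2), rha829733f1610a02e] (by decide +kernel))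
noncomputable def rh09c29a991c50a875 : CRef := CRef.mk (Pat.mk 0x8000000080000000c000000080000000000000000 0x180000003c0000000f000000180000001800000018 6 6) 0 0 (step_sound _ 36 [rhd3251b5097de71f0, (rhd3458b32566d63f7.shift 3 1)] (by decide +kernel))
noncomputable def rh82c47df5bdaadca3 : CRef := CRef.mk (Pat.mk 0x80000000e000000180000001000000000 0x30000000320000003f0000001e0000001f0000003400000024 6 6) 0 0 (step_sound _ 100 [rh194b467550bfb614, rhc095b61251d3af26, (rhd283a685d2618d5b.shift 0 2)] (by decide +kernel))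
noncomputable def rh2370b1048e8e937f : CRef := CRef.mk (Pat.mk 0x4000000060000001c0000000000000000 0xc0000000c0000000c0000000e0000001e0000003700000002 6 6) 0 0 (step_sound _ 65 [(rh715db9cb16bb489c.shift 1 1), rh9c40a739b57d6d20] (by decide +kernel))
noncomputable def rh8b6d7f45369535b1 : CRef := CRef.mk (Pat.mk 0x1c000000080000000000000000 0x2000000030000003f0000003f0000000400000004 6 6) 0 0 (step_sound _ 97 [(rha03f6e28ea70fc7d.shift 0 2), rhafa5a7051d37b143, (rhf90a9b43adab6acc.shift 0 2)] (by decide +kernel))
noncomputable def rh5f3ee321733f9720 : CRef := CRef.mk (Pat.mk 0x800000008000000080000001c00000000 0x1000000018000000080000003f000000ff000000e0 6 8) 0 0 (step_sound _ 132 [(rh2f68792b6b779e96.shift 3 1), rh855f843c5d302995] (by decide +kernel))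
noncomputable def rh834e75af2e3bd78e : CRef := CRef.mk (Pat.mk 0x800000008000000080000000800000000 0x1800000018000000080000000f0000003c00000014 6 6) 0 0 (step_sound _ 36 [(rh55afc6a59410cf00.shift 3 0), rhc26e7542207e9060] (by decide +kernel))
noncomputable def rhb6c0a355fd3380b3 : CRef := CRef.mk (Pat.mk 0x800000008000000080000000800000000 0x180000001800000008000000380000001f00000014 6 6) 0 0 (step_sound _ 132 [(rh2f68792b6b779e96.shift 3 1), rh589345da44c3b4b3] (by decide +kernel))
noncomputable def rh56f29c381c78a701 : CRef := CRef.mk (Pat.mk 0x200000007000000000 0x3bf000001fe0000038e 6 10) 0 0 (step_sound _ 35 [rh1f9701c4cf497514, (rh592c7139d2c44767.shift 1 0), (rhd107e57b3b42fcdf.shift 2 0), (rhec0f150ffdda098a.shift 1 0)] (by decide +kernel))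
noncomputable def rh7052ac5ea30c04a7 : CRef := CRef.mk (Pat.mk 0x800000018000000080000000800000000 0x1800000018000000780000001f0000000c00000004 6 7) 0 0 (step_sound _ 132 [(rh2f68792b6b779e96.shift 3 1), rhd1671c6e88add9be] (by decide +kernel))
noncomputable def rh74fd8117dc4c59b4 : CRef := CRef.mk (Pat.mk 0x3800000000000000100000003000000000 0x1c7000000fe000000e70000007e000000f000000180 6 9) 0 0 (step_sound _ 102 [(rh36eba2a3de447758.shift 0 3), (rh4d5cbbe943bdf318.shift 1 0)] (by decide +kernel))
noncomputable def rh0c599552129cf348 : CRef := CRef.mk (Pat.mk 0x1000000038000000000000000000000000 0x80000007f0000007e000000070000000400000004 6 7) 0 0 (step_sound _ 98 [(rh592c7139d2c44767.shift 0 2), (rh6076add87d5fdaa7.shift 1 0), (rhec46bd5500c722c9.shift 1 3)] (by decide +kernel))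
noncomputable def rh229ada5dd452cba2 : CRef := CRef.mk (Pat.mk 0x600000004000000040000000c 0x780000007f0000003e0000000c0000000c 6 7) 0 0 (step_sound _ 99 [(rh2f68792b6b779e96.shift 2 0), rhe0ae08ca7eb83dbb] (by decide +kernel))
noncomputable def rh040e37309f7ab737 : CRef := CRef.mk (Pat.mk 0x10000000180000000e000000080000000000000000 0x6000000370000001f0000003e0000000f0000000400000004 6 6) 0 0 (step_sound _ 129 [rh24e72371d7873615, (rh9160f25ba4516b22.shift 0 3), (rhf6211e16945a8873.shift 0 1)] (by decide +kernel))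
end Crest.Agent.S0047.Helper85.Cert
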