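import Crest.Agent.Lib.S0047.Helper85CertPL6F0
import Crest.Agent.Lib.S0047.Helper85CertPL6F1
import Crest.Agent.Lib.S0047.Helper85CertPL6F2
import Crest.Agent.Lib.S0047.Helper85CertPL6F3
import Crest.Agent.Lib.S0047.Helper85CertPL6F4
import Crest.Agent.Lib.S0047.Helper85CertPL6F5
import Crest.Agent.Lib.S0047.Helper85CertPL6F6
import Crest.Agent.Lib.S0047.Helper85CertPL6F7
import Crest.Agent.Lib.S0047.Helper85CertPL6F8
import Crest.Agent.Lib.S0047.Helper85CertPL6F9
import Crest.Agent.Lib.S0047.Helper85CertPL6F10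
import Crest.Agent.Lib.S0047.Helper85CertPL6F11
import Crest.Agent.Lib.S0047.Helper85CertPL6F12
set_option autoImplicit false
set_option linter.all false
set_option Elab.async false
namespace Crest.Agent.S0047.Helper85.Cert
open Crest.Agent.S0047.Helper85

noncomputable def rh785804701e263c00 : CRef := CRef.mk (Pat.mk 0x10000000140000001000000000 0x28000000380000003e000000fe0000001f0000001800000008 7 8) 0 0 (step_sound _ 132 [(rh6e77a5b8b75aaf3d.shift 1 1), rha94490687c60c4d4, (rhc85cc95794737cf7.shift 3 1)] (by decide +kernel))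
noncomputable def rh4dc2891f3a21ef79 : CRef := CRef.mk (Pat.mk 0x2000000020000000200000000000000000000000000000000 0x60000000600000007000000030000000700000007000000070000000700000005 7 3) 0 0 (step_sound _ 97 [(rh151909bcb9d9a03a.shift 0 1), rh832d53b0c7150d1d, (rh8cdd36b03d57a2f6.shift 0 1), rh8e3b1d976c2c4cbf, (rhabedd109a9a37101.shift 0 2), (rhf517b930ee0bd92d.shift 0 1)] (by decide +kernel))
noncomputable def rh9935e6d90e5bde1c : CRef := CRef.mk (Pat.mk 0x80000000a0000000800000000 0x140000001e0000001f0000007e0000000e0000003c00000014 7 7) 0 0 (step_sound _ 131 [(rh55a026e6f690bbaf.shift 2 0), rh8ff3268104e8d133, (rhaba26d7b21102469.shift 2 0), (rhc85cc95794737cf7.shift 2 1)] (by decide +kernel))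
noncomputable def rh16588281c517ea5f : CRef := CRef.mk (Pat.mk 0x80000000a00000008000000000000000000000000 0x140000003c0000000e0000007e0000001f0000001e00000014 7 7) 0 0 (step_sound _ 67 [(rh46baee19951a66e7.shift 2 0), (rh6aa5625770489e83.shift 2 0), (rh8cdd36b03d57a2f6.shift 2 0), (rhd2a508818eb3867e.shift 0 1)] (by decide +kernel))
noncomputable def rhe5482cf45c42b97f : CRef := CRef.mk (Pat.mk 0x2800000028000000000000000000000000 0x50000000740000007c0000007c0000002f000000f8000001fc0000007c00000054 7 9) 0 0 (step_sound _ 102 [rh3bc796a2f66ab682, (rh47082137e9cd2755.shift 2 2), (rh53567e131628b92e.shift 2 0), (rh56e90c12f0808c38.shift 2 0), (rheb35796aefd5d255.shift 2 0)] (by decide +kernel))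
noncomputable def rh06c8b22768957189 : CRef := CRef.mk (Pat.mk 0x20000000380000000000000000000000000000000000000000 0x80000002c0000003e0000003e0000007f0000001e0000001e0000000e0000000a 7 7) 0 0 (step_sound _ 162 [(rh2591032a0e7f4182.shift 0 4), (rh9483656c38360087.shift 1 2), (rhfd51c958ce1d79dd.shift 1 0)] (by decide +kernel))
noncomputable def rh0f0f3fa9f3928457 : CRef := CRef.mk (Pat.mk 0x40000000700000000000000000000000000000000 0xd0000001f0000001f000000070000001f0000000f0000000700000004 7 5) 0 0 (step_sound _ 97 [(rh0cf53d437c440c03.shift 0 1), rh86f95f28e5a6006e, (rhcf80391c5046a495.shift 1 1), (rhf91b1398c815afd2.shift 1 1), (rhf9366b6a121593ef.shift 1 1)] (by decide +kernel))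
noncomputable def rh61e2fa0cb06aec6a : CRef := CRef.mk (Pat.mk 0x10000000160000000000000000000000000000000000000000 0x400000006000000370000001e0000000700000007000000070000000700000005 7 6) 0 0 (step_sound _ 163 [(rh33e738c4ed385b9f.shift 1 5), rhfd51c958ce1d79dd] (by decide +kernel))
noncomputable def rh8b0956576f208237 : CRef := CRef.mk (Pat.mk 0x200000002c0000000000000000000000000000000000000000 0x80000000c0000003f0000003e0000006f0000000e0000000e0000000e0000000a 7 7) 0 0 (step_sound _ 164 [(rh2591032a0e7f4182.shift 0 4), (rhc570c09f7c0268b1.shift 0 4), (rhfd51c958ce1d79dd.shift 1 0)] (by decide +kernel))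
noncomputable def rh170eaefe6fff8440 : CRef := CRef.mk (Pat.mk 0x200000002c000000000000000000000000 0x140000001c0000007e0000007e0000007f0000002f0000002e0000002e0000000c 7 7) 0 0 (step_sound _ 131 [rh07d54b51c8be62f5, rh24d90485bf1981a1, (rhe33d9496e10d8eb0.shift 0 3), (rhf57cfb5f52aead4a.shift 1 1)] (by decide +kernel))
noncomputable def rh48fca6bb3b33c1ca : CRef := CRef.mk (Pat.mk 0x400000007000000000000000000000000 0xa0000000e0000000f0000003c0000000e000000070000001e0000000e0000000a 7 6) 0 0 (step_sound _ 162 [(rh6ac22178ec706494.shift 0 2), rh9fdb16403d67a3eb, (rhfafeb437ceb8396d.shift 1 0)] (by decide +kernel))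
noncomputable def rh2a9689cda85ecf11 : CRef := CRef.mk (Pat.mk 0x200000002c0000000000000000000000000000000000000000 0x80000000c0000003e0000003e0000007f0000000e0000000e0000000e0000000a 7 7) 0 0 (step_sound _ 164 [(rh2591032a0e7f4182.shift 0 4), (rh2ebbcfe90e0f250d.shift 1 4), (rhfd51c958ce1d79dd.shift 1 0)] (by decide +kernel))
noncomputable def rh3a566e2c1ba9c096 : CRef := CRef.mk (Pat.mk 0x200000000c00000000000000000000000000000000 0x140000001c0000001c0000001f0000007c0000000f0000007c0000001c0000001c00000014 7 7) 0 0 (step_sound _ 163 [(rh6c84404f6a75cadc.shift 0 1), (rha17f83b3b05a65d6.shift 1 1), rhc38d58193208e5c2, (rhe33d9496e10d8eb0.shift 0 4)] (by decide +kernel))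
noncomputable def rh0e2996ede2d76017 : CRef := CRef.mk (Pat.mk 0x20000000380000000000000000000000000000000000000000 0x80000002c0000002f0000003e0000007f0000001e0000001e0000000e0000000a 7 7) 0 0 (step_sound _ 162 [(rh008b05f4778dc30d.shift 0 4), (rh775ca1963e850b80.shift 0 4), (rh9483656c38360087.shift 1 2), (rhfd51c958ce1d79dd.shift 1 0)] (by decide +kernel))
noncomputable def rhf311290e68606e04 : CRef := CRef.mk (Pat.mk 0x80000000e000000000000000000000000 0x140000001c0000007c0000001f000000780000000e0000003c0000001c00000014 7 7) 0 0 (step_sound _ 163 [(rh281c6819542c66e6.shift 2 0), (rh32431e66bbf434a4.shift 2 2), (rh9fdb16403d67a3eb.shift 1 0), (rha13779e2c22604e1.shift 0 2)] (by decide +kernel))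
noncomputable def rhbf0a7229057d5595 : CRef := CRef.mk (Pat.mk 0x80000000a000000080000000000000000 0x40000001c0000001c000000180000000c0000000f0000001c0000001c00000014 7 5) 0 0 (step_sound _ 163 [(rh20966da26a1c2ae8.shift 2 1), (rh3181373a30ceb9e3.shift 2 0), (rhdc5323e082b408b8.shift 0 1)] (by decide +kernel))
noncomputable def rh59f8fc47d75cf663 : CRef := CRef.mk (Pat.mk 0x80000000a00000008000000000000000000000000 0x40000000c0000000f0000007f0000007f0000001c00000014 7 7) 0 0 (step_sound _ 67 [(rh46baee19951a66e7.shift 2 0), (rh6aa5625770489e83.shift 2 0), (rh8cdd36b03d57a2f6.shift 2 0), (rh923f68e4cf0626c3.shift 0 1)] (by decide +kernel))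
noncomputable def rh35c58704c7e3f344 : CRef := CRef.mk (Pat.mk 0x2800000028000000000000000000000000 0x280000007f000000fe0000003f000000160000001600000004 7 8) 0 0 (step_sound _ 132 [(rh2820ca9a6c4f41b4.shift 0 3), (rh3aab2036ca4e8d0a.shift 1 1), rhcebe5d5b9be60371, (rhf0f55c4504412200.shift 0 3)] (by decide +kernel))
noncomputable def rh9da3b226075103c0 : CRef := CRef.mk (Pat.mk 0x280000002800000000000000000000000000000000 0x140000001c0000001c000001df000000f80000003f0000001e0000001c0000001c00000014 7 9) 0 0 (step_sound _ 164 [rh084ec929f0f0926d, (rh272396c8ee8fefa8.shift 2 2), (rh7d7c2155600e215e.shift 2 2), (rhf0f55c4504412200.shift 0 4)] (by decide +kernel))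
noncomputable def rh4e9d818454e572c5 : CRef := CRef.mk (Pat.mk 0x28000000280000000000000000 0x24000003f7000003fe000003bf0000001800000018 7 10) 0 0 (step_sound _ 100 [(rh2820ca9a6c4f41b4.shift 0 2), rhb55ee1177cf584c3, rhee32d14a79acfe9f, (rhf0f55c4504412200.shift 0 2)] (by decide +kernel))
noncomputable def rha9053045bcb0d4af : CRef := CRef.mk (Pat.mk 0x500000005000000000000000000000000000000000 0x3800000078000000fe0000007f0000007f0000003e0000003c0000003c00000004 7 8) 0 0 (step_sound _ 163 [(rh3b9897bf704265bb.shift 1 1), (rh9d9f9d954f3be3f9.shift 1 2), rhb4c4946b6e5fa766, (rhb69a7bebdb940bff.shift 2 1), (rhbd8b8b0dfd357853.shift 1 2), (rhf83a33c32555a52c.shift 2 1), (rhff77145a6a80795b.shift 1 2)] (by decide +kernel))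
noncomputable def rhce009b2ae93ee86a : CRef := CRef.mk (Pat.mk 0x2800000008000000000000000000000000 0x100000001c0000001c0000001c000001ff000000fe0000000f0000001c0000001c00000014 7 9) 0 0 (step_sound _ 132 [(rh272396c8ee8fefa8.shift 2 1), (rh2820ca9a6c4f41b4.shift 0 3), (rhb55ee1177cf584c3.shift 0 1), rhfe49780146593f50] (by decide +kernel))
noncomputable def rha679fa2e1ea1dc01 : CRef := CRef.mk (Pat.mk 0x2800000028000000000000000000000000 0x100000001c0000001c0000003c000003ff000003fe000003b80000001f0000001c0000001c 7 10) 0 0 (step_sound _ 132 [(rh1c12bdae631f7254.shift 0 1), (rh3aab2036ca4e8d0a.shift 1 1), (rh7bca6bf61ec65d1e.shift 0 1), (rh7d7c2155600e215e.shift 2 1), rh9c5992181d577b14, (rhb26705bd62baab27.shift 1 1), (rhee32d14a79acfe9f.shift 0 1), rhfe49780146593f50] (by decide +kernel))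
noncomputable def rh5fc433df4edd2d99 : CRef := CRef.mk (Pat.mk 0x1400000014000000000000000000000000 0xa0000000e0000000e0000003e000000370000001e0000000e0000000e0000000a 7 6) 0 0 (step_sound _ 162 [(rh0be62550ae19a47b.shift 1 2), (rh25271c74be886731.shift 1 0), (rh437d454e808ff910.shift 1 1), (rh7863e25d1d742d32.shift 1 1), rh85bb52c012d18ab3, (rhd33666284aa5c7c2.shift 1 0)] (by decide +kernel))
noncomputable def rh94990d2df97199fe : CRef := CRef.mk (Pat.mk 0x28000000280000000000000000 0x1400000014000000ff000000fe0000003f0000000800000008 7 8) 0 0 (step_sound _ 100 [rh1c12bdae631f7254, (rh272396c8ee8fefa8.shift 2 0), (rh2820ca9a6c4f41b4.shift 0 2), rhb55ee1177cf584c3] (by decide +kernel))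
noncomputable def rhf68ab2d0afb6ed29 : CRef := CRef.mk (Pat.mk 0x8000000080000000a000000000000000000000000 0x60000001f0000007e0000000e0000003c0000001c00000014 7 7) 0 0 (step_sound _ 67 [(rh0c1c1b53bc5a1510.shift 2 0), (rh3181373a30ceb9e3.shift 2 0), (rh8ff3268104e8d133.shift 0 1), (rhcae87bda2c3c01d2.shift 2 0)] (by decide +kernel))
noncomputable def rh05c31f1ad2fe6ae8 : CRef := CRef.mk (Pat.mk 0x10000000100000001000000000 0x280000003f0000007e000000ff000000180000001800000008 7 8) 0 0 (step_sound _ 132 [(rh0fd870c734e6c513.shift 3 0), (rh402d223d12d7377d.shift 3 0), (rh7c535310c8d3106b.shift 0 1), (rh7ef5fa5c39f1c762.shift 3 1)] (by decide +kernel))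
noncomputable def rh10bfcc9782bcb713 : CRef := CRef.mk (Pat.mk 0x50000000500000000000000000 0x20000000380000007f000001fe0000005f0000005800000058 7 9) 0 0 (step_sound _ 101 [(rh272396c8ee8fefa8.shift 3 0), (rh2820ca9a6c4f41b4.shift 1 2), rh356e051385f78584, (rhcec2806aff8d87ce.shift 1 0)] (by decide +kernel))
noncomputable def rh1342f0cb15232885 : CRef := CRef.mk (Pat.mk 0x28000000280000000000000000 0x5000000050000001f8000001fc000003af0000007800000038 7 10) 0 0 (step_sound _ 100 [(rh179ae2230e9c7ec4.shift 2 0), (rh2820ca9a6c4f41b4.shift 0 2), (rhd8b43b15431aaa50.shift 2 0), rhfdb38b8b144f4169] (by decide +kernel))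
noncomputable def rh4674a8a2865c7925 : CRef := CRef.mk (Pat.mk 0x28000000280000000000000000000000000000000000000000 0x440000004c0000006f0000007c0000002f000000fe0000007f0000005c0000001c00000010 7 8) 0 0 (step_sound _ 131 [(rh006baf7432b3c33d.shift 0 1), (rh0f5c947082bcb631.shift 2 1), (rh1fa33a0369aa1fc6.shift 1 1), (rh4692eec48c60ad82.shift 2 1), rh536ca930aa551413, rh87584bec0b8bcb7b, (rh8858cbf1ab06cf1d.shift 0 3), (rh9c2a11983e75daf2.shift 1 1), (rhd8745d3afce428ba.shift 2 2), (rhfe829c42ed752e6d.shift 2 1)] (by decide +kernel))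
noncomputable def rh2e17d79e2ccdc6a1 : CRef := CRef.mk (Pat.mk 0x280000002800000000000000000000000000000000 0x540000007c000001fc000000f80000002f0000007c0000007c0000007400000050 7 9) 0 0 (step_sound _ 166 [rh3d8d5ae2a0985453, (rh562c905737e2bff1.shift 2 2), (rh8d0e56b8a78c5a56.shift 2 4), (rhd5899e89efce0709.shift 2 2), (rhe5944c0a1e5f3c0d.shift 2 2)] (by decide +kernel))
noncomputable def rhedf565ae2b1b66bf : CRef := CRef.mk (Pat.mk 0x280000002800000000000000000000000000000000 0x540000007c0000007c0000003c0000002e000000fc000000ff0000005c00000014 7 8) 0 0 (step_sound _ 99 [(rh1b7e89f239630456.shift 2 0), (rh2e83dc040c94abfe.shift 2 2), (rh524a571044b20901.shift 1 1), rhb415ded3d287f8bf, (rhd8745d3afce428ba.shift 2 1), (rhfc60e486baaa63e2.shift 2 1)] (by decide +kernel))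
noncomputable def rhbdf1032edc5ac5b4 : CRef := CRef.mk (Pat.mk 0xa000000020000000000000000000000000 0x400000007000000070000000700000077e000003fe0000003f000000700000007000000050 7 11) 0 0 (step_sound _ 134 [(rh2820ca9a6c4f41b4.shift 2 3), (rh303ea2e9680ab5ed.shift 0 1), (rh5024bbfb5139b661.shift 4 3), (rhfe49780146593f50.shift 2 0)] (by decide +kernel))
noncomputable def rh3ba193a4622988fb : CRef := CRef.mk (Pat.mk 0x2800000028000000000000000000000000 0x10000000700000007400000076000001ff0000007e0000002f000000700000007000000050 7 9) 0 0 (step_sound _ 132 [(rh2820ca9a6c4f41b4.shift 0 3), rh337c55446936fb0b, (rh3eff855c7aeefff9.shift 1 0), (rhd8b43b15431aaa50.shift 2 1)] (by decide +kernel))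
noncomputable def rh56b912d448a732f3 : CRef := CRef.mk (Pat.mk 0x2800000028000000000000000000000000 0x40000000540000007c000001ff000000ff000000280000007c0000007c00000054 7 9) 0 0 (step_sound _ 163 [rh33f9ebfa742987aa, rh6f263787295a39a9, (rh8ffb89172b03b779.shift 0 2), (rha227599e268fa8fa.shift 2 0), rhc8a70f7698454acc, (rhf07c37d590073593.shift 2 0)] (by decide +kernel))
noncomputable def rh1c9f098aba83c7eb : CRef := CRef.mk (Pat.mk 0x2800000028000000000000000000000000 0x10000000700000007000000074000001f70000007e0000002f000000780000007800000050 7 9) 0 0 (step_sound _ 132 [(rh2820ca9a6c4f41b4.shift 0 3), (rh6511b207f262c31a.shift 2 0), (rhb55ee1177cf584c3.shift 0 1), (rhd8b43b15431aaa50.shift 2 1)] (by decide +kernel))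
noncomputable def rhf58ba91ec5c4105d : CRef := CRef.mk (Pat.mk 0x140000001400000000000000000000000000000000 0xa0000002e0000003f0000007e00000037000000160000003e0000007e0000002e00000002 7 7) 0 0 (step_sound _ 194 [(rh02894e155672fd94.shift 0 1), (rh04f4875e911c5ad0.shift 0 3), (rh4df310a8d4595483.shift 1 0), (rh7863e25d1d742d32.shift 1 2), (rh85bb52c012d18ab3.shift 0 1), (rhc1a03c4521ecfdbb.shift 1 1), (rhd33666284aa5c7c2.shift 1 1)] (by decide +kernel))
noncomputable def rhb316d1e645542005 : CRef := CRef.mk (Pat.mk 0xe0000000800000000000000000000000000000000 0x140000001c0000003c0000000e000000380000003f0000007c0000001c00000014 7 7) 0 0 (step_sound _ 99 [(rh0a6888916bcef86b.shift 2 0), (rh78289852fc6942a8.shift 1 2), (rhb1a251d9bff81766.shift 2 2), rhe34313b7a8d78dc3] (by decide +kernel))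
noncomputable def rh6dda7093be021bad : CRef := CRef.mk (Pat.mk 0x10000000140000001000000000000000000000000000000000 0x28000000380000003c0000001f0000001800000030000000380000003800000008 7 6) 0 0 (step_sound _ 100 [(rh15f0ce6ac32bde25.shift 1 0), (rh46baee19951a66e7.shift 3 1), (rh482d647aab4b93ee.shift 3 1), (rh50381b1ee12ee04f.shift 1 2), (rh8e09092b4eda607c.shift 0 2)] (by decide +kernel))
noncomputable def rh35130dd27eedee58 : CRef := CRef.mk (Pat.mk 0x80000000a0000000800000000000000000000000000000000 0x8000000180000007c0000000f0000000c0000001c0000001c0000001c00000004 7 7) 0 0 (step_sound _ 99 [(rh0ac77ce6e22e19ad.shift 0 1), (rh8cdd36b03d57a2f6.shift 2 1), (rh8e3b1d976c2c4cbf.shift 2 0), (rhb61eb019e882de17.shift 0 2), (rhf517b930ee0bd92d.shift 2 1)] (by decide +kernel))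
noncomputable def rh6c6cc136f2e509e9 : CRef := CRef.mk (Pat.mk 0x280000002800000000000000000000000000000000 0x140000001c0000001c0000003c000000f8000001df0000001c0000001c00000014 7 9) 0 0 (step_sound _ 132 [(rh18e52402a635c204.shift 0 1), (rh1aae126fdb0efa1d.shift 2 3), (rh24e72371d7873615.shift 2 1), (rh3e26abbf947d0cd9.shift 2 0)] (by decide +kernel))
noncomputable def rh1d9c64df42580f2e : CRef := CRef.mk (Pat.mk 0x2800000028000000000000000000000000 0x8000003bf000003fe000003f70000000400000004 7 10) 0 0 (step_sound _ 100 [(rh1aae126fdb0efa1d.shift 2 2), rh26e1017678d9da1f, (rha9fbfd4bb8cf890b.shift 0 3), (rhc533220966fcc36e.shift 0 2)] (by decide +kernel))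
noncomputable def rh491fe0e8c7f7f231 : CRef := CRef.mk (Pat.mk 0x28000000280000000000000000000000000000000000000000 0x1c0000001c0000001f000003b8000003fe000003ff0000003c0000003c0000001c00000010 7 10) 0 0 (step_sound _ 164 [rh35c1cdedc435622b, (rh3e26abbf947d0cd9.shift 2 1), (rh5b6d2bf6893374d1.shift 1 2), (rha13423141a6dee87.shift 0 2), (rha2cb1977398e6365.shift 0 2), (rhc533220966fcc36e.shift 0 4)] (by decide +kernel))
noncomputable def rh8fa31fd8c01ab202 : CRef := CRef.mk (Pat.mk 0x2c000000200000000000000000 0x2c0000006f0000003e0000003f0000001e0000001e 7 7) 0 0 (step_sound _ 100 [(rh4368217ec1272ce6.shift 1 0), (rh775ca1963e850b80.shift 0 2), (rhba50fd7aca570c30.shift 1 0), (rhdceeca65bdd8095a.shift 0 2)] (by decide +kernel))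
noncomputable def rha3284c07ebabee21 : CRef := CRef.mk (Pat.mk 0xe0000000800000000000000000000000000000000 0x180000001c0000001c0000003c0000000e0000007c000000380000001f0000001c00000014 7 7) 0 0 (step_sound _ 99 [(rh0a6888916bcef86b.shift 2 0), (rh171be9558c14d951.shift 1 2), rh2d5581c417ad61f3, (rh7b24c4ccc068b0b2.shift 2 2)] (by decide +kernel))
noncomputable def rhb2fca82b1e8fae95 : CRef := CRef.mk (Pat.mk 0x2000000020000000200000000000000000000000000000000 0x10000000300000003000000030000000300000007000000070000000700000001 7 3) 0 0 (step_sound _ 97 [(rh0fd870c734e6c513.shift 0 2), (rh46baee19951a66e7.shift 0 1), (rh8cdd36b03d57a2f6.shift 0 1), rh8e3b1d976c2c4cbf] (by decide +kernel))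
noncomputable def rh466e2b87c134c915 : CRef := CRef.mk (Pat.mk 0x80000000a0000000800000000000000000000000000000000 0x140000001c0000003e0000000f0000000c000000180000001c0000001c00000004 7 6) 0 0 (step_sound _ 99 [(rh482d647aab4b93ee.shift 2 1), (rh50381b1ee12ee04f.shift 0 2), (rh516963541d5f8797.shift 1 2), (rh8e3b1d976c2c4cbf.shift 2 0), rh939679518c416c3b, (rh9925428958c3c857.shift 0 1)] (by decide +kernel))
noncomputable def rh7a4d44fd0cea7a8a : CRef := CRef.mk (Pat.mk 0x80000000a0000000800000000000000000000000000000000 0x10000000180000001c0000000f0000000c0000001c0000001c0000001c00000004 7 5) 0 0 (step_sound _ 99 [(rh55a026e6f690bbaf.shift 2 2), (rh7d9fafa549fb17e8.shift 0 1), (rh8cdd36b03d57a2f6.shift 2 1), (rh8e3b1d976c2c4cbf.shift 2 0), (rhac06709234765f60.shift 0 1)] (by decide +kernel))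
noncomputable def rh966f922b624c48a4 : CRef := CRef.mk (Pat.mk 0x10000000140000001000000000 0x28000000380000007e0000007e0000001f0000001800000008 7 7) 0 0 (step_sound _ 132 [(rh0374d8adcfd7cffe.shift 1 1), rha94490687c60c4d4, (rhc85cc95794737cf7.shift 3 1)] (by decide +kernel))
noncomputable def rh905eb58c02103b93 : CRef := CRef.mk (Pat.mk 0x280000002800000000000000000000000000000000 0x140000001c0000001c0000003c000000f8000001df0000001c0000001c00000014 7 9) 0 0 (step_sound _ 132 [(rh1561ff1fafeb7917.shift 2 3), (rh18e52402a635c204.shift 0 1), (rh1aae126fdb0efa1d.shift 2 3), (rh3e26abbf947d0cd9.shift 2 0)] (by decide +kernel))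
noncomputable def rh5fe94d816f8ade8b : CRef := CRef.mk (Pat.mk 0x2800000028000000000000000000000000 0x8000003bf000003fe000003f70000000400000004 7 10) 0 0 (step_sound _ 100 [(rh13bc39fad46ed7d3.shift 0 2), (rh1aae126fdb0efa1d.shift 2 2), rh26e1017678d9da1f, (rha9fbfd4bb8cf890b.shift 0 3)] (by decide +kernel))
noncomputable def rh51eebb07da32d522 : CRef := CRef.mk (Pat.mk 0x8000000280000000000000000000000000000000000000000 0x140000001c0000001c0000000f000000fe000001ff0000001c0000001c0000001c00000010 7 9) 0 0 (step_sound _ 164 [(rh1561ff1fafeb7917.shift 2 4), (rh26e1017678d9da1f.shift 0 2), rh35c1cdedc435622b, (rha9fbfd4bb8cf890b.shift 0 5)] (by decide +kernel))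
noncomputable def rh708ff60e711c67c6 : CRef := CRef.mk (Pat.mk 0x28000000280000000000000000000000000000000000000000 0x1c0000001c0000001f000003b8000003fe000003ff0000003c0000003c0000001c00000010 7 10) 0 0 (step_sound _ 164 [(rh13bc39fad46ed7d3.shift 0 4), rh35c1cdedc435622b, (rh3e26abbf947d0cd9.shift 2 1), (rh5b6d2bf6893374d1.shift 1 2), (rha13423141a6dee87.shift 0 2), (rha2cb1977398e6365.shift 0 2)] (by decide +kernel))
noncomputable def rh206f38c0cccf65ba : CRef := CRef.mk (Pat.mk 0x2800000028000000000000000000000000 0x50000000740000007c0000007c0000002f000000f8000001fc0000007c00000054 7 9) 0 0 (step_sound _ 102 [(rh47082137e9cd2755.shift 2 2), (rh53567e131628b92e.shift 2 0), (rh56e90c12f0808c38.shift 2 0), rhd9be8f849f24c328, (rheb35796aefd5d255.shift 2 0)] (by decide +kernel))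
noncomputable def rh331fb2d47c2721b8 : CRef := CRef.mk (Pat.mk 0x2800000028000000000000000000000000 0x140000001c0000005c0000007f000000ff0000002f0000007c0000006f0000004c0000004c 7 8) 0 0 (step_sound _ 163 [(rh1359922a99d3d421.shift 2 1), (rh144c921ae3171e1e.shift 1 2), (rh195e2e6861faf39a.shift 2 1), (rh22e3873261c6c95d.shift 2 2), rh384816bea6041b97, rh65d01379fd6ff22b, rh6d3fabaf7ec9c89d, (rh7863e25d1d742d32.shift 2 1), rha98a27a39ca716f5, (rhdcf15acb697cf72f.shift 0 2)] (by decide +kernel))
noncomputable def rh98699bb73ae4b2e7 : CRef := CRef.mk (Pat.mk 0x280000002800000000000000000000000000000000 0x140000005c000000fe0000007c0000002f0000003c0000003c0000003c0000001400000010 7 8) 0 0 (step_sound _ 195 [(rh1dbd5905aef3dade.shift 2 0), (rh22e3873261c6c95d.shift 2 3), (rh25271c74be886731.shift 2 1), (rh2b6ecd6b948e770d.shift 0 1), (rh9025223dca583e9f.shift 2 1), (rha36af0df88df322f.shift 1 2)] (by decide +kernel))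
noncomputable def rh7e86f1f2ccc618cb : CRef := CRef.mk (Pat.mk 0x2800000028000000000000000000000000 0x6000000160000003f000000fe000001ff0000002800000028 7 9) 0 0 (step_sound _ 100 [(rh1aae126fdb0efa1d.shift 2 2), (rh5b6d2bf6893374d1.shift 1 0), (rha9fbfd4bb8cf890b.shift 0 3), (rhd1a746367486dcd3.shift 0 1)] (by decide +kernel))
noncomputable def rhc63af5372ac2eef8 : CRef := CRef.mk (Pat.mk 0x28000000280000000000000000000000000000000000000000 0x140000001c0000001c0000003c000000f8000001df0000001c0000001c0000001c00000010 7 9) 0 0 (step_sound _ 164 [(rh18e52402a635c204.shift 0 2), (rh1aae126fdb0efa1d.shift 2 4), rhd18d4b378d20653d] (by decide +kernel))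
noncomputable def rh3579cd232612f972 : CRef := CRef.mk (Pat.mk 0x2800000028000000000000000000000000 0x8000000180000003f000000fe000001f70000003400000034 7 9) 0 0 (step_sound _ 100 [(rh1aae126fdb0efa1d.shift 2 2), (rha9fbfd4bb8cf890b.shift 0 3), rheb73575cb4cd42e3, rhfe93ff8f121320b2] (by decide +kernel))
noncomputable def rhca4d6c593215322c : CRef := CRef.mk (Pat.mk 0x5000000050000000000000000000000000 0x300000003c0000003e0000007f0000007f000000fe0000007c0000007c 7 8) 0 0 (step_sound _ 99 [(rh2fa164ba5c06bb6d.shift 2 0), (rh73140a58ca03d7d7.shift 1 1), rh751bd15d29e3f2b1, (rh7d95800e7735246b.shift 2 0), (rh8ab9e83f5f23c419.shift 1 0), (rh9483e1c452b29f0f.shift 2 0), rhd5b4e0a5c05f6439, (rhe4a6d2255d83faf5.shift 1 0)] (by decide +kernel))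
noncomputable def rhd0cdf94c38de9c09 : CRef := CRef.mk (Pat.mk 0xa0000000a00000000000000000000000000000000000000000 0x500000007000000070000000bf000003fe0000007e00000070000000700000007000000040 7 10) 0 0 (step_sound _ 166 [(rh24e72371d7873615.shift 4 2), (rh35c1cdedc435622b.shift 2 0), (rha9fbfd4bb8cf890b.shift 2 5), (rheac2252718eeeedc.shift 0 1)] (by decide +kernel))
noncomputable def rh81669ca85f0db997 : CRef := CRef.mk (Pat.mk 0x280000002800000000000000000000000000000000 0x5000000070000000780000007c0000002f000000f8000000fc000000780000005000000010 7 8) 0 0 (step_sound _ 197 [(rh23d7ba318d89735b.shift 4 1), (rh337c3c81a319a681.shift 4 2), (rh6284786a844ed091.shift 0 1), (rh6d22e4af4868beec.shift 2 3), (rhd4242b064a82e02d.shift 3 0), (rheb3e6ecc315d169c.shift 2 1), (rhff22ab043b310713.shift 2 2)] (by decide +kernel))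
noncomputable def rhe45744a3cf90c8ff : CRef := CRef.mk (Pat.mk 0x28000000280000000000000000000000000000000000000000 0x5000000070000000700000002f0000007c000001f000000070000000700000007000000010 7 9) 0 0 (step_sound _ 164 [(rh35a02af777b98683.shift 2 2), (rh7a593c64f6eb9643.shift 2 0), (rha9fbfd4bb8cf890b.shift 0 5)] (by decide +kernel))
noncomputable def rhddd48617d817fc5f : CRef := CRef.mk (Pat.mk 0x28000000280000000000000000000000000000000000000000 0x5000000070000000780000002f0000007e000001f700000074000000740000007000000010 7 9) 0 0 (step_sound _ 164 [(rh35a02af777b98683.shift 2 2), (rha709a225f5cf9b55.shift 0 2), (rha7c1da122ef3c297.shift 2 0), (rha9fbfd4bb8cf890b.shift 0 5)] (by decide +kernel))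
noncomputable def rh1de33672d038dff1 : CRef := CRef.mk (Pat.mk 0x80000000a00000008000000000000000000000000 0x40000000c0000000f0000003f0000003f0000001c00000014 7 6) 0 0 (step_sound _ 67 [(rh178f93a87db8ff18.shift 0 1), (rh46baee19951a66e7.shift 2 0), (rh6aa5625770489e83.shift 2 0), (rh8cdd36b03d57a2f6.shift 2 0)] (by decide +kernel))
noncomputable def rh5024a5ef63d82900 : CRef := CRef.mk (Pat.mk 0x280000002800000000000000000000000000000000 0x140000001c0000001c000001df000000f80000003f0000001e0000001c0000001c00000014 7 9) 0 0 (step_sound _ 164 [rh084ec929f0f0926d, (rh5024bbfb5139b661.shift 2 4), (rh7d7c2155600e215e.shift 2 2), (rhf0f55c4504412200.shift 0 4)] (by decide +kernel))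
noncomputable def rh26018f6d53b1e13e : CRef := CRef.mk (Pat.mk 0x2800000008000000000000000000000000 0x100000001c0000001c0000001c000001ff000000fe0000000f0000001c0000001c00000014 7 9) 0 0 (step_sound _ 132 [(rh2820ca9a6c4f41b4.shift 0 3), (rh5024bbfb5139b661.shift 2 3), (rhb55ee1177cf584c3.shift 0 1), rhfe49780146593f50] (by decide +kernel))
noncomputable def rhc1a7ff724dedc865 : CRef := CRef.mk (Pat.mk 0x2800000028000000000000000000000000 0x100000001c0000001c0000003c000003ff000003fe000003b80000001f0000001c0000001c 7 10) 0 0 (step_sound _ 132 [(rh3aab2036ca4e8d0a.shift 1 1), (rh7bca6bf61ec65d1e.shift 0 1), (rh7d7c2155600e215e.shift 2 1), rh9c5992181d577b14, (rhb26705bd62baab27.shift 1 1), (rhee32d14a79acfe9f.shift 0 1), rhfe49780146593f50] (by decide +kernel))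
noncomputable def rh16010ae752ca89fa : CRef := CRef.mk (Pat.mk 0x280000002800000000000000000000000000000000 0x540000007c000001fc000000f80000002f0000007c0000007c0000007400000050 7 9) 0 0 (step_sound _ 166 [(rh562c905737e2bff1.shift 2 2), rh76523ba3d06e7b78, (rh8d0e56b8a78c5a56.shift 2 4), (rhd5899e89efce0709.shift 2 2), (rhe5944c0a1e5f3c0d.shift 2 2)] (by decide +kernel))
noncomputable def rh8c3e2f5034e49617 : CRef := CRef.mk (Pat.mk 0x140000001400000000000000000000000000000000 0xa0000000e0000001e0000001e000000170000007e0000007f0000002e0000000a 7 7) 0 0 (step_sound _ 98 [(rh1b7e89f239630456.shift 1 0), (rh2e83dc040c94abfe.shift 1 2), (rh524a571044b20901.shift 0 1), rh9c2a11983e75daf2, (rhd8745d3afce428ba.shift 1 1), (rhfc60e486baaa63e2.shift 1 1)] (by decide +kernel))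
noncomputable def rhc41299aecd9dc9b7 : CRef := CRef.mk (Pat.mk 0x140000001400000000000000000000000000000000 0xa0000002e0000003f0000007e00000037000000160000003e0000007e0000002e00000002 7 7) 0 0 (step_sound _ 194 [(rh02894e155672fd94.shift 0 1), (rh04f4875e911c5ad0.shift 0 3), (rh3139c52f41037bb3.shift 1 0), (rh7863e25d1d742d32.shift 1 2), (rh85bb52c012d18ab3.shift 0 1), (rhc1a03c4521ecfdbb.shift 1 1), (rhd33666284aa5c7c2.shift 1 1)] (by decide +kernel))
noncomputable def rha776f61147d129ad : CRef := CRef.mk (Pat.mk 0x20000000380000000000000000000000000000000000000000 0x80000002c0000003e0000003e0000007f0000001e0000001e0000000e0000000a 7 7) 0 0 (step_sound _ 162 [(rh2591032a0e7f4182.shift 0 4), (rh9483656c38360087.shift 1 2), (rhc771cebdf788c766.shift 1 0)] (by decide +kernel))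
noncomputable def rh30c017f1ffbb3c60 : CRef := CRef.mk (Pat.mk 0x10000000160000000000000000000000000000000000000000 0x400000006000000370000001e0000000700000007000000070000000700000005 7 6) 0 0 (step_sound _ 163 [(rh33e738c4ed385b9f.shift 1 5), rhc771cebdf788c766] (by decide +kernel))
noncomputable def rh038efa54883c0dc8 : CRef := CRef.mk (Pat.mk 0x200000002c0000000000000000000000000000000000000000 0x80000000c0000003f0000003e0000006f0000000e0000000e0000000e0000000a 7 7) 0 0 (step_sound _ 164 [(rh2591032a0e7f4182.shift 0 4), (rhc570c09f7c0268b1.shift 0 4), (rhc771cebdf788c766.shift 1 0)] (by decide +kernel))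
noncomputable def rh4d3383f81f8fc093 : CRef := CRef.mk (Pat.mk 0x200000002c0000000000000000000000000000000000000000 0x80000000c0000003e0000003e0000007f0000000e0000000e0000000e0000000a 7 7) 0 0 (step_sound _ 164 [(rh2591032a0e7f4182.shift 0 4), (rh2ebbcfe90e0f250d.shift 1 4), (rhc771cebdf788c766.shift 1 0)] (by decide +kernel))
noncomputable def rha594bb166c0e9f07 : CRef := CRef.mk (Pat.mk 0x20000000380000000000000000000000000000000000000000 0x80000002c0000002f0000003e0000007f0000001e0000001e0000000e0000000a 7 7) 0 0 (step_sound _ 162 [(rh008b05f4778dc30d.shift 0 4), (rh775ca1963e850b80.shift 0 4), (rh9483656c38360087.shift 1 2), (rhc771cebdf788c766.shift 1 0)] (by decide +kernel))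
noncomputable def rh9c611607b5bbe761 : CRef := CRef.mk (Pat.mk 0x80000000a000000080000000000000000 0x40000001c0000001c000000180000000c0000000f0000001c0000001c00000014 7 5) 0 0 (step_sound _ 163 [(rh20966da26a1c2ae8.shift 2 1), (rh250144064dd83c8d.shift 0 1), (rh3181373a30ceb9e3.shift 2 0)] (by decide +kernel))
noncomputable def rh3126c48f3ad854ad : CRef := CRef.mk (Pat.mk 0x280000002800000000000000000000000000000000 0x40000000540000007c0000007f0000003e0000002f000000fc000000fc0000005c00000014 7 8) 0 0 (step_sound _ 99 [(rh1b7e89f239630456.shift 2 0), (rh2e83dc040c94abfe.shift 2 2), (rh524a571044b20901.shift 1 1), rh7feaeaf47287cc9f, (rhd8745d3afce428ba.shift 2 1), (rhfc60e486baaa63e2.shift 2 1)] (by decide +kernel))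
noncomputable def rha2bb9f3a1012dac9 : CRef := CRef.mk (Pat.mk 0x38000000200000000000000000 0x20000000e0000000e0000000e0000007f0000003e0000003f0000000c0000000c 7 7) 0 0 (step_sound _ 98 [(rh46332abad5027c18.shift 1 0), (rh61325f73ebf98108.shift 0 3), (rhdceeca65bdd8095a.shift 0 2)] (by decide +kernel))
noncomputable def rhe0773df4219cf24e : CRef := CRef.mk (Pat.mk 0x1c0000001000000000000000000000000000000000 0x28000000380000007c0000001c000000f60000007f0000003e0000003800000028 7 8) 0 0 (step_sound _ 100 [(rh0a6888916bcef86b.shift 3 0), rh1bd8920d2f14b810, (rh78289852fc6942a8.shift 2 2), (rhb1a251d9bff81766.shift 3 2)] (by decide +kernel))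
noncomputable def rhd30abbb3f01d7a99 : CRef := CRef.mk (Pat.mk 0x40000000500000004000000000000000000000000 0x200000006000000070000003f0000003f0000000e0000000a 7 6) 0 0 (step_sound _ 66 [(rh2c2fe6833255506f.shift 0 1), (rh46baee19951a66e7.shift 1 0), (rh6aa5625770489e83.shift 1 0), (rh8cdd36b03d57a2f6.shift 1 0)] (by decide +kernel))
noncomputable def rhbf318c5e32be550e : CRef := CRef.mk (Pat.mk 0x2800000028000000000000000000000000 0x50000000740000007c0000007c0000002f000000f8000001fc0000007c00000054 7 9) 0 0 (step_sound _ 102 [(rh47082137e9cd2755.shift 2 2), (rh53567e131628b92e.shift 2 0), (rh56e90c12f0808c38.shift 2 0), (rheb35796aefd5d255.shift 2 0), rhef97ea8c1586b0ec] (by decide +kernel))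
noncomputable def rh4d1bc2efa5fb9a7a : CRef := CRef.mk (Pat.mk 0x280000002800000000000000000000000000000000 0x140000005c000000ff0000007c0000002f0000003c0000007c0000007c0000005400000010 7 8) 0 0 (step_sound _ 195 [(rh0c7e05f9815f99a4.shift 0 1), (rh1dbd5905aef3dade.shift 2 0), (rh22e3873261c6c95d.shift 2 3), (rh25271c74be886731.shift 2 1), (rh2b6ecd6b948e770d.shift 0 1), (rh9025223dca583e9f.shift 2 1)] (by decide +kernel))
noncomputable def rh5b0c5ae25331cf2e : CRef := CRef.mk (Pat.mk 0x2c0000002000000000000000000000000000000000 0x40000002c0000002c0000002f0000007e0000007e0000003e0000001e00000014 7 7) 0 0 (step_sound _ 131 [(rh7548188f20d42b3e.shift 1 0), (rh8c25cb665ab79ec0.shift 0 4), (rha45bcd1a02ddba08.shift 1 1), (rhe09cfcd5f84c47cb.shift 1 1)] (by decide +kernel))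
noncomputable def rh4c8db98b1685600d : CRef := CRef.mk (Pat.mk 0x2c0000002000000000000000000000000000000000 0x140000001c0000001c0000007c0000002f0000007c0000001f0000001c0000001c00000014 7 7) 0 0 (step_sound _ 131 [rh1478c2e2940ca327, (rh3e82642b6dbefbe8.shift 0 1), (rh8c25cb665ab79ec0.shift 0 4), rhdd654bbc0781e67b] (by decide +kernel))
noncomputable def rh00a4e6953a30e0fa : CRef := CRef.mk (Pat.mk 0x2800000028000000000000000000000000 0x6000000160000003f000000fe000001ef0000002800000028 7 9) 0 0 (step_sound _ 100 [(rh1aae126fdb0efa1d.shift 2 2), (rh522c06da44453fc0.shift 0 1), (rh5b6d2bf6893374d1.shift 1 0), (rha9fbfd4bb8cf890b.shift 0 3)] (by decide +kernel))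
noncomputable def rh58839649edc53370 : CRef := CRef.mk (Pat.mk 0x2800000028000000000000000000000000 0x8000003bf000003fe000003f70000000400000004 7 10) 0 0 (step_sound _ 100 [(rh13bc39fad46ed7d3.shift 0 2), (rh1aae126fdb0efa1d.shift 2 2), (rha9fbfd4bb8cf890b.shift 0 3), rhe80e002c72bee859] (by decide +kernel))
noncomputable def rh1885265dbb76d73c : CRef := CRef.mk (Pat.mk 0x5000000050000000000000000000000000 0x300000003c0000003e0000007f0000007f000000fe0000007c0000007c 7 8) 0 0 (step_sound _ 99 [(rh0b4c800e40daca93.shift 1 0), (rh1f7d86723a9e3d25.shift 1 0), (rh2fa164ba5c06bb6d.shift 2 0), rh751bd15d29e3f2b1, (rh933d752ab09d6fc8.shift 1 0), rhd5b4e0a5c05f6439, (rhe4a6d2255d83faf5.shift 1 0)] (by decide +kernel))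
noncomputable def rh9657c4e9de9e592c : CRef := CRef.mk (Pat.mk 0x28000000280000000000000000000000000000000000000000 0x1c0000001c0000001f000003b8000003fe000003ff0000003c0000003c0000001c00000010 7 10) 0 0 (step_sound _ 164 [(rh0e3012db365425d2.shift 0 2), (rh13bc39fad46ed7d3.shift 0 4), rh35c1cdedc435622b, (rh5b6d2bf6893374d1.shift 1 2), (rha13423141a6dee87.shift 0 2), (rhb2e5cbe21dba9d63.shift 0 2), rhd18d4b378d20653d] (by decide +kernel))
noncomputable def rhadd90ec1b7e4b9a1 : CRef := CRef.mk (Pat.mk 0x140000001400000000000000000000000000000000 0x20000000e0000000e0000000e0000001e000000370000003e0000000e0000000e0000000a 7 6) 0 0 (step_sound _ 98 [(rh0eb09afa9815783c.shift 1 1), (rh406170d06d2e1040.shift 1 1), (rh4e9d0b2b6a8ba645.shift 1 0), (rh7fd74e6b1fad4415.shift 1 0), (rh946a116aad97a44e.shift 1 0), (rhe19deee2c270a386.shift 1 1), (rhfdee0034602635ef.shift 0 2)] (by decide +kernel))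
noncomputable def rh6a99014ce63c1bed : CRef := CRef.mk (Pat.mk 0x2800000028000000000000000000000000 0x8000000080000003f000000fe000000ff0000001400000014 7 8) 0 0 (step_sound _ 100 [(rh24e72371d7873615.shift 2 0), (rha9fbfd4bb8cf890b.shift 0 3), rhb2e5cbe21dba9d63, rhe80e002c72bee859] (by decide +kernel))
noncomputable def rh6ff752692192a7b0 : CRef := CRef.mk (Pat.mk 0x280000002800000000000000000000000000000000 0x5000000078000000780000002f000001fe000003f8000000700000005000000040 7 10) 0 0 (step_sound _ 132 [(rh35a02af777b98683.shift 2 1), (rha9fbfd4bb8cf890b.shift 0 4), rhcaa03f6b6d88a321, (rhf9580640a27249ea.shift 1 1)] (by decide +kernel))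
noncomputable def rh11ca0a5835e50783 : CRef := CRef.mk (Pat.mk 0x2800000028000000000000000000000000 0x50000000740000007e0000007c0000002f000000f8000001fc0000007c00000054 7 9) 0 0 (step_sound _ 102 [(rh47082137e9cd2755.shift 2 2), (rh53567e131628b92e.shift 2 0), (rh56e90c12f0808c38.shift 2 0), rh5b886a982931d73f, (rheb35796aefd5d255.shift 2 0)] (by decide +kernel))
noncomputable def rh1c699aaa396cbe17 : CRef := CRef.mk (Pat.mk 0x2800000028000000000000000000000000 0x1c0000001c0000005c0000007f000000fc0000002f0000007c0000006f0000004c0000004c 7 8) 0 0 (step_sound _ 163 [(rh1359922a99d3d421.shift 2 1), (rh144c921ae3171e1e.shift 1 2), (rh195e2e6861faf39a.shift 2 1), (rh22e3873261c6c95d.shift 2 2), (rh34591e096d65cc60.shift 0 2), rh51bc613c74b3f827, rh65d01379fd6ff22b, (rh7863e25d1d742d32.shift 2 1), rha98a27a39ca716f5, (rhdcf15acb697cf72f.shift 0 2)] (by decide +kernel))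
noncomputable def rh6876e890232a4cab : CRef := CRef.mk (Pat.mk 0x280000002800000000000000000000000000000000 0x540000007c0000007e0000007c0000002f0000003c0000007c0000007c0000001400000010 7 7) 0 0 (step_sound _ 195 [(rh1dbd5905aef3dade.shift 2 0), (rh22e3873261c6c95d.shift 2 3), (rh25271c74be886731.shift 2 1), rh70938405051a0d86, (rh9025223dca583e9f.shift 2 1), (rh962ff5e91946d9a6.shift 2 1), (rha36af0df88df322f.shift 1 2)] (by decide +kernel))
noncomputable def rhb40025c0a0622650 : CRef := CRef.mk (Pat.mk 0x280000002800000000000000000000000000000000 0x40000005c0000007c0000007c0000002f0000006e000000fc0000007e0000005c00000014 7 8) 0 0 (step_sound _ 99 [(rh07742a86ca09bcc6.shift 2 1), (rh0eb09afa9815783c.shift 2 1), (rh30afbeb9a1894893.shift 1 0), (rh4692eec48c60ad82.shift 2 0), (rh5c5fc92a22ce9407.shift 2 1), (rh72ef61a7f3630de0.shift 1 2), (rhd24db5edf9fa939b.shift 0 1), (rhe8a7723f405835bc.shift 0 2)] (by decide +kernel))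
noncomputable def rh1943ed916905c68b : CRef := CRef.mk (Pat.mk 0x3800000000000000000000000000000000 0x80000000c0000007f0000003e0000000f0000000e0000000e0000000a 7 7) 0 0 (step_sound _ 130 [(rh61325f73ebf98108.shift 0 4), (rh7654d7b92c96fe12.shift 0 3), (rh775ca1963e850b80.shift 0 3), (rhd786ce554ecf645a.shift 1 0)] (by decide +kernel))
noncomputable def rh808c9d01e7718c12 : CRef := CRef.mk (Pat.mk 0x1c00000010000000000000000000000000 0xc0000001c0000001c0000001c0000007f000000ff0000003c00000034 7 8) 0 0 (step_sound _ 99 [(rh15f7074b5d96251a.shift 0 1), (rh1b5ec731c1fabe5b.shift 2 1), rh476c2d497c3f6c9c, rh4f5df7961f37c748, rh8264b42a4ddd37d8, (rhc705035edf4ae2a3.shift 2 0)] (by decide +kernel))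
noncomputable def rh6753d1cb8251e19a : CRef := CRef.mk (Pat.mk 0xe000000080000000000000000000000000000000000000000 0x1c0000001c0000001e0000000e0000003f0000007f0000001a0000001e0000001c00000014 7 7) 0 0 (step_sound _ 131 [(rh7b24c4ccc068b0b2.shift 2 3), (rhb1a251d9bff81766.shift 2 3), (rhb211e7a32c656713.shift 0 1), (rhf9a6286f1d5377a2.shift 2 3), (rhfb0ed49cb7581ad4.shift 2 0)] (by decide +kernel))
noncomputable def rhc20b0fbc16c13cc1 : CRef := CRef.mk (Pat.mk 0x80000000a000000080000000000000000 0x80000001c0000003c0000001f0000000f0000007c0000000800000008 7 7) 0 0 (step_sound _ 98 [rhb439e3a99860a0b2, (rhc21a95c499b3efdb.shift 0 2), (rhcf86d050071af9b3.shift 0 2)] (by decide +kernel))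
noncomputable def rh475f9c2c1aba2bb1 : CRef := CRef.mk (Pat.mk 0x80000000a0000000800000000000000000000000000000000 0x80000001c0000001c0000001e0000000f0000000c000000180000001c0000001c00000004 7 5) 0 0 (step_sound _ 99 [(rh46baee19951a66e7.shift 2 1), (rh482d647aab4b93ee.shift 2 1), (rh50381b1ee12ee04f.shift 0 2), (rh8dd419aa8bce8f44.shift 2 2), rh939679518c416c3b] (by decide +kernel))
noncomputable def rh47293bc0e5753fa8 : CRef := CRef.mk (Pat.mk 0x2000000028000000200000000000000000 0x540000007c0000007c0000007c0000003f0000007c0000004c0000000c 7 7) 0 0 (step_sound _ 98 [(rh22e203964f906d4b.shift 1 2), (rhabf575676fe0ef70.shift 2 2), rhcd2d26f17ddb0f95, (rhfab07166472d707d.shift 2 1)] (by decide +kernel))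
noncomputable def rh26eaf0739caf63fd : CRef := CRef.mk (Pat.mk 0x200000002800000020000000000000000000000000 0x1000000010000000180000007c0000003f00000068000000680000006000000040 7 7) 0 0 (step_sound _ 164 [(rh197dcd1a04c8a0da.shift 0 2), (rh7759315ec94af6eb.shift 0 3), (rhc9d9911fa6afb9b1.shift 1 1), (rhd1779d7de7f8215b.shift 4 0)] (by decide +kernel))
noncomputable def rh3f4bf75ecd224552 : CRef := CRef.mk (Pat.mk 0x380000002000000000000000000000000000000000 0x50000000700000007800000038000001ef000000fe000003ff0000007400000050 7 10) 0 0 (step_sound _ 101 [(rh0a6888916bcef86b.shift 4 0), (rh69992c4b09a3cb9e.shift 2 0), (rhb1a251d9bff81766.shift 4 2), rhb8b890bb8fcd9db6] (by decide +kernel))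
noncomputable def rh6045821871482010 : CRef := CRef.mk (Pat.mk 0x14000000140000000000000000000000000000000000000000 0x20000000e0000000e0000000e0000001e000000370000003e0000000e0000000e0000000e00000008 7 6) 0 0 (step_sound _ 130 [(rh0eb09afa9815783c.shift 1 2), (rh1da89da88f0aef66.shift 1 2), (rh4e9d0b2b6a8ba645.shift 1 1), (rh89037ab695e73e6b.shift 1 0), (rhc5c5b88722b9bb4a.shift 1 2), (rhe19deee2c270a386.shift 1 2), (rhfdee0034602635ef.shift 0 3)] (by decide +kernel))
noncomputable def rh7288561654f7bdf6 : CRef := CRef.mk (Pat.mk 0x80000000a0000000800000000000000000000000000000000 0x10000000180000001c0000000f0000000c0000001c0000001c0000001c00000004 7 5) 0 0 (step_sound _ 99 [(rh20966da26a1c2ae8.shift 2 2), (rh8cdd36b03d57a2f6.shift 2 1), (rh8e3b1d976c2c4cbf.shift 2 0), (rhac06709234765f60.shift 0 1)] (by decide +kernel))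
noncomputable def rhfc3b104d482890f4 : CRef := CRef.mk (Pat.mk 0x20000000200000002000000000000000000000000 0x500000007000000070000000200000003000000070000000700000005 7 3) 0 0 (step_sound _ 65 [rh482d647aab4b93ee, (rh565a0c22519f57e9.shift 0 1), rh8cdd36b03d57a2f6] (by decide +kernel))
noncomputable def rh0f523df9583efd76 : CRef := CRef.mk (Pat.mk 0x20000000280000002000000000 0x500000007c0000007e0000007f0000003e0000003000000010 7 7) 0 0 (step_sound _ 133 [rh97e17cf4ec142309, (rha94490687c60c4d4.shift 1 0), (rhc85cc95794737cf7.shift 4 1)] (by decide +kernel))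
noncomputable def rhac14b6688e321b96 : CRef := CRef.mk (Pat.mk 0x200000002000000020000000000000000 0x20000000700000007000000070000000300000003000000030000000300000001 7 3) 0 0 (step_sound _ 161 [(rh20966da26a1c2ae8.shift 0 1), (rh565a0c22519f57e9.shift 0 1), rh6aa5625770489e83, (rh8dd419aa8bce8f44.shift 0 1)] (by decide +kernel))
noncomputable def rhf6cc02344f68e7ab : CRef := CRef.mk (Pat.mk 0x200000002000000020000000000000000 0x700000007000000070000000300000007000000070000000600000004 7 3) 0 0 (step_sound _ 161 [rh46baee19951a66e7, (rh8065c10b3cae6218.shift 0 1), (rh950167ce9f0ab7e5.shift 0 1), (rhced6d86d2069808b.shift 1 1)] (by decide +kernel))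
noncomputable def rhdd46b5f0ec7c0c52 : CRef := CRef.mk (Pat.mk 0x5000000040000000400000000 0xa0000000e0000000e000000070000003f0000003f0000000a 7 6) 0 0 (step_sound _ 130 [(rh12461e137161f2e1.shift 1 0), rh2c2fe6833255506f, (rh565a0c22519f57e9.shift 1 0), (rh8065c10b3cae6218.shift 1 0)] (by decide +kernel))
noncomputable def rhc4dd8f9c326352dc : CRef := CRef.mk (Pat.mk 0x2800000028000000000000000000000000 0x140000001c0000005c0000007f0000007f0000002f0000007c0000006f0000004c0000004c 7 7) 0 0 (step_sound _ 163 [(rh1359922a99d3d421.shift 2 1), (rh17080b283a524d90.shift 1 2), (rh195e2e6861faf39a.shift 2 1), (rh22e3873261c6c95d.shift 2 2), rh65d01379fd6ff22b, (rh6b29f88553ee0391.shift 0 2), rh6d3fabaf7ec9c89d, (rh7863e25d1d742d32.shift 2 1), rha98a27a39ca716f5, rhb5bcfa420a8616b3] (by decide +kernel))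
noncomputable def rhbd96504c5ebda190 : CRef := CRef.mk (Pat.mk 0x28000000280000000000000000000000000000000000000000 0x40000001c0000001c0000003c0000002f0000006e000000fc0000007f0000005c0000001c00000010 7 8) 0 0 (step_sound _ 131 [(rh0eb09afa9815783c.shift 2 2), (rh30afbeb9a1894893.shift 1 1), (rh4692eec48c60ad82.shift 2 1), (rh5c5fc92a22ce9407.shift 2 2), (rh72ef61a7f3630de0.shift 1 3), rh87584bec0b8bcb7b, (rhd24db5edf9fa939b.shift 0 2), (rhe8a7723f405835bc.shift 0 3)] (by decide +kernel))
noncomputable def rh7442f19178168c4a : CRef := CRef.mk (Pat.mk 0x2000000038000000000000000000000000 0xa0000000e0000002e0000002f0000003e0000007f0000001c0000001c 7 7) 0 0 (step_sound _ 98 [(rh008b05f4778dc30d.shift 0 2), (rh775ca1963e850b80.shift 0 2), (rh905ff86a2bb85556.shift 1 0), (rh9483656c38360087.shift 1 0)] (by decide +kernel))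
noncomputable def rh8a4f0c66cbe6111f : CRef := CRef.mk (Pat.mk 0x100000001c000000000000000000000000 0x3c0000007e0000007f0000001c0000001c0000001c0000001c 7 7) 0 0 (step_sound _ 67 [(rh0cf53d437c440c03.shift 2 0), (rh7087ed749937888b.shift 0 1), (rhcf80391c5046a495.shift 3 0), (rhf91b1398c815afd2.shift 3 0), (rhf9366b6a121593ef.shift 3 0)] (by decide +kernel))
noncomputable def rha5d0bef1ab6512e7 : CRef := CRef.mk (Pat.mk 0x80000000e000000000000000000000000 0x140000001c0000001c0000001a0000007f0000003f0000000e0000001e0000001c0000001c 7 7) 0 0 (step_sound _ 163 [(rh281c6819542c66e6.shift 2 0), rh386728ae1dca1cd9, (rhde837af223c7be82.shift 2 0), (rhfafeb437ceb8396d.shift 2 0)] (by decide +kernel))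
noncomputable def rhf23afd36518b851a : CRef := CRef.mk (Pat.mk 0x1000000016000000000000000000000000 0x50000000700000007000000370000001e000000070000000600000006 7 6) 0 0 (step_sound _ 99 [(rh33e738c4ed385b9f.shift 1 3), rh905ff86a2bb85556] (by decide +kernel))
noncomputable def rhf5e66af53bdc2c6b : CRef := CRef.mk (Pat.mk 0x200000002c000000000000000000000000 0xa0000000e0000000e0000003f0000003e0000006f0000000c0000000c 7 7) 0 0 (step_sound _ 100 [(rh2591032a0e7f4182.shift 0 2), (rh905ff86a2bb85556.shift 1 0), (rhc570c09f7c0268b1.shift 0 2)] (by decide +kernel))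
noncomputable def rhc517be391ab17685 : CRef := CRef.mk (Pat.mk 0x1000000014000000100000000000000000 0x8000000380000003800000030000000180000001f000000380000003800000028 7 6) 0 0 (step_sound _ 164 [(rh20966da26a1c2ae8.shift 3 1), (rh8cdd36b03d57a2f6.shift 3 0), (rhdc5323e082b408b8.shift 1 1), (rhe8eb80f1344c3d24.shift 0 1)] (by decide +kernel))
noncomputable def rhd4b39f26cd68f88a : CRef := CRef.mk (Pat.mk 0x200000002800000020000000000000000000000000 0x40000004c0000007c0000003f0000007c0000007c0000007c00000054 7 7) 0 0 (step_sound _ 130 [(rh22e203964f906d4b.shift 1 3), rh2df306c35767f720, (rh2e8efbc4684aef7b.shift 1 3), (rhabf575676fe0ef70.shift 2 3)] (by decide +kernel))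
noncomputable def rh897d82a5901fb2a2 : CRef := CRef.mk (Pat.mk 0x200000002800000020000000000000000000000000 0x28000000680000003f0000007c000000180000001000000010 7 7) 0 0 (step_sound _ 100 [rh8712594ed9a95de5, (rhcaefbb96361b9b5e.shift 0 3), (rhfafeb437ceb8396d.shift 4 0)] (by decide +kernel))
noncomputable def rh86ac9ffe48a676c5 : CRef := CRef.mk (Pat.mk 0x200000002c000000000000000000000000 0xa0000000e0000000e0000003e0000003e0000007f0000000c0000000c 7 7) 0 0 (step_sound _ 100 [(rh2591032a0e7f4182.shift 0 2), (rh2ebbcfe90e0f250d.shift 1 2), (rh905ff86a2bb85556.shift 1 0)] (by decide +kernel))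
noncomputable def rh2a3e67fe5f7a8c01 : CRef := CRef.mk (Pat.mk 0x2000000038000000000000000000000000 0x5000000070000003ff000000fe000001ef00000038000000780000007000000050 7 10) 0 0 (step_sound _ 165 [(rh281c6819542c66e6.shift 4 0), (rh32431e66bbf434a4.shift 4 2), (rha941fbe02a9fc7be.shift 2 1), rhab1ab5d50a69c413] (by decide +kernel))
noncomputable def rh04f7ded0fefc3563 : CRef := CRef.mk (Pat.mk 0x200000002800000020000000000000000000000000 0x10000000300000003e000000780000007e0000007f00000050 7 7) 0 0 (step_sound _ 69 [(rh212ae97a1e81d8b4.shift 0 1), (rh46baee19951a66e7.shift 4 0), (rh6aa5625770489e83.shift 4 0), (rh8cdd36b03d57a2f6.shift 4 0)] (by decide +kernel))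
noncomputable def rhd602531bc21af256 : CRef := CRef.mk (Pat.mk 0x8000000080000000a000000000000000000000000 0x140000007e0000007f0000000e0000001c0000001c00000014 7 7) 0 0 (step_sound _ 67 [(rh46baee19951a66e7.shift 2 0), (rh6aa5625770489e83.shift 2 0), (rh8cdd36b03d57a2f6.shift 2 0), (rhd9aacc676827eb17.shift 0 2)] (by decide +kernel))
noncomputable def rha9d599297f41c94c : CRef := CRef.mk (Pat.mk 0x2800000028000000000000000000000000 0x400000005000000070000001f8000001fc000003af000000780000007800000050 7 10) 0 0 (step_sound _ 132 [(rh179ae2230e9c7ec4.shift 2 1), (rh2820ca9a6c4f41b4.shift 0 3), rhbc0439490fae6931, (rhd8b43b15431aaa50.shift 2 1)] (by decide +kernel))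
noncomputable def rhdaea7481c182fe38 : CRef := CRef.mk (Pat.mk 0x28000000280000000000000000000000000000000000000000 0x440000004c0000006f0000007c0000002f0000007e0000007f0000005c0000001c00000010 7 7) 0 0 (step_sound _ 131 [(rh1fa33a0369aa1fc6.shift 1 1), (rh4692eec48c60ad82.shift 2 1), (rh46f80f8d9cc63279.shift 0 1), rh536ca930aa551413, rh5d36b47b985a7d21, (rh8858cbf1ab06cf1d.shift 0 3), (rh9865b7dd8cc00fe1.shift 2 1), (rhd8745d3afce428ba.shift 2 2), (rhdbcbf2c6dc03437b.shift 1 1), (rhfe829c42ed752e6d.shift 2 1)] (by decide +kernel))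
noncomputable def rh68b99a8a14a634e3 : CRef := CRef.mk (Pat.mk 0x280000002800000000000000000000000000000000 0x40000000540000007c0000007f0000003e0000002f0000007c000000fc0000005c00000014 7 8) 0 0 (step_sound _ 99 [(rh25271c74be886731.shift 2 0), (rh2e83dc040c94abfe.shift 2 2), (rh524a571044b20901.shift 1 1), rh7feaeaf47287cc9f, (rhd8745d3afce428ba.shift 2 1), (rhfc60e486baaa63e2.shift 2 1)] (by decide +kernel))
noncomputable def rh5859e92ffea2de2c : CRef := CRef.mk (Pat.mk 0x280000002800000000000000000000000000000000 0x100000001c0000005c0000007f000000fc0000006e0000002c0000003c0000001c0000001c00000004 7 8) 0 0 (step_sound _ 195 [(rh04f4875e911c5ad0.shift 1 3), (rh168f9a1bb6140d4e.shift 0 3), (rh3139c52f41037bb3.shift 2 0), (rh7863e25d1d742d32.shift 2 2), (rh85bb52c012d18ab3.shift 1 1), (rhc1a03c4521ecfdbb.shift 2 1), (rhd33666284aa5c7c2.shift 2 1)] (by decide +kernel))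
noncomputable def rh1c033f79a264d6b2 : CRef := CRef.mk (Pat.mk 0x80000000a00000008000000000000000000000000 0x40000000c0000000f0000007f0000001f0000001c00000014 7 7) 0 0 (step_sound _ 67 [(rh46baee19951a66e7.shift 2 0), (rh5d3d0992644e4a00.shift 0 1), (rh6aa5625770489e83.shift 2 0), (rh8cdd36b03d57a2f6.shift 2 0)] (by decide +kernel))
noncomputable def rhbed05b9d2036dda1 : CRef := CRef.mk (Pat.mk 0x2800000008000000000000000000000000 0x100000001c0000001c0000001c0000007f000000fe0000000f0000001c0000001c00000014 7 8) 0 0 (step_sound _ 132 [(rh272396c8ee8fefa8.shift 2 1), (rh2820ca9a6c4f41b4.shift 0 3), rh9985cb2751e2c788, (rhb55ee1177cf584c3.shift 0 1)] (by decide +kernel))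
noncomputable def rh48e89ce31b39c8c3 : CRef := CRef.mk (Pat.mk 0x2800000028000000000000000000000000 0x100000001c0000001c0000003c000003ff000003fe000003b80000001f0000001c0000001c 7 10) 0 0 (step_sound _ 132 [(rh1c12bdae631f7254.shift 0 1), (rh3aab2036ca4e8d0a.shift 1 1), (rh7bca6bf61ec65d1e.shift 0 1), (rh7d7c2155600e215e.shift 2 1), rh9985cb2751e2c788, rh9c5992181d577b14, (rhee32d14a79acfe9f.shift 0 1)] (by decide +kernel))
noncomputable def rh9a695cd9e03e4f2c : CRef := CRef.mk (Pat.mk 0x28000000280000000000000000000000000000000000000000 0x440000004c0000006f0000007c0000002f000000fc0000007f0000005c0000001c0000001c 7 8) 0 0 (step_sound _ 131 [(rh006baf7432b3c33d.shift 0 1), (rh0f5c947082bcb631.shift 2 1), (rh4692eec48c60ad82.shift 2 1), rh536ca930aa551413, rh87584bec0b8bcb7b, (rh8858cbf1ab06cf1d.shift 0 3), rh8ad3b3eea71ee9d9, (rh9c2a11983e75daf2.shift 1 1), (rhd8745d3afce428ba.shift 2 2), (rhfe829c42ed752e6d.shift 2 1)] (by decide +kernel))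
noncomputable def rh404fe2afd43e0e99 : CRef := CRef.mk (Pat.mk 0x280000002800000000000000000000000000000000 0x10000000140000007c0000007c0000003c0000002f000000fc0000007e0000007c00000054 7 8) 0 0 (step_sound _ 99 [(rh1b7e89f239630456.shift 2 0), (rh2e83dc040c94abfe.shift 2 2), rh3955d9d081834282, (rh530ff0566bf34ee5.shift 2 1), (rh9c2a11983e75daf2.shift 1 0), (rhd8745d3afce428ba.shift 2 1), (rhfc60e486baaa63e2.shift 2 1)] (by decide +kernel))
noncomputable def rh9d0ae57aae036793 : CRef := CRef.mk (Pat.mk 0xa000000020000000000000000000000000 0x400000007000000070000000700000077e000003fe0000003f000000700000007000000050 7 11) 0 0 (step_sound _ 134 [(rh2820ca9a6c4f41b4.shift 2 3), (rh303ea2e9680ab5ed.shift 0 1), (rh5024bbfb5139b661.shift 4 3), (rh9985cb2751e2c788.shift 2 0)] (by decide +kernel))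
noncomputable def rh5478ffebc6a68727 : CRef := CRef.mk (Pat.mk 0x2800000028000000000000000000000000 0x40000000540000007c000001ff000000ff000000280000007c0000007c00000054 7 9) 0 0 (step_sound _ 163 [rh33f9ebfa742987aa, (rh8ffb89172b03b779.shift 0 2), rh950f2b1f5ec1da91, (rha227599e268fa8fa.shift 2 0), rhc8a70f7698454acc, (rhf07c37d590073593.shift 2 0)] (by decide +kernel))
noncomputable def rhab47c762cf8d2ac1 : CRef := CRef.mk (Pat.mk 0x140000001400000000000000000000000000000000 0xa0000002e0000007f0000007e00000037000000160000003e0000003e0000002e00000002 7 7) 0 0 (step_sound _ 194 [(rh04f4875e911c5ad0.shift 0 3), (rh3139c52f41037bb3.shift 1 0), (rh7863e25d1d742d32.shift 1 2), (rh85bb52c012d18ab3.shift 0 1), (rh9ba8dda0c49168a8.shift 0 1), (rhc1a03c4521ecfdbb.shift 1 1), (rhd33666284aa5c7c2.shift 1 1)] (by decide +kernel))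
noncomputable def rh14c37aae52e6973f : CRef := CRef.mk (Pat.mk 0xe000000080000000000000000000000000000000000000000 0x140000001c0000003c0000000e0000007c000000380000001f0000001c0000001c0000001c 7 7) 0 0 (step_sound _ 131 [(rh0a6888916bcef86b.shift 2 1), (rh7b24c4ccc068b0b2.shift 2 3), (rh7f4585616ba89c60.shift 1 3), rh89d33329aa1df15f, (rhf9a6286f1d5377a2.shift 2 3)] (by decide +kernel))
noncomputable def rhabf2654f302590d0 : CRef := CRef.mk (Pat.mk 0x280000002800000000000000000000000000000000 0x140000001c0000001c0000003c000000f8000001ff0000007e0000007c0000002c 7 9) 0 0 (step_sound _ 132 [(rh18e52402a635c204.shift 0 1), (rh1aae126fdb0efa1d.shift 2 3), (rh24e72371d7873615.shift 2 1), (rh5be5f024049b4c91.shift 1 0)] (by decide +kernel))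
noncomputable def rhe54fdcebcdc07f48 : CRef := CRef.mk (Pat.mk 0x28000000280000000000000000000000000000000000000000 0x1c0000001c0000001f000003b8000003fe000003ff0000007e0000007c0000003c00000010 7 10) 0 0 (step_sound _ 164 [(rh13bc39fad46ed7d3.shift 0 4), rh35c1cdedc435622b, (rh5b6d2bf6893374d1.shift 1 2), (rh5be5f024049b4c91.shift 1 1), (rha13423141a6dee87.shift 0 2), (rha2cb1977398e6365.shift 0 2)] (by decide +kernel))
noncomputable def rhf796f23d57c39ac7 : CRef := CRef.mk (Pat.mk 0x140000001400000000000000000000000000000000 0xa0000000e0000000e0000001e000000370000003e0000000e0000000e0000000a 7 6) 0 0 (step_sound _ 98 [(rh0eb09afa9815783c.shift 1 1), (rh4e9d0b2b6a8ba645.shift 1 0), (rh7fd74e6b1fad4415.shift 1 0), (rhd091826498b1b626.shift 1 1), (rhe19deee2c270a386.shift 1 1), (rhfdee0034602635ef.shift 0 2)] (by decide +kernel))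
noncomputable def rh539ce969cf073af4 : CRef := CRef.mk (Pat.mk 0x2000000020000000200000000000000000000000000000000 0x60000000600000007000000030000000700000007000000070000000700000005 7 3) 0 0 (step_sound _ 97 [(rh20966da26a1c2ae8.shift 0 2), rh832d53b0c7150d1d, (rh8cdd36b03d57a2f6.shift 0 1), rh8e3b1d976c2c4cbf, (rhabedd109a9a37101.shift 0 2), (rhf517b930ee0bd92d.shift 0 1)] (by decide +kernel))
noncomputable def rh012a9907b01ec64c : CRef := CRef.mk (Pat.mk 0x2800000028000000000000000000000000 0x50000000740000007c0000007c0000002f000000f8000001fc0000007c00000054 7 9) 0 0 (step_sound _ 102 [(rh47082137e9cd2755.shift 2 2), (rh53567e131628b92e.shift 2 0), (rh56e90c12f0808c38.shift 2 0), rha6c6b35a4cac7389, (rheb35796aefd5d255.shift 2 0)] (by decide +kernel))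
noncomputable def rhbbdc3017ce56141f : CRef := CRef.mk (Pat.mk 0x280000002800000000000000000000000000000000 0x540000007c0000007c000000280000007f000001ff0000007c0000005400000054 7 9) 0 0 (step_sound _ 99 [rh0115c66452a97d07, rh2c9824e3d3e9dab7, (rh60f6231d213c6ef9.shift 2 1), rh6b2bbeb9119b2e5f, (rhc5c5b88722b9bb4a.shift 2 1), (rhe323009b509138a7.shift 0 2)] (by decide +kernel))
noncomputable def rh91540058ec6eb5c7 : CRef := CRef.mk (Pat.mk 0x280000002800000000000000000000000000000000 0x40000005c000000fc0000007c0000002f0000006e000000fc0000007e0000005c00000014 7 8) 0 0 (step_sound _ 99 [(rh0aae1ee34b51faa6.shift 2 1), (rh0eb09afa9815783c.shift 2 1), (rh301fcb69ccf8eba1.shift 2 1), (rh4692eec48c60ad82.shift 2 0), (rh5c5fc92a22ce9407.shift 2 1), (rh72ef61a7f3630de0.shift 1 2), (rh9c2a11983e75daf2.shift 1 0), (rhe8a7723f405835bc.shift 0 2)] (by decide +kernel))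
noncomputable def rh3ee8aebf0424abab : CRef := CRef.mk (Pat.mk 0x38000000200000000000000000 0xc0000007f0000003e0000003f0000000e0000000e 7 7) 0 0 (step_sound _ 98 [(rh4368217ec1272ce6.shift 1 0), (rh61325f73ebf98108.shift 0 3), (rhdceeca65bdd8095a.shift 0 2)] (by decide +kernel))
noncomputable def rhe6a81feb013da0e6 : CRef := CRef.mk (Pat.mk 0x7000000040000000000000000 0x70000000f0000001f000000070000003f0000001f0000000d 7 6) 0 0 (step_sound _ 129 [rh32d39563b68b3960, (rh5d54cb79a67f97ab.shift 1 0), (rh7e1098702e50f2b0.shift 1 0), (rha40d42a2e34c408d.shift 1 0), rhbc53cbf6dcd83651] (by decide +kernel))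
noncomputable def rhb2cf4c008032f1ac : CRef := CRef.mk (Pat.mk 0x2c0000002000000000000000000000000000000000 0x140000001c0000001c0000007c0000002f0000007c0000001f0000001c0000001c00000014 7 7) 0 0 (step_sound _ 131 [(rh8c25cb665ab79ec0.shift 0 4), rha6cb21b2fb04c262, (rhbb2258de3c9392a8.shift 0 1), rhdd654bbc0781e67b] (by decide +kernel))
noncomputable def rh915ca10bbbb8551d : CRef := CRef.mk (Pat.mk 0x140000001400000000000000000000000000000000 0x20000000e0000000e0000000e0000001e000000370000003e0000000e0000000e0000000a 7 6) 0 0 (step_sound _ 98 [(rh0eb09afa9815783c.shift 1 1), (rh1da89da88f0aef66.shift 1 1), (rh4e9d0b2b6a8ba645.shift 1 0), (rh7fd74e6b1fad4415.shift 1 0), (rhc5c5b88722b9bb4a.shift 1 1), (rhe19deee2c270a386.shift 1 1), (rhfdee0034602635ef.shift 0 2)] (by decide +kernel))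
noncomputable def rh32ad54c58f7d3594 : CRef := CRef.mk (Pat.mk 0x80000000a0000000800000000000000000000000000000000 0x140000001c0000003e0000000f0000000c000000180000001c0000001c00000004 7 6) 0 0 (step_sound _ 99 [(rh46baee19951a66e7.shift 2 1), (rh482d647aab4b93ee.shift 2 1), (rh50381b1ee12ee04f.shift 0 2), (rh516963541d5f8797.shift 1 2), rh939679518c416c3b, (rh9925428958c3c857.shift 0 1)] (by decide +kernel))
noncomputable def rh626ee3212f808fc7 : CRef := CRef.mk (Pat.mk 0x80000000a0000000800000000000000000000000000000000 0x100000007c0000000f0000000c0000001c0000001c0000001c00000004 7 7) 0 0 (step_sound _ 99 [(rh0ac77ce6e22e19ad.shift 0 1), (rh8cdd36b03d57a2f6.shift 2 1), rh939679518c416c3b, (rhb61eb019e882de17.shift 0 2), (rhcda1c8ee340e0d2d.shift 0 1)] (by decide +kernel))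
noncomputable def rhf6b2c04c066fb67a : CRef := CRef.mk (Pat.mk 0x80000000a0000000800000000000000000000000000000000 0x40000001c0000001c000000180000000f0000000c0000001c0000001c0000001c00000004 7 5) 0 0 (step_sound _ 99 [(rh8cdd36b03d57a2f6.shift 2 1), rh939679518c416c3b, (rhca85590e660df518.shift 2 3)] (by decide +kernel))
noncomputable def rh009c9b15fa4b9024 : CRef := CRef.mk (Pat.mk 0x10000000140000001000000000 0x8000000380000007e000000fe0000001f0000001800000008 7 8) 0 0 (step_sound _ 132 [rha94490687c60c4d4, (rhee3e780382d15f79.shift 1 1), (rhf9494122540ecc82.shift 3 0)] (by decide +kernel))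
noncomputable def rh91edc51702eae57d : CRef := CRef.mk (Pat.mk 0x2800000028000000000000000000000000 0x140000001c0000001c0000007f000000ff0000002c00000078000000fe0000005c00000054 7 8) 0 0 (step_sound _ 163 [(rh23d7ba318d89735b.shift 2 0), (rh3abcd135061e8f33.shift 1 0), rh6d3fabaf7ec9c89d, (rh962ff5e91946d9a6.shift 2 0), (rhf0d3d56665a66f10.shift 2 0), (rhfc9d5bf70d19cb30.shift 0 1)] (by decide +kernel))
noncomputable def rh9f944bd2965c9943 : CRef := CRef.mk (Pat.mk 0x280000002800000000000000000000000000000000 0x540000007c0000007c000000280000007c000001ff000000fc0000005400000054 7 9) 0 0 (step_sound _ 99 [rh0115c66452a97d07, rh2c9824e3d3e9dab7, (rh60f6231d213c6ef9.shift 2 1), (rhc5c5b88722b9bb4a.shift 2 1), (rhdda7f48404af4796.shift 2 0), (rhe323009b509138a7.shift 0 2)] (by decide +kernel))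
noncomputable def rhf04e9d39f9bfb88b : CRef := CRef.mk (Pat.mk 0x100000001e00000000000000000000000000000000 0x8000000180000001b0000001e00000038000000380000003800000028 7 6) 0 0 (step_sound _ 100 [rh5cb113ea6983ec6d, (rhe25b0a99195a5d59.shift 1 3)] (by decide +kernel))
noncomputable def rh2f7e2f9206f398be : CRef := CRef.mk (Pat.mk 0x2c0000000000000000000000000000000000000000 0x80000000c0000007f0000003e0000000f0000000e0000000e0000000e0000000a 7 7) 0 0 (step_sound _ 164 [(rh2cc7d62e70c02209.shift 0 4), (rh61325f73ebf98108.shift 0 5), (rh7654d7b92c96fe12.shift 0 4), (rhc771cebdf788c766.shift 1 0)] (by decide +kernel))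
noncomputable def rh14bd0aceb59108a4 : CRef := CRef.mk (Pat.mk 0x1e00000010000000000000000000000000 0x8000000380000001e0000001f0000003c0000003800000028 7 6) 0 0 (step_sound _ 164 [(rh33e738c4ed385b9f.shift 1 4), rh78c4cb5ceaf301e1] (by decide +kernel))
noncomputable def rhebedb64fb62a6b73 : CRef := CRef.mk (Pat.mk 0x1e000000100000000000000000 0x120000003b0000003f0000001e0000001c0000001c00000010 7 6) 0 0 (step_sound _ 132 [rh10abf77857e48c9b, (rh33e738c4ed385b9f.shift 1 3)] (by decide +kernel))
noncomputable def rh4e1c882d71feba6f : CRef := CRef.mk (Pat.mk 0x1000000018000000080000000000000000 0x80000000c000000ec000000ff0000001f0000001c000000f800000038 7 8) 0 0 (step_sound _ 35 [(rh71222050f2c63a3a.shift 3 0), rh7fb468035c33dc4f] (by decide +kernel))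
noncomputable def rh1d7ab9899aa9d0bf : CRef := CRef.mk (Pat.mk 0x1000000018000000080000000000000000 0x8000000080000000800000018000000180000003e000000ff0000007c 7 8) 0 0 (step_sound _ 35 [rh46f034e72fa045cf, (rh71222050f2c63a3a.shift 3 0)] (by decide +kernel))
noncomputable def rhc151eef0a59574d4 : CRef := CRef.mk (Pat.mk 0x80000000c0000000400000000 0x1f0000001f0000003c0000000e0000007c00000010 7 7) 0 0 (step_sound _ 131 [(rh5c5e593799055d58.shift 2 1), rh5dc9c50b7e723b33] (by decide +kernel))
noncomputable def rh7d723ac1a3ee2535 : CRef := CRef.mk (Pat.mk 0x1000000018000000080000000000000000 0xc0000000c000000ec000000ff0000001f0000001c0000000c0000000c 7 8) 0 0 (step_sound _ 35 [rh337999ac749b422d, (rh71222050f2c63a3a.shift 3 0)] (by decide +kernel))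
noncomputable def rhc63fa028d761844f : CRef := CRef.mk (Pat.mk 0x58000000080000000800000000 0xf4000000ff0000005f000001ff000000ff000001f4 7 9) 0 0 (step_sound _ 131 [rh07249198eaf44783, (rh3bb32a08be27ba1a.shift 0 1), rh9b45786b9da7cdb6] (by decide +kernel))
noncomputable def rhead9f51983546adf : CRef := CRef.mk (Pat.mk 0x58000000080000000800000000 0x40000000c0000004c00000058000001ff000000ff000001f4 7 9) 0 0 (step_sound _ 131 [rh07249198eaf44783, (rh0fd870c734e6c513.shift 2 0), (rh29dd5384d80ecb1e.shift 2 0), (rhabedd109a9a37101.shift 2 0)] (by decide +kernel))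
noncomputable def rh0e4de6d41b84ddc2 : CRef := CRef.mk (Pat.mk 0x1000000018000000080000000000000000 0xec000000ff0000001f000000380000001f0000001c 7 8) 0 0 (step_sound _ 35 [(rh71222050f2c63a3a.shift 3 0), rhf0a3430645296b5d] (by decide +kernel))
noncomputable def rhb25e9c2604d62113 : CRef := CRef.mk (Pat.mk 0x180000000800000000000000000000000000000000 0x40000001c0000001c000000180000003c000000ff0000003c0000001c00000014 7 8) 0 0 (step_sound _ 99 [(rh00f4d712d88729c0.shift 2 1), (rh815da42dccf39976.shift 0 2), (rhe3458ab40071103b.shift 3 2), (rhffb8e5993241bf15.shift 2 0)] (by decide +kernel))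
noncomputable def rh1d5d962df521aa98 : CRef := CRef.mk (Pat.mk 0x600000006000000000000000000000000 0x40000000400000004000000070000003e0000003f0000000e0000000e 7 6) 0 0 (step_sound _ 162 [(rh1e309b005ffa1b36.shift 1 1), rhc6808eb77c7d6462, (rhf7ac44032989c9ef.shift 0 2)] (by decide +kernel))
noncomputable def rh0f9c9a617a2afb2d : CRef := CRef.mk (Pat.mk 0x1800000018000000000000000000000000 0x140000001f000000ff0000000f0000000c0000000c 7 8) 0 0 (step_sound _ 101 [(rh79b3c29022acbdf3.shift 2 3), (rh92e8f86a47ca4f2b.shift 2 0), rhfde2cf49c157a50f] (by decide +kernel))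
noncomputable def rhc5b8a4fd40c8b18f : CRef := CRef.mk (Pat.mk 0x600000006000000000000000000000000 0xe0000000f0000003c00000006000000070000003e0000000e0000000e 7 6) 0 0 (step_sound _ 162 [(rh1e309b005ffa1b36.shift 1 1), (rh7db208d87386469c.shift 0 2), rhd8f429786e6ff0e8] (by decide +kernel))
noncomputable def rhb159070662f3df95 : CRef := CRef.mk (Pat.mk 0x1800000018000000000000000000000000 0x600000006000000070000001f0000007f0000007f0000000f0000000e 7 7) 0 0 (step_sound _ 130 [rh621f9dad2317f9f5, (rh6292bd8784ece55f.shift 1 3), (rhcd4d16d28964fbaf.shift 0 1)] (by decide +kernel))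
noncomputable def rh6dcf874ae63bf743 : CRef := CRef.mk (Pat.mk 0x1800000018000000000000000000000000 0x10000000140000001e000000ff0000007f0000002800000028 7 8) 0 0 (step_sound _ 67 [rh3941d6c00e40acd6, (rh8f1158d9f5036793.shift 1 0), (rhea7a1800d6f053bd.shift 3 0)] (by decide +kernel))
noncomputable def rh42581c5f9dc20701 : CRef := CRef.mk (Pat.mk 0x18000000080000000800000000 0x14000000fc000000ff0000001f0000000c0000001c00000014 7 8) 0 0 (step_sound _ 131 [(rh0fd870c734e6c513.shift 2 0), (rh55a026e6f690bbaf.shift 2 0), (rh614de177cf40a880.shift 0 1), (rhc17b7d8fab3dfe57.shift 2 0)] (by decide +kernel))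
noncomputable def rh5672f6936a3d36d4 : CRef := CRef.mk (Pat.mk 0x800000018000000080000000000000000 0x800000008000000080000001f000000ff000000f700000014 7 8) 0 0 (step_sound _ 68 [rh4e809e967fee0c23, (rh55a1f6c57a317ce6.shift 3 0), (rh5dba61aca9974608.shift 0 1)] (by decide +kernel))
noncomputable def rh5326b160420f0573 : CRef := CRef.mk (Pat.mk 0x20000000600000002000000000000000000000000 0x300000003000000030000000600000006000000070000000700000007 7 3) 0 0 (step_sound _ 193 [rh38df1b28238fed11, rh47992774edf9829f, (rhd4b4beefcd67f51e.shift 1 2)] (by decide +kernel))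
noncomputable def rh627d570d541a9d97 : CRef := CRef.mk (Pat.mk 0x80000001800000008000000000000000000000000 0x140000001c0000003c0000000f0000001c0000001c0000000c0000000c0000000c 7 6) 0 0 (step_sound _ 195 [(rh0fd870c734e6c513.shift 2 2), (rh38df1b28238fed11.shift 2 0), (rh6aa5625770489e83.shift 2 1), (rh75400330e1ad6077.shift 2 1), (rhf0b5ccff1e42bf98.shift 0 2)] (by decide +kernel))
noncomputable def rhc6883ffbcf192217 : CRef := CRef.mk (Pat.mk 0x8000000180000000800000000 0x40000000c0000000c000000080000001f000000ff000000f4 7 8) 0 0 (step_sound _ 131 [(rh0fd870c734e6c513.shift 2 0), rh615cf76a657a45f3, (rhd4b4beefcd67f51e.shift 3 0)] (by decide +kernel))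
noncomputable def rh0d790ee08af088b3 : CRef := CRef.mk (Pat.mk 0x80000005800000008000000000000000000000000 0x40000004c0000005c000001ff000000ff000001fc00000014 7 9) 0 0 (step_sound _ 67 [(rh07249198eaf44783.shift 0 1), (rh46baee19951a66e7.shift 2 0), (rh6aa5625770489e83.shift 2 0), (rh8cdd36b03d57a2f6.shift 2 0)] (by decide +kernel))
noncomputable def rh685cec34c7450d5f : CRef := CRef.mk (Pat.mk 0x1800000018000000000000000000000000 0x180000001b0000003f0000001f000000ff000000170000000600000006 7 8) 0 0 (step_sound _ 98 [(rh106bb650dfae2043.shift 0 1), (rh3b50022fa73ccc4f.shift 0 2), rh65b9c6b05020ace6, rh9ecea4e1d309003f, (rhbb7213d4724395ac.shift 0 1), rhf31452fd6f840697] (by decide +kernel))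
noncomputable def rhd98bb42caf7edeac : CRef := CRef.mk (Pat.mk 0x180000000800000000000000000000000000000000 0x40000001c0000001c0000001c0000003c000000ff0000003c0000001c00000014 7 8) 0 0 (step_sound _ 99 [(rh15590a39afd9a120.shift 2 0), (rh815da42dccf39976.shift 0 2), (rh947561ae8c5c3f87.shift 2 1), (rhe3458ab40071103b.shift 3 2), (rhfa50cc73c689e7d7.shift 2 0)] (by decide +kernel))
noncomputable def rhc7506318cded354a : CRef := CRef.mk (Pat.mk 0x2c0000000000000000000000000000000000000000 0x80000000c0000000f0000003e0000007f0000000e0000000e0000000e0000000a 7 7) 0 0 (step_sound _ 164 [(rh2ba551de881ca4cd.shift 0 4), (rh2cc7d62e70c02209.shift 0 4), (rh8195a2d7794c7cd2.shift 0 4), (rhc771cebdf788c766.shift 1 0)] (by decide +kernel))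
noncomputable def rh2d8504601de16c77 : CRef := CRef.mk (Pat.mk 0x1e00000010000000000000000000000000 0x8000000180000003b0000001e00000018000000380000003800000028 7 6) 0 0 (step_sound _ 164 [(rh33e738c4ed385b9f.shift 1 4), rh5cb113ea6983ec6d] (by decide +kernel))
noncomputable def rhde285f1994ae98b9 : CRef := CRef.mk (Pat.mk 0xc000000040000000400000000 0x20000003e0000003e0000000f0000000e0000000e0000000a 7 6) 0 0 (step_sound _ 130 [(rh0fd870c734e6c513.shift 1 0), (rhabedd109a9a37101.shift 1 0), rhef8a1d4f1a172648] (by decide +kernel))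
noncomputable def rhdae06fde5e723b01 : CRef := CRef.mk (Pat.mk 0x1000000018000000080000000000000000 0x80000000c0000006c0000007c0000001f0000001c000000f800000038 7 8) 0 0 (step_sound _ 35 [(rh71222050f2c63a3a.shift 3 0), rhfa115591a5f2305c] (by decide +kernel))
noncomputable def rh3285e3c7f0fbb095 : CRef := CRef.mk (Pat.mk 0x10000000580000000800000000000000000000000000000000 0x20000000f80000005e000000df000000fe000001ff0000001400000014 7 9) 0 0 (step_sound _ 99 [(rh71222050f2c63a3a.shift 3 2), rhc8b60a163c9af22d] (by decide +kernel))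
noncomputable def rh6161726c86cb180a : CRef := CRef.mk (Pat.mk 0x200000003000000010000000000000000000000000 0x10000000180000001e000000fe0000003e0000007f0000001e0000001c00000004 7 8) 0 0 (step_sound _ 131 [rh44848ccd4bf41c7f, (rh5dec5e73a267a1c4.shift 1 3), (rh7f0f728c796044ac.shift 0 3), (rhf0da364da79b80de.shift 1 1)] (by decide +kernel))
noncomputable def rhc46b24a82493f781 : CRef := CRef.mk (Pat.mk 0x580000000800000008000000000000000000000000 0x1000000030000000f80000005e000000df000000fe000001f70000001400000014 7 9) 0 0 (step_sound _ 196 [(rh69755ef358ebfd54.shift 3 3), (rhbfb5770941270498.shift 3 3), rhc8b60a163c9af22d, (rheb4949bdfa5025cf.shift 3 3)] (by decide +kernel))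
noncomputable def rh8f3287dda5d0a8a8 : CRef := CRef.mk (Pat.mk 0x1000000018000000080000000000000000 0x80000000c0000006c000000ff0000001f000000380000001f0000001c 7 8) 0 0 (step_sound _ 35 [(rh71222050f2c63a3a.shift 3 0), rhabf568d27e722346] (by decide +kernel))
noncomputable def rh109059d5f9c130dd : CRef := CRef.mk (Pat.mk 0x18000000080000000800000000 0x140000001e0000003f0000001f0000000e0000007c00000014 7 7) 0 0 (step_sound _ 131 [rh0a6e80f3a222113c, (rh0fd870c734e6c513.shift 2 0), (rh55a026e6f690bbaf.shift 2 0), (rhc17b7d8fab3dfe57.shift 2 0)] (by decide +kernel))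
noncomputable def rh1d5fdee702f63a75 : CRef := CRef.mk (Pat.mk 0x1e00000010000000000000000000000000 0x100000001f0000001f0000001c000000f80000003800000018 7 8) 0 0 (step_sound _ 99 [rh3fa2e5343739d8d2, (rhb739f4f82bb681b4.shift 0 3)] (by decide +kernel))
noncomputable def rhc1e8360b4240db4c : CRef := CRef.mk (Pat.mk 0x3c000000000000000000000000 0x10000000380000003f0000001f0000000800000008 7 6) 0 0 (step_sound _ 65 [rh61f67514e83c550d, (rh80fcd6d0a18cb2dd.shift 1 2)] (by decide +kernel))
noncomputable def rh815aadcb229aa79f : CRef := CRef.mk (Pat.mk 0x7800000000 0x770000007e000000ec 7 8) 0 0 (step_sound _ 2 [rh2fa4d48c9e158234, (rh80fcd6d0a18cb2dd.shift 2 0)] (by decide +kernel))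
noncomputable def rh309f1329b531e49b : CRef := CRef.mk (Pat.mk 0xf0000000800000000000000000 0x5000000050000000fe000000fe000000b7000000a0000000a0 7 8) 0 0 (step_sound _ 134 [(rh3c8bd952beff0cd8.shift 2 0), (rha40d42a2e34c408d.shift 6 0), rhdb28074621c820e8, (rhedf6b6c69a16cbd5.shift 2 3), (rhf322e3481c01842e.shift 1 0)] (by decide +kernel))
noncomputable def rh8a5dc7734b674e42 : CRef := CRef.mk (Pat.mk 0xf0000000800000000000000000 0x4000000040000000e7000000fe000000bf0000008000000080 7 8) 0 0 (step_sound _ 134 [(rha40d42a2e34c408d.shift 6 0), (rhba16b5390b669ed1.shift 2 0), (rhf2ca161a4bd417de.shift 0 2)] (by decide +kernel))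
noncomputable def rh77b91b76f7d32985 : CRef := CRef.mk (Pat.mk 0x20000001e0000000000000000000000000000000000000000 0x50000000700000007000000020000001e0000003f00000007000000070000000700000004 7 6) 0 0 (step_sound _ 129 [rh6be42290c0a9ae3c, (rheb0810cc63b001d8.shift 0 4)] (by decide +kernel))
noncomputable def rh23852c8aeb7a4884 : CRef := CRef.mk (Pat.mk 0x1e0000000200000000000000000000000000000000 0x40000001c0000001c0000001e0000003e0000003f0000003f0000001f00000005 7 6) 0 0 (step_sound _ 132 [(rhe25b0a99195a5d59.shift 1 4), rhed7c663b6774791d] (by decide +kernel))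
noncomputable def rh524ce8eb90f433da : CRef := CRef.mk (Pat.mk 0x7000000080 0xe70000007e000000c7 7 8) 0 0 (step_sound _ 35 [rh15b856e33c69f807, (rh96851dee118c1ba3.shift 3 0)] (by decide +kernel))
noncomputable def rhd63ec354cac642dd : CRef := CRef.mk (Pat.mk 0x1e0000001000000000000000000000000000000000 0xa0000000a0000001f0000001e0000001e000000fc000000fe0000003800000028 7 8) 0 0 (step_sound _ 100 [(rh0a6888916bcef86b.shift 3 0), rh77e12996a058a8b5, (rh7b24c4ccc068b0b2.shift 3 2), rhc67e6f105424d25d] (by decide +kernel))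
noncomputable def rhf04c12b35017bcec : CRef := CRef.mk (Pat.mk 0x80000007000000000 0xec0000007e00000077 7 8) 0 0 (step_sound _ 35 [(rh3244c3cc8379b070.shift 2 1), rh4cf8cadacd839b9e] (by decide +kernel))
noncomputable def rh0a139082289b9951 : CRef := CRef.mk (Pat.mk 0x1e00000002000000000000000000000000 0x4000000070000000700000007000000070000001e00000032000000070000000700000005 7 6) 0 0 (step_sound _ 161 [(rh3244c3cc8379b070.shift 0 4), rhb3765993bdc3f23b] (by decide +kernel))
noncomputable def rhc525c7133ef95ec4 : CRef := CRef.mk (Pat.mk 0x1e000000020000000000000000 0x20000000b0000000f0000001f0000001e0000003e0000001200000012 7 6) 0 0 (step_sound _ 129 [(rh3244c3cc8379b070.shift 0 3), rh81d3afc9f864974b] (by decide +kernel))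
noncomputable def rhb3bf1b0da86d5490 : CRef := CRef.mk (Pat.mk 0x1e00000002000000000000000000000000 0xa0000000a0000001f0000001e0000003e0000003f0000001700000012 7 6) 0 0 (step_sound _ 161 [(rh3244c3cc8379b070.shift 0 4), rh7b67f6e1d3dafcf9] (by decide +kernel))
noncomputable def rh9b348384fe8e0252 : CRef := CRef.mk (Pat.mk 0x1e0000000200000000000000000000000000000000 0x50000000700000007000000030000001e0000003e00000007000000070000000700000004 7 6) 0 0 (step_sound _ 193 [(rh3244c3cc8379b070.shift 0 5), rh6be42290c0a9ae3c] (by decide +kernel))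
noncomputable def rh62a72fd8b0f354d4 : CRef := CRef.mk (Pat.mk 0x1e00000002000000000000000000000000 0xe0000000e0000001f0000001e0000003e0000003c0000001c00000018 7 6) 0 0 (step_sound _ 161 [(rh3244c3cc8379b070.shift 0 4), (rh6cb9eb74187b2f11.shift 1 0)] (by decide +kernel))
noncomputable def rhba6263367bbeede4 : CRef := CRef.mk (Pat.mk 0x180000000c000000000000000000000000 0x3000000030000000320000001b0000003f0000007f0000001c0000001c 7 7) 0 0 (step_sound _ 97 [rh281d4b89732a50ac, (rh53b3c253cb0c65f4.shift 0 3)] (by decide +kernel))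
noncomputable def rhdf2327c61a1fee6c : CRef := CRef.mk (Pat.mk 0x8000000580000000800000000 0x140000001c0000003c0000000f000000780000001800000010 7 7) 0 0 (step_sound _ 98 [(rh2fe78cc5ca4405d8.shift 2 2), rh6d471084eb8ecbbb] (by decide +kernel))
noncomputable def rh94ccf46acaf78b76 : CRef := CRef.mk (Pat.mk 0x1e0000001000000000000000000000000000000000 0x40000001c0000001c0000001e0000001f0000003f0000003f0000001f00000005 7 6) 0 0 (step_sound _ 129 [(rheb0810cc63b001d8.shift 0 4), rhed7c663b6774791d] (by decide +kernel))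
noncomputable def rhf477a6ada83e4caf : CRef := CRef.mk (Pat.mk 0x1000000018000000080000000000000000 0x80000000c0000006c0000007c0000001f0000001c000000f800000038 7 8) 0 0 (step_sound _ 35 [(rh71222050f2c63a3a.shift 3 0), rh829b7701c19c2a8f] (by decide +kernel))
noncomputable def rhb7dd6a92319221c6 : CRef := CRef.mk (Pat.mk 0xc0000000c000000000000000000000000 0xc0000000c0000000c0000000c0000000e0000007c0000001f0000001f 7 7) 0 0 (step_sound _ 67 [rh1864e4c677b30864, (rh3cb04db3dd2b6a55.shift 2 0), (rhc703a6c0e139af3e.shift 1 1)] (by decide +kernel))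
noncomputable def rhf88592f6bfce44e9 : CRef := CRef.mk (Pat.mk 0x1800000018000000000000000000000000 0x8000000080000001e000000ff000000ff0000003e0000003e 7 8) 0 0 (step_sound _ 68 [(rh1864e4c677b30864.shift 1 0), (rh3cb04db3dd2b6a55.shift 3 0), (rha05fd917b3463a4b.shift 0 1)] (by decide +kernel))
noncomputable def rh4add7137d8b1711a : CRef := CRef.mk (Pat.mk 0x1800000018000000000000000000000000 0x8000000180000001f000000ff0000000e0000000c0000000c 7 8) 0 0 (step_sound _ 101 [rh48281dc8cbf5ef73, (rh79b3c29022acbdf3.shift 2 3), (rh92e8f86a47ca4f2b.shift 2 0)] (by decide +kernel))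
noncomputable def rh3dec19aca33a5759 : CRef := CRef.mk (Pat.mk 0x80000000c0000000400000000 0x1c0000001f000000380000000e0000007c00000018 7 7) 0 0 (step_sound _ 131 [rh3bc8615634375375, (rh5c5e593799055d58.shift 2 1)] (by decide +kernel))
noncomputable def rh0542ec94efc2edf8 : CRef := CRef.mk (Pat.mk 0x100000005800000008000000000000000000000000 0xc0000006c0000007f0000005f000000ff000000ff0000002c00000020 7 8) 0 0 (step_sound _ 67 [rh1aeacaaf2356723d, (rh71222050f2c63a3a.shift 3 1)] (by decide +kernel))
noncomputable def rh5b4bdcaa085f109f : CRef := CRef.mk (Pat.mk 0x3000000010000000100000000000000000 0x380000003e0000007f0000003e0000007f0000001e0000000c00000004 7 7) 0 0 (step_sound _ 131 [(rh0e9fdacc9af40542.shift 1 1), (rh2b552bdc3eb82778.shift 1 1), (rh5ba3863413fb0f21.shift 0 2), (rh674a6e48d541f5ef.shift 0 2), rhf1a716fbdbfb465a] (by decide +kernel))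
noncomputable def rh89757a3902916916 : CRef := CRef.mk (Pat.mk 0xc000000040000000400000000 0x40000000e0000003e0000003e0000000f0000000c0000000e0000000a 7 6) 0 0 (step_sound _ 130 [(rh0a1276863f86678c.shift 1 0), (rh12461e137161f2e1.shift 1 0), (rh29dd5384d80ecb1e.shift 1 0), (rh91429c40af715d36.shift 1 0), rhfa0e244302729efd] (by decide +kernel))
noncomputable def rh01fb0fc1b6a5c2af : CRef := CRef.mk (Pat.mk 0x3c000000020000000000000000 0x4000000040000000e0000003f0000003b0000000800000008 7 6) 0 0 (step_sound _ 97 [rh29818f2fc83bf9d5, (rheb0810cc63b001d8.shift 0 2)] (by decide +kernel))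
noncomputable def rh944e0f84545fef3d : CRef := CRef.mk (Pat.mk 0x78000000000000000000000000 0xe70000007e000000700000002000000020 7 8) 0 0 (step_sound _ 134 [(rh33e738c4ed385b9f.shift 3 3), rh53432ec86ad5a7fa] (by decide +kernel))
noncomputable def rh15fb32295bc8f5c6 : CRef := CRef.mk (Pat.mk 0x80000000f0000000000000000000000000 0xa0000000a0000000b7000000fe000000ff0000005000000050 7 8) 0 0 (step_sound _ 70 [rh908d844581a044b8, (rhb2432c16363a7e8d.shift 2 2), (rhcf80391c5046a495.shift 6 0)] (by decide +kernel))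
noncomputable def rhf735874bf21816e6 : CRef := CRef.mk (Pat.mk 0x80000000f0000000000000000000000000 0x8000000080000000bf000000fe000000e70000004000000040 7 8) 0 0 (step_sound _ 70 [(rh4f8edb321cf5b49d.shift 2 2), (rh59739e398bea7e84.shift 2 0), rh6f387ceca0086065, (rhcf80391c5046a495.shift 6 0)] (by decide +kernel))
noncomputable def rh5d131ef80042436e : CRef := CRef.mk (Pat.mk 0x100000001e00000000000000000000000000000000 0x40000000700000007000000070000001f0000001e00000003000000070000000700000005 7 5) 0 0 (step_sound _ 161 [(rh3244c3cc8379b070.shift 0 4), rh952919b1bd67b801] (by decide +kernel))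
noncomputable def rhd6beaedf50a9b3d5 : CRef := CRef.mk (Pat.mk 0x780000000800000000000000000000000000000000 0x5000000050000000f800000078000000780000003f0000007f0000001c00000014 7 8) 0 0 (step_sound _ 99 [rh481d5bf5f33bfc06, (rhb730ba14aa32bdb3.shift 3 2), (rhf5a4a453d58828d7.shift 2 0), (rhffb8e5993241bf15.shift 2 0)] (by decide +kernel))
noncomputable def rhe2198c1fd24dd5d5 : CRef := CRef.mk (Pat.mk 0x7000000008 0x770000007e000000ec 7 8) 0 0 (step_sound _ 35 [rh2fa4d48c9e158234, (rheb0810cc63b001d8.shift 2 0)] (by decide +kernel))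
noncomputable def rh63967d7bd5c523dc : CRef := CRef.mk (Pat.mk 0x100000001e000000000000000000000000 0x50000001f0000003f0000003f0000001f0000001e0000001c0000001c0000001c 7 6) 0 0 (step_sound _ 129 [(rh3244c3cc8379b070.shift 0 3), rhf4c49681b6e3aad9] (by decide +kernel))
noncomputable def rh579d8a7da199f92b : CRef := CRef.mk (Pat.mk 0x3c000000000000000000000000 0x80000001f0000003f000000380000001000000010 7 6) 0 0 (step_sound _ 129 [(rh3f8766e6ecb455ce.shift 1 3), rhf723f4240e80a77c] (by decide +kernel))
noncomputable def rha1d861cf7a7b3ec4 : CRef := CRef.mk (Pat.mk 0x20000001e0000000000000000000000000000000000000000 0x50000000700000007000000320000001e0000000700000007000000070000000700000004 7 6) 0 0 (step_sound _ 129 [rhdda67831a13fb045, (rheb0810cc63b001d8.shift 0 4)] (by decide +kernel))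
noncomputable def rhe2f02497c3dd9817 : CRef := CRef.mk (Pat.mk 0x1e00000002000000000000000000000000 0x10000000120000003f0000001e0000001e0000000f0000000f00000002 7 6) 0 0 (step_sound _ 161 [(rh3244c3cc8379b070.shift 0 4), rhe8b94c6a311d9e90] (by decide +kernel))
noncomputable def rhc5637b87b7f1de9f : CRef := CRef.mk (Pat.mk 0x1e00000002000000000000000000000000 0x40000000700000007000000070000003f0000001e00000002000000070000000700000005 7 6) 0 0 (step_sound _ 161 [(rh3244c3cc8379b070.shift 0 4), rh7394ec0f8fc13ec8] (by decide +kernel))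
noncomputable def rhd21b5eccbdfda07a : CRef := CRef.mk (Pat.mk 0x1e0000000200000000 0x5000000070000000f0000003f0000001e0000000600000004 7 6) 0 0 (step_sound _ 97 [(rh3244c3cc8379b070.shift 0 2), rhd533863fa566e5c8] (by decide +kernel))
noncomputable def rhb8fa1a388efc3bbe : CRef := CRef.mk (Pat.mk 0x1e0000000200000000000000000000000000000000 0x50000000700000007000000330000001e0000000600000007000000070000000700000004 7 6) 0 0 (step_sound _ 193 [(rh3244c3cc8379b070.shift 0 5), rhdda67831a13fb045] (by decide +kernel))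
noncomputable def rh667329cb98c3be7a : CRef := CRef.mk (Pat.mk 0x180000000800000000000000000000000000000000 0x40000001c0000001c000000180000003c000000ff0000003c0000001c00000014 7 8) 0 0 (step_sound _ 99 [(rh15590a39afd9a120.shift 2 0), (rh815da42dccf39976.shift 0 2), (rhd03dc3b7a42c1589.shift 2 1), (rhe3458ab40071103b.shift 3 2), (rhffb8e5993241bf15.shift 2 0)] (by decide +kernel))
noncomputable def rh38230e69feba7cfe : CRef := CRef.mk (Pat.mk 0x3800000000 0xef0000007e00000077 7 8) 0 0 (step_sound _ 34 [(rh0b752ad3b931b588.shift 1 0), rh2ba551de881ca4cd, rh2cc7d62e70c02209, rh8195a2d7794c7cd2] (by decide +kernel))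
noncomputable def rhe070dc77ed12a8dc : CRef := CRef.mk (Pat.mk 0x1e00000000000000000000000000000000 0x400000006000000070000001e00000007000000070000000700000005 7 5) 0 0 (step_sound _ 97 [rh46a43a5218625ceb, (rheb0810cc63b001d8.shift 0 3)] (by decide +kernel))
noncomputable def rhd7e0ffc919cbf3e3 : CRef := CRef.mk (Pat.mk 0x40000000c00000008000000000000000000000000 0x1c0000003c0000000f0000000f0000003e000000360000000600000006 7 6) 0 0 (step_sound _ 194 [(rh2145e1d24b96a57e.shift 2 3), rh2898fd652f81d8cd] (by decide +kernel))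
noncomputable def rh11b19ff4feb6e009 : CRef := CRef.mk (Pat.mk 0x18000000180000000000000000 0x3e0000003e000000ff000000ff0000001e0000000800000008 7 8) 0 0 (step_sound _ 132 [(rh1e309b005ffa1b36.shift 3 0), (rh9dbc063ae34b2487.shift 1 2), rha1af3e7c1e51cd7a] (by decide +kernel))
noncomputable def rhb4e75717befb2447 : CRef := CRef.mk (Pat.mk 0x18000000180000000000000000 0x40000000c0000000e000000ff0000001f0000001800000018 7 8) 0 0 (step_sound _ 101 [rh041ec1996439bb76, (rh073589708c2d81a3.shift 2 0), (rh4dc133ee0ba1420a.shift 1 2)] (by decide +kernel))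
noncomputable def rhb49e674217b4cca3 : CRef := CRef.mk (Pat.mk 0x40000000c000000080000000000000000 0x100000003c0000000f0000003c0000001f0000001f 7 6) 0 0 (step_sound _ 35 [rh66419705dbbb198b, (rh7b1f1fb55310c477.shift 2 0)] (by decide +kernel))
noncomputable def rh0986a8db4a7b96cc : CRef := CRef.mk (Pat.mk 0x100000003000000020000000000000000000000000 0x1c0000001e0000007e0000003e000000ff0000001e0000001c00000010 7 8) 0 0 (step_sound _ 131 [(rh251facab2e282844.shift 1 3), (rh3ce854f4a795c89f.shift 1 3), (rh45370cb373bfffbe.shift 0 1), (rha0b2b5b4c345bc63.shift 1 0), (rha87bd76817e3db94.shift 0 3)] (by decide +kernel))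
noncomputable def rh2f52dd10ed0f5e8f : CRef := CRef.mk (Pat.mk 0x80000000800000058000000000000000000000000 0x740000007f000001ff000000580000004c0000000c0000000c 7 9) 0 0 (step_sound _ 67 [(rh2d94e8e3c3d1054b.shift 2 0), (rh6aa5625770489e83.shift 2 0), (rh900a894640be090c.shift 0 1), (rhbda9af480f89050a.shift 0 1)] (by decide +kernel))
noncomputable def rha29638c88f89397e : CRef := CRef.mk (Pat.mk 0x4000000040000000c000000000000000000000000 0x80000000c0000000c0000000f0000003e0000003e0000000e 7 6) 0 0 (step_sound _ 66 [(rh2d94e8e3c3d1054b.shift 1 0), (rh31760aef3abb176a.shift 0 1), (rh3181373a30ceb9e3.shift 1 0), (rhca18712e5e5c7b8f.shift 2 0)] (by decide +kernel))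
noncomputable def rhaafbf918d494a09d : CRef := CRef.mk (Pat.mk 0x800000018000000000000000000000000 0x140000003c0000007e0000007f000000180000001c0000001c0000001c 7 7) 0 0 (step_sound _ 163 [(rh046c5eb18e55a239.shift 3 0), rh1b790f999d554695, (rh6a4f66854d91c743.shift 1 0), (rh70e33bfdf511e144.shift 3 0)] (by decide +kernel))
noncomputable def rh36080cabe8296630 : CRef := CRef.mk (Pat.mk 0x18000000180000000000000000 0xc0000000c0000000f000000ff0000001f0000001400000010 7 8) 0 0 (step_sound _ 101 [(rh073589708c2d81a3.shift 2 0), (rh4dc133ee0ba1420a.shift 1 2), (rh566e1f306155a94a.shift 0 1)] (by decide +kernel))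
noncomputable def rh6d17955b68f97f96 : CRef := CRef.mk (Pat.mk 0xc0000000c000000000000000000000000 0x1c0000001c0000007e0000007c0000000f000000080000000800000008 7 7) 0 0 (step_sound _ 67 [(rh1b0b1befef42088f.shift 1 2), (rh3cb04db3dd2b6a55.shift 2 0), rha31e2286f1ebea1b] (by decide +kernel))
noncomputable def rh130dd4e443c97e8c : CRef := CRef.mk (Pat.mk 0x1800000018000000000000000000000000 0xe0000000f0000007f0000007f0000001f000000070000000600000006 7 7) 0 0 (step_sound _ 98 [rh7acac268a102e4c1, (rhab2ad169e49f9c5e.shift 0 3), (rhbb7213d4724395ac.shift 0 1)] (by decide +kernel))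
noncomputable def rhe22700c4502bc317 : CRef := CRef.mk (Pat.mk 0x18000000180000000000000000 0x28000000280000007f000000ff0000001f0000001400000010 7 8) 0 0 (step_sound _ 131 [(rh55a1f6c57a317ce6.shift 3 0), rh8485f1f04fd3766f, (rhfba219b2ab1310a3.shift 0 1)] (by decide +kernel))
noncomputable def rh27a4e9c7fc52e34b : CRef := CRef.mk (Pat.mk 0x80000000800000018000000000000000000000000 0x140000003c0000000f0000001e0000007f0000001e00000014 7 7) 0 0 (step_sound _ 67 [(rh3181373a30ceb9e3.shift 2 0), (rh6aa5625770489e83.shift 2 0), (rh900a894640be090c.shift 0 1), (rhcf21b3e7bebf7c23.shift 0 1)] (by decide +kernel))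
noncomputable def rh627406c287e3ae74 : CRef := CRef.mk (Pat.mk 0x800000018000000080000000000000000 0x14000000f7000000ff0000001f000000080000000800000008 7 8) 0 0 (step_sound _ 132 [rh3e55c59cf5da8412, (rh9c662c243f96fdba.shift 0 2), (rhea7a1800d6f053bd.shift 3 0)] (by decide +kernel))
noncomputable def rh92f1b8c52ff18c77 : CRef := CRef.mk (Pat.mk 0x80000001800000008000000000000000000000000 0xf4000000ff0000001f000000080000001c0000001c00000014 7 8) 0 0 (step_sound _ 67 [(rh3181373a30ceb9e3.shift 2 0), (rh614de177cf40a880.shift 0 2), (rha707fb719e87fe6e.shift 3 1)] (by decide +kernel))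
noncomputable def rh16cb91c014a02b46 : CRef := CRef.mk (Pat.mk 0x8000000580000000800000000 0x80000001c0000007c0000007f000001ff0000005c0000004f00000004 7 9) 0 0 (step_sound _ 131 [(rh47b14c8d210e4def.shift 2 1), rh580c6d6212ed1b86, (rh762a1aeaf83c662a.shift 2 0), rh8f9e11a256dd5b82, rhbda9af480f89050a] (by decide +kernel))
noncomputable def rh94478234dbc3634b : CRef := CRef.mk (Pat.mk 0x1800000018000000000000000000000000 0x600000017000000ff0000001f0000003f0000001f0000001a 7 8) 0 0 (step_sound _ 130 [rh6b39c6896ce2ef69, (rh7160d4f3bced5753.shift 0 1), (rh915f6511d37f58de.shift 0 1), (rh92e1a33d56d48131.shift 0 3), rh9e32231d7004bb35, (rhcd4d16d28964fbaf.shift 0 1), (rhdaf210947b47bcf0.shift 0 3)] (by decide +kernel))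
noncomputable def rh1adcbc7ae4bb2ba8 : CRef := CRef.mk (Pat.mk 0x40000000c000000000000000000000000 0x60000001e0000003f0000003f0000000e0000000e0000000e0000000e 7 6) 0 0 (step_sound _ 162 [(rh046c5eb18e55a239.shift 2 0), (rh2b775b10f113273e.shift 1 0), rh6a4f66854d91c743, (rh70e33bfdf511e144.shift 2 0)] (by decide +kernel))
noncomputable def rhffc11955611abc0e : CRef := CRef.mk (Pat.mk 0x2c0000000000000000000000000000000000000000 0x80000000c0000007f0000003e0000000f0000000e0000000e0000000e0000000a 7 7) 0 0 (step_sound _ 164 [(rh00f1bb10334541e3.shift 0 5), (rh2c1baeadcd4b32f5.shift 0 4), (rh2cc7d62e70c02209.shift 0 4), (rhc771cebdf788c766.shift 1 0)] (by decide +kernel))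
noncomputable def rhf529181c758058ad : CRef := CRef.mk (Pat.mk 0x2c000000000000000000000000 0x20000000e0000000e0000000e0000007f0000003e0000000f0000000c0000000c 7 7) 0 0 (step_sound _ 100 [(rh2cc7d62e70c02209.shift 0 2), (rh61325f73ebf98108.shift 0 3), (rh7654d7b92c96fe12.shift 0 2), (rh805b7d85b33a7d22.shift 1 0)] (by decide +kernel))
noncomputable def rh3e0a326481932a17 : CRef := CRef.mk (Pat.mk 0x100000001e0000000000000000 0x38000000380000001f0000001e0000003800000018 7 6) 0 0 (step_sound _ 36 [rh75a7eeea86ea90b2, (rhe25b0a99195a5d59.shift 1 1)] (by decide +kernel))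
noncomputable def rhbcffd485dd3f3d2c : CRef := CRef.mk (Pat.mk 0x100000001e000000000000000000000000 0x280000003800000038000000180000001e0000003b0000001800000018 7 6) 0 0 (step_sound _ 68 [rh1f07261a2822ff7a, (rhe25b0a99195a5d59.shift 1 2)] (by decide +kernel))
noncomputable def rha61fddb0fd33ff11 : CRef := CRef.mk (Pat.mk 0x20000000200000006000000000000000000000000 0x50000000700000007000000070000003f0000001f00000007 7 6) 0 0 (step_sound _ 65 [rh2d94e8e3c3d1054b, rh3181373a30ceb9e3, rh6ed5e6501b92e21f, (rh88409021de502b9a.shift 0 1)] (by decide +kernel))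
noncomputable def rh1a52b66950ef1ff9 : CRef := CRef.mk (Pat.mk 0x40000000c00000008000000000000000000000000 0xc0000000c0000000e0000000f0000007e000000360000000600000006 7 7) 0 0 (step_sound _ 194 [(rh2145e1d24b96a57e.shift 2 3), rhac39cc2fe5786742] (by decide +kernel))
noncomputable def rhdde51d0473269a65 : CRef := CRef.mk (Pat.mk 0x8000000180000001000000000 0x1400000014000001ff0000007e0000001f0000001e000000f800000020 7 9) 0 0 (step_sound _ 131 [(rh2145e1d24b96a57e.shift 3 1), rh3f1653f301dd3d43] (by decide +kernel))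
noncomputable def rh234adedb3e18a3e2 : CRef := CRef.mk (Pat.mk 0x100000003000000020000000000000000000000000 0x1c0000001e0000007e0000003e000001ff0000001e0000001c00000010 7 9) 0 0 (step_sound _ 131 [(rh3ce854f4a795c89f.shift 1 3), (rh45370cb373bfffbe.shift 0 1), (rhc21a95c499b3efdb.shift 2 3), (rhe54427593657c895.shift 1 0)] (by decide +kernel))
noncomputable def rha4051de4208beec7 : CRef := CRef.mk (Pat.mk 0x80000000800000018000000000000000000000000 0x1400000014000001f70000007e0000001f0000001e000000f80000003000000010 7 9) 0 0 (step_sound _ 68 [(rh08edf065357d68e5.shift 3 0), (rh3f1653f301dd3d43.shift 0 1), (rh79ad7b82ec8c35e2.shift 3 0)] (by decide +kernel))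
noncomputable def rh4b18ca06d4c86404 : CRef := CRef.mk (Pat.mk 0x80000000800000058000000000000000000000000 0x740000007f000001ff000000580000004c0000000c0000000c 7 9) 0 0 (step_sound _ 67 [(rh2d94e8e3c3d1054b.shift 2 0), (rh6aa5625770489e83.shift 2 0), (rh6ed5e6501b92e21f.shift 2 0), (rhbda9af480f89050a.shift 0 1)] (by decide +kernel))
noncomputable def rh68f3c48b2ba28fe0 : CRef := CRef.mk (Pat.mk 0x20000000200000006000000000000000000000000 0x10000000700000007000000070000000700000006000000030000000300000003 7 3) 0 0 (step_sound _ 65 [rh2d94e8e3c3d1054b, (rh61581b1d35e4d20e.shift 0 1), rh6aa5625770489e83, rh6ed5e6501b92e21f] (by decide +kernel))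
noncomputable def rhe5e4a1ef9e2e3b9c : CRef := CRef.mk (Pat.mk 0x80000001800000010000000000000000000000000 0x1c0000001e000000780000001f000000ff0000006c0000000c00000008 7 8) 0 0 (step_sound _ 195 [(rh2145e1d24b96a57e.shift 3 3), rh42781a027659b1e8] (by decide +kernel))
noncomputable def rhe65ee1882c1b034c : CRef := CRef.mk (Pat.mk 0xc0000000c000000000000000000000000 0x1c0000001c0000003c0000000f0000000c000000380000001f0000001c 7 6) 0 0 (step_sound _ 67 [rh36a6df2b3dd177a0, (rh3cb04db3dd2b6a55.shift 2 0), (rhde037d886ade9647.shift 0 2)] (by decide +kernel))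
noncomputable def rh11a54f0a51251379 : CRef := CRef.mk (Pat.mk 0x1800000018000000000000000000000000 0xe0000000f0000007f0000007f0000001f000000070000000600000006 7 7) 0 0 (step_sound _ 98 [rh44ab657570803899, (rhab2ad169e49f9c5e.shift 0 3), (rhbb7213d4724395ac.shift 0 1)] (by decide +kernel))
noncomputable def rh623eed5b02fe709b : CRef := CRef.mk (Pat.mk 0x80000000800000018000000000000000000000000 0x140000003c0000000f0000001e0000007f0000001e00000014 7 7) 0 0 (step_sound _ 67 [(rh3181373a30ceb9e3.shift 2 0), (rh46baee19951a66e7.shift 2 0), (rh6aa5625770489e83.shift 2 0), (rh7c40871a28f8de66.shift 0 1)] (by decide +kernel))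
noncomputable def rh2f62bc4062df9e0e : CRef := CRef.mk (Pat.mk 0x80000001800000008000000000000000000000000 0xf4000000ff0000001f000000080000001c0000001c00000014 7 8) 0 0 (step_sound _ 67 [(rh3bb32a08be27ba1a.shift 0 2), (rh8cdd36b03d57a2f6.shift 2 0), (rha707fb719e87fe6e.shift 3 1)] (by decide +kernel))
noncomputable def rh055e90c2e2032778 : CRef := CRef.mk (Pat.mk 0x8000000580000000800000000 0xc0000001c0000007c0000007f000001ff0000005c0000004f00000004 7 9) 0 0 (step_sound _ 131 [(rh0fd870c734e6c513.shift 2 0), (rh47b14c8d210e4def.shift 2 1), rh580c6d6212ed1b86, (rh61581b1d35e4d20e.shift 2 0), rhbda9af480f89050a] (by decide +kernel))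
noncomputable def rh14efb7ec5dd00524 : CRef := CRef.mk (Pat.mk 0x2c000000000000000000000000 0x20000000e0000000e0000000e0000000f0000003e0000007f0000000c0000000c 7 7) 0 0 (step_sound _ 100 [(rh2ba551de881ca4cd.shift 0 2), (rh2cc7d62e70c02209.shift 0 2), (rh805b7d85b33a7d22.shift 1 0), (rh8195a2d7794c7cd2.shift 0 2)] (by decide +kernel))
noncomputable def rh4a663b99766d5413 : CRef := CRef.mk (Pat.mk 0x1e000000100000000000000000 0x2800000038000000380000003b0000001e0000001b0000001800000018 7 6) 0 0 (step_sound _ 132 [(rh33e738c4ed385b9f.shift 1 3), rh60527afd12d1479d] (by decide +kernel))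
noncomputable def rhe2a77636904457d8 : CRef := CRef.mk (Pat.mk 0x100000001e00000000000000000000000000000000 0x100000001c0000001e0000003f0000003b0000001a00000012 7 6) 0 0 (step_sound _ 100 [rhb4874387b3c96687, (rhe25b0a99195a5d59.shift 1 3)] (by decide +kernel))
noncomputable def rh007ce8f541a4dd92 : CRef := CRef.mk (Pat.mk 0x1000000018000000080000000000000000 0xec000000ff0000001f0000001c000000f800000038 7 8) 0 0 (step_sound _ 35 [rh0b787b74a6c2af78, (rh71222050f2c63a3a.shift 3 0)] (by decide +kernel))
noncomputable def rh5028a1f3310dfb11 : CRef := CRef.mk (Pat.mk 0x1000000018000000080000000000000000 0x80000000c000000ec000000ff0000001f0000001c0000000c0000000c 7 8) 0 0 (step_sound _ 35 [(rh71222050f2c63a3a.shift 3 0), rh87af8c59c94783a4] (by decide +kernel))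
noncomputable def rhc5a3b87376ff53b3 : CRef := CRef.mk (Pat.mk 0x58000000080000000800000000 0xf4000000ff0000005f000001ff000000ff00000074 7 9) 0 0 (step_sound _ 131 [(rh3bb32a08be27ba1a.shift 0 1), rh9b45786b9da7cdb6, rh9dcb3ced18612fa4] (by decide +kernel))
noncomputable def rh6dd6ee82a1d8c522 : CRef := CRef.mk (Pat.mk 0x58000000080000000800000000 0x40000000c0000004c00000058000001ff000000ff00000074 7 9) 0 0 (step_sound _ 131 [(rh0fd870c734e6c513.shift 2 0), (rh29dd5384d80ecb1e.shift 2 0), rh9dcb3ced18612fa4, (rhabedd109a9a37101.shift 2 0)] (by decide +kernel))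
noncomputable def rhc1b59f7d99d33fbb : CRef := CRef.mk (Pat.mk 0x180000000800000000000000000000000000000000 0x40000001c0000001c000000180000003c000000ff0000003c0000001c00000014 7 8) 0 0 (step_sound _ 99 [(rh815da42dccf39976.shift 0 2), (rhd03dc3b7a42c1589.shift 2 1), (rhe3458ab40071103b.shift 3 2), (rhffb8e5993241bf15.shift 2 0)] (by decide +kernel))
noncomputable def rh8a403707f609d8c7 : CRef := CRef.mk (Pat.mk 0x1800000018000000000000000000000000 0x140000001f000000ff0000006f0000000c0000000c 7 8) 0 0 (step_sound _ 101 [(rh79b3c29022acbdf3.shift 2 3), (rh92e8f86a47ca4f2b.shift 2 0), rha612bd60300eb0ed] (by decide +kernel))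
noncomputable def rhd959aeac7c058a92 : CRef := CRef.mk (Pat.mk 0x8000000180000000800000000 0x140000001c0000001c000000080000001f000000ff000000f4 7 8) 0 0 (step_sound _ 131 [rh615cf76a657a45f3, (rh762a1aeaf83c662a.shift 2 0), (rhd4b4beefcd67f51e.shift 3 0)] (by decide +kernel))
noncomputable def rh7f6ec28e1f3ea7e6 : CRef := CRef.mk (Pat.mk 0x80000001800000008000000000000000000000000 0x140000001c0000003c0000000f0000001c0000000f0000001c0000001c00000014 7 6) 0 0 (step_sound _ 195 [(rh47992774edf9829f.shift 2 0), (rh580c6d6212ed1b86.shift 0 2), (rh762a1aeaf83c662a.shift 2 2), (rh900a894640be090c.shift 0 2)] (by decide +kernel))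
noncomputable def rhdbb28fbfc4b9b5d3 : CRef := CRef.mk (Pat.mk 0x80000005800000008000000000000000000000000 0x40000004c0000005c000001ff000000ff0000007c00000014 7 9) 0 0 (step_sound _ 67 [(rh3181373a30ceb9e3.shift 2 0), (rh46baee19951a66e7.shift 2 0), (rh6aa5625770489e83.shift 2 0), (rh9dcb3ced18612fa4.shift 0 1)] (by decide +kernel))
noncomputable def rh715ad61761becf64 : CRef := CRef.mk (Pat.mk 0x580000001800000000 0x1ff000000fe000001ff0000005c000000f800000050 7 9) 0 0 (step_sound _ 131 [(rh043f8fe96e1faf54.shift 1 0), (rh4ec4eb1e6df06e8b.shift 1 1), rh9e73c5baedaf010a, (rhda6cc5da102e1723.shift 3 0)] (by decide +kernel))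
noncomputable def rh379e745e30a7f260 : CRef := CRef.mk (Pat.mk 0x200000002c000000000000000000000000 0x140000001c0000007e0000007e0000007f0000002f0000002e0000002e0000000c 7 7) 0 0 (step_sound _ 131 [(rh001ff81416baa366.shift 1 1), rh07d54b51c8be62f5, rh24d90485bf1981a1, (rhe33d9496e10d8eb0.shift 0 3)] (by decide +kernel))
noncomputable def rh932ed3080ba5cb22 : CRef := CRef.mk (Pat.mk 0x80000000a00000008000000000000000000000000 0x40000001c0000001c0000001c0000000c0000000f000000180000001c0000001c00000004 7 5) 0 0 (step_sound _ 195 [(rh8e3b1d976c2c4cbf.shift 2 0), (rhc85cc95794737cf7.shift 2 3), (rhcae87bda2c3c01d2.shift 2 1), (rhdc5323e082b408b8.shift 0 2)] (by decide +kernel))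
noncomputable def rh1a279faa03b67c61 : CRef := CRef.mk (Pat.mk 0x100000001400000010000000000000000000000000 0x8000000180000001f0000007e0000007e0000003800000008 7 7) 0 0 (step_sound _ 68 [(rh178f93a87db8ff18.shift 1 1), (rh6aa5625770489e83.shift 3 0), (rh866e9d25f6689c5a.shift 0 1)] (by decide +kernel))
noncomputable def rh7e56f3f05580d684 : CRef := CRef.mk (Pat.mk 0x28000000280000000000000000000000000000000000000000 0x10000000140000003c000000ff000000780000002f000000fe0000007f0000001c0000001c00000014 7 8) 0 0 (step_sound _ 131 [(rh1b7e89f239630456.shift 2 1), (rh1fa33a0369aa1fc6.shift 1 1), rh39ec6853ced0324a, (rh530ff0566bf34ee5.shift 2 2), (rh712c804d50c21d5f.shift 0 3), (rh92a482e38c5eae4f.shift 2 1), rhadaf99cc91f66e5e, (rhbd6e191b609b3fe3.shift 0 3)] (by decide +kernel))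
noncomputable def rhd4a5f7f33efb992d : CRef := CRef.mk (Pat.mk 0x2800000028000000000000000000000000 0x40000000540000007c000001ff000000ff000000280000007c0000007c00000054 7 9) 0 0 (step_sound _ 163 [rh33f9ebfa742987aa, rh6f263787295a39a9, rh87038d8fda6e5753, (rh8ffb89172b03b779.shift 0 2), (rha227599e268fa8fa.shift 2 0), (rhf07c37d590073593.shift 2 0)] (by decide +kernel))
noncomputable def rh280d15f5df78147f : CRef := CRef.mk (Pat.mk 0x140000001400000000000000000000000000000000 0xa0000002e0000007f0000007e00000037000000160000003e0000003e0000002e00000002 7 7) 0 0 (step_sound _ 194 [(rh04f4875e911c5ad0.shift 0 3), (rh4df310a8d4595483.shift 1 0), (rh7863e25d1d742d32.shift 1 2), (rh85bb52c012d18ab3.shift 0 1), (rh9ba8dda0c49168a8.shift 0 1), (rhc1a03c4521ecfdbb.shift 1 1), (rhd33666284aa5c7c2.shift 1 1)] (by decide +kernel))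
noncomputable def rh76e45ac15fc95d39 : CRef := CRef.mk (Pat.mk 0x80000000a0000000800000000000000000000000000000000 0x140000001c0000001e0000000f0000000c000000180000001c0000001c00000004 7 5) 0 0 (step_sound _ 99 [rh15f0ce6ac32bde25, (rh46baee19951a66e7.shift 2 1), (rh482d647aab4b93ee.shift 2 1), (rh7e90affc6ee08a22.shift 0 3)] (by decide +kernel))
noncomputable def rh2a8d528ed475ffda : CRef := CRef.mk (Pat.mk 0x2800000028000000000000000000000000 0x8000003bf000003fe000003f70000000400000004 7 10) 0 0 (step_sound _ 100 [(rh1aae126fdb0efa1d.shift 2 2), (rha9fbfd4bb8cf890b.shift 0 3), (rhc533220966fcc36e.shift 0 2), rhe80e002c72bee859] (by decide +kernel))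
noncomputable def rh2d7b7ddcb20f8fc6 : CRef := CRef.mk (Pat.mk 0x28000000280000000000000000000000000000000000000000 0x1c0000001c0000001f000003b8000003fe000003ff0000003c0000003c0000001c00000010 7 10) 0 0 (step_sound _ 164 [(rh0e3012db365425d2.shift 0 2), rh35c1cdedc435622b, (rh3e26abbf947d0cd9.shift 2 1), (rh5b6d2bf6893374d1.shift 1 2), (rha13423141a6dee87.shift 0 2), (rhc533220966fcc36e.shift 0 4)] (by decide +kernel))
noncomputable def rhed94232d981d2b57 : CRef := CRef.mk (Pat.mk 0x2800000028000000000000000000000000 0x50000000740000007c0000007c0000002f000000f8000001fc0000007c00000054 7 9) 0 0 (step_sound _ 102 [(rh47082137e9cd2755.shift 2 2), (rh53567e131628b92e.shift 2 0), (rh56e90c12f0808c38.shift 2 0), rhd427600927ea2b96, (rheb35796aefd5d255.shift 2 0)] (by decide +kernel))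
noncomputable def rhbf9edb573ca9b7ac : CRef := CRef.mk (Pat.mk 0x2800000028000000000000000000000000 0x140000001c0000005c0000007f000000ff0000002f0000007c0000006f0000004c00000044 7 8) 0 0 (step_sound _ 163 [(rh1359922a99d3d421.shift 2 1), (rh144c921ae3171e1e.shift 1 2), (rh195e2e6861faf39a.shift 2 1), (rh22e3873261c6c95d.shift 2 2), rh3f2ea8d89b0df1d7, rh65d01379fd6ff22b, (rh7863e25d1d742d32.shift 2 1), rha98a27a39ca716f5, (rhdcf15acb697cf72f.shift 0 2), rhf54fb5dd43065212] (by decide +kernel))
noncomputable def rh75c68eed389f042d : CRef := CRef.mk (Pat.mk 0x280000002800000000000000000000000000000000 0x140000005c000000fe0000007c0000002f0000003c0000003c0000003c0000001400000010 7 8) 0 0 (step_sound _ 195 [(rh1dbd5905aef3dade.shift 2 0), (rh22e3873261c6c95d.shift 2 3), (rh25271c74be886731.shift 2 1), (rh9025223dca583e9f.shift 2 1), (rha36af0df88df322f.shift 1 2), (rhc4d5e3a638b42b78.shift 0 1)] (by decide +kernel))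
noncomputable def rhb2047b9a78bf873c : CRef := CRef.mk (Pat.mk 0x2c000000200000000000000000 0xc0000007f0000003e0000003f0000000e0000000e 7 7) 0 0 (step_sound _ 100 [(rh4368217ec1272ce6.shift 1 0), (rh61325f73ebf98108.shift 0 3), (rhdceeca65bdd8095a.shift 0 2)] (by decide +kernel))
noncomputable def rh7d0995abbcba8894 : CRef := CRef.mk (Pat.mk 0x2c000000200000000000000000 0x140000005c000000fe000001fe0000002f0000007c0000007c0000004c 7 9) 0 0 (step_sound _ 133 [rh27968d929b5eb6a7, rh30b4c8aa87f70486, (rh4ff3018690521298.shift 2 0), rh6f86970e8c839ade, (rh7fa8d387b1ab4755.shift 2 0), (rhab195b323f08b6c2.shift 0 1), (rhaedeb049cec7eb39.shift 2 0), rhc5c669a21ab4e9cc] (by decide +kernel))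
noncomputable def rh4b32808387a988e1 : CRef := CRef.mk (Pat.mk 0x38000000000000000000000000 0x20000000e0000000e0000000e0000007f0000003e0000000f0000000c0000000c 7 7) 0 0 (step_sound _ 98 [(rh61325f73ebf98108.shift 0 3), (rh7654d7b92c96fe12.shift 0 2), (rh775ca1963e850b80.shift 0 2), (rh805b7d85b33a7d22.shift 1 0)] (by decide +kernel))
noncomputable def rhe3520b23e2026664 : CRef := CRef.mk (Pat.mk 0xe0000000800000000000000000000000000000000 0x40000001c0000003c0000000e0000007c000000380000001f0000001c00000014 7 7) 0 0 (step_sound _ 99 [(rh7b24c4ccc068b0b2.shift 2 2), (rh7e815e00b19d6e56.shift 1 2), (rhb1a251d9bff81766.shift 2 2), rhf71215ddc455fe51, (rhf9a6286f1d5377a2.shift 2 2)] (by decide +kernel))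
noncomputable def rh9a33336f7a00767c : CRef := CRef.mk (Pat.mk 0xe0000000800000000000000000000000000000000 0x140000001c0000003c0000000e000000380000001f000000fc0000001c00000014 7 8) 0 0 (step_sound _ 99 [(rh0a6888916bcef86b.shift 2 0), (rhb1a251d9bff81766.shift 2 2), (rhbe4291dfa8c01ddc.shift 1 2), rhcd4ff5e74873e18b] (by decide +kernel))
noncomputable def rh231e3fe9f311afaf : CRef := CRef.mk (Pat.mk 0x2c0000002000000000000000000000000000000000 0x140000001c0000001c0000007c0000002f0000007c0000001f0000001c0000001c00000014 7 7) 0 0 (step_sound _ 131 [rh01bec6794f227bba, (rh8c25cb665ab79ec0.shift 0 4), rha4846e93cf74f2cb, (rhbb2258de3c9392a8.shift 0 1)] (by decide +kernel))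
noncomputable def rh16fb5d56bd5c2716 : CRef := CRef.mk (Pat.mk 0x2800000028000000000000000000000000 0x18000003bf000001fe000003f70000002400000024 7 10) 0 0 (step_sound _ 100 [(rh1aae126fdb0efa1d.shift 2 2), (rha9fbfd4bb8cf890b.shift 0 3), rhe80e002c72bee859, rhed963764511338bc] (by decide +kernel))
noncomputable def rh3bc26c7725fb7aa0 : CRef := CRef.mk (Pat.mk 0x28000000280000000000000000000000000000000000000000 0x1c0000001c0000001f000003b8000001fe000003ff0000003c0000003c0000001c00000010 7 10) 0 0 (step_sound _ 164 [(rh0e3012db365425d2.shift 0 2), rh35c1cdedc435622b, (rh3e26abbf947d0cd9.shift 2 1), (rh5b6d2bf6893374d1.shift 1 2), (rha13423141a6dee87.shift 0 2), (rhb2e5cbe21dba9d63.shift 0 2), (rhed963764511338bc.shift 0 2)] (by decide +kernel))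
noncomputable def rh4112640c38004557 : CRef := CRef.mk (Pat.mk 0x10000000140000001000000000000000000000000000000000 0x28000000380000003c0000001f0000001800000038000000300000003000000010 7 6) 0 0 (step_sound _ 100 [(rh46baee19951a66e7.shift 3 1), (rh482d647aab4b93ee.shift 3 1), (rh7e90affc6ee08a22.shift 1 3), rhc42d19720b7472bd] (by decide +kernel))
noncomputable def rh4a6d6d9140a7d56f : CRef := CRef.mk (Pat.mk 0x10000000140000001000000000000000000000000000000000 0x2000000030000000300000001f0000001800000038000000380000003800000018 7 6) 0 0 (step_sound _ 100 [(rh15f0ce6ac32bde25.shift 1 0), (rh20966da26a1c2ae8.shift 3 2), (rh8cdd36b03d57a2f6.shift 3 1), rhc42d19720b7472bd] (by decide +kernel))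
noncomputable def rh1b343b36dc5592e6 : CRef := CRef.mk (Pat.mk 0x200000002800000020000000000000000000000000 0x40000001c0000001c000003fe000001fe000003bf0000003c0000001c0000001c00000010 7 10) 0 0 (step_sound _ 130 [(rh22e203964f906d4b.shift 1 3), (rh6eedc9babffb703b.shift 2 3), (rha7b6acd086adad79.shift 0 1), rhbacc20df0843abc0] (by decide +kernel))
noncomputable def rha0bcbbefeb3f9e14 : CRef := CRef.mk (Pat.mk 0xa000000080000000800000000 0x40000001c0000003c0000000e0000007e0000001f00000016 7 7) 0 0 (step_sound _ 131 [(rh565a0c22519f57e9.shift 2 0), (rh8065c10b3cae6218.shift 2 0), (rhc9ac229b3c77cd55.shift 2 0), rhd2a508818eb3867e] (by decide +kernel))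
noncomputable def rh850c5186da8edeab : CRef := CRef.mk (Pat.mk 0x2800000028000000000000000000000000 0x54000000fc0000007c0000002f000000f8000001fc0000007c00000054 7 9) 0 0 (step_sound _ 102 [(rh47082137e9cd2755.shift 2 2), (rh53567e131628b92e.shift 2 0), (rh56e90c12f0808c38.shift 2 0), rh8064eaf9bc2923be, (rheb35796aefd5d255.shift 2 0)] (by decide +kernel))
noncomputable def rhe10008d61be02637 : CRef := CRef.mk (Pat.mk 0x2800000028000000000000000000000000 0x140000001c0000005c0000007f000000ff0000002f0000007c0000006f0000004c00000044 7 8) 0 0 (step_sound _ 163 [(rh1359922a99d3d421.shift 2 1), (rh144c921ae3171e1e.shift 1 2), (rh195e2e6861faf39a.shift 2 1), (rh22e3873261c6c95d.shift 2 2), rh3f2ea8d89b0df1d7, rh65d01379fd6ff22b, rh6d3fabaf7ec9c89d, (rh7863e25d1d742d32.shift 2 1), rha98a27a39ca716f5, (rhdcf15acb697cf72f.shift 0 2)] (by decide +kernel))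
noncomputable def rhb227d26e07c6f501 : CRef := CRef.mk (Pat.mk 0x280000002800000000000000000000000000000000 0x140000005c000000fe0000007c0000002f0000003c000000fe0000007c0000001400000010 7 8) 0 0 (step_sound _ 195 [(rh1dbd5905aef3dade.shift 2 0), (rh22e3873261c6c95d.shift 2 3), (rh25271c74be886731.shift 2 1), (rh9025223dca583e9f.shift 2 1), (rh962ff5e91946d9a6.shift 2 1), (rha36af0df88df322f.shift 1 2), rhff6db7224ba92f3a] (by decide +kernel))
noncomputable def rhec02915e8e3688b0 : CRef := CRef.mk (Pat.mk 0x280000002800000000000000000000000000000000 0x540000007c0000007c000000280000007c000001ff000000fc0000005400000054 7 9) 0 0 (step_sound _ 99 [rh0115c66452a97d07, rh2c9824e3d3e9dab7, (rh60f6231d213c6ef9.shift 2 1), (rhc5c5b88722b9bb4a.shift 2 1), (rhcc8f8c689c2f2602.shift 2 0), (rhe323009b509138a7.shift 0 2)] (by decide +kernel))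
noncomputable def rh446c1dc68e212cca : CRef := CRef.mk (Pat.mk 0x20000001e000000000000000000000000 0xe0000000f0000003e0000001e0000003e0000001e0000001c 7 6) 0 0 (step_sound _ 132 [rh1c33f5ee25e35a18, (rh33e738c4ed385b9f.shift 1 3)] (by decide +kernel))
noncomputable def rh296796b5b4874f47 : CRef := CRef.mk (Pat.mk 0x1e000000020000000000000000 0x500000007000000070000000f0000003f0000001e000000320000001200000012 7 6) 0 0 (step_sound _ 129 [rh216f038ab4e845ca, (rh3244c3cc8379b070.shift 0 3)] (by decide +kernel))
noncomputable def rhc4e11d5537fda232 : CRef := CRef.mk (Pat.mk 0xf00000001000000000000000000000000 0x40000001c0000000f0000001f0000001e0000001c00000014 7 5) 0 0 (step_sound _ 99 [rh92fe2b4467a78e6a, (rhe25b0a99195a5d59.shift 0 3)] (by decide +kernel))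
noncomputable def rhc5785e6b6dd8649d : CRef := CRef.mk (Pat.mk 0x200000016000000020000000000000000 0xa0000003b0000001e0000003e0000003400000034 7 6) 0 0 (step_sound _ 99 [(rh3244c3cc8379b070.shift 0 3), (rh97c149d225d666f0.shift 1 0)] (by decide +kernel))
noncomputable def rhe1ce516d7de4557d : CRef := CRef.mk (Pat.mk 0x18000000080000000800000000 0x40000003c0000007c0000001e0000003c0000001f00000014 7 7) 0 0 (step_sound _ 131 [(rh0fd870c734e6c513.shift 2 0), (rh29dd5384d80ecb1e.shift 2 0), (rhabedd109a9a37101.shift 2 0), rhb4589148e6fe8153] (by decide +kernel))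
noncomputable def rh2e863169bdc8e1cd : CRef := CRef.mk (Pat.mk 0x1000000018000000080000000000000000 0x80000000c0000002c0000007c0000001f0000001c000000f800000038 7 8) 0 0 (step_sound _ 35 [(rh71222050f2c63a3a.shift 3 0), rh7e02a204f6046b75] (by decide +kernel))
noncomputable def rh58d9e2e63adce0d0 : CRef := CRef.mk (Pat.mk 0x200000003000000010000000000000000000000000 0x10000000180000001e000000fe0000003e0000007f0000001e0000001c00000004 7 8) 0 0 (step_sound _ 131 [rh26a4e42a8cae476f, (rh4ed6ce102d24e7ba.shift 0 1), (rh5dec5e73a267a1c4.shift 1 3), (rhf0da364da79b80de.shift 1 1)] (by decide +kernel))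
noncomputable def rh73c54976ba37b838 : CRef := CRef.mk (Pat.mk 0x18000000080000000800000000 0x40000000c0000000c00000018000000ff000000ff000001f4 7 9) 0 0 (step_sound _ 131 [(rh0fd870c734e6c513.shift 2 0), (rh29dd5384d80ecb1e.shift 2 0), (rhabedd109a9a37101.shift 2 0), rhcf5f866e7b489c1d] (by decide +kernel))
noncomputable def rh22db77ba3a939b2b : CRef := CRef.mk (Pat.mk 0x1000000018000000080000000000000000 0x80000000c0000002c000000ff0000001f000000380000001f0000001c 7 8) 0 0 (step_sound _ 35 [rh5f69a497f709e552, (rh71222050f2c63a3a.shift 3 0)] (by decide +kernel))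
noncomputable def rh5baa954db3a1e158 : CRef := CRef.mk (Pat.mk 0x5800000018000000000000000000000000 0x100000001000000058000000ff000000ff0000007c0000007c 7 8) 0 0 (step_sound _ 67 [(rh362104532586ff12.shift 1 0), rh95c81810d636917f, (rhea7a1800d6f053bd.shift 3 0)] (by decide +kernel))
noncomputable def rh8a2a33460f6b7ee2 : CRef := CRef.mk (Pat.mk 0x1800000018000000000000000000000000 0x14000000170000001f0000007f000000770000002300000020 7 7) 0 0 (step_sound _ 130 [rh476c2d497c3f6c9c, (rh6292bd8784ece55f.shift 1 3), (rhcd4d16d28964fbaf.shift 0 1)] (by decide +kernel))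
noncomputable def rh118972e39e31dba2 : CRef := CRef.mk (Pat.mk 0x80000001800000008000000000000000000000000 0x40000000c0000001c000000ff000000ff000001fc00000014 7 9) 0 0 (step_sound _ 67 [(rh46baee19951a66e7.shift 2 0), (rh6aa5625770489e83.shift 2 0), (rh8cdd36b03d57a2f6.shift 2 0), (rhcf5f866e7b489c1d.shift 0 1)] (by decide +kernel))
noncomputable def rh124dedbe502a5859 : CRef := CRef.mk (Pat.mk 0x1800000018000000000000000000000000 0x2000000030000000f0000001f000000ff000000070000000600000006 7 8) 0 0 (step_sound _ 98 [(rh106bb650dfae2043.shift 0 1), (rh3b50022fa73ccc4f.shift 0 2), rh56c9baa36ab09160, rh65b9c6b05020ace6, rh9ecea4e1d309003f, (rhbb7213d4724395ac.shift 0 1)] (by decide +kernel))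
noncomputable def rh384e6e933685ceb9 : CRef := CRef.mk (Pat.mk 0x1800000018000000000000000000000000 0x40000000f0000001f0000007f000000770000001700000014 7 7) 0 0 (step_sound _ 130 [rh32f03abbd3c6b1d1, (rh6292bd8784ece55f.shift 1 3), (rhcd4d16d28964fbaf.shift 0 1)] (by decide +kernel))
noncomputable def rh7dfa3c9bd19b63f5 : CRef := CRef.mk (Pat.mk 0x1e000000020000000000000000 0x50000000700000007000000070000001e000000360000000600000006 7 6) 0 0 (step_sound _ 129 [rh2312434e44e5b961, (rh3244c3cc8379b070.shift 0 3)] (by decide +kernel))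
noncomputable def rh6239d0f22c3e84a0 : CRef := CRef.mk (Pat.mk 0x1e0000001000000000000000000000000000000000 0x40000000e0000000f0000001f0000001c0000001f0000001e0000001c00000004 7 5) 0 0 (step_sound _ 131 [rh6414c79d6ead5a18, (rhb739f4f82bb681b4.shift 0 4)] (by decide +kernel))
noncomputable def rhb6c2111a2c2ceec4 : CRef := CRef.mk (Pat.mk 0x1e0000001000000000000000000000000000000000 0x40000000c0000000c0000001f0000001e0000001f0000001e0000001c00000004 7 5) 0 0 (step_sound _ 131 [rh9ae88f54fea485a5, (rhb739f4f82bb681b4.shift 0 4)] (by decide +kernel))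
noncomputable def rh66e36dcc5aa101e4 : CRef := CRef.mk (Pat.mk 0x30000000600000000000000000 0x10000000140000003e000000fc0000007f0000002c0000002c 7 8) 0 0 (step_sound _ 99 [rh739a6cbfe00eb5b0, (rhb739f4f82bb681b4.shift 2 2)] (by decide +kernel))
noncomputable def rh917966df707fac2e : CRef := CRef.mk (Pat.mk 0xc000000180000000000000000 0x14000000370000003f0000001b0000000a0000000a 7 6) 0 0 (step_sound _ 97 [(rhb739f4f82bb681b4.shift 0 2), rhf39575bda9df0b8c] (by decide +kernel))
noncomputable def rh494289d9b5511a5f : CRef := CRef.mk (Pat.mk 0xc0000001800000000000000000000000000000000 0x100000001c0000001c0000007c0000000f0000001c000000180000001c0000001c00000004 7 7) 0 0 (step_sound _ 161 [(rh5103baf333faad50.shift 1 0), (rhb739f4f82bb681b4.shift 0 4)] (by decide +kernel))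
noncomputable def rh3d9203a2b73357f0 : CRef := CRef.mk (Pat.mk 0xc00000018000000000000000000000000 0x6000000770000003f0000001f000000070000000700000002 7 7) 0 0 (step_sound _ 129 [rh785c611ce272e601, (rhb739f4f82bb681b4.shift 0 3)] (by decide +kernel))
noncomputable def rhc8f2679bdce2f50a : CRef := CRef.mk (Pat.mk 0x800000018000000000000000000000000 0x300000003c000000fe0000007f0000003f0000001c0000001c0000001c0000001c 7 8) 0 0 (step_sound _ 163 [(rh046c5eb18e55a239.shift 3 0), (rh70e33bfdf511e144.shift 3 0), rha1974aa184079869, (rhfc567835fa4f6359.shift 2 0)] (by decide +kernel))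
noncomputable def rhf4509072160dced0 : CRef := CRef.mk (Pat.mk 0x200000016000000020000000000000000 0x50000000700000007000000060000001e000000370000000600000006 7 6) 0 0 (step_sound _ 99 [rh2312434e44e5b961, (rheb0810cc63b001d8.shift 0 2)] (by decide +kernel))
noncomputable def rhf38a12412b3be0e5 : CRef := CRef.mk (Pat.mk 0x1e0000001000000000000000000000000000000000 0x50000000700000007000000030000001e0000001f00000007000000070000000700000004 7 5) 0 0 (step_sound _ 129 [rhe5667d22d341345b, (rheb0810cc63b001d8.shift 0 4)] (by decide +kernel))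
noncomputable def rha95f48dee792da27 : CRef := CRef.mk (Pat.mk 0x5800000008000000000000000000000000 0x10000000380000007f0000003f000000380000001800000010 7 7) 0 0 (step_sound _ 98 [(rh361cc68994bd8a63.shift 2 3), rh542cdf433fb387a0] (by decide +kernel))
noncomputable def rhd76ed83b3d4e3a65 : CRef := CRef.mk (Pat.mk 0x180000000c000000000000000000000000 0xa0000000f0000001f0000003f0000000f0000000400000004 7 6) 0 0 (step_sound _ 97 [(rh53b3c253cb0c65f4.shift 0 3), rhb1641c9a4af53652] (by decide +kernel))
noncomputable def rh92c68958b3151892 : CRef := CRef.mk (Pat.mk 0x5800000008000000000000000000000000 0x140000001c0000001c0000007c0000000f0000003c0000001c0000001c 7 7) 0 0 (step_sound _ 98 [(rh361cc68994bd8a63.shift 2 3), rh4b3eb4ea56e8de4f] (by decide +kernel))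
noncomputable def rhc4cf73953f73f251 : CRef := CRef.mk (Pat.mk 0x180000000c0000000000000000 0x13000000330000001f0000003f0000007f0000000c 7 7) 0 0 (step_sound _ 65 [rh400fe7f8d2e41d6d, (rh53b3c253cb0c65f4.shift 0 2)] (by decide +kernel))
noncomputable def rh4c2fd5016a7e3b42 : CRef := CRef.mk (Pat.mk 0x18000000080000000800000000 0x40000001e0000003f0000001f0000001e0000007c00000014 7 7) 0 0 (step_sound _ 131 [rh0a6e80f3a222113c, (rh0fd870c734e6c513.shift 2 0), (rh29dd5384d80ecb1e.shift 2 0), (rhabedd109a9a37101.shift 2 0)] (by decide +kernel))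
noncomputable def rh56e536374b6ce8d2 : CRef := CRef.mk (Pat.mk 0x5800000008000000000000000000000000 0x1c0000003f0000003f0000007f000000180000001c0000001c00000014 7 7) 0 0 (step_sound _ 163 [(rh47a84af05d02f40e.shift 0 3), (rh4d6a2612ebfeb13d.shift 2 0), (rh9b548e3f1df0b784.shift 2 1), (rhdb9dc36888886841.shift 0 2)] (by decide +kernel))
noncomputable def rh90bcc6760930a3fb : CRef := CRef.mk (Pat.mk 0x180000000c000000000000000000000000 0xa0000001b0000003f000000370000001400000014 7 6) 0 0 (step_sound _ 97 [(rh53b3c253cb0c65f4.shift 0 3), rhbdbef1a6ac7db326] (by decide +kernel))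
noncomputable def rhc83128254ddfd9e4 : CRef := CRef.mk (Pat.mk 0x180000000c0000000000000000 0x3000000030000001f000000ff0000007700000004 7 8) 0 0 (step_sound _ 65 [(rh53b3c253cb0c65f4.shift 0 2), rhde737f7f8f55a1ca] (by decide +kernel))
noncomputable def rh250908a81daa4c4d : CRef := CRef.mk (Pat.mk 0x180000000c00000000000000000000000000000000 0x40000001c0000001c000000180000001c0000000f0000007c0000001c0000001c00000014 7 7) 0 0 (step_sound _ 129 [(rh2484f24c7ee9076c.shift 1 0), (rh53b3c253cb0c65f4.shift 0 4)] (by decide +kernel))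
noncomputable def rha52718c23213821f : CRef := CRef.mk (Pat.mk 0x20000000b00000001000000000000000000000000000000000 0x4000000070000000f8000003f0000001fc000001ff0000006000000020 7 10) 0 0 (step_sound _ 100 [rh6a1ca90060bec6a6, (rh71222050f2c63a3a.shift 4 2)] (by decide +kernel))
noncomputable def rh60bc373eea59e557 : CRef := CRef.mk (Pat.mk 0x20000001e00000000000000000000000000000000 0x600000006000000060000001f0000003e0000000f0000000f00000008 7 6) 0 0 (step_sound _ 100 [rh31a3b3867a46dcf6, (rhe25b0a99195a5d59.shift 1 3)] (by decide +kernel))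
noncomputable def rhf973300909b0ce45 : CRef := CRef.mk (Pat.mk 0xc00000018000000000000000000000000 0x7f0000003f0000001f000000330000003200000012 7 7) 0 0 (step_sound _ 129 [rh21689802c8759ec7, (rhb739f4f82bb681b4.shift 0 3)] (by decide +kernel))
noncomputable def rh1e7f7d8e841ca67a : CRef := CRef.mk (Pat.mk 0x800000008000000180000000000000000000000000000000000000000 0x140000001f000000380000001c000000f80000003c0000001c0000001c00000010 7 8) 0 0 (step_sound _ 131 [(rh574b49da0a8832ff.shift 0 3), (rh62065880ba4433e2.shift 2 1), (rhb569fc3d362b7913.shift 0 3), (rhb9baa4006ed4cc5e.shift 2 0), (rhca18712e5e5c7b8f.shift 3 2)] (by decide +kernel))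
noncomputable def rhce72af5422c4ce22 : CRef := CRef.mk (Pat.mk 0x80000000800000018000000000000000000000000 0x100000003c0000007c0000001f0000001800000018000000080000000800000008 7 7) 0 0 (step_sound _ 195 [(rh6c26a367b78953bd.shift 0 2), (rha3efcb708b50b020.shift 1 2), (rhc4055b4872d6fb38.shift 2 2), (rhd22b66c0f3e8b39b.shift 2 0), (rhdbc400e79194dff9.shift 2 3)] (by decide +kernel))
noncomputable def rhe7c6e6acf8f7d4f0 : CRef := CRef.mk (Pat.mk 0x20000001e00000000000000000000000000000000 0x4000000070000000700000007000000060000001e00000033000000070000000700000005 7 6) 0 0 (step_sound _ 97 [rhb3765993bdc3f23b, (rheb0810cc63b001d8.shift 0 3)] (by decide +kernel))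
noncomputable def rh1d21668db6b85e69 : CRef := CRef.mk (Pat.mk 0x1e00000002000000000000000000000000 0x50000000700000007000000070000001e0000003e000000070000000300000002 7 6) 0 0 (step_sound _ 161 [(rh3244c3cc8379b070.shift 0 4), rh490c883018d2a71a] (by decide +kernel))
noncomputable def rh50b35a063d3e4009 : CRef := CRef.mk (Pat.mk 0x1e0000000200000000000000000000000000000000 0x600000006000000070000001e0000003e00000003000000070000000700000004 7 6) 0 0 (step_sound _ 193 [(rh3244c3cc8379b070.shift 0 5), rh400e041d3723923d] (by decide +kernel))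
noncomputable def rh8aa78e5346b92a2d : CRef := CRef.mk (Pat.mk 0x180000000c000000000000000000000000 0x3000000030000000320000001b0000003f0000007f0000001c0000001c 7 7) 0 0 (step_sound _ 97 [(rh53b3c253cb0c65f4.shift 0 3), rhcfee09ccf9d73b95] (by decide +kernel))
noncomputable def rhc8b372f49952ef00 : CRef := CRef.mk (Pat.mk 0xb8000000000000000000000000 0x400000007000000ff0000003f0000000800000008 7 8) 0 0 (step_sound _ 98 [(rh19f54e657f055cd8.shift 0 2), (rh2cc7d62e70c02209.shift 0 2), (rh71587219d01155f6.shift 0 2), (rhafa5a7051d37b143.shift 1 0), (rhb91ed2d2b6c64330.shift 0 2)] (by decide +kernel))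
noncomputable def rh41d03488327ecc9e : CRef := CRef.mk (Pat.mk 0x7c000000000000000000000000 0x10000000370000007f0000001c0000000800000008 7 7) 0 0 (step_sound _ 67 [rh881e706ab513296f, (rheb0810cc63b001d8.shift 2 2)] (by decide +kernel))
noncomputable def rh9b91a443800bef49 : CRef := CRef.mk (Pat.mk 0x1e00000000000000000000000000000000 0x400000006000000070000001e00000037000000070000000700000005 7 6) 0 0 (step_sound _ 97 [rh3165231415d2a230, (rheb0810cc63b001d8.shift 0 3)] (by decide +kernel))
noncomputable def rhba59418d937d067d : CRef := CRef.mk (Pat.mk 0x5c00000000 0x3c0000007f000000f7 7 8) 0 0 (step_sound _ 37 [rh30832f75d4e3cd9b, (rh4ad5fc38f1b69f65.shift 2 0), rhf74337aca719633a] (by decide +kernel))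
noncomputable def rh8a9bda0e087af765 : CRef := CRef.mk (Pat.mk 0x1000000018000000080000000000000000 0x80000000c0000006c0000003f0000001f0000001c000000f800000038 7 8) 0 0 (step_sound _ 35 [(rh71222050f2c63a3a.shift 3 0), rh8d06c9fbda639dbf] (by decide +kernel))
noncomputable def rh9adc501cfba80486 : CRef := CRef.mk (Pat.mk 0x1800000018000000000000000000000000 0x80000001800000018000000180000007c0000001f0000000c0000000c 7 7) 0 0 (step_sound _ 67 [rh303357b632e3846f, (rh882b96073bf67ad4.shift 0 1), (rhea7a1800d6f053bd.shift 3 0)] (by decide +kernel))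
noncomputable def rha85cf548288a3dcc : CRef := CRef.mk (Pat.mk 0x100000001800000008000000000000000000000000 0xc0000002c0000003f0000001f000000ff000000ff0000002c00000020 7 8) 0 0 (step_sound _ 67 [(rh71222050f2c63a3a.shift 3 1), rha9bd15d87b14fb2d] (by decide +kernel))
noncomputable def rhe81905e6b7767ee1 : CRef := CRef.mk (Pat.mk 0x3000000010000000100000000000000000 0x10000000380000003e0000007f0000003e0000007f0000001e0000000c00000004 7 7) 0 0 (step_sound _ 131 [(rh674a6e48d541f5ef.shift 0 2), (rhbc9835aeb94742c8.shift 1 1), (rhd101176a990e4581.shift 1 1), rhf1a716fbdbfb465a] (by decide +kernel))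
noncomputable def rha7c9f08374789184 : CRef := CRef.mk (Pat.mk 0x18000000080000000800000000 0x80000001c0000007c0000003f0000001f000000180000001c00000014 7 7) 0 0 (step_sound _ 131 [(rh0a1276863f86678c.shift 2 0), (rh12461e137161f2e1.shift 2 0), (rh29dd5384d80ecb1e.shift 2 0), (rh91429c40af715d36.shift 2 0), rh9b15adb43db90ef3] (by decide +kernel))
noncomputable def rhe0a0c817989e51b3 : CRef := CRef.mk (Pat.mk 0x18000000180000000000000000 0x7c0000007f0000003f0000001f000000f80000003000000010 7 8) 0 0 (step_sound _ 131 [(rh495a39b8a06d7922.shift 1 2), (rh55a1f6c57a317ce6.shift 3 0), rhf7880a5cdbb75294] (by decide +kernel))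
noncomputable def rh3b562db9e76375ee : CRef := CRef.mk (Pat.mk 0x3000000030000000000000000000000000 0x3c0000003e0000007f0000003e0000003e0000006e0000006c0000006c 7 7) 0 0 (step_sound _ 99 [(rh7fe3849afaeeddfd.shift 1 0), (rhbb7213d4724395ac.shift 1 1), rhfaba64372fe17cf2] (by decide +kernel))
noncomputable def rh6a7520239ebbd0e5 : CRef := CRef.mk (Pat.mk 0x1e00000002000000000000000000000000 0x400000006000000370000001e00000006000000070000000700000005 7 6) 0 0 (step_sound _ 161 [(rh3244c3cc8379b070.shift 0 4), rhaae047f9cc0c0a8f] (by decide +kernel))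
noncomputable def rh4dd3b1039110e370 : CRef := CRef.mk (Pat.mk 0x100000001e000000000000000000000000 0xc0000000e0000001f0000001e0000001f0000000c0000000c0000000c 7 5) 0 0 (step_sound _ 131 [rh4eeb74570f5664d9, (rh53b3c253cb0c65f4.shift 0 3)] (by decide +kernel))
noncomputable def rh803f6faf0339294a : CRef := CRef.mk (Pat.mk 0x1e00000002000000000000000000000000 0x4000000070000000700000007000000070000001e00000002000000070000000700000005 7 5) 0 0 (step_sound _ 161 [(rh3244c3cc8379b070.shift 0 4), rhb2147935ca93e326] (by decide +kernel))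
noncomputable def rh4fbfcc345ee7abf4 : CRef := CRef.mk (Pat.mk 0x16000000020000000000000000 0x50000000700000007000000070000001e000000070000000600000006 7 5) 0 0 (step_sound _ 99 [rh0cf7772802442cf0, (rheb0810cc63b001d8.shift 0 2)] (by decide +kernel))
noncomputable def rh9317dc683b8407cd : CRef := CRef.mk (Pat.mk 0x3000000018000000000000000000000000 0x16000000160000003e0000007e0000001f0000000a00000008 7 7) 0 0 (step_sound _ 98 [(rh53b3c253cb0c65f4.shift 1 3), rh54f584e217584008] (by decide +kernel))
noncomputable def rhde45d7164ad6c044 : CRef := CRef.mk (Pat.mk 0x5800000008000000000000000000000000 0x800000008000000780000003f0000007f0000001400000014 7 7) 0 0 (step_sound _ 98 [(rh361cc68994bd8a63.shift 2 3), rh4f65beabb10132b6] (by decide +kernel))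
noncomputable def rh58c7c419dfb396d0 : CRef := CRef.mk (Pat.mk 0x180000000c0000000000000000 0x3000000030000001f0000003f0000007700000004 7 7) 0 0 (step_sound _ 65 [rh37195c40d203aa80, (rh53b3c253cb0c65f4.shift 0 2)] (by decide +kernel))
noncomputable def rhfa64c92ee3abc16b : CRef := CRef.mk (Pat.mk 0xc000000040000000400000000 0x20000000e0000000e0000000e0000000c0000000f0000003e0000003a 7 6) 0 0 (step_sound _ 130 [(rh0fd870c734e6c513.shift 1 0), rh7297d7527063f333, (rh8a6cff9a235067f2.shift 1 0), (rhabedd109a9a37101.shift 1 0)] (by decide +kernel))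
noncomputable def rh8de2bd4945f7cfc7 : CRef := CRef.mk (Pat.mk 0x5800000008000000000000000000000000 0x1c0000003c0000001f0000007c000000180000001c0000001c00000014 7 7) 0 0 (step_sound _ 163 [(rh49e2592b3188b776.shift 2 0), (rh6661a04aba01afe6.shift 0 2), (rh9b548e3f1df0b784.shift 2 1)] (by decide +kernel))
noncomputable def rh2f2218849e1d2cd2 : CRef := CRef.mk (Pat.mk 0x5800000008000000000000000000000000 0x100000003f0000003f0000007f000000180000001c0000001c00000014 7 7) 0 0 (step_sound _ 163 [(rh47a84af05d02f40e.shift 0 3), (rh49e2592b3188b776.shift 2 0), (rh6a6364a412ca78f1.shift 2 0), (rh9b548e3f1df0b784.shift 2 1)] (by decide +kernel))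
noncomputable def rh9cca8e9d37b4985b : CRef := CRef.mk (Pat.mk 0x180000000c0000000000000000 0x30000000300000001f0000003f0000007f00000008 7 7) 0 0 (step_sound _ 65 [rh325d892a968e0e2b, (rh53b3c253cb0c65f4.shift 0 2)] (by decide +kernel))
noncomputable def rhf243d45a832acee7 : CRef := CRef.mk (Pat.mk 0x18000000080000000800000000 0x100000001c0000001c0000003c000000780000001e000000380000001f00000014 7 7) 0 0 (step_sound _ 131 [(rh12461e137161f2e1.shift 2 0), (rh7893e6c45bc3445b.shift 2 0), (rh7fb268fa9e89f435.shift 2 0), (rh8a6cff9a235067f2.shift 2 0), rhb20dd801f506db0f, rhe8a23bc89e7ea0da] (by decide +kernel))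
noncomputable def rhed6fe8c1783ccf2c : CRef := CRef.mk (Pat.mk 0xc00000018000000000000000000000000 0x180000001c0000003f0000003f0000001b000000320000003200000030 7 6) 0 0 (step_sound _ 129 [rh72611fa9e995eed1, (rhb739f4f82bb681b4.shift 0 3)] (by decide +kernel))
noncomputable def rh866b880cdbdd4437 : CRef := CRef.mk (Pat.mk 0xc0000000c0000000000000000 0x1c0000001e0000007f0000003c0000000c0000000c0000000c 7 7) 0 0 (step_sound _ 131 [(rh1e309b005ffa1b36.shift 2 0), rh6cd649d652e06885, (rh7db208d87386469c.shift 1 1)] (by decide +kernel))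
noncomputable def rhaf3ab3d0b86eda09 : CRef := CRef.mk (Pat.mk 0xc0000000c000000000000000000000000 0x1c0000001e0000007c0000000f0000000c0000000c0000000c0000000c 7 7) 0 0 (step_sound _ 163 [(rh1e309b005ffa1b36.shift 2 1), (rh7db208d87386469c.shift 1 2), rhc6012a74234f861f] (by decide +kernel))
noncomputable def rh40d6a995e29b4463 : CRef := CRef.mk (Pat.mk 0x10000000b00000002000000000 0x2000000060000001ff000001fc000001f0000000f80000007000000040 7 9) 0 0 (step_sound _ 132 [(rh2145e1d24b96a57e.shift 4 1), rha1ec8d15d647b0be] (by decide +kernel))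
noncomputable def rhe25ca482e7261b17 : CRef := CRef.mk (Pat.mk 0x20000001e00000000000000000000000000000000 0x400000006000000360000001e00000007000000070000000700000005 7 6) 0 0 (step_sound _ 97 [rhaae047f9cc0c0a8f, (rheb0810cc63b001d8.shift 0 3)] (by decide +kernel))
noncomputable def rhb7e007c97b3de055 : CRef := CRef.mk (Pat.mk 0x20000001e00000000000000000000000000000000 0x1000000070000003e0000001e00000007000000070000000700000005 7 6) 0 0 (step_sound _ 97 [rh911541b6e774bf98, (rheb0810cc63b001d8.shift 0 3)] (by decide +kernel))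
noncomputable def rh02cf43fda2636ddc : CRef := CRef.mk (Pat.mk 0x20000001e000000000000000000000000 0x40000000700000007000000030000003e0000001e000000070000000600000006 7 6) 0 0 (step_sound _ 65 [rhd31ed41dfa468d9b, (rheb0810cc63b001d8.shift 0 2)] (by decide +kernel))
noncomputable def rheba08b23a6f0383e : CRef := CRef.mk (Pat.mk 0x80000005800000008000000000000000000000000 0x1000000018000000780000001f0000007c0000001c00000014 7 7) 0 0 (step_sound _ 98 [(rh361cc68994bd8a63.shift 2 3), rh3aa84f42145e5008] (by decide +kernel))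
noncomputable def rhed14e3bf40a8a7c8 : CRef := CRef.mk (Pat.mk 0x7800000000 0x7e0000007e000000c7 7 8) 0 0 (step_sound _ 6 [rhd690071d9e563773, (rhe25b0a99195a5d59.shift 3 0)] (by decide +kernel))
noncomputable def rh1aa5cd349b17e81b : CRef := CRef.mk (Pat.mk 0x7800000000 0x770000007e000000ce 7 8) 0 0 (step_sound _ 2 [rh3c59aadbdbb915b0, (rh80fcd6d0a18cb2dd.shift 2 0)] (by decide +kernel))
noncomputable def rhf4a2bc4af1af10af : CRef := CRef.mk (Pat.mk 0x7c000000000000000000000000 0x80000001c0000007f000000370000001000000010 7 7) 0 0 (step_sound _ 65 [rh14bbb4eb8e00f9af, (rh80fcd6d0a18cb2dd.shift 1 2)] (by decide +kernel))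
noncomputable def rh6784e451df3862cc : CRef := CRef.mk (Pat.mk 0x1e000000000000000000000000 0x50000000700000007000000370000001e000000070000000600000006 7 6) 0 0 (step_sound _ 65 [rhc392f467a8e1c401, (rheb0810cc63b001d8.shift 0 2)] (by decide +kernel))
noncomputable def rh309732febee49bf2 : CRef := CRef.mk (Pat.mk 0x80000001800000010000000000000000000000000 0x38000000780000001e0000001f0000003f0000006c0000000c0000000c 7 7) 0 0 (step_sound _ 195 [rh14bc62eb1774a1a1, (rh2145e1d24b96a57e.shift 3 3)] (by decide +kernel))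
noncomputable def rh9c159de2ed2acbcb : CRef := CRef.mk (Pat.mk 0x100000001000000030000000000000000000000000 0xc0000001e0000007f0000003e0000007f0000003e0000003c 7 7) 0 0 (step_sound _ 99 [(rh314fae144e0cf2a4.shift 1 0), (rh32cd3a28f900b7ed.shift 1 0), rhd29460d2e2b12fa0, rhffb0efdf098eb4ac] (by decide +kernel))
noncomputable def rhbb07334d551a3f39 : CRef := CRef.mk (Pat.mk 0x80000000800000018000000000000000000000000 0xf4000000ff000001ff000000180000000c0000000c0000000c 7 9) 0 0 (step_sound _ 67 [(rh1fcc52160d751f5c.shift 0 1), (rh2d94e8e3c3d1054b.shift 2 0), (rh6aa5625770489e83.shift 2 0), (rh900a894640be090c.shift 0 1)] (by decide +kernel))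
noncomputable def rh8fe779bd07b3ae26 : CRef := CRef.mk (Pat.mk 0x80000000800000018000000000000000000000000 0x1000000018000000180000001f0000003f0000007c0000001c 7 7) 0 0 (step_sound _ 67 [(rh0282ac12fd2cc9a7.shift 0 1), (rh2d94e8e3c3d1054b.shift 2 0), (rh3181373a30ceb9e3.shift 2 0), (rhca18712e5e5c7b8f.shift 3 0)] (by decide +kernel))
noncomputable def rheaa765c778ec1ec5 : CRef := CRef.mk (Pat.mk 0xc0000000c000000000000000000000000 0x1c0000001c0000007e0000007c0000000f000000180000001800000008 7 7) 0 0 (step_sound _ 67 [(rh3cb04db3dd2b6a55.shift 2 0), (rh654e310ed8caaa69.shift 1 1), rha31e2286f1ebea1b] (by decide +kernel))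
noncomputable def rhfe11d53f31f0a535 : CRef := CRef.mk (Pat.mk 0x18000000580000000000000000 0x7c0000007c000000ff000000ff000000580000001000000010 7 8) 0 0 (step_sound _ 131 [(rh495a39b8a06d7922.shift 1 2), (rh55a1f6c57a317ce6.shift 3 0), rh94508695a7c071e8] (by decide +kernel))
noncomputable def rh9b28660900673019 : CRef := CRef.mk (Pat.mk 0x80000001800000008000000000000000000000000 0x140000001c0000003c0000000f0000001c0000000f0000001c0000001c00000014 7 6) 0 0 (step_sound _ 195 [(rh47992774edf9829f.shift 2 0), (rh580c6d6212ed1b86.shift 0 2), (rh8f9e11a256dd5b82.shift 0 2), (rh900a894640be090c.shift 0 2)] (by decide +kernel))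
noncomputable def rh9083ace6d24f7329 : CRef := CRef.mk (Pat.mk 0x8000000180000000800000000 0xc0000001c000000fc000000ff000001ff0000001c0000000f00000004 7 9) 0 0 (step_sound _ 131 [rh1fcc52160d751f5c, (rh47b14c8d210e4def.shift 2 1), rh580c6d6212ed1b86, (rh61581b1d35e4d20e.shift 2 0), (rh762a1aeaf83c662a.shift 2 0), rh8f9e11a256dd5b82] (by decide +kernel))
noncomputable def rh351c7c952dd54abf : CRef := CRef.mk (Pat.mk 0x80000000800000018000000000000000000000000 0x140000003c0000000f0000001f0000003f0000001e00000014 7 6) 0 0 (step_sound _ 67 [(rh3181373a30ceb9e3.shift 2 0), (rh46baee19951a66e7.shift 2 0), (rh6aa5625770489e83.shift 2 0), (rh7213e738fef5eebf.shift 0 1)] (by decide +kernel))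
noncomputable def rh6a56bcc9771b46fc : CRef := CRef.mk (Pat.mk 0x1800000018000000000000000000000000 0x600000007000000ff0000001f0000000f0000000f00000002 7 8) 0 0 (step_sound _ 130 [rh01396faf0b77e38c, (rh7160d4f3bced5753.shift 0 1), (rh915f6511d37f58de.shift 0 1), (rh92e1a33d56d48131.shift 0 3), rh9e32231d7004bb35, (rhcd4d16d28964fbaf.shift 0 1), (rhdaf210947b47bcf0.shift 0 3)] (by decide +kernel))
noncomputable def rh6b196f1c110ee57b : CRef := CRef.mk (Pat.mk 0x180000001800000000000000000000000000000000 0x1000000030000000780000001f0000003f0000007f0000007c00000004 7 7) 0 0 (step_sound _ 99 [rh3122dbb9f9ca3ee8, (rh362104532586ff12.shift 1 1), (rhea7a1800d6f053bd.shift 3 1)] (by decide +kernel))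
noncomputable def rh0e95b5b949fac611 : CRef := CRef.mk (Pat.mk 0x3000000030000000000000000000000000 0x6c0000006c0000006e0000003e0000003e0000007f0000007e0000003c 7 7) 0 0 (step_sound _ 131 [rh86a6fa891963f742, (rh8d364617c03d6975.shift 1 1), (rhcd4d16d28964fbaf.shift 1 1)] (by decide +kernel))
noncomputable def rhcd83fc69c900e058 : CRef := CRef.mk (Pat.mk 0x2c000000000000000000000000 0x20000000e0000000e0000000e0000007f0000003e0000000f0000000c0000000c 7 7) 0 0 (step_sound _ 100 [(rh00f1bb10334541e3.shift 0 3), (rh2c1baeadcd4b32f5.shift 0 2), (rh2cc7d62e70c02209.shift 0 2), (rh805b7d85b33a7d22.shift 1 0)] (by decide +kernel))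
noncomputable def rhc30d1df183a2bf3e : CRef := CRef.mk (Pat.mk 0x1e00000002000000000000000000000000 0x1c0000001c0000003e0000001e0000003e0000000f0000000e00000006 7 6) 0 0 (step_sound _ 100 [(rhe25b0a99195a5d59.shift 1 3), rhf17e1f4880135738] (by decide +kernel))
noncomputable def rh4eec9fcfa5b6666f : CRef := CRef.mk (Pat.mk 0x20000001e0000000000000000000000000000000000000000 0x200000012000000320000001e0000003f0000000f0000000f0000000700000005 7 6) 0 0 (step_sound _ 129 [rh6938fe5126085500, (rheb0810cc63b001d8.shift 0 4)] (by decide +kernel))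
noncomputable def rhaef750f02437a11c : CRef := CRef.mk (Pat.mk 0x10000000f0000000000000000 0x1c0000001e0000001f0000000f0000001c00000004 7 5) 0 0 (step_sound _ 99 [(rh33e738c4ed385b9f.shift 0 2), rh98c8e6b71fcdd860] (by decide +kernel))
noncomputable def rh92bbf8ef0d3a3f8e : CRef := CRef.mk (Pat.mk 0x200000016000000020000000000000000 0x14000000360000001e0000003f0000000b0000000b 7 6) 0 0 (step_sound _ 99 [(rheb0810cc63b001d8.shift 0 2), rhf51e71dade4f66c4] (by decide +kernel))
noncomputable def rhd202a21c8ead8532 : CRef := CRef.mk (Pat.mk 0x100000001e0000000000000000 0x380000003c0000001f0000001e0000003800000008 7 6) 0 0 (step_sound _ 36 [rh93f3372adc2d35e4, (rhe25b0a99195a5d59.shift 1 1)] (by decide +kernel))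
noncomputable def rhc53f6191834a68a2 : CRef := CRef.mk (Pat.mk 0x4000000040000000c000000000000000000000000 0xa0000000f0000003c0000000e0000007e0000001e0000000e 7 7) 0 0 (step_sound _ 66 [(rh1c0862d42effbcd6.shift 0 1), (rh2d94e8e3c3d1054b.shift 1 0), (rh3181373a30ceb9e3.shift 1 0)] (by decide +kernel))
noncomputable def rh63a370b317c6eef5 : CRef := CRef.mk (Pat.mk 0x80000001800000010000000000000000000000000 0x38000000780000001e0000001f000000ff0000002c0000000c0000000c 7 8) 0 0 (step_sound _ 195 [(rh2145e1d24b96a57e.shift 3 3), rh9fb749cdb42de644] (by decide +kernel))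
noncomputable def rhb88cfac1aa1f24f1 : CRef := CRef.mk (Pat.mk 0x8000000180000001000000000 0x1400000014000001ff000000fe000000ff0000001e000000f800000020 7 9) 0 0 (step_sound _ 131 [(rh2145e1d24b96a57e.shift 3 1), rh41e6f36901355778] (by decide +kernel))
noncomputable def rh2a266492d5739042 : CRef := CRef.mk (Pat.mk 0x80000000800000018000000000000000000000000 0x1400000014000001f7000000fe000000ff0000001e000000f80000003000000010 7 9) 0 0 (step_sound _ 68 [(rh08edf065357d68e5.shift 3 0), (rh41e6f36901355778.shift 0 1), (rh79ad7b82ec8c35e2.shift 3 0)] (by decide +kernel))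
noncomputable def rhe6b0a3f9bb451f1c : CRef := CRef.mk (Pat.mk 0x80000001800000010000000000000000000000000 0x1c0000001e000000780000001f000000ff0000002c0000000c00000008 7 8) 0 0 (step_sound _ 195 [(rh2145e1d24b96a57e.shift 3 3), rh8d79d1175f725649] (by decide +kernel))
noncomputable def rhfc19f6a9256a705c : CRef := CRef.mk (Pat.mk 0x18000000180000000000000000 0x2000000023000000770000007f0000001f0000001700000014 7 7) 0 0 (step_sound _ 66 [rh06b92bdb86659035, (rhab2ad169e49f9c5e.shift 0 2), rhbb7213d4724395ac] (by decide +kernel))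
noncomputable def rh0c30d5127f5de3cf : CRef := CRef.mk (Pat.mk 0x80000000800000018000000000000000000000000 0x140000003c0000000f0000001e0000007f0000001e00000014 7 7) 0 0 (step_sound _ 67 [(rh3181373a30ceb9e3.shift 2 0), (rh900a894640be090c.shift 0 1), (rhcf21b3e7bebf7c23.shift 0 1)] (by decide +kernel))
noncomputable def rh1b28da7dafe06dd2 : CRef := CRef.mk (Pat.mk 0x80000001800000008000000000000000000000000 0x100000001c0000003c0000000f0000001c0000000f0000001c0000001c00000014 7 6) 0 0 (step_sound _ 195 [(rh47992774edf9829f.shift 2 0), (rh580c6d6212ed1b86.shift 0 2), (rh900a894640be090c.shift 0 2)] (by decide +kernel))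
noncomputable def rhfaefea0eff220f7d : CRef := CRef.mk (Pat.mk 0x18000000180000000000000000 0x17000000770000007f0000001f0000000f0000000c 7 7) 0 0 (step_sound _ 66 [rha5a5910e461c87f9, (rhab2ad169e49f9c5e.shift 0 2), rhbb7213d4724395ac] (by decide +kernel))
noncomputable def rhd44f344580d48a63 : CRef := CRef.mk (Pat.mk 0x40000000c000000000000000000000000 0x60000001e0000003f0000003f0000000e0000000e0000000e0000000e 7 6) 0 0 (step_sound _ 162 [(rh046c5eb18e55a239.shift 2 0), rh6a4f66854d91c743, (rh70e33bfdf511e144.shift 2 0), (rhfc567835fa4f6359.shift 1 0)] (by decide +kernel))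
noncomputable def rhc147063861b4d4c8 : CRef := CRef.mk (Pat.mk 0x1000000016000000000000000000000000 0x3000000070000003f0000001e000000070000000600000002 7 6) 0 0 (step_sound _ 99 [(rh33e738c4ed385b9f.shift 1 3), rhcdc02c5c10629e7b] (by decide +kernel))
noncomputable def rhf4d9a404b9d94320 : CRef := CRef.mk (Pat.mk 0x200000002c000000000000000000000000 0x60000000e0000003f0000003e0000007f0000000c00000004 7 7) 0 0 (step_sound _ 100 [(rh008b05f4778dc30d.shift 0 2), (rh2591032a0e7f4182.shift 0 2), (rhc570c09f7c0268b1.shift 0 2), (rhcdc02c5c10629e7b.shift 1 0)] (by decide +kernel))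
noncomputable def rh373faaedbcdc0c90 : CRef := CRef.mk (Pat.mk 0x200000002c00000000000000000000000000000000 0x440000007c0000007c0000002f000000fe000001fe0000005c00000014 7 9) 0 0 (step_sound _ 101 [(rh42ea88b2b80ec68b.shift 0 1), rh516bbb2dd0416ae7, (rh54e0662fb9305a7e.shift 2 1), rh68ded2c3172fd249, (rh9956cd993d0ebd09.shift 2 1), rhb25fd356f6dd0ce8, rhbebb47e40f1ecb13, (rhf4208e92c6ad1776.shift 2 1)] (by decide +kernel))
noncomputable def rh1477e3d1e55059fc : CRef := CRef.mk (Pat.mk 0x200000002c000000000000000000000000 0x60000000e0000003f0000003e0000006f0000000c00000004 7 7) 0 0 (step_sound _ 100 [(rh2591032a0e7f4182.shift 0 2), (rh775ca1963e850b80.shift 0 2), (rhc570c09f7c0268b1.shift 0 2), (rhcdc02c5c10629e7b.shift 1 0)] (by decide +kernel))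
noncomputable def rheaea8e64852193b7 : CRef := CRef.mk (Pat.mk 0x2000000038000000000000000000000000 0x60000000e0000003e0000003e0000007f0000000c00000004 7 7) 0 0 (step_sound _ 98 [(rh008b05f4778dc30d.shift 0 2), (rh2591032a0e7f4182.shift 0 2), (rh2ebbcfe90e0f250d.shift 1 2), (rhcdc02c5c10629e7b.shift 1 0)] (by decide +kernel))
noncomputable def rh6d379898c1d16ab4 : CRef := CRef.mk (Pat.mk 0x400000007000000000000000000000000 0xa0000000e0000000f0000003c0000000e000000070000001e0000000e0000000a 7 6) 0 0 (step_sound _ 162 [(rh92c9964ff269ac07.shift 0 2), rhb07459d32fcd03f0, (rhfafeb437ceb8396d.shift 1 0)] (by decide +kernel))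
noncomputable def rhdad9fe5310dde6bc : CRef := CRef.mk (Pat.mk 0x80000000e000000000000000000000000 0x140000001c0000007c0000001f000000780000000e0000003c0000001c00000014 7 7) 0 0 (step_sound _ 163 [(rh281c6819542c66e6.shift 2 0), (rh32431e66bbf434a4.shift 2 2), (rhb07459d32fcd03f0.shift 1 0), (rhd1bde215b329a7c3.shift 0 2)] (by decide +kernel))
noncomputable def rh4b4620cc4f3ef357 : CRef := CRef.mk (Pat.mk 0x200000002c000000000000000000000000 0x60000000e0000003e0000003e0000007f0000000c00000004 7 7) 0 0 (step_sound _ 100 [(rh008b05f4778dc30d.shift 0 2), (rh2591032a0e7f4182.shift 0 2), (rh2ebbcfe90e0f250d.shift 1 2), (rhcdc02c5c10629e7b.shift 1 0)] (by decide +kernel))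
noncomputable def rhc2567e18b4f12e26 : CRef := CRef.mk (Pat.mk 0x280000002800000000000000000000000000000000 0x140000001c0000001c000001df000000f80000003f0000001e0000001c0000001c00000014 7 9) 0 0 (step_sound _ 164 [(rh272396c8ee8fefa8.shift 2 2), rh43c2242f331384fd, (rh7d7c2155600e215e.shift 2 2), (rhf0f55c4504412200.shift 0 4)] (by decide +kernel))
noncomputable def rhd3686a75573b2118 : CRef := CRef.mk (Pat.mk 0x500000005000000000000000000000000000000000 0x3800000078000000fe0000007f0000007f0000003e0000003c0000003c00000004 7 8) 0 0 (step_sound _ 163 [(rh3b9897bf704265bb.shift 1 1), (rh85645a096b15ac73.shift 1 2), rhb4c4946b6e5fa766, (rhb69a7bebdb940bff.shift 2 1), (rhf83a33c32555a52c.shift 2 1), (rhff77145a6a80795b.shift 1 2)] (by decide +kernel))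
noncomputable def rh584aa89aaab06458 : CRef := CRef.mk (Pat.mk 0x1400000014000000000000000000000000 0xa0000000e0000000e0000003e000000370000001e0000000e0000000e0000000a 7 6) 0 0 (step_sound _ 162 [(rh0be62550ae19a47b.shift 1 2), (rh0f5c947082bcb631.shift 1 0), (rh25271c74be886731.shift 1 0), (rh437d454e808ff910.shift 1 1), (rh7863e25d1d742d32.shift 1 1), rh882b7ecf29713997] (by decide +kernel))
noncomputable def rh3cab9f0bd4d5068b : CRef := CRef.mk (Pat.mk 0x80000000a000000080000000000000000 0x800000018000000180000001c0000000c0000000f0000001c0000001c00000014 7 5) 0 0 (step_sound _ 163 [(rh20966da26a1c2ae8.shift 2 1), rh58e7186b32c9b43b, (rh8cdd36b03d57a2f6.shift 2 0)] (by decide +kernel))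
noncomputable def rh0ba63e0eb1c45b4f : CRef := CRef.mk (Pat.mk 0x80000000a000000080000000000000000 0x40000001c0000001c000000180000000c0000000f0000001c0000001c00000014 7 5) 0 0 (step_sound _ 163 [(rh20966da26a1c2ae8.shift 2 1), (rh250144064dd83c8d.shift 0 1), (rh8cdd36b03d57a2f6.shift 2 0)] (by decide +kernel))
noncomputable def rh94c8daa7091fdc62 : CRef := CRef.mk (Pat.mk 0x80000000a000000080000000000000000 0xc0000001c0000001c0000001c0000000c0000000f000000180000001800000010 7 5) 0 0 (step_sound _ 163 [(rh250144064dd83c8d.shift 0 1), (rh46baee19951a66e7.shift 2 0), rh58e7186b32c9b43b, (rhc85cc95794737cf7.shift 2 2)] (by decide +kernel))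
noncomputable def rhb4ee2bb3f1097f7a : CRef := CRef.mk (Pat.mk 0x20000000280000002000000000000000000000000000000000 0x10000000140000001c0000003c000003bf000001fe000003fe0000001c0000001c00000014 7 10) 0 0 (step_sound _ 162 [(rh206747fbdc57191c.shift 2 1), (rh2b09721ada6c1144.shift 0 2), (rh2e8efbc4684aef7b.shift 1 4), rhd7a7f9035f49103e] (by decide +kernel))
noncomputable def rh0b259e32c8942468 : CRef := CRef.mk (Pat.mk 0x8000000080000000a000000000000000000000000 0x60000001f0000007e0000000e0000003c0000001c00000014 7 7) 0 0 (step_sound _ 67 [(rh46baee19951a66e7.shift 2 0), (rh6aa5625770489e83.shift 2 0), (rh8cdd36b03d57a2f6.shift 2 0), (rh8ff3268104e8d133.shift 0 1)] (by decide +kernel))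
noncomputable def rhdeda3a71a319ce9c : CRef := CRef.mk (Pat.mk 0x28000000280000000000000000000000000000000000000000 0x440000004c0000006f0000007c0000002f000000fe000000ff0000005c0000001c00000010 7 8) 0 0 (step_sound _ 131 [(rh0cc5d3bc4e75682d.shift 1 1), (rh0f5c947082bcb631.shift 2 1), (rh38d376a4a12b7bee.shift 2 2), (rh4692eec48c60ad82.shift 2 1), rh536ca930aa551413, (rh7e900f7300b279ab.shift 0 3), rh87584bec0b8bcb7b, (rh9c2a11983e75daf2.shift 1 1), (rhf2d47fc8a7270d1b.shift 0 1), (rhfe829c42ed752e6d.shift 2 1)] (by decide +kernel))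
noncomputable def rhf27a15c6b58f46e5 : CRef := CRef.mk (Pat.mk 0x280000002800000000000000000000000000000000 0x540000007c000001fc000000f80000002f0000007c000000fc0000005400000010 7 9) 0 0 (step_sound _ 166 [(rh562c905737e2bff1.shift 2 2), (rh8d0e56b8a78c5a56.shift 2 4), (rhd5899e89efce0709.shift 2 2), (rhe5944c0a1e5f3c0d.shift 2 2), rhfba7b668b7e71334] (by decide +kernel))
noncomputable def rhba75869e61b2b2da : CRef := CRef.mk (Pat.mk 0x280000002800000000000000000000000000000000 0x10000000140000007c0000007e0000003c0000002f000000fc000000fe0000005c00000014 7 8) 0 0 (step_sound _ 99 [(rh1b7e89f239630456.shift 2 0), (rh2b138d2ae49cf7d6.shift 0 1), (rh38d376a4a12b7bee.shift 2 1), (rh6e9279a976209a1d.shift 2 1), (rh9c2a11983e75daf2.shift 1 0), (rhd604a45946391b98.shift 2 1), (rhdb5c904fa65ed71b.shift 2 1)] (by decide +kernel))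
noncomputable def rh310949c2165f1151 : CRef := CRef.mk (Pat.mk 0x2800000028000000000000000000000000 0x40000000540000007c000001ff000000ff000000280000007c0000007c00000054 7 9) 0 0 (step_sound _ 163 [rh27df81f1f1550515, rh6f263787295a39a9, (rh7a83ebe5a5f29be3.shift 2 0), rh87038d8fda6e5753, (rh8ffb89172b03b779.shift 0 2), (rh96384c67a424db5a.shift 2 0)] (by decide +kernel))
noncomputable def rh8a04753ead624146 : CRef := CRef.mk (Pat.mk 0x280000002800000000000000000000000000000000 0x100000001c0000005c0000007f000000fc0000006e0000002c0000003c0000001c0000001c00000004 7 8) 0 0 (step_sound _ 195 [(rh04f4875e911c5ad0.shift 1 3), (rh0f5c947082bcb631.shift 2 1), (rh168f9a1bb6140d4e.shift 0 3), (rh279e1e37f8c97eba.shift 2 1), (rh3139c52f41037bb3.shift 2 0), (rh7863e25d1d742d32.shift 2 2), (rh882b7ecf29713997.shift 1 1)] (by decide +kernel))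
noncomputable def rh5949d64ea9495be4 : CRef := CRef.mk (Pat.mk 0x400000007000000000000000000000000 0xd0000001f0000001f000000070000001f0000000f00000007 7 5) 0 0 (step_sound _ 65 [rh0cf53d437c440c03, (rhcf80391c5046a495.shift 1 0), rhcf9a09b5cc7e90f7, (rhf91b1398c815afd2.shift 1 0), (rhf9366b6a121593ef.shift 1 0)] (by decide +kernel))
noncomputable def rh6f6db5e7e31b8104 : CRef := CRef.mk (Pat.mk 0x28000000280000000000000000000000000000000000000000 0x440000004c0000006f0000007c0000002f000000fe0000007f0000005c0000001c00000010 7 8) 0 0 (step_sound _ 131 [(rh006baf7432b3c33d.shift 0 1), (rh0cc5d3bc4e75682d.shift 1 1), (rh0f5c947082bcb631.shift 2 1), (rh4692eec48c60ad82.shift 2 1), rh536ca930aa551413, rh87584bec0b8bcb7b, (rh8858cbf1ab06cf1d.shift 0 3), (rh9c2a11983e75daf2.shift 1 1), (rhd8745d3afce428ba.shift 2 2), (rhfe829c42ed752e6d.shift 2 1)] (by decide +kernel))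
noncomputable def rh0f47e97d266d48b8 : CRef := CRef.mk (Pat.mk 0x140000001400000000000000000000000000000000 0xa0000000e0000001e0000001e000000170000007e0000007f0000002e0000000a 7 7) 0 0 (step_sound _ 98 [(rh1b7e89f239630456.shift 1 0), (rh2e83dc040c94abfe.shift 1 2), rh9c2a11983e75daf2, (rhd8745d3afce428ba.shift 1 1), (rhda758e8f9d301ee9.shift 0 1), (rhfc60e486baaa63e2.shift 1 1)] (by decide +kernel))
noncomputable def rh9ca230f0ab55acf5 : CRef := CRef.mk (Pat.mk 0x2c0000002000000000000000000000000000000000 0x40000002c0000002c0000002f0000007e0000007e0000003e0000001e00000014 7 7) 0 0 (step_sound _ 131 [(rh10e632a752ee89b7.shift 1 0), (rh2c177a4f21ea4f35.shift 1 1), (rh8c25cb665ab79ec0.shift 0 4), (rhe09cfcd5f84c47cb.shift 1 1)] (by decide +kernel))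
noncomputable def rhafa0fb22fedd584d : CRef := CRef.mk (Pat.mk 0x2c0000002000000000000000000000000000000000 0x140000001c0000001c0000007c0000002f0000007c0000001f0000001c0000001c00000014 7 7) 0 0 (step_sound _ 131 [rh84940e8be3cf8fb1, (rh8c25cb665ab79ec0.shift 0 4), rha4846e93cf74f2cb, (rhbb2258de3c9392a8.shift 0 1)] (by decide +kernel))
noncomputable def rh1a90a1b694b36429 : CRef := CRef.mk (Pat.mk 0x28000000280000000000000000000000000000000000000000 0x1c0000001c0000001f000003b8000003fe000003ff0000003c0000003c0000001c00000010 7 10) 0 0 (step_sound _ 164 [(rh0e3012db365425d2.shift 0 2), (rh13bc39fad46ed7d3.shift 0 4), rh35c1cdedc435622b, (rh5b6d2bf6893374d1.shift 1 2), (rha13423141a6dee87.shift 0 2), rhd18d4b378d20653d] (by decide +kernel))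
noncomputable def rha0edce5c3f87a048 : CRef := CRef.mk (Pat.mk 0x280000002800000000000000000000000000000000 0x5000000070000000740000002f000000ff000001ff0000007e0000005c00000054 7 9) 0 0 (step_sound _ 101 [rh7ed5266f7cc4c3aa, (rh8836d5ad16324666.shift 2 2), (rha895b73c7bd9f964.shift 0 3), (rhc5c5b88722b9bb4a.shift 4 1), (rhf3137a9730661f0a.shift 2 0)] (by decide +kernel))
noncomputable def rh420fe037e2254944 : CRef := CRef.mk (Pat.mk 0x2800000028000000000000000000000000 0x500000007000000070000000780000002f0000007e000000700000007000000050 7 7) 0 0 (step_sound _ 165 [(rh23d7ba318d89735b.shift 4 0), (rh337c3c81a319a681.shift 4 1), rh6c51d2eb64320f5b, (rh6d22e4af4868beec.shift 2 2), (rh9e2a774455c8bdfa.shift 1 0), (rhc55c1d37f08df68a.shift 4 1), (rhff22ab043b310713.shift 2 1)] (by decide +kernel))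
noncomputable def rhdc55e488f332d65d : CRef := CRef.mk (Pat.mk 0x280000002800000000000000000000000000000000 0x40000005c000000fc0000007c0000002f0000006e000000fc0000007e0000005c00000014 7 8) 0 0 (step_sound _ 99 [(rh0aae1ee34b51faa6.shift 2 1), (rh0eb09afa9815783c.shift 2 1), (rh30afbeb9a1894893.shift 1 0), (rh4692eec48c60ad82.shift 2 0), (rh5c402d8d4036bb32.shift 0 1), (rh5c5fc92a22ce9407.shift 2 1), (rh72ef61a7f3630de0.shift 1 2), (rhe8a7723f405835bc.shift 0 2)] (by decide +kernel))
noncomputable def rh9a081b46c270d756 : CRef := CRef.mk (Pat.mk 0x2c0000002000000000000000000000000000000000 0x140000001c0000001c0000007c0000002f0000007c0000001f0000001c0000001c00000014 7 7) 0 0 (step_sound _ 131 [rh1478c2e2940ca327, (rh8c25cb665ab79ec0.shift 0 4), (rhbb2258de3c9392a8.shift 0 1), rhdd654bbc0781e67b] (by decide +kernel))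
noncomputable def rh489701bdeea9bb0d : CRef := CRef.mk (Pat.mk 0x2800000028000000000000000000000000 0x6000000160000003f000000fe000001ff0000002800000028 7 9) 0 0 (step_sound _ 100 [(rh1aae126fdb0efa1d.shift 2 2), (rh39e01e376d2c12de.shift 0 1), (rh5b6d2bf6893374d1.shift 1 0), (rha9fbfd4bb8cf890b.shift 0 3)] (by decide +kernel))
noncomputable def rh2d3bd21e3bafbde1 : CRef := CRef.mk (Pat.mk 0x2800000028000000000000000000000000 0x18000003bf000001fe000003f70000002400000024 7 10) 0 0 (step_sound _ 100 [(rh1aae126fdb0efa1d.shift 2 2), rh26e1017678d9da1f, rh3bb51c4c55e2f392, (rha9fbfd4bb8cf890b.shift 0 3)] (by decide +kernel))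
noncomputable def rh868ae550f97da378 : CRef := CRef.mk (Pat.mk 0x5000000050000000000000000000000000 0x300000003c0000003e0000007f0000007f000000fe0000007c0000007c 7 8) 0 0 (step_sound _ 99 [(rh2fa164ba5c06bb6d.shift 2 0), rh751bd15d29e3f2b1, (rh7d95800e7735246b.shift 2 0), (rh8ab9e83f5f23c419.shift 1 0), (rh9483e1c452b29f0f.shift 2 0), (rhc958445dd58677d0.shift 1 1), rhd5b4e0a5c05f6439, (rhe4a6d2255d83faf5.shift 1 0)] (by decide +kernel))
noncomputable def rh66f996d1a385b416 : CRef := CRef.mk (Pat.mk 0x28000000280000000000000000000000000000000000000000 0x1c0000001c0000001f000003b8000001fe000003ff0000003c0000003c0000001c00000010 7 10) 0 0 (step_sound _ 164 [rh35c1cdedc435622b, (rh3bb51c4c55e2f392.shift 0 2), (rh3e26abbf947d0cd9.shift 2 1), (rh5b6d2bf6893374d1.shift 1 2), (rha13423141a6dee87.shift 0 2), (rha2cb1977398e6365.shift 0 2)] (by decide +kernel))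
noncomputable def rha47a423e24a662de : CRef := CRef.mk (Pat.mk 0x2800000028000000000000000000000000 0x40000001c0000005c0000007e000000ff0000002f0000007c0000006f0000004c00000044 7 8) 0 0 (step_sound _ 163 [(rh1359922a99d3d421.shift 2 1), (rh144c921ae3171e1e.shift 1 2), (rh195e2e6861faf39a.shift 2 1), (rh22e3873261c6c95d.shift 2 2), rh3f2ea8d89b0df1d7, rh65d01379fd6ff22b, rh6d3fabaf7ec9c89d, (rh7863e25d1d742d32.shift 2 1), rha98a27a39ca716f5, (rhd1e8817f0e675fee.shift 0 1)] (by decide +kernel))
noncomputable def rhada081175e35b8e4 : CRef := CRef.mk (Pat.mk 0x280000002800000000000000000000000000000000 0x140000001c000000fc0000007c0000002f0000003e0000007f0000007c0000005400000050 7 8) 0 0 (step_sound _ 195 [(rh1dbd5905aef3dade.shift 2 0), (rh22e3873261c6c95d.shift 2 3), (rh25271c74be886731.shift 2 1), (rh2b6ecd6b948e770d.shift 0 1), rh4159ecc9ed59f1c5, (rh9025223dca583e9f.shift 2 1)] (by decide +kernel))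
noncomputable def rh9b66fad95599b659 : CRef := CRef.mk (Pat.mk 0xe0000000800000000000000000000000000000000 0x140000001c0000003c0000000e000000380000001f000000fc0000001c00000014 7 8) 0 0 (step_sound _ 99 [(rh0a6888916bcef86b.shift 2 0), (rh50f19319f6479173.shift 1 2), (rhb1a251d9bff81766.shift 2 2), rhcd4ff5e74873e18b] (by decide +kernel))
noncomputable def rh1582a2c6d4305bf2 : CRef := CRef.mk (Pat.mk 0x16000000100000000000000000 0x30000000340000003f0000001e0000003b0000000a00000002 7 6) 0 0 (step_sound _ 99 [rh4a661448d0c73217, (rhe25b0a99195a5d59.shift 1 2)] (by decide +kernel))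
noncomputable def rhcb1f19fd607d9b3b : CRef := CRef.mk (Pat.mk 0x2c000000200000000000000000 0x60000000680000007f0000003e000000370000001400000014 7 7) 0 0 (step_sound _ 100 [(rh4a661448d0c73217.shift 1 0), (rh775ca1963e850b80.shift 0 2), (rh8859ac061aed93d9.shift 1 0), (rhdceeca65bdd8095a.shift 0 2)] (by decide +kernel))
noncomputable def rh7f997b98ec8f7dc8 : CRef := CRef.mk (Pat.mk 0xc000000200000000000000000000000000000000000000000 0x140000001c0000003c0000000f0000007c0000001f0000001c0000001c0000001c00000010 7 7) 0 0 (step_sound _ 163 [rh5977f23ebe7c603c, (rh6553d5894ddef919.shift 0 1), (rh8c25cb665ab79ec0.shift 0 5), (rhdd654bbc0781e67b.shift 0 1)] (by decide +kernel))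
noncomputable def rhdfc82522c8f2fa17 : CRef := CRef.mk (Pat.mk 0x280000002800000000000000000000000000000000 0x140000001c0000001e0000003f000000f8000001ff0000003c0000003c0000001c 7 9) 0 0 (step_sound _ 132 [(rh1aae126fdb0efa1d.shift 2 3), (rh24e72371d7873615.shift 2 1), (rh3e26abbf947d0cd9.shift 2 0), rhe6992f6959d37082] (by decide +kernel))
noncomputable def rhb6d28de64cab2679 : CRef := CRef.mk (Pat.mk 0x2800000028000000000000000000000000 0x18000003bf000001fe000003f70000002400000024 7 10) 0 0 (step_sound _ 100 [(rh1aae126fdb0efa1d.shift 2 2), rh3bb51c4c55e2f392, (rha9fbfd4bb8cf890b.shift 0 3), rhaa42030ec58c6ff4] (by decide +kernel))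
noncomputable def rh6c5b56bd1b55ed3e : CRef := CRef.mk (Pat.mk 0x5000000050000000000000000000000000 0x300000003c0000003e0000007f0000007f000000ff0000007c0000007c 7 8) 0 0 (step_sound _ 99 [(rh2fa164ba5c06bb6d.shift 2 0), rh751bd15d29e3f2b1, (rh7d95800e7735246b.shift 2 0), rh93362321e4d6ade0, (rh9483e1c452b29f0f.shift 2 0), rhca2175c3774d17e1, rhd5b4e0a5c05f6439, (rhe4a6d2255d83faf5.shift 1 0)] (by decide +kernel))
noncomputable def rhc376d3f6984b4729 : CRef := CRef.mk (Pat.mk 0x280000002800000000000000000000000000000000 0x1c0000001c0000001f000003b8000001fe000003ff000000fc0000007c0000001c 7 10) 0 0 (step_sound _ 132 [(rh07da1bd474d6d9e1.shift 1 0), (rh3bb51c4c55e2f392.shift 0 1), (rh3e26abbf947d0cd9.shift 2 0), (rh5b6d2bf6893374d1.shift 1 1), (rh7f25d458aa6324fe.shift 1 1), (rha13423141a6dee87.shift 0 1), (rhfd37b7c5b2492a0d.shift 0 1)] (by decide +kernel))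
noncomputable def rh8285ac142ddcf53a : CRef := CRef.mk (Pat.mk 0x140000001400000000000000000000000000000000 0x20000000e0000000e0000000e0000001e000000370000003e0000000e0000000e0000000a 7 6) 0 0 (step_sound _ 98 [(rh406170d06d2e1040.shift 1 1), (rh4692eec48c60ad82.shift 1 0), (rh4e9d0b2b6a8ba645.shift 1 0), (rh7fd74e6b1fad4415.shift 1 0), (rh946a116aad97a44e.shift 1 0), (rhe19deee2c270a386.shift 1 1), (rhfdee0034602635ef.shift 0 2)] (by decide +kernel))
noncomputable def rh8ce9ba267679b9a2 : CRef := CRef.mk (Pat.mk 0x1000000050000000000000000000000000 0x100000001f000001fe000003ff0000000800000008 7 10) 0 0 (step_sound _ 101 [(rh1561ff1fafeb7917.shift 3 2), (rh26e1017678d9da1f.shift 1 0), rha76d7641a1e1636a, (rha9fbfd4bb8cf890b.shift 1 3)] (by decide +kernel))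
noncomputable def rh57e444a246b909b0 : CRef := CRef.mk (Pat.mk 0x80000000a0000000800000000000000000000000000000000 0x140000001c0000003e0000000f0000000c000000180000001c0000001c00000004 7 6) 0 0 (step_sound _ 99 [rh15f0ce6ac32bde25, (rh46baee19951a66e7.shift 2 1), (rh482d647aab4b93ee.shift 2 1), (rh50381b1ee12ee04f.shift 0 2), (rh516963541d5f8797.shift 1 2)] (by decide +kernel))
noncomputable def rh4bc7847ad16a9a6c : CRef := CRef.mk (Pat.mk 0x80000000a0000000800000000000000000000000000000000 0x1800000018000000180000000f0000000c0000001c0000001c0000001c00000004 7 5) 0 0 (step_sound _ 99 [rh15f0ce6ac32bde25, (rh20966da26a1c2ae8.shift 2 2), (rh8cdd36b03d57a2f6.shift 2 1), (rhf1f0dc16bbe02ffb.shift 0 1)] (by decide +kernel))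
noncomputable def rh7e9adb9811e1d021 : CRef := CRef.mk (Pat.mk 0x10000000140000001000000000 0x20000000380000007e000000fe0000001f0000001800000008 7 8) 0 0 (step_sound _ 132 [(rh5403d956def82fda.shift 3 0), (rh6145f857d3713672.shift 1 1), rha94490687c60c4d4] (by decide +kernel))
noncomputable def rhf7809d5b4078cbb5 : CRef := CRef.mk (Pat.mk 0x280000002800000000000000000000000000000000 0x5000000078000000780000002f000001fe000003f8000000700000005000000040 7 10) 0 0 (step_sound _ 132 [(rh35a02af777b98683.shift 2 1), rh7b0a6cf7d368463d, (rha9fbfd4bb8cf890b.shift 0 4), (rhf9580640a27249ea.shift 1 1)] (by decide +kernel))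
noncomputable def rhcc3c8986ff8f2848 : CRef := CRef.mk (Pat.mk 0x2800000028000000000000000000000000 0x54000000fc0000007c0000002f000000f8000001fc0000007c00000054 7 9) 0 0 (step_sound _ 102 [(rh47082137e9cd2755.shift 2 2), (rh53567e131628b92e.shift 2 0), (rh56e90c12f0808c38.shift 2 0), (rheb35796aefd5d255.shift 2 0), rhebb8b91f47b209c8] (by decide +kernel))
noncomputable def rhbc1cf032344468bb : CRef := CRef.mk (Pat.mk 0x280000002800000000000000000000000000000000 0x40000005c0000007e000000ff0000002f0000007c0000006f0000005c0000005c00000010 7 8) 0 0 (step_sound _ 195 [(rh1a35f4a3e1c2c6c9.shift 0 1), rh1fca7b8e23d06a47, (rh254273d70525c19e.shift 0 3), (rh469abf79b25d45f7.shift 0 3), (rh4cf1d5f47180b988.shift 2 1), (rh65d01379fd6ff22b.shift 0 1), (rh7af6bba3d796d3d3.shift 1 3), (rhb5120a730dcb50d8.shift 0 2), (rhc6218f48542f6008.shift 0 1), (rhe8797bf0970a5e4c.shift 1 3)] (by decide +kernel))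
noncomputable def rhd3e3b1e532bd1145 : CRef := CRef.mk (Pat.mk 0x500000005000000000000000000000000000000000 0x8000000380000003800000078000000580000007f000001fe000001ff000000b8000000a8 7 9) 0 0 (step_sound _ 100 [(rh0eb09afa9815783c.shift 3 1), (rh30afbeb9a1894893.shift 2 0), (rh406170d06d2e1040.shift 3 1), (rh4692eec48c60ad82.shift 3 0), (rh4fc3a67c575b1152.shift 3 1), (rh9865b7dd8cc00fe1.shift 3 0), rhc0bf3bb9b6ad2a96, (rhe19deee2c270a386.shift 3 1)] (by decide +kernel))
noncomputable def rh133b0c48bfa5dfcd : CRef := CRef.mk (Pat.mk 0x280000002800000000000000000000000000000000 0x540000007c0000007c000000280000007c000001ff000000fc0000005400000054 7 9) 0 0 (step_sound _ 99 [rh0115c66452a97d07, rh2c9824e3d3e9dab7, (rh60f6231d213c6ef9.shift 2 1), (rhb29211f7721382f2.shift 2 0), (rhc5c5b88722b9bb4a.shift 2 1), (rhe323009b509138a7.shift 0 2)] (by decide +kernel))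
noncomputable def rh4e76119a0f90b270 : CRef := CRef.mk (Pat.mk 0x100000001e00000000000000000000000000000000 0x8000000180000001e0000003f0000003c0000003800000028 7 6) 0 0 (step_sound _ 100 [rh78c4cb5ceaf301e1, (rhe25b0a99195a5d59.shift 1 3)] (by decide +kernel))
noncomputable def rh97f84726613d6bd0 : CRef := CRef.mk (Pat.mk 0x100000001e00000000000000000000000000000000 0x20000000380000001f0000001e00000038000000380000003800000028 7 6) 0 0 (step_sound _ 100 [rh23250cc6efcdb6fa, (rhe25b0a99195a5d59.shift 1 3)] (by decide +kernel))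
noncomputable def rha8f83b340848fea0 : CRef := CRef.mk (Pat.mk 0x180000000800000000000000000000000000000000 0x800000018000000180000001c0000001c0000003c000000ff0000003c0000001c00000014 7 8) 0 0 (step_sound _ 99 [(rh0a5790205a4238af.shift 0 2), (rhb44fbf6bd2c6418e.shift 2 0), (rhe3458ab40071103b.shift 3 2), (rhf849c8472bff4b9d.shift 2 0)] (by decide +kernel))
noncomputable def rhb83903df68f64be5 : CRef := CRef.mk (Pat.mk 0x80000000c0000000400000000 0x4000000040000000e0000001f0000007e0000000f0000007c00000010 7 7) 0 0 (step_sound _ 131 [(rh5c5e593799055d58.shift 2 1), rh7277509bb2af1e88] (by decide +kernel))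
noncomputable def rh6fff746d444c4500 : CRef := CRef.mk (Pat.mk 0x8000000180000000800000000 0x40000000c0000000c000000080000001f000000ff000000f4 7 8) 0 0 (step_sound _ 131 [(rh0fd870c734e6c513.shift 2 0), rh6a8b98e3c730bb0d, (rhd4b4beefcd67f51e.shift 3 0)] (by decide +kernel))
noncomputable def rha3c6d66dc4ea5856 : CRef := CRef.mk (Pat.mk 0x800000058000000080000000000000000 0xf4000000ff0000005f000001ff000000ff000001f4 7 9) 0 0 (step_sound _ 35 [rh07249198eaf44783, (rh3bb32a08be27ba1a.shift 0 1), rh9b45786b9da7cdb6] (by decide +kernel))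
noncomputable def rh63c30510f8bda0bd : CRef := CRef.mk (Pat.mk 0x18000000080000000800000000 0x80000001c000000fc000000ff0000001f000000180000001c00000014 7 8) 0 0 (step_sound _ 131 [(rh0a1276863f86678c.shift 2 0), (rh12461e137161f2e1.shift 2 0), (rh29dd5384d80ecb1e.shift 2 0), (rh3bb32a08be27ba1a.shift 0 1), (rh91429c40af715d36.shift 2 0)] (by decide +kernel))
noncomputable def rhd2cb70fd6423faa2 : CRef := CRef.mk (Pat.mk 0x1800000018000000000000000000000000 0x1000000010000000180000001e000000fc000000ff0000003e 7 8) 0 0 (step_sound _ 68 [(rh1864e4c677b30864.shift 1 0), rh2cf03e78a38b582d, (rh36a6df2b3dd177a0.shift 1 0), (rh94a557b71bd523f6.shift 1 0), (rhdf47b082306c38f4.shift 2 0), rhfc05fb343203d907] (by decide +kernel))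
noncomputable def rhbbd6d51c8a25a031 : CRef := CRef.mk (Pat.mk 0x1800000018000000000000000000000000 0x10000000140000001e000000ff0000007f0000002800000028 7 8) 0 0 (step_sound _ 67 [(rh370af384ddd2082c.shift 1 0), rh3941d6c00e40acd6, (rhea7a1800d6f053bd.shift 3 0)] (by decide +kernel))
noncomputable def rhb57550b05b3bb00e : CRef := CRef.mk (Pat.mk 0x80000001800000008000000000000000000000000 0x800000008000000080000001f000000ff000000ff0000001400000004 7 8) 0 0 (step_sound _ 100 [(rh55a1f6c57a317ce6.shift 3 1), (rh5dba61aca9974608.shift 0 2), rh71105dd06a36be4b] (by decide +kernel))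
noncomputable def rhc0436283112e2546 : CRef := CRef.mk (Pat.mk 0xc0000000c000000000000000000000000 0x80000001c0000003c0000000f0000001c000000380000001f0000001c 7 6) 0 0 (step_sound _ 67 [rh36a6df2b3dd177a0, (rh3cb04db3dd2b6a55.shift 2 0), (rh56c8540ace51b267.shift 0 1)] (by decide +kernel))
noncomputable def rhd08f5fc1c890a33d : CRef := CRef.mk (Pat.mk 0x3000000030000000000000000000000000 0x3c0000003e0000007f0000003e0000003e0000006e0000006c0000006c 7 7) 0 0 (step_sound _ 99 [rh4187c3e1238ff7ea, (rh7fe3849afaeeddfd.shift 1 0), (rhbb7213d4724395ac.shift 1 1)] (by decide +kernel))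
noncomputable def rh77cc63cbc6b47681 : CRef := CRef.mk (Pat.mk 0x100000001e000000000000000000000000 0x80000003800000038000000300000001f0000001e000000380000001800000018 7 6) 0 0 (step_sound _ 68 [rh120289715cede6c3, (rhe25b0a99195a5d59.shift 1 2)] (by decide +kernel))
noncomputable def rhf6234c0fb4a945c7 : CRef := CRef.mk (Pat.mk 0x1e000000000000000000000000 0x18000000380000001e0000003f0000003800000038 7 6) 0 0 (step_sound _ 65 [(rh9e47123a9e989843.shift 1 0), (rheb0810cc63b001d8.shift 0 2)] (by decide +kernel))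
noncomputable def rhc0a291daad77d9bb : CRef := CRef.mk (Pat.mk 0x1e000000000000000000000000 0x200000003800000038000000180000003b0000001e000000380000001800000018 7 6) 0 0 (step_sound _ 129 [(rh3244c3cc8379b070.shift 0 3), (rh35ad06026f54f689.shift 1 0)] (by decide +kernel))
noncomputable def rh6196100f5fa54eb7 : CRef := CRef.mk (Pat.mk 0x380000000000000000000000000000000000000000 0x80000000c0000007f0000003e0000000f0000000e0000000e0000000e0000000a 7 7) 0 0 (step_sound _ 162 [(rh2cc7d62e70c02209.shift 0 4), (rh61325f73ebf98108.shift 0 5), (rh7654d7b92c96fe12.shift 0 4), (rhc771cebdf788c766.shift 1 0)] (by decide +kernel))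
noncomputable def rh8f59ad0a949b6215 : CRef := CRef.mk (Pat.mk 0x380000000000000010000000000000000000000000 0x1c0000001c0000003f00000038000001ff000000ff000001f60000003400000034 7 9) 0 0 (step_sound _ 131 [(rh06019aa0dcfb7d9c.shift 0 1), (rh1deff4b43f1abf58.shift 1 1), (rh85d74868f876c8b1.shift 1 1), rha87976bd8ba41998, rhca555bf9727ddd0b, rhcfee91712111a0a6, (rhda400ba728f057c1.shift 1 1), (rhecede2ca37ac8ac4.shift 1 1)] (by decide +kernel))
noncomputable def rheb5938650e5e6c94 : CRef := CRef.mk (Pat.mk 0x1c00000000000000080000000000000000 0x1c0000001f0000001f0000001c0000001c0000000c0000000c00000008 7 5) 0 0 (step_sound _ 99 [(rh091d9d8e8cc09897.shift 2 0), (rh261f868a429ae0e3.shift 2 1), (rh435fb3ef4ac648b4.shift 2 0), (rh63bcbd30e03cbe2f.shift 0 1)] (by decide +kernel))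
noncomputable def rh8a4232e60fe23855 : CRef := CRef.mk (Pat.mk 0x70000000000000002000000000000000000000000 0x70000000700000007000000070000000e0000000e0000000f0000000f0000000f 7 4) 0 0 (step_sound _ 98 [rh19a2c768cce66d65, (rh1c0c76141608b854.shift 1 0), (rh1d31a1b8dab85e04.shift 1 2), rh5e0b07d5cb7e6d74, (rhf0f617bf3c0ffdd9.shift 0 1), (rhf6e4768d041b5dcf.shift 0 2)] (by decide +kernel))
noncomputable def rh46a4d06ff216e102 : CRef := CRef.mk (Pat.mk 0x1c00000000000000080000000000000000 0x140000001e0000001f0000001c0000000e0000007c0000001c00000014 7 7) 0 0 (step_sound _ 99 [(rh261f868a429ae0e3.shift 2 1), (rh27b44a0202980be0.shift 2 0), (rha62239d0523b71ae.shift 0 1), (rhe1a3e820b9828b5e.shift 2 0)] (by decide +kernel))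
noncomputable def rhbfb2d03f82d52912 : CRef := CRef.mk (Pat.mk 0x1c0000000000000008000000000000000000000000 0x1c0000001c0000001c0000001c000000f80000003f000000fe0000003c0000001c 7 8) 0 0 (step_sound _ 100 [(rh19a2c768cce66d65.shift 2 0), (rh258d1b0c81a2ab6e.shift 1 0), (rh2f19e12094ca5b1c.shift 0 2), (rh406e596b02533a07.shift 2 0), (rh5e0b07d5cb7e6d74.shift 2 0), (rh75be60ce59ec0957.shift 2 1), (rh7e0307e65361efdb.shift 2 2)] (by decide +kernel))
noncomputable def rh5895c063dc793910 : CRef := CRef.mk (Pat.mk 0x1c00000000000000080000000000000000 0x40000000e0000000f0000001c0000001e0000007c0000001c0000001c 7 7) 0 0 (step_sound _ 99 [(rh091d9d8e8cc09897.shift 2 0), (rh27b44a0202980be0.shift 2 0), (rhbec452a410f64515.shift 0 1), (rhd2ff10260edff31e.shift 2 0)] (by decide +kernel))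
noncomputable def rh03ae4a0feef9ef00 : CRef := CRef.mk (Pat.mk 0x1c00000000000000080000000000000000 0x1800000018000000180000001c0000003c000000ff0000003c0000001c 7 8) 0 0 (step_sound _ 99 [(rh435fb3ef4ac648b4.shift 2 0), (rhd2ff10260edff31e.shift 2 0), (rhe1a3e820b9828b5e.shift 2 0), (rhe9da1819ce283d81.shift 0 1)] (by decide +kernel))
noncomputable def rh57000847f552c14d : CRef := CRef.mk (Pat.mk 0x380000000000000010000000000000000000000000 0x2800000038000001ff000000fe000001fe0000001000000010 7 9) 0 0 (step_sound _ 68 [(rh5a4df29f20c07a62.shift 3 2), (rh63624046dbd83126.shift 3 1), (rh8a2a5099c42be003.shift 3 1), rhe156e5af9dd3d8eb] (by decide +kernel))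
noncomputable def rh8186804aad147256 : CRef := CRef.mk (Pat.mk 0x1700000000000000020000000000000000000000000 0x2000000070000000780000017c00000170000003ff000003fe000003df000000d800000058 7 10) 0 0 (step_sound _ 100 [(rh025ee0162d296298.shift 1 0), (rh077b493769425a1e.shift 4 2), (rh23cf1b779d5585a6.shift 0 1), rh2a9d0477e7b77383, (rh5984b8993b441216.shift 4 2), rh678f09cc0e963d5a, (rh6dbfc121746b2dd7.shift 1 1), (rhd2d4cecb8dd2aea2.shift 1 2)] (by decide +kernel))
noncomputable def rhbdeb335c4adc04ae : CRef := CRef.mk (Pat.mk 0x380000000000000010000000000000000000000000 0x140000001c0000003f00000038000001ef000000fe000001ff0000005c00000054 7 9) 0 0 (step_sound _ 99 [rh43c1d1352a227fa6, (rh6dbfc121746b2dd7.shift 0 1), (rh9faaad443b3537a6.shift 2 0), rha1a990d199bb300a, rhb0a648bf98aa1d6c, rhc0e65b1d83c4b720, rhfed72effef4555f4] (by decide +kernel))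
noncomputable def rhd4be413a411cad18 : CRef := CRef.mk (Pat.mk 0x380000000000000000000000000000000000000000 0x80000000c0000000f0000003e0000007f0000000e0000000e0000000e0000000a 7 7) 0 0 (step_sound _ 162 [(rh2ba551de881ca4cd.shift 0 4), (rh2cc7d62e70c02209.shift 0 4), (rh8195a2d7794c7cd2.shift 0 4), (rhc771cebdf788c766.shift 1 0)] (by decide +kernel))
noncomputable def rhe2967b0de452663a : CRef := CRef.mk (Pat.mk 0xf0000000100000000000000000000000000000000 0xc0000000c0000001c0000000f0000001f000000180000001c0000001c00000004 7 5) 0 0 (step_sound _ 131 [rh1786ee35489cceba, (rhe25b0a99195a5d59.shift 0 4)] (by decide +kernel))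
noncomputable def rh38f9fead370d8199 : CRef := CRef.mk (Pat.mk 0x1e0000001000000000000000000000000000000000 0x1800000018000000380000001e0000001f00000030000000380000003800000008 7 6) 0 0 (step_sound _ 196 [(rh33e738c4ed385b9f.shift 1 5), rh41340d6db881d4d7] (by decide +kernel))
noncomputable def rh07d26ee7e473bdcd : CRef := CRef.mk (Pat.mk 0x1e0000000000000000000000000000000000000000 0x800000018000000380000001e0000003b00000018000000380000003800000028 7 6) 0 0 (step_sound _ 129 [(rh451cf998db78b6e7.shift 1 0), (rheb0810cc63b001d8.shift 0 4)] (by decide +kernel))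
noncomputable def rhcf1cdc5714ee04b2 : CRef := CRef.mk (Pat.mk 0x1e000000000000000000000000 0x30000000380000003f0000001e000000380000001800000010 7 6) 0 0 (step_sound _ 129 [(rh09aba9b9826cc4b1.shift 1 0), (rh3244c3cc8379b070.shift 0 3)] (by decide +kernel))
noncomputable def rh4ead97843dbd083f : CRef := CRef.mk (Pat.mk 0x38000000000000000000000000 0x20000000e0000000e0000000e0000007f0000003e0000000f0000000c0000000c 7 7) 0 0 (step_sound _ 98 [(rh2cc7d62e70c02209.shift 0 2), (rh61325f73ebf98108.shift 0 3), (rh7654d7b92c96fe12.shift 0 2), (rh805b7d85b33a7d22.shift 1 0)] (by decide +kernel))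
noncomputable def rh3504c30bae3234a0 : CRef := CRef.mk (Pat.mk 0x8000000000000001c000000000000000000000000 0xc0000000c0000001c0000001c0000001f0000001f0000001c 7 5) 0 0 (step_sound _ 131 [(rh046c5eb18e55a239.shift 3 0), (rh281c6819542c66e6.shift 2 0), rh32cd3a28f900b7ed, (rhde10baa3043a2b46.shift 2 2)] (by decide +kernel))
noncomputable def rh5931c2af4591d378 : CRef := CRef.mk (Pat.mk 0x2000000000000000700000000000000000000000000000000 0xe0000000e0000000e0000000e0000000f0000000700000007000000070000000700000001 7 4) 0 0 (step_sound _ 194 [(rh1e8f3448920a9955.shift 0 3), rh2e5cfdf31ed9c8df, (rh762cb33795dbd831.shift 0 1), (rh9294a1957934539d.shift 0 1), (rhb803232203cd0020.shift 0 1), (rhe1fc476689f5cfb3.shift 1 1), (rhf089b775834fb647.shift 1 1)] (by decide +kernel))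
noncomputable def rh26f81f7111dea5f8 : CRef := CRef.mk (Pat.mk 0x8000000000000001c000000000000000000000000 0x1c0000003c0000000f0000001c0000001f0000001e0000001c 7 6) 0 0 (step_sound _ 131 [(rh281c6819542c66e6.shift 2 0), (rh70e33bfdf511e144.shift 3 0), (rhde10baa3043a2b46.shift 2 2), rhe56826ddc33ed4e9] (by decide +kernel))
noncomputable def rhe3967c310d4a6a7b : CRef := CRef.mk (Pat.mk 0x8000000000000001c000000000000000000000000 0x280000003c0000003f0000007e000000f80000001c0000001c0000001c0000001c 7 8) 0 0 (step_sound _ 164 [(rh6abebe8c76af86b7.shift 1 0), (rh762cb33795dbd831.shift 2 0), (rh9294a1957934539d.shift 2 0), (rh9c0eba51f6890db3.shift 0 2), (rhb803232203cd0020.shift 2 0), rhe73e0dd76e225181, (rhf089b775834fb647.shift 3 0)] (by decide +kernel))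
noncomputable def rh6d0d6938614c637f : CRef := CRef.mk (Pat.mk 0x8000000000000001c000000000000000000000000 0x1c0000001c0000003c0000001f0000001c0000000f0000000e0000000c 7 6) 0 0 (step_sound _ 131 [rh170cecd399d49c48, (rh281c6819542c66e6.shift 2 0), (rh3c039f69bca598a0.shift 2 2), (rhfafeb437ceb8396d.shift 2 0)] (by decide +kernel))
noncomputable def rh940b7b6dae7b247c : CRef := CRef.mk (Pat.mk 0x4000000000000000e000000000000000000000000 0xe0000001e0000003f0000003f0000000e0000000c0000000c0000000c 7 6) 0 0 (step_sound _ 130 [(rh046c5eb18e55a239.shift 2 0), (rh3c039f69bca598a0.shift 1 2), rh671041cfa2ec586c, (rh70e33bfdf511e144.shift 2 0)] (by decide +kernel))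
noncomputable def rh0a2435bd8fcf76b8 : CRef := CRef.mk (Pat.mk 0x10000000000000003800000000 0x1000000010000001fe000000fe000001ff0000003800000028 7 9) 0 0 (step_sound _ 132 [(rh08288fcdb14b309b.shift 3 0), rh2027c62ba5b77bec, (rh6d796465eef217ca.shift 3 0), (rhbf726fa7097229f2.shift 3 0)] (by decide +kernel))
noncomputable def rh5068a88c319a09a9 : CRef := CRef.mk (Pat.mk 0x2000000000000001700000000000000000000000000000000000000000 0x48000003df000001fe000003ff000001700000017c00000078000000700000003000000010 7 10) 0 0 (step_sound _ 228 [(rh1bd1a7afeb9051c0.shift 4 1), (rh2b02973982d00a12.shift 0 3), (rh514790d22c67a923.shift 1 2), (rh8e571dafd4143367.shift 1 2), (rhebf1c6f3f4839b52.shift 2 2), (rhf60a3cdf2285fca2.shift 1 0)] (by decide +kernel))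
noncomputable def rhaa043f8c3cb9aa0d : CRef := CRef.mk (Pat.mk 0x100000000000000038000000000000000000000000 0x140000005c000001ff000000fe000001ef000000380000003c0000001c00000014 7 9) 0 0 (step_sound _ 163 [(rh04b88c995af2c8a3.shift 2 0), rh18b0b7d2f9525a9c, rh5b75de2fad38f655, (rh5e06f8b51d5276ce.shift 2 0), rh7693ff47824c0bc0, rh8e571dafd4143367, (rhb4b518a1b5bb2a5c.shift 0 2)] (by decide +kernel))
noncomputable def rh0d566b0b77d99e55 : CRef := CRef.mk (Pat.mk 0x38000000000000000000000000 0x20000000e0000000e0000000e0000000f0000003e0000007f0000000c0000000c 7 7) 0 0 (step_sound _ 98 [(rh2ba551de881ca4cd.shift 0 2), (rh2cc7d62e70c02209.shift 0 2), (rh805b7d85b33a7d22.shift 1 0), (rh8195a2d7794c7cd2.shift 0 2)] (by decide +kernel))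
noncomputable def rhed20782681f31130 : CRef := CRef.mk (Pat.mk 0x80000000800000018000000000000000000000000 0x740000007c0000001f00000018000000180000001800000018 7 7) 0 0 (step_sound _ 67 [(rh46baee19951a66e7.shift 2 0), (rh900a894640be090c.shift 0 1), (rhb7d8082d486d6fd1.shift 1 1), (rhca18712e5e5c7b8f.shift 3 0)] (by decide +kernel))
noncomputable def rhe385978c74d55a89 : CRef := CRef.mk (Pat.mk 0x80000001800000010000000000000000000000000 0x1800000018000000180000001f000000ff000000ec0000000c0000000c 7 8) 0 0 (step_sound _ 195 [(rh2145e1d24b96a57e.shift 3 3), rhca253dc76b4f9c79] (by decide +kernel))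
noncomputable def rh1caa57c2ae0a5062 : CRef := CRef.mk (Pat.mk 0x40000000c0000000800000000000000000000000000000000 0x100000003c0000000f0000007e0000001f0000000e0000000400000004 7 7) 0 0 (step_sound _ 99 [(rh7b1f1fb55310c477.shift 2 2), rhbfce8c00c8c03ee9] (by decide +kernel))
noncomputable def rh224ff5984720dd01 : CRef := CRef.mk (Pat.mk 0x40000000c00000008000000000000000000000000 0x3e0000003e0000000f0000000c0000000c000000060000000600000006 7 6) 0 0 (step_sound _ 194 [(rh2145e1d24b96a57e.shift 2 3), rh50e8599ce013207f] (by decide +kernel))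
noncomputable def rh1c26a7054dfeca18 : CRef := CRef.mk (Pat.mk 0x20000000600000002000000000000000000000000 0x500000007000000070000000600000002000000070000000700000005 7 3) 0 0 (step_sound _ 65 [rh3181373a30ceb9e3, (rh91429c40af715d36.shift 0 1), (rha707fb719e87fe6e.shift 1 1)] (by decide +kernel))
noncomputable def rhf832d97cb051cea3 : CRef := CRef.mk (Pat.mk 0x80000001800000008000000000000000000000000 0x100000001800000018000000ff000000ff000001dc00000014 7 9) 0 0 (step_sound _ 67 [(rh1c765c272ae24e14.shift 0 1), (rh3181373a30ceb9e3.shift 2 0), (rha707fb719e87fe6e.shift 3 1)] (by decide +kernel))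
noncomputable def rh5bf81029d00aad4a : CRef := CRef.mk (Pat.mk 0x8000000580000000800000000 0x740000007f000001ff0000005f000000ff000000f4 7 9) 0 0 (step_sound _ 131 [(rh20d817f00f392cc7.shift 1 0), rh6a8b98e3c730bb0d, rhbda9af480f89050a] (by decide +kernel))
noncomputable def rh6f76b1492727862d : CRef := CRef.mk (Pat.mk 0x80000000800000018000000000000000000000000 0x18000000180000001f000000ff000000fc0000001c 7 8) 0 0 (step_sound _ 67 [(rh2d94e8e3c3d1054b.shift 2 0), (rh3181373a30ceb9e3.shift 2 0), (rh6a8b98e3c730bb0d.shift 0 1), (rhca18712e5e5c7b8f.shift 3 0)] (by decide +kernel))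
noncomputable def rhdeb8d3a5a0d67e09 : CRef := CRef.mk (Pat.mk 0x1800000018000000000000000000000000 0x3e0000007f000000fe0000001e00000018000000100000001000000010 7 8) 0 0 (step_sound _ 164 [(rh6609c8b2261018fb.shift 1 2), (rh799d8dd471fa94d2.shift 1 2), (rh7db208d87386469c.shift 2 2), (rh929884b3afbd19be.shift 0 1), (rh9dbc063ae34b2487.shift 1 3), (rhafa7fde1e959f301.shift 3 2), (rhf53bfbcd8330112c.shift 3 0)] (by decide +kernel))
noncomputable def rh7deda32317b894cc : CRef := CRef.mk (Pat.mk 0x18000000180000000000000000 0x28000000280000007f000000ff0000001f0000001400000010 7 8) 0 0 (step_sound _ 131 [(rh55a1f6c57a317ce6.shift 3 0), rh8485f1f04fd3766f, (rhe2d7daae1577d340.shift 0 1)] (by decide +kernel))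
noncomputable def rhb86aa67ff090ccf5 : CRef := CRef.mk (Pat.mk 0x80000000800000018000000000000000000000000 0x140000003c0000000f0000001f000000ff000000fc00000014 7 8) 0 0 (step_sound _ 67 [(rh3181373a30ceb9e3.shift 2 0), (rh615cf76a657a45f3.shift 0 1), (rh6aa5625770489e83.shift 2 0), (rh900a894640be090c.shift 0 1)] (by decide +kernel))
noncomputable def rh582702acabec4d54 : CRef := CRef.mk (Pat.mk 0x800000018000000080000000000000000 0x400000014000000ff000000ff0000001f000000080000000800000008 7 8) 0 0 (step_sound _ 132 [rh3e55c59cf5da8412, (rh6adca84e07e1d62d.shift 0 2), (rhea7a1800d6f053bd.shift 3 0)] (by decide +kernel))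
noncomputable def rhb78eee6dc686c806 : CRef := CRef.mk (Pat.mk 0x600000006000000000000000000000000 0xe0000000f0000003c0000000e000000070000003e0000000e00000004 7 6) 0 0 (step_sound _ 162 [(rh1e309b005ffa1b36.shift 1 1), (rh7db208d87386469c.shift 0 2), rh80dd4b14aa606b5a] (by decide +kernel))
noncomputable def rhbbe21d25a5ed0a1a : CRef := CRef.mk (Pat.mk 0x3000000030000000000000000000000000 0x6c0000006c0000006e0000003e0000003e0000007f0000007e0000003c 7 7) 0 0 (step_sound _ 131 [(rh8d364617c03d6975.shift 1 1), rh93a19d6fe5d04e14, (rhcd4d16d28964fbaf.shift 1 1)] (by decide +kernel))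
noncomputable def rh2ec784cc0874aec2 : CRef := CRef.mk (Pat.mk 0x200000000c000000000000000000000000 0x100000001c0000001c0000001c0000001f0000007c0000000f0000007c0000001c0000001c 7 7) 0 0 (step_sound _ 131 [rh2690412e9f9c42f8, rh5d95f41af185c8b5, (rha17f83b3b05a65d6.shift 1 0), (rhe33d9496e10d8eb0.shift 0 3)] (by decide +kernel))
noncomputable def rh87381d811f2b472e : CRef := CRef.mk (Pat.mk 0x2800000028000000000000000000000000 0x280000007f000000fe0000003f000000160000001600000004 7 8) 0 0 (step_sound _ 132 [(rh2820ca9a6c4f41b4.shift 0 3), (rh3aab2036ca4e8d0a.shift 1 1), rhd5af80ae3deefbf7, (rhf0f55c4504412200.shift 0 3)] (by decide +kernel))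
noncomputable def rhd9bf4cba85dbdae6 : CRef := CRef.mk (Pat.mk 0x2800000028000000000000000000000000 0x1c0000003c0000003c000001ff000000f80000003f0000001e0000001c0000001c 7 9) 0 0 (step_sound _ 132 [(rh272396c8ee8fefa8.shift 2 1), (rh7d7c2155600e215e.shift 2 1), rhad4547a151d26beb, (rhf0f55c4504412200.shift 0 3)] (by decide +kernel))
noncomputable def rh8e58e2a07ac23d3c : CRef := CRef.mk (Pat.mk 0x28000000280000000000000000 0x24000003f7000001fe000003bf0000001800000018 7 10) 0 0 (step_sound _ 100 [(rh2820ca9a6c4f41b4.shift 0 2), rh731ef7ec3e8fedf3, rhb55ee1177cf584c3, (rhf0f55c4504412200.shift 0 2)] (by decide +kernel))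
noncomputable def rh4cf533533e6263e1 : CRef := CRef.mk (Pat.mk 0x500000005000000000000000000000000000000000 0x3800000078000000fe0000007f0000007f0000003e0000003c0000003c00000004 7 8) 0 0 (step_sound _ 163 [(rh0855e2a52f99b5f6.shift 1 2), (rh35aca7da6142fc51.shift 1 1), (rh4ed5cd493b308b21.shift 1 2), rhb4c4946b6e5fa766, (rhbd8b8b0dfd357853.shift 1 2), (rhf83a33c32555a52c.shift 2 1)] (by decide +kernel))
noncomputable def rhfd4da42d00b0b227 : CRef := CRef.mk (Pat.mk 0x2800000028000000000000000000000000 0x40000000d4000000ff000000fe0000002f0000001c0000001c00000014 7 8) 0 0 (step_sound _ 132 [(rh272396c8ee8fefa8.shift 2 1), (rh2820ca9a6c4f41b4.shift 0 3), rha4b6e399098d1aa7, (rhb55ee1177cf584c3.shift 0 1)] (by decide +kernel))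
noncomputable def rh7b7e7a784199761b : CRef := CRef.mk (Pat.mk 0x2800000028000000000000000000000000 0x140000005c000000fc000003ff000001fe000003b80000001f0000001c0000001c 7 10) 0 0 (step_sound _ 132 [(rh1c12bdae631f7254.shift 0 1), (rh3aab2036ca4e8d0a.shift 1 1), (rh731ef7ec3e8fedf3.shift 0 1), (rh7d7c2155600e215e.shift 2 1), (rh846fe2a2e37de5d5.shift 0 1), rh9c5992181d577b14, rha4b6e399098d1aa7, (rhb26705bd62baab27.shift 1 1)] (by decide +kernel))
noncomputable def rh7ac7f6b0d27adfa7 : CRef := CRef.mk (Pat.mk 0x1400000014000000000000000000000000 0xa0000000e0000000e0000003e000000370000001e0000000e0000000e0000000a 7 6) 0 0 (step_sound _ 162 [(rh0be62550ae19a47b.shift 1 2), (rh25271c74be886731.shift 1 0), (rh437d454e808ff910.shift 1 1), (rh7863e25d1d742d32.shift 1 1), rh882b7ecf29713997, (rhec719051bea4f0d3.shift 1 0)] (by decide +kernel))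
noncomputable def rhe594ffdc6378d8a4 : CRef := CRef.mk (Pat.mk 0x80000000a000000080000000000000000 0x40000001c0000001c0000001c0000000c0000000f000000180000001800000018 7 5) 0 0 (step_sound _ 163 [(rh250144064dd83c8d.shift 0 1), rh2abd293a81e984c2, (rhc85cc95794737cf7.shift 2 2), (rhcae87bda2c3c01d2.shift 2 0)] (by decide +kernel))
noncomputable def rhe303bc12e8227416 : CRef := CRef.mk (Pat.mk 0x100000001400000010000000000000000000000000 0x8000000180000001f0000007e0000007e0000003800000020 7 7) 0 0 (step_sound _ 68 [(rh0c7493ab8ae24602.shift 3 0), (rh178f93a87db8ff18.shift 1 1), (rh46baee19951a66e7.shift 3 0), (rhab11cf463cf0b932.shift 0 1)] (by decide +kernel))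
noncomputable def rhca057d62bd152e82 : CRef := CRef.mk (Pat.mk 0x2800000028000000000000000000000000 0x400000005000000070000001f8000001fc000003af000000780000007800000050 7 10) 0 0 (step_sound _ 132 [(rh179ae2230e9c7ec4.shift 2 1), (rh2820ca9a6c4f41b4.shift 0 3), rhb69cbc7a0a0fe91b, (rhd8b43b15431aaa50.shift 2 1)] (by decide +kernel))
noncomputable def rh19d73b500922ee06 : CRef := CRef.mk (Pat.mk 0x280000002800000000000000000000000000000000 0x40000004c0000004c0000006f0000007c0000002f000000fe000000ff0000005c00000004 7 8) 0 0 (step_sound _ 99 [(rh18d6b08d09f749c9.shift 0 1), (rh291a44532ad4723b.shift 1 0), (rh38d376a4a12b7bee.shift 2 1), (rh39e760b03f69fed0.shift 1 0), (rh4954e1b060b096ba.shift 0 1), (rh7e900f7300b279ab.shift 0 2), (rh8ceb397b092f8edf.shift 0 1), (rhd6c68e8faf694010.shift 0 1), rhe138861728b32bde] (by decide +kernel))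
noncomputable def rh93f6627d7769c0f4 : CRef := CRef.mk (Pat.mk 0x2800000028000000000000000000000000 0x540000007c000001fc000000f80000002f0000007c000000fc00000054 7 9) 0 0 (step_sound _ 134 [rh2bb8bc2e75189d33, (rh562c905737e2bff1.shift 2 1), (rh8d0e56b8a78c5a56.shift 2 3), (rhd5899e89efce0709.shift 2 1), (rhe5944c0a1e5f3c0d.shift 2 1)] (by decide +kernel))
noncomputable def rh01c408a926be9c16 : CRef := CRef.mk (Pat.mk 0x5000000050000000000000000000000000 0x28000000b8000000ff000001fe0000007f00000058000000780000007800000028 7 9) 0 0 (step_sound _ 164 [(rh04f4875e911c5ad0.shift 2 2), (rh0f5c947082bcb631.shift 3 0), rh1292c30857b0bdee, (rh33cf46ee63e0e6b9.shift 3 0), (rh7863e25d1d742d32.shift 3 1), (rh8ae6eb1eb9da57a7.shift 3 0)] (by decide +kernel))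
noncomputable def rhe8df4606a83b970c : CRef := CRef.mk (Pat.mk 0x2800000028000000000000000000000000 0x40000000540000007c000001ff000000ff000000280000007c0000007c00000054 7 9) 0 0 (step_sound _ 163 [rh27df81f1f1550515, (rh7a83ebe5a5f29be3.shift 2 0), rh87038d8fda6e5753, (rh8ffb89172b03b779.shift 0 2), rh950f2b1f5ec1da91, (rha227599e268fa8fa.shift 2 0)] (by decide +kernel))
noncomputable def rh6432c394b30701bd : CRef := CRef.mk (Pat.mk 0x140000001400000000000000000000000000000000 0xa0000002e0000003f0000007e00000037000000160000003e0000003e0000002e00000002 7 7) 0 0 (step_sound _ 194 [(rh04f4875e911c5ad0.shift 0 3), (rh0f5c947082bcb631.shift 1 1), (rh3139c52f41037bb3.shift 1 0), (rh7863e25d1d742d32.shift 1 2), (rh882b7ecf29713997.shift 0 1), (rhc5f0cc471fb2f84c.shift 0 1), (rhfa7cb66c18c32d83.shift 1 1)] (by decide +kernel))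
noncomputable def rhb1277502d7c7ed16 : CRef := CRef.mk (Pat.mk 0x28000000280000000000000000000000000000000000000000 0x440000004c0000006f0000007c0000002f000000fe000000fe0000005c0000001c00000004 7 8) 0 0 (step_sound _ 131 [(rh0f5c947082bcb631.shift 2 1), (rh1fa33a0369aa1fc6.shift 1 1), (rh38d376a4a12b7bee.shift 2 2), (rh4692eec48c60ad82.shift 2 1), rh6835dab1c84617f5, (rh7aa0d9c6e0d82804.shift 0 1), (rh7e900f7300b279ab.shift 0 3), (rh9c2a11983e75daf2.shift 1 1), (rhdf4b4308acdbe106.shift 0 1), (rhfe829c42ed752e6d.shift 2 1)] (by decide +kernel))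
noncomputable def rh5d50916b924e3cd5 : CRef := CRef.mk (Pat.mk 0x280000002800000000000000000000000000000000 0x40000000540000007c0000007f0000003e0000002f000000fc000000fc0000005c00000014 7 8) 0 0 (step_sound _ 99 [(rh1b7e89f239630456.shift 2 0), (rh2cb391b3c58ee6c2.shift 2 1), (rh38d376a4a12b7bee.shift 2 1), rh7feaeaf47287cc9f, (rh8ca4d003dff62858.shift 1 1), (rhdb5c904fa65ed71b.shift 2 1)] (by decide +kernel))
noncomputable def rh22b4591c0a4da09a : CRef := CRef.mk (Pat.mk 0x2800000028000000000000000000000000 0x40000000540000007c000001ff000000ff000000280000007c0000007c00000054 7 9) 0 0 (step_sound _ 163 [rh27df81f1f1550515, (rh7a83ebe5a5f29be3.shift 2 0), (rh8ffb89172b03b779.shift 0 2), rh950f2b1f5ec1da91, (rha227599e268fa8fa.shift 2 0), rhc8a70f7698454acc] (by decide +kernel))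
noncomputable def rh24669036c01597e0 : CRef := CRef.mk (Pat.mk 0x140000001400000000000000000000000000000000 0xa0000002e0000003f0000007e00000037000000160000003e0000007e0000002e00000002 7 7) 0 0 (step_sound _ 194 [(rh04f4875e911c5ad0.shift 0 3), (rh0f5c947082bcb631.shift 1 1), (rh3139c52f41037bb3.shift 1 0), (rh7863e25d1d742d32.shift 1 2), (rh882b7ecf29713997.shift 0 1), (rha444676c6cb0d4e8.shift 0 1), (rhfa7cb66c18c32d83.shift 1 1)] (by decide +kernel))
noncomputable def rhd924bd7f2a1c106e : CRef := CRef.mk (Pat.mk 0x2c0000002000000000000000000000000000000000 0x140000001c0000001c0000007c0000002f0000007c0000001f0000001c0000001c00000014 7 7) 0 0 (step_sound _ 131 [(rh8c25cb665ab79ec0.shift 0 4), (rhbb2258de3c9392a8.shift 0 1), rhcf590b598f772cfd, rhdd654bbc0781e67b] (by decide +kernel))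
noncomputable def rhe488398b094e95c8 : CRef := CRef.mk (Pat.mk 0x2800000028000000000000000000000000 0x140000001c0000001c0000003c000000f8000001df0000001c0000001c 7 9) 0 0 (step_sound _ 100 [(rh12eae6b92ab228be.shift 2 0), (rh1561ff1fafeb7917.shift 2 2), (rh1aae126fdb0efa1d.shift 2 2), rh5818c0b021c7dece] (by decide +kernel))
noncomputable def rh6fc705e461879596 : CRef := CRef.mk (Pat.mk 0x280000002800000000000000000000000000000000 0x1c0000001c0000001e000003b8000003fe000003ff000000fc0000007c0000000c 7 10) 0 0 (step_sound _ 132 [(rh07da1bd474d6d9e1.shift 1 0), (rh12eae6b92ab228be.shift 2 1), (rh2dc91e9f596105eb.shift 0 1), (rh5b6d2bf6893374d1.shift 1 1), (rh905abbc9f20b6bb7.shift 1 1), (rha2cb1977398e6365.shift 0 1), (rhc533220966fcc36e.shift 0 3)] (by decide +kernel))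
noncomputable def rh7bb0fac04a8e5cce : CRef := CRef.mk (Pat.mk 0x2800000028000000000000000000000000 0x140000001c0000001c0000002f000000fe000001ff000000dc00000054 7 9) 0 0 (step_sound _ 100 [(rh1561ff1fafeb7917.shift 2 2), rh26e1017678d9da1f, rh2dc91e9f596105eb, (rha9fbfd4bb8cf890b.shift 0 3)] (by decide +kernel))
noncomputable def rhd2e124f5b96cae3d : CRef := CRef.mk (Pat.mk 0x280000002800000000000000000000000000000000 0x140000005c000000ff0000007c0000002f0000003c0000007c0000007c0000005400000010 7 8) 0 0 (step_sound _ 195 [(rh1dbd5905aef3dade.shift 2 0), (rh22e3873261c6c95d.shift 2 3), (rh25271c74be886731.shift 2 1), (rh2b6ecd6b948e770d.shift 0 1), (rh337899023ed43b2e.shift 0 1), (rh9025223dca583e9f.shift 2 1)] (by decide +kernel))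
noncomputable def rh994c9af0e7568e60 : CRef := CRef.mk (Pat.mk 0x280000002800000000000000000000000000000000 0x140000001c0000001c0000007c0000002f0000007c0000001f0000001c0000001c00000014 7 7) 0 0 (step_sound _ 162 [(rh8c25cb665ab79ec0.shift 0 4), (rhbb2258de3c9392a8.shift 0 1), rhcf590b598f772cfd, rhdd654bbc0781e67b] (by decide +kernel))
noncomputable def rh96a710af26690d6a : CRef := CRef.mk (Pat.mk 0x280000002800000000000000000000000000000000 0x5000000070000000740000002f000000fe000001ff0000007e0000005c00000054 7 9) 0 0 (step_sound _ 101 [rh6a72f7b8182f1c07, (rha895b73c7bd9f964.shift 0 3), (rhb7fb3f7cd67b2e78.shift 2 2), (rhc5c5b88722b9bb4a.shift 4 1), (rhf3137a9730661f0a.shift 2 0)] (by decide +kernel))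
noncomputable def rhab945b88f6983fcd : CRef := CRef.mk (Pat.mk 0x280000002800000000000000000000000000000000 0x540000007c0000007c000000280000007c000001ff000000fc0000005400000044 7 9) 0 0 (step_sound _ 99 [rh0115c66452a97d07, rh2c9824e3d3e9dab7, (rh485eb9cd51815a38.shift 2 0), (rh60f6231d213c6ef9.shift 2 1), (rhc5c5b88722b9bb4a.shift 2 1), (rhe323009b509138a7.shift 0 2)] (by decide +kernel))
noncomputable def rha3ae8e4751befc16 : CRef := CRef.mk (Pat.mk 0x2800000028000000000000000000000000 0x500000007000000070000000780000002f0000007e000001f00000007000000050 7 9) 0 0 (step_sound _ 165 [(rh23d7ba318d89735b.shift 4 0), (rh3108c31cdf31936e.shift 1 0), (rh337c3c81a319a681.shift 4 1), (rh6d22e4af4868beec.shift 2 2), rh96f998c5b07b7a98, (rhc55c1d37f08df68a.shift 4 1), (rhff22ab043b310713.shift 2 1)] (by decide +kernel))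
noncomputable def rh0a61631f36a028e4 : CRef := CRef.mk (Pat.mk 0x280000002800000000000000000000000000000000 0x40000005c000000fc0000007c0000002f0000006e000000fc0000007e0000005c00000014 7 8) 0 0 (step_sound _ 99 [(rh0aae1ee34b51faa6.shift 2 1), (rh0eb09afa9815783c.shift 2 1), (rh301fcb69ccf8eba1.shift 2 1), (rh30afbeb9a1894893.shift 1 0), (rh4692eec48c60ad82.shift 2 0), (rh5c5fc92a22ce9407.shift 2 1), (rh72ef61a7f3630de0.shift 1 2), (rhe8a7723f405835bc.shift 0 2)] (by decide +kernel))
noncomputable def rh2561a17dd43beb7c : CRef := CRef.mk (Pat.mk 0x380000000000000000000000000000000000000000 0x80000000c0000007f0000003e0000000f0000000e0000000e0000000e0000000a 7 7) 0 0 (step_sound _ 162 [(rh61325f73ebf98108.shift 0 5), (rh7654d7b92c96fe12.shift 0 4), (rh775ca1963e850b80.shift 0 4), (rhc771cebdf788c766.shift 1 0)] (by decide +kernel))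
noncomputable def rhbfc653101c0a5384 : CRef := CRef.mk (Pat.mk 0x16000000100000000000000000 0x6000000070000001e0000003f0000000700000007 7 6) 0 0 (step_sound _ 99 [(rhe25b0a99195a5d59.shift 1 2), rhec1e4baa4b28ff9a] (by decide +kernel))
noncomputable def rh324215630cdd7969 : CRef := CRef.mk (Pat.mk 0x2c000000200000000000000000 0x2c0000006f0000003e0000003f0000001e0000001e 7 7) 0 0 (step_sound _ 100 [(rh775ca1963e850b80.shift 0 2), (rh8859ac061aed93d9.shift 1 0), (rhdceeca65bdd8095a.shift 0 2), (rhec1e4baa4b28ff9a.shift 1 0)] (by decide +kernel))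
noncomputable def rh772451f577c2b3fb : CRef := CRef.mk (Pat.mk 0x2c0000002000000000000000000000000000000000 0x40000002c0000002c0000002f0000007e0000007e0000003e0000001e00000014 7 7) 0 0 (step_sound _ 131 [(rh2c177a4f21ea4f35.shift 1 1), (rh8c25cb665ab79ec0.shift 0 4), (rhe09cfcd5f84c47cb.shift 1 1), (rhe745f09fd1122f13.shift 1 0)] (by decide +kernel))
noncomputable def rhe49479676b895ce1 : CRef := CRef.mk (Pat.mk 0x2c0000002000000000000000000000000000000000 0x140000001c0000003c0000007c0000002f0000007c0000001f0000001c0000001c00000014 7 7) 0 0 (step_sound _ 131 [rh5bcead20a9dbbf01, (rh8ab4a59284d61caf.shift 0 1), (rh8c25cb665ab79ec0.shift 0 4), rhdd654bbc0781e67b] (by decide +kernel))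
noncomputable def rhf0764f7b1cf8648d : CRef := CRef.mk (Pat.mk 0x1000000050000000000000000000000000 0x10000000100000001f000001fe000003ff0000000800000008 7 10) 0 0 (step_sound _ 101 [(rh1561ff1fafeb7917.shift 3 2), (rh26e1017678d9da1f.shift 1 0), (rha9fbfd4bb8cf890b.shift 1 3), rhf6171dd57f48d3bb] (by decide +kernel))
noncomputable def rha59f96ee0c0fef5c : CRef := CRef.mk (Pat.mk 0x280000002800000000000000000000000000000000 0x140000005c0000007e000000ff0000002f0000007c0000006f0000005c0000005c00000010 7 8) 0 0 (step_sound _ 195 [(rh1359922a99d3d421.shift 2 2), rh13e68fa2a1fbc53c, (rh144c921ae3171e1e.shift 1 3), (rh195e2e6861faf39a.shift 2 2), (rh22e3873261c6c95d.shift 2 3), (rh3f2ea8d89b0df1d7.shift 0 1), (rh576cb097ad708933.shift 0 3), (rh65d01379fd6ff22b.shift 0 1), (rh7863e25d1d742d32.shift 2 2)] (by decide +kernel))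
noncomputable def rh88c1097e3dbb1bde : CRef := CRef.mk (Pat.mk 0x7000000040000000000000000 0x60000000f0000001f000000070000001f0000001f0000000f 7 5) 0 0 (step_sound _ 129 [rh17e572ba5ac05c68, rh2819595a19b5fa31, (rh5d54cb79a67f97ab.shift 1 0), (rh7e1098702e50f2b0.shift 1 0), (rha40d42a2e34c408d.shift 1 0)] (by decide +kernel))
noncomputable def rh17099cb433208f0e : CRef := CRef.mk (Pat.mk 0x7000000040000000000000000000000000000000000000000 0xe0000000e0000001e000000070000000e0000000e0000000c0000000e0000000e0000000a 7 5) 0 0 (step_sound _ 130 [(rh7b24c4ccc068b0b2.shift 1 3), (rh9e38763559db24f5.shift 0 3), (rhb1a251d9bff81766.shift 1 3), (rhf9a6286f1d5377a2.shift 1 3), (rhfb0ed49cb7581ad4.shift 1 0)] (by decide +kernel))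
noncomputable def rh886216c36adf9506 : CRef := CRef.mk (Pat.mk 0x2c0000002000000000000000000000000000000000 0x40000002c0000002c0000002f0000007e0000007e0000003e0000001e00000014 7 7) 0 0 (step_sound _ 131 [(rh2c177a4f21ea4f35.shift 1 1), (rh8c25cb665ab79ec0.shift 0 4), (rhd2b45bf24920a7b7.shift 1 0), (rhe09cfcd5f84c47cb.shift 1 1)] (by decide +kernel))
noncomputable def rh152f160265326a5b : CRef := CRef.mk (Pat.mk 0xe0000000800000000000000000000000000000000 0x140000001c0000003c0000000e0000007c000000380000001f0000001c00000014 7 7) 0 0 (step_sound _ 99 [(rh0a6888916bcef86b.shift 2 0), (rh7b24c4ccc068b0b2.shift 2 2), (rh7f4585616ba89c60.shift 1 2), rhf71215ddc455fe51, (rhf9a6286f1d5377a2.shift 2 2)] (by decide +kernel))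
noncomputable def rh92a2326ee77790d5 : CRef := CRef.mk (Pat.mk 0x3800000020000000000000000000000000 0x100000007000000070000000fe000000ff0000003e00000027000000700000007000000050 7 8) 0 0 (step_sound _ 165 [(rh1f266c083a0a4b9b.shift 1 1), (rh7f0f728c796044ac.shift 0 3), (rhb12ffaec36122c99.shift 0 3), (rhfedf650b2d36b83d.shift 4 0)] (by decide +kernel))
noncomputable def rhb990883b07627d19 : CRef := CRef.mk (Pat.mk 0x2c0000002000000000000000000000000000000000 0x10000000140000003c0000007c0000002f0000007c0000001f0000001c0000001c00000014 7 7) 0 0 (step_sound _ 131 [(rh8ab4a59284d61caf.shift 0 1), (rh8c25cb665ab79ec0.shift 0 4), rhdd654bbc0781e67b, rhf4201db2094ccea7] (by decide +kernel))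
noncomputable def rh11e3abf1a551dd49 : CRef := CRef.mk (Pat.mk 0x10000000140000001000000000 0x2800000038000000fc000000fe0000001f0000001800000008 7 8) 0 0 (step_sound _ 132 [rha94490687c60c4d4, (rhc85cc95794737cf7.shift 3 1), (rhd9aacc676827eb17.shift 1 1)] (by decide +kernel))
noncomputable def rh12bb0f3f0459638c : CRef := CRef.mk (Pat.mk 0x2800000028000000000000000000000000 0x6000000160000003f000000fe000001ff0000002800000028 7 9) 0 0 (step_sound _ 100 [(rh1561ff1fafeb7917.shift 2 2), (rh5b6d2bf6893374d1.shift 1 0), (rha9fbfd4bb8cf890b.shift 0 3), (rhc92c3db40538b0da.shift 0 1)] (by decide +kernel))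
noncomputable def rh7c3147606e292a12 : CRef := CRef.mk (Pat.mk 0x280000002800000000000000000000000000000000 0x10000000140000001f0000003c000001f8000001fc0000001c0000001c00000014 7 9) 0 0 (step_sound _ 134 [(rh47082137e9cd2755.shift 2 3), (rh5217d6259694bbd9.shift 2 0), (rhd8be3b7ca6adb62f.shift 2 4), rhebf09c1ee0122349] (by decide +kernel))
noncomputable def rh24f1059334497f00 : CRef := CRef.mk (Pat.mk 0x2800000028000000000000000000000000 0x18000003bf000001fe000003f70000002400000024 7 10) 0 0 (step_sound _ 100 [(rh1aae126fdb0efa1d.shift 2 2), (rha9fbfd4bb8cf890b.shift 0 3), rhaa42030ec58c6ff4, rhed963764511338bc] (by decide +kernel))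
noncomputable def rh46f361defa87074f : CRef := CRef.mk (Pat.mk 0x5000000050000000000000000000000000 0x1c0000003e0000007f0000007f000000ff0000007c0000007c 7 8) 0 0 (step_sound _ 99 [(rh2759b77842137355.shift 1 0), (rh2fa164ba5c06bb6d.shift 2 0), rh3b650da246edf9ad, rh69b746caedec67d0, (rh933d752ab09d6fc8.shift 1 0), rhca2175c3774d17e1, rhd115ab268f0450e2, (rhe4a6d2255d83faf5.shift 1 0)] (by decide +kernel))
noncomputable def rh2637b26db8d99300 : CRef := CRef.mk (Pat.mk 0x500000005000000000000000000000000000000000 0x28000000380000003800000770000003fe000007ff000001f8000000f800000038 7 11) 0 0 (step_sound _ 133 [(rh07da1bd474d6d9e1.shift 2 0), (rh0e3012db365425d2.shift 1 1), (rh3e26abbf947d0cd9.shift 3 0), (rh5b6d2bf6893374d1.shift 2 1), (rhb2e5cbe21dba9d63.shift 1 1), (rhb487accfd702c625.shift 0 1), (rhed963764511338bc.shift 1 1), (rhfd37b7c5b2492a0d.shift 1 1)] (by decide +kernel))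
noncomputable def rhe7d3c2efb5ca0c24 : CRef := CRef.mk (Pat.mk 0x140000001400000000000000000000000000000000 0xa0000000e0000000e0000001e000000370000003e0000000e0000000e0000000a 7 6) 0 0 (step_sound _ 98 [(rh4692eec48c60ad82.shift 1 0), (rh4e9d0b2b6a8ba645.shift 1 0), (rh7fd74e6b1fad4415.shift 1 0), (rh946a116aad97a44e.shift 1 0), (rhcea7893e5c2331ef.shift 1 0), (rhe19deee2c270a386.shift 1 1), (rhfdee0034602635ef.shift 0 2)] (by decide +kernel))
noncomputable def rh68925d118bd867a6 : CRef := CRef.mk (Pat.mk 0x1000000050000000000000000000000000 0x100000001f000001fe000003ff0000000800000008 7 10) 0 0 (step_sound _ 101 [rh02fa20386b992076, (rh1561ff1fafeb7917.shift 3 2), (rh26e1017678d9da1f.shift 1 0), (rha9fbfd4bb8cf890b.shift 1 3)] (by decide +kernel))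
noncomputable def rh9d1a9d0b9f6d308c : CRef := CRef.mk (Pat.mk 0x80000000a0000000800000000 0x140000001c0000007e0000007f0000000e0000001c00000014 7 7) 0 0 (step_sound _ 131 [(rh55a026e6f690bbaf.shift 2 0), (rhaba26d7b21102469.shift 2 0), (rhc85cc95794737cf7.shift 2 1), (rhd9aacc676827eb17.shift 0 1)] (by decide +kernel))
noncomputable def rh8ad68f3832b4679a : CRef := CRef.mk (Pat.mk 0x280000002800000000000000000000000000000000 0x50000000740000007e0000007c0000002f000000f8000001fc0000007c0000005c00000014 7 9) 0 0 (step_sound _ 134 [(rh47082137e9cd2755.shift 2 3), (rh53567e131628b92e.shift 2 1), (rh56e90c12f0808c38.shift 2 1), rh626e0e34095ccbd4, (rheb35796aefd5d255.shift 2 1)] (by decide +kernel))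
noncomputable def rh83b3dfe1fc5a9bb4 : CRef := CRef.mk (Pat.mk 0x280000002800000000000000000000000000000000 0x5000000074000000fc0000007f0000002f0000007c0000006f0000005c0000005c00000010 7 8) 0 0 (step_sound _ 195 [rh13e68fa2a1fbc53c, (rh1c3a6d48489df48c.shift 0 1), (rh4cf1d5f47180b988.shift 2 1), (rh4df1ae26a3adac23.shift 0 3), (rh65d01379fd6ff22b.shift 0 1), (rh9481bc23db878b49.shift 1 1), (rhb5120a730dcb50d8.shift 0 2), (rhe1905abecf25d3f1.shift 0 1)] (by decide +kernel))
noncomputable def rh9873656fd63afd7d : CRef := CRef.mk (Pat.mk 0x280000002800000000000000000000000000000000 0x14000000fc0000007c0000002f0000003c000000fc0000007e0000005c00000014 7 8) 0 0 (step_sound _ 99 [(rh0eb09afa9815783c.shift 2 1), (rh1adeae74fc622fb1.shift 0 2), (rh30afbeb9a1894893.shift 1 0), (rh4692eec48c60ad82.shift 2 0), (rh73a53390ced106f7.shift 2 1), (rh9865b7dd8cc00fe1.shift 2 0), (rha6d7fb6a4527ba30.shift 2 1), (rhe19deee2c270a386.shift 2 1)] (by decide +kernel))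
noncomputable def rhe6129f34a3cf383c : CRef := CRef.mk (Pat.mk 0x280000002800000000000000000000000000000000 0x54000000fc0000007c0000002f000001ee000000fc000000fe0000005c00000014 7 9) 0 0 (step_sound _ 99 [(rh0aae1ee34b51faa6.shift 2 1), (rh0eb09afa9815783c.shift 2 1), (rh30afbeb9a1894893.shift 1 0), (rh4692eec48c60ad82.shift 2 0), (rh5c5fc92a22ce9407.shift 2 1), (rh72ef61a7f3630de0.shift 1 2), (rhdfc2d4889fcc5432.shift 0 1), (rhe8a7723f405835bc.shift 0 2)] (by decide +kernel))
noncomputable def rhf4f1a03a19e2b36a : CRef := CRef.mk (Pat.mk 0x1e00000004000000000000000000000000 0x10000000340000001e0000003f0000000b0000000a00000002 7 6) 0 0 (step_sound _ 97 [rh4bad9ab2a142b080, (rheb0810cc63b001d8.shift 0 3)] (by decide +kernel))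
noncomputable def rhca6596562b0ddccc : CRef := CRef.mk (Pat.mk 0x1e0000000400000000 0x1800000018000000380000001f0000003c00000014 7 6) 0 0 (step_sound _ 36 [rh5033b23a800e3051, (rhe25b0a99195a5d59.shift 1 1)] (by decide +kernel))
noncomputable def rh37202afd7792e215 : CRef := CRef.mk (Pat.mk 0xc000000080000000800000000 0x140000003c0000000f0000007e0000007f00000017 7 7) 0 0 (step_sound _ 131 [(rh20ee5c2c4c3a9878.shift 0 1), rh3ae78bd1db664b48, rh4eaa5b2a6fb3756d] (by decide +kernel))
noncomputable def rh703e52e343cfe7aa : CRef := CRef.mk (Pat.mk 0x4000000040000000400000000000000000000000000000000 0xa0000000e0000000f0000003e000000040000000c0000000e0000000e0000000a 7 6) 0 0 (step_sound _ 98 [(rh1bd0c14c4de1ef4d.shift 0 2), (rh46baee19951a66e7.shift 1 1), (rh47992774edf9829f.shift 1 0), (rhc17b7d8fab3dfe57.shift 1 2), (rhc9de03f9731897d4.shift 2 1)] (by decide +kernel))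
noncomputable def rhf95a3f7724385ac4 : CRef := CRef.mk (Pat.mk 0x4000000040000000400000000000000000000000000000000 0xa0000000e0000000f0000003e00000004000000060000000e0000000e0000000a 7 6) 0 0 (step_sound _ 98 [(rh1bd0c14c4de1ef4d.shift 0 2), (rh367118e0bf0473e0.shift 1 1), (rh47992774edf9829f.shift 1 0), (rh6aa5625770489e83.shift 1 1), (rh762a1aeaf83c662a.shift 1 2)] (by decide +kernel))
noncomputable def rh134ee81b617cfeb2 : CRef := CRef.mk (Pat.mk 0x1000000010000000100000001000000000 0x200000003000000010000000ff0000007e0000002f 7 8) 0 0 (step_sound _ 35 [(rh932754581e0f4330.shift 3 0), rha9f9267bd3327a9c] (by decide +kernel))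
noncomputable def rh57351527dddcec7c : CRef := CRef.mk (Pat.mk 0x400000014000000040000000400000000 0x80000000c0000001c000000770000003e0000007a 7 7) 0 0 (step_sound _ 33 [rh6e7f9d451b6ebd89, (rh932754581e0f4330.shift 1 0)] (by decide +kernel))
noncomputable def rh77d1822807ac3f6c : CRef := CRef.mk (Pat.mk 0x800000008000000080000000800000000 0x40000000c0000000c0000003e0000007f00000017 7 7) 0 0 (step_sound _ 36 [rh4d8fbca48c88a71b, (rh55afc6a59410cf00.shift 3 0)] (by decide +kernel))
noncomputable def rh12d363ba0c3f5049 : CRef := CRef.mk (Pat.mk 0x10000000380000000800000000000000000000000000000000 0x40000003e000000380000003f00000078000000f80000001000000010 7 8) 0 0 (step_sound _ 99 [(rh71222050f2c63a3a.shift 3 2), rhe16a587c5850fc71] (by decide +kernel))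
noncomputable def rh0f8fba845047ee5b : CRef := CRef.mk (Pat.mk 0x380000000800000000000000000000000000000000 0x30000000340000003e00000038000000ff000000fc000000380000001000000010 7 8) 0 0 (step_sound _ 196 [rh024b2c042a712240, (rh49e8f417b3c56c2d.shift 1 1), (rhcf80391c5046a495.shift 3 2), (rhf91b1398c815afd2.shift 3 2), (rhf9366b6a121593ef.shift 3 2)] (by decide +kernel))
noncomputable def rha595058d4de5ec91 : CRef := CRef.mk (Pat.mk 0x1e000000040000000000000000 0x8000000080000003c0000001e0000003f0000003400000034 7 6) 0 0 (step_sound _ 65 [(rhaf8c3a3df4b4f84f.shift 1 0), (rheb0810cc63b001d8.shift 0 2)] (by decide +kernel))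
noncomputable def rhfc205fc8170e6228 : CRef := CRef.mk (Pat.mk 0x20000000600000004000000000000000000000000000000000 0x18000000180000009c000001fc0000007f000003fe0000007c000000780000002000000020 7 10) 0 0 (step_sound _ 196 [(rh0e8aba07d0a34519.shift 2 0), (rh139aafdc695bfa7b.shift 0 2), (rh161a034b7c5abbcf.shift 1 2), (rh1f9b84414c213cfc.shift 1 2), (rhaf30d2a7def9d079.shift 2 2), (rhc6637c8c1ed396ee.shift 0 2), (rhef51f0d61e86a1a0.shift 1 2), (rhf2915b66222e4c11.shift 1 3)] (by decide +kernel))
noncomputable def rhc5c170169d953832 : CRef := CRef.mk (Pat.mk 0x2c00000018000000000000000000000000 0x600000006000000060000003c0000007e0000007f0000000c0000000c 7 7) 0 0 (step_sound _ 101 [rh83da41c23a0ecf60, (rhf48373e13d2bc128.shift 2 3)] (by decide +kernel))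
noncomputable def rh10e2d404f2deb740 : CRef := CRef.mk (Pat.mk 0x160000000c000000000000000000000000 0x1a0000001a0000003b0000001e0000003f000000370000001000000010 7 6) 0 0 (step_sound _ 100 [rh07657ec64377ef10, (rhf48373e13d2bc128.shift 1 3)] (by decide +kernel))
noncomputable def rhd654cb65e194d998 : CRef := CRef.mk (Pat.mk 0x280000003800000000000000000000000000000000 0x70000000f00000003800000078000000fe0000007f0000001c0000000c 7 8) 0 0 (step_sound _ 100 [(rh1763ebba85ac4fcd.shift 3 2), rh193161f688984a54, (rhcf80391c5046a495.shift 4 1), (rhf9366b6a121593ef.shift 4 1)] (by decide +kernel))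
noncomputable def rh9d0ff6c6d69426f9 : CRef := CRef.mk (Pat.mk 0x140000001c0000000000000000000000000000000000000000 0x280000003800000038000000780000001f0000001c0000003c00000038000000380000003800000008 7 7) 0 0 (step_sound _ 228 [(rh2ccfe1e4205ca8cc.shift 1 0), (rh6c03a9ef5fb89cef.shift 3 4), (rh972f0859fbdb0652.shift 0 4), (rhfafeb437ceb8396d.shift 3 2)] (by decide +kernel))
noncomputable def rh681ad950b14c1996 : CRef := CRef.mk (Pat.mk 0x3800000018000000000000000000000000 0x1000000030000000380000001e0000007c0000003f0000001c 7 7) 0 0 (step_sound _ 98 [(rh53b3c253cb0c65f4.shift 1 3), rhe8a1e697ff476044] (by decide +kernel))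
noncomputable def rh72dbfb9d9865884f : CRef := CRef.mk (Pat.mk 0x2800000018000000100000000000000000 0x300000003800000018000000380000001f0000001c 7 6) 0 0 (step_sound _ 36 [(rh7b1f1fb55310c477.shift 3 0), rheeb49a2139941dc3] (by decide +kernel))
noncomputable def rhf92e6375442a4d99 : CRef := CRef.mk (Pat.mk 0x2800000018000000100000000000000000 0x10000000380000001e000000fc000000ff0000003e 7 8) 0 0 (step_sound _ 36 [rh617c929ca9975046, (rh7b1f1fb55310c477.shift 3 0)] (by decide +kernel))
noncomputable def rh02b731bdc2aefb53 : CRef := CRef.mk (Pat.mk 0x140000000c000000080000000000000000 0x180000001c0000000c000000380000001f0000001c 7 6) 0 0 (step_sound _ 35 [(rh7b1f1fb55310c477.shift 2 0), rhaf4d8509ac323561] (by decide +kernel))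
noncomputable def rh2b550066a205caeb : CRef := CRef.mk (Pat.mk 0xa00000006000000040000000000000000 0xc0000000e00000006000000070000003e0000000e 7 6) 0 0 (step_sound _ 34 [rh17a378ef7ee20ed5, (rh7b1f1fb55310c477.shift 1 0)] (by decide +kernel))
noncomputable def rh8d7b357814410767 : CRef := CRef.mk (Pat.mk 0x140000000c00000008000000000000000000000000 0x10000000140000003f0000007f000001ff0000002a00000020 7 9) 0 0 (step_sound _ 67 [(rh7b1f1fb55310c477.shift 2 1), rh9448ad3587d8ec63] (by decide +kernel))
noncomputable def rh9200fdf67bba82b2 : CRef := CRef.mk (Pat.mk 0x500000003000000020000000000000000000000000 0x600000006000000070000003fe000007ff000000c0000000c0000000c0 7 11) 0 0 (step_sound _ 131 [(rh0ac4dfd2d7317d8b.shift 2 0), (rh125d4eaf14c79638.shift 0 3), (rhc21a95c499b3efdb.shift 2 3), (rhe3dc93746cbe6e7c.shift 2 3)] (by decide +kernel))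
noncomputable def rh2a628f1a7b7d6f4f : CRef := CRef.mk (Pat.mk 0x140000000c000000080000000000000000 0x180000001c0000000f0000007c0000001800000018 7 7) 0 0 (step_sound _ 35 [(rh7b1f1fb55310c477.shift 2 0), rhf2148e0711a9b5a1] (by decide +kernel))
noncomputable def rh7b10c0af464d9dc7 : CRef := CRef.mk (Pat.mk 0x140000001c00000000000000000000000000000000 0x1000000010000000140000003f000000ff0000002f0000000e0000000c 7 8) 0 0 (step_sound _ 100 [rh6fc552e00f4325ef, (rh8ee80cc30e93a344.shift 1 3), (rhc21a95c499b3efdb.shift 1 3), (rhdb42478f02337dc5.shift 0 1)] (by decide +kernel))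
noncomputable def rh97214bfcb5dbe51f : CRef := CRef.mk (Pat.mk 0x800000038000000000000000000000000 0x600000006000000060000000f0000003e0000007f0000000c0000000c 7 7) 0 0 (step_sound _ 98 [(rh008b05f4778dc30d.shift 0 2), (rh2ba551de881ca4cd.shift 0 2), (rh2cc7d62e70c02209.shift 0 2), (rheb402496499938bd.shift 1 0)] (by decide +kernel))
noncomputable def rh906d32ecab872ec6 : CRef := CRef.mk (Pat.mk 0x80000001800000010000000000000000000000000 0xc0000000c0000001c0000001f000000ff000000ec0000000c00000008 7 8) 0 0 (step_sound _ 195 [(rh2145e1d24b96a57e.shift 3 3), rh8ee78671f1f26256] (by decide +kernel))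
noncomputable def rh63522e64674be7ba : CRef := CRef.mk (Pat.mk 0x300000001800000000000000000000000000000000 0x20000000300000003800000078000000ff0000007f0000003c0000002c 7 8) 0 0 (step_sound _ 100 [(rh421cce82bb1068e3.shift 3 0), (rh483977ec4c7a5d44.shift 3 1), rh84119bf1d60a6eed, (rh9bb5c7e5c08d4582.shift 3 1), (rhe3458ab40071103b.shift 4 2)] (by decide +kernel))
noncomputable def rhe161d102518b4317 : CRef := CRef.mk (Pat.mk 0x700000001800000000000000000000000000000000 0x2000000020000000700000007800000038000000ff000001ff0000003c0000002c 7 9) 0 0 (step_sound _ 100 [(rh421cce82bb1068e3.shift 3 0), (rh483977ec4c7a5d44.shift 3 1), (rh9bb5c7e5c08d4582.shift 3 1), rhdb9c4566064822a7, (rhe3458ab40071103b.shift 4 2)] (by decide +kernel))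
noncomputable def rhb8b76b8b96ca9182 : CRef := CRef.mk (Pat.mk 0xf000000020 0x18e000000fe000001bf 7 9) 0 0 (step_sound _ 7 [rh29c458605081fbae, (rhe25b0a99195a5d59.shift 4 0)] (by decide +kernel))
noncomputable def rh06bb36b31580343a : CRef := CRef.mk (Pat.mk 0x20000000700000001000000000000000000000000 0x60000000600000007000000070000001f0000001e0000000600000002 7 5) 0 0 (step_sound _ 193 [(rh5c5e593799055d58.shift 0 3), rhd2d4c47e68283d94] (by decide +kernel))
noncomputable def rh0eb89799d256b9ac : CRef := CRef.mk (Pat.mk 0x80000001c000000040000000000000000 0x300000007c0000001f0000007c0000007e0000007f 7 7) 0 0 (step_sound _ 34 [(rh71222050f2c63a3a.shift 2 0), rh92cb2a92b0ff9315] (by decide +kernel))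
noncomputable def rhf36da63b9610a669 : CRef := CRef.mk (Pat.mk 0x1e00000004000000000000000000000000 0x8000000380000001e000000370000003c0000003800000028 7 6) 0 0 (step_sound _ 97 [(rheb0810cc63b001d8.shift 0 3), (rhfee5ce5c77167251.shift 1 0)] (by decide +kernel))
noncomputable def rh555a6907687f0b18 : CRef := CRef.mk (Pat.mk 0xf000000020 0xe000000fe000001bf 7 9) 0 0 (step_sound _ 7 [rh744ad401386df909, (rhe25b0a99195a5d59.shift 4 0)] (by decide +kernel))
noncomputable def rhfbd20930092ba885 : CRef := CRef.mk (Pat.mk 0xf000000020 0x1ce000000fe000001b7 7 9) 0 0 (step_sound _ 7 [rhcd7062f14df1f8b4, (rhe25b0a99195a5d59.shift 4 0)] (by decide +kernel))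
noncomputable def rh915ed5a0c8f96413 : CRef := CRef.mk (Pat.mk 0x7800000000 0xe70000007e000000c7 7 8) 0 0 (step_sound _ 6 [rh15b856e33c69f807, (rhe25b0a99195a5d59.shift 3 0)] (by decide +kernel))
noncomputable def rhea9ee3526ae0193b : CRef := CRef.mk (Pat.mk 0x700000003000000000000000000000000 0x60000000e0000001f00000007000000070000001e0000000e00000002 7 5) 0 0 (step_sound _ 65 [(rh1df25faa4cbf0f8e.shift 0 1), rh3cb04db3dd2b6a55, rhb0c1e7919d9be92d] (by decide +kernel))
noncomputable def rh7714326fe4c18511 : CRef := CRef.mk (Pat.mk 0x16000000040000000000000000 0x12000000370000001f0000003e0000000c0000000c 7 6) 0 0 (step_sound _ 129 [(rh7e1098702e50f2b0.shift 1 0), rhc57c8f3f7683b4a8] (by decide +kernel))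
noncomputable def rh53432a2a5e976fd5 : CRef := CRef.mk (Pat.mk 0x20000001600000004000000000000000000000000 0x1000000070000001e000000070000003f0000001f00000003 7 6) 0 0 (step_sound _ 66 [(rh7b1f1fb55310c477.shift 1 1), rha48bc5fece421ffe] (by decide +kernel))
noncomputable def rh00ebb3abae576886 : CRef := CRef.mk (Pat.mk 0x20000001600000004000000000 0x10000000380000003e0000007c000001ff0000007c00000038 7 9) 0 0 (step_sound _ 100 [(rh2fe78cc5ca4405d8.shift 4 2), rheef371831a203af3] (by decide +kernel))
noncomputable def rh0f961032252b1a3b : CRef := CRef.mk (Pat.mk 0x180000001000000010000000000000000000000000 0x80000000c0000001c0000001c000000fe0000003f0000006e0000000c00000008 7 8) 0 0 (step_sound _ 195 [(rha3df16ea9c8576c8.shift 3 3), (rhc89253ff58c66167.shift 3 3), rhd9b2a53cbfeba46d, (rhe072fffdd2fccf38.shift 3 3)] (by decide +kernel))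
noncomputable def rhc1443224ab7fa6a7 : CRef := CRef.mk (Pat.mk 0x2000000020000000200000002000000000 0x2000000020000001f7000001fe000003de 7 10) 0 0 (step_sound _ 36 [(rh932754581e0f4330.shift 4 0), rh998f60dd85a920e1] (by decide +kernel))
noncomputable def rh585a7b5d08254be6 : CRef := CRef.mk (Pat.mk 0x2800000018000000000000000000000000 0xf0000003f0000007f000000770000000400000004 7 7) 0 0 (step_sound _ 130 [(rh062109d6dc26638f.shift 0 3), (rh4ca5dae25f5c14ff.shift 0 3), rha9591e612478c7b3, (rhdeca8db941583de2.shift 0 3)] (by decide +kernel))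
noncomputable def rh241e7883f47b5c3b : CRef := CRef.mk (Pat.mk 0x500000007000000000000000000000000 0xe0000001f00000007000000070000001f0000000e00000002 7 5) 0 0 (step_sound _ 65 [(rh1763ebba85ac4fcd.shift 0 1), rhab292f7f30e6ad1f, (rhcf80391c5046a495.shift 1 0)] (by decide +kernel))
noncomputable def rh8b0872e13daf8ec5 : CRef := CRef.mk (Pat.mk 0x500000003000000020000000000000000000000000 0x600000007000000070000001fe000001ff000000cc000000c8000000c0 7 9) 0 0 (step_sound _ 131 [(rh125d4eaf14c79638.shift 0 3), (rhc21a95c499b3efdb.shift 2 3), (rhce8929b52889edec.shift 2 0), (rhe3dc93746cbe6e7c.shift 2 3)] (by decide +kernel))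
noncomputable def rh82168d22465a6670 : CRef := CRef.mk (Pat.mk 0x14000000040000000400000000000000000000000000000000 0xa0000000e0000001e0000000f00000004000000060000000e0000000e0000000a 7 5) 0 0 (step_sound _ 98 [(rh216281f58bc5c0de.shift 0 2), (rh367118e0bf0473e0.shift 1 1), (rh47992774edf9829f.shift 1 0), (rh6aa5625770489e83.shift 1 1), (rh762a1aeaf83c662a.shift 1 2)] (by decide +kernel))
noncomputable def rh40cc7fb1c1675e47 : CRef := CRef.mk (Pat.mk 0x14000000040000000400000000000000000000000000000000 0xa0000000e0000001e0000000f000000040000000c0000000e0000000e0000000a 7 5) 0 0 (step_sound _ 98 [(rh216281f58bc5c0de.shift 0 2), (rh46baee19951a66e7.shift 1 1), (rh47992774edf9829f.shift 1 0), (rhc17b7d8fab3dfe57.shift 1 2), (rhc9de03f9731897d4.shift 2 1)] (by decide +kernel))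
noncomputable def rhfc79dce06a9b7aa5 : CRef := CRef.mk (Pat.mk 0x2000000020000000200000002000000000 0x1000000030000000300000003f000001fe0000005e 7 9) 0 0 (step_sound _ 36 [(rh932754581e0f4330.shift 4 0), rhe5e8fe3756bf5d49] (by decide +kernel))
noncomputable def rhc02c7a552f72c70a : CRef := CRef.mk (Pat.mk 0x1000000050000000100000001000000000 0x10000000780000003e0000007e0000002f 7 7) 0 0 (step_sound _ 37 [(rh55afc6a59410cf00.shift 4 0), rh67c4d5d39908b100] (by decide +kernel))
noncomputable def rh86e638ba34821015 : CRef := CRef.mk (Pat.mk 0x2000000020000000200000002000000000000000000000000 0x500000007000000060000000200000002000000070000000700000005 7 3) 0 0 (step_sound _ 192 [rh49759b6975f15643, (rh50fbb5868c909700.shift 0 3)] (by decide +kernel))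
noncomputable def rh92509baf4470c460 : CRef := CRef.mk (Pat.mk 0x1000000050000000100000001000000000 0x5000000050000000f7000000fe000001ef 7 9) 0 0 (step_sound _ 37 [(rh55afc6a59410cf00.shift 4 0), rhaa4747a040d73dcd] (by decide +kernel))
noncomputable def rheb5a2d728f5b890c : CRef := CRef.mk (Pat.mk 0x14000000040000000400000000000000000000000000000000 0x80000000e0000001e0000000700000006000000060000000e0000000e0000000a 7 5) 0 0 (step_sound _ 98 [(rh20966da26a1c2ae8.shift 1 2), (rh216281f58bc5c0de.shift 0 2), (rh47992774edf9829f.shift 1 0), (rh6aa5625770489e83.shift 1 1)] (by decide +kernel))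
noncomputable def rh561dacdc8712ccae : CRef := CRef.mk (Pat.mk 0x14000000040000000400000000000000000000000000000000 0x80000000e0000001e000000070000000c0000000c0000000e0000000e0000000a 7 5) 0 0 (step_sound _ 98 [(rh216281f58bc5c0de.shift 0 2), (rh46baee19951a66e7.shift 1 1), (rh47992774edf9829f.shift 1 0), (rhced6d86d2069808b.shift 2 2)] (by decide +kernel))
noncomputable def rh1733d245970f127f : CRef := CRef.mk (Pat.mk 0x1000000050000000100000001000000000 0x2f0000003e00000077000000100000003000000020 7 7) 0 0 (step_sound _ 5 [(rhd3458b32566d63f7.shift 4 0), (rhd79fbfddc2878951.shift 0 1)] (by decide +kernel))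
noncomputable def rhbc6140a21f6fab88 : CRef := CRef.mk (Pat.mk 0x2c00000028000000000000000000000000 0x5000000070000000700000007c0000002f00000078000000f00000005000000010 7 8) 0 0 (step_sound _ 100 [rh48672d8131519f00, (rhf48373e13d2bc128.shift 2 3)] (by decide +kernel))
noncomputable def rhd647e6575f4c1322 : CRef := CRef.mk (Pat.mk 0x2c000000200000000000000000 0x60000000700000007f0000003e000000300000003000000030 7 7) 0 0 (step_sound _ 100 [(rh61325f73ebf98108.shift 0 3), (rhba50fd7aca570c30.shift 1 0), (rhd1d05263fabc0227.shift 0 2), (rhfe9402dfdf72b679.shift 1 0)] (by decide +kernel))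
noncomputable def rh0f68022c60d3760c : CRef := CRef.mk (Pat.mk 0xb0000000a00000000000000000 0x40000000e000000fe000000ff0000000800000008 7 8) 0 0 (step_sound _ 99 [(rh47688a8720dc0294.shift 2 2), rh974db76fc21f4b35, (rhba65360472489f45.shift 2 2), (rhe28dc3223a412fc9.shift 3 2)] (by decide +kernel))
noncomputable def rh86aea082dee6b5f4 : CRef := CRef.mk (Pat.mk 0x38000000280000000000000000 0x10000000770000003e0000003f0000006000000060 7 7) 0 0 (step_sound _ 98 [(rh286ac96430883e2a.shift 1 0), (rh61325f73ebf98108.shift 0 3), (rhd1d05263fabc0227.shift 0 2), (rhdceeca65bdd8095a.shift 0 2)] (by decide +kernel))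
noncomputable def rhfdc5e746546054c3 : CRef := CRef.mk (Pat.mk 0x1c000000140000000000000000 0x38000000780000007e0000001f0000001c0000007800000038 7 7) 0 0 (step_sound _ 131 [rh590460726c528408, (rh5d54cb79a67f97ab.shift 3 0), (rh930415eabf6e6b3e.shift 0 1), (rha40d42a2e34c408d.shift 3 0)] (by decide +kernel))
noncomputable def rh8113ccfebe444b58 : CRef := CRef.mk (Pat.mk 0x3800000020000000000000000000000000 0x100000007000000070000000f0000000ff0000003e00000027000000700000007000000050 7 8) 0 0 (step_sound _ 165 [(rh0924f6c22d78684e.shift 2 1), (rh9218e76510abc077.shift 4 0), (rhb12ffaec36122c99.shift 0 3)] (by decide +kernel))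
noncomputable def rh2c4f5e160006cee5 : CRef := CRef.mk (Pat.mk 0x80000000e0000000000000000000000000000000000000000 0x140000001c0000001c000000080000001f0000007c0000001c0000001c0000001c00000004 7 7) 0 0 (step_sound _ 131 [(rh2892ba3414d49912.shift 2 0), (rh8ee80cc30e93a344.shift 0 4), (rhc21a95c499b3efdb.shift 0 4)] (by decide +kernel))
noncomputable def rh0ef4ba986dad5397 : CRef := CRef.mk (Pat.mk 0x8000000080000000800000000000000000000000000000000 0x10000000180000001800000008000000180000007c0000001f0000001c0000001c00000018 7 7) 0 0 (step_sound _ 98 [rh0a92e4abc0c0490f, (rhac4b4763407a46df.shift 0 2), (rhb01ac4982a11ea27.shift 2 1), (rhc23ec26ef2c84235.shift 2 3)] (by decide +kernel))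
noncomputable def rhc19fbcd7aebbd384 : CRef := CRef.mk (Pat.mk 0xa000000080000000800000000 0x140000001c0000001e0000000f000000180000001c00000014 7 5) 0 0 (step_sound _ 131 [(rh8065c10b3cae6218.shift 2 0), rhbdbc38e9704037ba, (rhc85cc95794737cf7.shift 2 1), (rhced6d86d2069808b.shift 3 0)] (by decide +kernel))
noncomputable def rha638cc41e9cfa6a0 : CRef := CRef.mk (Pat.mk 0x280000002000000020000000000000000000000000 0x170000003e0000006700000020000000700000007000000050 7 7) 0 0 (step_sound _ 69 [(rh47cc8c896ef8b20e.shift 0 2), (rh8cdd36b03d57a2f6.shift 4 0)] (by decide +kernel))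
noncomputable def rh8b4691f289e71946 : CRef := CRef.mk (Pat.mk 0x280000002800000020000000000000000000000000 0x18000000380000003e000001f70000007e0000007f00000050 7 9) 0 0 (step_sound _ 69 [(rh46baee19951a66e7.shift 4 0), (rh6aa5625770489e83.shift 4 0), (rh8cdd36b03d57a2f6.shift 4 0), (rhfba30c503268b54c.shift 0 1)] (by decide +kernel))
noncomputable def rh2c033b5f8616777c : CRef := CRef.mk (Pat.mk 0x8000000080000000800000000 0x140000003c0000000f000000ff0000007f000000fc 7 8) 0 0 (step_sound _ 131 [rh5ee4dc8825dcefa0, rh9a377f270411f480] (by decide +kernel))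
noncomputable def rhf736735ac758911f : CRef := CRef.mk (Pat.mk 0x2000000020000000200000002000000000000000000000000 0x300000003000000070000000600000006000000030000000300000003 7 3) 0 0 (step_sound _ 192 [(rh50fbb5868c909700.shift 0 3), rhfdb9c88e61426ec0] (by decide +kernel))
noncomputable def rh5d32573ec8688b6b : CRef := CRef.mk (Pat.mk 0x50000000100000001000000010000000000000000000000000 0x80000005800000058000000ff000000fe000001df000000300000003000000020 7 9) 0 0 (step_sound _ 133 [(rh184ce968b753cc29.shift 0 3), (rh22ab69c525d892c9.shift 1 3), (rh4a2ef90436fa9e13.shift 3 0), (rh74e2f7e19e462725.shift 1 2)] (by decide +kernel))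
noncomputable def rh639cf83ef65ee98b : CRef := CRef.mk (Pat.mk 0x80000000800000008000000000000000000000000 0x40000000c0000000c000000ff000000ff000001fc00000014 7 9) 0 0 (step_sound _ 67 [(rh46baee19951a66e7.shift 2 0), (rh6aa5625770489e83.shift 2 0), (rh8cdd36b03d57a2f6.shift 2 0), (rhbaa07f16fa2425e2.shift 0 1)] (by decide +kernel))
noncomputable def rh3811bfa0fded520c : CRef := CRef.mk (Pat.mk 0x2800000008000000080000000000000000 0x140000001e00000038000000ff0000007f000000fc00000004 7 8) 0 0 (step_sound _ 163 [(rh1a258e40576feff3.shift 1 1), (rh367118e0bf0473e0.shift 2 0), (rh9a377f270411f480.shift 0 1)] (by decide +kernel))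
noncomputable def rhccb618cc8d511397 : CRef := CRef.mk (Pat.mk 0x500000001000000010000000000000000000000000 0x600000007000000070000003fe000001fe000003f70000007000000060 7 10) 0 0 (step_sound _ 101 [(rh046c5eb18e55a239.shift 4 0), (rh6d34db2c26d954fd.shift 2 0), (rha32de4419b47bdd9.shift 1 0), (rhc9fb511dbfb563a6.shift 0 2)] (by decide +kernel))
noncomputable def rh1801abd637e96d5d : CRef := CRef.mk (Pat.mk 0x2000000020000000200000000000000000000000000000000 0x40000000600000006000000070000000300000003000000070000000700000007 7 3) 0 0 (step_sound _ 97 [(rh20966da26a1c2ae8.shift 0 2), (rh367118e0bf0473e0.shift 0 1), rh49759b6975f15643, rh9996e0c105e13dd8, rhdb18d9da0cc94d72] (by decide +kernel))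
noncomputable def rh7eff9cacc70a21ff : CRef := CRef.mk (Pat.mk 0x280000000800000008000000000000000000000000 0x3000000038000000180000003c000000ff0000003c00000014 7 8) 0 0 (step_sound _ 67 [(rh258ecafc2a6fbab6.shift 0 1), (rh367118e0bf0473e0.shift 2 0), (rh8cdd36b03d57a2f6.shift 2 0), (rhc9de03f9731897d4.shift 3 0)] (by decide +kernel))
noncomputable def rh59586c0182cdd316 : CRef := CRef.mk (Pat.mk 0x280000000800000000000000000000000000000000 0x14000000340000007f0000003e0000007f000000fe0000003e0000003c00000014 7 8) 0 0 (step_sound _ 164 [(rh272e8f3b1172ba75.shift 0 2), (rh459a6b84e414d24b.shift 0 2), (rh4c34a26b98f01443.shift 0 2), (rh683f71ba10e07e25.shift 0 2), rh89b1aa9ff8ca92ce, (rh8f06a1b86fe42394.shift 0 1), (rhc5ba9362eea1daee.shift 0 1)] (by decide +kernel))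
noncomputable def rh83b77233ec8e4077 : CRef := CRef.mk (Pat.mk 0x40000001e000000000000000000000000 0x2000000020000000b0000003f0000001e000000340000001000000010 7 6) 0 0 (step_sound _ 129 [(rh3244c3cc8379b070.shift 0 3), rha5a9c4ecd1dd66cc] (by decide +kernel))
noncomputable def rh9b05d9bf3ec9e1b6 : CRef := CRef.mk (Pat.mk 0x200000003000000010000000000000000000000000 0x10000000180000001e000000fe0000003e0000007f0000001e0000001c00000004 7 8) 0 0 (step_sound _ 131 [rh44848ccd4bf41c7f, (rh5dec5e73a267a1c4.shift 1 3), (rh77afee3ab9823cce.shift 1 1), (rh7f0f728c796044ac.shift 0 3)] (by decide +kernel))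
noncomputable def rhe983c116fe846f00 : CRef := CRef.mk (Pat.mk 0x4000000040000000400000014000000000000000000000000 0x40000000c0000003c0000001f0000003a0000001000000010 7 6) 0 0 (step_sound _ 97 [(rh932754581e0f4330.shift 1 2), rhaf97f0846485ce2c] (by decide +kernel))
noncomputable def rh30e4349c55bdf5bf : CRef := CRef.mk (Pat.mk 0x400000004000000140000000400000000 0x7a0000003e000000770000001c0000000c00000008 7 7) 0 0 (step_sound _ 129 [rh3cdec0357e735e81, (rh50fbb5868c909700.shift 1 1)] (by decide +kernel))
noncomputable def rh096fda122e8b7980 : CRef := CRef.mk (Pat.mk 0x800000008000000080000000800000000 0x170000007f0000003e0000000c0000000c00000004 7 7) 0 0 (step_sound _ 132 [(rh2f68792b6b779e96.shift 3 1), rhabdefe5a389d84c6] (by decide +kernel))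
noncomputable def rhe7e550e202c3f22c : CRef := CRef.mk (Pat.mk 0x8000000380000001000000000 0xf8000000780000003f000000380000003e00000004 7 8) 0 0 (step_sound _ 131 [(rh2145e1d24b96a57e.shift 3 1), rh441e137f2a7cebf8] (by decide +kernel))
noncomputable def rh127a674e8bcac718 : CRef := CRef.mk (Pat.mk 0x800000038000000000000000000000000 0x1000000038000000fc000000ff000000380000003e0000003400000030 7 8) 0 0 (step_sound _ 68 [(rh168dd4f386bd0d67.shift 0 1), (rh5d54cb79a67f97ab.shift 3 0), (rh7e1098702e50f2b0.shift 3 0), (rha40d42a2e34c408d.shift 3 0), (rhab78bc6faeb006a4.shift 1 0)] (by decide +kernel))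
noncomputable def rhfaa91f16d327399b : CRef := CRef.mk (Pat.mk 0x40000001e0000000000000000 0x30000000300000003f0000001e0000003b00000008 7 6) 0 0 (step_sound _ 33 [rh51f916e38f2d6d96, (rheb0810cc63b001d8.shift 0 1)] (by decide +kernel))
noncomputable def rhafc64a6eba5b76a6 : CRef := CRef.mk (Pat.mk 0x40000001e000000000000000000000000 0x30000000340000003f0000001e0000003c0000000800000008 7 6) 0 0 (step_sound _ 129 [(rh3244c3cc8379b070.shift 0 3), (rhc2605536edea4d96.shift 1 0)] (by decide +kernel))
noncomputable def rh983b270f2e5c0471 : CRef := CRef.mk (Pat.mk 0x400000006000000020000000000000000000000000 0x20000000200000007800000078000003fe0000007f000003fe0000019e0000001800000018 7 10) 0 0 (step_sound _ 100 [(rh05dbe2e0233e28ef.shift 2 1), (rh2e64405cda5af9f0.shift 1 0), (rh31c5730823c4e171.shift 2 2), (rh93575e2bb9e050e4.shift 1 0), (rh9bca61cc2fdb2eba.shift 2 2), (rhb48940cc4d5a3f37.shift 1 0), (rhc7606b3056e0aba2.shift 1 0), rhf6cbd96955cc284a] (by decide +kernel))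
noncomputable def rh6685acfdb8686043 : CRef := CRef.mk (Pat.mk 0x1800000028000000000000000000000000 0x180000007e0000003f000000770000002400000024 7 7) 0 0 (step_sound _ 98 [(rh6b9ceb06d65958ae.shift 0 2), (rha13180bff21fee6a.shift 1 0), (rhd69c262cd33b94b3.shift 0 3)] (by decide +kernel))
noncomputable def rh8fd151825fce3b5f : CRef := CRef.mk (Pat.mk 0xc00000016000000000000000000000000 0x600000016000000370000003f0000001e0000000b0000000b00000003 7 6) 0 0 (step_sound _ 132 [(rh18965a982d73c794.shift 1 3), rh65de3dac91e118b1] (by decide +kernel))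
noncomputable def rh866dfb9901a347f6 : CRef := CRef.mk (Pat.mk 0xc0000001c000000000000000000000000 0xf0000007f0000001e000000f80000001000000010 7 8) 0 0 (step_sound _ 129 [rh45381e84731aea71, (rhb739f4f82bb681b4.shift 0 3)] (by decide +kernel))
noncomputable def rh818cf6d35ead7245 : CRef := CRef.mk (Pat.mk 0xc0000001c000000000000000000000000 0x1800000018000000380000007f0000001e000000300000003000000030 7 7) 0 0 (step_sound _ 129 [(rhb739f4f82bb681b4.shift 0 3), (rhd5c21cff0f828663.shift 1 0)] (by decide +kernel))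
noncomputable def rhcceac2e4923fd02e : CRef := CRef.mk (Pat.mk 0xc0000001c0000000000000000 0xc0000001c0000003c0000000f0000001e0000003a00000018 7 6) 0 0 (step_sound _ 97 [(rhb739f4f82bb681b4.shift 0 2), (rhe8d8facb1977a67d.shift 1 0)] (by decide +kernel))
noncomputable def rhb47e7bfae4246df6 : CRef := CRef.mk (Pat.mk 0x60000000e000000000000000000000000 0xa0000000e0000003e0000000f0000003c0000001c0000000c 7 6) 0 0 (step_sound _ 131 [(rhf9d36e158778ce35.shift 0 3), (rhfdc9c030b0627b9e.shift 1 0)] (by decide +kernel))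
noncomputable def rhd822b69cda30ff4d : CRef := CRef.mk (Pat.mk 0xc00000016000000000000000000000000 0x10000000340000003f0000001e0000003b0000001a0000001a 7 6) 0 0 (step_sound _ 132 [(rh18965a982d73c794.shift 1 3), rh201876cfc0638896] (by decide +kernel))
noncomputable def rh49a4f1244eb2d771 : CRef := CRef.mk (Pat.mk 0x1c000000140000000000000000 0x60000000e0000003f0000007e0000007c0000001c0000007800000038 7 7) 0 0 (step_sound _ 131 [(rh4464f26b0ce85aec.shift 2 0), (rh5d54cb79a67f97ab.shift 3 0), (rha40d42a2e34c408d.shift 3 0), (rhcddd2f7157a3b8f8.shift 0 1)] (by decide +kernel))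
noncomputable def rh85fa18306827cc86 : CRef := CRef.mk (Pat.mk 0x1c0000001400000000000000000000000000000000 0x380000007c0000001c0000001f00000078000000380000003800000028 7 7) 0 0 (step_sound _ 100 [(rh25cb02822aee5ab1.shift 0 1), (rhd1779d7de7f8215b.shift 3 0), (rhe181d564227a886f.shift 3 0), (rhf70c4b85d91a71b2.shift 0 1)] (by decide +kernel))
noncomputable def rha7a2a12fbbec831f : CRef := CRef.mk (Pat.mk 0x18000000380000000000000000 0x1c0000003f0000007c0000001e000000380000003000000030 7 7) 0 0 (step_sound _ 98 [rh85a3fb247361a281, (rhb739f4f82bb681b4.shift 1 2)] (by decide +kernel))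
noncomputable def rh3571af835b2814dd : CRef := CRef.mk (Pat.mk 0x80000000c00000014000000000000000000000000 0x1f0000003f0000007f0000001f0000001c000000080000000800000008 7 7) 0 0 (step_sound _ 195 [(rh5c5e593799055d58.shift 2 3), rhd4c9f9c708214107] (by decide +kernel))
noncomputable def rhc7ebbc98bd951b1f : CRef := CRef.mk (Pat.mk 0x80000000c0000001400000000 0x1c0000003c0000000f0000000c0000001c00000018 7 6) 0 0 (step_sound _ 131 [(rh5c5e593799055d58.shift 2 1), rhb4cd9b48f1a797b9] (by decide +kernel))
noncomputable def rh7b9ba237ef132e66 : CRef := CRef.mk (Pat.mk 0x80000000c0000001400000000 0x1c0000001c0000001c0000000f0000001c00000018 7 5) 0 0 (step_sound _ 131 [(rh5c5e593799055d58.shift 2 1), rha443e2ddeb13b723] (by decide +kernel))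
noncomputable def rhe5fcce3cb634e854 : CRef := CRef.mk (Pat.mk 0x80000000c0000001400000000 0x200000002a000001fb0000007f0000003f0000001400000010 7 9) 0 0 (step_sound _ 131 [(rh5c5e593799055d58.shift 2 1), rhc8a7b40eec10c69f] (by decide +kernel))
noncomputable def rh8f89355ed158827f : CRef := CRef.mk (Pat.mk 0x2000000030000000500000000000000000 0xc0000000c0000000c0000003fc000003fe000007770000006000000060 7 11) 0 0 (step_sound _ 99 [(rh6765e7960b108c8d.shift 2 2), (rh94b94bdfca5de44a.shift 2 0), (rha0198dc55831a65f.shift 2 3), (rha1e5862de6645f69.shift 0 2)] (by decide +kernel))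
noncomputable def rh5ef5dd2a4b4ff75a : CRef := CRef.mk (Pat.mk 0x1c000000140000000000000000 0xc0000000e0000002f000000ff0000007f000000140000001000000010 7 8) 0 0 (step_sound _ 132 [rh0bea3dde8990852d, (rha11dfd15f08f96e3.shift 1 3), (rhc12621e2646c6fd6.shift 1 0), (rhff7d63dcb3cf9f74.shift 1 3)] (by decide +kernel))
noncomputable def rhde3d86acacc5937f : CRef := CRef.mk (Pat.mk 0x3800000008000000000000000000000000 0xc0000000c0000007f0000003e0000000f000000060000000600000006 7 7) 0 0 (step_sound _ 130 [(rh00f1bb10334541e3.shift 0 4), (rh2c1baeadcd4b32f5.shift 0 3), (rh60f087c0d2371dd9.shift 1 0), (rh775ca1963e850b80.shift 0 3)] (by decide +kernel))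
noncomputable def rh135fec1212525b33 : CRef := CRef.mk (Pat.mk 0x1800000028000000000000000000000000 0x200000007e000000fe0000003f000000770000003400000024 7 8) 0 0 (step_sound _ 100 [(rh1e8aceccf05fd0a3.shift 1 1), rh3719d517a2319662, rhfc1d0640e296a349] (by decide +kernel))
noncomputable def rh11856ad1c0e9370c : CRef := CRef.mk (Pat.mk 0x20000000f000000000 0x1bf000000fe0000018e 7 9) 0 0 (step_sound _ 71 [rh25ff187e1daa8765, (rh33e738c4ed385b9f.shift 4 1)] (by decide +kernel))
noncomputable def rh41b192d2cddcaa3d : CRef := CRef.mk (Pat.mk 0x1000000018000000080000000000000000 0x80000000c000000ec000000ff0000001f0000001c0000000c0000000c 7 8) 0 0 (step_sound _ 35 [(rh71222050f2c63a3a.shift 3 0), rhd10a331af79ee974] (by decide +kernel))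
noncomputable def rh72f2402630164bfa : CRef := CRef.mk (Pat.mk 0x80000000c0000000400000000 0x4000000040000000e0000001f0000007e0000000f0000007c00000010 7 7) 0 0 (step_sound _ 131 [(rh5c5e593799055d58.shift 2 1), rhf8ad211a0d0599b7] (by decide +kernel))
noncomputable def rh895210397b4a6c31 : CRef := CRef.mk (Pat.mk 0x800000038000000000000000000000000 0x140000001c0000003c0000007e0000007f0000003e000000180000001000000010 7 7) 0 0 (step_sound _ 130 [(rh83d183dc22d02bb7.shift 1 0), (rhc02b3aee7ab87ee1.shift 0 3), (rhdbcea10a0fbe5ba6.shift 0 3)] (by decide +kernel))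
noncomputable def rhbc9f96c978c2ed1e : CRef := CRef.mk (Pat.mk 0x1800000070000000000000000000000000 0x2c0000003c000000fe000000ff0000003800000078000000700000002000000020 7 8) 0 0 (step_sound _ 164 [(rh046c5eb18e55a239.shift 4 0), rh6c267ad67af86271, (rh70e33bfdf511e144.shift 4 0), (rhf527cf5683b56bd8.shift 3 2)] (by decide +kernel))
noncomputable def rhbecc930aaefc1898 : CRef := CRef.mk (Pat.mk 0x40000001c000000080000000000000000 0x7f0000007e0000007c0000001f0000007c0000003000000010 7 7) 0 0 (step_sound _ 162 [rh013b246ad8761497, (rh2145e1d24b96a57e.shift 2 2)] (by decide +kernel))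
noncomputable def rh117049730fed26d6 : CRef := CRef.mk (Pat.mk 0x40000001e0000000000000000 0x28000000380000003c000000370000001e0000003800000008 7 6) 0 0 (step_sound _ 97 [(rh3244c3cc8379b070.shift 0 2), (rhc6ee58f06e2c3c72.shift 1 0)] (by decide +kernel))
noncomputable def rhb6b5dce703948200 : CRef := CRef.mk (Pat.mk 0x20000000f000000000 0x1bf000000fe0000000e 7 9) 0 0 (step_sound _ 71 [rh32a3539172fc0837, (rh33e738c4ed385b9f.shift 4 1)] (by decide +kernel))
noncomputable def rh84d70f6b23496c8e : CRef := CRef.mk (Pat.mk 0xc0000001c000000000000000000000000 0x8000000180000007c0000000f0000001c0000001c0000001800000018 7 7) 0 0 (step_sound _ 129 [(rh420ce96d7771fd92.shift 1 0), (rhb739f4f82bb681b4.shift 0 3)] (by decide +kernel))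
noncomputable def rh8a2ada455b20909e : CRef := CRef.mk (Pat.mk 0x300000007000000000000000000000000 0x20000000e0000001e00000007000000070000001f0000000e00000006 7 5) 0 0 (step_sound _ 161 [(rh503dd4575245365b.shift 0 2), rhc8c83a2a21d56b39, (rhde10baa3043a2b46.shift 0 2)] (by decide +kernel))
noncomputable def rh65fdd5d301123354 : CRef := CRef.mk (Pat.mk 0x60000001600000000 0x200000002000000030000003f0000001f00000034 7 6) 0 0 (step_sound _ 35 [(rh3244c3cc8379b070.shift 0 1), rhe8da54921fc442c2] (by decide +kernel))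
noncomputable def rh95749abb2ba157db : CRef := CRef.mk (Pat.mk 0x600000016000000000000000000000000 0x2000000020000000b0000003f0000001e000000340000001000000010 7 6) 0 0 (step_sound _ 99 [(rh3244c3cc8379b070.shift 0 3), rha5a9c4ecd1dd66cc] (by decide +kernel))
noncomputable def rhbeef3e757a98e5b2 : CRef := CRef.mk (Pat.mk 0x400000016000000020000000000000000 0x80000003c0000001f000000330000001200000012 7 6) 0 0 (step_sound _ 1 [rh3b0a6875af7e446e, (rh9e3edb185cc347de.shift 1 0)] (by decide +kernel))
noncomputable def rhea96d934e3c63fe3 : CRef := CRef.mk (Pat.mk 0x100000005800000008000000000000000000000000 0x80000007c0000007c0000001f0000007c0000001c000000040000000400000004 7 7) 0 0 (step_sound _ 196 [rh01f3958885c39692, (rh5c5e593799055d58.shift 3 3)] (by decide +kernel))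
noncomputable def rhc46754ffe80b815d : CRef := CRef.mk (Pat.mk 0x400000016000000020000000000000000000000000 0x280000007c000001ff0000007c0000003e0000003800000018 7 9) 0 0 (step_sound _ 100 [(rh361cc68994bd8a63.shift 4 3), rhdf825d7108bfd8d4] (by decide +kernel))
noncomputable def rh0d3132b86a4e5931 : CRef := CRef.mk (Pat.mk 0x8000000080000000c000000000000000000000000 0x400000004000000370000001f0000007f0000000e0000000e0000000600000004 7 7) 0 0 (step_sound _ 66 [(rh42548283029e2a39.shift 2 0), (rh507dcce9a4a6639c.shift 0 1), (rhf9af042da61fc652.shift 2 0)] (by decide +kernel))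
noncomputable def rh2a3a518e610e8959 : CRef := CRef.mk (Pat.mk 0x20000000200000002000000020 0x3de000001fe000001f70000002000000020 7 10) 0 0 (step_sound _ 100 [rh33ed43a09d457e0e, (rh50fbb5868c909700.shift 4 0)] (by decide +kernel))
noncomputable def rh139d35cb438f71ba : CRef := CRef.mk (Pat.mk 0x1c000000140000000000000000 0x38000000780000003f0000007f0000001c0000007800000038 7 7) 0 0 (step_sound _ 131 [(rh5d54cb79a67f97ab.shift 3 0), rh95b4f6618bd78dfa, (rha40d42a2e34c408d.shift 3 0), rhe511d529d3f92f44] (by decide +kernel))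
noncomputable def rh25fdc84232a736a7 : CRef := CRef.mk (Pat.mk 0x3800000020000000000000000000000000 0x1000000030000000770000003e00000037000000700000007000000050 7 7) 0 0 (step_sound _ 130 [(rh00f1bb10334541e3.shift 0 4), (rh0ff57346a75391ee.shift 1 0), (rh2c1baeadcd4b32f5.shift 0 3), (rhd1d05263fabc0227.shift 0 3)] (by decide +kernel))
noncomputable def rh3bf29d2c93feba29 : CRef := CRef.mk (Pat.mk 0x180000003800000000 0x400000004000000060000007e0000003f0000000f 7 7) 0 0 (step_sound _ 34 [rh0e1512cbacfbd48b, (rh2c56f29984e7b775.shift 1 0), (rhab2ad169e49f9c5e.shift 0 1)] (by decide +kernel))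
noncomputable def rhdaf886912737e7d8 : CRef := CRef.mk (Pat.mk 0xc00000014000000000000000000000000 0x18000000180000007f0000007f0000001e0000007c0000001800000018 7 7) 0 0 (step_sound _ 99 [(rh1e8aceccf05fd0a3.shift 0 1), (rh72d8e3fe84bad08b.shift 1 0), rha1ec1e04b20633f4, (rhaaceec274018b92f.shift 0 2)] (by decide +kernel))
noncomputable def rhcf7882da598491fa : CRef := CRef.mk (Pat.mk 0x7000000050000000000000000 0x20000000e0000001f00000007000000070000001f0000000e 7 5) 0 0 (step_sound _ 129 [rh4464f26b0ce85aec, (rh4ff66b6410e31828.shift 0 1), (rha40d42a2e34c408d.shift 1 0)] (by decide +kernel))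
noncomputable def rh16bf4dbd8b672bab : CRef := CRef.mk (Pat.mk 0x2000000030000000500000000000000000 0xc0000000c8000000cc000001fc000001fe000000770000007000000060 7 9) 0 0 (step_sound _ 99 [(rh13f84535f1b80ed7.shift 2 0), (rh6765e7960b108c8d.shift 2 2), (rha0198dc55831a65f.shift 2 3), (rha1e5862de6645f69.shift 0 2)] (by decide +kernel))
noncomputable def rh36befdb1d2c23ed2 : CRef := CRef.mk (Pat.mk 0x1000000010000000100000005000000000 0x10000000100000003e0000007e0000002f 7 7) 0 0 (step_sound _ 35 [rh0b14f0065fde44fc, (rh932754581e0f4330.shift 3 0)] (by decide +kernel))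
noncomputable def rhafdabb4306d8dda9 : CRef := CRef.mk (Pat.mk 0x2000000020000000200000002000000000 0x5e000001fe0000003f000000300000003000000010 7 9) 0 0 (step_sound _ 132 [(rh50fbb5868c909700.shift 4 1), rh63f00550fb6e6ae1] (by decide +kernel))
noncomputable def rh399b0d48fb03fea8 : CRef := CRef.mk (Pat.mk 0x1000000010000000500000001000000000 0x2f0000007e0000003e000000780000003000000020 7 7) 0 0 (step_sound _ 133 [rh0ff10877a3f901ed, (rh2f68792b6b779e96.shift 4 1)] (by decide +kernel))
noncomputable def rhd3f60ff18eecd4be : CRef := CRef.mk (Pat.mk 0x10000000100000005000000010 0x1ef000000fe000000f70000005000000050 7 9) 0 0 (step_sound _ 101 [(rh2f68792b6b779e96.shift 4 0), rhc7b0762b2ca2cfd7] (by decide +kernel))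
noncomputable def rh90a09a990676ce1f : CRef := CRef.mk (Pat.mk 0x1000000010000000100000001000000000 0x2f0000007e000000ff000000100000003000000020 7 8) 0 0 (step_sound _ 37 [(rh55afc6a59410cf00.shift 4 0), (rh7c535310c8d3106b.shift 0 1)] (by decide +kernel))
noncomputable def rh8dbab1f2415fd1a6 : CRef := CRef.mk (Pat.mk 0x280000002800000000 0x400000006000000060000007f0000003f0000006f 7 7) 0 0 (step_sound _ 34 [rh5bc5f4ab1822bc0a, (rh9f2591205204f08d.shift 2 1), rhcd6c9152960f9ccf, (rhe33d9496e10d8eb0.shift 0 1)] (by decide +kernel))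
noncomputable def rhe8d5572deeb41bf2 : CRef := CRef.mk (Pat.mk 0x280000002c00000000000000000000000000000000 0x1000000050000000f0000000780000002f0000007c000000700000007000000050 7 8) 0 0 (step_sound _ 164 [(rh18965a982d73c794.shift 2 4), rh9c502599e6c72ce9] (by decide +kernel))
noncomputable def rh9b207605d5d7c3c6 : CRef := CRef.mk (Pat.mk 0x200000002c00000000000000000000000000000000 0x20000000300000003e0000007f000000700000007000000020 7 7) 0 0 (step_sound _ 132 [(rh2591032a0e7f4182.shift 0 3), (rh8195a2d7794c7cd2.shift 0 3), (rh9483656c38360087.shift 1 1), (rha6d0ae3a8ac7d01e.shift 1 0)] (by decide +kernel))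
noncomputable def rh905ac8e07265c391 : CRef := CRef.mk (Pat.mk 0xa000000030000000000000000000000000 0x4000000f60000007e0000007f0000000800000008 7 8) 0 0 (step_sound _ 99 [rhaec9c4e465917c61, (rhcb00ab67b46fb179.shift 3 3), (rhddb24c61d0a0d35a.shift 2 3), (rhf4585caa3b13e38a.shift 2 3)] (by decide +kernel))
noncomputable def rha451615da1d24421 : CRef := CRef.mk (Pat.mk 0x28000000380000000000000000 0x60000000600000003f0000003e0000007700000010 7 7) 0 0 (step_sound _ 66 [(rh2591032a0e7f4182.shift 0 1), (rh8195a2d7794c7cd2.shift 0 1), (rha5f173e13982608c.shift 1 0), (rhc570c09f7c0268b1.shift 0 1)] (by decide +kernel))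
noncomputable def rh2434fd72cefd9847 : CRef := CRef.mk (Pat.mk 0x80000000e0000000000000000000000000000000000000000 0x140000001c0000001c000000080000000f0000007e0000007c0000001c0000001c00000004 7 7) 0 0 (step_sound _ 131 [(rh220507a384c3b0a3.shift 2 0), (rh3b1012b139e91e29.shift 1 1), (rh5a8abb721f11b584.shift 0 1), (rhc21a95c499b3efdb.shift 0 4)] (by decide +kernel))
noncomputable def rhfaa4db2eee242398 : CRef := CRef.mk (Pat.mk 0x200000002000000028000000000000000000000000 0x2000000020000000670000003e000000770000001000000010 7 7) 0 0 (step_sound _ 100 [(rh281c6819542c66e6.shift 4 0), (rhac2f963dd3ca550f.shift 0 2), (rhd8585d8a33a51a7d.shift 0 2)] (by decide +kernel))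
noncomputable def rh9c4d95fcf114adc7 : CRef := CRef.mk (Pat.mk 0x80000000800000008000000000000000000000000 0x180000001c0000001c0000001f0000007c0000001800000008000000180000001800000010 7 7) 0 0 (step_sound _ 194 [(rh114f4abf4ea101c9.shift 2 2), (rh394de32dd649c69c.shift 0 3), (rh3fdfff57602df0d6.shift 2 0), (rhbec796c3ea7a32e6.shift 1 2)] (by decide +kernel))
noncomputable def rh6ef302a8a40e0b1e : CRef := CRef.mk (Pat.mk 0x20000000200000002800000000 0x50000000700000007000000020000000670000003e00000017 7 7) 0 0 (step_sound _ 133 [(rh2f7ea2d2c6b43cfc.shift 4 0), (rhc85cc95794737cf7.shift 4 1), rhd5a9d40479a44184] (by decide +kernel))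
noncomputable def rhcee84aaad3643060 : CRef := CRef.mk (Pat.mk 0xe00000008000000000000000000000000 0x40000001c0000001c0000001c0000007c0000001f000000080000001c0000001c00000014 7 7) 0 0 (step_sound _ 163 [(rh020ae2df6dff5342.shift 2 0), (rha11dfd15f08f96e3.shift 0 4), (rhff7d63dcb3cf9f74.shift 0 4)] (by decide +kernel))
noncomputable def rha5e5e9eb67f5ba08 : CRef := CRef.mk (Pat.mk 0x80000000a00000008000000000000000000000000 0x100000003c0000001f000000080000001c0000001c00000014 7 6) 0 0 (step_sound _ 67 [(rh367118e0bf0473e0.shift 2 0), (rh8cdd36b03d57a2f6.shift 2 0), (rhc9de03f9731897d4.shift 3 0), (rhfa41604cdcda6bb6.shift 0 1)] (by decide +kernel))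
noncomputable def rh52635ea33a90ca33 : CRef := CRef.mk (Pat.mk 0x80000000a00000008000000000000000000000000 0x140000003c0000001f000000080000001c0000001c00000014 7 6) 0 0 (step_sound _ 67 [(rh367118e0bf0473e0.shift 2 0), (rh8cdd36b03d57a2f6.shift 2 0), (rhc7a337cb927c3d82.shift 0 1), (rhc9de03f9731897d4.shift 3 0)] (by decide +kernel))
noncomputable def rha0c04f64c10774cf : CRef := CRef.mk (Pat.mk 0x20000000280000002800000000 0x4000000070000000700000007f0000007e000001f70000007e0000003800000018 7 9) 0 0 (step_sound _ 133 [(rh2f7ea2d2c6b43cfc.shift 4 0), (rh7b79df070bb83d66.shift 4 1), (rha94490687c60c4d4.shift 1 0), rhb929f30e6b460713] (by decide +kernel))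
noncomputable def rh5a950d9262eabb10 : CRef := CRef.mk (Pat.mk 0x800000008000000080000000800000000 0xf40000007f000000ff000000080000001800000010 7 8) 0 0 (step_sound _ 4 [(rh3f0b5051c9324cf3.shift 0 1), (rhd3458b32566d63f7.shift 3 0)] (by decide +kernel))
noncomputable def rha7b5d918d368f955 : CRef := CRef.mk (Pat.mk 0x800000008000000080000000800000000 0x1f0000001f0000003c0000000c0000000c00000004 7 6) 0 0 (step_sound _ 34 [(rh932754581e0f4330.shift 2 0), (rhc71c7a7052722af0.shift 0 1)] (by decide +kernel))
noncomputable def rhd253fa4f3bbddd6a : CRef := CRef.mk (Pat.mk 0x100000001000000010000000500000000000000000 0x200000003000000030000001df000001fe000003ff000000580000005800000008 7 10) 0 0 (step_sound _ 133 [(rh00c94d49004aa742.shift 1 1), (rh7efff25179d37ffa.shift 1 1), (rh9282155052eec39d.shift 1 1), rhbd489dfc87c602b0, (rhdd474ad759fb06b7.shift 3 1)] (by decide +kernel))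
noncomputable def rheb119bc10e1730b0 : CRef := CRef.mk (Pat.mk 0x8000000080000000800000000 0x14000000fc000000ff000001ff0000000c0000000c00000004 7 9) 0 0 (step_sound _ 131 [(rh20966da26a1c2ae8.shift 2 0), (rh565a0c22519f57e9.shift 2 0), (rhc85cc95794737cf7.shift 2 1), rhed7b36f4d68b0eda] (by decide +kernel))
noncomputable def rhe55e145b9960d59f : CRef := CRef.mk (Pat.mk 0x800000008000000280000000000000000 0x4000000fc0000007f000000ff000000380000001e00000014 7 8) 0 0 (step_sound _ 35 [(rh3f0b5051c9324cf3.shift 0 1), (rhf26df24cc030f233.shift 2 0), (rhf42e780814dbdbac.shift 1 0)] (by decide +kernel))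
noncomputable def rhc74d5f1299f84efb : CRef := CRef.mk (Pat.mk 0x1000000010000000500000000000000000 0x2000000060000003f7000001fe000003fe000000700000007000000060 7 10) 0 0 (step_sound _ 133 [(rh0bf67d621c182438.shift 2 0), rh7b54700d86a5b9d5, (rhcb796acd273ff66d.shift 1 1), (rhe3458ab40071103b.shift 4 1)] (by decide +kernel))
noncomputable def rh114fd1206a1f3a67 : CRef := CRef.mk (Pat.mk 0x200000002000000020000000000000000 0x70000000700000007000000030000000300000007000000060000000600000004 7 3) 0 0 (step_sound _ 161 [(rh20e56a1196e70fcc.shift 0 1), rh46baee19951a66e7, (rhba1cb457822b7e34.shift 0 1), (rhfb657409fbb16679.shift 0 1)] (by decide +kernel))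
noncomputable def rh41d6fb04e8cf6974 : CRef := CRef.mk (Pat.mk 0x4000000040000001400000000 0xa0000001e0000003f0000003f0000000c0000001c00000018 7 6) 0 0 (step_sound _ 130 [rh2d8b6f6f3e887381, (rh3d0ad82b26bacea7.shift 1 0), (rh8065c10b3cae6218.shift 1 0), (rhc85cc95794737cf7.shift 1 1), (rhced6d86d2069808b.shift 2 0)] (by decide +kernel))
noncomputable def rh77d438fb72d5b5c0 : CRef := CRef.mk (Pat.mk 0x800000028000000000000000000000000 0x140000001c0000003e0000007e0000007f0000003f0000007f0000003400000034 7 7) 0 0 (step_sound _ 100 [(rh926b4bec0aec8810.shift 0 2), rh96c9605bfd1cf4ad, rhb0cd22231846ef9d, rhb7de6afa18ba6179, rhd708c00b074787bf, rhe3ee66286ad46dfe, rhff20f507afa0fde7] (by decide +kernel))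
noncomputable def rhc86694162d40300f : CRef := CRef.mk (Pat.mk 0x40000000700000000000000000000000000000000 0xf0000001f0000001f000000070000001f0000000f0000000600000004 7 5) 0 0 (step_sound _ 97 [rh86f95f28e5a6006e, (rha030e29f7369f9cd.shift 0 1), (rhcf80391c5046a495.shift 1 1), (rhf91b1398c815afd2.shift 1 1), (rhf9366b6a121593ef.shift 1 1)] (by decide +kernel))
noncomputable def rhc31eb97999c10057 : CRef := CRef.mk (Pat.mk 0x400000007000000000000000000000000 0xa0000000e0000000e0000000c0000000e0000000e000000070000001e0000000e0000000e 7 5) 0 0 (step_sound _ 162 [rh9fdb16403d67a3eb, (rhde837af223c7be82.shift 1 0), (rhfafeb437ceb8396d.shift 1 0)] (by decide +kernel))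
noncomputable def rh219249ddfdd934fa : CRef := CRef.mk (Pat.mk 0x200000002c000000000000000000000000 0x140000001c0000007e0000007e0000007f0000002f0000002e0000002e00000004 7 7) 0 0 (step_sound _ 131 [rh07d54b51c8be62f5, rh50cfa046d45f7da0, (rh5b29e355500c4c1a.shift 1 1), (rhe33d9496e10d8eb0.shift 0 3)] (by decide +kernel))
noncomputable def rh6ccba0e3e5464c57 : CRef := CRef.mk (Pat.mk 0x400000007000000000000000000000000 0xa0000000e0000000f0000003c0000000e000000070000001e0000000e0000000a 7 6) 0 0 (step_sound _ 162 [rh9fdb16403d67a3eb, (rhf62af5effc1fedb5.shift 0 2), (rhfafeb437ceb8396d.shift 1 0)] (by decide +kernel))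
noncomputable def rhb152ffd047356e34 : CRef := CRef.mk (Pat.mk 0x80000000e0000000000000000000000000000000000000000 0x140000001c0000001c000000080000000f0000007e0000007c0000001c0000001c00000004 7 7) 0 0 (step_sound _ 131 [(rh5a8abb721f11b584.shift 0 1), (rh5cf76fd83962687f.shift 1 1), (rhc21a95c499b3efdb.shift 0 4), (rhd97359839441151c.shift 2 0)] (by decide +kernel))
noncomputable def rhdfb23df28ae88b32 : CRef := CRef.mk (Pat.mk 0x80000000e000000000000000000000000 0x140000001c0000007c0000001f000000780000000e0000003c0000001c00000014 7 7) 0 0 (step_sound _ 163 [(rh281c6819542c66e6.shift 2 0), (rh32431e66bbf434a4.shift 2 2), (rh9fdb16403d67a3eb.shift 1 0), (rha941fbe02a9fc7be.shift 0 1)] (by decide +kernel))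
noncomputable def rha3bb4b3bbdfa112b : CRef := CRef.mk (Pat.mk 0x200000002c00000000000000000000000000000000 0x40000001c0000001c0000001f0000007c0000002f0000007c0000003c0000001400000010 7 7) 0 0 (step_sound _ 163 [(rh6c84404f6a75cadc.shift 0 1), (rhcf42512e4da1acf5.shift 1 1), rhe190eaad3a83b05f, (rhe33d9496e10d8eb0.shift 0 4)] (by decide +kernel))
noncomputable def rh23307ea43d08cc2e : CRef := CRef.mk (Pat.mk 0x80000000a0000000800000000 0x140000001c0000001c00000008000000ef0000007c000000f4 7 8) 0 0 (step_sound _ 131 [(rh5b4f4950445d4548.shift 1 0), rhc37884b8bcc4b237, (rhc85cc95794737cf7.shift 2 1)] (by decide +kernel))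
noncomputable def rh595666a6b9f48d46 : CRef := CRef.mk (Pat.mk 0x2800000028000000000000000000000000 0x140000001c0000001c000001fc000001f80000003c0000001f0000001c00000010 7 9) 0 0 (step_sound _ 134 [(rh8d0e56b8a78c5a56.shift 2 3), rhb779351c7336dd4f, (rhda02c4ce0b224328.shift 2 3), (rheadb80f336240adb.shift 2 1)] (by decide +kernel))
noncomputable def rh515aa29dcbaf9b2b : CRef := CRef.mk (Pat.mk 0x500000005000000000000000000000000000000000 0x3800000078000000fe0000007f0000007f0000003e0000003c0000000c00000004 7 8) 0 0 (step_sound _ 163 [(rh0855e2a52f99b5f6.shift 1 2), (rh35aca7da6142fc51.shift 1 1), (rh4ed5cd493b308b21.shift 1 2), rh7e6cef3f97063332, (rhbd8b8b0dfd357853.shift 1 2), (rhf83a33c32555a52c.shift 2 1)] (by decide +kernel))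
noncomputable def rhad94b926a06f9973 : CRef := CRef.mk (Pat.mk 0x5000000050000000000000000000000000 0x28000000b8000001f8000007ff000003fe00000770000000380000003800000028 7 11) 0 0 (step_sound _ 133 [(rh1c12bdae631f7254.shift 1 1), (rh1d9639bab940bccd.shift 0 1), (rh3aab2036ca4e8d0a.shift 2 1), (rh731ef7ec3e8fedf3.shift 1 1), (rh7d7c2155600e215e.shift 3 1), (rh846fe2a2e37de5d5.shift 1 1), (rha4b6e399098d1aa7.shift 1 0), (rhb26705bd62baab27.shift 2 1)] (by decide +kernel))
noncomputable def rhd278324a56904941 : CRef := CRef.mk (Pat.mk 0x1400000014000000000000000000000000 0xa0000000e0000000e0000003e000000370000001e0000000e0000000e0000000a 7 6) 0 0 (step_sound _ 162 [(rh0be62550ae19a47b.shift 1 2), (rh30c668368a99e23b.shift 1 1), (rh437d454e808ff910.shift 1 1), (rh7863e25d1d742d32.shift 1 1), rh85bb52c012d18ab3, (rha704ca9015953a8f.shift 1 1)] (by decide +kernel))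
noncomputable def rha6e5f6d4fdf2e456 : CRef := CRef.mk (Pat.mk 0x4000000050000000400000000 0xa0000000e0000000e00000004000000770000003e0000007a 7 7) 0 0 (step_sound _ 130 [(rh55a026e6f690bbaf.shift 1 0), rh5b4f4950445d4548, (rhaba26d7b21102469.shift 1 0), (rhc85cc95794737cf7.shift 1 1)] (by decide +kernel))
noncomputable def rh3ea7ce8a77ecdc0c : CRef := CRef.mk (Pat.mk 0x50000000500000000000000000 0x8000000088000003ff000001fe0000005f0000005000000050 7 10) 0 0 (step_sound _ 101 [(rh2820ca9a6c4f41b4.shift 1 2), rh3ebe2ab75f218f56, (rhb55ee1177cf584c3.shift 1 0), (rhd8b43b15431aaa50.shift 3 0)] (by decide +kernel))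
noncomputable def rhb6794adc229aeef3 : CRef := CRef.mk (Pat.mk 0x280000002800000000000000000000000000000000 0x140000005c0000007c000001fc000000f80000002f0000007c0000007e0000007400000050 7 9) 0 0 (step_sound _ 166 [rh431eaa5d1a106c80, (rh562c905737e2bff1.shift 2 2), (rh8d0e56b8a78c5a56.shift 2 4), (rhd5899e89efce0709.shift 2 2), (rhe5944c0a1e5f3c0d.shift 2 2)] (by decide +kernel))
noncomputable def rh1c5d55ba465cb816 : CRef := CRef.mk (Pat.mk 0x280000002800000000000000000000000000000000 0x100000005c0000005c0000006f0000007c0000002f000000fe000001fc0000007400000050 7 9) 0 0 (step_sound _ 99 [(rh02214ea87912d480.shift 0 2), (rh0615ec6c81443c63.shift 1 0), (rh184a6cdc2d675a40.shift 0 1), (rh221583e63696c24d.shift 0 1), rh232833d85db1cfc3, (rh8858cbf1ab06cf1d.shift 0 2), rhb2df533bc52c20ad, (rhd8745d3afce428ba.shift 2 1)] (by decide +kernel))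
noncomputable def rhe36388972d62bb5e : CRef := CRef.mk (Pat.mk 0x1400000014000000000000000000000000 0xa0000002e0000003f0000007e0000001e000000170000003e0000007e0000002a 7 7) 0 0 (step_sound _ 162 [(rh04f4875e911c5ad0.shift 0 2), (rh7863e25d1d742d32.shift 1 1), (rh91e89503dcfa7603.shift 1 0), (rhc60bbf045c33e4fa.shift 1 0), (rhd33666284aa5c7c2.shift 1 0), rhd553879b1f356abb] (by decide +kernel))
noncomputable def rh502b92e9422b648f : CRef := CRef.mk (Pat.mk 0x2800000028000000000000000000000000 0x140000005c000000fe000000fc000001ef0000002c0000007c000000fc00000054 7 9) 0 0 (step_sound _ 163 [(rh04f4875e911c5ad0.shift 1 2), (rh7863e25d1d742d32.shift 2 1), (rh85bb52c012d18ab3.shift 1 0), (rh91172a0bf1740ec0.shift 1 0), rh9c61cb8bd7e1204f, (rhc1a03c4521ecfdbb.shift 2 0), (rhd33666284aa5c7c2.shift 2 0)] (by decide +kernel))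
noncomputable def rh721adbec6acdd775 : CRef := CRef.mk (Pat.mk 0x2000000038000000000000000000000000 0x20000000e0000000e0000002e0000003e0000003e0000007f0000001c0000001c 7 7) 0 0 (step_sound _ 98 [(rh2591032a0e7f4182.shift 0 2), (rh805b7d85b33a7d22.shift 1 0), (rh9483656c38360087.shift 1 0)] (by decide +kernel))
noncomputable def rh54fc84ae5f73a41a : CRef := CRef.mk (Pat.mk 0x1000000016000000000000000000000000 0x1000000070000000700000007000000370000001e000000070000000600000006 7 6) 0 0 (step_sound _ 99 [(rh33e738c4ed385b9f.shift 1 3), rh805b7d85b33a7d22] (by decide +kernel))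
noncomputable def rh8deaac27d74053b9 : CRef := CRef.mk (Pat.mk 0x200000002c000000000000000000000000 0x20000000e0000000e0000000e0000003f0000003e0000006f0000000c0000000c 7 7) 0 0 (step_sound _ 100 [(rh2591032a0e7f4182.shift 0 2), (rh805b7d85b33a7d22.shift 1 0), (rhc570c09f7c0268b1.shift 0 2)] (by decide +kernel))
noncomputable def rha38e5e14b7f9f7f2 : CRef := CRef.mk (Pat.mk 0x200000002c000000000000000000000000 0x140000001c0000007e0000007e0000007f0000002f0000002e0000002e0000000c 7 7) 0 0 (step_sound _ 131 [rh07d54b51c8be62f5, (rh5b29e355500c4c1a.shift 1 1), rhc49910c6ff6fe591, (rhe33d9496e10d8eb0.shift 0 3)] (by decide +kernel))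
noncomputable def rh2690220909837174 : CRef := CRef.mk (Pat.mk 0x200000002c000000000000000000000000 0x20000000e0000000e0000000e0000003e0000003e0000007f0000000c0000000c 7 7) 0 0 (step_sound _ 100 [(rh2591032a0e7f4182.shift 0 2), (rh2ebbcfe90e0f250d.shift 1 2), (rh805b7d85b33a7d22.shift 1 0)] (by decide +kernel))
noncomputable def rh61ad663dd41c9f48 : CRef := CRef.mk (Pat.mk 0x200000000c00000000000000000000000000000000 0x100000001c0000001c0000001f0000007c0000000f0000007c0000001c0000001c00000014 7 7) 0 0 (step_sound _ 163 [(rh6c84404f6a75cadc.shift 0 1), (rha66f6ea46c8c2493.shift 1 0), rhc38d58193208e5c2, (rhe33d9496e10d8eb0.shift 0 4)] (by decide +kernel))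
noncomputable def rhb74db94223ba86a9 : CRef := CRef.mk (Pat.mk 0x2000000038000000000000000000000000 0x20000000e0000000e0000002e0000002f0000003e0000007f0000001c0000001c 7 7) 0 0 (step_sound _ 98 [(rh008b05f4778dc30d.shift 0 2), (rh775ca1963e850b80.shift 0 2), (rh805b7d85b33a7d22.shift 1 0), (rh9483656c38360087.shift 1 0)] (by decide +kernel))
noncomputable def rhb79b1f4d0214640a : CRef := CRef.mk (Pat.mk 0x80000000a00000008000000000000000000000000 0x40000000c0000000f0000007f0000003f0000001c00000014 7 7) 0 0 (step_sound _ 67 [(rh46baee19951a66e7.shift 2 0), (rh6aa5625770489e83.shift 2 0), (rh8cdd36b03d57a2f6.shift 2 0), (rhdcd70a0e6e2165a4.shift 0 1)] (by decide +kernel))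
noncomputable def rh09aaff8cb69f8f68 : CRef := CRef.mk (Pat.mk 0x280000002800000000000000000000000000000000 0x140000001c0000001c000001df000000f80000003f0000001e0000001c0000001c00000014 7 9) 0 0 (step_sound _ 164 [rh236f29ce8a6f891b, (rh272396c8ee8fefa8.shift 2 2), (rh7d7c2155600e215e.shift 2 2), (rhf0f55c4504412200.shift 0 4)] (by decide +kernel))
noncomputable def rh534a212ff1bdb729 : CRef := CRef.mk (Pat.mk 0x500000005000000000000000000000000000000000 0x3800000078000000fe0000007f0000007f0000003e0000003c0000003c00000004 7 8) 0 0 (step_sound _ 163 [(rh249efe4758bb059f.shift 1 2), (rh3b9897bf704265bb.shift 1 1), (rh4ed5cd493b308b21.shift 1 2), rhb4c4946b6e5fa766, (rhb69a7bebdb940bff.shift 2 1), (rhbd8b8b0dfd357853.shift 1 2), (rhf83a33c32555a52c.shift 2 1)] (by decide +kernel))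
noncomputable def rhd0263be0ad4da3f8 : CRef := CRef.mk (Pat.mk 0x2800000028000000000000000000000000 0x100000001c0000001c0000003c000003ff000001fe000003b80000001f0000001c0000001c 7 10) 0 0 (step_sound _ 132 [(rh1c12bdae631f7254.shift 0 1), (rh3aab2036ca4e8d0a.shift 1 1), (rh731ef7ec3e8fedf3.shift 0 1), (rh7d7c2155600e215e.shift 2 1), (rh846fe2a2e37de5d5.shift 0 1), rh9985cb2751e2c788, rh9c5992181d577b14] (by decide +kernel))
noncomputable def rhc60d7b86a50b8ade : CRef := CRef.mk (Pat.mk 0x280000002800000000000000000000000000000000 0x100000005c0000005c0000006f0000007c0000002f000000fe000000fe0000005c00000014 7 8) 0 0 (step_sound _ 99 [(rh0615ec6c81443c63.shift 1 0), (rh0f5c947082bcb631.shift 2 0), (rh30afbeb9a1894893.shift 1 0), (rh4692eec48c60ad82.shift 2 0), (rh8858cbf1ab06cf1d.shift 0 2), (rhd8745d3afce428ba.shift 2 1), (rhd9d0db8305e2bac9.shift 0 1), rhdf4b4308acdbe106, (rhfe829c42ed752e6d.shift 2 0)] (by decide +kernel))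
noncomputable def rhea03e540a8b76246 : CRef := CRef.mk (Pat.mk 0x280000002800000000000000000000000000000000 0x540000007c0000007c0000003c0000002e000000fc000000ff0000005c00000014 7 8) 0 0 (step_sound _ 99 [(rh1b7e89f239630456.shift 2 0), (rh2e83dc040c94abfe.shift 2 2), (rh524a571044b20901.shift 1 1), rhabb47452ac668c30, (rhd8745d3afce428ba.shift 2 1), (rhfc60e486baaa63e2.shift 2 1)] (by decide +kernel))
noncomputable def rhaf5a4c8533e8c04b : CRef := CRef.mk (Pat.mk 0x2c0000002000000000000000000000000000000000 0x40000002c0000002c0000002f000001fe0000007e0000003e0000001e00000014 7 9) 0 0 (step_sound _ 131 [(rh25b2fe755c845381.shift 1 0), (rh8c25cb665ab79ec0.shift 0 4), (rha45bcd1a02ddba08.shift 1 1), (rhe09cfcd5f84c47cb.shift 1 1)] (by decide +kernel))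
noncomputable def rh4af004043b0922d4 : CRef := CRef.mk (Pat.mk 0x2c0000002000000000000000000000000000000000 0x140000001c0000001c0000007c0000002f0000007c0000001f0000001c0000001c00000014 7 7) 0 0 (step_sound _ 131 [rh6553d5894ddef919, (rh8c25cb665ab79ec0.shift 0 4), (rh92d48458fba5cf69.shift 0 1), (rhbb2258de3c9392a8.shift 0 1)] (by decide +kernel))
noncomputable def rh8e05fd70436752b1 : CRef := CRef.mk (Pat.mk 0x80000000a0000000800000000000000000000000000000000 0x18000000180000007c0000000f0000000c0000001c0000001c0000001c00000004 7 7) 0 0 (step_sound _ 99 [(rh151909bcb9d9a03a.shift 2 1), (rh8cdd36b03d57a2f6.shift 2 1), (rh8e3b1d976c2c4cbf.shift 2 0), (rhb61eb019e882de17.shift 0 2), (rhf517b930ee0bd92d.shift 2 1)] (by decide +kernel))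
noncomputable def rh5047215b89873a86 : CRef := CRef.mk (Pat.mk 0x2800000028000000000000000000000000 0x6000000160000003f000000fe000001ff0000002800000028 7 9) 0 0 (step_sound _ 100 [(rh1aae126fdb0efa1d.shift 2 2), (rh3645b78449801401.shift 0 1), (rh8e35b8e686c528a7.shift 1 0), (rha9fbfd4bb8cf890b.shift 0 3)] (by decide +kernel))
noncomputable def rhabb8c0ec33d54310 : CRef := CRef.mk (Pat.mk 0x280000002800000000000000000000000000000000 0x140000001c0000001c0000003c000000f8000001ff000000fc0000007c00000020 7 9) 0 0 (step_sound _ 132 [(rh1561ff1fafeb7917.shift 2 3), (rh1aae126fdb0efa1d.shift 2 3), (rh25c736228e860c56.shift 0 1), (rh7345cfdbcc90680f.shift 1 0)] (by decide +kernel))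
noncomputable def rh2fe66a1754c5e555 : CRef := CRef.mk (Pat.mk 0x5000000050000000000000000000000000 0x300000003c0000003e0000007f0000007f000000fe0000007c0000007c 7 8) 0 0 (step_sound _ 99 [(rh0b4c800e40daca93.shift 1 0), (rh2fa164ba5c06bb6d.shift 2 0), (rh3ed08c54da35234d.shift 1 0), rh751bd15d29e3f2b1, (rhb5c6f8d0db024075.shift 1 0), rhd5b4e0a5c05f6439] (by decide +kernel))
noncomputable def rh5a405817d21dad97 : CRef := CRef.mk (Pat.mk 0x280000002800000000000000000000000000000000 0x1c0000001c0000001f000003b8000003fe000003ff000000fc0000007c00000030 7 10) 0 0 (step_sound _ 132 [(rh13bc39fad46ed7d3.shift 0 3), (rh2a700eb8b013b18d.shift 0 1), (rh2dc91e9f596105eb.shift 0 1), (rh30c8f5e7b893ae7b.shift 0 1), (rh5a26ba26dbce059f.shift 1 0), (rh7345cfdbcc90680f.shift 1 0), (rh8e35b8e686c528a7.shift 1 1)] (by decide +kernel))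
noncomputable def rh1cddec9934f671d1 : CRef := CRef.mk (Pat.mk 0x140000001400000000000000000000000000000000 0x20000000e0000000e0000000e0000001e000000370000003e0000000e0000000e0000000a 7 6) 0 0 (step_sound _ 98 [(rh61caebbc970f3de9.shift 1 0), (rh7fd74e6b1fad4415.shift 1 0), (rh946a116aad97a44e.shift 1 0), (rhaa548d6ce3fd6ee8.shift 1 1), (rhde43cc12a0bcbdb9.shift 0 2), (rhec2448fa5b1a0c0d.shift 1 2)] (by decide +kernel))
noncomputable def rh21f03ab166a74c18 : CRef := CRef.mk (Pat.mk 0x2800000028000000000000000000000000 0x140000001c0000005c0000007f000000ff0000002f0000007c0000006f0000004c0000004c 7 8) 0 0 (step_sound _ 163 [(rh1359922a99d3d421.shift 2 1), (rh144c921ae3171e1e.shift 1 2), (rh195e2e6861faf39a.shift 2 1), (rh1aab93d8dd87c147.shift 0 2), rh384816bea6041b97, rh6d3fabaf7ec9c89d, (rh7863e25d1d742d32.shift 2 1), (rh8e5ef47271c6bcfa.shift 0 1), rha98a27a39ca716f5] (by decide +kernel))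
noncomputable def rh6c0fb648b7f13a69 : CRef := CRef.mk (Pat.mk 0x2800000028000000000000000000000000 0x50000000740000007c0000007c0000002f000000f8000001fc0000007c00000054 7 9) 0 0 (step_sound _ 102 [(rh47082137e9cd2755.shift 2 2), (rh53567e131628b92e.shift 2 0), (rh56e90c12f0808c38.shift 2 0), rhc30ab4aad507135a, (rheb35796aefd5d255.shift 2 0)] (by decide +kernel))
noncomputable def rh80a00c1935d60fb3 : CRef := CRef.mk (Pat.mk 0x280000002800000000000000000000000000000000 0x140000001c000000fc0000007c0000002f0000003e0000007f0000007c0000005400000050 7 8) 0 0 (step_sound _ 195 [(rh1359922a99d3d421.shift 2 2), (rh13d48bbdef85530c.shift 2 1), (rh1dbd5905aef3dade.shift 2 0), (rh59011846e58d73ff.shift 2 1), (rh6172276040199426.shift 2 1), rh9d84eae4e5650c9b, (rhe0ff746d1473a279.shift 0 1)] (by decide +kernel))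
noncomputable def rh9cf08f327176ed37 : CRef := CRef.mk (Pat.mk 0x280000002800000000000000000000000000000000 0x140000001c0000001c0000007c0000002f0000007c0000001f0000001c0000001c00000014 7 7) 0 0 (step_sound _ 162 [rh6553d5894ddef919, (rh8c25cb665ab79ec0.shift 0 4), (rh92d48458fba5cf69.shift 0 1), (rhbb2258de3c9392a8.shift 0 1)] (by decide +kernel))
noncomputable def rhd8af9c2aae61a196 : CRef := CRef.mk (Pat.mk 0x28000000280000000000000000000000000000000000000000 0x5000000070000000700000002f000000fc000001fc00000070000000700000007000000010 7 9) 0 0 (step_sound _ 164 [(rh1561ff1fafeb7917.shift 2 4), (rha9fbfd4bb8cf890b.shift 0 5), (rhd607d9bd434cc144.shift 2 0)] (by decide +kernel))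
noncomputable def rh655ce57273a32fc5 : CRef := CRef.mk (Pat.mk 0x280000002800000000000000000000000000000000 0x540000007c0000007c000000280000007c000001ff0000007e0000005400000054 7 9) 0 0 (step_sound _ 101 [(rh8836d5ad16324666.shift 2 2), rhb268686c305f2606, (rhc5c5b88722b9bb4a.shift 4 1), rhda9406a2804dc7f8, (rhf3137a9730661f0a.shift 2 0)] (by decide +kernel))
noncomputable def rhc57b9475255de555 : CRef := CRef.mk (Pat.mk 0x280000002800000000000000000000000000000000 0x40000005c000000fc0000007c0000002f0000006e000000fc0000007e0000005c00000014 7 8) 0 0 (step_sound _ 99 [(rh0b7d8b2b1fa732d1.shift 0 2), (rh5c402d8d4036bb32.shift 0 1), (rh61caebbc970f3de9.shift 2 0), (rh8c0774847d571514.shift 1 0), (rhc3ce3aa87e49a98d.shift 0 1), (rhcee0592ed52c1903.shift 1 1), (rhde43cc12a0bcbdb9.shift 1 2), (rhe616bd15ec9e20c1.shift 2 1)] (by decide +kernel))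
noncomputable def rh02b0f92089feaa6e : CRef := CRef.mk (Pat.mk 0x2c0000002000000000000000000000000000000000 0x140000001c0000001c0000007c0000002f0000007c0000001f0000001c0000001c00000014 7 7) 0 0 (step_sound _ 131 [rh652ff0de33879b17, (rh8c25cb665ab79ec0.shift 0 4), (rhbb2258de3c9392a8.shift 0 1), rhdd654bbc0781e67b] (by decide +kernel))
noncomputable def rh5f3adf8bb6406331 : CRef := CRef.mk (Pat.mk 0x1000000050000000000000000000000000 0x10000000100000001f000001fe000003ff0000000800000008 7 10) 0 0 (step_sound _ 101 [(rh1561ff1fafeb7917.shift 3 2), rh18a5c021bed33217, (rh26e1017678d9da1f.shift 1 0), (rha9fbfd4bb8cf890b.shift 1 3)] (by decide +kernel))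
noncomputable def rhf1c97745c297a115 : CRef := CRef.mk (Pat.mk 0x280000002800000000000000000000000000000000 0x140000005c0000007e000000ff0000002f0000007c0000006f0000005c0000005c00000010 7 8) 0 0 (step_sound _ 195 [(rh1359922a99d3d421.shift 2 2), rh13e68fa2a1fbc53c, (rh144c921ae3171e1e.shift 1 3), (rh195e2e6861faf39a.shift 2 2), (rh22e3873261c6c95d.shift 2 3), (rh384816bea6041b97.shift 0 1), (rh65d01379fd6ff22b.shift 0 1), (rh6d3fabaf7ec9c89d.shift 0 1), (rh7863e25d1d742d32.shift 2 2), (rhd1e8817f0e675fee.shift 0 2)] (by decide +kernel))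
noncomputable def rhe04854daa468923d : CRef := CRef.mk (Pat.mk 0x280000002000000000000000000000000000000000 0x5000000070000000f00000003e000001f70000007c000000700000007000000050 7 9) 0 0 (step_sound _ 164 [(rh10b07ed0c820d236.shift 0 1), (rh3560e6006ecf6db1.shift 2 0), (rhb018a7c71ce35183.shift 3 1), (rhc21a95c499b3efdb.shift 2 4)] (by decide +kernel))
noncomputable def rh841f05db1dfdbcf1 : CRef := CRef.mk (Pat.mk 0x38000000000000000000000000 0x80000000a0000000e0000000e0000007f0000003e0000000f0000000c0000000c 7 7) 0 0 (step_sound _ 98 [(rh61325f73ebf98108.shift 0 3), (rh7654d7b92c96fe12.shift 0 2), (rh775ca1963e850b80.shift 0 2), (rhfb688c953e1c18b6.shift 1 0)] (by decide +kernel))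
noncomputable def rh20f35b6ea6a4298f : CRef := CRef.mk (Pat.mk 0x2c0000002000000000000000000000000000000000 0x10000000140000003c0000007c0000002f0000007c0000001f0000001c0000001c00000014 7 7) 0 0 (step_sound _ 131 [rh855594c679097f4e, (rh8ab4a59284d61caf.shift 0 1), (rh8c25cb665ab79ec0.shift 0 4), rhdd654bbc0781e67b] (by decide +kernel))
noncomputable def rhe6e209b1afe321a5 : CRef := CRef.mk (Pat.mk 0x5000000050000000000000000000000000 0x300000003c0000003e0000007f0000007f000000ff0000007c0000007c 7 8) 0 0 (step_sound _ 99 [(rh2759b77842137355.shift 1 0), (rh2fa164ba5c06bb6d.shift 2 0), rh751bd15d29e3f2b1, rh93362321e4d6ade0, (rh933d752ab09d6fc8.shift 1 0), rhca2175c3774d17e1, rhd5b4e0a5c05f6439, (rhe4a6d2255d83faf5.shift 1 0)] (by decide +kernel))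
noncomputable def rh9da9da8b5b193c96 : CRef := CRef.mk (Pat.mk 0x280000002800000000000000000000000000000000 0x1c0000001c0000001f000003b8000001fe000003ff000000fc0000007c0000001c 7 10) 0 0 (step_sound _ 132 [(rh07da1bd474d6d9e1.shift 1 0), (rh0e3012db365425d2.shift 0 1), (rh3e26abbf947d0cd9.shift 2 0), (rh5b6d2bf6893374d1.shift 1 1), (rha13423141a6dee87.shift 0 1), (rhb2e5cbe21dba9d63.shift 0 1), (rhed963764511338bc.shift 0 1), (rhfd37b7c5b2492a0d.shift 0 1)] (by decide +kernel))
noncomputable def rhf2eb882c4ca487a2 : CRef := CRef.mk (Pat.mk 0x140000001400000000000000000000000000000000 0xa0000000e0000000e0000001e000000370000003e0000000e0000000e0000000a 7 6) 0 0 (step_sound _ 98 [(rh4692eec48c60ad82.shift 1 0), (rh4e9d0b2b6a8ba645.shift 1 0), (rh7fd74e6b1fad4415.shift 1 0), (rhd091826498b1b626.shift 1 1), (rhe19deee2c270a386.shift 1 1), (rhfdee0034602635ef.shift 0 2)] (by decide +kernel))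
noncomputable def rh5ef3839e65013fb8 : CRef := CRef.mk (Pat.mk 0x280000002800000000000000000000000000000000 0x50000000740000007e0000007c0000002f000000f8000001fc0000007c0000005c00000014 7 9) 0 0 (step_sound _ 134 [(rh47082137e9cd2755.shift 2 3), (rh53567e131628b92e.shift 2 1), (rh56e90c12f0808c38.shift 2 1), rh8221c369177f97f6, (rheb35796aefd5d255.shift 2 1)] (by decide +kernel))
noncomputable def rh9f509127a9181931 : CRef := CRef.mk (Pat.mk 0x280000002800000000000000000000000000000000 0x180000005c0000007e000000ff0000002f0000007c0000006f0000005c0000005c00000010 7 8) 0 0 (step_sound _ 195 [rh13e68fa2a1fbc53c, (rh1779a8e3645ca9ad.shift 1 3), (rh4ba11606322c5579.shift 1 3), (rh4cf1d5f47180b988.shift 2 1), (rh65d01379fd6ff22b.shift 0 1), (rh6d3fabaf7ec9c89d.shift 0 1), (rh823db0c52c233458.shift 0 3), (rhaa2f13365b914a2c.shift 0 1), (rhb5120a730dcb50d8.shift 0 2), (rhf076058d0fd9d530.shift 0 2)] (by decide +kernel))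
noncomputable def rh6d819ccd94d3ef04 : CRef := CRef.mk (Pat.mk 0x280000002800000000000000000000000000000000 0x14000000fc0000007c0000002f0000003c000000fc0000007e0000005c00000014 7 8) 0 0 (step_sound _ 99 [(rh0eb09afa9815783c.shift 2 1), (rh1adeae74fc622fb1.shift 0 2), (rh30afbeb9a1894893.shift 1 0), (rh4692eec48c60ad82.shift 2 0), (rh60f6231d213c6ef9.shift 2 1), (rh73a53390ced106f7.shift 2 1), (rh9865b7dd8cc00fe1.shift 2 0), (rha6d7fb6a4527ba30.shift 2 1), (rhe19deee2c270a386.shift 2 1)] (by decide +kernel))
noncomputable def rha2bd44d9859f0096 : CRef := CRef.mk (Pat.mk 0x3800000008000000000000000000000000 0x20000000780000003e0000007f000000160000001400000004 7 7) 0 0 (step_sound _ 130 [(rh008b05f4778dc30d.shift 0 3), (rh3e1b7b343686dca1.shift 1 3), (rh6a10337a4289d867.shift 1 0), (rh7654d7b92c96fe12.shift 0 3)] (by decide +kernel))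
noncomputable def rh9d4f7a2cff497d53 : CRef := CRef.mk (Pat.mk 0x3800000008000000000000000000000000 0x200000007f0000003e0000007f000000160000001400000004 7 7) 0 0 (step_sound _ 130 [(rh61325f73ebf98108.shift 0 4), (rh6a10337a4289d867.shift 1 0), (rh775ca1963e850b80.shift 0 3)] (by decide +kernel))
noncomputable def rh3a73ae4925c37fa7 : CRef := CRef.mk (Pat.mk 0x38000000080000000000000000 0x180000003c0000007f0000003e000000780000001800000018 7 7) 0 0 (step_sound _ 98 [(rh0d378fd9e8917c5a.shift 0 2), (rh3e1b7b343686dca1.shift 1 2), (rh61325f73ebf98108.shift 0 3), (rhd4a8b41114b9709f.shift 1 0)] (by decide +kernel))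
noncomputable def rh1d75216030affd34 : CRef := CRef.mk (Pat.mk 0x380000000800000000000000000000000000000000 0x180000001c0000001f000000380000001f0000001c0000001c0000001c00000004 7 6) 0 0 (step_sound _ 99 [(rh15590a39afd9a120.shift 2 0), (rh215e11e099257d75.shift 3 2), (rh6df3e9b5738faf61.shift 0 2), rhd2729c54337b9319, (rhe3458ab40071103b.shift 3 2)] (by decide +kernel))
noncomputable def rhd439de24dc8ffcda : CRef := CRef.mk (Pat.mk 0x1c00000004000000000000000000000000 0xc0000000c0000001e0000007f0000007f0000001e0000001e 7 7) 0 0 (step_sound _ 99 [rh4c3f48492504c0f6, rh6e8be6975e71aad2, rh99e0335a9ada18f5, rhc6b0a5aeaa68fbb1, rhedd8eb07c0f86508] (by decide +kernel))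
noncomputable def rh361534054945c6f6 : CRef := CRef.mk (Pat.mk 0x380000000800000000000000000000000000000000 0x1000000038000000780000003e0000001f000000fc0000003c0000001c00000014 7 8) 0 0 (step_sound _ 99 [(rh07a09f4105ddb790.shift 0 1), (rh15590a39afd9a120.shift 2 0), (rh215e11e099257d75.shift 3 2), rh379e51f62127c8ce, (rhe3458ab40071103b.shift 3 2)] (by decide +kernel))
noncomputable def rh4060b11968e0578e : CRef := CRef.mk (Pat.mk 0xe000000020000000000000000000000000 0x80000001ae000000fe000001ff000000580000005000000010 7 9) 0 0 (step_sound _ 132 [(rh008b05f4778dc30d.shift 2 3), (rh41da9e955b195f6a.shift 0 3), (rh6a10337a4289d867.shift 3 0), (rhd1ff8027c4c86c76.shift 1 3), (rhf459621b93742302.shift 3 1)] (by decide +kernel))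
noncomputable def rh53cc5ae35d8a24ea : CRef := CRef.mk (Pat.mk 0x380000000800000000000000000000000000000000 0x1000000038000000780000003e000001f80000003f0000003c0000003000000010 7 9) 0 0 (step_sound _ 196 [(rh3ed98727abf28908.shift 2 2), rh57af7fa5738559c0, (rhf91b1398c815afd2.shift 3 2), (rhf9366b6a121593ef.shift 3 2)] (by decide +kernel))
noncomputable def rh5703b668ecce2eb5 : CRef := CRef.mk (Pat.mk 0x3800000008000000000000000000000000 0x38000000380000003800000038000000fe000000ff0000003c0000003c 7 8) 0 0 (step_sound _ 100 [(rh32e50181a7f20ed1.shift 1 0), rh45facd64c8f4de6f, (rh6542b084897c4505.shift 1 0), (rh910001d62077810e.shift 1 0), (rhedd8eb07c0f86508.shift 1 0)] (by decide +kernel))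
noncomputable def rh97343dcf32d2742d : CRef := CRef.mk (Pat.mk 0xe00000002000000000000000000000000000000000 0x4000000040000001ee000000fe000001bf000001f0000000f00000007000000050 7 9) 0 0 (step_sound _ 164 [(rh41da9e955b195f6a.shift 0 4), (rh48b04a8c7c821c90.shift 3 0), (rh6887ef21f67dd26a.shift 3 2), (rh7654d7b92c96fe12.shift 2 4)] (by decide +kernel))
noncomputable def rh5031ea980f499d04 : CRef := CRef.mk (Pat.mk 0x38000000080000000000000000 0x10000000700000003e0000007f0000006000000060 7 7) 0 0 (step_sound _ 98 [(rh008b05f4778dc30d.shift 0 2), (rh3e1b7b343686dca1.shift 1 2), (rh7654d7b92c96fe12.shift 0 2), (rhecb27748c4bb9fb8.shift 1 0)] (by decide +kernel))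
noncomputable def rh86f4a48eb617ab7f : CRef := CRef.mk (Pat.mk 0x38000000080000000000000000 0x100000003c0000007f0000003e000000780000002800000028 7 7) 0 0 (step_sound _ 98 [(rh0d378fd9e8917c5a.shift 0 2), (rh3e1b7b343686dca1.shift 1 2), (rh61325f73ebf98108.shift 0 3), (rh706d1ea76bfbe01c.shift 1 0)] (by decide +kernel))
noncomputable def rhea2eb0d09e23fa35 : CRef := CRef.mk (Pat.mk 0x1c00000004000000000000000000000000 0x1c0000001e0000001f0000001c0000007f0000007c0000001c00000008 7 7) 0 0 (step_sound _ 163 [rhc6669e81ed281074, (rhcf80391c5046a495.shift 2 1), rhcfd4abd99b5dac7a, (rhf91b1398c815afd2.shift 2 1), (rhf9366b6a121593ef.shift 2 1)] (by decide +kernel))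
noncomputable def rha6efac38c4a01603 : CRef := CRef.mk (Pat.mk 0x38000000080000000000000000 0x10000000770000003e0000007f0000006000000060 7 7) 0 0 (step_sound _ 98 [(rh61325f73ebf98108.shift 0 3), (rh775ca1963e850b80.shift 0 2), (rhecb27748c4bb9fb8.shift 1 0)] (by decide +kernel))
noncomputable def rh73d422509517f03d : CRef := CRef.mk (Pat.mk 0x2c000000080000000000000000 0x10000000700000003e0000007f0000006000000060 7 7) 0 0 (step_sound _ 100 [(rh008b05f4778dc30d.shift 0 2), (rh3e1b7b343686dca1.shift 1 2), (rh7654d7b92c96fe12.shift 0 2), (rhecb27748c4bb9fb8.shift 1 0)] (by decide +kernel))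
noncomputable def rh6a3a280c5693f1c2 : CRef := CRef.mk (Pat.mk 0x16000000040000000000000000 0x180000001a0000003f0000001e0000003f0000003c00000034 7 6) 0 0 (step_sound _ 99 [(rhb58461d1021eb8b1.shift 1 0), rhb9dd680bb9375a9f, rhecb27748c4bb9fb8] (by decide +kernel))
noncomputable def rh37bbb7cf2f3f2825 : CRef := CRef.mk (Pat.mk 0x2c000000080000000000000000 0x30000000300000007f0000003e000000780000003800000008 7 7) 0 0 (step_sound _ 100 [(rh0d378fd9e8917c5a.shift 0 2), (rh3e1b7b343686dca1.shift 1 2), (rh61325f73ebf98108.shift 0 3), (rhb58461d1021eb8b1.shift 2 0)] (by decide +kernel))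
noncomputable def rh0574ba51949622c1 : CRef := CRef.mk (Pat.mk 0x180000001000000000000000000000000000000000 0x140000003c0000007c0000001f000000ff000000ff0000001c0000001c00000004 7 8) 0 0 (step_sound _ 131 [rh440742153d39687f, (rhae8ef9aeb5d4e808.shift 0 1), (rhbdc876b8fcd3fa6a.shift 1 1), (rhdd7409d6a7beb007.shift 0 1), (rhf167e9f78adeab0a.shift 1 1)] (by decide +kernel))
noncomputable def rh31cca8899ef063b9 : CRef := CRef.mk (Pat.mk 0x5800000010000000000000000000000000 0x18000000180000007c000000ff0000003f0000003c0000003c 7 8) 0 0 (step_sound _ 99 [rh897d573130d49112, rh90fb40942a8ee506, (rh9ef6e09d1f1f5ad4.shift 0 2)] (by decide +kernel))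
noncomputable def rhe420dc4ca297c095 : CRef := CRef.mk (Pat.mk 0x1600000004000000000000000000000000 0x16000000370000001e0000003f0000001f0000000e00000002 7 6) 0 0 (step_sound _ 131 [rh6a10337a4289d867, (rhb9dd680bb9375a9f.shift 0 1), (rhcc57d5e24da15fe9.shift 0 1)] (by decide +kernel))
noncomputable def rh02b6df01521685ec : CRef := CRef.mk (Pat.mk 0xb000000020000000000000000000000000 0x80000001ae000000fe000001ff000000580000005000000010 7 9) 0 0 (step_sound _ 134 [(rh008b05f4778dc30d.shift 2 3), (rh41da9e955b195f6a.shift 0 3), (rh6a10337a4289d867.shift 3 0), (rhd1ff8027c4c86c76.shift 1 3), (rhf459621b93742302.shift 3 1)] (by decide +kernel))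
noncomputable def rh4bdf9aeb41b8030b : CRef := CRef.mk (Pat.mk 0x58000000100000000000000000000000000000000000000000 0x1c0000001c0000007c0000001f000000fc0000003c0000003c0000003800000028 7 8) 0 0 (step_sound _ 132 [(rh0a6888916bcef86b.shift 3 1), (rh0c79d6bd0b933ed4.shift 3 0), (rh7b24c4ccc068b0b2.shift 3 3), (rhd042d3f5cb2392e9.shift 0 2)] (by decide +kernel))
noncomputable def rh09f9de8e40ae6552 : CRef := CRef.mk (Pat.mk 0x5800000010000000000000000000000000 0x580000005f0000007f000000f00000007c0000003800000020 7 8) 0 0 (step_sound _ 101 [(rh23f32fed3457d0a3.shift 2 0), (rh4ca5dae25f5c14ff.shift 1 3), (rh725495ec67c6d314.shift 2 0), rhe2842bf482f02c26] (by decide +kernel))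
noncomputable def rh8fc7992d94893e05 : CRef := CRef.mk (Pat.mk 0x1800000010000000000000000000000000 0x140000001c0000001c0000001f000000ff000000ff0000003c0000003c 7 8) 0 0 (step_sound _ 99 [rh198adb254fb3e547, (rha41d429ce4a0acfc.shift 2 0), rhab4d34b208111fc0, rhae8ef9aeb5d4e808, rhbca4e06578583498, (rhf5ba09b7e0be3946.shift 2 0)] (by decide +kernel))
noncomputable def rh9fb23330b09a016e : CRef := CRef.mk (Pat.mk 0x380000000800000000000000000000000000000000 0x100000001c0000001e000000380000001f0000000e0000007c0000001c00000014 7 7) 0 0 (step_sound _ 99 [(rh15590a39afd9a120.shift 2 0), (rh1a964f6936a2bb40.shift 0 2), (rh215e11e099257d75.shift 3 2), (rh7a1df22be2ece635.shift 1 0), (rhe3458ab40071103b.shift 3 2)] (by decide +kernel))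
noncomputable def rh0bd61292fac83418 : CRef := CRef.mk (Pat.mk 0x20000000200000002000000000000000000000000 0x500000007000000070000000200000007000000070000000700000005 7 3) 0 0 (step_sound _ 65 [rh482d647aab4b93ee, rh8cdd36b03d57a2f6, rhb106de594f87c71e, (rhc9ac229b3c77cd55.shift 0 1)] (by decide +kernel))
noncomputable def rh7b67209cb0041f6b : CRef := CRef.mk (Pat.mk 0x2000000020000000200000000000000000000000000000000 0x30000000300000007000000060000000600000007000000070000000700000005 7 3) 0 0 (step_sound _ 97 [rh165cdb78240e1819, (rh8065c10b3cae6218.shift 0 2), (rh8cdd36b03d57a2f6.shift 0 1), rhb4d78cd0e58cc17c, (rhff6b27c9612d7353.shift 0 1)] (by decide +kernel))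
noncomputable def rh796a9a79e4977669 : CRef := CRef.mk (Pat.mk 0x80000000800000008000000000000000000000000 0x100000001800000018000000ff0000007f000000fc00000014 7 8) 0 0 (step_sound _ 67 [(rh367118e0bf0473e0.shift 2 0), (rh8cdd36b03d57a2f6.shift 2 0), (rh9a377f270411f480.shift 0 1), (rhc9de03f9731897d4.shift 3 0)] (by decide +kernel))
noncomputable def rh8e5337077a9ada47 : CRef := CRef.mk (Pat.mk 0x50000000100000001000000000 0x200000003f0000003e00000077000000700000003e00000028 7 7) 0 0 (step_sound _ 132 [(rhb20dd801f506db0f.shift 1 0), (rhced6d86d2069808b.shift 4 0), (rhd79fbfddc2878951.shift 0 1)] (by decide +kernel))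
noncomputable def rh1b87a1aa1d8b54c3 : CRef := CRef.mk (Pat.mk 0x2800000018000000000000000000000000 0x6000000170000003f0000007f0000007f0000002800000020 7 7) 0 0 (step_sound _ 130 [(rh062109d6dc26638f.shift 0 3), (rh4ca5dae25f5c14ff.shift 0 3), rh9190e15d502fc569, (rhdeca8db941583de2.shift 0 3)] (by decide +kernel))
noncomputable def rhbe5d3420f9ec6166 : CRef := CRef.mk (Pat.mk 0x140000000c000000000000000000000000 0x3a000000fb0000001e0000007f0000003f0000001c0000001c 7 8) 0 0 (step_sound _ 131 [(rh1e2103965371f327.shift 1 1), rh3b9f11f69b9e12f5, rh4c3f48492504c0f6, rh6542b084897c4505, (rhac29a1de7f470f11.shift 0 1), (rhe5cb64d75aeb45f3.shift 0 1)] (by decide +kernel))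
noncomputable def rh69e82bdf5e145b01 : CRef := CRef.mk (Pat.mk 0x2800000018000000000000000000000000 0x3000000030000000770000003f000000ff000000f00000003000000030 7 8) 0 0 (step_sound _ 132 [(rh14da6508b14ab4dc.shift 1 0), (rh4c3f48492504c0f6.shift 1 0), (rh4ddf85b4f6108e96.shift 0 1), (rh4f3fe1ff9b1f183d.shift 0 1)] (by decide +kernel))
noncomputable def rh4d8c2b31d5c851a4 : CRef := CRef.mk (Pat.mk 0x2800000018000000000000000000000000 0x3000000034000000770000003f000000ff0000006e0000002800000020 7 8) 0 0 (step_sound _ 132 [(rh4c3f48492504c0f6.shift 1 0), (rh5b7bf26d9fd76ab6.shift 0 1), (rh6542b084897c4505.shift 1 0), (rhc45b99127e8e4594.shift 0 2)] (by decide +kernel))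
noncomputable def rh273fcde44da8c13c : CRef := CRef.mk (Pat.mk 0x140000000c000000000000000000000000 0x3800000038000000780000001f0000007c000000fe0000003c00000038 7 8) 0 0 (step_sound _ 100 [(rh1561ff1fafeb7917.shift 1 2), (rh1aae126fdb0efa1d.shift 1 2), (rh1c3256059b8d6c56.shift 1 2), rhd2b7a2688e2e6125, (rhe90c4793322d0a7c.shift 1 0)] (by decide +kernel))
noncomputable def rh8982f85ff650eb48 : CRef := CRef.mk (Pat.mk 0x500000003000000000000000000000000000000000 0xe0000000e0000001e000000077000001fe000003ff000000fc000000f8000000e0 7 10) 0 0 (step_sound _ 134 [(rh5b6d2bf6893374d1.shift 2 1), (rh6630d9a54af61db1.shift 2 1), (rh8b0cd1b46018b7f7.shift 2 1), rh9a4bcb72f1ad40cb, (rh9ee6de38011a0cee.shift 1 1), (rhb714309bc1f18052.shift 0 1), (rhc4a88c21b4255f4b.shift 1 0), (rhe90c4793322d0a7c.shift 3 1)] (by decide +kernel))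
noncomputable def rh2a1dbefec28db28e : CRef := CRef.mk (Pat.mk 0x2800000018000000000000000000000000 0x3000000034000000770000003f0000001f000000780000003800000030 7 7) 0 0 (step_sound _ 132 [(rh0c0fe958cb080f41.shift 0 1), (rh5b7bf26d9fd76ab6.shift 0 1), (rhc05201f23afa0dfb.shift 1 0), (rhe58b0dacc250552f.shift 1 1)] (by decide +kernel))
noncomputable def rh089f410775194418 : CRef := CRef.mk (Pat.mk 0x28000000180000000000000000000000000000000000000000 0x5000000070000000700000002f000000fc000001fc00000070000000700000007000000010 7 9) 0 0 (step_sound _ 165 [(rh1561ff1fafeb7917.shift 2 4), (rha9fbfd4bb8cf890b.shift 0 5), (rhd607d9bd434cc144.shift 2 0)] (by decide +kernel))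
noncomputable def rhe588cd1f6cfcc46c : CRef := CRef.mk (Pat.mk 0x2800000018000000000000000000000000 0x2000000020000000770000003f000000fe0000007e0000003800000028 7 8) 0 0 (step_sound _ 132 [(rh0c0fe958cb080f41.shift 0 1), (rh4ddf85b4f6108e96.shift 0 1), (rh6542b084897c4505.shift 1 0), (rhb466c85c20f8ff75.shift 1 0)] (by decide +kernel))
noncomputable def rh22a9aaee1e7c33d9 : CRef := CRef.mk (Pat.mk 0x80000000800000008000000000000000000000000 0x40000000c0000000c000000ff0000007f000000fc00000014 7 8) 0 0 (step_sound _ 67 [(rh46baee19951a66e7.shift 2 0), (rh6aa5625770489e83.shift 2 0), (rh8cdd36b03d57a2f6.shift 2 0), (rh9a377f270411f480.shift 0 1)] (by decide +kernel))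
noncomputable def rh11b5dafaa3cfafa8 : CRef := CRef.mk (Pat.mk 0x50000000100000001000000000 0x200000003f0000003e000000770000001c000000f800000028 7 8) 0 0 (step_sound _ 132 [(rh1904b52b42aee148.shift 2 0), (rh20966da26a1c2ae8.shift 3 0), (rhf36fb1fc2fc3bb1b.shift 0 1)] (by decide +kernel))
noncomputable def rhc55f599530a81664 : CRef := CRef.mk (Pat.mk 0x28000000080000000800000000 0x100000001c0000001e000000380000001f0000007c00000018 7 7) 0 0 (step_sound _ 131 [(rh43d708b5987f5c5a.shift 1 0), (rhced6d86d2069808b.shift 3 0), rhed3fd3f913686628] (by decide +kernel))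
noncomputable def rh69d26eb8ce19e0b5 : CRef := CRef.mk (Pat.mk 0x1400000004000000040000000000000000 0x80000000c0000000e0000000f0000001c0000000e0000000e0000000600000006 7 5) 0 0 (step_sound _ 162 [(rh20966da26a1c2ae8.shift 1 1), (rh43d708b5987f5c5a.shift 0 1), (rh48b6caf271765322.shift 1 1), (rhff6b27c9612d7353.shift 1 0)] (by decide +kernel))
noncomputable def rh84ad519a3b49ee03 : CRef := CRef.mk (Pat.mk 0x20000000200000002000000000 0x40000000600000006000000020000001ff000000fe0000005f 7 9) 0 0 (step_sound _ 133 [rh1a5850ee4326b921, (rh20966da26a1c2ae8.shift 4 0), (rhc9ac229b3c77cd55.shift 4 0), (rhced6d86d2069808b.shift 5 0)] (by decide +kernel))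
noncomputable def rh12aaaf86e2bd0814 : CRef := CRef.mk (Pat.mk 0x200000002800000008000000000000000000000000 0x50000000700000007000000070000001f00000003e000001ff000000600000006000000020 7 9) 0 0 (step_sound _ 132 [(rh46f4e32c661b103a.shift 0 3), (rh808d44917b98e09e.shift 2 0), (rhef52df3fb28f0586.shift 0 1), (rhff7d63dcb3cf9f74.shift 2 4)] (by decide +kernel))
noncomputable def rh765fa29ecdc33dac : CRef := CRef.mk (Pat.mk 0x200000002800000008000000000000000000000000 0x4000000070000000780000003f0000007f000000700000007000000050 7 7) 0 0 (step_sound _ 130 [(rh2f68fb68062f97ae.shift 1 3), (rh69b6d8f927f1c632.shift 1 1), (rh73109a38068bb0da.shift 0 1), (rhd19bdf9ae8463a32.shift 0 3), (rhe7a687206514a34a.shift 0 3), rhf1badb5c9cedbeaa] (by decide +kernel))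
noncomputable def rhd5b671c770212a76 : CRef := CRef.mk (Pat.mk 0x200000002800000008000000000000000000000000 0x10000000700000007000000060000001f00000003f000000ff000000700000007000000030 7 9) 0 0 (step_sound _ 132 [(rh46f4e32c661b103a.shift 0 3), rh4df001215f0fbb7d, (rhf92a6f6507463037.shift 2 0), (rhff7d63dcb3cf9f74.shift 2 4)] (by decide +kernel))
noncomputable def rh6c465b520fe75c38 : CRef := CRef.mk (Pat.mk 0x200000002800000008000000000000000000000000 0x50000000700000007000000030000001f00000003e000000ff000000700000007000000010 7 9) 0 0 (step_sound _ 132 [(rh46f4e32c661b103a.shift 0 3), (rh9bcc105899da7f10.shift 3 0), (rhff7d63dcb3cf9f74.shift 2 4)] (by decide +kernel))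
noncomputable def rhacfd9e05cd25e68c : CRef := CRef.mk (Pat.mk 0x200000002800000008000000000000000000000000 0x18000000180000007c0000003f0000007f000000740000007000000010 7 7) 0 0 (step_sound _ 130 [(rh2f68fb68062f97ae.shift 1 3), rh5aec04141a2072bb, (rh69b6d8f927f1c632.shift 1 1), (rh73109a38068bb0da.shift 0 1), (rhd19bdf9ae8463a32.shift 0 3), (rhe7a687206514a34a.shift 0 3)] (by decide +kernel))
noncomputable def rh1390933e861a97ba : CRef := CRef.mk (Pat.mk 0x200000002800000008000000000000000000000000 0x700000007000000070000001f00000007e0000006f0000003f0000007f000000700000005000000010 7 9) 0 0 (step_sound _ 197 [(rh0984d15e6987af5a.shift 0 3), (rh581b9216396a5594.shift 2 2), (rh659eb6aa1e5d49ed.shift 4 1), rh805fb8cbc0b209c8, (rh915e6c23910ed4c4.shift 1 3), (rhcd14a41fdaf676d4.shift 2 1)] (by decide +kernel))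
noncomputable def rh7f79e396156bc27b : CRef := CRef.mk (Pat.mk 0x200000002800000008000000000000000000000000 0x7000000070000000700000003e0000003f000001ff000001f00000007000000050 7 9) 0 0 (step_sound _ 101 [(rh4d3ea2a846e574f2.shift 2 0), (rh572372b7c11f1d09.shift 4 0), (rh6d22e4af4868beec.shift 2 2), (rhb0824d3582ea7ca5.shift 4 0), (rhc4bb153d33f60294.shift 0 1), rhd0ef009c04a63061, (rhff22ab043b310713.shift 2 1)] (by decide +kernel))
noncomputable def rh690eac5ddc08a8a8 : CRef := CRef.mk (Pat.mk 0x200000002800000008000000000000000000000000 0x700000007000000070000003f0000003ff000003ff000003bf0000006f000000700000007000000010 7 10) 0 0 (step_sound _ 197 [(rh335fcbc5c97bd2b0.shift 4 1), rh3c45ec64a1ff42da, rh4289ba5f43cc1306, (rh881b9b2746b4c9dc.shift 2 1), rh8c799e492b197a8f, (rh915e6c23910ed4c4.shift 1 3), (rh9a4880b0d27cc648.shift 2 0), (rhd9183235ac18361f.shift 0 3), (rhf1ca0921372c160f.shift 0 3)] (by decide +kernel))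
noncomputable def rhe0d7c389971402d0 : CRef := CRef.mk (Pat.mk 0x40000000500000001000000000 0xe0000000f0000000fe000003fe0000007f0000003e00000028 7 10) 0 0 (step_sound _ 100 [(rh0a88bd1eb5a85876.shift 1 0), (rh2df0b0d86d36d078.shift 1 0), (rh40846f0df2bb12a5.shift 0 1), (rh8398ca1a73847733.shift 1 0), (rh89bc527fc5227706.shift 3 0), (rhbb138f13f6667079.shift 1 0), (rhcee2334a36872f50.shift 1 0)] (by decide +kernel))
noncomputable def rha3b9d4fed82ebe30 : CRef := CRef.mk (Pat.mk 0x80000000a000000020000000000000000 0x140000001c000000fc0000007f000000ff0000000e0000001e0000001c00000014 7 8) 0 0 (step_sound _ 163 [rh2c4b8cdb2daa4e88, (rh335fcbc5c97bd2b0.shift 2 0), (rh659eb6aa1e5d49ed.shift 2 0), (rh89d87a6c1a223e3d.shift 2 0), (rh91ad4e3bd5d1f1e7.shift 2 0), (rha9176661a4a3a31d.shift 0 2)] (by decide +kernel))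
noncomputable def rh79f52159d36774b9 : CRef := CRef.mk (Pat.mk 0x200000002800000008000000000000000000000000 0x500000007000000070000000780000002f0000007e000001f00000007000000050 7 9) 0 0 (step_sound _ 101 [(rh23d7ba318d89735b.shift 4 0), (rh3108c31cdf31936e.shift 1 0), (rh337c3c81a319a681.shift 4 1), (rh6d22e4af4868beec.shift 2 2), rhb10dcb4e70fedd7e, (rhc55c1d37f08df68a.shift 4 1), (rhff22ab043b310713.shift 2 1)] (by decide +kernel))
noncomputable def rhf8f37072e52a0546 : CRef := CRef.mk (Pat.mk 0x200000002800000008000000000000000000000000 0x780000007e000001f80000003f000000ff000000f00000007000000020 7 9) 0 0 (step_sound _ 132 [(rh234745de5b804d76.shift 1 0), (rh46f4e32c661b103a.shift 0 3), rh4df001215f0fbb7d, (rhff7d63dcb3cf9f74.shift 2 4)] (by decide +kernel))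
noncomputable def rh15717f5b95caa406 : CRef := CRef.mk (Pat.mk 0x80000000800000008000000000000000000000000 0x40000000c0000000c000000ff0000007f000000fc00000014 7 8) 0 0 (step_sound _ 67 [(rh46baee19951a66e7.shift 2 0), (rh4831f56b288300ad.shift 0 1), (rh6aa5625770489e83.shift 2 0), (rh8cdd36b03d57a2f6.shift 2 0)] (by decide +kernel))
noncomputable def rhdcec1a314f8f686f : CRef := CRef.mk (Pat.mk 0x280000000800000000000000000000000000000000 0x180000003c0000007f0000003e000000ff0000007f0000003c0000003c00000014 7 8) 0 0 (step_sound _ 164 [(rh232acdc32e26337b.shift 0 1), (rh249aeee790acbb0c.shift 0 1), (rh4c34a26b98f01443.shift 0 2), (rh683f71ba10e07e25.shift 0 2), rhc6c504d72a2366ed, rhfe6e62e075887b2b] (by decide +kernel))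
noncomputable def rh6a1e1fb56a3f1bfa : CRef := CRef.mk (Pat.mk 0x7800000010000000000000000000000000 0xc000000780000003c0000001f0000001c0000001c 7 7) 0 0 (step_sound _ 99 [rh3e69baaa8925d602, (rheb0810cc63b001d8.shift 2 3)] (by decide +kernel))
noncomputable def rhd487adee7f369765 : CRef := CRef.mk (Pat.mk 0x1e000000040000000000000000 0x1000000038000000380000003f0000001e0000003c0000000400000004 7 6) 0 0 (step_sound _ 68 [rh52522e5154dc43b0, (rhe25b0a99195a5d59.shift 1 2)] (by decide +kernel))
noncomputable def rh19a9589bcb36cfcc : CRef := CRef.mk (Pat.mk 0xe00000002000000020000000000000000000000000 0x3c000000f80000003f0000007c000000300000001000000010 7 8) 0 0 (step_sound _ 164 [(rh132883a60cd8aed8.shift 3 2), (rh775ca1963e850b80.shift 2 4), rhcf0cd87284c541ed] (by decide +kernel))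
noncomputable def rh56f3df5b0e558aa3 : CRef := CRef.mk (Pat.mk 0xe000000020000000200000000000000000 0x40000001c0000001c0000003e0000007fe000000fe000001bf000001f00000015000000100 7 11) 0 0 (step_sound _ 167 [(rh054bcdbbf10c0f88.shift 0 3), (rh7f62e44fcffd1e3b.shift 3 1), (rh9ab1d5333b2dd055.shift 2 0), (rhff7d63dcb3cf9f74.shift 4 4)] (by decide +kernel))
noncomputable def rhad02ddee07ea1f3a : CRef := CRef.mk (Pat.mk 0x80000001c000000040000000000000000 0x1000000030000001fc0000007c0000007f0000001c0000001f0000000a00000008 7 9) 0 0 (step_sound _ 163 [(rh5c5e593799055d58.shift 2 2), rh6a5f7cf7d391e879] (by decide +kernel))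
noncomputable def rhe2049ac27d200197 : CRef := CRef.mk (Pat.mk 0x20000000700000001000000000000000000000000000000000 0x1000000070000000700000007e000000fe0000003f0000002800000028 7 8) 0 0 (step_sound _ 100 [rh6c4fed00dbbeb082, (rh71222050f2c63a3a.shift 4 2)] (by decide +kernel))
noncomputable def rh284c3fc420c37253 : CRef := CRef.mk (Pat.mk 0x1e00000004000000000000000000000000 0x70000001e0000003f000000030000000300000002 7 6) 0 0 (step_sound _ 97 [rh808ac452887fdb8b, (rheb0810cc63b001d8.shift 0 3)] (by decide +kernel))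
noncomputable def rheaf98106756a5937 : CRef := CRef.mk (Pat.mk 0x1e000000040000000000000000 0x1000000038000000380000003f0000001e0000003c0000000400000004 7 6) 0 0 (step_sound _ 68 [rh01ede9df9721af71, (rhe25b0a99195a5d59.shift 1 2)] (by decide +kernel))
noncomputable def rh7bd22948231330e1 : CRef := CRef.mk (Pat.mk 0x80000003800000008000000000000000000000000 0x120000003f0000003f0000006f0000001f0000001d00000001 7 7) 0 0 (step_sound _ 161 [(rh075211c3608a5a57.shift 0 4), (rh4b858afe2cb38247.shift 1 4), (rhc30259bd62f0e380.shift 0 4), rhc8bbb9df1e6953a0] (by decide +kernel))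
noncomputable def rh2889e1c2e97d05e9 : CRef := CRef.mk (Pat.mk 0x20000000e0000000200000000000000000 0x40000000e0000001ff000000fe000001ae0000002000000020 7 9) 0 0 (step_sound _ 100 [(rh6b03a17aa1a315ac.shift 3 0), (rh74765a024af9e719.shift 3 0), (rh7930b6a6b862f234.shift 2 2), (rh846b03836510e6ec.shift 0 2), (rha5dd842502aeeece.shift 1 2)] (by decide +kernel))
noncomputable def rh258a7d00948290c7 : CRef := CRef.mk (Pat.mk 0x20000000e0000000200000000000000000 0x600000006000000060000001bf000000fe0000003e0000003000000030 7 9) 0 0 (step_sound _ 100 [(rh16c170961bac801f.shift 3 0), (rh846b03836510e6ec.shift 0 2), (rha1a532725e6ae333.shift 3 0)] (by decide +kernel))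
noncomputable def rhbadd13bc02a4ddbd : CRef := CRef.mk (Pat.mk 0x40000000e00000002000000000000000000000000000000000 0x20000000e0000000e0000001ff0000007e000000f70000001000000010 7 9) 0 0 (step_sound _ 101 [(rh71222050f2c63a3a.shift 5 2), rhe0efac9601972504] (by decide +kernel))
noncomputable def rhee6e97c68cd3f9ed : CRef := CRef.mk (Pat.mk 0x1e00000004000000000000000000000000 0x18000000180000003e0000001e0000003f0000000c0000000400000004 7 6) 0 0 (step_sound _ 97 [(rh9923704dd8b1d16c.shift 1 0), (rheb0810cc63b001d8.shift 0 3)] (by decide +kernel))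
noncomputable def rh08496891ce53c717 : CRef := CRef.mk (Pat.mk 0x38000000080000000000000000 0x10000000770000003e0000007f0000006000000060 7 7) 0 0 (step_sound _ 98 [(rh008b05f4778dc30d.shift 0 2), (rh0d378fd9e8917c5a.shift 0 2), (rh775ca1963e850b80.shift 0 2), (rhecb27748c4bb9fb8.shift 1 0)] (by decide +kernel))
noncomputable def rhd93f286e44289db2 : CRef := CRef.mk (Pat.mk 0x1e000000040000000000000000 0x8000000080000000c0000001e0000003f0000003c00000014 7 6) 0 0 (step_sound _ 65 [(rh87e1563add9579d9.shift 1 0), (rheb0810cc63b001d8.shift 0 2)] (by decide +kernel))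
noncomputable def rh7b4dd1304a9984c2 : CRef := CRef.mk (Pat.mk 0x1e0000000400000000000000000000000000000000 0xc0000001c0000003e0000001e0000000f0000003c0000001c0000000c00000008 7 6) 0 0 (step_sound _ 129 [(rh86038e21459eb0fa.shift 1 0), (rheb0810cc63b001d8.shift 0 4)] (by decide +kernel))
noncomputable def rh46a4255504ab25bf : CRef := CRef.mk (Pat.mk 0xf000000020000000000000000 0x180000001c0000001c0000001c0000000f0000001e0000000e0000000e 7 5) 0 0 (step_sound _ 67 [(rhe25b0a99195a5d59.shift 0 2), rhfa99517c4fd4a5f9] (by decide +kernel))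
noncomputable def rhea3e28c9728b4029 : CRef := CRef.mk (Pat.mk 0x1e0000000400000000000000000000000000000000 0x330000001e0000003f0000003c0000003c0000003c00000028 7 6) 0 0 (step_sound _ 129 [rhddfd2d4db58e331d, (rheb0810cc63b001d8.shift 0 4)] (by decide +kernel))
noncomputable def rhb6e6c3d7ce0e98df : CRef := CRef.mk (Pat.mk 0x1e000000040000000000000000 0x8000000380000001e000000370000003c00000038 7 6) 0 0 (step_sound _ 65 [(rh8a84b73ee2d06a73.shift 1 0), (rheb0810cc63b001d8.shift 0 2)] (by decide +kernel))
noncomputable def rh6820a930f98da942 : CRef := CRef.mk (Pat.mk 0x20000000700000001000000000000000000000000 0x70000000700000007000000070000001f0000001e0000000600000002 7 5) 0 0 (step_sound _ 193 [rh19efeba36ab4de84, (rh5c5e593799055d58.shift 0 3)] (by decide +kernel))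
noncomputable def rh51cc93aa591ac281 : CRef := CRef.mk (Pat.mk 0x40000000e0000000200000000000000000000000000000000 0xe0000000e0000007f0000003e0000007e0000000400000004 7 7) 0 0 (step_sound _ 97 [(rh71222050f2c63a3a.shift 1 2), rhd87797a79bb02543] (by decide +kernel))
noncomputable def rh6d776427ccefc1b5 : CRef := CRef.mk (Pat.mk 0x1e00000004000000000000000000000000 0x80000003a0000001e000000370000003c0000003400000004 7 6) 0 0 (step_sound _ 97 [(rhaac5dcd505a1cbb4.shift 1 0), (rheb0810cc63b001d8.shift 0 3)] (by decide +kernel))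
noncomputable def rh36c5841889d01cb5 : CRef := CRef.mk (Pat.mk 0x1e000000000000000000000000 0x1000000030000000380000003f0000001e000000380000001000000010 7 6) 0 0 (step_sound _ 68 [rh4be7719e1ad6a1ec, (rhe25b0a99195a5d59.shift 1 2)] (by decide +kernel))
noncomputable def rh805bbb8da001be20 : CRef := CRef.mk (Pat.mk 0x80000001c000000040000000000000000 0x1c0000001c0000001c0000001c0000001f0000001b00000010 7 5) 0 0 (step_sound _ 163 [(rh5c5e593799055d58.shift 2 2), rhda5cb91647ebcd79] (by decide +kernel))
noncomputable def rh303921e9439941c7 : CRef := CRef.mk (Pat.mk 0x10000000380000000800000000000000000000000000000000 0x2000000020000000e8000000fe000000380000007f000000ff0000006f0000000400000004 7 8) 0 0 (step_sound _ 99 [rh6de302e7e9c186b3, (rh71222050f2c63a3a.shift 3 2)] (by decide +kernel))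
noncomputable def rh661d512cfc006c27 : CRef := CRef.mk (Pat.mk 0x100000001000000010000000000000000000000000 0x80000001800000018000000ff0000007e0000003f00000028 7 8) 0 0 (step_sound _ 68 [(rh46baee19951a66e7.shift 3 0), (rh6aa5625770489e83.shift 3 0), (rh8cdd36b03d57a2f6.shift 3 0), (rhaced9bf34d7f5960.shift 0 1)] (by decide +kernel))
noncomputable def rh5b114b8fa417e855 : CRef := CRef.mk (Pat.mk 0x800000008000000080000000800000000 0x1000000018000000180000003c000000ff00000074 7 8) 0 0 (step_sound _ 132 [(rh2f68792b6b779e96.shift 3 1), rh626a9b93d8b081ae] (by decide +kernel))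
noncomputable def rhfeb9bac6758cefcf : CRef := CRef.mk (Pat.mk 0x5800000018000000000000000000000000 0x140000001c00000078000000380000001f0000001c0000001c 7 7) 0 0 (step_sound _ 67 [(rh7f8bb07996f68c30.shift 2 0), (rhc33c736d6e9c2a84.shift 0 1), (rhea7a1800d6f053bd.shift 3 0)] (by decide +kernel))
noncomputable def rh4579af5e339100d8 : CRef := CRef.mk (Pat.mk 0x5800000010000000100000000000000000 0x10000000780000001f0000007c000000fe0000003e 7 8) 0 0 (step_sound _ 99 [(rh1864e4c677b30864.shift 1 0), (rh7e9ba19755485a04.shift 0 2), (rhdf47b082306c38f4.shift 2 0)] (by decide +kernel))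
noncomputable def rh1f84fbae2d0f4961 : CRef := CRef.mk (Pat.mk 0xb00000002000000020000000000000000000000000 0x128000001b8000000fc000001bf000001f8000003de0000005800000050 7 10) 0 0 (step_sound _ 100 [(rh58fe0af0cbf5493c.shift 1 0), rh758e8ee7da4b9e22, (rhe1e57054f91640b5.shift 2 1), (rhfafeb437ceb8396d.shift 4 0)] (by decide +kernel))
noncomputable def rhbddb6fc2558cd7c6 : CRef := CRef.mk (Pat.mk 0x2c0000002800000000000000000000000000000000 0x280000002c0000002f000000780000003f0000001c0000001c00000014 7 7) 0 0 (step_sound _ 132 [rh212f7439c5f69809, (rhf48373e13d2bc128.shift 2 4)] (by decide +kernel))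
noncomputable def rhfe6c995862deb440 : CRef := CRef.mk (Pat.mk 0x160000001400000000000000000000000000000000 0x2000000030000000360000001e000000340000003e0000003f0000002e0000000a 7 6) 0 0 (step_sound _ 196 [(rh9765e413c7f50252.shift 1 1), rh9f5a1eb6d599de5f, (rhabf575676fe0ef70.shift 1 4), (rhe979cd5c4e670bf8.shift 1 1)] (by decide +kernel))
noncomputable def rh042a9a7c1bb155b4 : CRef := CRef.mk (Pat.mk 0x2c0000002800000000000000000000000000000000 0x680000006c0000003f00000038000000ff0000005c0000001c00000014 7 8) 0 0 (step_sound _ 132 [(rh1eccba62f2f03c72.shift 2 1), rh212f7439c5f69809, (rhc02b3aee7ab87ee1.shift 0 4)] (by decide +kernel))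
noncomputable def rh30e0b0c18de43c65 : CRef := CRef.mk (Pat.mk 0x2c0000001800000000000000000000000000000000 0x280000002c0000002f000000780000003f0000001c0000001c00000014 7 7) 0 0 (step_sound _ 133 [rh212f7439c5f69809, (rhf48373e13d2bc128.shift 2 4)] (by decide +kernel))
noncomputable def rh1210ac99709a564e : CRef := CRef.mk (Pat.mk 0x1800000030000000000000000000000000 0x10000000180000001f0000003f000000ff000000fe0000003c 7 8) 0 0 (step_sound _ 99 [(rh29f9e435ae11b48b.shift 1 0), rh421d142d0fc8a22c, (rh9425272e357bb618.shift 2 0), rhff00a37c088eb8b8] (by decide +kernel))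
noncomputable def rhda88a5777ac16029 : CRef := CRef.mk (Pat.mk 0x1e000000040000000000000000 0x180000003c0000003f0000001e0000000f0000000e00000002 7 6) 0 0 (step_sound _ 65 [rh9d112e27f720ae04, (rheb0810cc63b001d8.shift 0 2)] (by decide +kernel))
noncomputable def rhf33b662065ef3739 : CRef := CRef.mk (Pat.mk 0x1e00000004000000000000000000000000 0x370000001e0000003f000000030000000300000002 7 6) 0 0 (step_sound _ 97 [rh30981cc1e1636f9d, (rheb0810cc63b001d8.shift 0 3)] (by decide +kernel))
noncomputable def rh04a828218ce6ec97 : CRef := CRef.mk (Pat.mk 0x1c00000004000000080000000000000000 0x180000001c0000001c0000001c0000000f0000007c0000001800000008 7 7) 0 0 (step_sound _ 99 [(rh1e2a4603f2e941a4.shift 0 1), (rh3cb04db3dd2b6a55.shift 2 0), (rhb0c1e7919d9be92d.shift 2 0)] (by decide +kernel))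
noncomputable def rhdeb2767e5ceb2cac : CRef := CRef.mk (Pat.mk 0x1c00000004000000080000000000000000 0xc0000000c0000000c0000001c0000001f0000007c0000001800000018 7 7) 0 0 (step_sound _ 99 [(rh3cb04db3dd2b6a55.shift 2 0), rhb177455af799916f, (rhf94a2767e82b8339.shift 0 1)] (by decide +kernel))
noncomputable def rhfb7b23fca66a554b : CRef := CRef.mk (Pat.mk 0x700000001000000020000000000000000 0x20000000e0000001f00000007000000070000001f0000000e00000002 7 5) 0 0 (step_sound _ 97 [rh3cb04db3dd2b6a55, (rh5a2768fe83d250f2.shift 0 1), rhb0c1e7919d9be92d] (by decide +kernel))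
noncomputable def rh72ed21cc30cea305 : CRef := CRef.mk (Pat.mk 0x1c00000004000000080000000000000000 0x4000000140000001c0000007f0000007f0000000a0000000a 7 7) 0 0 (step_sound _ 99 [rh13a0a52529c75d2e, (rhb0c1e7919d9be92d.shift 2 0)] (by decide +kernel))
noncomputable def rhd43e79780739e433 : CRef := CRef.mk (Pat.mk 0x1c00000004000000080000000000000000 0x1800000018000000180000001c0000001f0000007c0000001800000018 7 7) 0 0 (step_sound _ 99 [(rh2a64436b6dfd8ba7.shift 0 1), (rhb0c1e7919d9be92d.shift 2 0), rhb177455af799916f] (by decide +kernel))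
noncomputable def rh4e80284903402eeb : CRef := CRef.mk (Pat.mk 0x380000000800000010000000000000000000000000 0x1800000078000000f800000038000000ff000000fe000000e00000004000000040 7 8) 0 0 (step_sound _ 196 [(rh0a95c4fbea2c2430.shift 0 2), (rh0cd2a85d09bf0b48.shift 3 2), (rh3babd1d8e615f33a.shift 1 0), (rh9cdee070315fb032.shift 3 3)] (by decide +kernel))
noncomputable def rhb36df0a34c226cbc : CRef := CRef.mk (Pat.mk 0x700000001000000020000000000000000000000000 0x20000000300000007000000070000003df000001fe000003ef0000002800000028 7 10) 0 0 (step_sound _ 100 [(rh1349e24cffc31846.shift 3 2), (rh191a78435ba543ec.shift 3 0), rh3d87312cbcec2f9e, (rh8bd5e2d88f2bcb88.shift 1 0), (rhb3ef251d9af88d38.shift 0 2)] (by decide +kernel))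
noncomputable def rh8ad031770ed0abdc : CRef := CRef.mk (Pat.mk 0xb00000002000000020000000000000000000000000 0x1ce000000fe0000003f00000020000000700000007000000050 7 9) 0 0 (step_sound _ 166 [(rh29c458605081fbae.shift 0 4), (rh7654d7b92c96fe12.shift 2 4), (rhffb8e5993241bf15.shift 4 0)] (by decide +kernel))
noncomputable def rh596ac6c9aacb9461 : CRef := CRef.mk (Pat.mk 0x58000000100000001000000000 0x8000000380000003800000030000000fe0000007f0000001c0000001800000008 7 8) 0 0 (step_sound _ 132 [(rh03efadd30e5c9a4c.shift 3 0), (rh0f88566f1a09c677.shift 1 1), (rh402d223d12d7377d.shift 3 0), rh67bd3b179da2a5d1] (by decide +kernel))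
noncomputable def rhb132e2db8500d51c : CRef := CRef.mk (Pat.mk 0x2c0000002800000000000000000000000000000000 0x300000007c0000002c0000007c0000006f0000005c0000005c00000014 7 7) 0 0 (step_sound _ 99 [(rh0a6888916bcef86b.shift 2 0), rhb2dd000641ced34c, (rhd1779d7de7f8215b.shift 2 0)] (by decide +kernel))
noncomputable def rhd1302f46b0fee951 : CRef := CRef.mk (Pat.mk 0x1600000014000000000000000000000000 0x800000038000000380000007c000000ff0000001e0000001f000000370000003700000002 7 8) 0 0 (step_sound _ 164 [(rh04f23d5fead1aafb.shift 0 1), (rh08d809ccc7c603e2.shift 1 2), (rh1bcbe2621f47e840.shift 0 1), (rhae7001f4ffaf4d76.shift 0 1), rhf775aecc12ba0123] (by decide +kernel))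
noncomputable def rh01443c6d037232dd : CRef := CRef.mk (Pat.mk 0x180000001800000000000000000000000000000000 0x40000000f0000001f0000007f0000001f0000000f0000000c00000004 7 7) 0 0 (step_sound _ 162 [rh25eb2b38bc805564, (rh6292bd8784ece55f.shift 1 4), (rhcd4d16d28964fbaf.shift 0 2)] (by decide +kernel))
noncomputable def rh661317f58f020ee3 : CRef := CRef.mk (Pat.mk 0x160000000600000000000000000000000000000000 0x28000000380000003a000000170000003f0000003e0000003e0000003e00000028 7 6) 0 0 (step_sound _ 132 [(rh048d0bc650a6bbc1.shift 0 1), rh4fbd3063f51c446e, (rhfd0f316c42bbba52.shift 0 4)] (by decide +kernel))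
noncomputable def rh830a0691154c6e6d : CRef := CRef.mk (Pat.mk 0x1800000018000000000000000000000000 0x600000006000000070000001f0000007f0000007f0000000f0000000e 7 7) 0 0 (step_sound _ 130 [rh5cea4c44830d4f6d, (rh6292bd8784ece55f.shift 1 3), (rhcd4d16d28964fbaf.shift 0 1)] (by decide +kernel))
noncomputable def rh7be0cda083db6eae : CRef := CRef.mk (Pat.mk 0x1800000018000000000000000000000000 0x40000000c0000001f0000003f0000007f0000003e0000003e 7 7) 0 0 (step_sound _ 68 [(rh1864e4c677b30864.shift 1 0), (rh3cb04db3dd2b6a55.shift 3 0), rha50fcf2f3f278c73] (by decide +kernel))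
noncomputable def rh5a44b2711b618412 : CRef := CRef.mk (Pat.mk 0xc0000000c000000000000000000000000 0x60000000f0000007c0000007f0000007f0000001e 7 7) 0 0 (step_sound _ 100 [(rh79b3c29022acbdf3.shift 1 3), (rh97c87f0d6ff7d848.shift 1 0), rhc369417411458438] (by decide +kernel))
noncomputable def rhe1a530e330168046 : CRef := CRef.mk (Pat.mk 0x5800000018000000000000000000000000 0x40000004c0000005f000000df000000ff000000fe0000003e 7 8) 0 0 (step_sound _ 68 [rh0d2784efecce3007, (rh1864e4c677b30864.shift 1 0), (rh3cb04db3dd2b6a55.shift 3 0)] (by decide +kernel))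
noncomputable def rh3a17f0d9d9700612 : CRef := CRef.mk (Pat.mk 0x300000003000000000000000000000000000000000 0x1000000030000001fe000001ff000001fc0000007c00000008 7 9) 0 0 (step_sound _ 101 [(rh1864e4c677b30864.shift 2 1), (rh3cb04db3dd2b6a55.shift 4 1), rhad17225f7e999b8f] (by decide +kernel))
noncomputable def rh195c5080acd079a7 : CRef := CRef.mk (Pat.mk 0x38000000080000000800000000 0x70000000700000007f0000003e000000780000003800000020 7 7) 0 0 (step_sound _ 132 [rh14a23868293fdfc1, (rh69755ef358ebfd54.shift 3 1), (rhbfb5770941270498.shift 3 1), (rheb4949bdfa5025cf.shift 3 1)] (by decide +kernel))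
noncomputable def rhe43cbcc297b14ef7 : CRef := CRef.mk (Pat.mk 0x1c00000004000000040000000000000000 0x1000000010000000330000001f0000003c0000000c0000000400000004 7 6) 0 0 (step_sound _ 129 [(rh132883a60cd8aed8.shift 0 1), rh94ca173f06387cd8, (rhbb424d02b65136a6.shift 0 2)] (by decide +kernel))
noncomputable def rhe7d48083c2102c0b : CRef := CRef.mk (Pat.mk 0x280000000800000008000000000000000000000000 0x2800000028000000780000003f000000fe0000001400000014 7 8) 0 0 (step_sound _ 68 [(rh475253e964ed1313.shift 3 0), (rh47dece01c1595e79.shift 3 0), (rhb6e11cfc959c8a3c.shift 1 1), rheba11f8f3b30f0f4] (by decide +kernel))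
noncomputable def rhe138abeabc6304bc : CRef := CRef.mk (Pat.mk 0x100000001000000010000000000000000000000000 0x200000003000000030000000ff0000007e0000003f00000028 7 8) 0 0 (step_sound _ 68 [(rh367118e0bf0473e0.shift 3 0), (rh8cdd36b03d57a2f6.shift 3 0), (rhaced9bf34d7f5960.shift 0 1), (rhc9de03f9731897d4.shift 4 0)] (by decide +kernel))
noncomputable def rh2138857660334189 : CRef := CRef.mk (Pat.mk 0x280000000800000018000000000000000000000000 0x2800000028000001e80000007e000000f70000001000000010 7 9) 0 0 (step_sound _ 101 [(rh73377e053ec8b84d.shift 0 2), (rh73770d9950ef0c9f.shift 3 0), (rh934b4be51a03e5e4.shift 1 0), (rhda9dc455a933c0aa.shift 2 0), (rhe75edc6582963f18.shift 1 2)] (by decide +kernel))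
noncomputable def rha6a817c59aaa3962 : CRef := CRef.mk (Pat.mk 0x500000001000000030000000000000000000000000 0x100000005000000054000000f7000000fe000001cf0000000800000008 7 9) 0 0 (step_sound _ 99 [(rh3d164a09ad92dabc.shift 0 2), (rh5751506da563694b.shift 2 2), (rh82267f24227fde6a.shift 1 2), (rh829172f8aec2bb07.shift 0 2), rhee654407e0a0bd22] (by decide +kernel))
noncomputable def rh8120cef559799f10 : CRef := CRef.mk (Pat.mk 0x280000000800000018000000000000000000000000 0x30000000700000003e000000f8000000ff000000700000003000000020 7 8) 0 0 (step_sound _ 132 [(rh06883100c24d318c.shift 1 1), (rh3bf6249ebf3691c0.shift 3 1), (rh449f98e6cb3c31f2.shift 1 1), rhab1c80cb317f702f, (rhb23334cf3920b207.shift 3 1), (rhe48108ae8ec5ee41.shift 1 1)] (by decide +kernel))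
noncomputable def rha432391920fdb511 : CRef := CRef.mk (Pat.mk 0x20000000200000002000000020000000000000000 0x600000006000000060000000300000003000000070000000600000006 7 3) 0 0 (step_sound _ 34 [rhc2b526615a842ae1, (rhd3458b32566d63f7.shift 1 1)] (by decide +kernel))
noncomputable def rh4ec767a20edfc219 : CRef := CRef.mk (Pat.mk 0x140000000400000004000000000000000000000000 0x80000001c0000001c000000360000007f0000003e0000000e0000000a 7 7) 0 0 (step_sound _ 66 [(rh20966da26a1c2ae8.shift 1 1), (rh526c91fe3260523b.shift 0 1), (rh8cdd36b03d57a2f6.shift 1 0)] (by decide +kernel))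
noncomputable def rh3ec54fa38f7317ae : CRef := CRef.mk (Pat.mk 0x14000000040000000400000000000000000000000000000000 0x80000001e0000001e000000370000007f0000003c0000000e0000000e0000000a 7 7) 0 0 (step_sound _ 98 [(rh216281f58bc5c0de.shift 0 2), (rh46baee19951a66e7.shift 1 1), (rh47992774edf9829f.shift 1 0), (rh526c91fe3260523b.shift 0 2), (rhd011005e9a0294a4.shift 1 2)] (by decide +kernel))
noncomputable def rha4d023c870ca24d7 : CRef := CRef.mk (Pat.mk 0x50000000100000003000000000 0x1000000018000000780000001f0000003f0000002f 7 7) 0 0 (step_sound _ 132 [rh1f14361a2b805945, (rh55afc6a59410cf00.shift 4 0)] (by decide +kernel))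
noncomputable def rha0f872d41c9e61b2 : CRef := CRef.mk (Pat.mk 0x280000000800000018000000000000000000000000 0x2800000028000001e80000007e000000f70000001000000010 7 9) 0 0 (step_sound _ 101 [(rh73377e053ec8b84d.shift 0 2), (rh73770d9950ef0c9f.shift 3 0), (rh75050cb923018119.shift 1 2), (rh934b4be51a03e5e4.shift 1 0), (rhda9dc455a933c0aa.shift 2 0), (rhe75edc6582963f18.shift 1 2)] (by decide +kernel))
noncomputable def rh3923c7a49bd50ed3 : CRef := CRef.mk (Pat.mk 0xa0000000200000006000000000000000000000000 0xa0000000a0000007b0000003e0000007c0000000400000004 7 7) 0 0 (step_sound _ 66 [(rh2145e1d24b96a57e.shift 1 2), rh8d789dea9eef12ec] (by decide +kernel))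
noncomputable def rh5608798568ed0d17 : CRef := CRef.mk (Pat.mk 0x500000001000000030000000000000000000000000 0x300000003800000078000001df000000ff000001cf0000000800000008 7 9) 0 0 (step_sound _ 99 [(rh341dee64fc3e0b7f.shift 2 0), (rh3ca42f1132d382dc.shift 0 2), (rh3d164a09ad92dabc.shift 0 2), (rhfafeb437ceb8396d.shift 3 0)] (by decide +kernel))
noncomputable def rh0bf2cdab495659a1 : CRef := CRef.mk (Pat.mk 0x280000000800000018000000000000000000000000 0x2000000028000001ef0000007e000000f60000005400000054 7 9) 0 0 (step_sound _ 101 [(rh934b4be51a03e5e4.shift 1 0), (rha9fbfd4bb8cf890b.shift 0 3), (rhc6c285ef8238e16d.shift 1 0), (rhee6facdaf6d571a9.shift 2 0)] (by decide +kernel))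
noncomputable def rh0061af87222330ae : CRef := CRef.mk (Pat.mk 0xe00000008000000000000000000000000 0x140000001c0000001c0000007c0000000f000000780000001c0000001c00000014 7 7) 0 0 (step_sound _ 100 [(rh4adf7f8ac8da8f39.shift 1 0), (rhb739f4f82bb681b4.shift 0 3)] (by decide +kernel))
noncomputable def rhc7a55d58f1c773b4 : CRef := CRef.mk (Pat.mk 0x70000000500000000000000000000000000000000 0xa0000000e0000001e000000070000001f0000001e0000000e0000000e0000000a 7 5) 0 0 (step_sound _ 98 [(rh253b778c8a3a2c87.shift 1 0), (rh43d8dfd721575dfb.shift 1 0), (rh7b24c4ccc068b0b2.shift 1 2), (rhae83aea51e82cc45.shift 0 2), (rhb1a251d9bff81766.shift 1 2)] (by decide +kernel))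
noncomputable def rhfb551ab91d100d56 : CRef := CRef.mk (Pat.mk 0x2800000038000000000000000000000000 0x20000000700000003f0000003e000000700000003000000020 7 7) 0 0 (step_sound _ 98 [(rh2ba551de881ca4cd.shift 0 2), (rh2ebbcfe90e0f250d.shift 1 2), (rh3d21fad894bfbfeb.shift 1 0), (rh7fb660bc21ce4329.shift 0 3)] (by decide +kernel))
noncomputable def rhc0fe141caa713eab : CRef := CRef.mk (Pat.mk 0xa0000000e0000000000000000000000000 0x20000000ff000000fe0000019e0000001000000010 7 9) 0 0 (step_sound _ 100 [(rh2591032a0e7f4182.shift 2 2), (rh2cc7d62e70c02209.shift 2 2), (rh4f129d8f37c2c70a.shift 3 0), (rhc570c09f7c0268b1.shift 2 2), (rhd949af4c8aeb599c.shift 0 2)] (by decide +kernel))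
noncomputable def rhc3bcd1fb5e82f20f : CRef := CRef.mk (Pat.mk 0x500000007000000000000000000000000 0xf0000001f00000007000000070000001e0000000e00000002 7 5) 0 0 (step_sound _ 65 [(rh1763ebba85ac4fcd.shift 0 1), rhbe707112c53dab40, (rhcf80391c5046a495.shift 1 0)] (by decide +kernel))
noncomputable def rh57e9330b46a7a59c : CRef := CRef.mk (Pat.mk 0xa0000000a000000080000000000000000 0x1e0000003e0000000e0000001f0000007c0000000c00000004 7 7) 0 0 (step_sound _ 98 [(rh8949f72f4295af22.shift 1 0), (rh8ee80cc30e93a344.shift 0 2), (rhc21a95c499b3efdb.shift 0 2)] (by decide +kernel))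
noncomputable def rh1f86c6c6477d1441 : CRef := CRef.mk (Pat.mk 0x280000002800000020000000000000000000000000 0x18000000380000003e000001f70000007e0000007f00000050 7 9) 0 0 (step_sound _ 69 [(rh3181373a30ceb9e3.shift 4 0), (rh46baee19951a66e7.shift 4 0), (rh6aa5625770489e83.shift 4 0), (rhfba30c503268b54c.shift 0 1)] (by decide +kernel))
noncomputable def rh0cacbfcbbdcea56c : CRef := CRef.mk (Pat.mk 0x280000000800000008000000000000000000000000 0x100000003800000038000000380000007f000000fe000000f80000003800000030 7 8) 0 0 (step_sound _ 100 [(rh046c5eb18e55a239.shift 3 0), (rh70e33bfdf511e144.shift 3 0), (rhc027d90fb0b4842a.shift 0 2), (rhd2151f779d4ef28a.shift 1 0)] (by decide +kernel))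
noncomputable def rhedc804818f0e249f : CRef := CRef.mk (Pat.mk 0x28000000080000000800000000000000000000000000000000 0x1800000018000000380000003e0000000f0000000c0000001c0000001c0000001c 7 6) 0 0 (step_sound _ 99 [(rh20966da26a1c2ae8.shift 2 2), (rh367118e0bf0473e0.shift 2 1), (rh49759b6975f15643.shift 2 0), (rh89b46eae2a8418e1.shift 0 2), (rhdb18d9da0cc94d72.shift 2 0)] (by decide +kernel))
noncomputable def rhf6afe8228b0818f9 : CRef := CRef.mk (Pat.mk 0x8000000080000000800000000 0x10000000180000001800000008000000ff0000007f000000f4 7 8) 0 0 (step_sound _ 131 [(rh20966da26a1c2ae8.shift 2 0), rh9a377f270411f480, (rhc9ac229b3c77cd55.shift 2 0), (rhced6d86d2069808b.shift 3 0)] (by decide +kernel))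
noncomputable def rh1aad8815efd9928e : CRef := CRef.mk (Pat.mk 0x14000000040000000400000000000000000000000000000000 0x400000016000000170000003f0000007f0000003c0000000e0000000e0000000e 7 7) 0 0 (step_sound _ 98 [(rh46baee19951a66e7.shift 1 1), (rh47992774edf9829f.shift 1 0), (rh4cf6634306bfa8d1.shift 0 2), (rh526c91fe3260523b.shift 0 2), (rhd5814e4a3cae6188.shift 1 0)] (by decide +kernel))
noncomputable def rh35d39f21c8a23d6b : CRef := CRef.mk (Pat.mk 0x8000000080000000800000000000000000000000000000000 0x10000000180000007c0000000f0000007c0000001f0000000c0000001c0000001c00000014 7 7) 0 0 (step_sound _ 194 [(rh422657cd07728bdc.shift 0 3), (rh43d8dfd721575dfb.shift 2 1), (rha2d1bf743472775b.shift 0 1), (rhc46b61bcbcf6c641.shift 2 0), rhefee3c8f56d3771f] (by decide +kernel))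
noncomputable def rh5ea0d7a883fff128 : CRef := CRef.mk (Pat.mk 0x100000001000000010000000000000000000000000 0x80000001800000018000000ff0000007e0000003f00000028 7 8) 0 0 (step_sound _ 68 [(rh46baee19951a66e7.shift 3 0), (rh6aa5625770489e83.shift 3 0), (rh8cdd36b03d57a2f6.shift 3 0), (rhe14f913ce76f71e8.shift 0 1)] (by decide +kernel))
noncomputable def rh4a3e24e8154f7f47 : CRef := CRef.mk (Pat.mk 0x500000001000000000000000000000000000000000 0x30000000780000007e000001fe000001fe000003ff0000003800000028 7 10) 0 0 (step_sound _ 100 [(rh2398cacc6ccf7565.shift 1 0), (rh4357bc4c604fe815.shift 3 0), rh87c9a6bf09d0fcd1, (rhc62a46e58eaea6df.shift 3 0), (rhd29dbdc868406425.shift 3 0), (rhdddd600131b6e356.shift 3 0)] (by decide +kernel))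
noncomputable def rh040ed1c7cbf17513 : CRef := CRef.mk (Pat.mk 0x40000001e000000000000000000000000 0x20000000b0000003f0000001e000000340000001400000010 7 6) 0 0 (step_sound _ 129 [(rh3244c3cc8379b070.shift 0 3), rhc92198040e0d9308] (by decide +kernel))
noncomputable def rh77ceb2310b49436d : CRef := CRef.mk (Pat.mk 0x100000007800000000 0x1c0000001c0000001f0000003c00000078000000cc 7 8) 0 0 (step_sound _ 3 [(rheb0810cc63b001d8.shift 2 0), rhf9cbedad2c07d77e] (by decide +kernel))
noncomputable def rh3abc55f4ed11423e : CRef := CRef.mk (Pat.mk 0x40000001e00000000000000000000000000000000 0x4000000040000003c0000001e0000003f000000380000003800000010 7 6) 0 0 (step_sound _ 164 [(rh33e738c4ed385b9f.shift 1 4), rh38d2414eb6c87d93] (by decide +kernel))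
noncomputable def rh1d7fb3adaf9b33d8 : CRef := CRef.mk (Pat.mk 0x8000000380000000800000000 0x10000001d0000001f0000000f0000003f0000007f00000012 7 7) 0 0 (step_sound _ 33 [(rh8bf8257c7eeda352.shift 0 1), rha9be0adf3ebb44e4, (rhbb229bad87965364.shift 1 1), (rhfb815e3afead425a.shift 0 1)] (by decide +kernel))
noncomputable def rh503f2adce6a035e1 : CRef := CRef.mk (Pat.mk 0x20000000e0000000200000000000000000 0x2000000020000001ae000000fe000001ff000000e000000040 7 9) 0 0 (step_sound _ 100 [(rh0a31c7f562fb8d12.shift 2 2), (rh41da9e955b195f6a.shift 0 2), (rh89b6c778977a31d6.shift 3 0), (rhea1340b67290dc8c.shift 2 0), (rhf93e7885282cbc00.shift 3 0)] (by decide +kernel))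
noncomputable def rh5d95b0534bf06424 : CRef := CRef.mk (Pat.mk 0x40000001c0000000800000000000000000000000000000000 0x80000000a0000001f0000001c000001ff000000fc000001fc0000003000000030 7 9) 0 0 (step_sound _ 99 [rh4114b01020ba7164, (rh7b1f1fb55310c477.shift 2 2)] (by decide +kernel))
noncomputable def rh4a230e63a2acaf4b : CRef := CRef.mk (Pat.mk 0x20000000e00000004000000000 0x1000000010000000770000007e000001ff000000e0000000e0000000a0 7 9) 0 0 (step_sound _ 133 [(rh2145e1d24b96a57e.shift 5 1), rh4f6aeac8b3b9f250] (by decide +kernel))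
noncomputable def rh87cdd973a645791f : CRef := CRef.mk (Pat.mk 0x8000000380000000000000000 0x6000000060000007f0000003f0000000f00000008 7 7) 0 0 (step_sound _ 66 [(rh1efbca428b37b99e.shift 0 1), (rh775ca1963e850b80.shift 0 1), (rh915c3ff3d4fe3a39.shift 0 2), (rhc716fa0c5a501e6e.shift 1 0)] (by decide +kernel))
noncomputable def rhd2eb9493c0481fb0 : CRef := CRef.mk (Pat.mk 0x800000038000000000000000000000000 0x68000000680000007f0000003f000000700000001000000010 7 7) 0 0 (step_sound _ 98 [(rh6c884c7d9712aaa5.shift 1 0), (rh81d0b70d3e3cb784.shift 1 1), (rh915c3ff3d4fe3a39.shift 0 3), (rhce71534e51e0a15e.shift 1 0)] (by decide +kernel))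
noncomputable def rh8c84bef6614c92d4 : CRef := CRef.mk (Pat.mk 0x40000001e0000000000000000 0x340000003c000000370000001e0000003b00000008 7 6) 0 0 (step_sound _ 97 [rh28baa80635ff62c7, (rh3244c3cc8379b070.shift 0 2)] (by decide +kernel))
noncomputable def rhb8ce111b886f77e9 : CRef := CRef.mk (Pat.mk 0x1e00000000000000000000000000000000 0x10000000380000001e0000003f000000380000003800000010 7 6) 0 0 (step_sound _ 100 [rh65e2059d0993c55e, (rhe25b0a99195a5d59.shift 1 3)] (by decide +kernel))
noncomputable def rh6c698f34a60f9a07 : CRef := CRef.mk (Pat.mk 0x40000001c000000080000000000000000 0x100000007a0000007f0000001c0000001c0000001c0000001c 7 7) 0 0 (step_sound _ 35 [(rh7b1f1fb55310c477.shift 2 0), rhfd81a79d1a4c48b7] (by decide +kernel))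
noncomputable def rhc1396d26a811e7d9 : CRef := CRef.mk (Pat.mk 0x80000003800000010000000000000000000000000 0x4000000040000002f0000007f0000007f00000038000000fe000000e80000002000000020 7 8) 0 0 (step_sound _ 195 [(rh2145e1d24b96a57e.shift 3 3), rh9be3c9b1ad905401] (by decide +kernel))
noncomputable def rh19b1a3033a86968e : CRef := CRef.mk (Pat.mk 0x40000001e000000000000000000000000 0x40000000c0000003f0000001e0000003f0000001800000018 7 6) 0 0 (step_sound _ 129 [(rh3244c3cc8379b070.shift 0 3), rh7c5ca5f902cac51c] (by decide +kernel))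
noncomputable def rhe183770f0381634e : CRef := CRef.mk (Pat.mk 0x40000001e000000000000000000000000 0x140000003c0000003f0000001e0000000c0000000800000008 7 6) 0 0 (step_sound _ 129 [(rh3244c3cc8379b070.shift 0 3), (rh64150d09d67c97e8.shift 1 0)] (by decide +kernel))
noncomputable def rh7f681f7deca11bc8 : CRef := CRef.mk (Pat.mk 0x40000001e000000000000000000000000 0x40000001c0000003c0000000f0000001e0000003f0000001c0000001c 7 6) 0 0 (step_sound _ 129 [rh1778389b82dd8001, (rh3244c3cc8379b070.shift 0 3)] (by decide +kernel))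
noncomputable def rhad332c2375999b13 : CRef := CRef.mk (Pat.mk 0x40000001e00000000 0x20000000380000003c0000003c0000003f0000001e00000033 7 6) 0 0 (step_sound _ 65 [(rh3244c3cc8379b070.shift 0 1), rhfeccb332d154eed5] (by decide +kernel))
noncomputable def rhfc4daf8a709436c2 : CRef := CRef.mk (Pat.mk 0x40000001e0000000000000000 0x380000003c000000370000001e0000003800000008 7 6) 0 0 (step_sound _ 36 [rh13fa06513c7b490d, (rhe25b0a99195a5d59.shift 1 1)] (by decide +kernel))
noncomputable def rha0735ddda7880a4a : CRef := CRef.mk (Pat.mk 0x100000007000000020000000000000000 0x2000000060000001e0000001f00000007000000070000000700000007 7 5) 0 0 (step_sound _ 33 [rh6612fdc5c221adb8, rh7b1f1fb55310c477] (by decide +kernel))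
noncomputable def rh3074190977a2f597 : CRef := CRef.mk (Pat.mk 0x8000000380000001000000000 0x10000001f8000000f8000001ff000000380000003800000008 7 9) 0 0 (step_sound _ 131 [(rh2145e1d24b96a57e.shift 3 1), rhc1a30b6d98400f57] (by decide +kernel))
noncomputable def rhda6a4ec03cd9473a : CRef := CRef.mk (Pat.mk 0x2000000020000000200000002000000000000000000000000 0x2000000020000000300000003000000070000001f0000000600000002 7 5) 0 0 (step_sound _ 66 [rh27f838cf3bca6558, (rhd3458b32566d63f7.shift 1 2)] (by decide +kernel))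
noncomputable def rh4f39cd11514ea04a : CRef := CRef.mk (Pat.mk 0x200000002000000020000000200000000 0x500000007000000070000000200000002000000060000000700000005 7 3) 0 0 (step_sound _ 0 [rh20e56a1196e70fcc, rh79877ebd3ef475dd] (by decide +kernel))
noncomputable def rh38f0a40d648649ba : CRef := CRef.mk (Pat.mk 0x400000004000000040000000400000000 0x3a0000007f0000003e0000000c0000000c00000008 7 7) 0 0 (step_sound _ 35 [(rh55afc6a59410cf00.shift 2 0), (rh640d71fdb5552032.shift 0 1)] (by decide +kernel))
noncomputable def rh9b4615d46c56f401 : CRef := CRef.mk (Pat.mk 0x40000001e0000000000000000 0x3000000030000003f0000001e0000003700000004 7 6) 0 0 (step_sound _ 36 [rh11099532fbb2b1ee, (rhe25b0a99195a5d59.shift 1 1)] (by decide +kernel))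
noncomputable def rh30974f4ad437e334 : CRef := CRef.mk (Pat.mk 0x18000000580000000000000000 0x4000000070000003f0000007b0000000200000002 7 7) 0 0 (step_sound _ 98 [(rh2fe78cc5ca4405d8.shift 2 2), rh7160d4f3bced5753] (by decide +kernel))
noncomputable def rhdd1e4d629bfe4666 : CRef := CRef.mk (Pat.mk 0x18000000580000000000000000 0xc0000001c0000001f00000038000000780000001c00000014 7 7) 0 0 (step_sound _ 131 [rh133e6d2265e72c2b, (rh55a1f6c57a317ce6.shift 3 0), (rh7b6317ac97b26f40.shift 2 0)] (by decide +kernel))
noncomputable def rh4b43957e7b286306 : CRef := CRef.mk (Pat.mk 0x18000000580000000000000000 0x80000001c0000001f000000380000007f0000001c00000014 7 7) 0 0 (step_sound _ 131 [rh133e6d2265e72c2b, (rh55a1f6c57a317ce6.shift 3 0), (rhe2d7daae1577d340.shift 0 1)] (by decide +kernel))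
noncomputable def rh77c7c74326b6f607 : CRef := CRef.mk (Pat.mk 0x10000000100000005800000000 0x3e0000007e0000007e0000001f0000007800000010 7 7) 0 0 (step_sound _ 67 [(rh6609c8b2261018fb.shift 1 0), (rh77aff2a1b006188a.shift 0 1), (rh9dbc063ae34b2487.shift 1 1)] (by decide +kernel))
noncomputable def rhbad407c8b75b6301 : CRef := CRef.mk (Pat.mk 0x2000000020000000b00000000000000000 0x1000000018000003de000001f8000001bf000000fc000001b800000128 7 10) 0 0 (step_sound _ 132 [(rh0a98afe4bcd74a13.shift 1 0), (rh1e0ec58211c11fdd.shift 1 0), rh4520e9820771de9d, (rhf9a6286f1d5377a2.shift 4 1)] (by decide +kernel))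
noncomputable def rhb88097abd825bbaf : CRef := CRef.mk (Pat.mk 0x280000002c0000000000000000 0x140000001c0000001c0000003f000000780000002f0000002c00000028 7 7) 0 0 (step_sound _ 100 [(rh18965a982d73c794.shift 2 2), rhc8a442d291505582] (by decide +kernel))
noncomputable def rh1f5fbc513a7067c2 : CRef := CRef.mk (Pat.mk 0x140000001600000000000000000000000000000000 0xa0000002e0000003f0000003e000000340000001e00000036000000300000002000000020 7 6) 0 0 (step_sound _ 100 [(rh8ea6c0d07de6dadc.shift 0 1), (rh9548c07d1d1f2a1b.shift 1 2), (rh9765e413c7f50252.shift 1 0), (rhabf575676fe0ef70.shift 1 3)] (by decide +kernel))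
noncomputable def rhac2a70f2d843e1dc : CRef := CRef.mk (Pat.mk 0x280000002c0000000000000000 0x140000001c0000005c000000ff000000380000003f0000006c00000068 7 8) 0 0 (step_sound _ 100 [(rh9e7e7b49458a0344.shift 2 0), rhc8a442d291505582, (rheea1a90336e79c71.shift 0 2)] (by decide +kernel))
noncomputable def rhe42aab49f2b1a212 : CRef := CRef.mk (Pat.mk 0x180000002c0000000000000000 0x140000001c0000001c0000003f000000780000002f0000002c00000028 7 7) 0 0 (step_sound _ 101 [(rh18965a982d73c794.shift 2 2), rhc8a442d291505582] (by decide +kernel))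
noncomputable def rhd8f1731d149f5616 : CRef := CRef.mk (Pat.mk 0x30000000180000000000000000 0x34000000fe0000007f0000003f0000001f0000001800000010 7 8) 0 0 (step_sound _ 99 [rh0b4ad58a5a32b9b5, (rh6debbd67fcc4bc13.shift 0 1), (rh97bd6afcb82e49db.shift 1 0), (rha8eebfb938200309.shift 1 0)] (by decide +kernel))
noncomputable def rh08947af30b5bc3a8 : CRef := CRef.mk (Pat.mk 0x40000001e00000000 0x600000007000000070000003f0000001e00000003 7 6) 0 0 (step_sound _ 65 [rh20c611a3f80c80e9, (rh3244c3cc8379b070.shift 0 1)] (by decide +kernel))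
noncomputable def rh6c681948e6fd47d9 : CRef := CRef.mk (Pat.mk 0x40000001e00000000000000000000000000000000 0x60000000f0000001e0000003f0000003c0000001c00000010 7 6) 0 0 (step_sound _ 161 [rh0ea8228e9d67000f, (rh3244c3cc8379b070.shift 0 4)] (by decide +kernel))
noncomputable def rhbcf864648fea83b0 : CRef := CRef.mk (Pat.mk 0x8000000040000001c000000000000000000000000 0x8000000180000007c0000000f0000001c0000001c0000001c00000018 7 7) 0 0 (step_sound _ 131 [(rh1e309b005ffa1b36.shift 2 1), (rh571950d89739e871.shift 2 2), rh99ca85524cf49d6d] (by decide +kernel))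
noncomputable def rh1a1b474fc4519091 : CRef := CRef.mk (Pat.mk 0x8000000040000001c000000000000000000000000 0x18000000180000007c0000001f0000001c0000000c0000000c0000000c 7 7) 0 0 (step_sound _ 131 [rh04991608236951db, (rh1e309b005ffa1b36.shift 2 1), rhf762cbba6fa7cf86] (by decide +kernel))
noncomputable def rh426f465845ebab81 : CRef := CRef.mk (Pat.mk 0x20000000100000007000000000000000000000000 0xe0000001f00000007000000070000001f0000000f00000002 7 5) 0 0 (step_sound _ 129 [(rh1e309b005ffa1b36.shift 0 1), rhf2fe72611b5a5aa5] (by decide +kernel))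
noncomputable def rhf30c1e6d009e898e : CRef := CRef.mk (Pat.mk 0x8000000040000001c0000000000000000 0xa0000000a0000007f0000007f0000001c0000001400000004 7 7) 0 0 (step_sound _ 99 [(rh1e309b005ffa1b36.shift 2 0), (rh571950d89739e871.shift 2 1), rhc28bbb97c240e1de] (by decide +kernel))
noncomputable def rh0914a34858d55481 : CRef := CRef.mk (Pat.mk 0x8000000040000001c000000000000000000000000 0x18000000180000007c0000001f0000001c000000180000001800000018 7 7) 0 0 (step_sound _ 131 [rh04991608236951db, (rh571950d89739e871.shift 2 2), rhf903d106a34ea049] (by decide +kernel))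
noncomputable def rhcb6272275cf332f5 : CRef := CRef.mk (Pat.mk 0x100000000800000038000000000000000000000000 0x60000000fe000000ff00000038000000f80000007800000038 7 8) 0 0 (step_sound _ 68 [(rh1e5909c4406fae42.shift 1 1), (rh45b557985391e7aa.shift 3 0), (rh7e1098702e50f2b0.shift 3 0), rh849b47c541b974cd, (rhba19319f36dbedcf.shift 3 0)] (by decide +kernel))
noncomputable def rh00e00ff049c5d707 : CRef := CRef.mk (Pat.mk 0x200000001000000070000000000000000000000000 0x28000003ef000001fe000003df00000070000000700000003000000020 7 10) 0 0 (step_sound _ 164 [(rh6bc015b9268c8423.shift 1 1), (rh8b45467be837d979.shift 3 0), (rhae5026e79b7140ea.shift 3 2), (rhbf78d422a0f08020.shift 0 2), (rhd201c38879a29b06.shift 1 0)] (by decide +kernel))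
noncomputable def rhb97fa052b3ec9647 : CRef := CRef.mk (Pat.mk 0x80000002c000000000000000000000000 0x68000000680000007f0000003f000000700000001000000010 7 7) 0 0 (step_sound _ 100 [(rh6c884c7d9712aaa5.shift 1 0), (rh915c3ff3d4fe3a39.shift 0 3), (rhce71534e51e0a15e.shift 1 0), (rhfea0fea4ed7ddc52.shift 1 1)] (by decide +kernel))
noncomputable def rh19c9d21a36ae6e0a : CRef := CRef.mk (Pat.mk 0x2000000020000000b0000000000000000000000000 0x20000000200000003f000000fe000001ee0000004000000040 7 9) 0 0 (step_sound _ 102 [(rh25ff187e1daa8765.shift 0 2), (rh42c212064b599c2b.shift 3 0), (rh70e33bfdf511e144.shift 5 0)] (by decide +kernel))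
noncomputable def rh7dde867c30cef780 : CRef := CRef.mk (Pat.mk 0x8000000080000002c0000000000000000000000000000000000000000 0x40000000c0000000e0000003f0000007f000000180000001c0000001c00000004 7 7) 0 0 (step_sound _ 131 [(rh1052b810c4873782.shift 0 3), (rh2c9da192bea44cf6.shift 2 2), (rhaa4d9de99c4ea825.shift 0 3), (rhb9e89de64b312c71.shift 2 0)] (by decide +kernel))
noncomputable def rhe6dd04769af9cee7 : CRef := CRef.mk (Pat.mk 0x100000007800000000 0x1c0000001c0000001f0000003c00000078000000cc 7 8) 0 0 (step_sound _ 67 [(rh3244c3cc8379b070.shift 2 1), rh6d4207a97f207e16] (by decide +kernel))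
noncomputable def rh51428fcbc2c10aae : CRef := CRef.mk (Pat.mk 0x280000002c0000000000000000 0x140000001c0000005c0000005c0000006f0000007c0000002c0000007c00000030 7 7) 0 0 (step_sound _ 131 [(rh01581fe89764e3eb.shift 2 1), (rh4b7a8cfc3cce41f7.shift 2 1), rh5eea23cb438a2e83, (rh9fa445a5f4501b92.shift 2 1)] (by decide +kernel))
noncomputable def rh99655a712e2401c0 : CRef := CRef.mk (Pat.mk 0x14000000160000000000000000000000000000000000000000 0x17000000170000001f0000001e000000ff000000fc000000380000003800000008 7 8) 0 0 (step_sound _ 132 [(rh3f02cddf92d01b11.shift 1 1), rh60552ac4cab47f63, (rh9765e413c7f50252.shift 1 1), (rhc4a06addece4f681.shift 0 3), (rhd7669ad5e58833d0.shift 1 3)] (by decide +kernel))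
noncomputable def rha31262a14017c993 : CRef := CRef.mk (Pat.mk 0x1e00000000000000000000000000000000 0x10000000380000001e0000003f000000380000003800000010 7 6) 0 0 (step_sound _ 164 [(rh33e738c4ed385b9f.shift 1 4), rhadf53440a5112b6a] (by decide +kernel))
noncomputable def rh34e07e208ad604d9 : CRef := CRef.mk (Pat.mk 0xc0000000c000000000000000000000000 0xc0000000c0000000c0000000c0000000f0000007c0000001800000018 7 7) 0 0 (step_sound _ 67 [(rh3cb04db3dd2b6a55.shift 2 0), (rhb622a35534886a81.shift 0 1), (rhb8538ce4e5e6cda1.shift 2 0)] (by decide +kernel))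
noncomputable def rh3a8eac3096587f31 : CRef := CRef.mk (Pat.mk 0x1800000018000000000000000000000000 0x40000000600000007000000ff0000001f0000000f0000000700000002 7 8) 0 0 (step_sound _ 130 [rh48719e6d2350a00f, (rh7160d4f3bced5753.shift 0 1), (rh915f6511d37f58de.shift 0 1), (rh92e1a33d56d48131.shift 0 3), rh9e32231d7004bb35, (rhcd4d16d28964fbaf.shift 0 1), (rhdaf210947b47bcf0.shift 0 3)] (by decide +kernel))
noncomputable def rh6ced4877f2f5d981 : CRef := CRef.mk (Pat.mk 0x20000000f00000000000000000000000000000000 0xe0000000e0000001e0000000f0000001c0000001c0000001c00000018 7 5) 0 0 (step_sound _ 99 [rh3866ada3c180ef8d, (rhe25b0a99195a5d59.shift 0 3)] (by decide +kernel))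
noncomputable def rh97ce1f55c0859599 : CRef := CRef.mk (Pat.mk 0x40000001e0000000000000000 0x380000003c000000370000001e0000003800000008 7 6) 0 0 (step_sound _ 97 [(rh3244c3cc8379b070.shift 0 2), (rhee1e69a218cb81f4.shift 1 0)] (by decide +kernel))
noncomputable def rhbae46ee91f480253 : CRef := CRef.mk (Pat.mk 0x20000000f00000000000000000000000000000000 0xe0000000e0000001e0000000f0000001c0000001c0000001c00000018 7 5) 0 0 (step_sound _ 163 [(rh33e738c4ed385b9f.shift 0 4), rh35cf7cb1cf4c4847] (by decide +kernel))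
noncomputable def rhe0abc98a866aab07 : CRef := CRef.mk (Pat.mk 0x18000000180000000000000000 0x40000000c0000000f0000001f0000007f0000001f0000000f00000004 7 7) 0 0 (step_sound _ 66 [(rhab2ad169e49f9c5e.shift 0 2), rhbb7213d4724395ac, (rhdd9f2ddd6479cc91.shift 0 1)] (by decide +kernel))
noncomputable def rhe3b505083822b510 : CRef := CRef.mk (Pat.mk 0xc0000002c000000000000000000000000 0x500000007c0000007c0000007c0000007f0000002e000000740000007000000050 7 7) 0 0 (step_sound _ 133 [rh082f85bb0581bbbf, (rh131b734881692307.shift 1 1), (rhd11dc6dd83191698.shift 1 3)] (by decide +kernel))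
noncomputable def rhf11c5ba019a20808 : CRef := CRef.mk (Pat.mk 0x1800000018000000000000000000000000 0xe0000000f0000007f0000007f0000001f000000070000000600000006 7 7) 0 0 (step_sound _ 98 [rh775e26390b33e91e, (rhab2ad169e49f9c5e.shift 0 3), (rhbb7213d4724395ac.shift 0 1)] (by decide +kernel))
noncomputable def rh990458887e325e72 : CRef := CRef.mk (Pat.mk 0x18000000180000000000000000 0x1e0000001e0000003f0000003f0000001f0000000c00000004 7 6) 0 0 (step_sound _ 66 [rh277121e2569ce585, (rhab2ad169e49f9c5e.shift 0 2)] (by decide +kernel))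
noncomputable def rhfcfd8968a26b8344 : CRef := CRef.mk (Pat.mk 0xc0000000c00000000 0x1e0000007f0000007f0000007c0000000f00000006 7 7) 0 0 (step_sound _ 68 [rh4686268135b0c6a4, (rh4dc133ee0ba1420a.shift 0 1), (rh6041f88366bdc338.shift 1 0)] (by decide +kernel))
noncomputable def rh4aebedfe7553b12c : CRef := CRef.mk (Pat.mk 0x18000000580000000000000000 0x3e000000fe000000ff000000df0000005f0000004c00000004 7 8) 0 0 (step_sound _ 132 [(rh503dd4575245365b.shift 3 1), rh5425139f2b482988, (rh9dbc063ae34b2487.shift 1 2)] (by decide +kernel))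
noncomputable def rhaff591c19a62c9e4 : CRef := CRef.mk (Pat.mk 0x180000001800000000 0x40000003e000000fe000000ff000000ff0000001800000008 7 8) 0 0 (step_sound _ 100 [(rh503dd4575245365b.shift 3 0), (rh9dbc063ae34b2487.shift 1 1), rhda4e9455dee18a89] (by decide +kernel))
noncomputable def rh7fd7bc6f1c594c06 : CRef := CRef.mk (Pat.mk 0x18000000180000000000000000 0x1e0000001e0000007f0000007f0000001f0000000c00000004 7 7) 0 0 (step_sound _ 66 [rh277121e2569ce585, (rha8b69ffea06e7371.shift 0 1), (rhab2ad169e49f9c5e.shift 0 2)] (by decide +kernel))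
noncomputable def rh560578794b3d1801 : CRef := CRef.mk (Pat.mk 0x8000000080000003800000000000000000000000000000000 0x8000000780000003f0000007f000000700000007000000020 7 7) 0 0 (step_sound _ 100 [(rh08edf065357d68e5.shift 3 1), (rh79ad7b82ec8c35e2.shift 3 1), rh84fffc850f662892] (by decide +kernel))
noncomputable def rha1b5793c47f9bf9d : CRef := CRef.mk (Pat.mk 0x8000000080000002800000000 0x10000000f4000000ff000000ff000000780000002c0000002c 7 8) 0 0 (step_sound _ 132 [rh2c1d44fb23fc74d4, rh5e6a98eb34d3ade5, (rh87d5e4118780fa3b.shift 3 0), (rhcd6e8ab92f0a4103.shift 3 0), (rhddeb6c77df17d2f0.shift 0 1)] (by decide +kernel))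
noncomputable def rhc73ba7893beaeff1 : CRef := CRef.mk (Pat.mk 0x300000001000000050000000000000000000000000 0x1cf000000fe000000f700000050000000700000003000000020 7 9) 0 0 (step_sound _ 163 [(rh1f277339360ff52c.shift 0 4), (rh338385865bbd87ac.shift 3 0), (rh3c854e66629c2f4d.shift 0 2), (rhf2b1f500f996bfff.shift 0 2)] (by decide +kernel))
noncomputable def rhe97f5be65276db9f : CRef := CRef.mk (Pat.mk 0x1800000008000000280000000000000000 0x30000000f0000000ff000000f80000003c0000007000000070 7 8) 0 0 (step_sound _ 100 [(rh03e1d4b712fd50ef.shift 3 0), (rh271eed173f9dbe26.shift 0 1), (rh5356f6e24c0ee7be.shift 3 0), (rhbf17779b0fc4377b.shift 2 0), (rhcad16442e77c9f8c.shift 2 0), (rhebf35a042793fb4d.shift 2 0)] (by decide +kernel))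
noncomputable def rhd4df7dda5ef11e8f : CRef := CRef.mk (Pat.mk 0x8000000080000002800000000 0x14000000fc0000007f000000ff0000000e0000003c00000014 7 8) 0 0 (step_sound _ 131 [(rh3d0ad82b26bacea7.shift 2 0), (rh3f0b5051c9324cf3.shift 0 1), (rh565a0c22519f57e9.shift 2 0), (rh73ba6c579e4b229a.shift 1 0)] (by decide +kernel))
noncomputable def rha7aa6775e94c5b7c : CRef := CRef.mk (Pat.mk 0x6000000020000000a00000000 0x4000000040000007c0000003e0000007b0000000a0000000a 7 7) 0 0 (step_sound _ 130 [(rh71222050f2c63a3a.shift 1 0), rh8c90f084993f6398] (by decide +kernel))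
end Crest.Agent.S0047.Helper85.Cert
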