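import Crest.Agent.Lib.S0047.Helper85CertPL6F0
import Crest.Agent.Lib.S0047.Helper85CertPL6F1
import Crest.Agent.Lib.S0047.Helper85CertPL6F2
import Crest.Agent.Lib.S0047.Helper85CertPL6F3
import Crest.Agent.Lib.S0047.Helper85CertPL6F4
import Crest.Agent.Lib.S0047.Helper85CertPL6F5
import Crest.Agent.Lib.S0047.Helper85CertPL6F6
import Crest.Agent.Lib.S0047.Helper85CertPL6F7
import Crest.Agent.Lib.S0047.Helper85CertPL6F8
import Crest.Agent.Lib.S0047.Helper85CertPL6F9
import Crest.Agent.Lib.S0047.Helper85CertPL6F10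
import Crest.Agent.Lib.S0047.Helper85CertPL6F11
import Crest.Agent.Lib.S0047.Helper85CertPL6F12
set_option autoImplicit false
set_option linter.all false
set_option Elab.async false
namespace Crest.Agent.S0047.Helper85.Cert
open Crest.Agent.S0047.Helper85

noncomputable def rha32843fe711a5e93 : CRef := CRef.mk (Pat.mk 0x300000001000000050000000000000000000000000 0x8000001cf000000ff000001df00000078000000780000003000000020 7 9) 0 0 (step_sound _ 163 [(rh3c854e66629c2f4d.shift 0 2), (rh4d70ad3a28dea5ac.shift 0 1), (rhbb0d784aa99aa5e4.shift 2 3), (rhd1779d7de7f8215b.shift 3 0)] (by decide +kernel))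
noncomputable def rhf3a8db67953b4e1a : CRef := CRef.mk (Pat.mk 0x18000000080000002800000000 0x1000000054000000f70000007e000001ef0000002800000020 7 9) 0 0 (step_sound _ 101 [(rh2820ca9a6c4f41b4.shift 0 2), rh4eb487d48940ced9, (rh666bf15668ead765.shift 2 0), (rhbd8830bb1634bc78.shift 2 0)] (by decide +kernel))
noncomputable def rhaeeffdd867c987a8 : CRef := CRef.mk (Pat.mk 0x38000000280000000000000000 0x1000000010000001f7000001fe000003b80000002800000028 7 10) 0 0 (step_sound _ 132 [rh24b74d5a84f7ffbd, (rha40d42a2e34c408d.shift 4 0), (rhdabfcd0659c2d3c8.shift 3 0)] (by decide +kernel))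
noncomputable def rh65131d6e02eb5ff0 : CRef := CRef.mk (Pat.mk 0xa0000000e00000000000000000000000000000000 0x1c0000003c0000000e0000000f0000003e0000007c0000001c00000018 7 7) 0 0 (step_sound _ 98 [rh82e8511cdfbaa2d2, (rh9f21c63603972fc2.shift 0 2), (rhcf80391c5046a495.shift 2 1), (rhf9366b6a121593ef.shift 2 1)] (by decide +kernel))
noncomputable def rh53a18f0d52a29a7f : CRef := CRef.mk (Pat.mk 0x38000000280000000000000000 0x500000007000000070000000770000003e000000380000001800000008 7 7) 0 0 (step_sound _ 98 [(rh00f1bb10334541e3.shift 0 3), (rh94370570d6cb9702.shift 1 0), (rha4e794e69630f173.shift 1 2), (rhd1d05263fabc0227.shift 0 2)] (by decide +kernel))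
noncomputable def rh64bb5d653a25cc3b : CRef := CRef.mk (Pat.mk 0x7000000050000000000000000 0x20000000e0000001e00000007000000070000001f0000000f 7 5) 0 0 (step_sound _ 129 [rh4464f26b0ce85aec, rh7d0322e2c55dccc0, rhdabfcd0659c2d3c8] (by decide +kernel))
noncomputable def rh499a0880e57a95dc : CRef := CRef.mk (Pat.mk 0x1000000014000000140000000000000000 0x800000018000000f80000001f0000001c0000007c0000003c 7 8) 0 0 (step_sound _ 99 [(rh1fb9f69a339ca42b.shift 2 0), rh3e09f998c8e94702, (rhff7d63dcb3cf9f74.shift 1 3)] (by decide +kernel))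
noncomputable def rheb919ed5efcf2704 : CRef := CRef.mk (Pat.mk 0x80000000a00000008000000000000000000000000 0x10000000780000001f000000080000001c0000001c00000014 7 7) 0 0 (step_sound _ 67 [(rh3181373a30ceb9e3.shift 2 0), (rh367118e0bf0473e0.shift 2 0), (rhc9de03f9731897d4.shift 3 0), (rhdef8b7208c70155f.shift 0 1)] (by decide +kernel))
noncomputable def rh5e45aac5e9a4c8bd : CRef := CRef.mk (Pat.mk 0x20000000280000002800000000 0x500000007f0000007e000001f70000003e0000003800000018 7 9) 0 0 (step_sound _ 133 [(rh7ef5fa5c39f1c762.shift 4 1), (rha94490687c60c4d4.shift 1 0), rhb929f30e6b460713] (by decide +kernel))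
noncomputable def rh90cf9cbbb37e541b : CRef := CRef.mk (Pat.mk 0x2800000028000000000000000000000000 0x10000000700000007000000070000001f00000007c0000002f000000700000007000000050 7 9) 0 0 (step_sound _ 132 [(rh2820ca9a6c4f41b4.shift 0 3), (rh36798a378d8ab7d6.shift 2 0), (rhd8b43b15431aaa50.shift 2 1)] (by decide +kernel))
noncomputable def rhe59bed370765b41a : CRef := CRef.mk (Pat.mk 0x80000000800000008000000000000000000000000 0x180000001c0000001c0000001f0000007c0000001800000008000000180000001800000010 7 7) 0 0 (step_sound _ 194 [(rh114f4abf4ea101c9.shift 2 2), (rh394de32dd649c69c.shift 0 3), (rh3fdfff57602df0d6.shift 2 0), (rhbec796c3ea7a32e6.shift 1 2), (rhdc17cc499b796620.shift 2 2)] (by decide +kernel))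
noncomputable def rh3ff912d5eb808ee2 : CRef := CRef.mk (Pat.mk 0x80000000800000028000000000000000000000000 0x100000003000000078000000fe000000ff00000038000000380000003800000010 7 8) 0 0 (step_sound _ 164 [(rh215e11e099257d75.shift 3 2), (rh3820f35d5e705bec.shift 3 0), rh442f73445388ad58, (rh8e4ac3d6459a37b7.shift 1 1), (rhe3458ab40071103b.shift 3 2)] (by decide +kernel))
noncomputable def rhf47a1b6fc34d1bf4 : CRef := CRef.mk (Pat.mk 0x1000000010000000500000000000000000 0x2000000028000000ff000000ff000000fe000000700000005000000010 7 8) 0 0 (step_sound _ 133 [rh07a08997ef6c0acb, (rh215e11e099257d75.shift 4 1), (rhcb2d38ed57a5e3f0.shift 1 1), (rhd2b286e370d4a8f3.shift 3 0), (rhe3458ab40071103b.shift 4 1)] (by decide +kernel))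
noncomputable def rhf559503f3c1580bd : CRef := CRef.mk (Pat.mk 0x400000004000000140000000000000000 0xe0000000e0000000e00000006000000070000003f0000001c0000000c0000000c 7 6) 0 0 (step_sound _ 162 [(rh20e56a1196e70fcc.shift 1 1), (rh46baee19951a66e7.shift 1 0), (rhfb657409fbb16679.shift 1 1), rhff4bed93a55221e9] (by decide +kernel))
noncomputable def rhac65f88401e6e3bc : CRef := CRef.mk (Pat.mk 0x8000000080000000800000000 0x14000000fc0000007f000000ff000000180000001800000010 7 8) 0 0 (step_sound _ 131 [(rh2a53351fac336ea2.shift 0 1), (rh3d0ad82b26bacea7.shift 2 0), (rh8065c10b3cae6218.shift 2 0), (rhced6d86d2069808b.shift 3 0)] (by decide +kernel))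
noncomputable def rh7ee055014f06f871 : CRef := CRef.mk (Pat.mk 0x200000002000000020000000000000000000000000 0x57000000fe000001ff00000020000000600000006000000040 7 9) 0 0 (step_sound _ 69 [(rh46baee19951a66e7.shift 4 0), (rhb0ff66fc98a76f96.shift 0 1), (rhc4055b4872d6fb38.shift 4 1), (rhc9de03f9731897d4.shift 5 0)] (by decide +kernel))
noncomputable def rhda5a56710e4ad36d : CRef := CRef.mk (Pat.mk 0x800000008000000280000000000000000 0x1c0000001c0000001c000000380000007f0000007f0000002f0000002c00000008 7 7) 0 0 (step_sound _ 163 [(rh1726a00b0a8befd0.shift 2 1), (rh20966da26a1c2ae8.shift 2 1), rh2c55c442bf35f39a, (rh4248975bc02bd4c9.shift 2 1), (rha115f1711c7e99d7.shift 0 1)] (by decide +kernel))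
noncomputable def rhb85afe4b3a20cb4b : CRef := CRef.mk (Pat.mk 0x80000000800000008000000000000000000000000 0x140000001c0000001c0000000c0000001f0000007c0000000f0000007c0000001800000018 7 7) 0 0 (step_sound _ 98 [(rh038de9f6952c0fd9.shift 2 2), rh2e54325d3798cb0c, rh83ba358531ae3684, (rhb89b91c9b7605c84.shift 0 1), (rhc9b7a010d6829066.shift 2 2)] (by decide +kernel))
noncomputable def rhfabcd6ff1cb7e474 : CRef := CRef.mk (Pat.mk 0x8000000080000000800000000 0x14000000fc0000007f000000ff0000000c0000000c00000004 7 8) 0 0 (step_sound _ 131 [(rh20966da26a1c2ae8.shift 2 0), (rh2a53351fac336ea2.shift 0 1), (rh565a0c22519f57e9.shift 2 0), (rhc85cc95794737cf7.shift 2 1)] (by decide +kernel))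
noncomputable def rh9b6ca38d6686d638 : CRef := CRef.mk (Pat.mk 0x800000028000000000000000000000000 0x140000001c000000ff0000007f000000ff0000003f0000003c0000001800000010 7 8) 0 0 (step_sound _ 163 [(rh2c5df723d73d32ea.shift 1 1), (rh3441054ef6cfe4ad.shift 2 2), (rh46893a3adc383780.shift 0 2), (rh88c8a6f84c89b582.shift 1 1), (rh8ab806722c24385b.shift 2 1), rha3afc9ffd6e27371, (rhf0cff05681e7f045.shift 2 1)] (by decide +kernel))
noncomputable def rhf9625f9b1479ad1a : CRef := CRef.mk (Pat.mk 0x800000038000000000000000000000000 0x4000000160000007f0000003f000000780000002800000020 7 7) 0 0 (step_sound _ 98 [(rh0d378fd9e8917c5a.shift 0 2), (rh915c3ff3d4fe3a39.shift 0 3), (rh9a393864a4e71819.shift 1 0), (rhffc534c89a09560a.shift 0 2)] (by decide +kernel))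
noncomputable def rh84e7108cc49da642 : CRef := CRef.mk (Pat.mk 0x8000000380000000000000000 0x6000000060000007f0000003e0000007f00000008 7 7) 0 0 (step_sound _ 66 [(rh008b05f4778dc30d.shift 0 1), (rh0d378fd9e8917c5a.shift 0 1), (rh91f0da544f81d705.shift 1 0)] (by decide +kernel))
noncomputable def rhe5aa3bfbd021eb5c : CRef := CRef.mk (Pat.mk 0x800000038000000000000000000000000 0x800000008000000780000003f0000007f0000003c00000010 7 7) 0 0 (step_sound _ 98 [(rh008b05f4778dc30d.shift 0 2), (rh1efbca428b37b99e.shift 0 2), (rh8e2d24f2cc13a4f5.shift 1 0), (rhffc534c89a09560a.shift 0 2)] (by decide +kernel))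
noncomputable def rh42160def55f5199d : CRef := CRef.mk (Pat.mk 0x40000001c000000000000000000000000 0xe0000001e0000007f0000007f0000001f0000000c0000000c0000000c 7 7) 0 0 (step_sound _ 131 [(rh066b29d9577a1b4f.shift 0 1), rh6b46eca60adc2785, (rha12e69977f4105a8.shift 0 1), rhf2a579eca1a14fe0, (rhfa7a3cfe5258c148.shift 0 1)] (by decide +kernel))
noncomputable def rh0485f04cedf2c428 : CRef := CRef.mk (Pat.mk 0x800000038000000000000000000000000 0x140000001c0000003c0000007c0000001f0000003c000000f80000003800000010 7 8) 0 0 (step_sound _ 163 [(rh046c5eb18e55a239.shift 3 0), rh50eec45319a52cd0, (rh70e33bfdf511e144.shift 3 0), (rhf527cf5683b56bd8.shift 2 2)] (by decide +kernel))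
noncomputable def rh430b770ad560f4cd : CRef := CRef.mk (Pat.mk 0x20000000e0000000000000000000000000 0x1000000058000001ff000000fe000001ae000000a000000080 7 9) 0 0 (step_sound _ 100 [(rh25ff187e1daa8765.shift 0 2), (rh6887ef21f67dd26a.shift 3 0), (rh915c3ff3d4fe3a39.shift 2 3), (rh9a393864a4e71819.shift 3 0), (rha5dd842502aeeece.shift 1 2)] (by decide +kernel))
noncomputable def rhf91d23a16b3795bc : CRef := CRef.mk (Pat.mk 0x40000001c000000000000000000000000 0x8000000180000001e0000001f0000003c0000001f0000007c0000001c00000008 7 7) 0 0 (step_sound _ 67 [(rh3514345fa13e5918.shift 0 1), (rh5d54cb79a67f97ab.shift 2 0), (rh7e1098702e50f2b0.shift 2 0), rh921a7458a83a9f08] (by decide +kernel))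
noncomputable def rhaa701d422bd33803 : CRef := CRef.mk (Pat.mk 0x40000001c000000000000000000000000 0xa0000001e0000007f0000007f0000001c0000001c0000001c0000001c 7 7) 0 0 (step_sound _ 131 [rh07f481c1c554eb94, (rh1e8aceccf05fd0a3.shift 0 1), rh248ebcd6ff162f30, (rh3dbca53cd7101d1d.shift 0 1), (rhfa7a3cfe5258c148.shift 0 1)] (by decide +kernel))
noncomputable def rhfca2c8791fb29c15 : CRef := CRef.mk (Pat.mk 0x20000000e0000000000000000000000000 0x5000000070000000f0000001f0000001bf000000fe000001ee0000004000000040 7 9) 0 0 (step_sound _ 100 [(rh0d378fd9e8917c5a.shift 2 2), (rh7e9ac2978b074f75.shift 3 0), (rh846b03836510e6ec.shift 0 2), (rhce71534e51e0a15e.shift 3 0)] (by decide +kernel))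
noncomputable def rh9c359e0212f66709 : CRef := CRef.mk (Pat.mk 0x8000000380000000000000000 0x60000000600000007f0000003f0000007000000010 7 7) 0 0 (step_sound _ 66 [(rh0d378fd9e8917c5a.shift 0 1), (rh51f916e38f2d6d96.shift 1 0), (rh915c3ff3d4fe3a39.shift 0 2), (rhffc534c89a09560a.shift 0 1)] (by decide +kernel))
noncomputable def rha804fbb4afab003e : CRef := CRef.mk (Pat.mk 0x80000002c000000000000000000000000 0x4000000160000007f0000003f000000780000002800000020 7 7) 0 0 (step_sound _ 100 [(rh0d378fd9e8917c5a.shift 0 2), (rh915c3ff3d4fe3a39.shift 0 3), (rh9a393864a4e71819.shift 1 0), (rhffc534c89a09560a.shift 0 2)] (by decide +kernel))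
noncomputable def rh54bc736b4a9ec8f1 : CRef := CRef.mk (Pat.mk 0x400000016000000000000000000000000 0xe0000000f0000003f0000001e000000370000001600000010 7 6) 0 0 (step_sound _ 99 [(rh25589c5a7dee669e.shift 0 1), (rh837b431827c849c2.shift 0 1), rh9a393864a4e71819] (by decide +kernel))
noncomputable def rh3ae0e9c07d463f8e : CRef := CRef.mk (Pat.mk 0x80000002c0000000000000000 0x1800000018000000780000003f0000007f0000002c 7 7) 0 0 (step_sound _ 68 [(rh008b05f4778dc30d.shift 0 1), (rh1efbca428b37b99e.shift 0 1), (rh25589c5a7dee669e.shift 1 0), (rhffc534c89a09560a.shift 0 1)] (by decide +kernel))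
noncomputable def rhcbace447fa365f9b : CRef := CRef.mk (Pat.mk 0x1000000018000000000000000000000000 0x3c0000003c000000ff000000ff0000001f0000003c0000001c00000014 7 8) 0 0 (step_sound _ 131 [(rh03f852291cd24f8c.shift 1 1), (rh2b529d5118a60c69.shift 0 1), (rh3e7e6a622a767545.shift 0 1), (rh5292bff910d528cf.shift 1 1), (rh75564791d59f85c1.shift 0 1), rh78b595727440cc84, (rhdceccd4c96a89003.shift 1 0), (rhf96bb092f2516814.shift 0 1)] (by decide +kernel))
noncomputable def rhdd6a6b62f45deb58 : CRef := CRef.mk (Pat.mk 0x80000002c0000000000000000 0x60000000600000007f0000003f0000007000000010 7 7) 0 0 (step_sound _ 68 [(rh0d378fd9e8917c5a.shift 0 1), (rh51f916e38f2d6d96.shift 1 0), (rh915c3ff3d4fe3a39.shift 0 2), (rhffc534c89a09560a.shift 0 1)] (by decide +kernel))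
noncomputable def rh68c11fd4947142a3 : CRef := CRef.mk (Pat.mk 0x400000016000000000000000000000000 0x34000000340000003f0000001e0000003f0000001e00000008 7 6) 0 0 (step_sound _ 99 [(rh51f916e38f2d6d96.shift 0 1), (rh837b431827c849c2.shift 0 1), rh8e2d24f2cc13a4f5] (by decide +kernel))
noncomputable def rhf1f6a9d8d5fa6816 : CRef := CRef.mk (Pat.mk 0x80000002c000000000000000000000000 0x800000008000000780000003f0000007f0000003c00000010 7 7) 0 0 (step_sound _ 100 [(rh008b05f4778dc30d.shift 0 2), (rh1efbca428b37b99e.shift 0 2), (rh8e2d24f2cc13a4f5.shift 1 0), (rhffc534c89a09560a.shift 0 2)] (by decide +kernel))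
noncomputable def rhec09a27b1db5dad3 : CRef := CRef.mk (Pat.mk 0x1000000018000000000000000000000000 0x1c0000001c000000ff000000ff0000001f000000fc0000003c00000014 7 8) 0 0 (step_sound _ 131 [(rh4020672b34b89e48.shift 2 0), (rh75564791d59f85c1.shift 0 1), (rh954659dd33429b02.shift 1 0), rha85b25260649c646, (rhf96bb092f2516814.shift 0 1)] (by decide +kernel))
noncomputable def rh34e624bc113404db : CRef := CRef.mk (Pat.mk 0x40000001c000000000000000000000000 0x1c0000007c0000007f0000001c0000001f0000001e0000001c 7 7) 0 0 (step_sound _ 67 [(rh5d54cb79a67f97ab.shift 2 0), (rh7e1098702e50f2b0.shift 2 0), (rha40d42a2e34c408d.shift 2 0), (rhab6b4e0b9474951b.shift 0 1), rhff09585260278eff] (by decide +kernel))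
noncomputable def rhf912a4171d9c0e5d : CRef := CRef.mk (Pat.mk 0x1000000058000000000000000000000000 0x3c0000003c0000007e000000ff0000007e000000d80000005800000040 7 8) 0 0 (step_sound _ 131 [(rh03f852291cd24f8c.shift 1 1), (rh3e0abc328d6ecece.shift 2 0), (rh5292bff910d528cf.shift 1 1), (rh5cd9ecfe847bcb8d.shift 0 1), (rh966d81555468197c.shift 2 1)] (by decide +kernel))
noncomputable def rhd28445576ba05d4c : CRef := CRef.mk (Pat.mk 0x20000000b0000000000000000000000000 0x1000000058000001ff000000fe000001ae000000a000000080 7 9) 0 0 (step_sound _ 102 [(rh25ff187e1daa8765.shift 0 2), (rh6887ef21f67dd26a.shift 3 0), (rh915c3ff3d4fe3a39.shift 2 3), (rh9a393864a4e71819.shift 3 0), (rha5dd842502aeeece.shift 1 2)] (by decide +kernel))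
noncomputable def rh0e4dfa2fa5feacd6 : CRef := CRef.mk (Pat.mk 0x80000002c0000000000000000 0x6000000060000007f0000003f0000000f00000008 7 7) 0 0 (step_sound _ 68 [(rh11099532fbb2b1ee.shift 1 0), (rh1efbca428b37b99e.shift 0 1), (rh775ca1963e850b80.shift 0 1), (rh915c3ff3d4fe3a39.shift 0 2)] (by decide +kernel))
noncomputable def rh2ebeb9f262d124f9 : CRef := CRef.mk (Pat.mk 0x100000005800000000000000000000000000000000 0x280000003800000038000000780000001f0000007c0000001c0000001c0000000400000004 7 7) 0 0 (step_sound _ 196 [(rh317ff8bfe5a47313.shift 3 3), (rh852eadb4da3f1beb.shift 3 3), rh99dae60c7752aeaf, (rh9a1c12e64abc044e.shift 3 2), (rhc9b7a010d6829066.shift 3 3)] (by decide +kernel))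
noncomputable def rhb6dbbe286463bdd9 : CRef := CRef.mk (Pat.mk 0x100000005800000000000000000000000000000000 0x20000000380000007c000000f00000007f0000005f000000780000003000000020 7 8) 0 0 (step_sound _ 165 [rh3e49e266574f74c3, (rh69012675dfdb1a5b.shift 1 4), (rheba929f749712846.shift 2 2)] (by decide +kernel))
noncomputable def rhb217e820138082af : CRef := CRef.mk (Pat.mk 0x1000000018000000000000000000000000 0x2c0000003c000000ff000000ff0000001f0000001c0000001c00000014 7 8) 0 0 (step_sound _ 131 [(rh03f852291cd24f8c.shift 1 1), (rh2b529d5118a60c69.shift 0 1), (rh3f7f119198d7da6c.shift 0 1), rh78b595727440cc84, rh7b9476e0a4bbb9bc, (rhf6ca76c43137888c.shift 1 1), (rhf96bb092f2516814.shift 0 1)] (by decide +kernel))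
noncomputable def rh98e95283b548cb8e : CRef := CRef.mk (Pat.mk 0x8000000380000000000000000 0x60000000600000007f0000003e0000007700000010 7 7) 0 0 (step_sound _ 66 [(rh008b05f4778dc30d.shift 0 1), (rh51f916e38f2d6d96.shift 1 0), (rh775ca1963e850b80.shift 0 1)] (by decide +kernel))
noncomputable def rh328503ee13fb4de8 : CRef := CRef.mk (Pat.mk 0x80000003800000000000000000000000000000000 0x140000001c0000003c0000000f0000001c000000380000001e0000001c0000001800000008 7 6) 0 0 (step_sound _ 195 [(rh046c5eb18e55a239.shift 3 1), (rh70e33bfdf511e144.shift 3 1), (rha95a9ca7436fdd33.shift 1 0), (rhc7fafea993c2e47f.shift 0 3)] (by decide +kernel))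
noncomputable def rhf44b0085d130a797 : CRef := CRef.mk (Pat.mk 0x4000000040000001400000000 0xa0000001e0000003f0000003f0000000c0000001e0000001a 7 6) 0 0 (step_sound _ 130 [(rh12461e137161f2e1.shift 1 0), rh2b6d24ec0b9dc5a6, (rhc85cc95794737cf7.shift 1 1), (rhd7cb8ed87e2022d8.shift 1 0)] (by decide +kernel))
noncomputable def rh3922697941b0113c : CRef := CRef.mk (Pat.mk 0x100000001000000050000000000000000000000000 0x280000003c000000f0000000770000003e0000003f00000020 7 8) 0 0 (step_sound _ 68 [(rh6645e1d3d4c8366a.shift 0 1), (rh779c7a0e36b4bd7e.shift 2 1), (rhc9de03f9731897d4.shift 4 0)] (by decide +kernel))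
noncomputable def rh5494ca038805c57e : CRef := CRef.mk (Pat.mk 0x18000000280000000000000000 0x5000000058000000ff000000fe0000003f0000002600000026 7 8) 0 0 (step_sound _ 101 [rh006ba935f8834f54, (rh2820ca9a6c4f41b4.shift 0 2), rh30841bae1908efd8, (rhd8b43b15431aaa50.shift 2 0)] (by decide +kernel))
noncomputable def rh5a4d202963fc2122 : CRef := CRef.mk (Pat.mk 0x1800000028000000000000000000000000 0x8000000180000007e0000003f000000770000002400000020 7 7) 0 0 (step_sound _ 98 [(rh557b120f072744ca.shift 0 3), (rh6b9ceb06d65958ae.shift 0 2), (rhd69c262cd33b94b3.shift 0 3), (rhf8a8a70b8b534473.shift 1 0)] (by decide +kernel))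
noncomputable def rh807482e3b9cf4f85 : CRef := CRef.mk (Pat.mk 0x18000000280000000000000000 0x280000007f0000007f0000003f0000001700000016 7 7) 0 0 (step_sound _ 66 [rh267a5b99f33683fd, (rh557b120f072744ca.shift 0 2), (rh69012675dfdb1a5b.shift 0 2), (rh896ba8a508f21a23.shift 0 1), (rhd69c262cd33b94b3.shift 0 2)] (by decide +kernel))
noncomputable def rhd40a9cda7a3bf89a : CRef := CRef.mk (Pat.mk 0xc00000014000000000000000000000000 0x18000000180000007f0000007f0000001e000000780000003800000018 7 7) 0 0 (step_sound _ 99 [(rh1e8aceccf05fd0a3.shift 0 1), rh652bfd3aeb25bc49, (rh9425272e357bb618.shift 1 0), rhafc8775f5357bf1e] (by decide +kernel))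
noncomputable def rh947f8144029c55d5 : CRef := CRef.mk (Pat.mk 0x1800000028000000000000000000000000 0x280000006e000000fe0000003f000000770000003400000030 7 8) 0 0 (step_sound _ 100 [(rh1e8aceccf05fd0a3.shift 1 1), rh322913886f146ed2, (rha12e69977f4105a8.shift 1 1), (rhc530cfe4b174e46e.shift 0 1), (rhf7f89b67e1499850.shift 0 1)] (by decide +kernel))
noncomputable def rh8c3833bc93d66a7d : CRef := CRef.mk (Pat.mk 0x180000002800000000000000000000000000000000 0x5000000078000001fc000000f80000003f000000f0000000700000007000000050 7 9) 0 0 (step_sound _ 165 [(rh828de00e937c9cce.shift 1 0), (rhb87be96211078600.shift 2 2), (rhd8b43b15431aaa50.shift 2 2), (rhf0f55c4504412200.shift 0 4)] (by decide +kernel))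
noncomputable def rhd664b634efd4555c : CRef := CRef.mk (Pat.mk 0x3000000050000000000000000000000000 0x20000000e0000000e0000000f0000003ff000001ff00000077000001e0000000e0000000e0 7 10) 0 0 (step_sound _ 134 [(rh139f4aafd3f533a5.shift 0 1), (rh30841bae1908efd8.shift 1 1), (rh36798a378d8ab7d6.shift 3 0), (rh3aab2036ca4e8d0a.shift 2 1), (rha702b644a77e2ecc.shift 2 0), (rhb87be96211078600.shift 3 1), (rhe3da3852fc2576d9.shift 1 1)] (by decide +kernel))
noncomputable def rhae9c0c70a30534a3 : CRef := CRef.mk (Pat.mk 0x1800000028000000000000000000000000 0x3800000038000000780000001f0000003f000001f70000003400000030 7 9) 0 0 (step_sound _ 100 [rh52f1517b62e629cd, (rh9425272e357bb618.shift 2 0), (rhb9974e53f8c40366.shift 1 0), rhe32841bb47942405, (rhf810823170c15485.shift 0 1)] (by decide +kernel))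
noncomputable def rhab582c6ac9c4a039 : CRef := CRef.mk (Pat.mk 0x1800000028000000000000000000000000 0x10000000700000007000000070000001f00000007c0000002f000000700000007000000050 7 9) 0 0 (step_sound _ 133 [(rh2820ca9a6c4f41b4.shift 0 3), (rh36798a378d8ab7d6.shift 2 0), (rhd8b43b15431aaa50.shift 2 1)] (by decide +kernel))
noncomputable def rh2ef2bebc9441dba0 : CRef := CRef.mk (Pat.mk 0x8000000080000000800000000 0x14000000fc0000007f000000ff0000000c0000000c00000004 7 8) 0 0 (step_sound _ 131 [(rh20966da26a1c2ae8.shift 2 0), (rh3f0b5051c9324cf3.shift 0 1), (rh565a0c22519f57e9.shift 2 0), (rhc85cc95794737cf7.shift 2 1)] (by decide +kernel))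
noncomputable def rhab9be3811f6a4adf : CRef := CRef.mk (Pat.mk 0x100000001000000050000000000000000000000000 0x28000000780000001e000000770000003e0000003f00000020 7 7) 0 0 (step_sound _ 68 [(rh46baee19951a66e7.shift 3 0), (rhb37cab1c4cceb903.shift 1 1), (rhdaa5feb72c93f8e9.shift 0 1)] (by decide +kernel))
noncomputable def rh5bdf8bda540d30f5 : CRef := CRef.mk (Pat.mk 0x80000000800000028000000000000000000000000 0x180000003c0000001f000000380000001e0000001c00000010 7 6) 0 0 (step_sound _ 67 [(rhb2e8cd6993d8d2e0.shift 0 1), (rhc9de03f9731897d4.shift 3 0), (rhf42e780814dbdbac.shift 1 1)] (by decide +kernel))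
noncomputable def rh74747d8f24e48bf2 : CRef := CRef.mk (Pat.mk 0x4000000040000001400000000000000000000000000000000 0x4000000060000000e0000000e0000001c0000000f0000000e0000000c00000008 7 5) 0 0 (step_sound _ 98 [(rh419478928f556655.shift 1 0), (rh46baee19951a66e7.shift 1 1), (rha6a1a25c0c5e7d58.shift 1 1), (rhf42e780814dbdbac.shift 0 2)] (by decide +kernel))
noncomputable def rh489de9bb9c2055a9 : CRef := CRef.mk (Pat.mk 0x200000002000000020000000000000000000000000 0x57000000fe000001ff00000020000000700000007000000040 7 9) 0 0 (step_sound _ 69 [(rh21769857bc5806c4.shift 0 1), (rh46baee19951a66e7.shift 4 0), (rhc4055b4872d6fb38.shift 4 1), (rhc9de03f9731897d4.shift 5 0)] (by decide +kernel))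
noncomputable def rhb86cbe24d2edcf62 : CRef := CRef.mk (Pat.mk 0x4000000040000001400000000 0xa0000001e0000003f0000003f0000000c0000001c00000018 7 6) 0 0 (step_sound _ 130 [rh2b6d24ec0b9dc5a6, (rh8065c10b3cae6218.shift 1 0), (rhc85cc95794737cf7.shift 1 1), (rhced6d86d2069808b.shift 2 0)] (by decide +kernel))
noncomputable def rh985c1eacc5913640 : CRef := CRef.mk (Pat.mk 0x8000000280000002000000000000000000000000000000000 0x6000000060000001ff0000003f000001f700000070000000700000007000000050 7 9) 0 0 (step_sound _ 164 [(rh3918eeb6c53434d8.shift 0 4), (rh4be4d8d4860443b0.shift 0 3), (rha32799905347b39b.shift 3 0), (rhc21a95c499b3efdb.shift 2 4)] (by decide +kernel))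
noncomputable def rhef40cdc144569ebc : CRef := CRef.mk (Pat.mk 0x800000028000000200000000000000000 0x5000000070000000700000007f0000003f0000007f0000007000000040 7 7) 0 0 (step_sound _ 98 [(rh499fe0919994f2c0.shift 0 2), (rh7dd65512f73ba029.shift 1 1), (rh8eaf575faa66081e.shift 0 2), (rhb34a67f8847d128f.shift 0 2), rhbf80b8b43090200b, (rhcfc06d144332e7f2.shift 0 1)] (by decide +kernel))
noncomputable def rhd87de086fea3702b : CRef := CRef.mk (Pat.mk 0x8000000280000002000000000000000000000000000000000 0x7000000070000000ff0000003f000001f700000070000000700000007000000050 7 9) 0 0 (step_sound _ 164 [(rh3918eeb6c53434d8.shift 0 4), (rh469ccfbdfd8b9cf1.shift 3 0), (rhbadd6c977f4ac169.shift 0 2), (rhc21a95c499b3efdb.shift 2 4)] (by decide +kernel))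
noncomputable def rhe13d3b341c9bc83f : CRef := CRef.mk (Pat.mk 0x8000000280000002000000000000000000000000000000000 0x100000007400000076000000ff0000003f000001ff00000068000000700000007000000050 7 9) 0 0 (step_sound _ 164 [(rh3918eeb6c53434d8.shift 0 4), (rh639c0c8652514c4a.shift 0 2), (rhc21a95c499b3efdb.shift 2 4), (rhfcd511ad19fb8d6f.shift 1 0)] (by decide +kernel))
noncomputable def rhbd482fa51f9533ca : CRef := CRef.mk (Pat.mk 0x8000000280000002000000000000000000000000000000000 0x6000000070000000f0000000780000003f000001ff000001fe000000780000007800000008 7 9) 0 0 (step_sound _ 164 [(rh1c8a0cdd5a617280.shift 0 4), (rh3b7a4e73dff6121e.shift 1 2), (rh546837a7aef4f21d.shift 1 0), (rhc21a95c499b3efdb.shift 2 4)] (by decide +kernel))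
noncomputable def rh9e79578b63d7bc85 : CRef := CRef.mk (Pat.mk 0x800000028000000200000000000000000 0x1000000070000000740000007f0000003f0000007f0000001800000018 7 7) 0 0 (step_sound _ 98 [(rh499fe0919994f2c0.shift 0 2), (rh7dd65512f73ba029.shift 1 1), (rh8eaf575faa66081e.shift 0 2), (rhb34a67f8847d128f.shift 0 2), (rhcfc06d144332e7f2.shift 0 1), rhe19f03b4fc6ce930] (by decide +kernel))
noncomputable def rh263e9f884e1a4682 : CRef := CRef.mk (Pat.mk 0x800000028000000200000000000000000000000000000000000000000 0x50000000700000007f0000003f0000006f0000007e000001f0000000700000007000000070 7 9) 0 0 (step_sound _ 133 [(rh15c9d543573fea4f.shift 0 2), (rh987c0ee189b8c805.shift 2 2), (rh9df31e441a7e04d9.shift 2 3), (rhb591119b42d69216.shift 1 0), (rhbb79c09c57c7d7ad.shift 0 1)] (by decide +kernel))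
noncomputable def rh8d64e37ec98e0d0c : CRef := CRef.mk (Pat.mk 0x80000002800000020000000000000000000000000 0x5000000070000000f0000001fe0000003f0000003f000000700000007000000070 7 9) 0 0 (step_sound _ 165 [(rh08ff1a9078a560c4.shift 2 0), (rh098ed89708f73e1c.shift 1 1), (rh115ea3d189f4702a.shift 0 2), (rh248b5604d1a83491.shift 1 2), rh2a77b75fe3ebf824, (rh60f1badc12958906.shift 4 1)] (by decide +kernel))
noncomputable def rh748d82792aa5e202 : CRef := CRef.mk (Pat.mk 0x800000028000000200000000000000000000000000000000000000000 0x1000000070000000700000006f000003bf000003ff000003fe000003f8000000700000007000000070 7 10) 0 0 (step_sound _ 133 [(rh8379608c24581e04.shift 2 1), (rh8b4d095e0b0d0f91.shift 2 1), rh8c8a68ae6cc1e0f9, (rhb591119b42d69216.shift 1 0), (rhbcb8a7ebdf4ac7c9.shift 0 1), (rhc7db4b86fa0aaece.shift 0 1), (rhcc040f11b401a6f2.shift 2 1), (rhdbf50a178143f909.shift 0 1), (rhe5e49ecbccf9e3a1.shift 4 2)] (by decide +kernel))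
noncomputable def rhef4973ad6be4a5b5 : CRef := CRef.mk (Pat.mk 0x100000005000000040000000000000000000000000 0x280000003e0000007f000003fe000003fe000000f0000000e0 7 10) 0 0 (step_sound _ 100 [(rh1138f8269bcb887c.shift 1 0), (rh39857ae4a5c2bdc8.shift 1 0), (rh3a0a74c8142aabf3.shift 1 0), (rh7bd76eb365932f3a.shift 0 3), (rhb116ff4b9fcb58a2.shift 1 0), (rhdbbbebb066659f4b.shift 3 0), (rhf4a71512ee00c0ba.shift 1 0)] (by decide +kernel))
noncomputable def rhcfde18714972888f : CRef := CRef.mk (Pat.mk 0x20000000a0000000800000000000000000000000000000000 0x140000001c0000001f0000000e000000ff0000007f000000fc0000001c00000014 7 8) 0 0 (step_sound _ 99 [(rh9ff1c787004ce468.shift 0 1), rhcc040f11b401a6f2, (rhd1026a89cf2ef30b.shift 1 0), (rhe5e49ecbccf9e3a1.shift 2 1), (rhec187c8255807866.shift 0 1)] (by decide +kernel))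
noncomputable def rhe6719ec71a1d21af : CRef := CRef.mk (Pat.mk 0x80000002800000020000000000000000000000000 0x5000000070000000f00000007c0000002f00000078000000700000007000000050 7 8) 0 0 (step_sound _ 165 [(rh08ff1a9078a560c4.shift 2 0), (rh195e2e6861faf39a.shift 4 1), (rh437d454e808ff910.shift 4 1), (rh611d5cd14f08a25c.shift 4 0), (rh9691eeb5a3c077aa.shift 0 2), (rhb5e73f3f6702733d.shift 2 1), (rhff3da4bcb8aae1f8.shift 4 0)] (by decide +kernel))
noncomputable def rh31b7a9655795e477 : CRef := CRef.mk (Pat.mk 0x800000028000000200000000000000000 0x30000000f0000000ff0000003f000001ff0000007e00000078 7 9) 0 0 (step_sound _ 100 [(rh3918eeb6c53434d8.shift 0 2), (rhae67d5a1f87b80c1.shift 1 0), rhbadd6c977f4ac169, (rhc21a95c499b3efdb.shift 2 2)] (by decide +kernel))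
noncomputable def rh88bbbd9c2a157151 : CRef := CRef.mk (Pat.mk 0x2000000020000000200000000000000000000000000000000 0x40000000600000006000000070000000300000007000000070000000600000002 7 3) 0 0 (step_sound _ 97 [(rh55a026e6f690bbaf.shift 0 2), rh8fd6a8efa0ab57f6, (rhc9de03f9731897d4.shift 1 1), rhe29f0676c21f9786] (by decide +kernel))
noncomputable def rhef019efde49c8a00 : CRef := CRef.mk (Pat.mk 0x2000000020000000200000000000000000000000000000000 0x10000000300000003000000030000000300000007000000070000000600000002 7 3) 0 0 (step_sound _ 97 [(rh46baee19951a66e7.shift 0 1), (rh565a0c22519f57e9.shift 0 2), rh8fd6a8efa0ab57f6] (by decide +kernel))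
noncomputable def rh14707e6b63188f9e : CRef := CRef.mk (Pat.mk 0x800000028000000000000000000000000 0x140000003c0000003c0000007e000000ff0000003f000000ff0000003c00000038 7 8) 0 0 (step_sound _ 100 [rh0c47eaa17fffd84c, (rh12791ad7b1c1c5f4.shift 0 1), (rh3c62d46b17c55324.shift 1 0), rh5bac8f50c4340367, rhb583f025587b3557, (rhd6a14935e987a52c.shift 0 1)] (by decide +kernel))
noncomputable def rhbf26e4e5408a7169 : CRef := CRef.mk (Pat.mk 0x20000000380000000000000000000000000000000000000000 0x80000002c0000003e0000003e0000007f0000001e0000001e0000000a00000008 7 7) 0 0 (step_sound _ 162 [(rh2591032a0e7f4182.shift 0 4), (rh9483656c38360087.shift 1 2), (rh9c67cfa7266646d1.shift 1 0)] (by decide +kernel))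
noncomputable def rhc1353e3029085bbe : CRef := CRef.mk (Pat.mk 0x10000000160000000000000000000000000000000000000000 0x400000006000000370000001e0000003700000007000000070000000500000004 7 6) 0 0 (step_sound _ 163 [(rh33e738c4ed385b9f.shift 1 5), rh9c67cfa7266646d1] (by decide +kernel))
noncomputable def rh7acd50c0a297483b : CRef := CRef.mk (Pat.mk 0x200000002c0000000000000000000000000000000000000000 0x80000000c0000003f0000003e0000006f0000000e0000000e0000000a00000008 7 7) 0 0 (step_sound _ 164 [(rh2591032a0e7f4182.shift 0 4), (rh9c67cfa7266646d1.shift 1 0), (rhc570c09f7c0268b1.shift 0 4)] (by decide +kernel))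
noncomputable def rhed4660c8e7b741ee : CRef := CRef.mk (Pat.mk 0x200000002c0000000000000000000000000000000000000000 0x80000000c0000003e0000003e0000007f0000000e0000000e0000000a00000008 7 7) 0 0 (step_sound _ 164 [(rh2591032a0e7f4182.shift 0 4), (rh2ebbcfe90e0f250d.shift 1 4), (rh9c67cfa7266646d1.shift 1 0)] (by decide +kernel))
noncomputable def rh43bd0aea351db404 : CRef := CRef.mk (Pat.mk 0x200000002c00000000000000000000000000000000 0x140000001c0000001c0000001f0000007c0000002f0000007c0000003c0000001c00000010 7 7) 0 0 (step_sound _ 163 [(rh6c84404f6a75cadc.shift 0 1), (rha17f83b3b05a65d6.shift 1 1), rhe190eaad3a83b05f, (rhe33d9496e10d8eb0.shift 0 4)] (by decide +kernel))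
noncomputable def rh17234a24fdc0f176 : CRef := CRef.mk (Pat.mk 0x20000000380000000000000000000000000000000000000000 0x80000002c0000002f0000003e0000007f0000001e0000001e0000000a00000008 7 7) 0 0 (step_sound _ 162 [(rh008b05f4778dc30d.shift 0 4), (rh775ca1963e850b80.shift 0 4), (rh9483656c38360087.shift 1 2), (rh9c67cfa7266646d1.shift 1 0)] (by decide +kernel))
noncomputable def rh9554b8c0f757e47e : CRef := CRef.mk (Pat.mk 0x1400000014000000000000000000000000 0xa0000000e0000000e0000003e000000370000001e0000000f0000000e0000000a 7 6) 0 0 (step_sound _ 162 [(rh0be62550ae19a47b.shift 1 2), (rh2d2b6cf7597351df.shift 1 0), (rh437d454e808ff910.shift 1 1), (rh7863e25d1d742d32.shift 1 1), rh85bb52c012d18ab3, rhf605ad9567eb2aef] (by decide +kernel))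
noncomputable def rhd4681ad901f3c30b : CRef := CRef.mk (Pat.mk 0x280000002800000000000000000000000000000000 0x100000005c0000005c0000006f0000007c0000002f000000fe0000007f0000005c00000018 7 8) 0 0 (step_sound _ 99 [(rh1fa33a0369aa1fc6.shift 1 0), (rh221583e63696c24d.shift 0 1), rh58cff27f756eb0cb, rh70f73cf72af0377c, (rh8858cbf1ab06cf1d.shift 0 2), (rh97c4ca4e16a0f428.shift 1 0), (rha8648003b40476af.shift 0 1), rhadda97a139c146dc, (rhb4bffc909e6ff045.shift 1 0), (rhd8745d3afce428ba.shift 2 1)] (by decide +kernel))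
noncomputable def rh29e1430a7b20ae5b : CRef := CRef.mk (Pat.mk 0x280000002800000000000000000000000000000000 0x140000005c0000007c000001fc000000f80000002f0000007c0000007e0000007400000050 7 9) 0 0 (step_sound _ 166 [(rh562c905737e2bff1.shift 2 2), (rh8d0e56b8a78c5a56.shift 2 4), rhc9f7aec2b117cdc3, (rhd5899e89efce0709.shift 2 2), (rhe5944c0a1e5f3c0d.shift 2 2)] (by decide +kernel))
noncomputable def rhb45435185f9b6826 : CRef := CRef.mk (Pat.mk 0x1400000014000000000000000000000000 0xa0000002e0000003f0000007e0000001e000000170000003e0000007e0000002a 7 7) 0 0 (step_sound _ 162 [(rh04f4875e911c5ad0.shift 0 2), (rh7863e25d1d742d32.shift 1 1), (rh91e89503dcfa7603.shift 1 0), (rhc60bbf045c33e4fa.shift 1 0), (rhd33666284aa5c7c2.shift 1 0), rhd553879b1f356abb, (rhf07c37d590073593.shift 1 0)] (by decide +kernel))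
noncomputable def rh230b5c9ef9dcdbe0 : CRef := CRef.mk (Pat.mk 0x2800000028000000000000000000000000 0x140000005c000000fe000000fc000001ef0000002c0000007c000000fc00000054 7 9) 0 0 (step_sound _ 163 [(rh02894e155672fd94.shift 1 0), (rh04f4875e911c5ad0.shift 1 2), (rh7863e25d1d742d32.shift 2 1), (rh85bb52c012d18ab3.shift 1 0), rh9c61cb8bd7e1204f, (rhc1a03c4521ecfdbb.shift 2 0), (rhd33666284aa5c7c2.shift 2 0)] (by decide +kernel))
noncomputable def rh186bdd8b4293662a : CRef := CRef.mk (Pat.mk 0x2c0000002000000000000000000000000000000000 0x40000002c0000002c0000002f0000007e0000007e000000fe0000001e00000010 7 8) 0 0 (step_sound _ 131 [(rh65e04c4e2eb8949b.shift 1 0), (rh8c25cb665ab79ec0.shift 0 4), (rha45bcd1a02ddba08.shift 1 1), (rhe09cfcd5f84c47cb.shift 1 1)] (by decide +kernel))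
noncomputable def rh3c7c2c3f7b43b090 : CRef := CRef.mk (Pat.mk 0x2c00000020000000000000000000000000 0x140000001c0000003c0000007c0000002f0000007c0000001c0000001c00000014 7 7) 0 0 (step_sound _ 99 [(rh07dc9a7c98b6b8c5.shift 2 0), rh7425405f49e0c640, (rh8c25cb665ab79ec0.shift 0 3), rhe579c0761d1584e7] (by decide +kernel))
noncomputable def rha283cdeb2c8522df : CRef := CRef.mk (Pat.mk 0x5000000050000000000000000000000000 0xc0000001e0000007e000000ff0000001f0000001800000008 7 8) 0 0 (step_sound _ 131 [rh0ec9b2d0bb54bd5f, (rh1f7cdca6e3e06448.shift 1 3), (rh8c25cb665ab79ec0.shift 1 3), (rha6816dee951f7ee6.shift 3 3)] (by decide +kernel))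
noncomputable def rh7eb05dc07ba7c3f6 : CRef := CRef.mk (Pat.mk 0x2800000028000000000000000000000000 0x600000016000003bf000001fe000003ff0000002800000028 7 10) 0 0 (step_sound _ 100 [(rh08ae6a9c1fa4a93d.shift 2 2), (rh8e35b8e686c528a7.shift 1 0), (rha9fbfd4bb8cf890b.shift 0 3), (rhc92c3db40538b0da.shift 0 1)] (by decide +kernel))
noncomputable def rh2d926995502e63d0 : CRef := CRef.mk (Pat.mk 0x280000002800000000000000000000000000000000 0x140000001c0000001c0000001c000003bc000001f8000003ff000000fc0000007c00000038 7 10) 0 0 (step_sound _ 132 [(rh08ae6a9c1fa4a93d.shift 2 3), (rh1561ff1fafeb7917.shift 2 3), (rh5cf392f78c687ec0.shift 1 0), (rha68c796939495516.shift 0 1)] (by decide +kernel))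
noncomputable def rh4e0160450ec77c7a : CRef := CRef.mk (Pat.mk 0x2800000028000000000000000000000000 0x8000003bf000003fe000003f70000000400000004 7 10) 0 0 (step_sound _ 100 [(rh08ae6a9c1fa4a93d.shift 2 2), (rh13bc39fad46ed7d3.shift 0 2), (rha9fbfd4bb8cf890b.shift 0 3), rhe80e002c72bee859] (by decide +kernel))
noncomputable def rh36e769b85b203bd5 : CRef := CRef.mk (Pat.mk 0x5000000050000000000000000000000000 0x300000003c0000003e0000007f0000007f000000fe0000007c0000007c 7 8) 0 0 (step_sound _ 99 [(rh1f7d86723a9e3d25.shift 1 0), (rh2fa164ba5c06bb6d.shift 2 0), rh751bd15d29e3f2b1, (rh8ab9e83f5f23c419.shift 1 0), (rh933d752ab09d6fc8.shift 1 0), (rhaa1555e5024104df.shift 1 1), rhd5b4e0a5c05f6439, (rhe4a6d2255d83faf5.shift 1 0)] (by decide +kernel))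
noncomputable def rh47d20d28da346f35 : CRef := CRef.mk (Pat.mk 0x500000005000000000000000000000000000000000 0x38000000380000003e00000777000007fe000007ff000001f8000000f800000070 7 11) 0 0 (step_sound _ 133 [(rh13bc39fad46ed7d3.shift 1 3), (rh1811a54ce4fbfaf8.shift 0 1), (rh2c5a378eb69849df.shift 2 1), (rh30c8f5e7b893ae7b.shift 1 1), (rh5cf392f78c687ec0.shift 2 0), (rh8e35b8e686c528a7.shift 2 1), (rha27fa4b8c3a11d8d.shift 1 1), (rhb2e5cbe21dba9d63.shift 1 1), (rhd80ea488fc07f010.shift 2 1), (rhfca39c27dfa2ca60.shift 2 0)] (by decide +kernel))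
noncomputable def rh17b6f0b6d599d8ee : CRef := CRef.mk (Pat.mk 0x140000001400000000000000000000000000000000 0xa0000000e0000000f0000001e000000370000003e0000000e0000000e00000008 7 6) 0 0 (step_sound _ 98 [(rh13953f598edca916.shift 1 1), (rh37c05aa62684ff00.shift 1 1), (rh612106fda0a12af1.shift 0 2), (rh814d7d659b43c283.shift 1 0), rh8b8637a0a497b0d8, (rhba48c815b4c786c5.shift 0 1)] (by decide +kernel))
noncomputable def rhf59e5697a1968455 : CRef := CRef.mk (Pat.mk 0x2800000028000000000000000000000000 0x140000001c0000001c0000002f000000fe000001ff000000dc00000054 7 9) 0 0 (step_sound _ 100 [(rh1561ff1fafeb7917.shift 2 2), rh26e1017678d9da1f, rha27fa4b8c3a11d8d, (rha9fbfd4bb8cf890b.shift 0 3)] (by decide +kernel))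
noncomputable def rh8bcaa4e0f1c39adf : CRef := CRef.mk (Pat.mk 0x2800000028000000000000000000000000 0x50000000740000007c0000007c0000002f000000f8000001fc0000007c00000054 7 9) 0 0 (step_sound _ 102 [(rh47082137e9cd2755.shift 2 2), (rh53567e131628b92e.shift 2 0), (rh56e90c12f0808c38.shift 2 0), rh960f32c70aa5abd8, (rheb35796aefd5d255.shift 2 0)] (by decide +kernel))
noncomputable def rh4bf783c5f891b2a0 : CRef := CRef.mk (Pat.mk 0x2800000028000000000000000000000000 0x140000001c0000005c0000007f000000ff0000002f0000007c0000006f0000004c0000004c 7 8) 0 0 (step_sound _ 163 [(rh144c921ae3171e1e.shift 1 2), rh384816bea6041b97, rh65d01379fd6ff22b, rh6d3fabaf7ec9c89d, (rh7863e25d1d742d32.shift 2 1), (rh8e41442dd2d7cc36.shift 2 1), rha98a27a39ca716f5, (rhc55c1d37f08df68a.shift 2 1), (rhdcf15acb697cf72f.shift 0 2)] (by decide +kernel))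
noncomputable def rhe595b310cd6d3403 : CRef := CRef.mk (Pat.mk 0x280000002800000000000000000000000000000000 0x140000005c000000fe000000fc0000002f0000003c0000003c0000003c0000001400000010 7 8) 0 0 (step_sound _ 195 [(rh144c921ae3171e1e.shift 1 3), (rh1dbd5905aef3dade.shift 2 0), (rh2d51945081276dab.shift 0 1), (rh5a31c14f96fd41e0.shift 2 1), (rh895960a8d60b102d.shift 2 1), (rh8e41442dd2d7cc36.shift 2 2)] (by decide +kernel))
noncomputable def rh6effc82ec01fbf4b : CRef := CRef.mk (Pat.mk 0x2800000028000000000000000000000000 0x140000001c0000003c0000007c0000002f0000007c0000001c0000001c00000014 7 7) 0 0 (step_sound _ 130 [(rh07dc9a7c98b6b8c5.shift 2 0), rh7425405f49e0c640, (rh8c25cb665ab79ec0.shift 0 3), rhe579c0761d1584e7] (by decide +kernel))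
noncomputable def rh29d6610e58d09f05 : CRef := CRef.mk (Pat.mk 0x280000002800000000000000000000000000000000 0x540000007c0000007c000000280000007c000001ff0000007e0000005400000050 7 9) 0 0 (step_sound _ 101 [rh3c8f9533599701eb, (rh8836d5ad16324666.shift 2 2), (rha3b0bfe590aaceb3.shift 0 1), (rhc5c5b88722b9bb4a.shift 4 1), (rhf3137a9730661f0a.shift 2 0)] (by decide +kernel))
noncomputable def rh3f95e0043ea41aeb : CRef := CRef.mk (Pat.mk 0x2800000028000000000000000000000000 0x140000005c000000fe000000fc0000002f0000006e0000007c0000007c0000001c 7 8) 0 0 (step_sound _ 163 [(rh144c921ae3171e1e.shift 1 2), (rh470fcdc4c223822a.shift 2 0), (rh6048abc0dcfc6e28.shift 2 0), (rh7863e25d1d742d32.shift 2 1), (rh8e41442dd2d7cc36.shift 2 1), rh9d8f2890b02deb95, (rhdb571324a370e707.shift 1 0)] (by decide +kernel))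
noncomputable def rh3ab51e9d1a9e4d1b : CRef := CRef.mk (Pat.mk 0x38000000000000000000000000 0x80000000e0000000e0000000e0000007f0000003e0000000f0000000c0000000c 7 7) 0 0 (step_sound _ 98 [(rh09761ea78cc698e9.shift 1 0), (rh61325f73ebf98108.shift 0 3), (rh7654d7b92c96fe12.shift 0 2), (rh775ca1963e850b80.shift 0 2)] (by decide +kernel))
noncomputable def rh18a63d19cdbdd6d0 : CRef := CRef.mk (Pat.mk 0x380000000000000000000000000000000000000000 0x80000000c0000007f0000003e0000000f0000000e0000000e0000000e0000000a 7 7) 0 0 (step_sound _ 162 [(rh61325f73ebf98108.shift 0 5), (rh7654d7b92c96fe12.shift 0 4), (rh775ca1963e850b80.shift 0 4), (rhfd51c958ce1d79dd.shift 1 0)] (by decide +kernel))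
noncomputable def rh19fe93189ebac44f : CRef := CRef.mk (Pat.mk 0x2c0000002000000000000000000000000000000000 0x140000001c0000001c0000007c0000002f0000007c0000001f0000001c0000001c00000014 7 7) 0 0 (step_sound _ 131 [rh541d0b2d3ee2836c, (rh8c25cb665ab79ec0.shift 0 4), (rhbb2258de3c9392a8.shift 0 1), rhdd654bbc0781e67b] (by decide +kernel))
noncomputable def rh9919b8cd7bad38a7 : CRef := CRef.mk (Pat.mk 0x38000000200000000000000000 0xc0000007f0000003e0000003f0000000e0000000e 7 7) 0 0 (step_sound _ 98 [(rh61325f73ebf98108.shift 0 3), (rhdceeca65bdd8095a.shift 0 2), (rhec1e4baa4b28ff9a.shift 1 0)] (by decide +kernel))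
noncomputable def rhffbd3f12f30a7c49 : CRef := CRef.mk (Pat.mk 0x1c000000100000000000000000 0x1c0000003c0000007c0000001c0000007c0000007f0000003c 7 7) 0 0 (step_sound _ 131 [(rh2819595a19b5fa31.shift 2 0), (rh5d54cb79a67f97ab.shift 3 0), (rh7e1098702e50f2b0.shift 3 0), (rha40d42a2e34c408d.shift 3 0), rhbb69cba58cd120ad] (by decide +kernel))
noncomputable def rh7fdbd3c43413629a : CRef := CRef.mk (Pat.mk 0x2c0000002000000000000000000000000000000000 0x40000002c0000002c0000002f0000007e0000007e0000003e0000001e00000014 7 7) 0 0 (step_sound _ 131 [(rh8c25cb665ab79ec0.shift 0 4), (rha45bcd1a02ddba08.shift 1 1), (rhe09cfcd5f84c47cb.shift 1 1), (rhe745f09fd1122f13.shift 1 0)] (by decide +kernel))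
noncomputable def rhb5953f1d96725358 : CRef := CRef.mk (Pat.mk 0x3800000020000000000000000000000000 0x100000007000000070000000f0000000ff0000003e00000027000000700000007000000050 7 8) 0 0 (step_sound _ 165 [(rh1298fe0d474fa902.shift 2 1), (rh7f0f728c796044ac.shift 0 3), (rhb12ffaec36122c99.shift 0 3), (rhcc01267e34479c3f.shift 4 0)] (by decide +kernel))
noncomputable def rh5b256122f354911e : CRef := CRef.mk (Pat.mk 0x2c0000002000000000000000000000000000000000 0x140000001c0000001c0000007c0000002f0000007c0000001f0000001c0000001c00000014 7 7) 0 0 (step_sound _ 131 [(rh8c25cb665ab79ec0.shift 0 4), rh9aa3b564a5a42368, (rhbb2258de3c9392a8.shift 0 1), rhdd654bbc0781e67b] (by decide +kernel))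
noncomputable def rh078f25913be35169 : CRef := CRef.mk (Pat.mk 0x28000000280000000000000000 0x4000000040000000f0000003f0000007f0000000800000008 7 7) 0 0 (step_sound _ 98 [(rh1f7cdca6e3e06448.shift 0 2), rh2e09d508ce371ce2, (rh8c25cb665ab79ec0.shift 0 2), (rha6816dee951f7ee6.shift 2 2)] (by decide +kernel))
noncomputable def rh710b2b6fddad5f64 : CRef := CRef.mk (Pat.mk 0x2800000028000000000000000000000000 0x6000000160000003f000000fe000001ff0000002800000028 7 9) 0 0 (step_sound _ 100 [(rh1aae126fdb0efa1d.shift 2 2), (rh5b6d2bf6893374d1.shift 1 0), (rha9fbfd4bb8cf890b.shift 0 3), (rhc53656083a14bd81.shift 0 1)] (by decide +kernel))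
noncomputable def rhf19ff617345f34af : CRef := CRef.mk (Pat.mk 0x2800000028000000000000000000000000 0x140000001e0000001e0000003f0000003e0000007f0000003c0000003c 7 7) 0 0 (step_sound _ 100 [rh0e3012db365425d2, rh18e52402a635c204, rh26e1017678d9da1f, (rh4df2e723d42ce8f4.shift 1 0), (rhc53656083a14bd81.shift 0 1), rhe80e002c72bee859] (by decide +kernel))
noncomputable def rhf1844e3b49e726bc : CRef := CRef.mk (Pat.mk 0x8000000280000000000000000000000000000000000000000 0x140000001c0000001c0000000f000000fe000001ff0000001c0000001c0000001c00000010 7 9) 0 0 (step_sound _ 164 [(rh1561ff1fafeb7917.shift 2 4), (rh26e1017678d9da1f.shift 0 2), (rha9fbfd4bb8cf890b.shift 0 5), rhfa0b3c123b00bd98] (by decide +kernel))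
noncomputable def rh313870cd848c49cf : CRef := CRef.mk (Pat.mk 0x28000000280000000000000000000000000000000000000000 0x1c0000001c0000001f000003b8000001fe000003ff0000003c0000003c0000001c00000010 7 10) 0 0 (step_sound _ 164 [(rh0e3012db365425d2.shift 0 2), (rh3e26abbf947d0cd9.shift 2 1), (rh5b6d2bf6893374d1.shift 1 2), (rha13423141a6dee87.shift 0 2), (rhed963764511338bc.shift 0 2), rhfa0b3c123b00bd98] (by decide +kernel))
noncomputable def rhfaec583036611081 : CRef := CRef.mk (Pat.mk 0xa0000000a00000000000000000000000000000000000000000 0x500000007000000070000000bf000003fe0000077e00000070000000700000007000000040 7 11) 0 0 (step_sound _ 166 [(rh1561ff1fafeb7917.shift 4 4), (rh69c6c37a1cdfd058.shift 0 1), (rha9fbfd4bb8cf890b.shift 2 5), (rhfa0b3c123b00bd98.shift 2 0)] (by decide +kernel))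
noncomputable def rhf611237621981fdc : CRef := CRef.mk (Pat.mk 0x280000002800000000000000000000000000000000 0x540000007c0000007c000000280000007c000001ff000000fc0000005400000054 7 9) 0 0 (step_sound _ 99 [rh0115c66452a97d07, (rh4a605cc958097ade.shift 2 0), (rh60f6231d213c6ef9.shift 2 1), rhb966ff22609ec4c3, (rhc5c5b88722b9bb4a.shift 2 1), (rhe323009b509138a7.shift 0 2)] (by decide +kernel))
noncomputable def rh5e43f217956e841a : CRef := CRef.mk (Pat.mk 0x38000000000000000000000000 0x20000000e0000000e0000000c0000007f0000003e0000000f0000000c0000000c 7 7) 0 0 (step_sound _ 98 [(rh0c3f535ac3125a07.shift 1 0), (rh61325f73ebf98108.shift 0 3), (rh7654d7b92c96fe12.shift 0 2), (rh775ca1963e850b80.shift 0 2)] (by decide +kernel))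
noncomputable def rh1a985972842acbaa : CRef := CRef.mk (Pat.mk 0x2800000028000000000000000000000000 0x4000000160000003f000000fe000001ef0000002800000028 7 9) 0 0 (step_sound _ 100 [(rh1aae126fdb0efa1d.shift 2 2), rh7fe2ad111573d695, (rh8e35b8e686c528a7.shift 1 0), (rha9fbfd4bb8cf890b.shift 0 3)] (by decide +kernel))
noncomputable def rha586574ee9cc526b : CRef := CRef.mk (Pat.mk 0x280000002800000000000000000000000000000000 0x140000001c0000001c0000003c000000f8000001df0000001c0000001c00000014 7 9) 0 0 (step_sound _ 132 [(rh1aae126fdb0efa1d.shift 2 3), (rh24e72371d7873615.shift 2 1), (rh3e26abbf947d0cd9.shift 2 0), (rh42e0c1d0448932f2.shift 0 1)] (by decide +kernel))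
noncomputable def rh45e2270165e83fb7 : CRef := CRef.mk (Pat.mk 0x2800000028000000000000000000000000 0x140000001c0000001e0000003f0000003e0000007f0000003c0000003c 7 7) 0 0 (step_sound _ 100 [rh0e3012db365425d2, rh26e1017678d9da1f, rh42e0c1d0448932f2, (rh4df2e723d42ce8f4.shift 1 0), rh7fe2ad111573d695, rhe80e002c72bee859] (by decide +kernel))
noncomputable def rhf4dd5fd6f2cbe0b3 : CRef := CRef.mk (Pat.mk 0x28000000280000000000000000000000000000000000000000 0x140000001c0000001c0000002f000000fe0000007f0000001c0000001c0000001c00000010 7 8) 0 0 (step_sound _ 164 [(rh24e72371d7873615.shift 2 2), (rh26e1017678d9da1f.shift 0 2), (rha9fbfd4bb8cf890b.shift 0 5), rhfa0b3c123b00bd98] (by decide +kernel))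
noncomputable def rhc4fa718a7907825b : CRef := CRef.mk (Pat.mk 0x28000000280000000000000000000000000000000000000000 0x1c0000001c0000001f000003b8000001fe000003ff000000fc0000007c0000001c00000010 7 10) 0 0 (step_sound _ 164 [(rh0e3012db365425d2.shift 0 2), (rh30c8f5e7b893ae7b.shift 0 2), (rh3e26abbf947d0cd9.shift 2 1), (rh8e35b8e686c528a7.shift 1 2), (rhaecdb849a516b533.shift 1 2), (rhed963764511338bc.shift 0 2), rhfa0b3c123b00bd98] (by decide +kernel))
noncomputable def rh7e2efd4a05436f5d : CRef := CRef.mk (Pat.mk 0x2800000028000000000000000000000000 0x8000000080000003f000000fe000001ff000000d400000054 7 9) 0 0 (step_sound _ 100 [(rh24e72371d7873615.shift 2 0), (rha9fbfd4bb8cf890b.shift 0 3), (rhaecdb849a516b533.shift 1 0), rhe80e002c72bee859] (by decide +kernel))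
noncomputable def rhce29d835320f503a : CRef := CRef.mk (Pat.mk 0x2800000028000000000000000000000000 0x50000000740000007c0000007c0000002f000000f8000001fc0000007c00000054 7 9) 0 0 (step_sound _ 102 [(rh47082137e9cd2755.shift 2 2), (rh53567e131628b92e.shift 2 0), (rh56e90c12f0808c38.shift 2 0), rhc00215a74457c7d4, (rheb35796aefd5d255.shift 2 0)] (by decide +kernel))
noncomputable def rh338277d15ceab462 : CRef := CRef.mk (Pat.mk 0x2800000028000000000000000000000000 0x140000005c0000007c0000007c000000ff0000002f0000007c0000006f0000004c0000004c 7 8) 0 0 (step_sound _ 163 [(rh1359922a99d3d421.shift 2 1), (rh195e2e6861faf39a.shift 2 1), rh1e09b491a37b54fc, (rh22e3873261c6c95d.shift 2 2), (rh4e6aa3d621f2750e.shift 0 1), rh65d01379fd6ff22b, rh6d3fabaf7ec9c89d, (rh7863e25d1d742d32.shift 2 1), rha98a27a39ca716f5, rhd2998d905b2d652a] (by decide +kernel))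
noncomputable def rh7cec4f928b9b9907 : CRef := CRef.mk (Pat.mk 0x2800000018000000000000000000000000 0x3800000038000000780000003f000000ff0000001f0000001c0000001c 7 8) 0 0 (step_sound _ 132 [(rh7d6a3df37e3824be.shift 0 1), (rh99e0335a9ada18f5.shift 1 0), (rhb7ca002fe67ba876.shift 1 1), rhfa8036191946c99c, (rhfc73149436a3368e.shift 1 1)] (by decide +kernel))
noncomputable def rhbe92703a41fb1469 : CRef := CRef.mk (Pat.mk 0x140000000c000000000000000000000000 0xc0000001c0000003c0000001f0000007f0000007c0000001c00000018 7 7) 0 0 (step_sound _ 131 [rh2b62f5f79ea72b7e, (rh6204ba52670d0b31.shift 0 1), (rhb7ca002fe67ba876.shift 0 1), (rhfc73149436a3368e.shift 0 1), rhfd39024cc0579547] (by decide +kernel))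
noncomputable def rh1003e9aa7723ce42 : CRef := CRef.mk (Pat.mk 0x140000000c000000000000000000000000 0xc0000000c0000001e0000007f0000007f0000001e0000001e 7 7) 0 0 (step_sound _ 131 [rh2b62f5f79ea72b7e, rh6542b084897c4505, rh6e8be6975e71aad2, rh99e0335a9ada18f5, rhc6b0a5aeaa68fbb1, rhedd8eb07c0f86508] (by decide +kernel))
noncomputable def rh6751c23c85881b96 : CRef := CRef.mk (Pat.mk 0x140000000c000000000000000000000000 0x18000000380000001f0000007f0000003f0000001c00000014 7 7) 0 0 (step_sound _ 131 [rh19293cfde27af7d1, rh2b62f5f79ea72b7e, rh6542b084897c4505, (rhb7ca39f10b86efa8.shift 0 1), (rhfc73149436a3368e.shift 0 1)] (by decide +kernel))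
noncomputable def rh96c3d4984bc3aafd : CRef := CRef.mk (Pat.mk 0x2800000018000000000000000000000000 0x1800000038000000380000003c000000ff0000003c00000038 7 8) 0 0 (step_sound _ 68 [(rh5b53faf3b8d954fc.shift 3 0), (rh5d54cb79a67f97ab.shift 3 0), (rh6ef54c3bdfd9793e.shift 0 1), (rhb0a0144ec6e25226.shift 3 0)] (by decide +kernel))
noncomputable def rh22d6c07807596297 : CRef := CRef.mk (Pat.mk 0x2800000018000000000000000000000000 0x1000000038000000780000003f000000780000003f0000003c0000003c 7 7) 0 0 (step_sound _ 68 [(rh5b53faf3b8d954fc.shift 3 0), (rh5d54cb79a67f97ab.shift 3 0), (rhb0a0144ec6e25226.shift 3 0), rhb6934dd6d36ef863] (by decide +kernel))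
noncomputable def rh9ed86df2dcdd7f91 : CRef := CRef.mk (Pat.mk 0x280000001800000000000000000000000000000000 0x18000000380000003c0000001f000000ff0000003c0000003c00000008 7 8) 0 0 (step_sound _ 100 [(rh5b53faf3b8d954fc.shift 3 1), rh5d4e6724174f0a28, (rh5d54cb79a67f97ab.shift 3 1), (rhb0a0144ec6e25226.shift 3 1)] (by decide +kernel))
noncomputable def rhcae2f39103884b1d : CRef := CRef.mk (Pat.mk 0x280000000800000008000000000000000000000000 0x140000003e0000007f000000080000001c0000001c00000014 7 7) 0 0 (step_sound _ 67 [(rh080609e81764058a.shift 0 2), (rh46baee19951a66e7.shift 2 0), (rh6aa5625770489e83.shift 2 0), (rh8cdd36b03d57a2f6.shift 2 0)] (by decide +kernel))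
noncomputable def rh57adde48c826397b : CRef := CRef.mk (Pat.mk 0x28000000080000000800000000 0x40000007c0000007c0000003f0000003c0000001c00000014 7 7) 0 0 (step_sound _ 131 [rh29b271698959972f, (rh565a0c22519f57e9.shift 2 0), (rh8065c10b3cae6218.shift 2 0), (rhc9ac229b3c77cd55.shift 2 0)] (by decide +kernel))
noncomputable def rh660ab7ae3d310e74 : CRef := CRef.mk (Pat.mk 0xb0000000200000000000000000 0x400000007000000fe000001ff0000000800000008 7 9) 0 0 (step_sound _ 99 [rh12678add1586788e, (rh3194727a60434116.shift 2 2), (rh8ee80cc30e93a344.shift 2 2), (rhc21a95c499b3efdb.shift 2 2)] (by decide +kernel))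
noncomputable def rha4c8ea56de028406 : CRef := CRef.mk (Pat.mk 0x2c0000000800000000000000000000000000000000 0x80000007c0000007c0000003f0000007c000001fc000000780000004000000040 7 9) 0 0 (step_sound _ 132 [(rh0e4594a56b305e57.shift 0 2), (rh4ca5dae25f5c14ff.shift 0 4), (rhb5c7a7ed066b4021.shift 2 0), (rhdeca8db941583de2.shift 0 4)] (by decide +kernel))
noncomputable def rhb4d79bb409bf2ff0 : CRef := CRef.mk (Pat.mk 0x580000001000000000000000000000000000000000 0x80000000b0000000f8000000f800000078000000ff000000ff000000f0000000b000000020 7 8) 0 0 (step_sound _ 131 [(rh572121f9dbb7242f.shift 2 2), (rh897d573130d49112.shift 0 1), (rh9c512c287d71146e.shift 1 0), (rhda3cbee50c45dc05.shift 3 0), (rhe4a9becfa7e95110.shift 0 3)] (by decide +kernel))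
noncomputable def rh360e6435629c8741 : CRef := CRef.mk (Pat.mk 0x5800000010000000000000000000000000 0x1000000038000000780000007f0000003f000000ff0000003000000030 7 8) 0 0 (step_sound _ 99 [(rh2757d0c39255f164.shift 0 2), (rh66d92edf577a01fa.shift 1 0), (rh9de768609a24223b.shift 1 0), (rhe4a9becfa7e95110.shift 0 2)] (by decide +kernel))
noncomputable def rhb57cbe381e688c83 : CRef := CRef.mk (Pat.mk 0xb0000000200000000000000000 0xc0000000c0000001f7000000fe000001ee000000e0000000a0 7 9) 0 0 (step_sound _ 102 [(rh3e1b7b343686dca1.shift 3 2), (rh6887ef21f67dd26a.shift 3 0), (rh69e33aa735145a1b.shift 1 2), (rha4cf9251629f1722.shift 3 1), (rhb58461d1021eb8b1.shift 4 0), (rhf12b7c7b37ae9d14.shift 0 2)] (by decide +kernel))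
noncomputable def rh4216607590201489 : CRef := CRef.mk (Pat.mk 0x5800000010000000000000000000000000 0x1800000038000000f80000007e000000df0000007c0000007400000030 7 8) 0 0 (step_sound _ 99 [(rh20d2f8a846011b11.shift 1 1), (rh3b0a6875af7e446e.shift 2 1), rh897d573130d49112, (rh9de768609a24223b.shift 1 0)] (by decide +kernel))
noncomputable def rh49976df42fefd02c : CRef := CRef.mk (Pat.mk 0x580000001000000000000000000000000000000000 0x18000000f8000000f80000005f000000ff000003fe000000f4000000a400000080 7 10) 0 0 (step_sound _ 133 [(rhb5c7a7ed066b4021.shift 3 0), (rhc69e3573ca73c9bf.shift 0 1), (rhc9689a3cc4c8bce0.shift 1 1), (rhdeca8db941583de2.shift 1 4)] (by decide +kernel))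
noncomputable def rh52a198496a228e3d : CRef := CRef.mk (Pat.mk 0x2c0000000800000000000000000000000000000000 0x40000000c0000001c0000003f0000007c0000003f0000007c0000001c00000014 7 7) 0 0 (step_sound _ 99 [(rh2d07ab37cf4d4a1e.shift 1 0), (rh7b24c4ccc068b0b2.shift 2 2), (rha2f3f9a990095b85.shift 2 0), (rhdeff17ecf74ccc8a.shift 0 2)] (by decide +kernel))
noncomputable def rh04a656df0c23590a : CRef := CRef.mk (Pat.mk 0x580000001000000000000000000000000000000000 0x18000000180000005800000078000003df000001fe000003ff0000003c00000028 7 10) 0 0 (step_sound _ 100 [(rh0a6888916bcef86b.shift 3 0), (rh29f92a53243f733a.shift 2 0), rh5b91ceb462f85017, (rh7b24c4ccc068b0b2.shift 3 2)] (by decide +kernel))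
noncomputable def rh3200959f5e21e1aa : CRef := CRef.mk (Pat.mk 0xb00000002000000000000000000000000000000000 0x110000001b0000001f7000000fe000007ef000001f8000001f00000017000000050 7 11) 0 0 (step_sound _ 135 [(rh5fb1491b82da668d.shift 0 4), (rh8d8a8e4d9c719e50.shift 4 0), (rha45bcd1a02ddba08.shift 3 1), (rha6816dee951f7ee6.shift 4 4)] (by decide +kernel))
noncomputable def rh8132bf205d32ea80 : CRef := CRef.mk (Pat.mk 0x180000001000000000000000000000000000000000 0x80000001800000018000000180000003c000000ff000000fc0000003800000028 7 8) 0 0 (step_sound _ 100 [(rh0a6888916bcef86b.shift 3 0), (rh2d07ab37cf4d4a1e.shift 2 0), (rh7b24c4ccc068b0b2.shift 3 2), (rhe14458aeabce53f7.shift 0 2)] (by decide +kernel))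
noncomputable def rha6e23bde9b8be9bb : CRef := CRef.mk (Pat.mk 0x160000000400000000000000000000000000000000 0x200000002a0000003e0000003e0000001e0000003f0000003c0000003e0000003e0000000a 7 6) 0 0 (step_sound _ 98 [(rh7b24c4ccc068b0b2.shift 1 2), (rh951efad63850f0ed.shift 1 0), (rha2f3f9a990095b85.shift 1 0), rhfbea5e08eeb0dcc3] (by decide +kernel))
noncomputable def rh68c242fa2ac04d33 : CRef := CRef.mk (Pat.mk 0xc0000000800000000000000000000000000000000 0x140000001c0000003c0000001f0000001c000000180000001c0000001c00000014 7 6) 0 0 (step_sound _ 99 [(rh7b24c4ccc068b0b2.shift 2 2), (rha2f3f9a990095b85.shift 2 0), (rha7838260cbf3c18b.shift 0 2), (rhb15ffd083c5f8310.shift 2 0)] (by decide +kernel))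
noncomputable def rh82b6783c209dd75e : CRef := CRef.mk (Pat.mk 0x2c0000000800000000000000000000000000000000 0x1c0000001c0000007c0000003f0000006f000000380000001c0000001c00000014 7 7) 0 0 (step_sound _ 99 [(rh0a6888916bcef86b.shift 2 0), (rh2a4e257bdc934c7a.shift 1 0), (rh7b24c4ccc068b0b2.shift 2 2), (rhd5744a86a6630cd1.shift 0 2)] (by decide +kernel))
noncomputable def rhc12987d3f6d676e5 : CRef := CRef.mk (Pat.mk 0x2c0000000800000000000000000000000000000000 0x140000001c0000007c0000007c0000002f0000007c000001f80000007c0000005c00000044 7 9) 0 0 (step_sound _ 132 [rh472353739c7479dd, (rhb5c7a7ed066b4021.shift 2 0), (rhc9689a3cc4c8bce0.shift 0 1), (rhdeca8db941583de2.shift 0 4)] (by decide +kernel))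
noncomputable def rhe677724e06eefdcd : CRef := CRef.mk (Pat.mk 0x1600000004000000000000000000000000 0x10000000180000003c0000001f0000003f0000003c0000003400000010 7 6) 0 0 (step_sound _ 131 [(rh2ac7c21931135faf.shift 0 1), (rh2b6540834a6f29c5.shift 0 1), (rh3e1b7b343686dca1.shift 0 3), (rh88d1f7844e7f3144.shift 0 1), (rha4cf9251629f1722.shift 0 2), rhf00e1d810a09b1c0] (by decide +kernel))
noncomputable def rh01f5e0fd856e3c17 : CRef := CRef.mk (Pat.mk 0xb000000020000000000000000000000000 0xc0000000c0000001e0000000fe000001f7000007e0000000a000000080 7 11) 0 0 (step_sound _ 134 [(rh056f5fdc804e64d3.shift 3 0), (rh3e1b7b343686dca1.shift 3 3), (rh440b1bb1ae44f05a.shift 0 3), (rh6887ef21f67dd26a.shift 3 1), (rha4cf9251629f1722.shift 3 2), (rhb58461d1021eb8b1.shift 4 1)] (by decide +kernel))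
noncomputable def rha5edc3935ef030c3 : CRef := CRef.mk (Pat.mk 0x580000001000000000000000000000000000000000 0x1800000038000000f800000078000000ff000000ff000000dc0000001c00000004 7 8) 0 0 (step_sound _ 131 [rh257ca5d4f3899d05, (rh572121f9dbb7242f.shift 2 2), (rh6dc2e0f98ef33ec8.shift 0 1), (rh897d573130d49112.shift 0 1), (rhe4a9becfa7e95110.shift 0 3)] (by decide +kernel))
noncomputable def rh5478896a79b6ce03 : CRef := CRef.mk (Pat.mk 0x5800000010000000000000000000000000 0x3800000038000000780000007e0000003f0000007f0000001c0000001c 7 7) 0 0 (step_sound _ 99 [rh2f319fd5b971d29c, (rh8130204efbf8ba34.shift 1 1), rh897d573130d49112, (rhe4a9becfa7e95110.shift 0 2), rhe8b4c0c5772c9ceb] (by decide +kernel))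
noncomputable def rh582fbabcd51a83b2 : CRef := CRef.mk (Pat.mk 0x5800000010000000000000000000000000 0x3800000038000000f80000007e000000df0000007c0000005c00000010 7 8) 0 0 (step_sound _ 99 [(rh3b0a6875af7e446e.shift 2 1), (rh3de65a797b2540f5.shift 1 0), (rh8130204efbf8ba34.shift 1 1), rh897d573130d49112] (by decide +kernel))
noncomputable def rh9f3970999d211aca : CRef := CRef.mk (Pat.mk 0x180000001000000000000000000000000000000000 0x3800000038000000780000001f000000ff000000ff0000001c0000001c00000004 7 8) 0 0 (step_sound _ 131 [(rh6671bf8fc0c57647.shift 1 1), (rh8130204efbf8ba34.shift 1 2), (rh8a8d548de06bf73c.shift 0 1), (rha6a10e5871e58fed.shift 0 1), rhdc054f107d622813, (rhe5bb506b52d199c8.shift 0 2), (rhf2b9b2a70d333a52.shift 0 1)] (by decide +kernel))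
noncomputable def rhf1bd8095bad64327 : CRef := CRef.mk (Pat.mk 0x2c00000008000000000000000000000000 0xc0000006c0000006c0000003f0000007e000000fc0000001c0000001c 7 8) 0 0 (step_sound _ 101 [rh87b4c983a425fa80, (rh887a134ec7544125.shift 1 0), (rh8c25cb665ab79ec0.shift 0 3), (rha6816dee951f7ee6.shift 2 3)] (by decide +kernel))
noncomputable def rh7382089cb8b5278f : CRef := CRef.mk (Pat.mk 0x580000001000000000000000000000000000000000 0x18000000180000005800000078000003df000001fe000003ff0000003c00000028 7 10) 0 0 (step_sound _ 100 [(rh0a6888916bcef86b.shift 3 0), (rh29f92a53243f733a.shift 2 0), (rh7b24c4ccc068b0b2.shift 3 2), rh96488f87d1cf3b20] (by decide +kernel))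
noncomputable def rh9bfaac0974244827 : CRef := CRef.mk (Pat.mk 0x2c0000000800000000000000000000000000000000 0x440000006c0000006c0000003f000001f80000007e0000007c0000005c00000014 7 9) 0 0 (step_sound _ 133 [(rh80d49acd1e1403bd.shift 0 1), (rh8d8a8e4d9c719e50.shift 2 0), (rha45bcd1a02ddba08.shift 1 1), (rha6816dee951f7ee6.shift 2 4)] (by decide +kernel))
noncomputable def rh178757cac51d75cc : CRef := CRef.mk (Pat.mk 0x580000001000000000000000000000000000000000 0x200000003800000038000000180000007f000000ff0000001f0000001c0000001c00000008 7 8) 0 0 (step_sound _ 133 [(rh4ca5dae25f5c14ff.shift 1 4), (rh999cc038ddfa53c9.shift 1 0), (rhdeca8db941583de2.shift 1 4), (rhefbc525ffcc0e952.shift 0 1)] (by decide +kernel))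
noncomputable def rh5ac55288f9588f30 : CRef := CRef.mk (Pat.mk 0x580000001000000000000000000000000000000000 0x1800000038000000380000007f000000ff000000df0000005c0000005c00000004 7 8) 0 0 (step_sound _ 131 [(rh243ebe92845cdd54.shift 0 1), (rh3ef1226749762370.shift 0 1), (rh9ef6e09d1f1f5ad4.shift 0 3), (rhb6a9a41aecb73ab2.shift 2 1), rhdc054f107d622813] (by decide +kernel))
noncomputable def rha32aeb3b4dfc84e9 : CRef := CRef.mk (Pat.mk 0x2c0000000800000000000000000000000000000000 0x500000007c0000007c0000007c0000003c0000007e0000006f0000007e0000005c00000014 7 7) 0 0 (step_sound _ 133 [rh6ac040cb29f3fd33, (rha6816dee951f7ee6.shift 2 4), (rhabb153b0ca980906.shift 1 0), (rhd837183c14a7b4ff.shift 1 1)] (by decide +kernel))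
noncomputable def rh00e77c83a0363ee0 : CRef := CRef.mk (Pat.mk 0x2c0000000800000000000000000000000000000000 0x40000001c0000001c0000001c0000007c0000003f000000780000000e0000007c0000001c00000014 7 7) 0 0 (step_sound _ 99 [(rh0a6888916bcef86b.shift 2 0), (rh5aaf311b728daa1b.shift 1 0), (rh67a151c75c3c36db.shift 0 2), (rha2f3f9a990095b85.shift 2 0)] (by decide +kernel))
noncomputable def rh72cac225cbea0942 : CRef := CRef.mk (Pat.mk 0xc0000000800000000000000000000000000000000 0x140000001c0000003c0000000f0000000c0000000e0000007c0000001c00000014 7 7) 0 0 (step_sound _ 99 [(rh0a6888916bcef86b.shift 2 0), (rh2d07ab37cf4d4a1e.shift 1 0), (rh418013b5fb5083ed.shift 0 2), (rh43d8dfd721575dfb.shift 2 0), (rh7b24c4ccc068b0b2.shift 2 2)] (by decide +kernel))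
noncomputable def rh779dc1295020d037 : CRef := CRef.mk (Pat.mk 0x500000001000000010000000000000000000000000 0x280000003800000038000000780000003e000000ff000000ee0000002800000020 7 8) 0 0 (step_sound _ 101 [(rh046c5eb18e55a239.shift 4 0), (rh14e0829dc73b6804.shift 3 2), (rh4abd99c6dbe03328.shift 0 1), (rh82d6f9d97807bad8.shift 0 1)] (by decide +kernel))
noncomputable def rh54ab468feb2f7425 : CRef := CRef.mk (Pat.mk 0x200000002000000020000000000000000 0x500000007000000070000000200000006000000070000000700000005 7 3) 0 0 (step_sound _ 161 [(rh8065c10b3cae6218.shift 0 1), rh8cdd36b03d57a2f6, rhb106de594f87c71e] (by decide +kernel))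
noncomputable def rhd2fc96a07e033e12 : CRef := CRef.mk (Pat.mk 0x28000000080000000800000000 0x140000007c0000007c0000003f000000380000001c00000014 7 7) 0 0 (step_sound _ 131 [(rh12461e137161f2e1.shift 2 0), (rh762a1aeaf83c662a.shift 2 0), (rh8065c10b3cae6218.shift 2 0), rhb75f3c2ab207da2a] (by decide +kernel))
noncomputable def rhb61c9867903345c1 : CRef := CRef.mk (Pat.mk 0x2000000020000000200000000000000000000000000000000 0x60000000600000007000000030000000300000007000000070000000700000005 7 3) 0 0 (step_sound _ 97 [(rh20966da26a1c2ae8.shift 0 2), rh832d53b0c7150d1d, (rh8cdd36b03d57a2f6.shift 0 1), rh8e3b1d976c2c4cbf, (rhf517b930ee0bd92d.shift 0 1)] (by decide +kernel))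
noncomputable def rh4c7cde9394e08331 : CRef := CRef.mk (Pat.mk 0x20000000200000002000000000000000000000000 0x500000007000000070000000200000002000000070000000700000005 7 3) 0 0 (step_sound _ 65 [rh482d647aab4b93ee, (rh762a1aeaf83c662a.shift 0 1), rh8cdd36b03d57a2f6] (by decide +kernel))
noncomputable def rha723fdf96f801998 : CRef := CRef.mk (Pat.mk 0x200000002000000020000000000000000 0x700000007000000070000000700000003000000070000000600000006 7 3) 0 0 (step_sound _ 161 [(rhc17b7d8fab3dfe57.shift 0 1), (rhc4055b4872d6fb38.shift 0 1), (rhc9de03f9731897d4.shift 1 0), rhf517b930ee0bd92d] (by decide +kernel))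
noncomputable def rh18b540f8ec8c057f : CRef := CRef.mk (Pat.mk 0x500000001000000010000000000000000000000000 0x28000000380000007800000070000003de000000fc000001ef000000a8000000a8 7 10) 0 0 (step_sound _ 101 [(rh14e0829dc73b6804.shift 3 2), (rh1ec320c051db4640.shift 2 2), rh7a4aa83be4ac6aa1, (rha610b92eb6229b96.shift 1 0)] (by decide +kernel))
noncomputable def rhc504ee33fc92e909 : CRef := CRef.mk (Pat.mk 0x280000000800000008000000000000000000000000 0x140000003e0000007f00000008000000180000001800000010 7 7) 0 0 (step_sound _ 67 [(rh080609e81764058a.shift 0 2), (rh46baee19951a66e7.shift 2 0), (rhc9de03f9731897d4.shift 3 0)] (by decide +kernel))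
noncomputable def rhb8b98f24eba59a06 : CRef := CRef.mk (Pat.mk 0x280000000800000008000000000000000000000000 0x140000003e0000007f000000080000000c0000000c00000004 7 7) 0 0 (step_sound _ 67 [(rh080609e81764058a.shift 0 2), (rh367118e0bf0473e0.shift 2 0), (rh6aa5625770489e83.shift 2 0)] (by decide +kernel))
noncomputable def rhef2690579038f2c5 : CRef := CRef.mk (Pat.mk 0x500000001000000010000000000000000000000000 0xe0000000e0000000e00000007e000001ff000003fe000001ee000000e8000000a8 7 10) 0 0 (step_sound _ 134 [(rh31f8a34a4aaab978.shift 1 4), (rh71a2b0e54e5109be.shift 1 1), (rh761eb471d39bd462.shift 2 0), (rh8a4b6c13f4f39579.shift 1 1), (rhb7a724cf6c059e53.shift 1 1), rhdd108d550d5d07d9, (rhf56de6af476cf2f0.shift 1 0)] (by decide +kernel))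
noncomputable def rh2b8f8eb3cb1e28c1 : CRef := CRef.mk (Pat.mk 0x800000008000000080000000000000000 0x1c0000001c0000003c0000000f0000001c0000001c0000001800000018 7 6) 0 0 (step_sound _ 163 [(rh5ee4dc8825dcefa0.shift 0 1), (rh8065c10b3cae6218.shift 2 1), (rhced6d86d2069808b.shift 3 1), (rhf517b930ee0bd92d.shift 2 0)] (by decide +kernel))
noncomputable def rh453f8e1867ed3ca8 : CRef := CRef.mk (Pat.mk 0x20000000200000002000000000 0x10000000300000003000000020000001ff000000fe0000005f 7 9) 0 0 (step_sound _ 133 [rh1a5850ee4326b921, (rh565a0c22519f57e9.shift 4 0), (rh8065c10b3cae6218.shift 4 0), (rhc9ac229b3c77cd55.shift 4 0)] (by decide +kernel))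
noncomputable def rh7d50b34b793d747c : CRef := CRef.mk (Pat.mk 0x200000002000000020000000000000000 0x20000000300000007000000070000000600000006000000060000000600000004 7 3) 0 0 (step_sound _ 161 [(rh8065c10b3cae6218.shift 0 1), (rhc9de03f9731897d4.shift 1 0), (rhd6d9b7c567b254f2.shift 0 1)] (by decide +kernel))
noncomputable def rh4d6d2e70adf906bc : CRef := CRef.mk (Pat.mk 0x200000002000000020000000000000000 0x300000007000000070000000600000007000000070000000300000001 7 3) 0 0 (step_sound _ 161 [rh367118e0bf0473e0, (rh565a0c22519f57e9.shift 0 1), (rh67f0916ed90b8a7e.shift 0 1)] (by decide +kernel))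
noncomputable def rh013d483fe718db62 : CRef := CRef.mk (Pat.mk 0x28000000080000000800000000 0x40000000c0000000c000000380000003f0000003f00000014 7 6) 0 0 (step_sound _ 131 [(rh565a0c22519f57e9.shift 2 0), rh7722389c8573ffbd, (rh8065c10b3cae6218.shift 2 0), (rhc9ac229b3c77cd55.shift 2 0)] (by decide +kernel))
noncomputable def rh2a9809816dc05e47 : CRef := CRef.mk (Pat.mk 0x200000002800000008000000000000000000000000 0x50000000780000003f0000007f000000700000007000000050 7 7) 0 0 (step_sound _ 130 [(rh2f68fb68062f97ae.shift 1 3), rh345b13ef5967ae47, (rh69b6d8f927f1c632.shift 1 1), (rh73109a38068bb0da.shift 0 1), (rhd19bdf9ae8463a32.shift 0 3), (rhe7a687206514a34a.shift 0 3)] (by decide +kernel))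
noncomputable def rh5e164cc6a0458a73 : CRef := CRef.mk (Pat.mk 0x200000002800000008000000000000000000000000 0x10000000700000007000000060000001f00000003e000000ff000000f00000007000000030 7 9) 0 0 (step_sound _ 132 [(rh2f63932790c78224.shift 2 0), (rh46f4e32c661b103a.shift 0 3), (rhce43f6bd7714033c.shift 2 0), (rhff7d63dcb3cf9f74.shift 2 4)] (by decide +kernel))
noncomputable def rh58992c9c4da41535 : CRef := CRef.mk (Pat.mk 0x200000002800000008000000000000000000000000 0x700000007000000074000000fc0000007e000001e80000003f0000007f000000740000005000000010 7 9) 0 0 (step_sound _ 197 [(rh3caa8a3723b55711.shift 1 3), (rh581b9216396a5594.shift 2 2), (rh659eb6aa1e5d49ed.shift 4 1), rh805fb8cbc0b209c8, (rhcd14a41fdaf676d4.shift 2 1), (rhef0c9e0f8ec74606.shift 1 2)] (by decide +kernel))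
noncomputable def rh8fbb93dbeed37c6d : CRef := CRef.mk (Pat.mk 0x200000002800000008000000000000000000000000 0x500000007000000070000000300000003f0000007c000001f00000007000000050 7 9) 0 0 (step_sound _ 101 [(rh101c18615d8a09a0.shift 2 1), (rh4d3ea2a846e574f2.shift 2 0), (rh572372b7c11f1d09.shift 4 0), (rh6d22e4af4868beec.shift 2 2), (rhb0824d3582ea7ca5.shift 4 0), rhe27bf4d776219514, (rhff22ab043b310713.shift 2 1)] (by decide +kernel))
noncomputable def rhb13f3e64a062c1d0 : CRef := CRef.mk (Pat.mk 0x200000002800000008000000000000000000000000 0x70000000700000007c000003ff000001fc000003bf0000006e000000640000006000000040 7 10) 0 0 (step_sound _ 164 [(rh50a1a008197528a6.shift 1 1), rh58ca8198187f6a8b, (rh838c779ec64d8417.shift 2 3), (rh962a8a802b3e9bc8.shift 2 2), (rha0c139bb43ca4bea.shift 1 4), (rhb6b659b5b7ea6e25.shift 0 2), (rhe73c8fb61e1af683.shift 1 1)] (by decide +kernel))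
noncomputable def rhe5a212fa4bf45ae5 : CRef := CRef.mk (Pat.mk 0x80000000a000000020000000000000000000000000 0x50000000700000007c000001f0000000ff0000007e0000005f0000001000000010 7 9) 0 0 (step_sound _ 165 [rh3716636da72cb2e0, (rh6111136b0ea343b8.shift 2 2), (rh6a8ad3634d64ee2c.shift 2 2), (rh75c54fa8ebfaf83b.shift 2 2), (rh7fc048518b1b2845.shift 2 2), (rhc3d258fe97ccb3bc.shift 1 3), (rhefc976778ec1d039.shift 2 2)] (by decide +kernel))
noncomputable def rh3b0afced6a3ef3aa : CRef := CRef.mk (Pat.mk 0x80000000a000000020000000000000000 0x140000001c0000003f0000003f0000007f0000000e0000001e0000001c00000014 7 7) 0 0 (step_sound _ 163 [(rh2142766c34e2b59a.shift 2 0), (rh335fcbc5c97bd2b0.shift 2 0), (rh659eb6aa1e5d49ed.shift 2 0), (rh89d87a6c1a223e3d.shift 2 0), rhbcc5ef6e9e18b59a, (rhbd0df64270745b70.shift 0 2)] (by decide +kernel))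
noncomputable def rhce19f0f6858f9d19 : CRef := CRef.mk (Pat.mk 0x500000001000000000000000000000000000000000 0x800000078000000f80000007e000001fe000001fe000003ff0000007800000028 7 10) 0 0 (step_sound _ 100 [(rh1b79740c74061dde.shift 3 1), (rh1e82760509877708.shift 3 0), (rh274e6d75190a5742.shift 1 0), (rh4357bc4c604fe815.shift 3 0), rh8e1d9e8f9db62c88, (rhc1f48429e2584caf.shift 3 1), (rheb8589eed55e442e.shift 3 0), (rheeb09fa00fbc55f9.shift 3 1)] (by decide +kernel))
noncomputable def rh92e978301f8c685a : CRef := CRef.mk (Pat.mk 0x8000000080000002800000000 0x140000001c0000001c000000080000003f0000003f00000014 7 6) 0 0 (step_sound _ 131 [rh4388fe4ef0a37060, (rh73ba6c579e4b229a.shift 1 0), (rh762a1aeaf83c662a.shift 2 0), (rhc17b7d8fab3dfe57.shift 2 0)] (by decide +kernel))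
noncomputable def rh4c0450ae20afe2d3 : CRef := CRef.mk (Pat.mk 0x80000000800000028000000000000000000000000 0x140000001c0000003c0000003f0000007c0000007c00000014 7 7) 0 0 (step_sound _ 67 [(rh46baee19951a66e7.shift 2 0), (rh6aa5625770489e83.shift 2 0), (rh8cdd36b03d57a2f6.shift 2 0), (rhdfa64ed44c188e70.shift 0 1)] (by decide +kernel))
noncomputable def rhafe1117f81b4145c : CRef := CRef.mk (Pat.mk 0xc00000014000000000000000000000000 0xe0000000e0000000f0000007f0000001f0000007c0000001c0000001c 7 7) 0 0 (step_sound _ 99 [(rh066b29d9577a1b4f.shift 0 1), (rh420575cf41d03d3d.shift 1 0), (rh64da8ad022b2018b.shift 0 1), rhcdde53061d8dbd19, rhf7e265faf33f11e5] (by decide +kernel))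
noncomputable def rh234796180f54a4c0 : CRef := CRef.mk (Pat.mk 0xc00000014000000000000000000000000 0xe0000001e0000007f0000007f0000001f0000000c0000000c0000000c 7 7) 0 0 (step_sound _ 99 [rh013506b4385845e8, (rh066b29d9577a1b4f.shift 0 1), (rh1e8aceccf05fd0a3.shift 0 1), rh6b46eca60adc2785, (rha4b7d45d0348ec16.shift 0 1), (rhfa7a3cfe5258c148.shift 0 1)] (by decide +kernel))
noncomputable def rhb568766f005f6d41 : CRef := CRef.mk (Pat.mk 0xc000000140000000000000000 0x80000001e0000003f0000003f0000001c0000001c0000001c 7 6) 0 0 (step_sound _ 131 [(rh03e1d4b712fd50ef.shift 2 0), rh915a4ee32387b163, (rhf91b1398c815afd2.shift 2 0), (rhf9366b6a121593ef.shift 2 0)] (by decide +kernel))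
noncomputable def rh5bd906e952f3929f : CRef := CRef.mk (Pat.mk 0x180000002800000000000000000000000000000000 0x10000000340000003e000000780000003f000000f8000000380000003000000010 7 8) 0 0 (step_sound _ 196 [(rh03e1d4b712fd50ef.shift 3 2), rh92c5d432806a2485, (rhf91b1398c815afd2.shift 3 2), (rhf9366b6a121593ef.shift 3 2)] (by decide +kernel))
noncomputable def rh29ddee2472ae33ae : CRef := CRef.mk (Pat.mk 0x1800000028000000000000000000000000 0x80000003c0000003c0000007f0000001f0000003c000000380000001800000010 7 7) 0 0 (step_sound _ 164 [(rh96bae953909b92ed.shift 0 1), (rha8aae0342515708b.shift 1 0), (rhcf80391c5046a495.shift 3 1), (rhf91b1398c815afd2.shift 3 1), (rhf9366b6a121593ef.shift 3 1)] (by decide +kernel))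
noncomputable def rh2295e2cdca1d4299 : CRef := CRef.mk (Pat.mk 0x20000000b0000000000000000000000000 0x8000001ff000000fe000000070000000400000004 7 9) 0 0 (step_sound _ 99 [(rha0198dc55831a65f.shift 2 3), (rha11dfd15f08f96e3.shift 2 3), rhd454c14da11babbf, (rhd7b8cc4eecb9e3ae.shift 2 3), (rhff7d63dcb3cf9f74.shift 2 3)] (by decide +kernel))
noncomputable def rh506b562c632096da : CRef := CRef.mk (Pat.mk 0x40000001600000000000000000000000000000000 0x2c0000003c0000003c0000003f0000001e0000003e0000003e0000003a00000020 7 6) 0 0 (step_sound _ 194 [(rh1d186c5e858ce09d.shift 0 1), (rh281c6819542c66e6.shift 1 1), (rh6bdfefedee452584.shift 1 0), (rhfafeb437ceb8396d.shift 1 1)] (by decide +kernel))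
noncomputable def rh9ab690de20cd1ff0 : CRef := CRef.mk (Pat.mk 0x20000000b0000000000000000000000000 0x20000001ef000000fe000001f70000001000000010 7 9) 0 0 (step_sound _ 99 [rh39c246a862aa28a2, (rh3f83af65ae644162.shift 3 2), (rh46f4e32c661b103a.shift 0 2), (rha11dfd15f08f96e3.shift 2 3)] (by decide +kernel))
noncomputable def rhf8d6cc766e3f47ea : CRef := CRef.mk (Pat.mk 0x80000002c00000000000000000000000000000000 0x1800000018000000380000006f0000003f0000007c0000001c0000001c00000014 7 7) 0 0 (step_sound _ 195 [(rh281c6819542c66e6.shift 2 1), (rha8ff7d7834c1c7de.shift 1 1), rhafc919f99d33d8a7, (rhfafeb437ceb8396d.shift 2 1)] (by decide +kernel))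
noncomputable def rh4c67df4e765839b9 : CRef := CRef.mk (Pat.mk 0x80000002c00000000000000000000000000000000 0x440000005c0000007c000001f80000007c0000002f0000007c0000007c0000001c00000014 7 9) 0 0 (step_sound _ 164 [(rh748a9c0f1bd25ce2.shift 2 2), rh9ee4f797a9816237, (rhd69c262cd33b94b3.shift 0 4), (rhedb48eea1625d91d.shift 0 2)] (by decide +kernel))
noncomputable def rh18166cf39ca4e187 : CRef := CRef.mk (Pat.mk 0x80000002c000000000000000000000000 0x140000001c0000003c0000003f0000007c0000003f0000000c0000000c0000000c 7 7) 0 0 (step_sound _ 163 [(rh281c6819542c66e6.shift 2 0), rh3cade6bbfcde84e5, (rhada723a5e8026508.shift 0 2), (rhfafeb437ceb8396d.shift 2 0)] (by decide +kernel))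
noncomputable def rhaf2cc4d1c8dcb8df : CRef := CRef.mk (Pat.mk 0x1000000058000000000000000000000000 0x2800000038000003ff000001fe000003df00000078000000580000001800000018 7 10) 0 0 (step_sound _ 164 [rh0272f6753d43f502, (rh281c6819542c66e6.shift 3 0), (rhada723a5e8026508.shift 1 2), (rhfafeb437ceb8396d.shift 3 0)] (by decide +kernel))
noncomputable def rhce1eb30f895db395 : CRef := CRef.mk (Pat.mk 0x1000000018000000000000000000000000 0x28000000380000007c0000007f0000003e00000018000000180000001800000018 7 7) 0 0 (step_sound _ 164 [(rh281c6819542c66e6.shift 3 0), (rhada723a5e8026508.shift 1 2), rhb018a21d23a94c09, (rhfafeb437ceb8396d.shift 3 0)] (by decide +kernel))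
noncomputable def rhff9cda29603df028 : CRef := CRef.mk (Pat.mk 0x80000002c000000000000000000000000 0x28000001f80000007c0000003f000000780000003000000030 7 9) 0 0 (step_sound _ 100 [(rh6887ef21f67dd26a.shift 1 0), (rhbb6e9246d970fbf6.shift 1 1), (rhcd32eca242b09f3d.shift 1 0), (rhf267c140c7d905e5.shift 2 0), (rhffc534c89a09560a.shift 0 2)] (by decide +kernel))
noncomputable def rhed7b95bcbd3d0d63 : CRef := CRef.mk (Pat.mk 0x1000000058000000000000000000000000 0xc000000dc000000ff000000ff00000078000000f80000003800000018 7 8) 0 0 (step_sound _ 131 [(rh0e441af6c16b54f0.shift 2 1), (rh5cd9ecfe847bcb8d.shift 0 1), rh8c32ae673f504d2d, rhf7061e030d727cfa] (by decide +kernel))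
noncomputable def rh8373bb246132c36a : CRef := CRef.mk (Pat.mk 0x1000000058000000000000000000000000 0x100000001c0000003f0000003f0000007f000000f80000003800000038 7 8) 0 0 (step_sound _ 131 [(rh1dc9c6983d482ffa.shift 0 2), (rh5cd9ecfe847bcb8d.shift 0 1), (rh7b4129e1045fa224.shift 2 0), rhf8d686e164e2788e] (by decide +kernel))
noncomputable def rhf368686386160ac7 : CRef := CRef.mk (Pat.mk 0x100000005800000000000000000000000000000000 0x1c0000007c000000df0000007e000000f8000000380000003800000020 7 8) 0 0 (step_sound _ 163 [(rh0ddacc7bd56bdbb2.shift 1 0), (rh5cd9ecfe847bcb8d.shift 0 2), (rh7637f3b31818a0c5.shift 2 1), (rh7b4129e1045fa224.shift 2 1)] (by decide +kernel))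
noncomputable def rh855f624c10f4b5bc : CRef := CRef.mk (Pat.mk 0x1000000018000000000000000000000000 0x1c0000001c000000ff000000ff0000001f000000f80000003800000038 7 8) 0 0 (step_sound _ 131 [rh46de95dd92d3385e, (rh79c728483bd2e003.shift 0 1), (rh7b4129e1045fa224.shift 2 0), (rhd71e8766a41ac9bc.shift 1 0), rhf7061e030d727cfa, rhfb7dc4eb8b7470fb] (by decide +kernel))
noncomputable def rhd74e4a519343f33f : CRef := CRef.mk (Pat.mk 0x80000002c000000000000000000000000 0x140000001c0000001c0000007c0000007e0000003f0000006c0000006c0000000c 7 7) 0 0 (step_sound _ 133 [(rh267582067230c092.shift 1 0), (rh86b479e73e2ef8d9.shift 0 1), (rh9f2591205204f08d.shift 2 3), (rhe33d9496e10d8eb0.shift 0 3)] (by decide +kernel))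
noncomputable def rh3d243be3fcf1cc50 : CRef := CRef.mk (Pat.mk 0x1000000058000000000000000000000000 0x2800000038000003ff000001fe000003df00000078000000580000001800000018 7 10) 0 0 (step_sound _ 164 [(rh281c6819542c66e6.shift 3 0), rh993e5647b8f0dedc, (rhada723a5e8026508.shift 1 2), (rhfafeb437ceb8396d.shift 3 0)] (by decide +kernel))
noncomputable def rh08affc32ed168152 : CRef := CRef.mk (Pat.mk 0x80000002c000000000000000000000000 0x140000005c0000007c0000007e000001f80000003f0000006c0000006c00000044 7 9) 0 0 (step_sound _ 133 [(rh836bf4d2abdd4871.shift 2 0), (rh9f2591205204f08d.shift 2 3), (rhdccb7672cac5734c.shift 0 1), (rhf57cfb5f52aead4a.shift 1 1)] (by decide +kernel))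
noncomputable def rheac2c6221e7ac2b7 : CRef := CRef.mk (Pat.mk 0x100000005800000000000000000000000000000000 0x80000000c0000001c0000001f000000ff0000007f00000018000000380000003800000020 7 8) 0 0 (step_sound _ 165 [(rh1361ff8446c897d6.shift 1 0), (rh557b120f072744ca.shift 1 4), (rh69012675dfdb1a5b.shift 1 4), (rhbd381f286233b580.shift 0 1), (rhd69c262cd33b94b3.shift 1 4)] (by decide +kernel))
noncomputable def rh3646a9c5776f00ab : CRef := CRef.mk (Pat.mk 0x1000000058000000000000000000000000 0x1c0000005c000000df000000ff0000007f000000380000003800000018 7 8) 0 0 (step_sound _ 131 [rh0c50843e56dc9cc5, (rh5b2089b93c55840a.shift 1 0), (rha5f901d3f5303397.shift 2 1), rhf7061e030d727cfa] (by decide +kernel))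
noncomputable def rhb13145198ac26ecc : CRef := CRef.mk (Pat.mk 0x80000002c00000000000000000000000000000000 0x4000000440000006e0000006f0000007e0000003c0000007c0000007c0000007c00000050 7 7) 0 0 (step_sound _ 165 [(rh8d438902bcf78147.shift 1 0), (rh9f2591205204f08d.shift 2 4), (rhb29f92d3b22f47cd.shift 0 1), (rhc2edd2036a6f7729.shift 2 0)] (by decide +kernel))
noncomputable def rhaf032692014853cb : CRef := CRef.mk (Pat.mk 0x80000000c000000000000000000000000 0x140000001c0000003c0000000f0000000c0000000e0000007c0000001c0000001c 7 7) 0 0 (step_sound _ 163 [(rh281c6819542c66e6.shift 2 0), (rh42f24e810e046db0.shift 1 0), (rhada723a5e8026508.shift 0 2), (rhfafeb437ceb8396d.shift 2 0)] (by decide +kernel))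
noncomputable def rha31b2d8fdbf8688e : CRef := CRef.mk (Pat.mk 0x4000000040000001400000000 0xa0000001e0000003f0000003f0000000f0000001e0000001a 7 6) 0 0 (step_sound _ 130 [rh2b6d24ec0b9dc5a6, rh73ba6c579e4b229a, (rh762a1aeaf83c662a.shift 1 0), (rhc17b7d8fab3dfe57.shift 1 0)] (by decide +kernel))
noncomputable def rhf3e0890529117c0a : CRef := CRef.mk (Pat.mk 0x100000001000000050000000000000000000000000 0x8000000ee000000ff0000003e00000078000000180000001800000008 7 8) 0 0 (step_sound _ 165 [(rh15590a39afd9a120.shift 3 0), (rh67237cba5517e64f.shift 0 1), (rh86b5524c0aeb0110.shift 0 3), (rhb8c18aeece372d98.shift 3 0)] (by decide +kernel))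
noncomputable def rh978d00b16ef1b72b : CRef := CRef.mk (Pat.mk 0x2000000020000000200000000000000000000000000000000 0x30000000300000007000000060000000600000007000000070000000700000004 7 3) 0 0 (step_sound _ 97 [(rh8065c10b3cae6218.shift 0 2), (rh8cdd36b03d57a2f6.shift 0 1), rhb4d78cd0e58cc17c, (rhff6b27c9612d7353.shift 0 1)] (by decide +kernel))
noncomputable def rh7ee7f90788af69bd : CRef := CRef.mk (Pat.mk 0x4000000040000001400000000 0xa0000001e0000003f0000003f0000000c0000001e0000001a 7 6) 0 0 (step_sound _ 130 [(rh12461e137161f2e1.shift 1 0), rh2b6d24ec0b9dc5a6, (rh762a1aeaf83c662a.shift 1 0), (rhc17b7d8fab3dfe57.shift 1 0), (rhd7cb8ed87e2022d8.shift 1 0)] (by decide +kernel))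
noncomputable def rhdad758f4157e4eb3 : CRef := CRef.mk (Pat.mk 0x80000000800000028000000000000000000000000 0x1000000018000000380000003f0000007c0000007c00000014 7 7) 0 0 (step_sound _ 67 [(rh367118e0bf0473e0.shift 2 0), (rh8cdd36b03d57a2f6.shift 2 0), (rhc9de03f9731897d4.shift 3 0), (rhdfa64ed44c188e70.shift 0 1)] (by decide +kernel))
noncomputable def rh321665f757ae9faf : CRef := CRef.mk (Pat.mk 0x8000000080000002800000000 0x14000000fc0000007f000000ff0000000e0000003c00000014 7 8) 0 0 (step_sound _ 131 [(rh3f0b5051c9324cf3.shift 0 1), (rh73ba6c579e4b229a.shift 1 0), (rh762a1aeaf83c662a.shift 2 0), (rhc17b7d8fab3dfe57.shift 2 0)] (by decide +kernel))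
noncomputable def rhd40fb17f80e5609b : CRef := CRef.mk (Pat.mk 0x80000000800000028000000000000000000000000 0x44000000f60000007e000001ef000000380000007c0000007c00000054 7 9) 0 0 (step_sound _ 164 [(rhb8c18aeece372d98.shift 2 0), rhcd67395ca391a2d6, (rhfa40f754f1f7b88f.shift 2 0), (rhfb6a18079b714927.shift 1 0)] (by decide +kernel))
noncomputable def rhacc358522fadf1a7 : CRef := CRef.mk (Pat.mk 0x80000000800000008000000000000000000000000 0x100000001c0000003c0000000f0000000c0000000c0000001c0000001c00000014 7 6) 0 0 (step_sound _ 195 [(rh20966da26a1c2ae8.shift 2 2), (rh47992774edf9829f.shift 2 0), (rh5ee4dc8825dcefa0.shift 0 2), (rh6aa5625770489e83.shift 2 1)] (by decide +kernel))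
noncomputable def rh194d8613a4c7b839 : CRef := CRef.mk (Pat.mk 0x200000002000000020000000000000000000000000 0x57000000fe000001ff00000020000000700000007000000050 7 9) 0 0 (step_sound _ 69 [(rh21769857bc5806c4.shift 0 1), (rh46baee19951a66e7.shift 4 0), (rh6aa5625770489e83.shift 4 0), (rh8cdd36b03d57a2f6.shift 4 0)] (by decide +kernel))
noncomputable def rhe93d88b63981f086 : CRef := CRef.mk (Pat.mk 0x8000000080000000800000000 0x14000000fc0000007f000000ff0000000c0000000c00000004 7 8) 0 0 (step_sound _ 131 [(rh20966da26a1c2ae8.shift 2 0), (rh2a53351fac336ea2.shift 0 1), (rh565a0c22519f57e9.shift 2 0), (rh762a1aeaf83c662a.shift 2 0)] (by decide +kernel))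
noncomputable def rh45bcf8abe2866dcd : CRef := CRef.mk (Pat.mk 0x8000000080000002800000000 0x100000001800000018000000080000003f0000003f00000014 7 6) 0 0 (step_sound _ 131 [(rh20966da26a1c2ae8.shift 2 0), rh4388fe4ef0a37060, (rh73ba6c579e4b229a.shift 1 0), (rhced6d86d2069808b.shift 3 0)] (by decide +kernel))
noncomputable def rhce90edf927cf084f : CRef := CRef.mk (Pat.mk 0x8000000080000002800000000 0x40000000c0000000c000000080000003f0000003f00000014 7 6) 0 0 (step_sound _ 131 [rh4388fe4ef0a37060, (rh565a0c22519f57e9.shift 2 0), (rh73ba6c579e4b229a.shift 1 0), (rh8065c10b3cae6218.shift 2 0)] (by decide +kernel))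
noncomputable def rhb1eeb43ca2f0601d : CRef := CRef.mk (Pat.mk 0x8000000080000000800000000 0x14000000fc0000007f000000ff000000180000001800000010 7 8) 0 0 (step_sound _ 131 [(rh2a53351fac336ea2.shift 0 1), (rh8065c10b3cae6218.shift 2 0), (rhc17b7d8fab3dfe57.shift 2 0), (rhced6d86d2069808b.shift 3 0)] (by decide +kernel))
noncomputable def rh5b0a55cda8161855 : CRef := CRef.mk (Pat.mk 0x8000000080000000800000000 0x14000000fc0000007f000000ff0000000c0000000c00000004 7 8) 0 0 (step_sound _ 131 [(rh20966da26a1c2ae8.shift 2 0), (rh2a53351fac336ea2.shift 0 1), (rh565a0c22519f57e9.shift 2 0), (rh762a1aeaf83c662a.shift 2 0), (rhc85cc95794737cf7.shift 2 1)] (by decide +kernel))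
noncomputable def rhc71effc0010c6e63 : CRef := CRef.mk (Pat.mk 0x2000000020000000a000000000000000000000000000000000 0x1c0000001d0000003d8000007fc000007fe000000ff000003c0000001c0000001c000000100 7 11) 0 0 (step_sound _ 167 [(rh09d1a42e80d038d8.shift 2 1), (rh429cd6859d95306e.shift 2 2), (rh6be68541e47159d8.shift 2 3), (rh77cd3d2bf57fa57e.shift 2 2), (rh79176689e9ae471b.shift 2 2), (rh81a685d72f9a6248.shift 0 1), (rh830032957933820d.shift 2 1), (rh9efbcea1803c410b.shift 2 1), (rhfd4bcb363ebc2e5a.shift 3 0)] (by decide +kernel))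
noncomputable def rh10713629fc253bbd : CRef := CRef.mk (Pat.mk 0x80000000800000028000000000000000000000000 0x140000003f0000007f000000380000001c0000001c00000014 7 7) 0 0 (step_sound _ 67 [(rh28547544936a050e.shift 0 2), (rh46baee19951a66e7.shift 2 0), (rh6aa5625770489e83.shift 2 0), (rh8cdd36b03d57a2f6.shift 2 0)] (by decide +kernel))
noncomputable def rh115536dd7e58a5c0 : CRef := CRef.mk (Pat.mk 0x4000000040000001400000000 0xa0000001e0000003f0000003f0000000c0000001c00000018 7 6) 0 0 (step_sound _ 130 [rh2d8b6f6f3e887381, (rh8065c10b3cae6218.shift 1 0), (rhc17b7d8fab3dfe57.shift 1 0), (rhc85cc95794737cf7.shift 1 1), (rhced6d86d2069808b.shift 2 0)] (by decide +kernel))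
noncomputable def rh69bba83fba69de20 : CRef := CRef.mk (Pat.mk 0x8000000280000002000000000 0x5000000070000000700000007f0000003f0000007800000050 7 7) 0 0 (step_sound _ 66 [rh3e00a8eae1c50318, (rh499fe0919994f2c0.shift 0 1), (rh7dd65512f73ba029.shift 1 0), (rh8eaf575faa66081e.shift 0 1), (rhbede0049e4a00269.shift 0 1), rhf4c1e3cffc44fb1b] (by decide +kernel))
noncomputable def rh960c273de2164f5e : CRef := CRef.mk (Pat.mk 0x4000000140000001000000000000000000000000000000000 0x1800000038000000780000007f0000001f000000f800000030000000380000003800000008 7 8) 0 0 (step_sound _ 163 [(rh697a30c69152e704.shift 0 2), (rh837fb94da5f015d6.shift 2 0), (rh8b0abee4db243a6f.shift 0 2), (rhc21a95c499b3efdb.shift 1 4)] (by decide +kernel))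
noncomputable def rha2d307d3602ec462 : CRef := CRef.mk (Pat.mk 0x4000000140000001000000000000000000000000000000000 0x3000000038000000780000007c0000001f000000f800000038000000380000003800000008 7 8) 0 0 (step_sound _ 163 [(rh116aa588201a7e7d.shift 2 0), (rh3b7a4e73dff6121e.shift 0 2), (rh697a30c69152e704.shift 0 2), (rhc21a95c499b3efdb.shift 1 4)] (by decide +kernel))
noncomputable def rh66f36c28b3c65540 : CRef := CRef.mk (Pat.mk 0x800000028000000200000000000000000000000000000000000000000 0x50000000740000007f0000003f000001e80000007e000001fc000000740000007000000070 7 9) 0 0 (step_sound _ 133 [(rh3134a13106ca9ed3.shift 2 2), (rh443f8861ca1c73e2.shift 0 2), (rh987c0ee189b8c805.shift 2 2), (rh9df31e441a7e04d9.shift 2 3), (rhb591119b42d69216.shift 1 0), (rhcf317151cb8473c3.shift 2 0)] (by decide +kernel))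
noncomputable def rh39b6fc2582ec57d8 : CRef := CRef.mk (Pat.mk 0x80000002800000020000000000000000000000000 0x5000000070000000f00000007c0000003f00000030000000700000007000000050 7 8) 0 0 (step_sound _ 165 [(rh08ff1a9078a560c4.shift 2 0), (rh0f8b6e97dcc46553.shift 2 0), (rh60f1badc12958906.shift 4 1), (rh80f63bb8c84fde5a.shift 4 1), (rh91dfb422531e32ca.shift 2 2), (rheaeedf48351ea42c.shift 0 2)] (by decide +kernel))
noncomputable def rh0d16b423b6edd5e3 : CRef := CRef.mk (Pat.mk 0x8000000280000002000000000000000000000000000000000 0x4000000060000000640000006c000003bf000001fc000003ff0000007c0000007000000070 7 10) 0 0 (step_sound _ 132 [(rh08db685efa28fee5.shift 0 1), (rh45b9d2b7fbe17e21.shift 1 1), (rh5bffab07da13fcb9.shift 2 2), (rh6ed57e066c30f470.shift 2 0), (rh9458541fe701f947.shift 1 3), (rh982ffe2b9988eebb.shift 0 1), (rhcdab4fa0dffd027e.shift 1 0)] (by decide +kernel))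
noncomputable def rhb8a2e7be96aaf397 : CRef := CRef.mk (Pat.mk 0x20000000a000000080000000000000000000000000 0x5f0000007e000000ff000001f00000007c0000007000000050 7 9) 0 0 (step_sound _ 101 [(rh0fc618287cd863fa.shift 2 0), (rhae8deb14dacaf212.shift 1 3), (rhbaea0932aea21468.shift 2 0), rhdb14fbe1ca24d202] (by decide +kernel))
noncomputable def rhc6d40cadfefde933 : CRef := CRef.mk (Pat.mk 0x4000000140000001000000000000000000000000000000000 0x28000000380000003e0000001c000000fe0000007e000001ff0000003800000028 7 9) 0 0 (step_sound _ 100 [(rh3134a13106ca9ed3.shift 1 1), rhac4046594412cd3e, (rhc683f6e2dd16a214.shift 3 1), (rhd1026a89cf2ef30b.shift 2 0), (rhd1cb6d972b22d75f.shift 1 1)] (by decide +kernel))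
noncomputable def rhbd6caa14a6457fa8 : CRef := CRef.mk (Pat.mk 0x800000028000000000000000000000000 0x140000001c000000ff0000007f000001ff0000003f000000fc0000003c00000034 7 9) 0 0 (step_sound _ 163 [(rh020140c103c93fec.shift 2 0), (rh1e82760509877708.shift 2 0), (rh1ef66d949c10f38b.shift 2 1), (rh3e53d14085adc43a.shift 2 1), rh7549b9b55183b86a, rh89a9350f0c6bdec4, (rhbabd6c92f46a055d.shift 1 1), (rhfc60e486baaa63e2.shift 2 1)] (by decide +kernel))
noncomputable def rh5242860cdd62a0b0 : CRef := CRef.mk (Pat.mk 0x20000000380000000000000000000000000000000000000000 0x80000002c0000003e0000003e0000007f0000001c0000001e0000000e00000002 7 7) 0 0 (step_sound _ 162 [(rh2591032a0e7f4182.shift 0 4), (rh9483656c38360087.shift 1 2), (rheccb23d994513be1.shift 1 0)] (by decide +kernel))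
noncomputable def rh984aa034c141b83f : CRef := CRef.mk (Pat.mk 0x10000000160000000000000000000000000000000000000000 0x400000006000000370000001e0000000700000006000000070000000700000001 7 6) 0 0 (step_sound _ 163 [(rh33e738c4ed385b9f.shift 1 5), rheccb23d994513be1] (by decide +kernel))
noncomputable def rh788dd03408eee7d3 : CRef := CRef.mk (Pat.mk 0x200000002c0000000000000000000000000000000000000000 0x80000000c0000003f0000003e0000006f0000000c0000000e0000000e00000002 7 7) 0 0 (step_sound _ 164 [(rh2591032a0e7f4182.shift 0 4), (rhc570c09f7c0268b1.shift 0 4), (rheccb23d994513be1.shift 1 0)] (by decide +kernel))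
noncomputable def rhc05750ddbb005c8b : CRef := CRef.mk (Pat.mk 0x200000002c000000000000000000000000 0x140000001e0000007e0000007e0000007f0000002f0000002c0000002c0000000c 7 7) 0 0 (step_sound _ 131 [rh6b4f5268568afa46, rhc49910c6ff6fe591, (rhe33d9496e10d8eb0.shift 0 3), (rhf57cfb5f52aead4a.shift 1 1)] (by decide +kernel))
noncomputable def rhd16204d93f7dfe82 : CRef := CRef.mk (Pat.mk 0x200000002c0000000000000000000000000000000000000000 0x80000000c0000003e0000003e0000007f0000000c0000000e0000000e00000002 7 7) 0 0 (step_sound _ 164 [(rh2591032a0e7f4182.shift 0 4), (rh2ebbcfe90e0f250d.shift 1 4), (rheccb23d994513be1.shift 1 0)] (by decide +kernel))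
noncomputable def rha180685b87c9cb3f : CRef := CRef.mk (Pat.mk 0x200000000c00000000000000000000000000000000 0x100000001c0000001c0000001f0000007c0000000f0000007c0000001c0000001c00000014 7 7) 0 0 (step_sound _ 163 [(rh6c84404f6a75cadc.shift 0 1), rhc38d58193208e5c2, (rhe33d9496e10d8eb0.shift 0 4), (rhfa6d9ff91357f7a8.shift 1 0)] (by decide +kernel))
noncomputable def rh70380b75fb4ecfca : CRef := CRef.mk (Pat.mk 0x20000000380000000000000000000000000000000000000000 0x80000002c0000002f0000003e0000007f0000001c0000001e0000000e00000002 7 7) 0 0 (step_sound _ 162 [(rh008b05f4778dc30d.shift 0 4), (rh775ca1963e850b80.shift 0 4), (rh9483656c38360087.shift 1 2), (rheccb23d994513be1.shift 1 0)] (by decide +kernel))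
noncomputable def rh521a75152b2332eb : CRef := CRef.mk (Pat.mk 0x2800000028000000000000000000000000 0x28000000ff000000fe0000003f000000160000001400000004 7 8) 0 0 (step_sound _ 132 [(rh2820ca9a6c4f41b4.shift 0 3), (rh86440d954a49f35b.shift 1 1), rhb721ba8f8b2234a7, (rhf0f55c4504412200.shift 0 3)] (by decide +kernel))
noncomputable def rh9e0cec1b54c9e9f8 : CRef := CRef.mk (Pat.mk 0x280000002800000000000000000000000000000000 0x140000001c0000001c000001df000000f80000003f0000001e0000001c0000001c00000014 7 9) 0 0 (step_sound _ 164 [(rh272396c8ee8fefa8.shift 2 2), (rh7d7c2155600e215e.shift 2 2), rhb1c49e634589276b, (rhf0f55c4504412200.shift 0 4)] (by decide +kernel))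
noncomputable def rh06a79067e5b1f410 : CRef := CRef.mk (Pat.mk 0x28000000280000000000000000 0x24000003f7000001fe000003bf0000001800000018 7 10) 0 0 (step_sound _ 100 [(rh2820ca9a6c4f41b4.shift 0 2), rh731ef7ec3e8fedf3, rhe674a34dba9086f0, (rhf0f55c4504412200.shift 0 2)] (by decide +kernel))
noncomputable def rhd08cc06bff585775 : CRef := CRef.mk (Pat.mk 0x280000002800000000000000000000000000000000 0x140000003c0000007f0000003e0000003f0000001e0000001c0000001c00000014 7 7) 0 0 (step_sound _ 164 [(rh67cd32f062ad378e.shift 1 1), (rh846fe2a2e37de5d5.shift 0 2), rhb1c49e634589276b, (rhb55ee1177cf584c3.shift 0 2), (rhb721ba8f8b2234a7.shift 0 1), (rhe674a34dba9086f0.shift 0 2)] (by decide +kernel))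
noncomputable def rh27e22ae938878350 : CRef := CRef.mk (Pat.mk 0x2800000028000000000000000000000000 0x100000001c0000001c0000003c000003ff000001fe000003b80000001f0000001c0000001c 7 10) 0 0 (step_sound _ 132 [rh1f207abdbd10ea86, (rh731ef7ec3e8fedf3.shift 0 1), (rh7d7c2155600e215e.shift 2 1), (rh846fe2a2e37de5d5.shift 0 1), (rh86440d954a49f35b.shift 1 1), (rh86ee56c3f66284e0.shift 1 1), rh9985cb2751e2c788] (by decide +kernel))
noncomputable def rhe17ca888d093431b : CRef := CRef.mk (Pat.mk 0x28000000280000000000000000 0x1400000014000001ff000000fe0000003f0000000800000008 7 9) 0 0 (step_sound _ 100 [(rh272396c8ee8fefa8.shift 2 0), (rh2820ca9a6c4f41b4.shift 0 2), (rh86ee56c3f66284e0.shift 1 0), rhb55ee1177cf584c3] (by decide +kernel))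
noncomputable def rh900a6dcb276d3dd4 : CRef := CRef.mk (Pat.mk 0x280000002800000000000000000000000000000000 0x540000007c000001fc000000f80000002f0000007c000000fc0000007400000050 7 9) 0 0 (step_sound _ 166 [rh1978561c5ac09278, (rh562c905737e2bff1.shift 2 2), (rh8d0e56b8a78c5a56.shift 2 4), (rhd5899e89efce0709.shift 2 2), (rhe5944c0a1e5f3c0d.shift 2 2)] (by decide +kernel))
noncomputable def rh77d70ebc9405aded : CRef := CRef.mk (Pat.mk 0x28000000280000000000000000000000000000000000000000 0x4c0000004c0000006f0000007c0000002f000000fe0000007c0000007c0000005c00000014 7 8) 0 0 (step_sound _ 131 [(rh0f5c947082bcb631.shift 2 1), (rh1fa33a0369aa1fc6.shift 1 1), rh267adea4b37582c7, (rh4692eec48c60ad82.shift 2 1), (rh48e1339902c80d1a.shift 0 2), rh6835dab1c84617f5, (rh8858cbf1ab06cf1d.shift 0 3), (rhbcd192d7b5fbe576.shift 0 1), (rhd8745d3afce428ba.shift 2 2), (rhfe829c42ed752e6d.shift 2 1)] (by decide +kernel))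
noncomputable def rh7a9412a180f01820 : CRef := CRef.mk (Pat.mk 0x38000000200000000000000000 0x2000000060000000700000007f0000003e000000370000002000000020 7 7) 0 0 (step_sound _ 98 [(rh775ca1963e850b80.shift 0 2), (rh7c1ff4cdf738152e.shift 1 0), (rhdceeca65bdd8095a.shift 0 2)] (by decide +kernel))
noncomputable def rh87da09efeaf6b0d0 : CRef := CRef.mk (Pat.mk 0x3800000020000000000000000000000000 0x240000006f0000003e0000003f0000001e0000001c00000004 7 7) 0 0 (step_sound _ 130 [(rh7038669a66487092.shift 1 0), (rh775ca1963e850b80.shift 0 3), (rh8859ac061aed93d9.shift 1 1), (rhdceeca65bdd8095a.shift 0 3)] (by decide +kernel))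
noncomputable def rh7ee68c16c242c60d : CRef := CRef.mk (Pat.mk 0x1c000000100000000000000000000000000000000000000000 0x3000000030000000340000001c000001fe000001ff000001fe0000003c0000003800000028 7 9) 0 0 (step_sound _ 132 [(rh079a6f206f2a09d2.shift 1 0), (rh29f92a53243f733a.shift 2 1), (rh2d5581c417ad61f3.shift 1 1), (rh7dc35bd300846354.shift 1 1), (rh817747b8933a750a.shift 0 1), (rha4fdef9e98e493d2.shift 1 1), (rhcd4ff5e74873e18b.shift 1 1), (rhd50b0766e685eb90.shift 3 2), (rhfa89528fff53f6c8.shift 1 2), (rhfb0ed49cb7581ad4.shift 3 0)] (by decide +kernel))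
noncomputable def rh91e8a6db65b62036 : CRef := CRef.mk (Pat.mk 0x16000000100000000000000000 0x30000000340000003f0000001e0000003b0000000a00000002 7 6) 0 0 (step_sound _ 99 [rhaadc89da6db7efd6, (rhe25b0a99195a5d59.shift 1 2)] (by decide +kernel))
noncomputable def rhcf9b958d04f9dcda : CRef := CRef.mk (Pat.mk 0x2c000000200000000000000000 0x60000000680000007f0000003e000000370000001400000004 7 7) 0 0 (step_sound _ 100 [(rh61325f73ebf98108.shift 0 3), (rh775ca1963e850b80.shift 0 2), (rhaadc89da6db7efd6.shift 1 0), (rhdceeca65bdd8095a.shift 0 2)] (by decide +kernel))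
noncomputable def rh076bb668286ce600 : CRef := CRef.mk (Pat.mk 0x3800000020000000000000000000000000 0x100000007000000070000000fe000000ff0000003e00000027000000700000007000000050 7 8) 0 0 (step_sound _ 165 [(rh1f266c083a0a4b9b.shift 1 1), (rh7f0f728c796044ac.shift 0 3), (rhb12ffaec36122c99.shift 0 3), (rhcc01267e34479c3f.shift 4 0)] (by decide +kernel))
noncomputable def rhfd9d19b9cb814a3c : CRef := CRef.mk (Pat.mk 0x2800000028000000000000000000000000 0x6000000160000003f000000fe000001ff0000002800000028 7 9) 0 0 (step_sound _ 100 [(rh1aae126fdb0efa1d.shift 2 2), (rh8e35b8e686c528a7.shift 1 0), (rha9afbdf71a3ac0d4.shift 0 1), (rha9fbfd4bb8cf890b.shift 0 3)] (by decide +kernel))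
noncomputable def rh00ea1a25fbfecd4b : CRef := CRef.mk (Pat.mk 0x2800000028000000000000000000000000 0x140000001c0000001c0000003c000000f8000001df0000001c0000001c 7 9) 0 0 (step_sound _ 100 [(rh12eae6b92ab228be.shift 2 0), (rh1aae126fdb0efa1d.shift 2 2), (rh24e72371d7873615.shift 2 0), rhf4669ed01beaaeef] (by decide +kernel))
noncomputable def rh958d68bd8814d953 : CRef := CRef.mk (Pat.mk 0x280000002800000000000000000000000000000000 0x140000001e0000001e0000003f0000003e000000ff000000fc0000007c00000038 7 8) 0 0 (step_sound _ 132 [(rh26e1017678d9da1f.shift 0 1), (rh4df2e723d42ce8f4.shift 1 1), (rh53c0cb3afc935472.shift 0 1), (rha9afbdf71a3ac0d4.shift 0 2), (rhf4669ed01beaaeef.shift 0 1), (rhfca39c27dfa2ca60.shift 1 0)] (by decide +kernel))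
noncomputable def rhda5cb929324d3c43 : CRef := CRef.mk (Pat.mk 0x28000000280000000000000000000000000000000000000000 0x1c0000001c0000001f000003b8000003fe000003ff000000fc0000007c0000003c00000010 7 10) 0 0 (step_sound _ 164 [(rh12eae6b92ab228be.shift 2 2), (rh30c8f5e7b893ae7b.shift 0 2), (rh8e35b8e686c528a7.shift 1 2), (rhaecdb849a516b533.shift 1 2), (rhc533220966fcc36e.shift 0 4), rhfa0b3c123b00bd98, (rhfca39c27dfa2ca60.shift 1 1)] (by decide +kernel))
noncomputable def rh87396ff66161cb70 : CRef := CRef.mk (Pat.mk 0x140000001400000000000000000000000000000000 0x20000000e0000000e0000000e0000001e000000370000003e0000000e0000000e0000000a 7 6) 0 0 (step_sound _ 98 [(rh0eb09afa9815783c.shift 1 1), (rh0f89452ff04bf045.shift 1 1), (rh1da05233efca3f0f.shift 1 0), (rh2e83dc040c94abfe.shift 1 2), (rh7fd74e6b1fad4415.shift 1 0), (rh946a116aad97a44e.shift 1 0), (rhd53b3c0c1c721cb4.shift 0 2)] (by decide +kernel))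
noncomputable def rh0e836e73650bebd9 : CRef := CRef.mk (Pat.mk 0x2800000028000000000000000000000000 0x8000000080000003f000000fe000001ff000000d400000054 7 9) 0 0 (step_sound _ 100 [(rh24e72371d7873615.shift 2 0), rh26e1017678d9da1f, (rha9fbfd4bb8cf890b.shift 0 3), (rhaecdb849a516b533.shift 1 0)] (by decide +kernel))
noncomputable def rhc8aa62225cdb04cf : CRef := CRef.mk (Pat.mk 0x5000000050000000000000000000000000 0x58000000580000005f000001fe0000007f0000003800000028 7 9) 0 0 (step_sound _ 101 [(rh24e72371d7873615.shift 3 0), (rh25ced0b4575960fe.shift 1 0), rh8c97cae5624e274e, (rha9fbfd4bb8cf890b.shift 1 3)] (by decide +kernel))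
noncomputable def rh36e679179aab5660 : CRef := CRef.mk (Pat.mk 0x2800000028000000000000000000000000 0x50000000740000007c0000007c0000002f000000f8000001fc0000007c00000054 7 9) 0 0 (step_sound _ 102 [(rh47082137e9cd2755.shift 2 2), (rh53567e131628b92e.shift 2 0), (rh56e90c12f0808c38.shift 2 0), (rheb35796aefd5d255.shift 2 0), rhfae2a6d94efe1f88] (by decide +kernel))
noncomputable def rhcc452525298bffae : CRef := CRef.mk (Pat.mk 0x2800000028000000000000000000000000 0x140000001c0000005c0000007f000000ff0000002f0000007c0000006f0000004c0000004c 7 8) 0 0 (step_sound _ 163 [(rh1359922a99d3d421.shift 2 1), (rh144c921ae3171e1e.shift 1 2), (rh195e2e6861faf39a.shift 2 1), (rh1aab93d8dd87c147.shift 0 2), rh384816bea6041b97, rh65d01379fd6ff22b, rh6d3fabaf7ec9c89d, (rh7863e25d1d742d32.shift 2 1), rha98a27a39ca716f5] (by decide +kernel))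
noncomputable def rhc833f7c0bbb87da1 : CRef := CRef.mk (Pat.mk 0x280000002800000000000000000000000000000000 0x140000001c000000fc0000007c0000002f0000003e0000007f0000007c0000005400000050 7 8) 0 0 (step_sound _ 195 [(rh1359922a99d3d421.shift 2 2), rh1ba2bb6cf194f855, (rh1dbd5905aef3dade.shift 2 0), (rh25271c74be886731.shift 2 1), (rh9025223dca583e9f.shift 2 1), (rhc4d5e3a638b42b78.shift 0 1)] (by decide +kernel))
noncomputable def rh789ff770c4dc7e00 : CRef := CRef.mk (Pat.mk 0xa0000000a00000000000000000000000000000000000000000 0x500000007000000070000000bf000003fe0000077e00000070000000700000007000000040 7 11) 0 0 (step_sound _ 166 [(rh1561ff1fafeb7917.shift 4 4), (rh7e796f9064f5316a.shift 0 1), (rha9fbfd4bb8cf890b.shift 2 5), (rhfa0b3c123b00bd98.shift 2 0)] (by decide +kernel))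
noncomputable def rh75acd8d05d83f0e9 : CRef := CRef.mk (Pat.mk 0x280000002800000000000000000000000000000000 0x540000007c0000007c000000280000007c000001ff0000007c0000005400000054 7 9) 0 0 (step_sound _ 101 [rh413909edff6c5bfb, (rh8836d5ad16324666.shift 2 2), (rhc5c5b88722b9bb4a.shift 4 1), rhda9406a2804dc7f8, (rhf3137a9730661f0a.shift 2 0)] (by decide +kernel))
noncomputable def rh7af032f2eed3fd0a : CRef := CRef.mk (Pat.mk 0x280000002800000000000000000000000000000000 0x40000005c000000fc0000007c0000002f000000ef0000007e0000007c0000005c00000054 7 8) 0 0 (step_sound _ 99 [(rh0aae1ee34b51faa6.shift 2 1), (rh0eb09afa9815783c.shift 2 1), (rh5c5fc92a22ce9407.shift 2 1), rh6b6f5307ff3d169f, (rh72ef61a7f3630de0.shift 1 2), (rhcffc9191041ad082.shift 2 0), (rhd24db5edf9fa939b.shift 0 1), (rhe8a7723f405835bc.shift 0 2)] (by decide +kernel))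
noncomputable def rh75671db664fabcaf : CRef := CRef.mk (Pat.mk 0x2c0000002000000000000000000000000000000000 0x40000002e0000002e0000002f0000007e0000007e0000003e0000001c00000014 7 7) 0 0 (step_sound _ 131 [(rh10e632a752ee89b7.shift 1 0), (rh8c25cb665ab79ec0.shift 0 4), (rha45bcd1a02ddba08.shift 1 1), (rhc3a8698f36873741.shift 1 1)] (by decide +kernel))
noncomputable def rhc715982260cbc813 : CRef := CRef.mk (Pat.mk 0x2c0000002000000000000000000000000000000000 0x140000001c0000001c0000007c0000002f0000007c0000001f0000001c0000001c00000014 7 7) 0 0 (step_sound _ 131 [rh01bec6794f227bba, (rh8c25cb665ab79ec0.shift 0 4), (rhbb2258de3c9392a8.shift 0 1), rhdd654bbc0781e67b] (by decide +kernel))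
noncomputable def rh91c4e54d4cf070e6 : CRef := CRef.mk (Pat.mk 0x2800000028000000000000000000000000 0x6000000160000003f000000fe000001ff0000002800000028 7 9) 0 0 (step_sound _ 100 [(rh1aae126fdb0efa1d.shift 2 2), (rh8e35b8e686c528a7.shift 1 0), (rha9fbfd4bb8cf890b.shift 0 3), (rhc53656083a14bd81.shift 0 1)] (by decide +kernel))
noncomputable def rh768ecd0a64a3ff71 : CRef := CRef.mk (Pat.mk 0x2800000028000000000000000000000000 0x140000001c0000001c0000003c000000f8000001df0000001c0000001c 7 9) 0 0 (step_sound _ 100 [(rh12eae6b92ab228be.shift 2 0), rh18e52402a635c204, (rh1aae126fdb0efa1d.shift 2 2), (rh24e72371d7873615.shift 2 0)] (by decide +kernel))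
noncomputable def rhfa821616c624661e : CRef := CRef.mk (Pat.mk 0x28000000280000000000000000000000000000000000000000 0x140000001c0000001c0000002f000000fe0000007f0000001c0000001c0000001c00000010 7 8) 0 0 (step_sound _ 164 [(rh24e72371d7873615.shift 2 2), (rh26e1017678d9da1f.shift 0 2), rh66f5f6a00297c054, (rha9fbfd4bb8cf890b.shift 0 5)] (by decide +kernel))
noncomputable def rh0ad9f9998060b032 : CRef := CRef.mk (Pat.mk 0x28000000280000000000000000000000000000000000000000 0x1c0000001c0000001f000003b8000003fe000003ff0000003c0000003c0000001c00000010 7 10) 0 0 (step_sound _ 164 [(rh0e3012db365425d2.shift 0 2), (rh0f051fd0b5699cca.shift 1 2), (rh12eae6b92ab228be.shift 2 2), (rh30c8f5e7b893ae7b.shift 0 2), rh66f5f6a00297c054, (rh8e35b8e686c528a7.shift 1 2), (rhc533220966fcc36e.shift 0 4)] (by decide +kernel))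
noncomputable def rh9e0d9bd3780bdfa4 : CRef := CRef.mk (Pat.mk 0x2800000028000000000000000000000000 0x8000000080000003f000000fe000001ff0000001400000014 7 9) 0 0 (step_sound _ 100 [(rh0f051fd0b5699cca.shift 1 0), (rh24e72371d7873615.shift 2 0), (rha9fbfd4bb8cf890b.shift 0 3), rhe80e002c72bee859] (by decide +kernel))
noncomputable def rhac6ee2cec61af251 : CRef := CRef.mk (Pat.mk 0x5000000050000000000000000000000000 0x58000000580000005f000001fe0000007f0000003800000028 7 9) 0 0 (step_sound _ 101 [rh09783a462af593e4, (rh24e72371d7873615.shift 3 0), (rh25ced0b4575960fe.shift 1 0), (rha9fbfd4bb8cf890b.shift 1 3)] (by decide +kernel))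
noncomputable def rhb3eebb8e185de498 : CRef := CRef.mk (Pat.mk 0x2800000028000000000000000000000000 0x50000000740000007c0000007c0000002f000000f8000001fc0000007c00000054 7 9) 0 0 (step_sound _ 102 [(rh47082137e9cd2755.shift 2 2), (rh53567e131628b92e.shift 2 0), (rh56e90c12f0808c38.shift 2 0), rhc4f7714d6a0a25c8, (rheb35796aefd5d255.shift 2 0)] (by decide +kernel))
noncomputable def rh6cdf81a953e678ee : CRef := CRef.mk (Pat.mk 0x280000002800000000000000000000000000000000 0x140000005c000000ff0000007c0000002f0000003c0000007c0000007c0000005400000010 7 8) 0 0 (step_sound _ 195 [(rh1359922a99d3d421.shift 2 2), (rh1dbd5905aef3dade.shift 2 0), (rh25271c74be886731.shift 2 1), (rh2b6ecd6b948e770d.shift 0 1), (rh5936d4adab15b760.shift 0 1), (rh9025223dca583e9f.shift 2 1)] (by decide +kernel))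
noncomputable def rh35934160fe339a51 : CRef := CRef.mk (Pat.mk 0xa0000000a00000000000000000000000000000000000000000 0x500000007000000070000000bf000003fe0000077e00000070000000700000007000000040 7 11) 0 0 (step_sound _ 166 [(rh1561ff1fafeb7917.shift 4 4), (rh66f5f6a00297c054.shift 2 0), (rh69c6c37a1cdfd058.shift 0 1), (rha9fbfd4bb8cf890b.shift 2 5)] (by decide +kernel))
noncomputable def rh554a46e2b29bb3cf : CRef := CRef.mk (Pat.mk 0x280000002800000000000000000000000000000000 0x540000007c0000007c000000280000007c000001ff000000fc0000005400000054 7 9) 0 0 (step_sound _ 99 [rh0115c66452a97d07, rh2c9824e3d3e9dab7, (rh60f6231d213c6ef9.shift 2 1), (rhac889223ea4d6c68.shift 2 0), (rhc5c5b88722b9bb4a.shift 2 1), (rhe323009b509138a7.shift 0 2)] (by decide +kernel))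
noncomputable def rh0d0cfb0ef79fe6f8 : CRef := CRef.mk (Pat.mk 0x280000002800000000000000000000000000000000 0x140000001c0000001c0000003c000000f8000001df0000001c0000001c00000014 7 9) 0 0 (step_sound _ 132 [(rh1561ff1fafeb7917.shift 2 3), (rh1aae126fdb0efa1d.shift 2 3), (rh3e26abbf947d0cd9.shift 2 0), (rh42e0c1d0448932f2.shift 0 1)] (by decide +kernel))
noncomputable def rh7f3f6fa1beedd609 : CRef := CRef.mk (Pat.mk 0x28000000280000000000000000000000000000000000000000 0x1c0000001c0000001f000003b8000001fe000003ff0000003c0000003c0000001c00000010 7 10) 0 0 (step_sound _ 164 [(rh0e3012db365425d2.shift 0 2), rh35c1cdedc435622b, (rh3e26abbf947d0cd9.shift 2 1), (rh5b6d2bf6893374d1.shift 1 2), (rha13423141a6dee87.shift 0 2), (rhed963764511338bc.shift 0 2)] (by decide +kernel))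
noncomputable def rh9b99e30b52b45056 : CRef := CRef.mk (Pat.mk 0x2800000028000000000000000000000000 0x140000001c0000005c0000007e000000ff0000002f0000007c0000006f0000004c0000004c 7 8) 0 0 (step_sound _ 163 [(rh1359922a99d3d421.shift 2 1), (rh144c921ae3171e1e.shift 1 2), (rh195e2e6861faf39a.shift 2 1), (rh22e3873261c6c95d.shift 2 2), rh384816bea6041b97, rh65d01379fd6ff22b, rh6d3fabaf7ec9c89d, (rh7863e25d1d742d32.shift 2 1), (rh9b02ecd7e30b4b75.shift 1 2), rha98a27a39ca716f5] (by decide +kernel))
noncomputable def rh433d32ef923e4926 : CRef := CRef.mk (Pat.mk 0x3800000020000000000000000000000000 0x80000001c0000007e0000003e0000002f0000002e0000002e0000000a 7 7) 0 0 (step_sound _ 130 [(rh7654d7b92c96fe12.shift 0 3), (rhe108b6074a952d08.shift 1 0), (rheedf43235c2e54aa.shift 1 1)] (by decide +kernel))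
noncomputable def rh9670ed58079006dd : CRef := CRef.mk (Pat.mk 0x1600000010000000000000000000000000 0x400000006000000070000001e00000037000000070000000700000005 7 6) 0 0 (step_sound _ 131 [rhe108b6074a952d08, (rhe25b0a99195a5d59.shift 1 3)] (by decide +kernel))
noncomputable def rh264743b59a2f1472 : CRef := CRef.mk (Pat.mk 0x2c00000020000000000000000000000000 0x80000002c0000006e0000003e0000003f0000001e0000001e0000000a 7 7) 0 0 (step_sound _ 132 [(rhba50fd7aca570c30.shift 1 1), (rhdceeca65bdd8095a.shift 0 3), (rhe108b6074a952d08.shift 1 0)] (by decide +kernel))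
noncomputable def rh5e40dc143092a855 : CRef := CRef.mk (Pat.mk 0x1c00000010000000000000000000000000 0x400000006000000070000001e00000037000000070000000700000005 7 6) 0 0 (step_sound _ 129 [rhe108b6074a952d08, (rhe25b0a99195a5d59.shift 1 3)] (by decide +kernel))
noncomputable def rha1e777d82a79b801 : CRef := CRef.mk (Pat.mk 0x2c000000200000000000000000 0x2c0000007e0000003e0000003f0000001e0000001e 7 7) 0 0 (step_sound _ 100 [(rh7654d7b92c96fe12.shift 0 2), (rhba50fd7aca570c30.shift 1 0), (rhdceeca65bdd8095a.shift 0 2), (rhec1e4baa4b28ff9a.shift 1 0)] (by decide +kernel))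
noncomputable def rh3c1edc0172ac528a : CRef := CRef.mk (Pat.mk 0x5000000050000000000000000000000000 0x180000001c0000001c0000007e000000ff0000001f0000001800000008 7 8) 0 0 (step_sound _ 131 [(rh73915d77a54fc4e5.shift 2 1), rh77f532229b2007e0, (rh8c25cb665ab79ec0.shift 1 3), (rha6816dee951f7ee6.shift 3 3)] (by decide +kernel))
noncomputable def rhe32d1a17adba6fd5 : CRef := CRef.mk (Pat.mk 0x2800000028000000000000000000000000 0xc0000001c0000001e0000003f000000fe000001f80000003800000038 7 9) 0 0 (step_sound _ 100 [(rh1aae126fdb0efa1d.shift 2 2), (rh4df2e723d42ce8f4.shift 1 0), (rh60e87a5827f05196.shift 1 0), (rha9fbfd4bb8cf890b.shift 0 3)] (by decide +kernel))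
noncomputable def rhe3290c5bee121945 : CRef := CRef.mk (Pat.mk 0x2800000028000000000000000000000000 0x6000000160000003f000000fe000001ff0000002800000028 7 9) 0 0 (step_sound _ 100 [(rh1aae126fdb0efa1d.shift 2 2), (rh5b6d2bf6893374d1.shift 1 0), (rha9fbfd4bb8cf890b.shift 0 3), (rhc92c3db40538b0da.shift 0 1)] (by decide +kernel))
noncomputable def rh07548080b60fd6f4 : CRef := CRef.mk (Pat.mk 0x280000002800000000000000000000000000000000 0x140000001c0000001e0000003f000000f8000001ff0000003c0000003c0000001c 7 9) 0 0 (step_sound _ 132 [(rh1561ff1fafeb7917.shift 2 3), (rh1aae126fdb0efa1d.shift 2 3), (rh3e26abbf947d0cd9.shift 2 0), rhe6992f6959d37082] (by decide +kernel))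
noncomputable def rh62c782a5a557c5b5 : CRef := CRef.mk (Pat.mk 0x5000000050000000000000000000000000 0x380000003c0000003c0000007e0000007f000000fe0000007c0000007c 7 8) 0 0 (step_sound _ 99 [rh15a70f0370365c2b, (rh2759b77842137355.shift 1 0), (rh2fa164ba5c06bb6d.shift 2 0), (rh8ab9e83f5f23c419.shift 1 0), (rh933d752ab09d6fc8.shift 1 0), rh9de0840a9a3d3233, (rhaa1555e5024104df.shift 1 1), (rhe4a6d2255d83faf5.shift 1 0)] (by decide +kernel))
noncomputable def rh1dfcbe2aa0703fc1 : CRef := CRef.mk (Pat.mk 0x2800000028000000000000000000000000 0x140000001c0000001c0000002f000000fe000001ff000000d400000054 7 9) 0 0 (step_sound _ 100 [rh0f290ca90985c33d, (rh1561ff1fafeb7917.shift 2 2), rh26e1017678d9da1f, (rha9fbfd4bb8cf890b.shift 0 3)] (by decide +kernel))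
noncomputable def rhb956b7df9a362ea9 : CRef := CRef.mk (Pat.mk 0x280000002800000000000000000000000000000000 0x1c0000001c0000001e000003b8000001fe000003ff000000fc0000007c0000001c 7 10) 0 0 (step_sound _ 132 [(rh07da1bd474d6d9e1.shift 1 0), (rh0e3012db365425d2.shift 0 1), (rh0f290ca90985c33d.shift 0 1), (rh3e26abbf947d0cd9.shift 2 0), (rh5b6d2bf6893374d1.shift 1 1), (rh60e87a5827f05196.shift 1 1), (rhed963764511338bc.shift 0 1)] (by decide +kernel))
noncomputable def rh5bc79867a38dfaa4 : CRef := CRef.mk (Pat.mk 0x140000001400000000000000000000000000000000 0xa0000000e0000000e0000001e000000370000003e0000000e0000000e0000000a 7 6) 0 0 (step_sound _ 98 [(rh237f839004404c28.shift 1 1), (rh437d454e808ff910.shift 1 1), (rh4692eec48c60ad82.shift 1 0), (rh4e9d0b2b6a8ba645.shift 1 0), (rh7fd74e6b1fad4415.shift 1 0), (rhcb46da6e6e6ce6f4.shift 0 2)] (by decide +kernel))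
noncomputable def rh5481c945a6ab2559 : CRef := CRef.mk (Pat.mk 0x2800000028000000000000000000000000 0x140000001c0000005c0000007f000000fe0000002f0000007c0000006f0000004c00000044 7 8) 0 0 (step_sound _ 163 [(rh1359922a99d3d421.shift 2 1), (rh144c921ae3171e1e.shift 1 2), (rh195e2e6861faf39a.shift 2 1), (rh1aab93d8dd87c147.shift 0 2), (rh22e3873261c6c95d.shift 2 2), rh65d01379fd6ff22b, (rh7863e25d1d742d32.shift 2 1), rha98a27a39ca716f5, (rhb76fc2c8849487ed.shift 1 0), rhca9d6365a7373c35] (by decide +kernel))
noncomputable def rh0845528dc4e4fca7 : CRef := CRef.mk (Pat.mk 0x280000002800000000000000000000000000000000 0x140000005c000000fe0000007c0000002f0000003c0000003c0000003c0000001400000010 7 8) 0 0 (step_sound _ 195 [(rh1dbd5905aef3dade.shift 2 0), (rh22e3873261c6c95d.shift 2 3), (rh25271c74be886731.shift 2 1), (rh4899d5548c7da84b.shift 2 1), (rh8883bd156a218f06.shift 0 1), (rha36af0df88df322f.shift 1 2), (rhd33666284aa5c7c2.shift 2 1)] (by decide +kernel))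
noncomputable def rh291addcaf93fb4fe : CRef := CRef.mk (Pat.mk 0x280000002800000000000000000000000000000000 0x540000007c0000007c000000280000007c000001ff000000fc0000005400000054 7 9) 0 0 (step_sound _ 99 [rh0115c66452a97d07, (rh4a605cc958097ade.shift 2 0), (rh8e75806fa88aba7c.shift 0 2), rhb966ff22609ec4c3, (rhe390a88576e84e60.shift 2 1)] (by decide +kernel))
noncomputable def rhf4d07873bb740c37 : CRef := CRef.mk (Pat.mk 0x140000001400000000000000000000000000000000 0x20000002e0000007e0000003e00000016000000370000007e0000003f0000002e0000000a 7 7) 0 0 (step_sound _ 98 [(rh0aae1ee34b51faa6.shift 1 1), (rh16c3316bfefc96a8.shift 1 1), (rh237f839004404c28.shift 1 1), rh30afbeb9a1894893, (rh4692eec48c60ad82.shift 1 0), (rh73e0ebf8a9646397.shift 1 1), (rhe390a88576e84e60.shift 1 1), (rhe98aea39e6ac8f0e.shift 0 2)] (by decide +kernel))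
noncomputable def rhe642b3d06082daab : CRef := CRef.mk (Pat.mk 0x38000000200000000000000000 0x2c0000006f0000003e0000003f0000001e0000001e 7 7) 0 0 (step_sound _ 98 [(rh4368217ec1272ce6.shift 1 0), (rh775ca1963e850b80.shift 0 2), (rhba50fd7aca570c30.shift 1 0), (rhdceeca65bdd8095a.shift 0 2)] (by decide +kernel))
noncomputable def rh03c4838a6d9c67c4 : CRef := CRef.mk (Pat.mk 0x1c000000100000000000000000000000000000000000000000 0x3400000034000000340000001c000000fe000000fe000001ff0000003c0000003800000028 7 9) 0 0 (step_sound _ 132 [(rh079a6f206f2a09d2.shift 1 0), (rh29f92a53243f733a.shift 2 1), (rh2d5581c417ad61f3.shift 1 1), (rh5b4e2ca931bc9b77.shift 0 1), (rh6a9b20b447126fb8.shift 1 1), (rhbca5f9dfe2d0dc84.shift 1 1), (rhcd4ff5e74873e18b.shift 1 1), (rhd50b0766e685eb90.shift 3 2), (rhfa89528fff53f6c8.shift 1 2), (rhfb0ed49cb7581ad4.shift 3 0)] (by decide +kernel))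
noncomputable def rh026e3cfc1692ce38 : CRef := CRef.mk (Pat.mk 0x580000004000000000000000000000000000000000 0x280000003800000078000000f80000005c000000ff0000003e000000380000003800000028 7 8) 0 0 (step_sound _ 132 [(rh3753d3e6260ac1c1.shift 0 1), (rh3cfa19cba8a887bc.shift 1 0), (rh6f0723d3f27d430d.shift 2 1), (rh7f0feb9d0da09cbe.shift 2 1), (rh9b0d46df805a9d0a.shift 2 0)] (by decide +kernel))
noncomputable def rhd752c599211c5bf2 : CRef := CRef.mk (Pat.mk 0x2800000028000000000000000000000000 0x100000001c0000001f0000003e000001ff0000006e0000002c00000028 7 9) 0 0 (step_sound _ 132 [(rh2bbde704e844f8b8.shift 0 1), (rh6c6cc8f59caab3aa.shift 0 3), (rh8468ddfc676db864.shift 1 0), (rhc21a95c499b3efdb.shift 2 3)] (by decide +kernel))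
noncomputable def rh8f73c7ceffb1a6b2 : CRef := CRef.mk (Pat.mk 0x2800000028000000000000000000000000 0x1c0000001c0000001f0000003e000001ff000000f80000003800000038 7 9) 0 0 (step_sound _ 132 [(rh6bebd2e876b52553.shift 0 1), (rh6c6cc8f59caab3aa.shift 0 3), (rhc21a95c499b3efdb.shift 2 3), rhff2ca81b20c1cd58] (by decide +kernel))
noncomputable def rh1699cc3ba8354c25 : CRef := CRef.mk (Pat.mk 0x2800000028000000000000000000000000 0x6000000160000003e000000fe000001ff0000002800000028 7 9) 0 0 (step_sound _ 100 [(rh1aae126fdb0efa1d.shift 2 2), (rh5b6d2bf6893374d1.shift 1 0), (rha7edc60fc34bffff.shift 1 3), (rhb5c2b6462b8d30ac.shift 1 2), (rhcb2092b0c647b004.shift 0 1)] (by decide +kernel))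
noncomputable def rh4f5dc2deefe92607 : CRef := CRef.mk (Pat.mk 0x2800000028000000000000000000000000 0x8000003be000003fe000003f70000000400000004 7 10) 0 0 (step_sound _ 100 [(rh1aae126fdb0efa1d.shift 2 2), (rha7edc60fc34bffff.shift 1 3), (rhb93910d60b250a25.shift 0 2), rhc944ec8aecff94b9, (rhcb80f6b135386bca.shift 1 0)] (by decide +kernel))
noncomputable def rha960ecb4d0a66e17 : CRef := CRef.mk (Pat.mk 0x280000002800000000000000000000000000000000 0x40000001c0000001c0000001c0000003e0000003f0000007c0000007c0000005c00000014 7 7) 0 0 (step_sound _ 99 [(rh1359922a99d3d421.shift 2 1), (rh16c3316bfefc96a8.shift 2 1), (rh4692eec48c60ad82.shift 2 0), (rh8d2cdcbf4fbcce27.shift 2 1), rha73cf3548cc74670, (rhdf1801842855c157.shift 0 1), (rhe390a88576e84e60.shift 2 1)] (by decide +kernel))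
noncomputable def rh67996cdb22901c84 : CRef := CRef.mk (Pat.mk 0x500000005000000000000000000000000000000000 0x38000000380000003e00000770000007fe000007ff000001fc000000f8000000d8 7 11) 0 0 (step_sound _ 133 [(rh07da1bd474d6d9e1.shift 2 0), (rh0b048f37b6779026.shift 1 0), rh16a6b9ce1e55a219, (rh2dc91e9f596105eb.shift 1 1), (rh5b6d2bf6893374d1.shift 2 1), (rh5be5f024049b4c91.shift 2 0), (rha13423141a6dee87.shift 1 1), (rhaecdb849a516b533.shift 2 1), (rhb93910d60b250a25.shift 1 3)] (by decide +kernel))
noncomputable def rh5b0b05a45608329c : CRef := CRef.mk (Pat.mk 0x140000001400000000000000000000000000000000 0x20000000e0000000e0000000e0000001e000000370000003e0000000e0000000e0000000a 7 6) 0 0 (step_sound _ 98 [(rh1359922a99d3d421.shift 1 1), (rh16c3316bfefc96a8.shift 1 1), (rh4692eec48c60ad82.shift 1 0), (rh4e9d0b2b6a8ba645.shift 1 0), (rh7fd74e6b1fad4415.shift 1 0), (rhab4ffb997b25582b.shift 0 2), (rhe390a88576e84e60.shift 1 1)] (by decide +kernel))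
noncomputable def rh7d71fd2e31a8b2fc : CRef := CRef.mk (Pat.mk 0x2800000028000000000000000000000000 0x140000001c0000001c000003ae000001fe000001ff000000dc00000054 7 10) 0 0 (step_sound _ 100 [(rh1561ff1fafeb7917.shift 2 2), rh1dc347a6d91650be, rh2dc91e9f596105eb, (rhb5c2b6462b8d30ac.shift 1 2), (rhcb80f6b135386bca.shift 1 0), (rhf01b46c4e455e3a0.shift 2 2)] (by decide +kernel))
noncomputable def rhe8274a5d4bf568c4 : CRef := CRef.mk (Pat.mk 0x5000000050000000000000000000000000 0x280000003800000078000000f80000005c000001fe0000007f0000003800000028 7 9) 0 0 (step_sound _ 101 [rh23bfd094535a79e0, (rh24e72371d7873615.shift 3 0), (rh8869f299ae844396.shift 3 0), (rh90b68f12937a9b6c.shift 2 0), (rhb5d0a291d1a71c0c.shift 2 0), (rhcb80f6b135386bca.shift 2 0)] (by decide +kernel))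
noncomputable def rhdc366f97412a5f2b : CRef := CRef.mk (Pat.mk 0x280000002800000000000000000000000000000000 0x580000007800000078000003ae000001fe000003ff000000640000004400000040 7 10) 0 0 (step_sound _ 132 [(rh1561ff1fafeb7917.shift 2 3), (rh35a02af777b98683.shift 2 1), (rh9008652077d9ce65.shift 1 0), (rh96fb2336bd10fb07.shift 0 1), (rhcb80f6b135386bca.shift 1 1)] (by decide +kernel))
noncomputable def rhbc147ef4738a703a : CRef := CRef.mk (Pat.mk 0x140000001400000000000000000000000000000000 0xa0000002e0000003e0000003e000001d7000000ff000001fc0000003c0000002800000020 7 9) 0 0 (step_sound _ 131 [(rh35a02af777b98683.shift 1 1), (rh3898fd174251a40e.shift 1 0), (rh90b68f12937a9b6c.shift 0 1), (rhf01b46c4e455e3a0.shift 1 3), (rhf9580640a27249ea.shift 0 1)] (by decide +kernel))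
noncomputable def rh1d9c2acd28094f03 : CRef := CRef.mk (Pat.mk 0xa0000000a000000000000000000000000 0x140000001d0000003f0000001f0000000b0000003e0000007f0000001f00000015 7 7) 0 0 (step_sound _ 100 [(rh47082137e9cd2755.shift 0 2), rh53567e131628b92e, rh56e90c12f0808c38, rh9ca4ac62ee73bf4e, rheb35796aefd5d255] (by decide +kernel))
noncomputable def rhd37e419087896edd : CRef := CRef.mk (Pat.mk 0x280000002800000000000000000000000000000000 0x100000005c0000007c000000ff000000ff0000002e0000007c0000006f0000005c0000005c00000014 7 8) 0 0 (step_sound _ 195 [(rh144c921ae3171e1e.shift 1 3), (rh195e2e6861faf39a.shift 2 2), (rh1aab93d8dd87c147.shift 0 3), (rh21dd313def49154d.shift 1 1), (rh22e3873261c6c95d.shift 2 3), rh594f41a29cd85190, (rh7863e25d1d742d32.shift 2 2), (rhd00d0393565fcd99.shift 0 1), (rheb84c9aeb7cf5fd7.shift 0 1)] (by decide +kernel))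
noncomputable def rh04a0f098917ba357 : CRef := CRef.mk (Pat.mk 0x280000002800000000000000000000000000000000 0x540000007c0000007c000000280000007c000001ff000000fc0000005400000054 7 9) 0 0 (step_sound _ 99 [rh0115c66452a97d07, (rh4a605cc958097ade.shift 2 0), (rh9a80b33a5b2ded2c.shift 0 2), rhb966ff22609ec4c3, (rhe390a88576e84e60.shift 2 1)] (by decide +kernel))
noncomputable def rh563ce91db5934cf7 : CRef := CRef.mk (Pat.mk 0x140000001400000000000000000000000000000000 0x20000000e0000007e0000003e000000170000001e0000007e0000003f0000002e0000000a 7 7) 0 0 (step_sound _ 98 [(rh1359922a99d3d421.shift 1 1), (rh16c3316bfefc96a8.shift 1 1), (rh4692eec48c60ad82.shift 1 0), (rh52807889b4a3cc63.shift 0 2), (rh8d2cdcbf4fbcce27.shift 1 1), rh9c2a11983e75daf2, (rhd45fa6f4d7ca4e15.shift 1 1), (rhe390a88576e84e60.shift 1 1)] (by decide +kernel))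
noncomputable def rh4591e89f4f4a6de7 : CRef := CRef.mk (Pat.mk 0xa0000000a0000000000000000000000000000000000000000 0x140000001c0000001c0000000b0000003f0000007f0000001c0000001c0000001c00000004 7 7) 0 0 (step_sound _ 162 [(rh1561ff1fafeb7917.shift 0 4), (rh35a02af777b98683.shift 0 2), (rh8869f299ae844396.shift 0 2), rhd607d9bd434cc144] (by decide +kernel))
noncomputable def rhc8532bf1555faf48 : CRef := CRef.mk (Pat.mk 0x28000000280000000000000000000000000000000000000000 0x140000001c0000003c0000007c0000002e000000fc000001df0000001c0000001c0000001c00000010 7 9) 0 0 (step_sound _ 164 [(rh1561ff1fafeb7917.shift 2 4), rh35c1cdedc435622b, (rh90b68f12937a9b6c.shift 1 2), (rhc29ec4d2c93b982f.shift 0 2), (rhcb80f6b135386bca.shift 1 2)] (by decide +kernel))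
noncomputable def rh0c52c8fb14659a5a : CRef := CRef.mk (Pat.mk 0x28000000280000000000000000000000000000000000000000 0x5000000070000000780000002e0000007e000001f700000074000000740000007000000010 7 9) 0 0 (step_sound _ 164 [(rh35a02af777b98683.shift 2 2), (rh9052859d4d9b7199.shift 0 2), (rha436af02a231ac11.shift 2 2), (rha7c1da122ef3c297.shift 2 0), (rhcb80f6b135386bca.shift 1 2)] (by decide +kernel))
noncomputable def rh71341b530cd6c12c : CRef := CRef.mk (Pat.mk 0x140000001400000000000000000000000000000000 0x20000002e0000007e0000003e00000016000000370000007e0000003f0000002e0000000a 7 7) 0 0 (step_sound _ 98 [(rh1359922a99d3d421.shift 1 1), (rh16c3316bfefc96a8.shift 1 1), (rh4692eec48c60ad82.shift 1 0), rh9c2a11983e75daf2, (rhab4ffb997b25582b.shift 0 2), (rhd36b127704f8381d.shift 1 1), (rhd45fa6f4d7ca4e15.shift 1 1), (rhe390a88576e84e60.shift 1 1)] (by decide +kernel))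
noncomputable def rhfb19ff4061afbb83 : CRef := CRef.mk (Pat.mk 0x38000000200000000000000000 0x1c0000007f0000003e0000003e0000002e0000002e 7 7) 0 0 (step_sound _ 98 [(rh4368217ec1272ce6.shift 1 0), (rh899b70e3a6ba8a09.shift 1 0), (rhd1d05263fabc0227.shift 0 2)] (by decide +kernel))
noncomputable def rh5e8f64d724214301 : CRef := CRef.mk (Pat.mk 0x16000000100000000000000000 0x50000000700000007000000070000001e000000370000000600000006 7 6) 0 0 (step_sound _ 99 [rh5b368ce0f43ea00e, (rhe25b0a99195a5d59.shift 1 2)] (by decide +kernel))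
noncomputable def rh1f2d57551c2d3284 : CRef := CRef.mk (Pat.mk 0x2c000000200000000000000000 0xa0000000e0000002e0000006f0000003e0000003e0000001c0000001c 7 7) 0 0 (step_sound _ 100 [(rh5b368ce0f43ea00e.shift 1 0), (rhd1d05263fabc0227.shift 0 2), (rhe4e5d13861980637.shift 1 0)] (by decide +kernel))
noncomputable def rh3a3e008f4a6fb5ae : CRef := CRef.mk (Pat.mk 0x2c0000002000000000000000000000000000000000 0x40000002c0000002c0000002f0000007e0000007e000000fe0000001e00000014 7 8) 0 0 (step_sound _ 131 [(rh2cfa70437f2adc30.shift 1 0), (rh78bbdca7560a181d.shift 1 1), (rh8c25cb665ab79ec0.shift 0 4), (rha45bcd1a02ddba08.shift 1 1)] (by decide +kernel))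
noncomputable def rh63369adcb5f240fd : CRef := CRef.mk (Pat.mk 0x1c000000100000000000000000 0x50000000700000007000000070000001e000000370000000600000006 7 6) 0 0 (step_sound _ 97 [rh5b368ce0f43ea00e, (rhe25b0a99195a5d59.shift 1 2)] (by decide +kernel))
noncomputable def rh0754e82540368d41 : CRef := CRef.mk (Pat.mk 0x38000000200000000000000000 0xa0000000e0000001e0000007f0000003e0000002e0000002c0000002c 7 7) 0 0 (step_sound _ 98 [(rh5b368ce0f43ea00e.shift 1 0), (rh61325f73ebf98108.shift 0 3), (rh899b70e3a6ba8a09.shift 1 0)] (by decide +kernel))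
noncomputable def rh9d1bb80afce989ed : CRef := CRef.mk (Pat.mk 0x2c000000200000000000000000 0x2c0000007f0000003e0000003e0000001e0000001e 7 7) 0 0 (step_sound _ 100 [(rh4368217ec1272ce6.shift 1 0), (rh61325f73ebf98108.shift 0 3), (rhd1d05263fabc0227.shift 0 2), (rhe4e5d13861980637.shift 1 0)] (by decide +kernel))
noncomputable def rh60084358d6d5605b : CRef := CRef.mk (Pat.mk 0x2c0000002000000000000000000000000000000000 0x140000001c0000001c0000007c0000002f0000007c0000001f0000001c0000001c00000014 7 7) 0 0 (step_sound _ 131 [(rh2aa54a1e1bc2290e.shift 0 1), rh8a57e8aad2d897f7, (rh8c25cb665ab79ec0.shift 0 4), (rhbb2258de3c9392a8.shift 0 1)] (by decide +kernel))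
noncomputable def rhab538c67d8cb9cb2 : CRef := CRef.mk (Pat.mk 0x2800000028000000000000000000000000 0xc0000000c0000001f000003bf000001fe000003f80000003800000038 7 10) 0 0 (step_sound _ 100 [(rh08ae6a9c1fa4a93d.shift 2 2), (rh48ea97d8378decc4.shift 1 0), (rha9fbfd4bb8cf890b.shift 0 3), rhc1969d2668391cd3] (by decide +kernel))
noncomputable def rh108ed2795893b07d : CRef := CRef.mk (Pat.mk 0x280000002800000000000000000000000000000000 0x140000001c0000001c0000001c000003bc000001f8000003df0000001c0000001c00000014 7 10) 0 0 (step_sound _ 132 [(rh08ae6a9c1fa4a93d.shift 2 3), (rh0a2e9ded62896945.shift 2 0), (rh1561ff1fafeb7917.shift 2 3), (rha68c796939495516.shift 0 1)] (by decide +kernel))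
noncomputable def rh7c8917c6b59f4d3a : CRef := CRef.mk (Pat.mk 0x28000000280000000000000000 0x600000006000003bf000001fe000003ff00000008 7 10) 0 0 (step_sound _ 68 [(rh08ae6a9c1fa4a93d.shift 2 1), (rha9fbfd4bb8cf890b.shift 0 2), (rhaf135af1dd3c6c59.shift 0 1), rhfcb70b58f3e56a11] (by decide +kernel))
noncomputable def rha2d755d6c83f88ee : CRef := CRef.mk (Pat.mk 0x2800000028000000000000000000000000 0x8000003bf000003fe000003f70000000400000004 7 10) 0 0 (step_sound _ 100 [(rh08ae6a9c1fa4a93d.shift 2 2), (rh13bc39fad46ed7d3.shift 0 2), (rha9fbfd4bb8cf890b.shift 0 3), rheb73575cb4cd42e3] (by decide +kernel))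
noncomputable def rh9327c7a63776daa8 : CRef := CRef.mk (Pat.mk 0x2800000028000000000000000000000000 0x140000001c0000001e0000001e0000003f0000003e0000007f0000003c0000003c 7 7) 0 0 (step_sound _ 100 [(rh48ea97d8378decc4.shift 1 0), rh7802c39a3068d457, rha68c796939495516, rheb148aa76a4b79f6, rheb73575cb4cd42e3, (rhfcb70b58f3e56a11.shift 0 1)] (by decide +kernel))
noncomputable def rhfb83f22a286079e0 : CRef := CRef.mk (Pat.mk 0x28000000280000000000000000000000000000000000000000 0x1c0000001c0000001f000003b8000003fe000003ff0000003c0000003c0000001c00000010 7 10) 0 0 (step_sound _ 164 [(rh0a2e9ded62896945.shift 2 1), (rh13bc39fad46ed7d3.shift 0 4), (rh7802c39a3068d457.shift 0 2), (rh8e35b8e686c528a7.shift 1 2), (rhc1969d2668391cd3.shift 0 2), rhfa0b3c123b00bd98] (by decide +kernel))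
noncomputable def rh77b49b0fa3e8f7d8 : CRef := CRef.mk (Pat.mk 0x140000001400000000000000000000000000000000 0xa0000000e0000000e0000001e000000370000003e0000000e0000000e0000000a 7 6) 0 0 (step_sound _ 98 [(rh1359922a99d3d421.shift 1 1), (rh437d454e808ff910.shift 1 1), (rh4692eec48c60ad82.shift 1 0), (rh4e9d0b2b6a8ba645.shift 1 0), (rh7fd74e6b1fad4415.shift 1 0), (rhab4ffb997b25582b.shift 0 2)] (by decide +kernel))
noncomputable def rhbab83c010bf664fd : CRef := CRef.mk (Pat.mk 0x28000000280000000000000000000000000000000000000000 0x140000001c0000001c0000001c0000002f000000fc000001df0000001c0000001c0000001c00000010 7 9) 0 0 (step_sound _ 164 [(rh1561ff1fafeb7917.shift 2 4), (rha9fbfd4bb8cf890b.shift 0 5), (rhc23d8a6577965f32.shift 0 2), rhfa0b3c123b00bd98] (by decide +kernel))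
noncomputable def rhb918fbe51060cc9f : CRef := CRef.mk (Pat.mk 0x2800000028000000000000000000000000 0x140000001c0000005c0000007f000000ff0000002f0000007c0000006f0000004c0000004c 7 8) 0 0 (step_sound _ 163 [(rh1359922a99d3d421.shift 2 1), (rh144c921ae3171e1e.shift 1 2), (rh195e2e6861faf39a.shift 2 1), rh384816bea6041b97, rh65d01379fd6ff22b, rh6d3fabaf7ec9c89d, (rh7863e25d1d742d32.shift 2 1), rha98a27a39ca716f5, (rhdcf15acb697cf72f.shift 0 2)] (by decide +kernel))
noncomputable def rh8ac65ead0056c50a : CRef := CRef.mk (Pat.mk 0x280000002800000000000000000000000000000000 0x140000005c000000fe000000fc0000002f0000003c0000003c0000003c0000001400000010 7 8) 0 0 (step_sound _ 195 [(rh144c921ae3171e1e.shift 1 3), (rh1dbd5905aef3dade.shift 2 0), (rh5a37eae4d2a9673f.shift 2 1), (rh72942ba962f6cb3b.shift 2 1), (rhd33666284aa5c7c2.shift 2 1), (rhf60808b0f874ef91.shift 0 1)] (by decide +kernel))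
noncomputable def rh8b134beef4c5856b : CRef := CRef.mk (Pat.mk 0x280000002800000000000000000000000000000000 0x540000007c0000007c000000280000007c000001ff0000007f0000005400000054 7 9) 0 0 (step_sound _ 101 [rh6de75e54439d988c, (rh8836d5ad16324666.shift 2 2), (rhc5c5b88722b9bb4a.shift 4 1), rhda9406a2804dc7f8, (rhf3137a9730661f0a.shift 2 0)] (by decide +kernel))
noncomputable def rh931bbb5dba068dd9 : CRef := CRef.mk (Pat.mk 0x28000000280000000000000000000000000000000000000000 0x5000000070000000780000002f0000007e000001f700000074000000740000007000000010 7 9) 0 0 (step_sound _ 164 [(rh35a02af777b98683.shift 2 2), (rha7c1da122ef3c297.shift 2 0), (rha9fbfd4bb8cf890b.shift 0 5), (rheb148aa76a4b79f6.shift 0 2)] (by decide +kernel))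
noncomputable def rhb27e876353bd0fff : CRef := CRef.mk (Pat.mk 0x140000001400000000000000000000000000000000 0xa0000002e0000007f0000007e00000016000000370000003e0000003e0000000e00000002 7 7) 0 0 (step_sound _ 194 [(rh144c921ae3171e1e.shift 0 3), (rh28b9458046de8449.shift 1 0), (rh5a37eae4d2a9673f.shift 1 1), (rh7863e25d1d742d32.shift 1 2), (rh79e17c97c64f8859.shift 1 1), (rhb078a5da877183ee.shift 0 1)] (by decide +kernel))
noncomputable def rh0712a7c96034fdc3 : CRef := CRef.mk (Pat.mk 0x280000002800000000000000000000000000000000 0x140000001c0000001c000001df000000f80000003f0000001e0000001c0000001c00000014 7 9) 0 0 (step_sound _ 164 [(rh5024bbfb5139b661.shift 2 4), (rh7d7c2155600e215e.shift 2 2), rhb1c49e634589276b, (rhf0f55c4504412200.shift 0 4)] (by decide +kernel))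
noncomputable def rhd3d12c60ee3cc616 : CRef := CRef.mk (Pat.mk 0x2800000008000000000000000000000000 0x100000001c0000001c0000001c000001ff000000fe0000000f0000001c0000001c00000014 7 9) 0 0 (step_sound _ 132 [(rh2820ca9a6c4f41b4.shift 0 3), (rh5024bbfb5139b661.shift 2 3), rh9985cb2751e2c788, (rhb55ee1177cf584c3.shift 0 1)] (by decide +kernel))
noncomputable def rh28386f8bdf587ff7 : CRef := CRef.mk (Pat.mk 0x2800000028000000000000000000000000 0x100000001c0000001c0000003c000003ff000003fe000003b80000001f0000001c0000001c 7 10) 0 0 (step_sound _ 132 [(rh3aab2036ca4e8d0a.shift 1 1), (rh47e8913cbb50432b.shift 0 1), (rh7bca6bf61ec65d1e.shift 0 1), (rh7d7c2155600e215e.shift 2 1), rh9985cb2751e2c788, rh9c5992181d577b14, (rhee32d14a79acfe9f.shift 0 1)] (by decide +kernel))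
noncomputable def rhd086d30da0c674f9 : CRef := CRef.mk (Pat.mk 0x28000000280000000000000000000000000000000000000000 0x440000004c0000006f0000007c0000002f000000fe0000007e0000005c0000001c00000010 7 8) 0 0 (step_sound _ 131 [(rh006baf7432b3c33d.shift 0 1), (rh0f5c947082bcb631.shift 2 1), (rh1fa33a0369aa1fc6.shift 1 1), (rh4692eec48c60ad82.shift 2 1), rh536ca930aa551413, (rh8858cbf1ab06cf1d.shift 0 3), (rh8af0b33ce25ec308.shift 1 0), (rh9c2a11983e75daf2.shift 1 1), (rhd8745d3afce428ba.shift 2 2), (rhfe829c42ed752e6d.shift 2 1)] (by decide +kernel))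
noncomputable def rhfb81fb0f9b1cd295 : CRef := CRef.mk (Pat.mk 0x280000002800000000000000000000000000000000 0x540000007c000001fc000000f80000002f0000007c0000007e0000007400000050 7 9) 0 0 (step_sound _ 166 [(rh562c905737e2bff1.shift 2 2), (rh8d0e56b8a78c5a56.shift 2 4), rh95895b7e7960c0ee, (rhd5899e89efce0709.shift 2 2), (rhe5944c0a1e5f3c0d.shift 2 2)] (by decide +kernel))
noncomputable def rha7bd9fcbd0c7c12a : CRef := CRef.mk (Pat.mk 0x140000001400000000000000000000000000000000 0xa0000000e0000001e0000001e000000170000007e0000007f0000002e0000000a 7 7) 0 0 (step_sound _ 98 [(rh1b7e89f239630456.shift 1 0), (rh2e83dc040c94abfe.shift 1 2), (rh524a571044b20901.shift 0 1), rhc84d8c7482a5eb82, (rhd8745d3afce428ba.shift 1 1), (rhfc60e486baaa63e2.shift 1 1)] (by decide +kernel))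
noncomputable def rh990a4274d5914eb2 : CRef := CRef.mk (Pat.mk 0x2c0000002000000000000000000000000000000000 0x40000002c0000002c0000002f0000007e0000007e0000003e0000001e00000014 7 7) 0 0 (step_sound _ 131 [(rh7548188f20d42b3e.shift 1 0), (rh78bbdca7560a181d.shift 1 1), (rh8c25cb665ab79ec0.shift 0 4), (rha45bcd1a02ddba08.shift 1 1)] (by decide +kernel))
noncomputable def rh3f6c5196ffae96f6 : CRef := CRef.mk (Pat.mk 0x2c0000002000000000000000000000000000000000 0x140000001c0000001c0000007c0000002f0000007c0000001f0000001c0000001c00000014 7 7) 0 0 (step_sound _ 131 [(rh8c25cb665ab79ec0.shift 0 4), rha4846e93cf74f2cb, rhb7e09e777b1e787c, (rhbb2258de3c9392a8.shift 0 1)] (by decide +kernel))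
noncomputable def rhd37844314c862127 : CRef := CRef.mk (Pat.mk 0x2800000028000000000000000000000000 0x600000016000003bf000001fe000003ff0000002800000028 7 10) 0 0 (step_sound _ 100 [(rh08ae6a9c1fa4a93d.shift 2 2), (rh5b6d2bf6893374d1.shift 1 0), (rha9fbfd4bb8cf890b.shift 0 3), (rhc53656083a14bd81.shift 0 1)] (by decide +kernel))
noncomputable def rhbd84ce584114eed7 : CRef := CRef.mk (Pat.mk 0x280000002800000000000000000000000000000000 0x140000001c0000001c0000001c000003bc000001f8000003df0000001c0000001c00000014 7 10) 0 0 (step_sound _ 132 [(rh08ae6a9c1fa4a93d.shift 2 3), (rh0a2e9ded62896945.shift 2 0), (rh1561ff1fafeb7917.shift 2 3), (rh593db512304b15c8.shift 0 1)] (by decide +kernel))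
noncomputable def rh6950015d6899ebb6 : CRef := CRef.mk (Pat.mk 0x2800000028000000000000000000000000 0x140000001c0000001e0000001e0000003f0000003e0000007f0000003c0000003c 7 7) 0 0 (step_sound _ 100 [rh0e3012db365425d2, rh26e1017678d9da1f, (rh4df2e723d42ce8f4.shift 1 0), rh593db512304b15c8, (rhc53656083a14bd81.shift 0 1), rhe80e002c72bee859] (by decide +kernel))
noncomputable def rh355399d6e0cc9d5b : CRef := CRef.mk (Pat.mk 0x28000000280000000000000000000000000000000000000000 0x1c0000001c0000001f000003b8000003fe000003ff0000003c0000003c0000001c00000010 7 10) 0 0 (step_sound _ 164 [(rh0a2e9ded62896945.shift 2 1), (rh0e3012db365425d2.shift 0 2), (rh13bc39fad46ed7d3.shift 0 4), (rh5b6d2bf6893374d1.shift 1 2), (rha13423141a6dee87.shift 0 2), rhfa0b3c123b00bd98] (by decide +kernel))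
noncomputable def rh9ea11de10c83deea : CRef := CRef.mk (Pat.mk 0x2800000028000000000000000000000000 0x140000001c0000005c0000007f000000ff0000002f0000007c0000006f0000004c00000044 7 8) 0 0 (step_sound _ 163 [(rh1359922a99d3d421.shift 2 1), (rh144c921ae3171e1e.shift 1 2), (rh195e2e6861faf39a.shift 2 1), (rh1aab93d8dd87c147.shift 0 2), (rh22e3873261c6c95d.shift 2 2), (rh59e0e2fa5b77d22a.shift 0 1), rh65d01379fd6ff22b, rh6d3fabaf7ec9c89d, rha98a27a39ca716f5] (by decide +kernel))
noncomputable def rha274808852655229 : CRef := CRef.mk (Pat.mk 0x28000000280000000000000000000000000000000000000000 0x140000001c0000001c0000001c0000002f000000fe000001df0000001c0000001c0000001c00000010 7 9) 0 0 (step_sound _ 164 [(rh1561ff1fafeb7917.shift 2 4), (rh157b0270421eeec2.shift 0 2), (rha9fbfd4bb8cf890b.shift 0 5), rhfa0b3c123b00bd98] (by decide +kernel))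
noncomputable def rh31b66b2371ed312b : CRef := CRef.mk (Pat.mk 0x2c0000002000000000000000000000000000000000 0x40000002c0000002c0000002f0000007e0000007e0000003e0000001e00000014 7 7) 0 0 (step_sound _ 131 [(rh10e632a752ee89b7.shift 1 0), (rh78bbdca7560a181d.shift 1 1), (rh8c25cb665ab79ec0.shift 0 4), (rha45bcd1a02ddba08.shift 1 1)] (by decide +kernel))
noncomputable def rhd0688ef6b42bf4d5 : CRef := CRef.mk (Pat.mk 0x2c0000002000000000000000000000000000000000 0x140000001c0000001c0000007c0000002f0000007c0000001f0000001c0000001c00000014 7 7) 0 0 (step_sound _ 131 [rh8a57e8aad2d897f7, (rh8c25cb665ab79ec0.shift 0 4), (rhbb2258de3c9392a8.shift 0 1), rhdd654bbc0781e67b] (by decide +kernel))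
noncomputable def rh46cd5193d17774d9 : CRef := CRef.mk (Pat.mk 0x2800000028000000000000000000000000 0xc0000001c0000001f0000003f000000fe000001f80000003800000038 7 9) 0 0 (step_sound _ 100 [(rh1aae126fdb0efa1d.shift 2 2), rh30c8f5e7b893ae7b, (rh4df2e723d42ce8f4.shift 1 0), (rha9fbfd4bb8cf890b.shift 0 3)] (by decide +kernel))
noncomputable def rh3b72410aaa66337e : CRef := CRef.mk (Pat.mk 0x2800000028000000000000000000000000 0x6000000160000003f000000fe000001fe0000002800000028 7 9) 0 0 (step_sound _ 100 [(rh1561ff1fafeb7917.shift 2 2), (rh8e35b8e686c528a7.shift 1 0), (rha9fbfd4bb8cf890b.shift 0 3), (rhfcb70b58f3e56a11.shift 0 1)] (by decide +kernel))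
noncomputable def rh716c27138ef70e00 : CRef := CRef.mk (Pat.mk 0x280000002800000000000000000000000000000000 0x140000001c0000001c0000001c0000003c000000f8000001df0000001c0000001c00000014 7 9) 0 0 (step_sound _ 132 [(rh1aae126fdb0efa1d.shift 2 3), (rh24e72371d7873615.shift 2 1), (rh3e26abbf947d0cd9.shift 2 0), (rhbabffc97ec5acff8.shift 0 1)] (by decide +kernel))
noncomputable def rhc5532af7a2c6bbc0 : CRef := CRef.mk (Pat.mk 0x2800000028000000000000000000000000 0x8000003bf000003fe000003f70000000400000004 7 10) 0 0 (step_sound _ 100 [(rh13bc39fad46ed7d3.shift 0 2), (rh1aae126fdb0efa1d.shift 2 2), (rha9fbfd4bb8cf890b.shift 0 3), rheb148aa76a4b79f6] (by decide +kernel))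
noncomputable def rhba9445bf4c1a51f4 : CRef := CRef.mk (Pat.mk 0x2800000028000000000000000000000000 0x140000001c0000001e0000001e0000003f0000003e0000007f0000003c0000003c 7 7) 0 0 (step_sound _ 100 [(rh4df2e723d42ce8f4.shift 1 0), (rh7f25d458aa6324fe.shift 1 0), rhbabffc97ec5acff8, rheb148aa76a4b79f6, rheb73575cb4cd42e3, (rhfcb70b58f3e56a11.shift 0 1)] (by decide +kernel))
noncomputable def rh6596f12ad6de87b1 : CRef := CRef.mk (Pat.mk 0x28000000280000000000000000000000000000000000000000 0x140000001c0000001c0000002f000000fe0000007f0000001c0000001c0000001c00000010 7 8) 0 0 (step_sound _ 164 [(rh24e72371d7873615.shift 2 2), (rha9fbfd4bb8cf890b.shift 0 5), (rheb148aa76a4b79f6.shift 0 2), rhfa0b3c123b00bd98] (by decide +kernel))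
noncomputable def rh6e4ffa221ea9cbc0 : CRef := CRef.mk (Pat.mk 0x28000000280000000000000000000000000000000000000000 0x1c0000001c0000001f000003b8000003fe000003ff0000003c0000003c0000001c00000010 7 10) 0 0 (step_sound _ 164 [(rh13bc39fad46ed7d3.shift 0 4), (rh30c8f5e7b893ae7b.shift 0 2), (rh3e26abbf947d0cd9.shift 2 1), (rh7f25d458aa6324fe.shift 1 2), (rh8e35b8e686c528a7.shift 1 2), rhfa0b3c123b00bd98] (by decide +kernel))
noncomputable def rhc408e4ec58d70262 : CRef := CRef.mk (Pat.mk 0x2800000028000000000000000000000000 0x140000001c0000005c0000007f000000ff0000002f0000007c0000006f0000004c00000044 7 8) 0 0 (step_sound _ 163 [(rh1359922a99d3d421.shift 2 1), (rh144c921ae3171e1e.shift 1 2), (rh195e2e6861faf39a.shift 2 1), (rh1aab93d8dd87c147.shift 0 2), (rh59e0e2fa5b77d22a.shift 0 1), rh65d01379fd6ff22b, rh6d3fabaf7ec9c89d, rha98a27a39ca716f5] (by decide +kernel))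
noncomputable def rh279a1df35cb6362c : CRef := CRef.mk (Pat.mk 0x280000002800000000000000000000000000000000 0x140000001c000000fc0000007c0000002f0000003e0000007f0000007c0000005400000050 7 8) 0 0 (step_sound _ 195 [(rh1359922a99d3d421.shift 2 2), rh1ba2bb6cf194f855, (rh1dbd5905aef3dade.shift 2 0), (rh5a37eae4d2a9673f.shift 2 1), (rh72942ba962f6cb3b.shift 2 1), (rhd33666284aa5c7c2.shift 2 1), (rhf60808b0f874ef91.shift 0 1)] (by decide +kernel))
noncomputable def rh783b221277f2f9bc : CRef := CRef.mk (Pat.mk 0x28000000280000000000000000000000000000000000000000 0x140000001c0000001c0000001c0000002f000000fe000001df0000001c0000001c0000001c00000010 7 9) 0 0 (step_sound _ 164 [(rh1561ff1fafeb7917.shift 2 4), (rh3c1f8dd5bfa83145.shift 0 2), (rha9fbfd4bb8cf890b.shift 0 5), rhfa0b3c123b00bd98] (by decide +kernel))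
noncomputable def rhb5846cbba7cadfdc : CRef := CRef.mk (Pat.mk 0x280000002800000000000000000000000000000000 0x540000007c0000007c000000280000007c000001ff0000007e0000005400000054 7 9) 0 0 (step_sound _ 101 [rh6c3706876b3a05c6, (rh8836d5ad16324666.shift 2 2), (rhc5c5b88722b9bb4a.shift 4 1), rhda9406a2804dc7f8, (rhf3137a9730661f0a.shift 2 0)] (by decide +kernel))
noncomputable def rh02d921165c511471 : CRef := CRef.mk (Pat.mk 0x2800000028000000000000000000000000 0x600000016000003bf000001fe000003fe0000002800000028 7 10) 0 0 (step_sound _ 100 [(rh08ae6a9c1fa4a93d.shift 2 2), (rh8e35b8e686c528a7.shift 1 0), (rha9fbfd4bb8cf890b.shift 0 3), (rhfcb70b58f3e56a11.shift 0 1)] (by decide +kernel))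
noncomputable def rh1f636bc4ee51f75d : CRef := CRef.mk (Pat.mk 0x280000002800000000000000000000000000000000 0x140000001c0000001c0000001c000003bc000001f8000003df0000001c0000001c00000014 7 10) 0 0 (step_sound _ 132 [(rh08ae6a9c1fa4a93d.shift 2 3), (rh0a2e9ded62896945.shift 2 0), (rh24e72371d7873615.shift 2 1), (rha68c796939495516.shift 0 1)] (by decide +kernel))
noncomputable def rh2170f88bc8e815da : CRef := CRef.mk (Pat.mk 0x2800000028000000000000000000000000 0x8000003bf000003fe000003f70000000400000004 7 10) 0 0 (step_sound _ 100 [(rh08ae6a9c1fa4a93d.shift 2 2), (rh13bc39fad46ed7d3.shift 0 2), rh26e1017678d9da1f, (rha9fbfd4bb8cf890b.shift 0 3)] (by decide +kernel))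
noncomputable def rh450ba9f0d169e971 : CRef := CRef.mk (Pat.mk 0x2800000028000000000000000000000000 0x140000001c0000001e0000001e0000003f0000003e0000007f0000003c0000003c 7 7) 0 0 (step_sound _ 100 [rh26e1017678d9da1f, (rh4df2e723d42ce8f4.shift 1 0), rh53c0cb3afc935472, rha2cb1977398e6365, rha68c796939495516, (rhfcb70b58f3e56a11.shift 0 1)] (by decide +kernel))
noncomputable def rhd5f54383297c2f8b : CRef := CRef.mk (Pat.mk 0x28000000280000000000000000000000000000000000000000 0x1c0000001c0000001f000003b8000003fe000003ff0000003c0000003c0000001c00000010 7 10) 0 0 (step_sound _ 164 [(rh0a2e9ded62896945.shift 2 1), (rh13bc39fad46ed7d3.shift 0 4), (rh30c8f5e7b893ae7b.shift 0 2), (rh8e35b8e686c528a7.shift 1 2), (rha2cb1977398e6365.shift 0 2), rhfa0b3c123b00bd98] (by decide +kernel))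
noncomputable def rh6e3d522182b99cdd : CRef := CRef.mk (Pat.mk 0x140000001400000000000000000000000000000000 0x20000000e0000000e0000000e0000001e000000370000003e0000000e0000000e0000000a 7 6) 0 0 (step_sound _ 98 [(rh0eb09afa9815783c.shift 1 1), (rh1da05233efca3f0f.shift 1 0), (rh406170d06d2e1040.shift 1 1), (rh7fd74e6b1fad4415.shift 1 0), (rhc5c5b88722b9bb4a.shift 1 1), (rhe19deee2c270a386.shift 1 1), (rhfdee0034602635ef.shift 0 2)] (by decide +kernel))
noncomputable def rhc6bdbd2781270973 : CRef := CRef.mk (Pat.mk 0x5000000050000000000000000000000000 0x58000000580000005f000001fe0000007e0000003800000028 7 9) 0 0 (step_sound _ 101 [(rh24e72371d7873615.shift 3 0), (rh25ced0b4575960fe.shift 1 0), (rha9fbfd4bb8cf890b.shift 1 3), rhb89ad7622e53b065] (by decide +kernel))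
noncomputable def rh4d99f1250513ae0e : CRef := CRef.mk (Pat.mk 0x2800000028000000000000000000000000 0x50000000740000007c0000007c0000002f000000f8000001fc0000007c00000054 7 9) 0 0 (step_sound _ 102 [(rh47082137e9cd2755.shift 2 2), (rh53567e131628b92e.shift 2 0), (rh56e90c12f0808c38.shift 2 0), rhe99bfe815d168007, (rheb35796aefd5d255.shift 2 0)] (by decide +kernel))
noncomputable def rh854f857a7df26147 : CRef := CRef.mk (Pat.mk 0x280000002800000000000000000000000000000000 0x140000001c000000fc0000007c0000002f0000003e0000007f0000007c0000005400000050 7 8) 0 0 (step_sound _ 195 [(rh1359922a99d3d421.shift 2 2), (rh1dbd5905aef3dade.shift 2 0), (rh25271c74be886731.shift 2 1), (rh2b6ecd6b948e770d.shift 0 1), (rh9025223dca583e9f.shift 2 1), rh9d84eae4e5650c9b] (by decide +kernel))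
noncomputable def rh896f4bb17962fcff : CRef := CRef.mk (Pat.mk 0x28000000280000000000000000000000000000000000000000 0x140000001c0000001c0000001c0000002f000000fc000001df0000001c0000001c0000001c00000010 7 9) 0 0 (step_sound _ 164 [(rh1561ff1fafeb7917.shift 2 4), (rh4e11a3d68f657061.shift 0 2), (rha9fbfd4bb8cf890b.shift 0 5), rhfa0b3c123b00bd98] (by decide +kernel))
noncomputable def rh172314424925d372 : CRef := CRef.mk (Pat.mk 0x280000002800000000000000000000000000000000 0x540000007c0000007c000000280000007c000001ff000000fc0000005400000054 7 9) 0 0 (step_sound _ 99 [rh0115c66452a97d07, (rh60f6231d213c6ef9.shift 2 1), (rhac889223ea4d6c68.shift 2 0), rhb966ff22609ec4c3, (rhc5c5b88722b9bb4a.shift 2 1), (rhe323009b509138a7.shift 0 2)] (by decide +kernel))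
noncomputable def rh1b068a310eb6d745 : CRef := CRef.mk (Pat.mk 0x280000002800000000000000000000000000000000 0x40000005c000000fc0000007c0000002f0000006e000000fc0000007e0000005c00000014 7 8) 0 0 (step_sound _ 99 [(rh0aae1ee34b51faa6.shift 2 1), (rh0eb09afa9815783c.shift 2 1), (rh5c5fc92a22ce9407.shift 2 1), (rh6bfac8cab3a85ce1.shift 1 0), (rh72ef61a7f3630de0.shift 1 2), (rhcffc9191041ad082.shift 2 0), (rhd24db5edf9fa939b.shift 0 1), (rhe8a7723f405835bc.shift 0 2)] (by decide +kernel))
noncomputable def rhe6cd386ad21bb130 : CRef := CRef.mk (Pat.mk 0x2800000028000000000000000000000000 0x6000000160000003f000000fe000001fe0000002800000028 7 9) 0 0 (step_sound _ 100 [(rh1561ff1fafeb7917.shift 2 2), (rh5b6d2bf6893374d1.shift 1 0), (rha9fbfd4bb8cf890b.shift 0 3), (rhfcb70b58f3e56a11.shift 0 1)] (by decide +kernel))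
noncomputable def rhde63b32fd2b4b1f5 : CRef := CRef.mk (Pat.mk 0x2800000028000000000000000000000000 0x140000001c0000001e0000001e0000003f0000003e0000007f0000003c0000003c 7 7) 0 0 (step_sound _ 100 [rh26e1017678d9da1f, (rh4df2e723d42ce8f4.shift 1 0), (rh7f25d458aa6324fe.shift 1 0), rhbabffc97ec5acff8, rhe80e002c72bee859, (rhfcb70b58f3e56a11.shift 0 1)] (by decide +kernel))
noncomputable def rh8bed5b0bda327bd6 : CRef := CRef.mk (Pat.mk 0x28000000280000000000000000000000000000000000000000 0x1c0000001c0000001f000003b8000003fe000003ff0000003c0000003c0000001c00000010 7 10) 0 0 (step_sound _ 164 [(rh13bc39fad46ed7d3.shift 0 4), rh35c1cdedc435622b, (rh3e26abbf947d0cd9.shift 2 1), (rh5b6d2bf6893374d1.shift 1 2), (rh7f25d458aa6324fe.shift 1 2), (rha13423141a6dee87.shift 0 2)] (by decide +kernel))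
noncomputable def rh5d813d931c7d55dd : CRef := CRef.mk (Pat.mk 0x28000000280000000000000000000000000000000000000000 0x140000001c0000001c0000001c0000002f000000fc000001df0000001c0000001c0000001c00000010 7 9) 0 0 (step_sound _ 164 [(rh1561ff1fafeb7917.shift 2 4), rh35c1cdedc435622b, (rh4e11a3d68f657061.shift 0 2), (rha9fbfd4bb8cf890b.shift 0 5)] (by decide +kernel))
noncomputable def rh41496cf82c1d7a29 : CRef := CRef.mk (Pat.mk 0x2c000000200000000000000000 0xc0000000f0000003e0000003f0000000e0000000e 7 6) 0 0 (step_sound _ 100 [(rh4368217ec1272ce6.shift 1 0), (rh775ca1963e850b80.shift 0 2), (rhd1d05263fabc0227.shift 0 2), (rhdceeca65bdd8095a.shift 0 2)] (by decide +kernel))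
noncomputable def rhf1c702c09ac5b322 : CRef := CRef.mk (Pat.mk 0x2c0000002000000000000000000000000000000000 0x40000002c0000002c0000002f0000007e0000007e0000003e0000001e00000014 7 7) 0 0 (step_sound _ 131 [(rh78bbdca7560a181d.shift 1 1), (rh8c25cb665ab79ec0.shift 0 4), (rha45bcd1a02ddba08.shift 1 1), (rhe745f09fd1122f13.shift 1 0)] (by decide +kernel))
noncomputable def rh91acc7eb0d0b741a : CRef := CRef.mk (Pat.mk 0xe0000000800000000000000000000000000000000 0x140000001c0000003c0000000e0000007c000000380000001f0000001c00000014 7 7) 0 0 (step_sound _ 99 [(rh43d8dfd721575dfb.shift 2 0), (rh7b24c4ccc068b0b2.shift 2 2), (rhb1a251d9bff81766.shift 2 2), (rhf61e8a3b132720e9.shift 1 2), rhf71215ddc455fe51] (by decide +kernel))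
noncomputable def rh527b6cdf572bb008 : CRef := CRef.mk (Pat.mk 0xe0000000800000000000000000000000000000000 0x140000001c0000003c0000000e000000380000001f000000fc0000001c00000014 7 8) 0 0 (step_sound _ 99 [(rh0a6888916bcef86b.shift 2 0), (rh369225b5d41e1569.shift 2 1), (rhb1a251d9bff81766.shift 2 2), (rhbe4291dfa8c01ddc.shift 1 2), rhcd4ff5e74873e18b] (by decide +kernel))
noncomputable def rh02ef237bace9e772 : CRef := CRef.mk (Pat.mk 0x2c0000002000000000000000000000000000000000 0x140000001c0000001c0000007c0000002f0000007c0000001f0000001c0000001c00000014 7 7) 0 0 (step_sound _ 131 [rh502b50478cde9d94, (rh8c25cb665ab79ec0.shift 0 4), (rhbb2258de3c9392a8.shift 0 1), rhecba4528f68c1c07] (by decide +kernel))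
noncomputable def rha5eee94acd67246e : CRef := CRef.mk (Pat.mk 0x10000000140000001000000000 0x280000003f0000007e000000ff0000001f0000001800000008 7 8) 0 0 (step_sound _ 132 [(rh7c535310c8d3106b.shift 0 1), rha94490687c60c4d4, (rhc85cc95794737cf7.shift 3 1)] (by decide +kernel))
noncomputable def rh6fde64ff3d3d5348 : CRef := CRef.mk (Pat.mk 0x28000000280000000000000000 0x4000000040000000f0000003f0000007f0000000800000008 7 7) 0 0 (step_sound _ 98 [(rh8c25cb665ab79ec0.shift 0 2), (rha6816dee951f7ee6.shift 2 2), (rhb34a67f8847d128f.shift 0 2), rhf42734810ab7f272] (by decide +kernel))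
noncomputable def rh61f839471526d079 : CRef := CRef.mk (Pat.mk 0x2800000028000000000000000000000000 0x600000016000003bf000001fe000003ff0000002800000028 7 10) 0 0 (step_sound _ 100 [(rh1e581fcebcca7a34.shift 2 2), (rh77e75a95749aa7e3.shift 1 0), (rha9fbfd4bb8cf890b.shift 0 3), (rhd1a746367486dcd3.shift 0 1)] (by decide +kernel))
noncomputable def rhfd14858c2ac2e4a1 : CRef := CRef.mk (Pat.mk 0x280000002800000000000000000000000000000000 0x140000001c0000001c000003bc000001f8000003ff0000007e0000007c0000002c 7 10) 0 0 (step_sound _ 132 [(rh1e581fcebcca7a34.shift 2 3), (rh24e72371d7873615.shift 2 1), (rh5be5f024049b4c91.shift 1 0), (rhbce7afc99fc0103d.shift 0 1)] (by decide +kernel))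
noncomputable def rhaad15c6a7f48cdb0 : CRef := CRef.mk (Pat.mk 0x2800000028000000000000000000000000 0x8000003bf000003fe000003f70000000400000004 7 10) 0 0 (step_sound _ 100 [(rh1e581fcebcca7a34.shift 2 2), (rha9fbfd4bb8cf890b.shift 0 3), rhade5efeb5882dd7f, (rhb93910d60b250a25.shift 0 2)] (by decide +kernel))
noncomputable def rh50c20f9d83392933 : CRef := CRef.mk (Pat.mk 0x5000000050000000000000000000000000 0x300000003c0000003e0000007f0000007f000000fe0000007c0000007c 7 8) 0 0 (step_sound _ 99 [(rh0b2284982e410b65.shift 1 0), (rh2fa164ba5c06bb6d.shift 2 0), (rh5b3397f2c9f35fc7.shift 1 0), rh6a9e8ea4c938f614, (rh73140a58ca03d7d7.shift 1 1), rh751bd15d29e3f2b1, (rh8ab9e83f5f23c419.shift 1 0), (rhb459f58511106d09.shift 1 0)] (by decide +kernel))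
noncomputable def rhf8f302e932694849 : CRef := CRef.mk (Pat.mk 0xa0000000a00000000000000000000000000000000000000000 0x500000007000000070000000bf000003fe0000007e00000070000000700000007000000040 7 10) 0 0 (step_sound _ 166 [(rh22670f23282ca475.shift 2 0), (rh24e72371d7873615.shift 4 2), (rh9b595c110d6e7e3a.shift 0 1), (rha9fbfd4bb8cf890b.shift 2 5)] (by decide +kernel))
noncomputable def rh8818b8f9d2b43ad8 : CRef := CRef.mk (Pat.mk 0x28000000280000000000000000000000000000000000000000 0x1c0000001c0000001f000003b8000003fe000003ff0000007e0000007c0000007c00000010 7 10) 0 0 (step_sound _ 164 [(rh043ebfbba7330cdf.shift 1 1), rh22670f23282ca475, (rh4db5b04255e36160.shift 0 2), (rh5be5f024049b4c91.shift 1 1), (rhb93910d60b250a25.shift 0 4), (rhc60ed045d4ac5b0a.shift 1 2), (rhdebc400759f2ce9f.shift 1 2)] (by decide +kernel))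
noncomputable def rh6a4c905b435f08fe : CRef := CRef.mk (Pat.mk 0x140000001400000000000000000000000000000000 0x20000000e0000000e0000000e0000001e000000370000003e0000000e0000000e0000000a 7 6) 0 0 (step_sound _ 98 [(rh37c05aa62684ff00.shift 1 1), (rh4b32f70f066e2c2c.shift 1 1), (rh52dcc482a23e70a0.shift 0 2), (rh5ddd66feac54658e.shift 1 0), (rh7a3105e5f8daf74a.shift 1 1), (rh89fe2686fe894ec2.shift 1 0), (rha0d3d693be303b73.shift 1 1)] (by decide +kernel))
noncomputable def rhedded08b6191989b : CRef := CRef.mk (Pat.mk 0x2000000020000000200000000000000000000000000000000 0x60000000600000007000000030000000700000007000000070000000700000005 7 3) 0 0 (step_sound _ 97 [(rh12461e137161f2e1.shift 0 2), (rh151909bcb9d9a03a.shift 0 1), rh832d53b0c7150d1d, (rh8cdd36b03d57a2f6.shift 0 1), rh8e3b1d976c2c4cbf, (rhf517b930ee0bd92d.shift 0 1)] (by decide +kernel))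
noncomputable def rha30e4d022c24a8e3 : CRef := CRef.mk (Pat.mk 0x2800000028000000000000000000000000 0x50000000740000007c0000007c0000002f000000f8000000fc0000007c00000054 7 8) 0 0 (step_sound _ 102 [(rh53567e131628b92e.shift 2 0), (rh56e90c12f0808c38.shift 2 0), rhe99bfe815d168007, (rheb35796aefd5d255.shift 2 0)] (by decide +kernel))
noncomputable def rhb133e5b8df9874c0 : CRef := CRef.mk (Pat.mk 0x2800000028000000000000000000000000 0x140000001c0000005c0000007f000000ff0000002f0000007c0000006f0000004c0000004c 7 8) 0 0 (step_sound _ 163 [(rh16d5454196c5e9fe.shift 0 2), (rh247b58b6c14225e7.shift 2 1), rh384816bea6041b97, (rh38bd857cc2c92910.shift 2 1), (rh56045c4ac40d49e3.shift 1 2), rh65d01379fd6ff22b, (rh66e50c5fa32577ac.shift 2 1), rh6d3fabaf7ec9c89d, (rha27c7b7a60446304.shift 2 2), rha98a27a39ca716f5] (by decide +kernel))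
noncomputable def rhd4561a0c7aaef380 : CRef := CRef.mk (Pat.mk 0x280000002800000000000000000000000000000000 0x140000001c000000fc0000007c0000002f0000003e0000007f0000007c0000005400000050 7 8) 0 0 (step_sound _ 195 [(rh19440412ee7a1e35.shift 0 1), rh1ba2bb6cf194f855, (rh2eb61565c289e531.shift 2 0), (rh5a31c14f96fd41e0.shift 2 1), (rh895960a8d60b102d.shift 2 1), (rha27c7b7a60446304.shift 2 3)] (by decide +kernel))
noncomputable def rh4ac1013eb24be203 : CRef := CRef.mk (Pat.mk 0x28000000280000000000000000000000000000000000000000 0x5000000070000000700000002f0000007c000001f000000070000000700000007000000010 7 9) 0 0 (step_sound _ 164 [(rh35a02af777b98683.shift 2 2), (rh6b6edcba82885ef3.shift 2 0), (rha9fbfd4bb8cf890b.shift 0 5)] (by decide +kernel))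
noncomputable def rh87b19bcdd1843c42 : CRef := CRef.mk (Pat.mk 0x280000002800000000000000000000000000000000 0x540000007c0000007c000000280000007e000001ff000000fc0000005400000054 7 9) 0 0 (step_sound _ 99 [(rh4a605cc958097ade.shift 2 0), (rh7a3105e5f8daf74a.shift 2 1), (rh8d13b0635a205b9e.shift 1 2), (rh8e416247a2c6c4eb.shift 1 0), (rh8f71c0f2fc6b7d07.shift 0 2), (rh915b733dc6d50734.shift 2 1), rhb966ff22609ec4c3] (by decide +kernel))
noncomputable def rh78201ea18b160db6 : CRef := CRef.mk (Pat.mk 0x28000000280000000000000000000000000000000000000000 0x5000000070000000780000002f0000007e000001f700000074000000740000007000000010 7 9) 0 0 (step_sound _ 164 [(rh1c55c599150b4bd7.shift 2 0), (rh35a02af777b98683.shift 2 2), (rh4ab2c9ca1ce0a837.shift 0 2), (rha9fbfd4bb8cf890b.shift 0 5)] (by decide +kernel))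
noncomputable def rh886c1c3bab8b2ac4 : CRef := CRef.mk (Pat.mk 0x280000002800000000000000000000000000000000 0x40000005c000000fc0000007c0000002f0000006e000000fc0000007e0000005c00000014 7 8) 0 0 (step_sound _ 99 [(rh020140c103c93fec.shift 2 0), (rh10c7d36c8109c4cf.shift 0 1), (rh13953f598edca916.shift 2 1), (rh37c05aa62684ff00.shift 2 1), (rh5389c62253cbe833.shift 2 1), (rh83fec12306a3cd0d.shift 0 1), (rh883d86d46210c8de.shift 1 0), (rh8d13b0635a205b9e.shift 1 2)] (by decide +kernel))
noncomputable def rh3b8c0519b0ee0a8a : CRef := CRef.mk (Pat.mk 0x20000001e0000001200000000000000000000000000000000 0x40000000e0000001e0000001a0000001f0000003f0000000700000005 7 6) 0 0 (step_sound _ 97 [(rh150a047a02e638a8.shift 0 2), rh1b9022be4f7af407, (rh91a545eb3be094e3.shift 0 1), (rha707fb719e87fe6e.shift 1 2)] (by decide +kernel))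
noncomputable def rh9c72cdd1d974027a : CRef := CRef.mk (Pat.mk 0x100000001e000000000000000000000008 0x140000003c0000001f0000003e000000080000000800000008 7 6) 0 0 (step_sound _ 67 [(rh52665b6e8687a8c4.shift 0 2), (rh9e3edb185cc347de.shift 3 0)] (by decide +kernel))
noncomputable def rh1e22460046f90c99 : CRef := CRef.mk (Pat.mk 0xe000000000000000000000008 0xf70000007f000000f80000000800000008 7 8) 0 0 (step_sound _ 100 [(rh3947d1dfff0afc6c.shift 0 2), (rh3fc3a7fb6866dcd4.shift 1 2), (rh45f730bcf36fcf64.shift 0 2), (rhb18e6c78a554867d.shift 0 3), rhf9fc252bb8290774] (by decide +kernel))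
noncomputable def rh9cfa8f49146870a1 : CRef := CRef.mk (Pat.mk 0x80000001e00000018000000000000000000000000 0x40000000c0000001e0000001a0000007f0000001f0000000c 7 7) 0 0 (step_sound _ 68 [(rh7b1f1fb55310c477.shift 3 1), rhe5216027599b2a70] (by decide +kernel))
noncomputable def rh2343bb15e2283ffe : CRef := CRef.mk (Pat.mk 0x20000000300000002000000000000000000000000 0x1000000070000000700000007000000030000000300000002000000070000000700000005 7 3) 0 0 (step_sound _ 65 [rh5192e84255fe3228, rh6eff4158bb400f47, (rha7bb430bc20854cc.shift 0 2), (rhe286c75f2739cce2.shift 0 1)] (by decide +kernel))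
noncomputable def rhb1f6d4afa0940b6f : CRef := CRef.mk (Pat.mk 0x1000000030000000280000000800000000 0x1000000030000001ef000000fe000001e7 7 9) 0 0 (step_sound _ 37 [rh5f31249694d25bd6, (rh7b1f1fb55310c477.shift 4 0)] (by decide +kernel))
noncomputable def rhc07039d993d08761 : CRef := CRef.mk (Pat.mk 0x200000002000000070000000000000000000000000 0x20000000770000007e000000cf0000004000000040 7 8) 0 0 (step_sound _ 99 [(rhb12ffaec36122c99.shift 0 2), (rhc6a206db04c1b3f8.shift 0 2), (rhd132b680030c88e0.shift 3 0)] (by decide +kernel))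
noncomputable def rh3f2abcda1abf602d : CRef := CRef.mk (Pat.mk 0x80000001e000000040000000400000000 0x40000000c0000001e000000370000003e0000001a 7 6) 0 0 (step_sound _ 65 [(rhc6047ad1942e0080.shift 1 0), (rheb0810cc63b001d8.shift 0 2)] (by decide +kernel))
noncomputable def rh9b36df7b69c5c19a : CRef := CRef.mk (Pat.mk 0x40000001e000000000000000200000000 0x80000000c0000001f000000380000001f0000001c 7 6) 0 0 (step_sound _ 68 [rhaeecbf709599ae5d, (rhe25b0a99195a5d59.shift 1 2)] (by decide +kernel))
noncomputable def rhd427cfa8d94f3a51 : CRef := CRef.mk (Pat.mk 0x20000000f000000000000000400000000 0x720000007f000000fc0000000400000004 7 8) 0 0 (step_sound _ 66 [(rh04b5a123ea5003fa.shift 0 2), (rh7b1f1fb55310c477.shift 1 0)] (by decide +kernel))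
noncomputable def rhc4aa9f7e8c42cbec : CRef := CRef.mk (Pat.mk 0xe0000000c000000000000000000000000 0x780000007e0000003f000000300000001000000010 7 7) 0 0 (step_sound _ 100 [rh97b5f977c740b749, (rhf48373e13d2bc128.shift 1 3)] (by decide +kernel))
noncomputable def rha299441ce9c64f2a : CRef := CRef.mk (Pat.mk 0x40000001c0000000c000000000000000000000000 0x40000001c0000007f0000007f0000000a00000002 7 7) 0 0 (step_sound _ 35 [rh8b398022ed1689ba, (rh9e07f76261b05888.shift 2 1)] (by decide +kernel))
noncomputable def rh8061683ee4111214 : CRef := CRef.mk (Pat.mk 0xe0000001a0000000800000000 0x40000001c0000001c0000001c0000000c0000000e0000001a0000001f00000016 7 5) 0 0 (step_sound _ 131 [rh53defbd6160b1c0a, (rha7bb430bc20854cc.shift 2 1), (rhd4b4beefcd67f51e.shift 3 0)] (by decide +kernel))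
noncomputable def rhe104c6c7a4780cb0 : CRef := CRef.mk (Pat.mk 0x200000003000000020000000200000000 0x10000000700000007000000060000000300000003000000060000000600000004 7 3) 0 0 (step_sound _ 34 [(rh55afc6a59410cf00.shift 1 0), (rh6c44bc3c6b2eecb4.shift 0 1)] (by decide +kernel))
noncomputable def rh417ff65e5c01b65e : CRef := CRef.mk (Pat.mk 0x80000000800000008000000100000000000000000 0x80000000800000008000000ff000000ff000001e400000004 7 9) 0 0 (step_sound _ 66 [(rh0e6924d680f6455d.shift 2 0), (rh2f6cd3183cec8379.shift 2 2), (rh851b7281012d70df.shift 0 1), (rh87479c6a08847ac3.shift 1 1)] (by decide +kernel))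
noncomputable def rh5eb00552fd8084f4 : CRef := CRef.mk (Pat.mk 0x800000008000000080000001000000000 0x800000008000000ff000000ff000001f4 7 9) 0 0 (step_sound _ 35 [(rh55afc6a59410cf00.shift 3 0), rh62ccd7692aaf66f8] (by decide +kernel))
noncomputable def rh8ea91830d7fce8b3 : CRef := CRef.mk (Pat.mk 0x1a0000001200000002000000060000000000000000 0x80000001a0000001a000000120000003f0000003300000021 7 6) 0 0 (step_sound _ 32 [(rh79877ebd3ef475dd.shift 0 1), rhbd6660570f76afb9] (by decide +kernel))
noncomputable def rha11a0ec3f1d21376 : CRef := CRef.mk (Pat.mk 0xe000000020000000200000000 0x50000000700000007000000030000001e000000030000000300000001 7 5) 0 0 (step_sound _ 129 [rh1726a00b0a8befd0, (rh2e8814637c3f6d46.shift 0 1), (rhd9106766b9ff53c0.shift 0 2)] (by decide +kernel))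
noncomputable def rh59223516e0964d48 : CRef := CRef.mk (Pat.mk 0x140000000700000004000000000000000000000000 0x1400000014000000370000003f0000003c0000000800000008 7 6) 0 0 (step_sound _ 99 [(rh70e33bfdf511e144.shift 2 0), (rh89ade209b3e28f13.shift 0 3), rhee142b17c847ec22] (by decide +kernel))
noncomputable def rh2cce3e8ee52545db : CRef := CRef.mk (Pat.mk 0x280000000800000008000000040000000000000000 0x28000000280000002e0000007f0000003e0000001000000010 7 7) 0 0 (step_sound _ 68 [(rh2977b00063528966.shift 3 0), (rh2f6cd3183cec8379.shift 2 2), (rh9fa262654c7916ea.shift 1 0), (rhe08572ddd8f22032.shift 0 1)] (by decide +kernel))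
noncomputable def rh82b6f0c8372b459c : CRef := CRef.mk (Pat.mk 0x800000008000000080000000800000000 0x800000008000000ff000000ff000001f4 7 9) 0 0 (step_sound _ 34 [(rh932754581e0f4330.shift 2 0), rhd9ca143a667b7e47] (by decide +kernel))
noncomputable def rh6c433507c0556889 : CRef := CRef.mk (Pat.mk 0x100000001c00000018000000100000000000000000 0x4000000140000001c0000007f0000007f0000000e00000006 7 7) 0 0 (step_sound _ 67 [rh0160761e78fbe9ad, (rh932754581e0f4330.shift 3 1)] (by decide +kernel))
noncomputable def rhd0970467b621188c : CRef := CRef.mk (Pat.mk 0x20000000300000002000000020000000000000000000000000000000000000000 0x20000000300000007000000060000000600000007000000070000000700000005 7 3) 0 0 (step_sound _ 129 [rh95881bb9f168eb43, (rhbba7d23481996066.shift 0 1), (rhd29a1fb688eae70f.shift 1 3)] (by decide +kernel))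
noncomputable def rh9165ff51158c88ee : CRef := CRef.mk (Pat.mk 0x20000001e00000022000000020000000000000000 0xe20000007e00000062000000070000000700000005 7 8) 0 0 (step_sound _ 133 [rh16a5368769e5b4f3, (rhe25b0a99195a5d59.shift 2 3)] (by decide +kernel))
noncomputable def rh30be45a8911afbb3 : CRef := CRef.mk (Pat.mk 0x100000001000000010000000020000000000000000 0x100000001000000010000001fc0000007f0000003800000008 7 9) 0 0 (step_sound _ 67 [(rh0e6924d680f6455d.shift 3 0), (rh244e0dd4a95113a6.shift 1 1), (rh459a434957a74ccf.shift 2 1), (rhf10cef1900426205.shift 0 2)] (by decide +kernel))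
noncomputable def rhbcae2e20c7a33054 : CRef := CRef.mk (Pat.mk 0x80000000b0000000800000004 0x800000008000000eb0000007e000000e6 7 8) 0 0 (step_sound _ 34 [(rh5c5e593799055d58.shift 2 0), rh7a8d1382e4876122] (by decide +kernel))
noncomputable def rhf051a7fda38e8a86 : CRef := CRef.mk (Pat.mk 0x1c0000000200000002000000000000000000000000 0x30000001f0000000300000002000000070000000700000005 7 5) 0 0 (step_sound _ 161 [rh6e864362596c2f88, (rheb0810cc63b001d8.shift 0 4)] (by decide +kernel))
noncomputable def rh060777bc14f4fb77 : CRef := CRef.mk (Pat.mk 0x100000001c000000120000001a00000000000000000000000000000000 0x130000001f000000120000003e00000027000000070000000700000005 7 6) 0 0 (step_sound _ 133 [(rh55afc6a59410cf00.shift 4 3), rha590c186556ff55a] (by decide +kernel))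
noncomputable def rh873cf878e6aa3ab6 : CRef := CRef.mk (Pat.mk 0x2000000060000000200000000000000000000000000000000 0x500000007000000070000000700000002000000060000000600000007000000070000000700000004 7 3) 0 0 (step_sound _ 225 [(rh1741680720c097b4.shift 0 4), rhd1a74c2407d980d4, (rhd4b4beefcd67f51e.shift 1 3), (rhfb9fb48a5e63ed80.shift 0 4)] (by decide +kernel))
noncomputable def rh8c827b952c0d4b0b : CRef := CRef.mk (Pat.mk 0x3000000038000000200000006000000000 0x30000000380000006f0000007e0000001f 7 7) 0 0 (step_sound _ 36 [(rh932754581e0f4330.shift 4 0), rhf8a32f9e146df5cf] (by decide +kernel))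
noncomputable def rhcdddbec707d104be : CRef := CRef.mk (Pat.mk 0xf8000000000000000000000000 0x5000000050000000f8000000fe000000370000002000000020 7 8) 0 0 (step_sound _ 134 [(rh33e738c4ed385b9f.shift 3 3), rhbe93ec0dadf13939] (by decide +kernel))
noncomputable def rh739dc326183f2661 : CRef := CRef.mk (Pat.mk 0xf0000000000000000000000000 0x2000000020000000f7000000fe0000001f0000001000000010 7 8) 0 0 (step_sound _ 99 [(rh15b856e33c69f807.shift 0 2), (rh7218c8f50321ad77.shift 2 0), (rheae1728ff4a56756.shift 2 2)] (by decide +kernel))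
noncomputable def rheb2d0db55d8f8fc4 : CRef := CRef.mk (Pat.mk 0x7800000000 0x770000007e000000ce 7 8) 0 0 (step_sound _ 7 [(rh96851dee118c1ba3.shift 3 0), rhaeac014a58998cf3] (by decide +kernel))
noncomputable def rh9dd23a404ecf9495 : CRef := CRef.mk (Pat.mk 0x4000000060000001c0000000800000000 0x200000032000000370000003e0000001e0000007c00000034 7 7) 0 0 (step_sound _ 129 [(rh3cb04db3dd2b6a55.shift 1 0), rh967b98d044de48aa, rhce66a81c27e954a9] (by decide +kernel))
noncomputable def rh96fd921285cd54f8 : CRef := CRef.mk (Pat.mk 0x30000000600000002000000000000000000000000 0x20000000200000002000000070000000700000007000000070000000700000001 7 3) 0 0 (step_sound _ 65 [rh1f3a6ba70a310ab1, rh33032410a9908d45, (rh98ec72a241770bef.shift 0 1), (rhc705a4e0321a1bff.shift 0 1)] (by decide +kernel))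
noncomputable def rhed2da9b5326d8f1a : CRef := CRef.mk (Pat.mk 0x200000000000000070000000c000000000 0x2000000028000001ff000000fe0000005f000000f0000000e0000000a0 7 9) 0 0 (step_sound _ 134 [(rha7e5b30d6e5612d1.shift 5 0), (rhc5351dabd90740aa.shift 5 0), (rhd3d935516b976095.shift 0 1)] (by decide +kernel))
noncomputable def rh93451e8fad1a0716 : CRef := CRef.mk (Pat.mk 0x40000000c00000008000000000000000000000000 0x3e0000003e0000000f0000000c0000000c000000060000000600000006 7 6) 0 0 (step_sound _ 194 [(rh2145e1d24b96a57e.shift 2 3), rh3a0237a657df5a9c] (by decide +kernel))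
noncomputable def rh763dd153d50a4976 : CRef := CRef.mk (Pat.mk 0x40000000c000000380000000800000000 0x380000007a0000006e000000fc0000003c0000006f00000004 7 8) 0 0 (step_sound _ 101 [(rh2aea9ca26de955f9.shift 1 1), rh34a0442d43c3a599, (rh553894f28df725f5.shift 1 0), (rh71f5c3fab6aa3c65.shift 1 2)] (by decide +kernel))
noncomputable def rh3244e7fa6c2a5de1 : CRef := CRef.mk (Pat.mk 0x2000000068000000c000000040000000000000000000000000 0x540000005c000000df0000007c000001ec000000ec0000007c0000003c0000003c00000034 7 9) 0 0 (step_sound _ 195 [(rh18ca9ecc6e7a7001.shift 2 0), (rh5d48a793f264ea95.shift 0 1), (rh6379916147f35ea5.shift 2 2), (rh9ebd639649ea671c.shift 2 5)] (by decide +kernel))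
noncomputable def rh42c1ac5f89ec27da : CRef := CRef.mk (Pat.mk 0x60000001e000000000000000000000000 0x30000000300000003e0000001e0000003b0000000a00000002 7 6) 0 0 (step_sound _ 132 [(rh33e738c4ed385b9f.shift 1 3), rh59c29a5c93d57c3c] (by decide +kernel))
noncomputable def rh3a7d23a53e703c3c : CRef := CRef.mk (Pat.mk 0x800000008000000180000000800000000 0x100000001c0000001c00000008000000180000001c0000000f00000004 7 5) 0 0 (step_sound _ 34 [(rh083db68936a35312.shift 0 1), (rh932754581e0f4330.shift 2 0)] (by decide +kernel))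
noncomputable def rh7a1170c34084fea8 : CRef := CRef.mk (Pat.mk 0x30000000600000002000000000000000000000000 0x20000000200000002000000070000000700000007000000070000000700000005 7 3) 0 0 (step_sound _ 65 [rh33032410a9908d45, (rh98ec72a241770bef.shift 0 1), rha613ffd40b6c9d24, (rhc705a4e0321a1bff.shift 0 1)] (by decide +kernel))
noncomputable def rh4514ebab456fffce : CRef := CRef.mk (Pat.mk 0x40000000c000000080000000c00000000 0x800000008000000080000000c0000001f000000780000001f00000004 7 7) 0 0 (step_sound _ 131 [(rh4eb52e6b9e624d2e.shift 0 1), (rh932754581e0f4330.shift 2 0)] (by decide +kernel))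
noncomputable def rh53705506d1c69545 : CRef := CRef.mk (Pat.mk 0x80000001800000010000000080000000000000000 0x40000000f0000007c000000180000000c0000000c0000000c 7 7) 0 0 (step_sound _ 99 [(rh215fef6ef21eb5a3.shift 0 2), rh792f5b2740d9bfbb, (rhbb83b53687587fb2.shift 2 0)] (by decide +kernel))
noncomputable def rh20bf9ef469797a9d : CRef := CRef.mk (Pat.mk 0x80000000e000000180000001000000000 0x30000000300000007f0000001e0000001f0000003000000020 7 7) 0 0 (step_sound _ 132 [rh3e01e2f63d9ceb4a, (rh572132728df34c43.shift 1 3), (rh80f90a60d87caa0d.shift 1 3), (rhafdf94f2acdc0ed4.shift 1 3)] (by decide +kernel))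
noncomputable def rhdcced80d1988b36a : CRef := CRef.mk (Pat.mk 0x200000002800000028000000000000000000000000 0x540000005c000000de0000007c0000006f0000002c0000000c0000000c00000004 7 8) 0 0 (step_sound _ 163 [(rh13fbc5d765bfc508.shift 0 2), (rh143b575cfced9d30.shift 1 0), (rh1865c6c485183d9f.shift 0 2), (rh60ffb2ff05a8304c.shift 2 1), (rh88715f7c0a8cc4e1.shift 2 1), (rhb53c6ff22c69bac6.shift 1 2), (rhc2bb4d99ebde3783.shift 2 1), (rhfd64cf4435e64bd8.shift 2 1)] (by decide +kernel))
noncomputable def rh74520cff175ed72a : CRef := CRef.mk (Pat.mk 0xe00000018000000100000001000000000 0x10000000370000001e0000001f0000003b0000003a00000022 7 6) 0 0 (step_sound _ 132 [(rh4b961a3659b5c1c1.shift 0 1), rh52379022a7e3bd4a, (rh98297410a639a85a.shift 1 0)] (by decide +kernel))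
noncomputable def rha06a3846533dc4f8 : CRef := CRef.mk (Pat.mk 0x60000002c0000000800000008000000000000000000000000 0x2000000020000004a0000006e0000006e0000007c0000007f000000720000007000000050 7 7) 0 0 (step_sound _ 130 [(rh2350ec004460e424.shift 0 2), (rhc1aec41596b93fe8.shift 1 0), (rhf9a6286f1d5377a2.shift 1 3)] (by decide +kernel))
noncomputable def rh325060d05f480fa5 : CRef := CRef.mk (Pat.mk 0xe00000018000000100000001000000000 0x27000000fe0000001c000000780000003e0000002c 7 8) 0 0 (step_sound _ 132 [rh50237f0e64e8fd67, (rh91169c5576c1acce.shift 2 0), rh9b350a28e0deb100] (by decide +kernel))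
noncomputable def rhd58afbb436cf5940 : CRef := CRef.mk (Pat.mk 0x8000000000000001c000000300000002000000000 0x4000000760000007e0000001f0000003c000000380000003000000010 7 7) 0 0 (step_sound _ 131 [(rh79ad7b82ec8c35e2.shift 3 0), (rhca76e6923a45bb3d.shift 3 1), (rhfcc21a956c166a46.shift 0 1)] (by decide +kernel))
noncomputable def rh1308d29eac87f828 : CRef := CRef.mk (Pat.mk 0x200000000000000070000000c000000080 0x28000001ff000000fe0000005f000000f0000000e000000080 7 9) 0 0 (step_sound _ 134 [(rh6f1cbe15c631ee70.shift 6 0), (rhde29b794376dcfdd.shift 0 1)] (by decide +kernel))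
noncomputable def rh11796b378758f5d7 : CRef := CRef.mk (Pat.mk 0x40000000c000000080000000800000000 0x1800000018000000180000000c0000000c0000007c0000001f00000017 7 7) 0 0 (step_sound _ 131 [(rh2a23c1960317e938.shift 2 0), (rh330f820e7f44bd5b.shift 2 0), (rhac13d16ea91712e4.shift 1 0), rhb1111a1bcb4ac16d, rhcfbea19f509e11c8] (by decide +kernel))
noncomputable def rh9597856cca30cf59 : CRef := CRef.mk (Pat.mk 0x3000000030000000200000003000000000 0xa0000003e000000fe000000370000007e0000004f 7 8) 0 0 (step_sound _ 35 [(rh45e8d9ac0d96ed18.shift 2 0), (rh60175c36124b0cbc.shift 2 0), rh7fdfac9250f4097d, rhd03f1277312a637c, (rhde73d0b91a24a8a5.shift 2 0)] (by decide +kernel))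
noncomputable def rh0b9093df7348f17b : CRef := CRef.mk (Pat.mk 0x140000001400000004000000000000000000000000 0x200000003000000034000000f60000003e000000fb0000003a0000002a 7 8) 0 0 (step_sound _ 100 [(rh0cf2629d00dddf18.shift 1 0), (rh365a40a773726980.shift 1 0), (rh7b622f62eb9f1d4c.shift 1 0), (rh83b1f1fb07c9caeb.shift 3 0), rhb985e586dff09016, rhc635eda008c53391, (rhd5da863c3fe28857.shift 1 0), (rhecd3198da6cddc4b.shift 1 0)] (by decide +kernel))
noncomputable def rh135e2a3f8931a7f7 : CRef := CRef.mk (Pat.mk 0x40000000c000000080000000000000000 0x8000000080000000a0000000f0000003c0000007c0000001f0000001f 7 7) 0 0 (step_sound _ 35 [(rh7b1f1fb55310c477.shift 2 0), rhed52354c4fabe473] (by decide +kernel))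
noncomputable def rh8fa4e731ebb109bd : CRef := CRef.mk (Pat.mk 0x3000000020000000200000000000000000000000000000000 0x100000007000000060000000600000006000000070000000700000001 7 3) 0 0 (step_sound _ 97 [(rh50fbb5868c909700.shift 0 3), rh90a315350f5b6a97] (by decide +kernel))
noncomputable def rh1e7fc01b11fa115a : CRef := CRef.mk (Pat.mk 0xc0000003800000018000000000000000000000000 0x200000002f00000038000000fe000000fe0000001400000004 7 8) 0 0 (step_sound _ 68 [rh1b595908d650a9b1, (rh7b1f1fb55310c477.shift 3 1)] (by decide +kernel))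
noncomputable def rh3c6e90bb6f1a7825 : CRef := CRef.mk (Pat.mk 0x40000001c0000000c000000000000000000000000 0xc0000001c0000000f0000003e0000003e00000006 7 6) 0 0 (step_sound _ 67 [(rh7b1f1fb55310c477.shift 2 1), rhb22a0cdf4cd61531] (by decide +kernel))
noncomputable def rh192cb76a9f559e0b : CRef := CRef.mk (Pat.mk 0xc0000001800000008000000000000000000000000 0x80000001f000000180000007c0000001f0000001c00000008 7 7) 0 0 (step_sound _ 100 [(rh55a1f6c57a317ce6.shift 3 1), rh84709dac4612e631] (by decide +kernel))
noncomputable def rhf348d9a330f112cf : CRef := CRef.mk (Pat.mk 0xc0000000c000000080000001800000000 0x2e0000007f000000780000007e000000e4 7 8) 0 0 (step_sound _ 34 [(rh932754581e0f4330.shift 2 0), rha4634abc8788ebdc] (by decide +kernel))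
noncomputable def rh81546691ea859c0f : CRef := CRef.mk (Pat.mk 0x200000003000000020000000200000000 0x10000000700000007000000070000000300000003000000020000000300000001 7 3) 0 0 (step_sound _ 32 [rh932754581e0f4330, (rhdd68238b49f9ba9b.shift 0 1)] (by decide +kernel))
noncomputable def rh0ea2b65b1d7da726 : CRef := CRef.mk (Pat.mk 0x80000000c0000001800000008 0x40000001c0000001c0000001c0000000c0000000f0000007800000008 7 7) 0 0 (step_sound _ 38 [(rh2fe78cc5ca4405d8.shift 2 1), rhd59e0592d6b13f4e] (by decide +kernel))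
noncomputable def rh4818521e929a9173 : CRef := CRef.mk (Pat.mk 0x80000000c000000180000000c 0x100000001c0000001c0000000c0000001c000000780000000f 7 7) 0 0 (step_sound _ 37 [rh60b796f9139c96a9, (rhf48373e13d2bc128.shift 2 1)] (by decide +kernel))
noncomputable def rhb8aff8d33d5ccefc : CRef := CRef.mk (Pat.mk 0x80000000c000000180000000c 0x100000001c0000001c0000000c0000001f000000180000000f 7 5) 0 0 (step_sound _ 64 [rh60b796f9139c96a9, (rhab22b5b56e7b3243.shift 0 1)] (by decide +kernel))
noncomputable def rhac5bd8b763a3a135 : CRef := CRef.mk (Pat.mk 0x20000000200000006000000000000000000000000 0x400000006000000060000003e0000003f0000003f00000005 7 6) 0 0 (step_sound _ 65 [(rh0672b2ed8847b031.shift 0 1), rh8cdd36b03d57a2f6, (rhc9de03f9731897d4.shift 1 0), rhcab3157f7bdcba3e] (by decide +kernel))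
noncomputable def rh2086b99d00e62215 : CRef := CRef.mk (Pat.mk 0x2000000060000000000000006000000000 0x7800000078000000fc000001ff000001fe0000001e000000f800000028 7 9) 0 0 (step_sound _ 100 [(rh163c9d803bc08f96.shift 1 2), (rh2298e1b7a5f44cd8.shift 2 0), (rh2c37f795544cbe22.shift 2 1), (rh64429ab48b14c66e.shift 1 0), (rhb0f639fe0dc3f598.shift 0 2), (rhcde247914f03620b.shift 1 0), (rhcfef8bcf84b0a3e6.shift 1 2)] (by decide +kernel))
noncomputable def rhf461725c674f8df1 : CRef := CRef.mk (Pat.mk 0x2000000020000001600000014000000000000000000000000 0x28000000380000007c0000003e0000007700000036000000360000003b0000003b0000002b 7 7) 0 0 (step_sound _ 194 [rh3814189e232a984a, rh3f851ad5532bc034, rha45f50e2d37cac99, rhff4dcf287d14427f] (by decide +kernel))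
noncomputable def rh7dc17494367bcccd : CRef := CRef.mk (Pat.mk 0x300000001000000030000000a0000000000000000000000000 0x140000007ef000003fe00000797000001f0000001b0000001c0000001c000000140 7 11) 0 0 (step_sound _ 135 [(rh0dbf19d853ac0d88.shift 4 0), (rh923457e6b86b77f8.shift 0 2), (rha886fad008740c7a.shift 4 0), (rhf538941493d4c078.shift 1 0), (rhf905e5ee4f25adfe.shift 4 3)] (by decide +kernel))
noncomputable def rhbdf20a751dc6bc98 : CRef := CRef.mk (Pat.mk 0xc000000040000000c00000028000000000000000000000000 0x50000000f30000007e000000ec0000007c0000006c000000600000006000000040 7 8) 0 0 (step_sound _ 133 [(rh0a5e3e09988dc601.shift 2 3), (rh596e13df6f19c0b4.shift 0 2), (rh90e128c5ca313d56.shift 0 1), (rha2103fe4697cf528.shift 2 3), (rha886fad008740c7a.shift 2 0), (rhd826f32a5e8aa6ae.shift 0 2)] (by decide +kernel))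
noncomputable def rh7cbb60db1dba1b99 : CRef := CRef.mk (Pat.mk 0x18000000080000001800000050000000000000000000000000 0x10000000b0000001f7000000fe000001d8000000f8000000d0000000c00000008000000080 7 9) 0 0 (step_sound _ 134 [(rh0b89d63b7d891eb6.shift 0 2), (rh23a1f3d2c7ef61d2.shift 1 0), (rha2103fe4697cf528.shift 3 3), (rha886fad008740c7a.shift 3 0), (rhb66b308e5511ca66.shift 3 3), (rhc2faff15b2c8f4ca.shift 0 2)] (by decide +kernel))
noncomputable def rh62bca00a9c13377a : CRef := CRef.mk (Pat.mk 0x800000018000000000000000000000040 0x800000008000001ff000000ff000001c70000004400000040 7 9) 0 0 (step_sound _ 101 [(rh0531b49c6246b1a6.shift 2 0), (rh12eb151930dae4e8.shift 2 0), (rh477c225b4e2496fc.shift 0 1), (rh757650899816e33a.shift 2 0)] (by decide +kernel))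
noncomputable def rh7cda4d730b2aedbc : CRef := CRef.mk (Pat.mk 0x1000000030000000000000001000000000 0x10000003ff000001fe0000038e0000001800000010 7 10) 0 0 (step_sound _ 102 [(rh27949b60582588da.shift 0 2), (rh38791ac5737ed75e.shift 3 3), (rhae8d21abc86b555a.shift 3 2), (rhe678c14109b7186f.shift 3 2), (rhe72f9a44d52f5daf.shift 1 0)] (by decide +kernel))
noncomputable def rh6da67fcc3650f6df : CRef := CRef.mk (Pat.mk 0x1000000018000000300000000000000000 0x40000000c0000002e0000007f0000001f000000380000001000000010 7 7) 0 0 (step_sound _ 131 [(rh0a444d2316a5537b.shift 1 0), (rh3cb04db3dd2b6a55.shift 3 0), (rhf12fbc327738d833.shift 0 2)] (by decide +kernel))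
noncomputable def rhd9d4bae2cea7496a : CRef := CRef.mk (Pat.mk 0x2000000030000000600000010000000000000000000000000 0x28000000380000003d0000003f000000330000003e000000320000003a0000003800000028 7 6) 0 0 (step_sound _ 132 [rh2608f536176b43b8, (rh2fe78cc5ca4405d8.shift 0 4)] (by decide +kernel))
noncomputable def rh97c2eabad57496f7 : CRef := CRef.mk (Pat.mk 0x2000000028000000600000000000000000 0x140000001c0000001c0000003c0000007f0000007c0000002c00000004 7 7) 0 0 (step_sound _ 98 [rh1d8e610009a0f6af, (rhc10214bf3fe8094a.shift 2 2)] (by decide +kernel))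
noncomputable def rh01bc679fa2875dd7 : CRef := CRef.mk (Pat.mk 0x100000001400000030000000a0000000000000000000000000 0xa0000000e0000000e0000000f0000001e000003b7000001fe000001b70000000e0000000e0000000a 7 10) 0 0 (step_sound _ 130 [(rh16ebd50ba9fde5d0.shift 0 2), (rh41b4ffe1b33a1fe8.shift 1 3), (rh5dba999209ef8457.shift 0 1), (rh79d7e33fed86d355.shift 0 3), (rhf74b344771f8e49b.shift 1 0)] (by decide +kernel))
noncomputable def rhcfb9bb7178138e98 : CRef := CRef.mk (Pat.mk 0x1c000000000000000c0000002000000000 0xf70000007e000000600000003c0000006000000040 7 8) 0 0 (step_sound _ 133 [(rh4c622fddc53a5f99.shift 0 4), rh5dad2d55d4d37e93, (rhb53751346030a0ae.shift 2 1)] (by decide +kernel))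
noncomputable def rh87578392b3239c55 : CRef := CRef.mk (Pat.mk 0x3000000000000000b0000000a00000000 0x140000001e0000001f0000001a0000000f0000001b00000011 7 5) 0 0 (step_sound _ 97 [rh03dfdf12d5937476, rh147011ca325547fc, (rhd124c17d5d129fb8.shift 0 1)] (by decide +kernel))
noncomputable def rhef51bb93845d62d7 : CRef := CRef.mk (Pat.mk 0x18000000000000005800000050 0x1f0000000fe000001d7000000f8000000d0 7 9) 0 0 (step_sound _ 37 [rh59ca405c66d53c2a, (rhe25b0a99195a5d59.shift 3 0)] (by decide +kernel))
noncomputable def rh337f26368a575fbf : CRef := CRef.mk (Pat.mk 0x18000000000000005800000050000000000000000000000000 0x20000001f7000000fe000001d7000000f800000058000000680000006000000020 7 9) 0 0 (step_sound _ 167 [(rh2bfc00d87917166e.shift 0 1), (rh428443bb905d7668.shift 2 3), (rh965958c82cd65fd8.shift 3 3), (rhe97faf9e7e5fd2f1.shift 3 0)] (by decide +kernel))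
noncomputable def rhd662b4025f428a16 : CRef := CRef.mk (Pat.mk 0x3000000000000000b0000000a000000000000000000000000 0x140000001c0000003e0000001f0000003a0000001b0000001b0000001d0000001c00000014 7 6) 0 0 (step_sound _ 161 [(rh03dfdf12d5937476.shift 0 2), rh1e29e7354db019bf, rh66e01d5bbbb1738b] (by decide +kernel))
noncomputable def rh385587533e47e383 : CRef := CRef.mk (Pat.mk 0x3000000000000000b0000000a000000000 0x7ff000003fe0000008e000001f8000001b000000100 7 11) 0 0 (step_sound _ 134 [(rh239f058da8e19de0.shift 1 1), rh2c84c45cf35776b6, (rh3601267114d5af42.shift 3 0), (rh500ae79a7909ca53.shift 2 0), (rha49250267fada47c.shift 2 1), (rhb6bbca39c6eb1615.shift 2 1)] (by decide +kernel))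
noncomputable def rh640098c55d19f993 : CRef := CRef.mk (Pat.mk 0x18000000000000005800000040 0xa0000003ff000001fe000003c700000078000000c0 7 10) 0 0 (step_sound _ 37 [rh2d753d447453525f, (rhe25b0a99195a5d59.shift 3 0)] (by decide +kernel))
noncomputable def rhde37d3546031229c : CRef := CRef.mk (Pat.mk 0x3000000000000000b0000000a0 0x10000003ff000001fe0000030e000001f8000001b0 7 10) 0 0 (step_sound _ 102 [(rh239f058da8e19de0.shift 1 0), rh3a6c4820902e0c77, (rh4f159d07c9d57024.shift 1 0), (rh88c372f95f4542a5.shift 4 0), rhb52b712f16b74846, (rheb423504aa478f2c.shift 1 0)] (by decide +kernel))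
noncomputable def rh537cdac43b7dc8de : CRef := CRef.mk (Pat.mk 0x18000000000000005800000040000000000000000000000000 0xa0000000e0000001fe000000fe000001c7000000f800000040000000600000006000000020 7 9) 0 0 (step_sound _ 198 [(rh1385035758ee3eaa.shift 3 2), (rh38ee96a1e414470c.shift 2 2), (rh589ec97c5fbff79e.shift 3 3), (rh8dc83603f24af7bf.shift 1 3), (rha21168a51c186baf.shift 3 0), (rhbc17a6b284bf4ec0.shift 0 3), (rhee651fbb9df0641b.shift 0 3)] (by decide +kernel))
noncomputable def rh6595a3fc95015b7d : CRef := CRef.mk (Pat.mk 0x18000000000000004000000040000000000000000000000000 0xa0000001fe000000fe000001c7000000c0000000c0000000e0000000e000000020 7 9) 0 0 (step_sound _ 198 [(rh4fe26c1ce75b0122.shift 2 1), (rh5e09ed9521fb41dc.shift 3 0), (rh608c3e63e173c57e.shift 3 0), (rh8dc83603f24af7bf.shift 1 3), (rhdbb4195926374320.shift 1 2), (rhe67d8798a0c7d570.shift 3 0), (rhee651fbb9df0641b.shift 0 3)] (by decide +kernel))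
noncomputable def rhb2d63d515dd91514 : CRef := CRef.mk (Pat.mk 0x1000000000000000f00000002000000000 0x200000007c0000003f000001f80000003000000010 7 9) 0 0 (step_sound _ 99 [(rh3f8766e6ecb455ce.shift 3 2), rh6fc6454a4bb28e78] (by decide +kernel))
noncomputable def rhf809239f81c16171 : CRef := CRef.mk (Pat.mk 0x20000001000000012000000100000000000000000 0x4000000240000003c0000003e0000003700000012000000320000003000000020 7 6) 0 0 (step_sound _ 164 [(rh04196cfdd563d938.shift 0 2), (rh56415f180723e904.shift 1 0), (rh6c59ce14113da07f.shift 4 0), (rhcecd8b0bd66efb3a.shift 1 0)] (by decide +kernel))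
noncomputable def rhd0f2821057736077 : CRef := CRef.mk (Pat.mk 0x1000000010000000b0000000a0000000000000000000000000 0x100000003ef000001fe000003b7000001f0000000b0000000980000009800000018 7 10) 0 0 (step_sound _ 197 [(rh90e128c5ca313d56.shift 2 1), (rh923457e6b86b77f8.shift 0 2), (rha45f50e2d37cac99.shift 3 0), (rhc2faff15b2c8f4ca.shift 1 2)] (by decide +kernel))
noncomputable def rhfb2a06b2622bed32 : CRef := CRef.mk (Pat.mk 0x4000000040000000c00000008000000000000000000000000 0x3a0000003e0000000f0000000c0000000c000000060000000600000006 7 6) 0 0 (step_sound _ 98 [(rh373b7625e672cfd8.shift 1 2), (rh544fd3f279a4d968.shift 1 0), (rh946fbe1ddfc14810.shift 1 0), (rhd49a209860dedbee.shift 0 3), (rheb8a4b2cbe7a67ef.shift 1 0)] (by decide +kernel))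
noncomputable def rhe8e1144c0cbecd55 : CRef := CRef.mk (Pat.mk 0x6000000000000000600000004000000000000000000000000 0x500000007000000070000000700000006000000030000000300000003 7 3) 0 0 (step_sound _ 97 [rh08a89f672c172fbf, (rh7d7eaefe27cdd7b0.shift 1 3), (rhb8fddd58ad9026ec.shift 1 2), rhc8d0ecd5210e71c6] (by decide +kernel))
noncomputable def rh8502a78eb5f829b0 : CRef := CRef.mk (Pat.mk 0x3000000000000000b0000000a000000000 0x3cf000001fe000003be000001b0000001b000000110 7 10) 0 0 (step_sound _ 134 [(rh5e7d6c14b08608b3.shift 3 1), (rh79515fe05f82c66c.shift 3 0), (rh7c813fcdcfe43884.shift 1 1), (rhb1c2d1887e3fce06.shift 3 1), rhcd5d2819b29879e8] (by decide +kernel))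
noncomputable def rh2698f3180eef283f : CRef := CRef.mk (Pat.mk 0x18000000000000005800000050000000000000000000000000 0xa0000000e0000003f7000001fe000003cc000000d8000000d8000000ec000000ec000000ac 7 10) 0 0 (step_sound _ 163 [(rh3f851ad5532bc034.shift 2 0), (rh6b4df1d196e30d4e.shift 2 0), (rh8e146f2717be634e.shift 2 0), (rh9b31510a4fa3a7a9.shift 2 0), rha8e7b774f0113357] (by decide +kernel))
noncomputable def rhd136a7f15c50c570 : CRef := CRef.mk (Pat.mk 0x1800000000000000500000005000000000 0x3f0000001fe000003df000000d0000000d000000080 7 10) 0 0 (step_sound _ 133 [(rh160da74d6316e854.shift 4 1), (rh5e7d6c14b08608b3.shift 2 1), (rh79515fe05f82c66c.shift 2 0), (rhac5e96a17a0827f5.shift 0 1)] (by decide +kernel))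
noncomputable def rh2909ffd16df58760 : CRef := CRef.mk (Pat.mk 0xc000000000000002c00000028000000000000000000000000 0x7b0000007e0000006f0000006e0000006c000000460000000600000006 7 7) 0 0 (step_sound _ 98 [(rh08a89f672c172fbf.shift 1 0), (rh3f33ee087145489e.shift 0 2), (rh7d7eaefe27cdd7b0.shift 2 3), (rhb8fddd58ad9026ec.shift 2 2)] (by decide +kernel))
noncomputable def rh3ba4367a1ff62da8 : CRef := CRef.mk (Pat.mk 0x800000008000000000000001800000050 0x8000001ff000000ff000001d70000005c00000058 7 9) 0 0 (step_sound _ 100 [(rh2613c889e411427e.shift 3 0), rhea696dd740fdbecc] (by decide +kernel))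
noncomputable def rh2b33beb169794f37 : CRef := CRef.mk (Pat.mk 0xa00000018000000100000001800000000 0x4000000070000001e0000003f000000130000001b00000008 7 6) 0 0 (step_sound _ 132 [(rh6d4e60afcd903d8e.shift 0 1), (rh932754581e0f4330.shift 3 0)] (by decide +kernel))
noncomputable def rha312b6b3bbf5f927 : CRef := CRef.mk (Pat.mk 0x280000006000000040000000600000000000000000 0x140000001c0000001c0000006c0000007c0000074f000003fe000007bf00000014 7 11) 0 0 (step_sound _ 131 [(rh2cf98f2b83f1ee6f.shift 2 1), rh5301f19a52a4c514, (rh997545463474f81b.shift 2 0), (rhc83f30a76d992b6c.shift 2 0), (rhe59d097906a6d473.shift 2 1), (rhfed1d0c9478a4b62.shift 2 0)] (by decide +kernel))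
noncomputable def rh6b22c4376e88d7de : CRef := CRef.mk (Pat.mk 0x800000018000000100000001c00000000 0x140000001e00000078000000180000003f00000024 7 7) 0 0 (step_sound _ 67 [(rh932754581e0f4330.shift 2 0), rhdb957f604ab17ea6] (by decide +kernel))
noncomputable def rh92bb9f99ea7795ba : CRef := CRef.mk (Pat.mk 0x1000000030000000200000003800000000 0xa0000003e0000003e000000370000003e00000007 7 6) 0 0 (step_sound _ 34 [rh21d582c147e7e118, (rh28a1b1cf5ac531c2.shift 1 0), rh775ca1963e850b80, (rh7fb660bc21ce4329.shift 0 1)] (by decide +kernel))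
noncomputable def rh33b5c332b15d1e6a : CRef := CRef.mk (Pat.mk 0x1000000030000000200000003800000000 0xa0000003e000000fc000000270000007e000000cf 7 8) 0 0 (step_sound _ 38 [rh492cc0768b86b07a, rha02d486abca2241f, (rhba04d77b039f69d9.shift 3 0)] (by decide +kernel))
noncomputable def rh0a889718367622c9 : CRef := CRef.mk (Pat.mk 0xb0000000a00000000000000010000000000000000 0x80000000a0000001f0000003a0000001f0000003f0000001500000001 7 6) 0 0 (step_sound _ 132 [rh2ebf6cd377310f05, (rhc10214bf3fe8094a.shift 0 4)] (by decide +kernel))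
noncomputable def rhb102d9ad1fa3fbf6 : CRef := CRef.mk (Pat.mk 0x580000005000000000000000080000000000000000 0x4000000050000000f8000003d8000000f7000000fe000001ff000000a0 7 10) 0 0 (step_sound _ 69 [(rh5cf8d1ce957ff8f7.shift 0 1), (rh5fa529afd5fe9a7d.shift 3 0), (rh67fe4f99a90bcb1b.shift 3 1), (rh9fa58b4360de64eb.shift 0 1), (rhb7afa85cebbcc996.shift 3 0), (rhe0fb8d90012b75f2.shift 2 1)] (by decide +kernel))
noncomputable def rhb1ea9a0a61d79395 : CRef := CRef.mk (Pat.mk 0x10000000170000001400000000000000000000000000000000 0x2a0000003e0000003e0000003500000017000000360000003e0000003e0000000e00000002 7 6) 0 0 (step_sound _ 228 [(rh6c59ce14113da07f.shift 4 2), rh6f48b1b6a3a26e2b, (rhe1d7b89b539c0d0e.shift 3 4)] (by decide +kernel))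
noncomputable def rh07bd6a4972b1367f : CRef := CRef.mk (Pat.mk 0x2e0000002c000000000000000000000000 0xa0000000a0000004b0000007e0000002c0000007c0000007e0000001c 7 7) 0 0 (step_sound _ 67 [rh101d57b5ed7efff0, (rh17a346ece17b3628.shift 1 0), (rh267543c1c418c231.shift 2 0), (rh646f40a5eaa2d8a9.shift 1 0)] (by decide +kernel))
noncomputable def rh470b45ac8513584f : CRef := CRef.mk (Pat.mk 0xe0000002c000000000000000000000000 0x8000000080000000a0000000e0000006c0000007f0000003e0000001c 7 7) 0 0 (step_sound _ 67 [(rh267543c1c418c231.shift 2 0), (rh359b9af2de33ffb2.shift 1 0), (rh646f40a5eaa2d8a9.shift 1 0), rh71004bc8709e16d3, (rha210c422688bf4e3.shift 1 0), (rhdf3811e0ed24323b.shift 1 0)] (by decide +kernel))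
noncomputable def rh6cf77c06bb162cf0 : CRef := CRef.mk (Pat.mk 0xa0000001a0000000000000000000000000000000000000000 0x8000000180000003a000000fa000000fa000000ff000000ff0000003c0000003c00000020 7 8) 0 0 (step_sound _ 131 [(rh357961d6db9e2750.shift 0 1), (rh43a63da19bcb0aac.shift 1 1), (rh4cf92bdb25fa5c08.shift 0 1), (rh4f9c4682bc03af0b.shift 0 2), (rh502de1890a032282.shift 0 2), (rh5179fe14f8e67687.shift 2 1), (rh5e9703106e3a464e.shift 0 1), (rh628056c437bc63e1.shift 2 1), (rh717301b165cecbbb.shift 1 0)] (by decide +kernel))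
noncomputable def rh389f35cf78a3d807 : CRef := CRef.mk (Pat.mk 0x16000000140000001000000000 0x20000000340000001e000000160000003e0000002f 7 6) 0 0 (step_sound _ 132 [(rhddcd04bb31546311.shift 1 1), rhf92c094e260f0cb7] (by decide +kernel))
noncomputable def rh73ebbd170551285c : CRef := CRef.mk (Pat.mk 0x170000001400000010000000000000000000000000 0x4000000650000003f000000160000003e0000003f0000003e00000028 7 7) 0 0 (step_sound _ 165 [(rh1b9022be4f7af407.shift 3 0), (rh8b9389e5ff9b19a7.shift 0 1), (rha4265559c606ade5.shift 1 2)] (by decide +kernel))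
noncomputable def rh8a5f8e7474164336 : CRef := CRef.mk (Pat.mk 0xa0000000a0000000800000000000000000000000000000000 0x80000000a0000001a0000001a0000001f0000007c0000001c0000001c00000014 7 7) 0 0 (step_sound _ 99 [(rh5b5aa842f172f4bc.shift 0 2), (rh6eff4158bb400f47.shift 2 1), (rhb4d78cd0e58cc17c.shift 2 0), (rhd69acf141a2253ca.shift 2 0), (rhff6b27c9612d7353.shift 2 1)] (by decide +kernel))
noncomputable def rh7b39850374f0305a : CRef := CRef.mk (Pat.mk 0xa0000000a00000008000000000000000000000000 0x1a0000001a0000001a0000000f0000001c0000001c00000014 7 5) 0 0 (step_sound _ 67 [(rh0ef27450615dd351.shift 0 1), (rh6c59ce14113da07f.shift 3 0), (rh6eff4158bb400f47.shift 2 0), (rhcab3157f7bdcba3e.shift 2 0)] (by decide +kernel))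
noncomputable def rh7fab9090a56eef9b : CRef := CRef.mk (Pat.mk 0x170000001400000010000000000000000000000000 0x3500000037000000760000003f0000001e0000003f0000002a 7 7) 0 0 (step_sound _ 67 [rh2b71142e308c1241, (rh3a5ac4cef59e7e30.shift 1 2), (rhb01ac4982a11ea27.shift 3 0)] (by decide +kernel))
noncomputable def rh7ce6d128c316f73c : CRef := CRef.mk (Pat.mk 0x2000000020000000200000000000000000000000000000000 0x4000000060000000600000006000000060000000600000006000000070000000700000007 7 3) 0 0 (step_sound _ 97 [(rh006e276e36d5cbd3.shift 1 2), rh5c63d134ac67e358, (rh6c59ce14113da07f.shift 1 1), rh95311890f436bcdc, (rha4ec09d1468d5b40.shift 1 1)] (by decide +kernel))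
noncomputable def rh68d7af301b5c420f : CRef := CRef.mk (Pat.mk 0xa0000000a00000008000000000000000000000000 0x120000001a0000001a0000003f0000003f0000001c00000014 7 6) 0 0 (step_sound _ 67 [(rh23d817e1e044d042.shift 0 1), (rh6c59ce14113da07f.shift 3 0), (rh6eff4158bb400f47.shift 2 0), (rhcab3157f7bdcba3e.shift 2 0)] (by decide +kernel))
noncomputable def rh16798c471e3f26bd : CRef := CRef.mk (Pat.mk 0x14000000140000001000000000 0x200000003800000038000000380000003400000034000000f60000003e0000002f 7 8) 0 0 (step_sound _ 132 [(rh308a4564924fb9bb.shift 3 0), (rh5ef66011045fb859.shift 4 0), (rh7133a7a78d762f91.shift 2 0), (rha4d9cd354e65ab53.shift 1 0), (rhec853e36d8b7f76b.shift 1 0), rhf92c094e260f0cb7] (by decide +kernel))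
noncomputable def rhda7c03f01b48cdd5 : CRef := CRef.mk (Pat.mk 0x40000000c000000080000000000000000 0x8000000080000000a0000000f0000003f0000007c0000001f0000001f 7 7) 0 0 (step_sound _ 35 [rh499098ae782a34af, (rh7b1f1fb55310c477.shift 2 0)] (by decide +kernel))
noncomputable def rhdcce240040caa289 : CRef := CRef.mk (Pat.mk 0x1e00000018000000000000000000000000 0x500000007000000070000000f0000001e0000001f0000000c0000000c0000000c 7 5) 0 0 (step_sound _ 97 [rh75d89f84b49cb469, (rheb0810cc63b001d8.shift 0 3)] (by decide +kernel))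
noncomputable def rh1f509d65428cffbe : CRef := CRef.mk (Pat.mk 0x18000000300000001000000000 0x380000003e0000003f00000038000000380000001800000008 7 6) 0 0 (step_sound _ 132 [rh5cbd556ed22bbe15, (rh762a1aeaf83c662a.shift 3 0), (rhbe5addaf45b06322.shift 3 1), (rhf8f2dd1658083a86.shift 3 1)] (by decide +kernel))
noncomputable def rha835aaec302ef97a : CRef := CRef.mk (Pat.mk 0x800000038000000000000000000000000 0x40000001d8000000ff000000e70000002000000020 7 9) 0 0 (step_sound _ 102 [(rh074fd259b7a6fbaa.shift 2 2), (rh08f83030b4a27136.shift 0 2), (rh790acd67f4fffd04.shift 3 3), (rhf459621b93742302.shift 2 0)] (by decide +kernel))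
noncomputable def rh0e0d2d0fb2e385c3 : CRef := CRef.mk (Pat.mk 0x10000000780000000800000000 0x1c0000001f0000003c00000078000000d800000010 7 8) 0 0 (step_sound _ 38 [rh3064144071775e5f, (rhe25b0a99195a5d59.shift 3 1)] (by decide +kernel))
noncomputable def rh7d9f3ee17a1f3b26 : CRef := CRef.mk (Pat.mk 0x20000000f000000000 0x77000000fe0000019c 7 9) 0 0 (step_sound _ 3 [(rh80fcd6d0a18cb2dd.shift 3 0), rha8183040765128c5] (by decide +kernel))
noncomputable def rhaeb28723409c7442 : CRef := CRef.mk (Pat.mk 0x20000000e0000000000000000000000000 0x20000000200000007e000000fe000001bf0000001000000010 7 9) 0 0 (step_sound _ 100 [(rh276f6ac79b43ae42.shift 0 2), (rh3423e5ac208fb65b.shift 3 0), (rha5dd842502aeeece.shift 1 2)] (by decide +kernel))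
noncomputable def rhf62b97b75c6ccd33 : CRef := CRef.mk (Pat.mk 0x28000000e800000000000000000000000000000000 0x4000000054000000fc0000007c0000006f000000f8000000ac0000001c0000001c00000014 7 8) 0 0 (step_sound _ 230 [(rh3290dfcc58639ec3.shift 2 0), (rh5d0ef493af3851d2.shift 5 3), rh94624df380700775, (rhaa0a47f2114a3307.shift 2 0), (rheac81b5cea2f7557.shift 2 0)] (by decide +kernel))
noncomputable def rhc4fa60c278940026 : CRef := CRef.mk (Pat.mk 0x20000001a00000000000000000000000000000000 0x100000003000000030000001f00000003000000070000000700000005 7 5) 0 0 (step_sound _ 97 [(rh01e48cd9f335aa73.shift 0 3), rh712b6e7d90bff97a, rhca4d5fc3d95c8c8e, rhfd0e11092a1ca0cb] (by decide +kernel))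
noncomputable def rh3e52c7b52af04de3 : CRef := CRef.mk (Pat.mk 0x28000000e800000000000000000000000000000000 0x5000000070000000fc000000fc0000006f000000fc000001a0000000700000007000000050 7 9) 0 0 (step_sound _ 197 [(rh4dde61c170ba2fd4.shift 2 3), (rh8983eb0cd8f1eae1.shift 2 1), (rh941c586a5a5992f7.shift 2 0), (rha5a6c0d7b1981909.shift 2 3), (rhc0693d904f57aa17.shift 0 3), (rhfd2a9c016b356395.shift 4 1)] (by decide +kernel))
noncomputable def rha453f3680a6be675 : CRef := CRef.mk (Pat.mk 0x28000000e8000000000000000000000000 0x50000000740000007c000000ff000000ff00000068000000fc000000ae0000002400000024 7 8) 0 0 (step_sound _ 163 [(rh5e0e764f65ab663c.shift 2 1), rh7c659a90af31c167, (rh9c989e17b35cbab0.shift 0 2), (rhd7316d8fd5392b81.shift 1 0), (rhdcdb545b206ad837.shift 1 0)] (by decide +kernel))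
noncomputable def rh66b867e396e4d12d : CRef := CRef.mk (Pat.mk 0x28000000e80000000000000000000000000000000000000000 0x1c0000005c000000fc0000007f000000fc0000006f000000ec000000ac0000001c0000001c0000001c00000004 7 8) 0 0 (step_sound _ 227 [(rh247b58b6c14225e7.shift 2 3), (rh275a17fdb82ca284.shift 0 3), (rh3441054ef6cfe4ad.shift 2 4), (rh5e0e764f65ab663c.shift 2 3), rh74b617e113480fdb, (rh8aff3d111536753d.shift 2 2), (rh9c741c2d544128aa.shift 0 2), (rhc088718095fa90c5.shift 1 4), (rhc326f8aade59fb53.shift 0 4)] (by decide +kernel))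
noncomputable def rh738f0f09007cd444 : CRef := CRef.mk (Pat.mk 0x1c00000038000000000000000000000000 0xc0000001c0000007c0000001c0000003c0000000f0000000c00000008 7 7) 0 0 (step_sound _ 67 [(rh40241bd608e5be1a.shift 2 0), (rh7cbe830e25f634b7.shift 0 1), (rhea7a1800d6f053bd.shift 3 0)] (by decide +kernel))
noncomputable def rh217faa9334d0b6b0 : CRef := CRef.mk (Pat.mk 0x1c00000018000000000000000000000000 0x180000003c0000007f0000001c00000018000000180000001800000008 7 7) 0 0 (step_sound _ 67 [(rh40241bd608e5be1a.shift 2 0), (rh87b7c233cc465cba.shift 0 1), (rhea7a1800d6f053bd.shift 3 0)] (by decide +kernel))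
noncomputable def rhc7338ec8cb852052 : CRef := CRef.mk (Pat.mk 0x2c000000300000000000000000000000000000000000000000 0x5000000070000000700000007c0000002f000000300000003000000070000000700000007000000010 7 7) 0 0 (step_sound _ 229 [(rh281c6819542c66e6.shift 4 2), (rh32431e66bbf434a4.shift 4 4), (rh90759a9a80e5ab81.shift 0 4), (rhb11f2babe3d1c3b7.shift 2 0)] (by decide +kernel))
noncomputable def rh1b9419ebff49e90d : CRef := CRef.mk (Pat.mk 0x1c00000038000000000000000000000000 0xc0000000c0000000c0000001c0000003f0000001f0000001c00000008 7 6) 0 0 (step_sound _ 163 [rh2241294f2a6b20e7, (rh55a1f6c57a317ce6.shift 3 1), (rh96b47f6d67469b86.shift 0 2)] (by decide +kernel))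
noncomputable def rh8469753b77f9ff0e : CRef := CRef.mk (Pat.mk 0x60000001e000000000000000000000000 0x30000000300000003000000060000001e000000070000000600000006 7 5) 0 0 (step_sound _ 65 [rh3518bf28ba9a33fa, (rheb0810cc63b001d8.shift 0 2)] (by decide +kernel))
noncomputable def rhfa334c3d60019a81 : CRef := CRef.mk (Pat.mk 0x700000006000000000000000000000000 0x30000000f0000001f0000000700000006000000070000000700000002 7 5) 0 0 (step_sound _ 65 [rh40241bd608e5be1a, (rhea7a1800d6f053bd.shift 1 0), (rhf696566d48d155fb.shift 0 1)] (by decide +kernel))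
noncomputable def rh091013147247ffce : CRef := CRef.mk (Pat.mk 0x1a0000003800000000000000000000000000000000 0x100000003000000130000001b0000003f0000001f0000000f0000000f00000005 7 6) 0 0 (step_sound _ 129 [(rh32fdcf43850040ab.shift 0 3), rh36c9aefcd295bc1c, (rh6e1685e3533aff0e.shift 0 4), (rhab087011127a035a.shift 0 3)] (by decide +kernel))
noncomputable def rhe31492546784cea2 : CRef := CRef.mk (Pat.mk 0x380000007000000000 0xff0000007e000001ff000000380000007e0000002e 7 9) 0 0 (step_sound _ 132 [(rh0bf7d72b3d86472f.shift 1 0), rh194202f6e24d1612, (rhda6cc5da102e1723.shift 4 0), (rhe6e071162f93476e.shift 1 0)] (by decide +kernel))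
noncomputable def rh1210d6649476ffbb : CRef := CRef.mk (Pat.mk 0x18000000380000000800000000 0x180000001c0000001f000000180000003c0000001f00000014 7 6) 0 0 (step_sound _ 131 [rh29598f382625b6b7, (rh55a1f6c57a317ce6.shift 3 0), rhb6d09d6fd3de86f4] (by decide +kernel))
noncomputable def rh3c7bfe65ecbe61e0 : CRef := CRef.mk (Pat.mk 0x1800000038000000000000000000000000 0xc0000000c0000001c0000001e0000003c0000001f0000001c00000008 7 6) 0 0 (step_sound _ 130 [rh0aa410136e98c71b, (rhb739f4f82bb681b4.shift 1 3)] (by decide +kernel))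
noncomputable def rhb398d4a9db51d7fd : CRef := CRef.mk (Pat.mk 0x280000007800000000 0x4000001ff000000fe000001ff00000038000000f800000028 7 9) 0 0 (step_sound _ 132 [rh17b1d6597dfc46af, (rh5a67469a8128c177.shift 3 0), rh7401b338127a24a2, (rh83a9a404c2797c44.shift 3 0)] (by decide +kernel))
noncomputable def rh89f6399705fdcd55 : CRef := CRef.mk (Pat.mk 0x40000001e000000020000000000000000 0x30000000300000003000000070000001e000000360000000600000006 7 6) 0 0 (step_sound _ 33 [(rh71222050f2c63a3a.shift 1 0), rh8e5bb0db12b6ee06] (by decide +kernel))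
noncomputable def rh3460ad882dfe5ae9 : CRef := CRef.mk (Pat.mk 0x800000018000000080000000c00000000 0x10000000180000007c0000006f0000007c00000070 7 7) 0 0 (step_sound _ 36 [(rh55afc6a59410cf00.shift 3 0), rh6ea5ed81821ca661] (by decide +kernel))
noncomputable def rh2712df89b3af5d75 : CRef := CRef.mk (Pat.mk 0x20000000600000002000000000000000000000000 0x500000007000000070000000600000002000000070000000700000005 7 3) 0 0 (step_sound _ 65 [rh8cdd36b03d57a2f6, (rh91429c40af715d36.shift 0 1), (rha707fb719e87fe6e.shift 1 1)] (by decide +kernel))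
noncomputable def rhf36a49477bee7531 : CRef := CRef.mk (Pat.mk 0x20000001e00000002000000000000000000000000 0x4000000070000000700000007000000360000001e00000032000000070000000700000005 7 6) 0 0 (step_sound _ 164 [(rh33e738c4ed385b9f.shift 1 4), rhbdbea8f446c84026] (by decide +kernel))
noncomputable def rha9dfc0f112635ff1 : CRef := CRef.mk (Pat.mk 0x20000000300000006000000000000000000000000 0x1000000030000000700000006000000070000000700000006000000030000000300000003 7 3) 0 0 (step_sound _ 65 [rh24b4f41f846cb1d8, (rh538d8e5279d78b44.shift 0 2), rheacedd262407fad2] (by decide +kernel))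
noncomputable def rh3e42c0d76d2847dd : CRef := CRef.mk (Pat.mk 0x800000008000000180000000800000000 0x140000001c0000001c0000000c0000000c0000001c000000180000000f00000004 7 5) 0 0 (step_sound _ 34 [(rh932754581e0f4330.shift 2 0), (rheefbdbd84605bd78.shift 0 1)] (by decide +kernel))
noncomputable def rhb864791e17c8ea44 : CRef := CRef.mk (Pat.mk 0x200000002000000020000000600000000000000000000000000000000 0x10000000300000003000000060000000600000003000000070000000700000004 7 3) 0 0 (step_sound _ 224 [(rh50fbb5868c909700.shift 0 4), rh784b5632e0de6fc9] (by decide +kernel))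
noncomputable def rh8c4308143bcb94d4 : CRef := CRef.mk (Pat.mk 0x800000010000000100000001000000000 0x2000000020000001ff000000ff0000001f0000001000000010 7 9) 0 0 (step_sound _ 99 [(rh7b1f1fb55310c477.shift 3 0), (rh8c9f3e15fd6a4a73.shift 0 1)] (by decide +kernel))
noncomputable def rh68f996007113ceac : CRef := CRef.mk (Pat.mk 0x1000000010000000700000001000000000 0x2f0000007e0000003f000000700000001800000008 7 7) 0 0 (step_sound _ 35 [(rh932754581e0f4330.shift 3 0), (rh9984772271e6e217.shift 0 1)] (by decide +kernel))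
noncomputable def rhebe14b0174d4ddf0 : CRef := CRef.mk (Pat.mk 0x400000004000000040000001c00000000 0x1a0000003f0000003f0000000c0000001c00000010 7 6) 0 0 (step_sound _ 131 [(rh2f68792b6b779e96.shift 2 1), rh32f4cdeea6decf6c] (by decide +kernel))
noncomputable def rhba26a68c722b0f39 : CRef := CRef.mk (Pat.mk 0x1800000078000000000000000000000000 0x7c0000007e0000007f0000003800000078000000c80000000800000008 7 8) 0 0 (step_sound _ 163 [(rh0287824d01839ded.shift 0 1), (rh28152048bc8b598f.shift 0 2), (rh495a39b8a06d7922.shift 1 3), (rh5d8bbbc1818cc981.shift 1 2), (rh90c1a9571c8e6ce9.shift 2 0), (rhafcf2efb892dfab7.shift 1 2)] (by decide +kernel))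
noncomputable def rh41a0c052181679c6 : CRef := CRef.mk (Pat.mk 0x800000018000000080000000800000000 0xe0000000f0000001e0000000f0000000c00000004 7 5) 0 0 (step_sound _ 34 [(rh3acff599f75099c8.shift 0 1), (rh932754581e0f4330.shift 2 0)] (by decide +kernel))
noncomputable def rh5b7ec1137f8de122 : CRef := CRef.mk (Pat.mk 0x800000018000000080000000c 0x170000001f0000001f0000000e0000000c 7 5) 0 0 (step_sound _ 98 [rh44079c1f972b2cc2, (rh50fbb5868c909700.shift 2 0)] (by decide +kernel))
noncomputable def rh585ee8640da8a579 : CRef := CRef.mk (Pat.mk 0x3000000010000000300000001000000000 0xc0000007f0000003e000000380000001e0000000c 7 7) 0 0 (step_sound _ 131 [(rh50fbb5868c909700.shift 3 1), rhf5b8456dd78f875c] (by decide +kernel))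
noncomputable def rhe0b7690de373d22b : CRef := CRef.mk (Pat.mk 0x2000000020000000600000002 0x100000003000000070000000600000007000000070000000700000002 7 3) 0 0 (step_sound _ 130 [(rhbaefcd01e0a8bca3.shift 1 0), (rhc3b60c5689ac86db.shift 0 1)] (by decide +kernel))
noncomputable def rh887cd1e5fc343463 : CRef := CRef.mk (Pat.mk 0x800000008000000180000000c 0x40000000c0000000c0000000c0000000c0000001c0000001c0000000f 7 5) 0 0 (step_sound _ 0 [rh24ae073cf30720c4, (rhbdb3cfcb62f98f9c.shift 2 0)] (by decide +kernel))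
noncomputable def rh76952bcc3f842842 : CRef := CRef.mk (Pat.mk 0x80000000800000018000000080000000000000000 0x10000000180000001c0000001c000000180000001c0000000f0000000800000008 7 5) 0 0 (step_sound _ 162 [(rh50fbb5868c909700.shift 2 2), rhdbe02fb78ba08b3b] (by decide +kernel))
noncomputable def rh4950366003520932 : CRef := CRef.mk (Pat.mk 0x8000000080000001800000000000000000000000000000000 0xc0000001c0000001c000000180000007c0000000f0000001c0000001c00000014 7 7) 0 0 (step_sound _ 99 [(rh49759b6975f15643.shift 2 0), (rha6f6ba4f13e6e353.shift 2 2), (rhb0de455c382c5b1c.shift 0 2)] (by decide +kernel))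
noncomputable def rh9096905d4c6c471a : CRef := CRef.mk (Pat.mk 0x800000008000000080000001800000008 0x140000001c0000001c0000000800000008000000180000007c0000000f 7 7) 0 0 (step_sound _ 2 [(rh79877ebd3ef475dd.shift 2 0), rhe8ff1bfcea4e0ea9] (by decide +kernel))
noncomputable def rhecd27622967ccfbe : CRef := CRef.mk (Pat.mk 0x400000004000000040000000c00000000 0x1c0000003c0000000f0000000c0000001c00000014 7 6) 0 0 (step_sound _ 67 [(rh2145e1d24b96a57e.shift 2 1), rh9751adbdb2b69c10] (by decide +kernel))
noncomputable def rh23ad2b01aa9d0b39 : CRef := CRef.mk (Pat.mk 0x8000000080000000800000018000000000000000000000000 0x80000000800000018000000180000007c0000000f0000000c00000008 7 7) 0 0 (step_sound _ 66 [(rh79877ebd3ef475dd.shift 2 2), rhae2f874988d453d7] (by decide +kernel))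
noncomputable def rh32e597806b190493 : CRef := CRef.mk (Pat.mk 0x2000000020000000200000006 0x100000007000000070000000700000003000000030000000600000006 7 3) 0 0 (step_sound _ 96 [rh50fbb5868c909700, rha8487562e36f04b3] (by decide +kernel))
noncomputable def rhcf16fe84abe1081a : CRef := CRef.mk (Pat.mk 0xc00000004000000040000000c00000000 0x320000003f0000003f0000000c0000000e00000002 7 6) 0 0 (step_sound _ 129 [rh18311c85b0ea4226, (rh50fbb5868c909700.shift 1 1)] (by decide +kernel))
noncomputable def rh9bf8acd8345925cc : CRef := CRef.mk (Pat.mk 0x1c0000001000000030000000000000000000000000 0x2000000022000000660000003c000003b6000001fe000001df0000000a00000008 7 10) 0 0 (step_sound _ 130 [(rh5bc090164f229948.shift 1 2), rh7e05ae7cb26f2158, rhae7bef45101a7957, (rhf60b8c53225e9a63.shift 1 3)] (by decide +kernel))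
noncomputable def rh3493567f5791e2c3 : CRef := CRef.mk (Pat.mk 0x7000000040 0x3f000000ff000000c7 7 8) 0 0 (step_sound _ 35 [rh2d8db8ae5a897a2b, (rhe25b0a99195a5d59.shift 3 0)] (by decide +kernel))
noncomputable def rh491a292f73e47063 : CRef := CRef.mk (Pat.mk 0x7000000000000000c00000000000000000 0x80000003f000000ff0000001f000000f00000001000000010 7 8) 0 0 (step_sound _ 131 [(rh218640b9e590a0a6.shift 2 0), (rh2d8db8ae5a897a2b.shift 0 3), (rh775ca1963e850b80.shift 1 3), (rhdfff46210fb02dc6.shift 2 1)] (by decide +kernel))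
noncomputable def rhc570480bd0c7e235 : CRef := CRef.mk (Pat.mk 0x3000000020000000200000000000000000000000000000000 0x500000007000000060000000200000002000000070000000700000005 7 3) 0 0 (step_sound _ 97 [rh49759b6975f15643, (rh50fbb5868c909700.shift 0 3)] (by decide +kernel))
noncomputable def rhfb99a00619f23209 : CRef := CRef.mk (Pat.mk 0x20000000200000006000000000000000000000000 0x50000000700000007000000070000000600000007000000030000000300000002 7 3) 0 0 (step_sound _ 193 [(rh6aa5625770489e83.shift 0 1), (rh8eb288e2ea66037a.shift 0 1), (rhb78fb23ed87922d5.shift 0 1), (rhd0d01d2b9e5cc624.shift 0 2), (rhd530ff4f3feedadc.shift 0 1), rhdfd10cc9da38ede8] (by decide +kernel))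
noncomputable def rh42a831760ec2a04b : CRef := CRef.mk (Pat.mk 0xc000000180000000000000000 0x14000000370000001f0000001f0000000b0000000b 7 6) 0 0 (step_sound _ 97 [rh03d01ee7432bb9c9, (rhb739f4f82bb681b4.shift 0 2)] (by decide +kernel))
noncomputable def rhf65f8c52c829ee80 : CRef := CRef.mk (Pat.mk 0xc0000001800000000000000000000000000000000 0x1c0000001c0000001c0000001c0000007c0000000f0000001c0000001c00000014 7 7) 0 0 (step_sound _ 133 [rh5acd0845f3e2c1fa, (rhf48373e13d2bc128.shift 2 4)] (by decide +kernel))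
noncomputable def rh8a8bf2ba970c1fed : CRef := CRef.mk (Pat.mk 0xf00000001 0x700000007f000000ff 7 8) 0 0 (step_sound _ 3 [rh9c9216bb04ce9000, rhe25b0a99195a5d59] (by decide +kernel))
noncomputable def rhece4971220ff1aca : CRef := CRef.mk (Pat.mk 0xf00000000 0x700000007f000000fe 7 8) 0 0 (step_sound _ 36 [(rh3fc3a7fb6866dcd4.shift 1 0), rh4ad5fc38f1b69f65, rh884c7369ace5e57b, (rh909b6f2d4da422ad.shift 1 0)] (by decide +kernel))
noncomputable def rh9690390cc9dde43d : CRef := CRef.mk (Pat.mk 0x1800000018000000000000000000000000 0x10000000180000001800000018000000380000003f0000003c00000038 7 6) 0 0 (step_sound _ 68 [(rh3cb04db3dd2b6a55.shift 3 0), (rh70bed6b77265562d.shift 3 0), (rha11839e2b4e5df62.shift 0 1)] (by decide +kernel))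
noncomputable def rh41b5776f656e3ef1 : CRef := CRef.mk (Pat.mk 0x7800000000 0x7000000ff0000003f 7 8) 0 0 (step_sound _ 34 [rh775ca1963e850b80, rh94c710ab1ea57720, rhd668db985c61700f, (rheae1728ff4a56756.shift 1 0)] (by decide +kernel))
noncomputable def rh919be857e17398ca : CRef := CRef.mk (Pat.mk 0x30000000f000000000000000000000000 0x60000001f0000001f0000000b0000000f000000060000000600000006 7 5) 0 0 (step_sound _ 65 [rh3cb04db3dd2b6a55, rh4ee84d7f73540b6b, (rhe67ce4c07ecbcc07.shift 0 1)] (by decide +kernel))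
noncomputable def rhff15ab1844045a1d : CRef := CRef.mk (Pat.mk 0xe0000000c000000000000000000000000 0x8000000080000000a0000000e0000000e0000007e0000007f0000001c 7 7) 0 0 (step_sound _ 67 [(rh267543c1c418c231.shift 2 0), rh36a6df2b3dd177a0, (rh70bed6b77265562d.shift 2 0), (rh7c4e28a233c466a7.shift 1 0), (rhb17e54761414237f.shift 1 0), (rheb12f0a97986646a.shift 1 0)] (by decide +kernel))
noncomputable def rh43df32c464360783 : CRef := CRef.mk (Pat.mk 0x3c000000020000000000000000 0x80000000c000000ff0000003b0000001000000010 7 8) 0 0 (step_sound _ 97 [rh67287d7c94dbc218, (rheb0810cc63b001d8.shift 0 2)] (by decide +kernel))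
noncomputable def rh717026690ba099b0 : CRef := CRef.mk (Pat.mk 0x20000001e00000002000000000000000000000000 0x400000006000000060000001e00000036000000070000000700000005 7 6) 0 0 (step_sound _ 100 [rh4d6a2612ebfeb13d, (rhe25b0a99195a5d59.shift 1 3)] (by decide +kernel))
noncomputable def rha98a1c6eae998531 : CRef := CRef.mk (Pat.mk 0x1e0000000200000002000000000000000000000000 0x8000000080000000b0000001e0000003a0000001e0000003f0000003f00000029 7 6) 0 0 (step_sound _ 132 [rh7035fe91715b7ad8, (rhe25b0a99195a5d59.shift 1 4)] (by decide +kernel))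
noncomputable def rh32dabee32b1022d2 : CRef := CRef.mk (Pat.mk 0x1e0000000200000002000000000000000000000000 0xb0000001e0000003a0000001f0000003d0000003800000008 7 6) 0 0 (step_sound _ 193 [(rh3244c3cc8379b070.shift 0 5), rh78dd502b71a1252a] (by decide +kernel))
noncomputable def rhade786bd48ae4abd : CRef := CRef.mk (Pat.mk 0x3000000018000000100000000000000000000000000000000000000000 0x300000001e000000ff0000007e0000003f000000380000003800000028 7 8) 0 0 (step_sound _ 132 [(rh0a0d4cca8a8ea44e.shift 1 0), (rh89cf5152879421f3.shift 3 1), (rh8cdd36b03d57a2f6.shift 3 2), (rhaced9bf34d7f5960.shift 0 3), (rhd3a9d74f60fe6043.shift 1 0)] (by decide +kernel))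
noncomputable def rha9f65f8f4892c95e : CRef := CRef.mk (Pat.mk 0x30000000100000001000000010000000000000000000000000 0x10000000300000001f0000003f0000007f0000000e0000000400000004 7 7) 0 0 (step_sound _ 99 [(rh932754581e0f4330.shift 3 2), rhf421c9b7b24987a7] (by decide +kernel))
noncomputable def rhc438206587fda57f : CRef := CRef.mk (Pat.mk 0x200000002000000020000000200000000000000000000000000000000 0x200000003000000030000000300000007000000070000000700000001 7 3) 0 0 (step_sound _ 97 [(rh047f549357eb18af.shift 0 1), (rh7928877f9bf74a91.shift 0 2), (rh8cdd36b03d57a2f6.shift 0 1), rh8e3b1d976c2c4cbf] (by decide +kernel))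
noncomputable def rh6a3816f31e4e3cd6 : CRef := CRef.mk (Pat.mk 0x2800000008000000080000000800000000 0x28000000280000006c000000ff000000f800000010 7 8) 0 0 (step_sound _ 36 [(rh55afc6a59410cf00.shift 3 0), (rhf2b2feb3e20d661a.shift 0 1)] (by decide +kernel))
noncomputable def rh8757b10afe22e324 : CRef := CRef.mk (Pat.mk 0x180000000c00000008000000000000000000000000 0x800000008000000180000000f0000003f0000003f0000001e0000000e 7 6) 0 0 (step_sound _ 129 [(rh53b3c253cb0c65f4.shift 0 4), rhe6b6e61fb7471146] (by decide +kernel))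
noncomputable def rhf2d708309995f488 : CRef := CRef.mk (Pat.mk 0x380000001800000008000000000000000000000000 0x2000000038000000ff000000ff000000f00000003000000020 7 8) 0 0 (step_sound _ 100 [rh5960c2588c6316ce, (rhb0c1e7919d9be92d.shift 3 1)] (by decide +kernel))
noncomputable def rhe3c7663fb5fefb9c : CRef := CRef.mk (Pat.mk 0x1c0000000c000000040000000000000000 0x1c0000007f0000007f0000003400000034 7 7) 0 0 (step_sound _ 97 [(rh53b3c253cb0c65f4.shift 0 3), rha182b2a9d5b5c517] (by decide +kernel))
noncomputable def rhbdce2919d7940adf : CRef := CRef.mk (Pat.mk 0x1c0000000c000000040000000000000000 0x1c0000007f000000770000003c0000001c 7 7) 0 0 (step_sound _ 97 [(rh53b3c253cb0c65f4.shift 0 3), rha5693a0a40b34f34] (by decide +kernel))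
noncomputable def rh3a323a81caf0c0e3 : CRef := CRef.mk (Pat.mk 0xe00000002000000020000000200000000 0xa0000000e0000000f0000003e0000000700000005 7 6) 0 0 (step_sound _ 0 [rh1f61c4e29d00315c, rh79877ebd3ef475dd] (by decide +kernel))
noncomputable def rh5a3ad407acfedeb8 : CRef := CRef.mk (Pat.mk 0x800000018000000080000000800000000000000000000000000000000 0x40000000f000000180000001c0000000c0000000c0000001c0000001c00000014 7 5) 0 0 (step_sound _ 226 [(rh50fbb5868c909700.shift 2 4), rhc78d1d6c2bd511f4] (by decide +kernel))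
noncomputable def rh1fc2295accd611f4 : CRef := CRef.mk (Pat.mk 0x1000000070000000100000001000000000 0x1000000070000000fe000000ff0000002f 7 8) 0 0 (step_sound _ 37 [(rh55afc6a59410cf00.shift 4 0), rh9d7f218ede536e28] (by decide +kernel))
noncomputable def rh53b00e6a187e926e : CRef := CRef.mk (Pat.mk 0x200000006000000020000000200000000 0x400000007000000070000000300000006000000060000000700000005 7 3) 0 0 (step_sound _ 0 [rh79877ebd3ef475dd, rhe913eab949cfc300] (by decide +kernel))
noncomputable def rhe5f1c3f8482b70c7 : CRef := CRef.mk (Pat.mk 0x3800000008000000080000000800000000 0x2000000038000000180000003c000000ff00000034 7 8) 0 0 (step_sound _ 36 [rh24fcaa301367f85e, (rh55afc6a59410cf00.shift 3 0)] (by decide +kernel))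
noncomputable def rh5afb804be63b2814 : CRef := CRef.mk (Pat.mk 0xe00000006000000020000000000000000 0x80000000e00000006000000070000003f0000000f 7 6) 0 0 (step_sound _ 33 [rh6504c6602808b6ac, (rh71222050f2c63a3a.shift 1 0)] (by decide +kernel))
noncomputable def rh1ba9fa1321cd0c19 : CRef := CRef.mk (Pat.mk 0x3800000018000000080000000000000000 0x8000000380000003e0000000f0000001c0000001c 7 6) 0 0 (step_sound _ 35 [rh1b847e5fab292a20, (rh71222050f2c63a3a.shift 3 0)] (by decide +kernel))
noncomputable def rhd05a19ff40a682cb : CRef := CRef.mk (Pat.mk 0x3800000000 0xf000001fe000000ff 7 9) 0 0 (step_sound _ 34 [rh008b05f4778dc30d, rh775ca1963e850b80, rh7c60ab58224c2c5a, (rhc6ebdb02f2c2b584.shift 1 0), (rhd80db28116844ab1.shift 1 0)] (by decide +kernel))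
noncomputable def rh5a8ea9fab3add735 : CRef := CRef.mk (Pat.mk 0x700000000000000000000000000000000000000000 0x10000000180000007f000001fe0000007f0000001c0000001c0000001c00000014 7 9) 0 0 (step_sound _ 163 [(rh138c3774b73e0afc.shift 0 4), (rh2cc7d62e70c02209.shift 1 4), (rh83bccaa24c38d905.shift 1 4), (rhc771cebdf788c766.shift 2 0), (rhd690071d9e563773.shift 0 4), (rhe55b0dbbf3210617.shift 1 4)] (by decide +kernel))
noncomputable def rh7f0f14c54a159f24 : CRef := CRef.mk (Pat.mk 0x7000000000 0x77000000fe000001ff 7 9) 0 0 (step_sound _ 35 [rh138c3774b73e0afc, rh2fa4d48c9e158234, (rh8195a2d7794c7cd2.shift 1 0), (rh8db7f7558b75b2b1.shift 2 0), rhbb13f9e1d387f64a] (by decide +kernel))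
noncomputable def rh43e71b662c4d279d : CRef := CRef.mk (Pat.mk 0x7000000000 0x7f000000fe000001e7 7 9) 0 0 (step_sound _ 35 [(rh2ba551de881ca4cd.shift 1 0), (rh3947d1dfff0afc6c.shift 2 0), rhbb13f9e1d387f64a, rhd690071d9e563773, rhefd12c9646cafdd8] (by decide +kernel))
noncomputable def rh6417ac93089124b5 : CRef := CRef.mk (Pat.mk 0x1800000008000000000000000000000000 0x100000001c0000001f000000ff0000007f000000f80000003800000038 7 8) 0 0 (step_sound _ 100 [(rh12301fadfa4405fc.shift 1 0), (rh39d65f0716e3ed40.shift 1 1), (rh6649f052fd741959.shift 1 1), (rh7b4129e1045fa224.shift 2 0), (rha534c1ebad88f2a8.shift 0 1), rhace262ca2c884335, (rhdd82885d94eab366.shift 2 0)] (by decide +kernel))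
noncomputable def rhafeb99370194db6d : CRef := CRef.mk (Pat.mk 0x3000000010000000000000000000000000 0x140000003f000000ff000000fe0000001f0000001c0000001c 7 8) 0 0 (step_sound _ 99 [(rh557b120f072744ca.shift 1 3), (rh69012675dfdb1a5b.shift 1 3), rhd09fde320f441b80, (rhd69c262cd33b94b3.shift 1 3), rhf3635170b4c4c6fd] (by decide +kernel))
noncomputable def rh31bb456d98a5caa6 : CRef := CRef.mk (Pat.mk 0x1800000008000000000000000000000000 0x10000000180000007f0000007f0000007f0000003c0000003c 7 7) 0 0 (step_sound _ 98 [(rh160c9106de089417.shift 1 0), (rh557b120f072744ca.shift 0 3), (rh69012675dfdb1a5b.shift 0 3), rh92e867c79cf87864, (rhd69c262cd33b94b3.shift 0 3)] (by decide +kernel))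
noncomputable def rh50333a6fca407cc8 : CRef := CRef.mk (Pat.mk 0x180000000800000000000000000000000000000000 0x40000001c0000001c000000180000003c000000ff0000003c0000001c00000014 7 8) 0 0 (step_sound _ 99 [(rh15590a39afd9a120.shift 2 0), (rh815da42dccf39976.shift 0 2), (rhb44fbf6bd2c6418e.shift 2 0), (rhe1a3e820b9828b5e.shift 2 1), (rhe3458ab40071103b.shift 3 2)] (by decide +kernel))
noncomputable def rh4e5bd462d37ecb12 : CRef := CRef.mk (Pat.mk 0x180000000800000000000000000000000000000000 0x40000001c0000001f000000780000001c0000001c0000001c0000001c00000014 7 7) 0 0 (step_sound _ 99 [(rh15590a39afd9a120.shift 2 0), (rh3faf0f13bd4d302b.shift 0 2), (rhb44fbf6bd2c6418e.shift 2 0), (rhe1a3e820b9828b5e.shift 2 1), (rhe3458ab40071103b.shift 3 2)] (by decide +kernel))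
noncomputable def rha9756bafc7fa4c54 : CRef := CRef.mk (Pat.mk 0x3000000010000000000000000000000000 0x80000001e000000ff000000fe000000fe0000003800000028 7 8) 0 0 (step_sound _ 99 [(rh557b120f072744ca.shift 1 3), (rh69012675dfdb1a5b.shift 1 3), (rh92e867c79cf87864.shift 1 0), rhd21475bdb953f023, (rhd69c262cd33b94b3.shift 1 3)] (by decide +kernel))
noncomputable def rhf3bf0cf5a2c88f83 : CRef := CRef.mk (Pat.mk 0x3000000010000000000000000000000000 0xc0000000c0000002f000000ff000000fe0000007e0000003c0000003c 7 8) 0 0 (step_sound _ 99 [(rh557b120f072744ca.shift 1 3), (rh69012675dfdb1a5b.shift 1 3), (rhd69c262cd33b94b3.shift 1 3), rhf8740dd334c5daeb, rhfe666ac509ec667d] (by decide +kernel))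
noncomputable def rh873fdb609183b0fa : CRef := CRef.mk (Pat.mk 0x1800000008000000000000000000000000 0x140000001c0000001c0000001f0000007c0000000f0000003c0000001c0000001c 7 7) 0 0 (step_sound _ 98 [rh1735746f83c6e7fe, rh4b3eb4ea56e8de4f, rh4dcd9c86b31d78a0, (rhd69c262cd33b94b3.shift 0 3)] (by decide +kernel))
noncomputable def rhae3f37afa25cea48 : CRef := CRef.mk (Pat.mk 0x3000000010000000000000000000000000 0x100000003e000000ff000000fe000000ee0000002c00000028 7 8) 0 0 (step_sound _ 99 [(rh557b120f072744ca.shift 1 3), (rh69012675dfdb1a5b.shift 1 3), (rh92e867c79cf87864.shift 1 0), (rhd69c262cd33b94b3.shift 1 3), rhf3635170b4c4c6fd] (by decide +kernel))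
noncomputable def rh24874b1001b91cf3 : CRef := CRef.mk (Pat.mk 0x7000000000 0x3c000000ff000001ee 7 9) 0 0 (step_sound _ 35 [(rh3947d1dfff0afc6c.shift 2 0), rh3c02945b33bec3cf, (rh8195a2d7794c7cd2.shift 1 0)] (by decide +kernel))
noncomputable def rh5fe18085b2704d60 : CRef := CRef.mk (Pat.mk 0x380000000000000000000000000000000000000000 0x80000000c0000000f0000007e000000fe0000000e0000000e0000000e0000000a 7 8) 0 0 (step_sound _ 162 [(rh0edd3afef6b5d7e0.shift 1 4), (rh2ba551de881ca4cd.shift 0 4), (rhc771cebdf788c766.shift 1 0)] (by decide +kernel))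
noncomputable def rh0974907e15f07bb7 : CRef := CRef.mk (Pat.mk 0xe0000000000000000000000000 0x60000000e7000001fe000003ff0000003000000030 7 10) 0 0 (step_sound _ 100 [(rh0edd3afef6b5d7e0.shift 3 2), (rh2c633b08ccf79ba3.shift 0 2), (rh43ca83d56c1af818.shift 2 0), (rh7685057ac2f3bf7a.shift 1 2), (rh8195a2d7794c7cd2.shift 2 2)] (by decide +kernel))
noncomputable def rh356329b431825628 : CRef := CRef.mk (Pat.mk 0xe0000000000000000000000000 0x1000000010000000ff000001fe000001f70000002000000020 7 9) 0 0 (step_sound _ 100 [(rh15d23b4855e4bd1c.shift 3 0), (rh2ba551de881ca4cd.shift 2 2), (rh2c633b08ccf79ba3.shift 0 2), (rhd6fea92fa3a0ecdb.shift 1 2)] (by decide +kernel))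
noncomputable def rhe943068a6159d7e7 : CRef := CRef.mk (Pat.mk 0x7000000000000000000000000000000000 0x200000003000000078000001fc000000fe000001ff0000007800000078 7 9) 0 0 (step_sound _ 100 [rh0514e418c971263d, (rh2820ca9a6c4f41b4.shift 1 3), (rh2cb0cb4c469ee6ca.shift 3 0), (rhf0f55c4504412200.shift 1 3)] (by decide +kernel))
noncomputable def rhc7d27a9c08b8203e : CRef := CRef.mk (Pat.mk 0x70000000000000000000000000 0x80000007f000001fe000000df0000001000000010 7 9) 0 0 (step_sound _ 99 [(rh0c94139ce5c17e5c.shift 2 0), (rh138c3774b73e0afc.shift 0 2), (rh2cc7d62e70c02209.shift 1 2), (rh95e59ab397a8968f.shift 0 2), (rhe98fd16c4771a217.shift 1 2)] (by decide +kernel))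
noncomputable def rh53d696369dca17e0 : CRef := CRef.mk (Pat.mk 0x38000000000000000000000000 0xa0000000e0000000e0000000f0000003e0000007f0000000c0000000c 7 7) 0 0 (step_sound _ 98 [(rh2ba551de881ca4cd.shift 0 2), (rh2cc7d62e70c02209.shift 0 2), (rh8195a2d7794c7cd2.shift 0 2), (rh905ff86a2bb85556.shift 1 0)] (by decide +kernel))
noncomputable def rha124190410a45f69 : CRef := CRef.mk (Pat.mk 0x70000000000000000000000000 0x200000002000000077000003fe000000ff0000004000000040 7 10) 0 0 (step_sound _ 99 [(rh138c3774b73e0afc.shift 0 2), (rh23b44be1872b9361.shift 2 0), (rh2fa4d48c9e158234.shift 0 2), (rh8195a2d7794c7cd2.shift 1 2), (rh9241cc058486cc88.shift 0 2)] (by decide +kernel))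
noncomputable def rh79c343fa5287595b : CRef := CRef.mk (Pat.mk 0x70000000000000000000000000 0x800000058000000ff0000007e000000fc000000f00000007000000060 7 8) 0 0 (step_sound _ 131 [rh16fb9b0c4db45ee1, (rh8afb761e147011fd.shift 1 3), (rh8c12fdbbddc1e7ab.shift 1 3), (rhf723f4240e80a77c.shift 2 0)] (by decide +kernel))
noncomputable def rhb4845d7e9bb6c969 : CRef := CRef.mk (Pat.mk 0xc0000000c000000000000000000000000 0x80000000c0000000c0000000c0000001f0000007c0000001c0000001c 7 7) 0 0 (step_sound _ 67 [(rh3cb04db3dd2b6a55.shift 2 0), (rh6852947d3e67d303.shift 2 0), (rh71b466dd9db4f470.shift 0 1)] (by decide +kernel))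
noncomputable def rh99642e1388a506ef : CRef := CRef.mk (Pat.mk 0x18000000380000000000000000 0xe0000000f0000001e0000003f0000007f00000008 7 7) 0 0 (step_sound _ 98 [rh6055d0b0879c797d, (rhb739f4f82bb681b4.shift 1 2)] (by decide +kernel))
noncomputable def rhc48f1dcb35b873d5 : CRef := CRef.mk (Pat.mk 0x1800000018000000000000000000000000 0x1c0000003c0000001f0000001c0000001c000000f80000003800000008 7 8) 0 0 (step_sound _ 163 [(rh28152048bc8b598f.shift 0 2), (rh55a1f6c57a317ce6.shift 3 1), (rh79cbb37900d9453b.shift 2 0)] (by decide +kernel))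
noncomputable def rh4123a4df0eee3407 : CRef := CRef.mk (Pat.mk 0x18000000380000000000000000 0x1c0000001c0000001f0000001f0000003f0000002e00000008 7 6) 0 0 (step_sound _ 97 [rh291c033fab37b135, (rhab22b5b56e7b3243.shift 1 2)] (by decide +kernel))
noncomputable def rhc37922845684d7ef : CRef := CRef.mk (Pat.mk 0x1800000018000000000000000000000000 0x48000000df000000ff000000e70000002400000024 7 8) 0 0 (step_sound _ 101 [(rh79b3c29022acbdf3.shift 2 3), (rhef3032495df9d34e.shift 2 0), rhff00a37c088eb8b8] (by decide +kernel))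
noncomputable def rhfa76e76d1b89c4f1 : CRef := CRef.mk (Pat.mk 0x1800000018000000000000000000000000 0x1800000018000000180000001c000000fc0000003f0000001c 7 8) 0 0 (step_sound _ 68 [rh2cf03e78a38b582d, (rh3cb04db3dd2b6a55.shift 3 0), (rhc92fc89a75883a9a.shift 2 0)] (by decide +kernel))
noncomputable def rh03832ef65c90988a : CRef := CRef.mk (Pat.mk 0x1800000018000000080000000000000000 0x8000000180000007c0000000f0000001c0000001c 7 7) 0 0 (step_sound _ 35 [rh21a97168dca678f6, (rh71222050f2c63a3a.shift 3 0)] (by decide +kernel))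
noncomputable def rh6eaf48e83e2d8d2d : CRef := CRef.mk (Pat.mk 0x38000000100000000000000000 0x80000000f0000003e0000007f0000000600000006 7 7) 0 0 (step_sound _ 98 [(rh2cc7d62e70c02209.shift 0 2), (rha03f6e28ea70fc7d.shift 1 2), (rha42db4b4bc101bc4.shift 1 0)] (by decide +kernel))
noncomputable def rhfcb7367ea3b53ab7 : CRef := CRef.mk (Pat.mk 0x1000000010000000100000001000000000 0x800000018000000180000003c000000ff0000002e 7 8) 0 0 (step_sound _ 37 [(rh55afc6a59410cf00.shift 4 0), rh80d4fe42e5f94ce8] (by decide +kernel))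
noncomputable def rh8c9519c7a9b5945d : CRef := CRef.mk (Pat.mk 0x300000001000000018000000000000000000000000 0x20000000200000003000000030000001f7000000fe000001e70000006000000020 7 9) 0 0 (step_sound _ 101 [(rh046c5eb18e55a239.shift 4 0), (rh16a49f19a95f6c1b.shift 1 1), (rhe18aaae3bc74af6c.shift 2 0), (rhe837f5fb64478651.shift 0 2)] (by decide +kernel))
noncomputable def rh5342005629682516 : CRef := CRef.mk (Pat.mk 0xc00000004000000060000000000000000000000000 0x1000000010000000f0000000df000001ff000001bf000000a8000000a8 7 9) 0 0 (step_sound _ 100 [(rh1ce0128eac37950a.shift 2 2), (rh1e7df01b3473831a.shift 3 0), (rh357c738dbb3c07ce.shift 0 2), (rhb12ffaec36122c99.shift 1 2), rhd9409be6cc6946e2] (by decide +kernel))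
noncomputable def rh50942b64134ea264 : CRef := CRef.mk (Pat.mk 0x6000000020000000300000000 0x200000003000000070000000700000006000000060000000700000005 7 3) 0 0 (step_sound _ 129 [rh932754581e0f4330, rhf5f21a325060f1ca] (by decide +kernel))
noncomputable def rh0635872239207475 : CRef := CRef.mk (Pat.mk 0xc0000000c000000000000000800000000 0x20000000f0000007e000000f40000007e000000ff 7 8) 0 0 (step_sound _ 34 [rh2f5686e2731dbcf7, (rh8556ce617a451e36.shift 2 0), rha2d33111dc954f8b, rhedd6f04555dbc405] (by decide +kernel))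
noncomputable def rhb6edc9d8f3db87b6 : CRef := CRef.mk (Pat.mk 0x1800000018000000000000000000000000 0x1c0000003c0000000f0000001c000000380000001f0000001c0000000c 7 6) 0 0 (step_sound _ 163 [(rh28152048bc8b598f.shift 0 2), (rh55a1f6c57a317ce6.shift 3 1), rh8c1f28019143619b] (by decide +kernel))
noncomputable def rh96331573c2b56f96 : CRef := CRef.mk (Pat.mk 0x1800000018000000100000000000000000 0x80000000800000018000000ff000000ff0000000400000004 7 8) 0 0 (step_sound _ 163 [(rh2145e1d24b96a57e.shift 3 2), rh7791e4cc2b511fe5] (by decide +kernel))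
noncomputable def rhb2486157fd275639 : CRef := CRef.mk (Pat.mk 0x1800000018000000080000000000000000 0x100000001000000018000000ff000000ff0000002000000020 7 8) 0 0 (step_sound _ 164 [(rh5c5e593799055d58.shift 3 2), rhf7e6cf1aef653798] (by decide +kernel))
noncomputable def rh859373829b2835c8 : CRef := CRef.mk (Pat.mk 0x3000000030000000000000001000000000 0x6000000260000003e0000003e000000ef0000007e000000ff 7 8) 0 0 (step_sound _ 99 [(rhbb7213d4724395ac.shift 1 1), rhd7ebfc8479ae00e2, (rhdb3212ed6dfd725f.shift 1 0)] (by decide +kernel))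
noncomputable def rhdd367f580f22acf2 : CRef := CRef.mk (Pat.mk 0x1800000018000000000000000000000000 0x140000001f000000ff0000000f0000000c0000000c 7 8) 0 0 (step_sound _ 101 [(rh39b36e93b258e604.shift 2 0), (rh79b3c29022acbdf3.shift 2 3), rhfde2cf49c157a50f] (by decide +kernel))
noncomputable def rh2d4c6db56418c1ca : CRef := CRef.mk (Pat.mk 0x800000008000000180000000800000000 0x40000000c0000000c0000001e0000007f00000017 7 7) 0 0 (step_sound _ 34 [rh2a2f47a917979c73, (rh932754581e0f4330.shift 2 0)] (by decide +kernel))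
noncomputable def rh0df9256ab14882c9 : CRef := CRef.mk (Pat.mk 0x4000000040000000c0000000400000000 0x3a0000003e0000000f0000000c0000000e0000000a 7 6) 0 0 (step_sound _ 33 [(rh932754581e0f4330.shift 1 0), rha62f7d47a13127bd] (by decide +kernel))
noncomputable def rh28622e1c1c9f5240 : CRef := CRef.mk (Pat.mk 0x8000000080000001800000008 0x8000000180000001c0000001f0000001c0000001c00000008 7 5) 0 0 (step_sound _ 98 [rh19fefc284144810c, (rh50fbb5868c909700.shift 2 0)] (by decide +kernel))
noncomputable def rh8d6203d5f01bc4ba : CRef := CRef.mk (Pat.mk 0x8000000180000000a0000000000000000 0x20000000b0000001f000000ff000000f400000014 7 8) 0 0 (step_sound _ 66 [rh383ba84696c6b04d, (rh53b3c253cb0c65f4.shift 0 2)] (by decide +kernel))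
noncomputable def rh05d7af285f64bf90 : CRef := CRef.mk (Pat.mk 0x8000000180000000a000000000000000000000000 0x11000000330000001f0000001f0000000f000000010000000100000001 7 6) 0 0 (step_sound _ 96 [(rh1c62b6193297d9e3.shift 0 3), rh6b5dcf107f7e03de] (by decide +kernel))
noncomputable def rh595e4f2352bd8f21 : CRef := CRef.mk (Pat.mk 0x8000000180000000a000000000000000000000000 0xa0000001b000000ff000000f70000001400000004 7 8) 0 0 (step_sound _ 98 [(rh53b3c253cb0c65f4.shift 0 3), rh578b7b3d61ae29d3] (by decide +kernel))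
noncomputable def rh46937519e279bb59 : CRef := CRef.mk (Pat.mk 0x6000000030000000000000000000000000 0x4000000040000000c0000000c0000007f0000007c0000001f0000001c00000014 7 7) 0 0 (step_sound _ 99 [(rh53b3c253cb0c65f4.shift 2 3), rh9b641b2e2db09faa] (by decide +kernel))
noncomputable def rhe448e73cfeedb258 : CRef := CRef.mk (Pat.mk 0x600000003000000000000000000000000 0x20000000600000006000000060000001f000000070000001f0000001f00000003 7 5) 0 0 (step_sound _ 161 [rh281c6819542c66e6, rh4e604d18ebb5ba31, (rh6a9c0c8960219800.shift 0 1), rhfafeb437ceb8396d] (by decide +kernel))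
noncomputable def rh3dc5ef6a931319ef : CRef := CRef.mk (Pat.mk 0x180000000c000000000000000000000000 0x2000000020000000f0000001f0000001f000000370000001200000012 7 6) 0 0 (step_sound _ 97 [rh1f0034abb91e39d7, (rh53b3c253cb0c65f4.shift 0 3)] (by decide +kernel))
noncomputable def rh20e5fbc1576fa10c : CRef := CRef.mk (Pat.mk 0x18000000080000000800000000 0x40000001c0000001c0000001f0000007c0000001c000000f800000030 7 8) 0 0 (step_sound _ 131 [(rh8a6cff9a235067f2.shift 2 0), (rha3746fa128f08036.shift 2 0), (rhca405e350c462817.shift 0 1)] (by decide +kernel))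
noncomputable def rh1ad6e10a44d72c90 : CRef := CRef.mk (Pat.mk 0x600000003000000000000000000000000 0x10000000300000007000000060000001f000000070000001f0000001f00000003 7 5) 0 0 (step_sound _ 161 [(rh1c6fd882a7edb6d2.shift 0 1), rh281c6819542c66e6, rh4e604d18ebb5ba31, rhfafeb437ceb8396d] (by decide +kernel))
noncomputable def rhe600e482e26d3d79 : CRef := CRef.mk (Pat.mk 0x60000000200000002000000000000000000000000 0x30000000300000003000000060000000700000007000000070000000700000001 7 3) 0 0 (step_sound _ 193 [(rh0fd870c734e6c513.shift 0 2), (rhabedd109a9a37101.shift 0 2), (rhb308184a09833a3e.shift 0 1), rhe79d9e3a3e1ecc93] (by decide +kernel))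
noncomputable def rh98f8126573fe8bb5 : CRef := CRef.mk (Pat.mk 0xc000000040000000400000000 0x4000000060000000e0000000e0000000c0000000f0000003e0000003a 7 6) 0 0 (step_sound _ 130 [rh022945335250c898, (rh0fd870c734e6c513.shift 1 0), (rhabedd109a9a37101.shift 1 0), (rhf5f21a325060f1ca.shift 1 0)] (by decide +kernel))
noncomputable def rh62a25d312dbae526 : CRef := CRef.mk (Pat.mk 0x180000000c00000000000000000000000000000000 0x140000001c0000001c000000780000000f0000007c0000001c0000001c00000014 7 7) 0 0 (step_sound _ 129 [(rh53b3c253cb0c65f4.shift 0 4), (rhac593cb1be7d9b09.shift 1 0)] (by decide +kernel))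
noncomputable def rh36a56128ddebb636 : CRef := CRef.mk (Pat.mk 0x180000000c00000000000000000000000000000000 0x140000001c0000001c0000001c0000000f0000003c0000001c0000001c00000014 7 6) 0 0 (step_sound _ 129 [(rh53b3c253cb0c65f4.shift 0 4), (rhc87bb748491ec271.shift 1 0)] (by decide +kernel))
noncomputable def rhce95caea34f6b8d4 : CRef := CRef.mk (Pat.mk 0x180000000c000000000000000000000000 0x40000000c0000000c0000000f0000007c0000001c0000001c0000001c0000001c 7 7) 0 0 (step_sound _ 133 [(rh18965a982d73c794.shift 2 3), rhda519598461d28ee] (by decide +kernel))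
noncomputable def rh328abea4abae990e : CRef := CRef.mk (Pat.mk 0x600000002800000000000000000000000000000000 0x400000004c0000004c0000007c0000007f0000007c0000003c0000001c00000014 7 7) 0 0 (step_sound _ 130 [(rh1c62b6193297d9e3.shift 2 4), rhf91f642e0cbb6433] (by decide +kernel))
noncomputable def rh0d87bade8ff71785 : CRef := CRef.mk (Pat.mk 0x6000000028000000000000000000000000 0x4000000040000000c0000000c000001ff000000780000001f0000001c00000014 7 9) 0 0 (step_sound _ 100 [(rh572132728df34c43.shift 3 3), (rh80f90a60d87caa0d.shift 3 3), rh9b641b2e2db09faa, (rhafdf94f2acdc0ed4.shift 3 3)] (by decide +kernel))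
noncomputable def rheb9182f90ce68dcc : CRef := CRef.mk (Pat.mk 0x600000002800000000000000000000000000000000 0x140000001c0000005e000000fc0000006f000000fe000001ff0000007c00000054 7 9) 0 0 (step_sound _ 101 [(rh15590a39afd9a120.shift 4 0), (rh3820f35d5e705bec.shift 5 0), rhb09c47e5e6033732, (rhffb8e5993241bf15.shift 4 0)] (by decide +kernel))
noncomputable def rh385cd5c887476869 : CRef := CRef.mk (Pat.mk 0x180000000800000000000000000000000000000000 0x100000001c0000001f0000007c000000180000001c0000001c0000001c00000014 7 7) 0 0 (step_sound _ 99 [(rh15590a39afd9a120.shift 2 0), (rh947561ae8c5c3f87.shift 2 1), (rhe3458ab40071103b.shift 3 2), (rhf34a91dce4ae406b.shift 0 2), (rhfa50cc73c689e7d7.shift 2 0)] (by decide +kernel))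
noncomputable def rhc7c8b1328eb6c921 : CRef := CRef.mk (Pat.mk 0x8000000180000000800000000 0x80000001c0000001c0000001c0000001c0000007c0000000f00000004 7 7) 0 0 (step_sound _ 131 [(rh0fd870c734e6c513.shift 2 0), (rh47b14c8d210e4def.shift 2 1), rh6b2be6fe49c7eac7, (rh762a1aeaf83c662a.shift 2 0), rhb0de455c382c5b1c] (by decide +kernel))
noncomputable def rhc822552a95a01686 : CRef := CRef.mk (Pat.mk 0x40000000c0000000400000000 0x40000000c0000003e0000003e0000000f0000000e0000000c00000008 7 6) 0 0 (step_sound _ 130 [(rh47b14c8d210e4def.shift 1 1), rhb7d8082d486d6fd1, (rhd4b4beefcd67f51e.shift 2 0)] (by decide +kernel))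
noncomputable def rhe75d8293220c92ac : CRef := CRef.mk (Pat.mk 0x80000001800000008000000000000000000000000 0x400000005000000070000001f000000ff0000001f000000370000001700000005 7 8) 0 0 (step_sound _ 97 [(rh0b786d94a31538a6.shift 0 3), rh7aaea07a70fd1416, (rha1a63885f5457891.shift 1 3), (rha60af7b7eca27efb.shift 0 3), rheadb620386bb241d, (rhedf3a755fe019897.shift 0 3)] (by decide +kernel))
noncomputable def rh9c76564284975977 : CRef := CRef.mk (Pat.mk 0x70000000000000000000000000 0x80000007f000001fe0000007f0000001000000010 7 9) 0 0 (step_sound _ 99 [(rh138c3774b73e0afc.shift 0 2), (rh2cc7d62e70c02209.shift 1 2), (rh83bccaa24c38d905.shift 1 2), (rhafa5a7051d37b143.shift 2 0), (rhd690071d9e563773.shift 0 2), (rhe55b0dbbf3210617.shift 1 2)] (by decide +kernel))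
noncomputable def rh021514d1cdae045e : CRef := CRef.mk (Pat.mk 0x1800000008000000000000000000000000 0x1c0000001c0000001f0000007f000000ff000000f80000003800000018 7 8) 0 0 (step_sound _ 100 [(rh061ec90527078908.shift 0 1), (rh692eb55c762e9843.shift 1 1), (rh93b74e20d3eafb22.shift 0 1), rhb3e0af99ef9876dd, (rhbcd28bc66d78ce5f.shift 1 0), (rhed74cf860d0ea852.shift 1 0)] (by decide +kernel))
noncomputable def rhdb76c884285a334a : CRef := CRef.mk (Pat.mk 0x1800000008000000000000000000000000 0x1c0000001c0000001f000000ff000000ff000000f80000003c0000001c 7 8) 0 0 (step_sound _ 100 [(rh061ec90527078908.shift 0 1), (rh16b98b7cd0fb490e.shift 0 1), (rh93b74e20d3eafb22.shift 0 1), (rh998c4113d2134dd3.shift 0 1), rhb3e0af99ef9876dd, (rhbcd28bc66d78ce5f.shift 1 0), (rhc0b659b65dceddb7.shift 1 0)] (by decide +kernel))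
noncomputable def rhc69b5080e13e011d : CRef := CRef.mk (Pat.mk 0x1800000008000000000000000000000000 0x1000000018000000fe000000ff000000ff0000003c0000001c 7 8) 0 0 (step_sound _ 98 [(rh557b120f072744ca.shift 0 3), (rh69012675dfdb1a5b.shift 0 3), rhb3d9a4387d8bf9a1, (rhd69c262cd33b94b3.shift 0 3), (rhe4bbee76c9b3ad4f.shift 1 0)] (by decide +kernel))
noncomputable def rh12ecaf8ac021f600 : CRef := CRef.mk (Pat.mk 0x3000000010000000000000000000000000 0x80000001e000000ff000001fe000000fe0000003800000028 7 9) 0 0 (step_sound _ 99 [(rh557b120f072744ca.shift 1 3), (rh69012675dfdb1a5b.shift 1 3), (rhb3d9a4387d8bf9a1.shift 1 0), rhd21475bdb953f023, (rhd69c262cd33b94b3.shift 1 3)] (by decide +kernel))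
noncomputable def rhfa58273e9f0df47c : CRef := CRef.mk (Pat.mk 0x3000000010000000000000000000000000 0x100000003e000000ff000001fe000000ee0000002c00000028 7 9) 0 0 (step_sound _ 99 [(rh557b120f072744ca.shift 1 3), (rh69012675dfdb1a5b.shift 1 3), (rhb3d9a4387d8bf9a1.shift 1 0), (rhd69c262cd33b94b3.shift 1 3), rhf3635170b4c4c6fd] (by decide +kernel))
noncomputable def rh9f1f2c6242cf4dd0 : CRef := CRef.mk (Pat.mk 0x7000000000 0x73f000003fe0000077f 7 11) 0 0 (step_sound _ 35 [rh219021521bf409aa, (rh56f43794bcf10c2f.shift 2 0), (rh6410c88119e1d96d.shift 2 0), (rh775ca1963e850b80.shift 1 0), rh9a61dc0f685e3a67, (rhe55b0dbbf3210617.shift 1 0)] (by decide +kernel))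
noncomputable def rh8066c0e83aa7f0a3 : CRef := CRef.mk (Pat.mk 0x700000000000000000000000000000000000000000 0x200000003000000030000001f8000003fe000001ff000000780000007800000028 7 10) 0 0 (step_sound _ 132 [(rh2820ca9a6c4f41b4.shift 1 4), (rh5f222f11070bd545.shift 3 0), (rhad6554b1ff1e2580.shift 0 1), (rhf0f55c4504412200.shift 1 4)] (by decide +kernel))
noncomputable def rhe5f5ad099c3e3bc3 : CRef := CRef.mk (Pat.mk 0x1c00000000 0x1cf000000ff000001fc 7 9) 0 0 (step_sound _ 37 [(rh0f31e006a2e49835.shift 2 0), rh2ba551de881ca4cd, (rh2eb6cac0fecf3e9c.shift 1 0), (rh8086b6f526537fc5.shift 1 0), rhe55b0dbbf3210617] (by decide +kernel))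
noncomputable def rhbf3c5fa939ef4b58 : CRef := CRef.mk (Pat.mk 0x380000000000000000000000000000000000000000 0x80000000c0000000f0000003e0000007f0000000e0000000e0000000e0000000a 7 7) 0 0 (step_sound _ 162 [(rh2ba551de881ca4cd.shift 0 4), (rh775ca1963e850b80.shift 0 4), (rh8195a2d7794c7cd2.shift 0 4), (rhc771cebdf788c766.shift 1 0)] (by decide +kernel))
noncomputable def rha570fd22969f7e9b : CRef := CRef.mk (Pat.mk 0x1800000008000000000000000000000000 0x100000001c0000001f000000ff000000ff000000f80000003800000038 7 8) 0 0 (step_sound _ 100 [(rh4a95c318a1bac7f6.shift 1 0), rh84c73eea2528500b, rh9ba20578d028b83e, (rh9d6bc9f5aae02364.shift 2 0), (rhb59b51e97839f0b6.shift 0 1), (rhbca0fbe1ec9df2c6.shift 1 1), (rhdd82885d94eab366.shift 2 0)] (by decide +kernel))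
noncomputable def rhafd345013ccfb3dd : CRef := CRef.mk (Pat.mk 0x3000000010000000000000000000000000 0x140000003f000000ff000000fe0000000f0000000c0000000c 7 8) 0 0 (step_sound _ 99 [(rh557b120f072744ca.shift 1 3), (rh69012675dfdb1a5b.shift 1 3), rh7d459fc7eedae848, (rhd69c262cd33b94b3.shift 1 3), rhf3635170b4c4c6fd] (by decide +kernel))
noncomputable def rh80430a02d8f148a2 : CRef := CRef.mk (Pat.mk 0x3000000010000000000000000000000000 0x80000001e000000ff000001fe0000007e0000003800000028 7 9) 0 0 (step_sound _ 99 [(rh08b84a4d3411d321.shift 1 0), (rh557b120f072744ca.shift 1 3), (rh69012675dfdb1a5b.shift 1 3), rhd21475bdb953f023, (rhd69c262cd33b94b3.shift 1 3)] (by decide +kernel))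
noncomputable def rhef652490d65c3bf6 : CRef := CRef.mk (Pat.mk 0x3000000010000000000000000000000000 0x40000000c0000002f000000ff000000ff0000007e0000003c0000003c 7 8) 0 0 (step_sound _ 99 [rh26aba815d5766f74, (rh557b120f072744ca.shift 1 3), (rh69012675dfdb1a5b.shift 1 3), (rhd69c262cd33b94b3.shift 1 3), rhfe666ac509ec667d] (by decide +kernel))
noncomputable def rhaa066b7fc432efd5 : CRef := CRef.mk (Pat.mk 0x180000000800000000000000000000000000000000 0x100000001800000018000000180000003c000000ff0000003c0000001c00000014 7 8) 0 0 (step_sound _ 99 [(rh15590a39afd9a120.shift 2 0), (rh3b492a9563ca052e.shift 0 2), (rhb44fbf6bd2c6418e.shift 2 0), (rhe1a3e820b9828b5e.shift 2 1), (rhe3458ab40071103b.shift 3 2)] (by decide +kernel))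
noncomputable def rh2207113fd016e672 : CRef := CRef.mk (Pat.mk 0x180000000800000000000000000000000000000000 0x140000001c0000001f0000007c0000000f0000007c0000001c0000001c00000014 7 7) 0 0 (step_sound _ 130 [rh33ccb443b853797c, rh9ab8f17e81957372, (rha713ae4c671557eb.shift 0 1), (rhd69c262cd33b94b3.shift 0 4)] (by decide +kernel))
noncomputable def rh39eec77277c2bed9 : CRef := CRef.mk (Pat.mk 0x3000000010000000000000000000000000 0x100000003e000000ff000001fe0000006e0000002c00000028 7 9) 0 0 (step_sound _ 99 [(rh08b84a4d3411d321.shift 1 0), (rh557b120f072744ca.shift 1 3), (rh69012675dfdb1a5b.shift 1 3), (rhd69c262cd33b94b3.shift 1 3), rhf3635170b4c4c6fd] (by decide +kernel))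
noncomputable def rh042987b9485d8d4d : CRef := CRef.mk (Pat.mk 0x700000000000000000000000000000000000000000 0x10000000180000007f000001fe0000007f0000001c0000001c0000001c00000014 7 9) 0 0 (step_sound _ 163 [(rh138c3774b73e0afc.shift 0 4), (rh2cc7d62e70c02209.shift 1 4), (rh83bccaa24c38d905.shift 1 4), (rhd690071d9e563773.shift 0 4), (rhe55b0dbbf3210617.shift 1 4), (rhfd51c958ce1d79dd.shift 2 0)] (by decide +kernel))
noncomputable def rh72cb1a6f788f4337 : CRef := CRef.mk (Pat.mk 0x380000000000000000000000000000000000000000 0x80000000c0000000f0000003e0000007f0000000e0000000e0000000e0000000a 7 7) 0 0 (step_sound _ 162 [(rh2ba551de881ca4cd.shift 0 4), (rh2cc7d62e70c02209.shift 0 4), (rh8195a2d7794c7cd2.shift 0 4), (rhfd51c958ce1d79dd.shift 1 0)] (by decide +kernel))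
noncomputable def rh3822c38cab36dd11 : CRef := CRef.mk (Pat.mk 0x3800000000000000000000000000000000 0x140000001c0000001c0000000c0000001f000000f8000000ff0000001c0000001c0000001c 7 8) 0 0 (step_sound _ 163 [rhd8f37b199594f940, (rhea3c36b66d54eaf8.shift 2 1), rhed2874e9265513cc, (rhf60aa8aede119d3b.shift 0 4)] (by decide +kernel))
noncomputable def rhaf549b9e23abcd75 : CRef := CRef.mk (Pat.mk 0x38000000000000000000000000 0x20000000e0000000e0000000e0000000f0000003e0000007f0000000c0000000c 7 7) 0 0 (step_sound _ 98 [(rh2ba551de881ca4cd.shift 0 2), (rh2cc7d62e70c02209.shift 0 2), (rh46332abad5027c18.shift 1 0), (rh8195a2d7794c7cd2.shift 0 2)] (by decide +kernel))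
noncomputable def rhe2edf9b2f1468226 : CRef := CRef.mk (Pat.mk 0x380000000000000000000000000000000000000000 0x100000001c0000001c0000001f000000f8000001ff0000000c0000001c0000001c00000014 7 9) 0 0 (step_sound _ 131 [rhbc6c7a319ef4256c, (rhd8a3011453bfa87c.shift 2 0), (rhe3c233425b2ce287.shift 2 2), (rhf0f55c4504412200.shift 0 4)] (by decide +kernel))
noncomputable def rh77c763485aa3bb49 : CRef := CRef.mk (Pat.mk 0x3800000000000000000000000000000000 0x40000001c0000001c0000001c0000001f000000f8000000ff0000001c0000000c0000000c 7 8) 0 0 (step_sound _ 163 [rh11c689c814eb54e1, (rh537802749a754247.shift 0 1), (rhb63ceb83dcdd1924.shift 2 2), (rhf60aa8aede119d3b.shift 0 4)] (by decide +kernel))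
noncomputable def rhbec745bfdbb40f4f : CRef := CRef.mk (Pat.mk 0x1800000008000000000000000000000000 0x100000001c0000001e000000fe000000ff000001fb0000003800000038 7 9) 0 0 (step_sound _ 100 [(rh12301fadfa4405fc.shift 1 0), rh1af312b4201d65bb, (rh4ecc1d8b8edb1dd7.shift 2 0), (rh7b4129e1045fa224.shift 2 0), (rha2f792dab8f61a5f.shift 1 0), (rhbca0fbe1ec9df2c6.shift 1 1), rhf6747abc4bb03fc4] (by decide +kernel))
noncomputable def rha79e1ebb5f58238a : CRef := CRef.mk (Pat.mk 0x3000000010000000000000000000000000 0x3c0000003f000000ff0000007e0000001f0000001c0000000c 7 8) 0 0 (step_sound _ 99 [(rh557b120f072744ca.shift 1 3), (rh69012675dfdb1a5b.shift 1 3), (rh9bfe8d6fc2d7c58d.shift 1 0), rhb5cf220403358542] (by decide +kernel))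
noncomputable def rh6f6738d6f20d16bb : CRef := CRef.mk (Pat.mk 0x180000000800000000000000000000000000000000 0x100000001800000018000000180000003c000000ff0000003c0000001c00000014 7 8) 0 0 (step_sound _ 99 [(rh15590a39afd9a120.shift 2 0), (rhb44fbf6bd2c6418e.shift 2 0), (rhc6927b843232e8ba.shift 0 2), (rhe1a3e820b9828b5e.shift 2 1), (rhe3458ab40071103b.shift 3 2)] (by decide +kernel))
noncomputable def rhb53334b4ef59e844 : CRef := CRef.mk (Pat.mk 0x3000000010000000000000000000000000 0xc0000002f000000ff000000ff0000007f0000003c0000003c 7 8) 0 0 (step_sound _ 99 [(rh557b120f072744ca.shift 1 3), rh656237f57f0d4474, (rh69012675dfdb1a5b.shift 1 3), rh9e94f6a2fdff8f35, (rhd69c262cd33b94b3.shift 1 3)] (by decide +kernel))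
noncomputable def rh3707f6ffe6f294b5 : CRef := CRef.mk (Pat.mk 0x1800000008000000000000000000000000 0x40000000e0000007e000000ff0000003f0000001c00000014 7 8) 0 0 (step_sound _ 98 [rh08b84a4d3411d321, (rh2cd5aadcb2dcd140.shift 1 0), (rh557b120f072744ca.shift 0 3), (rh69012675dfdb1a5b.shift 0 3), (rhd69c262cd33b94b3.shift 0 3)] (by decide +kernel))
noncomputable def rh2cce5ce87975063a : CRef := CRef.mk (Pat.mk 0x180000000800000000000000000000000000000000 0x10000000180000001c0000001c0000003c000000ff0000003c0000001c00000014 7 8) 0 0 (step_sound _ 99 [(rh15590a39afd9a120.shift 2 0), (rh57f103642405ccc5.shift 2 0), (rhc6927b843232e8ba.shift 0 2), (rhe3458ab40071103b.shift 3 2)] (by decide +kernel))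
noncomputable def rhecc53ecee741398f : CRef := CRef.mk (Pat.mk 0x1e00000000 0xe70000007e000000e6 7 8) 0 0 (step_sound _ 65 [(rh3244c3cc8379b070.shift 0 1), (rhf578f45bc740563b.shift 1 0)] (by decide +kernel))
noncomputable def rh59bbfab979e2383b : CRef := CRef.mk (Pat.mk 0xf00000000 0x770000003f0000003b 7 7) 0 0 (step_sound _ 4 [rh7daffd76b5df3b6b, rh96851dee118c1ba3] (by decide +kernel))
noncomputable def rh70222f77ac3d1380 : CRef := CRef.mk (Pat.mk 0xf000000000 0x77000000fe000000fc 7 8) 0 0 (step_sound _ 3 [(rh80fcd6d0a18cb2dd.shift 3 0), rh85d81f1f3cf5c46d] (by decide +kernel))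
noncomputable def rh41472d7e9c177dac : CRef := CRef.mk (Pat.mk 0x1e00000000 0xee0000007e00000067 7 8) 0 0 (step_sound _ 1 [(rh0852760094d6d775.shift 1 0), rheb0810cc63b001d8] (by decide +kernel))
noncomputable def rhadd270ec58c4d3ab : CRef := CRef.mk (Pat.mk 0x7800000000 0x38000000ff000000e7 7 8) 0 0 (step_sound _ 6 [rhb072768ca47cd6e6, (rhe25b0a99195a5d59.shift 3 0)] (by decide +kernel))
noncomputable def rhb2915e6db22c4661 : CRef := CRef.mk (Pat.mk 0x3c000000000000000000000000 0x10000000300000003f0000003f0000000800000008 7 6) 0 0 (step_sound _ 65 [(rh80fcd6d0a18cb2dd.shift 1 2), rhbc06178880f80a48] (by decide +kernel))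
noncomputable def rhcbe70a0c5ae6341d : CRef := CRef.mk (Pat.mk 0x1e00000000000000000000000000000000 0x2000000070000001e0000003f000000070000000700000002 7 6) 0 0 (step_sound _ 100 [rhbb9fa87427d0f17b, (rhe25b0a99195a5d59.shift 1 3)] (by decide +kernel))
noncomputable def rh30df0d2f752cd34a : CRef := CRef.mk (Pat.mk 0x380000000800000000000000000000000000000000 0x10000000140000001f000000f8000000f80000003c0000001c0000001c00000014 7 8) 0 0 (step_sound _ 99 [(rh15590a39afd9a120.shift 2 0), (rh215e11e099257d75.shift 3 2), (rhb44fbf6bd2c6418e.shift 2 0), (rhe3458ab40071103b.shift 3 2), (rhf7fc291eb61f8901.shift 0 2)] (by decide +kernel))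
noncomputable def rh7ce181f10f94c7a4 : CRef := CRef.mk (Pat.mk 0x2000000060000000200000002000000000 0x4000000060000003f0000003fe0000007e0000005f 7 10) 0 0 (step_sound _ 134 [rh25e3459a43c19d83, (rh2f68792b6b779e96.shift 5 1)] (by decide +kernel))
noncomputable def rhec03fd3ffac033d0 : CRef := CRef.mk (Pat.mk 0x180000000e000000000000000000000000 0x2000000020000000b0000001f000000fe000000f70000001000000010 7 8) 0 0 (step_sound _ 100 [rh2fb7851f2066c386, (rh546d94e4acaa6041.shift 0 2), (rhbbe16ff26f7822db.shift 1 0), (rhc52b24f0fe41e9dc.shift 0 2)] (by decide +kernel))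
noncomputable def rhd60921b0f15f85f5 : CRef := CRef.mk (Pat.mk 0x1c0000000600000000000000000000000000000000 0x8000000080000000c0000001e000000fe0000003f0000001c0000001800000008 7 8) 0 0 (step_sound _ 132 [(rh1d2a57dc8f63e8fa.shift 1 0), (rh45b8a1f87aeba32c.shift 0 1), (rhc21a95c499b3efdb.shift 1 4), (rhc535be3544c789db.shift 1 2)] (by decide +kernel))
noncomputable def rh1ccbeb51f228a2b4 : CRef := CRef.mk (Pat.mk 0xc0000000700000000000000000000000000000000 0x20000000e0000000e0000000c0000000e0000000f0000003c0000000e0000000e00000002 7 6) 0 0 (step_sound _ 98 [(rh3757369a00eb1c80.shift 0 1), rh53fcb4ba92930b88, (rh898371852f010830.shift 0 2), (rh953e410617738e80.shift 1 0), (rh9bb5c7e5c08d4582.shift 1 1)] (by decide +kernel))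
noncomputable def rh04ce3f190a3b10bb : CRef := CRef.mk (Pat.mk 0x380000000c000000000000000000000000 0x40000001c0000001c000000180000003c0000003c000000780000003f0000001c 7 7) 0 0 (step_sound _ 67 [(rh215e11e099257d75.shift 3 1), rh4cc199ee91c4d91e, (rh8b0c53d0e41cbb64.shift 2 1), (rh9bb5c7e5c08d4582.shift 2 0)] (by decide +kernel))
noncomputable def rh56342a3a468fc3b3 : CRef := CRef.mk (Pat.mk 0xc000000040000000400000000 0x80000000c0000000c0000000c0000000f0000003e0000003a 7 6) 0 0 (step_sound _ 130 [(rh402d223d12d7377d.shift 1 0), (rh426f403fa814630c.shift 2 0), rh61dc55d5e9fb84f4, (rhabedd109a9a37101.shift 1 0)] (by decide +kernel))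
noncomputable def rh132f81b39f747029 : CRef := CRef.mk (Pat.mk 0x180000000e000000000000000000000000 0x2000000130000001f000000fe000000ff0000003c00000038 7 8) 0 0 (step_sound _ 100 [(rh51d26d3136a69e22.shift 0 1), (rh546d94e4acaa6041.shift 0 2), rh82b7cb25363f9fd0, (rh89813eb7e46c5c2d.shift 0 1), (rhaff555eb5cb4a0fd.shift 0 2)] (by decide +kernel))
noncomputable def rhb32eca7dd3176170 : CRef := CRef.mk (Pat.mk 0x300000001800000010000000000000000000000000 0x38000000380000003c000000ff0000003e00000008 7 8) 0 0 (step_sound _ 68 [(rh2d5442cbf338480d.shift 3 1), (rh3a9ece7a0420e1dc.shift 0 1), (rh8aec56c4ee12918c.shift 3 0)] (by decide +kernel))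
noncomputable def rhcf12b0107988b5bd : CRef := CRef.mk (Pat.mk 0x60000000300000002000000000000000000000000 0x40000001f0000003f0000001f0000001c0000001c00000014 7 6) 0 0 (step_sound _ 163 [(rh18965a982d73c794.shift 0 4), rhed095f6e857439d8] (by decide +kernel))
noncomputable def rhbe18761d05c871a6 : CRef := CRef.mk (Pat.mk 0x1800000018000000000000000000000000 0x8000000080000001f000000ff000000ee0000000400000004 7 8) 0 0 (step_sound _ 101 [rh48281dc8cbf5ef73, (rh6e18dbbfa959deb2.shift 1 2), (rh79b3c29022acbdf3.shift 2 3)] (by decide +kernel))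
noncomputable def rhedd916ba74d9e899 : CRef := CRef.mk (Pat.mk 0x380000002800000000000000000000000000000000 0x8000000080000003e0000003f0000007f0000007c000000fc0000001c 7 8) 0 0 (step_sound _ 68 [rh07541183a64fa0e9, (rh546d8824bb5611e5.shift 3 0), (rh97c38a17d353b9fc.shift 1 1), (rhbff9f929d1be5533.shift 0 1), (rhcaa55263a3aa0e25.shift 0 1), rhd23fcda03f98b9d0] (by decide +kernel))
noncomputable def rh370193d30872e9cc : CRef := CRef.mk (Pat.mk 0x1c00000014000000000000000000000000 0x4000000040000001c0000007f0000007f0000007e0000001e 7 7) 0 0 (step_sound _ 99 [(rh2ed4ea5d5088228d.shift 0 2), (rh319a3adc2c89a075.shift 0 2), rh4c3318f044fbfe5c, (rh9ce3a16f91dcd4b0.shift 0 2), rhad48fcc809438143] (by decide +kernel))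
noncomputable def rh011c42e26800e7cc : CRef := CRef.mk (Pat.mk 0xe000000020000000000000000000000000 0x6e000000fe000001ff000001980000009000000090 7 9) 0 0 (step_sound _ 132 [(rh0a31c7f562fb8d12.shift 2 3), (rh1419d6e22745bfdb.shift 0 3), (rh528bab65ed76fe48.shift 3 0), (rh5e1a643c9f3fc565.shift 0 3), (rh8abfcb008306ad86.shift 1 3)] (by decide +kernel))
noncomputable def rh3235ed9a5627d49b : CRef := CRef.mk (Pat.mk 0x200000006000000020000000200000000 0x4000000060000000f0000007e0000003f0000007d 7 7) 0 0 (step_sound _ 130 [(rh2f68792b6b779e96.shift 1 1), rh5cc05450484047d5] (by decide +kernel))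
noncomputable def rh5c13e692aae089b9 : CRef := CRef.mk (Pat.mk 0x6000000020000000200000000000000000000000000000000 0x400000007000000030000000300000003000000070000000700000004 7 3) 0 0 (step_sound _ 97 [(rh2f68792b6b779e96.shift 1 3), rh832d53b0c7150d1d] (by decide +kernel))
noncomputable def rhf5cfe77930248dc2 : CRef := CRef.mk (Pat.mk 0x6000000020000000200000000000000000000000000000000 0x400000007000000030000000300000006000000070000000700000001 7 3) 0 0 (step_sound _ 97 [(rh2f68792b6b779e96.shift 1 3), rh8e3b1d976c2c4cbf] (by decide +kernel))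
noncomputable def rh525b31bdeb52ebe7 : CRef := CRef.mk (Pat.mk 0x180000000800000008000000000000000000000000 0x8000000080000007c0000000f0000007e0000007c0000001c00000018 7 7) 0 0 (step_sound _ 130 [(rh0ba3225c2e28e814.shift 1 0), rh779020101de76499, rhca459270cd6474f4, (rhd69c262cd33b94b3.shift 0 4)] (by decide +kernel))
noncomputable def rh53c58067ff473573 : CRef := CRef.mk (Pat.mk 0x18000000080000000800000000 0x100000001c0000001c0000001c000000180000007c000000ef0000007c000000f4 7 8) 0 0 (step_sound _ 131 [(rh402d223d12d7377d.shift 2 0), rh5e9da5f0fe574309, rh777b1608eac7f27b, (rhf83cf15f19111834.shift 2 1)] (by decide +kernel))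
noncomputable def rh162aa01abd884e4f : CRef := CRef.mk (Pat.mk 0x18000000080000000800000000 0x40000000c0000000c000000780000003f0000003f00000014 7 7) 0 0 (step_sound _ 131 [(rh0fd870c734e6c513.shift 2 0), (rh29dd5384d80ecb1e.shift 2 0), rh9430957bcc80c8da, (rhabedd109a9a37101.shift 2 0)] (by decide +kernel))
noncomputable def rheb97090bf9336179 : CRef := CRef.mk (Pat.mk 0x18000000080000000800000000 0x140000001f000000780000003f0000007f00000074 7 7) 0 0 (step_sound _ 131 [(rh7297d7527063f333.shift 1 0), rh9430957bcc80c8da, (rhdb019b0e908810fb.shift 0 1)] (by decide +kernel))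
noncomputable def rh9acfa16898b19aeb : CRef := CRef.mk (Pat.mk 0x18000000080000000800000000 0x40000001c0000001c0000001f00000078000000180000001c00000014 7 7) 0 0 (step_sound _ 131 [(rh29dd5384d80ecb1e.shift 2 0), (rh7893e6c45bc3445b.shift 2 0), (rhdb019b0e908810fb.shift 0 1), (rhecbdadbfef2034a9.shift 2 0)] (by decide +kernel))
noncomputable def rh7e173f250a3b8ec3 : CRef := CRef.mk (Pat.mk 0x800000018000000080000000800000000 0x180000001800000018000000380000001f0000001c00000010 7 6) 0 0 (step_sound _ 4 [(rh26a846860db7115b.shift 0 1), (rhd3458b32566d63f7.shift 3 0)] (by decide +kernel))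
noncomputable def rhd1b3384cc6fef0c7 : CRef := CRef.mk (Pat.mk 0x1800000018000000080000000000000000 0x80000000800000008000000380000001f0000001c0000001800000018 7 6) 0 0 (step_sound _ 35 [rh54f8cf36e454955a, (rh71222050f2c63a3a.shift 3 0)] (by decide +kernel))
noncomputable def rh9f7d198b1d663d7d : CRef := CRef.mk (Pat.mk 0x1800000018000000080000000000000000 0x8000000380000001f000000f8000000f800000038 7 8) 0 0 (step_sound _ 35 [rh1d96c1b82ae47427, (rh71222050f2c63a3a.shift 3 0)] (by decide +kernel))
noncomputable def rh9ad343c4d6dc7618 : CRef := CRef.mk (Pat.mk 0x1800000018000000080000000000000000 0x8000000080000000c000000f8000000ff000000ff0000006800000068 7 8) 0 0 (step_sound _ 101 [rh3b0706d77e86e9d2, rh865b3cc1a3756684, (rha9e1a5d55b907abf.shift 2 2)] (by decide +kernel))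
noncomputable def rh2cb3f547b568697d : CRef := CRef.mk (Pat.mk 0x1800000018000000080000000000000000 0x800000038000000ff000000fe0000007000000030 7 8) 0 0 (step_sound _ 68 [(rh3cb04db3dd2b6a55.shift 3 0), rhbabc5190046a80bd] (by decide +kernel))
noncomputable def rh1ddc4828ce74b95c : CRef := CRef.mk (Pat.mk 0x1800000018000000080000000000000000 0x38000000ff000000ee0000007800000038 7 8) 0 0 (step_sound _ 35 [(rh71222050f2c63a3a.shift 3 0), rh796bc9c30fbd1f21] (by decide +kernel))
noncomputable def rhb1e90dd966072bd3 : CRef := CRef.mk (Pat.mk 0xc000000040000000400000000 0x20000000e0000000e0000000c0000000f0000003e0000003a 7 6) 0 0 (step_sound _ 130 [(rh0fd870c734e6c513.shift 1 0), (rh29dd5384d80ecb1e.shift 1 0), rh7297d7527063f333, (rhabedd109a9a37101.shift 1 0)] (by decide +kernel))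
noncomputable def rh03b31d5787aba889 : CRef := CRef.mk (Pat.mk 0x18000000080000000800000000 0x40000001c0000001c0000001f000000780000001c000000f800000030 7 8) 0 0 (step_sound _ 131 [(rh29dd5384d80ecb1e.shift 2 0), (rh8a6cff9a235067f2.shift 2 0), (rha3746fa128f08036.shift 2 0), (rhdb019b0e908810fb.shift 0 1)] (by decide +kernel))
noncomputable def rh6c79948db6aa3d81 : CRef := CRef.mk (Pat.mk 0x18000000080000000800000000 0x40000001c0000001c0000001f000000780000001c0000001c00000004 7 7) 0 0 (step_sound _ 131 [(rh0fd870c734e6c513.shift 2 0), (rh7893e6c45bc3445b.shift 2 0), (rhdb019b0e908810fb.shift 0 1), (rhecbdadbfef2034a9.shift 2 0)] (by decide +kernel))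
noncomputable def rh278648158adb4f7f : CRef := CRef.mk (Pat.mk 0x200000006000000020000000200000000000000000000000000000000 0x1000000030000001e000000070000000300000003000000070000000700000005 7 5) 0 0 (step_sound _ 224 [(rh50fbb5868c909700.shift 0 4), rh8770f4420eadcdec] (by decide +kernel))
noncomputable def rh46f6942e3817930a : CRef := CRef.mk (Pat.mk 0x18000000080000000800000000 0x40000001c0000001c0000001f000000780000001f0000000c00000004 7 7) 0 0 (step_sound _ 131 [(rh0fd870c734e6c513.shift 2 0), (rh7893e6c45bc3445b.shift 2 0), rhd1671c6e88add9be, (rhdb019b0e908810fb.shift 0 1)] (by decide +kernel))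
noncomputable def rh611f8d3bdb67f5c0 : CRef := CRef.mk (Pat.mk 0x200000002000000020000000100000000000000000 0x20000000200000003f000001fe000001fe0000004000000040 7 9) 0 0 (step_sound _ 100 [(rh5c5e593799055d58.shift 4 2), rhc0891fafec18c501] (by decide +kernel))
noncomputable def rh19ec4640fbc4b285 : CRef := CRef.mk (Pat.mk 0xc000000000000000c00000000000000000000000000000000 0x40000000c0000000c000000080000001c0000007c0000001f0000007c0000001c0000001c00000014 7 7) 0 0 (step_sound _ 163 [(rh281c6819542c66e6.shift 2 1), rhd47ed746ec54b2a8, (rhd93ac9486958b76a.shift 0 2), (rhfafeb437ceb8396d.shift 2 1)] (by decide +kernel))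
noncomputable def rh626cc564c4f98993 : CRef := CRef.mk (Pat.mk 0x100000000000000018000000080000000000000000 0x1000000010000001f7000000fe000001ef0000002800000028 7 9) 0 0 (step_sound _ 132 [rh192da8ef9ee3c282, (rh5c5e593799055d58.shift 3 2)] (by decide +kernel))
noncomputable def rha2ca7201014288bd : CRef := CRef.mk (Pat.mk 0x1800000000000000180000000800000000000000000000000000000000 0x180000001c0000007c0000000f0000007c0000001c0000001c00000014 7 7) 0 0 (step_sound _ 130 [rh55046f05312c6f62, (rhbc72f9790c4494c5.shift 2 1), (rhd69c262cd33b94b3.shift 0 4)] (by decide +kernel))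
noncomputable def rh202515cb70658660 : CRef := CRef.mk (Pat.mk 0x6000000000000000e000000000000000000000000 0x6000000770000003e000000770000000600000004 7 7) 0 0 (step_sound _ 100 [(rh35e918dd76851f8c.shift 1 2), rh77ed869347696031, (rh8db7f7558b75b2b1.shift 0 2), (rhdd4fe9fd28ed4c0f.shift 0 2)] (by decide +kernel))
noncomputable def rhabacfeab20f64ac8 : CRef := CRef.mk (Pat.mk 0x8000000000000003800000000000000000000000000000000 0x80000000f0000003e000000770000000e0000000e0000000a 7 7) 0 0 (step_sound _ 130 [(rh2ba551de881ca4cd.shift 0 3), (rh565f611d97c187b6.shift 1 0), (rh775ca1963e850b80.shift 0 3), (rh8195a2d7794c7cd2.shift 0 3)] (by decide +kernel))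
noncomputable def rhb9d56e533d077acc : CRef := CRef.mk (Pat.mk 0x600000000000000060000000000000000000000000000000000000000 0x40000000600000006000000060000000700000007000000070000000700000005 7 3) 0 0 (step_sound _ 129 [(rh02ef15e22aa7db92.shift 1 2), rh33d8abaa9cd29cb3, (rh769c4338c227ba0a.shift 0 2), (rh7d7eaefe27cdd7b0.shift 1 4)] (by decide +kernel))
noncomputable def rh28b534a87c3a90d3 : CRef := CRef.mk (Pat.mk 0xc000000080000000c000000000000000000000000 0x20000000e0000000fc000000f8000000ff000000ff0000003c0000003c 7 8) 0 0 (step_sound _ 132 [rh2aa737aa0db1d1e5, rh481378dca19926c4, (rhea5ad313ff444aaf.shift 0 3), rhf47457ddb6fcaaa7] (by decide +kernel))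
noncomputable def rhd90235492cc9b633 : CRef := CRef.mk (Pat.mk 0x100000001000000018000000000000000000000000 0x1000000010000003f7000001fe000001e70000002000000020 7 10) 0 0 (step_sound _ 101 [(rh046c5eb18e55a239.shift 4 0), (rh799f2ede9cc86675.shift 0 2), (rhd5979d9ced4acd89.shift 2 2)] (by decide +kernel))
noncomputable def rh7cd2707a5d73cd27 : CRef := CRef.mk (Pat.mk 0x180000000800000018000000000000000000000000 0x10000000180000000f0000007e0000007f0000001800000018 7 7) 0 0 (step_sound _ 67 [(rh2f68792b6b779e96.shift 3 2), rhc5f4bf7c827ba2b7] (by decide +kernel))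
noncomputable def rh4474a9776b6b97fe : CRef := CRef.mk (Pat.mk 0x180000000800000018000000000000000000000000 0xc0000000c000000078000001ef000000fe000001f70000007400000074 7 9) 0 0 (step_sound _ 101 [rh13b1972114df0da1, (rh5d54a69ee789ff61.shift 2 0), (rh9c94213f6896c74a.shift 2 2), rhc2b213633d7a0206, (rhfd99604093c09fe0.shift 0 3)] (by decide +kernel))
noncomputable def rha19a79455b550cf8 : CRef := CRef.mk (Pat.mk 0x6000000000000000e000000000000000000000000 0x20000000300000003e0000007f0000003e000000780000001800000018 7 7) 0 0 (step_sound _ 100 [(rh35e918dd76851f8c.shift 1 2), (rh3947d1dfff0afc6c.shift 0 2), (rhb18e6c78a554867d.shift 0 3), (rhd17bee628a613f6f.shift 1 0)] (by decide +kernel))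
noncomputable def rh6781fe548d237029 : CRef := CRef.mk (Pat.mk 0xc000000000000000c00000000000000000000000000000000 0x80000001c0000003e0000003f0000007f0000007f0000000e0000000c 7 7) 0 0 (step_sound _ 98 [(rh02ef15e22aa7db92.shift 2 1), rh2490b1020ae2a56a, (rh769c4338c227ba0a.shift 1 1), (rh7d7eaefe27cdd7b0.shift 2 3)] (by decide +kernel))
noncomputable def rhcb42a52d664e7722 : CRef := CRef.mk (Pat.mk 0x3000000010000000300000000000000000 0x10000000f0000000fe000000ff0000000f00000008 7 8) 0 0 (step_sound _ 99 [(rh69012675dfdb1a5b.shift 1 3), (rha355876672dc863a.shift 1 2), rhec31ecad3d476916] (by decide +kernel))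
noncomputable def rh8a18e17bd365f415 : CRef := CRef.mk (Pat.mk 0x3000000010000000300000000000000000 0xf00000003e000000ff000000ec00000008 7 8) 0 0 (step_sound _ 99 [rh2ee5287833d25bbb, (rh69012675dfdb1a5b.shift 1 3), (rha355876672dc863a.shift 1 2)] (by decide +kernel))
noncomputable def rhff5d1bc70e9d7b6a : CRef := CRef.mk (Pat.mk 0x18000000000000001800000000 0x1c0000001c0000001f00000078000000180000001c00000014 7 7) 0 0 (step_sound _ 131 [rh1c00c760a9056692, (rh935da622f8ebc962.shift 3 0), (rh95a80f84f48ac358.shift 3 0), rhec8f9615323b1179] (by decide +kernel))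
noncomputable def rh2b1d6441a96cb0f0 : CRef := CRef.mk (Pat.mk 0x18000000000000001800000000 0xc0000001c0000001f000000780000001c000000f800000030 7 8) 0 0 (step_sound _ 131 [rh1c00c760a9056692, (rh935da622f8ebc962.shift 3 0), (rh95a80f84f48ac358.shift 3 0), rhd9f48dab4c49572b] (by decide +kernel))
noncomputable def rh5e7bc4f3e8ef804f : CRef := CRef.mk (Pat.mk 0x18000000080000001800000000 0xc0000001c0000001c0000001f00000078000000180000001c00000004 7 7) 0 0 (step_sound _ 131 [(rh4b783bb445d2d96a.shift 2 0), (rhb5ea62d810b24eb0.shift 2 0), (rhbdecaeed4a59cb58.shift 2 0), (rhdb019b0e908810fb.shift 0 1), rhf8c8d962f41a49df] (by decide +kernel))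
noncomputable def rhdf97703274af9506 : CRef := CRef.mk (Pat.mk 0x1800000008000000180000000000000000 0x10000000780000007f0000007c0000006600000004 7 7) 0 0 (step_sound _ 98 [(rh69012675dfdb1a5b.shift 0 3), (rha355876672dc863a.shift 0 2), (rhb1927810c5fed255.shift 1 0)] (by decide +kernel))
noncomputable def rh423b4627ea62fd47 : CRef := CRef.mk (Pat.mk 0x6000000000000000e000000000000000000000000 0x24000000340000003e0000007f0000003e000000780000001800000018 7 7) 0 0 (step_sound _ 100 [(rh23e19498d7bd9f6a.shift 0 2), (rh35e918dd76851f8c.shift 1 2), (rhb18e6c78a554867d.shift 0 3), (rhd17bee628a613f6f.shift 1 0)] (by decide +kernel))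
noncomputable def rhff4246cd85372db2 : CRef := CRef.mk (Pat.mk 0x100000000000000038000000000000000000000000 0x1000000010000000370000003e000000670000002000000020 7 7) 0 0 (step_sound _ 98 [(rh5647e84fd6a466ef.shift 0 2), (rh775ca1963e850b80.shift 0 2), (rh7874abb0bc26988c.shift 1 0), rhedf46f22241bda08] (by decide +kernel))
noncomputable def rh1ae9d52bebe53159 : CRef := CRef.mk (Pat.mk 0x3000000020000000300000000 0x10000000700000007000000070000000300000003000000020000000300000001 7 3) 0 0 (step_sound _ 129 [(rh60e98d4fa4efe1d1.shift 0 1), rh932754581e0f4330] (by decide +kernel))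
noncomputable def rh97ccf9e84a3338e0 : CRef := CRef.mk (Pat.mk 0x300000000000000030000000000000000000000000 0x1000000070000001ef000000fe000001ff0000007000000070 7 9) 0 0 (step_sound _ 69 [(rh40a58a01ba49b356.shift 2 1), rh6ec1b00bc2f4712a, (rh7096dc2da8edfe01.shift 2 0), (rhab7bf266c6608c6c.shift 4 0)] (by decide +kernel))
noncomputable def rh89f8bbeb86d8b6fc : CRef := CRef.mk (Pat.mk 0x70000000000000000000000000 0x8000000080000001e000001ff000003bf0000001000000010 7 10) 0 0 (step_sound _ 131 [(rh6c5d9b77960fe42a.shift 3 2), (rh8afb761e147011fd.shift 1 3), (rh8bb330ee5aea9f6b.shift 2 0), (rh8bf46c12d40f1a1c.shift 2 2), rhc341a4986f1e321f] (by decide +kernel))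
noncomputable def rhb65912492ce63709 : CRef := CRef.mk (Pat.mk 0xc000000000000000e00000000 0x40000001c0000001c0000001c0000000c0000000c000000780000001f00000004 7 7) 0 0 (step_sound _ 67 [(rh597b820982de98df.shift 2 0), (rhb37e485dff1e07aa.shift 0 1)] (by decide +kernel))
noncomputable def rh42fb1047679924fb : CRef := CRef.mk (Pat.mk 0x8000000000000000e000000000000000000000000 0x8000000080000007b0000003e000000770000001000000010 7 7) 0 0 (step_sound _ 100 [(rh0edd3afef6b5d7e0.shift 0 2), (rh3fc3a7fb6866dcd4.shift 1 2), rh7874abb0bc26988c, (rhdd4fe9fd28ed4c0f.shift 0 2)] (by decide +kernel))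
noncomputable def rh2c5d2828c3631e87 : CRef := CRef.mk (Pat.mk 0x300000000000000038000000000000000000000000 0x100000007000000070000000700000003000000030000000670000003e000000170000001000000010 7 7) 0 0 (step_sound _ 133 [(rh597b820982de98df.shift 4 2), rh63d61c174dc9f573, (rhb12ffaec36122c99.shift 0 2)] (by decide +kernel))
noncomputable def rh4efe4dcf2a5e249d : CRef := CRef.mk (Pat.mk 0x1c000000000000000000000000 0x10000001f0000000ff000001fc0000002000000020 7 9) 0 0 (step_sound _ 101 [(rh0c727ca215cfd250.shift 0 2), (rh0f31e006a2e49835.shift 2 2), (rh1971f672aa6c5663.shift 1 0), (rh35e918dd76851f8c.shift 2 2), (rh909b6f2d4da422ad.shift 2 2)] (by decide +kernel))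
noncomputable def rh4ddd26eee14d9e96 : CRef := CRef.mk (Pat.mk 0x7000000000 0x1ce000001fe0000007f 7 9) 0 0 (step_sound _ 35 [rh219021521bf409aa, (rh775ca1963e850b80.shift 1 0), (rhdd4fe9fd28ed4c0f.shift 2 0), (rhe55b0dbbf3210617.shift 1 0)] (by decide +kernel))
noncomputable def rh2afcd8f669aba94b : CRef := CRef.mk (Pat.mk 0x1800000000000000380000000000000000000000000000000000000000 0x4000000040000001dc000000f8000001e70000003e000001f700000070000000700000007000000010 7 9) 0 0 (step_sound _ 197 [(rh46f4e32c661b103a.shift 0 4), (rh6d17802643a0d556.shift 2 3), (rh7e9367916d015f70.shift 2 0), (rhb12ffaec36122c99.shift 0 4)] (by decide +kernel))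
noncomputable def rh6cc3e842a64d7d1e : CRef := CRef.mk (Pat.mk 0x6000000000000000e000000000000000000000000 0x20000000300000003e000000780000003e0000007f0000001800000018 7 7) 0 0 (step_sound _ 100 [(rh2b8afafda3225452.shift 1 0), (rh35e918dd76851f8c.shift 1 2), (rh8db7f7558b75b2b1.shift 0 2), (rhdd4fe9fd28ed4c0f.shift 0 2)] (by decide +kernel))
noncomputable def rh4d874eea257cbec4 : CRef := CRef.mk (Pat.mk 0x1e000000020000000000000000 0x50000000700000007000000370000001e000000360000000600000006 7 6) 0 0 (step_sound _ 129 [(rh3244c3cc8379b070.shift 0 3), rh55ec969d5fa8c0dc] (by decide +kernel))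
noncomputable def rh774060543615f181 : CRef := CRef.mk (Pat.mk 0x1e000000040000000000000000 0x8000000080000000c0000001e0000003f0000003c00000014 7 6) 0 0 (step_sound _ 65 [(rh9a36e52e1f8a6a1a.shift 1 0), (rheb0810cc63b001d8.shift 0 2)] (by decide +kernel))
noncomputable def rh3cf77b1fd2df82b2 : CRef := CRef.mk (Pat.mk 0x380000000c000000000000000000000000 0x40000001c0000001c000000180000003c0000003c000000780000003f0000001c 7 7) 0 0 (step_sound _ 67 [rh4cc199ee91c4d91e, (rh5d1a068e5a79efd4.shift 2 1), rh7839021b52c1d988, (rh9bb5c7e5c08d4582.shift 2 0), (rhe3458ab40071103b.shift 3 1)] (by decide +kernel))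
noncomputable def rh33d0eaa3a6be55c8 : CRef := CRef.mk (Pat.mk 0x80000003800000008000000000000000000000000 0x50000001f0000001f0000000f0000003f0000007f000000130000000100000001 7 7) 0 0 (step_sound _ 97 [(rh8bf8257c7eeda352.shift 0 3), rhb4a82e5dd0a1d334, (rhbb229bad87965364.shift 1 3), (rhfb815e3afead425a.shift 0 3)] (by decide +kernel))
noncomputable def rhb7a796a99591a781 : CRef := CRef.mk (Pat.mk 0x40000000c0000000400000000 0xa0000003e0000003e0000000f0000000c0000000c00000008 7 6) 0 0 (step_sound _ 130 [(rh7ef5fa5c39f1c762.shift 1 1), rhb7d8082d486d6fd1, (rhd4b4beefcd67f51e.shift 2 0)] (by decide +kernel))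
noncomputable def rh6760e0d912a23b56 : CRef := CRef.mk (Pat.mk 0x80000003800000008000000000000000000000000 0x500000007000000070000001f0000003f0000003f000000030000000100000001 7 6) 0 0 (step_sound _ 161 [(rh075211c3608a5a57.shift 0 4), (rh4b858afe2cb38247.shift 1 4), (rhc30259bd62f0e380.shift 0 4), rhdee4ee599a438291] (by decide +kernel))
noncomputable def rha42e9fed111729e6 : CRef := CRef.mk (Pat.mk 0x20000000e000000020 0x60000000780000007e0000007f000000fe0000003e 7 8) 0 0 (step_sound _ 36 [(rh00ad149be37e1c09.shift 1 0), (rh2cc7d62e70c02209.shift 2 0), (rh6512f249ef2d5d1e.shift 1 0), (rha9552956f48260bb.shift 1 0), (rhab6f55bc99585f19.shift 1 0), rhc236aaae5bd29815] (by decide +kernel))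
noncomputable def rhd0a7b5bd3f922abd : CRef := CRef.mk (Pat.mk 0xe000000020000000000000000000000000 0x70000000700000007e000000fe000001bf000000200000002000000020 7 9) 0 0 (step_sound _ 132 [(rh2cc7d62e70c02209.shift 2 3), (rh41da9e955b195f6a.shift 0 3), (rh44cb360f95bc185f.shift 3 1), (rh53d6362a466e3171.shift 2 0)] (by decide +kernel))
noncomputable def rh8f9541687a62943d : CRef := CRef.mk (Pat.mk 0x380000000800000000000000000000000000000000 0x100000001c0000001c0000001f0000003800000018000000380000001f0000001c00000014 7 6) 0 0 (step_sound _ 99 [(rh15590a39afd9a120.shift 2 0), (rh33e76eccbeab9104.shift 0 2), rh608a2540e141ac1e, (rh7839021b52c1d988.shift 0 1), (rhe3458ab40071103b.shift 3 2)] (by decide +kernel))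
noncomputable def rh189e5e49497f23a0 : CRef := CRef.mk (Pat.mk 0x80000003000000000000000000000000000000000 0x340000003c0000003f000003b8000003ff000003ff0000003c0000003400000004 7 10) 0 0 (step_sound _ 131 [rh11aa4e8aad8534e1, (rh82452f9947d51b83.shift 0 1), (rha9159c20811d52c2.shift 0 3), (rhc2ffcf4dfa00dc6e.shift 0 3), (rhdf0f6b1e2fb327d4.shift 0 1)] (by decide +kernel))
noncomputable def rh71d03b72143d465e : CRef := CRef.mk (Pat.mk 0x1000000060000000000000000000000000 0x2800000038000000b8000003f8000001fe0000007e0000007f000001fe0000007800000068 7 10) 0 0 (step_sound _ 164 [(rh0f7dc13236a1576f.shift 1 0), (rh2d2079ecf0c55fe8.shift 1 0), (rh2fd5cadd6651c980.shift 0 1), (rh2fee6d514dbcd7c1.shift 1 1), (rh4979e9775be3e0da.shift 1 1), (rh556c3c1110aa35d6.shift 1 1), (rhc4c8fb37a28634e1.shift 1 0), (rhd1f9ca2f81780f57.shift 1 0)] (by decide +kernel))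
noncomputable def rh862a254dd4c0b25f : CRef := CRef.mk (Pat.mk 0x400000018000000000000000000000000 0x140000001c0000001c0000007c0000001f000000780000001f0000001c00000010 7 7) 0 0 (step_sound _ 131 [(rh4ca5dae25f5c14ff.shift 0 3), rhc035dda7f3c2971f, rhc34a6a949bd2b8e4, rhf1cb31c374de9e53] (by decide +kernel))
noncomputable def rh4d36f0b567eaf4cc : CRef := CRef.mk (Pat.mk 0x70000000000000000000000000 0x80000007f000001fe0000007f0000001000000010 7 9) 0 0 (step_sound _ 99 [(rh2cc7d62e70c02209.shift 1 2), (rh83bccaa24c38d905.shift 1 2), (rh9a61dc0f685e3a67.shift 0 2), (rhafa5a7051d37b143.shift 2 0), (rhd690071d9e563773.shift 0 2), (rhe55b0dbbf3210617.shift 1 2)] (by decide +kernel))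
noncomputable def rhe07fe9d4f1a0e3a5 : CRef := CRef.mk (Pat.mk 0x1c00000000 0x1dc000000fe000001ff 7 9) 0 0 (step_sound _ 37 [rh8195a2d7794c7cd2, (rh8db7f7558b75b2b1.shift 1 0), (rhb143c7a3e93df405.shift 2 0), (rhb7e0a190ee9f337a.shift 1 0), (rhc98921aab788f2d3.shift 1 0)] (by decide +kernel))
noncomputable def rh2ed495be23ba7219 : CRef := CRef.mk (Pat.mk 0x1800000008000000000000000000000000 0x100000001c0000001f000000ff000000ff000001f80000003800000038 7 9) 0 0 (step_sound _ 100 [(rh12301fadfa4405fc.shift 1 0), (rh4ecc1d8b8edb1dd7.shift 2 0), (rh7b4129e1045fa224.shift 2 0), rh84c73eea2528500b, (rh998c4113d2134dd3.shift 0 1), rhb3e0af99ef9876dd] (by decide +kernel))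
noncomputable def rhe149ef5ee9aaa8e4 : CRef := CRef.mk (Pat.mk 0x3000000010000000000000000000000000 0x3c0000003f000000ff0000007e0000001f0000001c0000001c 7 8) 0 0 (step_sound _ 99 [(rh557b120f072744ca.shift 1 3), (rh69012675dfdb1a5b.shift 1 3), (rh9bfe8d6fc2d7c58d.shift 1 0), rhd09fde320f441b80] (by decide +kernel))
noncomputable def rh842febcdce799126 : CRef := CRef.mk (Pat.mk 0x1800000008000000000000000000000000 0x1800000018000000180000003e000000ff000001ff0000003c0000003c 7 9) 0 0 (step_sound _ 100 [rh1039c5ce2f4c19f3, (rh4ecc1d8b8edb1dd7.shift 2 0), (rh5dc5071a19a64e2e.shift 2 0), rh62640aeaade000de, rhaf838205fa5781f9] (by decide +kernel))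
noncomputable def rh5caefc9bf2d3205e : CRef := CRef.mk (Pat.mk 0x180000000800000000000000000000000000000000 0x40000001c0000001c000000180000003c000000ff0000003c0000001c00000014 7 8) 0 0 (step_sound _ 99 [(rh2ba5c00738500fa3.shift 2 0), (rh815da42dccf39976.shift 0 2), (rhe3458ab40071103b.shift 3 2), (rhfa40f754f1f7b88f.shift 2 0)] (by decide +kernel))
noncomputable def rhcc851fb1b4fb27c5 : CRef := CRef.mk (Pat.mk 0x3000000010000000000000000000000000 0x80000000c0000002f000000ff000000fe0000007f0000003c0000003c 7 8) 0 0 (step_sound _ 99 [(rh557b120f072744ca.shift 1 3), rh656237f57f0d4474, (rh69012675dfdb1a5b.shift 1 3), rh8c18dce8f391a5c9, (rhd69c262cd33b94b3.shift 1 3)] (by decide +kernel))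
noncomputable def rh7439f1062bd342f5 : CRef := CRef.mk (Pat.mk 0x18000000080000000000000000 0x44000001c7000000ff000001ff0000002800000028 7 9) 0 0 (step_sound _ 101 [(rh2820ca9a6c4f41b4.shift 0 2), (rh2e8418212af08dc2.shift 2 0), rhedad74a424ed7d2f, (rhf0f55c4504412200.shift 0 2)] (by decide +kernel))
noncomputable def rhc122a666c9e6d79b : CRef := CRef.mk (Pat.mk 0x3800000010000000000000000000000000 0x180000001c000000ff0000003e000000780000003800000018 7 8) 0 0 (step_sound _ 99 [(rh073589708c2d81a3.shift 2 1), (rh4dc133ee0ba1420a.shift 1 3), rhe04d7fffb62aa1d8] (by decide +kernel))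
noncomputable def rh5ab5b8d9e31c3514 : CRef := CRef.mk (Pat.mk 0x1c00000008000000000000000000000000 0x20000000680000007e0000007f000000300000001000000010 7 7) 0 0 (step_sound _ 98 [rh4c3f48492504c0f6, (rh4dc133ee0ba1420a.shift 0 3), (rhc425d59bca762a77.shift 1 1)] (by decide +kernel))
noncomputable def rh664030e4b0cc5f3a : CRef := CRef.mk (Pat.mk 0x1c0000000800000000000000000000000000000000 0x40000000c0000000c0000001f000001ff000000fc000001dc0000001c00000010 7 9) 0 0 (step_sound _ 99 [(rh091d9d8e8cc09897.shift 2 1), (rh194823322962891b.shift 1 1), rhacd7510817a67805, (rhb1a251d9bff81766.shift 2 2)] (by decide +kernel))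
noncomputable def rhc6bec855159067b4 : CRef := CRef.mk (Pat.mk 0x1000000030000000200000000000000000 0x1000000010000003b8000003fe000001ef0000000800000008 7 10) 0 0 (step_sound _ 164 [(rh2145e1d24b96a57e.shift 4 2), rh6336978e46f729cd] (by decide +kernel))
noncomputable def rhf59e94b759419496 : CRef := CRef.mk (Pat.mk 0x10000000300000002000000000000000000000000000000000 0x800000038000001fe000001ff0000003e000000380000001000000010 7 9) 0 0 (step_sound _ 101 [(rh7b1f1fb55310c477.shift 4 2), rh8762fc813a871d11] (by decide +kernel))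
noncomputable def rh7495f45f8a695625 : CRef := CRef.mk (Pat.mk 0x60000000c000000000000000000000000 0x33000000370000003e0000003e0000003f0000000e00000002 7 6) 0 0 (step_sound _ 100 [rh88dfb622df982ad0, (rhf48373e13d2bc128.shift 1 3)] (by decide +kernel))
noncomputable def rh507c8880432bcbd9 : CRef := CRef.mk (Pat.mk 0xc00000018000000000000000000000000 0x40000000c0000000c0000000c0000001f0000001c0000001f0000001f00000014 7 5) 0 0 (step_sound _ 163 [(rh046c5eb18e55a239.shift 3 0), rh0f9c21d58317dbb1, (rh360618180b5276a8.shift 0 1)] (by decide +kernel))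
noncomputable def rhdb3556f6a799a481 : CRef := CRef.mk (Pat.mk 0x1800000030000000000000000000000000 0xc0000000d0000000f8000000ff000000f70000002000000020 7 8) 0 0 (step_sound _ 102 [rh0ffad23167397ccf, (rhf48373e13d2bc128.shift 3 3)] (by decide +kernel))
noncomputable def rh9d87173be1ea8897 : CRef := CRef.mk (Pat.mk 0x3000000060000000000000000000000000 0x100000001000000038000003fc0000007f000000ec0000006800000048 7 10) 0 0 (step_sound _ 131 [rha3403235ecce036c, (rhb739f4f82bb681b4.shift 2 3)] (by decide +kernel))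
noncomputable def rh677ec356f24f9681 : CRef := CRef.mk (Pat.mk 0x600000006000000000000000000000000 0x70000000700000007000000070000003e0000000e0000000e 7 6) 0 0 (step_sound _ 66 [(rh3cb04db3dd2b6a55.shift 1 0), (rh6852947d3e67d303.shift 1 0), rh929e5eb1290a5668] (by decide +kernel))
noncomputable def rhe9d08051e745f27a : CRef := CRef.mk (Pat.mk 0x1800000018000000000000000000000000 0x10000000140000001f000000ff000001fc0000002800000028 7 9) 0 0 (step_sound _ 67 [(rh370af384ddd2082c.shift 1 0), rhba8b91d07712ea8c, (rhea7a1800d6f053bd.shift 3 0)] (by decide +kernel))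
noncomputable def rhebd3018eab7b852b : CRef := CRef.mk (Pat.mk 0x1800000018000000000000000000000000 0x100000001c0000001f000000ff0000000f0000000c0000000c 7 8) 0 0 (step_sound _ 67 [rh196df2567b6ba4d7, (rh370af384ddd2082c.shift 1 0), (rhea7a1800d6f053bd.shift 3 0)] (by decide +kernel))
noncomputable def rh43fae49e60f14955 : CRef := CRef.mk (Pat.mk 0x1800000018000000000000000000000000 0x48000000de000000ff000000f60000002400000024 7 8) 0 0 (step_sound _ 101 [rh2a6206ca952f3677, (rh79b3c29022acbdf3.shift 2 3), (rhef3032495df9d34e.shift 2 0)] (by decide +kernel))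
noncomputable def rh1f98906a7b1d1729 : CRef := CRef.mk (Pat.mk 0xc00000018000000000000000000000000 0x6000000260000007c0000007e0000007f0000001800000010 7 7) 0 0 (step_sound _ 101 [rh9ef385de27e7a8ba, (rhf48373e13d2bc128.shift 2 3)] (by decide +kernel))
noncomputable def rhb2445508c9ddec0f : CRef := CRef.mk (Pat.mk 0x300000006000000000000000000000000000000000 0x100000001800000018000000fc0000007f0000007c0000003c0000001c00000014 7 8) 0 0 (step_sound _ 163 [rh76852071b80823e1, (rhb739f4f82bb681b4.shift 2 4)] (by decide +kernel))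
noncomputable def rhb69c52b54906aa9b : CRef := CRef.mk (Pat.mk 0x1800000018000000000000000000000000 0x80000000800000008000000780000003f0000003f0000001c0000001c 7 7) 0 0 (step_sound _ 98 [rh4931885e31c86a84, rh9494c4a9399faa83, (rhab2ad169e49f9c5e.shift 0 3)] (by decide +kernel))
noncomputable def rh6cc983dfd22c7a2c : CRef := CRef.mk (Pat.mk 0x1800000018000000000000000000000000 0x1000000010000000f8000000ff000000770000002000000020 7 8) 0 0 (step_sound _ 98 [(rh6f7acd8e18e57d31.shift 2 0), (rhab2ad169e49f9c5e.shift 0 3), (rhff8efe2a8faeccdf.shift 0 2)] (by decide +kernel))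
noncomputable def rhd1cb53a31696ec3c : CRef := CRef.mk (Pat.mk 0x1800000018000000000000000000000000 0x1000000018000000f8000000ff000000730000003000000030 7 8) 0 0 (step_sound _ 98 [rh4931885e31c86a84, (rh6f7acd8e18e57d31.shift 2 0), (rhab2ad169e49f9c5e.shift 0 3)] (by decide +kernel))
noncomputable def rh1a9f253dff84e9c8 : CRef := CRef.mk (Pat.mk 0x7000000020000000000000000000000000 0x300000003000000038000001f80000007c0000001f0000001800000018 7 9) 0 0 (step_sound _ 100 [rh3b9a704cb638bc37, (rh4dc133ee0ba1420a.shift 2 3), (rh601b884c67ae3ece.shift 3 0)] (by decide +kernel))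
noncomputable def rh7b5326ced2b9a42c : CRef := CRef.mk (Pat.mk 0xe00000004000000000000000000000000 0x600000006000000070000003e00000077000000030000000300000003 7 7) 0 0 (step_sound _ 132 [(rh2eb6cac0fecf3e9c.shift 0 3), rh60f087c0d2371dd9, (rhaf9f2efc81a8312b.shift 0 3)] (by decide +kernel))
noncomputable def rh56ab915e428d5c1d : CRef := CRef.mk (Pat.mk 0x1c00000008000000000000000000000000 0xc0000001f0000007f000000770000001600000016 7 7) 0 0 (step_sound _ 100 [rh0c12b0c78c2d2647, rh4f5df7961f37c748, (rh6292bd8784ece55f.shift 1 3)] (by decide +kernel))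
noncomputable def rha893c230b19e2546 : CRef := CRef.mk (Pat.mk 0x180000001000000010000000000000000000000000 0x140000003e000000ff000000fe000000180000001800000008 7 8) 0 0 (step_sound _ 133 [(rh4ca5dae25f5c14ff.shift 1 4), (rha9bd69d77f753d28.shift 1 0), (rhc14b3526cfd04a56.shift 0 1), (rhdeca8db941583de2.shift 1 4)] (by decide +kernel))
noncomputable def rhd1d6afb0c4ae8771 : CRef := CRef.mk (Pat.mk 0xc0000000800000008000000000000000000000000 0x80000001f0000007c000000fc000000f80000003800000020 7 8) 0 0 (step_sound _ 132 [(rh4ca5dae25f5c14ff.shift 0 4), (rh5781d345bb84e789.shift 2 0), (rhdeca8db941583de2.shift 0 4)] (by decide +kernel))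
noncomputable def rh8fb488bc171c3b6e : CRef := CRef.mk (Pat.mk 0xc0000000800000008000000000000000000000000 0xc0000000c0000003e0000007f0000001f00000014 7 7) 0 0 (step_sound _ 67 [(rh1f3a6ba70a310ab1.shift 2 0), (rh56402400bf41ca0a.shift 0 1), (rh8cdd36b03d57a2f6.shift 2 0), (rha613ffd40b6c9d24.shift 2 0)] (by decide +kernel))
noncomputable def rh001460036b2d189f : CRef := CRef.mk (Pat.mk 0xc0000000800000008000000000000000000000000 0x8000000080000001f0000007f000000ff000000f70000003000000020 7 8) 0 0 (step_sound _ 132 [(rh4ca5dae25f5c14ff.shift 0 4), rh558aa28d2ec90d8f, (rhdeca8db941583de2.shift 0 4)] (by decide +kernel))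
noncomputable def rh6ae05a24e8ca30a9 : CRef := CRef.mk (Pat.mk 0xc0000000800000008000000000000000000000000 0x8000000080000001f000000780000007f0000001f0000001c0000000c 7 7) 0 0 (step_sound _ 132 [(rh4ca5dae25f5c14ff.shift 0 4), rh80353854e468adf0, rha4ff668c7d88f2be, rhec3f3010fc1a7317] (by decide +kernel))
noncomputable def rhba4d1f227cc2550f : CRef := CRef.mk (Pat.mk 0x1800000010000000100000000000000000 0x1000000010000000180000001e000000fc000000ff0000003e 7 8) 0 0 (step_sound _ 99 [(rh1864e4c677b30864.shift 1 0), rh2cf03e78a38b582d, (rh36a6df2b3dd177a0.shift 1 0), (rh6852947d3e67d303.shift 3 0), (rh94a557b71bd523f6.shift 1 0), (rhdf47b082306c38f4.shift 2 0), rhfc05fb343203d907] (by decide +kernel))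
noncomputable def rhfe9ba5314b782e72 : CRef := CRef.mk (Pat.mk 0x300000002000000020000000000000000000000000 0x1000000070000000700000007800000038000000780000003f000000fe000000df0000001800000010 7 8) 0 0 (step_sound _ 100 [(rh67523bfb1785d43c.shift 4 2), (rhd690039a0abab6fc.shift 0 2), (rhe8e8ce14f3c33a78.shift 1 1), (rhfafeb437ceb8396d.shift 4 0)] (by decide +kernel))
noncomputable def rhd2fd9bc665ae157d : CRef := CRef.mk (Pat.mk 0x40000000c000000080000000000000000 0x400000024000000e6000000ff000001fb0000001a0000001a 7 9) 0 0 (step_sound _ 100 [rh0a1a4695f5615e50, (rh44b78625f33babd5.shift 1 2), (rh5d842046da4a91d6.shift 1 0), (rh6b74bf99a2fd6394.shift 1 0), rhb4fc832c23e2d8fa] (by decide +kernel))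
noncomputable def rh9f76c6a24cdd31a7 : CRef := CRef.mk (Pat.mk 0x40000000c00000008000000000000000000000000 0x8000000ee0000007f000000fb0000001f0000001e00000018 7 8) 0 0 (step_sound _ 132 [(rh1aae126fdb0efa1d.shift 1 3), (rh5d842046da4a91d6.shift 1 1), rh87ffa29505e6c3ea, (rhfa0e4def6949d7e5.shift 1 1)] (by decide +kernel))
noncomputable def rh516257334fc059fd : CRef := CRef.mk (Pat.mk 0x180000000c000000000000000000000000 0xc0000001c0000001f0000007c0000001c0000001c0000001800000018 7 7) 0 0 (step_sound _ 133 [(rh18965a982d73c794.shift 2 3), rh630fc127add3d1dd] (by decide +kernel))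
noncomputable def rh30f98a9ee57539ee : CRef := CRef.mk (Pat.mk 0x18000000080000000800000000 0x40000001c0000001c0000001f0000007c0000001c000000f800000030 7 8) 0 0 (step_sound _ 131 [(rh29dd5384d80ecb1e.shift 2 0), (rh8a6cff9a235067f2.shift 2 0), (rhca405e350c462817.shift 0 1), (rhe786c96212407073.shift 2 0)] (by decide +kernel))
noncomputable def rh8075abcbaf066f6e : CRef := CRef.mk (Pat.mk 0xc00000006000000000000000000000000 0x20000000f0000003e0000003e000000370000001600000012 7 6) 0 0 (step_sound _ 132 [(rh18965a982d73c794.shift 1 3), rha086aed26e40e1a8] (by decide +kernel))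
noncomputable def rh7a65dc44684608b1 : CRef := CRef.mk (Pat.mk 0x300000001800000000000000000000000000000000 0x38000000380000003e0000007f0000001e0000001c0000000c 7 7) 0 0 (step_sound _ 130 [rh528a7c5992115e4a, (rh53b3c253cb0c65f4.shift 1 4)] (by decide +kernel))
noncomputable def rh0b955ab74314f5b6 : CRef := CRef.mk (Pat.mk 0xc000000040000000400000000 0x20000000e0000000e0000000c0000000f0000003e0000003a 7 6) 0 0 (step_sound _ 130 [(rh0fd870c734e6c513.shift 1 0), (rh29dd5384d80ecb1e.shift 1 0), rh61dc55d5e9fb84f4, (rhabedd109a9a37101.shift 1 0)] (by decide +kernel))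
noncomputable def rh65544d5217dcb9fc : CRef := CRef.mk (Pat.mk 0x300000001800000000000000000000000000000000 0x3c0000003f000000380000003e0000001f0000007c0000003c00000010 7 7) 0 0 (step_sound _ 130 [(rh53b3c253cb0c65f4.shift 1 4), rhf6306b524585695d] (by decide +kernel))
noncomputable def rh9d7ddc55f8a7b01b : CRef := CRef.mk (Pat.mk 0xc00000006000000000000000000000000 0x80000000c0000000c0000003e000000fe0000003f0000001e0000000e 7 8) 0 0 (step_sound _ 132 [(rh18965a982d73c794.shift 1 3), rhc5ebc5a3ff17c7e6] (by decide +kernel))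
noncomputable def rh910f460523b86d38 : CRef := CRef.mk (Pat.mk 0x180000000c000000000000000000000000 0xc0000000c0000000f0000007c0000001c0000001c0000001c0000001c 7 7) 0 0 (step_sound _ 133 [(rh18965a982d73c794.shift 2 3), rh7fd139a466bf0e05] (by decide +kernel))
noncomputable def rh931ee9681e4da7f9 : CRef := CRef.mk (Pat.mk 0x300000001800000000000000000000000000000000 0x200000002800000038000001fe000000fe000000ff0000007c00000008 7 9) 0 0 (step_sound _ 100 [(rh000637b5a81e86aa.shift 3 1), (rh15590a39afd9a120.shift 3 0), rh713301f9956244a5, (rh9bb5c7e5c08d4582.shift 3 1), (rh9e314cb55b1fae61.shift 1 1)] (by decide +kernel))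
noncomputable def rhbc12f76da273f89d : CRef := CRef.mk (Pat.mk 0x30000000180000000000000000000000000000000000000000 0x20000000280000002c000000f8000003f8000000ff000000ff0000007c0000003c00000010 7 10) 0 0 (step_sound _ 131 [(rh1fe7405e93578389.shift 0 1), (rh735010166f0be645.shift 2 2), (rh88de18ff361c693c.shift 0 1), (rha6daf1b0d386d1bf.shift 2 1), rhb80945e56adef599, (rhda8492cb45389570.shift 0 1), (rhdb3566a94e1d0bfd.shift 2 2)] (by decide +kernel))
noncomputable def rh43ef22832a45cd42 : CRef := CRef.mk (Pat.mk 0x180000000c00000000000000000000000000000000 0x100000001c0000001f0000007c0000000c0000001c0000001c0000001c00000014 7 7) 0 0 (step_sound _ 165 [(rh18965a982d73c794.shift 2 4), rhde615b6cdd46a427] (by decide +kernel))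
noncomputable def rha1fd1918da191243 : CRef := CRef.mk (Pat.mk 0x180000000c00000000000000000000000000000000 0x140000001c0000001c0000001c0000000f0000003f0000003f0000001e0000000a 7 6) 0 0 (step_sound _ 129 [(rh53b3c253cb0c65f4.shift 0 4), rh8c8b10d446f7036e] (by decide +kernel))
noncomputable def rh773222da3a2b04ab : CRef := CRef.mk (Pat.mk 0x180000000800000000000000000000000000000000 0x140000001c0000001f0000007c000000180000001c0000001c0000001c00000014 7 7) 0 0 (step_sound _ 99 [(rh15590a39afd9a120.shift 2 0), (rh947561ae8c5c3f87.shift 2 1), (rh9fd6f8a8f2d3ff76.shift 0 2), (rhe3458ab40071103b.shift 3 2), (rhfa50cc73c689e7d7.shift 2 0)] (by decide +kernel))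
noncomputable def rh874a5413e6185731 : CRef := CRef.mk (Pat.mk 0x3000000018000000000000000000000000 0x1c0000003c0000003f000001f8000003f8000001ec0000004c0000004c 7 10) 0 0 (step_sound _ 102 [(rh2489a6362d409e73.shift 3 3), (rh3e11d38d322daa91.shift 2 0), rhbcb79f3f7108faea, (rhe4f6d668bdc5ad8a.shift 2 0), (rhf2096b53960c934b.shift 3 0)] (by decide +kernel))
noncomputable def rh1df0aedb8096a4db : CRef := CRef.mk (Pat.mk 0x8000000080000001800000010000000000000000000000000 0x740000007c0000001f0000007e000000f8000000280000000800000008 7 8) 0 0 (step_sound _ 99 [(rh65553d1cf6a66fa1.shift 2 2), (rh74e2f7e19e462725.shift 0 2), (rhd9ba0a0a73a944bd.shift 0 3), (rhe98701e480a119a6.shift 1 0)] (by decide +kernel))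
noncomputable def rh7d66ea4a731f9a8d : CRef := CRef.mk (Pat.mk 0x40000000c000000080000000800000000 0x8000000080000000a0000000f0000003f0000007e0000007c00000014 7 7) 0 0 (step_sound _ 131 [(rh4868253c0be6b3b5.shift 2 0), rh7a1b3251495d2a98, rh7f08982704ab42ed, rhc7dc7a762dde7f55, (rhc8e755934d85ce20.shift 2 0)] (by decide +kernel))
noncomputable def rhc41724fdce7d0734 : CRef := CRef.mk (Pat.mk 0x8000000080000001800000010000000000000000000000000 0x740000007c0000001f0000007c000000180000000c0000000c0000000c 7 7) 0 0 (step_sound _ 99 [(rh5db541dd5138ce50.shift 2 0), (rh74e2f7e19e462725.shift 0 2), (rhd9ba0a0a73a944bd.shift 0 3)] (by decide +kernel))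
noncomputable def rhf03aacbcc3df6e4c : CRef := CRef.mk (Pat.mk 0x40000000c000000080000000800000000 0x800000008000000080000000c0000001f0000007c0000001f00000017 7 7) 0 0 (step_sound _ 68 [(rh4ca5dae25f5c14ff.shift 0 2), (rhdeca8db941583de2.shift 0 2), rhf7c026bc53c4f557] (by decide +kernel))
noncomputable def rh5b9a340b7623f034 : CRef := CRef.mk (Pat.mk 0x4000000040000000c00000008000000000000000000000000 0x80000000c0000000e0000000f0000007e000000360000000600000006 7 7) 0 0 (step_sound _ 98 [rh3d12a6a350e73883, (rh5db541dd5138ce50.shift 1 0), (rhd00842dd145db022.shift 1 2), rhe98701e480a119a6, (rhf5e15cdcea0762c2.shift 1 0)] (by decide +kernel))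
noncomputable def rhb8707869fc91a845 : CRef := CRef.mk (Pat.mk 0x40000000c000000080000000800000000 0x2000000070000007f0000007e0000007f00000006 7 7) 0 0 (step_sound _ 68 [(rh4ca5dae25f5c14ff.shift 0 2), rhb21162f86e4a4fa1, (rhdeca8db941583de2.shift 0 2), (rhecf6f7b1472117f4.shift 0 1)] (by decide +kernel))
noncomputable def rhdedaacbc108e9270 : CRef := CRef.mk (Pat.mk 0x80000001800000010000000000000000000000000 0x140000001e000000fe000000fc000000ef0000002c00000028 7 8) 0 0 (step_sound _ 101 [(rh4ca5dae25f5c14ff.shift 1 3), (rh91c03a342cfec909.shift 1 0), rhd7ed8fb6d58cac02, (rhdeca8db941583de2.shift 1 3)] (by decide +kernel))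
noncomputable def rh10af8b72d1319e77 : CRef := CRef.mk (Pat.mk 0x1c00000030000000000000000000000000 0x20000000380000003c0000001f0000003c0000003c000000f80000003800000038 7 8) 0 0 (step_sound _ 164 [(rh046c5eb18e55a239.shift 4 0), (rh324c8c18cca60da1.shift 3 1), rh8ac46ec09f0bd44b, (rhb23658ecdd7ce5df.shift 3 2)] (by decide +kernel))
noncomputable def rha96ba96cb8fa87fa : CRef := CRef.mk (Pat.mk 0x1800000070000000000000000000000000 0x1c0000001c0000001f000000380000007f000000f80000003800000038 7 8) 0 0 (step_sound _ 99 [(rh2a14c815463ca7ed.shift 0 2), (rhc85a4b534c1acac6.shift 0 1), (rhcd32eca242b09f3d.shift 2 0), rhf628a75790c80fa6] (by decide +kernel))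
noncomputable def rh53392c1fbfcf14ed : CRef := CRef.mk (Pat.mk 0x1c000000300000000000000000 0x100000003c0000007e0000007f0000003c000000380000001800000018 7 7) 0 0 (step_sound _ 131 [(rh5d54cb79a67f97ab.shift 3 0), (rh7e1098702e50f2b0.shift 3 0), rh8919ac8473224ddd, (rha40d42a2e34c408d.shift 3 0), (rhf063b7e3ec77ce55.shift 2 0)] (by decide +kernel))
noncomputable def rhf0cd777b23c7b936 : CRef := CRef.mk (Pat.mk 0x1800000070000000000000000000000000 0x300000003e0000003f0000003800000078000000780000001800000018 7 7) 0 0 (step_sound _ 164 [(rh3b45e38627644983.shift 3 1), rh87123bce8114cef5, (rhb23658ecdd7ce5df.shift 3 2), (rhffbf5e8cecce2789.shift 4 2)] (by decide +kernel))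
noncomputable def rh275b11eb535b78f4 : CRef := CRef.mk (Pat.mk 0x800000008000000180000000800000000 0x740000007c0000001f000000780000001800000010 7 7) 0 0 (step_sound _ 36 [(rh55afc6a59410cf00.shift 3 0), (rhd9ba0a0a73a944bd.shift 0 1)] (by decide +kernel))
noncomputable def rh3c179895cedc627b : CRef := CRef.mk (Pat.mk 0x100000001000000038000000000000000000000000 0xc000001ef000000fe0000001f000000f8000000380000003800000028 7 9) 0 0 (step_sound _ 163 [(rh0a6888916bcef86b.shift 3 0), (rh435d31d7641f8218.shift 0 3), (rh43d8dfd721575dfb.shift 3 0), rh55e416e3a9b42c1c] (by decide +kernel))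
noncomputable def rha4042802b5003ae4 : CRef := CRef.mk (Pat.mk 0x200000007000000000 0x3e000001fe000003c7 7 10) 0 0 (step_sound _ 7 [(rh20aaab6250709fa0.shift 3 0), rh39b6773ec9e2b9f0, (rh71efda916732b25a.shift 3 0)] (by decide +kernel))
noncomputable def rh858ed6509ac47250 : CRef := CRef.mk (Pat.mk 0x50000000e000000000000000000000000 0x30000000f0000001f000000070000001e000000060000000600000002 7 5) 0 0 (step_sound _ 129 [rhab591875968011f2, (rhf48373e13d2bc128.shift 0 3)] (by decide +kernel))
noncomputable def rh0c995f35f4819a3c : CRef := CRef.mk (Pat.mk 0x28000000700000000000000000000000000000000000000000 0x5000000070000000700000007c0000002f000000780000003000000070000000700000007000000010 7 7) 0 0 (step_sound _ 229 [(rh281c6819542c66e6.shift 4 2), (rh73c65de8818031a3.shift 2 4), (rhcf66e0ded43efe37.shift 0 4), (rhf37899e071594fce.shift 2 0)] (by decide +kernel))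
noncomputable def rh8a3527406c97f972 : CRef := CRef.mk (Pat.mk 0xc0000001c000000000000000000000000 0x60000000f0000001e000000fc0000007f000000ff 7 8) 0 0 (step_sound _ 35 [rh5d33e687d1d84743, rha02ac1560bdab0a3, (rhdd1b84382d19bcbb.shift 2 0)] (by decide +kernel))
noncomputable def rh2cbb8cb7291c39af : CRef := CRef.mk (Pat.mk 0x60000000e000000000000000000000000 0x2000000060000003f0000003e0000000f0000000e 7 6) 0 0 (step_sound _ 100 [rh275a4a62ae6fd56b, (rhf48373e13d2bc128.shift 1 3)] (by decide +kernel))
noncomputable def rhcc33a8a87e377a40 : CRef := CRef.mk (Pat.mk 0xe00000018000000000000000000000000 0x100000003e0000003f0000003f0000001e0000001f000000340000003400000010 7 6) 0 0 (step_sound _ 163 [(rh046c5eb18e55a239.shift 3 0), (rh4964a0fa6196630d.shift 0 2), (rhb23658ecdd7ce5df.shift 2 2), (rhccc942457ed84c86.shift 0 1)] (by decide +kernel))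
noncomputable def rh36e40c206b32edcf : CRef := CRef.mk (Pat.mk 0x8000000180000003000000000 0x1000000038000000780000001e00000038000000ff000000e0 7 8) 0 0 (step_sound _ 131 [(rh2145e1d24b96a57e.shift 3 1), rh91c1d391dbde7b8f] (by decide +kernel))
noncomputable def rh4a6815b72529c013 : CRef := CRef.mk (Pat.mk 0x8000000180000003000000000 0x3c0000007c0000001f00000018000000fc000001e8 7 9) 0 0 (step_sound _ 131 [(rh2145e1d24b96a57e.shift 3 1), rh4d0951384953e751] (by decide +kernel))
noncomputable def rhca7d0bd3243532b3 : CRef := CRef.mk (Pat.mk 0x8000000180000003000000000 0x100000001c0000001e0000007800000038000000ff000000e8 7 8) 0 0 (step_sound _ 131 [(rh2145e1d24b96a57e.shift 3 1), rhbe5a052d87d99c97] (by decide +kernel))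
noncomputable def rh4f9338984dbfb77e : CRef := CRef.mk (Pat.mk 0x80000001800000030000000000000000000000000 0x2000000028000000ff000000ff00000038000000f0000000200000002000000020 7 8) 0 0 (step_sound _ 195 [rh1bf72e5161a38774, (rh2145e1d24b96a57e.shift 3 3)] (by decide +kernel))
noncomputable def rh1e93858954f46045 : CRef := CRef.mk (Pat.mk 0x8000000180000003000000000 0x100000003c0000007e0000007f00000038000000f800000008 7 8) 0 0 (step_sound _ 131 [(rh2145e1d24b96a57e.shift 3 1), rhf23a312d0958259a] (by decide +kernel))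
noncomputable def rh4541e9a0558a07c3 : CRef := CRef.mk (Pat.mk 0x80000001800000030000000000000000000000000 0xc0000000c0000001c00000038000000ff000000e80000000800000008 7 8) 0 0 (step_sound _ 102 [rh8330cbb6a27bbf7b, (rhf48373e13d2bc128.shift 3 3)] (by decide +kernel))
noncomputable def rhde58a946bb775db3 : CRef := CRef.mk (Pat.mk 0x8000000180000003000000000 0x100000003c0000007c0000001f000000380000003f00000068 7 7) 0 0 (step_sound _ 131 [rh0efe6fca977a2ebf, (rh2145e1d24b96a57e.shift 3 1)] (by decide +kernel))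
noncomputable def rhcf541309e5408ea2 : CRef := CRef.mk (Pat.mk 0x80000001800000030000000000000000000000000 0x30000000f7000000ff00000038000000fc000000e80000002800000020 7 8) 0 0 (step_sound _ 102 [rhc8c908ed5c1dbb55, (rhf48373e13d2bc128.shift 3 3)] (by decide +kernel))
noncomputable def rhe420811458f04048 : CRef := CRef.mk (Pat.mk 0x8000000180000003000000000 0x1c0000003c0000000f00000038000000ff000000e8 7 8) 0 0 (step_sound _ 131 [(rh2145e1d24b96a57e.shift 3 1), rh4adac69e82a992fe] (by decide +kernel))
noncomputable def rha23fd9ac9b4840bf : CRef := CRef.mk (Pat.mk 0x20000000200000006000000000000000000000000 0x40000000600000006000000070000003f0000001f00000007 7 6) 0 0 (step_sound _ 65 [rh2d94e8e3c3d1054b, rh3181373a30ceb9e3, (rh88409021de502b9a.shift 0 1), (rhca18712e5e5c7b8f.shift 1 0)] (by decide +kernel))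
noncomputable def rh005b5653a8a55710 : CRef := CRef.mk (Pat.mk 0x180000003000000000000000000000000000000000 0x380000003e0000003f000000380000003800000018000000380000003800000008 7 6) 0 0 (step_sound _ 100 [(rh2358dc2dafec4e17.shift 0 2), (rh43d8dfd721575dfb.shift 3 0), (rh668fc65514a55b16.shift 3 1), (rh68552423cbf5f937.shift 3 0), (rhfa2242deaca05a59.shift 3 1)] (by decide +kernel))
noncomputable def rh93c4b8c1b0259a52 : CRef := CRef.mk (Pat.mk 0x20000000e000000000000000000000000 0x1000000036000000ff0000003f0000000800000008 7 8) 0 0 (step_sound _ 100 [(rh16b1cc749bd38177.shift 0 2), rh8a60fa6d7a2964a7, (rhdc2729b77246fcd3.shift 0 2)] (by decide +kernel))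
noncomputable def rh4d47eb0ff56306d3 : CRef := CRef.mk (Pat.mk 0x10000000780000000000000000000000000000000000000000 0x20000000280000003c00000078000003f8000001fe000003ff000000a000000020 7 10) 0 0 (step_sound _ 100 [(rh5e7b3fa24cae3be3.shift 2 2), (rh67ba5dfbd037b83a.shift 1 2), (rh90c3912a8f22d744.shift 2 2), rha50e9cf3e6c482c1, (rhacd82c98299a77e2.shift 3 2)] (by decide +kernel))
noncomputable def rha65332c72836eaee : CRef := CRef.mk (Pat.mk 0x1000000030000000000000000000000000 0x180000003c0000007f0000003e000000fc000000f80000003800000038 7 8) 0 0 (step_sound _ 164 [(rh046c5eb18e55a239.shift 4 0), (rh2b775b10f113273e.shift 3 0), (rh70e33bfdf511e144.shift 4 0), rh71dcadcf5871b005] (by decide +kernel))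
noncomputable def rhe87cba6a608cedaf : CRef := CRef.mk (Pat.mk 0xe0000000000000000000000000000000000000000 0x400000006000000070000003e0000007700000007000000070000000700000005 7 7) 0 0 (step_sound _ 164 [(rh2eb6cac0fecf3e9c.shift 0 4), (rh56f43794bcf10c2f.shift 0 4), (rh8db7f7558b75b2b1.shift 0 4), rhfd51c958ce1d79dd] (by decide +kernel))
noncomputable def rhae5e765e2eaf7f3e : CRef := CRef.mk (Pat.mk 0x380000000000000000000000000000000000000000 0x80000000c0000000f0000003e0000007f0000000c0000000e0000000e00000002 7 7) 0 0 (step_sound _ 162 [(rh2ba551de881ca4cd.shift 0 4), (rh2cc7d62e70c02209.shift 0 4), (rh5f3e58399e04ad7d.shift 1 0), (rh8195a2d7794c7cd2.shift 0 4)] (by decide +kernel))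
noncomputable def rh7f6976bf763c244c : CRef := CRef.mk (Pat.mk 0x70000000000000000000000000 0x80000007f000000fe0000007f0000001000000010 7 8) 0 0 (step_sound _ 99 [(rh219021521bf409aa.shift 0 2), (rh2cc7d62e70c02209.shift 1 2), (rh7323c4bc64d80e5d.shift 1 2), (rh83bccaa24c38d905.shift 1 2), (rh9a61dc0f685e3a67.shift 0 2), (rhafa5a7051d37b143.shift 2 0)] (by decide +kernel))
noncomputable def rh7740a25bbb550e94 : CRef := CRef.mk (Pat.mk 0x70000000000000000000000000 0x280000003c0000003c000000fc0000007e0000007f000000ff0000007800000070 7 8) 0 0 (step_sound _ 131 [rh495ae15f3cb959f1, (rh5bb95e14e808b63f.shift 2 0), (rhbc11a3baf4586684.shift 1 2), (rhe9f5cbdb6222bb87.shift 1 0), (rhf723f4240e80a77c.shift 2 0)] (by decide +kernel))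
noncomputable def rhb7814337debcc9d4 : CRef := CRef.mk (Pat.mk 0x3000000010000000000000000000000000 0x3c0000003f000000ff0000007e0000001f0000001c00000018 7 8) 0 0 (step_sound _ 99 [rh21adf0cda5d3c975, (rh557b120f072744ca.shift 1 3), (rh69012675dfdb1a5b.shift 1 3), (rh9bfe8d6fc2d7c58d.shift 1 0)] (by decide +kernel))
noncomputable def rh78e7c1661e657299 : CRef := CRef.mk (Pat.mk 0x180000000800000000000000000000000000000000 0x40000001c0000001c000000180000003c000000ff0000003c0000001c00000014 7 8) 0 0 (step_sound _ 99 [(rh421cce82bb1068e3.shift 2 0), (rh815da42dccf39976.shift 0 2), (rhe3458ab40071103b.shift 3 2), (rhffb8e5993241bf15.shift 2 0)] (by decide +kernel))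
noncomputable def rh84e6a37261b9e662 : CRef := CRef.mk (Pat.mk 0x3000000010000000000000000000000000 0xc0000000c0000002f000000ff000000fe000000fe0000003c00000038 7 8) 0 0 (step_sound _ 99 [rh1c6b3d68495c8d5b, (rh557b120f072744ca.shift 1 3), (rh69012675dfdb1a5b.shift 1 3), rhc5df1817f2db5471, (rhd69c262cd33b94b3.shift 1 3)] (by decide +kernel))
noncomputable def rhadea29ebf617206d : CRef := CRef.mk (Pat.mk 0xc0000000c000000000000000000000000 0x2f0000007f0000007f000000700000001000000010 7 7) 0 0 (step_sound _ 100 [rh3e2dc10e82d2dee4, (rh79b3c29022acbdf3.shift 1 3), (rhef3032495df9d34e.shift 1 0)] (by decide +kernel))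
noncomputable def rh85b38d21cc731962 : CRef := CRef.mk (Pat.mk 0x1800000018000000000000000000000000 0x180000001800000018000000380000003f0000003c0000003c 7 6) 0 0 (step_sound _ 67 [(rh7f8bb07996f68c30.shift 2 0), rha8c6c69bcf10af35, (rhea7a1800d6f053bd.shift 3 0)] (by decide +kernel))
noncomputable def rh8c3e71d9c8fc35df : CRef := CRef.mk (Pat.mk 0x600000003000000000000000000000000000000000 0x3000000070000000780000007e000003fc000003bf0000003c0000001c00000004 7 10) 0 0 (step_sound _ 131 [rh03ed918fe7a61665, (rh53b3c253cb0c65f4.shift 2 4)] (by decide +kernel))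
noncomputable def rh335e6e413d277356 : CRef := CRef.mk (Pat.mk 0xc000000040000000400000000 0x20000000e0000000f0000003c0000000e0000000e0000000a 7 6) 0 0 (step_sound _ 130 [(rh0fd870c734e6c513.shift 1 0), (rh29dd5384d80ecb1e.shift 1 0), rh68cbc93d59df6ab1, (rhabedd109a9a37101.shift 1 0)] (by decide +kernel))
noncomputable def rh1edbcb7c686b021e : CRef := CRef.mk (Pat.mk 0x300000001800000000000000000000000000000000 0x200000002800000038000001fe000000fe000000ff0000007c00000008 7 9) 0 0 (step_sound _ 100 [(rh000637b5a81e86aa.shift 3 1), (rh15590a39afd9a120.shift 3 0), rh713301f9956244a5, (rh9bb5c7e5c08d4582.shift 3 1), (rhafa7c0706da6c25c.shift 1 1)] (by decide +kernel))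
noncomputable def rh4433558f581caf9c : CRef := CRef.mk (Pat.mk 0x180000000800000000000000000000000000000000 0x40000001c0000001c0000001c0000003c000000ff0000003c0000001c00000014 7 8) 0 0 (step_sound _ 99 [(rh15590a39afd9a120.shift 2 0), (rh57f103642405ccc5.shift 2 0), (rh815da42dccf39976.shift 0 2), (rhe3458ab40071103b.shift 3 2)] (by decide +kernel))
noncomputable def rhd9ed32d7725970a9 : CRef := CRef.mk (Pat.mk 0x6000000020000000000000000000000000 0x780000007800000078000003fe000007fe000003df000000d8000000d8 7 11) 0 0 (step_sound _ 132 [(rh07eff5fb7ec6961b.shift 1 1), (rh0abc96aeb014a4c7.shift 3 0), (rh1d6cae35902784dc.shift 2 0), (rh355a83c027905a31.shift 1 0), (rh5456737396d79f7b.shift 2 0), (rh7129e9426e6ed4d5.shift 2 0), rh84650f15dbcf1cc5] (by decide +kernel))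
noncomputable def rheeb386b7c799b626 : CRef := CRef.mk (Pat.mk 0x1800000008000000000000000000000000 0x800000018000000180000003e000000ff000001ff0000003c0000003c 7 9) 0 0 (step_sound _ 100 [rh1039c5ce2f4c19f3, rh3fa0fb16d0f4e759, (rh4ecc1d8b8edb1dd7.shift 2 0), rh5aba83cab6723ce1, (rh5dc5071a19a64e2e.shift 2 0)] (by decide +kernel))
noncomputable def rh5914f84218e8c317 : CRef := CRef.mk (Pat.mk 0x18000000080000000000000000 0x44000001c7000000fe000001ff0000002800000028 7 9) 0 0 (step_sound _ 101 [(rh2820ca9a6c4f41b4.shift 0 2), rhcf9e731830f2e4cc, (rhd1af12ee1a1e7b6b.shift 2 0), (rhf0f55c4504412200.shift 0 2)] (by decide +kernel))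
noncomputable def rh731f6a9b27ab01c3 : CRef := CRef.mk (Pat.mk 0x180000000800000000000000000000000000000000 0x140000001c0000001f0000007c0000000f0000007c0000001c0000001c00000014 7 7) 0 0 (step_sound _ 130 [rh33ccb443b853797c, (rh4b3eb4ea56e8de4f.shift 0 1), (rha713ae4c671557eb.shift 0 1), (rhd69c262cd33b94b3.shift 0 4)] (by decide +kernel))
noncomputable def rhcf96154afaddf271 : CRef := CRef.mk (Pat.mk 0x3000000010000000000000000000000000 0x180000001c0000001f000000fc000001fe0000006e0000002c0000002c 7 9) 0 0 (step_sound _ 99 [rh161ae0d8105da037, (rh557b120f072744ca.shift 1 3), (rh69012675dfdb1a5b.shift 1 3), (rhc5433c3efab62c6a.shift 1 0), (rhd69c262cd33b94b3.shift 1 3)] (by decide +kernel))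
noncomputable def rh3832fbcbd5845ca5 : CRef := CRef.mk (Pat.mk 0x70000000000000000000000000 0x140000001c0000001c0000003f0000007f000000fc0000001800000018 7 8) 0 0 (step_sound _ 99 [(rh2ba551de881ca4cd.shift 1 2), rh2be13861698d572b, (rh5b368ce0f43ea00e.shift 2 0), rhc2949011565f2c32] (by decide +kernel))
noncomputable def rh2ac0ccfcedf87db2 : CRef := CRef.mk (Pat.mk 0x1800000008000000000000000000000000 0x100000001c0000001f000000ff000000ff000001f80000003800000038 7 9) 0 0 (step_sound _ 100 [(rh12301fadfa4405fc.shift 1 0), (rh4ecc1d8b8edb1dd7.shift 2 0), (rh7b4129e1045fa224.shift 2 0), rh84ec307f8720b5a4, (rh998c4113d2134dd3.shift 0 1), rhb3e0af99ef9876dd] (by decide +kernel))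
noncomputable def rh2ed6fcac61746cca : CRef := CRef.mk (Pat.mk 0x3000000010000000000000000000000000 0x3c0000003e000000ff0000007f0000001f0000001c0000001c 7 8) 0 0 (step_sound _ 99 [(rh557b120f072744ca.shift 1 3), (rh69012675dfdb1a5b.shift 1 3), (rh9bfe8d6fc2d7c58d.shift 1 0), rhe20e23466711c2c8] (by decide +kernel))
noncomputable def rhc6fc55c05931c33b : CRef := CRef.mk (Pat.mk 0x3000000010000000000000000000000000 0x80000000c0000002e000000ff000000ff0000007f0000003c0000003c 7 8) 0 0 (step_sound _ 99 [(rh557b120f072744ca.shift 1 3), (rh69012675dfdb1a5b.shift 1 3), rhb29daa5f98c19890, rhbfa5db4983018179, (rhd69c262cd33b94b3.shift 1 3)] (by decide +kernel))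
noncomputable def rhf1dafd151d6d65da : CRef := CRef.mk (Pat.mk 0x1800000008000000000000000000000000 0x100000001c0000001f000000ff000000ff000001f80000003800000038 7 9) 0 0 (step_sound _ 100 [(rh12301fadfa4405fc.shift 1 0), (rh4ecc1d8b8edb1dd7.shift 2 0), rh68d755cb979008c1, (rh7b4129e1045fa224.shift 2 0), (rha534c1ebad88f2a8.shift 0 1), rhb3e0af99ef9876dd] (by decide +kernel))
noncomputable def rh286511446b9f7fcc : CRef := CRef.mk (Pat.mk 0x3000000010000000000000000000000000 0x40000003c0000003f000000fe0000007f0000001f0000001c0000001c 7 8) 0 0 (step_sound _ 99 [rh4dabededc3de93b6, (rh557b120f072744ca.shift 1 3), (rh69012675dfdb1a5b.shift 1 3), (rh9bfe8d6fc2d7c58d.shift 1 0)] (by decide +kernel))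
noncomputable def rh5bf0b068ee50e4d0 : CRef := CRef.mk (Pat.mk 0x180000000800000000000000000000000000000000 0x40000001c0000001f000000780000001c0000001c0000001c0000001c00000014 7 7) 0 0 (step_sound _ 99 [(rh2ba5c00738500fa3.shift 2 0), (rh3faf0f13bd4d302b.shift 0 2), (rhe3458ab40071103b.shift 3 2), (rhfa40f754f1f7b88f.shift 2 0)] (by decide +kernel))
noncomputable def rh5329d41c4a3574be : CRef := CRef.mk (Pat.mk 0x180000000800000000000000000000000000000000 0x40000001c0000001c0000001c0000003c000000ff0000003c0000001c00000014 7 8) 0 0 (step_sound _ 99 [(rh42ff8c8492a23a36.shift 2 0), (rh815da42dccf39976.shift 0 2), (rhe3458ab40071103b.shift 3 2), (rhfa40f754f1f7b88f.shift 2 0)] (by decide +kernel))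
noncomputable def rh0d73f80ecc0411d1 : CRef := CRef.mk (Pat.mk 0x3000000010000000000000000000000000 0xc0000000c0000002f000000fe000000fe0000007e0000003c0000003c 7 8) 0 0 (step_sound _ 99 [rh3ff5bebc3cad8499, (rh557b120f072744ca.shift 1 3), (rh69012675dfdb1a5b.shift 1 3), (rhc7107c619831c4d6.shift 1 0), (rhd69c262cd33b94b3.shift 1 3)] (by decide +kernel))
noncomputable def rh15afcc600184ea0e : CRef := CRef.mk (Pat.mk 0x180000000800000000000000000000000000000000 0x140000001c0000001f0000007c000000180000001c0000001c0000001c00000014 7 7) 0 0 (step_sound _ 99 [(rh2ba5c00738500fa3.shift 2 0), (rhc298d563b39d6ad8.shift 0 2), (rhe3458ab40071103b.shift 3 2), (rhfa40f754f1f7b88f.shift 2 0)] (by decide +kernel))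
noncomputable def rh8eb89aa83df5d764 : CRef := CRef.mk (Pat.mk 0x3000000010000000000000000000000000 0x1c0000001c0000001f000000fe000001fe0000006e0000002c00000028 7 9) 0 0 (step_sound _ 99 [(rh557b120f072744ca.shift 1 3), (rh69012675dfdb1a5b.shift 1 3), rha18a76672c88f266, (rhc5433c3efab62c6a.shift 1 0), (rhd69c262cd33b94b3.shift 1 3)] (by decide +kernel))
noncomputable def rhde85c5a48776467b : CRef := CRef.mk (Pat.mk 0x1800000008000000000000000000000000 0x1c0000001c0000001f000000ff000000ff000000f80000003800000038 7 8) 0 0 (step_sound _ 100 [rh04fca38a5ad20273, rh327c45ae5c09717b, rh5f48358c4347ab3c, (rh5f9e286612403f11.shift 1 0), (rh65f4403d7449fc09.shift 0 1), (rh72f67ba7de7c7fcb.shift 0 1), (rh7a51cca7a7894034.shift 0 2), (rhaf39070680da3035.shift 1 0)] (by decide +kernel))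
noncomputable def rha3d6ce20e79459ff : CRef := CRef.mk (Pat.mk 0x3000000010000000000000000000000000 0x8000000080000003c0000003f000000ff0000007e0000001f0000001c0000001c 7 8) 0 0 (step_sound _ 99 [rh148934b3ce9fe4f6, (rh69012675dfdb1a5b.shift 1 3), (rhabf4de66b07a25fd.shift 2 0)] (by decide +kernel))
noncomputable def rh2f73afb34387ad48 : CRef := CRef.mk (Pat.mk 0x1800000008000000000000000000000000 0x80000001800000018000000ff000000ff000000ff0000003c0000003c 7 8) 0 0 (step_sound _ 100 [rh04fca38a5ad20273, (rh1df4b12236d07f6c.shift 1 0), rh3c33051bf234010b, rh5bda94aa9cf45088, (rh5f9e286612403f11.shift 1 0), (rhb6efd5bb53d4054c.shift 1 0)] (by decide +kernel))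
noncomputable def rh6dbe3ec4c8709b89 : CRef := CRef.mk (Pat.mk 0x1800000008000000000000000000000000 0xc0000000e0000007f0000007f0000003f0000001c00000010 7 7) 0 0 (step_sound _ 98 [(rh33de6457261b61ea.shift 1 1), rh62968ce38530e0ed, (rh69012675dfdb1a5b.shift 0 3), (rhd69c262cd33b94b3.shift 0 3)] (by decide +kernel))
noncomputable def rha5a68b067ad9617e : CRef := CRef.mk (Pat.mk 0xc0000000400000000000000000000000000000000 0xa0000000e0000000e0000000e0000003f0000003f0000001e0000000e0000000a 7 6) 0 0 (step_sound _ 98 [(rh19e48db1e9b4e625.shift 1 0), (rh1d8f3e5f61cfcff3.shift 0 2), (rh37f0308d6fa1587c.shift 1 0), (rhe3458ab40071103b.shift 2 2)] (by decide +kernel))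
noncomputable def rh789c91e09f87bf3e : CRef := CRef.mk (Pat.mk 0x3000000010000000000000000000000000 0xc0000000c0000002f000000ff000000fe0000007e0000003c0000003c 7 8) 0 0 (step_sound _ 99 [rh159bd96dc44514b4, (rh69012675dfdb1a5b.shift 1 3), (rhd69c262cd33b94b3.shift 1 3), rhf6deef613192d15a] (by decide +kernel))
noncomputable def rha894cf0d4689241e : CRef := CRef.mk (Pat.mk 0x3000000010000000000000000000000000 0x100000003e000000ff000000fe0000006e0000002c00000028 7 8) 0 0 (step_sound _ 99 [rh27a7e94f1e9b30eb, (rh62968ce38530e0ed.shift 1 0), (rh69012675dfdb1a5b.shift 1 3), (rhd69c262cd33b94b3.shift 1 3)] (by decide +kernel))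
noncomputable def rhed1738c0bf407ab6 : CRef := CRef.mk (Pat.mk 0x1800000010000000180000001800000000 0x40000001e0000007f0000007f0000001f00000004 7 7) 0 0 (step_sound _ 34 [(rhab2ad169e49f9c5e.shift 0 1), (rhc3a9559c72b00d0b.shift 1 0), rhf41718a5bc186473] (by decide +kernel))
noncomputable def rh60b8349102f978fd : CRef := CRef.mk (Pat.mk 0x3800000010 0x1c0000000fe000001ff 7 9) 0 0 (step_sound _ 34 [(rh205dc383ce3b31ea.shift 1 0), (rha03f6e28ea70fc7d.shift 1 0), rhfcb55d5dc3b78d1f] (by decide +kernel))
noncomputable def rh25fe2556d907f3fc : CRef := CRef.mk (Pat.mk 0xc000000080000000800000004 0x1800000018000000180000000f0000003c0000001c00000004 7 6) 0 0 (step_sound _ 131 [(rh163723f31b368eb4.shift 0 1), (rh79877ebd3ef475dd.shift 2 0)] (by decide +kernel))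
noncomputable def rh453bbc632987e7fd : CRef := CRef.mk (Pat.mk 0x1000000010000000380000002000000000 0x100000001f000000ff0000006c00000008 7 8) 0 0 (step_sound _ 66 [rhc58a046df72f738a, (rhe25b0a99195a5d59.shift 2 1)] (by decide +kernel))
noncomputable def rh41243c64a6cce18e : CRef := CRef.mk (Pat.mk 0x40000000e0000000800000000000000000 0x200000002000000067000000fe000001bf0000001000000010 7 9) 0 0 (step_sound _ 100 [rhcbfbb798071e7295, (rhe25b0a99195a5d59.shift 4 2)] (by decide +kernel))
noncomputable def rhb14555163fba2844 : CRef := CRef.mk (Pat.mk 0x8000000080000001c0000001000000000 0x40000000c0000000f0000003e0000003700000006 7 6) 0 0 (step_sound _ 65 [rh9c13babeb0f1676a, (rhe25b0a99195a5d59.shift 1 1)] (by decide +kernel))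
noncomputable def rh0f28be65df90851c : CRef := CRef.mk (Pat.mk 0x1800000030000000200000002000000000 0x38000000ff000000ee0000003c00000018 7 8) 0 0 (step_sound _ 102 [rh2826b46168bfe88b, (rhf48373e13d2bc128.shift 3 3)] (by decide +kernel))
noncomputable def rha72523854160a5e5 : CRef := CRef.mk (Pat.mk 0xc0000000800000008000000000000000000000000 0x8000000080000001f0000003c0000001f0000007c0000001c00000004 7 7) 0 0 (step_sound _ 132 [rh00313a6bfe0ea273, (rhb0121edee88fe839.shift 0 4), (rhf6cf8f98127ece98.shift 1 1)] (by decide +kernel))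
noncomputable def rh8a8bfa37e47410c8 : CRef := CRef.mk (Pat.mk 0x1000000038000000000000002000000000 0x80000000c0000001e0000007c0000000f0000007c00000008 7 7) 0 0 (step_sound _ 130 [rh1b383b45e452640e, (rh508d31626b5d2be8.shift 1 3), (rh54c49bb299227e8d.shift 1 3), (rhea212a187e58a08e.shift 1 0)] (by decide +kernel))
noncomputable def rh9260967c1dcba1c9 : CRef := CRef.mk (Pat.mk 0x7000000020 0x3c7000001fe0000003e 7 10) 0 0 (step_sound _ 71 [(rh7d1eb0a2ac11b171.shift 3 0), (rhb8022f71dc28021b.shift 3 1), rhcc84410612eedd70] (by decide +kernel))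
noncomputable def rhe404d8e18b818631 : CRef := CRef.mk (Pat.mk 0x20000000f000000040 0x8000000080000001bf000000fe00000060 7 9) 0 0 (step_sound _ 71 [(rh33e738c4ed385b9f.shift 4 1), rh5c6d51e6e0982e58] (by decide +kernel))
noncomputable def rhde327d81777b2eac : CRef := CRef.mk (Pat.mk 0x80000003c000000100000000000000000 0x40000000e0000003c0000001e0000000f0000000e 7 6) 0 0 (step_sound _ 66 [rhbcbf9ccfe9127848, (rheb0810cc63b001d8.shift 1 2)] (by decide +kernel))
noncomputable def rh157331829d7e18bc : CRef := CRef.mk (Pat.mk 0x1c00000008 0xe0000000ff0000003f 7 8) 0 0 (step_sound _ 1 [rh72297cd55a503360, rh8860d8e4c00ee140, rhd526f9b20c752965] (by decide +kernel))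
noncomputable def rhe49e5069cfda140c : CRef := CRef.mk (Pat.mk 0x40000000400000004000000000000000000000000 0xa0000000e0000003e0000000f0000000e0000000c0000000e0000000e0000000a 7 6) 0 0 (step_sound _ 195 [(rh08d50fe567eb1045.shift 2 2), (rh1f339fde2d017c6a.shift 1 0), (rh23d0e80c801fc3e0.shift 0 2), (rh5fe3facd957797a3.shift 1 2), (rh87d5e4118780fa3b.shift 2 2)] (by decide +kernel))
noncomputable def rhe63da7eba5efc110 : CRef := CRef.mk (Pat.mk 0x20000000200000002000000000000000000000000 0x10000000700000007000000060000000700000007000000070000000100000001 7 3) 0 0 (step_sound _ 64 [rh3743dbe66b959104, (rhc8ee4b58516747c7.shift 0 1), (rhe16036ff578a11df.shift 0 2)] (by decide +kernel))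
noncomputable def rhecee92ee953574e6 : CRef := CRef.mk (Pat.mk 0x30000000100000001000000010 0x4000000040000000f0000007e0000007f0000001800000010 7 7) 0 0 (step_sound _ 99 [(rh50fbb5868c909700.shift 3 0), (rhdd6db2d0aeb2696f.shift 0 1)] (by decide +kernel))
noncomputable def rh66ec1fca9a3a56bb : CRef := CRef.mk (Pat.mk 0x10000000000000001e0000000000000008 0xc0000000e0000003e000000070000003e0000000c0000000c 7 6) 0 0 (step_sound _ 97 [(rh3244c3cc8379b070.shift 0 2), (rh6cb9a43f141af915.shift 1 0)] (by decide +kernel))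
noncomputable def rh2ed4f3d58488162e : CRef := CRef.mk (Pat.mk 0x8000000000000001e0000000000000004 0x1000000070000001f000000030000001e0000000700000004 7 5) 0 0 (step_sound _ 33 [rhbdfa9cd4bcc2f153, (rheb0810cc63b001d8.shift 0 1)] (by decide +kernel))
noncomputable def rhcab5f46e1c71e73f : CRef := CRef.mk (Pat.mk 0x8000000080000001e0000000000000004 0x50000000f0000001b0000001e0000003700000004 7 6) 0 0 (step_sound _ 36 [rh00228cdf68230caf, (rhe25b0a99195a5d59.shift 1 1)] (by decide +kernel))
noncomputable def rh3ecccf74f20eb0b5 : CRef := CRef.mk (Pat.mk 0x10000000100000001c000000000000000000000000 0x2000000330000001f0000003f000000070000000400000004 7 6) 0 0 (step_sound _ 129 [(rh5c7b241c6adc4f46.shift 0 3), rh8bb330ee5aea9f6b, (rh8bf46c12d40f1a1c.shift 0 2), (rh929b6cc2a4460e7f.shift 0 1), (rhd7f00e502ed2e1a3.shift 0 1)] (by decide +kernel))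
noncomputable def rh256338352f95c8ed : CRef := CRef.mk (Pat.mk 0x200000002000000020000000400000000 0x700000007000000070000000300000003000000030000000600000006 7 3) 0 0 (step_sound _ 33 [rh219b9f23527e426f, (rh55afc6a59410cf00.shift 1 0)] (by decide +kernel))
noncomputable def rh52473350b44de48f : CRef := CRef.mk (Pat.mk 0x80000001800000030000000200000001000000000 0x80000001e0000003c000001ef0000007c00000038 7 9) 0 0 (step_sound _ 37 [(rh7b1f1fb55310c477.shift 4 0), rh9c3a85a56f406021] (by decide +kernel))
noncomputable def rh699e795d43752775 : CRef := CRef.mk (Pat.mk 0x40000000c00000018000000100000000800000000 0x40000001f0000001e000000170000007e000001ff 7 9) 0 0 (step_sound _ 36 [rh4e0564d712376f8d, (rh7b1f1fb55310c477.shift 3 0)] (by decide +kernel))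
noncomputable def rh73c80fb14ae5b08e : CRef := CRef.mk (Pat.mk 0x60000001c000000000000000400000000 0x80000000e0000001f0000003b0000001f0000001e 7 6) 0 0 (step_sound _ 97 [rh057b4130fe0cd6b1, rh127a911b3c3d7adf, rhce9448e86a541921] (by decide +kernel))
noncomputable def rh638cdaa8579ce494 : CRef := CRef.mk (Pat.mk 0x800000008000000180000003000000000 0x60000000f0000003f0000003e0000003c0000000c 7 6) 0 0 (step_sound _ 66 [rh150ad6966af19726, (rhb739f4f82bb681b4.shift 1 1)] (by decide +kernel))
noncomputable def rh0357e9820e0833ca : CRef := CRef.mk (Pat.mk 0x800000000000000180000001800000030 0xc0000000c00000007000000ff0000001f00000032 7 8) 0 0 (step_sound _ 66 [rh01ef127f423122a8, rh85f589451634aebd, (rhc0cac396dc5b96b1.shift 1 0), (rhdaf210947b47bcf0.shift 0 1)] (by decide +kernel))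
noncomputable def rh27f8cd96a1679a80 : CRef := CRef.mk (Pat.mk 0x1000000018000000700000000000000000 0xc0000000f0000007c00000018000000780000001e00000018 7 7) 0 0 (step_sound _ 131 [rh107f22086a442057, (rh3cb04db3dd2b6a55.shift 3 0), (rh971bd05a0d2aa0b0.shift 1 0)] (by decide +kernel))
noncomputable def rh7712cb95b37b646a : CRef := CRef.mk (Pat.mk 0xc00000008000000080000000800000000 0x130000003f0000003f0000000c0000000c00000004 7 6) 0 0 (step_sound _ 132 [(rh2f68792b6b779e96.shift 3 1), rh61a6fff888953c5a] (by decide +kernel))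
noncomputable def rh3cc423a82972812b : CRef := CRef.mk (Pat.mk 0x300000002000000020000000200000000 0x10000000700000007000000060000000300000003000000030000000300000001 7 3) 0 0 (step_sound _ 32 [rh932754581e0f4330, (rhd93f125276afe426.shift 0 1)] (by decide +kernel))
noncomputable def rhf4a9075c093c8e2d : CRef := CRef.mk (Pat.mk 0x200000004000000040000000400000000 0xe0000000e000000040000003c0000000f0000000a 7 6) 0 0 (step_sound _ 130 [(rh50fbb5868c909700.shift 1 1), rhbf5b792126ec9b29] (by decide +kernel))
noncomputable def rh5e94edadc1fa8a68 : CRef := CRef.mk (Pat.mk 0x10000000080000000800000008000000000000000000000000 0x8000000180000001c0000000f0000000c0000000c0000000c0000000c00000004 7 5) 0 0 (step_sound _ 195 [(rh2f68792b6b779e96.shift 3 3), rh3697ed1912c647f5] (by decide +kernel))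
noncomputable def rhe0d170d08524f044 : CRef := CRef.mk (Pat.mk 0x4000000040000000c0000000800000008 0x1000000014000001f7000000ff000000fb0000000a 7 9) 0 0 (step_sound _ 68 [rh11aa9ac9edf0878a, rh305e60cb0bb1bfe3, (rh3f7fa8cb850fe088.shift 1 1), (rh7414e988019ffba0.shift 1 1), rhbb07bccc04294ee7] (by decide +kernel))
noncomputable def rhf1e7ab4410a3a14b : CRef := CRef.mk (Pat.mk 0x10000000700000002000000020 0x4000000040000000dc0000007f000000fe00000020 7 8) 0 0 (step_sound _ 102 [(rh1f92940eb4853ba9.shift 0 1), (rh5dec5e73a267a1c4.shift 2 1), (rh69755ef358ebfd54.shift 5 0)] (by decide +kernel))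
noncomputable def rh1ad8f861c4b90b80 : CRef := CRef.mk (Pat.mk 0x800000008000000080000001800000000000000000000000000000000 0x80000000c0000001f0000007c0000000c0000001c0000001800000010 7 7) 0 0 (step_sound _ 162 [(rh4c761f03f00ba0ef.shift 1 3), (rh4ca5dae25f5c14ff.shift 0 4), (rh4d3c09427c04a9e0.shift 2 0)] (by decide +kernel))
noncomputable def rhdc8cb4833d1e3355 : CRef := CRef.mk (Pat.mk 0x1800000008000000080000001800000000 0x20000000780000007e0000003f000000fc000001e4 7 9) 0 0 (step_sound _ 37 [(rh1a2fe99c65fad43e.shift 1 0), (rh2b76287abc02f433.shift 1 0), (rhf60aa8aede119d3b.shift 0 1), (rhfa8c7f01b0685da6.shift 1 0)] (by decide +kernel))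
noncomputable def rhfa2f7ecb64623595 : CRef := CRef.mk (Pat.mk 0x1800000008000000080000001800000000 0x20000000780000003f0000003f0000007800000028 7 7) 0 0 (step_sound _ 100 [rh2ac10eb3f407f7e5, (rh71222050f2c63a3a.shift 3 0)] (by decide +kernel))
noncomputable def rh34b9d29c6368cccf : CRef := CRef.mk (Pat.mk 0x80000001800000008000000000000000000000000 0x40000001f0000003c000000080000001c0000001c00000014 7 6) 0 0 (step_sound _ 67 [(rh127b405bd7f7b930.shift 3 0), rh939ef62ed65270cd, (rhed57d09380198344.shift 0 2)] (by decide +kernel))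
noncomputable def rh329f740dcf93cdc4 : CRef := CRef.mk (Pat.mk 0x10000000080000000800000018000000000000000000000000 0x100000001c0000001f000000380000000c0000000c0000000c 7 6) 0 0 (step_sound _ 67 [rh12536be2e55bd8a1, (rhbaefcd01e0a8bca3.shift 3 2)] (by decide +kernel))
noncomputable def rh48843b05d6dc58e6 : CRef := CRef.mk (Pat.mk 0x80000000c000000080000000000000000 0x140000001c0000001c0000001c0000003c0000000f0000000c000000080000000800000008 7 6) 0 0 (step_sound _ 163 [(rh4e2df8342d3b8ae8.shift 2 2), (rh5ee4dc8825dcefa0.shift 0 1), (rh69f0587a21bb077f.shift 2 2), (rh7ba44df6cfae6205.shift 2 1), (rhc85cc95794737cf7.shift 2 2), (rhcaa2c1a05e34bcba.shift 2 0)] (by decide +kernel))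
noncomputable def rh08557af11fd12228 : CRef := CRef.mk (Pat.mk 0x80000000c000000380000000000000000 0x1c0000003c0000000f0000000c0000003c0000000e00000004 7 6) 0 0 (step_sound _ 66 [(rh1ae4704ae86cb9a8.shift 1 1), (rh6609c8b2261018fb.shift 0 1), (rh9c40a739b57d6d20.shift 1 0)] (by decide +kernel))
noncomputable def rh9a27fa2504ea7cad : CRef := CRef.mk (Pat.mk 0x200000003000000060000000200000000000000000000000000000000 0x40000001e00000003000000060000000600000007000000070000000700000004 7 5) 0 0 (step_sound _ 226 [(rh2f68792b6b779e96.shift 1 4), rhc4486b2fdd12a140] (by decide +kernel))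
noncomputable def rhffae46864baae3f0 : CRef := CRef.mk (Pat.mk 0x40000000c000000180000001800000000 0x780000007c0000001c000000180000001f00000004 7 7) 0 0 (step_sound _ 131 [(rh2145e1d24b96a57e.shift 3 1), rhdd12ae6e62f783d8] (by decide +kernel))
noncomputable def rh2a8068374453f65c : CRef := CRef.mk (Pat.mk 0xc0000001800000018000000000000000000000000 0x1c000000f8000000ff000000f00000003000000020 7 8) 0 0 (step_sound _ 68 [(rh7b1f1fb55310c477.shift 3 1), rhb27b2b05e51d41c1] (by decide +kernel))
noncomputable def rh6211d4ef158e6d8e : CRef := CRef.mk (Pat.mk 0x80000000e000000080000000000000000 0xf8000000fe000000ff0000003000000030 7 8) 0 0 (step_sound _ 100 [rh0402920aec8ede30, rh0577bda66dd863e2, (rh205dc383ce3b31ea.shift 0 2), (rh3b00e9e9432b8f40.shift 0 2), (rh3fc3a7fb6866dcd4.shift 1 2), (rh67664dc1adb49e16.shift 1 2), rh7419e4ee892f05aa] (by decide +kernel))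
noncomputable def rhbec9ed8fc959a9cb : CRef := CRef.mk (Pat.mk 0x400000004000000040000000c00000000 0x80000000c0000000c0000003f0000003f00000032 7 6) 0 0 (step_sound _ 33 [rh6bbbfef548c00c6a, (rh932754581e0f4330.shift 1 0)] (by decide +kernel))
noncomputable def rhd33b47cc35e44175 : CRef := CRef.mk (Pat.mk 0x800000008000000700000001800000000 0x340000003f0000003c000000780000001800000008 7 7) 0 0 (step_sound _ 67 [rh30fdd73590ee6755, (rh3244c3cc8379b070.shift 2 2)] (by decide +kernel))
noncomputable def rh59f0e88bbab68aaa : CRef := CRef.mk (Pat.mk 0x800000008000000300000001800000000 0x1000000010000000340000007c0000003f000000380000003e00000028 7 7) 0 0 (step_sound _ 34 [(rh53b3c253cb0c65f4.shift 1 1), rhcc133f3fe7a7345b] (by decide +kernel))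
noncomputable def rh54cac6c08ed73a43 : CRef := CRef.mk (Pat.mk 0x1800000008000000180000001800000000 0x40000003c0000000f0000001c0000001f00000007 7 6) 0 0 (step_sound _ 130 [(rh50fbb5868c909700.shift 2 1), rh53ff9d2968507ccf] (by decide +kernel))
noncomputable def rh2d8b9f8fc7ad4c88 : CRef := CRef.mk (Pat.mk 0x8000000080000001800000018 0x740000007c0000003f0000007c00000018 7 7) 0 0 (step_sound _ 100 [(rh2f68792b6b779e96.shift 3 0), rhbd7c6d60261b8791] (by decide +kernel))
noncomputable def rh7a86e6c85c7ea95b : CRef := CRef.mk (Pat.mk 0x1800000008000000100000001800000000 0x1000000018000000180000001c000000ff00000067 7 8) 0 0 (step_sound _ 67 [(rh2f68792b6b779e96.shift 3 1), rh6f37bfcf8fd87e10] (by decide +kernel))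
noncomputable def rh79f41a525b8e75cc : CRef := CRef.mk (Pat.mk 0x400000004000000180000000c00000000 0x800000018000000180000003c0000001f000000780000000c00000004 7 7) 0 0 (step_sound _ 69 [(rh18965a982d73c794.shift 2 1), rhda574724516aabbf] (by decide +kernel))
noncomputable def rhb1fec6f6b628f794 : CRef := CRef.mk (Pat.mk 0x400000004000000180000000c0000000000000000 0xc0000000f0000001a000000ff000000f700000010 7 8) 0 0 (step_sound _ 65 [rh4931d9012da59dca, (rh53b3c253cb0c65f4.shift 0 2)] (by decide +kernel))
noncomputable def rh8cc244d50e8a28d6 : CRef := CRef.mk (Pat.mk 0x40000000c0000000c0000000800000000 0x18000000180000001e0000007c0000001f0000007800000010 7 7) 0 0 (step_sound _ 100 [rh838ed39657197c5b, (rhb762f327c85d41a0.shift 1 2)] (by decide +kernel))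
noncomputable def rh16d888c90591eda5 : CRef := CRef.mk (Pat.mk 0x1800000008000000180000000800000000 0x40000003f0000003f000000780000000c00000004 7 7) 0 0 (step_sound _ 130 [(rh50fbb5868c909700.shift 2 1), rh6583ea35797b09f6] (by decide +kernel))
noncomputable def rh0ed5bc5d6f716db1 : CRef := CRef.mk (Pat.mk 0x8000000080000001800000008 0x40000000c0000001c000000180000007c0000001f0000007800000008 7 7) 0 0 (step_sound _ 66 [(rh0845c696443da834.shift 2 0), (rh4ca5dae25f5c14ff.shift 0 1), rh4f1bf1a2b2d4c4a7, rhc9613fc5bab58382, rhe406449be4e3f09c] (by decide +kernel))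
noncomputable def rh7e7627a60a99036b : CRef := CRef.mk (Pat.mk 0x200000002000000060000000200000000 0x50000000700000007000000030000000300000007000000060000000300000001 7 3) 0 0 (step_sound _ 161 [rh03678942691ac4a3, (rh1148744b53f3df58.shift 0 2), (rh3ca48e2a6d60153d.shift 0 1), (rhc3e3dabddd572587.shift 0 1)] (by decide +kernel))
noncomputable def rh604941e6d05e4d72 : CRef := CRef.mk (Pat.mk 0x200000002000000060000000200000000 0x4000000070000000700000003000000060000001e0000000300000001 7 5) 0 0 (step_sound _ 32 [rh932754581e0f4330, (rhcb543c285f827254.shift 0 1)] (by decide +kernel))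
noncomputable def rh235ccf783b5cc611 : CRef := CRef.mk (Pat.mk 0x8000000080000000800000018000000000000000000000000 0x800000018000001f8000000ff000000e40000002000000020 7 9) 0 0 (step_sound _ 98 [(rh932754581e0f4330.shift 2 2), rhdea740eade73ce59] (by decide +kernel))
noncomputable def rh21c1cd8e28d8ee64 : CRef := CRef.mk (Pat.mk 0x180000001800000010 0xc0000000c0000000e0000007f0000003f00000030 7 7) 0 0 (step_sound _ 131 [rh6a0a5403e1b71a99, (rh6f1cbe15c631ee70.shift 3 0)] (by decide +kernel))
noncomputable def rh1488820752de99cd : CRef := CRef.mk (Pat.mk 0x800000018000000180000001000000000 0x30000000300000007f0000001f000000380000003000000020 7 7) 0 0 (step_sound _ 98 [(rh72722897361e8587.shift 0 2), (rh97b25e6c478b7a54.shift 2 0), (rhad5d8fc3675c15dd.shift 0 2)] (by decide +kernel))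
noncomputable def rh29a06f9f0cecf1d2 : CRef := CRef.mk (Pat.mk 0x4000000060000000c00000004 0x100000003a0000003f0000003e0000000c00000004 7 6) 0 0 (step_sound _ 97 [(rh50fbb5868c909700.shift 1 0), rhed466165ef71abfa] (by decide +kernel))
noncomputable def rh8b6275276bdd173b : CRef := CRef.mk (Pat.mk 0x180000000e00000010 0x200000002000000330000001f0000003e00000034 7 6) 0 0 (step_sound _ 36 [rhdf596cee2362b2b5, (rhe25b0a99195a5d59.shift 1 0)] (by decide +kernel))
noncomputable def rhc739c7f1214dbab7 : CRef := CRef.mk (Pat.mk 0x30000000180000002000000000 0x4000000040000000e7000000ff000000780000002000000020 7 8) 0 0 (step_sound _ 102 [(rh18965a982d73c794.shift 3 2), rha62386c5d732289c] (by decide +kernel))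
noncomputable def rhf7c6bdc158689e74 : CRef := CRef.mk (Pat.mk 0xf00000001 0x2000000020000003f0000003f00000071 7 7) 0 0 (step_sound _ 68 [(rh428265de8cd3cd2d.shift 0 1), rhc06d04a68e8a18ca] (by decide +kernel))
noncomputable def rhf9aa6a63af17cf5b : CRef := CRef.mk (Pat.mk 0x3c00000004 0xe0000000e0000000f0000003e0000007c00000004 7 7) 0 0 (step_sound _ 66 [(rh3244c3cc8379b070.shift 1 1), rhb754bf49ebf4a7f7] (by decide +kernel))
noncomputable def rhdedea0e7ecca7876 : CRef := CRef.mk (Pat.mk 0x8000000780000001000000000 0x1c0000001f00000038000000780000001c00000008 7 7) 0 0 (step_sound _ 35 [rhbcfe8b514a771277, (rheb0810cc63b001d8.shift 2 1)] (by decide +kernel))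
noncomputable def rh8e490d90921524fe : CRef := CRef.mk (Pat.mk 0x1e00000004 0xa0000000f0000003f0000001f00000004 7 6) 0 0 (step_sound _ 68 [(rh33e738c4ed385b9f.shift 1 1), rhd95fd2dfef9a64f0] (by decide +kernel))
noncomputable def rh844cc645adb6fb73 : CRef := CRef.mk (Pat.mk 0xc0000000c00000008 0xc0000001c0000003c0000003f0000000f00000008 7 6) 0 0 (step_sound _ 130 [rh38aa14c34fdb45f5, (rh6f1cbe15c631ee70.shift 2 0)] (by decide +kernel))
noncomputable def rh481ef30bbe835e7a : CRef := CRef.mk (Pat.mk 0x400000004000000080000000000000000 0x20000000e0000000e0000000f0000003e0000000e0000000e0000000c00000008 7 6) 0 0 (step_sound _ 162 [(rh06db9e6274c81a1c.shift 1 2), (rh2977b00063528966.shift 2 0), (rh9dd91bba88ed65ca.shift 0 1)] (by decide +kernel))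
noncomputable def rh4e264bcae71bec50 : CRef := CRef.mk (Pat.mk 0x80000000c000000180000001000000000 0x30000000300000007f0000001f0000001f0000003000000020 7 7) 0 0 (step_sound _ 97 [rh7781e69ec0bb2835, (rhb739f4f82bb681b4.shift 0 2)] (by decide +kernel))
noncomputable def rh4469016d200750cd : CRef := CRef.mk (Pat.mk 0x100000001c000000300000002000000000 0xc0000000e0000001f0000001c0000007c0000006c0000000c 7 7) 0 0 (step_sound _ 67 [rhefb0c53adfcd0745, (rhf48373e13d2bc128.shift 2 2)] (by decide +kernel))
noncomputable def rhe485a59421f95ab7 : CRef := CRef.mk (Pat.mk 0x80000000c00000018 0x30000000300000003f0000001f00000038 7 6) 0 0 (step_sound _ 33 [rh4f0228f209418134, rhb739f4f82bb681b4] (by decide +kernel))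
noncomputable def rh5a114d3cc13d364d : CRef := CRef.mk (Pat.mk 0x3000000018000000300000002000000000 0x8000000ef000000ff000000180000007c000001ec0000000c 7 9) 0 0 (step_sound _ 134 [(rh18965a982d73c794.shift 3 3), rh5505e5994a2ec190] (by decide +kernel))
noncomputable def rh484dc447f88f2e02 : CRef := CRef.mk (Pat.mk 0x1000000018000000300000002000000000 0x40000001f000000380000007f000001ec0000000c 7 9) 0 0 (step_sound _ 67 [(rh8ee80cc30e93a344.shift 2 1), rhaf2aa129085eb875, (rhb49dd4c1c654d6df.shift 0 1)] (by decide +kernel))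
noncomputable def rhbd455e311445a0f3 : CRef := CRef.mk (Pat.mk 0x40000000c0000003800000008000000000000000000000000 0x80000000c0000001c0000003c0000003f000000660000002000000020 7 7) 0 0 (step_sound _ 98 [(rh1ed7a3503fa50fc8.shift 0 3), (rh73867790a8138b22.shift 1 0), (rheff198f4e8d1bfcc.shift 2 2)] (by decide +kernel))
noncomputable def rh2d4f16b1b12ca8a2 : CRef := CRef.mk (Pat.mk 0x800000018000000300000001000000000 0x120000001f0000001e000000360000003e0000006c 7 7) 0 0 (step_sound _ 98 [rh54403cbdbec52a50, (rhb739f4f82bb681b4.shift 1 2)] (by decide +kernel))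
noncomputable def rh13f168cd6ad99b8d : CRef := CRef.mk (Pat.mk 0x40000000e000000180000000800000000 0x30000000300000013000000370000001e0000001f0000000f00000004 7 6) 0 0 (step_sound _ 100 [(rh5421160f8e9bcf07.shift 1 1), rhc161b2ea2f8bdeae] (by decide +kernel))
noncomputable def rh9728abd64914e3e4 : CRef := CRef.mk (Pat.mk 0xc0000001c000000100000001000000000 0x4000000060000000f0000001f0000001e0000007e0000000c 7 7) 0 0 (step_sound _ 129 [rh7dfc9649b3b92918, (rhb739f4f82bb681b4.shift 0 3)] (by decide +kernel))
noncomputable def rh06120442e709787e : CRef := CRef.mk (Pat.mk 0xc0000001800000030 0x400000004000000070000003f0000001f00000032 7 6) 0 0 (step_sound _ 65 [rh1335ec572e721337, (rhb739f4f82bb681b4.shift 0 1)] (by decide +kernel))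
noncomputable def rheefdfe4489a99729 : CRef := CRef.mk (Pat.mk 0x4000000060000000c0000001800000000 0x30000000300000007000000060000001f0000001b00000003 7 5) 0 0 (step_sound _ 65 [rh3dcbad35de31d504, (rhb739f4f82bb681b4.shift 0 1)] (by decide +kernel))
noncomputable def rhc44fdd3b0adb5fce : CRef := CRef.mk (Pat.mk 0xc00000018 0xe7000000ff00000038 7 8) 0 0 (step_sound _ 33 [rh88544cdc1fe14640, rhb739f4f82bb681b4] (by decide +kernel))
noncomputable def rh18b9378bc2cf51de : CRef := CRef.mk (Pat.mk 0x80000000c0000001c0000000000000000 0x6000000060000007f0000007f0000001c0000000400000004 7 7) 0 0 (step_sound _ 97 [rhb5e70b72cb636d03, (rhb739f4f82bb681b4.shift 0 2)] (by decide +kernel))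
noncomputable def rh0c6aad52e9ca7b05 : CRef := CRef.mk (Pat.mk 0x40000000c000000080000000000000000 0x1800000018000000180000003c0000001f000000780000001800000018 7 7) 0 0 (step_sound _ 35 [(rh7b1f1fb55310c477.shift 2 0), rhad165bdc5f7078e8] (by decide +kernel))
noncomputable def rh80e4b49e6ee985ca : CRef := CRef.mk (Pat.mk 0x100000001c000000100000000000000000 0x280000006f0000007f0000007c000000100000001000000010 7 7) 0 0 (step_sound _ 131 [(rh4e448da1f2ebc7c7.shift 2 0), (rh7c1de25a17f5bcdb.shift 0 2), (rhfc7c29d8e65d775f.shift 3 1)] (by decide +kernel))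
noncomputable def rh3d09aface44b7580 : CRef := CRef.mk (Pat.mk 0x1000000010000000380000000000000000 0xc0000000c0000001f0000001f0000007c0000000c0000000c 7 7) 0 0 (step_sound _ 99 [rh57c20aa49d8140a1, (rh6b8552451498ff61.shift 2 0), (rhe2b63c00a3d7bb73.shift 1 2)] (by decide +kernel))
noncomputable def rhc0c32fc587a1de34 : CRef := CRef.mk (Pat.mk 0x8000000080000000c000000100000000000000000 0x60000000f0000003c0000000f0000003c0000000c00000004 7 6) 0 0 (step_sound _ 66 [(rh42548283029e2a39.shift 2 0), (rhce271304d1aee53d.shift 0 1), (rhf9af042da61fc652.shift 2 0)] (by decide +kernel))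
noncomputable def rh991cca38b3f3a020 : CRef := CRef.mk (Pat.mk 0x800000010000000100000001800000000 0x40000000f0000007e000000f80000001e00000014 7 8) 0 0 (step_sound _ 99 [rh63b03cd554fe0b7b, (rh7b1f1fb55310c477.shift 3 0)] (by decide +kernel))
noncomputable def rh84b79e0a4a05bcf2 : CRef := CRef.mk (Pat.mk 0x18000000100000001000000018 0x140000001e000000f7000000ff0000001f 7 8) 0 0 (step_sound _ 35 [rh55fc0fbb3b52d19f, (rh5c5e593799055d58.shift 3 0)] (by decide +kernel))
noncomputable def rh611a642f45404bbd : CRef := CRef.mk (Pat.mk 0x100000001000000030000000200000000000000000 0x800000018000001df000000fe000001ef0000000c00000008 7 9) 0 0 (step_sound _ 99 [rh7e2bec390ca584ed, (rh8ee80cc30e93a344.shift 2 2), (rha423bcca7e3161f5.shift 2 0), (rhc8ae77ecad49585e.shift 1 1), (rhc92c11e8da6c894f.shift 0 2)] (by decide +kernel))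
noncomputable def rh6b49461e468e74eb : CRef := CRef.mk (Pat.mk 0x1000000070000000200000002000000000 0x1c0000007f000000fe0000003c00000018 7 8) 0 0 (step_sound _ 99 [(rh5ada0a7e0c8eff0d.shift 0 2), (rha03f6e28ea70fc7d.shift 2 2), (rhe7e904f05c6d97c3.shift 2 0)] (by decide +kernel))
noncomputable def rh9611113c96aca85d : CRef := CRef.mk (Pat.mk 0x800000008000000080000001c000000000000000000000000 0x100000001800000018000003bf000001fe000003e00000002000000020 7 10) 0 0 (step_sound _ 101 [(rh2ec1d6bc043935c8.shift 1 0), (rhc185cb209e6b4ecc.shift 0 2), (rhe3060b190bc0bc78.shift 1 3)] (by decide +kernel))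
noncomputable def rh9c4d1961a8a2466b : CRef := CRef.mk (Pat.mk 0x2000000030000000600000004000000000000000000000000 0x1d0000001f0000000f0000001f00000006000000020000000200000002 7 5) 0 0 (step_sound _ 131 [rh19feab3eeec83288, (rhf48373e13d2bc128.shift 0 4)] (by decide +kernel))
end Crest.Agent.S0047.Helper85.Cert
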