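import Crest.Agent.Lib.S0047.Helper85CertPL6F0
import Crest.Agent.Lib.S0047.Helper85CertPL6F1
import Crest.Agent.Lib.S0047.Helper85CertPL6F2
import Crest.Agent.Lib.S0047.Helper85CertPL6F3
import Crest.Agent.Lib.S0047.Helper85CertPL6F4
import Crest.Agent.Lib.S0047.Helper85CertPL6F5
import Crest.Agent.Lib.S0047.Helper85CertPL6F6
import Crest.Agent.Lib.S0047.Helper85CertPL6F7
import Crest.Agent.Lib.S0047.Helper85CertPL6F8
import Crest.Agent.Lib.S0047.Helper85CertPL6F9
import Crest.Agent.Lib.S0047.Helper85CertPL6F10
import Crest.Agent.Lib.S0047.Helper85CertPL6F11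
import Crest.Agent.Lib.S0047.Helper85CertPL6F12
set_option autoImplicit false
set_option linter.all false
set_option Elab.async false
namespace Crest.Agent.S0047.Helper85.Cert
open Crest.Agent.S0047.Helper85

noncomputable def rh5e90be94acd67228 : CRef := CRef.mk (Pat.mk 0x1800000008000000180000001800000000 0x40000001c0000000f0000001e0000001f00000007 7 5) 0 0 (step_sound _ 34 [(rh932754581e0f4330.shift 2 0), rhdd6d59ee49c09128] (by decide +kernel))
noncomputable def rh4c1fe3e45df8584e : CRef := CRef.mk (Pat.mk 0x80000000c00000018000000000000000000000000 0x40000000c0000001f0000001e0000001f0000001e00000018 7 5) 0 0 (step_sound _ 129 [rh149e885626cf9ed8, (rhb739f4f82bb681b4.shift 0 3)] (by decide +kernel))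
noncomputable def rh9bb4f9a328384ec4 : CRef := CRef.mk (Pat.mk 0x8000000080000001c000000100000000000000000 0xe0000000f0000001e000000370000000600000006 7 6) 0 0 (step_sound _ 97 [rh4d4687aa70fe7817, (rhe25b0a99195a5d59.shift 1 2)] (by decide +kernel))
noncomputable def rhe5681d44df344598 : CRef := CRef.mk (Pat.mk 0x800000008000000180000001000000000 0x140000001f00000038000000380000003f0000002c 7 6) 0 0 (step_sound _ 35 [rh6fae963f33cfdfd7, rh83108174dbb9c1c7] (by decide +kernel))
noncomputable def rh01a4cd2387c4896f : CRef := CRef.mk (Pat.mk 0x8000000080000001c000000000000000000000000 0x6000000060000000f0000003f0000003e000000070000000600000004 7 6) 0 0 (step_sound _ 129 [(rh4a8bbfee69f3dc46.shift 0 1), (rh508d31626b5d2be8.shift 0 3), (rh54c49bb299227e8d.shift 0 3), rhea212a187e58a08e] (by decide +kernel))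
noncomputable def rh552bf1f1aa74ae55 : CRef := CRef.mk (Pat.mk 0x8000000080000001c0000000000000000 0x80000003e000000fe000000e700000004 7 8) 0 0 (step_sound _ 69 [(rhae036cc4ef671676.shift 1 0), (rhcfd880e1b6719363.shift 0 1), (rhe3060b190bc0bc78.shift 1 2)] (by decide +kernel))
noncomputable def rh75f46712f2f8a6d8 : CRef := CRef.mk (Pat.mk 0x20000000f000000010000000000000000 0x400000004000000e60000007f000000fd0000000900000009 7 8) 0 0 (step_sound _ 32 [rh71222050f2c63a3a, rhe370c50f7fe8f953] (by decide +kernel))
noncomputable def rh8d5911db86e29038 : CRef := CRef.mk (Pat.mk 0x8000000080000001e000000100000000000000000 0xe0000000f0000001e000000170000001600000016 7 5) 0 0 (step_sound _ 129 [(rh3244c3cc8379b070.shift 0 3), rh7cde6e675584814f] (by decide +kernel))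
noncomputable def rh6e7d39c7b1952ebf : CRef := CRef.mk (Pat.mk 0x8000000080000001e0000000000000000 0x60000000f0000003f0000001e0000000700000006 7 6) 0 0 (step_sound _ 97 [rh02c5b3b2a630e2c6, (rh3244c3cc8379b070.shift 0 2)] (by decide +kernel))
noncomputable def rhe55d2bab1fefb0cb : CRef := CRef.mk (Pat.mk 0x8000000080000001c000000000000000000000000 0xa0000001b0000003e000000370000001400000014 7 6) 0 0 (step_sound _ 68 [(rh08edf065357d68e5.shift 3 0), rh4aafb5e06ab3efec] (by decide +kernel))
noncomputable def rhb4779000d9ddf681 : CRef := CRef.mk (Pat.mk 0x8000000080000001800000000000000000000000000000000 0x30000000780000001e000000380000001f0000001c0000001c0000000c 7 7) 0 0 (step_sound _ 100 [(rh08edf065357d68e5.shift 3 1), (rh79ad7b82ec8c35e2.shift 3 1), rha48f6fc7a487b639] (by decide +kernel))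
noncomputable def rh5ce75b20d9714076 : CRef := CRef.mk (Pat.mk 0x1a00000038000000200000000000000000 0x1c0000003c0000001f0000001b00000038000000280000000800000008 7 6) 0 0 (step_sound _ 163 [(rh28152048bc8b598f.shift 0 2), (rh4f89f797aa397115.shift 3 2), (rh6e0ff23ebf0ef8f4.shift 2 1), (rhceaf33131d61cecd.shift 0 1), (rhf7c77fe48087fd5b.shift 2 0)] (by decide +kernel))
noncomputable def rh08ee610b43c2b6a4 : CRef := CRef.mk (Pat.mk 0x800000018000000100000000000000000 0x340000007f0000003e000000180000001800000018 7 7) 0 0 (step_sound _ 36 [(rh7b1f1fb55310c477.shift 3 0), rhc44ca10770bd6fad] (by decide +kernel))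
noncomputable def rh2e8d127313a76482 : CRef := CRef.mk (Pat.mk 0x1800000030000000100000000000000000 0x38000000ff000000ff0000000c0000000c 7 8) 0 0 (step_sound _ 102 [rha67ab1cd140e0aa1, (rhf48373e13d2bc128.shift 3 3)] (by decide +kernel))
noncomputable def rh2bc5e232118022fb : CRef := CRef.mk (Pat.mk 0x2000000020000000200000006000000000000000000000000 0x200000002000000060000003e0000003f000000390000000800000008 7 6) 0 0 (step_sound _ 130 [rh038bd9d8503ca684, (rh2145e1d24b96a57e.shift 1 3)] (by decide +kernel))
noncomputable def rh1782fbcdf7f44f30 : CRef := CRef.mk (Pat.mk 0x180000001c0000000000000000 0x200000006000000070000001f0000001f0000000700000002 7 5) 0 0 (step_sound _ 65 [(rh53b3c253cb0c65f4.shift 0 2), rha82bf9e83b78fa91] (by decide +kernel))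
noncomputable def rh4dd4a41c83d740e1 : CRef := CRef.mk (Pat.mk 0x80000000c0000001c0000001000000000 0x6000000070000007f0000007f0000001c000000fc00000028 7 8) 0 0 (step_sound _ 97 [rhaf6764a20489369e, (rhb739f4f82bb681b4.shift 0 2)] (by decide +kernel))
noncomputable def rh8ba13d5ca0079006 : CRef := CRef.mk (Pat.mk 0x80000000c0000001c000000100000000000000000 0x20000000260000007f0000007c0000003c0000007f0000000a00000008 7 7) 0 0 (step_sound _ 67 [(rh3e09046ae4424481.shift 0 1), (rh63e9f6f700e4b92e.shift 2 0), (rhfc7c29d8e65d775f.shift 2 1)] (by decide +kernel))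
noncomputable def rh3799ddd7e21861f6 : CRef := CRef.mk (Pat.mk 0x40000000c000000080000000800000000 0x180000003c0000000f0000000f0000003e00000016 7 6) 0 0 (step_sound _ 131 [rh5b6e3d643b3ec5d2, (rhc0ddb33d3a52722b.shift 0 1)] (by decide +kernel))
noncomputable def rha8b8347b395d94f1 : CRef := CRef.mk (Pat.mk 0x180000001800000010 0xc0000000c000000ef000000ff0000001f00000010 7 8) 0 0 (step_sound _ 131 [(rh47139f9187ed97db.shift 0 1), (rh6f1cbe15c631ee70.shift 3 0)] (by decide +kernel))
noncomputable def rh4da2778a5d645386 : CRef := CRef.mk (Pat.mk 0x80000000c000000180000001000000000 0x26000000370000007f0000007c0000003c0000001c00000008 7 7) 0 0 (step_sound _ 130 [(rh3cb04db3dd2b6a55.shift 2 0), (rh6e6676c2aa695de5.shift 1 0), (rhad62903e498a795b.shift 0 1)] (by decide +kernel))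
noncomputable def rha702142e0e365bd3 : CRef := CRef.mk (Pat.mk 0x100000003000000060000000200000000 0x60000001e0000001f000000070000001f0000000600000004 7 5) 0 0 (step_sound _ 67 [rhdc53788c3a2b485f, (rhf48373e13d2bc128.shift 0 2)] (by decide +kernel))
noncomputable def rhf9274af25d02a6a0 : CRef := CRef.mk (Pat.mk 0x80000000c000000180000000000000000 0xe0000000e0000000e0000003c0000001f0000000f0000000e 7 6) 0 0 (step_sound _ 66 [(rh1e309b005ffa1b36.shift 2 0), (rh7a73fc768f4f8661.shift 0 1), rhde100c112ae876ff] (by decide +kernel))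
noncomputable def rh48b421ddb5394e27 : CRef := CRef.mk (Pat.mk 0x80000000c000000180000000000000000 0x40000000c0000000c0000003c0000007f0000000e0000000c 7 7) 0 0 (step_sound _ 69 [rhbe85489e958392d8, (rhf48373e13d2bc128.shift 2 2)] (by decide +kernel))
noncomputable def rh53d3759dfdf176ab : CRef := CRef.mk (Pat.mk 0x1000000018000000300000000000000000 0x1000000078000000ff000000ef00000008 7 8) 0 0 (step_sound _ 70 [rhbaeaa3ef8c3bbd0e, (rhf48373e13d2bc128.shift 3 2)] (by decide +kernel))
noncomputable def rh83f1982326c52b53 : CRef := CRef.mk (Pat.mk 0xc0000001c000000100000001000000000 0x2000000060000000f0000001f0000001f0000003c00000008 7 6) 0 0 (step_sound _ 129 [rh831d5157f06f012f, (rhb739f4f82bb681b4.shift 0 3)] (by decide +kernel))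
noncomputable def rh12bd03a29eed9879 : CRef := CRef.mk (Pat.mk 0x2000000020000000200000002000000000000000000000000 0x1000000070000001f0000000600000002000000030000000300000001 7 5) 0 0 (step_sound _ 192 [rh23b7fb079f58dcf6, (rh50fbb5868c909700.shift 0 3)] (by decide +kernel))
noncomputable def rh52a2bff957a16899 : CRef := CRef.mk (Pat.mk 0x100000003800000000 0x7f000001fe000001c7 7 9) 0 0 (step_sound _ 34 [rh592c7139d2c44767, (rh786297492859cbf3.shift 1 0), (rhec46bd5500c722c9.shift 1 1)] (by decide +kernel))
noncomputable def rhad170aec7bd76d6f : CRef := CRef.mk (Pat.mk 0x100000002000000020000000200000000000000000000000000000000 0x500000007000000060000000200000002000000070000000700000005 7 3) 0 0 (step_sound _ 97 [rh95311890f436bcdc, (rhffd04209dc8ea796.shift 0 3)] (by decide +kernel))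
noncomputable def rh35c6e15755c2dbad : CRef := CRef.mk (Pat.mk 0x4000000040000001c000000000000000000000000 0x80000000c0000000c0000001f0000003f0000001e00000008 7 6) 0 0 (step_sound _ 67 [(rh08edf065357d68e5.shift 2 0), (rh79ad7b82ec8c35e2.shift 2 0), (rhdeca8ce25464b16d.shift 0 1)] (by decide +kernel))
noncomputable def rhf09e968548d6cdac : CRef := CRef.mk (Pat.mk 0x800000008000000380000001800000000 0x340000003f00000038000000f80000001800000008 7 8) 0 0 (step_sound _ 132 [(rh2f68792b6b779e96.shift 3 1), rhf50a1eb46d4bb263] (by decide +kernel))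
noncomputable def rh1271188ef2f1cb9b : CRef := CRef.mk (Pat.mk 0x40000000c000000180000000800000000 0x10000000370000001f0000001b0000000f00000006 7 6) 0 0 (step_sound _ 97 [rh21c32a5acf912730, (rhb739f4f82bb681b4.shift 0 2)] (by decide +kernel))
noncomputable def rh0e8a2f2c58a560f0 : CRef := CRef.mk (Pat.mk 0x8000000180000003000000000 0x34000000760000007f0000003e0000003800000028 7 7) 0 0 (step_sound _ 66 [rha90e1f61a21cd7a1, (rhb739f4f82bb681b4.shift 1 1)] (by decide +kernel))
noncomputable def rh1e926bd97b6561f0 : CRef := CRef.mk (Pat.mk 0x8000000080000003000000010000000000000000000000000 0x40000000c0000000f0000003e0000007e0000001c0000001c0000000c 7 7) 0 0 (step_sound _ 131 [(rh79ad7b82ec8c35e2.shift 3 1), rh7cbb61f5b5f0400a, (rh9cc11b924c4740a0.shift 1 1), (rhffb35f5e5ddd6656.shift 1 2)] (by decide +kernel))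
noncomputable def rhbe96e73b57520a11 : CRef := CRef.mk (Pat.mk 0x400000007000000180000000800000000 0x10000000300000007000000070000001f0000000f00000003 7 5) 0 0 (step_sound _ 65 [rh3768f88b81f28ec5, (rh5419adcd928dba20.shift 0 2)] (by decide +kernel))
noncomputable def rh5477c6f82b378030 : CRef := CRef.mk (Pat.mk 0x1400000006000000180000000800000000 0x10000000370000001e0000001b0000000f00000006 7 6) 0 0 (step_sound _ 100 [(rh5c5e593799055d58.shift 3 1), rhaab3cb5af195b70b] (by decide +kernel))
noncomputable def rh9a748256ca6b18ca : CRef := CRef.mk (Pat.mk 0x180000000c000000080000000000000000 0x380000003f0000003f0000003000000010 7 6) 0 0 (step_sound _ 97 [(rh53b3c253cb0c65f4.shift 0 3), rh69b48c88c107d4c8] (by decide +kernel))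
noncomputable def rh33b550daf25fb661 : CRef := CRef.mk (Pat.mk 0x800000008000000100000001c00000000 0x340000003f00000038000000180000001c0000000c 7 6) 0 0 (step_sound _ 67 [rh30fdd73590ee6755, (rh932754581e0f4330.shift 2 0)] (by decide +kernel))
noncomputable def rhe9c1cbc9e7abcc1f : CRef := CRef.mk (Pat.mk 0x2000000020000001c00000006000000000000000000000000 0x3c0000003e0000000e0000001f0000003e0000003b0000001300000013 7 6) 0 0 (step_sound _ 194 [rh67e8cd3dee14de5c, (rhbb5a9587afe30530.shift 1 2), (rheb00f67a287487da.shift 1 2), (rhf31f90eeb168503d.shift 1 2), rhfb58e28e7ccdf54d] (by decide +kernel))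
noncomputable def rhef34dd2d1df65bf9 : CRef := CRef.mk (Pat.mk 0x80000001c000000300000000000000000 0x120000001f0000001c000000360000003e0000007c 7 7) 0 0 (step_sound _ 36 [rh54403cbdbec52a50, (rh7b1f1fb55310c477.shift 3 0)] (by decide +kernel))
noncomputable def rh4e92419a88d97728 : CRef := CRef.mk (Pat.mk 0x8000000080000003800000000000000000000000000000000 0x140000003c0000000f000000380000001e0000001c0000001c00000014 7 6) 0 0 (step_sound _ 99 [(rh900a894640be090c.shift 0 2), (rhc850b49d039efae1.shift 2 0), (rhfbf2eae4035425b6.shift 1 2)] (by decide +kernel))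
noncomputable def rhcba651e7f32fbbf2 : CRef := CRef.mk (Pat.mk 0x2000000020000000e00000002000000000000000000000000 0x20000000a0000003f0000003e000000340000001000000010 7 6) 0 0 (step_sound _ 98 [rh240ea196c381e9e6, (rh55afc6a59410cf00.shift 1 2)] (by decide +kernel))
noncomputable def rh0a9eb427d47563e4 : CRef := CRef.mk (Pat.mk 0x2000000020000001e0000000000000000 0x400000006000000060000001f0000003f0000000e 7 6) 0 0 (step_sound _ 33 [rh47badf510c4f1d40, (rheb0810cc63b001d8.shift 0 1)] (by decide +kernel))
noncomputable def rhd5e941dd7eda0e39 : CRef := CRef.mk (Pat.mk 0x1000000018000000380000000000000000 0xc0000000c0000001c0000001e0000003f0000000f0000000c 7 6) 0 0 (step_sound _ 98 [rh98f40fc162ed4ff4, (rhb739f4f82bb681b4.shift 1 2)] (by decide +kernel))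
noncomputable def rhdb3a1bb66dd3530b : CRef := CRef.mk (Pat.mk 0x1800000010000000100000003800000000 0x240000003e000000760000001e0000007e00000007 7 7) 0 0 (step_sound _ 133 [(rh2f68792b6b779e96.shift 4 1), rhf005b0ef2e7299cd] (by decide +kernel))
noncomputable def rh025838aa829fc9ce : CRef := CRef.mk (Pat.mk 0x18000000100000001000000010 0x1e7000001fe000003ff0000001000000010 7 10) 0 0 (step_sound _ 101 [(rh07ed8b390c9ab519.shift 0 2), (rh2f68792b6b779e96.shift 4 0)] (by decide +kernel))
noncomputable def rhf461b7f08f40c428 : CRef := CRef.mk (Pat.mk 0x800000010000000100000003800000000 0xc0000000f0000007c0000001e0000007c00000004 7 7) 0 0 (step_sound _ 67 [rh1e0e8d0beac44f72, (rhe2b63c00a3d7bb73.shift 1 1)] (by decide +kernel))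
noncomputable def rh14754ad38483e50c : CRef := CRef.mk (Pat.mk 0x400000008000000000000001e00000000 0x20000000f0000003e000000070000003e00000002 7 6) 0 0 (step_sound _ 65 [rh1ea7a784f86955e5, (rh3244c3cc8379b070.shift 0 1)] (by decide +kernel))
noncomputable def rh82a1d45bf4612014 : CRef := CRef.mk (Pat.mk 0x100000003800000028000000200000000000000000 0x40000001e00000038000001ef0000007c000000ce00000044 7 9) 0 0 (step_sound _ 67 [rh27ef558486223a9e, (rh71222050f2c63a3a.shift 3 1)] (by decide +kernel))
noncomputable def rhbda9331218200c7b : CRef := CRef.mk (Pat.mk 0x40000000e000000010 0x7c000000fe0000003f 7 8) 0 0 (step_sound _ 36 [rha4c75fe46c20d17d, (rheb0810cc63b001d8.shift 3 0)] (by decide +kernel))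
noncomputable def rhe7a0562c2739c867 : CRef := CRef.mk (Pat.mk 0x80000001c000000020000001000000000 0x40000000c0000003e000000070000003e0000000e 7 6) 0 0 (step_sound _ 97 [(rh9e6e413e17d8de61.shift 1 0), (rheb0810cc63b001d8.shift 0 2)] (by decide +kernel))
noncomputable def rhb6a1248ee5fc2ccd : CRef := CRef.mk (Pat.mk 0x1000000018000000300000002000000000 0x40000001f000000380000007f0000006e0000000c 7 7) 0 0 (step_sound _ 67 [(rh9e221b83ec21a6df.shift 1 0), rhaf2aa129085eb875, (rhb49dd4c1c654d6df.shift 0 1)] (by decide +kernel))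
noncomputable def rh1de4b110d4b15576 : CRef := CRef.mk (Pat.mk 0x80000000c000000180000001000000000 0x40000000c0000000f0000003e0000003700000006 7 6) 0 0 (step_sound _ 97 [(rhb739f4f82bb681b4.shift 0 2), rhdaf385c0f41a3ca2] (by decide +kernel))
noncomputable def rh92fbe9ac79fa279a : CRef := CRef.mk (Pat.mk 0x100000001000000030000000200000002000000000 0x100000001f000000fe000001ef0000007c00000008 7 9) 0 0 (step_sound _ 99 [(rh3918eeb6c53434d8.shift 0 2), (rh8ee80cc30e93a344.shift 2 2), (rhc4fd139bd9818e26.shift 1 0), rhd8215403ae36d74e] (by decide +kernel))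
noncomputable def rhbbdea05a16a46984 : CRef := CRef.mk (Pat.mk 0x100000001000000030000000200000000000000000 0x140000077e000003fe000003ef0000000800000008 7 11) 0 0 (step_sound _ 99 [(rh3ce854f4a795c89f.shift 1 2), (rh703ed2c3fe186e8b.shift 2 1), rh84a93a6e605ae7d9] (by decide +kernel))
noncomputable def rh4401153ace7e060d : CRef := CRef.mk (Pat.mk 0x180000001c0000001000000000 0x20000000a0000000f0000001f0000007c0000001600000004 7 7) 0 0 (step_sound _ 131 [(rh2145e1d24b96a57e.shift 3 1), rhb6c8f95c059cf08c] (by decide +kernel))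
noncomputable def rh08740b4129ff786c : CRef := CRef.mk (Pat.mk 0x80000000c0000001c0000000000000000 0x2000000020000007f0000007f0000001c0000000400000004 7 7) 0 0 (step_sound _ 97 [rhb681c8841d49610c, (rhb739f4f82bb681b4.shift 0 2)] (by decide +kernel))
noncomputable def rh65a60470795f0769 : CRef := CRef.mk (Pat.mk 0x8000000080000001000000000 0x10000000180000001c0000001f0000007c0000001c0000001c0000001c 7 7) 0 0 (step_sound _ 131 [(rh11a3db031c212ca4.shift 2 0), (rh33e98d0e97205a3e.shift 2 1), rh6ed7cf123f8072a8] (by decide +kernel))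
noncomputable def rh6d2ddbf44a777abe : CRef := CRef.mk (Pat.mk 0x8000000080000001800000030000000000000000000000000 0x140000003c0000000f0000001f0000003f0000000c0000000c0000000c 7 6) 0 0 (step_sound _ 129 [(rhab22b5b56e7b3243.shift 1 3), rhd2a5ca5dada2a53d] (by decide +kernel))
noncomputable def rh21391c4cb7e9ddef : CRef := CRef.mk (Pat.mk 0x800000008000000180000003000000000 0x140000003c0000000f00000038000000ff000000e8 7 8) 0 0 (step_sound _ 38 [rh7371dbe8a99db7af, (rhf48373e13d2bc128.shift 3 1)] (by decide +kernel))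
noncomputable def rh0c2a0d74b6329ce5 : CRef := CRef.mk (Pat.mk 0x200000002000000020000000400000000 0x200000006000000070000000700000003000000070000000600000002 7 3) 0 0 (step_sound _ 161 [rh435dd3dd0bf07b3a, (rhd3458b32566d63f7.shift 1 1)] (by decide +kernel))
noncomputable def rhac2f042428a6c2ce : CRef := CRef.mk (Pat.mk 0x8000000080000000800000008000000000000000000000000 0x100000001c0000001f0000000c000000080000000c0000000c00000004 7 5) 0 0 (step_sound _ 196 [(rh2f68792b6b779e96.shift 3 3), rhaa11677c02e95309] (by decide +kernel))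
noncomputable def rhf8fd33a3a0d3b9fe : CRef := CRef.mk (Pat.mk 0x200000002000000060000000200000000000000000000000000000000 0x40000000600000002000000060000000600000007000000070000000700000004 7 3) 0 0 (step_sound _ 226 [(rh2f68792b6b779e96.shift 1 4), rhd1a74c2407d980d4] (by decide +kernel))
noncomputable def rhda5a4a334d219e18 : CRef := CRef.mk (Pat.mk 0x1000000018000000700000000000000000 0xc000000ef000000fc000000380000007c000000f400000030 7 8) 0 0 (step_sound _ 131 [(rh03e0febdeeffa1fc.shift 3 0), (rh3260be5b77f65d76.shift 0 1), (rh3cb04db3dd2b6a55.shift 3 0)] (by decide +kernel))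
noncomputable def rh5db70d13ae4e308f : CRef := CRef.mk (Pat.mk 0x4000000070000000c0000000000000000 0x8000000080000001a0000003e000000170000003c0000001400000004 7 6) 0 0 (step_sound _ 68 [rhcedf888648a6ddd3, (rhf48373e13d2bc128.shift 1 2)] (by decide +kernel))
noncomputable def rh6a45ff742315e630 : CRef := CRef.mk (Pat.mk 0x80000001e000000100000000000000000 0x10000000380000003e0000001f0000003800000018 7 6) 0 0 (step_sound _ 132 [(rh33e738c4ed385b9f.shift 1 3), rhb3864713a9f5db8e] (by decide +kernel))
noncomputable def rh8b6b3aaec20a3fac : CRef := CRef.mk (Pat.mk 0x180000000e000000100000000000000000 0x3200000032000000330000001f0000003e0000001f0000003800000038 7 6) 0 0 (step_sound _ 100 [rh14d171063ecb38d8, rhb3864713a9f5db8e, (rhdc38782eaebd3836.shift 3 0), (rhdf596cee2362b2b5.shift 0 2)] (by decide +kernel))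
noncomputable def rhf7d2683aa08f03ff : CRef := CRef.mk (Pat.mk 0x80000000e000000100000000000000000 0x4000000040000000f0000003e000000330000001200000010 7 6) 0 0 (step_sound _ 100 [rh5f7190d834b03e1c, (rhe25b0a99195a5d59.shift 1 2)] (by decide +kernel))
noncomputable def rhf295f8648a075ada : CRef := CRef.mk (Pat.mk 0xc00000006000000080000000000000000 0x1000000010000000380000003f0000001e000000780000001800000018 7 7) 0 0 (step_sound _ 132 [(rh18965a982d73c794.shift 1 3), rhd187b04dc1d1514e] (by decide +kernel))
noncomputable def rhea080192b5fcf099 : CRef := CRef.mk (Pat.mk 0x1000000018000000700000000000000000 0xc000000ef000000fc000000580000007c000000f400000030 7 8) 0 0 (step_sound _ 131 [(rh3260be5b77f65d76.shift 0 1), (rh3cb04db3dd2b6a55.shift 3 0), (rh6d0fefc82fb778df.shift 3 0)] (by decide +kernel))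
noncomputable def rh1a18c3d1f1cc4aa8 : CRef := CRef.mk (Pat.mk 0xa0000000300000008000000000000000000000000 0x100000001e0000000f000000080000001c0000001c00000014 7 5) 0 0 (step_sound _ 164 [rh7477ec8908dd2107, (rhb2a0b9ccfb5cecd5.shift 0 4)] (by decide +kernel))
noncomputable def rh5d8be0d846aef61f : CRef := CRef.mk (Pat.mk 0xa000000030000000c000000000000000000000000 0x4000000140000001c0000001f0000000b0000000c0000001c0000001c00000014 7 5) 0 0 (step_sound _ 162 [(rh18965a982d73c794.shift 0 4), rh5538dcab8026fe22] (by decide +kernel))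
noncomputable def rhb5d2fec111648a5c : CRef := CRef.mk (Pat.mk 0x280000000800000030000000000000000000000000 0x770000003e0000003800000030000000300000003000000010 7 7) 0 0 (step_sound _ 68 [(rh02ef15e22aa7db92.shift 4 0), (rh07b61ab1d29c80c2.shift 0 2), (rh32524cfff1442c8f.shift 3 0), (rh7e0796fd78e445bd.shift 3 1)] (by decide +kernel))
noncomputable def rhfb5b2d77362e3437 : CRef := CRef.mk (Pat.mk 0x8000000030000000c000000000000000000000000 0x140000001c0000001c000000180000000f0000000c0000001c0000001c00000014 7 5) 0 0 (step_sound _ 131 [(rh03f2a1ecb6f13e2c.shift 0 1), (rh1a2c94f8bd04ec57.shift 0 1), (rh68a777751bfeafdf.shift 2 2), (rh9548c07d1d1f2a1b.shift 0 2), rhcd84dddaa7d402a3] (by decide +kernel))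
noncomputable def rhf3b71c8e7c3b30e3 : CRef := CRef.mk (Pat.mk 0xa000000030000000c00000000 0x140000001c0000001c0000001e0000000f0000000c00000004 7 5) 0 0 (step_sound _ 100 [rh4286f28a5db90223, (rhb2a0b9ccfb5cecd5.shift 0 2)] (by decide +kernel))
noncomputable def rh6b800c3d7c4d6b80 : CRef := CRef.mk (Pat.mk 0x1000000030000000200000002000000000 0x1000000050000000df0000007e000001ef0000002800000008 7 9) 0 0 (step_sound _ 164 [(rh2145e1d24b96a57e.shift 4 2), rh92f82716a54232e9] (by decide +kernel))
noncomputable def rhc0e7191ac302aa0b : CRef := CRef.mk (Pat.mk 0x80000001800000010000000180000000000000000 0x1000000030000000f0000000f800000038000001f7000001fe000000e700000060 7 9) 0 0 (step_sound _ 69 [(rh2020cb9c932ab11c.shift 0 1), (rh3527a8f5df4df449.shift 3 1), (rh4867c7756c4cfa5b.shift 1 0), (rh723560ad1225fc20.shift 2 2), (rhdcf10ad5fbc4b5fe.shift 1 0)] (by decide +kernel))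
noncomputable def rha0d915f450d3668c : CRef := CRef.mk (Pat.mk 0x1000000030000000200000003000000000 0x4000000040000001e0000007c000001ef0000007c0000001f 7 9) 0 0 (step_sound _ 35 [(rh1297b1416b94aade.shift 1 0), rh463aed05763a9563, (rha11dfd15f08f96e3.shift 2 1)] (by decide +kernel))
noncomputable def rh2f678e96432344a3 : CRef := CRef.mk (Pat.mk 0x1e00000008 0xe3000000fe000001fb 7 9) 0 0 (step_sound _ 65 [(rh3244c3cc8379b070.shift 0 1), rh4c2e6a7cda7dc777] (by decide +kernel))
noncomputable def rhfb55acff5199a2d7 : CRef := CRef.mk (Pat.mk 0xe000000050000000000000000 0x1000000010000001f0000000fe000001df0000000800000008 7 9) 0 0 (step_sound _ 100 [(rh5a3f19363b72811c.shift 1 0), (rh80fcd6d0a18cb2dd.shift 0 2)] (by decide +kernel))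
noncomputable def rh59814ffb9d2ac3d4 : CRef := CRef.mk (Pat.mk 0xc0000001800000008000000000000000000000000 0x8000000080000001f000000180000007c0000001f0000000c00000008 7 7) 0 0 (step_sound _ 161 [(rhb739f4f82bb681b4.shift 0 4), rhe96ddd25c388d79e] (by decide +kernel))
noncomputable def rhb09a23cd490667f1 : CRef := CRef.mk (Pat.mk 0x20000000300000001c0000001000000000 0x14000000760000003f0000001c0000007f0000002a 7 7) 0 0 (step_sound _ 98 [(rh095bd9c16cca0ec6.shift 0 2), rh39d5596f366ac7f1, (rh9458e878ee940312.shift 1 0)] (by decide +kernel))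
noncomputable def rh86d542d797be17e8 : CRef := CRef.mk (Pat.mk 0x400000006000000030000000200000000 0x180000003c0000001e0000000f0000001f0000007c 7 7) 0 0 (step_sound _ 99 [(rh18965a982d73c794.shift 0 2), rhc920e700cfc561f1] (by decide +kernel))
noncomputable def rh51a88a85bb0df55e : CRef := CRef.mk (Pat.mk 0x100000001c000000100000000000000000 0x1000000014000000160000007c0000007f0000002f00000008 7 7) 0 0 (step_sound _ 67 [rh10018de8ec034c19, (rh121397a93ef3afd3.shift 2 1), (rh1e309b005ffa1b36.shift 3 0)] (by decide +kernel))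
noncomputable def rh1ef2ac1bbbf27e03 : CRef := CRef.mk (Pat.mk 0x600000003000000020000000000000000 0x40000000600000006000000020000001f00000007000000070000000700000003 7 5) 0 0 (step_sound _ 131 [(rh18965a982d73c794.shift 0 3), rhc8e83af6850654e9] (by decide +kernel))
noncomputable def rh81b7dbead2cfdfd4 : CRef := CRef.mk (Pat.mk 0x8000000180000001000000010 0x280000007c000001ef0000007e0000007600000014 7 9) 0 0 (step_sound _ 131 [(rh2145e1d24b96a57e.shift 3 1), rh38ecb78421c5ae64] (by decide +kernel))
noncomputable def rhcf749f12c664b016 : CRef := CRef.mk (Pat.mk 0x10000000700000002000000020 0x40000000dc0000007f000000fe00000020 7 8) 0 0 (step_sound _ 67 [(rh1e66368eb2587cec.shift 2 0), (rha03f6e28ea70fc7d.shift 2 1), (rhf0535059ef91b2a9.shift 0 1)] (by decide +kernel))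
noncomputable def rh2be62be75aad817b : CRef := CRef.mk (Pat.mk 0x7000000020 0x38e000001fe000003bf 7 10) 0 0 (step_sound _ 39 [(rh62a51e5e348b9e49.shift 4 0), rha405f7bea1896094, (rha93a5dd541ab8209.shift 4 0)] (by decide +kernel))
noncomputable def rh3fb00fe29dce2e0a : CRef := CRef.mk (Pat.mk 0x8000000080000000800000008000000040000000000000000 0x100000001800000018000000080000001f0000003e000000780000000c0000000c00000008 7 7) 0 0 (step_sound _ 67 [(rh932754581e0f4330.shift 2 1), rhe0286920dbe47409] (by decide +kernel))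
noncomputable def rh031bbfba1e359559 : CRef := CRef.mk (Pat.mk 0x80000000800000008000000000000000000000000 0x1c0000001c0000001c000000380000001f0000001c0000000c00000004 7 6) 0 0 (step_sound _ 194 [(rh36d2592072881719.shift 0 2), (rhf567e284c2dbdd01.shift 2 2), (rhfcc64d3a366965e9.shift 2 0)] (by decide +kernel))
noncomputable def rh1db13e0fce97aec1 : CRef := CRef.mk (Pat.mk 0x1000000010000000700000000000000000 0x100000007e0000007f000000ef00000008 7 8) 0 0 (step_sound _ 99 [rh00449622cd086a2e, (rhc02b3aee7ab87ee1.shift 1 2), (rhd8e93bbc8568df99.shift 2 2), (rhdbcea10a0fbe5ba6.shift 1 2)] (by decide +kernel))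
noncomputable def rh5a76b3fae137dffd : CRef := CRef.mk (Pat.mk 0x80000003800000000 0x3b8000001ff000003f7 7 10) 0 0 (step_sound _ 34 [(rh047b0ccc90515fbb.shift 2 0), rh185f35b8bd8ec37f, rh1efbca428b37b99e] (by decide +kernel))
noncomputable def rh828df41484bd4986 : CRef := CRef.mk (Pat.mk 0x1000000010000000100000001000000000 0x1000000010000000ff0000007e0000002f 7 8) 0 0 (step_sound _ 37 [rh31a0d41cb0ececf3, (rh55afc6a59410cf00.shift 4 0)] (by decide +kernel))
noncomputable def rh74c013f69a0ebecb : CRef := CRef.mk (Pat.mk 0x1000000018000000180000000000000000 0x40000000c0000003f0000007f0000007f0000000600000004 7 7) 0 0 (step_sound _ 98 [(rh909af6964c52d212.shift 1 0), (rhcf86d050071af9b3.shift 1 2), (rhdc692b1e23a4285d.shift 0 1)] (by decide +kernel))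
noncomputable def rh083622da8efc0439 : CRef := CRef.mk (Pat.mk 0x20000000380000001000000010 0x80000006c000000ff0000001f00000010 7 8) 0 0 (step_sound _ 66 [(rh33e738c4ed385b9f.shift 2 2), rhe19340177c1b48a2] (by decide +kernel))
noncomputable def rhf134d1950941ef63 : CRef := CRef.mk (Pat.mk 0x100000001c000000080000000800000000 0x6000000370000003e0000000f0000000c00000004 7 6) 0 0 (step_sound _ 97 [(rh33e738c4ed385b9f.shift 1 3), rh4f417a11c3e94663] (by decide +kernel))
noncomputable def rh6ea61e6d4e068e0c : CRef := CRef.mk (Pat.mk 0x10000000140000001c0000000000000000 0x6000000060000007f0000007f0000001c0000000400000004 7 7) 0 0 (step_sound _ 99 [(rh078808ab3d36f1e7.shift 1 2), (rh34517e326ddb5b25.shift 0 2), rh95f40e1bfe6f2601] (by decide +kernel))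
noncomputable def rh664c2b6e27ebd084 : CRef := CRef.mk (Pat.mk 0x30000000200000002000000000 0x48000000480000006e000001fe0000003f0000003000000020 7 9) 0 0 (step_sound _ 102 [(rh16e10591986d9072.shift 0 1), (rh215e11e099257d75.shift 5 0)] (by decide +kernel))
noncomputable def rhf9b7df373f1a1179 : CRef := CRef.mk (Pat.mk 0x18000000180000003000000000 0x60000000600000007000000ff0000001f0000003e00000004 7 8) 0 0 (step_sound _ 98 [rh0e04c058878b770b, (rha105e1994fd479ef.shift 1 1), (rhace16348de435294.shift 0 1), (rhdaf210947b47bcf0.shift 0 2), (rhdc692b1e23a4285d.shift 0 1)] (by decide +kernel))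
noncomputable def rhe966e66cb13cc606 : CRef := CRef.mk (Pat.mk 0x180000001800000030000000000000002000000000 0xe7000000ff00000058000000f8000001e00000002000000020 7 9) 0 0 (step_sound _ 166 [(rh2448d851fa8ed473.shift 3 0), (rh65e5f0f2b7ac429a.shift 3 0), (rha558c51478c0acbd.shift 0 4)] (by decide +kernel))
noncomputable def rhc12cc3ce2d4de9b4 : CRef := CRef.mk (Pat.mk 0x18000000100000003000000000 0x2000000030000000f70000007f0000001e000000f800000008 7 8) 0 0 (step_sound _ 67 [(rh3c3e23a02e82b2ed.shift 1 1), (rh5d41e09c81f98bbc.shift 0 1), (rhaf2c0a0161285d69.shift 1 0)] (by decide +kernel))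
noncomputable def rhacc5f7c6cf37f1f9 : CRef := CRef.mk (Pat.mk 0x800000008000000080000000800000000 0xe0000000f0000003c0000000c0000000c0000000c 7 6) 0 0 (step_sound _ 130 [(rh50fbb5868c909700.shift 2 1), rhc266b37fa129fc6a] (by decide +kernel))
noncomputable def rh0ff40cb7c9391f18 : CRef := CRef.mk (Pat.mk 0x4000000080000000800000008000000180000000000000000 0xc0000000c000000180000003c0000000f0000001c0000000800000008 7 6) 0 0 (step_sound _ 195 [(rh50fbb5868c909700.shift 2 3), rh5132ba116cb4d92c] (by decide +kernel))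
noncomputable def rh7399e0de3d8155f5 : CRef := CRef.mk (Pat.mk 0x300000001800000010000000000000000000000000 0x1000000010000000300000001e0000007f0000007f0000002000000020 7 7) 0 0 (step_sound _ 130 [(rh53b3c253cb0c65f4.shift 1 4), rh9b9ef725e961b6a9] (by decide +kernel))
noncomputable def rh70112b376a82c20d : CRef := CRef.mk (Pat.mk 0x600000003000000020000000000000000 0x40000000600000006000000020000001f00000007000000070000000700000006 7 5) 0 0 (step_sound _ 131 [(rh18965a982d73c794.shift 0 3), rhc238e4d89782db2c] (by decide +kernel))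
noncomputable def rhbd522e4b9c0058c4 : CRef := CRef.mk (Pat.mk 0x140000001800000008 0x3f7000001ff00000038 7 10) 0 0 (step_sound _ 34 [(rh212ba572ea2a9720.shift 1 0), rh3c9b9d910dace22d, rh5dec5e73a267a1c4, (rhd117684c4a851b90.shift 0 1)] (by decide +kernel))
noncomputable def rhcbb2d42cd2d2466f : CRef := CRef.mk (Pat.mk 0x8000000080000000800000018 0x40000001c0000001c000000180000000c0000000f0000001c 7 5) 0 0 (step_sound _ 132 [(rhbaefcd01e0a8bca3.shift 3 0), rheb1c6e49f17bd4f3] (by decide +kernel))
noncomputable def rh7165a4122bb0a920 : CRef := CRef.mk (Pat.mk 0x8000000080000000e00000008 0xf4000000ff0000007f0000000e00000008 7 8) 0 0 (step_sound _ 98 [(rh50fbb5868c909700.shift 2 0), rh827ee975ef501265] (by decide +kernel))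
noncomputable def rhaec328e291aea492 : CRef := CRef.mk (Pat.mk 0x8000000080000000e00000008 0x10000000180000001c0000000c0000001f0000007c0000000e00000008 7 7) 0 0 (step_sound _ 68 [(rh80f90a60d87caa0d.shift 1 1), (rh97ad1986540fd573.shift 2 0), rhdb019b0e908810fb] (by decide +kernel))
noncomputable def rh3dbc984f6f300fe8 : CRef := CRef.mk (Pat.mk 0x200000002000000020000000e00000000 0x5000000070000001e0000000e0000000f00000019 7 5) 0 0 (step_sound _ 32 [rh89cfde4957cbc532, rh932754581e0f4330] (by decide +kernel))
noncomputable def rh30d8e98a0156c2c2 : CRef := CRef.mk (Pat.mk 0x80000000800000018000000000000001000000000 0x10000000180000003e000000ff000000770000003000000020 7 8) 0 0 (step_sound _ 132 [(rh9e07f76261b05888.shift 3 1), rhae5007e66de47b65] (by decide +kernel))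
noncomputable def rhb2217673a67d3237 : CRef := CRef.mk (Pat.mk 0x40000001c0000000000000008000000080000000000000000 0x160000003c000000700000007c0000007f0000007800000050 7 7) 0 0 (step_sound _ 165 [(rh3244c3cc8379b070.shift 1 5), rh8f471e25b90563d3] (by decide +kernel))
noncomputable def rhf2530bc3d87bb878 : CRef := CRef.mk (Pat.mk 0x4000000040000001e0000000000000008000000000000000000000000 0x80000003c0000001f0000001e000000300000001c000000f80000002800000008 7 8) 0 0 (step_sound _ 132 [rh2aeadd8cf8b913c6, (rhe25b0a99195a5d59.shift 1 4)] (by decide +kernel))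
noncomputable def rh55621c69a0f6ca0d : CRef := CRef.mk (Pat.mk 0x10000000780000000000000020000000000000000000000000 0x770000007e000000ce00000060000000600000002000000020 7 8) 0 0 (step_sound _ 134 [rh76c57768b2092b28, (rhe25b0a99195a5d59.shift 3 4)] (by decide +kernel))
noncomputable def rhd19c7c41de521074 : CRef := CRef.mk (Pat.mk 0x2000000000000000c0000000800000004000000000000000000000000 0x100000001c0000001f0000000c0000000c000000080000000e0000007c0000001400000004 7 7) 0 0 (step_sound _ 99 [(rh281c6819542c66e6.shift 2 0), (rh35512b5c3171c732.shift 0 2), (rh9c6239243ddfb9af.shift 1 1), (rhb1a251d9bff81766.shift 2 2)] (by decide +kernel))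
noncomputable def rh6418a290f3e4e84f : CRef := CRef.mk (Pat.mk 0x380000001000000010000000300000000000000000 0x70000003e000000770000007e000000fe0000000600000006 7 8) 0 0 (step_sound _ 98 [(rh8af98e8402c28894.shift 0 2), (rh946d1699e4b8029e.shift 0 2), rhb4508313d776af0c, (rhf887e4ee05fd7803.shift 1 2)] (by decide +kernel))
noncomputable def rha051c27ff639ce9f : CRef := CRef.mk (Pat.mk 0x200000002000000020000000000000000 0x50000000700000007000000070000000700000007000000070000000300000002 7 3) 0 0 (step_sound _ 161 [(rh00c644645561e9be.shift 0 1), rh1167b20574289c19, (rh193da7fc9e1674f1.shift 0 1)] (by decide +kernel))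
noncomputable def rh575c6d0173ec0377 : CRef := CRef.mk (Pat.mk 0x10000000100000003000000020000000000000000000000000 0x8000000180000003f0000007e0000003e000000180000001800000010 7 7) 0 0 (step_sound _ 99 [(rh2534d8249ba6d7ba.shift 1 0), (rh3ce1d711ed0dcaae.shift 3 0), (rh51fce1c34e57939e.shift 1 2), (rh636bd498d3d7038f.shift 0 1)] (by decide +kernel))
noncomputable def rhe53e656a70231fd5 : CRef := CRef.mk (Pat.mk 0x40000000c000000080000000800000000 0x780000007c0000001f000000780000001800000010 7 7) 0 0 (step_sound _ 131 [rh043a69081cbdad05, (rha400fe700a836344.shift 2 0), (rhc0ddb33d3a52722b.shift 0 1)] (by decide +kernel))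
noncomputable def rha6fa50d2e72fdff1 : CRef := CRef.mk (Pat.mk 0x100000001c000000100000000000000000 0x80000002f0000007f0000007c000000160000001400000010 7 7) 0 0 (step_sound _ 131 [(rh4e448da1f2ebc7c7.shift 2 0), (rh69c1c4c10343e007.shift 0 1), (rhfc7c29d8e65d775f.shift 3 1)] (by decide +kernel))
noncomputable def rh974106cfbb7293a5 : CRef := CRef.mk (Pat.mk 0x8000000080000001800000010000000000000000000000000 0x40000000c0000000f0000003f0000003f0000000c0000000c0000000c 7 6) 0 0 (step_sound _ 99 [(rh220803e779598f15.shift 0 2), (rh6fae963f33cfdfd7.shift 0 2), (rha9a9dd876407ae9a.shift 2 0)] (by decide +kernel))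
noncomputable def rhf06a5d15ce6a723b : CRef := CRef.mk (Pat.mk 0x800000008000000100000001800000000 0x140000001f000000380000003e0000007f00000024 7 7) 0 0 (step_sound _ 67 [rh31b6e30c4d651b39, rh6fae963f33cfdfd7] (by decide +kernel))
noncomputable def rh2fd5402bc7988790 : CRef := CRef.mk (Pat.mk 0x800000008000000100000001800000000 0x340000007f0000003f0000001e0000007800000028 7 7) 0 0 (step_sound _ 132 [rh152b98aac23ebf36, rh4a16ff1229c9cc4b, (rhee6e41f347a62869.shift 1 0)] (by decide +kernel))
noncomputable def rh5480fd5f7e2f7075 : CRef := CRef.mk (Pat.mk 0x10000000e00000000 0xe30000007e000000e7 7 8) 0 0 (step_sound _ 36 [rh205dc383ce3b31ea, (rh3f8766e6ecb455ce.shift 0 1)] (by decide +kernel))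
noncomputable def rhe639ee1f9939a6f9 : CRef := CRef.mk (Pat.mk 0x800000008000000180000000000000000 0x1c0000003c0000000f000000180000001800000018 7 6) 0 0 (step_sound _ 36 [(rh2145e1d24b96a57e.shift 3 1), rh944615023c4aa9f0] (by decide +kernel))
noncomputable def rh4fa04767aeb01b10 : CRef := CRef.mk (Pat.mk 0x1800000018000000080000001800000000 0xe0000000fe000000f80000003f0000007800000020 7 8) 0 0 (step_sound _ 101 [rh4ca0a22ae8d7844d, (rh79b3c29022acbdf3.shift 2 3), (rha9e1a5d55b907abf.shift 2 2), (rhd9106766b9ff53c0.shift 2 2)] (by decide +kernel))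
noncomputable def rhdad6cbf268fb3fff : CRef := CRef.mk (Pat.mk 0x100000003800000000 0x7e000001ff000001c7 7 9) 0 0 (step_sound _ 34 [(rh786297492859cbf3.shift 1 0), rhafaa61f79143ceed, (rhec46bd5500c722c9.shift 1 1)] (by decide +kernel))
noncomputable def rh6a6f1b63c454a542 : CRef := CRef.mk (Pat.mk 0x20000000f000000000 0x67000000fe000001c7 7 9) 0 0 (step_sound _ 7 [rhbd2ff28a4a1671c5, (rhe25b0a99195a5d59.shift 4 0)] (by decide +kernel))
noncomputable def rh9f183f687fc04252 : CRef := CRef.mk (Pat.mk 0xc0000000e000000020000000200000000 0x8000000180000003c0000003e0000003e0000000f0000000c 7 6) 0 0 (step_sound _ 132 [(rh18965a982d73c794.shift 1 3), rhae6b9fedb7864628] (by decide +kernel))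
noncomputable def rhd697570d5d0b0c7b : CRef := CRef.mk (Pat.mk 0x80000001e000000000000000000000000 0x300000003000000030000000380000001e0000003b0000001800000018 7 6) 0 0 (step_sound _ 68 [(rhe25b0a99195a5d59.shift 1 2), rhfb9abe4d9d26f635] (by decide +kernel))
noncomputable def rh5f6ec9e444f8faea : CRef := CRef.mk (Pat.mk 0x80000000e000000080000000000000000000000000000000000000000 0x100000001800000018000000080000000c0000000e0000003f00000038000000180000001c0000001c00000014 7 6) 0 0 (step_sound _ 131 [(rh0b79d43259fe5d4b.shift 0 3), (rh5c651669912fbab1.shift 2 2), (rh985335d5e81225b5.shift 2 0), (rhcb8a3efb7e773929.shift 2 3)] (by decide +kernel))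
noncomputable def rh2e3199ef2900ab0b : CRef := CRef.mk (Pat.mk 0x1c000000060000000400000000000000000000000000000000 0x140000001e0000000e0000000f0000003c0000001c0000000c00000008 7 6) 0 0 (step_sound _ 98 [(rh2d5442cbf338480d.shift 1 2), (rha3c49bb2a3954cbf.shift 0 2), (rhd1779d7de7f8215b.shift 1 0)] (by decide +kernel))
noncomputable def rhd00fbeb22f0df95d : CRef := CRef.mk (Pat.mk 0x200000002000000030000000000000000000000000 0x20000001ef000000fe000000ff0000004000000040 7 9) 0 0 (step_sound _ 99 [(rh3f7921b7f3e27eeb.shift 2 0), (rh5082e365c79ad035.shift 1 0), (rha11dfd15f08f96e3.shift 2 3), (rhb12ffaec36122c99.shift 0 2)] (by decide +kernel))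
noncomputable def rhb5655c1438848b2e : CRef := CRef.mk (Pat.mk 0x2000000060000000300000000000000000000000000000000 0x200000006000000060000000f0000001e0000000f0000000f0000000d 7 5) 0 0 (step_sound _ 97 [rh274a837cd7eaa569, (rh301a6b3a9154ed36.shift 1 1), (rh3820f35d5e705bec.shift 1 0), rh7b3fe4fb4354ef0f, rha52e1acf7ed5511e] (by decide +kernel))
noncomputable def rh519883f9fce400ab : CRef := CRef.mk (Pat.mk 0x8000000180000000c00000000000000000000000000000000 0x8000000180000001c0000001f000000380000001c0000000c00000004 7 6) 0 0 (step_sound _ 129 [(rh53b3c253cb0c65f4.shift 0 4), (rh8e67b9607eb8aec1.shift 1 0)] (by decide +kernel))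
noncomputable def rhf176448fed25fbe3 : CRef := CRef.mk (Pat.mk 0x180000003800000000 0x2000000020000000600000007e0000003f00000017 7 7) 0 0 (step_sound _ 66 [(rhb739f4f82bb681b4.shift 1 1), rhd12293acac6174ec] (by decide +kernel))
noncomputable def rh400c120bfc9c3554 : CRef := CRef.mk (Pat.mk 0x4000000040000000e00000002000000000 0x40000001ce000000fe000001bf00000080 7 9) 0 0 (step_sound _ 68 [(rh5097ebe0f36b58ed.shift 0 1), (rh625dde73e665edc8.shift 4 0)] (by decide +kernel))
noncomputable def rh4d2c31b3bca66155 : CRef := CRef.mk (Pat.mk 0x4000000040000000e0000000200000000 0x40000003c0000007f0000007b00000008 7 7) 0 0 (step_sound _ 68 [rha2f708d417c2a5b9, (rheb0810cc63b001d8.shift 0 1)] (by decide +kernel))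
noncomputable def rh26b38d1d1c333116 : CRef := CRef.mk (Pat.mk 0x6000000038000000000000000000000000 0x4000000040000000c0000000c0000007f000000f80000001e0000001400000010 7 8) 0 0 (step_sound _ 131 [(rh24e72371d7873615.shift 2 0), (rh6755e5b44371eedc.shift 1 0), (rhe6842b86b2cddab0.shift 2 1), (rhf60aa8aede119d3b.shift 0 3)] (by decide +kernel))
noncomputable def rh15262f9d4ba46eac : CRef := CRef.mk (Pat.mk 0x2000000000000000700000001800000000 0xa0000000e0000003e0000000f8000003c70000007f000000f800000060 7 10) 0 0 (step_sound _ 102 [(rh0ed1e7019270fee6.shift 2 0), (rh125fc0c3a6c674e5.shift 3 1), (rh3ea241a7c279ce50.shift 0 1), (rh45eae5009d7ebe6b.shift 2 1), (rh83ee2b1a7a592b12.shift 3 1), (rh8a133c7762382923.shift 3 0)] (by decide +kernel))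
noncomputable def rh4c177d3253eb8b52 : CRef := CRef.mk (Pat.mk 0x7000000018000000100000001000000000 0x140000007c000000f8000000380000001f0000000c 7 8) 0 0 (step_sound _ 35 [rh254811c257ac652a, (rh932754581e0f4330.shift 3 0)] (by decide +kernel))
noncomputable def rhec1c8b2b80cec4c0 : CRef := CRef.mk (Pat.mk 0x4000000020000000200000002000000000000000000000000 0x600000006000000030000000300000003000000070000000700000007 7 3) 0 0 (step_sound _ 193 [(rh2f68792b6b779e96.shift 1 3), rh65095fec89cbfb40] (by decide +kernel))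
noncomputable def rhe0da7aedc625e5a9 : CRef := CRef.mk (Pat.mk 0x80000000800000008000000180000000000000000 0xc0000000c0000001f0000007c0000000c0000000c 7 7) 0 0 (step_sound _ 34 [(rh79877ebd3ef475dd.shift 2 1), rha57afa7713b2e1dd] (by decide +kernel))
noncomputable def rhd5e36f1084692cd3 : CRef := CRef.mk (Pat.mk 0x180000000c000000180000000000000000 0x1f0000003f0000003b0000000f0000000e 7 6) 0 0 (step_sound _ 97 [(rh53b3c253cb0c65f4.shift 0 3), rh87794495dd79f304] (by decide +kernel))
noncomputable def rh307973d42fbdffc9 : CRef := CRef.mk (Pat.mk 0x4000000020000000300000006 0x500000007000000070000000600000006000000030000000700000006 7 3) 0 0 (step_sound _ 97 [rh06938129f11756c8, (rh2f68792b6b779e96.shift 1 0)] (by decide +kernel))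
noncomputable def rh9edd61a5b7134f3d : CRef := CRef.mk (Pat.mk 0x80000001c00000000 0x3f000000ff000000e0 7 8) 0 0 (step_sound _ 65 [rh2ecb7092c3653313, (rh508d31626b5d2be8.shift 0 1), (rhd0ed6ce702d0de55.shift 0 1), rhfcea6e6e9645fe3d] (by decide +kernel))
noncomputable def rhdf442d3bc5d22f7a : CRef := CRef.mk (Pat.mk 0x200000002000000020000000200000000000000000000000000000000 0x200000006000000060000000600000007000000070000000700000004 7 3) 0 0 (step_sound _ 97 [(rh1a84ccadb9ef172a.shift 0 1), (rh6eff4158bb400f47.shift 0 1), rhb4d78cd0e58cc17c, (rhd29a1fb688eae70f.shift 1 2)] (by decide +kernel))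
noncomputable def rh7b70de7728e60c8e : CRef := CRef.mk (Pat.mk 0x10000000100000001000000010 0x2f0000007e000000ff0000001000000010 7 8) 0 0 (step_sound _ 99 [(rh50fbb5868c909700.shift 3 0), rhebf721a7039df665] (by decide +kernel))
noncomputable def rh8702a07759af281c : CRef := CRef.mk (Pat.mk 0x2000000020000000200000002000000000000000000000000 0x7000000070000000300000006000000070000000700000001 7 3) 0 0 (step_sound _ 66 [rhd2f5d6bf9517a2cd, (rhd3458b32566d63f7.shift 1 2)] (by decide +kernel))
noncomputable def rh954d416ac6a52780 : CRef := CRef.mk (Pat.mk 0x80000001c000000000000000000000000 0x100000007f0000003f000000600000002000000020 7 7) 0 0 (step_sound _ 129 [(rh4e630f92202ad45c.shift 1 0), (rh508d31626b5d2be8.shift 0 3), (rhd0ed6ce702d0de55.shift 0 3)] (by decide +kernel))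
noncomputable def rh10f99a7b3d552858 : CRef := CRef.mk (Pat.mk 0x100000001c00000010000000080000000000000000 0x10000000100000001c0000007f0000007f0000002000000020 7 7) 0 0 (step_sound _ 99 [(rh5c5e593799055d58.shift 3 2), rh950e0640272b5437] (by decide +kernel))
noncomputable def rh40013e96c74df99e : CRef := CRef.mk (Pat.mk 0x180000000c00000008000000000000000000000000 0x80000007c0000001c0000000f0000003c0000001c00000004 7 7) 0 0 (step_sound _ 165 [(rh18965a982d73c794.shift 2 4), rhdf0b44774e6f4f6a] (by decide +kernel))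
noncomputable def rh81a8a3ea82f33304 : CRef := CRef.mk (Pat.mk 0x4000000040000000c00000008000000000000000000000000 0x100000003e0000000f0000007c0000007f000000f60000000600000006 7 8) 0 0 (step_sound _ 98 [(rh364443a8953eeaeb.shift 0 1), (rh4be12bd44337ebdb.shift 1 1), rh5e5ef3a86c0560ec, (rha71afc656c87d410.shift 0 2)] (by decide +kernel))
noncomputable def rh27c08d56ec779155 : CRef := CRef.mk (Pat.mk 0x400000007000000040000000000000000 0xe0000000e0000003e0000003e00000007000000040000000400000004 7 6) 0 0 (step_sound _ 129 [(rh82b5f2459bc0562e.shift 0 2), rhf8d29f3cbeaf06f7, (rhfc7c29d8e65d775f.shift 1 1)] (by decide +kernel))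
noncomputable def rh965f39d02256f6e2 : CRef := CRef.mk (Pat.mk 0x1c00000008000000080000000c00000000 0x2000000020000000600000007c0000003f0000007e0000001f00000002 7 7) 0 0 (step_sound _ 98 [(rh4dc133ee0ba1420a.shift 0 3), rh500aaee87d853475, (rhb40f1bf45939b7a1.shift 0 1)] (by decide +kernel))
noncomputable def rhcbdd1f65fcfc6e31 : CRef := CRef.mk (Pat.mk 0x40000000c0000000c 0x1e0000007f0000003e0000000c0000000c 7 7) 0 0 (step_sound _ 98 [(rh2145e1d24b96a57e.shift 2 0), rhc134e3506bc78c28] (by decide +kernel))
noncomputable def rh2bad666135039ec4 : CRef := CRef.mk (Pat.mk 0x100000001000000018000000080000000000000000 0x10000000370000007e000001ef0000007c00000028 7 9) 0 0 (step_sound _ 35 [rh6009553124b30077, (rh71222050f2c63a3a.shift 3 0)] (by decide +kernel))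
noncomputable def rhca2bb836a417c7e4 : CRef := CRef.mk (Pat.mk 0x2000000020000000300000001000000000 0x20000000fe000003fe000003df00000040 7 10) 0 0 (step_sound _ 70 [(rh18a86f0327cb6cbe.shift 3 1), (rh2820ca9a6c4f41b4.shift 1 1), rh509a299c4e5cc4d1] (by decide +kernel))
noncomputable def rhc1bfe9543b067f78 : CRef := CRef.mk (Pat.mk 0x1000000070000000000000002000000020 0xff0000007e000000c70000006000000020 7 8) 0 0 (step_sound _ 99 [(rh14ee58c1672e9101.shift 0 2), (rh1fbc9fee05401eba.shift 3 0), (rh988dac8d009f9f77.shift 0 2)] (by decide +kernel))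
noncomputable def rh9579fbdd4fed95aa : CRef := CRef.mk (Pat.mk 0x30000000100000001000000010 0xf0000007f000000fe0000001000000010 7 8) 0 0 (step_sound _ 99 [(rh50fbb5868c909700.shift 3 0), (rh716c5325c8876dc4.shift 0 2)] (by decide +kernel))
noncomputable def rhef82af9599752da1 : CRef := CRef.mk (Pat.mk 0x800000018000000000000001000000010 0x2800000028000001ff000000fe000001e60000007400000010 7 9) 0 0 (step_sound _ 101 [rh19eeec9ef27df724, (rh1aae126fdb0efa1d.shift 2 2), (rh2315428fc87edfbb.shift 2 1), (rha97e7d10b5c2120e.shift 2 1), (rha9fbfd4bb8cf890b.shift 0 3)] (by decide +kernel))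
noncomputable def rh18e6dbd32b58cd20 : CRef := CRef.mk (Pat.mk 0x60000001c000000000000000800000008 0x18000000180000007f0000007e0000001e000000330000001a0000000a 7 7) 0 0 (step_sound _ 132 [rh0db28fd05c17a2aa, (rh1fa70f435c0d960e.shift 1 3), rh637127fb39b5c677] (by decide +kernel))
noncomputable def rh8bf5b88e2fd4a877 : CRef := CRef.mk (Pat.mk 0x80000000c000000180000001000000000 0x6000000060000000f0000003f0000001f0000003f00000006 7 6) 0 0 (step_sound _ 97 [rh83b8918b5bcee37a, (rhb739f4f82bb681b4.shift 0 2)] (by decide +kernel))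
noncomputable def rh1b28b11e217fcf71 : CRef := CRef.mk (Pat.mk 0x200000000000000070000000000000004000000000 0x8000000380000003f000000ff0000001f000000f800000038 7 8) 0 0 (step_sound _ 99 [(rh15d23b4855e4bd1c.shift 2 0), (rh313454a53b9c0ca9.shift 2 0), (rh592c7139d2c44767.shift 1 2), (rh87fa0a8b0456f79e.shift 0 2), (rhaeebc73f5a9c796a.shift 2 2)] (by decide +kernel))
noncomputable def rh392a46c82338a8af : CRef := CRef.mk (Pat.mk 0x4000000000000000e0000000800000008 0x14000000f7000000fe0000003b0000000a 7 8) 0 0 (step_sound _ 68 [(rh215cd5de90648ac9.shift 0 1), rh8bb9cbc40f723f93, (rhe6b57ff12fcf6cc6.shift 1 0)] (by decide +kernel))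
noncomputable def rh2ee71eb9af75d676 : CRef := CRef.mk (Pat.mk 0x1c000000080000000800000000 0x200000002000000330000003e0000000f0000000c00000008 7 6) 0 0 (step_sound _ 132 [(rh52a5fe14ac33959e.shift 0 1), (rh71222050f2c63a3a.shift 3 0)] (by decide +kernel))
noncomputable def rh9d30289f2e9489f2 : CRef := CRef.mk (Pat.mk 0xc00000018000000080000000000000004 0x12000000330000003f0000001f0000000c0000000400000004 7 6) 0 0 (step_sound _ 129 [(rhb739f4f82bb681b4.shift 0 3), rhec8471564153ce5f] (by decide +kernel))
noncomputable def rhb12fba180b5315c9 : CRef := CRef.mk (Pat.mk 0x3800000028000000000000000000000000 0xc0000000e0000003e0000003f0000000e0000000c00000004 7 6) 0 0 (step_sound _ 98 [(rh1ed7a3503fa50fc8.shift 0 3), (rh6a0ad6ce88010258.shift 1 0), (rheea1a90336e79c71.shift 0 3)] (by decide +kernel))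
noncomputable def rhb6ac7f51df1d9217 : CRef := CRef.mk (Pat.mk 0x20000000e0000000a000000000000000000000000 0x30000003e0000003e000000070000000600000006 7 6) 0 0 (step_sound _ 132 [(rh3244c3cc8379b070.shift 0 4), rh75b13df3fd19a9bb] (by decide +kernel))
noncomputable def rhd10c8da37127397f : CRef := CRef.mk (Pat.mk 0x400000000000000060000000e000000000000000000000000 0x60000000600000002000000060000003e000000070000000600000006 7 6) 0 0 (step_sound _ 100 [rh9cac86963f299c86, (rhf48373e13d2bc128.shift 1 3)] (by decide +kernel))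
noncomputable def rhdcac8286c6816fcb : CRef := CRef.mk (Pat.mk 0x400000008000000080000000800000000 0xc0000000c0000001f000000780000001800000018 7 7) 0 0 (step_sound _ 131 [(rh50fbb5868c909700.shift 2 1), rh76b56c5cdbc5c2dc] (by decide +kernel))
noncomputable def rh8086517763511632 : CRef := CRef.mk (Pat.mk 0x10000000200000002000000020000000000000000 0x2000000070000000700000006000000070000000700000003 7 3) 0 0 (step_sound _ 33 [rh32f7a0e0efb9be13, (rhffd04209dc8ea796.shift 0 1)] (by decide +kernel))
noncomputable def rhce0802f0a19fa004 : CRef := CRef.mk (Pat.mk 0x1000000010000000000000003800000000000000000000000000000000 0x100000001c0000000f0000007c0000000f0000001c0000001c00000014 7 7) 0 0 (step_sound _ 163 [(rha9fbfd4bb8cf890b.shift 0 4), (rhae41c86fcf2bcac3.shift 0 3), (rhb65a3b8959c1cf11.shift 2 3), rhe78d1df3e1970f0b] (by decide +kernel))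
noncomputable def rhc21b047825ad623b : CRef := CRef.mk (Pat.mk 0x10000000100000001000000018000000000000000000000000 0x10000000100000001f0000007f0000007f000000060000000400000004 7 7) 0 0 (step_sound _ 131 [rh4188331692a2e4ba, (rh5c5e593799055d58.shift 3 3)] (by decide +kernel))
noncomputable def rhe2a6506b5ddddcd8 : CRef := CRef.mk (Pat.mk 0x10000000000000002000000020000000200000000 0x2000000070000000700000006000000070000000700000003 7 3) 0 0 (step_sound _ 129 [rh32f7a0e0efb9be13, (rhffd04209dc8ea796.shift 0 1)] (by decide +kernel))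
noncomputable def rh2d1f2fe284a96b5d : CRef := CRef.mk (Pat.mk 0x1e00000008 0xe0000000fe000001fb 7 9) 0 0 (step_sound _ 1 [(rh4e944521bbb4e550.shift 1 0), rheb0810cc63b001d8] (by decide +kernel))
noncomputable def rhf7292262bbcb8858 : CRef := CRef.mk (Pat.mk 0x1e00000002000000100000001000000000 0x4000000370000001e000000020000003f0000003f00000004 7 6) 0 0 (step_sound _ 161 [rh0f42a1df3fa255f5, (rh3244c3cc8379b070.shift 0 4)] (by decide +kernel))
noncomputable def rhe61ae9d83c9254c8 : CRef := CRef.mk (Pat.mk 0x3c00000002 0x1dc000000fe000000e3 7 9) 0 0 (step_sound _ 33 [(rhb143c7a3e93df405.shift 2 0), rheb0810cc63b001d8] (by decide +kernel))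
noncomputable def rh7cfb82cb87908dbe : CRef := CRef.mk (Pat.mk 0x3c000000040000000000000000 0x8000000080000003f0000003f0000000c0000000400000004 7 6) 0 0 (step_sound _ 129 [rh14d3146c6d702300, (rh3f8766e6ecb455ce.shift 1 3)] (by decide +kernel))
noncomputable def rh6e884208ef73b8aa : CRef := CRef.mk (Pat.mk 0xe00000001 0xee0000007e00000073 7 8) 0 0 (step_sound _ 36 [rh80fcd6d0a18cb2dd, (rhb143c7a3e93df405.shift 1 0)] (by decide +kernel))
noncomputable def rh610ef7b4c9ddf519 : CRef := CRef.mk (Pat.mk 0x180000001800000030 0xc0000000c000000ef000000ff0000001f00000030 7 8) 0 0 (step_sound _ 66 [(rh3994aa5341752b2e.shift 1 0), (rha14478d91faf3ae3.shift 0 1), rhace16348de435294] (by decide +kernel))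
noncomputable def rhae03fee43939b013 : CRef := CRef.mk (Pat.mk 0x4000000060000001c0000000800000000 0x1a0000003e000000360000001f0000003c00000004 7 6) 0 0 (step_sound _ 65 [(rh9070a047a673d454.shift 1 0), (rha03f6e28ea70fc7d.shift 0 1)] (by decide +kernel))
noncomputable def rhcbbb5f41384b1cff : CRef := CRef.mk (Pat.mk 0x8000000000000001c000000100000000000000000 0x80000000a0000000b0000003e000000370000000400000004 7 6) 0 0 (step_sound _ 97 [rh64ba7aa48d5b91bf, (rhe25b0a99195a5d59.shift 1 2)] (by decide +kernel))
noncomputable def rhd625a5b9ef32dc90 : CRef := CRef.mk (Pat.mk 0x2000000000000000f00000004 0x1f0000001e0000001a0000000f0000001c 7 5) 0 0 (step_sound _ 129 [rhd4123d721fda7464, (rhff0f29cb645b05f7.shift 1 0)] (by decide +kernel))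
noncomputable def rhd762135c016890ab : CRef := CRef.mk (Pat.mk 0x18000000180000003000000000 0xe0000000e000000ef000000ff0000001f0000003400000004 7 8) 0 0 (step_sound _ 98 [rh0e04c058878b770b, (rh3994aa5341752b2e.shift 1 1), (rha14478d91faf3ae3.shift 0 2), (rhace16348de435294.shift 0 1)] (by decide +kernel))
noncomputable def rh4f9c93f68d706483 : CRef := CRef.mk (Pat.mk 0x80000000e0000001800000010000000000000000000000000 0x140000007c0000000e0000001f0000001f0000000e0000000c00000008 7 7) 0 0 (step_sound _ 197 [(rh4d54976ecc05b874.shift 2 0), (rh4fd54f6717f3e7ac.shift 1 5), rhfb958972ffb727e6] (by decide +kernel))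
noncomputable def rha16eca2e000e6e17 : CRef := CRef.mk (Pat.mk 0x80000000800000018000000180000000000000000 0x140000001c000000080000001f0000007f0000000c00000004 7 7) 0 0 (step_sound _ 162 [(rh50fbb5868c909700.shift 2 2), rhc85237319c62501f] (by decide +kernel))
noncomputable def rhe935f215990b2b3e : CRef := CRef.mk (Pat.mk 0x400000004000000000000000e00000008 0x3e0000003c000000300000001f00000038 7 6) 0 0 (step_sound _ 4 [rhb739f4f82bb681b4, (rhe06e7c08f630d8da.shift 1 0)] (by decide +kernel))
noncomputable def rh87ac48798a50fab2 : CRef := CRef.mk (Pat.mk 0x1000000010000000000000003800000008000000000000000000000000 0x100000001c0000000f0000003c000000080000001c0000001c00000014 7 6) 0 0 (step_sound _ 163 [(rh1006c02ae4212ff0.shift 3 3), rha3dc4174302275b1] (by decide +kernel))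
noncomputable def rhc8e24a5b9d8d4944 : CRef := CRef.mk (Pat.mk 0x400000004000000000000000e00000008 0x3e0000003e000000330000001e0000003b 7 6) 0 0 (step_sound _ 36 [rhc93f3ad81bc3b393, (rhd4123d721fda7464.shift 1 0)] (by decide +kernel))
noncomputable def rh04282a86a07cf483 : CRef := CRef.mk (Pat.mk 0x2000000020000000e00000006 0x20000000380000003d0000001f0000003a0000003e0000000e 7 6) 0 0 (step_sound _ 36 [(rh18965a982d73c794.shift 1 0), rha4de1e335327dc78] (by decide +kernel))
noncomputable def rhe9587aa670538aaf : CRef := CRef.mk (Pat.mk 0x20000000e00000004 0x1fb000000fe000001cc 7 9) 0 0 (step_sound _ 36 [(rh3244c3cc8379b070.shift 0 1), (rh74d1c3aedb66c8d2.shift 1 0)] (by decide +kernel))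
noncomputable def rhcd8f88575d6c4b9f : CRef := CRef.mk (Pat.mk 0x4000000040000001c00000008000000000000000000000000 0x1a0000003e000000360000001c0000000f000000060000000600000006 7 6) 0 0 (step_sound _ 98 [(rha9a9dd876407ae9a.shift 1 0), (rhf5094ad2a427d4d3.shift 0 2), (rhfb4db0f1ceebc294.shift 1 2)] (by decide +kernel))
noncomputable def rha8f315f29d4669d4 : CRef := CRef.mk (Pat.mk 0x38000000200000000000000000 0x80000000f0000007e0000003e0000000600000004 7 7) 0 0 (step_sound _ 98 [(rh072e16e08412f058.shift 1 0), (rhd1d05263fabc0227.shift 0 2), (rhd52e3929053d9d5f.shift 1 2)] (by decide +kernel))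
noncomputable def rh8ecaebd8af634e9f : CRef := CRef.mk (Pat.mk 0x4000000000000001e000000080000000000000000 0x6000000070000001e0000003f0000000700000004 7 6) 0 0 (step_sound _ 65 [(rheb0810cc63b001d8.shift 0 2), rheb8484afc668898b] (by decide +kernel))
noncomputable def rh6e7c90704641052a : CRef := CRef.mk (Pat.mk 0x4000000100000001e00000008 0x1000000170000001f000000130000001e0000000b 7 5) 0 0 (step_sound _ 100 [(rh5c5e593799055d58.shift 3 0), rh6e246f6c0a1c7d28] (by decide +kernel))
noncomputable def rh101ac83b0f51ab3b : CRef := CRef.mk (Pat.mk 0x7800000020 0x4000000040000000ce0000007e00000037 7 8) 0 0 (step_sound _ 70 [rh217cd4af2d68bc15, (rh33e738c4ed385b9f.shift 3 1)] (by decide +kernel))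
noncomputable def rhc8881a5c6e88c713 : CRef := CRef.mk (Pat.mk 0x400000004000000000000000e00000008 0x3e0000003e000000330000001e0000003b 7 6) 0 0 (step_sound _ 36 [(rhb862f592ca078726.shift 1 0), rheb505ef94539da28] (by decide +kernel))
noncomputable def rh1ff56f1ab0200d17 : CRef := CRef.mk (Pat.mk 0x800000008000000000000001c000000100000000000000000 0x80000000c000000040000003f0000003f0000000300000002 7 6) 0 0 (step_sound _ 97 [rh572bede94bee5b9d, (rhe25b0a99195a5d59.shift 1 2)] (by decide +kernel))
noncomputable def rhe59ef674744f6e48 : CRef := CRef.mk (Pat.mk 0x20000000000000004000000040000000000000000 0x5000000070000000700000002000000060000000600000006000000060000000400000004 7 3) 0 0 (step_sound _ 129 [(rh4d760d0d70847451.shift 1 1), (rh74a43b9a483760f6.shift 1 0), (rh9aed1232c1216b82.shift 0 2), (rhe482ee30a2733b5f.shift 1 0)] (by decide +kernel))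
noncomputable def rh5cedefa7cbac11fc : CRef := CRef.mk (Pat.mk 0x4000000040000000e000000180000000000000000 0x8000000180000003c0000003f0000001e0000001f0000003000000030 7 6) 0 0 (step_sound _ 132 [rh1dbc986ba2201413, (rh41ff50436c12a17e.shift 0 2), (rh6870ff15d3813450.shift 1 3), (rha6706bf25ecab9ca.shift 0 1)] (by decide +kernel))
noncomputable def rh4d4b48c38cbfcdba : CRef := CRef.mk (Pat.mk 0x800000008000000180000003000000000 0x30000000780000001e00000038000000ff000000e8 7 8) 0 0 (step_sound _ 38 [rhb861370836e548c7, (rhf48373e13d2bc128.shift 3 1)] (by decide +kernel))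
noncomputable def rh1397c739ded90af3 : CRef := CRef.mk (Pat.mk 0x800000018000000100000001000000000 0x240000007f0000003e0000001e0000007800000028 7 7) 0 0 (step_sound _ 132 [rh92af97cea8977e54, (rhc0ddb33d3a52722b.shift 1 1)] (by decide +kernel))
noncomputable def rh02aee79a4362176e : CRef := CRef.mk (Pat.mk 0x1000000010000000380000000000000000 0xc0000000c0000001f000000fe000000780000001c00000014 7 8) 0 0 (step_sound _ 99 [rh548995c5d643c767, (rhe2b63c00a3d7bb73.shift 1 2), rhf1e5eac82b7ae6d2] (by decide +kernel))
noncomputable def rh8bc75faa8cc970f1 : CRef := CRef.mk (Pat.mk 0x400000004000000080000000000000000 0xa0000000e0000000e0000000f0000003c0000000c0000000c0000000c00000008 7 6) 0 0 (step_sound _ 162 [(rh1148744b53f3df58.shift 1 2), (rh2977b00063528966.shift 2 0), (rh9dd91bba88ed65ca.shift 0 1)] (by decide +kernel))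
noncomputable def rhb6d75b6192975145 : CRef := CRef.mk (Pat.mk 0x100000003000000020000000200000000 0x1f0000001f00000007000000060000000600000004 7 5) 0 0 (step_sound _ 129 [(rh50fbb5868c909700.shift 0 1), rha400fe700a836344] (by decide +kernel))
noncomputable def rh920cc34a0ff22d79 : CRef := CRef.mk (Pat.mk 0x3800000018000000100000001000000000 0xc6000000ff00000038000000180000003800000028 7 8) 0 0 (step_sound _ 35 [rh190d086f1579bb77, (rh932754581e0f4330.shift 3 0)] (by decide +kernel))
noncomputable def rheb0c8b237632ef9b : CRef := CRef.mk (Pat.mk 0x1800000010000000300000002000000000 0x800000028000000ef000000fe0000007f000000700000006000000040 7 8) 0 0 (step_sound _ 163 [rhcacbe17ffaa48356, (rhe072fffdd2fccf38.shift 3 2), rhe1eab8e4c94bcbe2] (by decide +kernel))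
noncomputable def rh164a29405dfe118b : CRef := CRef.mk (Pat.mk 0x800000008000000080000000800000000 0xc0000000c0000000c0000003c0000000f0000000e 7 6) 0 0 (step_sound _ 130 [(rh50fbb5868c909700.shift 2 1), rhfd8bd4722d8df139] (by decide +kernel))
noncomputable def rh8c80f5611d72895a : CRef := CRef.mk (Pat.mk 0x2000000020000000200000004 0x200000002000000060000000600000006000000070000000700000007 7 3) 0 0 (step_sound _ 129 [rh5e6e1f1966d4ee2e, (rhd3458b32566d63f7.shift 1 0)] (by decide +kernel))
noncomputable def rh7d31a7966d04388f : CRef := CRef.mk (Pat.mk 0x100000000400000008000000080000000800000000 0x8000000180000001c0000000f0000003c000000180000000800000008 7 6) 0 0 (step_sound _ 131 [(rh50fbb5868c909700.shift 2 1), rh8e310dd8807c51fb] (by decide +kernel))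
noncomputable def rh089273bd4e659c11 : CRef := CRef.mk (Pat.mk 0x400000001000000030000000200000002000000000 0x2000000068000000680000003e000000ff000000f60000003c00000018 7 8) 0 0 (step_sound _ 131 [(rh0a18e9416056afba.shift 2 2), (rh0d11708815459f59.shift 2 0), (rh37375e2569fde596.shift 1 3), (rhaa2d62badf9d9cd7.shift 0 1)] (by decide +kernel))
noncomputable def rhb19ce9de7b15c857 : CRef := CRef.mk (Pat.mk 0xe000000040000000400000000 0x730000007f0000003c0000000400000004 7 7) 0 0 (step_sound _ 129 [(rh44b78625f33babd5.shift 0 2), (rh7b1f1fb55310c477.shift 1 0)] (by decide +kernel))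
noncomputable def rh3c5dd69216fb25bf : CRef := CRef.mk (Pat.mk 0x380000001000000000 0x400000004000001c7000000fe000001fe00000008 7 9) 0 0 (step_sound _ 66 [(rh205dc383ce3b31ea.shift 1 1), (rh3a69dc315759d1b4.shift 1 0), (rhd0782bcc7d08fb46.shift 0 1)] (by decide +kernel))
noncomputable def rhdebe140550a7ab14 : CRef := CRef.mk (Pat.mk 0x400000004000000040000000c00000000 0x180000007c0000000e0000000f0000003c00000014 7 7) 0 0 (step_sound _ 131 [(rh2f68792b6b779e96.shift 2 1), rh9cb438f2e9c94f08] (by decide +kernel))
noncomputable def rhd475b04427b6407b : CRef := CRef.mk (Pat.mk 0x18000000180000001000000030 0x400000004000000040000001e000000ff0000007e00000078 7 8) 0 0 (step_sound _ 69 [(rh684e3980fc340d4b.shift 0 1), (rh79b3c29022acbdf3.shift 2 2), (rhba8839eea1322a52.shift 1 0)] (by decide +kernel))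
noncomputable def rh11d7d1b4c1559e52 : CRef := CRef.mk (Pat.mk 0x300000003000000020000000000000000 0x1e0000001f00000007000000060000000600000006 7 5) 0 0 (step_sound _ 33 [rh7b1f1fb55310c477, rha400fe700a836344] (by decide +kernel))
noncomputable def rhd28935070554fe11 : CRef := CRef.mk (Pat.mk 0x18000000080000000800000008 0xc0000000c0000007c0000001f0000000c0000000c 7 7) 0 0 (step_sound _ 130 [rh4d85f049d545997d, (rhffd04209dc8ea796.shift 2 0)] (by decide +kernel))
noncomputable def rh761c480cc30f883b : CRef := CRef.mk (Pat.mk 0x80000000c000000080000000000000000 0x80000001c0000003e0000007f0000000c0000000c0000000800000008 7 7) 0 0 (step_sound _ 130 [(rh3cb04db3dd2b6a55.shift 2 0), (rh5933b47e276e704e.shift 0 2), (rhb28dff842a7744c7.shift 2 0)] (by decide +kernel))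
noncomputable def rhe1c99b1e51d43f05 : CRef := CRef.mk (Pat.mk 0x2000000030000000e00000000000000000000000000000000 0x1d0000001f0000000b0000000f00000006000000070000000700000001 7 5) 0 0 (step_sound _ 97 [(rh48efe263e685f48a.shift 0 2), rhbaff7ec0fcc038ba, (rhe286c75f2739cce2.shift 0 2)] (by decide +kernel))
noncomputable def rhdc57c15a6a9ee130 : CRef := CRef.mk (Pat.mk 0x10000000100000001000000038 0x1ef000000fe000001df0000001e00000078 7 9) 0 0 (step_sound _ 99 [(rh50fbb5868c909700.shift 3 0), rhd614d82a5282ce54] (by decide +kernel))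
noncomputable def rh0f5734572d3869e8 : CRef := CRef.mk (Pat.mk 0x8000000080000001a00000018000000000000000000000000 0x80000000b0000001e0000003f000000070000000700000005 7 6) 0 0 (step_sound _ 130 [rhb072e3944f945a17, (rhe25b0a99195a5d59.shift 1 3)] (by decide +kernel))
noncomputable def rh5bf73b18bea853d8 : CRef := CRef.mk (Pat.mk 0x800000008000000180000001c00000000 0x140000003c0000000f0000001c0000001f00000003 7 6) 0 0 (step_sound _ 33 [(rh53b3c253cb0c65f4.shift 0 1), rh5534454daef8ee24] (by decide +kernel))
noncomputable def rhe667250e2b61e92f : CRef := CRef.mk (Pat.mk 0x800000008000000180000001c00000000 0x140000001f0000000f0000001b0000001f00000003 7 5) 0 0 (step_sound _ 33 [(rh53b3c253cb0c65f4.shift 0 1), rh5ce708a043534166] (by decide +kernel))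
noncomputable def rhcbd2fcbf3212ba28 : CRef := CRef.mk (Pat.mk 0x18000000100000003000000030 0x1e7000000fe000001de0000003e00000074 7 9) 0 0 (step_sound _ 101 [(rh2f68792b6b779e96.shift 4 0), rh469dff282109d152] (by decide +kernel))
noncomputable def rh1f8780027c824129 : CRef := CRef.mk (Pat.mk 0x8000000180000001000000010 0x2800000028000001ef000000fe000001f600000014 7 9) 0 0 (step_sound _ 131 [rh08dca7c6855fe2db, (rh2145e1d24b96a57e.shift 3 1)] (by decide +kernel))
noncomputable def rhaac851d24c206b72 : CRef := CRef.mk (Pat.mk 0x1800000008000000080000000800000000 0x1800000018000001f8000000ff000001f4 7 9) 0 0 (step_sound _ 36 [(rh55afc6a59410cf00.shift 3 0), rhfa15522ea287522b] (by decide +kernel))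
noncomputable def rhce923e515af857c2 : CRef := CRef.mk (Pat.mk 0x40000000400000004000000040000000000000000 0xe0000000f0000003c0000000c0000000c0000000c 7 6) 0 0 (step_sound _ 35 [rh9dd91bba88ed65ca, (rhd3458b32566d63f7.shift 2 1)] (by decide +kernel))
noncomputable def rh5afb8476541374fe : CRef := CRef.mk (Pat.mk 0x1000000010000000100000001000000000 0x100000001000000010000000ff0000007e00000027 7 8) 0 0 (step_sound _ 37 [rh11228a1b9cd83473, (rh55afc6a59410cf00.shift 4 0)] (by decide +kernel))
noncomputable def rh96d52b8824ecb6b9 : CRef := CRef.mk (Pat.mk 0x80000000800000018000000100000000000000000 0x200000007c000001ef0000007e000000760000001400000010 7 9) 0 0 (step_sound _ 36 [(rh38ecb78421c5ae64.shift 0 1), (rh7b1f1fb55310c477.shift 3 0)] (by decide +kernel))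
noncomputable def rhd40b56021890c9d5 : CRef := CRef.mk (Pat.mk 0xc0000000c000000080000000800000000 0x700000007f0000003c000000180000001800000010 7 7) 0 0 (step_sound _ 132 [(rh2f68792b6b779e96.shift 3 1), rh6269120b76413712] (by decide +kernel))
noncomputable def rhd2beeea637afa0d1 : CRef := CRef.mk (Pat.mk 0x4000000000000000e0000001c 0x380000003c000000370000007e0000001e 7 7) 0 0 (step_sound _ 36 [rh562b4fabdc7b25de, (rhf9d36e158778ce35.shift 1 0)] (by decide +kernel))
noncomputable def rhca2cbdeb7953d6fd : CRef := CRef.mk (Pat.mk 0x180000001800000000 0x2000000020000000670000007f0000007f00000017 7 7) 0 0 (step_sound _ 34 [rh9a07ed6d8ab07e0b, (rhab2ad169e49f9c5e.shift 0 1), rhe44af4fe7586407d] (by decide +kernel))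
noncomputable def rh3a2bc0e0b7e11ddd : CRef := CRef.mk (Pat.mk 0x4000000020000000e00000028 0x1000000170000001f000000320000001e0000003b 7 6) 0 0 (step_sound _ 36 [(rh96851dee118c1ba3.shift 1 0), rhaac0b4e534323566] (by decide +kernel))
noncomputable def rha68d12b0e6808cc2 : CRef := CRef.mk (Pat.mk 0x10000000100000001000000030000000000000000000000000 0x1000000018000000ff000000fe000001cf0000000400000004 7 9) 0 0 (step_sound _ 99 [(rh932754581e0f4330.shift 3 2), rhb8f19df912597004] (by decide +kernel))
noncomputable def rh645956359d34a754 : CRef := CRef.mk (Pat.mk 0x400000004000000000000000800000008000000080000000400000000 0x400000006000000130000003f0000003f000000080000000c0000000c 7 6) 0 0 (step_sound _ 35 [(rh932754581e0f4330.shift 2 0), rh9e67bdfc49d1452a] (by decide +kernel))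
noncomputable def rh86656d8431708753 : CRef := CRef.mk (Pat.mk 0x100000007000000010 0xc0000000c000000ff0000007f0000001f 7 8) 0 0 (step_sound _ 35 [(rh592c7139d2c44767.shift 1 0), (rh69bdd90e728ccc00.shift 2 0), rh7ea7fc06b99fa11c, (rh855cb42074aae6cc.shift 2 0), rh988dac8d009f9f77, (rh9e97bba44c1b13e4.shift 1 0)] (by decide +kernel))
noncomputable def rh15436e1f30a2c60a : CRef := CRef.mk (Pat.mk 0xe0000001800000000 0x10000000140000001c0000007f0000003e0000001b0000000a 7 7) 0 0 (step_sound _ 100 [(rh71960cdf24de0c7e.shift 1 0), rh96a12e213b13a6de, rha587e0688a1fe888, (rhfa4ba789b3b402fc.shift 1 0)] (by decide +kernel))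
noncomputable def rhca4c3b91431ceaef : CRef := CRef.mk (Pat.mk 0x60000001c000000000000000000000000 0x1a0000001e0000007f0000007e0000001f000000070000000200000002 7 7) 0 0 (step_sound _ 132 [(rh1fa70f435c0d960e.shift 1 3), (rh926b5203449ef85d.shift 0 1), (rhd39e6d94ea1d35ca.shift 0 2), rhd808ab8fabdc2929] (by decide +kernel))
noncomputable def rhc4a8feffcdaf9613 : CRef := CRef.mk (Pat.mk 0x8000000080000000800000008 0x1800000018000000180000007c0000001f0000000c 7 7) 0 0 (step_sound _ 132 [rh5227abe5b2faa98a, (rhbaefcd01e0a8bca3.shift 3 0)] (by decide +kernel))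
noncomputable def rha6683bd745c844c8 : CRef := CRef.mk (Pat.mk 0xe00000018 0x30000000300000003f0000003e00000038 7 6) 0 0 (step_sound _ 36 [(rhe25b0a99195a5d59.shift 1 0), rhf891ff19e1968bc2] (by decide +kernel))
noncomputable def rhbb6ff6f6d54a477c : CRef := CRef.mk (Pat.mk 0xe000000180000000000000000 0x30000000360000003f0000003e0000001f0000000700000007 7 6) 0 0 (step_sound _ 100 [rh21703bbb6af57eb9, rh32af6e600e16eab8, (rh3bbb6459c441914e.shift 0 2), rhaa5c0d144f3a8d25, (rhf891ff19e1968bc2.shift 0 2)] (by decide +kernel))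
noncomputable def rheef80713fefe56e7 : CRef := CRef.mk (Pat.mk 0x1800000070000000000000002000000020 0x1c0000001c0000001f000000f80000007f0000000f0000003c0000007c 7 8) 0 0 (step_sound _ 99 [(rh3e9601eff8aa538d.shift 0 2), (rh7a353b663afb4e09.shift 2 0), (rh9e97bba44c1b13e4.shift 1 2), rhe21061f54c6146c3] (by decide +kernel))
noncomputable def rh8b7160dfc658bd26 : CRef := CRef.mk (Pat.mk 0x100000000000000020000000200000002000000000000000000000000 0x300000003000000060000000600000007000000070000000300000002 7 3) 0 0 (step_sound _ 193 [rhd72920fb2add2f79, (rhffd04209dc8ea796.shift 0 3)] (by decide +kernel))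
noncomputable def rhe1a83c105518f8f5 : CRef := CRef.mk (Pat.mk 0x8000000080000000c00000010000000000000000000000000 0x10000000180000001c0000000f000000180000001c0000000c00000004 7 5) 0 0 (step_sound _ 99 [(rh55afc6a59410cf00.shift 3 2), rh61890f6bc0c86238] (by decide +kernel))
noncomputable def rhd6c4fd35665948f6 : CRef := CRef.mk (Pat.mk 0x10000000100000001c00000008000000000000000000000000 0x1c0000001c0000007c0000007f000000370000003200000002 7 7) 0 0 (step_sound _ 98 [(rh2612b4f73ba7c3b3.shift 1 3), rh60748de94e152956, (rh82ae40d1c4ab63f4.shift 2 1)] (by decide +kernel))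
noncomputable def rh537ce11475610c32 : CRef := CRef.mk (Pat.mk 0x100000001000000038000000080000000000000000 0x10000000700000007e0000006f0000007c00000028 7 7) 0 0 (step_sound _ 69 [rh2606a92fa005c94c, (rh3ce854f4a795c89f.shift 1 2), (rhb8a1f9a12fc8f26e.shift 1 1)] (by decide +kernel))
noncomputable def rhe1ba2f531beb13bf : CRef := CRef.mk (Pat.mk 0x1000000010000000000000003800000020000000000000000000000000 0x100000001c0000000f0000007e0000003f0000000e0000000c00000004 7 7) 0 0 (step_sound _ 99 [(rhb7331f9e14c15616.shift 1 0), (rhbde356054f90dbb5.shift 0 3), (rhf0f55c4504412200.shift 0 3)] (by decide +kernel))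
noncomputable def rhcfe88172d56e6334 : CRef := CRef.mk (Pat.mk 0x40000000e0000000000000000000000000 0x200000007f000003fe0000001f0000001000000010 7 10) 0 0 (step_sound _ 100 [(rh1f9701c4cf497514.shift 1 2), (rh592c7139d2c44767.shift 2 2), (rh6076add87d5fdaa7.shift 3 0), (rh7f52302ad42d4238.shift 0 2), (rhec0f150ffdda098a.shift 2 2)] (by decide +kernel))
noncomputable def rh2cd516f7d9313028 : CRef := CRef.mk (Pat.mk 0x10000000100000001000000010 0x2f0000007e000000ff0000001000000010 7 8) 0 0 (step_sound _ 99 [(rh50fbb5868c909700.shift 3 0), rh89a50680381802a4] (by decide +kernel))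
noncomputable def rhceb7adaa7bccad7f : CRef := CRef.mk (Pat.mk 0x8000000080000000800000008000000100000000000000000 0x1c0000001f0000000c000000080000001c0000001c00000004 7 5) 0 0 (step_sound _ 67 [(rh55afc6a59410cf00.shift 3 1), rh7e76050b44d77eeb] (by decide +kernel))
noncomputable def rh595774e9248220cc : CRef := CRef.mk (Pat.mk 0x1800000018000000100000000000000000 0x400000006000000fe0000007f000000fe0000000e00000004 7 8) 0 0 (step_sound _ 98 [(rh617fa08c51d1fd57.shift 1 0), (rhab2ad169e49f9c5e.shift 0 3), (rhf56e6bc5d2f7fe77.shift 0 2)] (by decide +kernel))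
noncomputable def rh4135fb27562cfe7c : CRef := CRef.mk (Pat.mk 0x200000002000000020000000200000000000000000000000000000000 0x600000006000000070000000300000003000000070000000700000005 7 3) 0 0 (step_sound _ 97 [(rh7928877f9bf74a91.shift 0 2), rh95311890f436bcdc, rhdc48da121d6aeb87] (by decide +kernel))
noncomputable def rh1f30d04a0d67428b : CRef := CRef.mk (Pat.mk 0xc00000008000000080000000c00000000 0xc0000000c0000007f0000007f00000013 7 7) 0 0 (step_sound _ 36 [(rh55afc6a59410cf00.shift 3 0), rhad85ec5ee1222fff] (by decide +kernel))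
noncomputable def rh4ca764e9a8151995 : CRef := CRef.mk (Pat.mk 0x80000000800000008000000000000000000000000 0x140000001e000000780000000c0000003c0000001f0000001400000004 7 7) 0 0 (step_sound _ 66 [(rh3743dbe66b959104.shift 2 0), (rh544d3caba1e1e2bb.shift 2 0), (rhac4b4763407a46df.shift 0 1), (rhc223390219a649bf.shift 1 2)] (by decide +kernel))
noncomputable def rhdb488d682bd112c8 : CRef := CRef.mk (Pat.mk 0x3000000010000000300000002000000000 0x40000000f00000003e0000007f000000f000000050 7 8) 0 0 (step_sound _ 99 [(rh005328c9d6472acf.shift 1 2), (rh4d8f05195de6323f.shift 0 1), (rhb70df0c7a1006ed0.shift 2 0)] (by decide +kernel))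
noncomputable def rh8fc16c45a09fa28e : CRef := CRef.mk (Pat.mk 0x1800000008000000180000000800000008000000000000000000000000 0x180000000f0000001c000000180000000c0000001c0000001c00000010 7 5) 0 0 (step_sound _ 66 [rh102fb258c8ca6b06, (rh79877ebd3ef475dd.shift 2 2)] (by decide +kernel))
noncomputable def rh1c151f90805625db : CRef := CRef.mk (Pat.mk 0xc000000070000000c000000000000000000000000 0x800000028000000780000003c000000170000001e000000780000002800000008 7 7) 0 0 (step_sound _ 100 [(rh09d4dfe75d4407d6.shift 0 3), (rhb86cb87a892c64a6.shift 1 0)] (by decide +kernel))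
noncomputable def rh1860f0b2744fda46 : CRef := CRef.mk (Pat.mk 0xe00000002000000060000000000000000 0x1c0000003c0000000e0000003e0000000f0000000c0000000c 7 6) 0 0 (step_sound _ 98 [(rh5475f300f61ba577.shift 1 0), (rhb0c1e7919d9be92d.shift 1 0), (rhc86bf5508812963d.shift 0 1)] (by decide +kernel))
noncomputable def rh3d31b85e8d7cdbae : CRef := CRef.mk (Pat.mk 0x8000000080000001800000000 0x140000001c0000001e000000780000001f0000003c00000008 7 7) 0 0 (step_sound _ 132 [(rh08d50fe567eb1045.shift 3 0), (rh739b1d2a1da9317d.shift 2 1), (rh87d5e4118780fa3b.shift 3 0), rhd93c57696b14eda7] (by decide +kernel))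
noncomputable def rh86df07471c1fbc22 : CRef := CRef.mk (Pat.mk 0x200000002000000020000000100000000 0x700000007000000070000000600000006000000060000000300000003 7 3) 0 0 (step_sound _ 33 [rh932754581e0f4330, rha843ac6af038b7c8] (by decide +kernel))
noncomputable def rh6c928d5dc1cab9df : CRef := CRef.mk (Pat.mk 0x80000000800000008000000080000000c0000000000000000 0x140000001c0000001c0000000800000008000000080000001f0000001800000010 7 5) 0 0 (step_sound _ 36 [rh011f6d90b8ab0f69, (rhd3458b32566d63f7.shift 3 1)] (by decide +kernel))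
noncomputable def rh8d87fd7a6a470669 : CRef := CRef.mk (Pat.mk 0x80000000800000018000000000000000000000000 0x30000000780000001e000000380000001f0000001c00000010 7 7) 0 0 (step_sound _ 68 [(rh08edf065357d68e5.shift 3 0), (rh79ad7b82ec8c35e2.shift 3 0), (rhefd8f0758b51c670.shift 0 1)] (by decide +kernel))
noncomputable def rhbab17018530bcbea : CRef := CRef.mk (Pat.mk 0x2000000020000000600000000000000000000000000000000 0x5000000070000000700000006000000060000000600000003000000070000000700000004 7 3) 0 0 (step_sound _ 226 [(rh08d50fe567eb1045.shift 1 3), (rh739b1d2a1da9317d.shift 0 4), rhb10ebbd9973953c9] (by decide +kernel))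
noncomputable def rh3be65c0cd0b2e413 : CRef := CRef.mk (Pat.mk 0x800000008000000080000001c00000000 0x30000000780000001e0000003c000000ff00000020 7 8) 0 0 (step_sound _ 132 [rh247326795e9acaa0, (rh2f68792b6b779e96.shift 3 1)] (by decide +kernel))
noncomputable def rhebb7997e8617a9b1 : CRef := CRef.mk (Pat.mk 0x800000008000000080000001800000000 0x40000000c0000000c0000003f0000003f00000007 7 6) 0 0 (step_sound _ 34 [rh27831fe539cd6652, (rh932754581e0f4330.shift 2 0)] (by decide +kernel))
noncomputable def rhef9f57f75da1bc24 : CRef := CRef.mk (Pat.mk 0x70000000100000000000000000 0x8000000080000000f0000007e000000ff0000001000000010 7 8) 0 0 (step_sound _ 99 [(rh708c3bc8fe2f3084.shift 0 2), (rhb02f09656ae69562.shift 2 0), (rhb9dd680bb9375a9f.shift 2 0), (rhed95296174ee961f.shift 1 2)] (by decide +kernel))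
noncomputable def rh709c43411c5f6d85 : CRef := CRef.mk (Pat.mk 0xc000000080000000800000008 0x200000002000000130000003f0000003f0000000c00000008 7 6) 0 0 (step_sound _ 100 [(rh2f68792b6b779e96.shift 3 0), (rh32baa36dc86897fd.shift 0 1)] (by decide +kernel))
noncomputable def rhca2a390f413f04bc : CRef := CRef.mk (Pat.mk 0x8000000080000000800000008 0xc0000000c0000000c0000001f0000003c00000018 7 6) 0 0 (step_sound _ 130 [rhd21aa3bc3758e5c0, (rhffd04209dc8ea796.shift 2 0)] (by decide +kernel))
noncomputable def rh5b36bafb3a59e980 : CRef := CRef.mk (Pat.mk 0x200000003000000000000000300000001800000000 0x1ff000000fe0000000e0000003c0000001e0000000c 7 9) 0 0 (step_sound _ 34 [rh2c0732906ccdfca6, (rh53b3c253cb0c65f4.shift 1 1)] (by decide +kernel))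
noncomputable def rh421706d92baf67ae : CRef := CRef.mk (Pat.mk 0x2000000030000000000000003000000018 0x1f80000007c0000000f000000ff000000f8 7 9) 0 0 (step_sound _ 38 [(rh18965a982d73c794.shift 3 0), rheac8506ab945f856] (by decide +kernel))
noncomputable def rh33483633dcf96de4 : CRef := CRef.mk (Pat.mk 0x180000000e000000000000000000000000 0x7000000070000001f000000fe0000007f0000003600000030 7 8) 0 0 (step_sound _ 100 [rh6ae21157da276552, (rh73d03fdb326adb55.shift 0 1), (rhb447f348b8f2aaa5.shift 0 2), (rhe401600d466b97cd.shift 0 2), (rhf802b357d0a80080.shift 0 1)] (by decide +kernel))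
noncomputable def rh5c9559967b1308e8 : CRef := CRef.mk (Pat.mk 0xc00000006000000000000000000000000 0x2000000070000003f0000003e000000070000000600000002 7 6) 0 0 (step_sound _ 132 [(rh18965a982d73c794.shift 1 3), rhd82d5baab4b1e35c] (by decide +kernel))
noncomputable def rh2a9b6775a40c8ac5 : CRef := CRef.mk (Pat.mk 0x2000000020000000000000007000000018000000000000000000000000 0x7c0000003c0000000f0000007f000000f80000001c0000001800000018 7 8) 0 0 (step_sound _ 131 [(rh04adde65229dd8ca.shift 0 3), (rh30b477fddc9b2a7f.shift 2 0), (rh38a0850c9fea941e.shift 2 1)] (by decide +kernel))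
noncomputable def rh75903d57816e834a : CRef := CRef.mk (Pat.mk 0x800000008000000080000000400000000 0x140000001f00000038000000080000001c0000001c 7 6) 0 0 (step_sound _ 35 [rh64a9583f39534480, (rh932754581e0f4330.shift 2 0)] (by decide +kernel))
noncomputable def rh66863267533cc0b5 : CRef := CRef.mk (Pat.mk 0x20000000300000001000000010 0x2800000028000001ef000000fe000000df00000050 7 9) 0 0 (step_sound _ 133 [(rh5c5e593799055d58.shift 4 1), rhc972a2216d76e9b5] (by decide +kernel))
noncomputable def rh35ddff02ed3698fa : CRef := CRef.mk (Pat.mk 0x100000003800000008 0x3b7000001ff000000f8 7 10) 0 0 (step_sound _ 34 [rh0d378fd9e8917c5a, rh5dec5e73a267a1c4, (rhc3f1fdc610b622e4.shift 2 0), (rhedf6b6c69a16cbd5.shift 0 1)] (by decide +kernel))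
noncomputable def rhb9506699d9b53d6d : CRef := CRef.mk (Pat.mk 0x1e00000004000000040000000000000000 0x1000000010000000300000001f0000003f0000000c0000000400000004 7 6) 0 0 (step_sound _ 97 [(rheb0810cc63b001d8.shift 0 3), rhfb3e43489e28d7e2] (by decide +kernel))
noncomputable def rhac9cca7e3697d76f : CRef := CRef.mk (Pat.mk 0x1000000018000000180000000000000000 0x80000003e000000ff0000007e0000000600000004 7 8) 0 0 (step_sound _ 101 [(rh2612b4f73ba7c3b3.shift 2 2), rh5b0a4a15ea152cbc, (rhb3e5178e330c66a1.shift 1 2)] (by decide +kernel))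
noncomputable def rh7f298c791320b367 : CRef := CRef.mk (Pat.mk 0x2000000020000000200000002 0x500000007000000070000000300000003000000070000000600000006 7 3) 0 0 (step_sound _ 129 [rh304769ddd8faa6be, rh3ca48e2a6d60153d, rha087c6594f4bfb59] (by decide +kernel))
noncomputable def rh00bb38b43a44f273 : CRef := CRef.mk (Pat.mk 0x1c0000000800000000 0x2000000020000000e0000000ff0000007f00000010 7 8) 0 0 (step_sound _ 36 [(rh6292bd8784ece55f.shift 1 1), (rh8f888f6cb5702051.shift 0 1), (rhce5c438a547a1342.shift 1 0)] (by decide +kernel))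
noncomputable def rh7843752f6ce36363 : CRef := CRef.mk (Pat.mk 0x1000000010000000100000001000000000 0x1000000010000000ff0000007e0000002f 7 8) 0 0 (step_sound _ 37 [(rh55afc6a59410cf00.shift 4 0), rha946efe7ea45c2ef] (by decide +kernel))
noncomputable def rhbd007ba3af64b71f : CRef := CRef.mk (Pat.mk 0x2000000020000000200000002 0x100000007000000070000000700000003000000030000000300000002 7 3) 0 0 (step_sound _ 129 [(rh1741680720c097b4.shift 0 1), rh3ca48e2a6d60153d, rh522f51b0ff72c680, (rhf515f701b82bbaa6.shift 0 1)] (by decide +kernel))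
noncomputable def rhed7a7a244e950ca9 : CRef := CRef.mk (Pat.mk 0x2000000020000000200000002 0x400000007000000070000000700000006000000060000000600000002 7 3) 0 0 (step_sound _ 129 [(rh1741680720c097b4.shift 0 1), (rh44f453b84f013105.shift 1 0), (rh66ee4e4e1313f0fc.shift 0 1), rh9c4cd94ef89c4f22] (by decide +kernel))
noncomputable def rh067b6b76d11631bd : CRef := CRef.mk (Pat.mk 0x800000008000000080000000400000000 0x140000001f00000038000000080000001c0000001c 7 6) 0 0 (step_sound _ 35 [rh6a42d38fdc3b4f45, (rh932754581e0f4330.shift 2 0)] (by decide +kernel))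
noncomputable def rhd9c7b3a8dfba32ff : CRef := CRef.mk (Pat.mk 0x300000001800000018000000000000000000000000 0x300000001f000000ff000000ef0000000c0000000c 7 8) 0 0 (step_sound _ 35 [(rh9e3edb185cc347de.shift 3 1), rhd89534b4b3d26130] (by decide +kernel))
noncomputable def rhce1c5639bc12096a : CRef := CRef.mk (Pat.mk 0x2000000020000000300000001000000010 0x80000007c000001ef000000fe0000001f00000010 7 9) 0 0 (step_sound _ 67 [rh6da00715e09dd404, (rha11dfd15f08f96e3.shift 2 2), (rha3a6aaf7564e8331.shift 2 0), (rhb12ffaec36122c99.shift 0 1)] (by decide +kernel))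
noncomputable def rhb09f4c5eaef57401 : CRef := CRef.mk (Pat.mk 0x1e00000006 0x70000000f0000003f0000001e00000006 7 6) 0 0 (step_sound _ 65 [(rh3244c3cc8379b070.shift 0 1), rhd447f8f18bc0d94a] (by decide +kernel))
noncomputable def rh20f6822e18784894 : CRef := CRef.mk (Pat.mk 0x6800000038000000000000001000000000 0x18000000180000001c00000078000000f80000000f0000003c0000001c 7 8) 0 0 (step_sound _ 67 [rh2304a4d5a295908d, (rh49f3eeb415338cb2.shift 2 2), (rh8f4050c06a082165.shift 3 0)] (by decide +kernel))
noncomputable def rh4e9ba1e1df561d15 : CRef := CRef.mk (Pat.mk 0x340000001c000000000000000800000000 0xc0000000c0000007f0000003f0000001c000000040000000c0000000c 7 7) 0 0 (step_sound _ 131 [(rh15c6bd118a09e701.shift 0 3), (rh49355ec7c7297697.shift 1 0), (rhba89ab7cb81bcc90.shift 0 3)] (by decide +kernel))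
noncomputable def rh03cfd1feceb34932 : CRef := CRef.mk (Pat.mk 0x1a0000000e00000000 0x600000006000000070000001f0000003e00000003 7 6) 0 0 (step_sound _ 36 [(rh3244c3cc8379b070.shift 0 1), rh7c5044a8649333cc] (by decide +kernel))
noncomputable def rh41539dc66297cd35 : CRef := CRef.mk (Pat.mk 0x1000000000000000180000000800000008 0x14000000160000007f0000003f00000078 7 7) 0 0 (step_sound _ 36 [rh07a8ed47a3c9e596, (rhee230b994cc8b773.shift 3 0)] (by decide +kernel))
noncomputable def rhf3c34b46e125b283 : CRef := CRef.mk (Pat.mk 0x4000000000000000e00000002 0x4000000040000007c0000007e000000e3 7 8) 0 0 (step_sound _ 66 [(rh5c5e593799055d58.shift 1 0), rhbc097188b38155dd] (by decide +kernel))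
noncomputable def rh47be25f5cc7e1d20 : CRef := CRef.mk (Pat.mk 0x180000000e000000080000000000000000 0x200000006000000070000001f0000003e0000007f0000003200000030 7 7) 0 0 (step_sound _ 68 [(rh4a0b10776449c3e9.shift 1 2), rh5bfe629b50adfd3c, (rh89ade209b3e28f13.shift 1 2)] (by decide +kernel))
noncomputable def rhf47e623f1a8c665d : CRef := CRef.mk (Pat.mk 0x8000000000000001c000000060000000400000000 0x2800000038000000380000003a000000330000001f0000001e0000003c00000008 7 6) 0 0 (step_sound _ 132 [(rh4e4130d1541c55fc.shift 1 0), rh9c5384f24157e117, (rha91d406a344da597.shift 0 1)] (by decide +kernel))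
noncomputable def rh4ca5c9a31b87651c : CRef := CRef.mk (Pat.mk 0x60000000200000002000000000 0x18000000180000001e000001fe0000003f0000003000000020 7 9) 0 0 (step_sound _ 100 [(rh3c854e66629c2f4d.shift 1 0), (rhbd017196cc30c45e.shift 0 1), (rhf9a6286f1d5377a2.shift 4 0)] (by decide +kernel))
noncomputable def rheba0d62924a808f7 : CRef := CRef.mk (Pat.mk 0x3800000010000000100000001000000000 0x1c7000001fe000003f7000000100000001800000008 7 10) 0 0 (step_sound _ 134 [(rh429d551bffc08aea.shift 1 3), (rh64db1675dbf7175b.shift 3 0), (rh708c3bc8fe2f3084.shift 0 3), (rhdbe30b89b8872db3.shift 3 3)] (by decide +kernel))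
noncomputable def rh0a9061e5893d353c : CRef := CRef.mk (Pat.mk 0x1800000008000000080000001000000000 0x40000038c000001fc0000039f000000080000001800000018 7 10) 0 0 (step_sound _ 133 [(rh25ffd5978d653b7a.shift 1 0), (rh2820ca9a6c4f41b4.shift 0 3), (rhad562696acd1db6f.shift 2 3), (rhc01671e7ff47b369.shift 2 0)] (by decide +kernel))
noncomputable def rh234657a777e94638 : CRef := CRef.mk (Pat.mk 0xc0000000e000000180000000000000000 0xf0000003e0000001b0000000f0000000e 7 6) 0 0 (step_sound _ 35 [(rh7b1f1fb55310c477.shift 2 0), rha39c85db69efa5e0] (by decide +kernel))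
noncomputable def rh6d340c3f7e685c62 : CRef := CRef.mk (Pat.mk 0x80000000c000000180000001000000000 0x10000000300000007f0000003f0000001f0000003000000020 7 7) 0 0 (step_sound _ 97 [(rhb739f4f82bb681b4.shift 0 2), rhd54fc9bcd30cd5bb] (by decide +kernel))
noncomputable def rhacc14abdd2bd6787 : CRef := CRef.mk (Pat.mk 0x1e00000000 0xe70000007e000000e3 7 8) 0 0 (step_sound _ 65 [(rh3244c3cc8379b070.shift 0 1), rh409bc6189e2022f1] (by decide +kernel))
noncomputable def rh6b7838fe9bc51aa3 : CRef := CRef.mk (Pat.mk 0x200000002000000030000000000000000000000000 0x1000000074000001fe000000fe000000cf0000004800000008 7 9) 0 0 (step_sound _ 99 [(rh5503819b3c141e27.shift 2 1), rh8a4ede35bab668be, (rha11dfd15f08f96e3.shift 2 3), (rhb103f40a53fe1424.shift 0 2)] (by decide +kernel))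
noncomputable def rhed8f205b5809efd7 : CRef := CRef.mk (Pat.mk 0xc0000001c000000040000000000000000 0x18000000780000001f0000001c0000001c0000001800000018 7 7) 0 0 (step_sound _ 163 [(rh5c5e593799055d58.shift 2 2), rh8a8729367a6eec19] (by decide +kernel))
noncomputable def rh97fe0d015ec4887a : CRef := CRef.mk (Pat.mk 0x2000000060000000300000000 0x20000000e0000003e00000007000000070000000700000006 7 6) 0 0 (step_sound _ 129 [rh41fa7aabb5f552dc, rh5299d028bcf83633, (rhd4b4beefcd67f51e.shift 1 0)] (by decide +kernel))
noncomputable def rhb6625b165360b1f4 : CRef := CRef.mk (Pat.mk 0x40000000c000000080000000800000000 0x1a0000007f0000003e0000000c0000000e00000006 7 7) 0 0 (step_sound _ 131 [(rh861ee9d7304b9753.shift 1 1), rhd174cd2c210df385] (by decide +kernel))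
noncomputable def rh7705eac96b0a30b0 : CRef := CRef.mk (Pat.mk 0xc0000000800000008000000000000000000000000 0x40000001c0000001c000000180000000c0000000c0000003c0000001f0000001400000004 7 6) 0 0 (step_sound _ 66 [(rh0e6924d680f6455d.shift 2 0), (rh3743dbe66b959104.shift 2 0), (rh544d3caba1e1e2bb.shift 2 0), (rhac4b4763407a46df.shift 0 1), (rhd93f125276afe426.shift 2 2)] (by decide +kernel))
noncomputable def rhe2aa65f5427e7c27 : CRef := CRef.mk (Pat.mk 0x100000001000000030000000200000002000000000 0x100000001f000000fe000001ef0000007c00000008 7 9) 0 0 (step_sound _ 99 [rh33aeb546d8a8e1f5, (rh8ee80cc30e93a344.shift 2 2), (rhc92c11e8da6c894f.shift 0 2)] (by decide +kernel))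
noncomputable def rh0f7a1ddfedddfd24 : CRef := CRef.mk (Pat.mk 0x800000018000000300000001000000000 0x60000000f0000007e0000003e0000001e0000000e 7 7) 0 0 (step_sound _ 98 [rhb1efcc2a4954febc, (rhb739f4f82bb681b4.shift 1 2)] (by decide +kernel))
noncomputable def rh71aa001fb5ac6845 : CRef := CRef.mk (Pat.mk 0xc00000018000000180000000000000000 0x8000000080000000c0000001f0000003f0000000700000002 7 6) 0 0 (step_sound _ 163 [(rh2145e1d24b96a57e.shift 3 2), rhcdff2f5fa5f2c357] (by decide +kernel))
noncomputable def rh4948c8613cb96f0e : CRef := CRef.mk (Pat.mk 0x80000000e000000040000000600000000 0x7c0000007e000000740000001e0000001b 7 7) 0 0 (step_sound _ 100 [(rh29fe3b8590e19a67.shift 1 0), rh9e28da1e6c5549d1, (rha93a5dd541ab8209.shift 1 2), (rhfad4d06336df233f.shift 1 0)] (by decide +kernel))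
noncomputable def rh3423aa33d24af2a0 : CRef := CRef.mk (Pat.mk 0x60000000200000007000000000 0x1f00000003f000000fe0000000e 7 9) 0 0 (step_sound _ 35 [(rh592c7139d2c44767.shift 1 0), (rha1b2f921bd580565.shift 1 0), (rhafaa61f79143ceed.shift 1 0), (rhc3b070867f445089.shift 2 1), rhf0dcb8af34d9ea65] (by decide +kernel))
noncomputable def rh76c7d684ce6437a0 : CRef := CRef.mk (Pat.mk 0x1000000018000000080000001c00000000 0x100000007c0000006f0000003e00000073 7 7) 0 0 (step_sound _ 65 [(rh087a8a5eb7ea1dbf.shift 1 1), (rh841757f9a76ec410.shift 0 1), (rhbe282b16b2bfbfc7.shift 0 1), rhd643654deba295ff] (by decide +kernel))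
noncomputable def rh10db1e4357a7df2c : CRef := CRef.mk (Pat.mk 0x300000001800000018000000000000000000000000 0x4000000360000001f0000007f000000ef0000000e0000000e 7 8) 0 0 (step_sound _ 98 [rh2231901fb29eb143, (rh2d85ae0dca478dd1.shift 0 2), (rh54c0fe3eb08d9014.shift 1 0), (rh87fb4af8316b9600.shift 0 3), rhedb31a69f7ac5a79] (by decide +kernel))
noncomputable def rh59b5981939706c12 : CRef := CRef.mk (Pat.mk 0x80000000c00000006000000060000000000000000 0x390000003f000000360000001e0000001300000003 7 6) 0 0 (step_sound _ 33 [(rh71222050f2c63a3a.shift 1 0), rh9463e1042f3aaee1] (by decide +kernel))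
noncomputable def rhd6b185b70ae6ee48 : CRef := CRef.mk (Pat.mk 0x7000000018000000180000000000000000 0x78000000f80000007f0000007f0000000c 7 8) 0 0 (step_sound _ 35 [(rh71222050f2c63a3a.shift 3 0), rha02e7275705f1d18] (by decide +kernel))
noncomputable def rh08db5d18a0a1eb20 : CRef := CRef.mk (Pat.mk 0x1c000000060000000600000000 0x14000000340000001f0000003e0000001f00000008 7 6) 0 0 (step_sound _ 130 [(rh5c5e593799055d58.shift 1 1), rh9b9cd677ce2b8189] (by decide +kernel))
noncomputable def rh1d839c911510532c : CRef := CRef.mk (Pat.mk 0x80000000c000000080000000800000000 0x18000000180000000f000000780000001e00000014 7 7) 0 0 (step_sound _ 132 [(rh2f68792b6b779e96.shift 3 1), rhf7e30e099accbbdd] (by decide +kernel))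
noncomputable def rhe29ed1fef038a271 : CRef := CRef.mk (Pat.mk 0x20000000300000001000000010 0x2800000028000001ef000000fe000000df00000050 7 9) 0 0 (step_sound _ 133 [(rh5c5e593799055d58.shift 4 1), rh886fa447750dae02] (by decide +kernel))
noncomputable def rh50d1f60848ee3835 : CRef := CRef.mk (Pat.mk 0x14000000060000000200000002 0x10000000390000003f0000003e0000000b0000000a 7 6) 0 0 (step_sound _ 99 [(rh18965a982d73c794.shift 1 2), rh3b61fcb52cc3fd7d] (by decide +kernel))
noncomputable def rhf205308e137e9455 : CRef := CRef.mk (Pat.mk 0x30000000180000001000000000 0x80000000f000000ff000000f80000001000000010 7 8) 0 0 (step_sound _ 102 [rh080e56aba9e1e72a, (rh18965a982d73c794.shift 3 2)] (by decide +kernel))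
noncomputable def rh41979a9a28edd242 : CRef := CRef.mk (Pat.mk 0x1800000010000000100000003800000000 0x40000001f0000003c000000fe0000007e00000006 7 8) 0 0 (step_sound _ 69 [(rh7f0181233dbe742b.shift 0 1), (rhbca22981d3151c8c.shift 1 0), (rhf9d36e158778ce35.shift 2 1)] (by decide +kernel))
noncomputable def rh7009875aac7c9e6c : CRef := CRef.mk (Pat.mk 0x800000008000000080000001c00000000 0x40000000c000000080000003f000000ff000000e0 7 8) 0 0 (step_sound _ 130 [rh48b2c90492079fd4, (rh50fbb5868c909700.shift 2 1)] (by decide +kernel))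
noncomputable def rh4e3c2eb8f7c42af4 : CRef := CRef.mk (Pat.mk 0xe0000000200000002000000000 0x100000001e000000fe0000003f0000002000000020 7 8) 0 0 (step_sound _ 100 [(rh132883a60cd8aed8.shift 3 0), (rh5097ebe0f36b58ed.shift 0 2), (rhf6d31e6c51b6c8fc.shift 3 0)] (by decide +kernel))
noncomputable def rhb81b1cbc037bc0fd : CRef := CRef.mk (Pat.mk 0x20000000300000001000000010 0x800000008000000ef000003fe000001ff00000010 7 10) 0 0 (step_sound _ 67 [(rh3278891dc48967a2.shift 2 0), (rh860e5a177e0e0352.shift 0 1), rhe04a1c8c3bc9a2bc] (by decide +kernel))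
noncomputable def rh9a0c06c2d94cbbd6 : CRef := CRef.mk (Pat.mk 0x7800000008000000000000000000000000 0x180000001c00000078000000380000001f0000001c00000004 7 7) 0 0 (step_sound _ 163 [(rh3244c3cc8379b070.shift 2 4), rh80e63ca4d6ada0e5] (by decide +kernel))
noncomputable def rhcef7750f37691e36 : CRef := CRef.mk (Pat.mk 0x3000000020000000380000001000000000 0xf0000007e000001ef00000038000000f000000060 7 9) 0 0 (step_sound _ 131 [(rh099d444677688b93.shift 0 1), (rh4765089fa2c0a00d.shift 2 0), (rh8ee80cc30e93a344.shift 2 3), (rhc92c11e8da6c894f.shift 0 3)] (by decide +kernel))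
noncomputable def rhe670f8847e2dbbd0 : CRef := CRef.mk (Pat.mk 0xe000000180000000c000000000000000000000000 0xe7000000fe0000001f0000000f000000030000000300000001 7 8) 0 0 (step_sound _ 97 [(rh53b3c253cb0c65f4.shift 0 3), rhd3eb5a7ba791e2d1] (by decide +kernel))
noncomputable def rhd1304896a4e50811 : CRef := CRef.mk (Pat.mk 0x1e00000008 0xe3000000fe000001f8 7 9) 0 0 (step_sound _ 65 [(rh3244c3cc8379b070.shift 0 1), (rhdac559a75b3351e7.shift 1 0)] (by decide +kernel))
noncomputable def rh28952aad6c8bec1d : CRef := CRef.mk (Pat.mk 0x1c00000014000000180000000000000000 0x6000000070000001f0000001f0000001f0000003600000010 7 6) 0 0 (step_sound _ 129 [rh54f3e35e1ddfcb4c, (rhb9dd680bb9375a9f.shift 0 1), (rhdcaa79d5bdff7c17.shift 0 1)] (by decide +kernel))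
noncomputable def rh1c195dcb1d94ce63 : CRef := CRef.mk (Pat.mk 0x8000000080000000c000000000000000000000000 0x100000001c0000007c0000000f0000003c0000001c0000000c 7 7) 0 0 (step_sound _ 66 [rh41a851d91a38267d, (rh42548283029e2a39.shift 2 0), (rhf9af042da61fc652.shift 2 0)] (by decide +kernel))
noncomputable def rh06a584151d494b50 : CRef := CRef.mk (Pat.mk 0x10000000180000000800000006 0x2000000730000007f0000007f00000006 7 7) 0 0 (step_sound _ 34 [(rh69012675dfdb1a5b.shift 0 1), (rh94813f5592894daa.shift 1 0), (rhd69c262cd33b94b3.shift 0 1), rhf3740cfb37b66e2e] (by decide +kernel))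
noncomputable def rha9c8bcda0e3b5267 : CRef := CRef.mk (Pat.mk 0xe0000000a0 0xe000000fe000001bf 7 9) 0 0 (step_sound _ 36 [rh744ad401386df909, (rhe25b0a99195a5d59.shift 4 0)] (by decide +kernel))
noncomputable def rh30f16ca404da48c3 : CRef := CRef.mk (Pat.mk 0x800000008000000080000000000000000 0x140000001c0000001c0000000c0000000c0000000f0000003c00000014 7 6) 0 0 (step_sound _ 162 [(rh0dbc8abee7ad42d4.shift 2 1), rhf0cde2e20057acc9, (rhf153d2af6b144509.shift 2 1)] (by decide +kernel))
noncomputable def rh7f82aa92ca390d05 : CRef := CRef.mk (Pat.mk 0x600000002000000020000000200000000 0x40000000700000007000000030000000600000006000000030000000300000001 7 3) 0 0 (step_sound _ 32 [(rh3f524fb401a83858.shift 0 1), rh932754581e0f4330] (by decide +kernel))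
noncomputable def rh60ea0585b6f661ea : CRef := CRef.mk (Pat.mk 0x200000007000000040 0x3b7000003fe0000007c 7 10) 0 0 (step_sound _ 39 [(rh3b00e9e9432b8f40.shift 3 0), rh606342497c588657, (rh9f93e2b24091a43d.shift 4 0), (rhb6f72982232a8164.shift 4 1)] (by decide +kernel))
noncomputable def rhac381364afa4eaf7 : CRef := CRef.mk (Pat.mk 0x30000000100000001000000010 0xf000000fe000000ff0000001000000010 7 8) 0 0 (step_sound _ 99 [(rh0591c4825f70cf9c.shift 0 2), (rh50fbb5868c909700.shift 3 0)] (by decide +kernel))
noncomputable def rh12c0446cd554f36d : CRef := CRef.mk (Pat.mk 0x300000007000000010000000100000000 0x50000000700000007000000070000001f0000001e 7 5) 0 0 (step_sound _ 33 [rh55afc6a59410cf00, rhd87b6166ba0586ad] (by decide +kernel))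
noncomputable def rh0305745b18cb1992 : CRef := CRef.mk (Pat.mk 0x1800000008000000180000001000000000 0x20000000780000003f0000007f0000003800000008 7 7) 0 0 (step_sound _ 98 [(rh005328c9d6472acf.shift 0 2), rh0a91ef736123875e, (rh5ac338b5fcda750b.shift 0 2), (rhf40e619d7e191ac6.shift 2 1)] (by decide +kernel))
noncomputable def rh5e02d5fd11d96c46 : CRef := CRef.mk (Pat.mk 0xc00000018000000080000001800000000 0xf000000780000003f0000003f00000004 7 7) 0 0 (step_sound _ 34 [(rh8d082b4678b76f02.shift 0 1), (rh932754581e0f4330.shift 2 0)] (by decide +kernel))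
noncomputable def rhdb9a6c1acdbc393a : CRef := CRef.mk (Pat.mk 0x2000000020000000200000004 0x400000007000000070000000300000002000000030000000700000005 7 3) 0 0 (step_sound _ 129 [rh89fb121b6b5a2148, (rhd3458b32566d63f7.shift 1 0)] (by decide +kernel))
noncomputable def rh3d5866fd09826688 : CRef := CRef.mk (Pat.mk 0x4000000070000000200000000000000000 0xc70000007e0000003e0000002000000020 7 8) 0 0 (step_sound _ 37 [(rh4d63ff26ec2dbd2d.shift 0 2), (rh71222050f2c63a3a.shift 5 0)] (by decide +kernel))
noncomputable def rh3721570b93f317e9 : CRef := CRef.mk (Pat.mk 0x200000003800000018000000000000000000000000 0xc0000000c0000002c000000380000001f0000001f0000001c0000001c 7 6) 0 0 (step_sound _ 67 [(rh256e84d2eb9f4b7f.shift 0 1), (rh6a3ba3a6fd570301.shift 3 0), (rh9954101f0efffb9e.shift 2 0)] (by decide +kernel))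
noncomputable def rhf2ab95e86046d109 : CRef := CRef.mk (Pat.mk 0x380000000800000008000000000000000000000000 0x40000000c0000000c000000780000000f0000007c000000180000001000000010 7 7) 0 0 (step_sound _ 130 [(rh18965a982d73c794.shift 2 4), rh5d8cb2e01a697dd5] (by decide +kernel))
noncomputable def rh2b4e8cf72fa7415e : CRef := CRef.mk (Pat.mk 0xe000000020000000200000000 0x50000000700000007000000030000003e000000060000000600000004 7 6) 0 0 (step_sound _ 129 [(rh2e8814637c3f6d46.shift 0 1), rh357a2f7d16720a02, rha087c6594f4bfb59] (by decide +kernel))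
noncomputable def rh517a427218e01053 : CRef := CRef.mk (Pat.mk 0x6000000030000000200000000000000000000000000000000 0x1000000030000000300000006000000070000000700000006000000070000000300000001 7 3) 0 0 (step_sound _ 225 [(rh5abfc4c9d959be03.shift 0 3), rh7de9f97699eea1e4, (rha77f215723363df0.shift 0 4)] (by decide +kernel))
noncomputable def rh7cb8317354ac5955 : CRef := CRef.mk (Pat.mk 0x200000002000000020000000200000000 0x40000000700000007000000070000000600000006000000060000000200000002 7 3) 0 0 (step_sound _ 161 [(rh1741680720c097b4.shift 0 2), (rh44f453b84f013105.shift 1 1), (rh66ee4e4e1313f0fc.shift 0 2), (rh9bb7d10ce98dcee4.shift 1 0)] (by decide +kernel))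
noncomputable def rh45b64204e1c06312 : CRef := CRef.mk (Pat.mk 0x600000002000000020000000300000000 0x40000000700000007000000030000000600000006000000030000000700000004 7 3) 0 0 (step_sound _ 161 [rh1dd718f30a8364e9, (rh79877ebd3ef475dd.shift 0 1)] (by decide +kernel))
noncomputable def rh0ac0b92d8acbfdb2 : CRef := CRef.mk (Pat.mk 0x3800000010000000100000001000000000 0x1c7000001fe000003f7000000100000001800000008 7 10) 0 0 (step_sound _ 35 [(rh005cda9b2b2d1b77.shift 0 3), (rh932754581e0f4330.shift 3 0)] (by decide +kernel))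
noncomputable def rh714ccf9fbfd06030 : CRef := CRef.mk (Pat.mk 0x100000003c0000000800000000 0xe0000000f0000001e0000003c0000000e00000004 7 6) 0 0 (step_sound _ 98 [(rh3244c3cc8379b070.shift 1 2), rhe315fda5404d9b8e] (by decide +kernel))
noncomputable def rhf7ef4f12995d54a1 : CRef := CRef.mk (Pat.mk 0x2000000030000000600000000000000000000000000000000 0x4000000070000000700000003000000070000001e00000003000000070000000700000004 7 5) 0 0 (step_sound _ 131 [rh237242fd2a913505, (rhf48373e13d2bc128.shift 0 4)] (by decide +kernel))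
noncomputable def rhbe747fad19d1d043 : CRef := CRef.mk (Pat.mk 0x100000001c000000300000000000000000 0x3c0000003c0000001c0000007c0000003e0000000f0000000c 7 7) 0 0 (step_sound _ 67 [rh44c4193cad1e2e26, (rh503dd4575245365b.shift 3 1), (rhed34c2c2e858f89a.shift 1 1)] (by decide +kernel))
noncomputable def rhac65484a4e3da203 : CRef := CRef.mk (Pat.mk 0x80000000c0000003c00000000 0x1c0000001c0000000c0000003c0000003f00000063 7 7) 0 0 (step_sound _ 131 [rh3ec802efb8abd3f9, (rh5c5e593799055d58.shift 2 1)] (by decide +kernel))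
noncomputable def rh9fca16e1f8d77448 : CRef := CRef.mk (Pat.mk 0x80000000c000000180000001000000000 0x4000000060000000f0000003f0000001f0000003700000006 7 6) 0 0 (step_sound _ 97 [(rhb739f4f82bb681b4.shift 0 2), rhb9ec0c1b1d92b309] (by decide +kernel))
noncomputable def rhe18a977a20ab4dec : CRef := CRef.mk (Pat.mk 0x3800000020000000200000003000000000 0x80000000e0000003e00000037000000fe0000003e00000008 7 8) 0 0 (step_sound _ 130 [(rh0de499e0455c9c14.shift 0 3), (rh3b31153390e8107d.shift 1 0), (rhcedbf724363414cd.shift 1 0)] (by decide +kernel))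
noncomputable def rhdc8358f84961ee1d : CRef := CRef.mk (Pat.mk 0x1c00000010000000100000001800000000 0x600000006000000060000001c0000007f0000007f0000001f00000004 7 7) 0 0 (step_sound _ 99 [rh825eacff3b5c8a28, rhcad22a9f15914a6a, (rhdb437b6c393d0685.shift 0 1), (rhf7c27e59b1d77735.shift 1 0)] (by decide +kernel))
noncomputable def rh71b3a7f006ab3ef4 : CRef := CRef.mk (Pat.mk 0x80000000800000008000000000000000000000000 0x140000001c0000001c0000001f0000003800000018000000180000001800000010 7 6) 0 0 (step_sound _ 68 [(rh1148744b53f3df58.shift 2 2), (rh2977b00063528966.shift 3 0), (rh57ef47e48e72936d.shift 0 1)] (by decide +kernel))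
noncomputable def rhbcc568571a0706ef : CRef := CRef.mk (Pat.mk 0x80000000e0000000400000004 0x200000002000001ff000000fe0000000c00000004 7 9) 0 0 (step_sound _ 97 [(rh212ba572ea2a9720.shift 0 1), rh44858d7cb17813b7, (rhc89253ff58c66167.shift 1 0)] (by decide +kernel))
noncomputable def rhddab0d9223bc9aa4 : CRef := CRef.mk (Pat.mk 0x1000000008000000080000000800000000 0x1c0000001c00000008000000380000001f00000014 7 6) 0 0 (step_sound _ 131 [(rh2f68792b6b779e96.shift 3 1), rh4c7b95ba94fe1ec5] (by decide +kernel))
noncomputable def rh6a8985c82773645d : CRef := CRef.mk (Pat.mk 0x300000002000000020000000300000000 0x10000000700000007000000060000000300000003000000030000000700000004 7 3) 0 0 (step_sound _ 161 [(rh79877ebd3ef475dd.shift 0 1), rhe84afcfdd9ebfb4d] (by decide +kernel))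
noncomputable def rh838c9470db8473ff : CRef := CRef.mk (Pat.mk 0xc000000080000000800000004 0x1800000018000000180000000f0000003c0000001c00000004 7 6) 0 0 (step_sound _ 131 [(rh43441bceed843204.shift 0 1), (rh79877ebd3ef475dd.shift 2 0)] (by decide +kernel))
noncomputable def rhbe5d2222cd04ee06 : CRef := CRef.mk (Pat.mk 0x100000001000000000000000380000002800000000000000000000000000000000 0x1000000018000000080000003c0000003f0000001e0000001c0000001c00000004 7 6) 0 0 (step_sound _ 195 [(rh1006c02ae4212ff0.shift 3 4), rh5ad13f21ad869841] (by decide +kernel))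
noncomputable def rh236cadce3b06a040 : CRef := CRef.mk (Pat.mk 0xa0000000e000000000000000400000004 0x1e0000001e0000007f0000003e0000000e000000080000000c00000004 7 7) 0 0 (step_sound _ 67 [(rh1c49b721a7470203.shift 0 2), (rheea67dfebd0f8008.shift 2 0)] (by decide +kernel))
noncomputable def rhd52f0ebaeda9b054 : CRef := CRef.mk (Pat.mk 0x60000001c000000000000000800000008 0x18000000180000007f0000007e0000001e000000330000001a0000000a 7 7) 0 0 (step_sound _ 68 [rh6a941cf9bb21d255, (rh87ec52b0a4a7ddb0.shift 1 0), rhf8cab4de10547c12] (by decide +kernel))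
noncomputable def rhb47d76758082e21d : CRef := CRef.mk (Pat.mk 0x800000008000000000000001c00000030 0x7c0000002f000000640000003c00000076 7 7) 0 0 (step_sound _ 37 [rhb09a9dab21a0bbba, (rhe25b0a99195a5d59.shift 2 0)] (by decide +kernel))
noncomputable def rhfb730ce436a68b75 : CRef := CRef.mk (Pat.mk 0x800000008000000000000001c00000014000000000000000000000000 0x7c0000002f000000e40000007c0000001c0000000f0000000e0000000e 7 8) 0 0 (step_sound _ 133 [(rh2711cb01bcba8ebe.shift 0 3), rh46fd54eafe21e671, (rhd584a578337d0023.shift 2 3)] (by decide +kernel))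
noncomputable def rh1bd1790d68ef6bbb : CRef := CRef.mk (Pat.mk 0x800000008000000000000003c00000010000000000000000000000000 0x80000000c000000040000007c0000001e0000000f0000000e0000000e 7 7) 0 0 (step_sound _ 98 [rh46fd54eafe21e671, (rheb0810cc63b001d8.shift 1 3)] (by decide +kernel))
noncomputable def rh5dd25c6bd6adefc5 : CRef := CRef.mk (Pat.mk 0x800000008000000000000003c00000010 0x7c0000002f000000640000003c00000016 7 7) 0 0 (step_sound _ 69 [(rh33e738c4ed385b9f.shift 2 1), rh51e916d336f9e9d9] (by decide +kernel))
noncomputable def rh6e5344d55ae49924 : CRef := CRef.mk (Pat.mk 0x60000001c000000000000000800000008 0x18000000380000007f0000007e0000001e000000300000003800000008 7 7) 0 0 (step_sound _ 132 [rh0db28fd05c17a2aa, (rh1fa70f435c0d960e.shift 1 3), (rh8fba37a232e728fc.shift 1 0), (rhe96b3b283f25630d.shift 1 0)] (by decide +kernel))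
noncomputable def rhe31f03bd35c95e58 : CRef := CRef.mk (Pat.mk 0x800000018000000000000001800000010 0x2000000020000001ff000000ff000001e00000007e00000030 7 9) 0 0 (step_sound _ 101 [rh2d70845a4eba44db, (rh46c0f3f441f38294.shift 0 1), (rh9c94213f6896c74a.shift 2 2), (rha7edc60fc34bffff.shift 1 3)] (by decide +kernel))
noncomputable def rh4762c331170f0d60 : CRef := CRef.mk (Pat.mk 0xe000000180000000000000000 0x30000000340000007f0000003e0000001f0000000300000003 7 7) 0 0 (step_sound _ 100 [(rh3bbb6459c441914e.shift 0 2), (rh40635836353d44db.shift 0 2), rhaa5c0d144f3a8d25, (rhf891ff19e1968bc2.shift 0 2)] (by decide +kernel))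
noncomputable def rh806dab3a30497686 : CRef := CRef.mk (Pat.mk 0x1800000070000000000000002000000020 0x6000000060000001fc000001f80000007f000000c70000006000000020 7 9) 0 0 (step_sound _ 134 [(rh0db28fd05c17a2aa.shift 2 0), (rh1fa70f435c0d960e.shift 3 3), (rh8fba37a232e728fc.shift 3 0), rhd26a6b2bff6e6238] (by decide +kernel))
noncomputable def rhd8dcdba75c0c4f5a : CRef := CRef.mk (Pat.mk 0xe0000000200000002 0x10000000700000007000000770000003e0000000600000002 7 7) 0 0 (step_sound _ 68 [rh650b9ba7f50bdccf, rh7b3460ecbfb1f98e, (rhd584a578337d0023.shift 1 1)] (by decide +kernel))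
noncomputable def rhe93f3722706a5a43 : CRef := CRef.mk (Pat.mk 0x3800000008000000080000001000000010 0x1000000010000000780000003e0000007f000000680000007000000010 7 7) 0 0 (step_sound _ 130 [(rh185f35b8bd8ec37f.shift 0 3), (rh7654d7b92c96fe12.shift 0 3), (rhc7de3e595ea54fc2.shift 1 2), (rhf9fc51785ce0cba3.shift 1 0)] (by decide +kernel))
noncomputable def rh77ef2f9cb42cbe7a : CRef := CRef.mk (Pat.mk 0x700000001000000010 0x2000000020000001f7000000fe000001f700000010 7 9) 0 0 (step_sound _ 67 [(rh3fc3a7fb6866dcd4.shift 3 1), (rh4c7411087d622b9c.shift 2 0), (rh708c3bc8fe2f3084.shift 0 1)] (by decide +kernel))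
noncomputable def rh707d389c7dc94d13 : CRef := CRef.mk (Pat.mk 0x1c0000000400000004 0xa0000007f0000007e0000007400000004 7 7) 0 0 (step_sound _ 98 [rh039efe07c35de3d4, (rh2e8814637c3f6d46.shift 1 0), (rhb92a43bc4f14431a.shift 1 0)] (by decide +kernel))
noncomputable def rhe6ccea1eb9763e90 : CRef := CRef.mk (Pat.mk 0x1c0000000400000004 0xa0000000a0000003f0000001f0000003700000004 7 6) 0 0 (step_sound _ 97 [rh52c36d35947218a3, rh91e69ca9383e36e6, rhb1ac881e8f7c9aec, (rhbab796f6dafe9186.shift 1 0), rhbf66a34bc9ff2ede] (by decide +kernel))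
noncomputable def rhd8673ff551ecbdb5 : CRef := CRef.mk (Pat.mk 0x18000000080000000800000000 0x44000001f7000000fe000000ff0000002800000020 7 9) 0 0 (step_sound _ 101 [(rh94e0c5709a8692ce.shift 0 1), (rhda6f673521835f26.shift 0 2), (rhdc1641106d7e5aa2.shift 2 2), (rhec89969cfdaf3653.shift 2 0)] (by decide +kernel))
noncomputable def rhf73c75fd90e90000 : CRef := CRef.mk (Pat.mk 0x8000000180000000800000008 0xf4000000ff0000001f0000000800000008 7 8) 0 0 (step_sound _ 100 [(rh2f68792b6b779e96.shift 3 0), rheff337d392bc5c44] (by decide +kernel))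
noncomputable def rhabb76c5aa6247ddd : CRef := CRef.mk (Pat.mk 0x40000000c0000000400000004 0x400000006000000060000003e0000000f0000000e00000004 7 6) 0 0 (step_sound _ 129 [(rhc6183b8ab17ecf3c.shift 0 1), (rhffd04209dc8ea796.shift 1 0)] (by decide +kernel))
noncomputable def rh30b6f47c0ea2e55c : CRef := CRef.mk (Pat.mk 0x1c0000000400000004 0x200000002000000770000007f0000003c00000004 7 7) 0 0 (step_sound _ 97 [(rh3096afc3fb8ec134.shift 0 1), (rh6279f4d0e372f7fa.shift 1 0), rhb1ac881e8f7c9aec] (by decide +kernel))
noncomputable def rh8281f9c3a901883e : CRef := CRef.mk (Pat.mk 0xc0000001800000000 0x1400000014000000370000003f0000001b0000000a 7 6) 0 0 (step_sound _ 65 [rh5ae56804b61ec549, (rhb739f4f82bb681b4.shift 0 1)] (by decide +kernel))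
noncomputable def rh12deb38fa45613d9 : CRef := CRef.mk (Pat.mk 0x3000000060000000000000006000000040 0x40000001c0000007c0000007f0000001c000000fc000000fe 7 8) 0 0 (step_sound _ 131 [(rhb739f4f82bb681b4.shift 2 3), rhea8b31d11ebb83f2] (by decide +kernel))
noncomputable def rhe4854492f3a45983 : CRef := CRef.mk (Pat.mk 0x1800000030000000000000003000000020 0x38000000fc000000cf0000007e000000ff 7 8) 0 0 (step_sound _ 102 [rhe8ec061d2834f84a, (rhf48373e13d2bc128.shift 3 3)] (by decide +kernel))
noncomputable def rh3ec24a166c12f682 : CRef := CRef.mk (Pat.mk 0x3000000010000000100000001000000000 0xe000000ff0000003e000000180000001800000008 7 8) 0 0 (step_sound _ 131 [(rh50fbb5868c909700.shift 3 1), rhce115f9033da1d61] (by decide +kernel))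
noncomputable def rh3d9ba2f95ee2cc85 : CRef := CRef.mk (Pat.mk 0x1000000078000000000000002000000020 0x1c0000001c0000001f0000003c00000078000000080000003c0000007c 7 7) 0 0 (step_sound _ 131 [(rh3244c3cc8379b070.shift 2 3), rhe21061f54c6146c3] (by decide +kernel))
noncomputable def rhcb1560890d577d7a : CRef := CRef.mk (Pat.mk 0x100000007000000000 0x3b7000001fe000003ce 7 10) 0 0 (step_sound _ 7 [(rh41823a304801edf1.shift 4 0), rh581c3e0ee06c10ae, (rh71efda916732b25a.shift 3 0)] (by decide +kernel))
noncomputable def rhc1b71481957ab4a9 : CRef := CRef.mk (Pat.mk 0x800000018000000700000001000000000 0x40000000cc000000f80000007f0000003e00000020 7 8) 0 0 (step_sound _ 34 [rh2bd4eee357cb19c4, (rh8bf8257c7eeda352.shift 1 1), (rhbb229bad87965364.shift 2 1), (rhfb815e3afead425a.shift 1 1)] (by decide +kernel))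
noncomputable def rhd49fded03ddb13d0 : CRef := CRef.mk (Pat.mk 0x20000000e0000000000000000 0x1000000018000000380000007e0000003f0000007800000010 7 7) 0 0 (step_sound _ 100 [rh70ab18bab8d74c9f, (rh90fcc1b0fe0017ad.shift 0 2), (rha0d2d254997cad6c.shift 1 1), (rhb8022f71dc28021b.shift 0 2)] (by decide +kernel))
noncomputable def rh1e4e66686b0e940e : CRef := CRef.mk (Pat.mk 0x1800000070000000000000002000000020 0x6000000060000001fc000001f80000007f000000ce0000006000000020 7 9) 0 0 (step_sound _ 70 [(rh063cf3080212b528.shift 0 2), (rh87ec52b0a4a7ddb0.shift 3 0), (rhf8cab4de10547c12.shift 2 0)] (by decide +kernel))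
noncomputable def rhc3273ed437338a69 : CRef := CRef.mk (Pat.mk 0x18000000080000001800000018 0x2000000078000000ef000000ff00000078 7 8) 0 0 (step_sound _ 34 [(rh30c2fd018efaca81.shift 1 0), rhad5d8fc3675c15dd, rhf22043ec940c263e] (by decide +kernel))
noncomputable def rh9ef41ddb03a05e59 : CRef := CRef.mk (Pat.mk 0xc000000040000001c00000008 0xf80000007c000000f60000001f00000038 7 8) 0 0 (step_sound _ 4 [(rh9ed67584b6a486bb.shift 1 0), rhad5d8fc3675c15dd] (by decide +kernel))
noncomputable def rhe7f714d581e6ec45 : CRef := CRef.mk (Pat.mk 0x20000000e000000040000000000000000 0x1000000010000001fb000000fe000001cc0000000800000008 7 9) 0 0 (step_sound _ 100 [(rh3244c3cc8379b070.shift 0 3), (rh93029b43452b4aeb.shift 1 0)] (by decide +kernel))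
noncomputable def rh2361b3984ad89fad : CRef := CRef.mk (Pat.mk 0x3800000020000000000000000000000000 0xf0000007e0000003e000000060000000400000004 7 7) 0 0 (step_sound _ 130 [(rh47c07cd0cc865f65.shift 1 3), (rh7d5bf828111ca202.shift 0 3), (rh99d106e79260c62b.shift 1 0)] (by decide +kernel))
noncomputable def rhb743f40c8fe1c828 : CRef := CRef.mk (Pat.mk 0x1e00000008000000000000000000000000 0x30000003e0000003f000000070000000700000007 7 6) 0 0 (step_sound _ 97 [rhdde50cf14433f92f, (rheb0810cc63b001d8.shift 0 3)] (by decide +kernel))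
noncomputable def rh1bd88579ba9fc836 : CRef := CRef.mk (Pat.mk 0xc00000000000000080000000800000000 0x1c0000001c000000080000000f0000003c00000014 7 6) 0 0 (step_sound _ 99 [rh26fa6f5e3fc4a5b2, (rh50fbb5868c909700.shift 2 1)] (by decide +kernel))
noncomputable def rh59a7c93ca23662c8 : CRef := CRef.mk (Pat.mk 0x200000002000000000000000400000004 0x400000007000000070000000200000003000000070000000700000004 7 3) 0 0 (step_sound _ 65 [(rh8a3b44d1b34c54df.shift 0 1), (rhbe0e43a3bc50a43f.shift 1 0)] (by decide +kernel))
noncomputable def rhd4b27a2e060d1084 : CRef := CRef.mk (Pat.mk 0xc000000380000000000000000 0x3000000038000000780000007c0000003e0000006700000004 7 7) 0 0 (step_sound _ 66 [(rh031a926e4a883687.shift 1 0), (rh9e97bba44c1b13e4.shift 0 1), (rhdd49db1d13e41c35.shift 1 1)] (by decide +kernel))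
noncomputable def rh92b409e8cd80967f : CRef := CRef.mk (Pat.mk 0x3800000010 0x1c7000000fe000001fe 7 9) 0 0 (step_sound _ 34 [(rh205dc383ce3b31ea.shift 1 0), rhd0782bcc7d08fb46] (by decide +kernel))
noncomputable def rh9d7fb66cf8ba107b : CRef := CRef.mk (Pat.mk 0x18000000100000001000000010 0x27000000fe000000ff0000001000000010 7 8) 0 0 (step_sound _ 101 [(rh0591c4825f70cf9c.shift 0 2), (rh2f68792b6b779e96.shift 4 0)] (by decide +kernel))
noncomputable def rhc1a50caf0937aafd : CRef := CRef.mk (Pat.mk 0x78000000080000000000000000 0x7e0000007f000000380000000800000008 7 7) 0 0 (step_sound _ 130 [rh200756c8b58b99b4, (rh3f8766e6ecb455ce.shift 2 3)] (by decide +kernel))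
noncomputable def rhe90b6fba2da4804e : CRef := CRef.mk (Pat.mk 0x80000000e000000000000000800000008 0xfc000000fe000000370000001800000018 7 8) 0 0 (step_sound _ 100 [(rhb5dba6328d9c248c.shift 1 0), (rhde91c129e28832b1.shift 0 2), (rhfe60e6bf166d6adf.shift 0 2)] (by decide +kernel))
noncomputable def rhe6b6b2f456281d97 : CRef := CRef.mk (Pat.mk 0x1c000000000000001000000010 0x6f0000007e0000006f0000003000000010 7 7) 0 0 (step_sound _ 101 [(rh1fbc9fee05401eba.shift 2 0), (rh5f7b3bfbaf903d4f.shift 1 2), (rhdd2a5e215b1a3be5.shift 0 2)] (by decide +kernel))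
noncomputable def rhc0e7132a59b07e16 : CRef := CRef.mk (Pat.mk 0x600000000000000040000000400000000 0xe0000000e000000040000003c0000000f0000000a 7 6) 0 0 (step_sound _ 98 [(rh50fbb5868c909700.shift 1 1), rhbf5b792126ec9b29] (by decide +kernel))
noncomputable def rh5649f6617a16d646 : CRef := CRef.mk (Pat.mk 0x1000000010000000380000002000000000 0x8000000cc000000df000000fe000000f8000000f800000008 7 8) 0 0 (step_sound _ 99 [(rh71d2155382f8dfa3.shift 3 1), (rh79b3c29022acbdf3.shift 2 2), rhcce02c766c8b65a0] (by decide +kernel))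
noncomputable def rh472a6edea235427c : CRef := CRef.mk (Pat.mk 0x100000003000000028 0x1f7000003fe000000ef 7 10) 0 0 (step_sound _ 35 [rh2820ca9a6c4f41b4, (rh3ce854f4a795c89f.shift 1 0), rhc92c11e8da6c894f, (rhea8817d1da92b1c9.shift 2 0)] (by decide +kernel))
noncomputable def rhf11f7734687c1004 : CRef := CRef.mk (Pat.mk 0x4000000000000000c000000080000000000000000 0x400000004000000e6000000ff0000003f0000000200000002 7 8) 0 0 (step_sound _ 130 [(rh2145e1d24b96a57e.shift 2 2), rhf0dc22fcb7969733] (by decide +kernel))
noncomputable def rh1246967bcde55bf0 : CRef := CRef.mk (Pat.mk 0x50000000e000000080 0x7f000000fe000000c7 7 8) 0 0 (step_sound _ 36 [(rh3244c3cc8379b070.shift 3 1), rh459539c88f7c5ecc] (by decide +kernel))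
noncomputable def rh4f369b7a8207b2ec : CRef := CRef.mk (Pat.mk 0x40000000e00000008 0x30000000300000007f000000fe00000038 7 8) 0 0 (step_sound _ 36 [rh615bdbae854bd84e, (rhe3060b190bc0bc78.shift 0 1), (rhedb3b02e2070cb06.shift 1 0)] (by decide +kernel))
noncomputable def rh2945c858c56ed83d : CRef := CRef.mk (Pat.mk 0x2000000020000000e000000060000000000000000 0x11000000130000003a0000003f0000001e0000000800000008 7 6) 0 0 (step_sound _ 100 [(rh18965a982d73c794.shift 1 2), rh69c42b78f3d562bc] (by decide +kernel))
noncomputable def rh00d2c9d026faf421 : CRef := CRef.mk (Pat.mk 0x4000000040000000e0000000800000000 0x10000000140000007f000000fe0000003b00000002 7 8) 0 0 (step_sound _ 68 [rh9613a25976cdad86, (rhe3060b190bc0bc78.shift 0 2), (rhedb3b02e2070cb06.shift 1 1)] (by decide +kernel))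
noncomputable def rhb7b970e73cc126a6 : CRef := CRef.mk (Pat.mk 0x100000001c000000300000002000000000 0x20000000a0000000f0000001f0000007c000000360000003e0000001c 7 7) 0 0 (step_sound _ 131 [(rhcc09237f44bec89a.shift 0 1), (rhe03933d511c256c8.shift 1 0), (rhfc7c29d8e65d775f.shift 3 1)] (by decide +kernel))
noncomputable def rh8a218a41bb7d4407 : CRef := CRef.mk (Pat.mk 0x38000000200000000000000000 0x40000000c000000ef000000fe0000003f0000001e0000001c 7 8) 0 0 (step_sound _ 67 [(rh2820ca9a6c4f41b4.shift 0 2), rh39171d3e225e0cad, (rhdea1f04fd30dc1f7.shift 1 0), (rhdf05054f27544b74.shift 2 0)] (by decide +kernel))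
noncomputable def rh8952cf76619397cb : CRef := CRef.mk (Pat.mk 0x20000000e0000000a000000000000000000000000 0xa0000003e0000003f000000340000001400000010 7 6) 0 0 (step_sound _ 132 [(rh79f86bb6284e2c44.shift 1 0), (rheb0810cc63b001d8.shift 0 3)] (by decide +kernel))
noncomputable def rh697f76e01c4f9846 : CRef := CRef.mk (Pat.mk 0x1c000000100000000000000000 0x400000004000000070000003f0000003c0000000800000008 7 6) 0 0 (step_sound _ 97 [rh3abd088d854471f9, (rhe25b0a99195a5d59.shift 1 2)] (by decide +kernel))
noncomputable def rhc56d1b6b54ae9b25 : CRef := CRef.mk (Pat.mk 0x8000000000000001e0000000000000000 0x20000000b0000003f0000003f0000000400000004 7 6) 0 0 (step_sound _ 97 [rh0d751dc6b5a462a8, (rh3244c3cc8379b070.shift 0 2)] (by decide +kernel))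
noncomputable def rhcd9578765717ad11 : CRef := CRef.mk (Pat.mk 0x8000000040000001c000000100000000000000000 0x140000003c000000370000001f0000001c0000000800000008 7 6) 0 0 (step_sound _ 67 [(rh1bb7a459dcf849de.shift 0 2), rh27b1c7077a51f1ec, (rh5d54cb79a67f97ab.shift 2 0), (rh7a5ba409b8d700aa.shift 2 0)] (by decide +kernel))
noncomputable def rh0f70de80efcba005 : CRef := CRef.mk (Pat.mk 0x40000001c000000100000000000000000 0x4000000140000007c000000ff000000180000000800000008 7 8) 0 0 (step_sound _ 67 [(rh22a9291edb508db3.shift 0 2), rh27b1c7077a51f1ec, (rha40d42a2e34c408d.shift 2 0)] (by decide +kernel))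
noncomputable def rh723c3f6ea4850bcc : CRef := CRef.mk (Pat.mk 0x4000000000000001e0000000200000000 0xa0000000f0000003c0000003e0000000600000006 7 6) 0 0 (step_sound _ 34 [(rh18965a982d73c794.shift 1 1), rhfd691d65aed131cc] (by decide +kernel))
noncomputable def rh8bad3b1de6dafdb0 : CRef := CRef.mk (Pat.mk 0x1c000000100000000000000000 0x4000000040000003f0000003f0000000300000002 7 6) 0 0 (step_sound _ 97 [rhaa1891de24fda6b8, (rhe25b0a99195a5d59.shift 1 2)] (by decide +kernel))
noncomputable def rhe2a72cb879063d0e : CRef := CRef.mk (Pat.mk 0x10000000000000001800000018000000000000000000000000 0x100000001800000018000000180000000f0000003c0000001c 7 6) 0 0 (step_sound _ 67 [rh72b06522cc100222, (rhee230b994cc8b773.shift 3 2)] (by decide +kernel))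
noncomputable def rh70b8c21acaca4839 : CRef := CRef.mk (Pat.mk 0x8000000000000001c0000001c00000000 0x30000000f80000003c0000001f0000001c00000004 7 8) 0 0 (step_sound _ 99 [(rh11e6e7511253ef4c.shift 0 1), (rh932754581e0f4330.shift 2 0)] (by decide +kernel))
noncomputable def rh205a4ea121b54ad2 : CRef := CRef.mk (Pat.mk 0x8000000040000001c000000100000000000000000 0x140000003c0000003f0000001f0000001c0000000c0000000c 7 6) 0 0 (step_sound _ 67 [rh0e56333839643009, (rh1bb7a459dcf849de.shift 0 2), (rh81a42b164e70087f.shift 2 0)] (by decide +kernel))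
noncomputable def rh11dd4107229f0b91 : CRef := CRef.mk (Pat.mk 0x1e0000001800000000 0x18000000380000003f0000003e0000001800000010 7 6) 0 0 (step_sound _ 100 [(rh33e738c4ed385b9f.shift 1 2), rhd28e4578788802f9] (by decide +kernel))
noncomputable def rh9e548c521bbd9f0e : CRef := CRef.mk (Pat.mk 0x8000000000000001c000000140000000000000000 0x140000003e0000000f0000001f0000001f0000000f00000002 7 6) 0 0 (step_sound _ 67 [rh9665f157cab8d7e9, (rha3a249597a08dd25.shift 0 1), (rhdd5aebfd6f18e20a.shift 0 1)] (by decide +kernel))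
noncomputable def rha8f826a01436c87a : CRef := CRef.mk (Pat.mk 0x8000000000000001c00000004000000000000000000000000 0xa0000000f0000003e000000040000000e0000000e0000000a 7 6) 0 0 (step_sound _ 162 [(rh1377f0833ece7f88.shift 0 2), (rh7d830273a9d6bf55.shift 1 0), (rh984bfc6de6c2c524.shift 1 0), (rha7edc60fc34bffff.shift 0 4)] (by decide +kernel))
noncomputable def rh9d917ee4aabfaca8 : CRef := CRef.mk (Pat.mk 0x8000000200000001c00000010000000000000000000000000 0x80000006a0000007f0000001e000000040000000400000004 7 7) 0 0 (step_sound _ 133 [(rh33e738c4ed385b9f.shift 2 4), rhea70d1460309b009] (by decide +kernel))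
noncomputable def rh24acf3aa0133fcb4 : CRef := CRef.mk (Pat.mk 0x4000000100000001e0000000800000000 0x1a0000003e000000170000003e0000000c00000004 7 6) 0 0 (step_sound _ 97 [(rh307ebb72483ac91e.shift 1 0), (rh3244c3cc8379b070.shift 0 2)] (by decide +kernel))
noncomputable def rh5d54d86c89295de3 : CRef := CRef.mk (Pat.mk 0x38000000200000000000000000 0xc0000000c000001ef000000fe0000003f0000001e0000001c 7 9) 0 0 (step_sound _ 67 [(rh2820ca9a6c4f41b4.shift 0 2), (rh7d24b49f25c5c0c8.shift 2 0), (rh97399aa3b4b69ba0.shift 1 0), rhb4ab6b1c2df197e7] (by decide +kernel))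
noncomputable def rha576a7c1accb8319 : CRef := CRef.mk (Pat.mk 0x80000000c0000001800000010000000000000000000000000 0x10000000780000001f0000001c0000001c0000000c0000000c00000008 7 7) 0 0 (step_sound _ 161 [(rha3c9f5c9c64fb016.shift 1 0), (rhb739f4f82bb681b4.shift 0 4)] (by decide +kernel))
noncomputable def rh2c4033e26065b358 : CRef := CRef.mk (Pat.mk 0x600000002000000060000000600000000 0x80000003e0000003e000000070000001e0000000a 7 6) 0 0 (step_sound _ 98 [(rh71222050f2c63a3a.shift 1 0), rhfdd96354bc6a66ba] (by decide +kernel))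
noncomputable def rh807e47f5f7b468e3 : CRef := CRef.mk (Pat.mk 0x80000000c00000018 0x30000000300000007f000000ff0000001c 7 8) 0 0 (step_sound _ 33 [rh55fc8675550d8ce5, rhb739f4f82bb681b4] (by decide +kernel))
noncomputable def rhe5ddc54f1e2775a6 : CRef := CRef.mk (Pat.mk 0x2000000030000000600000004000000000000000000000000 0xd0000001f0000001f0000001f00000006000000020000000200000002 7 5) 0 0 (step_sound _ 131 [rh642e5326ec9c2607, (rhf48373e13d2bc128.shift 0 4)] (by decide +kernel))
noncomputable def rhc4a356394ca08aaf : CRef := CRef.mk (Pat.mk 0x70000000400000000000000000 0x8000003be000001ff0000007f0000001000000010 7 10) 0 0 (step_sound _ 131 [(rh8bb330ee5aea9f6b.shift 2 0), (rh8c12fdbbddc1e7ab.shift 1 3), (rhb822f7880acf97b0.shift 3 2), (rhc4f3a4e8019dcbae.shift 0 2)] (by decide +kernel))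
noncomputable def rh77135f2e77e0d833 : CRef := CRef.mk (Pat.mk 0x1800000008000000180000001800000000 0x40000001c0000000f0000001e0000001f00000007 7 5) 0 0 (step_sound _ 130 [(rh50fbb5868c909700.shift 2 1), rhca2d08e027b91475] (by decide +kernel))
noncomputable def rh206a33f5d5c071c2 : CRef := CRef.mk (Pat.mk 0x80000000c00000018 0x10000000300000003f0000003f00000038 7 6) 0 0 (step_sound _ 33 [rhb739f4f82bb681b4, rhc872669747c7ac7b] (by decide +kernel))
noncomputable def rha534502ef129099a : CRef := CRef.mk (Pat.mk 0x80000000e000000180000000000000000 0x30000000320000003f000000fe0000001f0000000400000004 7 8) 0 0 (step_sound _ 100 [(rh1d49daaf42ee4a8f.shift 0 2), rh8923ea539754fe60, (rh8ebf9530de0f8ca7.shift 0 2), (rh92040ede0111f199.shift 0 2), (rhfea8a9bfcf0a6001.shift 0 2)] (by decide +kernel))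
noncomputable def rhf91910166cf04d9e : CRef := CRef.mk (Pat.mk 0x80000000800000018000000100000000000000000 0x140000007c0000001f0000007c0000001e0000000c00000004 7 7) 0 0 (step_sound _ 130 [rh69d3451f1924697c, (rhb0121edee88fe839.shift 0 3), (rhec7286d79d970a12.shift 1 1)] (by decide +kernel))
noncomputable def rha529ca0173c98fb2 : CRef := CRef.mk (Pat.mk 0x1800000038000000000000000000000000 0x140000001f0000003f0000000f0000000c0000000c 7 6) 0 0 (step_sound _ 98 [(rh66f733055a08b45b.shift 0 2), (rhbe5fc5902345a0b9.shift 0 3), (rhc0bb59e91cc0d6b2.shift 1 0), (rhcc2be1f880c5ea3e.shift 0 2)] (by decide +kernel))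
noncomputable def rhf241e3ecefb6261e : CRef := CRef.mk (Pat.mk 0x8000000000000001800000038000000000000000000000000 0x800000008000000180000007c0000000f0000003c0000001c 7 7) 0 0 (step_sound _ 66 [rh0753bcbd25b80224, (rh3cc5c7fb74c49f61.shift 0 2), (rh55af8c51b00e556e.shift 2 1), (rh63bb60019a439056.shift 1 2)] (by decide +kernel))
noncomputable def rh8e1c3d49a7e9834c : CRef := CRef.mk (Pat.mk 0x8000000000000001e00000018 0x300000003c0000003f0000001e0000001b 7 6) 0 0 (step_sound _ 1 [rhc4b1c5024f4707d7, rheb0810cc63b001d8] (by decide +kernel))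
noncomputable def rhbef73d9a96eeba85 : CRef := CRef.mk (Pat.mk 0x8000000000000001c0000003800000000 0x140000001c0000001c0000001c0000003f00000067 7 7) 0 0 (step_sound _ 132 [(rh5105f69098a4a2c2.shift 3 0), rhaeed8d909fdb031b, rhf8a85b9ca7f56ddc] (by decide +kernel))
noncomputable def rh470b908fbee3e3b9 : CRef := CRef.mk (Pat.mk 0x800000000000000180000001800000000 0x340000007e0000007f000000180000001800000008 7 7) 0 0 (step_sound _ 132 [rh2d55c6a7f1c1aeb9, (rh7d7eaefe27cdd7b0.shift 3 1), (rh9b59b70841542f0a.shift 1 0), (rhb8fddd58ad9026ec.shift 3 0)] (by decide +kernel))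
noncomputable def rh26e4f9866d1ed189 : CRef := CRef.mk (Pat.mk 0x2000000000000001e00000006 0x20000000380000003d0000001f0000003b0000001e0000000e 7 6) 0 0 (step_sound _ 65 [(rh3244c3cc8379b070.shift 0 1), rha4de1e335327dc78] (by decide +kernel))
noncomputable def rh89606e99ecd1e0ce : CRef := CRef.mk (Pat.mk 0x1800000018000000000000000000000000 0x10000000120000007b0000007f000000ef0000002c0000000c 7 8) 0 0 (step_sound _ 98 [(rh513973edcac6f90e.shift 1 0), rh9ecea4e1d309003f, (rhab2ad169e49f9c5e.shift 0 3)] (by decide +kernel))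
noncomputable def rha59bb0286f90545d : CRef := CRef.mk (Pat.mk 0x80000000000000018000000180000000000000000 0x1800000018000000780000003f0000006700000020 7 7) 0 0 (step_sound _ 66 [(rh289347f19e98c571.shift 1 0), (rh867dc163b39cbea6.shift 0 1), (rhf9d36e158778ce35.shift 1 2)] (by decide +kernel))
noncomputable def rh9399a934c28da489 : CRef := CRef.mk (Pat.mk 0x8000000000000001800000018000000000000000000000000 0x140000001c0000001c00000018000000180000000f0000003c0000001c 7 6) 0 0 (step_sound _ 67 [(rh51aaf8b7bcb8eace.shift 2 2), rh72b06522cc100222, (rh84d1c02a8954c6a8.shift 3 1)] (by decide +kernel))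
noncomputable def rhc016b7f94f103638 : CRef := CRef.mk (Pat.mk 0x4000000000000000c0000000c00000000 0x1a0000003f0000003f0000003c0000000f00000006 7 6) 0 0 (step_sound _ 131 [rh9b59b70841542f0a, rhb1ee0216c513ea8c, (rhb8fddd58ad9026ec.shift 2 0)] (by decide +kernel))
noncomputable def rh902f464aaded166f : CRef := CRef.mk (Pat.mk 0x80000000f00000004000000000000000000000000 0xc0000000c0000000c0000000f0000001c000000180000001800000018 7 5) 0 0 (step_sound _ 99 [(rh200491c3f6e9f883.shift 2 0), (rhe25b0a99195a5d59.shift 0 3)] (by decide +kernel))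
noncomputable def rh40db87dcae8f23fa : CRef := CRef.mk (Pat.mk 0x4000000000000001e0000000800000000 0x1000000014000000370000003e0000003b00000002 7 6) 0 0 (step_sound _ 100 [(rh33e738c4ed385b9f.shift 1 2), rh6f1aa27e97f76902] (by decide +kernel))
noncomputable def rh81a21b31fec16f39 : CRef := CRef.mk (Pat.mk 0x38000000000000001000000010 0x27000000fe000000ff0000001000000010 7 8) 0 0 (step_sound _ 68 [(rh0591c4825f70cf9c.shift 0 2), (rh2f68792b6b779e96.shift 4 0)] (by decide +kernel))
noncomputable def rh2c29de3000299d8a : CRef := CRef.mk (Pat.mk 0x38000000000000001000000010 0x670000003e000000770000001000000010 7 7) 0 0 (step_sound _ 133 [(rh04253f50b6dd0619.shift 4 0), (rh65421f988a047850.shift 0 2)] (by decide +kernel))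
noncomputable def rh58d144a9c7adb86e : CRef := CRef.mk (Pat.mk 0x1800000008000000180000001800000000 0x20000000780000006e000000ff0000007e00000004 7 8) 0 0 (step_sound _ 66 [(rh8fad49e87fdafea0.shift 1 1), (rha71afc656c87d410.shift 1 0), (rhad5d8fc3675c15dd.shift 0 1)] (by decide +kernel))
noncomputable def rhfc0fd7f32780ab3b : CRef := CRef.mk (Pat.mk 0x18000000180000000000000000 0x6000000070000007f0000007f0000000c0000000c 7 7) 0 0 (step_sound _ 66 [rh106bb650dfae2043, (rhab2ad169e49f9c5e.shift 0 2), (rhcc4cbd1486912b47.shift 1 0)] (by decide +kernel))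
noncomputable def rh7204fdd9950b1c9f : CRef := CRef.mk (Pat.mk 0x300000000000000038000000200000000000000000 0x8000000780000000f0000007e0000003e0000000600000004 7 7) 0 0 (step_sound _ 98 [(rh072e16e08412f058.shift 1 0), (rh0a267e18aaedab7c.shift 1 2), (rh7d5bf828111ca202.shift 0 2)] (by decide +kernel))
noncomputable def rh182e8ade89bcf558 : CRef := CRef.mk (Pat.mk 0x180000000e000000080000000800000000 0x180000001e0000007c000000ff00000074 7 8) 0 0 (step_sound _ 36 [(rh55afc6a59410cf00.shift 3 0), rhc8f7cba02bd5d8af] (by decide +kernel))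
noncomputable def rhded1904eb4255dd1 : CRef := CRef.mk (Pat.mk 0x80000001e00000000 0x1200000012000000330000003f0000001e0000000c 7 6) 0 0 (step_sound _ 68 [(rh33e738c4ed385b9f.shift 1 1), rhaf9358962a622a59] (by decide +kernel))
noncomputable def rhf7ae7d43a9e2b9a7 : CRef := CRef.mk (Pat.mk 0x180000001e000000000000000000000000 0x10000000180000003e0000003f0000003800000018 7 6) 0 0 (step_sound _ 68 [rhb3864713a9f5db8e, (rhe25b0a99195a5d59.shift 1 2)] (by decide +kernel))
noncomputable def rhfa36ce61ccfd7077 : CRef := CRef.mk (Pat.mk 0x2c00000038000000100000000000000000 0x3c0000003e0000007f0000001600000016 7 7) 0 0 (step_sound _ 36 [(rh71222050f2c63a3a.shift 4 0), rha6ff98aab8cf80bf] (by decide +kernel))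
noncomputable def rha6c435743b517108 : CRef := CRef.mk (Pat.mk 0x7000000020 0x7000001fe000001fe 7 9) 0 0 (step_sound _ 7 [(rh1e42cdaa2b8276ac.shift 3 0), (rh7344b4efa7925350.shift 3 0), rhd88015c90fd985e7] (by decide +kernel))
noncomputable def rh3330f28797ac830a : CRef := CRef.mk (Pat.mk 0x80000000e0000002000000000 0x2000000030000003f0000003e0000003400000004 7 6) 0 0 (step_sound _ 68 [(rh96851dee118c1ba3.shift 1 1), rha7191f5d6d8736d9] (by decide +kernel))
noncomputable def rhf15a2001baecf820 : CRef := CRef.mk (Pat.mk 0x80000000e0000002000000000 0x3000000030000007f0000003e0000006700000004 7 7) 0 0 (step_sound _ 100 [(rh572132728df34c43.shift 1 2), rh5f28bdf389a47c35, (rh80f90a60d87caa0d.shift 1 2)] (by decide +kernel))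
noncomputable def rhd44f609cebb8ed9f : CRef := CRef.mk (Pat.mk 0x20000000600000002000000000000000000000000 0x4000000070000000700000007000000060000000600000002000000070000000700000005 7 3) 0 0 (step_sound _ 193 [(rh64bc0dab78a08b48.shift 0 3), (rh8c1d47d14292b804.shift 0 1), rh95311890f436bcdc, (rhc85cc95794737cf7.shift 0 3)] (by decide +kernel))
noncomputable def rh9767a395d383a9c4 : CRef := CRef.mk (Pat.mk 0xc0000000f000000000000000000000000 0x1800000018000000180000000c0000000f0000001c0000000c0000000c 7 5) 0 0 (step_sound _ 67 [(rhdc38782eaebd3836.shift 2 0), (rhe25b0a99195a5d59.shift 0 2)] (by decide +kernel))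
noncomputable def rha3acb38c45faa15c : CRef := CRef.mk (Pat.mk 0x180000000e000000080000000800000000 0x180000001e000001f8000000ff000000f4 7 9) 0 0 (step_sound _ 36 [(rh55afc6a59410cf00.shift 3 0), rh83a76d1917266375] (by decide +kernel))
noncomputable def rh30faa9cf4dec58ec : CRef := CRef.mk (Pat.mk 0x400000007000000000 0xfc000000ff00000007 7 8) 0 0 (step_sound _ 35 [(rh33e738c4ed385b9f.shift 3 1), rh731812e9213b7b45] (by decide +kernel))
noncomputable def rhad0fbd181afc4652 : CRef := CRef.mk (Pat.mk 0x80000000e000000080000000c000000000000000000000000 0x80000000e0000007e0000007f000000130000000200000002 7 7) 0 0 (step_sound _ 100 [rh1d7bfde22a112a94, (rh55afc6a59410cf00.shift 3 2)] (by decide +kernel))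
noncomputable def rhcb770e52736fa6b2 : CRef := CRef.mk (Pat.mk 0x120000001c00000010000000000000000000000000 0x130000001f0000001c000000f80000003800000038 7 8) 0 0 (step_sound _ 129 [(rh3244c3cc8379b070.shift 0 4), rh53230ec0c0acbd4a] (by decide +kernel))
noncomputable def rh4d2b56fc02770885 : CRef := CRef.mk (Pat.mk 0xb0000000e000000080000000000000000000000000000000000000000 0x100000003000000030000000b0000000e0000000e0000003f0000001f0000001c0000001c00000014 7 6) 0 0 (step_sound _ 131 [(rh13d270cbd86a0e3e.shift 0 2), (rh14827c8b93adf707.shift 1 0), (rh4ed972033d0a12ff.shift 2 1), (rh5a4445368d37b79e.shift 0 3), (rh8cdd36b03d57a2f6.shift 2 2)] (by decide +kernel))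
noncomputable def rh896759f1eac8db33 : CRef := CRef.mk (Pat.mk 0x2000000038000000000000000000000000 0x4000000060000003e0000007e0000000f0000000800000008 7 7) 0 0 (step_sound _ 98 [(rh0cf480bf0f3cfd64.shift 1 0), (rh21d582c147e7e118.shift 0 2), (rh7b7b87771734e2e1.shift 1 1)] (by decide +kernel))
noncomputable def rhd01dce0b3ec78297 : CRef := CRef.mk (Pat.mk 0x80000000e00000008000000080000000000000000 0x20000000b0000003e0000000f0000003e0000001700000002 7 6) 0 0 (step_sound _ 66 [(rh932754581e0f4330.shift 2 1), rhd0b9d2721c547e59] (by decide +kernel))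
noncomputable def rh171c50a84847e1d7 : CRef := CRef.mk (Pat.mk 0x340000001c000000100000000000000000 0xe0000000e0000000e0000003c0000001c0000001f0000000e00000008 7 6) 0 0 (step_sound _ 162 [(rha768b229dc254047.shift 2 0), (rhba8f9d01e08304f3.shift 0 1), (rhdbe2f635cd55a39c.shift 1 1), (rhe901db9d8eb9251a.shift 1 2), (rhf88f108b5ba5cf55.shift 1 2)] (by decide +kernel))
noncomputable def rha1e90cdd7a3bb451 : CRef := CRef.mk (Pat.mk 0x20000001c00000006000000000000000000000000 0x600000006000000070000001e00000006000000030000000300000003 7 5) 0 0 (step_sound _ 129 [(rh3244c3cc8379b070.shift 0 4), rh7eda27677b5d3678] (by decide +kernel))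
noncomputable def rha0279b73fefa3273 : CRef := CRef.mk (Pat.mk 0x180000000e000000000000000000000000 0x380000003e0000003f0000003000000030 7 6) 0 0 (step_sound _ 100 [(rh33e738c4ed385b9f.shift 1 3), rhcfff3ba4b432b399] (by decide +kernel))
noncomputable def rh222d9114b60fb97b : CRef := CRef.mk (Pat.mk 0x180000001e000000000000000000000000 0x1000000030000000300000001f0000001e000000380000003000000030 7 6) 0 0 (step_sound _ 68 [rh5c3f44207cf1ac86, (rhe25b0a99195a5d59.shift 1 2)] (by decide +kernel))
noncomputable def rhdcf08f79ee8d91b4 : CRef := CRef.mk (Pat.mk 0x80000000e000000080000000800000000 0x80000000e0000007f000000ff000000f4 7 8) 0 0 (step_sound _ 34 [rh769f48ab50c95bfc, (rh932754581e0f4330.shift 2 0)] (by decide +kernel))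
noncomputable def rh9bddbc5413cd86b9 : CRef := CRef.mk (Pat.mk 0x180000000e000000000000000800000000 0x40000001c0000003e000000770000001e0000001e 7 7) 0 0 (step_sound _ 100 [(rh06db8ceda6269a47.shift 0 2), rh08ebb5f525002ca4, (rhdc461deccfb05432.shift 1 0)] (by decide +kernel))
noncomputable def rh83d410dea31f7488 : CRef := CRef.mk (Pat.mk 0x2000000020000000200000003000000000 0x2000000020000001f7000001fe000003ce 7 10) 0 0 (step_sound _ 38 [(rh55afc6a59410cf00.shift 5 0), rhd0fe6ac26f45fcf4] (by decide +kernel))
noncomputable def rh2e7a2c1fe24b0b62 : CRef := CRef.mk (Pat.mk 0x100000001c000000100000000000000008 0x400000004000000170000003f0000001b0000000a00000008 7 6) 0 0 (step_sound _ 67 [(rh9e3edb185cc347de.shift 3 0), (rhdc692b1e23a4285d.shift 0 1)] (by decide +kernel))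
noncomputable def rh566d9d8cc71d2185 : CRef := CRef.mk (Pat.mk 0x1c00000010000000100000000800000000 0x400000004000000070000003f0000001b000000120000001800000018 7 6) 0 0 (step_sound _ 36 [(rh932754581e0f4330.shift 3 0), rhbf1f895fa7c1ba51] (by decide +kernel))
noncomputable def rhbcdf09e91ccb9b49 : CRef := CRef.mk (Pat.mk 0x4000000070000000400000004000000000 0x10000000100000005f000000fe0000006f000000c800000080 7 8) 0 0 (step_sound _ 39 [(rh55afc6a59410cf00.shift 6 0), (rhff8db4a69d4c4747.shift 0 1)] (by decide +kernel))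
noncomputable def rh4cb41da1383ef7a4 : CRef := CRef.mk (Pat.mk 0xc0000003800000000000000000000000000000000 0x140000001c0000001c0000000f000000380000001f0000001c0000001c00000014 7 6) 0 0 (step_sound _ 161 [rha47a05cb4e00fa44, (rhb739f4f82bb681b4.shift 0 4)] (by decide +kernel))
noncomputable def rh7f6da6424bbd9e12 : CRef := CRef.mk (Pat.mk 0x58000000700000000000000000 0x38000000780000001e000000780000007f0000003f00000038 7 7) 0 0 (step_sound _ 132 [(rh0a1fd909c95eb75e.shift 1 1), (rh23a4711996e50144.shift 2 0), (rh7f7d8dcc24c2c54a.shift 0 1)] (by decide +kernel))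
noncomputable def rh582bd4174433e769 : CRef := CRef.mk (Pat.mk 0x140000001c00000008000000080000000000000000 0x80000001c0000007c0000006f0000007e0000003600000006 7 7) 0 0 (step_sound _ 98 [(rh4dc133ee0ba1420a.shift 0 3), (rhc7f687aa759c3e88.shift 2 1), rhde343267ca41d862] (by decide +kernel))
noncomputable def rh6a4e5d2a9b3156a8 : CRef := CRef.mk (Pat.mk 0x1a0000001e000000000000000000000000 0x3000000030000001e0000001e000000370000001c00000018 7 6) 0 0 (step_sound _ 65 [rh12e9e428c5ea0104, (rheb0810cc63b001d8.shift 0 2)] (by decide +kernel))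
noncomputable def rh92e53b4a0160b8ae : CRef := CRef.mk (Pat.mk 0x180000001e000000000000000000000000 0x180000003e000000370000003c0000001c 7 6) 0 0 (step_sound _ 68 [rh4361fe5abe0b1edf, (rhe25b0a99195a5d59.shift 1 2)] (by decide +kernel))
noncomputable def rh0d000b6af85ea9f9 : CRef := CRef.mk (Pat.mk 0x1e00000012000000000000000000000000 0x600000006000000070000001e0000001e0000000f0000000f00000003 7 5) 0 0 (step_sound _ 161 [(rh3244c3cc8379b070.shift 0 4), rhbca7da23a6dadd6f] (by decide +kernel))
noncomputable def rhbd8ba74c028b22c3 : CRef := CRef.mk (Pat.mk 0x8000000380000002c0000000000000000 0x1c0000001c0000001f0000001f000000380000002c0000007800000038 7 7) 0 0 (step_sound _ 132 [(rh351882b69f82cf2d.shift 0 2), (rh4fb0944b58a2c3f8.shift 1 0), (rh84d1c02a8954c6a8.shift 3 1)] (by decide +kernel))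
noncomputable def rhcf4dd2d06302bf5c : CRef := CRef.mk (Pat.mk 0x1000000018000000080000000800000000 0x40000000f0000001f0000001c0000001e0000007c00000074 7 7) 0 0 (step_sound _ 131 [rh07cbab85cc35a077, (rh4bc3fb1b54fe76ba.shift 2 0), (rhbad6ff9bdc3f8001.shift 2 0), (rhe718d6eb78dbc521.shift 1 0)] (by decide +kernel))
noncomputable def rh7aba417c56d1e243 : CRef := CRef.mk (Pat.mk 0x10000000100000001800000008000000000000000000000000 0x2c0000003f0000001f0000001e00000078000000300000003000000010 7 7) 0 0 (step_sound _ 100 [(rh85210b7244c2a9ab.shift 3 0), (rhc216208fcbfd092b.shift 0 2), (rhfe557af9112f51d6.shift 1 2)] (by decide +kernel))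
noncomputable def rh0962550d5877d34a : CRef := CRef.mk (Pat.mk 0x40000000f000000030000000000000000 0x2000000060000000f0000001b0000001f0000000f 7 5) 0 0 (step_sound _ 67 [rhd5d4263dc7fe9dd8, (rhe25b0a99195a5d59.shift 0 2)] (by decide +kernel))
noncomputable def rhdbf64a8fe46b01d7 : CRef := CRef.mk (Pat.mk 0x20000001e0000000200000000000000000000000000000000 0x50000000700000007000000020000001e0000003600000007000000070000000700000004 7 6) 0 0 (step_sound _ 132 [rh2c6beedf2e891890, (rhe25b0a99195a5d59.shift 1 4)] (by decide +kernel))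
noncomputable def rh9e05fd710fa92eba : CRef := CRef.mk (Pat.mk 0x28000000380000000000000000 0x1c0000001e0000003f0000003e0000007800000038 7 7) 0 0 (step_sound _ 98 [(rh0b7814c534af3b09.shift 1 0), (rhc02b3aee7ab87ee1.shift 0 2), (rhdbcea10a0fbe5ba6.shift 0 2)] (by decide +kernel))
noncomputable def rhc5f13b10782deb77 : CRef := CRef.mk (Pat.mk 0x5000000070000000200000000000000000 0x70000001fe000001f70000002000000020 7 9) 0 0 (step_sound _ 37 [(rh71222050f2c63a3a.shift 5 0), (rhd87f49ae8f770283.shift 0 2)] (by decide +kernel))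
noncomputable def rh1efa4be130bb761a : CRef := CRef.mk (Pat.mk 0x20000000380000000000000000 0xc0000000e0000003e0000007e0000000f0000000c 7 7) 0 0 (step_sound _ 66 [(rh21460d2d48a35cb8.shift 1 0), (rh21d582c147e7e118.shift 0 1), (rh7b7b87771734e2e1.shift 1 0)] (by decide +kernel))
noncomputable def rh2eaa0ee299633c0f : CRef := CRef.mk (Pat.mk 0x5000000070000000000000000000000000 0x300000003000000077000001fe000003df0000005800000008 7 10) 0 0 (step_sound _ 72 [(rha9bccb6e9e0c380f.shift 1 0), rhb99d7bb5d5b00135, (rhd206eeb695efb75a.shift 4 2), (rhf1af73716833b731.shift 3 2)] (by decide +kernel))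
noncomputable def rhf560f6fef98ab568 : CRef := CRef.mk (Pat.mk 0x400000007000000090000000000000000 0x2000000060000001f0000001b0000001f0000000f 7 5) 0 0 (step_sound _ 99 [rh86ae2410253e0fa2, (rhe25b0a99195a5d59.shift 0 2)] (by decide +kernel))
noncomputable def rh395f36edbab32ae0 : CRef := CRef.mk (Pat.mk 0x2000000038000000000000000000000000 0x80000002f000000fe000001ff0000001000000010 7 9) 0 0 (step_sound _ 70 [(rh36eba2a3de447758.shift 0 2), (rh6aa0ed61cce1493b.shift 2 2), (rh8e9b404363f45a1d.shift 2 0)] (by decide +kernel))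
noncomputable def rh7d5e19ec418aab0b : CRef := CRef.mk (Pat.mk 0xc0000000d0000000000000000 0x1000000010000000780000007e0000000f0000000800000008 7 7) 0 0 (step_sound _ 100 [(rh24ae073cf30720c4.shift 0 2), (rhba6e0e1b264860c1.shift 1 0)] (by decide +kernel))
noncomputable def rha5690822b64fecdf : CRef := CRef.mk (Pat.mk 0x80000001e000000000000000000000000 0x380000003e0000003f0000003000000030 7 6) 0 0 (step_sound _ 132 [(rh33e738c4ed385b9f.shift 1 3), rhe8eae2b0d412a247] (by decide +kernel))
noncomputable def rh9a99763de8843271 : CRef := CRef.mk (Pat.mk 0x180000001a000000000000000000000000 0x380000003e0000003f0000003000000030 7 6) 0 0 (step_sound _ 98 [(rh33e738c4ed385b9f.shift 1 3), rhe8eae2b0d412a247] (by decide +kernel))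
noncomputable def rhcfe10c4f82c7a4cb : CRef := CRef.mk (Pat.mk 0x70000000500000000000000000 0x10000003bf000001ff000000770000002000000020 7 10) 0 0 (step_sound _ 99 [(rh7d41099b9a2478c3.shift 2 0), (rh87fa0a8b0456f79e.shift 0 2), (rh88c620441a3a17ea.shift 0 2), (rhd1d05263fabc0227.shift 1 2), (rhda8c3feb570db0ed.shift 2 2)] (by decide +kernel))
noncomputable def rh02d1b38a111984e1 : CRef := CRef.mk (Pat.mk 0xa0000000a00000006000000000000000000000000 0x20000000a0000003a0000001f0000003c0000001400000004 7 6) 0 0 (step_sound _ 66 [(rh2145e1d24b96a57e.shift 1 2), rh8ba7efdab6b9bcb2] (by decide +kernel))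
noncomputable def rh067ee224763f21a7 : CRef := CRef.mk (Pat.mk 0x400000007000000030000000000000000 0x80000001c0000001f0000001f0000001c0000000c 7 5) 0 0 (step_sound _ 99 [(rh18965a982d73c794.shift 0 2), rh5c4c42c531c077d7] (by decide +kernel))
noncomputable def rhc64ef40263358f14 : CRef := CRef.mk (Pat.mk 0x50000000f000000000000000000000000 0x10000000180000001f0000000f0000001c0000000c0000000c 7 5) 0 0 (step_sound _ 131 [(rh33e738c4ed385b9f.shift 0 3), rhd7646423f51c196d] (by decide +kernel))
noncomputable def rhff6ca199f4e2e378 : CRef := CRef.mk (Pat.mk 0x5000000050000000100000001800000000 0x200000007000000050000000f7000000fe000000e7 7 8) 0 0 (step_sound _ 37 [rh2d34756ce918dadf, (rh55afc6a59410cf00.shift 4 0)] (by decide +kernel))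
noncomputable def rhe7c8645ea68cdf41 : CRef := CRef.mk (Pat.mk 0xa0000000a0000000200000006000000000 0xa0000000a0000001bf000001fe0000019e 7 9) 0 0 (step_sound _ 36 [(rh932754581e0f4330.shift 4 0), rhaac3956dd2ccb93e] (by decide +kernel))
noncomputable def rhcd5c1c4621014632 : CRef := CRef.mk (Pat.mk 0xe000000020000000200000000 0x50000000700000007000000070000003e000000060000000600000004 7 6) 0 0 (step_sound _ 129 [(rh2e8814637c3f6d46.shift 0 1), rha087c6594f4bfb59, (rhcea002b6fb08e97c.shift 0 1)] (by decide +kernel))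
noncomputable def rh5d424e236ff0513d : CRef := CRef.mk (Pat.mk 0xa0000000a000000020000000300000000 0x110000001b0000001e0000003a0000001f0000003c 7 6) 0 0 (step_sound _ 34 [(rh55afc6a59410cf00.shift 1 0), rh8764a3b94c223a47] (by decide +kernel))
noncomputable def rhf1a82480aacfa343 : CRef := CRef.mk (Pat.mk 0xa0000000a000000020000000600000000 0x110000001b0000001e0000003a0000001f00000039 7 6) 0 0 (step_sound _ 128 [rh49200fec135b9ad0, (rh50fbb5868c909700.shift 0 1)] (by decide +kernel))
noncomputable def rhb8d104735398e87c : CRef := CRef.mk (Pat.mk 0x5000000050000000100000001800000000 0x80000005800000050000000f7000000fe000000e7 7 8) 0 0 (step_sound _ 37 [(rh55afc6a59410cf00.shift 4 0), rhfc9e8ab91af7e031] (by decide +kernel))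
noncomputable def rhaa7ed05fc1fdcbbc : CRef := CRef.mk (Pat.mk 0x2800000028000000080000001800000000 0x440000006c000000780000003f0000007c00000020 7 7) 0 0 (step_sound _ 130 [(rh50fbb5868c909700.shift 2 1), rhef82290247b71162] (by decide +kernel))
noncomputable def rhc847afd2dc286529 : CRef := CRef.mk (Pat.mk 0x20000000a0000000200000002000000000000000000000000 0x30000001e0000000700000006000000070000000700000001 7 5) 0 0 (step_sound _ 66 [rhd203ae6898c620ef, (rhd3458b32566d63f7.shift 1 2)] (by decide +kernel))
noncomputable def rh0945578f762dde21 : CRef := CRef.mk (Pat.mk 0xc00000028000000080000000800000000000000000000000000000000 0xc000000780000007c0000000f0000000c0000001c0000001c00000014 7 7) 0 0 (step_sound _ 196 [rh77e5591bc7597cd1, (rhf48373e13d2bc128.shift 2 6)] (by decide +kernel))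
noncomputable def rh664cc8a202f5562f : CRef := CRef.mk (Pat.mk 0xa0000000a00000002000000030000000000000000 0xb0000003e0000003e0000001f0000001e00000016 7 6) 0 0 (step_sound _ 34 [rh486d7aa11fed828d, (rhd3458b32566d63f7.shift 1 1)] (by decide +kernel))
noncomputable def rh810d554a9f6522b9 : CRef := CRef.mk (Pat.mk 0x20000000600000002000000000000000000000000 0x4000000070000000700000007000000060000000600000002000000070000000700000005 7 3) 0 0 (step_sound _ 193 [(rh1741680720c097b4.shift 0 3), (rh45a726939473513b.shift 0 2), (rh64bc0dab78a08b48.shift 0 3), (rh8c1d47d14292b804.shift 0 1), rh95311890f436bcdc] (by decide +kernel))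
noncomputable def rh84bfcea30b515436 : CRef := CRef.mk (Pat.mk 0x3c0000002c000000000000000000000000 0x18000000180000003c0000002c0000007f0000003c0000001c 7 7) 0 0 (step_sound _ 66 [(rh2747a16df6921f3a.shift 2 0), rh30f7072667d65717, (rhea7a1800d6f053bd.shift 2 0)] (by decide +kernel))
noncomputable def rhf41616f20f0aa08b : CRef := CRef.mk (Pat.mk 0x3c00000008000000080000000000000000 0x80000003c0000000e0000000f0000003c0000001c 7 6) 0 0 (step_sound _ 98 [rhe2de5260b188f0f4, (rheb0810cc63b001d8.shift 1 3)] (by decide +kernel))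
noncomputable def rh205bbac36a8896ec : CRef := CRef.mk (Pat.mk 0x1e00000006000000000000000000000000 0x600000006000000070000001e00000006000000030000000300000003 7 5) 0 0 (step_sound _ 161 [(rh3244c3cc8379b070.shift 0 4), rh7eda27677b5d3678] (by decide +kernel))
noncomputable def rhe7622dae63927777 : CRef := CRef.mk (Pat.mk 0x380000002800000008000000000000000000000000 0x40000000c0000000c000000380000002f0000007f0000003c0000001400000010 7 7) 0 0 (step_sound _ 68 [(rh2f7ef8ef5c94975a.shift 3 0), rh6f058b44024e4d18, (rhaf349dd7709502bf.shift 2 2), (rhfa80626feb4e9cb5.shift 0 1)] (by decide +kernel))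
noncomputable def rhc1e6b2e92475a55a : CRef := CRef.mk (Pat.mk 0x280000002800000008000000000000000000000000 0x8000000280000006c0000007f0000003e0000001400000014 7 7) 0 0 (step_sound _ 66 [(rh0e6924d680f6455d.shift 2 0), (rh3743dbe66b959104.shift 2 0), (rh544d3caba1e1e2bb.shift 2 0), (rh86aa94d7c0c1e10d.shift 1 1), rhfb2c6f2003963000] (by decide +kernel))
noncomputable def rh455b03958b2f8b88 : CRef := CRef.mk (Pat.mk 0x20000000200000002000000020000000400000000 0x10000000700000007000000060000000300000003000000030000000600000004 7 3) 0 0 (step_sound _ 2 [(rhbe0e43a3bc50a43f.shift 1 0), (rhf515f701b82bbaa6.shift 0 2)] (by decide +kernel))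
noncomputable def rh9b3701453428b349 : CRef := CRef.mk (Pat.mk 0x20000000200000002000000000000000000000000 0x50000000700000007000000030000000300000006000000070000000700000005 7 3) 0 0 (step_sound _ 65 [rh6eff4158bb400f47, (rha087c6594f4bfb59.shift 0 1), rhc4526fc8abf298b6] (by decide +kernel))
noncomputable def rh847171dd232656fc : CRef := CRef.mk (Pat.mk 0x1400000014000000040000000c00000000 0x200000016000000340000003f0000003f00000032 7 6) 0 0 (step_sound _ 33 [rh1a9383b8248fe491, (rh932754581e0f4330.shift 1 0)] (by decide +kernel))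
noncomputable def rh81e83e8e923c89b8 : CRef := CRef.mk (Pat.mk 0x80000000e0000000000000000 0x4000000040000003f0000003f0000000300000002 7 6) 0 0 (step_sound _ 100 [(rh53b3c253cb0c65f4.shift 0 2), rheb9fd90cacdd3a61] (by decide +kernel))
noncomputable def rh06a38213ee4445fc : CRef := CRef.mk (Pat.mk 0x100000001c00000010000000000000000000000000 0x2000000130000003e0000007f0000003c0000003c00000028 7 7) 0 0 (step_sound _ 68 [(rh28c73d57e4f29782.shift 1 0), (rh7a7f122b8a7dabcd.shift 0 1), (rh8cdd36b03d57a2f6.shift 3 0)] (by decide +kernel))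
noncomputable def rh939740f4b4a98ce2 : CRef := CRef.mk (Pat.mk 0x180000001c000000100000001000000000 0x4000000040000001f0000003f000000130000001a00000008 7 6) 0 0 (step_sound _ 35 [(rh932754581e0f4330.shift 3 0), (rhee36ccb3677e6390.shift 0 1)] (by decide +kernel))
noncomputable def rhf5c59e6cdfc59118 : CRef := CRef.mk (Pat.mk 0x100000001c000000100000000800000000 0xc0000000c0000001c0000007c0000007e0000000f0000000c 7 7) 0 0 (step_sound _ 67 [(rh71222050f2c63a3a.shift 3 0), rh8ca20d8faad1759c] (by decide +kernel))
noncomputable def rh7364613b6f69617f : CRef := CRef.mk (Pat.mk 0x80000000c000000080000000400000000 0x6000000060000000e0000000c0000003e0000007f0000001a 7 7) 0 0 (step_sound _ 130 [(rh3cb04db3dd2b6a55.shift 2 0), rh493f91ddc4f5addc, (rh54cc50c8d4991b16.shift 1 0)] (by decide +kernel))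
noncomputable def rhb085f84f9b212ac2 : CRef := CRef.mk (Pat.mk 0x300000001c000000300000000000000000 0x20000000600000006000000070000003f0000007c0000003f0000006a00000028 7 7) 0 0 (step_sound _ 130 [(rh79b61ab6bf1c7998.shift 1 0), (rh7a3ca66586c81554.shift 0 3), rh82478f387c6b70d5] (by decide +kernel))
noncomputable def rh9ad8218cf22fd3f6 : CRef := CRef.mk (Pat.mk 0x100000001c00000006000000040000000000000000 0x30000000300000001e0000001e0000003f0000003b00000032 7 6) 0 0 (step_sound _ 165 [rh1eb8e4b0bb5cc734, (rh53b3c253cb0c65f4.shift 1 4)] (by decide +kernel))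
noncomputable def rh445f99f2e9f20fa5 : CRef := CRef.mk (Pat.mk 0x100000001800000006000000040000000000000000 0x100000001000000018000000180000001e0000003f0000003800000030 7 6) 0 0 (step_sound _ 67 [(rh00d6a6e3c7e3bb40.shift 3 1), (rh6086d80a3e0f6a90.shift 1 0), (rh92e78e6426079968.shift 1 1), rha7393fbc21f15cda] (by decide +kernel))
noncomputable def rhf16de940824a43e1 : CRef := CRef.mk (Pat.mk 0x80000000e0000000800000000000000000000000000000000 0x80000000c0000000e0000003f0000003c0000001c0000001c00000004 7 6) 0 0 (step_sound _ 99 [(rh01483ff9cba2f6ac.shift 2 0), (rh45a544b226141825.shift 0 2), (rh5c651669912fbab1.shift 2 1), (rhb8100e737f749136.shift 2 1)] (by decide +kernel))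
noncomputable def rh5acd49298bdb5153 : CRef := CRef.mk (Pat.mk 0x2000000000000000300000001c000000000000000000000000 0x20000000e0000003e000000060000003e0000007c000000ef0000000a00000008 7 8) 0 0 (step_sound _ 130 [(rh24e72371d7873615.shift 1 0), (rhae8d21abc86b555a.shift 1 2), (rhda8df1dbaee12662.shift 0 1)] (by decide +kernel))
noncomputable def rh12b96e59e11ed50c : CRef := CRef.mk (Pat.mk 0x8000000000000001c0000000600000004 0x800000028000000f80000003e000000330000001f0000001e0000003c 7 8) 0 0 (step_sound _ 100 [rh2cbcee74febf30f5, rha91d406a344da597, (rhedb1a55216fcec00.shift 1 0)] (by decide +kernel))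
noncomputable def rh42295f6b5812b69e : CRef := CRef.mk (Pat.mk 0x180000000e0000000800000000 0x80000000e0000000f0000001f0000003e0000001c0000000c 7 6) 0 0 (step_sound _ 131 [(rh03dfdf12d5937476.shift 2 0), rh70b96d1c7e0f3e67, rhe9e5c1528e071a8c] (by decide +kernel))
noncomputable def rh51a8810a16925fac : CRef := CRef.mk (Pat.mk 0x180000001800000018000000000000000000000000 0x800000008000000180000003f000000ff000000e00000002000000020 7 8) 0 0 (step_sound _ 227 [(rh6f1cbe15c631ee70.shift 3 3), rha532f9f2aa5b8cea] (by decide +kernel))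
noncomputable def rhc23afecfefb34707 : CRef := CRef.mk (Pat.mk 0x800000008000000380000000000000000 0x1000000030000000fc0000003f00000038000000780000002c0000000c 7 8) 0 0 (step_sound _ 132 [rh0737c2ffffefa08f, (rh178ad7ff1876a004.shift 1 1), (rh6ce021e181db5f56.shift 2 0), (rha7976e43fb57a213.shift 3 1)] (by decide +kernel))
noncomputable def rh714884cdfbb1cb49 : CRef := CRef.mk (Pat.mk 0x40000000c0000003c00000000 0x1c0000003c0000000f0000000c0000003c00000070 7 7) 0 0 (step_sound _ 5 [rh8c2640c009b1e3a1, (rhe25b0a99195a5d59.shift 2 0)] (by decide +kernel))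
noncomputable def rhab636b484fee030d : CRef := CRef.mk (Pat.mk 0x80000000e0000000400000004 0x200000002000001ff000000fe0000000c00000004 7 9) 0 0 (step_sound _ 97 [(rh212ba572ea2a9720.shift 0 1), (rhc89253ff58c66167.shift 1 0)] (by decide +kernel))
noncomputable def rh7f68d6c7ab568b5d : CRef := CRef.mk (Pat.mk 0x2000000030000000f00000000 0x7000000070000001e0000000f0000000f00000018 7 5) 0 0 (step_sound _ 129 [(rh5c5e593799055d58.shift 0 1), rh89cfde4957cbc532] (by decide +kernel))
noncomputable def rhfc398fe1df15befb : CRef := CRef.mk (Pat.mk 0x1800000008000000080000000000000000 0x14000001de000001fc0000038f000000080000000800000008 7 10) 0 0 (step_sound _ 133 [(rh1fe32ecf9115bef1.shift 1 0), (rh2820ca9a6c4f41b4.shift 0 3), (rh56498abf25192a73.shift 2 1), (rh63c7c173f8317a34.shift 2 3), (rhd6113e4c08b4feb5.shift 1 2)] (by decide +kernel))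
noncomputable def rh6fe5558351a66f97 : CRef := CRef.mk (Pat.mk 0x3800000010000000100000001000000000 0xc70000007f0000007e000000300000003000000020 7 8) 0 0 (step_sound _ 37 [(rh55afc6a59410cf00.shift 4 0), (rh6119aa75309afa38.shift 0 1)] (by decide +kernel))
noncomputable def rh2d4a2ddb9bbba2eb : CRef := CRef.mk (Pat.mk 0x380000000800000008000000000000000000000000 0xc0000001c0000005c000000f8000000380000003f0000007c000000f00000001000000010 7 8) 0 0 (step_sound _ 100 [(rh1aac95807930a4a7.shift 0 2), (rh75492bfd7f7b5151.shift 0 1), rh9412529cc8370876, (rha4611a1a086afb16.shift 2 2)] (by decide +kernel))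
noncomputable def rh19e4ed7fc0080a48 : CRef := CRef.mk (Pat.mk 0x1800000008000000080000000000000000 0x140000001f00000038000000080000001c0000001c 7 6) 0 0 (step_sound _ 35 [(rh2f68792b6b779e96.shift 3 1), rh4f257ec5a0306c2e] (by decide +kernel))
noncomputable def rh5eb44719993f5690 : CRef := CRef.mk (Pat.mk 0x180000000e000000040000000000000000 0x400000006000000160000001e0000000e0000000f0000003c0000001c 7 6) 0 0 (step_sound _ 34 [(rh71222050f2c63a3a.shift 2 0), rh7fa8836babde7d9d] (by decide +kernel))
noncomputable def rhe3b82423f20d2f13 : CRef := CRef.mk (Pat.mk 0x200000006000000030000000000000000 0x500000007000000070000000300000007000000070000000600000004 7 3) 0 0 (step_sound _ 34 [rh096f1e822962a4e9, (rh390a8df03c6c5a62.shift 1 0), (rh478c4cadbcd4e066.shift 1 0), (rhe8476f0b7eaf4046.shift 0 1)] (by decide +kernel))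
noncomputable def rhe1625fcb9764f8b8 : CRef := CRef.mk (Pat.mk 0x40000000c00000006000000040000000000000000 0x40000000c0000003e0000003f0000003a00000010 7 6) 0 0 (step_sound _ 65 [(rh932754581e0f4330.shift 1 1), rh9754ad85a565e7bd] (by decide +kernel))
noncomputable def rhc7cb034da07deeb0 : CRef := CRef.mk (Pat.mk 0x2000000060000000200000002000000000000000000000000 0x1000000030000001e0000000600000006000000070000000700000001 7 5) 0 0 (step_sound _ 192 [(rh50fbb5868c909700.shift 0 3), rh936fdbcf412d11a7] (by decide +kernel))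
noncomputable def rh8e44414c6659eec0 : CRef := CRef.mk (Pat.mk 0x100000001000000018000000080000000000000000 0x50000001f7000001fe000003ef0000002000000020 7 10) 0 0 (step_sound _ 101 [(rhbc097188b38155dd.shift 2 2), (rhc83b743fb6d2ae41.shift 0 1), (rhe424e153f4ec40d1.shift 2 0), rhe48f71dc2be97b18] (by decide +kernel))
noncomputable def rh158065cf574453a1 : CRef := CRef.mk (Pat.mk 0xc000000060000000200000000 0x800000008000000380000003f000000fe0000003300000010 7 8) 0 0 (step_sound _ 100 [(rh18965a982d73c794.shift 1 2), rh26f766a7a8321f76] (by decide +kernel))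
noncomputable def rhdc93c15a941f5295 : CRef := CRef.mk (Pat.mk 0x300000001c000000080000000000000000 0x80000000c0000006c0000003f0000001c0000001c0000001800000018 7 7) 0 0 (step_sound _ 35 [rh0738c30573b25048, (rh71222050f2c63a3a.shift 3 0)] (by decide +kernel))
noncomputable def rhfe20ea88cfb8c114 : CRef := CRef.mk (Pat.mk 0xc0000000700000000000000000000000000000000 0xa0000000e0000000e0000000c0000000e000000070000001e0000000e0000000e00000002 7 5) 0 0 (step_sound _ 194 [(rh16f102541ca92697.shift 0 1), (rh281c6819542c66e6.shift 1 1), (rh7d4be646332fc08b.shift 1 3), (rheb9d581a86e0a5e3.shift 1 0)] (by decide +kernel))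
noncomputable def rh6f3c325b04fd0145 : CRef := CRef.mk (Pat.mk 0x1e00000006000000000000000000000000 0xc0000000c0000001e0000003e000000330000001200000002 7 6) 0 0 (step_sound _ 100 [rhb3c2da0e042000d4, (rhe25b0a99195a5d59.shift 1 3)] (by decide +kernel))
noncomputable def rh14e66f81e727e372 : CRef := CRef.mk (Pat.mk 0x10000000180000000c000000080000000000000000 0x22000000330000001f0000001f0000003f0000003400000030 7 6) 0 0 (step_sound _ 97 [(rh53b3c253cb0c65f4.shift 0 3), rhc2efbd7f5d732372] (by decide +kernel))
noncomputable def rh4a719afb15445fd3 : CRef := CRef.mk (Pat.mk 0x8000000080000000c00000006000000000000000000000000 0x140000003c0000007f0000003e0000000e0000000a0000000800000008 7 7) 0 0 (step_sound _ 132 [(rh18965a982d73c794.shift 1 3), rh35474359940efcfb] (by decide +kernel))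
noncomputable def rhbff111b1df1a9d7f : CRef := CRef.mk (Pat.mk 0x1000000010000000180000000c0000000000000000 0x280000003a0000003b0000001f0000001f0000001400000004 7 6) 0 0 (step_sound _ 65 [(rh53b3c253cb0c65f4.shift 0 2), rheb9da39274d1fa94] (by decide +kernel))
noncomputable def rhc52e902dcecf41cf : CRef := CRef.mk (Pat.mk 0x100000007000000000 0x3f7000001fe000001c7 7 10) 0 0 (step_sound _ 35 [rh988dac8d009f9f77, (rha93a5dd541ab8209.shift 3 0), (rhe755d80139a0ae3f.shift 1 0), (rhf5fa5e48e0784de2.shift 3 0)] (by decide +kernel))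
noncomputable def rhba475ed43cb26846 : CRef := CRef.mk (Pat.mk 0x38000000080000000000000000 0x24000000660000003e0000007f0000001800000018 7 7) 0 0 (step_sound _ 66 [(rh1e1ff12fc70a7ba1.shift 1 0), (rh1ed7a3503fa50fc8.shift 0 2), (rheea1a90336e79c71.shift 0 2)] (by decide +kernel))
noncomputable def rh4f872192c4b15b35 : CRef := CRef.mk (Pat.mk 0x1e000000140000000000000000 0x18000000180000003b0000001e0000001c0000001c00000004 7 6) 0 0 (step_sound _ 132 [rh2fd36a37a3240940, (rh33e738c4ed385b9f.shift 1 3)] (by decide +kernel))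
noncomputable def rh608611a1fc332205 : CRef := CRef.mk (Pat.mk 0x100000001000000038000000080000000000000000 0x10000000370000003e000001e80000007c00000028 7 9) 0 0 (step_sound _ 35 [rh2f9e60d5787b5432, (rh71222050f2c63a3a.shift 3 0)] (by decide +kernel))
noncomputable def rha63a408e94886a94 : CRef := CRef.mk (Pat.mk 0x100000003800000008 0x3b7000001fe000000f8 7 10) 0 0 (step_sound _ 34 [(rh01d64f4b25e9d366.shift 1 0), rh0d378fd9e8917c5a, (rhc3f1fdc610b622e4.shift 2 0), (rhedf6b6c69a16cbd5.shift 0 1)] (by decide +kernel))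
noncomputable def rhc76eabdf8943010c : CRef := CRef.mk (Pat.mk 0x40000000e0000000200000000 0xc0000000c0000000c0000000f0000001e0000001e 7 5) 0 0 (step_sound _ 130 [(rh5c5e593799055d58.shift 1 1), rh90245e56b350aabf] (by decide +kernel))
noncomputable def rh1ff43a4d4e8fd855 : CRef := CRef.mk (Pat.mk 0x3800000008 0x3f7000001ff000003b8 7 10) 0 0 (step_sound _ 34 [(rh4c622fddc53a5f99.shift 0 1), rh55daa26adcd643af, (rh74d1c3aedb66c8d2.shift 2 0)] (by decide +kernel))
noncomputable def rhb15ba021808691ca : CRef := CRef.mk (Pat.mk 0x70000000100000000000000000 0x800000038e000001fe000003f70000004000000040 7 10) 0 0 (step_sound _ 71 [(rh171acb83cceabd54.shift 3 0), (rh20553f44f3de3897.shift 4 2), (rh6aa0ed61cce1493b.shift 3 2), (rh782848cf5e4b1e5e.shift 3 2), (rha041d537d8b13371.shift 0 2)] (by decide +kernel))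
noncomputable def rhf47cb0538f679c0a : CRef := CRef.mk (Pat.mk 0x80000000f000000010 0xce000000fe000001b7 7 9) 0 0 (step_sound _ 35 [rh422dc73b9a9d7f47, (rh428265de8cd3cd2d.shift 3 1)] (by decide +kernel))
noncomputable def rh8843e60b11aa94e7 : CRef := CRef.mk (Pat.mk 0x40000000f000000020000000000000000 0x80000001c0000000f0000001e0000003c0000001c 7 6) 0 0 (step_sound _ 67 [rh3265c8a827627f41, (rhe25b0a99195a5d59.shift 0 2)] (by decide +kernel))
noncomputable def rhce28eb4a67c2b027 : CRef := CRef.mk (Pat.mk 0x700000008000000000000000000000000 0x40000000c0000001c0000000f0000001c0000001c0000001c00000014 7 5) 0 0 (step_sound _ 131 [rhc0cfff9cca2e2ae2, (rhe25b0a99195a5d59.shift 0 3)] (by decide +kernel))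
noncomputable def rh243a59cbb24decfb : CRef := CRef.mk (Pat.mk 0x200000002000000070000000100000000 0x400000006000000060000001f0000001f0000000f 7 5) 0 0 (step_sound _ 33 [rh19e3f6bb955d101b, rh932754581e0f4330] (by decide +kernel))
noncomputable def rhf1af9f0750e10370 : CRef := CRef.mk (Pat.mk 0x1000000038000000080000000000000000 0x77000001fe000000f80000000800000008 7 9) 0 0 (step_sound _ 35 [(rh3b1de509e30f0c91.shift 0 2), (rh71222050f2c63a3a.shift 3 0)] (by decide +kernel))
noncomputable def rh1e87bf36e9e60a85 : CRef := CRef.mk (Pat.mk 0x1000000010000000180000001800000000 0x1000000010000000f8000000ff00000027 7 8) 0 0 (step_sound _ 37 [(rh55afc6a59410cf00.shift 4 0), rh826342231b734fb6] (by decide +kernel))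
noncomputable def rh8b7ecd037563e0e4 : CRef := CRef.mk (Pat.mk 0x8000000080000000c0000000c00000000 0x170000001f0000003c0000000c0000007c00000010 7 7) 0 0 (step_sound _ 130 [(rh50fbb5868c909700.shift 2 1), rhb6fc12860cba4b7d] (by decide +kernel))
noncomputable def rhdf1c8dd8d0773106 : CRef := CRef.mk (Pat.mk 0x80000000c000000040000000000000000 0x60000000f0000003c0000000f0000003c0000001c 7 6) 0 0 (step_sound _ 34 [(rh71222050f2c63a3a.shift 2 0), rhdd60dad350f971ba] (by decide +kernel))
noncomputable def rh637e5e0bb409ac0c : CRef := CRef.mk (Pat.mk 0xc0000000c000000040000000400000000 0x20000000e0000000c0000003e0000007f0000001a 7 7) 0 0 (step_sound _ 35 [rh46559daf90789899, (rh55afc6a59410cf00.shift 2 0)] (by decide +kernel))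
noncomputable def rhababf7a8dad35a78 : CRef := CRef.mk (Pat.mk 0x1800000018000000080000000800000000 0xe0000003f0000001f0000000c0000000c00000004 7 6) 0 0 (step_sound _ 130 [(rh50fbb5868c909700.shift 2 1), rha0c0a48ce6495502] (by decide +kernel))
noncomputable def rha7b30bf38cabcb0b : CRef := CRef.mk (Pat.mk 0x1800000018000000080000000800000000 0xf0000001f0000001c0000000c0000001c00000014 7 5) 0 0 (step_sound _ 36 [rh07cbab85cc35a077, (rh55afc6a59410cf00.shift 3 0)] (by decide +kernel))
noncomputable def rh3f7de0ff7da94059 : CRef := CRef.mk (Pat.mk 0x80000000c00000004000000000000000000000000 0x1e0000001f0000003c0000000f0000003c000000180000000800000008 7 6) 0 0 (step_sound _ 195 [rh50070eb5afab3693, (rh5c5e593799055d58.shift 2 3)] (by decide +kernel))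
noncomputable def rh74dc28fcd7e9fa01 : CRef := CRef.mk (Pat.mk 0x180000000e00000004 0xe0000000f0000001f0000003e00000007 7 6) 0 0 (step_sound _ 99 [(rh5c5e593799055d58.shift 2 0), rhe954927d5a606e1a] (by decide +kernel))
noncomputable def rhf14f4fef408e8266 : CRef := CRef.mk (Pat.mk 0x20000000e000000020000000000000000 0x80000000a0000003a0000003f000000360000001400000004 7 6) 0 0 (step_sound _ 66 [(rh55a1f6c57a317ce6.shift 1 0), (rhfcc6f27b2fbb45fd.shift 0 1)] (by decide +kernel))
noncomputable def rh1bf2cf98d53b9c80 : CRef := CRef.mk (Pat.mk 0x40000000c0000000400000000000000000000000000000000 0x4000000060000000f0000003c0000000f0000000e0000000e00000008 7 6) 0 0 (step_sound _ 98 [(rh3ca4c10fdf355329.shift 0 2), (rh6eff4158bb400f47.shift 1 1), (rh8a1bd34420cccc7f.shift 1 0), (rhd3ae494c0a93b1b3.shift 0 1), (rhd7044b830e382236.shift 0 1)] (by decide +kernel))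
noncomputable def rh2e096d9049cb6f5a : CRef := CRef.mk (Pat.mk 0x8000000080000001800000018 0x340000007c0000006f0000007c00000018 7 7) 0 0 (step_sound _ 98 [rh503608893674bc3e, (rh50fbb5868c909700.shift 2 0)] (by decide +kernel))
noncomputable def rh97b8b942cbdf718d : CRef := CRef.mk (Pat.mk 0x200000002000000060000000200000000000000000000000000000000 0x10000000300000002000000060000000600000007000000070000000700000004 7 3) 0 0 (step_sound _ 224 [(rh50fbb5868c909700.shift 0 4), rh8435f16c73c7f2d9] (by decide +kernel))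
noncomputable def rhce36061fbe3f8bc7 : CRef := CRef.mk (Pat.mk 0x38000000080000000000000000 0x3400000034000003ff000001fe000001c80000004800000008 7 10) 0 0 (step_sound _ 133 [(rh3bef75852aa6a3bb.shift 2 1), rh4cfb77788e40cdc8, (rha11dfd15f08f96e3.shift 2 3), (rhff7d63dcb3cf9f74.shift 2 3)] (by decide +kernel))
noncomputable def rh725f797c954e5806 : CRef := CRef.mk (Pat.mk 0x60000000e0000000200000000 0x14000000340000003e0000003f0000000a00000008 7 6) 0 0 (step_sound _ 130 [(rh5c5e593799055d58.shift 1 1), rh7821546e503e2fbd] (by decide +kernel))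
noncomputable def rh25a63221d6566091 : CRef := CRef.mk (Pat.mk 0x60000000e000000020000000000000000 0x10000000300000003e0000003f0000000a0000000a00000002 7 6) 0 0 (step_sound _ 33 [(rh08505b7dd780d725.shift 0 1), (rh71222050f2c63a3a.shift 1 0)] (by decide +kernel))
noncomputable def rh9110d42db8602177 : CRef := CRef.mk (Pat.mk 0x10000000080000001800000008000000000000000000000000 0x140000001f00000018000000080000001c0000001c00000014 7 5) 0 0 (step_sound _ 67 [rh5a5d0f4cb7c0ec0c, (rhbaefcd01e0a8bca3.shift 3 2)] (by decide +kernel))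
noncomputable def rh0a5be41cfa5d2fb3 : CRef := CRef.mk (Pat.mk 0x60000000e000000020000000000000000 0x400000014000000360000003f0000003a0000000800000008 7 6) 0 0 (step_sound _ 162 [(rh5c5e593799055d58.shift 1 2), rhf04b1c50f528f108] (by decide +kernel))
noncomputable def rhd750c306a3729012 : CRef := CRef.mk (Pat.mk 0x60000000e000000020000000000000000 0x10000000360000003f0000003a0000000a0000000a 7 6) 0 0 (step_sound _ 100 [rh5119b6f49f7b0b37, (rhf48373e13d2bc128.shift 1 3)] (by decide +kernel))
noncomputable def rh677425279ad553b7 : CRef := CRef.mk (Pat.mk 0x380000000800000008 0x140000003e000000ff000000e800000008 7 8) 0 0 (step_sound _ 99 [(rh2e8814637c3f6d46.shift 2 0), rhbc33bce241a0d75d, (rhcf02561c3c7740f4.shift 1 0)] (by decide +kernel))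
noncomputable def rhc5866e38d6f11076 : CRef := CRef.mk (Pat.mk 0x40000000e000000020000000000000000 0x8000000080000007e0000003f0000007a0000001f0000000e 7 7) 0 0 (step_sound _ 33 [(rh71222050f2c63a3a.shift 1 0), rh7354b9519edad5dd] (by decide +kernel))
noncomputable def rhe288f728cf3077fd : CRef := CRef.mk (Pat.mk 0x20000000700000001000000000 0x2000000020000000fe0000007e000000d700000040 7 8) 0 0 (step_sound _ 133 [rh509a299c4e5cc4d1, (rh5c5e593799055d58.shift 4 1)] (by decide +kernel))
noncomputable def rh4330d3c96af905f1 : CRef := CRef.mk (Pat.mk 0xf00000000000000000000000000000000 0x40000000c0000001c0000000f0000001c0000001c0000001c00000014 7 5) 0 0 (step_sound _ 163 [(rh33e738c4ed385b9f.shift 0 4), rh43d0fd61e56a4256] (by decide +kernel))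
noncomputable def rhd4ce4468419f50bb : CRef := CRef.mk (Pat.mk 0x10000000380000000c 0x1c0000001e000000770000003e0000007c 7 7) 0 0 (step_sound _ 100 [(rh5c5e593799055d58.shift 3 0), rh8e526fac0a1e1576] (by decide +kernel))
noncomputable def rh7d66549fade2cbf4 : CRef := CRef.mk (Pat.mk 0x8000000180000000e00000000000000000000000000000000 0x160000001f0000001b0000001e0000000c0000001c0000001c00000010 7 5) 0 0 (step_sound _ 99 [(rh33032410a9908d45.shift 2 1), (rh8a1bd34420cccc7f.shift 2 0), (rha707fb719e87fe6e.shift 3 2), (rhaffe2788911e208f.shift 0 2)] (by decide +kernel))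
noncomputable def rh9e44abf04b96d546 : CRef := CRef.mk (Pat.mk 0x300000001c000000080000000000000000 0xc0000006e0000003f0000001c0000001c0000001c0000001c 7 7) 0 0 (step_sound _ 35 [(rh71222050f2c63a3a.shift 3 0), rh72feb7d0d6676dfa] (by decide +kernel))
noncomputable def rh68f660fad7a8393f : CRef := CRef.mk (Pat.mk 0x100000001c000000080000000000000000 0x1e0000001f0000001c0000000c0000000c0000000c 7 5) 0 0 (step_sound _ 35 [(rh71222050f2c63a3a.shift 3 0), rh9837c4998888cfb6] (by decide +kernel))
noncomputable def rh4ed0db45131425fd : CRef := CRef.mk (Pat.mk 0x180000000e000000040000000000000000 0x60000001f0000001e0000000e0000003f0000003800000018 7 6) 0 0 (step_sound _ 67 [(rh8deeb93a51b3ae96.shift 0 1), (rh9bd2bb1b625e8a7e.shift 2 0), rhd9a03a17cb3bba9c] (by decide +kernel))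
noncomputable def rh5daf4536e6bb0b7a : CRef := CRef.mk (Pat.mk 0x1c000000060000000000000000 0x8000000080000003c0000001f0000003e0000003e0000001c 7 6) 0 0 (step_sound _ 131 [rh47f7d19eabfc6ad7, (rhf9366b6a121593ef.shift 2 0), rhfb5b3e530894a2ea] (by decide +kernel))
noncomputable def rhbba33d5aa5dc45f0 : CRef := CRef.mk (Pat.mk 0x300000001c000000080000000000000000 0x670000003f0000001c0000007c0000001e0000001c 7 7) 0 0 (step_sound _ 35 [(rh71222050f2c63a3a.shift 3 0), rha6fe0a4105e66a54] (by decide +kernel))
noncomputable def rhd9c94fdf2d4eb392 : CRef := CRef.mk (Pat.mk 0x80000001c000000060000000000000000 0x240000007c0000001c000000360000003e0000001f 7 7) 0 0 (step_sound _ 34 [rh15dbb736d542ab3e, (rh71222050f2c63a3a.shift 2 0)] (by decide +kernel))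
noncomputable def rh455938843a2056c4 : CRef := CRef.mk (Pat.mk 0x180000000e000000040000000000000000 0x120000001b0000001e0000003f0000007c0000003c 7 7) 0 0 (step_sound _ 100 [(rh02a6a33df9904d94.shift 1 0), rh2420be1a7b3e5bbf, rh2642de6ca2d23e3a] (by decide +kernel))
noncomputable def rh7333dd4d9075bcb0 : CRef := CRef.mk (Pat.mk 0x30000000180000000000000000 0x180000001f000000ff000000f80000001c00000018 7 8) 0 0 (step_sound _ 102 [(rh18965a982d73c794.shift 3 2), rhffa0dff368432ca5] (by decide +kernel))
noncomputable def rh54bb759cf5cfcc86 : CRef := CRef.mk (Pat.mk 0x600000006000000020000000200000000 0x2000000060000001e0000001b0000001f0000000d 7 5) 0 0 (step_sound _ 32 [rh83ac021d87ba7b62, rh932754581e0f4330] (by decide +kernel))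
noncomputable def rheacf91d05af57cf1 : CRef := CRef.mk (Pat.mk 0x8000000180000000c00000004000000000000000000000000 0x40000000f0000007c0000001c0000001c000000180000001800000008 7 7) 0 0 (step_sound _ 165 [(rh18965a982d73c794.shift 2 4), rhd0f3a0069fadfa58] (by decide +kernel))
noncomputable def rh1f9841a36e788949 : CRef := CRef.mk (Pat.mk 0x180000000e000000000000000000000000 0x6000000070000001f0000003e0000003f0000003600000030 7 6) 0 0 (step_sound _ 100 [(rh21460d2d48a35cb8.shift 0 1), (rh41d5a93e35cc8528.shift 0 1), rh6ae21157da276552, (rhf9971318f3fd5918.shift 0 1)] (by decide +kernel))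
noncomputable def rhb943da9177509395 : CRef := CRef.mk (Pat.mk 0x80000001c000000060000000000000000 0x380000001f0000003e0000003c0000001c 7 6) 0 0 (step_sound _ 34 [rh3cf9c17d2d17dca3, (rh71222050f2c63a3a.shift 2 0)] (by decide +kernel))
noncomputable def rh4659c58a5fd0aa74 : CRef := CRef.mk (Pat.mk 0x6000000030000000200000000000000000000000000000000 0x1000000030000000b0000001e0000000f0000001f00000006000000070000000700000005 7 5) 0 0 (step_sound _ 195 [rh00ca830b20826003, (rh18965a982d73c794.shift 0 5)] (by decide +kernel))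
noncomputable def rh04cc3fc4fec38a6f : CRef := CRef.mk (Pat.mk 0x180000000c000000080000000000000000 0x380000001f0000003f0000003000000030 7 6) 0 0 (step_sound _ 97 [(rh53b3c253cb0c65f4.shift 0 3), rhf572e19824ecf40a] (by decide +kernel))
noncomputable def rhd3e0314606cfc48c : CRef := CRef.mk (Pat.mk 0x6000000020000000200000000000000000000000000000000 0x3000000030000000300000006000000070000000700000003000000070000000700000007 7 3) 0 0 (step_sound _ 97 [rh5fdb73efd5ac82dc, rh65095fec89cbfb40, rh984bfc6de6c2c524, (rha8bc3cae4d77a08f.shift 0 1), (rhdb991c49878b7ef7.shift 0 2)] (by decide +kernel))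
noncomputable def rha860f22cc572479b : CRef := CRef.mk (Pat.mk 0x60000000200000002000000000000000000000000 0x30000000300000003000000060000000600000007000000070000000700000001 7 3) 0 0 (step_sound _ 65 [(rh2a387b8752161036.shift 0 1), rha8bc3cae4d77a08f, (rhc4ec57a3756c3a6c.shift 0 1)] (by decide +kernel))
noncomputable def rhf8252cba2f35f4dd : CRef := CRef.mk (Pat.mk 0x800000018000000080000001800000000 0x40000000c000000780000003f0000003f00000004 7 7) 0 0 (step_sound _ 34 [(rh932754581e0f4330.shift 2 0), (rhdd00d408137a5524.shift 0 1)] (by decide +kernel))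
noncomputable def rh58921e956e31cc66 : CRef := CRef.mk (Pat.mk 0x200000006000000020000000200000000 0x40000000600000007000000030000001e000000070000000300000001 7 5) 0 0 (step_sound _ 128 [rh285745ad6a1f519b, (rh50fbb5868c909700.shift 0 1)] (by decide +kernel))
noncomputable def rh54bba4f519e9a70d : CRef := CRef.mk (Pat.mk 0x8000000080000000800000018000000000000000000000000 0x80000000c0000003f0000003f000000070000000200000002 7 6) 0 0 (step_sound _ 98 [rh874e2dbadadd320b, (rh932754581e0f4330.shift 2 2)] (by decide +kernel))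
noncomputable def rh7fbefdf5c4022631 : CRef := CRef.mk (Pat.mk 0x80000001800000008000000080000000000000000 0x40000000c000000780000001f0000003c0000001c00000014 7 7) 0 0 (step_sound _ 162 [(rh50fbb5868c909700.shift 2 2), rhd40df074e1f66d47] (by decide +kernel))
noncomputable def rh0d1726d07913295d : CRef := CRef.mk (Pat.mk 0x60000000c000000040000000400000000000000000000000000000000 0x400000004000000060000003c0000000f00000006000000060000000e0000000e0000000a 7 6) 0 0 (step_sound _ 196 [rh65b72c8646b259f7, (rhf48373e13d2bc128.shift 1 6)] (by decide +kernel))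
noncomputable def rh74b9253b4ff61667 : CRef := CRef.mk (Pat.mk 0x180000000c0000000000000000 0xc0000000c0000001f0000003f0000003300000012 7 6) 0 0 (step_sound _ 65 [(rh53b3c253cb0c65f4.shift 0 2), rhab740075a8f15428] (by decide +kernel))
noncomputable def rhe988faf8dbc20dc3 : CRef := CRef.mk (Pat.mk 0x100000001a000000080000000800000000 0x4000000370000001e0000003b0000000f00000006 7 6) 0 0 (step_sound _ 98 [(rh33e738c4ed385b9f.shift 1 3), rh4583764b4be9341a] (by decide +kernel))
noncomputable def rh5aa2e975631ce584 : CRef := CRef.mk (Pat.mk 0x80000000c0000000400000000 0xe0000000f0000003c0000000f0000003c00000018 7 6) 0 0 (step_sound _ 131 [rh1fff0ef2c284a2c0, (rh5c5e593799055d58.shift 2 1)] (by decide +kernel))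
noncomputable def rh405be0553e27c502 : CRef := CRef.mk (Pat.mk 0x18000000080000000800000000 0x1c0000001e000000780000000f0000007c00000014 7 7) 0 0 (step_sound _ 131 [(rh1b866c4ae8b50bb9.shift 1 1), rh26a641dd1ea9a7b1, (rhbedd4210c52f3e95.shift 1 0)] (by decide +kernel))
noncomputable def rh8ba76a019a1305b6 : CRef := CRef.mk (Pat.mk 0x80000001c000000060000000000000000 0x800000008000000380000001f000000360000003e00000014 7 6) 0 0 (step_sound _ 163 [rh1dfdb6016202fc26, (rh5c5e593799055d58.shift 2 2)] (by decide +kernel))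
noncomputable def rh2d4b1c56b67e8f65 : CRef := CRef.mk (Pat.mk 0x180000000e000000040000000000000000 0x60000001f0000003e0000003c0000000f0000000e 7 6) 0 0 (step_sound _ 34 [(rh71222050f2c63a3a.shift 2 0), rhf040fa7c5ca8201b] (by decide +kernel))
noncomputable def rh9247b2a6279e891f : CRef := CRef.mk (Pat.mk 0x70000000180000000800000000 0x50000000fe0000007f000000f80000002c00000020 7 8) 0 0 (step_sound _ 132 [(rh5c5e593799055d58.shift 3 1), rh7b2a899e2f7152d5] (by decide +kernel))
noncomputable def rh866e3a6a0c56f9db : CRef := CRef.mk (Pat.mk 0x7000000018000000080000000000000000 0x2c00000078000000180000001f0000007c0000003c 7 7) 0 0 (step_sound _ 35 [rh42d44289f34a73a0, (rh71222050f2c63a3a.shift 3 0)] (by decide +kernel))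
noncomputable def rhf77932b370246a30 : CRef := CRef.mk (Pat.mk 0x180000000e00000004 0xb0000000b0000001f0000003e00000007 7 6) 0 0 (step_sound _ 99 [rh104a89b5e812edb2, (rh5c5e593799055d58.shift 2 0)] (by decide +kernel))
noncomputable def rh281434b0fc5159ce : CRef := CRef.mk (Pat.mk 0xe0000000300000001000000000000000000000000 0x6000000060000000f0000001b0000001f0000001e0000000600000002 7 5) 0 0 (step_sound _ 193 [rh35dc3f80828cf5e6, (rh5c5e593799055d58.shift 0 3)] (by decide +kernel))
noncomputable def rh3d34c2add230be44 : CRef := CRef.mk (Pat.mk 0x180000000e000000040000000000000000 0x18000000fe0000007f0000003c00000034 7 8) 0 0 (step_sound _ 34 [rh4b27d38a8d0808f1, (rh71222050f2c63a3a.shift 2 0)] (by decide +kernel))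
noncomputable def rh5e734b2eec7d6fdb : CRef := CRef.mk (Pat.mk 0x80000001c000000060000000000000000 0x40000003c0000001f0000003e0000003700000016 7 6) 0 0 (step_sound _ 34 [rh1cddaa45e798fef3, (rh71222050f2c63a3a.shift 2 0)] (by decide +kernel))
noncomputable def rh6a4c3472cae795bb : CRef := CRef.mk (Pat.mk 0x3000000018000000080000000000000000 0x2800000038000000180000001f0000007c0000003c 7 7) 0 0 (step_sound _ 35 [rh123e5a3fb7af73b3, (rh71222050f2c63a3a.shift 3 0)] (by decide +kernel))
noncomputable def rhf4578179c48d6c0b : CRef := CRef.mk (Pat.mk 0x8000000380000000c000000000000000000000000 0x40000001c0000001c000000180000003f0000003f0000000c000000180000001800000018 7 6) 0 0 (step_sound _ 195 [(rh35c5f1c53251aa1b.shift 2 3), (rh3e23057e6112ad96.shift 1 1), (rh9a369cb82ea472da.shift 2 3), (rhc3d1b6aced6c6bfc.shift 0 3), (rhcb8e97e388f6d328.shift 2 0)] (by decide +kernel))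
noncomputable def rhf45e0304ed2086f1 : CRef := CRef.mk (Pat.mk 0x20000000600000003000000000000000000000000 0x40000000700000007000000070000001f0000001f00000006 7 5) 0 0 (step_sound _ 65 [(rh93a8e6d21ec12a0a.shift 0 1), (rha707fb719e87fe6e.shift 1 1), rhbd78a571ffa91fb9] (by decide +kernel))
noncomputable def rh2dfe78d72b8fda90 : CRef := CRef.mk (Pat.mk 0x200000007000000010000000000000000 0x70000000700000007000000070000001f0000001e00000006 7 5) 0 0 (step_sound _ 161 [(rh5c5e593799055d58.shift 0 2), rh62236cfc018f5aa6] (by decide +kernel))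
noncomputable def rh7ab82c722c103d37 : CRef := CRef.mk (Pat.mk 0x40000000e00000003000000000000000000000000 0x100000003e0000000e0000000f0000001e0000000e00000004 7 6) 0 0 (step_sound _ 65 [(rh71222050f2c63a3a.shift 1 1), rhc76d3a5e9ea809e4] (by decide +kernel))
noncomputable def rha09390dd80d959b2 : CRef := CRef.mk (Pat.mk 0x10000000180000000e000000000000000000000000 0x340000001f0000001e0000003b0000001a0000001a 7 6) 0 0 (step_sound _ 35 [(rh9e3edb185cc347de.shift 3 1), rhd1ec62c24e7c7bd1] (by decide +kernel))
noncomputable def rhb319960cb6b2757f : CRef := CRef.mk (Pat.mk 0x10000000180000000e00000000 0x3800000038000000380000001f000000fe00000030 7 8) 0 0 (step_sound _ 132 [rh183f4334f4a77a96, (rh5c5e593799055d58.shift 3 1)] (by decide +kernel))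
noncomputable def rha23c1d56ac5e0447 : CRef := CRef.mk (Pat.mk 0x380000000e00000000000000000000000000000000 0x100000001800000038000000380000002e0000007f0000003c0000001c00000014 7 7) 0 0 (step_sound _ 99 [(rh215e11e099257d75.shift 3 2), (rh7c39e64a76c2f796.shift 1 0), (rhb6e5fd90818b20b8.shift 1 0), (rhe0cbc6fe9ebbddec.shift 0 1), (rhffb8e5993241bf15.shift 2 0)] (by decide +kernel))
noncomputable def rhbefb9cf6fcc2d4c7 : CRef := CRef.mk (Pat.mk 0x40000000e000000030000000000000000 0xe0000000e0000000e0000000e0000003f0000003d0000000c 7 6) 0 0 (step_sound _ 162 [(rh5c5e593799055d58.shift 1 2), rhc9f5b5b1d24f19f5] (by decide +kernel))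
noncomputable def rh6776ca99e85b6609 : CRef := CRef.mk (Pat.mk 0x8000000180000000e000000000000000000000000 0x8000000080000000c0000001f0000003e000000330000001200000002 7 6) 0 0 (step_sound _ 100 [(rh78974448101547fe.shift 1 1), (rhba04d77b039f69d9.shift 1 2), rhd3063c58a8d9380d] (by decide +kernel))
noncomputable def rhe33a4d67cca5a722 : CRef := CRef.mk (Pat.mk 0x1e000000000000000000000000 0x4000000040000003f0000003f0000000300000002 7 6) 0 0 (step_sound _ 65 [rh08ff8b6fa1296e89, (rheb0810cc63b001d8.shift 0 2)] (by decide +kernel))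
noncomputable def rh58cbcf80f75aaf05 : CRef := CRef.mk (Pat.mk 0x20000001e00000000000000000000000000000000 0x400000006000000060000001e00000007000000070000000700000003 7 5) 0 0 (step_sound _ 97 [rh0ee3ce0b50f0774c, (rheb0810cc63b001d8.shift 0 3)] (by decide +kernel))
noncomputable def rh84831ace8c53143c : CRef := CRef.mk (Pat.mk 0x800000078000000000000000000000000 0x1800000018000000780000003c0000001f0000001c 7 7) 0 0 (step_sound _ 67 [rhe35cb66c8ff66870, (rheb0810cc63b001d8.shift 2 2)] (by decide +kernel))
noncomputable def rh4c43c91fa3cf8729 : CRef := CRef.mk (Pat.mk 0x80000000e000000000000000000000000 0x40000000c0000007f000000fe000000f30000001200000010 7 8) 0 0 (step_sound _ 132 [(rh2e6f530911a4ba98.shift 1 0), (rh80f90a60d87caa0d.shift 1 3), rhcbf08a050b82a7e7] (by decide +kernel))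
noncomputable def rhc4606c183ebb4f58 : CRef := CRef.mk (Pat.mk 0x180000001e000000000000000000000000 0x20000000300000001f0000001e000000380000001800000018 7 6) 0 0 (step_sound _ 68 [rhd4a886889c274338, (rhe25b0a99195a5d59.shift 1 2)] (by decide +kernel))
noncomputable def rhab97c3067a7def42 : CRef := CRef.mk (Pat.mk 0xe0000000400000004 0x2000000e30000007e0000007f00000004 7 8) 0 0 (step_sound _ 68 [(rh0ae232cce48795b7.shift 1 1), (rh93d841f0aa61858b.shift 0 1), rhe4f9133a81c1dbc5] (by decide +kernel))
noncomputable def rh10d342d0ef647a06 : CRef := CRef.mk (Pat.mk 0x80000000e000000000000000000000000 0x80000000a0000007b0000003e0000007f0000001400000014 7 7) 0 0 (step_sound _ 66 [rh2cb8437104de90cf, rh6904a2d19fc204db, (rhcf80391c5046a495.shift 2 0)] (by decide +kernel))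
noncomputable def rh8ccb26e392843af8 : CRef := CRef.mk (Pat.mk 0x100000001c000000080000000800000000 0x6e0000007f0000001c0000007f0000003e00000014 7 7) 0 0 (step_sound _ 131 [(rh85480f11efc1e555.shift 1 0), (rhaab2858ac97d8c09.shift 2 0), rhb9fa41937b57b353, rhc121e6a6bdaf61a1, (rhcd6adb2fafd26d26.shift 2 0)] (by decide +kernel))
noncomputable def rh34435ebbffb0bbe0 : CRef := CRef.mk (Pat.mk 0x80000000e000000040000000000000000 0x1c0000001f000000380000000e0000003c0000001800000010 7 6) 0 0 (step_sound _ 163 [rh155e3367b7cfa8c7, (rh5c5e593799055d58.shift 2 2)] (by decide +kernel))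
noncomputable def rh86fee9423a6b38ba : CRef := CRef.mk (Pat.mk 0x80000001e0000000000000000 0x14000000340000003f0000001e0000000b0000000a 7 6) 0 0 (step_sound _ 100 [rh2516b3f0cc9ec83b, (rh33e738c4ed385b9f.shift 1 2)] (by decide +kernel))
noncomputable def rhe15e844c686e8994 : CRef := CRef.mk (Pat.mk 0xe0000000300000001000000000000000000000000 0x2000000060000000e0000001f0000001f0000001e0000000600000006 7 5) 0 0 (step_sound _ 193 [(rh5c5e593799055d58.shift 0 3), rhc7b98d8ec5c88fb6] (by decide +kernel))
noncomputable def rh8e40b813915363a6 : CRef := CRef.mk (Pat.mk 0x1c00000006000000020000000000000000 0x10000000380000001f0000007e0000000f0000000e00000006 7 7) 0 0 (step_sound _ 33 [(rh71222050f2c63a3a.shift 1 0), rhe27ccd67170afdc6] (by decide +kernel))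
noncomputable def rh2e44574d8e8811c2 : CRef := CRef.mk (Pat.mk 0x20000000300000001c000000000000000000000000 0x8000000780000003f0000007c0000001e0000001c00000008 7 7) 0 0 (step_sound _ 68 [rh325de0418d6d227d, (rh71222050f2c63a3a.shift 4 1)] (by decide +kernel))
noncomputable def rh05fe168e77a4de2e : CRef := CRef.mk (Pat.mk 0x10000000180000000e000000000000000000000000 0x380000003c000000f8000000180000003e000000170000001000000010 7 8) 0 0 (step_sound _ 196 [(rh5c5e593799055d58.shift 3 3), rhfd68377a5374df37] (by decide +kernel))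
noncomputable def rh847c3d2fada2b1d2 : CRef := CRef.mk (Pat.mk 0x1c000000060000000200000000 0x80000001c0000003c0000001f0000007e0000000f00000008 7 7) 0 0 (step_sound _ 130 [(rh5c5e593799055d58.shift 1 1), rhd57c3d7c872a681a] (by decide +kernel))
noncomputable def rh76644db1fc3861be : CRef := CRef.mk (Pat.mk 0x180000000e0000000000000000 0x1000000014000000340000001f000000fe000000ef00000002 7 8) 0 0 (step_sound _ 68 [(rh883451bd3feec117.shift 0 1), rh8e53d4e5cc04c5ec, (rha1eb337eeb07c2e7.shift 0 1)] (by decide +kernel))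
noncomputable def rh163a458c14ee05a0 : CRef := CRef.mk (Pat.mk 0x200000003000000020000000000000000 0x50000000700000007000000020000000200000007000000070000000700000005 7 3) 0 0 (step_sound _ 161 [(rh03dfdf12d5937476.shift 0 1), rh6eff4158bb400f47, (rha087c6594f4bfb59.shift 0 1)] (by decide +kernel))
noncomputable def rh8922951154610591 : CRef := CRef.mk (Pat.mk 0x6000000030000000200000000 0x400000007000000070000000700000007000000070000001f0000001d 7 5) 0 0 (step_sound _ 129 [rh03dfdf12d5937476, rh93a8e6d21ec12a0a, (rhd2ab22822575c27c.shift 0 1)] (by decide +kernel))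
noncomputable def rhfb150cadafbb63d9 : CRef := CRef.mk (Pat.mk 0xc0000000700000000000000000000000000000000 0xa0000000e0000000e0000000c0000000f0000003c0000000f0000000e0000000a 7 6) 0 0 (step_sound _ 99 [(rh26b686789b1aea81.shift 0 1), (rh5f66fb5b860eeed9.shift 0 2), (rh6b602c1bcab002f1.shift 1 0), (rhd91e3215ae153153.shift 0 1)] (by decide +kernel))
noncomputable def rh933c6d9058c2d86b : CRef := CRef.mk (Pat.mk 0xe0000000300000002000000000000000000000000 0x190000000f0000001f0000000e000000060000000600000004 7 5) 0 0 (step_sound _ 65 [(rh64287c79f46819be.shift 0 1), (rh999c66e1f1e798df.shift 1 0), (rhe286c75f2739cce2.shift 0 1)] (by decide +kernel))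
noncomputable def rhcce1e0a6c1191cc1 : CRef := CRef.mk (Pat.mk 0xc000000070000000000000000000000000000000000000000 0xa0000000e0000000e0000000c000000070000003e0000000f0000000e0000000e00000008 7 6) 0 0 (step_sound _ 130 [(rh049cfc7ce67f5f53.shift 0 3), (rh2222a27c490588f5.shift 1 0), (rh92c0a1899325fd43.shift 0 1), (rheb5cf6be9daf210b.shift 0 2)] (by decide +kernel))
noncomputable def rh6f79599a1d3d970f : CRef := CRef.mk (Pat.mk 0x400000006000000030000000000000000 0x20000000600000006000000070000001f0000001f 7 5) 0 0 (step_sound _ 33 [rh500c04f1655ed043, (rh71222050f2c63a3a.shift 1 0)] (by decide +kernel))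
noncomputable def rh5efcf5e8c8ec51cb : CRef := CRef.mk (Pat.mk 0x1000000070000000180000000000000000 0x3000000070000000f00000007f000000f8000000e000000020 7 8) 0 0 (step_sound _ 99 [(rh082a4b21b1673342.shift 2 1), (rh75e1695803052323.shift 2 0), (rh8026aa9dd8ea0b36.shift 0 2), (rh8ddec07355289b6c.shift 3 1), (rhf41a34b41b8c2138.shift 2 1)] (by decide +kernel))
noncomputable def rh8385407bdb294e4c : CRef := CRef.mk (Pat.mk 0x1000000070000000180000000000000000 0x2000000060000000f00000007f000000f80000006c00000028 7 8) 0 0 (step_sound _ 99 [(rh210e2d9c685c857e.shift 0 2), (rh4c11c491f4d8ec0e.shift 2 0), (rhbb99abd3f4a1141f.shift 2 0), (rhf41a34b41b8c2138.shift 2 1)] (by decide +kernel))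
noncomputable def rhfb67a59ac3cddd9d : CRef := CRef.mk (Pat.mk 0x4000000038000000000000000000000000 0x10000000500000005f000000fe000001ff0000002800000020 7 9) 0 0 (step_sound _ 69 [(rh2cad565b39200272.shift 2 0), (rhc21a95c499b3efdb.shift 2 2), (rhdb604dc5b89892de.shift 0 2)] (by decide +kernel))
noncomputable def rha5d73a2884006b21 : CRef := CRef.mk (Pat.mk 0x80000000f000000000000000000000000 0x140000001c0000001c0000000c0000000f0000001c0000000c0000000c 7 5) 0 0 (step_sound _ 67 [(rhe25b0a99195a5d59.shift 0 2), (rhf44ec01dfd2630e9.shift 2 0)] (by decide +kernel))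
noncomputable def rh890283d8205227f4 : CRef := CRef.mk (Pat.mk 0x80000000e000000040000000000000000 0x60000000f0000003e0000003c0000000f0000000e 7 6) 0 0 (step_sound _ 34 [rh392f5117cf2a7857, (rh71222050f2c63a3a.shift 2 0)] (by decide +kernel))
noncomputable def rh1365ca4e93350c1f : CRef := CRef.mk (Pat.mk 0x80000000e000000040000000000000000 0x2000000020000007b0000003e000000770000000400000004 7 7) 0 0 (step_sound _ 34 [(rh71222050f2c63a3a.shift 2 0), (rhe2d612071ddf2b91.shift 0 1)] (by decide +kernel))
noncomputable def rhfee74c95caea002b : CRef := CRef.mk (Pat.mk 0x100000001c000000080000000800000000 0x8000000080000006c0000007c0000001c0000007f0000003e00000014 7 7) 0 0 (step_sound _ 131 [(rh4f402ce420c5c06c.shift 2 0), (rh5e46927f286229a7.shift 2 0), (rh85480f11efc1e555.shift 1 0), (rhaab2858ac97d8c09.shift 2 0), rhc8a5a9f578e5c6fe] (by decide +kernel))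
noncomputable def rh10f58ed2a524eff2 : CRef := CRef.mk (Pat.mk 0x80000000e0000000400000000 0x1c0000003c0000000f0000000e0000003c00000018 7 6) 0 0 (step_sound _ 131 [rh3ceeed110dc66871, (rh5c5e593799055d58.shift 2 1)] (by decide +kernel))
noncomputable def rh37fe76e0254fc3d7 : CRef := CRef.mk (Pat.mk 0x80000000e000000000000000000000000 0x10000000380000007f0000003e000000380000001800000010 7 7) 0 0 (step_sound _ 132 [(rh572132728df34c43.shift 1 3), (rh80f90a60d87caa0d.shift 1 3), rh9ada985e2b5be27e] (by decide +kernel))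
noncomputable def rh1db1721294d46498 : CRef := CRef.mk (Pat.mk 0x7000000018000000080000000000000000 0x2000000020000000e80000007c000000d80000005f0000007c0000003c 7 8) 0 0 (step_sound _ 35 [(rh71222050f2c63a3a.shift 3 0), rh8b87fecde334b583] (by decide +kernel))
noncomputable def rh5c3a3a0bf93f15e3 : CRef := CRef.mk (Pat.mk 0x1c000000060000000200000000 0x80000000c0000003c0000001f0000003e0000003b00000018 7 6) 0 0 (step_sound _ 130 [rh3b5e5a5c11cf222a, (rh5c5e593799055d58.shift 1 1)] (by decide +kernel))
noncomputable def rh76bc1c3c7d505c7d : CRef := CRef.mk (Pat.mk 0x1c0000000600000000000000000000000000000000 0x80000000c0000000c0000000e0000000f0000001c0000000e0000000e0000000e0000000e00000002 7 5) 0 0 (step_sound _ 194 [rh0ca2220c65d829b7, (rh281c6819542c66e6.shift 1 1), (rhd0a3b1093d13b2d7.shift 1 3)] (by decide +kernel))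
noncomputable def rhae637eb12829918c : CRef := CRef.mk (Pat.mk 0x180000000c0000000800000000 0x100000001c0000001f0000001f0000001c0000000c0000000c00000004 7 5) 0 0 (step_sound _ 131 [(rh03dfdf12d5937476.shift 2 0), (rh69f0587a21bb077f.shift 2 1), rhe5fce868e21152e4] (by decide +kernel))
noncomputable def rh2c4cf3237a34a5a1 : CRef := CRef.mk (Pat.mk 0x380000000e000000000000000000000000 0x140000001c0000001e0000001f0000003a0000000e0000000e0000000c00000004 7 6) 0 0 (step_sound _ 163 [(rh125cab51679c4bee.shift 0 1), (rh281c6819542c66e6.shift 2 0), (rh68a777751bfeafdf.shift 2 2)] (by decide +kernel))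
noncomputable def rhba2ffd511ec2fd2f : CRef := CRef.mk (Pat.mk 0x40000001e000000020000000000000000 0x10000000370000001f0000003a0000000a0000000a 7 6) 0 0 (step_sound _ 129 [(rh3244c3cc8379b070.shift 0 3), rh5119b6f49f7b0b37] (by decide +kernel))
noncomputable def rh227f4004b4f3cce2 : CRef := CRef.mk (Pat.mk 0x800000018000000080000000000000000 0x140000001f0000003800000018000000180000001800000018 7 6) 0 0 (step_sound _ 36 [(rh390a8df03c6c5a62.shift 3 0), (rh7e0eb827c193622b.shift 0 1), (rh8f4050c06a082165.shift 3 0)] (by decide +kernel))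
noncomputable def rh1aded9edf2cf7032 : CRef := CRef.mk (Pat.mk 0x1e0000000600000000 0x6000000070000003f0000001f0000000600000002 7 6) 0 0 (step_sound _ 97 [(rh3244c3cc8379b070.shift 0 2), rh780a8fc0537f8f31] (by decide +kernel))
noncomputable def rh3ff37293e0b8329d : CRef := CRef.mk (Pat.mk 0x10000000380000000800000000 0x1000000010000000770000003e0000006f00000020 7 7) 0 0 (step_sound _ 132 [(rh5c5e593799055d58.shift 3 1), rhea2a847995df1967] (by decide +kernel))
noncomputable def rh4f81df98a882ed31 : CRef := CRef.mk (Pat.mk 0x8000000080000001c000000040000000000000000 0x140000001e0000007c0000001c0000001f0000001b00000018 7 7) 0 0 (step_sound _ 67 [(rh29631e4c43ed50b9.shift 0 1), (rh6ed5e6501b92e21f.shift 2 0), (rh7724e98bb8eb6fba.shift 1 1), rhcbdab5535266b9ed] (by decide +kernel))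
noncomputable def rhfbee3747be3dc75a : CRef := CRef.mk (Pat.mk 0x38000000080000000000000000 0x1000000014000000760000003e0000007f0000002800000008 7 7) 0 0 (step_sound _ 66 [(rh1ed7a3503fa50fc8.shift 0 2), (rh8d57b1d9b3ea52bb.shift 1 0), (rheea1a90336e79c71.shift 0 2)] (by decide +kernel))
noncomputable def rhf285d9c81dd2102a : CRef := CRef.mk (Pat.mk 0x180000000c000000000000000000000000 0x140000001c0000001c0000001f000000780000000c0000001c0000001c00000014 7 7) 0 0 (step_sound _ 133 [(rh18965a982d73c794.shift 2 3), rhef23918066632ed4] (by decide +kernel))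
noncomputable def rh44d31e7d6516e5b1 : CRef := CRef.mk (Pat.mk 0x10000000180000000e0000000000000000 0x80000000c0000000e0000001f0000001b0000001e0000000c0000000c 7 5) 0 0 (step_sound _ 35 [rh6ae23be999789e1d, (rh71222050f2c63a3a.shift 3 0)] (by decide +kernel))
noncomputable def rhfa942acc476010d0 : CRef := CRef.mk (Pat.mk 0x80000000c0000000600000000 0x1e0000001f0000007c0000000c0000000e0000000a 7 7) 0 0 (step_sound _ 131 [rh0426318422295e19, (rh5c5e593799055d58.shift 2 1)] (by decide +kernel))
noncomputable def rh8ee974dbc4903f92 : CRef := CRef.mk (Pat.mk 0x20000000600000002000000000000000000000000 0x4000000070000000700000007000000060000000600000002000000070000000700000005 7 3) 0 0 (step_sound _ 65 [(rh127b405bd7f7b930.shift 1 0), rh6eff4158bb400f47, (rhd4fce4f58f6374a0.shift 0 2)] (by decide +kernel))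
noncomputable def rhd573082e04eaa42e : CRef := CRef.mk (Pat.mk 0x180000000e000000040000000000000000 0xa0000000a0000001b000000fe000000f60000001400000004 7 8) 0 0 (step_sound _ 34 [(rh71222050f2c63a3a.shift 2 0), (rhf789e030507222a1.shift 0 1)] (by decide +kernel))
noncomputable def rh05c216e67a165cb2 : CRef := CRef.mk (Pat.mk 0x70000000180000000000000000 0x2000000060000000e00000007f000000f8000000e000000060 7 8) 0 0 (step_sound _ 99 [(rh014abbda9a411227.shift 2 0), (rh09fb2f953a1dfd6f.shift 3 0), (rh210e2d9c685c857e.shift 0 2), (rhb32eb569dfc388a6.shift 2 0), (rhf41a34b41b8c2138.shift 2 1)] (by decide +kernel))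
noncomputable def rhd26a470973d7e518 : CRef := CRef.mk (Pat.mk 0xf00000008000000000000000000000000 0x40000000c0000001c0000000f0000000c0000001c0000001c00000018 7 5) 0 0 (step_sound _ 163 [(rh33e738c4ed385b9f.shift 0 4), (rha73aa629be6ad2b7.shift 2 0)] (by decide +kernel))
noncomputable def rh1301ebdefe49082b : CRef := CRef.mk (Pat.mk 0xf000000010 0xe000000fe000001f7 7 9) 0 0 (step_sound _ 7 [rha041d537d8b13371, (rhe25b0a99195a5d59.shift 4 0)] (by decide +kernel))
noncomputable def rh1623a5e1f676303d : CRef := CRef.mk (Pat.mk 0x180000000e0000000400000000 0x1e0000001f0000001f0000000e0000000c00000008 7 5) 0 0 (step_sound _ 131 [rh48ea8d8ccf6b4410, (rh5c5e593799055d58.shift 2 1)] (by decide +kernel))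
noncomputable def rhdad563ccd03738ac : CRef := CRef.mk (Pat.mk 0x2000000060000000300000000 0x50000000700000007000000020000000200000006000000070000000300000001 7 3) 0 0 (step_sound _ 129 [(rh61257be8a2a27e51.shift 0 1), rh932754581e0f4330] (by decide +kernel))
noncomputable def rh209e07c8fb82ee39 : CRef := CRef.mk (Pat.mk 0x1a0000000e000000000000000000000000 0x1b000000fe0000007e0000000400000004 7 8) 0 0 (step_sound _ 100 [(rh1e4f2d7a7eac99b4.shift 1 0), (rh3244c3cc8379b070.shift 0 3)] (by decide +kernel))
noncomputable def rhaf4612bd32c039c1 : CRef := CRef.mk (Pat.mk 0x180000000e000000040000000000000000 0x600000006000000160000001e0000000e0000003e0000000f0000000e 7 6) 0 0 (step_sound _ 34 [(rh71222050f2c63a3a.shift 2 0), rh81ff8dd4f6061fb2] (by decide +kernel))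
noncomputable def rhab1fb5c70994706a : CRef := CRef.mk (Pat.mk 0x10000000180000000c0000000800000000 0x20000000f0000003f0000001f0000001c0000007c00000034 7 7) 0 0 (step_sound _ 131 [(rh03dfdf12d5937476.shift 2 0), (rh14d5fb538d4c2aa6.shift 0 1), (rh7c5c9e3d7752e57e.shift 2 0)] (by decide +kernel))
noncomputable def rh30c630fd27fb8669 : CRef := CRef.mk (Pat.mk 0x80000000c0000000600000000 0x1c0000001e000000780000000f0000003e00000018 7 7) 0 0 (step_sound _ 131 [(rh5c5e593799055d58.shift 2 1), rh6417a4f33b4d74d4] (by decide +kernel))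
noncomputable def rh3a2ef2ea38309b88 : CRef := CRef.mk (Pat.mk 0x180000000c000000000000000000000000 0x10000000380000001f0000003f000000380000001800000010 7 6) 0 0 (step_sound _ 97 [(rh53b3c253cb0c65f4.shift 0 3), rh9ada985e2b5be27e] (by decide +kernel))
noncomputable def rh3125c69d7cbab6e3 : CRef := CRef.mk (Pat.mk 0x1c0000000600000000000000000000000000000000 0x80000000e0000001f0000001c000000160000003f0000003e0000000e0000000a 7 6) 0 0 (step_sound _ 98 [(rh164d9aed8aa31d30.shift 0 2), (rh215e11e099257d75.shift 2 2), rh8e5b610da1554a66, (rhffb8e5993241bf15.shift 1 0)] (by decide +kernel))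
noncomputable def rh246a71df334bb991 : CRef := CRef.mk (Pat.mk 0xc00000007000000040000000000000000 0x80000000c0000001f0000003c0000001e0000000e 7 6) 0 0 (step_sound _ 34 [(rh2f68792b6b779e96.shift 2 1), rheafcc9bd34f88a06] (by decide +kernel))
noncomputable def rhe49e55c9d6df10c6 : CRef := CRef.mk (Pat.mk 0x180000000e00000000000000000000000000000000 0x140000001c0000003f000000780000002e0000007c000000380000001000000010 7 7) 0 0 (step_sound _ 165 [(rh18965a982d73c794.shift 2 4), rhe77048db517ad1d3] (by decide +kernel))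
noncomputable def rhb25985103176825f : CRef := CRef.mk (Pat.mk 0x300000000800000000 0xfc0000007f000000ee 7 8) 0 0 (step_sound _ 34 [(rh3b36bb83f0bfb4d9.shift 1 0), (rh7401e8cf466f4e5b.shift 0 1), (rhaff4d66ab2235e4f.shift 2 1), (rhbd2e91c3fdbfa961.shift 0 1)] (by decide +kernel))
noncomputable def rhf516498412bde7a9 : CRef := CRef.mk (Pat.mk 0x180000000e000000040000000000000000 0x2000000020000001b000000fe0000007e0000000400000004 7 8) 0 0 (step_sound _ 34 [(rh4af6f3cd22c70e70.shift 0 1), (rh71222050f2c63a3a.shift 2 0)] (by decide +kernel))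
noncomputable def rh0ce7f44f7372fbde : CRef := CRef.mk (Pat.mk 0xc000000060000000000000000 0x200000012000000330000003f0000003e0000000c00000008 7 6) 0 0 (step_sound _ 100 [(rh18965a982d73c794.shift 1 2), rhcd877eecae651a29] (by decide +kernel))
noncomputable def rh32da836736ef76aa : CRef := CRef.mk (Pat.mk 0x180000000e000000080000000000000000 0x20000001b0000003e0000007f0000003c0000003c 7 7) 0 0 (step_sound _ 100 [rh2395824d1086e2bc, rh2d432a4e867e50f2, (rhe9a4237b19b1f41f.shift 1 0)] (by decide +kernel))
noncomputable def rhedbb3a3b119293e0 : CRef := CRef.mk (Pat.mk 0x8000000080000001c000000040000000000000000 0x140000001c0000001c0000001c0000007f0000007b00000018 7 7) 0 0 (step_sound _ 67 [(rh29631e4c43ed50b9.shift 0 1), (rh2bf2743efa8a0379.shift 2 1), (rh6ed5e6501b92e21f.shift 2 0), rhcbdab5535266b9ed] (by decide +kernel))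
noncomputable def rh0b32962895f3b669 : CRef := CRef.mk (Pat.mk 0x1000000038000000080000000800000000 0x700000003e0000007f000001f800000030 7 9) 0 0 (step_sound _ 98 [(rh01d64f4b25e9d366.shift 1 2), (rh20a20a2b23f2ba5f.shift 1 0), (rh4c063b89d42a2070.shift 0 2), (rhe6bda222dda267c2.shift 1 0)] (by decide +kernel))
noncomputable def rhefd1b7782434d2d1 : CRef := CRef.mk (Pat.mk 0x20000000700000001000000000 0x2000000020000000f70000007e000000de00000040 7 8) 0 0 (step_sound _ 133 [(rh5c5e593799055d58.shift 4 1), rh93c342a151e55529] (by decide +kernel))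
noncomputable def rh9db668c55cc12000 : CRef := CRef.mk (Pat.mk 0x1e000000060000000000000000 0x600000006000000070000001e0000003e0000000300000001 7 6) 0 0 (step_sound _ 129 [(rh3244c3cc8379b070.shift 0 3), rh67cbc159cd122ebb] (by decide +kernel))
noncomputable def rh418af1a0bcf43106 : CRef := CRef.mk (Pat.mk 0x1e000000040000000000000000 0x80000000e0000000f0000001e0000000c0000000c0000000c 7 5) 0 0 (step_sound _ 129 [(rh3244c3cc8379b070.shift 0 3), (rhaea16f32eb7d27ae.shift 1 0)] (by decide +kernel))
noncomputable def rhcf4ad328039bff98 : CRef := CRef.mk (Pat.mk 0x80000001c000000040000000000000000 0x60000000f0000001c0000000f0000003c0000001c 7 6) 0 0 (step_sound _ 34 [rh3b545fc8430e3234, (rh71222050f2c63a3a.shift 2 0)] (by decide +kernel))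
noncomputable def rh27092cceeab6aa4a : CRef := CRef.mk (Pat.mk 0x380000000c00000000000000000000000000000000 0x100000001c0000003e000000380000002c0000007f0000003c0000001c00000014 7 7) 0 0 (step_sound _ 99 [(rh164d9aed8aa31d30.shift 1 2), (rh215e11e099257d75.shift 3 2), rhbfe60582104a6b25, (rhffb8e5993241bf15.shift 2 0)] (by decide +kernel))
noncomputable def rh5341914c62910efa : CRef := CRef.mk (Pat.mk 0x200000002000000070000000000000000000000000 0x2000000067000000fe000003c70000004000000040 7 10) 0 0 (step_sound _ 70 [(rh08edf065357d68e5.shift 5 0), (rh8ee80cc30e93a344.shift 3 2), (rhc7ed0dbd4dd1ff1a.shift 0 2)] (by decide +kernel))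
noncomputable def rhbcd26d3d18f255d4 : CRef := CRef.mk (Pat.mk 0x2000000020000000700000001000000000 0x1c0000003c0000007e0000007e000000df00000040 7 8) 0 0 (step_sound _ 67 [(rh2001cb69a0930ca5.shift 2 0), (rh5b2ce1e5aa4a4edd.shift 0 1), (rh71434a0c3a9c84c9.shift 2 1)] (by decide +kernel))
noncomputable def rh985e7ae96dfe8814 : CRef := CRef.mk (Pat.mk 0x1000000018000000080000000800000000 0x8000000380000007e0000007f0000007c00000030 7 7) 0 0 (step_sound _ 66 [(rh0bb882ba86b2372d.shift 0 2), (rh4bf3712e29d672fb.shift 1 0), rhe86ecbe6c8090c55] (by decide +kernel))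
noncomputable def rhfe59c29b0560ee99 : CRef := CRef.mk (Pat.mk 0x10000000300000001800000000 0x2c0000002c000000fe000000ff000000f800000040 7 8) 0 0 (step_sound _ 70 [(rh18965a982d73c794.shift 3 1), rh893548da05599c74] (by decide +kernel))
noncomputable def rh92645babed6d6d29 : CRef := CRef.mk (Pat.mk 0x18000000180000000800000008 0xe4000000ff0000001f0000000800000008 7 8) 0 0 (step_sound _ 98 [(rh50fbb5868c909700.shift 2 0), (rh8f888f6cb5702051.shift 0 2)] (by decide +kernel))
noncomputable def rhc9b4c5af0f527a4a : CRef := CRef.mk (Pat.mk 0x40000000c00000006000000020000000000000000 0x80000000c0000000c0000003e0000003f0000003c00000010 7 6) 0 0 (step_sound _ 66 [rh9754ad85a565e7bd, (rha707fb719e87fe6e.shift 2 1)] (by decide +kernel))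
noncomputable def rhfcdac40907338f47 : CRef := CRef.mk (Pat.mk 0x100000001800000008000000080000000000000000 0xc0000000c0000002c000000f80000007e0000007f0000007c0000003000000030 7 8) 0 0 (step_sound _ 68 [(rh151e72b11efbcd8a.shift 0 1), (rh553a09777656fbd3.shift 1 1), (rh5efb70d687a431f8.shift 2 1), (rh6799e174f619f451.shift 1 1), (rhdb1723f3c541195f.shift 1 0)] (by decide +kernel))
noncomputable def rhde86ccf9a55949e7 : CRef := CRef.mk (Pat.mk 0x100000001c000000080000000000000000 0x1d0000000ff000001fc000001f000000020 7 9) 0 0 (step_sound _ 101 [(rh0ae232cce48795b7.shift 2 2), (rh269ec8aea54f7124.shift 0 2), (rhb02f9c2bd63f56db.shift 2 2), (rhb8de41a89a9d4634.shift 2 2), (rhe6bda222dda267c2.shift 1 0)] (by decide +kernel))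
noncomputable def rh8ffce537828d6ba5 : CRef := CRef.mk (Pat.mk 0x4000000040000000e00000002000000000000000000000000 0x80000000c0000003f0000003e0000003e0000003c0000001c00000010 7 6) 0 0 (step_sound _ 98 [(rh0e9c0dada797d648.shift 0 1), (rhc25035b08412a6a9.shift 1 1), (rhc5471dfbda6ee65d.shift 1 0), (rhf2584abcf9d052b1.shift 1 1)] (by decide +kernel))
noncomputable def rh1fdce53352ce63a0 : CRef := CRef.mk (Pat.mk 0x80000001c00000004 0xef0000007e0000007c 7 8) 0 0 (step_sound _ 65 [rh472e08b23b567149, (rh508d31626b5d2be8.shift 0 1), (rh54c49bb299227e8d.shift 0 1), (rhb84b1f66852c4b18.shift 1 0)] (by decide +kernel))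
noncomputable def rh3370c54e2301a69c : CRef := CRef.mk (Pat.mk 0x8000000080000001c0000000400000000 0x140000003c0000000f0000001f0000003f00000012 7 6) 0 0 (step_sound _ 35 [rhd87e581500fe8583, rhfe557af9112f51d6] (by decide +kernel))
noncomputable def rhbaf84bf020444934 : CRef := CRef.mk (Pat.mk 0x2000000030000000100000001000000000 0x8000000180000003f0000007c0000003c000000f000000060 7 8) 0 0 (step_sound _ 131 [(rh0b744d3af5b77181.shift 1 1), (rh6b22a9ecbe5baeca.shift 0 1), (rhbffcaa46287832bb.shift 1 0), (rhc786f0f416fca90c.shift 2 0)] (by decide +kernel))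
noncomputable def rh8d801d05f6284c05 : CRef := CRef.mk (Pat.mk 0x8000000180000000c00000004000000000000000000000000 0x160000001f0000001b0000001f0000001c000000180000001800000008 7 5) 0 0 (step_sound _ 129 [(rh53b3c253cb0c65f4.shift 0 4), rh6efb8698179a8628] (by decide +kernel))
noncomputable def rh1a17743f6ed3d11f : CRef := CRef.mk (Pat.mk 0x1000000018000000080000000000000000 0x2c0000007f0000003e000000180000001800000018 7 7) 0 0 (step_sound _ 35 [rh1bdb157c3b067c99, (rh71222050f2c63a3a.shift 3 0)] (by decide +kernel))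
noncomputable def rh7c77f6c1b1787c43 : CRef := CRef.mk (Pat.mk 0x400000004000000160000000200000000 0x180000003c000000370000001e0000003b00000008 7 6) 0 0 (step_sound _ 67 [rh9a822f02b6a89403, (rheb0810cc63b001d8.shift 0 1)] (by decide +kernel))
noncomputable def rhb1b20c76312597a2 : CRef := CRef.mk (Pat.mk 0x80000000c00000004000000000000000000000000 0x160000001f0000003c0000000f0000003c0000001c00000008 7 6) 0 0 (step_sound _ 66 [rh3c4afa9f38dd2a05, (rh71222050f2c63a3a.shift 2 1)] (by decide +kernel))
noncomputable def rh4bc81027e105bdb0 : CRef := CRef.mk (Pat.mk 0x2000000020000000300000001000000000 0xc0000007c000001ef000000fe000001df00000048 7 9) 0 0 (step_sound _ 67 [(rh6f28aee30bcdbfe1.shift 3 0), rh780e8523a6338ff2, (rhb12ffaec36122c99.shift 0 1)] (by decide +kernel))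
noncomputable def rhdfdec3abc73f8c21 : CRef := CRef.mk (Pat.mk 0x400000002000000020000000200000000000000000000000000000000 0x500000007000000030000000200000002000000070000000700000005 7 3) 0 0 (step_sound _ 97 [(rhbaefcd01e0a8bca3.shift 1 3), rhc850b49d039efae1] (by decide +kernel))
noncomputable def rh77ad896f3f35871e : CRef := CRef.mk (Pat.mk 0x2000000020000000200000002000000000000000000000000 0x7000000070000000600000003000000070000000700000004 7 3) 0 0 (step_sound _ 64 [rh0f077dbff6d11df3, (rh79877ebd3ef475dd.shift 0 2)] (by decide +kernel))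
noncomputable def rh9b73c5d7c522f441 : CRef := CRef.mk (Pat.mk 0x200000002000000020000000200000000000000000000000000000000 0x200000006000000060000000600000007000000070000000700000004 7 3) 0 0 (step_sound _ 97 [(rh1a84ccadb9ef172a.shift 0 1), (rh6eff4158bb400f47.shift 0 1), rh8d8bfe45b7d5275a, (rhd29a1fb688eae70f.shift 1 2)] (by decide +kernel))
noncomputable def rh82fd6857f8e3b6aa : CRef := CRef.mk (Pat.mk 0xc000000040000000400000004 0x1000000010000000320000003f0000003f0000000c00000004 7 6) 0 0 (step_sound _ 97 [(rh50fbb5868c909700.shift 1 0), (rhe0f9066d8708b22b.shift 0 1)] (by decide +kernel))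
noncomputable def rh0ac1f74d0695a4f0 : CRef := CRef.mk (Pat.mk 0x1800000008000000080000000800000000 0x800000008000000780000001f0000001c0000001c00000010 7 7) 0 0 (step_sound _ 36 [(rh55afc6a59410cf00.shift 3 0), (rhde319f522640fb20.shift 0 1)] (by decide +kernel))
noncomputable def rhd2b9226ccdf66de3 : CRef := CRef.mk (Pat.mk 0x6000000020000000200000002 0x200000003000000030000001f000000070000000700000003 7 5) 0 0 (step_sound _ 128 [rh2479e71cceca9e92, rhffd04209dc8ea796] (by decide +kernel))
noncomputable def rhf96f4c545dd205be : CRef := CRef.mk (Pat.mk 0x1800000008000000080000000800000000 0x80000000c0000003c0000000f0000001c0000001c00000010 7 6) 0 0 (step_sound _ 130 [rh1ae5368ee2f8c377, (rh50fbb5868c909700.shift 2 1)] (by decide +kernel))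
noncomputable def rhb7bdfe1aec99acc3 : CRef := CRef.mk (Pat.mk 0x8000000180000000c0000000400000000 0x160000001f0000001f0000000f0000000c00000008 7 5) 0 0 (step_sound _ 65 [rh48ea8d8ccf6b4410, (rh53b3c253cb0c65f4.shift 0 2)] (by decide +kernel))
noncomputable def rh294e36992aa5d01e : CRef := CRef.mk (Pat.mk 0x8000000180000000c000000040000000000000000 0x10000000360000001f0000001f0000000f0000001c0000001800000010 7 6) 0 0 (step_sound _ 97 [(rh53b3c253cb0c65f4.shift 0 3), rhab86645e10ce1fab] (by decide +kernel))
noncomputable def rh60ec4581923189d5 : CRef := CRef.mk (Pat.mk 0x20000000600000003000000010000000000000000 0x5000000070000001f000000070000001f0000001e00000004 7 5) 0 0 (step_sound _ 131 [rh012c1dab3b22d9c1, (rh18965a982d73c794.shift 0 3)] (by decide +kernel))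
noncomputable def rhd2c82e1a9c245db7 : CRef := CRef.mk (Pat.mk 0x1000000010000000180000000c00000000 0x800000028000000f80000001c0000001f0000003f00000034 7 8) 0 0 (step_sound _ 33 [rh19f9fcc6bb214921, (rh53b3c253cb0c65f4.shift 0 1)] (by decide +kernel))
noncomputable def rh70257badbfe23da7 : CRef := CRef.mk (Pat.mk 0x40000000400000016000000020000000000000000 0x1c0000003c0000001e0000003b0000001800000018 7 6) 0 0 (step_sound _ 99 [(rh1675ec681ab62e79.shift 1 0), (rheb0810cc63b001d8.shift 0 2)] (by decide +kernel))
noncomputable def rh7e717a9e1f2b543c : CRef := CRef.mk (Pat.mk 0x20000000a00000003000000010000000000000000 0x5000000070000001f0000001b0000001f0000000e00000004 7 5) 0 0 (step_sound _ 130 [(rh18965a982d73c794.shift 0 3), rhbbbd0ee04425f659] (by decide +kernel))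
noncomputable def rh7a78530de97bb7f5 : CRef := CRef.mk (Pat.mk 0x8000000280000000c00000004000000000000000000000000 0x170000001e0000003f0000000e0000001c000000180000001800000018 7 6) 0 0 (step_sound _ 99 [(rh4f66b8b299b10e60.shift 2 0), (rh81ccc814c226d92f.shift 0 3), (rhdd11e03a2f8b13b6.shift 2 0)] (by decide +kernel))
noncomputable def rh722c806629deb094 : CRef := CRef.mk (Pat.mk 0x40000000c00000006000000020000000000000000 0x8000000080000003c0000003f0000003e0000003b0000001800000010 7 6) 0 0 (step_sound _ 132 [(rh18965a982d73c794.shift 1 3), rh347e43185df2895d] (by decide +kernel))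
noncomputable def rh8bcb6a1353d6c4c5 : CRef := CRef.mk (Pat.mk 0x100000001000000018000000080000000800000000 0x2000000030000000f00000007e000001ef0000007c00000020 7 9) 0 0 (step_sound _ 101 [(rh2820ca9a6c4f41b4.shift 0 2), (rh933beab41edfb2a2.shift 2 1), rhca300808da6dc72d, (rhd637b0b45212c965.shift 1 0)] (by decide +kernel))
noncomputable def rh66b2b93a374f8bc5 : CRef := CRef.mk (Pat.mk 0x10000000180000000c0000000800000000 0x24000000340000001f000000ff0000007f00000002 7 8) 0 0 (step_sound _ 65 [rh00ee57256a231bb2, (rh53b3c253cb0c65f4.shift 0 2)] (by decide +kernel))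
noncomputable def rh58f0a89e90716c9c : CRef := CRef.mk (Pat.mk 0x4000000060000000200000000 0xe0000000f0000003c000000060000000600000006 7 6) 0 0 (step_sound _ 130 [(rh5c5e593799055d58.shift 1 1), rhe63fe6f8404d5efb] (by decide +kernel))
noncomputable def rhd2b56b33f7719046 : CRef := CRef.mk (Pat.mk 0x180000000c0000000800000000 0x140000001c0000001c000000180000000f0000007c00000014 7 7) 0 0 (step_sound _ 65 [(rh0794c465b5535106.shift 1 0), (rh53b3c253cb0c65f4.shift 0 2)] (by decide +kernel))
noncomputable def rha517dc49778eab17 : CRef := CRef.mk (Pat.mk 0x18000000080000000800000000 0x1800000018000000180000000f0000003c0000001c 7 6) 0 0 (step_sound _ 132 [rh600c31b2a53e2db8, (rh71222050f2c63a3a.shift 3 0)] (by decide +kernel))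
noncomputable def rh9a821c50e5fe696f : CRef := CRef.mk (Pat.mk 0xc0000000700000000000000000000000000000000 0x4000000060000000e0000000e0000000e000000070000003e0000000e0000000c00000008 7 6) 0 0 (step_sound _ 98 [(rh000637b5a81e86aa.shift 1 1), rh92c0a1899325fd43, (rha3d39b978b067c08.shift 0 2)] (by decide +kernel))
noncomputable def rhe3273c0373f53314 : CRef := CRef.mk (Pat.mk 0x70000000180000000800000000 0x70000000f00000007f000000f80000006c00000060 7 8) 0 0 (step_sound _ 132 [(rh5c5e593799055d58.shift 3 1), rhad6dce0bb528f46e] (by decide +kernel))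
noncomputable def rh5931989f3d0bb66a : CRef := CRef.mk (Pat.mk 0xc000000070000000400000000 0x4000000060000000e0000000e0000000e000000070000003e00000008 7 6) 0 0 (step_sound _ 35 [(rh168227bd50a80818.shift 1 0), (rh85c4c26319a45e88.shift 1 0), (rh89ade209b3e28f13.shift 0 1)] (by decide +kernel))
noncomputable def rh17d33168ad81fbea : CRef := CRef.mk (Pat.mk 0x20000001c0000000600000000 0x6000000070000003e0000001f0000000600000006 7 6) 0 0 (step_sound _ 129 [(rh11b0dd659f6f5c3b.shift 1 0), rh88f641d3ffce88bb, (rh995d562584f2bbf0.shift 1 0), rhb55f021a44361f10] (by decide +kernel))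
noncomputable def rhec2e0c4e6c6e23bd : CRef := CRef.mk (Pat.mk 0xe0000000300000001000000000000000000000000 0x6000000060000000e0000001f0000001f0000001e0000000600000002 7 5) 0 0 (step_sound _ 193 [(rh5c5e593799055d58.shift 0 3), rh9e395b4fa6d6db23] (by decide +kernel))
noncomputable def rh10549a9b6c5b57c6 : CRef := CRef.mk (Pat.mk 0x60000000300000002000000000000000000000000 0x1000000030000000300000006000000070000001f000000070000000700000004 7 5) 0 0 (step_sound _ 64 [(rh0db119afefb5ebc7.shift 0 1), rh5799bc112efcbb34, (rh5ee81dc4fe4da568.shift 0 2)] (by decide +kernel))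
noncomputable def rh2b80f04516238041 : CRef := CRef.mk (Pat.mk 0x6000000030000000200000000 0x60000000600000006000000070000001f0000001d 7 5) 0 0 (step_sound _ 129 [rh03dfdf12d5937476, rh93a8e6d21ec12a0a, rh94a24b8486b76775] (by decide +kernel))
noncomputable def rh90e233fae0971711 : CRef := CRef.mk (Pat.mk 0x380000000c00000000000000000000000000000000 0x40000000c0000001c0000001f000000380000001c0000000c0000001c0000001c00000010 7 6) 0 0 (step_sound _ 195 [(rh281c6819542c66e6.shift 2 1), (rh429398ebbcf74a59.shift 1 0), (rh4fa02edefd3dd027.shift 0 2), (rhb622aa591eacde43.shift 2 3)] (by decide +kernel))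
noncomputable def rh2ffc30c3d15f79d3 : CRef := CRef.mk (Pat.mk 0x300000001c0000000800000000 0x3c0000003e000000360000003c0000001f00000012 7 6) 0 0 (step_sound _ 132 [(rh5c5e593799055d58.shift 3 1), rh6865bf28d4be43d6] (by decide +kernel))
noncomputable def rhe5dc6eee5ec141e7 : CRef := CRef.mk (Pat.mk 0x180000000e0000000400000000 0xe0000003f0000001f0000000e0000003c00000010 7 6) 0 0 (step_sound _ 131 [(rh5c5e593799055d58.shift 2 1), rh91940de50fe30a25] (by decide +kernel))
noncomputable def rhc96bc0dda912bbd7 : CRef := CRef.mk (Pat.mk 0x1c0000000600000004000000000000000000000000 0x20000000e0000000f0000001c0000001e0000003c000000180000001000000010 7 6) 0 0 (step_sound _ 194 [(rh039efe07c35de3d4.shift 0 3), (rh5abfc4c9d959be03.shift 1 2), (rh7b3fe4fb4354ef0f.shift 1 0)] (by decide +kernel))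
noncomputable def rha5827dd461b72752 : CRef := CRef.mk (Pat.mk 0x380000000e000000000000000000000000 0x4000000040000001e0000001f0000003a0000000e0000000e0000000c00000004 7 6) 0 0 (step_sound _ 163 [rh0ab273d635ba54c7, (rh281c6819542c66e6.shift 2 0), (rhebc6a56eae1c36f1.shift 0 1)] (by decide +kernel))
noncomputable def rh84274b83844de61c : CRef := CRef.mk (Pat.mk 0x8000000380000000c000000000000000000000000 0x140000001f000000380000003c0000007c0000003c00000014 7 7) 0 0 (step_sound _ 162 [(rh56259dd1390eee46.shift 2 0), (rhc02b3aee7ab87ee1.shift 0 4), (rhf74f7bdba940048f.shift 2 1)] (by decide +kernel))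
noncomputable def rh2f3ac198cadf6271 : CRef := CRef.mk (Pat.mk 0x1e000000060000000000000000 0x600000006000000070000001e0000003e0000000300000001 7 6) 0 0 (step_sound _ 68 [rhb8badfb08ca501e0, (rhe25b0a99195a5d59.shift 1 2)] (by decide +kernel))
noncomputable def rh65b09d978ccdd866 : CRef := CRef.mk (Pat.mk 0x20000000200000003800000010 0x1c0000003f0000007c000000f80000001c 7 8) 0 0 (step_sound _ 38 [(rh010ba7c809afa7e3.shift 2 0), rh23f3407eef9233d5, (rhaf9f2efc81a8312b.shift 2 0)] (by decide +kernel))
noncomputable def rh8e8b8511c782ead1 : CRef := CRef.mk (Pat.mk 0x80000000e0000000400000004 0x200000002000001df000000fe0000007c00000004 7 9) 0 0 (step_sound _ 68 [rh1c1037cb5b3fe471, (rhc3f1fdc610b622e4.shift 1 1), rheddd3d8f7db62149] (by decide +kernel))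
noncomputable def rh0101cc08ef49d887 : CRef := CRef.mk (Pat.mk 0x8000000080000000e000000040000000000000000 0x140000003c0000001f0000001e0000003c0000001800000010 7 6) 0 0 (step_sound _ 68 [(rh559bc5fce6bebed1.shift 1 0), (rhb4cd9b48f1a797b9.shift 0 1), (rhd5041491555e8d86.shift 1 2), (rhf727a68250e6ca98.shift 1 1)] (by decide +kernel))
noncomputable def rh07e74f214dccffed : CRef := CRef.mk (Pat.mk 0x80000000e000000040000000400000000 0x1d8000000fe0000007f0000003c00000010 7 9) 0 0 (step_sound _ 100 [(rh0ae232cce48795b7.shift 1 2), rh53c40d3d6d122826, (rhaf9f2efc81a8312b.shift 0 2), (rhc3f1fdc610b622e4.shift 1 2)] (by decide +kernel))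
noncomputable def rhe0a2f640c8008c73 : CRef := CRef.mk (Pat.mk 0x100000003c0000000000000000 0xe0000000f0000001e0000003c0000000e0000000c 7 6) 0 0 (step_sound _ 98 [(rh3244c3cc8379b070.shift 1 2), rha50c7f31146975c1] (by decide +kernel))
noncomputable def rhc3548b6cfce92340 : CRef := CRef.mk (Pat.mk 0x20000000380000001000000010 0x280000007c0000002f000000f80000001c00000010 7 8) 0 0 (step_sound _ 133 [(rh5c5e593799055d58.shift 4 1), rhdaf962e95754b959] (by decide +kernel))
noncomputable def rh0a8776bb4f318c0b : CRef := CRef.mk (Pat.mk 0x80000000e0000000400000004 0x2000001db000000fe0000007f00000004 7 9) 0 0 (step_sound _ 68 [(rh0ae232cce48795b7.shift 1 1), (rhc3f1fdc610b622e4.shift 1 1), rhe4f9133a81c1dbc5] (by decide +kernel))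
noncomputable def rh89a944007096aad5 : CRef := CRef.mk (Pat.mk 0x100000001c000000080000000800000000 0xf0000001f0000001c0000007f000000fe00000034 7 8) 0 0 (step_sound _ 131 [(rh85480f11efc1e555.shift 1 0), rhb9fa41937b57b353, rhc121e6a6bdaf61a1, (rhc9095f3095a95a57.shift 2 0), rhcdd5491281167ac1] (by decide +kernel))
noncomputable def rh78ffcaa63a8894e2 : CRef := CRef.mk (Pat.mk 0x8000000080000000e0000000400000000 0x160000001f0000001b0000000e0000003c00000018 7 6) 0 0 (step_sound _ 35 [(rh42afa1af9fffa0e1.shift 1 0), rhc20cb27ed982ff95] (by decide +kernel))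
noncomputable def rhd26d8ba9dad3ed07 : CRef := CRef.mk (Pat.mk 0x1000000010000000100000001c00000000 0x280000003800000010000000170000003e00000027 7 6) 0 0 (step_sound _ 37 [(rh55afc6a59410cf00.shift 4 0), rh7c6d8fdef50ae8a0] (by decide +kernel))
noncomputable def rhad8a12d96e7d5209 : CRef := CRef.mk (Pat.mk 0x10000000100000001c0000001000000000 0x400000014000000170000003f0000001b0000000a 7 6) 0 0 (step_sound _ 35 [rh01ef127f423122a8, (rh932754581e0f4330.shift 3 0)] (by decide +kernel))
noncomputable def rh98a9a7ba7e2ca0a0 : CRef := CRef.mk (Pat.mk 0x1e000000060000000000000000 0x380000001f000000360000003c0000001c 7 6) 0 0 (step_sound _ 132 [(rh33e738c4ed385b9f.shift 1 3), rhb6580f86cc26d2be] (by decide +kernel))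
noncomputable def rh6aaa9c1f6c07bfa7 : CRef := CRef.mk (Pat.mk 0x400000006000000030000000000000000 0x20000000600000006000000070000001f0000001f 7 5) 0 0 (step_sound _ 33 [(rh71222050f2c63a3a.shift 1 0), rhbaf9ef6cd73c29fd] (by decide +kernel))
noncomputable def rhb783032dd00715bc : CRef := CRef.mk (Pat.mk 0x80000001c00000006000000000000000000000000 0x1c0000003c0000001f0000001c0000000e0000001a0000001800000018 7 6) 0 0 (step_sound _ 195 [(rh5c5e593799055d58.shift 2 3), rh67dbb0c61f39c14d] (by decide +kernel))
noncomputable def rh16089e370447ddf4 : CRef := CRef.mk (Pat.mk 0x20000000700000001000000000000000000000000 0x70000000700000007000000070000001f0000001e0000000600000002 7 5) 0 0 (step_sound _ 193 [(rh5c5e593799055d58.shift 0 3), rhb540f05b63b95742] (by decide +kernel))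
noncomputable def rh8e10899718d9b3b6 : CRef := CRef.mk (Pat.mk 0x300000001c000000080000000000000000 0x28000000380000003c0000007f0000001e0000001c 7 7) 0 0 (step_sound _ 35 [(rh71222050f2c63a3a.shift 3 0), rhd9b3c8debfbd955e] (by decide +kernel))
noncomputable def rh4447fb1ca9874370 : CRef := CRef.mk (Pat.mk 0x1c0000000700000000000000000000000000000000 0x80000000c0000001c0000001c000000170000003e0000001e0000000800000008 7 6) 0 0 (step_sound _ 98 [(rh215e11e099257d75.shift 2 2), rh7c39e64a76c2f796, (rh959626eb621bd7c7.shift 0 2), rhaada96c5de887e7e] (by decide +kernel))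
noncomputable def rheb3626e71b63a124 : CRef := CRef.mk (Pat.mk 0x180000000e00000004 0xb0000000b0000001f0000003e00000007 7 6) 0 0 (step_sound _ 99 [rh129240b3543d6e11, (rh5c5e593799055d58.shift 2 0)] (by decide +kernel))
noncomputable def rhbc9efdc00ded020e : CRef := CRef.mk (Pat.mk 0x180000000e0000000000000000000000000000000000000000 0x10000000340000001f0000007e0000007f0000003c0000003c0000001c00000010 7 7) 0 0 (step_sound _ 131 [(rh00842f1dae8c6433.shift 0 2), (rh15590a39afd9a120.shift 2 1), (rh2222a27c490588f5.shift 2 0), (rh8fda4dfa110d0d2f.shift 0 2)] (by decide +kernel))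
noncomputable def rh811ba2d590d3dcf7 : CRef := CRef.mk (Pat.mk 0x180000000e000000000000000400000000 0x1f0000003e000000770000003c0000001c 7 7) 0 0 (step_sound _ 66 [(rh71222050f2c63a3a.shift 2 0), rha92d9530799415e3] (by decide +kernel))
noncomputable def rhd272d48f758f3705 : CRef := CRef.mk (Pat.mk 0x180000000e000000000000000400000000 0xa0000001f0000003e000000370000003c00000038 7 6) 0 0 (step_sound _ 100 [rh149fa16fbc1c9a44, (rha6444fedf87f1521.shift 0 1), rhd60e581ef1dac67a] (by decide +kernel))
noncomputable def rh750508c7c97f3ece : CRef := CRef.mk (Pat.mk 0x300000001c000000080000000000000000 0x2e0000003f0000001c0000007c0000001e0000001c 7 7) 0 0 (step_sound _ 35 [(rh71222050f2c63a3a.shift 3 0), rh96310cc59445a198] (by decide +kernel))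
noncomputable def rhfcef881c3edfe22c : CRef := CRef.mk (Pat.mk 0x180000000e000000040000000000000000 0x100000001f000000fe0000007c0000007800000038 7 8) 0 0 (step_sound _ 100 [(rh02a6a33df9904d94.shift 1 0), (rh9e4a4fa661ab7448.shift 0 2), (rhe401600d466b97cd.shift 0 2)] (by decide +kernel))
noncomputable def rh1007de067ed3d1a3 : CRef := CRef.mk (Pat.mk 0xc00000007000000000000000400000000 0x80000000c0000000f0000003f0000003f0000000a 7 6) 0 0 (step_sound _ 66 [(rh2f68792b6b779e96.shift 2 1), rhc9e05e8c5c220186] (by decide +kernel))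
noncomputable def rhbcdfdf09774c0ee9 : CRef := CRef.mk (Pat.mk 0x180000000e000000000000000800000000 0x10000000180000003e0000003f0000003800000018 7 6) 0 0 (step_sound _ 67 [(rh2f68792b6b779e96.shift 3 1), rh7a8e613d62c0f646] (by decide +kernel))
noncomputable def rha7085a59ed136d43 : CRef := CRef.mk (Pat.mk 0xc00000007000000000000000400000000 0x80000000c0000001f0000003c0000001e0000000e 7 6) 0 0 (step_sound _ 66 [(rh2f68792b6b779e96.shift 2 1), rheafcc9bd34f88a06] (by decide +kernel))
noncomputable def rh9716f0280b16cfbc : CRef := CRef.mk (Pat.mk 0x38000000080000000000000000 0x14000000140000007f0000003e0000006f0000002800000008 7 7) 0 0 (step_sound _ 132 [(rh4821dcf828b9d7bf.shift 3 0), (rh7c1dd581443dfb34.shift 0 1), (rh82cc2deab149c31d.shift 1 0)] (by decide +kernel))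
noncomputable def rh780c1d7a9d7baf74 : CRef := CRef.mk (Pat.mk 0xc000000070000000400000000 0x80000000c0000000e000000060000000e0000000e000000070000001e0000000a 7 5) 0 0 (step_sound _ 130 [(rh97ad1986540fd573.shift 1 1), rhb379f99078aafa2d, (rhd2c74283b7b6e6b8.shift 1 1)] (by decide +kernel))
noncomputable def rh3038be3d46fb53ef : CRef := CRef.mk (Pat.mk 0x180000000e00000008 0x140000001c0000001f0000001f0000001f0000000e0000000c 7 5) 0 0 (step_sound _ 99 [(rh32431e66bbf434a4.shift 2 0), (rh69f0587a21bb077f.shift 2 0), (rh7a7e08304268422e.shift 2 0), (rhd2c74283b7b6e6b8.shift 2 0), rhe17f4a0f602c3c7b] (by decide +kernel))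
noncomputable def rh08dc24c4b35e4d46 : CRef := CRef.mk (Pat.mk 0xc000000060000000000000000 0xa0000000b0000003f0000003e0000003400000014 7 6) 0 0 (step_sound _ 100 [rh179cbe3413af9534, (rh18965a982d73c794.shift 1 2)] (by decide +kernel))
noncomputable def rh9fcce764bcee68fd : CRef := CRef.mk (Pat.mk 0x100000001c000000080000000000000000 0x80000000c0000000f0000001f0000001c0000001c0000000c0000000c 7 5) 0 0 (step_sound _ 35 [rh62bedccac9e3447c, (rh71222050f2c63a3a.shift 3 0)] (by decide +kernel))
noncomputable def rh8a7066e9c0b7cbe2 : CRef := CRef.mk (Pat.mk 0x380000000c000000000000000000000000 0x1c0000001f0000003c000001fc0000006e0000002e00000006 7 9) 0 0 (step_sound _ 66 [(rh1161648d801f326c.shift 1 0), (rh5aba2fbb680f00bf.shift 0 1), (rhadf429772c25fde0.shift 2 0)] (by decide +kernel))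
noncomputable def rh64065c0577232a62 : CRef := CRef.mk (Pat.mk 0x100000001c000000100000000000000000 0x1000000012000000130000003f0000001f0000000c0000000c 7 6) 0 0 (step_sound _ 67 [(rh503dd4575245365b.shift 3 1), rh915f6511d37f58de, rhe1c1135f9a30d6da] (by decide +kernel))
noncomputable def rh51337167f90b2308 : CRef := CRef.mk (Pat.mk 0x10000000700000001800000000 0x1c0000001f0000003e0000007f000000f800000020 7 8) 0 0 (step_sound _ 67 [(rh082a4b21b1673342.shift 2 0), (rh719a4defb16e1b89.shift 0 1), (rhdeec00bf23ba665b.shift 0 1)] (by decide +kernel))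
noncomputable def rhdc610d332a30db87 : CRef := CRef.mk (Pat.mk 0x80000001c0000000600000000 0x40000000c0000000c0000000c0000001f0000003e0000001a 7 6) 0 0 (step_sound _ 131 [(rh5c5e593799055d58.shift 2 1), rhfbc4b01ffd2c9009] (by decide +kernel))
noncomputable def rh5c8e4628759668c4 : CRef := CRef.mk (Pat.mk 0x400000006000000030000000000000000 0x200000002000000020000000600000007000000070000001f0000001f 7 5) 0 0 (step_sound _ 33 [(rh71222050f2c63a3a.shift 1 0), rhfca0af97c7bf117c] (by decide +kernel))
noncomputable def rhcc3d60bd6ed9adb5 : CRef := CRef.mk (Pat.mk 0x1c0000000600000000000000000000000000000000 0x2000000060000000e0000000f0000001c0000000e0000003e0000001e0000000e00000002 7 6) 0 0 (step_sound _ 194 [(rh757a29c20c8f4c26.shift 0 1), (rhb622aa591eacde43.shift 1 3), (rhe69fbb1d8ea20f26.shift 1 0)] (by decide +kernel))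
noncomputable def rhb5e94be89b197bb0 : CRef := CRef.mk (Pat.mk 0x380000000c000000040000000000000000 0x160000003e0000000c0000000f0000003c0000001c 7 6) 0 0 (step_sound _ 34 [(rh71222050f2c63a3a.shift 2 0), rhaa28633299e621d2] (by decide +kernel))
noncomputable def rh0132e5e81934abdf : CRef := CRef.mk (Pat.mk 0xc000000060000000000000000 0xa0000000b0000003f0000003e0000003400000014 7 6) 0 0 (step_sound _ 100 [(rh18965a982d73c794.shift 1 2), rh6dbf1b18c8d401d8] (by decide +kernel))
noncomputable def rh83667ea4ad1c0fe2 : CRef := CRef.mk (Pat.mk 0x180000000c000000040000000000000000 0x100000003f0000001f0000001c0000000c0000001c0000001800000010 7 6) 0 0 (step_sound _ 163 [rh09bd7677da36368a, (rh5c5e593799055d58.shift 2 2)] (by decide +kernel))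
noncomputable def rha3c7ab18665de4e2 : CRef := CRef.mk (Pat.mk 0xc000000060000000000000000 0x6000000070000003f0000003e0000000700000006 7 6) 0 0 (step_sound _ 100 [rh1894d76e388c98c9, (rh18965a982d73c794.shift 1 2)] (by decide +kernel))
noncomputable def rh92c2927c61a9e618 : CRef := CRef.mk (Pat.mk 0x3000000018000000080000000800000000 0x28000000380000003e0000007f0000001e00000014 7 7) 0 0 (step_sound _ 98 [(rh53b3c253cb0c65f4.shift 1 3), rhd9b3c8debfbd955e] (by decide +kernel))
noncomputable def rhc2cfbb019b994f81 : CRef := CRef.mk (Pat.mk 0xc00000006000000020000000200000000 0xa0000000a0000003a0000003f00000036000000170000000700000005 7 6) 0 0 (step_sound _ 132 [(rh18965a982d73c794.shift 1 3), rh6de024799294623a] (by decide +kernel))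
noncomputable def rhb99f1e5681efcd70 : CRef := CRef.mk (Pat.mk 0x300000001800000008000000080000000000000000 0x28000000380000003e0000007f0000001e0000001400000010 7 7) 0 0 (step_sound _ 130 [(rh53b3c253cb0c65f4.shift 1 4), rh7b3bc7d3f77d4a5c] (by decide +kernel))
noncomputable def rhd7e26500e493ceb7 : CRef := CRef.mk (Pat.mk 0x8000000080000001c0000000400000000 0x140000003c0000003f0000001f0000000f0000000a 7 6) 0 0 (step_sound _ 35 [rh330b16ba751acf03, rh6dc2d17b5ce1ca6f, rha5db35bed5b9a95e] (by decide +kernel))
noncomputable def rh77d0131ad45ca620 : CRef := CRef.mk (Pat.mk 0x2000000060000000300000001000000000000000000000000 0x4000000060000001e000000070000001f0000001e0000000600000002 7 5) 0 0 (step_sound _ 163 [(rh18965a982d73c794.shift 0 4), rh80440540cd0677e3] (by decide +kernel))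
noncomputable def rh5279673d02bcc37a : CRef := CRef.mk (Pat.mk 0x3000000018000000080000000800000000 0x28000000380000001e0000007f0000007e00000034 7 7) 0 0 (step_sound _ 98 [(rh53b3c253cb0c65f4.shift 1 3), rh8e4914ba2c9c8fae] (by decide +kernel))
noncomputable def rhec4f657173d741e2 : CRef := CRef.mk (Pat.mk 0x100000001000000018000000080000000000000000 0x2000000032000000370000007f0000007f0000003400000024 7 7) 0 0 (step_sound _ 66 [(rh0bb882ba86b2372d.shift 0 2), (rh574fdbf07bdd18b9.shift 0 2), rh5afa89dd5ae5a6a3, rhb865e6f1f55a516d] (by decide +kernel))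
noncomputable def rhdad3bc40bcd0860d : CRef := CRef.mk (Pat.mk 0x1000000018000000080000000800000000 0x800000018000000780000007f0000007e00000034 7 7) 0 0 (step_sound _ 131 [(rh85480f11efc1e555.shift 1 0), (rhc71ed80c6d39935c.shift 1 0), rhd1671c6e88add9be, (rhd802bb8339359eae.shift 1 0), rhf3d11b058448e968] (by decide +kernel))
noncomputable def rh0d2f63136342bc19 : CRef := CRef.mk (Pat.mk 0x80000000c000000060000000400000000 0x140000003c0000003f0000000e0000003e0000003a 7 6) 0 0 (step_sound _ 100 [(rh18965a982d73c794.shift 1 2), rh3819574e7abfcf00] (by decide +kernel))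
noncomputable def rhf04bb0729b4ba4d3 : CRef := CRef.mk (Pat.mk 0x8000000080000000c0000000600000000 0x140000003c0000003f0000003f0000000e0000000a 7 6) 0 0 (step_sound _ 68 [(rh18965a982d73c794.shift 1 1), rhc886e0bd1091b731] (by decide +kernel))
noncomputable def rh892659f5becdd28e : CRef := CRef.mk (Pat.mk 0x1000000010000000180000000c0000000000000000 0x80000001a0000003b0000001f0000001f0000003400000014 7 6) 0 0 (step_sound _ 65 [rh319c9ab56b78524b, (rh53b3c253cb0c65f4.shift 0 2)] (by decide +kernel))
noncomputable def rhb7d6fdc4be980c42 : CRef := CRef.mk (Pat.mk 0x1800000018000000080000000800000000 0xe0000000ff0000001f000000180000001800000010 7 8) 0 0 (step_sound _ 36 [(rh55afc6a59410cf00.shift 3 0), (rhff8c1deb1528563d.shift 0 1)] (by decide +kernel))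
noncomputable def rh0dab50332c25c847 : CRef := CRef.mk (Pat.mk 0x20000000600000003000000010000000000000000 0x5000000070000001f0000001b0000001f0000000e00000004 7 5) 0 0 (step_sound _ 131 [(rh18965a982d73c794.shift 0 3), rhbbbd0ee04425f659] (by decide +kernel))
noncomputable def rhdb3469b8f11afb62 : CRef := CRef.mk (Pat.mk 0x2000000030000000180000000000000000 0xe7000000ff000000f8000000c0000000c0 7 8) 0 0 (step_sound _ 102 [(rh18965a982d73c794.shift 3 2), rhc8ea033e74846b4d] (by decide +kernel))
noncomputable def rhdc970c24c2cebbf3 : CRef := CRef.mk (Pat.mk 0x10000000180000000c000000080000000000000000 0x20000003b0000001f0000003f0000000f0000000400000004 7 6) 0 0 (step_sound _ 97 [(rh53b3c253cb0c65f4.shift 0 3), rh666c17c3a105f89d] (by decide +kernel))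
noncomputable def rh027002b1a710d4d4 : CRef := CRef.mk (Pat.mk 0x380000000c000000040000000000000000 0x1000000010000000740000003e0000006c0000003c0000000f0000000e 7 7) 0 0 (step_sound _ 34 [rh4b6036967ef98d02, (rh71222050f2c63a3a.shift 2 0)] (by decide +kernel))
noncomputable def rhdb0bd6e55db160d1 : CRef := CRef.mk (Pat.mk 0x4000000040000000e000000020000000000000000 0xc0000003c0000001f0000003b0000001800000010 7 6) 0 0 (step_sound _ 100 [rh3089f6d5972dcb5f, (rheb0810cc63b001d8.shift 0 2)] (by decide +kernel))
noncomputable def rhd81ae23d06cb57c5 : CRef := CRef.mk (Pat.mk 0x180000000c000000040000000400000000 0x1f0000003f000000770000003c00000018 7 7) 0 0 (step_sound _ 97 [(rh53b3c253cb0c65f4.shift 0 3), rha92d9530799415e3] (by decide +kernel))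
noncomputable def rha2d31f580ec9f85c : CRef := CRef.mk (Pat.mk 0xc000000060000000200000000 0x800000008000000380000003f0000003e0000003300000010 7 6) 0 0 (step_sound _ 100 [(rh18965a982d73c794.shift 1 2), rh1c6992370cc0e568] (by decide +kernel))
noncomputable def rhf24e227cd01c04e6 : CRef := CRef.mk (Pat.mk 0x40000000e000000020000000200000000 0x10000000740000003f0000007e0000000b00000008 7 7) 0 0 (step_sound _ 68 [(rh20553f44f3de3897.shift 1 2), (rh36e394c40494fd59.shift 0 1), (rh71efda916732b25a.shift 0 2), (rh782848cf5e4b1e5e.shift 0 2), rhe4c30be5df13bc4e] (by decide +kernel))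
noncomputable def rha674d6656995e4bc : CRef := CRef.mk (Pat.mk 0x2000000070000000100000000000000000 0xff0000007e000000fe000000c0000000c0 7 8) 0 0 (step_sound _ 99 [(rh0d378fd9e8917c5a.shift 1 2), (rh1f9701c4cf497514.shift 0 2), (rh3bf74083946431af.shift 2 0)] (by decide +kernel))
noncomputable def rh2ab219e24a8ebec3 : CRef := CRef.mk (Pat.mk 0x10000000180000000c0000000800000000 0x2000000330000001f0000007f0000007e00000004 7 7) 0 0 (step_sound _ 65 [(rh53b3c253cb0c65f4.shift 0 2), rh98d65cdc36505530] (by decide +kernel))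
noncomputable def rh7427f958eb581c5a : CRef := CRef.mk (Pat.mk 0x2000000070000000100000001000000000 0xf70000007e000000de000000f000000060 7 8) 0 0 (step_sound _ 99 [(rh1f9701c4cf497514.shift 0 2), (rh71a719594bdd40c9.shift 2 0), (rhec46bd5500c722c9.shift 2 3)] (by decide +kernel))
noncomputable def rh67e1916772fdbd63 : CRef := CRef.mk (Pat.mk 0x2000000030000000180000000000000000 0x80000001fe000000ff000000f8000000c0000000c0 7 9) 0 0 (step_sound _ 102 [(rh18965a982d73c794.shift 3 2), rhf16243a582e814d0] (by decide +kernel))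
noncomputable def rhe1e14525580284b1 : CRef := CRef.mk (Pat.mk 0x2000000020000000300000001000000000 0x20000003ff000001fe000001de00000040 7 10) 0 0 (step_sound _ 70 [rh215100e56218fee0, (rh3ae8bdbc7f9d5d54.shift 1 0), (rha83d0a1d851c6a27.shift 3 1)] (by decide +kernel))
noncomputable def rh7e59348db523bce3 : CRef := CRef.mk (Pat.mk 0x2000000070000000180000000000000000 0x40000000fe0000007f000000f8000000e000000060 7 8) 0 0 (step_sound _ 99 [(rh5c4c42c531c077d7.shift 3 0), (rh9eb5c710e4abb6c4.shift 0 2), (rhec46bd5500c722c9.shift 2 3)] (by decide +kernel))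
noncomputable def rh8fc0b90cd664975c : CRef := CRef.mk (Pat.mk 0x2000000060000000300000001000000000000000000000000 0x4000000060000001e0000001f0000001f0000000e0000000600000002 7 5) 0 0 (step_sound _ 163 [(rh18965a982d73c794.shift 0 4), rh5a5cd9831802d595] (by decide +kernel))
noncomputable def rh7a71608d044bc0f3 : CRef := CRef.mk (Pat.mk 0x180000000c000000080000000000000000 0x20000001f000000ff0000007f0000003400000034 7 8) 0 0 (step_sound _ 97 [(rh53b3c253cb0c65f4.shift 0 3), rh7fe3492cea4537f2] (by decide +kernel))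
noncomputable def rh3c3167d440b48037 : CRef := CRef.mk (Pat.mk 0x80000000c00000006000000040000000000000000 0x30000000780000003c0000003e0000003f0000003b00000002 7 7) 0 0 (step_sound _ 132 [(rh18965a982d73c794.shift 1 3), rhfde4504912ed06e9] (by decide +kernel))
noncomputable def rh6412c58679f5f5ab : CRef := CRef.mk (Pat.mk 0x400000004000000060000000600000000 0x80000000c0000000c0000003e0000003f0000001c 7 6) 0 0 (step_sound _ 35 [(rh55afc6a59410cf00.shift 2 0), rh5e7c67d352405b25] (by decide +kernel))
noncomputable def rh682c977a281b6f1c : CRef := CRef.mk (Pat.mk 0x200000002000000020000000600000000000000000000000000000000 0x300000003000000070000000700000003000000070000000600000004 7 3) 0 0 (step_sound _ 96 [rh396d0adbd703d7e4, (rh79877ebd3ef475dd.shift 0 3)] (by decide +kernel))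
noncomputable def rhded01fcb07852255 : CRef := CRef.mk (Pat.mk 0x200000003000000020000000400000000000000000000000000000000 0x200000003000000070000000700000007000000070000000600000004 7 3) 0 0 (step_sound _ 129 [(rh55afc6a59410cf00.shift 1 3), rha23bba51f338174f] (by decide +kernel))
noncomputable def rhd5c9247be1c5cabf : CRef := CRef.mk (Pat.mk 0xc0000000700000004000000000000000000000000 0x4000000140000003c000000170000003e0000001a0000000800000008 7 6) 0 0 (step_sound _ 164 [(rh18965a982d73c794.shift 1 4), rh7c39e64a76c2f796] (by decide +kernel))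
noncomputable def rh2573d28c3ffbce0c : CRef := CRef.mk (Pat.mk 0x180000000c0000000800000000 0x40000001c0000001c000000180000001c0000000f0000003c00000014 7 6) 0 0 (step_sound _ 65 [(rh53b3c253cb0c65f4.shift 0 2), (rhb443311ceff62241.shift 1 0)] (by decide +kernel))
noncomputable def rhea0097701cf296c3 : CRef := CRef.mk (Pat.mk 0xe000000030000000200000000 0x10000000700000007000000060000000f0000001b0000001f0000001d 7 5) 0 0 (step_sound _ 129 [rh03dfdf12d5937476, rh0f7b295fa42b5ad9, (rh42ab489a1be3958e.shift 0 1)] (by decide +kernel))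
noncomputable def rh996febe339f0fa3b : CRef := CRef.mk (Pat.mk 0x380000000c0000000000000000 0x1c0000003c0000006f0000003e0000007c0000001c00000010 7 7) 0 0 (step_sound _ 163 [(rh032c4d50367731b9.shift 0 1), (rhbb5a9587afe30530.shift 2 1), (rhf2f5353cefd64781.shift 1 0)] (by decide +kernel))
noncomputable def rha93a802eccd9af33 : CRef := CRef.mk (Pat.mk 0x380000000c00000004 0x60000000e0000007f0000003f0000007c00000006 7 7) 0 0 (step_sound _ 99 [rh30eead4f93c45fe5, (rh5c5e593799055d58.shift 2 0)] (by decide +kernel))
noncomputable def rh7055ed8aff329b8a : CRef := CRef.mk (Pat.mk 0x8000000180000000c 0x6000000060000007f0000007f0000003c 7 7) 0 0 (step_sound _ 37 [(rh18965a982d73c794.shift 2 0), rhefc19156479587bf] (by decide +kernel))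
noncomputable def rhe05013472713b83b : CRef := CRef.mk (Pat.mk 0x80000000c000000040000000000000000 0x160000003f0000003f0000000c0000000c0000000c 7 6) 0 0 (step_sound _ 34 [(rh71222050f2c63a3a.shift 2 0), rh74a18107f883cfbf] (by decide +kernel))
noncomputable def rh421638710a67a938 : CRef := CRef.mk (Pat.mk 0x100000001a0000000800000008 0x600000006000000370000001e0000000f0000000e 7 6) 0 0 (step_sound _ 66 [(rh33e738c4ed385b9f.shift 1 2), rh3fbce860eb325a88] (by decide +kernel))
noncomputable def rhe53bdab2d3047e2d : CRef := CRef.mk (Pat.mk 0x100000001a000000080000000800000000 0xe0000003f0000001f0000000c0000000c00000004 7 6) 0 0 (step_sound _ 98 [rh2d53eb287251b0cc, (rh33e738c4ed385b9f.shift 1 3)] (by decide +kernel))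
noncomputable def rh1ce2d2e1d4972c68 : CRef := CRef.mk (Pat.mk 0x180000000e000000000000000000000000 0x380000003e0000003f0000003000000030 7 6) 0 0 (step_sound _ 100 [(rh33e738c4ed385b9f.shift 1 3), rh6ae21157da276552] (by decide +kernel))
noncomputable def rh91eaccaaa42c15c9 : CRef := CRef.mk (Pat.mk 0x180000000e0000000000000008 0x3000000030000000300000001f0000003e0000003800000008 7 6) 0 0 (step_sound _ 132 [(rh9e3edb185cc347de.shift 3 0), (rhfe259234e30bd7b9.shift 0 1)] (by decide +kernel))
noncomputable def rh2201ba24ee7e797b : CRef := CRef.mk (Pat.mk 0xc000000060000000000000000 0x80000000a0000003b0000003f000000360000001400000004 7 6) 0 0 (step_sound _ 100 [(rh18965a982d73c794.shift 1 2), rh8d57b1d9b3ea52bb] (by decide +kernel))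
noncomputable def rh5f656810af449a70 : CRef := CRef.mk (Pat.mk 0xc0000000600000000 0x800000008000000380000003f0000003700000010 7 6) 0 0 (step_sound _ 68 [(rh18965a982d73c794.shift 1 1), rh7e7fac54213cac0d] (by decide +kernel))
noncomputable def rheb911036a6d23347 : CRef := CRef.mk (Pat.mk 0x8000000180000000c 0x6000000060000007f0000007f0000003c 7 7) 0 0 (step_sound _ 37 [(rh18965a982d73c794.shift 2 0), rha9fbbccb8121e0ea] (by decide +kernel))
noncomputable def rhb76e2209363600a5 : CRef := CRef.mk (Pat.mk 0x80000000c00000006000000000000000000000000 0x1c0000003c0000001f0000000c0000000e0000001a0000001800000018 7 6) 0 0 (step_sound _ 195 [(rh5c5e593799055d58.shift 2 3), rha1c0c5973502d766] (by decide +kernel))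
noncomputable def rh8ff1a0e1209a98da : CRef := CRef.mk (Pat.mk 0x180000000e0000000400000000 0x1e0000001f0000001c0000003e0000000f0000000a 7 6) 0 0 (step_sound _ 131 [(rh5c5e593799055d58.shift 2 1), rhf90b76c3b4064fa5] (by decide +kernel))
noncomputable def rh07386f0050585a0f : CRef := CRef.mk (Pat.mk 0x180000000e000000040000000000000000 0x140000001c0000003e0000003f0000000f0000000e 7 6) 0 0 (step_sound _ 34 [rh381eba643e8c60c0, (rh71222050f2c63a3a.shift 2 0)] (by decide +kernel))
noncomputable def rh0a5d28f3e2732d34 : CRef := CRef.mk (Pat.mk 0x300000001c000000080000000000000000 0x28000000380000003c0000001f0000007c0000003c 7 7) 0 0 (step_sound _ 35 [rh088f2c5c82ce5e0b, (rh71222050f2c63a3a.shift 3 0)] (by decide +kernel))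
noncomputable def rh94e5e94005692db4 : CRef := CRef.mk (Pat.mk 0x80000000c000000070000000000000000 0x400000006000000060000000e0000000e0000000f0000003c0000000c 7 6) 0 0 (step_sound _ 34 [(rh71222050f2c63a3a.shift 2 0), rh971458ad582380d3] (by decide +kernel))
noncomputable def rh47dd4cb43e050de2 : CRef := CRef.mk (Pat.mk 0x4000000060000000200000000 0xe0000000f0000003c000000070000003e0000000c 7 6) 0 0 (step_sound _ 130 [rh2e372166b84f0c01, (rh5c5e593799055d58.shift 1 1)] (by decide +kernel))
noncomputable def rh2dbc2a647b235d13 : CRef := CRef.mk (Pat.mk 0x180000000c000000000000000000000000 0x8000000080000001c000000ff000000f70000001400000014 7 8) 0 0 (step_sound _ 97 [(rh53b3c253cb0c65f4.shift 0 3), rhf4adb36452132a6b] (by decide +kernel))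
noncomputable def rhdba1a98b7f3725c7 : CRef := CRef.mk (Pat.mk 0x180000000c000000040000000000000000 0x600000006000000160000001c0000000c0000000f0000003e0000001e 7 6) 0 0 (step_sound _ 34 [rh4c71a0eeb98d1be3, (rh71222050f2c63a3a.shift 2 0)] (by decide +kernel))
noncomputable def rh9fe66570ee9b95e9 : CRef := CRef.mk (Pat.mk 0x180000000c000000000000000000000000 0x80000000800000018000000ff000000ff0000001400000014 7 8) 0 0 (step_sound _ 97 [rh162287c6dc0167ae, (rh53b3c253cb0c65f4.shift 0 3)] (by decide +kernel))
noncomputable def rhc3d05991046f7c9b : CRef := CRef.mk (Pat.mk 0x10000000380000000c00000000 0x1e0000001f0000007e0000003c0000006c00000024 7 7) 0 0 (step_sound _ 66 [rh17f2cb9c16b8ffd4, (rhec695e9f7cccd400.shift 2 0)] (by decide +kernel))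
noncomputable def rhea4a16972f4667c2 : CRef := CRef.mk (Pat.mk 0x1c000000060000000000000000 0x1a0000003b0000001e0000003e0000003c0000001c 7 6) 0 0 (step_sound _ 97 [(rh09fb2f953a1dfd6f.shift 1 0), rh38a0850c9fea941e] (by decide +kernel))
noncomputable def rh88c8f7fb643127d9 : CRef := CRef.mk (Pat.mk 0x1c00000006000000000000000000000000 0x12000000370000001e0000003e0000000f0000000e00000002 7 6) 0 0 (step_sound _ 129 [(rh38a0850c9fea941e.shift 0 1), rh4bad9ab2a142b080] (by decide +kernel))
noncomputable def rh10d34bc59c5b77fb : CRef := CRef.mk (Pat.mk 0x380000000e00000000000000000000000000000000 0x100000001c0000001e000000380000000e0000007f0000003c0000001c00000014 7 7) 0 0 (step_sound _ 99 [(rh164d9aed8aa31d30.shift 1 2), (rh215e11e099257d75.shift 3 2), (rhb6e5fd90818b20b8.shift 1 0), (rhe0cbc6fe9ebbddec.shift 0 1), (rhffb8e5993241bf15.shift 2 0)] (by decide +kernel))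
noncomputable def rh8cf7442a9334d621 : CRef := CRef.mk (Pat.mk 0x10000000380000000c00000000 0x1e0000001f0000007e0000003c0000006c00000024 7 7) 0 0 (step_sound _ 66 [rh17f2cb9c16b8ffd4, (rhec695e9f7cccd400.shift 2 0), (rhff27b6f8ca86d3c1.shift 1 1)] (by decide +kernel))
noncomputable def rhf26688aefb92930f : CRef := CRef.mk (Pat.mk 0x2000000030000000200000000000000000000000000000000 0x5000000070000000700000002000000030000000300000007000000070000000700000001 7 3) 0 0 (step_sound _ 97 [(rh1726a00b0a8befd0.shift 0 2), (rh6eff4158bb400f47.shift 0 1), (rh8ff71bc284510f75.shift 0 1), rhbaff7ec0fcc038ba] (by decide +kernel))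
noncomputable def rh254138087448f163 : CRef := CRef.mk (Pat.mk 0x80000000e000000040000000400000000 0x780000003e000000770000003c00000018 7 7) 0 0 (step_sound _ 100 [(rh0ae232cce48795b7.shift 1 2), rh71a719594bdd40c9, (rha93a5dd541ab8209.shift 1 2), (rhaf9f2efc81a8312b.shift 0 2)] (by decide +kernel))
noncomputable def rh99800bbe4e2d6478 : CRef := CRef.mk (Pat.mk 0x80000001c000000060000000000000000 0x1c0000001c0000003c0000001f0000001e0000001b00000018 7 6) 0 0 (step_sound _ 163 [rh2a73e6f81eb3e7c9, (rh5c5e593799055d58.shift 2 2)] (by decide +kernel))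
noncomputable def rhd51f3b3caa1766a7 : CRef := CRef.mk (Pat.mk 0x200000007000000018 0x380000003c000000fe0000007f00000018 7 8) 0 0 (step_sound _ 101 [rh1189b330fa8e592a, (rh5c5e593799055d58.shift 4 0)] (by decide +kernel))
noncomputable def rh4a2c100ec8b32ab9 : CRef := CRef.mk (Pat.mk 0x1c000000060000000000000000 0xc0000001e0000001f0000001c0000001e0000001f0000001e 7 5) 0 0 (step_sound _ 131 [rh40775cbd52b1a2fb, (rhadf429772c25fde0.shift 2 0), rhbe253d1426d5780c] (by decide +kernel))
noncomputable def rhc53496f4fc223c8f : CRef := CRef.mk (Pat.mk 0x80000000c00000006000000000000000000000000 0x400000004000000040000000c0000000e0000000e0000003e0000003f00000002 7 6) 0 0 (step_sound _ 66 [(rh71222050f2c63a3a.shift 2 1), rhc88b8aa05794a975] (by decide +kernel))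
noncomputable def rh09bee57d7788d8da : CRef := CRef.mk (Pat.mk 0x80000000c00000006000000000000000000000000 0x1c0000001e0000007c0000000f0000001e0000001b0000000200000002 7 7) 0 0 (step_sound _ 195 [(rh5c5e593799055d58.shift 2 3), rh95db9b212aee88fa] (by decide +kernel))
noncomputable def rh6681683a8556a0aa : CRef := CRef.mk (Pat.mk 0xc00000007000000000000000000000000 0x60000000e0000001e000000070000001f0000000f00000007 7 5) 0 0 (step_sound _ 129 [(rh18965a982d73c794.shift 0 3), rh8c52e9bbfbd74d41] (by decide +kernel))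
noncomputable def rh27b3cd4f3b3d9d74 : CRef := CRef.mk (Pat.mk 0x100000001c000000080000000000000000 0x8000000080000000f0000001f0000001c0000007c0000001e0000001c 7 7) 0 0 (step_sound _ 35 [(rh71222050f2c63a3a.shift 3 0), rhab489e6ac6decd54] (by decide +kernel))
noncomputable def rh5fcb4c80d0fc0a32 : CRef := CRef.mk (Pat.mk 0x300000001c0000000800000000 0x1c0000003e0000003c0000001c0000001f00000012 7 6) 0 0 (step_sound _ 132 [(rh5c5e593799055d58.shift 3 1), rh86479e1b3d0cd974] (by decide +kernel))
noncomputable def rhcd48719f2bb40b58 : CRef := CRef.mk (Pat.mk 0x180000000e000000000000000000000000 0x180000003a0000003f0000000e0000000c0000000c0000000c 7 6) 0 0 (step_sound _ 130 [(rh18965a982d73c794.shift 1 3), rh4c77a44f4dfc786a] (by decide +kernel))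
noncomputable def rhc23a27ffbe07fa74 : CRef := CRef.mk (Pat.mk 0x380000001c0000000000000000 0x28000000280000007f0000003f0000001c0000001400000010 7 7) 0 0 (step_sound _ 131 [(rh37d9ceebb86d75d1.shift 2 1), rhc6b5238b7bd0da34, (rhde10baa3043a2b46.shift 2 1)] (by decide +kernel))
noncomputable def rh4dc8bb497888f946 : CRef := CRef.mk (Pat.mk 0x380000001c000000000000000000000000 0xc0000000c0000000f0000003c0000001c0000001c0000001c0000000c 7 6) 0 0 (step_sound _ 163 [(rh0efea48c36e092f0.shift 0 2), rh2f80e743a550871e, (rhde10baa3043a2b46.shift 2 2)] (by decide +kernel))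
noncomputable def rh38b0d48d56d890b5 : CRef := CRef.mk (Pat.mk 0x380000001c000000000000000000000000 0x80000001c0000001e0000003f0000001c0000000c0000000c0000000c 7 6) 0 0 (step_sound _ 67 [rh1a38eeb598ba0370, (rhea7a1800d6f053bd.shift 3 0), (rhf767d9e31ae4b6bf.shift 1 2)] (by decide +kernel))
noncomputable def rhe075a3adf0c65c5a : CRef := CRef.mk (Pat.mk 0x180000000e000000000000000000000000 0x40000001c0000001c0000003c0000001f000000380000000e0000003c0000001c00000004 7 6) 0 0 (step_sound _ 163 [(rh16f102541ca92697.shift 1 0), (rh281c6819542c66e6.shift 2 0), (rh35fe68b51048166a.shift 0 1), (rhb2d999c672507e3f.shift 2 2)] (by decide +kernel))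
noncomputable def rhaec90e9284681e15 : CRef := CRef.mk (Pat.mk 0x180000000c000000000000000000000000 0x1e0000003f0000003e0000000c0000001e0000001e0000001e 7 6) 0 0 (step_sound _ 66 [(rh06d571041eea8319.shift 1 0), (rh4821dcf828b9d7bf.shift 2 0), rh6ec3f96ad4c823c1, (rhcf80391c5046a495.shift 2 0)] (by decide +kernel))
noncomputable def rh5f0aa5ab9c693f7b : CRef := CRef.mk (Pat.mk 0x1c0000000e000000000000000000000000 0x1c0000003e0000000f0000001c0000000e0000000e0000000e00000006 7 6) 0 0 (step_sound _ 162 [rh26e374d7baf2e30b, (rh61a0afaa4c429871.shift 0 2), (rhde10baa3043a2b46.shift 1 2)] (by decide +kernel))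
noncomputable def rha80460a64e912c3d : CRef := CRef.mk (Pat.mk 0x80000000e000000040000000000000000 0xa0000000a0000003b0000001e000000360000001400000004 7 6) 0 0 (step_sound _ 34 [(rh71222050f2c63a3a.shift 2 0), (rhb96292f1bbcdc2a0.shift 0 1)] (by decide +kernel))
noncomputable def rh2ea1689fcdb53446 : CRef := CRef.mk (Pat.mk 0x400000007000000020000000000000000 0xc0000000c0000003c0000000f0000001e0000000c00000008 7 6) 0 0 (step_sound _ 162 [rh210d2c77fba31815, (rh5c5e593799055d58.shift 1 2)] (by decide +kernel))
noncomputable def rh1482ea5c9e1745f5 : CRef := CRef.mk (Pat.mk 0x1c00000006000000000000000000000000 0x180000001e0000001f0000001c0000000f0000001c0000001c00000018 7 5) 0 0 (step_sound _ 99 [rh48663a964d8ed04b, (rh53b3c253cb0c65f4.shift 0 3)] (by decide +kernel))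
noncomputable def rh900a8e846858262d : CRef := CRef.mk (Pat.mk 0x1000000030000000180000000800000000 0x40000001e0000003e000000fc0000006f00000020 7 8) 0 0 (step_sound _ 69 [(rh8d1d199cbae44389.shift 1 0), (rha83d0a1d851c6a27.shift 2 1), rhb5230edb2d144690] (by decide +kernel))
noncomputable def rh4f4fb62dc7999fe7 : CRef := CRef.mk (Pat.mk 0xa0000000e0000000000000000 0x10000000140000003c0000003e0000003e0000000b0000000a 7 6) 0 0 (step_sound _ 98 [(rh07543f4b2ab89060.shift 1 0), rh87e2ca517c87b4c2, (rhf18d36c75f54fad3.shift 1 0)] (by decide +kernel))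
noncomputable def rhba2270f1412c94c5 : CRef := CRef.mk (Pat.mk 0x140000001c0000000000000000 0x220000002a0000007f0000007f0000001c0000001400000014 7 7) 0 0 (step_sound _ 99 [rh1598796c5669a2f0, (rh3a067c34b3258daa.shift 0 2), (rhf18d36c75f54fad3.shift 2 0)] (by decide +kernel))
noncomputable def rh75df6e1ef8520eb3 : CRef := CRef.mk (Pat.mk 0x100000001c00000000 0x1df000000fe000001cf 7 9) 0 0 (step_sound _ 37 [(rh394e80a462af5b2f.shift 1 0), (rh75380d6b53574693.shift 1 0), rh775ca1963e850b80] (by decide +kernel))
noncomputable def rhf6b3d497f830a071 : CRef := CRef.mk (Pat.mk 0x400000008000000080000000e00000000 0x20000000f0000003e0000000f0000000e0000000a 7 6) 0 0 (step_sound _ 98 [(rh7b1f1fb55310c477.shift 2 0), rh85cde56a0bead786] (by decide +kernel))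
noncomputable def rh2f650a3a7070ab18 : CRef := CRef.mk (Pat.mk 0x2000000020000000200000000000000000000000000000000 0x50000000700000007000000070000000200000006000000070000000700000005 7 3) 0 0 (step_sound _ 97 [rh47992774edf9829f, (rh6c59ce14113da07f.shift 1 1), (rhc85cc95794737cf7.shift 0 3)] (by decide +kernel))
noncomputable def rh85e69defa6420190 : CRef := CRef.mk (Pat.mk 0x100000001c000000080000000800000000 0x1c0000001c0000001c0000000f0000003c00000014 7 6) 0 0 (step_sound _ 131 [(rh2f68792b6b779e96.shift 3 1), rhc8a5a9f578e5c6fe] (by decide +kernel))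
noncomputable def rh73411a3dac2a298a : CRef := CRef.mk (Pat.mk 0x80000000e000000040000000000000000 0xec0000007f0000007f0000003400000014 7 8) 0 0 (step_sound _ 34 [rh5ed74c04d2918c8a, (rh71222050f2c63a3a.shift 2 0)] (by decide +kernel))
noncomputable def rh830a9efea84db09b : CRef := CRef.mk (Pat.mk 0x2000000070000000180000000000000000 0x20000000200000007e0000007f000000d80000004000000040 7 8) 0 0 (step_sound _ 165 [rh447e95936c818d5f, (rh5c5e593799055d58.shift 4 2)] (by decide +kernel))
noncomputable def rh42fd21723a635607 : CRef := CRef.mk (Pat.mk 0x380000000c0000000000000000 0x140000001c0000003c0000000f0000003e0000007c0000000e0000000c 7 7) 0 0 (step_sound _ 131 [(rh0dd47c34ad01c32f.shift 0 1), (rh7d4be646332fc08b.shift 2 1), (rhe50f429190deabc7.shift 1 0)] (by decide +kernel))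
noncomputable def rh1204951739388ee2 : CRef := CRef.mk (Pat.mk 0x380000000c0000000000000000 0x100000001e0000001e0000007f0000003f0000007c0000000600000004 7 7) 0 0 (step_sound _ 131 [rh43a37e232960cba8, (rh57a06b43e72703e1.shift 2 1), (rh7d4be646332fc08b.shift 2 1), (rhcf75a4798bf146fb.shift 0 2)] (by decide +kernel))
noncomputable def rh1b4c6c2d51fe2e5a : CRef := CRef.mk (Pat.mk 0xc000000060000000000000000 0x80000000a0000003b0000003f0000003e0000001400000014 7 6) 0 0 (step_sound _ 100 [(rh18965a982d73c794.shift 1 2), rh6cf099189472344a] (by decide +kernel))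
noncomputable def rh2c2d69488ee7d929 : CRef := CRef.mk (Pat.mk 0x80000001c0000000600000000 0x1c0000003c0000001f0000001c0000007e00000073 7 7) 0 0 (step_sound _ 131 [(rh5c5e593799055d58.shift 2 1), rhfb2e8cad52ab7d20] (by decide +kernel))
noncomputable def rhe0248bdc5876dd86 : CRef := CRef.mk (Pat.mk 0x8000000180000000c0000000400000000 0x160000003f0000001f0000000c0000000c00000008 7 6) 0 0 (step_sound _ 35 [rh9e3680845ae0253e, (rha707fb719e87fe6e.shift 3 0), (rheccc035946bfb2fd.shift 0 1)] (by decide +kernel))
noncomputable def rhcf8f85867d3dcfba : CRef := CRef.mk (Pat.mk 0x80000001e000000080000000000000000 0x40000000c0000001e0000003f0000003300000012 7 6) 0 0 (step_sound _ 68 [rh4e0c214a3497f3b5, (rhe25b0a99195a5d59.shift 1 2)] (by decide +kernel))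
noncomputable def rh5d253b2d834c4d8a : CRef := CRef.mk (Pat.mk 0x2000000038000000200000000000000000 0x10000000140000003f000001fc0000003e0000002800000008 7 9) 0 0 (step_sound _ 130 [(rh40811da85268475d.shift 0 3), (rh4df35fbc131eb4ae.shift 0 3), (rh8bb330ee5aea9f6b.shift 1 0), (rhb232d7db88c25b68.shift 2 1)] (by decide +kernel))
noncomputable def rh5f998eb2772c8efe : CRef := CRef.mk (Pat.mk 0x40000000700000000000000000000000000000000 0xa0000000e0000000e0000000c0000000f0000003e0000000c0000000800000008 7 6) 0 0 (step_sound _ 99 [(rh0d3c8bf4bf97ae4a.shift 0 3), (rh16e9f4fedb67e22c.shift 1 0), (rh50b84ec59c023018.shift 0 1), (rhdfe0aeb9e1b5c601.shift 0 2), (rhe3dddb4e9eed9963.shift 0 1)] (by decide +kernel))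
noncomputable def rh5bbb8aca7a5c4e9d : CRef := CRef.mk (Pat.mk 0x100000001c000000080000000000000000 0x4000000040000001f0000003e000000780000000800000008 7 7) 0 0 (step_sound _ 35 [(rh71222050f2c63a3a.shift 3 0), (rha5b7c03cdbbe2fd6.shift 0 1)] (by decide +kernel))
noncomputable def rhd94912dfc1938072 : CRef := CRef.mk (Pat.mk 0x80000000e0000000400000000 0x800000008000000ef0000007f0000007c00000010 7 8) 0 0 (step_sound _ 131 [(rh5c5e593799055d58.shift 2 1), rhf9c2bb4407585a47] (by decide +kernel))
noncomputable def rh46eecb9e6a7eba46 : CRef := CRef.mk (Pat.mk 0x1c00000006000000020000000000000000 0x30000001f0000007e000000070000000600000006 7 7) 0 0 (step_sound _ 33 [(rh71222050f2c63a3a.shift 1 0), rhb5c6a1b2d8d9ed13] (by decide +kernel))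
noncomputable def rh3419068dc7981473 : CRef := CRef.mk (Pat.mk 0x40000001c0000000600000000 0x7000000070000003f0000001f0000003e00000008 7 6) 0 0 (step_sound _ 65 [rh082a4b21b1673342, (rh66ac0dcf90bb4739.shift 0 1), (rhda80743a3c60ec64.shift 0 1)] (by decide +kernel))
noncomputable def rhabbe320ac2756e78 : CRef := CRef.mk (Pat.mk 0x8000000380000000c0000000000000000 0x6000000060000007e0000003f0000007c0000000600000004 7 7) 0 0 (step_sound _ 98 [(rh258ad03ab6ada472.shift 0 2), (rh4c11c491f4d8ec0e.shift 1 0), (rh855cb42074aae6cc.shift 1 2), (rhda80743a3c60ec64.shift 1 2)] (by decide +kernel))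
noncomputable def rh761c26f68a95a78b : CRef := CRef.mk (Pat.mk 0x70000000180000000000000000 0x2000000038000000fe0000007f000000d80000005800000018 7 8) 0 0 (step_sound _ 133 [(rh4821dcf828b9d7bf.shift 4 0), (rh4fe45171b1186db1.shift 0 1), (rhbe253d1426d5780c.shift 2 0), (rhde620120ede18add.shift 2 0)] (by decide +kernel))
noncomputable def rh92712f7f3615815d : CRef := CRef.mk (Pat.mk 0x8000000000000001c000000060000000000000000 0x70000000f0000003b0000001f000000360000001400000004 7 6) 0 0 (step_sound _ 97 [(rh0534d8a281156e73.shift 0 1), rh38a0850c9fea941e, (rhd54ef7e66df444fa.shift 0 2)] (by decide +kernel))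
noncomputable def rha61dc7c6fa313dbf : CRef := CRef.mk (Pat.mk 0x10000000180000000c0000000800000000 0x2e0000007f0000001f0000001c0000001c00000014 7 7) 0 0 (step_sound _ 131 [(rh03dfdf12d5937476.shift 2 0), rh4403c3b9ef214e76, (rh60f7890073fd1121.shift 1 0)] (by decide +kernel))
noncomputable def rhb8253cd45d3e1e3b : CRef := CRef.mk (Pat.mk 0x100000001c000000000000000000000000 0x2000000330000003e000000370000000400000004 7 6) 0 0 (step_sound _ 97 [(rh33e738c4ed385b9f.shift 1 3), rhe4e8785d25f973d9] (by decide +kernel))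
noncomputable def rhe1187278fdbf3b95 : CRef := CRef.mk (Pat.mk 0x80000000e000000040000000000000000 0xec0000007f0000007f0000003400000014 7 8) 0 0 (step_sound _ 34 [(rh71222050f2c63a3a.shift 2 0), rh7a5469ebb6fc04c8] (by decide +kernel))
noncomputable def rh2b427143cc278400 : CRef := CRef.mk (Pat.mk 0xa00000006000000040000000000000000 0xc0000000e000000060000003c0000000f0000000e 7 6) 0 0 (step_sound _ 34 [rh71fa527cefe48e5f, (rh7b1f1fb55310c477.shift 1 0)] (by decide +kernel))
noncomputable def rh509b67a8ffe2e1ab : CRef := CRef.mk (Pat.mk 0x8000000180000001000000000 0x38000000780000001e000000380000001f0000000c 7 7) 0 0 (step_sound _ 131 [(rh2145e1d24b96a57e.shift 3 1), rhefd8f0758b51c670] (by decide +kernel))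
noncomputable def rh8d6ed22a6e8d533d : CRef := CRef.mk (Pat.mk 0x160000001c000000000000000000000000 0x16000000370000001e0000001c0000001c0000000c00000008 7 6) 0 0 (step_sound _ 67 [(rh0e4f1c59dbeefd9e.shift 0 1), (rhade0f4c81793f68e.shift 2 0), (rhcf80391c5046a495.shift 3 0)] (by decide +kernel))
noncomputable def rhc36b8f9eaafd0204 : CRef := CRef.mk (Pat.mk 0x58000000300000000000000000 0x8000000380000001f0000007f000000380000003000000010 7 7) 0 0 (step_sound _ 97 [(rhab22b5b56e7b3243.shift 1 2), rhd2db1eefc311042c] (by decide +kernel))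
noncomputable def rh91805fc48818d9c9 : CRef := CRef.mk (Pat.mk 0x2800000018000000000000000000000000 0x280000007f0000003f0000007c000000300000001000000010 7 7) 0 0 (step_sound _ 130 [(rh3e5c56f13d429182.shift 0 3), (rhdeca8db941583de2.shift 0 3), (rhe434db7e9dc3e580.shift 2 0)] (by decide +kernel))
noncomputable def rh0287e6498e7e6626 : CRef := CRef.mk (Pat.mk 0x28000000180000000000000000 0x2400000024000000770000003f0000007c0000001800000008 7 7) 0 0 (step_sound _ 98 [(rh2a7c53166cb9002a.shift 1 0), (rh3e5c56f13d429182.shift 0 2), (rhdeca8db941583de2.shift 0 2)] (by decide +kernel))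
noncomputable def rh1f092d7c790c868d : CRef := CRef.mk (Pat.mk 0x800000008000000180000001000000000 0x140000003c0000000f0000007c0000001f0000000c 7 7) 0 0 (step_sound _ 35 [rh6fae963f33cfdfd7, rhb9ea9cf5d1b0852e, rhd587b62b227a7eb9] (by decide +kernel))
noncomputable def rh799d03b05b7ae504 : CRef := CRef.mk (Pat.mk 0x160000001c0000000000000000 0x1a0000001a0000003f0000001e0000001e0000003400000024 7 6) 0 0 (step_sound _ 99 [rhc8ffcd37e490e874, rhd5889c99d29bf7d6, (rhef17860c8f16c39b.shift 1 0)] (by decide +kernel))
noncomputable def rhf8103af894806c95 : CRef := CRef.mk (Pat.mk 0x160000000c0000000000000000 0x20000000a0000000f0000001f0000003c0000000400000004 7 6) 0 0 (step_sound _ 68 [rh24115c8042de37aa, (rhf48373e13d2bc128.shift 1 2)] (by decide +kernel))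
noncomputable def rh06cfa5263c396d51 : CRef := CRef.mk (Pat.mk 0x8000000280000001800000010000000000000000000000000 0x340000007e0000003f000000180000007c0000000c0000000c00000008 7 7) 0 0 (step_sound _ 99 [(rh42870e86c19153e5.shift 2 0), (rhbe0144639d4b7b37.shift 1 3), (rhd587b62b227a7eb9.shift 0 2)] (by decide +kernel))
noncomputable def rh48d2ad5f6222342b : CRef := CRef.mk (Pat.mk 0x1c000000060000000000000000000000000000000000000000 0x80000000e0000000f0000001c000000070000003e0000000f0000000e0000000e00000008 7 6) 0 0 (step_sound _ 130 [(rh164d9aed8aa31d30.shift 0 3), (rh215e11e099257d75.shift 2 3), (rh2222a27c490588f5.shift 1 0), (rh6d73337abec5a977.shift 0 1)] (by decide +kernel))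
noncomputable def rhff3e00108bcdb5e2 : CRef := CRef.mk (Pat.mk 0x3000000018000000080000000800000000 0x8000000080000006c0000003c000000180000001f0000003c00000014 7 7) 0 0 (step_sound _ 131 [(rh654a5d57fd8b9734.shift 2 0), (rhea90e7358341a1a4.shift 2 0), rhef757b439f46a5d7] (by decide +kernel))
noncomputable def rh8f44490d404530e6 : CRef := CRef.mk (Pat.mk 0x8000000180000000c00000004000000000000000000000000 0x160000003f0000001f0000000c0000001c000000180000001800000008 7 6) 0 0 (step_sound _ 99 [(rh4f66b8b299b10e60.shift 2 0), (rh54a1c31c09544c4b.shift 0 3), (rha707fb719e87fe6e.shift 3 2)] (by decide +kernel))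
noncomputable def rh5813c541f4e49a2e : CRef := CRef.mk (Pat.mk 0x3000000018000000080000000800000000 0x80000000800000028000000380000003e0000007f0000001e00000014 7 7) 0 0 (step_sound _ 98 [rh15d333bff4106711, (rh53b3c253cb0c65f4.shift 1 3)] (by decide +kernel))
noncomputable def rh4cdfc88b6f5881f7 : CRef := CRef.mk (Pat.mk 0x8000000180000000c0000000400000000 0x120000003b0000001f0000003f0000000f00000008 7 6) 0 0 (step_sound _ 65 [rh3a175a3a8a4029e3, (rh53b3c253cb0c65f4.shift 0 2)] (by decide +kernel))
noncomputable def rh58592de46ebe19b5 : CRef := CRef.mk (Pat.mk 0x40000000c000000060000000200000000 0x8000000080000003c0000003f0000003e0000003700000010 7 6) 0 0 (step_sound _ 100 [(rh18965a982d73c794.shift 1 2), rh1ca3990315a72d9a] (by decide +kernel))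
noncomputable def rh4526f9f0eff659bf : CRef := CRef.mk (Pat.mk 0x80000000c00000006000000000000000000000000 0x1c0000003e0000007f0000000c0000000e0000000a0000000800000008 7 7) 0 0 (step_sound _ 195 [(rh5c5e593799055d58.shift 2 3), rhdd2c4b1a6060e600] (by decide +kernel))
noncomputable def rhe4058a5933ce4973 : CRef := CRef.mk (Pat.mk 0x8000000180000000c000000000000000000000000 0x170000001f0000001c0000000c0000001c0000001c00000014 7 5) 0 0 (step_sound _ 67 [(rh33032410a9908d45.shift 2 0), (rh8ff3dde5b1c639e0.shift 2 0), (rhe5fce868e21152e4.shift 0 1)] (by decide +kernel))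
noncomputable def rhcc7c429341b0361b : CRef := CRef.mk (Pat.mk 0x10000000700000001800000000 0x20000000380000003c000000f70000007f0000001800000010 7 8) 0 0 (step_sound _ 132 [(rh1ae8cb0b33fd1844.shift 3 1), (rh305945700f20b255.shift 2 0), (rh73fa94f14dc84edb.shift 0 1)] (by decide +kernel))
noncomputable def rh3089bacd8783e3f7 : CRef := CRef.mk (Pat.mk 0x1000000070000000180000000000000000 0x40000000f70000007f000000f80000002c00000028 7 8) 0 0 (step_sound _ 99 [(rh210e2d9c685c857e.shift 0 2), (rh26e69b99bb961813.shift 2 0), (rh4c11c491f4d8ec0e.shift 2 0), rh879b9c82651b0eb4] (by decide +kernel))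
noncomputable def rh9c48700ff009002f : CRef := CRef.mk (Pat.mk 0x380000000c000000000000000000000000 0x40000000c0000000c0000001f000000380000001c0000001c0000001c00000014 7 6) 0 0 (step_sound _ 163 [rh5e0267428d31d102, (rhb622aa591eacde43.shift 2 2), (rhbb339bb7e4e96b38.shift 2 2), (rhd81fd08d8cd70717.shift 0 2)] (by decide +kernel))
noncomputable def rhf2a5835e89ebf597 : CRef := CRef.mk (Pat.mk 0x8000000180000000e0000000000000000 0xc0000001c0000001f0000003e0000001b0000001a 7 6) 0 0 (step_sound _ 36 [(rh390a8df03c6c5a62.shift 3 0), (rh5d68e402d99634d8.shift 2 0), rhc3fb9e71a291ce72] (by decide +kernel))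
noncomputable def rhaf0b28beef3aff6c : CRef := CRef.mk (Pat.mk 0x180000000e000000000000000000000000 0x16000000370000001f000000fe0000000f0000000e00000004 7 8) 0 0 (step_sound _ 100 [(rh21460d2d48a35cb8.shift 0 1), rh2395824d1086e2bc, (rhb447f348b8f2aaa5.shift 0 2), (rhd2705a941542c9fb.shift 0 1), (rhf9971318f3fd5918.shift 0 1)] (by decide +kernel))
noncomputable def rh800b2e488550d47a : CRef := CRef.mk (Pat.mk 0x1000000010000000180000001800000000 0x80000001800000018000000fb000000ff00000007 7 8) 0 0 (step_sound _ 131 [rh224969b7e5a66650, (rh50fbb5868c909700.shift 3 1)] (by decide +kernel))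
noncomputable def rhd02616632219be49 : CRef := CRef.mk (Pat.mk 0x80000000c000000040000000000000000 0x600000006000000060000000f0000003c0000003c0000000f0000000e 7 6) 0 0 (step_sound _ 34 [(rh71222050f2c63a3a.shift 2 0), rha6df7935e2941552] (by decide +kernel))
noncomputable def rh673dc4da91ad5afe : CRef := CRef.mk (Pat.mk 0x8000000080000000c00000004000000000000000000000000 0x160000003f0000007f0000000c0000000c000000080000000800000008 7 7) 0 0 (step_sound _ 99 [(rh3502d92c6cce609b.shift 2 0), (rh5ee4dc8825dcefa0.shift 0 2), (rh7ec372de7fdf51d0.shift 0 3), (rha10abbb88ab9db0f.shift 0 2), (rhab3c3f3ae8c9664f.shift 1 2)] (by decide +kernel))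
noncomputable def rhd3d806a1bacb84ae : CRef := CRef.mk (Pat.mk 0x70000000180000000000000000 0x280000003c0000003c000000fe0000007f000000f80000000c00000008 7 8) 0 0 (step_sound _ 132 [(rh1ff0368ce362c695.shift 0 2), (rh7d4be646332fc08b.shift 3 1), (rhb622aa591eacde43.shift 3 1), rhc5a20f80c98500b6] (by decide +kernel))
noncomputable def rh6308f078fb84b83b : CRef := CRef.mk (Pat.mk 0x180000000e000000000000000000000000 0xe0000000f0000001f0000003e000000070000000600000004 7 6) 0 0 (step_sound _ 100 [(rh21460d2d48a35cb8.shift 0 1), rh2395824d1086e2bc, (rh41d5a93e35cc8528.shift 0 1), rhd480d351d67fd626, (rhf9971318f3fd5918.shift 0 1)] (by decide +kernel))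
noncomputable def rh8473d9dc3b1ea17f : CRef := CRef.mk (Pat.mk 0x8000000380000000c00000000 0x140000001f0000003e000000380000000c0000000c 7 6) 0 0 (step_sound _ 131 [rh25c532b22d6da820, (rh932754581e0f4330.shift 2 0)] (by decide +kernel))
noncomputable def rhdabd474648976ee2 : CRef := CRef.mk (Pat.mk 0x180000000c000000040000000400000000 0x1c000000ff000000770000003c00000018 7 8) 0 0 (step_sound _ 97 [(rh53b3c253cb0c65f4.shift 0 3), rh6b7b4b4d39a1f314] (by decide +kernel))
noncomputable def rh399d96a457967324 : CRef := CRef.mk (Pat.mk 0x1c0000000600000000000000000000000000000000 0xa0000000f0000001f0000003e0000003c0000001f0000000e0000000a 7 6) 0 0 (step_sound _ 98 [(rh000637b5a81e86aa.shift 1 1), rhcaadd3754c01bc7f, (rhddbd56e2b576a4a6.shift 0 2)] (by decide +kernel))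
noncomputable def rh8dbda0e4ff900fc5 : CRef := CRef.mk (Pat.mk 0x40000000c00000006 0x2000000030000003f0000003f00000007 7 6) 0 0 (step_sound _ 36 [(rh18965a982d73c794.shift 1 0), rh33ceb22c20ae95cc] (by decide +kernel))
noncomputable def rhf15c21b308596762 : CRef := CRef.mk (Pat.mk 0x1000000030000000180000000000000000 0xc0000004c000000fc000000ff000000f80000002000000020 7 8) 0 0 (step_sound _ 102 [(rh18965a982d73c794.shift 3 2), rh979d31a0d1cedb69] (by decide +kernel))
noncomputable def rh8ecf8a5e2cf4fa3a : CRef := CRef.mk (Pat.mk 0x8000000180000000c00000004 0x60000000f0000001f000000ff00000006 7 8) 0 0 (step_sound _ 33 [(rh53b3c253cb0c65f4.shift 0 1), rhba005beb22bdeee7] (by decide +kernel))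
noncomputable def rh565207d3f61c5c7e : CRef := CRef.mk (Pat.mk 0x40000000e0000000200000000 0x800000008000001fc000000ff000001f600000010 7 9) 0 0 (step_sound _ 68 [rh2fa8a6cd8a03c75c, (rha93a5dd541ab8209.shift 1 1), (rhfe114996652dd49b.shift 1 1)] (by decide +kernel))
noncomputable def rh037032041dc2ee01 : CRef := CRef.mk (Pat.mk 0x8000000180000000c0000000400000000 0x100000003f0000007f0000007c0000006600000020 7 7) 0 0 (step_sound _ 101 [(rh18965a982d73c794.shift 2 2), rhd7c4d1c52ff5496d] (by decide +kernel))
noncomputable def rh13f034b27efdd668 : CRef := CRef.mk (Pat.mk 0x40000000c000000060000000200000000 0x30000001b0000003f0000003e0000003e0000003b00000018 7 6) 0 0 (step_sound _ 100 [(rh18965a982d73c794.shift 1 2), rhec1c0916de23849e] (by decide +kernel))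
noncomputable def rhf50a16309f00a7a9 : CRef := CRef.mk (Pat.mk 0x80000000c000000060000000400000000 0x380000003f0000003e0000003c00000018 7 6) 0 0 (step_sound _ 100 [(rh18965a982d73c794.shift 1 2), rh3cf9c17d2d17dca3] (by decide +kernel))
noncomputable def rhf1d258cf78bbc7de : CRef := CRef.mk (Pat.mk 0xc000000060000000200000002 0x80000000b0000003f0000003e0000003300000012 7 6) 0 0 (step_sound _ 100 [(rh18965a982d73c794.shift 1 2), rhe409ec828e1f85f7] (by decide +kernel))
noncomputable def rha9e25d71122884ad : CRef := CRef.mk (Pat.mk 0x180000000e000000000000000800000000 0x140000001c0000000e0000003b0000001f00000016 7 6) 0 0 (step_sound _ 67 [(rh2f68792b6b779e96.shift 3 1), rhf53e76f8112da776] (by decide +kernel))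
noncomputable def rh0a46ea306ccc45e1 : CRef := CRef.mk (Pat.mk 0x1c00000006000000040000000000000000 0x2000000330000001f0000003e0000000c0000000c0000000c 7 6) 0 0 (step_sound _ 129 [rh17c181eca7d3be22, (rh309fd0c3d364cd61.shift 0 2)] (by decide +kernel))
noncomputable def rh03ac5205eef3618c : CRef := CRef.mk (Pat.mk 0x80000000c0000000400000000 0x1c0000001e000000780000000f0000003c00000018 7 7) 0 0 (step_sound _ 131 [(rh5c5e593799055d58.shift 2 1), rh70a388b961941418] (by decide +kernel))
noncomputable def rh66a3b51e4d1ebd0a : CRef := CRef.mk (Pat.mk 0x80000000c00000004000000000000000000000000 0x160000001f0000003c0000000f0000003c0000001c00000008 7 6) 0 0 (step_sound _ 66 [(rh71222050f2c63a3a.shift 2 1), rhcb5c52fa0cc1d6dc] (by decide +kernel))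
noncomputable def rh0459c7668fe40e38 : CRef := CRef.mk (Pat.mk 0x100000001c000000080000000800000000 0xa0000000e0000000f0000001f0000001f0000003c0000001800000010 7 6) 0 0 (step_sound _ 131 [rh8d09613a0e903d5f, (rhe897af202bc68eb8.shift 2 1), (rhfa94943aa2f661bc.shift 0 1)] (by decide +kernel))
noncomputable def rh83b1a32b3f38ab2f : CRef := CRef.mk (Pat.mk 0x400000007000000020000000200000000 0x2000000030000001b0000001f000000070000003f0000003e0000000c 7 6) 0 0 (step_sound _ 129 [(rh1b49a77e883412ed.shift 0 1), rh5c23ecb1996f81b9, rhaba90441b1323cfb, rhcd6adb2fafd26d26, (rhe897af202bc68eb8.shift 0 1)] (by decide +kernel))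
noncomputable def rhb5fe5d40bf7848ef : CRef := CRef.mk (Pat.mk 0xc000000060000000000000000 0x12000000330000003f0000003e0000000c0000000c 7 6) 0 0 (step_sound _ 100 [(rh18965a982d73c794.shift 1 2), rh1e1ff12fc70a7ba1] (by decide +kernel))
noncomputable def rha7a55157368b049b : CRef := CRef.mk (Pat.mk 0x10000000700000001800000000 0x3000000030000000fc0000007f000000f8000000e0 7 8) 0 0 (step_sound _ 67 [(rh082a4b21b1673342.shift 2 0), (rh278e5126e461c114.shift 2 0), (rh8ddec07355289b6c.shift 3 0), (rh90b184bf679f1a3f.shift 0 1), (rhf1edb6671c9a5104.shift 1 1)] (by decide +kernel))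
noncomputable def rh132178c3a24346e2 : CRef := CRef.mk (Pat.mk 0x8000000180000000c00000000 0x800000008000000080000001f000000ff000000f0 7 8) 0 0 (step_sound _ 33 [(rh53b3c253cb0c65f4.shift 0 1), rh97c2ce09bec1e547] (by decide +kernel))
noncomputable def rh8071a79bdf97deb8 : CRef := CRef.mk (Pat.mk 0x40000001c000000060000000000000000 0x8000000180000003c0000001f0000003e0000000f0000000a 7 6) 0 0 (step_sound _ 97 [(rh245cfab0de74c583.shift 0 1), rh4c11c491f4d8ec0e, rhbb99abd3f4a1141f] (by decide +kernel))
noncomputable def rh55325803133eddca : CRef := CRef.mk (Pat.mk 0x8000000180000000c000000000000000000000000 0x8000000180000003f0000003f0000001400000004 7 6) 0 0 (step_sound _ 97 [(rh53b3c253cb0c65f4.shift 0 3), rh53d644bf3ee85d27] (by decide +kernel))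
noncomputable def rh0897f4dfec14fd7e : CRef := CRef.mk (Pat.mk 0x1000000010000000100000003800000000 0x280000003c000000f0000001f7000000fe000001c7 7 9) 0 0 (step_sound _ 38 [(rh3fc3a7fb6866dcd4.shift 3 0), (rh4d9861521ee189dc.shift 2 0), rh988dac8d009f9f77] (by decide +kernel))
noncomputable def rh7f00c2d477386d7f : CRef := CRef.mk (Pat.mk 0x100000003800000000 0x1ff000000fe000001c0 7 9) 0 0 (step_sound _ 34 [(rh45f730bcf36fcf64.shift 1 0), (rh503775339733bab1.shift 0 1), (rhec46bd5500c722c9.shift 1 1)] (by decide +kernel))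
noncomputable def rhe8de7b6a70e130c9 : CRef := CRef.mk (Pat.mk 0x8000000380000000c0000000000000000 0x140000001f0000003c0000003c0000007800000030 7 7) 0 0 (step_sound _ 130 [(rh4b44abc110b49737.shift 1 1), (rhdbcea10a0fbe5ba6.shift 0 3), (rhf74f7bdba940048f.shift 2 0)] (by decide +kernel))
noncomputable def rhe9b95156730b7057 : CRef := CRef.mk (Pat.mk 0x8000000180000000e0000000000000000 0x170000001f0000001c0000001e0000007c00000014 7 7) 0 0 (step_sound _ 35 [(rh548ca695070b4cbb.shift 1 0), (rhd9397e4126e81439.shift 1 0), rhe5fce868e21152e4] (by decide +kernel))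
noncomputable def rh07cd7873594df687 : CRef := CRef.mk (Pat.mk 0x10000000100000001000000010 0x2f0000007e000000ff0000001000000010 7 8) 0 0 (step_sound _ 99 [(rh50fbb5868c909700.shift 3 0), rh6c3e04cab6104233] (by decide +kernel))
noncomputable def rhca20505fdc25e5f1 : CRef := CRef.mk (Pat.mk 0x40000000c00000006000000040000000000000000 0x40000000c0000003e0000003f0000003a00000010 7 6) 0 0 (step_sound _ 67 [(rh55afc6a59410cf00.shift 2 1), rha60e7fc6e444940b] (by decide +kernel))
noncomputable def rhfa7545b194a71cfb : CRef := CRef.mk (Pat.mk 0x200000006000000030000000200000000 0x4000000060000001e0000001b0000001f0000000d 7 5) 0 0 (step_sound _ 130 [rh030a02fb06c0ba43, (rh2f68792b6b779e96.shift 1 1)] (by decide +kernel))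
noncomputable def rh2e5ca3666ef823a4 : CRef := CRef.mk (Pat.mk 0x1000000010000000180000000800000000 0x40000003e000000ff000000fe0000000e00000004 7 8) 0 0 (step_sound _ 101 [(rh0bb882ba86b2372d.shift 1 2), (rh574fdbf07bdd18b9.shift 1 2), (rh72b9a3f645c9833b.shift 1 1), rhab283b7c6eba5ff1] (by decide +kernel))
noncomputable def rh1ad8cfa198ffa9a9 : CRef := CRef.mk (Pat.mk 0x80000000e0000000000000000 0xa0000000b0000003f0000007e000000f700000014 7 8) 0 0 (step_sound _ 68 [(rh06db8ceda6269a47.shift 0 1), (rh1fc9a83231fa2929.shift 1 0), (rh6c1bc18f1ef72b39.shift 0 1), rha7191f5d6d8736d9] (by decide +kernel))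
noncomputable def rh9499f6b74380f77b : CRef := CRef.mk (Pat.mk 0x80000000e00000000 0x3f0000007f000000f7 7 8) 0 0 (step_sound _ 36 [rh06db8ceda6269a47, rh6c1bc18f1ef72b39, (rhec46bd5500c722c9.shift 0 1)] (by decide +kernel))
noncomputable def rh7b644d3b15bdcf48 : CRef := CRef.mk (Pat.mk 0x4000000060000000200000002000000000 0x30000000300000003c000001ff0000007e000000fe0000003000000010 7 9) 0 0 (step_sound _ 100 [(rh4d63ff26ec2dbd2d.shift 0 2), (rh6558fc11d90a948b.shift 2 2), (rhaff4ef0721e61904.shift 2 0), (rhb12ffaec36122c99.shift 1 2), (rhf33d08555d1c95bd.shift 2 0)] (by decide +kernel))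
noncomputable def rh787a735b8475219d : CRef := CRef.mk (Pat.mk 0x10000000180000000c0000000800000000 0xc0000000e0000001f0000001f0000001f0000000c00000004 7 5) 0 0 (step_sound _ 65 [(rh53b3c253cb0c65f4.shift 0 2), rh9aff2d24e23e56c2] (by decide +kernel))
noncomputable def rh79dcd69039ee3f65 : CRef := CRef.mk (Pat.mk 0x80000000e000000000000000000000000 0x80000000a0000007b0000003e0000007f0000001400000014 7 7) 0 0 (step_sound _ 66 [rh2cb8437104de90cf, (rhcf80391c5046a495.shift 2 0), rhd4c4d463028d3f1e] (by decide +kernel))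
noncomputable def rh71662b93eafd118f : CRef := CRef.mk (Pat.mk 0x180000000e0000000000000000 0x1000000016000000370000001f0000003e0000007f00000006 7 7) 0 0 (step_sound _ 68 [rh41d5a93e35cc8528, (rh42d32bf970c9c157.shift 0 1), rh8e53d4e5cc04c5ec] (by decide +kernel))
noncomputable def rhb09150e634b21e64 : CRef := CRef.mk (Pat.mk 0x8000000080000000c0000000800000000 0x140000003c0000000f0000003c0000000f00000006 7 6) 0 0 (step_sound _ 34 [rh518a32bd422cc1f2, (rh932754581e0f4330.shift 2 0)] (by decide +kernel))
noncomputable def rh50c915e10c13df5d : CRef := CRef.mk (Pat.mk 0x600000004000000060000000400000000 0x80000003f0000003f0000001e0000003c00000018 7 6) 0 0 (step_sound _ 131 [(rh2f68792b6b779e96.shift 2 1), rh82c2f3c163febe8d] (by decide +kernel))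
noncomputable def rhb189e270a96d44aa : CRef := CRef.mk (Pat.mk 0x8000000080000000c0000000c00000000 0x40000000c0000000c0000007c0000007e00000013 7 7) 0 0 (step_sound _ 130 [(rh50fbb5868c909700.shift 2 1), rhfee34e866bbc088c] (by decide +kernel))
noncomputable def rhfe531b6a60571efa : CRef := CRef.mk (Pat.mk 0x1c0000000600000000 0xb0000000b0000003f0000001f0000003600000014 7 6) 0 0 (step_sound _ 65 [(rha181fcaac96efe0b.shift 0 1), rhbdb8dfd08861fbf7, rhf41a34b41b8c2138] (by decide +kernel))
noncomputable def rh04561ea046c0cfb0 : CRef := CRef.mk (Pat.mk 0x180000000c000000000000000000000000 0x40000000c0000001f0000003f000000330000001200000010 7 6) 0 0 (step_sound _ 97 [(rh53b3c253cb0c65f4.shift 0 3), rhe8352ac8f77731cc] (by decide +kernel))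
noncomputable def rh660231b7a982e4ed : CRef := CRef.mk (Pat.mk 0x200000002000000030000000100000000000000000 0x80000007c000000ef000000fe000000df0000004800000008 7 8) 0 0 (step_sound _ 99 [rh163056873aad428f, (rh42c149c634520fed.shift 2 1), (rhb12ffaec36122c99.shift 0 2), (rhd8c24d9b70d6ce6b.shift 2 1)] (by decide +kernel))
noncomputable def rh395e89e11271c3f5 : CRef := CRef.mk (Pat.mk 0x2000000030000000100000001000000000 0x800000028000000ef000000fe000001df0000005000000040 7 9) 0 0 (step_sound _ 99 [(rh1e2e095a54aeb72c.shift 0 1), (rh26cf4e0edec73dad.shift 2 2), (rhb12ffaec36122c99.shift 0 2), (rhcbcb816b4f21adf9.shift 2 0)] (by decide +kernel))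
noncomputable def rhf750c417f19ec2df : CRef := CRef.mk (Pat.mk 0x10000000080000000800000000000000000000000000000000 0x1800000018000000180000001f0000003c0000001c0000001c00000014 7 6) 0 0 (step_sound _ 99 [(rh4f322fd895b4c9b3.shift 0 2), (rh984bfc6de6c2c524.shift 2 0), (rhcd6e8ab92f0a4103.shift 3 2)] (by decide +kernel))
noncomputable def rh2f7a4f5c7713e920 : CRef := CRef.mk (Pat.mk 0x400000002000000020000000200000000 0x300000003000000070000000600000006000000070000000300000001 7 3) 0 0 (step_sound _ 129 [(rh2f68792b6b779e96.shift 1 1), rhdb991c49878b7ef7] (by decide +kernel))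
noncomputable def rh17c07c87ee2c327b : CRef := CRef.mk (Pat.mk 0x800000004000000040000000400000000 0x2000000060000000e0000000e0000000f0000003c0000001c 7 6) 0 0 (step_sound _ 130 [(rh5abfc4c9d959be03.shift 1 0), (rh8c7e6c931af72977.shift 1 0), rh92775caef34f07f6] (by decide +kernel))
noncomputable def rhc39e2fbaf125caaa : CRef := CRef.mk (Pat.mk 0x800000008000000080000000800000000 0xc0000000c000000080000003f0000003f00000014 7 6) 0 0 (step_sound _ 36 [(rh55afc6a59410cf00.shift 3 0), rhcc2f2ba5cadbab68] (by decide +kernel))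
noncomputable def rh3d7a5ff75e0aed59 : CRef := CRef.mk (Pat.mk 0xc00000004000000040000000400000000 0x360000003f0000003f0000001c0000000c00000008 7 6) 0 0 (step_sound _ 129 [rh4dab9fa1f36dd151, (rh50fbb5868c909700.shift 1 1)] (by decide +kernel))
noncomputable def rh017db0cf1a9b0d7f : CRef := CRef.mk (Pat.mk 0x80000000c000000040000000000000000 0x1c0000003c0000000f0000000c0000000c0000000c 7 6) 0 0 (step_sound _ 34 [rh6c126a548206b944, (rh71222050f2c63a3a.shift 2 0)] (by decide +kernel))
noncomputable def rhcc38d7430ab018fb : CRef := CRef.mk (Pat.mk 0x80000000c0000000c000000040000000000000000 0x10000000780000001f0000007c0000001e0000001800000018 7 7) 0 0 (step_sound _ 100 [(rha9e1a5d55b907abf.shift 1 2), rhc2b506d4802177eb, (rhd9106766b9ff53c0.shift 1 2)] (by decide +kernel))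
noncomputable def rhace873cb1c25afc8 : CRef := CRef.mk (Pat.mk 0x180000000e000000040000000000000000 0x60000001f0000001e0000000e0000003c0000001800000018 7 6) 0 0 (step_sound _ 67 [(rh81c8f57c5b85c38e.shift 1 0), (rh8deeb93a51b3ae96.shift 0 1), (rh9bd2bb1b625e8a7e.shift 2 0)] (by decide +kernel))
noncomputable def rh9ab124050bd19740 : CRef := CRef.mk (Pat.mk 0x380000000c0000000000000000 0x10000000140000003f0000003e0000007c0000000800000008 7 7) 0 0 (step_sound _ 98 [(rh202f56511f3ee702.shift 1 0), (rh2456963ff1f7bf23.shift 0 2), (rh38a0850c9fea941e.shift 1 0)] (by decide +kernel))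
noncomputable def rh5e42742a7b460ece : CRef := CRef.mk (Pat.mk 0x1800000008000000080000000800000000 0xc0000001f000000380000000f0000000c0000000c 7 6) 0 0 (step_sound _ 100 [rh0d624692dab3ecac, (rh71222050f2c63a3a.shift 3 0)] (by decide +kernel))
noncomputable def rh3d57348c70af05c9 : CRef := CRef.mk (Pat.mk 0x20000000300000002000000000000000000000000 0x20000000300000003000000030000000300000003000000070000000700000005 7 3) 0 0 (step_sound _ 193 [(rh03dfdf12d5937476.shift 0 2), rhc850b49d039efae1, (rhf337fdc36704e370.shift 0 2)] (by decide +kernel))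
noncomputable def rh9ce876259f331a3e : CRef := CRef.mk (Pat.mk 0x6000000020000000200000000000000000000000000000000 0x600000006000000070000000300000003000000060000000600000006 7 3) 0 0 (step_sound _ 97 [(rh2f68792b6b779e96.shift 1 3), rh5fdb73efd5ac82dc] (by decide +kernel))
noncomputable def rhb9e049ab1a07d346 : CRef := CRef.mk (Pat.mk 0x180000000c0000000800000000 0xc0000000e0000000f0000001e0000001f0000000c00000004 7 5) 0 0 (step_sound _ 65 [rh3b6278727553e36b, (rh53b3c253cb0c65f4.shift 0 2)] (by decide +kernel))
noncomputable def rh922fe98b3ec6dc1b : CRef := CRef.mk (Pat.mk 0x1800000008000000080000000000000000 0x1c0000003c0000000f0000000c0000000c0000000c 7 6) 0 0 (step_sound _ 35 [(rh2f68792b6b779e96.shift 3 1), rhb32ae4889b9ae843] (by decide +kernel))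
noncomputable def rh972861c15763573f : CRef := CRef.mk (Pat.mk 0x18000000080000000800000008 0xc0000000c0000001c0000000f0000003c0000001c 7 6) 0 0 (step_sound _ 130 [rh720be94dd4502ae7, (rhffd04209dc8ea796.shift 2 0)] (by decide +kernel))
noncomputable def rh5dceec4340b91649 : CRef := CRef.mk (Pat.mk 0x1000000018000000180000000800000000 0x24000000740000007f0000007f0000001b00000012 7 7) 0 0 (step_sound _ 98 [rh2a477dbc687cff57, (rhcf86d050071af9b3.shift 1 2), (rhd7d623ef241e209a.shift 1 0)] (by decide +kernel))
noncomputable def rhe67cbc07c0cd0b45 : CRef := CRef.mk (Pat.mk 0x100000001800000018000000080000000000000000 0x2000000030000000780000001f0000007f0000003000000030 7 7) 0 0 (step_sound _ 98 [rh73c8d186d16263ed, (rhab2ad169e49f9c5e.shift 0 3), (rhfe8ad5cb9e6353d0.shift 2 1)] (by decide +kernel))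
noncomputable def rhdc4499810c9d610a : CRef := CRef.mk (Pat.mk 0x100000001800000018000000080000000000000000 0x100000001e000000ff000000ff0000002000000020 7 8) 0 0 (step_sound _ 101 [(rh45871cc5e633538c.shift 2 0), rhc7e64abe39ba9941, (rhd9106766b9ff53c0.shift 2 2)] (by decide +kernel))
noncomputable def rhacb4ee49330d58a4 : CRef := CRef.mk (Pat.mk 0x1000000018000000080000000800000000 0x300000003000000078000000ff0000007c00000030 7 8) 0 0 (step_sound _ 68 [rh13d1146e903d931f, (rh5c5e593799055d58.shift 3 1)] (by decide +kernel))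
noncomputable def rh46d05dc9ea999adf : CRef := CRef.mk (Pat.mk 0x1000000018000000080000000000000000 0x54000001f6000000fe000001ef0000002800000028 7 9) 0 0 (step_sound _ 35 [(rh71222050f2c63a3a.shift 3 0), rhc6849e4015e8d020] (by decide +kernel))
noncomputable def rh7873accdc0f59dd3 : CRef := CRef.mk (Pat.mk 0x10000000180000000e000000000000000000000000 0x20000000320000001f000000fe000000370000001400000014 7 8) 0 0 (step_sound _ 100 [rh0b910061806357d6, rh5f27e0477c371a96, (rh870359598daa9f92.shift 0 3), (rhbd70501440a02fa8.shift 0 2)] (by decide +kernel))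
noncomputable def rh4c1a10a80534525a : CRef := CRef.mk (Pat.mk 0x1000000018000000180000000800000000 0x40000000d0000000fe000000ff0000006f00000020 7 8) 0 0 (step_sound _ 69 [(rh7821546e503e2fbd.shift 2 0), rha33b3c03ebd3204a, (rhd9106766b9ff53c0.shift 2 1)] (by decide +kernel))
noncomputable def rha76887fbddc4b9db : CRef := CRef.mk (Pat.mk 0xe0000000300000002000000000000000000000000 0x2000000060000000e0000001f0000001f0000001d0000000800000008 7 5) 0 0 (step_sound _ 193 [(rh03dfdf12d5937476.shift 0 2), (rh0f7b295fa42b5ad9.shift 0 2), rh7b3fe4fb4354ef0f] (by decide +kernel))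
end Crest.Agent.S0047.Helper85.Cert
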