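import Crest.Agent.Lib.S0047.Helper85CertPL6F0
import Crest.Agent.Lib.S0047.Helper85CertPL6F1
import Crest.Agent.Lib.S0047.Helper85CertPL6F2
import Crest.Agent.Lib.S0047.Helper85CertPL6F3
import Crest.Agent.Lib.S0047.Helper85CertPL6F4
import Crest.Agent.Lib.S0047.Helper85CertPL6F5
import Crest.Agent.Lib.S0047.Helper85CertPL6F6
import Crest.Agent.Lib.S0047.Helper85CertPL6F7
import Crest.Agent.Lib.S0047.Helper85CertPL6F8
import Crest.Agent.Lib.S0047.Helper85CertPL6F9
import Crest.Agent.Lib.S0047.Helper85CertPL6F10
import Crest.Agent.Lib.S0047.Helper85CertPL6F11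
import Crest.Agent.Lib.S0047.Helper85CertPL6F12
set_option autoImplicit false
set_option linter.all false
set_option Elab.async false
namespace Crest.Agent.S0047.Helper85.Cert
open Crest.Agent.S0047.Helper85

noncomputable def rhce4cd29d17db83b2 : CRef := CRef.mk (Pat.mk 0xc000000070000000400000000 0x80000000c0000000e000000060000000e0000000e0000000f0000003c00000008 7 6) 0 0 (step_sound _ 130 [(rh97ad1986540fd573.shift 1 1), rhd9397e4126e81439] (by decide +kernel))
noncomputable def rh49c7404dcb643339 : CRef := CRef.mk (Pat.mk 0x380000000c0000000800000000 0x240000007f0000003e0000007c0000001800000010 7 7) 0 0 (step_sound _ 130 [(rh16287dbd239f021c.shift 0 1), (rh616c75d1b5542aee.shift 2 1), (rh644fba718c80a7a0.shift 1 0), (rh8440640876951545.shift 1 1)] (by decide +kernel))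
noncomputable def rh62d0fbac29e408da : CRef := CRef.mk (Pat.mk 0x180000000e0000000800000000 0x10000000180000001c0000000e0000001f0000001e0000000e0000000c00000004 7 5) 0 0 (step_sound _ 131 [(rh03dfdf12d5937476.shift 2 0), rh8780feb96d6aa5c7, (rh97ad1986540fd573.shift 2 1), (rhd2c74283b7b6e6b8.shift 2 1)] (by decide +kernel))
noncomputable def rh85e427f8d1a50bfa : CRef := CRef.mk (Pat.mk 0x800000018000000080000001800000000 0x60000000f0000001e0000003f0000003f00000004 7 6) 0 0 (step_sound _ 34 [(rh27b6e98201103ddb.shift 0 1), (rh932754581e0f4330.shift 2 0)] (by decide +kernel))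
noncomputable def rhf0185d0a2dad5c17 : CRef := CRef.mk (Pat.mk 0x180000000e000000080000000000000000 0x600000006000000070000001f0000007e0000003f0000003000000030 7 7) 0 0 (step_sound _ 100 [(rh2a4fba10843b5c5f.shift 0 2), rh2d432a4e867e50f2, (rh79ca413a1e436ec6.shift 0 2)] (by decide +kernel))
noncomputable def rh7db9f866d6d46f30 : CRef := CRef.mk (Pat.mk 0x4000000020000000200000000000000000000000000000000 0x10000000700000007000000070000000700000006000000070000000700000005 7 3) 0 0 (step_sound _ 97 [rh1725eba4bd36066a, rh6b22f79f237076fd, (rh9fdf4b366b1cf3c3.shift 0 2)] (by decide +kernel))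
noncomputable def rh49bc5c1ce50ffeb3 : CRef := CRef.mk (Pat.mk 0xc000000060000000000000000 0x8000000080000003c0000003f000000070000000400000004 7 6) 0 0 (step_sound _ 100 [(rh18965a982d73c794.shift 1 2), rhf2ffe75fc09e7c08] (by decide +kernel))
noncomputable def rh2afe82b2819425d1 : CRef := CRef.mk (Pat.mk 0x180000000e0000000400000000 0x1a0000003b0000001f0000003e0000000f00000008 7 6) 0 0 (step_sound _ 131 [rh5270240f766fd0a8, (rh5c5e593799055d58.shift 2 1)] (by decide +kernel))
noncomputable def rh4cdecbb466fb7d56 : CRef := CRef.mk (Pat.mk 0x1c000000060000000200000000 0x80000001c0000003c0000001f0000003e0000000f00000008 7 6) 0 0 (step_sound _ 130 [rh31156f335e64bf15, (rh5c5e593799055d58.shift 1 1)] (by decide +kernel))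
noncomputable def rh184d8b0bd6e5cc7b : CRef := CRef.mk (Pat.mk 0x380000000c000000040000000000000000 0x120000003e0000007c0000000f0000003c0000001c 7 7) 0 0 (step_sound _ 34 [rh7048ceb38b37a5ae, (rh71222050f2c63a3a.shift 2 0)] (by decide +kernel))
noncomputable def rha50a4ee5ec590ec8 : CRef := CRef.mk (Pat.mk 0xc0000000700000000000000000000000000000000 0x20000000e0000000e0000000c0000000e0000000f0000001e0000000e0000000e00000002 7 5) 0 0 (step_sound _ 98 [(rh9bb5c7e5c08d4582.shift 1 1), (rhc66b989092c01728.shift 1 0), (rhc758e51bd98709d1.shift 0 2)] (by decide +kernel))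
noncomputable def rh163fe816722403f7 : CRef := CRef.mk (Pat.mk 0x80000001c000000060000000000000000 0x40000003c0000001f0000003e0000003700000016 7 6) 0 0 (step_sound _ 34 [(rh71222050f2c63a3a.shift 2 0), rh8a9e121e345440f2] (by decide +kernel))
noncomputable def rh8c41e905880bc6c1 : CRef := CRef.mk (Pat.mk 0x40000000c0000000600000000 0xa0000000e0000000e0000000e0000000f0000003c0000000e0000000600000004 7 6) 0 0 (step_sound _ 130 [(rh1741680720c097b4.shift 1 1), rh305945700f20b255, (rh61257be8a2a27e51.shift 1 1)] (by decide +kernel))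
noncomputable def rhdaec46d282c610b5 : CRef := CRef.mk (Pat.mk 0x180000000c000000000000000000000000 0xa0000001b0000003f000000770000001400000014 7 7) 0 0 (step_sound _ 97 [(rh53b3c253cb0c65f4.shift 0 3), rh8f942d958f560676] (by decide +kernel))
noncomputable def rhf7722ae87174d7eb : CRef := CRef.mk (Pat.mk 0x1000000018000000080000000800000000 0x40000001f000000380000007e0000007e00000034 7 7) 0 0 (step_sound _ 131 [(rhc647a25a08ddf0ec.shift 0 1), (rhc71ed80c6d39935c.shift 1 0)] (by decide +kernel))
noncomputable def rhd510939e9f1fc73b : CRef := CRef.mk (Pat.mk 0x60000000300000004000000000000000000000000 0x1000000070000000700000006000000070000000300000006000000070000000700000005 7 3) 0 0 (step_sound _ 97 [(rh1165db1bbd06e8d5.shift 0 2), (rh70e33bfdf511e144.shift 1 0), rhf6237156212ce777, rhffb8e5993241bf15] (by decide +kernel))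
noncomputable def rhd7e640ec50127944 : CRef := CRef.mk (Pat.mk 0x1c0000000600000000000000000000000000000000 0x20000000e0000000e0000000c0000001e0000001e0000003c0000001f0000000e00000002 7 6) 0 0 (step_sound _ 98 [(rh15590a39afd9a120.shift 1 0), (rh215e11e099257d75.shift 2 2), (rh98f24dbf3df290bc.shift 1 2), rha52af766f38b302a] (by decide +kernel))
noncomputable def rh242f1dcd765435b4 : CRef := CRef.mk (Pat.mk 0x2000000030000000180000001000000000 0x80000002f000000ff000000f8000000f000000040 7 8) 0 0 (step_sound _ 102 [(rh18965a982d73c794.shift 3 2), rh1c3835cdcc6d10a2] (by decide +kernel))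
noncomputable def rh04f371fdcea93623 : CRef := CRef.mk (Pat.mk 0x200000002000000030000000180000000000000000 0x200000003e000000ff000000f80000004000000040 7 8) 0 0 (step_sound _ 102 [rh0a3ed4caadb86185, (rh18965a982d73c794.shift 3 2)] (by decide +kernel))
noncomputable def rhf954ac957599bc3c : CRef := CRef.mk (Pat.mk 0x1000000010000000180000000c000000000000000000000000 0x100000001a0000001f0000007f000000370000001400000014 7 7) 0 0 (step_sound _ 97 [(rh53b3c253cb0c65f4.shift 0 3), rhd41b55c045d465cd] (by decide +kernel))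
noncomputable def rh0c83b8ee2b7e3cc1 : CRef := CRef.mk (Pat.mk 0x1c00000006000000020000000000000000 0x80000000c0000003c0000001f0000003e0000003b0000001800000010 7 6) 0 0 (step_sound _ 162 [rh347e43185df2895d, (rh5c5e593799055d58.shift 1 2)] (by decide +kernel))
noncomputable def rhbc839f7f51c01d3f : CRef := CRef.mk (Pat.mk 0xc000000070000000000000000000000000000000000000000 0xa0000000e0000000e0000000c000000070000003e0000000f0000000e0000000e00000008 7 6) 0 0 (step_sound _ 130 [(rh2222a27c490588f5.shift 1 0), (rh92c0a1899325fd43.shift 0 1), (rheb5cf6be9daf210b.shift 0 2), (rheeb58e8c2df1f008.shift 0 3)] (by decide +kernel))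
noncomputable def rhafefddabb1e31f29 : CRef := CRef.mk (Pat.mk 0x8000000180000000c000000040000000000000000 0x140000001f000000380000007c0000007e0000007000000020 7 7) 0 0 (step_sound _ 67 [(rh880f173af30d9589.shift 0 2), (rh9754ad85a565e7bd.shift 1 0)] (by decide +kernel))
noncomputable def rh4f4cef4d770de26d : CRef := CRef.mk (Pat.mk 0x20000000300000002000000000000000000000000 0x1000000070000000700000007000000030000000300000002000000070000000700000005 7 3) 0 0 (step_sound _ 65 [(rh72780865fc6287b5.shift 0 2), rh8cdd36b03d57a2f6] (by decide +kernel))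
noncomputable def rh4f694c363744f33f : CRef := CRef.mk (Pat.mk 0x100000001e0000001000000000000000000000000000000000 0x280000003800000038000000100000001e0000001f00000038000000380000003800000028 7 6) 0 0 (step_sound _ 129 [(rh17feb462a5b951cd.shift 1 0), (rheb0810cc63b001d8.shift 0 4)] (by decide +kernel))
noncomputable def rh6dbae7606a0dbc25 : CRef := CRef.mk (Pat.mk 0x8000000180000000c0000000400000000 0x170000001f0000001c0000000f0000000c00000008 7 5) 0 0 (step_sound _ 65 [(rh53b3c253cb0c65f4.shift 0 2), rhc56dba177ee90ca0] (by decide +kernel))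
noncomputable def rhe79215ea4a5b8dfe : CRef := CRef.mk (Pat.mk 0x180000000c000000040000000400000000 0x600000006000000160000001c0000000f0000003e0000000f0000000a 7 6) 0 0 (step_sound _ 97 [(rh53b3c253cb0c65f4.shift 0 3), rh81b0fa8fd28d1f83] (by decide +kernel))
noncomputable def rh3891a187372323c2 : CRef := CRef.mk (Pat.mk 0x10000000100000001c000000100000000000000000 0x12000000130000003f0000001f0000000c00000004 7 6) 0 0 (step_sound _ 67 [rh915f6511d37f58de, (rh932754581e0f4330.shift 3 1)] (by decide +kernel))
noncomputable def rh611e04f5c3327d05 : CRef := CRef.mk (Pat.mk 0x8000000080000000e000000000000000000000000 0x8000000380000003e0000003f0000001400000014 7 6) 0 0 (step_sound _ 68 [(rh475253e964ed1313.shift 3 0), (rh500df63240e3d9d1.shift 1 1), rh512c7fdb76615967, (rhb3a2f76440e25df9.shift 1 1), (rhf2caa0aa9e68f93b.shift 1 1)] (by decide +kernel))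
noncomputable def rhfefbd636ea9d1c61 : CRef := CRef.mk (Pat.mk 0xe000000030000000200000000 0x6000000060000000e0000001f0000001f0000000d 7 5) 0 0 (step_sound _ 129 [rh03dfdf12d5937476, rh38529d1267b1f10b, rhe20583caacc44ece] (by decide +kernel))
noncomputable def rh8026147c9725cd37 : CRef := CRef.mk (Pat.mk 0x180000000e000000040000000000000000 0x1c000000fe000000770000003c0000001c 7 8) 0 0 (step_sound _ 34 [rh6b7b4b4d39a1f314, (rh71222050f2c63a3a.shift 2 0)] (by decide +kernel))
noncomputable def rh84989ee61c425cd0 : CRef := CRef.mk (Pat.mk 0x8000000080000000c0000000800000000 0x170000001f0000007c0000000f0000000c00000004 7 7) 0 0 (step_sound _ 34 [(rh3636a0a30050ed49.shift 0 1), (rh932754581e0f4330.shift 2 0)] (by decide +kernel))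
noncomputable def rh538cdb49eef5a9fe : CRef := CRef.mk (Pat.mk 0x2000000020000000200000002000000000000000000000000 0x500000007000000030000000200000002000000070000000700000005 7 3) 0 0 (step_sound _ 192 [rh1a1573766efd98d4, (rh50fbb5868c909700.shift 0 3)] (by decide +kernel))
noncomputable def rh49a9dad91ab05935 : CRef := CRef.mk (Pat.mk 0x40000000400000006000000000000000000000000 0xa0000000f0000003e000000070000003e0000000e00000002 7 6) 0 0 (step_sound _ 65 [(rh3cf96e11afdc7701.shift 0 1), (rh42548283029e2a39.shift 1 0), (rhf9af042da61fc652.shift 1 0)] (by decide +kernel))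
noncomputable def rh98f9af3a84ea18f6 : CRef := CRef.mk (Pat.mk 0x80000000c0000000400000000 0xc0000000c0000000c0000003e0000007f0000001a 7 7) 0 0 (step_sound _ 131 [(rh5c5e593799055d58.shift 2 1), rhc65d27632cbffd50] (by decide +kernel))
noncomputable def rhdebfcf9105d5e324 : CRef := CRef.mk (Pat.mk 0x1000000018000000080000000800000000 0xc0000000c0000000c00000018000000180000007f0000007e00000077 7 7) 0 0 (step_sound _ 36 [(rh3b392ab82d9ceaf1.shift 1 0), (rh5efb70d687a431f8.shift 2 0), (rh6799e174f619f451.shift 1 0), rhb4006cdf0ea09577, rhf19240af8a218f1b] (by decide +kernel))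
noncomputable def rh27fb128d4668304a : CRef := CRef.mk (Pat.mk 0x1c0000000600000000000000000000000000000000 0xa0000000e0000001f0000001c0000000e0000003c0000001f0000000e00000002 7 6) 0 0 (step_sound _ 98 [rh100dd10a8153318d, (rh15590a39afd9a120.shift 1 0), (rh215e11e099257d75.shift 2 2), (rhb3151143ccbe9e5a.shift 0 2)] (by decide +kernel))
noncomputable def rh8897f9bf6ab0c7e0 : CRef := CRef.mk (Pat.mk 0xc00000007000000080000000000000000 0x1800000018000000180000000c0000000f0000001c0000000c0000000c 7 5) 0 0 (step_sound _ 99 [(rhdc38782eaebd3836.shift 2 0), (rhe25b0a99195a5d59.shift 0 2)] (by decide +kernel))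
noncomputable def rh2111c3cf6b38f6c3 : CRef := CRef.mk (Pat.mk 0xc0000000600000008000000000000000000000000 0x4000000060000000e0000000e0000000e000000060000003c0000000f0000000e00000008 7 6) 0 0 (step_sound _ 98 [(rh000637b5a81e86aa.shift 1 1), (rh1b39041d83ebfa15.shift 0 1), (rh70e33bfdf511e144.shift 2 0), (rhc13e643d7dd9ad12.shift 1 2), (rhf7d9375cfe0cf83e.shift 1 2)] (by decide +kernel))
noncomputable def rhf05d36777675f166 : CRef := CRef.mk (Pat.mk 0x40000000c000000060000000200000000 0x3000000130000003f0000003e0000003e0000000b00000009 7 6) 0 0 (step_sound _ 100 [(rh18965a982d73c794.shift 1 2), rhb4b2fba692cc46a2] (by decide +kernel))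
noncomputable def rh4cfa95ddc511ee9d : CRef := CRef.mk (Pat.mk 0x180000000e000000000000000000000000 0x100000001c0000003e0000000f0000001e0000000e0000003e0000001c00000014 7 6) 0 0 (step_sound _ 163 [rh0978f3ef7e1f1c5b, (rh281c6819542c66e6.shift 2 0), (rh7d4be646332fc08b.shift 2 2), (rhdc9917fa925dd991.shift 0 2)] (by decide +kernel))
noncomputable def rh06924997dfd07e71 : CRef := CRef.mk (Pat.mk 0x1000000018000000080000000000000000 0xc0000001f000000380000001e0000007800000038 7 7) 0 0 (step_sound _ 35 [rh498f83b64b5f0ae3, (rh71222050f2c63a3a.shift 3 0)] (by decide +kernel))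
noncomputable def rh729c905f5027b784 : CRef := CRef.mk (Pat.mk 0x180000000e000000000000000000000000 0x60000000f0000001f0000001e000000370000001600000010 7 6) 0 0 (step_sound _ 100 [(rhbbe16ff26f7822db.shift 1 0), (rhf9971318f3fd5918.shift 0 1)] (by decide +kernel))
noncomputable def rh7808601201104fd5 : CRef := CRef.mk (Pat.mk 0x700000001800000000 0x280000003c0000003c000000fe0000007f0000003800000008 7 8) 0 0 (step_sound _ 100 [(rh07f7d72206ed82f8.shift 0 1), (rh7d4be646332fc08b.shift 3 0), (rhb622aa591eacde43.shift 3 0)] (by decide +kernel))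
noncomputable def rh2aed49acd76b685a : CRef := CRef.mk (Pat.mk 0x6000000030000000000000000000000000 0x68000000680000007f0000007c000000f80000007000000010 7 8) 0 0 (step_sound _ 99 [(rh53b3c253cb0c65f4.shift 2 3), rhc71afaaa8dfbab5c] (by decide +kernel))
noncomputable def rhaf49e24ff6984202 : CRef := CRef.mk (Pat.mk 0x300000001c000000080000000000000000 0x40000002c0000003f0000003c0000001c0000001800000018 7 6) 0 0 (step_sound _ 35 [(rh71222050f2c63a3a.shift 3 0), rhd9d4071e04a39ecc] (by decide +kernel))
noncomputable def rhb5976ab7c4daa1cb : CRef := CRef.mk (Pat.mk 0x10000000180000000e0000000000000000 0x100000001c0000003c0000001f0000001e0000003300000012 7 6) 0 0 (step_sound _ 164 [(rh5c5e593799055d58.shift 3 2), rh80016d059618d9b4] (by decide +kernel))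
noncomputable def rh55885bf1115ef9c4 : CRef := CRef.mk (Pat.mk 0x180000001e000000000000000000000000 0x20000000300000001f0000001e000000380000001800000018 7 6) 0 0 (step_sound _ 129 [(rh3244c3cc8379b070.shift 0 3), (rhd7646423f51c196d.shift 1 0)] (by decide +kernel))
noncomputable def rhdcd93c1df13b29ae : CRef := CRef.mk (Pat.mk 0x80000000c00000006000000000000000000000000 0x400000006000000060000000e0000000e0000000e0000003e0000003f00000002 7 6) 0 0 (step_sound _ 66 [(rh71222050f2c63a3a.shift 2 1), rhf982471758dd443f] (by decide +kernel))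
noncomputable def rhbce7f4da0f59b014 : CRef := CRef.mk (Pat.mk 0x80000000c0000000600000000 0x1e0000001f0000007c0000000e0000000e0000000a 7 7) 0 0 (step_sound _ 131 [rh2df8752f162b3a67, (rh5c5e593799055d58.shift 2 1)] (by decide +kernel))
noncomputable def rh25fb1ba137d995eb : CRef := CRef.mk (Pat.mk 0x180000000e000000000000000000000000 0x40000001c0000001c0000003e0000007f0000001a0000000e0000003e0000001c00000004 7 7) 0 0 (step_sound _ 163 [(rh16f102541ca92697.shift 1 0), (rh281c6819542c66e6.shift 2 0), (rh5c11b35fc15f50c0.shift 0 1), (rhb2d999c672507e3f.shift 2 2)] (by decide +kernel))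
noncomputable def rh1a51584417250fd3 : CRef := CRef.mk (Pat.mk 0x1c00000006000000000000000000000000 0xe0000001f0000001f00000006000000060000000600000006 7 5) 0 0 (step_sound _ 65 [(rh0073b331e2c68d15.shift 0 1), (rh4821dcf828b9d7bf.shift 1 0), rh554c4947818a8194, (rhadf429772c25fde0.shift 1 0)] (by decide +kernel))
noncomputable def rhf83b5b142878ec5f : CRef := CRef.mk (Pat.mk 0x80000001c0000000600000000 0x1e0000001f0000007c0000001e0000000e0000000a 7 7) 0 0 (step_sound _ 131 [(rh5c5e593799055d58.shift 2 1), rh874bfe926588c8fd] (by decide +kernel))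
noncomputable def rh4d92821350aa61fe : CRef := CRef.mk (Pat.mk 0x380000000c00000004000000000000000000000000 0xc0000000f0000003c0000001c0000001c000000180000001800000008 7 6) 0 0 (step_sound _ 195 [(rh5c5e593799055d58.shift 2 3), rhe8f7687784968d5c] (by decide +kernel))
noncomputable def rh92605c8ddba616a4 : CRef := CRef.mk (Pat.mk 0x7000000018000000080000000000000000 0xc0000007f000000380000001e0000007c0000003c 7 7) 0 0 (step_sound _ 35 [rh3a9047346bab2c18, (rh71222050f2c63a3a.shift 3 0)] (by decide +kernel))
noncomputable def rh1aa2e1dd995dc71a : CRef := CRef.mk (Pat.mk 0x80000000c00000006000000000000000000000000 0x1c0000003c0000001f0000000c0000000e0000001a0000001800000018 7 6) 0 0 (step_sound _ 195 [(rh5c5e593799055d58.shift 2 3), rhba000424c0c5d320] (by decide +kernel))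
noncomputable def rh7a274405f63ecd29 : CRef := CRef.mk (Pat.mk 0x8000000180000000c0000000800000000 0x160000003f0000001f0000000c0000000c00000004 7 6) 0 0 (step_sound _ 132 [(rh2f68792b6b779e96.shift 3 1), rh4403c3b9ef214e76] (by decide +kernel))
noncomputable def rh8ff6f2cfdd47b5b6 : CRef := CRef.mk (Pat.mk 0x10000000380000000c 0x1c0000001e0000007f0000003f0000001c 7 7) 0 0 (step_sound _ 100 [(rh5c5e593799055d58.shift 3 0), rhdf15205901e062fa] (by decide +kernel))
noncomputable def rhdc944936068f80b2 : CRef := CRef.mk (Pat.mk 0x1e00000000000000000000000000000000 0x400000006000000070000001e00000007000000070000000700000005 7 5) 0 0 (step_sound _ 97 [rh298665344a5c048f, (rheb0810cc63b001d8.shift 0 3)] (by decide +kernel))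
noncomputable def rh74f9ae0ef221baee : CRef := CRef.mk (Pat.mk 0x3c000000000000000000000000 0x8000000080000001f0000003f000000380000001000000010 7 6) 0 0 (step_sound _ 129 [(rh3f8766e6ecb455ce.shift 1 3), rh5fc30ae543a4ce65] (by decide +kernel))
noncomputable def rhc6c48c550f9232f4 : CRef := CRef.mk (Pat.mk 0xf000000000 0x7f000000fe0000000e 7 8) 0 0 (step_sound _ 35 [rh138c3774b73e0afc, (rh592c7139d2c44767.shift 1 0), (rhd325fcc4a674fdfe.shift 1 0), (rhd5eb272e07a4e288.shift 2 1)] (by decide +kernel))
noncomputable def rh218227814c3ae943 : CRef := CRef.mk (Pat.mk 0x40000003c000000000000000000000000 0x4000000040000000c0000003f0000003f0000000800000008 7 6) 0 0 (step_sound _ 65 [rh27ecc082ada914d9, (rh80fcd6d0a18cb2dd.shift 1 2)] (by decide +kernel))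
noncomputable def rhc7e2bcff527ed15c : CRef := CRef.mk (Pat.mk 0x380000000c0000000000000000000000000000000000000000 0x100000001c0000001f0000003c0000000c0000000c0000000c0000001c0000001c00000010 7 6) 0 0 (step_sound _ 131 [(rh215e11e099257d75.shift 3 3), (rh2222a27c490588f5.shift 2 0), (rh688fbb54c9d31d63.shift 0 3)] (by decide +kernel))
noncomputable def rh050c46a5e6da4533 : CRef := CRef.mk (Pat.mk 0xe0000000400000004 0x200000002000000e30000007e0000007e00000004 7 8) 0 0 (step_sound _ 97 [(rh7414e988019ffba0.shift 0 1), (rhe072fffdd2fccf38.shift 1 0)] (by decide +kernel))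
noncomputable def rhc32a57efbbba9771 : CRef := CRef.mk (Pat.mk 0x80000000e0000000400000004 0x200000002000001db000000fe000000fe00000004 7 9) 0 0 (step_sound _ 68 [rh37685734ed799af3, rh4d7473ca93c5e371, rhaa5d8f44e429eabd, (rhb02f9c2bd63f56db.shift 1 1), (rhc3f1fdc610b622e4.shift 1 1)] (by decide +kernel))
noncomputable def rhf5b4214c02755475 : CRef := CRef.mk (Pat.mk 0xc000000060000000200000000 0x800000008000000380000003f0000003e0000003300000010 7 6) 0 0 (step_sound _ 100 [(rh18965a982d73c794.shift 1 2), rha759c0de0f3ced36] (by decide +kernel))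
noncomputable def rhfe5df66bea0de68c : CRef := CRef.mk (Pat.mk 0x400000007000000020000000200000000 0x7f0000003f0000003b0000001e0000001c 7 7) 0 0 (step_sound _ 99 [rh7cdbd1ae84f62dbe, (rh84d1614f5efa9132.shift 0 2), (rha83d0a1d851c6a27.shift 0 2)] (by decide +kernel))
noncomputable def rh96dc83ac2abd1d6c : CRef := CRef.mk (Pat.mk 0x80000000c0000000400000000 0x1c0000003c0000000f0000000f0000003c00000018 7 6) 0 0 (step_sound _ 131 [(rh5c5e593799055d58.shift 2 1), rh9f7739cef1cb0936] (by decide +kernel))
noncomputable def rhb0c5cdb72c58be3a : CRef := CRef.mk (Pat.mk 0x1000000038000000080000000800000000 0x400000004000000170000003e0000007c000001f800000020 7 9) 0 0 (step_sound _ 98 [(rh0d378fd9e8917c5a.shift 0 2), (rh768a472a1ebe455c.shift 1 1), (rhe6bda222dda267c2.shift 1 0)] (by decide +kernel))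
noncomputable def rh5c8d122437efeb6b : CRef := CRef.mk (Pat.mk 0x40000000c00000006 0x3000000030000003f0000003e00000007 7 6) 0 0 (step_sound _ 36 [(rh18965a982d73c794.shift 1 0), rh31d1ab9e5cc48af4] (by decide +kernel))
noncomputable def rh9183f9abc364251c : CRef := CRef.mk (Pat.mk 0x80000000c000000040000000000000000 0x600000006000000060000000f0000003c0000000e0000000600000006 7 6) 0 0 (step_sound _ 34 [(rh71222050f2c63a3a.shift 2 0), rhafb659ef6e62e6fc] (by decide +kernel))
noncomputable def rhfada83d5c5cf0c0f : CRef := CRef.mk (Pat.mk 0x180000000c000000040000000400000000 0x600000006000000160000001c0000000f0000003e0000000f0000000a 7 6) 0 0 (step_sound _ 97 [(rh53b3c253cb0c65f4.shift 0 3), rha8e9b93252a799b4] (by decide +kernel))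
noncomputable def rh811d38b9ed0ae7ba : CRef := CRef.mk (Pat.mk 0x40000000e00000002 0x1cc000000fe000001c7 7 9) 0 0 (step_sound _ 36 [rheb0810cc63b001d8, (rhfe114996652dd49b.shift 1 0)] (by decide +kernel))
noncomputable def rhb661e3de87537d2a : CRef := CRef.mk (Pat.mk 0x8000000080000000c00000004000000000000000000000000 0x160000003f0000007f0000001f0000000c000000080000000800000008 7 7) 0 0 (step_sound _ 99 [(rh3502d92c6cce609b.shift 2 0), (rh4983ef42b6c40cbc.shift 0 2), (rh5ee4dc8825dcefa0.shift 0 2), (rh7ec372de7fdf51d0.shift 0 3), (rha10abbb88ab9db0f.shift 0 2)] (by decide +kernel))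
noncomputable def rh946fd053228cda0d : CRef := CRef.mk (Pat.mk 0xc000000040000000000000000 0x200000032000001f7000000ff000001fe0000001c0000001c 7 9) 0 0 (step_sound _ 100 [rh49df48c0edb45416, (rhad562696acd1db6f.shift 1 2), (rhec89969cfdaf3653.shift 1 0)] (by decide +kernel))
noncomputable def rh21b38f898b67523b : CRef := CRef.mk (Pat.mk 0x80000000c000000040000000000000000 0x60000000f0000003c0000003c0000000f0000000e 7 6) 0 0 (step_sound _ 34 [(rh71222050f2c63a3a.shift 2 0), rhbb4d1fd473eec2f0] (by decide +kernel))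
noncomputable def rh36663dcce525584e : CRef := CRef.mk (Pat.mk 0x200000002000000030000000100000000 0x40000000600000006000000070000001f0000001f 7 5) 0 0 (step_sound _ 33 [rh932754581e0f4330, rha068555654cd13ea] (by decide +kernel))
noncomputable def rhb0a6695beb535281 : CRef := CRef.mk (Pat.mk 0x200000002000000030000000100000000000000000 0x80000007c000001ef0000007c000000d80000005000000010 7 9) 0 0 (step_sound _ 36 [(rh40b6f7c3b4f9914d.shift 0 1), (rh71222050f2c63a3a.shift 4 0)] (by decide +kernel))
noncomputable def rhc1204605e35aeb60 : CRef := CRef.mk (Pat.mk 0x8000000080000000c0000000400000000 0x1000000018000000780000001f0000007c00000078 7 7) 0 0 (step_sound _ 35 [rh4983ef42b6c40cbc, (rha068555654cd13ea.shift 2 0), rhfe557af9112f51d6] (by decide +kernel))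
noncomputable def rh8e0d5f4b12a2db16 : CRef := CRef.mk (Pat.mk 0x400000007000000020000000200000000 0x3c0000007f0000003f0000001e0000001c 7 7) 0 0 (step_sound _ 99 [rh483ab7048429fb91, (rh7a6a5778104bcb94.shift 0 2), (rh84d84ec8e59a0da5.shift 0 2), (rh9ab60d74117ac343.shift 0 2)] (by decide +kernel))
noncomputable def rhf4bf7120d5e9d8e8 : CRef := CRef.mk (Pat.mk 0xe000000020000000000000000 0x8000000080000003f0000003f0000003000000010 7 6) 0 0 (step_sound _ 100 [rhcf2327d7cd98b396, (rheb0810cc63b001d8.shift 0 2)] (by decide +kernel))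
noncomputable def rhcfad7210291b5ed4 : CRef := CRef.mk (Pat.mk 0x1e0000001400000000 0x1a0000001f0000003f0000001e0000001c00000018 7 6) 0 0 (step_sound _ 100 [rh317a98ae46cbb826, (rh33e738c4ed385b9f.shift 1 2)] (by decide +kernel))
noncomputable def rh15815aa9452e9695 : CRef := CRef.mk (Pat.mk 0xe00000002 0xe70000007e000000e3 7 8) 0 0 (step_sound _ 36 [rh394e80a462af5b2f, rheb0810cc63b001d8] (by decide +kernel))
noncomputable def rh981488835dfe2479 : CRef := CRef.mk (Pat.mk 0x2000000030000000000000001000000010 0x20000000ff000000fe000001cf0000005800000050 7 9) 0 0 (step_sound _ 99 [(rh3e0b38310ac09007.shift 0 3), (rh4a60876f262a0ac9.shift 2 0), (rhb103f40a53fe1424.shift 0 2), rhcf75a7382365fb3c] (by decide +kernel))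
noncomputable def rh4ca25bbca2ab56c0 : CRef := CRef.mk (Pat.mk 0x800000008000000080000000800000000 0xc0000000c0000000c0000003c0000000f0000000e 7 6) 0 0 (step_sound _ 130 [rh0c94549889fb61be, (rh50fbb5868c909700.shift 2 1)] (by decide +kernel))
noncomputable def rhd02a63d4d43b4833 : CRef := CRef.mk (Pat.mk 0xc0000001800000008000000000000000000000000 0x40000000f00000078000000080000001c0000001c00000014 7 7) 0 0 (step_sound _ 67 [(rh50fbb5868c909700.shift 2 2), rhdd2d3372a6e34d07] (by decide +kernel))
noncomputable def rh9a785ee2444920e5 : CRef := CRef.mk (Pat.mk 0x180000000e000000000000000000000000 0x40000000e0000000f0000003e0000000e0000000e0000000c00000004 7 6) 0 0 (step_sound _ 130 [(rh18965a982d73c794.shift 1 3), rhb9d559cb69a5d5a4] (by decide +kernel))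
noncomputable def rh25dc06d412aa2fa0 : CRef := CRef.mk (Pat.mk 0x180000000c000000000000000000000000 0x800000008000000380000003f0000000f0000000400000004 7 6) 0 0 (step_sound _ 97 [(rh53b3c253cb0c65f4.shift 0 3), rh5ee628c4c4ff9378] (by decide +kernel))
noncomputable def rh4c2b0950e19be976 : CRef := CRef.mk (Pat.mk 0x180000000c00000000000000000000000000000000 0xc0000001c0000001f0000003c0000001c0000000f0000003c0000001c00000014 7 6) 0 0 (step_sound _ 99 [(rh000637b5a81e86aa.shift 2 1), (rhb0aca24099dfac1a.shift 0 2), rhfcbb194b8c53153b] (by decide +kernel))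
noncomputable def rh4893dda8a5b9542c : CRef := CRef.mk (Pat.mk 0x800000007000000000 0xc70000007e0000007e 7 8) 0 0 (step_sound _ 35 [(rh428265de8cd3cd2d.shift 3 1), rh9a61dc0f685e3a67] (by decide +kernel))
noncomputable def rhab58dd18494729bc : CRef := CRef.mk (Pat.mk 0x90000000e0000000000000000 0x8000000080000000f0000007e0000007600000004 7 7) 0 0 (step_sound _ 68 [(rh3f8766e6ecb455ce.shift 0 2), (rhcd2edf19bda4d57a.shift 1 0)] (by decide +kernel))
noncomputable def rh5ae730d2a43a13b8 : CRef := CRef.mk (Pat.mk 0x120000001e00000000 0x1de000000fe000000e3 7 9) 0 0 (step_sound _ 37 [(rh3f8766e6ecb455ce.shift 1 1), rhdb9997001abbb22b] (by decide +kernel))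
noncomputable def rhe74030ed4f6317a8 : CRef := CRef.mk (Pat.mk 0x700000001800000008 0x3800000038000000ff0000007f000000d800000048 7 8) 0 0 (step_sound _ 132 [rhb13a4d5f318631de, (rhee230b994cc8b773.shift 3 0)] (by decide +kernel))
noncomputable def rh289d8defc2228fdf : CRef := CRef.mk (Pat.mk 0x3000000018000000080000000000000000 0x6c0000003c000000180000001f0000007c0000003c 7 7) 0 0 (step_sound _ 35 [(rh71222050f2c63a3a.shift 3 0), rhb3f277f24fdb8dc3] (by decide +kernel))
noncomputable def rh0e48aee3e7b9accf : CRef := CRef.mk (Pat.mk 0x80000000e000000000000000000000000 0xa0000003b0000003e000000770000001400000014 7 7) 0 0 (step_sound _ 100 [(rh06db8ceda6269a47.shift 0 2), rh10542c60e0f28dcb, (rh2510c9405f884362.shift 1 0)] (by decide +kernel))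
noncomputable def rh1f0676df8d5b5c3f : CRef := CRef.mk (Pat.mk 0x180000001e00000000 0xe0000000f0000001b0000003e00000007 7 6) 0 0 (step_sound _ 1 [rheb0810cc63b001d8, rhf4d40187e7eeae2f] (by decide +kernel))
noncomputable def rh06731a36cb45307a : CRef := CRef.mk (Pat.mk 0xa0000000e00000000 0x3b000000fe000000e7 7 8) 0 0 (step_sound _ 36 [rh2ef78639b50b20cd, (rh3244c3cc8379b070.shift 0 1)] (by decide +kernel))
noncomputable def rh655a58ce39519a50 : CRef := CRef.mk (Pat.mk 0x80000000e000000000000000000000000 0x8000000080000000f0000007e000000ff0000001000000010 7 8) 0 0 (step_sound _ 100 [(rh06db8ceda6269a47.shift 0 2), (rh5f7b3bfbaf903d4f.shift 0 2), (rh6c1bc18f1ef72b39.shift 0 2), (rh84970c2ccb9fe470.shift 1 0)] (by decide +kernel))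
noncomputable def rh6070afbf4b80e444 : CRef := CRef.mk (Pat.mk 0x8000000080000000e000000000000000000000000 0x100000001c0000003c0000001f0000001c0000000e0000001a0000001800000010 7 6) 0 0 (step_sound _ 196 [(rh87d5e4118780fa3b.shift 3 2), (rh8dd9f845b93871d9.shift 2 0), (rh8e0c838220b75264.shift 1 2), (rha0059f5a0e3c8bb1.shift 0 2)] (by decide +kernel))
noncomputable def rhf74b63096cf66d38 : CRef := CRef.mk (Pat.mk 0x180000000e000000000000000000000000 0x4000000040000000e0000001f0000007a0000000e0000003e0000001400000004 7 7) 0 0 (step_sound _ 133 [(rh18965a982d73c794.shift 2 3), rhf5608162a8376a52] (by decide +kernel))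
noncomputable def rh63e60926778a69c5 : CRef := CRef.mk (Pat.mk 0x380000000c00000004 0x60000000e0000007f0000003c0000000c0000000c 7 7) 0 0 (step_sound _ 99 [rh55a971892143f2a0, (rh5c5e593799055d58.shift 2 0)] (by decide +kernel))
noncomputable def rh262a1650215240c2 : CRef := CRef.mk (Pat.mk 0x1c00000006000000020000000000000000 0x8000000080000003b0000001f00000036000000130000000300000003 7 6) 0 0 (step_sound _ 33 [rh6225c240486483e9, (rh71222050f2c63a3a.shift 1 0)] (by decide +kernel))
noncomputable def rh009eaba3bc2259e0 : CRef := CRef.mk (Pat.mk 0x100000000c00000000 0xfc0000007f000000ee 7 8) 0 0 (step_sound _ 69 [(rh3b36bb83f0bfb4d9.shift 1 0), (rh7401e8cf466f4e5b.shift 0 1), (rhaff4d66ab2235e4f.shift 2 1), (rhbd2e91c3fdbfa961.shift 0 1)] (by decide +kernel))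
noncomputable def rh1aa2df0b64aa2b23 : CRef := CRef.mk (Pat.mk 0xc000000050000000000000000 0x200000006000000070000007e000000ff0000000c0000000c 7 8) 0 0 (step_sound _ 100 [rh4bb84bbc7733c9c6, (rh67e5914ef7f4941c.shift 0 2), rhcb647eeafc743a9d] (by decide +kernel))
noncomputable def rh194a1432bbf178b0 : CRef := CRef.mk (Pat.mk 0x180000000a0000000000000000 0x400000004000000ef0000007f000000fb0000000800000008 7 8) 0 0 (step_sound _ 98 [rh7e04ed581401fab6, (rha95589c754418358.shift 1 0), (rhd526f9b20c752965.shift 0 2)] (by decide +kernel))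
noncomputable def rh6a1ef8befa46c823 : CRef := CRef.mk (Pat.mk 0x180000000e000000040000000000000000 0x400000004000000060000001f0000003e0000000e0000000e0000000c 7 6) 0 0 (step_sound _ 34 [(rh71222050f2c63a3a.shift 2 0), rhba5a38ed43c5563b] (by decide +kernel))
noncomputable def rh16fcad349995110b : CRef := CRef.mk (Pat.mk 0x180000000e0000000000000000 0xe0000000f0000001f0000001e0000003700000016 7 6) 0 0 (step_sound _ 68 [(rhea719cc8bd0bdd28.shift 1 0), rhf9971318f3fd5918] (by decide +kernel))
noncomputable def rhb2192f056e0a8d38 : CRef := CRef.mk (Pat.mk 0x380000000c000000000000000000000000 0x1c0000003c0000000f0000003c0000001c0000001c0000001c00000014 7 6) 0 0 (step_sound _ 163 [(rh29c87094dd31f696.shift 0 2), (rhbb339bb7e4e96b38.shift 2 2), rhd9723bd4dcb9964d] (by decide +kernel))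
noncomputable def rhb017a1319ebe3638 : CRef := CRef.mk (Pat.mk 0xf000000020 0xe000000fe000001bf 7 9) 0 0 (step_sound _ 7 [rh5097ebe0f36b58ed, (rhe25b0a99195a5d59.shift 4 0)] (by decide +kernel))
noncomputable def rh52a1e0eecf416a88 : CRef := CRef.mk (Pat.mk 0xe00000012000000000000000000000000 0x18000000380000003f0000001e000000380000001800000010 7 6) 0 0 (step_sound _ 99 [(rh7c891f33103d3ff8.shift 1 0), (rhb739f4f82bb681b4.shift 0 3)] (by decide +kernel))
noncomputable def rh8bf2ac2ff18eb843 : CRef := CRef.mk (Pat.mk 0x4000000000000001c0000000600000000 0x1a0000003e000000370000001c0000000e0000000a 7 6) 0 0 (step_sound _ 98 [rh870588e15afe6a9b, (rh932754581e0f4330.shift 1 0)] (by decide +kernel))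
noncomputable def rh4f215fb523298946 : CRef := CRef.mk (Pat.mk 0x800000000000000380000000c00000000 0x1c0000001e0000000f0000003e0000000c00000004 7 6) 0 0 (step_sound _ 99 [(rh932754581e0f4330.shift 2 0), (rha44bc320203d9c5b.shift 0 1)] (by decide +kernel))
noncomputable def rh791e01b195b9b9a1 : CRef := CRef.mk (Pat.mk 0x200000002000000020000000400000000 0x700000007000000070000000300000003000000030000000600000006 7 3) 0 0 (step_sound _ 33 [(rh55afc6a59410cf00.shift 1 0), rh80987952958d1957] (by decide +kernel))
noncomputable def rh716b1cf7fdf0d6bf : CRef := CRef.mk (Pat.mk 0x80000001800000008000000000000000000000000 0x1c0000003c0000000f000000180000007c0000001f0000001c00000018 7 7) 0 0 (step_sound _ 100 [(rh28152048bc8b598f.shift 0 2), rh289509121354f2ab, (rh3e595262c1b737ad.shift 3 2)] (by decide +kernel))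
noncomputable def rh5acc0158961c530b : CRef := CRef.mk (Pat.mk 0x8000000180000000c000000000000000000000000 0x60000000f0000001c0000000f0000003c0000001c00000010 7 6) 0 0 (step_sound _ 97 [rh0978f3ef7e1f1c5b, (rh53b3c253cb0c65f4.shift 0 3)] (by decide +kernel))
noncomputable def rhc227dad1d7b840f5 : CRef := CRef.mk (Pat.mk 0x8000000180000000c00000000 0x100000001c0000003c0000000f0000001e0000000f0000000a 7 6) 0 0 (step_sound _ 33 [(rh53b3c253cb0c65f4.shift 0 1), rhdc9917fa925dd991] (by decide +kernel))
noncomputable def rh7c73cc281167db77 : CRef := CRef.mk (Pat.mk 0x800000018000000080000001800000000 0x60000000f0000001c0000000f0000003c0000000c 7 6) 0 0 (step_sound _ 34 [rh6d9a4cae6f60466f, (rh932754581e0f4330.shift 2 0)] (by decide +kernel))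
noncomputable def rh6af61d7b93e44692 : CRef := CRef.mk (Pat.mk 0x7000000020 0x38e000001fe000003bf 7 10) 0 0 (step_sound _ 35 [(rh10e3074efe589034.shift 2 0), rh2efad3051cff7df1, (rh74f48645dd37c94b.shift 1 0), (rh775ca1963e850b80.shift 1 0)] (by decide +kernel))
noncomputable def rh2a7f40578c75b1a1 : CRef := CRef.mk (Pat.mk 0x60000000300000002000000000000000000000000 0x40000000600000006000000020000001f0000000300000007000000070000000700000001 7 5) 0 0 (step_sound _ 163 [(rh18965a982d73c794.shift 0 4), rh287cb85e87f09a73] (by decide +kernel))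
noncomputable def rh4241b995bcd449e6 : CRef := CRef.mk (Pat.mk 0x180000000c0000000800000000 0x100000001c0000001c0000000c0000001c0000000f0000003c00000014 7 6) 0 0 (step_sound _ 65 [(rh4b80b80a9bc4dfb4.shift 1 0), (rh53b3c253cb0c65f4.shift 0 2)] (by decide +kernel))
noncomputable def rhffcf600128b6f467 : CRef := CRef.mk (Pat.mk 0x800000008000000080000000800000000 0x800000008000000ff0000007e000000f4 7 8) 0 0 (step_sound _ 34 [(rh932754581e0f4330.shift 2 0), rhc207deb2a8b0fdd1] (by decide +kernel))
noncomputable def rh091910a179d89c94 : CRef := CRef.mk (Pat.mk 0x800000008000000080000001800000000 0x40000000c00000008000000ff0000007e000000e4 7 8) 0 0 (step_sound _ 34 [rh6de5559f22718f33, (rh932754581e0f4330.shift 2 0)] (by decide +kernel))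
noncomputable def rh230ebab324f46e43 : CRef := CRef.mk (Pat.mk 0x200000002000000030000000200000000000000000000000000000000 0x10000000300000002000000030000000300000007000000070000000700000001 7 3) 0 0 (step_sound _ 224 [(rh50fbb5868c909700.shift 0 4), rhe08b3642bf78c2d5] (by decide +kernel))
noncomputable def rh16127a428515670d : CRef := CRef.mk (Pat.mk 0x800000010000000100000001800000000 0x340000007f0000007e000000180000001800000010 7 7) 0 0 (step_sound _ 99 [(rh35a1a567c6ddaa06.shift 0 1), (rh7b1f1fb55310c477.shift 3 0)] (by decide +kernel))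
noncomputable def rhd6238cbaedc3e05a : CRef := CRef.mk (Pat.mk 0x8000000080000000c000000000000000000000000 0x140000001c0000001c0000003c0000000f0000001f000000780000001800000010 7 7) 0 0 (step_sound _ 226 [(rh07958068869f836f.shift 2 1), (rh07ff884a7eb6c0ed.shift 2 3), rh31a08bb28ffc631b, (rh6f4d545305a608bd.shift 2 3)] (by decide +kernel))
noncomputable def rh11d179a357fc6647 : CRef := CRef.mk (Pat.mk 0x80000000c0000000400000000 0x1c0000003c0000000f0000000e0000007c00000018 7 7) 0 0 (step_sound _ 131 [(rh5c5e593799055d58.shift 2 1), rhe901fa4a70699214] (by decide +kernel))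
noncomputable def rh2e24f778bc2a4c98 : CRef := CRef.mk (Pat.mk 0x400000007000000020 0x7c000001fe000003b7 7 10) 0 0 (step_sound _ 39 [(rh9ab60d74117ac343.shift 4 0), rhcbf43dbdbdad0e01, (rhe401600d466b97cd.shift 3 0)] (by decide +kernel))
noncomputable def rh662aab934ed6bc9a : CRef := CRef.mk (Pat.mk 0x400000007000000000 0x767000003fe000003bf 7 11) 0 0 (step_sound _ 39 [(rh06db8ceda6269a47.shift 3 0), rh39044c6164022eb3, (rh84d1614f5efa9132.shift 4 0)] (by decide +kernel))
noncomputable def rhf7bea59ef93a7704 : CRef := CRef.mk (Pat.mk 0x20000000380000000000000000 0x800000008000003bf000001fe000001c700000004 7 10) 0 0 (step_sound _ 98 [(rh1713b2a8615f2751.shift 0 1), (rh8c12fdbbddc1e7ab.shift 0 2), (rh9f369c7d09b26250.shift 2 1), (rhf119fefe21067f2b.shift 1 0)] (by decide +kernel))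
noncomputable def rh2ed1606403c39bab : CRef := CRef.mk (Pat.mk 0x120000001c00000000 0x1e000000ff000000e7 7 8) 0 0 (step_sound _ 37 [(rh3f8766e6ecb455ce.shift 1 1), rh46f671a587fc5f09] (by decide +kernel))
noncomputable def rh64708bc94a0eca1e : CRef := CRef.mk (Pat.mk 0x120000001c0000000000000000 0x20000000a0000000f0000001f0000003c0000000400000004 7 6) 0 0 (step_sound _ 98 [rh24115c8042de37aa, (rhf48373e13d2bc128.shift 1 2)] (by decide +kernel))
noncomputable def rh8800904fef69e412 : CRef := CRef.mk (Pat.mk 0x200000007000000040 0x3b7000001fe0000007c 7 10) 0 0 (step_sound _ 39 [(rh3b00e9e9432b8f40.shift 3 0), rh606342497c588657, (rhb0716bb49afa8156.shift 4 1)] (by decide +kernel))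
noncomputable def rh16dde4d5d9cebec6 : CRef := CRef.mk (Pat.mk 0x1000000038000000000000000000000000 0x800000048000000de000000ff000000f60000002400000020 7 8) 0 0 (step_sound _ 131 [(rh45b1aa7c3da24c60.shift 0 1), (rh79b3c29022acbdf3.shift 2 3), (rhf04b1c50f528f108.shift 2 0)] (by decide +kernel))
noncomputable def rh0fcb97f14f9443fb : CRef := CRef.mk (Pat.mk 0x1000000038000000080000000000000000 0x4000000170000003e0000007e0000006800000028 7 7) 0 0 (step_sound _ 35 [(rh71222050f2c63a3a.shift 3 0), rhd467bd5f1da2c608] (by decide +kernel))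
noncomputable def rh523319eb38fda7c7 : CRef := CRef.mk (Pat.mk 0xa0000001e000000000000000000000000 0x20000000a0000001f0000003f0000003400000014 7 6) 0 0 (step_sound _ 65 [rh0c30f9933bd0a1cc, (rheb0810cc63b001d8.shift 0 2)] (by decide +kernel))
noncomputable def rh8fee0b64e7d89f0e : CRef := CRef.mk (Pat.mk 0x60000001e000000000000000000000000 0x2000000060000001f0000003f0000000700000006 7 6) 0 0 (step_sound _ 65 [rh8543cd1365a92669, (rheb0810cc63b001d8.shift 0 2)] (by decide +kernel))
noncomputable def rh8bfc7a3ca5efef74 : CRef := CRef.mk (Pat.mk 0x100000001c0000000800000000 0x100000001000000017000000ff0000007c00000020 7 8) 0 0 (step_sound _ 132 [(rh5c5e593799055d58.shift 3 1), rhae989a2da3f077de] (by decide +kernel))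
noncomputable def rh0160366176288439 : CRef := CRef.mk (Pat.mk 0x2000000038000000100000000000000000 0x280000007c0000002f000000fc0000001e0000000800000008 7 8) 0 0 (step_sound _ 165 [rh163056873aad428f, (rh5c5e593799055d58.shift 4 2)] (by decide +kernel))
noncomputable def rhdb209ca2faddcbda : CRef := CRef.mk (Pat.mk 0x80000000e000000040000000000000000 0x2000000eb0000007e0000007f0000000400000004 7 8) 0 0 (step_sound _ 34 [(rh2dabdb57fed8c104.shift 0 1), (rh71222050f2c63a3a.shift 2 0)] (by decide +kernel))
noncomputable def rh94ab70594a1b78ae : CRef := CRef.mk (Pat.mk 0x80000000e000000100000000000000000 0x80000000a0000000b0000003e000000370000000400000004 7 6) 0 0 (step_sound _ 100 [rh4c124a044c8751c2, (rhe25b0a99195a5d59.shift 1 2)] (by decide +kernel))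
noncomputable def rh0e25fafcaa4806d2 : CRef := CRef.mk (Pat.mk 0x80000000c000000080000000000000000 0x40000001c0000001c0000003c0000000f0000003c000000180000000800000008 7 6) 0 0 (step_sound _ 163 [(rh0cc5ec3dc7c29722.shift 2 2), (rh1741680720c097b4.shift 2 2), (rh5ee4dc8825dcefa0.shift 0 1), (rh6ebd0df19ee0dbf0.shift 0 1), (rhb71a391a0ebc5b57.shift 2 1), (rhcaa2c1a05e34bcba.shift 2 0)] (by decide +kernel))
noncomputable def rhb18d48d99168c8c7 : CRef := CRef.mk (Pat.mk 0x80000000e0000001800000000000000000000000000000000 0x40000000c0000001e0000001b0000001f0000001e0000001c00000010 7 5) 0 0 (step_sound _ 99 [(rh0b7b56b1d93191f8.shift 2 0), (rhe03ee404dc074495.shift 0 2), (rhe286c75f2739cce2.shift 2 2)] (by decide +kernel))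
noncomputable def rh339ade4f3735795f : CRef := CRef.mk (Pat.mk 0x200000003000000020000000200000000 0x10000000700000007000000070000000300000003000000020000000600000004 7 3) 0 0 (step_sound _ 34 [(rh55afc6a59410cf00.shift 1 0), (rhd91b73d7ee353e95.shift 0 1)] (by decide +kernel))
noncomputable def rhdefc3bfcc9ae1f83 : CRef := CRef.mk (Pat.mk 0x80000000c000000040000000000000000 0x600000006000000160000003f0000003f0000000c0000000c0000000c 7 6) 0 0 (step_sound _ 34 [(rh71222050f2c63a3a.shift 2 0), rh945107b05449e21d] (by decide +kernel))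
noncomputable def rh6f94fdc9b347643a : CRef := CRef.mk (Pat.mk 0xc0000000600000000 0xa0000000a0000003b0000003f0000003600000014 7 6) 0 0 (step_sound _ 68 [(rh18965a982d73c794.shift 1 1), rhafcf0f410019ba61] (by decide +kernel))
noncomputable def rh9a2622a104cce83f : CRef := CRef.mk (Pat.mk 0x40000000c000000040000000400000000 0x180000007c0000000e0000003c0000000f0000000a 7 7) 0 0 (step_sound _ 131 [rh1c8b283f34188255, (rh2f68792b6b779e96.shift 2 1)] (by decide +kernel))
noncomputable def rh1842828aefc4a7a0 : CRef := CRef.mk (Pat.mk 0x200000006000000020000000200000000 0x40000000700000007000000070000000600000006000000020000000300000001 7 3) 0 0 (step_sound _ 32 [(rh5b85ac987260870e.shift 0 1), rh932754581e0f4330] (by decide +kernel))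
noncomputable def rhd8032f56e47dfc26 : CRef := CRef.mk (Pat.mk 0x180000000800000008000000000000000000000000 0x800000018000000180000007f0000007e0000003c00000014 7 7) 0 0 (step_sound _ 68 [(rh2977b00063528966.shift 3 0), (rh47dece01c1595e79.shift 3 0), (rh6f022302a8eeec88.shift 2 0), (rhbc3cf88a7322bd1d.shift 1 1), (rhfa80626feb4e9cb5.shift 0 1)] (by decide +kernel))
noncomputable def rh4a625f0523c2a0b0 : CRef := CRef.mk (Pat.mk 0x6000000020000000200000002000000020000000000000000 0x1000000030000001f000000020000000200000002000000070000000700000005 7 5) 0 0 (step_sound _ 224 [rh77ff1c64e6af3eee, (rhffd04209dc8ea796.shift 0 3)] (by decide +kernel))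
noncomputable def rheacacc1b10be3bd9 : CRef := CRef.mk (Pat.mk 0x1c0000000800000000 0x400000004000000ef0000007e0000007b00000002 7 8) 0 0 (step_sound _ 37 [(rh7344b4efa7925350.shift 1 1), rh7a1239c2a7481f1d, (rhef4876f9e7eb0bda.shift 1 1)] (by decide +kernel))
noncomputable def rhaa2ec5ac59f73012 : CRef := CRef.mk (Pat.mk 0x1e0000001400000000 0xa0000000b0000003f0000003e0000001400000010 7 6) 0 0 (step_sound _ 100 [(rh33e738c4ed385b9f.shift 1 2), rh8eb802601c3407c8] (by decide +kernel))
noncomputable def rh4b02dbabdc5e471a : CRef := CRef.mk (Pat.mk 0x1400000018000000080000000800000000 0x640000003f0000001f000000180000001800000010 7 7) 0 0 (step_sound _ 131 [(rh50fbb5868c909700.shift 2 1), rh8712c5361ad0bd83] (by decide +kernel))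
noncomputable def rh8881f09ea3cdc41b : CRef := CRef.mk (Pat.mk 0xa0000000c00000004 0xff000000fe0000007c 7 8) 0 0 (step_sound _ 36 [(rh54c49bb299227e8d.shift 0 1), rh7cf536b4f4368020, (rhb84b1f66852c4b18.shift 1 0)] (by decide +kernel))
noncomputable def rh84d32dc7b6595cb0 : CRef := CRef.mk (Pat.mk 0x28000000300000001000000000 0x800000008000000ef000003fe000001f600000004 7 10) 0 0 (step_sound _ 67 [(rh382622e5e38af35d.shift 2 1), (rh5dec5e73a267a1c4.shift 1 1), (rha9fbfd4bb8cf890b.shift 0 2), (rhdf15b40c9702d329.shift 1 0), (rhf987458f2696f0ee.shift 2 2)] (by decide +kernel))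
noncomputable def rha0b2e9effb01e9d5 : CRef := CRef.mk (Pat.mk 0x180000000c000000000000000000000000 0x40000000c0000001f000000ff000000f30000001200000010 7 8) 0 0 (step_sound _ 97 [(rh53b3c253cb0c65f4.shift 0 3), rhcbf08a050b82a7e7] (by decide +kernel))
noncomputable def rh53cb300bcb72518b : CRef := CRef.mk (Pat.mk 0x180000000c000000000000000000000000 0x10000000380000001f000000ff000000f80000001800000010 7 8) 0 0 (step_sound _ 97 [(rh53b3c253cb0c65f4.shift 0 3), rhd1108d9b1d500edb] (by decide +kernel))
noncomputable def rhbde7df1047197f39 : CRef := CRef.mk (Pat.mk 0x80000001e00000000 0x1f8000000fe000000e3 7 9) 0 0 (step_sound _ 1 [(rh8d33df7ee954b6ed.shift 1 0), rheb0810cc63b001d8] (by decide +kernel))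
noncomputable def rh4cecdcfbfb36249b : CRef := CRef.mk (Pat.mk 0x180000000c0000000000000000 0x14000000170000007e0000007c0000006800000028 7 7) 0 0 (step_sound _ 101 [(rh18965a982d73c794.shift 2 2), rhcced098220cbedd0] (by decide +kernel))
noncomputable def rh9bb1d17be7e49ea7 : CRef := CRef.mk (Pat.mk 0x380000000c0000000000000000 0x6000000360000007f0000003e0000007c0000007000000030 7 7) 0 0 (step_sound _ 98 [(rh09fb2f953a1dfd6f.shift 2 0), (rh2456963ff1f7bf23.shift 0 2), (rha181fcaac96efe0b.shift 1 2)] (by decide +kernel))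
noncomputable def rhf8c6fc73fe1cb157 : CRef := CRef.mk (Pat.mk 0x20000000600000003000000000000000000000000 0x4000000060000000700000003000000070000000700000003000000060000000600000004 7 3) 0 0 (step_sound _ 65 [(rh04ee05071d91faba.shift 0 1), (rh301a6b3a9154ed36.shift 1 0), rh8ff3dde5b1c639e0, (rh97ad1986540fd573.shift 0 2)] (by decide +kernel))
noncomputable def rh702c67f465988e00 : CRef := CRef.mk (Pat.mk 0x20000000200000003000000000000000000000000 0x7000000070000000700000006000000070000000700000003000000060000000600000006 7 3) 0 0 (step_sound _ 193 [(rh8dc2031d32064d45.shift 0 2), (rh9a369cb82ea472da.shift 0 3), (rha843ac6af038b7c8.shift 0 2), (rhb77bfac3e9efecea.shift 0 3), rhcb8e97e388f6d328] (by decide +kernel))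
noncomputable def rh23db3de14eb1a451 : CRef := CRef.mk (Pat.mk 0x2000000020000000300000000000000000000000000000000 0x5000000070000000700000006000000070000000300000006000000070000000700000001 7 3) 0 0 (step_sound _ 226 [(rh87d5e4118780fa3b.shift 1 3), (rh8fb96b2877771c9d.shift 0 4), rhbf341b4d3d4c4d22] (by decide +kernel))
noncomputable def rh73f0dc8443306bfe : CRef := CRef.mk (Pat.mk 0xc000000080000000c0000000800000000 0x100000007e0000007e0000000f0000001800000010 7 7) 0 0 (step_sound _ 132 [(rh2f68792b6b779e96.shift 3 1), rh3b62b024c5dff9ca] (by decide +kernel))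
noncomputable def rh061932d7ff725553 : CRef := CRef.mk (Pat.mk 0x8000000080000000c000000000000000000000000 0x140000001c0000001c0000001c0000003c0000001f0000000c000000180000001800000010 7 6) 0 0 (step_sound _ 67 [(rh4fafabba44a8af95.shift 2 0), (rh8146230b61a7ca44.shift 0 1), (rh8ff3dde5b1c639e0.shift 2 0), (rhb71a391a0ebc5b57.shift 2 1), (rhefb41fb43257ec4b.shift 2 1)] (by decide +kernel))
noncomputable def rh7f927f72daf5c8ef : CRef := CRef.mk (Pat.mk 0x600000006000000040000000400000000 0x380000003f0000003e0000000c0000000c00000008 7 6) 0 0 (step_sound _ 131 [(rh2f68792b6b779e96.shift 2 1), rhe2a8ccbb586eb10a] (by decide +kernel))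
noncomputable def rh74e8df641e7ac07a : CRef := CRef.mk (Pat.mk 0xc000000060000000400000000 0x20000000e0000000f0000003c0000000e0000003c00000018 7 6) 0 0 (step_sound _ 100 [(rh18965a982d73c794.shift 1 2), rhb3151143ccbe9e5a] (by decide +kernel))
noncomputable def rha2668786ee0acef3 : CRef := CRef.mk (Pat.mk 0xc0000000600000004000000000000000000000000 0x140000003c0000000e0000003c0000000f0000000e00000002 7 6) 0 0 (step_sound _ 164 [rh100dd10a8153318d, (rh18965a982d73c794.shift 1 4)] (by decide +kernel))
noncomputable def rhd84cc7a71b1748de : CRef := CRef.mk (Pat.mk 0x600000004000000060000000400000000 0xc0000000f0000003c0000000e0000003c00000018 7 6) 0 0 (step_sound _ 131 [rh03ad4c59dddea800, (rh2f68792b6b779e96.shift 2 1)] (by decide +kernel))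
noncomputable def rh01c9931602028a53 : CRef := CRef.mk (Pat.mk 0x8000000080000001c00000000 0x1c0000001e00000078000000380000001f00000008 7 7) 0 0 (step_sound _ 68 [(rh2e7f8a2729b51c54.shift 1 0), (rhab2ad169e49f9c5e.shift 0 1)] (by decide +kernel))
noncomputable def rh98fd766e6d21c0f7 : CRef := CRef.mk (Pat.mk 0x40000000c0000000e00000000 0x1c0000003c0000000f0000003c0000000e00000004 7 6) 0 0 (step_sound _ 68 [(rh18965a982d73c794.shift 1 1), rh61a0afaa4c429871] (by decide +kernel))
noncomputable def rh9a0b4b347940219c : CRef := CRef.mk (Pat.mk 0x8000000180000001c00000000 0x38000000780000001e000000180000001f00000008 7 7) 0 0 (step_sound _ 33 [(rh53b3c253cb0c65f4.shift 0 1), (rhafcf2efb892dfab7.shift 1 0)] (by decide +kernel))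
noncomputable def rh9d304f64a005a19c : CRef := CRef.mk (Pat.mk 0x8000000180000001c00000000 0x1c0000003c0000000f000000780000001c00000008 7 7) 0 0 (step_sound _ 69 [(rh18965a982d73c794.shift 2 1), rh2b4f3c0785538b0e] (by decide +kernel))
noncomputable def rhe7adda6d0caa3ed5 : CRef := CRef.mk (Pat.mk 0x8000000180000001c00000000 0x1c0000003c0000000f000000180000001f00000008 7 6) 0 0 (step_sound _ 131 [(rh2145e1d24b96a57e.shift 3 1), rhb5a4a55aeb8feb4e] (by decide +kernel))
noncomputable def rh6e552f69a283c24f : CRef := CRef.mk (Pat.mk 0x8000000080000001c000000000000000000000000 0xc0000000c0000001f000000780000001f000000080000000800000008 7 7) 0 0 (step_sound _ 132 [rh78930660e7f6e098, (rh8c32cdf3ee44b1a1.shift 0 2), (rhf9d36e158778ce35.shift 1 3)] (by decide +kernel))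
noncomputable def rhf2118f267177b447 : CRef := CRef.mk (Pat.mk 0x8000000380000000c000000000000000000000000 0x400000004000000060000001f0000003a0000000f0000001a0000001800000010 7 6) 0 0 (step_sound _ 97 [rh189f6da603e56c10, (rh53b3c253cb0c65f4.shift 0 3)] (by decide +kernel))
noncomputable def rhbaaf30bf3e29c8c8 : CRef := CRef.mk (Pat.mk 0x40000000c0000000600000000000000000000000000000000 0xa0000000f0000003c0000000e0000000c0000000e0000000e00000002 7 6) 0 0 (step_sound _ 164 [rh0ca2220c65d829b7, (rh18965a982d73c794.shift 1 4)] (by decide +kernel))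
noncomputable def rh80ed50b69e2cea8d : CRef := CRef.mk (Pat.mk 0x10000000100000001000000010 0x2f0000007e000000ff0000001000000010 7 8) 0 0 (step_sound _ 101 [(rh2f68792b6b779e96.shift 4 0), rhaf2b9bac8c1da909] (by decide +kernel))
noncomputable def rh62ccca6c7c761343 : CRef := CRef.mk (Pat.mk 0x1000000008000000080000000800000000 0x1c0000003c0000000f000000180000001800000018 7 6) 0 0 (step_sound _ 131 [(rh2f68792b6b779e96.shift 3 1), rh72bf706c4c313654] (by decide +kernel))
noncomputable def rhf395b60d1e53325a : CRef := CRef.mk (Pat.mk 0xc0000000c000000080000000800000000 0xc0000001f0000007b0000001f00000016 7 7) 0 0 (step_sound _ 36 [(rh55afc6a59410cf00.shift 3 0), rhd05e87ad4f65f5c9] (by decide +kernel))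
noncomputable def rh8ff31524f00fcbe5 : CRef := CRef.mk (Pat.mk 0x380000000c0000000000000000 0x10000000140000007f0000003f0000007c0000002800000008 7 7) 0 0 (step_sound _ 132 [(rh4461edbf9030f2f6.shift 1 0), (rh6bc3ca0a67fd5927.shift 0 1), (rhadf429772c25fde0.shift 3 0)] (by decide +kernel))
noncomputable def rh45fc6d1d1312ce8b : CRef := CRef.mk (Pat.mk 0x14000000060000000000000000 0x8000000080000003c0000003f000000070000000400000004 7 6) 0 0 (step_sound _ 99 [(rh18965a982d73c794.shift 1 2), rhf2ffe75fc09e7c08] (by decide +kernel))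
noncomputable def rha9583e2127520dd3 : CRef := CRef.mk (Pat.mk 0x280000000c0000000000000000 0x10000000140000007f0000003e0000007f0000000800000008 7 7) 0 0 (step_sound _ 100 [(rh1ed7a3503fa50fc8.shift 0 2), rha5814c4f9bea8f0a, (rheea1a90336e79c71.shift 0 2)] (by decide +kernel))
noncomputable def rhc2908dff06776615 : CRef := CRef.mk (Pat.mk 0x1000000038000000000000000000000000 0x1000000010000000170000003e000000770000002000000020 7 7) 0 0 (step_sound _ 69 [(rh3e5f3881f4dd74e3.shift 0 2), (rhb2afcb5db661472f.shift 0 2), (rhc38f566cab2818e5.shift 4 0)] (by decide +kernel))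
noncomputable def rha12d719d0e3490e9 : CRef := CRef.mk (Pat.mk 0x20000000e00000003000000000000000000000000 0x4000000060000000e0000001b0000001f0000000f00000005 7 5) 0 0 (step_sound _ 65 [(rh127b405bd7f7b930.shift 1 0), rh8cdd36b03d57a2f6, (rha707fb719e87fe6e.shift 1 1), (rhfcb09660cf2634b3.shift 0 1)] (by decide +kernel))
noncomputable def rh0d5b9b6264de8dbd : CRef := CRef.mk (Pat.mk 0x8000000180000000e0000000000000000 0x1000000018000000180000003e0000003f0000001c 7 6) 0 0 (step_sound _ 36 [(rh478c4cadbcd4e066.shift 3 0), rh9b0209aed1a9bd83, (rhb3a2f76440e25df9.shift 1 0), (rhc76d142f049b7a48.shift 1 0)] (by decide +kernel))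
noncomputable def rh01c12cc3a8a6db05 : CRef := CRef.mk (Pat.mk 0x180000000b00000000000000000000000000000000 0x80000000c0000001c0000001c000000180000001b0000007e0000001e0000001c00000014 7 7) 0 0 (step_sound _ 99 [(rh274a837cd7eaa569.shift 2 0), (rh37f0308d6fa1587c.shift 2 0), (rh3820f35d5e705bec.shift 3 0), (rhc71ef7b4c7994ef8.shift 0 2), (rheb5cf6be9daf210b.shift 1 1)] (by decide +kernel))
noncomputable def rhd66594b3c3f7b14e : CRef := CRef.mk (Pat.mk 0x380000000c00000000000000000000000000000000 0x140000001c0000003f000000380000002f0000007c000000380000001000000010 7 7) 0 0 (step_sound _ 129 [(rh53b3c253cb0c65f4.shift 0 4), rhe77048db517ad1d3] (by decide +kernel))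
noncomputable def rhfd673660fa4abc3d : CRef := CRef.mk (Pat.mk 0x10000000500000001800000000 0x1000000010000000770000003e0000002f 7 7) 0 0 (step_sound _ 132 [(rh932754581e0f4330.shift 3 0), rhf74ffa6e5983eeb7] (by decide +kernel))
noncomputable def rh5ab3e80ba6803e5b : CRef := CRef.mk (Pat.mk 0x10000000500000001800000000 0x28000000380000003800000010000000770000003e00000027 7 7) 0 0 (step_sound _ 132 [(rh1741680720c097b4.shift 3 1), (rh5abfc4c9d959be03.shift 3 0), rhf74ffa6e5983eeb7] (by decide +kernel))
noncomputable def rh545a56c0ba685948 : CRef := CRef.mk (Pat.mk 0x400000003800000000 0xc7000000ff0000003f 7 8) 0 0 (step_sound _ 38 [(rh33e738c4ed385b9f.shift 3 1), rhe697280370e33871] (by decide +kernel))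
noncomputable def rh5605d6b87818563f : CRef := CRef.mk (Pat.mk 0x200000002000000070000000000000000000000000 0x200000006f0000007e000000cf0000004000000040 7 8) 0 0 (step_sound _ 70 [(rh08edf065357d68e5.shift 5 0), (rh3918eeb6c53434d8.shift 1 2), (rhc7ed0dbd4dd1ff1a.shift 0 2)] (by decide +kernel))
noncomputable def rhfb8c75b59003d2e2 : CRef := CRef.mk (Pat.mk 0x80000001c0000000600000000 0x1c0000003c0000001f0000001c0000007e00000073 7 7) 0 0 (step_sound _ 131 [(rh5c5e593799055d58.shift 2 1), rhcd775d34464bbbba] (by decide +kernel))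
noncomputable def rh02cc147da1ed8375 : CRef := CRef.mk (Pat.mk 0x380000000e0000000000000000000000000000000000000000 0x140000001c0000001f000000380000000e0000007c000000180000001c0000001c00000004 7 7) 0 0 (step_sound _ 131 [(rh215e11e099257d75.shift 3 3), (rh4f3c983e7b2d8da3.shift 2 0), (rh7fbc824ea4018db7.shift 1 1), (rhace8d3f5c0278871.shift 0 3)] (by decide +kernel))
noncomputable def rhab00a2e5df2e91af : CRef := CRef.mk (Pat.mk 0xa000000030000000000000000000000000 0x2000000020000000ef0000007e000001fe0000004000000040 7 9) 0 0 (step_sound _ 99 [(rh3838695ed662e381.shift 2 0), (rhb9d70f667ff7387a.shift 0 2), (rhddb24c61d0a0d35a.shift 2 3), (rheff8110d9b1b930c.shift 1 0)] (by decide +kernel))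
noncomputable def rh08907ceb8a14f3c9 : CRef := CRef.mk (Pat.mk 0x8000000080000000c0000000800000000 0x140000001e000000780000000f0000001800000018 7 7) 0 0 (step_sound _ 36 [rh2850f27872319b80, (rh55afc6a59410cf00.shift 3 0)] (by decide +kernel))
noncomputable def rh4db4de1e5a808d4c : CRef := CRef.mk (Pat.mk 0x100000001e000000020000000000000000 0x4000000140000003f0000003e0000000b0000000a 7 6) 0 0 (step_sound _ 68 [rh5ea8f42d615ea461, (rhe25b0a99195a5d59.shift 1 2)] (by decide +kernel))
noncomputable def rh3de7c490106c018b : CRef := CRef.mk (Pat.mk 0x2000000038000000000000000000000000 0x80000002f000000fe000001ff0000001000000010 7 9) 0 0 (step_sound _ 70 [(rh6aa0ed61cce1493b.shift 2 2), (rh88c620441a3a17ea.shift 0 2), (rhf7850a566a9aff66.shift 2 0), (rhfc49ace0fb47c1b9.shift 1 2)] (by decide +kernel))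
noncomputable def rh5750f17e352cc553 : CRef := CRef.mk (Pat.mk 0x100000001c000000180000000000000000 0x4000000140000003f0000001f0000000b0000000a 7 6) 0 0 (step_sound _ 35 [rh2a477dbc687cff57, (rh71222050f2c63a3a.shift 3 0)] (by decide +kernel))
noncomputable def rh0c37afd1a84882eb : CRef := CRef.mk (Pat.mk 0x100000001c00000018000000000000000000000000 0x1000000010000000140000003f0000001f000000030000000200000002 7 6) 0 0 (step_sound _ 196 [(rh5c5e593799055d58.shift 3 3), rh9e32231d7004bb35] (by decide +kernel))
noncomputable def rh7ef6da33be922608 : CRef := CRef.mk (Pat.mk 0x100000001c0000000800000000 0x100000001000000017000000ff0000007c00000020 7 8) 0 0 (step_sound _ 132 [rh4854df16bb655f33, (rh5c5e593799055d58.shift 3 1)] (by decide +kernel))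
noncomputable def rhd560edd04d51354c : CRef := CRef.mk (Pat.mk 0x8000000080000000c0000000000000000 0x140000001e000000780000001f0000007c0000001c 7 7) 0 0 (step_sound _ 35 [rh42e615827c8908b1, (rh6311a353758d5f3a.shift 1 0)] (by decide +kernel))
noncomputable def rhf5254fbc2231773c : CRef := CRef.mk (Pat.mk 0x380000000c000000000000000000000000 0x100000001c0000001c0000000c0000001f000000380000000c0000001c0000001c00000014 7 6) 0 0 (step_sound _ 163 [(rh281c6819542c66e6.shift 2 0), rh28ea138fef552e6e, rh95470263832c4b38, (rha8241f37c79477a8.shift 2 2)] (by decide +kernel))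
noncomputable def rhbf104603d478ec75 : CRef := CRef.mk (Pat.mk 0x100000001000000018000000080000000800000000 0x10000001f0000000fe000001ef0000007c00000020 7 9) 0 0 (step_sound _ 101 [(rh2820ca9a6c4f41b4.shift 0 2), (rh352b7f91eba0c81f.shift 2 2), (rh72010f2280fa7e86.shift 1 0)] (by decide +kernel))
noncomputable def rhe04cd7a4d02448ec : CRef := CRef.mk (Pat.mk 0x1e000000040000000000000000 0x8000000080000003b0000001f000000340000001400000004 7 6) 0 0 (step_sound _ 129 [(rh3244c3cc8379b070.shift 0 3), rh9257749e8d852887] (by decide +kernel))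
noncomputable def rh4346dff3d1f1dfe2 : CRef := CRef.mk (Pat.mk 0x800000008000000080000000800000000 0xc0000000c0000000c0000003c0000000f0000000e 7 6) 0 0 (step_sound _ 34 [(rh932754581e0f4330.shift 2 0), rhbe3c062e3a46bf62] (by decide +kernel))
noncomputable def rh2a386e6e80d4f906 : CRef := CRef.mk (Pat.mk 0xe0000000200000000 0x8000000080000003b0000001f0000003300000010 7 6) 0 0 (step_sound _ 68 [rh0ac2cf60ab15cc3f, (rheb0810cc63b001d8.shift 0 1)] (by decide +kernel))
noncomputable def rh05ac68645ac65032 : CRef := CRef.mk (Pat.mk 0x3400000006000000000000000000000000 0xa0000000e0000000e0000001e00000036000000070000003e0000000e0000000e 7 6) 0 0 (step_sound _ 162 [(rh04725cccf4f32c57.shift 1 0), (rh281c6819542c66e6.shift 1 0), (rh7a7e08304268422e.shift 1 2), rh8bdae004c815c501] (by decide +kernel))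
noncomputable def rhc935cd115de32868 : CRef := CRef.mk (Pat.mk 0xe000000020000000000000000 0x4000000140000003f0000003f0000003a0000000a00000008 7 6) 0 0 (step_sound _ 100 [(rh44fae8d9c1045ff0.shift 0 2), rh71c91e0c7d2a8491, (rhaf661323c6e1d2ba.shift 0 1)] (by decide +kernel))
noncomputable def rh8259adcf7cb38d51 : CRef := CRef.mk (Pat.mk 0x180000000a0000000000000000 0x400000014000000ff0000007f000000eb0000000a00000008 7 8) 0 0 (step_sound _ 98 [rh1815fa84a9d15ea1, (rh73f5f7cdf41b5bc9.shift 0 1), (rha95589c754418358.shift 1 0)] (by decide +kernel))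
noncomputable def rhda38e211aed6834c : CRef := CRef.mk (Pat.mk 0xc00000006000000020000000000000000 0x80000000a0000003f0000003e000000370000001600000006 7 6) 0 0 (step_sound _ 132 [(rh18965a982d73c794.shift 1 3), rh3c1435e6c3bb88bc] (by decide +kernel))
noncomputable def rh86c33a4aa38d6fec : CRef := CRef.mk (Pat.mk 0x80000001c0000000600000000 0x1e0000003f0000007f0000001c0000000e0000000a 7 7) 0 0 (step_sound _ 131 [rh1bb71aebb3c2ab8b, (rh5c5e593799055d58.shift 2 1)] (by decide +kernel))
noncomputable def rh40e8f236bcbe2122 : CRef := CRef.mk (Pat.mk 0x180000000e000000000000000000000000 0x1e0000003f0000001f0000003e0000000f0000000e00000004 7 6) 0 0 (step_sound _ 100 [rh2395824d1086e2bc, (rh2516b3f0cc9ec83b.shift 0 1), rh2a51b324027df434, (rh41d5a93e35cc8528.shift 0 1)] (by decide +kernel))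
noncomputable def rh46de548b811aef64 : CRef := CRef.mk (Pat.mk 0x1800000010000000100000001000000000 0x270000007e0000007f000000100000001000000010 7 7) 0 0 (step_sound _ 133 [(rh2f68792b6b779e96.shift 4 1), rh9688a966abf0771e] (by decide +kernel))
noncomputable def rh5cf42e60531ffcc1 : CRef := CRef.mk (Pat.mk 0x1c0000000600000000000000000000000000000000 0x1a0000003b0000001f0000003e0000001c0000001e0000000600000002 7 6) 0 0 (step_sound _ 98 [(rh000637b5a81e86aa.shift 1 1), (rh15590a39afd9a120.shift 1 0), (rha8e73d70fa5f2506.shift 0 2), (rhda3a4b20dc1ede86.shift 0 2)] (by decide +kernel))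
noncomputable def rh0e2845dfa17f087f : CRef := CRef.mk (Pat.mk 0x400000006000000040000000000000000 0x20000000e0000000e0000000c00000006000000060000003e0000000f0000000a 7 6) 0 0 (step_sound _ 33 [(rh568dedf39348a228.shift 1 1), (rh5ddbeed5d869bf16.shift 1 0), rh86aa94d7c0c1e10d] (by decide +kernel))
noncomputable def rh7c4906a2093b9cee : CRef := CRef.mk (Pat.mk 0x80000000c000000080000000000000000 0x80000001c0000003c0000000f0000000c0000001c0000001800000018 7 6) 0 0 (step_sound _ 130 [(rh267543c1c418c231.shift 2 0), (rh6a488857888876b5.shift 0 1), (rhfc7c29d8e65d775f.shift 2 1)] (by decide +kernel))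
noncomputable def rh48ce442b8e74e2d6 : CRef := CRef.mk (Pat.mk 0x80000000c0000000800000000 0x180000001c0000003c0000000f0000000c0000000c0000000c 7 6) 0 0 (step_sound _ 131 [(rh03dfdf12d5937476.shift 2 0), (rhb71a391a0ebc5b57.shift 2 0), rhd587b62b227a7eb9] (by decide +kernel))
noncomputable def rh85ac74c283a347ed : CRef := CRef.mk (Pat.mk 0xc0000000c000000080000000000000000 0xc0000000c0000003f0000001f0000001f 7 6) 0 0 (step_sound _ 35 [rh2c88baba8a8d3393, (rh7b1f1fb55310c477.shift 2 0)] (by decide +kernel))
noncomputable def rhd735032a261c6c34 : CRef := CRef.mk (Pat.mk 0x70000000180000000000000000 0x2000000038000000fe0000007f000000f8000000f000000070 7 8) 0 0 (step_sound _ 133 [(rh1c31f1c2944b3cd9.shift 2 0), (rh1db2eb51bd6148ac.shift 0 1), (rhadf429772c25fde0.shift 4 0)] (by decide +kernel))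
noncomputable def rhef761348cfba9e15 : CRef := CRef.mk (Pat.mk 0x180000000c0000000000000000 0x18000000380000001f0000003f0000003800000018 7 6) 0 0 (step_sound _ 65 [(rh53b3c253cb0c65f4.shift 0 2), rh8bbab61d4dfe2880] (by decide +kernel))
noncomputable def rha37a6255da7ed2f1 : CRef := CRef.mk (Pat.mk 0x8000000380000000c00000000 0x1c0000001e0000003f0000003f0000007c00000070 7 7) 0 0 (step_sound _ 66 [(rh8ddec07355289b6c.shift 2 0), (rhcee2bf619c9d7021.shift 0 1), (rhf1edb6671c9a5104.shift 0 1)] (by decide +kernel))
noncomputable def rhac04ae6e2bb89c9a : CRef := CRef.mk (Pat.mk 0x8000000180000000e00000000 0x140000001c0000001c000000080000001f000000fe000000f0 7 8) 0 0 (step_sound _ 131 [(rh1ae8cb0b33fd1844.shift 2 1), rh7da40384dbaf7947, (rh812b908590c67662.shift 2 1)] (by decide +kernel))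
noncomputable def rhb398cbab44b6c053 : CRef := CRef.mk (Pat.mk 0x7000000018000000000000000000000000 0x180000007e0000007f00000018000000180000001800000018 7 7) 0 0 (step_sound _ 67 [(rh554c4947818a8194.shift 2 0), (rhadf429772c25fde0.shift 3 0), (rhb1bde2fedbcf7a62.shift 1 1), (rhcfe8a8c639cd66cb.shift 0 1)] (by decide +kernel))
noncomputable def rh1e54711dd4343d23 : CRef := CRef.mk (Pat.mk 0x10000000180000000e000000000000000000000000 0x2000000330000001f0000003e0000000f0000000c00000004 7 6) 0 0 (step_sound _ 67 [(rh71222050f2c63a3a.shift 3 1), rhe7a4aa5c2cf540ff] (by decide +kernel))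
noncomputable def rhb0984eb17ecf1549 : CRef := CRef.mk (Pat.mk 0x20000000300000001c0000000000000000 0x3000000034000000760000003f0000007c0000000e00000008 7 7) 0 0 (step_sound _ 165 [(rh5c5e593799055d58.shift 4 2), rh8bb5c0a4bcaaabfd] (by decide +kernel))
noncomputable def rhc5721650ad5de43d : CRef := CRef.mk (Pat.mk 0x8000000080000000c0000001000000000 0x140000001c000000780000001f0000001800000018 7 7) 0 0 (step_sound _ 35 [(rh55afc6a59410cf00.shift 3 0), rhb388751587d90a9c] (by decide +kernel))
noncomputable def rh914e55efb339acca : CRef := CRef.mk (Pat.mk 0x200000002000000030000000500000000 0x4000000060000000e0000001f0000001f0000001c 7 5) 0 0 (step_sound _ 33 [rh2ad69f4354f7bada, (rh55afc6a59410cf00.shift 1 0)] (by decide +kernel))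
noncomputable def rh9ed32b1918cf51da : CRef := CRef.mk (Pat.mk 0x8000000080000000c0000001400000000 0x140000001c000000780000001f0000007c00000068 7 7) 0 0 (step_sound _ 35 [(rh58a9dcc95751c294.shift 2 0), (rh79b3c29022acbdf3.shift 1 1), rhb388751587d90a9c] (by decide +kernel))
noncomputable def rh7ede157ccaa8567a : CRef := CRef.mk (Pat.mk 0x80000000e000000040000000400000000 0x780000003e000000770000003c00000018 7 7) 0 0 (step_sound _ 100 [(rh3fc3a7fb6866dcd4.shift 1 2), rh71a719594bdd40c9, (rhaf9f2efc81a8312b.shift 0 2)] (by decide +kernel))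
noncomputable def rh2ea89de14a8b8f5b : CRef := CRef.mk (Pat.mk 0x400000007000000020 0x77000003fe000003bf 7 10) 0 0 (step_sound _ 35 [(rh21d582c147e7e118.shift 1 0), (rh4f24b26ce02ae66a.shift 1 0), rh8aa80d8d90d3223c, rhbfe376cd40aaedfb, (rhd0c0061ffd79e485.shift 2 0)] (by decide +kernel))
noncomputable def rhbe11ca1156539bc2 : CRef := CRef.mk (Pat.mk 0x300000001c000000080000000000000000 0x28000000380000001c0000007f0000007c0000003c 7 7) 0 0 (step_sound _ 35 [(rh71222050f2c63a3a.shift 3 0), rhf837b647683b286b] (by decide +kernel))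
noncomputable def rhd1157b0445692f28 : CRef := CRef.mk (Pat.mk 0x40000000c0000000600000000 0x80000000e0000000f0000003c0000000e0000000e0000000c 7 6) 0 0 (step_sound _ 130 [(rh9a369cb82ea472da.shift 1 1), (rhd4b4beefcd67f51e.shift 2 0), rhf061e61953401a2f] (by decide +kernel))
noncomputable def rhd95533b60fbd5411 : CRef := CRef.mk (Pat.mk 0x40000001c000000060000000000000000 0x8000000180000003c0000001f0000003e0000000f0000000a 7 6) 0 0 (step_sound _ 97 [(rh245cfab0de74c583.shift 0 1), rh4c11c491f4d8ec0e, rh8908eb36e9e69c2d, (rhc5a0f50ad46c05f0.shift 0 1)] (by decide +kernel))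
noncomputable def rh68280eabaa0fd24e : CRef := CRef.mk (Pat.mk 0x300000001c000000080000000000000000 0x270000003f0000001c0000007e0000007e0000003c 7 7) 0 0 (step_sound _ 35 [(rh71222050f2c63a3a.shift 3 0), rhabb291f42b829af0] (by decide +kernel))
noncomputable def rhd50966fcee0f7551 : CRef := CRef.mk (Pat.mk 0x1e00000006000000000000000000000000 0x600000006000000370000001f00000036000000020000000200000002 7 6) 0 0 (step_sound _ 100 [rhbda66704d489f772, (rhe25b0a99195a5d59.shift 1 3)] (by decide +kernel))
noncomputable def rhe6e19389a23acb4d : CRef := CRef.mk (Pat.mk 0x780000001800000000 0x1c0000001f0000003c000000780000001800000008 7 7) 0 0 (step_sound _ 99 [(rh3244c3cc8379b070.shift 2 2), rhbcfe8b514a771277] (by decide +kernel))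
noncomputable def rhe3da1dd905909862 : CRef := CRef.mk (Pat.mk 0x10000000180000000e000000000000000000000000 0x1000000010000000120000001b0000003e0000000f0000000400000004 7 6) 0 0 (step_sound _ 196 [(rh5c5e593799055d58.shift 3 3), rh9e65898146219cc9] (by decide +kernel))
noncomputable def rh50976aacec03a372 : CRef := CRef.mk (Pat.mk 0x10000000180000000e00000000 0x8000000080000001c0000001e00000078000000180000003e00000027 7 7) 0 0 (step_sound _ 132 [(rh5c5e593799055d58.shift 3 1), rha9ba3ed128781c9b] (by decide +kernel))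
noncomputable def rh7fe7b8c1fa332b0f : CRef := CRef.mk (Pat.mk 0x80000000c0000000400000004 0x2000000020000007f0000003f0000007e00000004 7 7) 0 0 (step_sound _ 97 [(rh2857ab727150ad46.shift 0 1), rh8115104cae460b27, (rhbab796f6dafe9186.shift 1 0), rhf8e4a327f3068606] (by decide +kernel))
noncomputable def rh96be28324f4d1c3c : CRef := CRef.mk (Pat.mk 0x180000001e000000000000000000000000 0x20000000300000001f0000001e000000380000001800000018 7 6) 0 0 (step_sound _ 68 [(rhe25b0a99195a5d59.shift 1 2), rhf0bfcc64333a9ddf] (by decide +kernel))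
noncomputable def rhd07a128bf33945e5 : CRef := CRef.mk (Pat.mk 0x1c0000000600000000000000000000000000000000 0x120000003b0000001f0000003e0000000c0000000e0000000e0000000a 7 6) 0 0 (step_sound _ 98 [(rh9bb5c7e5c08d4582.shift 1 1), (rhda3a4b20dc1ede86.shift 0 2), (rhffb8e5993241bf15.shift 1 0)] (by decide +kernel))
noncomputable def rhccc5eb251906b4a4 : CRef := CRef.mk (Pat.mk 0x1800000018000000080000000800000000 0x40000000c000000ff0000001f000000080000001c00000014 7 8) 0 0 (step_sound _ 34 [rh37e0bed60b04be2c, (rh932754581e0f4330.shift 2 0)] (by decide +kernel))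
noncomputable def rhffb1f2cfe3a9c803 : CRef := CRef.mk (Pat.mk 0x18000000180000000800000008 0x200000002000000070000003f0000001f0000000c00000008 7 6) 0 0 (step_sound _ 98 [(rh50fbb5868c909700.shift 2 0), (rh575786cb1516c8c7.shift 0 1)] (by decide +kernel))
noncomputable def rh2fb041970a6592d5 : CRef := CRef.mk (Pat.mk 0x80000000c0000000400000000 0x1c0000001f0000007c0000000f0000003c00000018 7 7) 0 0 (step_sound _ 131 [rh54933c8b2e286c0a, (rh5c5e593799055d58.shift 2 1)] (by decide +kernel))
noncomputable def rh5eb595c5e0afce5d : CRef := CRef.mk (Pat.mk 0x8000000180000000e0000000000000000 0x800000008000000080000001f000000fe000000f000000010 7 8) 0 0 (step_sound _ 68 [(rh16dafbad91f6fa35.shift 0 1), (rh3e595262c1b737ad.shift 3 1), (rh78974448101547fe.shift 1 0)] (by decide +kernel))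
noncomputable def rh5d7bf659158cdda0 : CRef := CRef.mk (Pat.mk 0x4000000070000000400000000000000000000000000000000 0x60000000600000006000000070000001e0000000c0000000e0000000e00000002 7 5) 0 0 (step_sound _ 225 [(rh616c75d1b5542aee.shift 1 4), (rh9ea6a2e90ec08d42.shift 1 0), (rhbe814eb255801294.shift 0 3)] (by decide +kernel))
noncomputable def rhfaaf361f0d26f9ac : CRef := CRef.mk (Pat.mk 0xc000000060000000400000000 0x12000000330000003f0000003e0000000c00000008 7 6) 0 0 (step_sound _ 100 [(rh18965a982d73c794.shift 1 2), rhda3a4b20dc1ede86] (by decide +kernel))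
noncomputable def rhb2c588398a5960e2 : CRef := CRef.mk (Pat.mk 0x180000000c000000080000000000000000 0xc0000001c0000000f000000780000001e0000001c 7 7) 0 0 (step_sound _ 97 [(rh53b3c253cb0c65f4.shift 0 3), (rhf14aeaf54c9c5e28.shift 1 0)] (by decide +kernel))
noncomputable def rhfe275ecfc2131bf8 : CRef := CRef.mk (Pat.mk 0x600000002000000020000000400000000000000000000000000000000 0x600000006000000060000000600000007000000070000000700000004 7 3) 0 0 (step_sound _ 129 [(rh55afc6a59410cf00.shift 1 3), rhb10ebbd9973953c9] (by decide +kernel))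
noncomputable def rhd8107e21bd409a7d : CRef := CRef.mk (Pat.mk 0x1c00000008000000080000000800000000 0xe30000007f000000ff0000000c0000000c00000004 7 8) 0 0 (step_sound _ 129 [(rh10e3074efe589034.shift 0 3), rh6632360cbd7c7bd4, (rha03f6e28ea70fc7d.shift 0 3)] (by decide +kernel))
noncomputable def rh59934a8816c37478 : CRef := CRef.mk (Pat.mk 0x180000000c0000000800000000 0x100000001c0000001c0000000c0000001c0000000f0000003c00000014 7 6) 0 0 (step_sound _ 65 [(rh53b3c253cb0c65f4.shift 0 2), (rh703a816a68590832.shift 1 0)] (by decide +kernel))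
noncomputable def rhb87226edc8222a86 : CRef := CRef.mk (Pat.mk 0x2000000030000000100000001000000000 0x8000000180000007e0000007e000000f70000003c00000028 7 8) 0 0 (step_sound _ 98 [(rhb82a96c1433a8094.shift 1 1), (rhc146f5848fb52cbb.shift 0 2), (rhdbe7989f4d16ea95.shift 1 0)] (by decide +kernel))
noncomputable def rhe48f34d6cbf6717f : CRef := CRef.mk (Pat.mk 0x18000000080000000800000000 0x140000001c0000001e0000007c0000000f0000003c00000014 7 7) 0 0 (step_sound _ 66 [rh3e8e4c4ea4eb005f, (rh910778f6eb68460f.shift 1 0), (rhd69c262cd33b94b3.shift 0 2)] (by decide +kernel))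
noncomputable def rhb19035e1f9ce8333 : CRef := CRef.mk (Pat.mk 0xc000000040000000400000000 0xe0000000f0000003c0000000f0000003e0000001a 7 6) 0 0 (step_sound _ 130 [(rh1b866c4ae8b50bb9.shift 0 1), rh4c2a6eefc58caf68, (rhc4ec57a3756c3a6c.shift 1 0)] (by decide +kernel))
noncomputable def rh86cd746f3ccf06af : CRef := CRef.mk (Pat.mk 0x10000000180000000e000000000000000000000000 0x4000000360000001f000000fe0000000f0000000e00000004 7 8) 0 0 (step_sound _ 67 [(rh71222050f2c63a3a.shift 3 1), rh9459ff69a6048e6e] (by decide +kernel))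
noncomputable def rheb75ce811ca68ceb : CRef := CRef.mk (Pat.mk 0x10000000180000000e000000000000000000000000 0x38000000780000001e0000001b0000003e000000170000000400000004 7 7) 0 0 (step_sound _ 196 [(rh5c5e593799055d58.shift 3 3), rhb25593bcb871e301] (by decide +kernel))
noncomputable def rhac97a649a2e97480 : CRef := CRef.mk (Pat.mk 0x1c00000006000000020000000000000000 0x8000000380000001f0000003e000000370000001600000006 7 6) 0 0 (step_sound _ 33 [rh3cf01a021562ae74, (rh71222050f2c63a3a.shift 1 0)] (by decide +kernel))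
noncomputable def rhcfacd4d5f8263f46 : CRef := CRef.mk (Pat.mk 0x10000000180000000e0000000000000000 0x4000000340000001f000000fe000000ef0000000a 7 8) 0 0 (step_sound _ 35 [(rh71222050f2c63a3a.shift 3 0), rhb91dc53ad3106ae5] (by decide +kernel))
noncomputable def rhb66517e284c79c5a : CRef := CRef.mk (Pat.mk 0x10000000180000000e00000000 0x38000000780000001e0000001f0000003e00000024 7 7) 0 0 (step_sound _ 132 [(rh5c5e593799055d58.shift 3 1), rhc28e1fcbd9df7849] (by decide +kernel))
noncomputable def rh8bdfba54442a796d : CRef := CRef.mk (Pat.mk 0x180000000e000000040000000000000000 0x10000000180000003e0000003f0000007800000038 7 7) 0 0 (step_sound _ 100 [(rh02a6a33df9904d94.shift 1 0), (rhaf9f2efc81a8312b.shift 0 2)] (by decide +kernel))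
noncomputable def rh8244c33d5ee49d6f : CRef := CRef.mk (Pat.mk 0x1800000008000000080000000000000000 0x4000000040000000f0000007c0000000c0000001c0000001c00000014 7 7) 0 0 (step_sound _ 162 [(rh0b151af470a87f7c.shift 2 0), (rh0dbc8abee7ad42d4.shift 2 1), (rh114f4abf4ea101c9.shift 2 1), (rhc5625ac2901698c3.shift 0 2), (rhf5dc3516e6a9d6a1.shift 2 0)] (by decide +kernel))
noncomputable def rha4557f3c0f9d74fd : CRef := CRef.mk (Pat.mk 0x4000000000000001e00000002 0xc0000000c0000000e0000003b0000001f0000000a 7 6) 0 0 (step_sound _ 68 [rh24c9b0407193b263, (rh33e738c4ed385b9f.shift 1 1)] (by decide +kernel))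
noncomputable def rh9bea49c6d10a24b1 : CRef := CRef.mk (Pat.mk 0x180000001e000000000000000000000000 0x1000000010000000100000001b0000003e0000003b0000001800000018 7 6) 0 0 (step_sound _ 65 [rhe5a9a5bd0dd225e4, (rheb0810cc63b001d8.shift 0 2)] (by decide +kernel))
noncomputable def rhef8986517b5b0144 : CRef := CRef.mk (Pat.mk 0xc0000000f000000000000000000000000 0x80000000c0000000f0000001e0000007c0000001c 7 7) 0 0 (step_sound _ 67 [(rh6e242c6577930c77.shift 1 0), (rhe25b0a99195a5d59.shift 0 2)] (by decide +kernel))
noncomputable def rh0dd98b7190d99aa3 : CRef := CRef.mk (Pat.mk 0x80000001c00000006000000000000000000000000 0x20000000380000001f000000360000003e0000001f00000002 7 6) 0 0 (step_sound _ 66 [rh02685ab99c30d2cc, (rh71222050f2c63a3a.shift 2 1)] (by decide +kernel))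
noncomputable def rh0ac5657f5d5f3361 : CRef := CRef.mk (Pat.mk 0xc000000070000000000000000000000000000000000000000 0xa0000000e0000000e0000000c000000070000003e0000000f0000000e0000000e00000008 7 6) 0 0 (step_sound _ 130 [(rh2222a27c490588f5.shift 1 0), (rh7caa2478668a399c.shift 0 1), (rhc90d14536b0e2c99.shift 0 3), (rheb5cf6be9daf210b.shift 0 2)] (by decide +kernel))
noncomputable def rh167a658247bf789f : CRef := CRef.mk (Pat.mk 0x80000001c00000006000000000000000000000000 0x40000001c0000001c000000360000003e0000001f00000002 7 6) 0 0 (step_sound _ 66 [(rh71222050f2c63a3a.shift 2 1), rha476ee6d2cdb9f1f] (by decide +kernel))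
noncomputable def rh44b9bb02d6a6edc2 : CRef := CRef.mk (Pat.mk 0x1000000018000000080000000800000000 0x1c0000001c000000180000000f0000003c00000014 7 6) 0 0 (step_sound _ 131 [(rh2f68792b6b779e96.shift 3 1), rhc56032447bf2291e] (by decide +kernel))
noncomputable def rh4c4e3f7dc58bc977 : CRef := CRef.mk (Pat.mk 0x1400000018000000080000000800000000 0x800000008000000680000007f0000001f0000007f0000003e00000014 7 7) 0 0 (step_sound _ 131 [(rh60f7890073fd1121.shift 1 0), (rh85480f11efc1e555.shift 1 0), rh8712c5361ad0bd83, (rhea90e7358341a1a4.shift 2 0), rhf3d11b058448e968] (by decide +kernel))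
noncomputable def rh0b4eafb7a64d9358 : CRef := CRef.mk (Pat.mk 0x50000000600000002000000020 0x1000000010000000dc0000007f0000003e00000028 7 8) 0 0 (step_sound _ 68 [(rh1f92940eb4853ba9.shift 0 1), (rh6e9b6fa1a9073593.shift 2 0), (rhdf15b40c9702d329.shift 2 0), (rhe072fffdd2fccf38.shift 4 0)] (by decide +kernel))
noncomputable def rh027c6d4706336d6b : CRef := CRef.mk (Pat.mk 0x4000000040000000600000002000000000 0xa0000001e0000000ff0000007e000001fe000000c0 7 9) 0 0 (step_sound _ 68 [(rh4d63ff26ec2dbd2d.shift 0 1), (rh5dec5e73a267a1c4.shift 2 1), (rh6cdabe3bf8529634.shift 3 0)] (by decide +kernel))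
noncomputable def rha7ef87d089a603df : CRef := CRef.mk (Pat.mk 0x8000000180000000e00000000 0x100000001c0000001c0000001c000000180000001f000000fe000000f0 7 8) 0 0 (step_sound _ 131 [(rh1ae8cb0b33fd1844.shift 2 1), (rh64bc0dab78a08b48.shift 2 1), rh7da40384dbaf7947] (by decide +kernel))
noncomputable def rh5c1bfb6277f2744a : CRef := CRef.mk (Pat.mk 0x3800000008000000000000000000000000 0x4000000140000005c000000df000000fc000000e80000002c0000002c00000004 7 8) 0 0 (step_sound _ 163 [rh228db4628df8d3ce, (rh6426ce6d64c51bfe.shift 2 1), (rhf60aa8aede119d3b.shift 0 4)] (by decide +kernel))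
noncomputable def rhbd94db5de7cdad72 : CRef := CRef.mk (Pat.mk 0x800000038000000080000000000000000 0x100000001000000038000000ff000000e80000002800000028 7 8) 0 0 (step_sound _ 132 [(rh84d1c02a8954c6a8.shift 3 1), rh96e574ba449c256a, (rha88c9e7b3449bb70.shift 2 0)] (by decide +kernel))
noncomputable def rh73a3f46298092c24 : CRef := CRef.mk (Pat.mk 0x2000000070000000100000000000000000 0x3f0000001fe000001d70000001000000010 7 10) 0 0 (step_sound _ 36 [(rh71222050f2c63a3a.shift 4 0), (rhfc4a6c9741c3b285.shift 0 2)] (by decide +kernel))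
noncomputable def rh752d88b2d16fd110 : CRef := CRef.mk (Pat.mk 0xf00000008000000000000000000000000 0x40000000c0000001c0000000f0000000c0000001c0000001c00000018 7 5) 0 0 (step_sound _ 163 [(rh33e738c4ed385b9f.shift 0 4), (rh6036dff15d807057.shift 2 0)] (by decide +kernel))
noncomputable def rh856d49affef788a5 : CRef := CRef.mk (Pat.mk 0x8000000080000001c000000040000000000000000 0x8000000380000001f000000f40000003e00000014 7 8) 0 0 (step_sound _ 34 [(rh71222050f2c63a3a.shift 2 0), rh72010f2280fa7e86] (by decide +kernel))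
noncomputable def rh6b6c9b1c1e57778a : CRef := CRef.mk (Pat.mk 0xf00000000000000000000000000000000 0x40000000c0000001c0000000f0000001c0000001c0000001c00000014 7 5) 0 0 (step_sound _ 99 [rhc470020c116af149, (rhe25b0a99195a5d59.shift 0 3)] (by decide +kernel))
noncomputable def rh21b80af767ead175 : CRef := CRef.mk (Pat.mk 0xc0000000700000000000000000000000000000000 0x4000000060000000e0000000e0000000e000000070000003e0000000e0000000e0000000a 7 6) 0 0 (step_sound _ 98 [(rh061b65a50956909d.shift 0 2), rh7caa2478668a399c, (rh953e410617738e80.shift 1 0)] (by decide +kernel))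
noncomputable def rh9eee07983f68aea5 : CRef := CRef.mk (Pat.mk 0x300000001c000000080000000000000000 0x40000002f0000003f0000001c0000007c0000001e0000001c 7 7) 0 0 (step_sound _ 35 [(rh71222050f2c63a3a.shift 3 0), rh8b87b89377ea7cf4] (by decide +kernel))
noncomputable def rhdbb1ee969fdf7226 : CRef := CRef.mk (Pat.mk 0x180000000e000000040000000000000000 0x18000000180000000e0000003f0000003c00000014 7 6) 0 0 (step_sound _ 34 [(rh71222050f2c63a3a.shift 2 0), rhc43cb07c9f311c5d] (by decide +kernel))
noncomputable def rhf3cf71cd1e9b7c59 : CRef := CRef.mk (Pat.mk 0x100000001c000000080000000000000000 0x170000001f0000001c0000000c0000000c0000000c 7 5) 0 0 (step_sound _ 35 [rh5dbc9b172df74adb, (rh71222050f2c63a3a.shift 3 0)] (by decide +kernel))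
noncomputable def rhee3368b47eea1bc5 : CRef := CRef.mk (Pat.mk 0x180000000e00000004000000000000000000000000 0x60000001f0000001e0000000e0000003c000000180000001800000018 7 6) 0 0 (step_sound _ 99 [(rh3470fcd67ff81181.shift 2 0), (rh8deeb93a51b3ae96.shift 0 2), (rh9bd2bb1b625e8a7e.shift 2 1)] (by decide +kernel))
noncomputable def rh52c0ce10d174b2a4 : CRef := CRef.mk (Pat.mk 0x380000000c0000000800000000000000000000000000000000 0x28000000380000001c0000007f0000003e0000001c0000001c00000004 7 7) 0 0 (step_sound _ 100 [(rh2f7ef8ef5c94975a.shift 3 1), (rhb878dfe31a02c2d5.shift 3 2), (rheaaa7250048fb6ba.shift 2 0), (rhfa80626feb4e9cb5.shift 0 2), (rhfe32584dade951aa.shift 1 2)] (by decide +kernel))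
noncomputable def rh08c4bb78e411a62a : CRef := CRef.mk (Pat.mk 0x100000001c000000080000000800000000 0xe0000003f0000001f0000000c0000000c00000004 7 6) 0 0 (step_sound _ 97 [rh2d53eb287251b0cc, (rh33e738c4ed385b9f.shift 1 3)] (by decide +kernel))
noncomputable def rha173c2f44c64853d : CRef := CRef.mk (Pat.mk 0x80000000c0000000400000000 0xe0000000f0000003c0000000e0000007c00000018 7 7) 0 0 (step_sound _ 131 [(rh5c5e593799055d58.shift 2 1), rhf2d07ed7fd4adb11] (by decide +kernel))
noncomputable def rh26fd18283c6b3d6e : CRef := CRef.mk (Pat.mk 0x180000001e000000000000000000000000 0x180000003e000000370000003c00000038 7 6) 0 0 (step_sound _ 68 [rh1c7bf6aa7f094288, (rhe25b0a99195a5d59.shift 1 2)] (by decide +kernel))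
noncomputable def rh67956ff20dd854df : CRef := CRef.mk (Pat.mk 0x1000000018000000080000000000000000 0xc0000001e000000780000000f0000003c0000001c 7 7) 0 0 (step_sound _ 35 [rh1cadbb38defa45f9, (rh71222050f2c63a3a.shift 3 0)] (by decide +kernel))
noncomputable def rh483d319ad71564f4 : CRef := CRef.mk (Pat.mk 0x100000001c000000080000000000000000 0x80000000c0000000f0000001f0000001c0000001f0000003c0000001c 7 6) 0 0 (step_sound _ 35 [(rh71222050f2c63a3a.shift 3 0), rhd1ae673feeae0001] (by decide +kernel))
noncomputable def rh7229709bff0f3745 : CRef := CRef.mk (Pat.mk 0x20000000300000001000000010 0x800000008000001ff000000fc000001d600000014 7 9) 0 0 (step_sound _ 99 [rh16aeb570cda7c605, (rh5695b25c69ca24b1.shift 1 0), (rha6767fb880bb5eca.shift 2 0), (rhb96ef25e83be435d.shift 0 2), (rhf8e4a327f3068606.shift 2 0)] (by decide +kernel))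
noncomputable def rh214295733620b071 : CRef := CRef.mk (Pat.mk 0x180000000c000000040000000400000000 0x100000003c0000000f0000003c0000000f0000000a 7 6) 0 0 (step_sound _ 97 [(rh53b3c253cb0c65f4.shift 0 3), rh5d44cfcd45a64087] (by decide +kernel))
noncomputable def rh273718e6d97e37b4 : CRef := CRef.mk (Pat.mk 0xc00000006000000020000000200000000 0x80000000a0000003f0000003e000000370000001600000004 7 6) 0 0 (step_sound _ 132 [rh1415f42ae56384a4, (rh18965a982d73c794.shift 1 3)] (by decide +kernel))
noncomputable def rh3c4e69acd17b4cef : CRef := CRef.mk (Pat.mk 0x8000000080000000c0000000600000000 0x140000001c0000003c0000003f0000007e0000000b 7 7) 0 0 (step_sound _ 68 [(rh18965a982d73c794.shift 1 1), rheb6e6ce5770c08c8] (by decide +kernel))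
noncomputable def rhcf6c6fa3e4f2c980 : CRef := CRef.mk (Pat.mk 0x200000002000000030000000180000000000000000 0x1000000034000000760000003f0000007e0000000e00000008 7 7) 0 0 (step_sound _ 66 [(rh53b3c253cb0c65f4.shift 1 2), rh8bb5c0a4bcaaabfd] (by decide +kernel))
noncomputable def rhd709786844eae870 : CRef := CRef.mk (Pat.mk 0x1000000010000000180000001800000000 0x80000001800000018000000f8000000ff00000007 7 8) 0 0 (step_sound _ 131 [(rh50fbb5868c909700.shift 3 1), rhd3e00b304d07dace] (by decide +kernel))
noncomputable def rh7bd50060a0df592c : CRef := CRef.mk (Pat.mk 0x1800000018000000080000000800000000 0x20000000fc000000f80000003c0000001f00000014 7 8) 0 0 (step_sound _ 36 [rh34e61ee7b75701cd, (rh55afc6a59410cf00.shift 3 0)] (by decide +kernel))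
noncomputable def rh56df0ae5f48ae23a : CRef := CRef.mk (Pat.mk 0x80000000c000000060000000400000000 0x140000003c0000003f0000000e0000003e0000001a 7 6) 0 0 (step_sound _ 100 [(rh18965a982d73c794.shift 1 2), rh7b4b349d3e3b683d] (by decide +kernel))
noncomputable def rh790ab20d45abd33b : CRef := CRef.mk (Pat.mk 0x8000000080000000c00000006000000000000000000000000 0x140000003c0000001f0000003c0000000e0000001a0000001800000018 7 6) 0 0 (step_sound _ 132 [(rh18965a982d73c794.shift 1 3), rh67dbb0c61f39c14d] (by decide +kernel))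
noncomputable def rh9910b3ec8a2a755a : CRef := CRef.mk (Pat.mk 0x400000007000000020 0x77000003fe000003be 7 10) 0 0 (step_sound _ 35 [(rh2591032a0e7f4182.shift 1 0), rh8aa80d8d90d3223c, (rhd0c0061ffd79e485.shift 2 0), rhf11e058c5e2d6d67] (by decide +kernel))
noncomputable def rhc9a8ca1528939fa3 : CRef := CRef.mk (Pat.mk 0x100000003800000008 0x7f7000003ff000007b8 7 11) 0 0 (step_sound _ 38 [(rh3f9c2fb96516703c.shift 3 0), rh95461b835b3f00cd, (rha1f05977cb30c9d7.shift 3 0), (rhf69eab89e5fbfa83.shift 3 0), (rhfe114996652dd49b.shift 3 0)] (by decide +kernel))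
noncomputable def rhda0ce9ab8226a251 : CRef := CRef.mk (Pat.mk 0x80000001c000000040000000000000000 0x380000001f0000003f0000003000000030 7 6) 0 0 (step_sound _ 97 [rh0901d4634e55bc25, rh3bf74083946431af, (rhec46bd5500c722c9.shift 0 3)] (by decide +kernel))
noncomputable def rh554802701947872f : CRef := CRef.mk (Pat.mk 0x180000000c000000080000000000000000 0x20000001f000000ff0000007f0000003400000034 7 8) 0 0 (step_sound _ 97 [(rh53b3c253cb0c65f4.shift 0 3), rhb7afbba93e4ea89b] (by decide +kernel))
noncomputable def rh11c3bac0793673cb : CRef := CRef.mk (Pat.mk 0x1000000010000000180000000800000000 0x28000000780000001e0000003c000000ff00000024 7 8) 0 0 (step_sound _ 36 [(rh36d4d92ef3dad5f8.shift 2 0), rh3ff576ab9a9b8a15] (by decide +kernel))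
noncomputable def rh4f125cf0346b0cbc : CRef := CRef.mk (Pat.mk 0x100000001000000018000000080000000800000000 0x10000000370000007e000001ef0000007c00000020 7 9) 0 0 (step_sound _ 101 [(rh2820ca9a6c4f41b4.shift 0 2), rh2f9e60d5787b5432, rhca300808da6dc72d] (by decide +kernel))
noncomputable def rh573cc4e777f44507 : CRef := CRef.mk (Pat.mk 0x100000001000000018000000080000000800000000 0x10000001f0000000fe000001ef0000007c00000020 7 9) 0 0 (step_sound _ 101 [(rh2820ca9a6c4f41b4.shift 0 2), (rh72010f2280fa7e86.shift 1 0), (rhfa35e196e150edb4.shift 2 2)] (by decide +kernel))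
noncomputable def rhd963f431d55c8f5b : CRef := CRef.mk (Pat.mk 0x1000000018000000080000000800000000 0x80000000800000028000000780000001e0000007f0000007e00000034 7 7) 0 0 (step_sound _ 131 [(rh71b26873b0bc1645.shift 1 0), (rhd802bb8339359eae.shift 1 0), (rhea90e7358341a1a4.shift 2 0), rhf0d38cf1e7116183] (by decide +kernel))
noncomputable def rh317ca5d1b3fa5e7f : CRef := CRef.mk (Pat.mk 0x80000000c00000004000000000000000000000000 0x1c0000003c0000000f0000000e0000007c000000180000001800000018 7 7) 0 0 (step_sound _ 195 [(rh5c5e593799055d58.shift 2 3), rhbe0c5c50892e5c0e] (by decide +kernel))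
noncomputable def rh5964b1ea7df24c82 : CRef := CRef.mk (Pat.mk 0x80000000800000008000000080000000000000000 0x180000003c0000001f000000180000001800000018 7 6) 0 0 (step_sound _ 36 [rh0dd77ae06a96f526, (rhd3458b32566d63f7.shift 3 1)] (by decide +kernel))
noncomputable def rhcdd409e2ecaf57f2 : CRef := CRef.mk (Pat.mk 0x200000002000000020000000200000000 0x600000006000000070000000300000003000000060000000600000006 7 3) 0 0 (step_sound _ 128 [(rh50fbb5868c909700.shift 0 1), rh8bd2202353f5dc22] (by decide +kernel))
noncomputable def rh9db0ba38977d8728 : CRef := CRef.mk (Pat.mk 0x200000007000000000 0x3bf000001fe0000038e 7 10) 0 0 (step_sound _ 35 [rh1f9701c4cf497514, (rh45f730bcf36fcf64.shift 2 0), (rh592c7139d2c44767.shift 1 0), (rhec0f150ffdda098a.shift 1 0)] (by decide +kernel))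
noncomputable def rh278b1ec4435e0565 : CRef := CRef.mk (Pat.mk 0x1000000010000000180000001800000000 0x800000018000000180000007c000000ff00000007 7 8) 0 0 (step_sound _ 131 [(rh50fbb5868c909700.shift 3 1), rha2cd5172ada2b261] (by decide +kernel))
noncomputable def rhb0d5b60318582aab : CRef := CRef.mk (Pat.mk 0x20000000600000003000000000000000000000000 0x4000000060000001f0000000f0000001e0000000e00000006 7 5) 0 0 (step_sound _ 131 [(rh18965a982d73c794.shift 0 3), rh382f470a9abb5800] (by decide +kernel))
noncomputable def rha556b77db2fab812 : CRef := CRef.mk (Pat.mk 0x2000000060000000300000000000000000000000000000000 0x4000000060000001e0000000f0000001e0000000f0000000700000001 7 5) 0 0 (step_sound _ 163 [(rh18965a982d73c794.shift 0 4), rhba0ca628117add91] (by decide +kernel))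
noncomputable def rhe6fecc60aee2cf4d : CRef := CRef.mk (Pat.mk 0x20000000e00000003000000000000000000000000 0x4000000060000000e0000001b0000001f0000000f00000005 7 5) 0 0 (step_sound _ 65 [rh8cdd36b03d57a2f6, (rha707fb719e87fe6e.shift 1 1), (rhfcb09660cf2634b3.shift 0 1)] (by decide +kernel))
noncomputable def rh9d07d121614e7677 : CRef := CRef.mk (Pat.mk 0x100000003800000000 0x3f7000001fe000001c7 7 10) 0 0 (step_sound _ 38 [rh988dac8d009f9f77, (rha93a5dd541ab8209.shift 3 0), (rhe755d80139a0ae3f.shift 1 0), (rhf5fa5e48e0784de2.shift 3 0)] (by decide +kernel))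
noncomputable def rha59ebd41904afde2 : CRef := CRef.mk (Pat.mk 0x8000000080000000c000000000000000000000000 0x140000001e000000780000001f0000007c0000001c00000014 7 7) 0 0 (step_sound _ 132 [(rh574fdbf07bdd18b9.shift 0 3), (rh8e9e5cc0a473d397.shift 1 0), (rha1ac771c65ae9cf8.shift 0 1)] (by decide +kernel))
noncomputable def rh0e6a43b21753fb92 : CRef := CRef.mk (Pat.mk 0x1000000010000000380000000000000000 0x4000000050000001f7000001fe000003e000000020 7 10) 0 0 (step_sound _ 70 [(rh7f866cc3e3ac99a8.shift 1 0), (rha1f05977cb30c9d7.shift 3 1), (rhd439bfd913dd0dd2.shift 2 0), (rhe0d088a8f306af75.shift 0 1)] (by decide +kernel))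
noncomputable def rhf69daba3559c65f1 : CRef := CRef.mk (Pat.mk 0x2000000020000000200000004 0x700000007000000070000000300000003000000030000000600000006 7 3) 0 0 (step_sound _ 129 [rh219b9f23527e426f, (rhd3458b32566d63f7.shift 1 0)] (by decide +kernel))
noncomputable def rh4d09c900b3d61f5e : CRef := CRef.mk (Pat.mk 0x8000000180000000c0000000400000000 0x160000001f0000007a0000000f0000000e00000008 7 7) 0 0 (step_sound _ 101 [(rh18965a982d73c794.shift 2 2), rh2318e79466e6329a] (by decide +kernel))
noncomputable def rh1340b6264a5f6712 : CRef := CRef.mk (Pat.mk 0x8000000180000000c00000004000000000000000000000000 0x170000001f0000001c0000001f0000000c000000080000000800000008 7 5) 0 0 (step_sound _ 129 [(rh53b3c253cb0c65f4.shift 0 4), rh9ecb6006a58985d5] (by decide +kernel))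
noncomputable def rh04bee01757c4b4c3 : CRef := CRef.mk (Pat.mk 0x100000001000000018000000080000000000000000 0x10000001f0000001fe000003ff0000002000000020 7 10) 0 0 (step_sound _ 101 [(rh2820ca9a6c4f41b4.shift 0 2), (rhbc097188b38155dd.shift 2 2), (rhbfb8a09c6f557a4b.shift 1 0)] (by decide +kernel))
noncomputable def rh7cff82c873654082 : CRef := CRef.mk (Pat.mk 0x80000000c000000060000000400000000 0x40000003c0000003f0000003e0000003700000012 7 6) 0 0 (step_sound _ 100 [(rh18965a982d73c794.shift 1 2), rh299b1e4d2e2bcbaa] (by decide +kernel))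
noncomputable def rhaa040c9fe85fd8e3 : CRef := CRef.mk (Pat.mk 0x10000000180000000c0000000000000000 0x4000000340000001f000000ff000000e700000002 7 8) 0 0 (step_sound _ 65 [(rh53b3c253cb0c65f4.shift 0 2), rhb91dc53ad3106ae5] (by decide +kernel))
noncomputable def rh939f6f9fa9274505 : CRef := CRef.mk (Pat.mk 0x180000000c000000080000000000000000 0x1f000000ff0000007f0000003000000030 7 8) 0 0 (step_sound _ 97 [(rh53b3c253cb0c65f4.shift 0 3), rhd66d69d0c245a89b] (by decide +kernel))
noncomputable def rh7287a049b905c9c9 : CRef := CRef.mk (Pat.mk 0x10000000180000000c000000080000000000000000 0x24000000340000001f0000001f0000003f0000003200000030 7 6) 0 0 (step_sound _ 97 [(rh53b3c253cb0c65f4.shift 0 3), rh8cadd100bb299d05] (by decide +kernel))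
noncomputable def rhf01886473a442435 : CRef := CRef.mk (Pat.mk 0x80000000c00000006000000040000000000000000 0x20000000380000003f000000360000003e0000001b00000002 7 6) 0 0 (step_sound _ 132 [rh02685ab99c30d2cc, (rh18965a982d73c794.shift 1 3)] (by decide +kernel))
noncomputable def rhe034c8d933eadf47 : CRef := CRef.mk (Pat.mk 0x1000000018000000080000000000000000 0xc0000000c0000006c0000007c0000001e0000001f0000003c0000001c 7 7) 0 0 (step_sound _ 35 [rh63b2ec4b0c1175ba, (rh71222050f2c63a3a.shift 3 0)] (by decide +kernel))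
noncomputable def rh9cdf2e2a7450ff69 : CRef := CRef.mk (Pat.mk 0x1800000008000000080000000800000000 0x640000007f0000003e000000180000001800000010 7 7) 0 0 (step_sound _ 130 [(rh50fbb5868c909700.shift 2 1), rh81c907120f7a5101] (by decide +kernel))
noncomputable def rh3025cef6e824cbb8 : CRef := CRef.mk (Pat.mk 0x10000000180000000c0000000800000000 0x800000038000000780000002f0000007c00000034 7 7) 0 0 (step_sound _ 65 [(rh53b3c253cb0c65f4.shift 0 2), (rh7c1316c64c9560c3.shift 1 0)] (by decide +kernel))
noncomputable def rhd4e28ba8ce08da27 : CRef := CRef.mk (Pat.mk 0x20000000300000001000000010 0x8000003ee000001fe000003bf00000010 7 10) 0 0 (step_sound _ 70 [(rh09cd08bf7d5fae33.shift 3 1), (rha3d084549dcb91ee.shift 0 1), (rhb4b55eb1beed23a3.shift 1 0)] (by decide +kernel))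
noncomputable def rhf7d28b1a344e486d : CRef := CRef.mk (Pat.mk 0x8000000180000000c0000000400000000 0x160000001f0000001f0000000f0000000c00000008 7 5) 0 0 (step_sound _ 65 [rh2f98c549cf41f1d7, (rh53b3c253cb0c65f4.shift 0 2)] (by decide +kernel))
noncomputable def rh6440d2c715d71d3b : CRef := CRef.mk (Pat.mk 0x2000000020000000300000001000000000 0x800000068000001fe000000fe000000df00000044 7 9) 0 0 (step_sound _ 67 [(rh3f396fc471e867d8.shift 1 0), (rh42c149c634520fed.shift 2 0), rh6e0c715ed1624dea, (rh7f0f728c796044ac.shift 0 1), (rha11dfd15f08f96e3.shift 2 2)] (by decide +kernel))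
noncomputable def rh086c5d84f5b83a03 : CRef := CRef.mk (Pat.mk 0x1000000018000000080000000800000000 0x44000001d7000000fe000000ff0000002c00000020 7 9) 0 0 (step_sound _ 101 [(rh09cd08bf7d5fae33.shift 2 2), (rh4805f0126eba6f91.shift 2 0), (rhab9e3e9beba535c3.shift 0 1), (rhc9e4cc1d7b554c71.shift 2 0)] (by decide +kernel))
noncomputable def rhb5fa98fd1a320a81 : CRef := CRef.mk (Pat.mk 0x200000002000000030000000180000000000000000 0x200000003e000000ff000000f80000004000000040 7 8) 0 0 (step_sound _ 102 [(rh18965a982d73c794.shift 3 2), rh8194f849c705ee3d] (by decide +kernel))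
noncomputable def rha6c2952ed2dd76c1 : CRef := CRef.mk (Pat.mk 0x1000000010000000180000000c000000000000000000000000 0x28000000780000001e0000001b0000003f000000170000000400000004 7 7) 0 0 (step_sound _ 97 [(rh53b3c253cb0c65f4.shift 0 3), rhb25593bcb871e301] (by decide +kernel))
noncomputable def rhbbdbc974dff2350f : CRef := CRef.mk (Pat.mk 0x180000000c000000080000000000000000 0x380000001f0000003f0000003000000030 7 6) 0 0 (step_sound _ 97 [(rh53b3c253cb0c65f4.shift 0 3), rhedb33d3a2f8bb868] (by decide +kernel))
noncomputable def rh344d0d3228acd93c : CRef := CRef.mk (Pat.mk 0x10000000180000000c000000000000000000000000 0x2000000330000001f0000003f000000070000000400000004 7 6) 0 0 (step_sound _ 97 [(rh53b3c253cb0c65f4.shift 0 3), rhe7a4aa5c2cf540ff] (by decide +kernel))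
noncomputable def rh49451842a531dc59 : CRef := CRef.mk (Pat.mk 0x800000008000000080000001c00000000 0x40000000c0000000c0000007f0000007e00000003 7 7) 0 0 (step_sound _ 130 [(rh50fbb5868c909700.shift 2 1), rhf4b3c0388bbf037f] (by decide +kernel))
noncomputable def rh114c90780e071e76 : CRef := CRef.mk (Pat.mk 0x3000000018000000080000000800000000 0x80000000800000028000000380000001e0000007f0000003e00000014 7 7) 0 0 (step_sound _ 98 [rh1ce5fcbff8598170, (rh53b3c253cb0c65f4.shift 1 3)] (by decide +kernel))
noncomputable def rhec679f37a5fa74e8 : CRef := CRef.mk (Pat.mk 0x180000000c00000004000000040000000000000000 0x140000007e0000007c0000003e0000000f0000000a00000008 7 7) 0 0 (step_sound _ 165 [(rh18965a982d73c794.shift 2 4), rh6ffdce8f0dfdd0b7] (by decide +kernel))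
noncomputable def rh318112755f3009fa : CRef := CRef.mk (Pat.mk 0x180000000c00000004000000040000000000000000 0x160000007c0000007c0000003e0000000f0000000a00000008 7 7) 0 0 (step_sound _ 165 [(rh18965a982d73c794.shift 2 4), rh5ed3ac2fdba9efc6] (by decide +kernel))
noncomputable def rhc60761005a73e50c : CRef := CRef.mk (Pat.mk 0x1400000018000000080000000800000000 0x6a0000003f0000001f0000007c0000001e00000014 7 7) 0 0 (step_sound _ 131 [(rh85480f11efc1e555.shift 1 0), rha0c0a48ce6495502, rhe10b879feec4151c] (by decide +kernel))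
noncomputable def rhe190574dc8ba41f9 : CRef := CRef.mk (Pat.mk 0x80000000c000000040000000000000000 0x60000000f0000003c0000003c0000000f0000000e 7 6) 0 0 (step_sound _ 34 [rh66ce4c5dc8bf2422, (rh71222050f2c63a3a.shift 2 0)] (by decide +kernel))
noncomputable def rh4428ad6269385625 : CRef := CRef.mk (Pat.mk 0x10000000380000000c00000000 0xc0000000e0000007f0000003e0000007c00000004 7 7) 0 0 (step_sound _ 66 [(rh2456963ff1f7bf23.shift 0 1), (rh77ad370424a57a51.shift 1 0), (rhec46bd5500c722c9.shift 1 2)] (by decide +kernel))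
noncomputable def rh637ec5f0ca94cb2e : CRef := CRef.mk (Pat.mk 0x180000000c000000000000000000000000 0x80000000a0000001b0000003f000000370000001400000004 7 6) 0 0 (step_sound _ 97 [(rh53b3c253cb0c65f4.shift 0 3), rh85fb0b01b0c1750a] (by decide +kernel))
noncomputable def rh88379ad8e84ed341 : CRef := CRef.mk (Pat.mk 0x100000001000000018000000080000000000000000 0x14000001f6000000fc000001ef0000002800000028 7 9) 0 0 (step_sound _ 35 [rh4c1851663132dadd, (rh71222050f2c63a3a.shift 3 0)] (by decide +kernel))
noncomputable def rhf3b169b5e429ebc6 : CRef := CRef.mk (Pat.mk 0x100000003800000008 0x3b7000001fe000000f8 7 10) 0 0 (step_sound _ 34 [rh0d378fd9e8917c5a, (rhc3f1fdc610b622e4.shift 2 0), (rhedf6b6c69a16cbd5.shift 0 1)] (by decide +kernel))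
noncomputable def rh143f2c5525f25a9c : CRef := CRef.mk (Pat.mk 0x10000000180000000e00000000 0x3800000038000000300000001f0000003e00000030 7 6) 0 0 (step_sound _ 132 [(rh5c5e593799055d58.shift 3 1), rhfe2cb5d29cdb6451] (by decide +kernel))
noncomputable def rh6cbaa5c1a750d9b6 : CRef := CRef.mk (Pat.mk 0xc000000060000000000000000 0x80000000a0000003b0000003f000000360000001400000004 7 6) 0 0 (step_sound _ 100 [rh08110e81ebd0e083, (rh18965a982d73c794.shift 1 2)] (by decide +kernel))
noncomputable def rh4aa83904ca7ff69b : CRef := CRef.mk (Pat.mk 0xc0000000700000000000000000000000000000000 0xa0000000e0000000e0000000c0000000e000000070000001e0000000e0000000e00000002 7 5) 0 0 (step_sound _ 194 [(rh0fc40373e394f21b.shift 0 1), (rh7d4be646332fc08b.shift 1 3), (rheb9d581a86e0a5e3.shift 1 0)] (by decide +kernel))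
noncomputable def rh9f3ead97a6b5af8d : CRef := CRef.mk (Pat.mk 0x180000000e000000000000000000000000 0x40000000e0000001f0000001f000000fe0000000c0000000c0000000c 7 8) 0 0 (step_sound _ 66 [rh09e973bd71004772, (rh85f4dff80e93bba4.shift 0 2), (rhcf80391c5046a495.shift 2 0), (rhf9366b6a121593ef.shift 2 0)] (by decide +kernel))
noncomputable def rhf5056ebb9239c149 : CRef := CRef.mk (Pat.mk 0x180000000e000000040000000000000000 0x2000000020000001f000000fe0000007c0000000400000004 7 8) 0 0 (step_sound _ 34 [(rh71222050f2c63a3a.shift 2 0), (rhcf1b854baee5054b.shift 0 1)] (by decide +kernel))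
noncomputable def rh3612ac50eb6261a3 : CRef := CRef.mk (Pat.mk 0x180000000e00000004000000000000000000000000 0xe0000001f0000001b0000000e0000003c000000180000001800000018 7 6) 0 0 (step_sound _ 195 [rh1d837f4daed1e19d, (rh5c5e593799055d58.shift 2 3)] (by decide +kernel))
noncomputable def rh9108ddb537b30afc : CRef := CRef.mk (Pat.mk 0x180000000e000000080000000000000000 0x70000001f000000fe0000007c0000000c0000000c 7 8) 0 0 (step_sound _ 100 [rh3059fd319a21d577, rh31eb30c068821a1a, (rhc6919780d26a686c.shift 1 2)] (by decide +kernel))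
noncomputable def rh5f411d50a039df15 : CRef := CRef.mk (Pat.mk 0x180000000e00000008 0x600000036000000370000001f000000fe0000007c 7 8) 0 0 (step_sound _ 36 [rh06cd0d4234ca65c9, rh2a4fba10843b5c5f, (rhc6919780d26a686c.shift 1 0)] (by decide +kernel))
noncomputable def rh9eca7c729f870719 : CRef := CRef.mk (Pat.mk 0x80000000c00000006000000040000000000000000 0x40000001c0000003c000000360000003e0000001b00000002 7 6) 0 0 (step_sound _ 132 [(rh18965a982d73c794.shift 1 3), rha476ee6d2cdb9f1f] (by decide +kernel))
noncomputable def rhdb26dfe50eb4e6f1 : CRef := CRef.mk (Pat.mk 0x80000000c0000000400000000 0x1c0000003c0000000f0000000e0000007c00000018 7 7) 0 0 (step_sound _ 131 [(rh5c5e593799055d58.shift 2 1), rhccf466ff8699e962] (by decide +kernel))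
noncomputable def rhfb0070adaf771ad8 : CRef := CRef.mk (Pat.mk 0x8000000080000001c0000000000000000 0x8000001df000000ff000000f000000010 7 9) 0 0 (step_sound _ 97 [rh38e82cac5574a43f, (rh54c49bb299227e8d.shift 0 2), (rhb5a4df103f91c93d.shift 1 1)] (by decide +kernel))
noncomputable def rhc2a8f5dfd2e8870f : CRef := CRef.mk (Pat.mk 0x10000000380000000800000000 0xc0000000e0000007e0000007f0000003800000010 7 7) 0 0 (step_sound _ 66 [rh2c6c0d05924f4ad1, (rh653a4e299315e31d.shift 1 1), (rhec46bd5500c722c9.shift 1 2)] (by decide +kernel))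
noncomputable def rh9956517671ac78aa : CRef := CRef.mk (Pat.mk 0xe000000020000000000000000 0x10000000370000003f0000007e0000000800000008 7 7) 0 0 (step_sound _ 100 [rh3b7e643e596454c2, (rhf3baec4a0a3dd35e.shift 1 2), (rhfb89c5de8c2d962e.shift 0 2)] (by decide +kernel))
noncomputable def rh8cdf945262f9c911 : CRef := CRef.mk (Pat.mk 0x20000000e0000000200000000 0xc0000000c0000003e0000003f0000003200000012 7 6) 0 0 (step_sound _ 98 [(rh84d1c02a8954c6a8.shift 1 0), rh9cbc3a89b3f04b3e] (by decide +kernel))
noncomputable def rhc443e772b4c18304 : CRef := CRef.mk (Pat.mk 0x40000000e000000020000000000000000 0x10000000740000003f0000003e0000000b0000000a 7 7) 0 0 (step_sound _ 33 [(rh71222050f2c63a3a.shift 1 0), rhf2bd1740b8b23bd8] (by decide +kernel))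
noncomputable def rh22f465ef593e9a48 : CRef := CRef.mk (Pat.mk 0x1000000038000000080000000000000000 0x4000000040000007f0000003e000000780000000800000008 7 7) 0 0 (step_sound _ 35 [(rh5591ed3890e9f2cc.shift 0 1), (rh71222050f2c63a3a.shift 3 0)] (by decide +kernel))
noncomputable def rh1d617e23f32f3fbf : CRef := CRef.mk (Pat.mk 0xe000000020000000000000000 0xa0000001a0000003b0000003f0000003e0000001c00000008 7 6) 0 0 (step_sound _ 100 [rh3b7e643e596454c2, (rha28726814a3beaac.shift 0 1), (rhf0816fef91aee7d1.shift 0 1)] (by decide +kernel))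
noncomputable def rh12feeec4d1c78f66 : CRef := CRef.mk (Pat.mk 0x380000000c000000000000000000000000 0x140000001c0000003c0000000f0000003c0000000c0000001c0000001c00000014 7 6) 0 0 (step_sound _ 162 [rh33ecdbcc9b68c2ae, (rhbd77f7539dd78d63.shift 2 0), (rhd11a7b70a5667082.shift 0 2), (rhd652c19df8b64ee8.shift 1 1)] (by decide +kernel))
noncomputable def rh137b2950371a78fe : CRef := CRef.mk (Pat.mk 0x180000000c0000000000000000 0xa0000000b0000001f0000003f0000003400000014 7 6) 0 0 (step_sound _ 65 [(rh53b3c253cb0c65f4.shift 0 2), rh92cff54756505f65] (by decide +kernel))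
noncomputable def rh400efd3fc92329a7 : CRef := CRef.mk (Pat.mk 0x380000000c000000000000000000000000 0x4000000040000000e0000001f0000003a0000000f0000003e0000001400000004 7 6) 0 0 (step_sound _ 97 [(rh53b3c253cb0c65f4.shift 0 3), rhf5608162a8376a52] (by decide +kernel))
noncomputable def rh3f3022fe0d91ad44 : CRef := CRef.mk (Pat.mk 0x180000000600000000 0x800000008000000380000003f0000003700000010 7 6) 0 0 (step_sound _ 66 [(rh18965a982d73c794.shift 1 1), rhc291146ba20e7aaf] (by decide +kernel))
noncomputable def rhace7d257f7cc22ea : CRef := CRef.mk (Pat.mk 0x8000000080000001c0000000400000000 0x60000000f0000003f0000001f0000003c00000018 7 6) 0 0 (step_sound _ 35 [rh3d6f924ec885b0e8, rhfe557af9112f51d6] (by decide +kernel))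
noncomputable def rh068509b439293ff6 : CRef := CRef.mk (Pat.mk 0x380000000000000000 0x1000000010000001ff000000fe000001e000000020 7 9) 0 0 (step_sound _ 98 [(rh0786c19de25163c7.shift 2 1), (rh15b4c7f64ffd8e41.shift 1 2), (rh827a96975d738098.shift 1 0), (rh8c12fdbbddc1e7ab.shift 0 2)] (by decide +kernel))
noncomputable def rhcd7d2b841f4b65a7 : CRef := CRef.mk (Pat.mk 0x7000000080 0xe70000007e000000c7 7 8) 0 0 (step_sound _ 35 [(rh96851dee118c1ba3.shift 3 0), rh988dac8d009f9f77] (by decide +kernel))
noncomputable def rh551b573f8a641130 : CRef := CRef.mk (Pat.mk 0x7800000000 0x670000007e000000e7 7 8) 0 0 (step_sound _ 6 [rhabf1d2d7928171dc, (rhe25b0a99195a5d59.shift 3 0)] (by decide +kernel))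
noncomputable def rh1f2d77c949494229 : CRef := CRef.mk (Pat.mk 0x20000000700000001000000000 0x2000000020000000fe0000007e000000d700000040 7 8) 0 0 (step_sound _ 133 [(rh5c5e593799055d58.shift 4 1), rh9c7dca390dd89263] (by decide +kernel))
noncomputable def rha935311441d156b7 : CRef := CRef.mk (Pat.mk 0x8000000080000001c0000000400000000 0x140000001c0000001f0000001c0000007f0000003b 7 7) 0 0 (step_sound _ 35 [rh29631e4c43ed50b9, (rh4f65a6bf45642e69.shift 2 0), rhabb51c13015db964] (by decide +kernel))
noncomputable def rh821aebd50f7b9a42 : CRef := CRef.mk (Pat.mk 0x80000001c000000040000000400000000 0x600000006000000060000000f0000001c0000003f0000000f0000000a 7 6) 0 0 (step_sound _ 130 [(rh277b01412deaec89.shift 0 1), rha367d84dafcc63e2, (rhcbaa34959f85e2ef.shift 1 0)] (by decide +kernel))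
noncomputable def rh361f24ef0b379165 : CRef := CRef.mk (Pat.mk 0x38000000080000000000000000 0x1000000014000000760000003e0000007f0000002800000008 7 7) 0 0 (step_sound _ 66 [(rh08110e81ebd0e083.shift 1 0), (rh1ed7a3503fa50fc8.shift 0 2), (rheea1a90336e79c71.shift 0 2)] (by decide +kernel))
noncomputable def rh007ea1eaeab6caf2 : CRef := CRef.mk (Pat.mk 0x180000000c00000000 0x1000000010000000380000003f00000077 7 7) 0 0 (step_sound _ 33 [rh0500d6ce1811a902, (rh53b3c253cb0c65f4.shift 0 1)] (by decide +kernel))
noncomputable def rh340d9967e9596d98 : CRef := CRef.mk (Pat.mk 0x380000000e000000000000000000000000 0x140000001c0000001e0000001f0000003a0000000e0000000e0000000c00000004 7 6) 0 0 (step_sound _ 163 [(rh125cab51679c4bee.shift 0 1), (rh281c6819542c66e6.shift 2 0), (rh5840dbfc019b4d17.shift 0 2), (rh68a777751bfeafdf.shift 2 2)] (by decide +kernel))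
noncomputable def rh9568a40364e9a09a : CRef := CRef.mk (Pat.mk 0x10000000180000000e0000000000000000 0x80000000c0000000e0000001f0000001b0000001e0000000c0000000c 7 5) 0 0 (step_sound _ 35 [(rh71222050f2c63a3a.shift 3 0), rhce353b10dcbf42c5] (by decide +kernel))
noncomputable def rh68633b6071a8b2e4 : CRef := CRef.mk (Pat.mk 0x80000001c0000000600000000 0x1e0000001f0000003c0000001c0000007e00000073 7 7) 0 0 (step_sound _ 131 [rh0b0b6e1f398a39ab, (rh5c5e593799055d58.shift 2 1)] (by decide +kernel))
noncomputable def rhf3119acce0bf1071 : CRef := CRef.mk (Pat.mk 0x20000000700000001000000000 0x2000000020000000fe0000007e000000d700000040 7 8) 0 0 (step_sound _ 67 [(rh760bc30349b27d73.shift 0 1), (rhec46bd5500c722c9.shift 2 2), (rhec695e9f7cccd400.shift 3 0)] (by decide +kernel))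
noncomputable def rh80b2ce5fa05a7dfc : CRef := CRef.mk (Pat.mk 0x1e0000000000000000 0x8000000080000003f0000003f0000003000000010 7 6) 0 0 (step_sound _ 97 [(rh3244c3cc8379b070.shift 0 2), rh8e4b992041b51395] (by decide +kernel))
noncomputable def rh20502f1c61f0b3d0 : CRef := CRef.mk (Pat.mk 0x60000000100000000000000000 0x8000003fc000001ff000003be0000001000000010 7 10) 0 0 (step_sound _ 100 [(rh5f276b94a38ceba1.shift 2 2), rh75b62b1478b97463, (rh95c33204f0b463ff.shift 2 2), (rhc22314605365e1ce.shift 3 2), (rhdc1641106d7e5aa2.shift 3 2)] (by decide +kernel))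
noncomputable def rh20eb43bc20454f5e : CRef := CRef.mk (Pat.mk 0x180000000e00000004 0xb0000000b0000001f000000fe0000000f 7 8) 0 0 (step_sound _ 99 [(rh5c5e593799055d58.shift 2 0), rh68f7e6ab787ab8a5] (by decide +kernel))
noncomputable def rhaca4a649905e0169 : CRef := CRef.mk (Pat.mk 0x180000000c000000000000000000000000 0xa0000000a0000001f0000003f000000370000001400000004 7 6) 0 0 (step_sound _ 97 [(rh53b3c253cb0c65f4.shift 0 3), rha4dcbaa6d0921718] (by decide +kernel))
noncomputable def rhdbab522d5da2281b : CRef := CRef.mk (Pat.mk 0x180000000e000000080000000000000000 0x70000001f0000007e0000007c0000003c0000001c 7 7) 0 0 (step_sound _ 100 [rh3059fd319a21d577, (rh5f68d4d802450994.shift 1 2), (rhe7196fc96509c637.shift 1 0)] (by decide +kernel))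
noncomputable def rh3195818a4dedfd5b : CRef := CRef.mk (Pat.mk 0x180000000e000000080000000000000000 0x10000000300000001f0000007e0000007f0000003000000030 7 7) 0 0 (step_sound _ 100 [rh13168d10d2a18e91, (rh5f68d4d802450994.shift 1 2), (rh98bfe017ab5fead7.shift 0 2), (rhaeebc73f5a9c796a.shift 0 2)] (by decide +kernel))
noncomputable def rhb647a734cd696499 : CRef := CRef.mk (Pat.mk 0x20000000300000001c0000000000000000 0x10000000700000003f0000007c0000007000000030 7 7) 0 0 (step_sound _ 36 [(rh71222050f2c63a3a.shift 4 0), rhf166b555317c57af] (by decide +kernel))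
noncomputable def rh3ed52b80ebd9a237 : CRef := CRef.mk (Pat.mk 0x180000000e000000000000000400000000 0x80000000a0000001f0000003e000000370000003c00000038 7 6) 0 0 (step_sound _ 100 [(rha6444fedf87f1521.shift 0 1), rhd60e581ef1dac67a, (rhea719cc8bd0bdd28.shift 1 1)] (by decide +kernel))
noncomputable def rh38353064eb08e5cb : CRef := CRef.mk (Pat.mk 0x300000001c000000080000000000000000 0x6e0000003f0000001c0000007c0000001e0000001c 7 7) 0 0 (step_sound _ 35 [(rh71222050f2c63a3a.shift 3 0), rhaefb8be690a57155] (by decide +kernel))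
noncomputable def rh4843937c35648619 : CRef := CRef.mk (Pat.mk 0x1c000000070000000000000000000000000000000000000000 0x80000000c0000001c0000001c000000170000003e0000001e0000000e0000000e00000002 7 6) 0 0 (step_sound _ 130 [(rh215e11e099257d75.shift 2 3), (rh4f3c983e7b2d8da3.shift 1 0), (rh7c39e64a76c2f796.shift 0 1), (rhaada96c5de887e7e.shift 0 1)] (by decide +kernel))
noncomputable def rh739a6241251e8702 : CRef := CRef.mk (Pat.mk 0x80000001c00000006000000000000000000000000 0xc0000001c0000001c0000001c0000007e0000001b0000001800000008 7 7) 0 0 (step_sound _ 195 [(rh5c5e593799055d58.shift 2 3), rh852aea0b350c36a9] (by decide +kernel))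
noncomputable def rh4808c64a618b436c : CRef := CRef.mk (Pat.mk 0xf0000000a0000000000000000 0xc0000000c0000001c0000000f0000000e0000003e0000001c 7 6) 0 0 (step_sound _ 131 [(rh33e738c4ed385b9f.shift 0 3), (rh9a0b34ccd6b0a5d2.shift 1 0)] (by decide +kernel))
noncomputable def rh802e0750e92603e2 : CRef := CRef.mk (Pat.mk 0x180000000c000000000000000000000000 0x80000000800000018000000ff000000ff0000001400000004 7 8) 0 0 (step_sound _ 97 [(rh53b3c253cb0c65f4.shift 0 3), rhf624bf9a7a4c64a4] (by decide +kernel))
noncomputable def rh0b3b83c1f889e91d : CRef := CRef.mk (Pat.mk 0xe000000030000000200000000 0x100000003000000070000000e0000001f0000001f0000001d 7 5) 0 0 (step_sound _ 129 [rh03dfdf12d5937476, rh0f7b295fa42b5ad9, rh5969fc1db7f0e0cc, rh5abfc4c9d959be03] (by decide +kernel))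
noncomputable def rhbfa839c5927cd3d1 : CRef := CRef.mk (Pat.mk 0x300000001c0000000800000000 0x200000007c0000003e000000360000001c0000001f00000012 7 7) 0 0 (step_sound _ 132 [(rh5c5e593799055d58.shift 3 1), rh6fadc944e2e7425d] (by decide +kernel))
noncomputable def rh50dd5e58f1cd6424 : CRef := CRef.mk (Pat.mk 0x7000000018000000080000000000000000 0x8000000080000002c00000078000000180000001f0000007c0000003c 7 7) 0 0 (step_sound _ 35 [(rh71222050f2c63a3a.shift 3 0), rh8c52aceb2a93752c] (by decide +kernel))
noncomputable def rhcd00790315484dbb : CRef := CRef.mk (Pat.mk 0x40000001c0000000600000000 0x80000000c0000000c0000000c0000001f0000003e0000001c 7 6) 0 0 (step_sound _ 130 [rh606e7f78ffeb489a, (rh9a369cb82ea472da.shift 1 1), (rhd4b4beefcd67f51e.shift 2 0)] (by decide +kernel))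
noncomputable def rh60a72be31cced53c : CRef := CRef.mk (Pat.mk 0x20000000e00000003000000000000000000000000 0x4000000060000000e0000001b0000001f0000001f00000005 7 5) 0 0 (step_sound _ 65 [(rh0f7b295fa42b5ad9.shift 0 1), rh6eff4158bb400f47, (rha707fb719e87fe6e.shift 1 1)] (by decide +kernel))
noncomputable def rh107535a86ee6c95d : CRef := CRef.mk (Pat.mk 0x20000000600000003000000000000000000000000 0x40000000600000006000000070000001f0000001f00000005 7 5) 0 0 (step_sound _ 65 [rh6eff4158bb400f47, (rh93a8e6d21ec12a0a.shift 0 1), (rha707fb719e87fe6e.shift 1 1)] (by decide +kernel))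
noncomputable def rhe614f5555dfb0362 : CRef := CRef.mk (Pat.mk 0x100000001c000000080000000000000000 0x40000000f0000001f0000001c0000001f0000003c0000001c 7 6) 0 0 (step_sound _ 35 [rh6379922a00e86253, (rh71222050f2c63a3a.shift 3 0)] (by decide +kernel))
noncomputable def rh53d9354c306d773e : CRef := CRef.mk (Pat.mk 0x1800000018000000080000000800000000 0x70000001f0000001c0000000f0000003c00000014 7 6) 0 0 (step_sound _ 36 [(rh55afc6a59410cf00.shift 3 0), rh761d0f3a520381cc] (by decide +kernel))
noncomputable def rhf2779613ed230f5f : CRef := CRef.mk (Pat.mk 0x10000000700000001800000000 0x1c0000001f0000003e0000007f000000f800000020 7 8) 0 0 (step_sound _ 67 [(rh082a4b21b1673342.shift 2 0), (rh15a2b73944acc7e4.shift 0 1), (rhf659182c2898fe93.shift 0 1)] (by decide +kernel))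
noncomputable def rhe68757c0c03a7c92 : CRef := CRef.mk (Pat.mk 0x1000000018000000080000000000000000 0xc0000000c0000000c0000001f00000038000000780000001e0000001c 7 7) 0 0 (step_sound _ 35 [(rh71222050f2c63a3a.shift 3 0), rh9d3afba43ae6eb87] (by decide +kernel))
noncomputable def rh46fb05831a1b239b : CRef := CRef.mk (Pat.mk 0x80000000c00000006000000040000000000000000 0x400000004000000040000000c0000003e0000003e0000003e0000001b00000002 7 6) 0 0 (step_sound _ 132 [(rh18965a982d73c794.shift 1 3), rh3f9dcede37a06255] (by decide +kernel))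
noncomputable def rh6145e2b9d0c1aad7 : CRef := CRef.mk (Pat.mk 0x1800000018000000080000000800000000 0x20000000780000001f0000003f000000f800000030 7 8) 0 0 (step_sound _ 36 [(rh55afc6a59410cf00.shift 3 0), rhdf6dc11c50f52b16] (by decide +kernel))
noncomputable def rh643842241549f6ce : CRef := CRef.mk (Pat.mk 0x4000000040000000600000002000000000 0x40000007ef000003fe000003be00000080 7 11) 0 0 (step_sound _ 68 [(rh42c149c634520fed.shift 3 0), (rh4d63ff26ec2dbd2d.shift 0 1), (rh74c9babd7dd88dca.shift 1 1), (rha11dfd15f08f96e3.shift 3 2)] (by decide +kernel))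
noncomputable def rhe23dc28a598900d7 : CRef := CRef.mk (Pat.mk 0x1800000018000000080000000800000000 0xf0000001f0000001c0000000f0000000c00000004 7 5) 0 0 (step_sound _ 130 [(rh50fbb5868c909700.shift 2 1), rh514980c7922c8c9c] (by decide +kernel))
noncomputable def rhbd6ec33cd75005ad : CRef := CRef.mk (Pat.mk 0x1000000010000000180000000800000000 0x2c0000003e000000f80000007c0000001f00000014 7 8) 0 0 (step_sound _ 34 [(rh0bb882ba86b2372d.shift 0 1), (rh2df8752f162b3a67.shift 1 0), (rh574fdbf07bdd18b9.shift 0 1)] (by decide +kernel))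
noncomputable def rh6bd5a66d4c46030a : CRef := CRef.mk (Pat.mk 0x80000000c000000040000000000000000 0x600000006000000060000000f0000003c0000000f0000003c0000001c 7 6) 0 0 (step_sound _ 34 [(rh71222050f2c63a3a.shift 2 0), rhb225796ab5df8cc6] (by decide +kernel))
noncomputable def rh6a80830a961e29a0 : CRef := CRef.mk (Pat.mk 0x200000002000000030000000300000000 0x400000006000000060000001f0000001f0000001e 7 5) 0 0 (step_sound _ 34 [(rh55afc6a59410cf00.shift 1 0), rha5b448960ed7d178] (by decide +kernel))
noncomputable def rhfe80705680bf5d22 : CRef := CRef.mk (Pat.mk 0x180000000c000000080000000000000000 0x1c000000ff0000007f0000003000000030 7 8) 0 0 (step_sound _ 97 [(rh53b3c253cb0c65f4.shift 0 3), rhe3d10e9bd66ad801] (by decide +kernel))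
noncomputable def rh115477d207dc3b32 : CRef := CRef.mk (Pat.mk 0x8000000080000000c000000040000000000000000 0x140000003c0000000f0000007e0000007e0000001800000010 7 7) 0 0 (step_sound _ 101 [(rh7dd59a193053bf6c.shift 0 1), (rh8aeae207ef4e32d0.shift 1 2), (rhe8e1581ee0e9dc03.shift 1 0)] (by decide +kernel))
noncomputable def rh9e34b7797516451e : CRef := CRef.mk (Pat.mk 0x1000000030000000180000000800000000 0x600000006000000070000000300000007c000000ef00000060 7 8) 0 0 (step_sound _ 69 [(rh188f5ec46134dc0b.shift 2 0), (rh2820ca9a6c4f41b4.shift 0 1), (rh49eecd2cd376859f.shift 2 0)] (by decide +kernel))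
noncomputable def rhbb60f993f1005ee6 : CRef := CRef.mk (Pat.mk 0x1000000018000000080000000000000000 0x8000000080000000c0000001e0000007c0000001f0000000c0000000c 7 7) 0 0 (step_sound _ 35 [(rh71222050f2c63a3a.shift 3 0), rhed8f43a1f4476abd] (by decide +kernel))
noncomputable def rh396e52b7ee61c4e0 : CRef := CRef.mk (Pat.mk 0x1000000018000000080000000800000000 0x1000000014000001f6000000fc000001ef0000002800000020 7 9) 0 0 (step_sound _ 164 [rh4c1851663132dadd, (rh5c5e593799055d58.shift 3 2)] (by decide +kernel))
noncomputable def rh09eda300e93b3f13 : CRef := CRef.mk (Pat.mk 0x40000000400000016000000020000000000000000 0x4000000340000003e0000003f0000001c00000008 7 6) 0 0 (step_sound _ 99 [(rhbffd51f1488301b9.shift 1 0), (rheb0810cc63b001d8.shift 0 2)] (by decide +kernel))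
noncomputable def rh2c6da238d0858eea : CRef := CRef.mk (Pat.mk 0x800000008000000080000000c00000000 0x40000000c0000000c0000003e0000007f00000013 7 7) 0 0 (step_sound _ 36 [(rh55afc6a59410cf00.shift 3 0), rh6f8343476377d5ec] (by decide +kernel))
noncomputable def rh5083e271c0a93e58 : CRef := CRef.mk (Pat.mk 0x80000000c000000060000000400000000 0x140000001c0000003c0000003e0000003e0000001b 7 6) 0 0 (step_sound _ 100 [(rh18965a982d73c794.shift 1 2), rh7f0afc4397677225] (by decide +kernel))
noncomputable def rhb85240bc46497d23 : CRef := CRef.mk (Pat.mk 0x1000000018000000080000000800000000 0xc0000001e0000007c0000000f0000003c00000014 7 7) 0 0 (step_sound _ 131 [rh7efff25179d37ffa, rhc56032447bf2291e, (rhcf85c92937975d4d.shift 1 1)] (by decide +kernel))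
noncomputable def rhcfa7c310b58e3424 : CRef := CRef.mk (Pat.mk 0x80000001c000000060000000000000000 0x3000000230000007f0000001e0000007e0000003000000030 7 7) 0 0 (step_sound _ 68 [(rh237a84ba5dbe676e.shift 1 0), (rh23c90b53444d4795.shift 0 2), (rhdddc1ccd74b1c0a6.shift 1 0)] (by decide +kernel))
noncomputable def rh9b4a4457494256d0 : CRef := CRef.mk (Pat.mk 0x40000000c000000060000000200000000 0x80000000c0000003c0000001f0000003b00000018 7 6) 0 0 (step_sound _ 100 [(rh18965a982d73c794.shift 1 2), rhc6e316a51d7a7e4b] (by decide +kernel))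
noncomputable def rhac7e54e5b91a5d02 : CRef := CRef.mk (Pat.mk 0x40000000c000000060000000200000000 0x18000000180000001c0000000f0000003f0000003b00000018 7 6) 0 0 (step_sound _ 67 [rh188f5ec46134dc0b, rh49eecd2cd376859f, (rha83d0a1d851c6a27.shift 0 1)] (by decide +kernel))
noncomputable def rh1117f199fc4bc252 : CRef := CRef.mk (Pat.mk 0x20000000300000001000000010 0x280000007c000001ef000000fc000000dc00000050 7 9) 0 0 (step_sound _ 133 [rh36a825ecff4065c5, (rh5c5e593799055d58.shift 4 1)] (by decide +kernel))
noncomputable def rh4e144d9db702aa94 : CRef := CRef.mk (Pat.mk 0x100000001c000000080000000800000000 0xf0000001f0000001f0000003c0000001c00000014 7 6) 0 0 (step_sound _ 131 [rh6d718a88c83f7ffb, rh7aad77bd557e3da5, rhf3711a81227b0b0c] (by decide +kernel))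
noncomputable def rh1d6478cafaa34461 : CRef := CRef.mk (Pat.mk 0x100000001c000000080000000800000000 0x8000000080000006e0000007f0000001c0000001c0000001c00000014 7 7) 0 0 (step_sound _ 131 [(rh257cac3f88c56b7b.shift 2 0), rh6e9bf4f4aa5db38b, rhb9fa41937b57b353] (by decide +kernel))
noncomputable def rh5e98a4288c4ec5c8 : CRef := CRef.mk (Pat.mk 0x1000000038000000080000000800000000 0x770000003e0000007c0000007800000070 7 7) 0 0 (step_sound _ 98 [(rh0d378fd9e8917c5a.shift 0 2), (rh483ab7048429fb91.shift 2 0), (rhec46bd5500c722c9.shift 1 3)] (by decide +kernel))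
noncomputable def rh4218efa1311bc211 : CRef := CRef.mk (Pat.mk 0x180000000e000000040000000000000000 0x2000000130000001f0000003e0000003c0000007800000038 7 7) 0 0 (step_sound _ 100 [(rh02a6a33df9904d94.shift 1 0), (rhcea95bd1ecd58bb2.shift 0 2)] (by decide +kernel))
noncomputable def rhe8513358f1270d46 : CRef := CRef.mk (Pat.mk 0x70000000180000000000000000 0x280000006f0000007f000000f8000000d000000050 7 8) 0 0 (step_sound _ 99 [(rh014abbda9a411227.shift 2 0), (rh15a2b73944acc7e4.shift 0 2), (rh38a0850c9fea941e.shift 2 0), (rha7092670063e400a.shift 0 2)] (by decide +kernel))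
noncomputable def rh65268f14fd188cfa : CRef := CRef.mk (Pat.mk 0x200000002000000030000000100000000000000000 0x80000007c000001ef000000fc000000dc0000005000000010 7 9) 0 0 (step_sound _ 36 [(rh36a825ecff4065c5.shift 0 1), (rh71222050f2c63a3a.shift 4 0)] (by decide +kernel))
noncomputable def rhe4ce490a4a2f11c8 : CRef := CRef.mk (Pat.mk 0x8000000080000000c0000000400000000 0x3f0000007f0000007f0000003700000012 7 7) 0 0 (step_sound _ 100 [(rh0bb882ba86b2372d.shift 0 2), rh5e37e6ddc7c193ad, rhe4125d94f0529155] (by decide +kernel))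
noncomputable def rh0babe0a26b150f36 : CRef := CRef.mk (Pat.mk 0x8000000080000000c0000000600000000 0x4000000140000003c0000007f0000003e0000000e0000000a 7 7) 0 0 (step_sound _ 68 [(rh18965a982d73c794.shift 1 1), rhcf72e804047b6c6d] (by decide +kernel))
noncomputable def rh1fb8561bef7ed0cf : CRef := CRef.mk (Pat.mk 0x10000000180000000e000000000000000000000000 0x28000000380000001f0000003e0000001f0000001c00000004 7 6) 0 0 (step_sound _ 67 [rh3b57dbe8a6aeb190, (rh71222050f2c63a3a.shift 3 1)] (by decide +kernel))
noncomputable def rh5fd16c744f5779d9 : CRef := CRef.mk (Pat.mk 0x20000000300000001c00000000 0x3000000030000000700000003f0000007c0000002e 7 7) 0 0 (step_sound _ 133 [rh58a90283bbada679, (rh5c5e593799055d58.shift 4 1)] (by decide +kernel))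
noncomputable def rh699811eb130bf8fd : CRef := CRef.mk (Pat.mk 0x8000000180000000c0000000400000000 0x100000003f0000007f0000007c0000006600000020 7 7) 0 0 (step_sound _ 101 [(rh18965a982d73c794.shift 2 2), rhd15dd36ae4cd1688] (by decide +kernel))
noncomputable def rh5684f24bf38b12d7 : CRef := CRef.mk (Pat.mk 0x8000000180000000c00000004000000000000000000000000 0x160000001f0000001f0000001f0000000c000000080000000800000008 7 5) 0 0 (step_sound _ 129 [(rh53b3c253cb0c65f4.shift 0 4), rh6254b0c427077913] (by decide +kernel))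
noncomputable def rh52223a67bafc1671 : CRef := CRef.mk (Pat.mk 0x180000000e000000080000000000000000 0x10000000180000003e0000001f0000007800000018 7 7) 0 0 (step_sound _ 35 [(rh2f68792b6b779e96.shift 3 1), rh3eb3df6ae3daa111] (by decide +kernel))
noncomputable def rh76c429ccda6eea3e : CRef := CRef.mk (Pat.mk 0x180000000e000000080000000000000000 0x70000001f0000003e0000001f0000007c0000001c 7 7) 0 0 (step_sound _ 100 [rh22f53ba2f05af569, rh3059fd319a21d577, rh31eb30c068821a1a, rha37d73ec03729ca5] (by decide +kernel))
noncomputable def rh719fb4967bdabf59 : CRef := CRef.mk (Pat.mk 0x180000000e000000080000000000000000 0x600000016000000370000001f000000fe0000000f0000000600000004 7 8) 0 0 (step_sound _ 100 [rh22f53ba2f05af569, (rh2a4fba10843b5c5f.shift 0 2), (rh4a59be183f8e90a1.shift 0 1), (rhb447f348b8f2aaa5.shift 0 2)] (by decide +kernel))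
noncomputable def rh9ab46ee039f10502 : CRef := CRef.mk (Pat.mk 0x1000000030000000180000000800000000 0x200000006e0000003e0000003f0000001e0000000f00000006 7 7) 0 0 (step_sound _ 66 [(rh53b3c253cb0c65f4.shift 1 2), rh62412f12430ece31] (by decide +kernel))
noncomputable def rh07e834ce12720428 : CRef := CRef.mk (Pat.mk 0xf000000080000000000000000 0x4000000040000003e0000007f000000ec0000000800000008 7 8) 0 0 (step_sound _ 130 [(rh8f2eacec99830cb7.shift 0 1), (rh91219f0a1c36088e.shift 0 2), (rhc38f566cab2818e5.shift 2 0)] (by decide +kernel))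
noncomputable def rh8389e7a5d20945bd : CRef := CRef.mk (Pat.mk 0x1a0000000300000000000000000000000000000000 0x500000007000000070000000f0000001b0000000300000007000000070000000700000002 7 5) 0 0 (step_sound _ 193 [(rh281c6819542c66e6.shift 0 1), (rh7a7e08304268422e.shift 0 3), (rh8a68b5686ecb8a9c.shift 0 1), rh99dd60e849d26be6] (by decide +kernel))
noncomputable def rh3fe65c94f3192074 : CRef := CRef.mk (Pat.mk 0xe0000001200000000 0x8000000080000003b0000003f0000003600000010 7 6) 0 0 (step_sound _ 68 [rh224e419e56c94404, (rhe25b0a99195a5d59.shift 1 1)] (by decide +kernel))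
noncomputable def rh10f2c9b04a72c968 : CRef := CRef.mk (Pat.mk 0x180000000a0000000000000000 0x400000004000000ef0000007f000000fb0000000a00000008 7 8) 0 0 (step_sound _ 98 [(rh038dfaa267a09217.shift 1 0), (rh73f5f7cdf41b5bc9.shift 0 1), (rhd526f9b20c752965.shift 0 2)] (by decide +kernel))
noncomputable def rh056f6a77d245f08e : CRef := CRef.mk (Pat.mk 0x4000000060000000200000002000000000 0x1000000018000003df000001fe000003be0000003800000010 7 10) 0 0 (step_sound _ 100 [(rh28e8489d32b0fe12.shift 1 0), (rh3bd055cf819182eb.shift 3 1), (rh4d63ff26ec2dbd2d.shift 0 2), (rha11dfd15f08f96e3.shift 3 3), (rhe3b9ae591612b554.shift 2 1)] (by decide +kernel))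
noncomputable def rhee0a0e466811a257 : CRef := CRef.mk (Pat.mk 0x1000000018000000080000000800000000 0x80000000c0000000c0000001e0000007c0000001f0000007800000010 7 7) 0 0 (step_sound _ 66 [(rh2b7823df3149c00f.shift 1 1), (rh69012675dfdb1a5b.shift 0 2), rhd1ee36fca93e3c14, (rhd69c262cd33b94b3.shift 0 2)] (by decide +kernel))
noncomputable def rh61a104e0aa5a07da : CRef := CRef.mk (Pat.mk 0x100000001000000018000000080000000000000000 0x10000001f7000001fe000003ef0000002000000020 7 10) 0 0 (step_sound _ 101 [(rh2ead9b9cc22afc12.shift 1 0), (rh352b7f91eba0c81f.shift 2 2), (rh785a7352656edb05.shift 0 2), (rhbc097188b38155dd.shift 2 2), rhe2ad5468805b2f6a] (by decide +kernel))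
noncomputable def rh17277fc4d1f25542 : CRef := CRef.mk (Pat.mk 0x1400000018000000080000000800000000 0x2000000020000002b0000007f0000001f0000001c000000f800000030 7 8) 0 0 (step_sound _ 131 [(rh575786cb1516c8c7.shift 0 2), (rh60f7890073fd1121.shift 1 0), (rh65a3a4cf67baf828.shift 2 0)] (by decide +kernel))
noncomputable def rhaad5b7ed757e6970 : CRef := CRef.mk (Pat.mk 0x2000000020000000200000007000000000 0x100000003000000020000001fe000000fe00000007 7 9) 0 0 (step_sound _ 132 [(rh50fbb5868c909700.shift 4 1), rh6314326e49e58a7a] (by decide +kernel))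
noncomputable def rhc8b6fc5f57303414 : CRef := CRef.mk (Pat.mk 0x80000000c000000060000000000000000 0x380000003f0000003e0000003000000030 7 6) 0 0 (step_sound _ 100 [(rh18965a982d73c794.shift 1 2), rh3e8f13bbff4d5f0e] (by decide +kernel))
noncomputable def rha0508b5dcd575fdc : CRef := CRef.mk (Pat.mk 0x180000000c0000000000000000 0xc0000000c0000001f000000ff0000007300000012 7 8) 0 0 (step_sound _ 65 [rh1f6e16d9a7fbe7fc, (rh53b3c253cb0c65f4.shift 0 2)] (by decide +kernel))
noncomputable def rh217cd79b7ec509df : CRef := CRef.mk (Pat.mk 0x20000000300000001000000010 0x8000003fc000001fe000001df00000010 7 10) 0 0 (step_sound _ 70 [(rha83d0a1d851c6a27.shift 3 1), (rha8e118612a5545ec.shift 2 0), (rhfc4a6c9741c3b285.shift 0 1)] (by decide +kernel))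
noncomputable def rhe5ae0309d945d138 : CRef := CRef.mk (Pat.mk 0x40000000e000000020000000200000000 0x1000000030000007f0000003e000000060000000600000004 7 7) 0 0 (step_sound _ 100 [rh1ec042e53e367a52, (rh3f9c2fb96516703c.shift 1 2), (rhe3060b190bc0bc78.shift 0 3)] (by decide +kernel))
noncomputable def rhfaabfad553013758 : CRef := CRef.mk (Pat.mk 0x100000001000000018000000080000000000000000 0x50000001f7000001fe000003ef0000002000000020 7 10) 0 0 (step_sound _ 101 [(rh2ead9b9cc22afc12.shift 1 0), (rh785a7352656edb05.shift 0 2), (rhbc097188b38155dd.shift 2 2), (rhc83b743fb6d2ae41.shift 0 1), (rhe424e153f4ec40d1.shift 2 0)] (by decide +kernel))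
noncomputable def rh8b1bec4ccb517949 : CRef := CRef.mk (Pat.mk 0x400000007000000020 0x7c000003fe000003b7 7 10) 0 0 (step_sound _ 39 [(rh9ab60d74117ac343.shift 4 0), (rha83d0a1d851c6a27.shift 4 0), rhcbf43dbdbdad0e01, (rhe401600d466b97cd.shift 3 0)] (by decide +kernel))
noncomputable def rha860b026dec1b9df : CRef := CRef.mk (Pat.mk 0x20000000300000001000000010 0x800000008000001ef000001fe000003bf00000010 7 10) 0 0 (step_sound _ 67 [(rh30c30d63cfc6dc8d.shift 2 0), (rh860e5a177e0e0352.shift 0 1), rhb98e183a12ed98e4] (by decide +kernel))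
noncomputable def rhd6bfcdeee5465575 : CRef := CRef.mk (Pat.mk 0xc000000060000000200000002 0x20000000a0000000b0000003f0000003e0000003600000012 7 6) 0 0 (step_sound _ 100 [(rh18965a982d73c794.shift 1 2), rh19990dc20c9bbbff] (by decide +kernel))
noncomputable def rh20e4074bfd832bf6 : CRef := CRef.mk (Pat.mk 0x20000000c0000000400000004 0x2000000e30000007e0000007f00000004 7 8) 0 0 (step_sound _ 68 [(rh09cd08bf7d5fae33.shift 1 1), (rh472e08b23b567149.shift 0 1), rh52c36d35947218a3] (by decide +kernel))
noncomputable def rhcedc8aad700c2ac5 : CRef := CRef.mk (Pat.mk 0x1000000018000000080000000800000000 0x1400000014000001f7000000fe000001ef0000002800000020 7 9) 0 0 (step_sound _ 164 [rh1e7fc6b2c529f289, (rh5c5e593799055d58.shift 3 2)] (by decide +kernel))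
noncomputable def rh81462b1ea3a55cc1 : CRef := CRef.mk (Pat.mk 0x1400000018000000080000000800000000 0x20000000a0000000b0000003f0000001f0000003c0000001c00000004 7 6) 0 0 (step_sound _ 131 [(rh575786cb1516c8c7.shift 0 2), (rh5cad244c30bc8170.shift 0 1), (rhad2e5f3a7ec95118.shift 2 0)] (by decide +kernel))
noncomputable def rh95c4239cb4cbb9c3 : CRef := CRef.mk (Pat.mk 0x10000000180000000c0000000800000000 0x28000000380000001f0000003f0000003f00000004 7 6) 0 0 (step_sound _ 65 [(rh53b3c253cb0c65f4.shift 0 2), rhdc26ad9894c5d01c] (by decide +kernel))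
noncomputable def rhf9aa246c61d6016c : CRef := CRef.mk (Pat.mk 0x20000000300000001000000010 0x800000008000001fe000000fe000001f700000014 7 9) 0 0 (step_sound _ 67 [(rh860e5a177e0e0352.shift 0 1), (rhc83aa6ecc254808d.shift 2 0), (rhebc72f11f72a9c25.shift 1 0)] (by decide +kernel))
noncomputable def rhe680b418ef3a4a78 : CRef := CRef.mk (Pat.mk 0x1000000018000000080000000000000000 0xc0000000c0000000c0000001f000000380000001c0000001c0000000c 7 6) 0 0 (step_sound _ 35 [rh541b046befb5b6b9, (rh71222050f2c63a3a.shift 3 0)] (by decide +kernel))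
noncomputable def rh4c628074cec8bd92 : CRef := CRef.mk (Pat.mk 0x10000000180000000e000000000000000000000000 0x2000000330000001f0000003e000000370000000400000004 7 6) 0 0 (step_sound _ 129 [(rh9160f25ba4516b22.shift 0 3), (rh9458e878ee940312.shift 0 1), rh95c349eddb4c40d0] (by decide +kernel))
noncomputable def rhfb007e3f459d4b69 : CRef := CRef.mk (Pat.mk 0x100000001000000018000000080000000000000000 0x50000001f7000001fe000003ef0000002000000020 7 10) 0 0 (step_sound _ 101 [(rhbc097188b38155dd.shift 2 2), (rhc32688944b7f7dbb.shift 2 0), (rhc83b743fb6d2ae41.shift 0 1), (rhe424e153f4ec40d1.shift 2 0)] (by decide +kernel))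
noncomputable def rh432a840c6d1c0b86 : CRef := CRef.mk (Pat.mk 0x10000000180000000c0000000800000000 0x80000000c0000000e0000001f0000001f0000000f0000000c00000004 7 5) 0 0 (step_sound _ 65 [rh529ea6a67cd1149e, (rh53b3c253cb0c65f4.shift 0 2)] (by decide +kernel))
noncomputable def rh86ef706515da645c : CRef := CRef.mk (Pat.mk 0x1000000010000000180000000c 0xc0000001e000000770000007e0000007c 7 7) 0 0 (step_sound _ 37 [(rh18965a982d73c794.shift 2 0), rh8e526fac0a1e1576] (by decide +kernel))
noncomputable def rh9a86666dab1f3596 : CRef := CRef.mk (Pat.mk 0x1000000010000000180000000c00000000 0x280000003c000000f00000001f000000ff00000017 7 8) 0 0 (step_sound _ 33 [(rh53b3c253cb0c65f4.shift 0 1), rh993ea573671b8f7b] (by decide +kernel))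
noncomputable def rhd0585a0d6feeea96 : CRef := CRef.mk (Pat.mk 0x8000000180000000c0000000400000000 0x160000001f0000001b0000000f0000003c00000010 7 6) 0 0 (step_sound _ 65 [rh239360f3bb442347, (rh53b3c253cb0c65f4.shift 0 2)] (by decide +kernel))
noncomputable def rhc887f793973af3a9 : CRef := CRef.mk (Pat.mk 0x100000001000000018000000080000000000000000 0x400000014000001f7000000fe000001ef0000002800000028 7 9) 0 0 (step_sound _ 35 [rh1e7fc6b2c529f289, (rh71222050f2c63a3a.shift 3 0)] (by decide +kernel))
noncomputable def rhb66705d64f15472d : CRef := CRef.mk (Pat.mk 0x1800000018000000080000000800000000 0x640000003f0000001f000000180000001800000010 7 7) 0 0 (step_sound _ 130 [(rh50fbb5868c909700.shift 2 1), rhe10b879feec4151c] (by decide +kernel))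
noncomputable def rhc9f137fbb5fd104e : CRef := CRef.mk (Pat.mk 0x8000000080000000c00000004000000000000000000000000 0x140000001e000000780000001f0000003c000000180000001800000008 7 7) 0 0 (step_sound _ 164 [(rh02f99bbc1f377c55.shift 0 2), (rh574fdbf07bdd18b9.shift 0 4), (rhf38cc6570e2f30a9.shift 1 0)] (by decide +kernel))
noncomputable def rh63023de05423a585 : CRef := CRef.mk (Pat.mk 0x1000000030000000180000000800000000 0xe0000001e0000003e0000003e0000006f00000026 7 7) 0 0 (step_sound _ 66 [(rh53b3c253cb0c65f4.shift 1 2), rha65f9f17bbdcf417] (by decide +kernel))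
noncomputable def rh64202f03be42a920 : CRef := CRef.mk (Pat.mk 0x1000000018000000080000000800000000 0x2000000024000001f6000000fe000001ef0000007c00000020 7 9) 0 0 (step_sound _ 101 [(rh2820ca9a6c4f41b4.shift 0 2), (rh2a6fb553eaf318f4.shift 1 0), (rha8e118612a5545ec.shift 1 1), (rhfa35e196e150edb4.shift 2 2)] (by decide +kernel))
noncomputable def rh7549d13633cdb3d5 : CRef := CRef.mk (Pat.mk 0xe0000000300000001000000000000000000000000 0x2000000060000000e0000001f0000001f0000001e0000000600000002 7 5) 0 0 (step_sound _ 193 [rh24d9c0d111212e44, (rh5c5e593799055d58.shift 0 3)] (by decide +kernel))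
noncomputable def rh9a08ae3175085b85 : CRef := CRef.mk (Pat.mk 0x1c00000006000000020000000000000000 0x380000001f0000003e000000370000001600000016 7 6) 0 0 (step_sound _ 33 [(rh71222050f2c63a3a.shift 1 0), rhaf10a125936aa25d] (by decide +kernel))
noncomputable def rhb67ad945cab5af64 : CRef := CRef.mk (Pat.mk 0x180000000c000000000000000000000000 0x8000000080000001c000000ff000000f70000001400000004 7 8) 0 0 (step_sound _ 97 [(rh53b3c253cb0c65f4.shift 0 3), rhf63748f15f92e7ee] (by decide +kernel))
noncomputable def rhac615fa351d87bb7 : CRef := CRef.mk (Pat.mk 0x300000001c000000080000000000000000 0x670000003f0000001c0000007c0000001e0000001c 7 7) 0 0 (step_sound _ 35 [rh0bec55b140b5d4e2, (rh71222050f2c63a3a.shift 3 0)] (by decide +kernel))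
noncomputable def rh4eb392a2af1cff2e : CRef := CRef.mk (Pat.mk 0x70000000180000000800000000 0x50000000f70000007f000000f80000002c00000020 7 8) 0 0 (step_sound _ 132 [rh35240712e9743d4a, (rh5c5e593799055d58.shift 3 1)] (by decide +kernel))
noncomputable def rh3639a19857f7b434 : CRef := CRef.mk (Pat.mk 0x180000000e000000000000000000000000 0xa0000000f0000001f000000fe0000000f0000000400000004 7 8) 0 0 (step_sound _ 66 [rh40867c009ec4d469, (rh446aa6a1c06c40c5.shift 0 2), (rhcf80391c5046a495.shift 2 0)] (by decide +kernel))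
noncomputable def rhc4f3153855fc691b : CRef := CRef.mk (Pat.mk 0x1c00000006000000020000000000000000 0x10000000330000001f0000007e0000000f0000000e00000006 7 7) 0 0 (step_sound _ 33 [(rh71222050f2c63a3a.shift 1 0), rhe23dff789de61352] (by decide +kernel))
noncomputable def rh7ae399fa6d1d867c : CRef := CRef.mk (Pat.mk 0xc000000040000000000000000 0x200000012000000ff0000007f000000fe0000000c0000000c 7 8) 0 0 (step_sound _ 100 [rh49df48c0edb45416, (rh8eea156ffecb6be4.shift 1 2), (rhb02f9c2bd63f56db.shift 1 2)] (by decide +kernel))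
noncomputable def rhb8d06e03f7d7568d : CRef := CRef.mk (Pat.mk 0x40000001c00000006000000000000000000000000 0x20000000f0000001c000000360000003e0000003e0000000a 7 6) 0 0 (step_sound _ 66 [(rh02ac241e891bce7e.shift 0 1), (rh6eff4158bb400f47.shift 1 0), (rh90682cf1ea8e0ea6.shift 1 1)] (by decide +kernel))
noncomputable def rhac71ed280767259b : CRef := CRef.mk (Pat.mk 0x1800000008000000080000000c00000000 0xc0000001c0000000f0000003c0000000f0000000a 7 6) 0 0 (step_sound _ 130 [(rh50fbb5868c909700.shift 2 1), rhddcf078facbd803a] (by decide +kernel))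
noncomputable def rh64a9b2d79095dd0c : CRef := CRef.mk (Pat.mk 0xc000000050000000000000000 0x200000022000000ff0000007e000000f70000001400000014 7 8) 0 0 (step_sound _ 100 [rh4bb84bbc7733c9c6, (rh4f8e450efc5b9f0e.shift 1 2), (rh9db01fbc8232eac9.shift 1 2), rha35705b344e6fdd0] (by decide +kernel))
noncomputable def rh6de99f19c3fecfbb : CRef := CRef.mk (Pat.mk 0x1c00000002 0xfc000000ff000000e3 7 8) 0 0 (step_sound _ 33 [rh757e1def9d4f67d9, rheb0810cc63b001d8] (by decide +kernel))
noncomputable def rhc919c9aa5f7ef713 : CRef := CRef.mk (Pat.mk 0x7800000000 0xc70000007e000000e7 7 8) 0 0 (step_sound _ 71 [(rh428265de8cd3cd2d.shift 3 1), rhbb13f9e1d387f64a] (by decide +kernel))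
noncomputable def rhd3a11e86c76a2ee1 : CRef := CRef.mk (Pat.mk 0x70000000180000000800000000 0x50000000f70000007f000000f80000002c00000020 7 8) 0 0 (step_sound _ 132 [rh285b41100f79d20a, (rh5c5e593799055d58.shift 3 1)] (by decide +kernel))
noncomputable def rh1344d15e9401b7c6 : CRef := CRef.mk (Pat.mk 0x380000000c000000040000000000000000 0x100000003e0000007c0000003e0000000f0000000e 7 7) 0 0 (step_sound _ 34 [rh1945f2323715acee, (rh71222050f2c63a3a.shift 2 0)] (by decide +kernel))
noncomputable def rh37fdbdc939d46278 : CRef := CRef.mk (Pat.mk 0x10000000180000000e000000000000000000000000 0x2000000330000001f000000fe0000000f0000000c00000004 7 8) 0 0 (step_sound _ 67 [rh41bc2a4a1f3a9aef, (rh71222050f2c63a3a.shift 3 1)] (by decide +kernel))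
noncomputable def rh4dce7be789ef6789 : CRef := CRef.mk (Pat.mk 0x80000000c0000000600000000 0x4000000040000001e0000001f0000007c0000000c0000000e0000000a 7 7) 0 0 (step_sound _ 131 [(rh5c5e593799055d58.shift 2 1), rhd9a0f58acb73c2d5] (by decide +kernel))
noncomputable def rhe468b539e57393e3 : CRef := CRef.mk (Pat.mk 0x280000000c00000008000000000000000000000000 0x8000000280000002c0000002c0000007f0000003c0000001c00000018 7 7) 0 0 (step_sound _ 68 [(rh2f7ef8ef5c94975a.shift 3 0), (rh52d627a795ac4e6c.shift 2 0), rhcc001f46f91fbccd, (rhde43633b9e4abc31.shift 2 2), (rhfa80626feb4e9cb5.shift 0 1)] (by decide +kernel))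
noncomputable def rh300f12f0621e1693 : CRef := CRef.mk (Pat.mk 0xe000000030000000200000000 0x10000000700000007000000060000000f0000001b0000001f0000000d 7 5) 0 0 (step_sound _ 129 [(rh42ab489a1be3958e.shift 0 1), rh85a476dcae2fbe68, rhd6085fba471a9d03] (by decide +kernel))
noncomputable def rh05e9292915f096d9 : CRef := CRef.mk (Pat.mk 0x80000001c000000060000000000000000 0x40000003c0000001f0000003e0000003700000016 7 6) 0 0 (step_sound _ 34 [(rh71222050f2c63a3a.shift 2 0), rhd526cc6d4122cb72] (by decide +kernel))
noncomputable def rh5d7d6753024c095a : CRef := CRef.mk (Pat.mk 0x1800000018000000080000000800000000 0x640000003f0000001f000000180000001800000010 7 7) 0 0 (step_sound _ 36 [(rh1ecc746e979c8cb9.shift 0 1), (rh55afc6a59410cf00.shift 3 0)] (by decide +kernel))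
noncomputable def rhf903cfbe2ae6324f : CRef := CRef.mk (Pat.mk 0x70000000180000000000000000 0x2000000060000000e00000007f000000f8000000e0000000e0 7 8) 0 0 (step_sound _ 99 [(rh014abbda9a411227.shift 2 0), (rh210e2d9c685c857e.shift 0 2), (rhb32eb569dfc388a6.shift 2 0), (rhe52323c8a5c3136a.shift 3 0), (rhf41a34b41b8c2138.shift 2 1)] (by decide +kernel))
noncomputable def rhe764b0c1e2948a61 : CRef := CRef.mk (Pat.mk 0x1000000018000000080000000800000000 0x2000000064000001f7000000fe000001ef0000007c00000020 7 9) 0 0 (step_sound _ 101 [(rh35850ee2050be189.shift 1 0), (rhb4b55eb1beed23a3.shift 0 1), (rhfa35e196e150edb4.shift 2 2)] (by decide +kernel))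
noncomputable def rhd8a170b7722c006d : CRef := CRef.mk (Pat.mk 0x200000002000000030000000100000000000000000 0x4000000060000003ee000001fe000001ff000000c000000040 7 10) 0 0 (step_sound _ 102 [(rh933beab41edfb2a2.shift 3 1), (rhdc1641106d7e5aa2.shift 3 2), rhdce0d1fc36c26d74] (by decide +kernel))
noncomputable def rh83624c6844f4c7cd : CRef := CRef.mk (Pat.mk 0x180000000e000000100000000000000000 0x180000003e000000370000003c0000001c 7 6) 0 0 (step_sound _ 100 [rh4361fe5abe0b1edf, (rhe25b0a99195a5d59.shift 1 2)] (by decide +kernel))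
noncomputable def rhc84e4a8f5ddf6846 : CRef := CRef.mk (Pat.mk 0x180000000e000000100000000000000000 0x3000000030000000320000001b0000003e0000001f0000003c0000001c 7 6) 0 0 (step_sound _ 100 [rh2395824d1086e2bc, rhb3864713a9f5db8e, (rhdc38782eaebd3836.shift 3 0)] (by decide +kernel))
noncomputable def rhdd142847729b9cbe : CRef := CRef.mk (Pat.mk 0xc000000070000000800000000000000000000000000000000 0x80000000c000000070000003e0000000f0000000e0000000600000004 7 6) 0 0 (step_sound _ 130 [(rh1b39041d83ebfa15.shift 0 2), (rh76474a20d9b30412.shift 1 0), (rh89ade209b3e28f13.shift 0 4)] (by decide +kernel))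
noncomputable def rh1e440bda37bed406 : CRef := CRef.mk (Pat.mk 0xf000000030000000000000000 0x40000000c0000001c0000000f0000001f0000001e0000000e 7 5) 0 0 (step_sound _ 67 [rh3fcff1ec7d3830a8, (rhe25b0a99195a5d59.shift 0 2)] (by decide +kernel))
noncomputable def rhd23d673465039f60 : CRef := CRef.mk (Pat.mk 0x80000000c00000004000000000000000000000000 0x18000000180000007c0000000f0000003c000000180000001800000018 7 7) 0 0 (step_sound _ 195 [(rh5c5e593799055d58.shift 2 3), rh6e11e8700e98f214] (by decide +kernel))
noncomputable def rh508f4a06d731284b : CRef := CRef.mk (Pat.mk 0x80000000c000000040000000400000000 0x20000000f0000003c0000003f0000003f0000001a 7 6) 0 0 (step_sound _ 130 [rhc71ed80c6d39935c, (rhcf85c92937975d4d.shift 0 1)] (by decide +kernel))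
noncomputable def rhe66651f920b66bb6 : CRef := CRef.mk (Pat.mk 0x4000000040000000600000002000000000000000000000000 0x80000000c0000007f0000003e0000003f0000003c0000000c00000004 7 7) 0 0 (step_sound _ 131 [(rh3905072ff89a80bc.shift 1 0), (rha83d0a1d851c6a27.shift 0 3), (rhdc1641106d7e5aa2.shift 0 3)] (by decide +kernel))
noncomputable def rhac294db778c754f7 : CRef := CRef.mk (Pat.mk 0x180000000c000000000000000000000000 0x18000000380000001f0000003f000000380000001800000010 7 6) 0 0 (step_sound _ 97 [(rh53b3c253cb0c65f4.shift 0 3), rhad254c8bd6d7b9ab] (by decide +kernel))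
noncomputable def rh1a43c11981063e2c : CRef := CRef.mk (Pat.mk 0x2000000070000000180000000000000000 0xf00000007f000000f8000000f000000070 7 8) 0 0 (step_sound _ 36 [(rh71222050f2c63a3a.shift 4 0), rhf00c5dcc041948ff] (by decide +kernel))
noncomputable def rh151b1c4aa50ee52c : CRef := CRef.mk (Pat.mk 0x180000000c000000080000000000000000 0x1c000000ff0000007f0000003000000030 7 8) 0 0 (step_sound _ 97 [rh262dc54b2e73be7d, (rh53b3c253cb0c65f4.shift 0 3)] (by decide +kernel))
noncomputable def rh2e023310a2058b9e : CRef := CRef.mk (Pat.mk 0x200000003000000050 0x3be000001fe000003df 7 10) 0 0 (step_sound _ 38 [(rh8ee80cc30e93a344.shift 3 0), rhae043b7040a09eba, (rhbc3a283c92990595.shift 3 0)] (by decide +kernel))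
noncomputable def rh75187499c9a8fecd : CRef := CRef.mk (Pat.mk 0x80000001c000000060000000000000000 0x40000003c0000001f0000003e0000003f0000001e 7 6) 0 0 (step_sound _ 34 [rh2974c90df69c5e3f, (rh71222050f2c63a3a.shift 2 0)] (by decide +kernel))
noncomputable def rhc3ba318c15d4ecd6 : CRef := CRef.mk (Pat.mk 0x1000000018000000080000000800000000 0xc0000000c0000000c0000003f0000003f0000000f0000000c00000004 7 6) 0 0 (step_sound _ 131 [(rh0ef6c71ce89c1c36.shift 2 0), rh323b13b67898eb3f, (rhc647a25a08ddf0ec.shift 0 1)] (by decide +kernel))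
noncomputable def rhbba85fce00fead87 : CRef := CRef.mk (Pat.mk 0x4000000040000000600000002000000020 0x1000000050000003de000000fe000001b7000000a0 7 10) 0 0 (step_sound _ 68 [(rh0085d2d6753c7fd3.shift 3 0), (rha11dfd15f08f96e3.shift 3 2), (rhb98e183a12ed98e4.shift 1 0), (rhda5bd266f468b314.shift 0 1)] (by decide +kernel))
noncomputable def rh6640dbc8e041fb4b : CRef := CRef.mk (Pat.mk 0x1000000010000000100000003800000000 0x80000001800000010000003be000001fe000001c7 7 10) 0 0 (step_sound _ 131 [rh2c2d98c8f9a85223, (rh50fbb5868c909700.shift 3 1)] (by decide +kernel))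
noncomputable def rhea658d2ba49827b3 : CRef := CRef.mk (Pat.mk 0x1000000010000000180000001000000000 0x28000000780000001e000000780000003f0000000f 7 7) 0 0 (step_sound _ 35 [(rh932754581e0f4330.shift 3 0), rhce9dace33278cf3c] (by decide +kernel))
noncomputable def rh176317ba8f337ab9 : CRef := CRef.mk (Pat.mk 0x8000000080000000c0000000c00000000 0x160000001f0000001b0000000f0000000c00000008 7 5) 0 0 (step_sound _ 132 [rh1dc37c0c5aed9fa3, (rh2f68792b6b779e96.shift 3 1)] (by decide +kernel))
noncomputable def rhca339080eda3c67c : CRef := CRef.mk (Pat.mk 0x3000000020000000300000000000000000000000000000000 0x500000007000000060000000300000003000000070000000600000006 7 3) 0 0 (step_sound _ 97 [(rh50fbb5868c909700.shift 0 3), rh97592df7d5ebadcd] (by decide +kernel))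
noncomputable def rha4d944eaa6a17943 : CRef := CRef.mk (Pat.mk 0x1800000010000000180000000000000000 0xc0000000f0000007f0000003e0000001c0000000c0000000c 7 7) 0 0 (step_sound _ 99 [rhc24ef288f4895ae7, (rhee4750e86d347f32.shift 2 0), (rhf575afa19097e90e.shift 0 2)] (by decide +kernel))
noncomputable def rh7e3bcbfe80efe496 : CRef := CRef.mk (Pat.mk 0x8000000080000000c000000000000000000000000 0x140000003c0000000f0000000f0000003c0000001c00000004 7 6) 0 0 (step_sound _ 66 [(rh42548283029e2a39.shift 2 0), (rhd7ae86bf31a4c7f7.shift 0 1), (rhf9af042da61fc652.shift 2 0)] (by decide +kernel))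
noncomputable def rhd486ef9d1dca17f5 : CRef := CRef.mk (Pat.mk 0x10000000100000001c00000010000000000000000000000000 0x10000000140000003f0000001f0000000b0000000200000002 7 6) 0 0 (step_sound _ 99 [(rh932754581e0f4330.shift 3 2), rh9e32231d7004bb35] (by decide +kernel))
noncomputable def rh4ce7c12453a88dbb : CRef := CRef.mk (Pat.mk 0x8000000080000000e0000000800000000 0x160000001f0000001b0000000e0000000c0000000c 7 5) 0 0 (step_sound _ 34 [(rh932754581e0f4330.shift 2 0), rhc20cb27ed982ff95] (by decide +kernel))
noncomputable def rhe42a22895302ea23 : CRef := CRef.mk (Pat.mk 0x400000004000000060000000000000000000000000 0x10000000d0000000ff000001fe000003bf000000a000000080 7 10) 0 0 (step_sound _ 100 [(rh9dda159c529a8e90.shift 1 2), (rha4e887c2a2a0f60b.shift 1 2), (rhd7c8e8bf77e9880b.shift 3 0), (rhf7943763ae823400.shift 0 2)] (by decide +kernel))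
noncomputable def rhbd983731667c98fe : CRef := CRef.mk (Pat.mk 0x20000000380000001000000000 0x28000000680000003e0000007e0000001700000004 7 7) 0 0 (step_sound _ 133 [(rh5c5e593799055d58.shift 4 1), rh6e0c715ed1624dea] (by decide +kernel))
noncomputable def rhac6464bb64255311 : CRef := CRef.mk (Pat.mk 0x2000000020000000300000000 0x500000007000000070000000200000002000000060000000700000005 7 3) 0 0 (step_sound _ 129 [rh932754581e0f4330, rha087c6594f4bfb59] (by decide +kernel))
noncomputable def rh2b0b9d34f8b1586c : CRef := CRef.mk (Pat.mk 0x18000000100000001000000010 0x270000007f000000fe0000001000000010 7 8) 0 0 (step_sound _ 101 [(rh2f68792b6b779e96.shift 4 0), (rhe303dfad404ca0b4.shift 0 2)] (by decide +kernel))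
noncomputable def rh37cf2ee957d1a4f3 : CRef := CRef.mk (Pat.mk 0x10000000100000001c0000000000000000 0x1000000017000000ff0000007c00000028 7 8) 0 0 (step_sound _ 36 [(rhb379f99078aafa2d.shift 2 0), (rhbdde238153e38af9.shift 1 0), rhd3969ba2fee7b94e] (by decide +kernel))
noncomputable def rh680f10aa1d5dec58 : CRef := CRef.mk (Pat.mk 0x8000000080000001e00000000 0x70000000f0000001b0000003e00000007 7 6) 0 0 (step_sound _ 1 [rh47e9348c2c3792cf, rheb0810cc63b001d8] (by decide +kernel))
noncomputable def rh54daf9279bf26ee9 : CRef := CRef.mk (Pat.mk 0x100000001000000018000000080000000000000000 0x800000058000001d8000000fe000001ff0000003400000020 7 9) 0 0 (step_sound _ 101 [(rh2820ca9a6c4f41b4.shift 0 2), (rh701e61da76bc602c.shift 2 0), (rha0d3126b889206a8.shift 2 2), (rhe30e1ae75b550229.shift 1 1)] (by decide +kernel))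
noncomputable def rh2fc31838fe1bf4b1 : CRef := CRef.mk (Pat.mk 0x80000001c000000060000000000000000 0x10000000380000001f0000003e0000003800000018 7 6) 0 0 (step_sound _ 97 [(rh01d64f4b25e9d366.shift 0 2), (rh29bf8a73b4d85c10.shift 1 0), rh715ef4deafe86686, (rhec46bd5500c722c9.shift 0 3)] (by decide +kernel))
noncomputable def rh28875cc2bd935a87 : CRef := CRef.mk (Pat.mk 0x10000000180000000e000000000000000000000000 0x20000000320000001f000000fe000000370000001400000014 7 8) 0 0 (step_sound _ 100 [rh0b910061806357d6, rh7688e0a72576835c, (rh870359598daa9f92.shift 0 3), (rhbd70501440a02fa8.shift 0 2)] (by decide +kernel))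
noncomputable def rh7dd33c32e50a0a85 : CRef := CRef.mk (Pat.mk 0x1000000018000000080000000000000000 0x18000000180000007c0000000f0000000c0000000c 7 7) 0 0 (step_sound _ 35 [(rh71222050f2c63a3a.shift 3 0), rh824ec332563d2c66] (by decide +kernel))
noncomputable def rh46850812027a99b6 : CRef := CRef.mk (Pat.mk 0x100000001000000018000000080000000800000000 0x10000000700000007e000001ef0000007c00000020 7 9) 0 0 (step_sound _ 101 [(rh2820ca9a6c4f41b4.shift 0 2), (rh72010f2280fa7e86.shift 1 0), rhca300808da6dc72d] (by decide +kernel))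
noncomputable def rh129ec83db759a7cd : CRef := CRef.mk (Pat.mk 0x40000000c000000060000000200000000 0x3000000130000003f0000003e0000003e0000000b00000009 7 6) 0 0 (step_sound _ 100 [(rh18965a982d73c794.shift 1 2), rh6e2ee04aaa04a200] (by decide +kernel))
noncomputable def rh36ba920a3f273cb5 : CRef := CRef.mk (Pat.mk 0x80000000800000008000000180000000000000000 0xc0000000c0000003f0000003f0000000700000002 7 6) 0 0 (step_sound _ 66 [(rh932754581e0f4330.shift 2 1), rh9a7b7d54bf92be23] (by decide +kernel))
noncomputable def rhe2e6c99f94cc8dc6 : CRef := CRef.mk (Pat.mk 0x40000000400000004000000040000000000000000 0x60000000f0000003e0000000c0000000c0000000c 7 6) 0 0 (step_sound _ 35 [rh19dbdcc1f4128c73, (rhd3458b32566d63f7.shift 2 1)] (by decide +kernel))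
noncomputable def rhf6fe23f146634e34 : CRef := CRef.mk (Pat.mk 0x80000000800000008000000180000000000000000 0xc0000000c0000001f0000007c0000000c0000000c 7 7) 0 0 (step_sound _ 34 [rh05aee9a8107b5867, (rh79877ebd3ef475dd.shift 2 1)] (by decide +kernel))
noncomputable def rhc787086e896c8526 : CRef := CRef.mk (Pat.mk 0xc000000040000000400000008 0x600000006000000060000003c0000000f0000000e00000008 7 6) 0 0 (step_sound _ 130 [(rhd303e14ddaa42b05.shift 0 1), (rhd3458b32566d63f7.shift 2 0)] (by decide +kernel))
noncomputable def rh65df55926aa97bb2 : CRef := CRef.mk (Pat.mk 0x200000003000000050 0x3b7000001fe000003de 7 10) 0 0 (step_sound _ 38 [rh4bb0273b2056b57d, (rh8ee80cc30e93a344.shift 3 0), (rhbc3a283c92990595.shift 3 0)] (by decide +kernel))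
noncomputable def rhc8a05dafab239644 : CRef := CRef.mk (Pat.mk 0x4000000040000000e000000020000000000000000 0x4000000340000003e0000003f0000001c00000008 7 6) 0 0 (step_sound _ 100 [(rhdf187c9f8f6f2f99.shift 1 0), (rheb0810cc63b001d8.shift 0 2)] (by decide +kernel))
noncomputable def rh12ec631357c56e90 : CRef := CRef.mk (Pat.mk 0x20000000200000007000000010000000000000000 0x500000007000000070000001f0000001f0000001e00000006 7 5) 0 0 (step_sound _ 65 [(rh1ea8bb02c803a727.shift 0 1), rh5c1e3b0f4de86cda, rh6ed5e6501b92e21f, rhc25035b08412a6a9] (by decide +kernel))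
noncomputable def rh8a36d843c4264c53 : CRef := CRef.mk (Pat.mk 0x8000000080000000c0000000400000000 0x160000001f0000007c0000000f0000003c00000018 7 7) 0 0 (step_sound _ 100 [rh02f8eec3bbe38b5c, (rh0bb882ba86b2372d.shift 0 2), rh20bb62adcec3c962, rh560d826dc422fe75] (by decide +kernel))
noncomputable def rh76f05b0926582eb9 : CRef := CRef.mk (Pat.mk 0x4000000060000000200000000 0xe0000000f0000003c000000060000000600000006 7 6) 0 0 (step_sound _ 130 [rh37a2dab74636ef75, (rh5c5e593799055d58.shift 1 1)] (by decide +kernel))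
noncomputable def rhe8a26c70d996ca2d : CRef := CRef.mk (Pat.mk 0x200000001000000010000000000000000 0x1000000030000000300000002000000070000000700000007000000030000000100000001 7 3) 0 0 (step_sound _ 161 [rh53c798c09177b7db, (rhd918c3fd221dc9f8.shift 0 1), rhe83f0679b86b6627, (rhf2cdd83051d1963e.shift 0 2)] (by decide +kernel))
noncomputable def rh4c95c4e1c378899e : CRef := CRef.mk (Pat.mk 0x80000001c000000060000000000000000 0x140000003c0000001f0000000e0000003e0000001e 7 6) 0 0 (step_sound _ 34 [(rh71222050f2c63a3a.shift 2 0), rh7b4b349d3e3b683d] (by decide +kernel))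
noncomputable def rh7ef8598c7d96e528 : CRef := CRef.mk (Pat.mk 0x80000001c0000000600000000 0x40000001c0000003c0000007f0000001e0000000e0000000a 7 7) 0 0 (step_sound _ 131 [(rh5c5e593799055d58.shift 2 1), rhcf72e804047b6c6d] (by decide +kernel))
noncomputable def rhc39bc7fa4019280c : CRef := CRef.mk (Pat.mk 0x180000000e000000040000000000000000 0x6000000160000001e0000000e0000000f0000003e0000001c 7 6) 0 0 (step_sound _ 34 [rh2e1af74723169d4e, (rh71222050f2c63a3a.shift 2 0)] (by decide +kernel))
noncomputable def rhbf4e49ce8b00a95d : CRef := CRef.mk (Pat.mk 0x300000001c0000000800000000 0x200000007e0000007e0000003e0000001c0000000f00000006 7 7) 0 0 (step_sound _ 132 [(rh5c5e593799055d58.shift 3 1), rh844c49245658e744] (by decide +kernel))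
noncomputable def rh96ec1bca076b7a2f : CRef := CRef.mk (Pat.mk 0x800000000000000380000000c00000000 0x140000003f0000003f000000380000000c00000004 7 6) 0 0 (step_sound _ 99 [(rh932754581e0f4330.shift 2 0), (rhc37e12f051c45235.shift 0 1)] (by decide +kernel))
noncomputable def rhe7f9916bbd0e34a8 : CRef := CRef.mk (Pat.mk 0x180000001e000000000000000000000000 0xe0000000f0000001b0000001e0000000f0000000400000004 7 5) 0 0 (step_sound _ 65 [rh77766bb613af8332, (rheb0810cc63b001d8.shift 0 2)] (by decide +kernel))
noncomputable def rh3a12c235d5099f2e : CRef := CRef.mk (Pat.mk 0x380000000c000000000000000000000000 0x1c0000003c0000000f0000003c0000001c0000001c0000001c00000014 7 6) 0 0 (step_sound _ 163 [rha3dc4174302275b1, (rhafa6458974731b75.shift 0 2), (rhcd32f2ed6c1181e7.shift 2 2)] (by decide +kernel))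
noncomputable def rhc286ecb5364d4c3b : CRef := CRef.mk (Pat.mk 0x10000000380000000c 0x1c0000001e0000007f0000003f0000001c 7 7) 0 0 (step_sound _ 100 [(rh5c5e593799055d58.shift 3 0), rh7abb01a5caa95460] (by decide +kernel))
noncomputable def rhe4be8ed0f5d4291d : CRef := CRef.mk (Pat.mk 0x180000000e000000000000000000000000 0x100000001c0000001c0000001e0000007f0000001a0000000e0000003e0000001c00000004 7 7) 0 0 (step_sound _ 163 [(rh281c6819542c66e6.shift 2 0), (rha8241f37c79477a8.shift 2 2), (rhc1b5d17a350cbb83.shift 1 1), (rhc9feed9bd7da9e1e.shift 0 1)] (by decide +kernel))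
noncomputable def rh858dcc4b1097d470 : CRef := CRef.mk (Pat.mk 0x180000000e000000000000000000000000 0xf0000000f0000001f0000001e000000370000001600000004 7 6) 0 0 (step_sound _ 100 [rh2f5fbde97bdb3989, (rhea719cc8bd0bdd28.shift 1 1), (rhf9971318f3fd5918.shift 0 1)] (by decide +kernel))
noncomputable def rh53b041f69f7eea98 : CRef := CRef.mk (Pat.mk 0x180000001e000000000000000000000000 0x10000000180000001e0000003f0000003800000038 7 6) 0 0 (step_sound _ 68 [rh1f19c37f84631290, (rhe25b0a99195a5d59.shift 1 2)] (by decide +kernel))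
noncomputable def rha4a079841e6c65bd : CRef := CRef.mk (Pat.mk 0x300000001c000000080000000000000000 0x28000000380000003c0000007f0000007c0000003c 7 7) 0 0 (step_sound _ 35 [(rh71222050f2c63a3a.shift 3 0), rhfa4ded8bb36720b3] (by decide +kernel))
noncomputable def rhe97ad3a65f8d696b : CRef := CRef.mk (Pat.mk 0x100000001c000000080000000000000000 0x4000000070000001f0000003c0000000c0000000c0000000c 7 6) 0 0 (step_sound _ 35 [(rh71222050f2c63a3a.shift 3 0), rhfd80c44e191dad68] (by decide +kernel))
noncomputable def rh44330bf4da733da2 : CRef := CRef.mk (Pat.mk 0x10000000180000000c0000000800000000 0x20000000f0000003f0000001f0000000c0000000c00000004 7 6) 0 0 (step_sound _ 131 [(rh03dfdf12d5937476.shift 2 0), (rh14d5fb538d4c2aa6.shift 0 1), (rhb7a33e47895ab7d7.shift 2 0)] (by decide +kernel))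
noncomputable def rh609d025e8d744275 : CRef := CRef.mk (Pat.mk 0x80000001c0000000600000000 0x1e0000001f0000007f0000001c0000000e0000000a 7 7) 0 0 (step_sound _ 131 [(rh5c5e593799055d58.shift 2 1), rh61b5607df3d52705] (by decide +kernel))
noncomputable def rh8a8e0e06d898519b : CRef := CRef.mk (Pat.mk 0x700000001800000000 0x8000000380000003c0000003c000000fe0000007f0000003800000008 7 8) 0 0 (step_sound _ 100 [(rh07f7d72206ed82f8.shift 0 1), (rhb2d999c672507e3f.shift 3 0), (rhcd32f2ed6c1181e7.shift 3 0)] (by decide +kernel))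
noncomputable def rh3636dc568163658d : CRef := CRef.mk (Pat.mk 0x10000000180000000c0000000800000000 0x20000000f0000003f0000001f0000001c0000001c00000010 7 6) 0 0 (step_sound _ 131 [(rh14d5fb538d4c2aa6.shift 0 1), (rh871caa7606de9ca4.shift 2 0)] (by decide +kernel))
noncomputable def rhd73959ca568f3f6d : CRef := CRef.mk (Pat.mk 0x20000001e00000000000000000000000000000000 0x400000006000000060000001e00000037000000070000000700000005 7 6) 0 0 (step_sound _ 97 [rh5a82e4c1bbff195f, (rheb0810cc63b001d8.shift 0 3)] (by decide +kernel))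
noncomputable def rhc80fd9aa23ee1964 : CRef := CRef.mk (Pat.mk 0x40000003c000000000000000000000000 0xc0000000c0000003c0000003e0000000f0000000e 7 6) 0 0 (step_sound _ 66 [rh1b06ddda155bb91e, (rheb0810cc63b001d8.shift 1 2)] (by decide +kernel))
noncomputable def rh6fe6141069a793fd : CRef := CRef.mk (Pat.mk 0x7800000000 0x6e0000007e00000077 7 7) 0 0 (step_sound _ 66 [rh194ac480b6e26a49, (rh3f8766e6ecb455ce.shift 2 1)] (by decide +kernel))
noncomputable def rh6f182aac140d9cd6 : CRef := CRef.mk (Pat.mk 0xe0000000400000004 0x200000002000000730000007e000000ee00000004 7 8) 0 0 (step_sound _ 97 [(rhe072fffdd2fccf38.shift 1 0), (rhff0b47e0a87e7979.shift 0 1)] (by decide +kernel))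
noncomputable def rh2c9071903ac0906f : CRef := CRef.mk (Pat.mk 0x8000000080000000c0000000400000000 0x3f0000007f0000007f0000003600000012 7 7) 0 0 (step_sound _ 100 [(rh0bb882ba86b2372d.shift 0 2), rh263d9c2411454ebf, (rh574fdbf07bdd18b9.shift 0 2), rhe4125d94f0529155] (by decide +kernel))
noncomputable def rh7196e52f2f2bd4d8 : CRef := CRef.mk (Pat.mk 0x4000000040000000600000002000000020 0x1000000050000003de000001fe000003b7000000a0 7 10) 0 0 (step_sound _ 68 [(rh8126bb006a255e6a.shift 3 0), (rha11dfd15f08f96e3.shift 3 2), (rhb98e183a12ed98e4.shift 1 0), (rhda5bd266f468b314.shift 0 1)] (by decide +kernel))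
noncomputable def rh0767fe0d07756232 : CRef := CRef.mk (Pat.mk 0x80000001c000000040000000400000000 0x600000006000000060000000f0000001c000000360000003e0000001a 7 6) 0 0 (step_sound _ 130 [(rh0ef6c71ce89c1c36.shift 1 0), (rh277b01412deaec89.shift 0 1), (rhfc263cdfa86d4744.shift 1 0)] (by decide +kernel))
noncomputable def rha82bddc61fcff78d : CRef := CRef.mk (Pat.mk 0x80000001c000000060000000000000000 0x40000003c0000001f0000003e0000003700000016 7 6) 0 0 (step_sound _ 34 [rh299b1e4d2e2bcbaa, (rh71222050f2c63a3a.shift 2 0)] (by decide +kernel))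
noncomputable def rh5e9affd554cd4bb8 : CRef := CRef.mk (Pat.mk 0x10000000180000000e00000000 0x1c0000001e000000780000001f0000003e00000024 7 7) 0 0 (step_sound _ 132 [rh47e5f182d1e38122, (rh5c5e593799055d58.shift 3 1)] (by decide +kernel))
noncomputable def rh73ff39c154f59627 : CRef := CRef.mk (Pat.mk 0x180000000e00000004 0xe0000000f0000001f000000fe0000000f 7 8) 0 0 (step_sound _ 99 [(rh5c5e593799055d58.shift 2 0), rh89eeca318b3ce0e1] (by decide +kernel))
noncomputable def rh28487a905e8f2ce8 : CRef := CRef.mk (Pat.mk 0x300000001c000000080000000000000000 0x40000002f0000003f0000003c0000001c0000001c0000001c 7 6) 0 0 (step_sound _ 35 [rh51f7fa68b2f717a0, (rh71222050f2c63a3a.shift 3 0)] (by decide +kernel))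
noncomputable def rh62189ef7289d3757 : CRef := CRef.mk (Pat.mk 0x180000000e0000000400000000 0x100000003e0000001f0000001f0000000e0000000c00000008 7 6) 0 0 (step_sound _ 131 [(rh5c5e593799055d58.shift 2 1), rhe677d2a9f2f363c4] (by decide +kernel))
noncomputable def rh89525bcf77b7b7ff : CRef := CRef.mk (Pat.mk 0x180000000e000000000000000000000000 0x100000001c0000001c0000003e0000007f0000003a0000000e0000000e0000000c00000004 7 7) 0 0 (step_sound _ 163 [(rh281c6819542c66e6.shift 2 0), (rh66ac29485c8cba5d.shift 1 2), (rha8241f37c79477a8.shift 2 2), (rhd8d8f51ae788d1d4.shift 0 1)] (by decide +kernel))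
noncomputable def rh72a5f40885bc9860 : CRef := CRef.mk (Pat.mk 0x80000000e000000000000000000000000 0x20000000b0000007f0000003e000000340000001400000010 7 7) 0 0 (step_sound _ 132 [(rh572132728df34c43.shift 1 3), (rh80f90a60d87caa0d.shift 1 3), rh9be7220589ae29ba] (by decide +kernel))
noncomputable def rh654f35bb9bd7d6e6 : CRef := CRef.mk (Pat.mk 0x20000000380000000000000000 0x800000008000003bf000001fe000001c700000004 7 10) 0 0 (step_sound _ 98 [(rh15b4c7f64ffd8e41.shift 1 2), (rh1713b2a8615f2751.shift 0 1), (rh8c12fdbbddc1e7ab.shift 0 2), (rh9f369c7d09b26250.shift 2 1), (rhf119fefe21067f2b.shift 1 0)] (by decide +kernel))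
noncomputable def rh1635cb746a5511ee : CRef := CRef.mk (Pat.mk 0x380000000e000000000000000000000000 0x4000000040000001e0000001f0000003a0000000e0000000e0000000c00000004 7 6) 0 0 (step_sound _ 163 [rh0ab273d635ba54c7, (rh281c6819542c66e6.shift 2 0), (rhbbcae8c76193360f.shift 0 1)] (by decide +kernel))
noncomputable def rh2b5bda15cfbc378d : CRef := CRef.mk (Pat.mk 0x100000001e00000002 0x1db000000fe000000e6 7 9) 0 0 (step_sound _ 37 [(rh80fcd6d0a18cb2dd.shift 1 0), rh815167a296be0afa] (by decide +kernel))
noncomputable def rh663f62b7bf336556 : CRef := CRef.mk (Pat.mk 0x80000001c000000060000000000000000 0x380000001f0000003e0000003400000034 7 6) 0 0 (step_sound _ 34 [rh3e8f13bbff4d5f0e, (rh71222050f2c63a3a.shift 2 0)] (by decide +kernel))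
noncomputable def rhfdad9b2b58c9f8bc : CRef := CRef.mk (Pat.mk 0x700000001800000000 0x8000000380000003c0000003c000000fe0000007f000000f800000008 7 8) 0 0 (step_sound _ 100 [(rh0f991861a5ac0322.shift 0 1), (rhb2d999c672507e3f.shift 3 0), (rhcd32f2ed6c1181e7.shift 3 0)] (by decide +kernel))
noncomputable def rhfe72a217e1aaf5fa : CRef := CRef.mk (Pat.mk 0x180000000c0000000000000000 0x1000000014000000770000007e0000007c0000002800000028 7 7) 0 0 (step_sound _ 101 [(rh18965a982d73c794.shift 2 2), rh5fdd5ad4831d73fd] (by decide +kernel))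
noncomputable def rhbb8db84b43d22ab5 : CRef := CRef.mk (Pat.mk 0xc0000000600000000 0x800000008000000380000003f0000003700000010 7 6) 0 0 (step_sound _ 68 [(rh18965a982d73c794.shift 1 1), rhc291146ba20e7aaf] (by decide +kernel))
noncomputable def rh9a93db625e0699b7 : CRef := CRef.mk (Pat.mk 0x80000000e000000000000000000000000 0xa0000003b0000003e000000770000001400000014 7 7) 0 0 (step_sound _ 100 [(rh06db8ceda6269a47.shift 0 2), (rh2510c9405f884362.shift 1 0), rh8bb9bb0e7a77140d] (by decide +kernel))
noncomputable def rhbce99d3835ed2996 : CRef := CRef.mk (Pat.mk 0x380000000c000000000000000000000000 0x4000000040000000c0000007f0000003e0000000c0000000e0000000600000006 7 7) 0 0 (step_sound _ 66 [(rh4821dcf828b9d7bf.shift 2 0), (rh640b3fda748f4a17.shift 1 0), (rh69cec6a8b8e37e38.shift 0 2), (rhadf429772c25fde0.shift 2 0)] (by decide +kernel))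
noncomputable def rh61032f941ec0abe6 : CRef := CRef.mk (Pat.mk 0x1e00000000 0xe7000000ff0000001c 7 8) 0 0 (step_sound _ 65 [rh09eb195e01c69d19, (rh3244c3cc8379b070.shift 0 1)] (by decide +kernel))
noncomputable def rhb1558b51a4a5d1aa : CRef := CRef.mk (Pat.mk 0x80000000e000000000000000000000000 0xa0000000b0000003f000000fe000000fc0000001400000010 7 8) 0 0 (step_sound _ 100 [(rh84970c2ccb9fe470.shift 1 0), (rha7191f5d6d8736d9.shift 0 1), (rhab811305cf6ba46a.shift 0 2)] (by decide +kernel))
noncomputable def rh736dc5b60b2f8437 : CRef := CRef.mk (Pat.mk 0x1c000000020000000000000000 0x500000007000000170000003f0000001f0000003e0000000e0000000c 7 6) 0 0 (step_sound _ 97 [rh1ceff3ca0296086f, rh3b7e643e596454c2, (rh3e1b7b343686dca1.shift 0 2)] (by decide +kernel))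
noncomputable def rhf06a7ead064c156d : CRef := CRef.mk (Pat.mk 0x180000000e0000000800000000 0x14000000340000001f000000fe0000007f00000002 7 8) 0 0 (step_sound _ 68 [rh4b062606a3bb39d0, (rh5f68d4d802450994.shift 1 1), (rhc6919780d26a686c.shift 1 1)] (by decide +kernel))
noncomputable def rh9306fd4a655f8fd3 : CRef := CRef.mk (Pat.mk 0xc00000007000000040000000000000000 0x80000000c0000000e000000060000000e0000003f0000003f0000000400000004 7 6) 0 0 (step_sound _ 34 [rh04ed010102327534, (rh5e273d2baae0d023.shift 1 1), (rhe286c75f2739cce2.shift 1 0)] (by decide +kernel))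
noncomputable def rh80604a0556f3bec6 : CRef := CRef.mk (Pat.mk 0x180000000e0000000800000000 0x14000000340000001f000000fe000000ef00000002 7 8) 0 0 (step_sound _ 68 [rh4b062606a3bb39d0, (rh98bfe017ab5fead7.shift 0 1), (rhaeebc73f5a9c796a.shift 0 1), (rhb447f348b8f2aaa5.shift 0 1), (rhefddc82d496fc280.shift 0 1)] (by decide +kernel))
noncomputable def rh0fc4ecf5a4447b63 : CRef := CRef.mk (Pat.mk 0x180000000e000000080000000000000000 0x10000000180000003e0000003f0000003800000018 7 6) 0 0 (step_sound _ 35 [(rh2f68792b6b779e96.shift 3 1), rh7a8e613d62c0f646] (by decide +kernel))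
noncomputable def rhf530243a96cb6547 : CRef := CRef.mk (Pat.mk 0x180000000e000000080000000000000000 0x40000001f0000007e0000007f0000003800000038 7 7) 0 0 (step_sound _ 100 [rh13168d10d2a18e91, rh31eb30c068821a1a, (rh5f68d4d802450994.shift 1 2)] (by decide +kernel))
noncomputable def rh54a0a3e8f6d27923 : CRef := CRef.mk (Pat.mk 0x180000000c000000000000000000000000 0xc0000000c0000001f0000003f000000330000001200000010 7 6) 0 0 (step_sound _ 97 [(rh53b3c253cb0c65f4.shift 0 3), rhbccfb8fbd672622d] (by decide +kernel))
noncomputable def rh177a5f0331989354 : CRef := CRef.mk (Pat.mk 0xc0000000700000000000000000000000000000000 0xa0000000e0000000e0000000e000000070000003e0000000c0000000c00000008 7 6) 0 0 (step_sound _ 98 [(rh000637b5a81e86aa.shift 1 1), rh3f069944e50c0cbf, (rh6bab1b32f7a6ab96.shift 0 2)] (by decide +kernel))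
noncomputable def rha0a3d5adb505bc93 : CRef := CRef.mk (Pat.mk 0x1000000020000000600000002 0x100000007000000070000000700000003000000030000000600000006 7 3) 0 0 (step_sound _ 97 [rh50fbb5868c909700, rh88ea41162b00bbad] (by decide +kernel))
noncomputable def rhde5a89fad2dc3bfa : CRef := CRef.mk (Pat.mk 0x8000000180000000c00000008 0x2000000170000003f0000001f0000000c00000008 7 6) 0 0 (step_sound _ 100 [rh14d5fb538d4c2aa6, (rh2f68792b6b779e96.shift 3 0)] (by decide +kernel))
noncomputable def rhb47c86856ccf886c : CRef := CRef.mk (Pat.mk 0x80000001c00000006000000000000000000000000 0xe0000000f0000003c0000001c0000007e0000001b0000001800000008 7 7) 0 0 (step_sound _ 195 [rh2debdebbdeb58a13, (rh5c5e593799055d58.shift 2 3)] (by decide +kernel))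
noncomputable def rha37cffc7f4fa6717 : CRef := CRef.mk (Pat.mk 0xe000000020000000000000000 0x10000000330000001f0000003b0000000800000008 7 6) 0 0 (step_sound _ 100 [rh3b7e643e596454c2, (rheb0810cc63b001d8.shift 0 2)] (by decide +kernel))
noncomputable def rhb77181cb54ac7d5d : CRef := CRef.mk (Pat.mk 0xc000000050000000000000000 0x1200000012000000770000003f0000007f0000000c00000004 7 7) 0 0 (step_sound _ 100 [(rh67e5914ef7f4941c.shift 0 2), (rh9db01fbc8232eac9.shift 1 2), (rhbb229bad87965364.shift 0 2), rhd4123fd8acacc354] (by decide +kernel))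
noncomputable def rhdcbb959daa841346 : CRef := CRef.mk (Pat.mk 0x1c000000060000000200000000 0x6000000070000001f0000007e0000000700000004 7 7) 0 0 (step_sound _ 130 [rh551845d63c523ef6, (rh5c5e593799055d58.shift 1 1)] (by decide +kernel))
noncomputable def rha597e8c3554e2333 : CRef := CRef.mk (Pat.mk 0x8000000180000000e00000000 0x100000001c0000003c0000000f0000001b0000001e0000000a 7 6) 0 0 (step_sound _ 131 [(rh14f80659e6313cc6.shift 3 1), rh59fc629dee1e39b0, rh900a894640be090c] (by decide +kernel))
noncomputable def rh493695efe72e2459 : CRef := CRef.mk (Pat.mk 0x8000000180000000e00000000000000000000000000000000 0x200000002000000060000000f0000001e0000001e0000000c0000001c0000001c00000014 7 5) 0 0 (step_sound _ 99 [(rh2dd23789115a02f3.shift 2 1), (rh62e05db1b73ac916.shift 2 0), (rh8780feb96d6aa5c7.shift 0 2), (rh8a1bd34420cccc7f.shift 2 0), (rh970969943afcb7d2.shift 0 2)] (by decide +kernel))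
noncomputable def rh056c6700516b2824 : CRef := CRef.mk (Pat.mk 0x8000000180000000e000000000000000000000000 0x200000002000000060000000f0000001e0000000e0000003c0000001c00000010 7 6) 0 0 (step_sound _ 67 [(rh8ff3dde5b1c639e0.shift 2 0), (rh970969943afcb7d2.shift 0 1), (rhb379f99078aafa2d.shift 1 1)] (by decide +kernel))
noncomputable def rhd564112509a2a7eb : CRef := CRef.mk (Pat.mk 0x380000000c000000000000000000000000 0x40000000c0000000c0000000f0000003c0000001c0000001c0000001c00000014 7 6) 0 0 (step_sound _ 163 [(rh59d674cd14a69bfd.shift 0 2), rha3dc4174302275b1, (rhbb339bb7e4e96b38.shift 2 2)] (by decide +kernel))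
noncomputable def rh2d748ae64f214226 : CRef := CRef.mk (Pat.mk 0x1c000000040000000000000000 0x2000000030000001f0000000ff000001fc0000007800000038 7 9) 0 0 (step_sound _ 68 [(rh1edc43197ac31e51.shift 2 0), (rh8ee80cc30e93a344.shift 1 2), rh97ee1d9c43e0ab4a, (rh9909eeda0ef2ed2c.shift 1 2), (rhc21a95c499b3efdb.shift 1 2), rhd76363b3a6b36b9e] (by decide +kernel))
noncomputable def rh5635aaa5e67020a6 : CRef := CRef.mk (Pat.mk 0xc000000040000000000000000 0x200000012000000770000007f000000fe0000000c0000000c 7 8) 0 0 (step_sound _ 100 [rh49df48c0edb45416, (rhb02f9c2bd63f56db.shift 1 2), (rhd3fc2e94dec37dd3.shift 0 2)] (by decide +kernel))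
noncomputable def rhf06c64092928fbe1 : CRef := CRef.mk (Pat.mk 0x180000000e000000000000000000000000 0x10000000180000001c0000000e0000001f0000003e000000370000001600000004 7 6) 0 0 (step_sound _ 163 [rh597ca489cec030e6, (rh7d4be646332fc08b.shift 2 2), (rhc6a43c72a280bf9a.shift 0 1)] (by decide +kernel))
noncomputable def rhfad1edce08e596b3 : CRef := CRef.mk (Pat.mk 0x6000000030000000200000000000000000000000000000000 0x1000000030000000300000006000000070000000700000006000000070000000300000001 7 3) 0 0 (step_sound _ 225 [(rh5969fc1db7f0e0cc.shift 0 3), (rh5abfc4c9d959be03.shift 0 3), rh7de9f97699eea1e4, (rha77f215723363df0.shift 0 4)] (by decide +kernel))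
noncomputable def rhc6aee875695c98b3 : CRef := CRef.mk (Pat.mk 0x6000000020000000200000000000000000000000000000000 0x3000000030000000300000006000000070000000700000003000000070000000700000007 7 3) 0 0 (step_sound _ 97 [rh15807efd5d04103a, rh5fdb73efd5ac82dc, rh984bfc6de6c2c524, (rha8bc3cae4d77a08f.shift 0 1), (rhdb991c49878b7ef7.shift 0 2)] (by decide +kernel))
noncomputable def rhdf3b25a8afb6a139 : CRef := CRef.mk (Pat.mk 0x60000000200000002000000000000000000000000 0x30000000300000003000000060000000600000007000000070000000700000001 7 3) 0 0 (step_sound _ 65 [(rh827373096b81d499.shift 0 1), rha8bc3cae4d77a08f, (rhc4ec57a3756c3a6c.shift 0 1)] (by decide +kernel))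
noncomputable def rh9c061216ec097908 : CRef := CRef.mk (Pat.mk 0x800000018000000080000000800000000 0xc0000000c000000780000000f0000003c00000014 7 7) 0 0 (step_sound _ 130 [rh4fc9a87ad900a04f, (rh50fbb5868c909700.shift 2 1)] (by decide +kernel))
noncomputable def rh09631e86b6926560 : CRef := CRef.mk (Pat.mk 0x80000001800000008000000000000000000000000 0x1c0000003c0000000f00000018000000780000001e0000001c0000001c 7 7) 0 0 (step_sound _ 100 [(rh1b23f6887ff7eb2c.shift 1 0), (rh28152048bc8b598f.shift 0 2), (rh55a1f6c57a317ce6.shift 3 1)] (by decide +kernel))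
noncomputable def rh3299c889e8aa3768 : CRef := CRef.mk (Pat.mk 0x8000000180000000e00000000 0x140000001c0000003c0000000f0000001c0000000e0000000a 7 6) 0 0 (step_sound _ 130 [rh12308d1e57a9c095, (rh24e740d338799ad7.shift 1 0), (rh466a2277bc06011f.shift 2 1), (rh9a17dc36f7181934.shift 2 0)] (by decide +kernel))
noncomputable def rhbe2843e3274e0f80 : CRef := CRef.mk (Pat.mk 0xc00000006000000040000000000000000 0x400000006000000070000003e000000060000000e0000000c0000000c 7 6) 0 0 (step_sound _ 132 [(rh18965a982d73c794.shift 1 3), rhff7c821aa80e52b0] (by decide +kernel))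
noncomputable def rh9c7c9e73025ee718 : CRef := CRef.mk (Pat.mk 0xf000000020000000000000000 0x3b0000003f000000760000000200000002 7 7) 0 0 (step_sound _ 132 [(rh428265de8cd3cd2d.shift 0 3), rha239265b1b289b2c] (by decide +kernel))
noncomputable def rhbbc4c307c52bfca7 : CRef := CRef.mk (Pat.mk 0x20000000e000000040000000000000000 0x730000007e000000ec0000000400000004 7 8) 0 0 (step_sound _ 100 [(rh1585e5b9a2d6cc02.shift 1 0), (rh3244c3cc8379b070.shift 0 3)] (by decide +kernel))
noncomputable def rh1a4d222b6893c032 : CRef := CRef.mk (Pat.mk 0x800000038000000100000001000000000 0xf0000003e000000770000001e0000000c 7 7) 0 0 (step_sound _ 98 [(rh18c7a46ea54a8c35.shift 1 0), (rh592c7139d2c44767.shift 0 2), (rha03f6e28ea70fc7d.shift 1 2), (rhd0782bcc7d08fb46.shift 0 2)] (by decide +kernel))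
noncomputable def rhd7bed748e2a9270d : CRef := CRef.mk (Pat.mk 0x1e00000008 0xe0000000fe000001fb 7 9) 0 0 (step_sound _ 1 [(rhdac559a75b3351e7.shift 1 0), rheb0810cc63b001d8] (by decide +kernel))
noncomputable def rh41c131769f5fa357 : CRef := CRef.mk (Pat.mk 0x100000001c000000080000000000000000 0x80000000c0000000f0000001f0000001c0000001f0000003c0000001c 7 6) 0 0 (step_sound _ 35 [(rh71222050f2c63a3a.shift 3 0), rhbb175164432f88b5] (by decide +kernel))
noncomputable def rh436e25d36bb08933 : CRef := CRef.mk (Pat.mk 0x800000000000000080000000c00000000 0x140000003c0000000f000000080000001c0000001c 7 6) 0 0 (step_sound _ 99 [(rh932754581e0f4330.shift 2 0), rh999dd592fa96809c] (by decide +kernel))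
noncomputable def rh589b8b4e0d54ce1f : CRef := CRef.mk (Pat.mk 0x1000000018000000080000000800000000 0xc0000000c0000000c000000180000007c0000007f0000007e00000034 7 7) 0 0 (step_sound _ 131 [rh7efff25179d37ffa, (rhc71ed80c6d39935c.shift 1 0), (rhcbaa34959f85e2ef.shift 2 0)] (by decide +kernel))
noncomputable def rh630b54bcf47f620f : CRef := CRef.mk (Pat.mk 0x200000002000000030000000200000000000000000000000000000000 0x40000000600000002000000030000000300000007000000070000000700000001 7 3) 0 0 (step_sound _ 226 [(rh2f68792b6b779e96.shift 1 4), rhe08b3642bf78c2d5] (by decide +kernel))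
noncomputable def rheae65bdce6a2c484 : CRef := CRef.mk (Pat.mk 0x8000000080000000c0000000000000000 0x140000001c0000001e0000001f0000003c0000000c0000000c0000000800000008 7 6) 0 0 (step_sound _ 163 [(rh00c644645561e9be.shift 2 1), (rh214b5f744448ca32.shift 2 0), (rh6e15c69d7c2d46b7.shift 0 1), (rhb77bfac3e9efecea.shift 2 2)] (by decide +kernel))
noncomputable def rhc65ab04eb23a35b0 : CRef := CRef.mk (Pat.mk 0x200000007000000000 0x3bf000001fe0000038e 7 10) 0 0 (step_sound _ 35 [rh1f9701c4cf497514, (rh45f730bcf36fcf64.shift 2 0), (rh775ca1963e850b80.shift 1 0), (rhec0f150ffdda098a.shift 1 0)] (by decide +kernel))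
noncomputable def rhf780b73e35343b1d : CRef := CRef.mk (Pat.mk 0x20000000200000007000000000 0x20000000200000003e0000007e000000c7 7 8) 0 0 (step_sound _ 6 [(rh2145e1d24b96a57e.shift 5 0), rhae043b7040a09eba] (by decide +kernel))
noncomputable def rh20d1754cef81b2ab : CRef := CRef.mk (Pat.mk 0x400000004000000160000000200000000 0x180000003c000000370000001e0000003b00000008 7 6) 0 0 (step_sound _ 67 [rh2ae4f4505715fbe5, (rheb0810cc63b001d8.shift 0 1)] (by decide +kernel))
noncomputable def rh520c76509f7824b1 : CRef := CRef.mk (Pat.mk 0x40000000400000016000000020000000000000000 0x4000000340000003e0000003f0000001c00000008 7 6) 0 0 (step_sound _ 99 [(rhdf187c9f8f6f2f99.shift 1 0), (rheb0810cc63b001d8.shift 0 2)] (by decide +kernel))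
noncomputable def rh0b95bf1a3f23dfad : CRef := CRef.mk (Pat.mk 0x40000000e000000020000000200000000 0x2000000770000003e0000003e0000000700000005 7 7) 0 0 (step_sound _ 100 [rh5780a3f26edf26c1, (rhd584a578337d0023.shift 1 2), (rhe3060b190bc0bc78.shift 0 3)] (by decide +kernel))
noncomputable def rh8b8dea7946c897aa : CRef := CRef.mk (Pat.mk 0x400000007000000020 0x7c000001fe000003b7 7 10) 0 0 (step_sound _ 39 [(rh9ab60d74117ac343.shift 4 0), (rhbe81abd608b45786.shift 3 0), rhcbf43dbdbdad0e01, (rhe401600d466b97cd.shift 3 0)] (by decide +kernel))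
noncomputable def rh1717b78b8fc9e36f : CRef := CRef.mk (Pat.mk 0x20000000380000000000000000 0x4000000060000003e0000007e0000000f00000008 7 7) 0 0 (step_sound _ 66 [(rh21d582c147e7e118.shift 0 1), (rh5f7b3bfbaf903d4f.shift 1 1), (rhdf864ed6cf3bc091.shift 1 0)] (by decide +kernel))
noncomputable def rh68202550eea7a13c : CRef := CRef.mk (Pat.mk 0x40000000f00000008000000000 0x400000004000000067000003fe000000bf00000020 7 10) 0 0 (step_sound _ 134 [(rh2145e1d24b96a57e.shift 6 1), rh6e3a7cde477451a5] (by decide +kernel))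
noncomputable def rh9e94ac1520534691 : CRef := CRef.mk (Pat.mk 0x200000007000000040 0x3b7000001fe0000007c 7 10) 0 0 (step_sound _ 39 [(rh3b00e9e9432b8f40.shift 3 0), rh606342497c588657, (rhb6f72982232a8164.shift 4 1)] (by decide +kernel))
noncomputable def rh6d6e4de5dc1f7e2a : CRef := CRef.mk (Pat.mk 0x1000000038000000000000000000000000 0x800000048000000df000000ff000000e70000002400000020 7 8) 0 0 (step_sound _ 131 [(rh53daa803953ee8cc.shift 0 1), (rhe2b63c00a3d7bb73.shift 1 3), (rhef3032495df9d34e.shift 2 0)] (by decide +kernel))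
noncomputable def rh099f4a268c70810d : CRef := CRef.mk (Pat.mk 0x40000000e000000020000000200000000 0x10000000740000003f0000007e0000000b00000008 7 7) 0 0 (step_sound _ 68 [(rh20553f44f3de3897.shift 1 2), (rh36e394c40494fd59.shift 0 1), (rh71efda916732b25a.shift 0 2), (rh77fa6d9a5cdf02f4.shift 0 2), rhe4c30be5df13bc4e] (by decide +kernel))
noncomputable def rh076e3e02a23fd831 : CRef := CRef.mk (Pat.mk 0x100000001c000000180000000000000000 0x400000004000000170000003f0000001b0000000a00000008 7 6) 0 0 (step_sound _ 35 [(rh71222050f2c63a3a.shift 3 0), (rh92dabd8634004cd9.shift 0 1)] (by decide +kernel))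
noncomputable def rh4e7d8cbf979f5637 : CRef := CRef.mk (Pat.mk 0x100000001c0000001800000000 0x1400000014000000170000003f0000001b00000002 7 6) 0 0 (step_sound _ 65 [rh9c2a6982f123fdf1, (rhb739f4f82bb681b4.shift 0 1)] (by decide +kernel))
noncomputable def rhf17634ba1739e322 : CRef := CRef.mk (Pat.mk 0x20000000380000001000000010 0x280000007c0000002f000000f80000001c00000010 7 8) 0 0 (step_sound _ 133 [(rh5c5e593799055d58.shift 4 1), rh78e05ca373ae61ba] (by decide +kernel))
noncomputable def rh1a4ff47909186d8f : CRef := CRef.mk (Pat.mk 0x100000001e0000001000000000000000000000000000000000 0x280000003800000038000000100000001e0000001f00000038000000380000003800000008 7 6) 0 0 (step_sound _ 100 [(rh1726a00b0a8befd0.shift 3 2), (rh6786c6539ffba563.shift 0 2), rh799e48b807b956d9, (rh8cdd36b03d57a2f6.shift 3 1), (rhbf86255b59a129e0.shift 0 2)] (by decide +kernel))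
noncomputable def rh637bfed63dddfed8 : CRef := CRef.mk (Pat.mk 0x100000001c000000100000000000000000 0x140000001400000017000000ff0000001c0000000800000008 7 8) 0 0 (step_sound _ 67 [rh2a15d94fefef44e9, (rh41f92fd76a3b4db3.shift 0 2), (rh503dd4575245365b.shift 3 1)] (by decide +kernel))
noncomputable def rha9e77a1e55a91734 : CRef := CRef.mk (Pat.mk 0x80000000c000000080000000000000000 0x40000001c0000001c0000003c0000000f0000003c000000180000000800000008 7 6) 0 0 (step_sound _ 163 [(rh0cc5ec3dc7c29722.shift 2 2), (rh5ee4dc8825dcefa0.shift 0 1), (rh6ebd0df19ee0dbf0.shift 0 1), (rhc85cc95794737cf7.shift 2 2), (rhcaa2c1a05e34bcba.shift 2 0)] (by decide +kernel))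
noncomputable def rh649176ddbf239ef2 : CRef := CRef.mk (Pat.mk 0x80000000c0000001800000000 0x40000001c0000001c000000180000000c0000000f0000001800000010 7 5) 0 0 (step_sound _ 131 [(rh3f4d46cf1fa245e5.shift 0 1), (rh55afc6a59410cf00.shift 3 0)] (by decide +kernel))
noncomputable def rh8fcd6cb0b6d991cd : CRef := CRef.mk (Pat.mk 0x80000000e00000018000000000000000000000000 0x40000000c0000000e0000001b0000001f0000001e00000014 7 5) 0 0 (step_sound _ 67 [(rh8cdd36b03d57a2f6.shift 2 0), (rhe03ee404dc074495.shift 0 1), (rhe286c75f2739cce2.shift 2 1)] (by decide +kernel))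
noncomputable def rhf5032180d3474d6f : CRef := CRef.mk (Pat.mk 0x200000003000000020000000200000000 0x10000000700000007000000070000000300000003000000020000000300000001 7 3) 0 0 (step_sound _ 32 [rh932754581e0f4330, (rha7bb430bc20854cc.shift 0 1)] (by decide +kernel))
noncomputable def rh28e9fe23c942a918 : CRef := CRef.mk (Pat.mk 0x10000000180000000c0000000800000000 0x80000000c0000000c0000001c0000001c0000000f0000007c00000010 7 7) 0 0 (step_sound _ 65 [(rh53b3c253cb0c65f4.shift 0 2), (rhaa2e2d68bba1845f.shift 1 0)] (by decide +kernel))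
noncomputable def rh99dd020f90b8989f : CRef := CRef.mk (Pat.mk 0x8000000080000000c000000040000000000000000 0x140000003c0000006f0000007e0000007e0000001800000010 7 7) 0 0 (step_sound _ 101 [(rh837cbf422869f936.shift 0 1), (rh8aeae207ef4e32d0.shift 1 2), (rhb43ebe5b1a298e1f.shift 1 0)] (by decide +kernel))
noncomputable def rhbf87bec75859d826 : CRef := CRef.mk (Pat.mk 0x8000000000000000c0000000400000000 0xe0000000f0000003c0000000e0000007c00000018 7 7) 0 0 (step_sound _ 99 [(rh5c5e593799055d58.shift 2 1), rhf2d07ed7fd4adb11] (by decide +kernel))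
noncomputable def rh8d57020fa52e81cf : CRef := CRef.mk (Pat.mk 0x30000000100000001000000000 0x8000000180000001f0000007c000000f00000003c00000038 7 8) 0 0 (step_sound _ 131 [(rh114f4abf4ea101c9.shift 3 0), rh4a49eac61a2aa10e, (rhbb0650a008116cff.shift 2 0)] (by decide +kernel))
noncomputable def rhb1c92aa958bdca99 : CRef := CRef.mk (Pat.mk 0x80000001800000008000000000000000000000000 0x40000000f0000007c000000080000001c0000001c00000014 7 7) 0 0 (step_sound _ 162 [(rh4610bd9a750aebd7.shift 2 0), (rhd1779d7de7f8215b.shift 2 0), (rhdeca8db941583de2.shift 0 4)] (by decide +kernel))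
noncomputable def rh4299a1ae06ea8622 : CRef := CRef.mk (Pat.mk 0x2000000020000000300000001000000000 0x80000006c000001fe000000fe000001d700000044 7 9) 0 0 (step_sound _ 67 [rh6e0c715ed1624dea, (rh7f0f728c796044ac.shift 0 1), (rha11dfd15f08f96e3.shift 2 2), (rhac9967541eb6119a.shift 2 0)] (by decide +kernel))
noncomputable def rhcebec6bccaa76acc : CRef := CRef.mk (Pat.mk 0x180000000c0000000400000004 0x2000000020000001f000000ff0000007c00000004 7 8) 0 0 (step_sound _ 65 [(rh53b3c253cb0c65f4.shift 0 2), rhcf1b854baee5054b] (by decide +kernel))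
noncomputable def rha4b3f62107f61bee : CRef := CRef.mk (Pat.mk 0x200000006000000020000000200000000 0x40000000700000007000000070000000600000006000000020000000300000001 7 3) 0 0 (step_sound _ 32 [rh932754581e0f4330, (rhd4fce4f58f6374a0.shift 0 1)] (by decide +kernel))
noncomputable def rh35e3afbe6bb1f4f3 : CRef := CRef.mk (Pat.mk 0x600000002000000060000000000000000 0xc0000000c0000003f0000003e0000003f0000000c00000004 7 6) 0 0 (step_sound _ 98 [(rh82598cd3a7032126.shift 0 1), (rhabb943ba8a4f1022.shift 1 0), rhf27fde38f11e646b] (by decide +kernel))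
noncomputable def rhd401c565a266de7d : CRef := CRef.mk (Pat.mk 0x100000001a0000000800000008 0x40000000e0000003f0000001f0000000b00000008 7 6) 0 0 (step_sound _ 66 [(rh33e738c4ed385b9f.shift 1 2), rh439d2e704db2d80e] (by decide +kernel))
noncomputable def rh0fbd4a50ebcdaa1e : CRef := CRef.mk (Pat.mk 0x80000000c000000040000000000000000 0x60000000f0000003c0000003c0000000f0000000e 7 6) 0 0 (step_sound _ 34 [(rh71222050f2c63a3a.shift 2 0), rhbe99fabb35f553b6] (by decide +kernel))
noncomputable def rh432b72e730ac333b : CRef := CRef.mk (Pat.mk 0x3800000008 0x3f7000003ff000003b8 7 10) 0 0 (step_sound _ 38 [(rh3d54e7f933686048.shift 3 0), (rh91e69b47a2672d74.shift 2 0), rh95461b835b3f00cd, (rhd3285384da7c3a0d.shift 2 0), (rhd584a578337d0023.shift 3 0)] (by decide +kernel))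
noncomputable def rhf71b3d29722e37b4 : CRef := CRef.mk (Pat.mk 0x2000000020000000380000001000000000 0x8000000680000003f0000007e0000001700000004 7 7) 0 0 (step_sound _ 98 [(rh1713b2a8615f2751.shift 0 1), (rh41a6d7189afea57a.shift 1 0), (rh5c7b241c6adc4f46.shift 1 2), (rh8afb761e147011fd.shift 0 2)] (by decide +kernel))
noncomputable def rh5e0ceb282778b442 : CRef := CRef.mk (Pat.mk 0x80000000c0000000400000000 0x1c0000001e000000780000000f0000003c00000018 7 7) 0 0 (step_sound _ 131 [(rh5c5e593799055d58.shift 2 1), rhde99996d4163e786] (by decide +kernel))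
noncomputable def rh049e8546f80bc13c : CRef := CRef.mk (Pat.mk 0x80000000c0000000400000000 0x1c0000001e0000007c0000000f0000003c00000018 7 7) 0 0 (step_sound _ 131 [rh3b0887c7e0ab206c, (rh5c5e593799055d58.shift 2 1)] (by decide +kernel))
noncomputable def rhd2494b0b9db83763 : CRef := CRef.mk (Pat.mk 0x2000000020000000300000001000000000 0x80000006c000000fe000000fe000001d700000044 7 9) 0 0 (step_sound _ 67 [(rh3f396fc471e867d8.shift 1 0), rh6e0c715ed1624dea, (rh7f0f728c796044ac.shift 0 1), (rha2aa9fd3a860e7eb.shift 2 0)] (by decide +kernel))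
noncomputable def rhf49c63ca7c0f3ebe : CRef := CRef.mk (Pat.mk 0x80000000e000000000000000000000000 0xc0000000c0000007f0000003e000000330000001200000010 7 7) 0 0 (step_sound _ 132 [rh43f020061125bb7f, (rh572132728df34c43.shift 1 3), (rh80f90a60d87caa0d.shift 1 3)] (by decide +kernel))
noncomputable def rh16f3a86122ae1d00 : CRef := CRef.mk (Pat.mk 0xf000000030000000000000000 0x4000000040000001e0000000f0000001b0000001e0000000e 7 5) 0 0 (step_sound _ 131 [(rh33e738c4ed385b9f.shift 0 3), rhce2bd27149b25bae] (by decide +kernel))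
noncomputable def rhc5bf660232356ab8 : CRef := CRef.mk (Pat.mk 0x60000000300000004000000000000000000000000 0x4000000070000000700000007000000070000000300000006000000060000000600000004 7 3) 0 0 (step_sound _ 97 [(rh000637b5a81e86aa.shift 0 1), (rh70e33bfdf511e144.shift 1 0), (rhc28deca3165f2c8d.shift 0 2)] (by decide +kernel))
noncomputable def rh19bfc94557194d47 : CRef := CRef.mk (Pat.mk 0x80000001e0000000000000000 0x1000000014000000340000003f0000001e0000000b00000002 7 6) 0 0 (step_sound _ 100 [(rh33e738c4ed385b9f.shift 1 2), rh8e53d4e5cc04c5ec] (by decide +kernel))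
noncomputable def rh0518ac1a8090b45c : CRef := CRef.mk (Pat.mk 0x120000001c0000000000000000 0x200000006000000070000001e0000003f0000000700000006 7 6) 0 0 (step_sound _ 98 [rh3e504fb03f4bb7b0, (rhf48373e13d2bc128.shift 1 2)] (by decide +kernel))
noncomputable def rhffa8e0dd4fb92aac : CRef := CRef.mk (Pat.mk 0xc0000000600000000 0xa0000000a0000003b0000003f0000003600000014 7 6) 0 0 (step_sound _ 68 [(rh18965a982d73c794.shift 1 1), rh9e80cdf73a4f4282] (by decide +kernel))
noncomputable def rh2dbf8571854d46df : CRef := CRef.mk (Pat.mk 0x1e000000060000000000000000 0x20000000a0000003b0000001e0000003e0000003000000030 7 6) 0 0 (step_sound _ 68 [rhba11ce1969ff0cd7, (rhe25b0a99195a5d59.shift 1 2)] (by decide +kernel))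
noncomputable def rhbfaaaf04b5af1259 : CRef := CRef.mk (Pat.mk 0x1e00000006 0x70000000f0000003b0000001f00000006 7 6) 0 0 (step_sound _ 65 [(rh3244c3cc8379b070.shift 0 1), rhdcf8fdabb9a5594a] (by decide +kernel))
noncomputable def rhd4e4239b693efc2b : CRef := CRef.mk (Pat.mk 0x20000000600000003000000000000000000000000 0x4000000060000000700000003000000070000000700000003000000060000000600000004 7 3) 0 0 (step_sound _ 65 [(rh301a6b3a9154ed36.shift 1 0), rh8ff3dde5b1c639e0, (rh97ad1986540fd573.shift 0 2)] (by decide +kernel))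
noncomputable def rh453decb7e69ad812 : CRef := CRef.mk (Pat.mk 0x300000002000000020000000300000000000000000000000000000000 0x40000000700000003000000030000000300000006000000070000000700000001 7 3) 0 0 (step_sound _ 97 [rh04453070c3626615, (rhffd04209dc8ea796.shift 0 3)] (by decide +kernel))
noncomputable def rhd7e8972d53277b8e : CRef := CRef.mk (Pat.mk 0x8000000080000000c00000018 0x140000001c0000001c00000018000000380000003f0000000f00000018 7 6) 0 0 (step_sound _ 33 [rh6abd28f44e8661a3, rhb739f4f82bb681b4] (by decide +kernel))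
noncomputable def rh5f052059c91142c4 : CRef := CRef.mk (Pat.mk 0x600000002000000020000000300000000000000000000000000000000 0x10000000700000006000000030000000300000006000000070000000700000001 7 3) 0 0 (step_sound _ 97 [rh234bce6ffe4d13f4, (rhbaefcd01e0a8bca3.shift 1 3)] (by decide +kernel))
noncomputable def rh09c5b2d217f949d6 : CRef := CRef.mk (Pat.mk 0x30000000180000000000000000 0x8000000280000002f000000ff000000f8000000d000000040 7 8) 0 0 (step_sound _ 102 [rh01c4f3cf2f0b5860, (rh18965a982d73c794.shift 3 2)] (by decide +kernel))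
noncomputable def rh00ed64a1a01bd805 : CRef := CRef.mk (Pat.mk 0x20000000700000001000000000000000000000000 0x70000000700000007000000070000001f0000001e0000000600000002 7 5) 0 0 (step_sound _ 193 [(rh5c5e593799055d58.shift 0 3), rha7c9b6b8e1a0eab2] (by decide +kernel))
noncomputable def rh15a4be4a710bcca1 : CRef := CRef.mk (Pat.mk 0x10000000180000000c0000000800000000 0x20000000f0000003f0000001f0000001c0000007800000030 7 7) 0 0 (step_sound _ 131 [(rh14d5fb538d4c2aa6.shift 0 1), (rh7c5c9e3d7752e57e.shift 2 0)] (by decide +kernel))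
noncomputable def rh40fd6c3ceb56e61a : CRef := CRef.mk (Pat.mk 0x8000000180000001c00000000 0x1c0000003c0000000f000000780000001c00000008 7 7) 0 0 (step_sound _ 69 [(rh18965a982d73c794.shift 2 1), rh28152048bc8b598f] (by decide +kernel))
noncomputable def rh7594fdfa726df714 : CRef := CRef.mk (Pat.mk 0x8000000180000001c00000000 0xc0000000c0000000f0000001b0000001f0000000a 7 5) 0 0 (step_sound _ 33 [(rh53b3c253cb0c65f4.shift 0 1), rh54204b8f3766698a] (by decide +kernel))
noncomputable def rhc4bae21d94406425 : CRef := CRef.mk (Pat.mk 0x40000000c0000000600000000000000000000000000000000 0xa0000000f0000003c0000000e0000000c0000000e0000000e00000002 7 6) 0 0 (step_sound _ 164 [(rh18965a982d73c794.shift 1 4), rhc8e8c9b8a5835135] (by decide +kernel))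
noncomputable def rh4b1316525187878a : CRef := CRef.mk (Pat.mk 0x1000000010000000100000003800000000 0x280000003e00000070000001f7000000fe000001c7 7 9) 0 0 (step_sound _ 38 [(rh7ff124f652603a05.shift 3 0), rh988dac8d009f9f77, (rhe9443c0983622ded.shift 1 0)] (by decide +kernel))
noncomputable def rh9c0f1bef6b2efe94 : CRef := CRef.mk (Pat.mk 0x10000000100000003800000000 0x300000003000000030000003f7000001fe000001d7 7 10) 0 0 (step_sound _ 38 [(rh08dd33ac986b69e6.shift 2 0), rh988dac8d009f9f77, (rha93a5dd541ab8209.shift 3 0), (rhe755d80139a0ae3f.shift 1 0), (rhf5fa5e48e0784de2.shift 3 0)] (by decide +kernel))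
noncomputable def rh5c33ed7e4df20a9f : CRef := CRef.mk (Pat.mk 0x200000007000000010000000000000000 0x70000000700000007000000070000001f0000001e00000006 7 5) 0 0 (step_sound _ 161 [(rh5c5e593799055d58.shift 0 2), rhd52306e85827619a] (by decide +kernel))
noncomputable def rh850259c361326300 : CRef := CRef.mk (Pat.mk 0x380000000c000000000000000000000000 0x100000001c0000001c0000003c0000001f000000380000000c0000001c0000001c00000014 7 6) 0 0 (step_sound _ 163 [(rh06a3da6726b4bba0.shift 2 1), (rh28da1f1e62747c8a.shift 2 2), (rh45d4c1f64d33c434.shift 0 1), (rh5cccfffbf6e50c0f.shift 0 2), (rhd3427edfe1bb73fe.shift 1 0)] (by decide +kernel))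
noncomputable def rh5da57d16592afb2a : CRef := CRef.mk (Pat.mk 0x10000000180000000e0000000000000000 0x40000000e0000001f0000001b0000001e0000001c0000001c 7 5) 0 0 (step_sound _ 35 [(rh71222050f2c63a3a.shift 3 0), rhe38f7c3ac0c4eeb4] (by decide +kernel))
noncomputable def rha5487be4a2ccd8d6 : CRef := CRef.mk (Pat.mk 0x2000000020000000000000003000000010 0x2000000060000003ce000001ff000003fe 7 10) 0 0 (step_sound _ 38 [(rh2820ca9a6c4f41b4.shift 1 0), (rh4a81b279a40262a1.shift 3 0), (rhdc1641106d7e5aa2.shift 3 0), rhe125ed51b2878ed7] (by decide +kernel))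
noncomputable def rhb4397cc7a5079d54 : CRef := CRef.mk (Pat.mk 0x8000000080000000c00000000 0x1c0000001e0000007c000000380000001f00000018 7 7) 0 0 (step_sound _ 131 [(rh00c644645561e9be.shift 2 0), rh54968f8c0e71a67e, (rhf061e61953401a2f.shift 1 0)] (by decide +kernel))
noncomputable def rh11b5a373ce1dc625 : CRef := CRef.mk (Pat.mk 0x80000000c000000000000000400000000 0x140000001c0000001c000000380000001f000000780000001e0000001c 7 7) 0 0 (step_sound _ 67 [(rh110cb443057788a1.shift 0 1), rh12eeb6e96e64e320, (rh86aa94d7c0c1e10d.shift 1 0)] (by decide +kernel))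
noncomputable def rh6f15fd584bebb806 : CRef := CRef.mk (Pat.mk 0x100000001000000018000000080000000000000000 0x10000003b7000001fe000001ef0000002000000020 7 10) 0 0 (step_sound _ 101 [(rh2820ca9a6c4f41b4.shift 0 2), (rh9fb657e6481dfcdc.shift 2 2), (rhc32688944b7f7dbb.shift 2 0), rhc7dbdd812ba4952c] (by decide +kernel))
noncomputable def rhefd57977d06f6ed5 : CRef := CRef.mk (Pat.mk 0x180000000b00000000000000000000000000000000 0x40000000c0000001f000000780000001b0000007e0000001e0000001c00000014 7 7) 0 0 (step_sound _ 99 [(rh274a837cd7eaa569.shift 2 0), (rh3f4e587af562c60b.shift 0 2), rh676e17e338624a1b, (rhb261790060b42601.shift 1 0)] (by decide +kernel))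
noncomputable def rh56dd591d88ccf185 : CRef := CRef.mk (Pat.mk 0x80000001e00000000 0x3b000000fe000000e7 7 8) 0 0 (step_sound _ 65 [(rh3244c3cc8379b070.shift 0 1), rhea307cf430efaee7] (by decide +kernel))
noncomputable def rh1b8b435fbaa3aeb6 : CRef := CRef.mk (Pat.mk 0x340000001600000000000000000000000000000000 0x8000000180000003e000000f4000000360000003e0000003f0000003800000028 7 8) 0 0 (step_sound _ 100 [(rh274a837cd7eaa569.shift 3 0), (rh676e17e338624a1b.shift 1 0), rhf52ec6727ff4be31] (by decide +kernel))
noncomputable def rh983bed0cf18ddd2e : CRef := CRef.mk (Pat.mk 0x380000000c00000000000000000000000000000000 0x100000001c0000001f000000380000000f0000007c0000001c0000001c00000014 7 7) 0 0 (step_sound _ 129 [rh293980c0e6773be5, (rh53b3c253cb0c65f4.shift 0 4)] (by decide +kernel))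
noncomputable def rh34038d6801c5aac0 : CRef := CRef.mk (Pat.mk 0x140000000e000000000000000000000000 0x10000000340000001f0000003b0000000a0000000a 7 6) 0 0 (step_sound _ 100 [(rh33e738c4ed385b9f.shift 1 3), rh4e2d420275ef5670] (by decide +kernel))
noncomputable def rh5c081832b9b7d6a2 : CRef := CRef.mk (Pat.mk 0x380000000e000000000000000000000000 0x4000000040000001e0000001f0000003a0000000e0000001e0000001c00000014 7 6) 0 0 (step_sound _ 163 [rh0ab273d635ba54c7, (rh281c6819542c66e6.shift 2 0), rh7c98e8089f3c8285, rhc111df6006b22752] (by decide +kernel))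
noncomputable def rh7fa7c94c40b8ffa1 : CRef := CRef.mk (Pat.mk 0x20000001c000000040000000000000000 0x200000002000000730000003e000000740000000400000004 7 7) 0 0 (step_sound _ 97 [(rh3244c3cc8379b070.shift 0 3), (rhee0241f9f3462ede.shift 1 0)] (by decide +kernel))
noncomputable def rh2c5c53e1a33f190d : CRef := CRef.mk (Pat.mk 0x30000000140000000000000000 0x800000028000001ff000000fe000001d60000001400000010 7 9) 0 0 (step_sound _ 99 [(rh038dfaa267a09217.shift 2 0), (rh1815fa84a9d15ea1.shift 1 0), (rh73f5f7cdf41b5bc9.shift 1 1), (rha0f541aa9ffae9a1.shift 0 2)] (by decide +kernel))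
noncomputable def rhd242fd0a9ac0765c : CRef := CRef.mk (Pat.mk 0xc000000070000000000000000000000000000000000000000 0xa0000000e0000000e0000000c000000070000003e0000000f0000000e0000000e00000008 7 6) 0 0 (step_sound _ 130 [(rh2222a27c490588f5.shift 1 0), (rh7caa2478668a399c.shift 0 1), (rh91f2d153b08a3c0b.shift 0 3), (rheb5cf6be9daf210b.shift 0 2)] (by decide +kernel))
noncomputable def rh480e77c03f3567f1 : CRef := CRef.mk (Pat.mk 0x1c00000006000000020000000000000000 0xa0000000a0000003a0000001f00000036000000170000000700000007 7 6) 0 0 (step_sound _ 33 [rh6de024799294623a, (rh71222050f2c63a3a.shift 1 0)] (by decide +kernel))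
noncomputable def rh362fdf9e3aa89a8f : CRef := CRef.mk (Pat.mk 0x1a0000000300000000000000000000000000000000 0x400000006000000070000000f0000001b0000000300000007000000070000000700000001 7 5) 0 0 (step_sound _ 193 [(rh281c6819542c66e6.shift 0 1), rh49c676ededc26e1c, (rh7a7e08304268422e.shift 0 3)] (by decide +kernel))
noncomputable def rhb8871b2d579c5c5a : CRef := CRef.mk (Pat.mk 0x180000000e000000000000000000000000 0x4000000040000000e0000001f0000007a0000000e0000003e0000001c00000014 7 7) 0 0 (step_sound _ 133 [(rh18965a982d73c794.shift 2 3), rhaacbe9e3ee71d824] (by decide +kernel))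
noncomputable def rh11707f63d5fe6caa : CRef := CRef.mk (Pat.mk 0x1c0000000700000000000000000000000000000000 0x80000000c0000001c0000001c000000170000003e0000001e0000000e0000000a 7 6) 0 0 (step_sound _ 98 [(rh215e11e099257d75.shift 2 2), rh7c39e64a76c2f796, (rhffb8e5993241bf15.shift 1 0)] (by decide +kernel))
noncomputable def rhfcf4504fadac2281 : CRef := CRef.mk (Pat.mk 0x2000000020000000000000001000000010 0x20000001ff000000fe000001df0000005800000050 7 9) 0 0 (step_sound _ 100 [(rh04253f50b6dd0619.shift 4 0), rh43629906520e1fa9] (by decide +kernel))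
noncomputable def rh9263397f17359e5c : CRef := CRef.mk (Pat.mk 0x1c000000040000000000000000 0x80000000a0000003b0000001f000000370000001400000004 7 6) 0 0 (step_sound _ 97 [(rh4b16f4ef044416d4.shift 0 1), (rh4e9101e89b88eb2f.shift 0 1), rhc901bc4bb2497753] (by decide +kernel))
noncomputable def rhb91dab44853f3721 : CRef := CRef.mk (Pat.mk 0xc0000000c0000000400000000 0x18000000380000007f0000007f0000003c00000018 7 7) 0 0 (step_sound _ 131 [(rh5c5e593799055d58.shift 2 1), rh6c877d8b06e71e76] (by decide +kernel))
noncomputable def rh6eff6381b40eba89 : CRef := CRef.mk (Pat.mk 0x800000038000000080000000000000000 0xc0000000f0000003c000000780000001e00000014 7 7) 0 0 (step_sound _ 130 [(rh9e479264aa357885.shift 1 0), (rhdbcea10a0fbe5ba6.shift 0 3)] (by decide +kernel))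
noncomputable def rh9cd9e1ed5ccfd29d : CRef := CRef.mk (Pat.mk 0x40000000c0000000c00000000 0xe0000000f0000003c0000007f0000007e00000012 7 7) 0 0 (step_sound _ 130 [(rh2145e1d24b96a57e.shift 2 1), rha81cdf2cb1ea4ae8] (by decide +kernel))
noncomputable def rh0fc4ef5edb74741b : CRef := CRef.mk (Pat.mk 0x40000000e000000020000000200000000 0x2000000770000003e0000003e0000000700000005 7 7) 0 0 (step_sound _ 100 [(rh3f9c2fb96516703c.shift 1 2), rh5780a3f26edf26c1, (rhe3060b190bc0bc78.shift 0 3)] (by decide +kernel))
noncomputable def rh455e3ff286dfe736 : CRef := CRef.mk (Pat.mk 0x180000000c000000000000000000000000 0x80000000a0000001f0000003f000000770000001400000004 7 7) 0 0 (step_sound _ 97 [(rh53b3c253cb0c65f4.shift 0 3), rh6a64c47a62d86a3d] (by decide +kernel))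
noncomputable def rh40e8d97210755283 : CRef := CRef.mk (Pat.mk 0x200000002000000038000000100000000000000000 0x80000007c0000002f000000f8000001d80000001000000010 7 9) 0 0 (step_sound _ 36 [(rh2b0ac925ee3f3632.shift 0 1), (rh71222050f2c63a3a.shift 4 0)] (by decide +kernel))
noncomputable def rh72acf8cf40560157 : CRef := CRef.mk (Pat.mk 0x20000000f000000000 0x3f000000fe0000018e 7 9) 0 0 (step_sound _ 7 [rh30db8da99646143a, (rhe25b0a99195a5d59.shift 4 0)] (by decide +kernel))
noncomputable def rh5784bbf082fedb9d : CRef := CRef.mk (Pat.mk 0x70000000400000000000000000 0x18000000180000003f000001fe0000007f0000003c00000018 7 9) 0 0 (step_sound _ 68 [(rh2820ca9a6c4f41b4.shift 1 2), (rhc22314605365e1ce.shift 3 2), rhd4bb430f810e1693, (rhef9ae3a37586c893.shift 2 0)] (by decide +kernel))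
noncomputable def rh7b5e351a00899657 : CRef := CRef.mk (Pat.mk 0xe000000080000000800000000 0x4000000070000003e0000007f0000000f00000003 7 7) 0 0 (step_sound _ 100 [rh1c753b591fabd574, (rh3947d1dfff0afc6c.shift 0 2), (rh47c07cd0cc865f65.shift 0 2), (rha55e9a51d19a998f.shift 0 2)] (by decide +kernel))
noncomputable def rh8ad87e8fbd1d4ddd : CRef := CRef.mk (Pat.mk 0xc000000180000000800000000 0x12000000130000003f0000001f0000000c0000000c 7 6) 0 0 (step_sound _ 97 [rh4f7de5bd6810088c, (rhb739f4f82bb681b4.shift 0 2)] (by decide +kernel))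
noncomputable def rh406e987b9eed47d8 : CRef := CRef.mk (Pat.mk 0x60000000c0000000400000000000000000000000000000000 0xc0000000c0000000c000000060000000f0000003e0000000c0000000c0000000c00000008 7 6) 0 0 (step_sound _ 226 [rh0b105607e5c74e15, (rh1728b446c037fdbd.shift 1 4), (rhd4b4beefcd67f51e.shift 2 3)] (by decide +kernel))
noncomputable def rh1739d6b475c3379a : CRef := CRef.mk (Pat.mk 0xc00000018000000080000000000000000 0x8000000180000003f0000001f000000380000001800000008 7 6) 0 0 (step_sound _ 129 [(rhb739f4f82bb681b4.shift 0 3), rhfdb2ba5a707ac534] (by decide +kernel))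
noncomputable def rh53b1fd27501c6216 : CRef := CRef.mk (Pat.mk 0x8000000080000000c0000000400000000 0x60000000e0000000c0000003e0000007f0000001a 7 7) 0 0 (step_sound _ 35 [rh0f587135066a92ac, (rh36d4d92ef3dad5f8.shift 1 0)] (by decide +kernel))
noncomputable def rhcce657bfeb8fc5ab : CRef := CRef.mk (Pat.mk 0x4000000040000000c000000000000000000000000 0x80000000c0000000c0000003f0000003f0000001e00000008 7 6) 0 0 (step_sound _ 67 [(rh00aa1b5e20955d22.shift 0 1), (rh08edf065357d68e5.shift 2 0), (rh7d7040c5e5990909.shift 0 1)] (by decide +kernel))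
noncomputable def rh1596f2b062ffc2ae : CRef := CRef.mk (Pat.mk 0x1800000008000000080000000800000000 0x4000000ff000001ff000000080000000c00000004 7 9) 0 0 (step_sound _ 130 [(rh50fbb5868c909700.shift 2 1), rhea99f8e157347430] (by decide +kernel))
noncomputable def rh5f87faa23d848e4b : CRef := CRef.mk (Pat.mk 0x1000000010000000100000001000000000 0x1000000010000000ff000000fe0000002f 7 8) 0 0 (step_sound _ 37 [(rh55afc6a59410cf00.shift 4 0), rhe9b49dd16e8c84ca] (by decide +kernel))
noncomputable def rhbb9f278bb216f6e7 : CRef := CRef.mk (Pat.mk 0x1000000010000000100000003800000000 0x80000001800000010000003f7000001fe000001c7 7 10) 0 0 (step_sound _ 131 [rh0f62b02cca4ce4f3, (rh50fbb5868c909700.shift 3 1)] (by decide +kernel))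
noncomputable def rh5f900895e56123c1 : CRef := CRef.mk (Pat.mk 0x100000001000000030000000200000000000000000 0x50000000df000000fe000001ef0000002800000028 7 9) 0 0 (step_sound _ 37 [rh69ccad40b7f365fd, (rh7b1f1fb55310c477.shift 4 0)] (by decide +kernel))
noncomputable def rh889954256a85855a : CRef := CRef.mk (Pat.mk 0x4000000040000000e000000080000000000000000 0x40000007e000000fe0000007b0000000200000002 7 8) 0 0 (step_sound _ 65 [(rh93a506cf26059711.shift 0 2), (rhdd1f17e324a6ef8c.shift 0 2), (rhf9af042da61fc652.shift 1 0)] (by decide +kernel))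
noncomputable def rhc747c4fc571f2653 : CRef := CRef.mk (Pat.mk 0x100000003800000000 0x1ff000000fe000001c0 7 9) 0 0 (step_sound _ 34 [(rh45f730bcf36fcf64.shift 1 0), (rhec46bd5500c722c9.shift 1 1), (rhedf6b6c69a16cbd5.shift 0 1)] (by decide +kernel))
noncomputable def rhaf7a8335625653b6 : CRef := CRef.mk (Pat.mk 0xc000000080000000800000008 0x140000001c0000001c000000180000001f000000380000001800000018 7 6) 0 0 (step_sound _ 131 [(rh44f453b84f013105.shift 3 0), rh4e23d06bd7461233, (rha087c6594f4bfb59.shift 2 0)] (by decide +kernel))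
noncomputable def rhc291dddd0ea7d802 : CRef := CRef.mk (Pat.mk 0x100000007000000020 0x1f7000003fe000000e7 7 10) 0 0 (step_sound _ 35 [rh988dac8d009f9f77, (rha03f6e28ea70fc7d.shift 2 0), (rhf300f571c00d73dc.shift 3 0)] (by decide +kernel))
noncomputable def rha49727a4938b30d0 : CRef := CRef.mk (Pat.mk 0x100000001000000070000000000000000000000000 0x70000000ff0000007e000000e70000006000000060 7 8) 0 0 (step_sound _ 99 [(rh607265eeba168943.shift 3 0), (rh988dac8d009f9f77.shift 0 2), (rh9c548838e8725ba1.shift 1 2)] (by decide +kernel))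
noncomputable def rh875f8049255cb008 : CRef := CRef.mk (Pat.mk 0x80000000e0000000800000000 0x100000001c0000001c0000001f0000003c0000000e0000000800000008 7 6) 0 0 (step_sound _ 100 [(rh026fe94e65800e5e.shift 1 0), (rh215e11e099257d75.shift 3 0), (rh31cc5a8a8f8e588d.shift 1 0), (rh7360152c32041eea.shift 0 1)] (by decide +kernel))
noncomputable def rhee55f5c27b907a0f : CRef := CRef.mk (Pat.mk 0x1000000018000000700000000000000000 0x100000003c0000003f00000038000000f80000007e0000001400000010 7 8) 0 0 (step_sound _ 131 [(rh85194daf68a8acae.shift 0 1), (rhc1ef240f5928cae8.shift 3 0), (rhfc7c29d8e65d775f.shift 3 1)] (by decide +kernel))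
noncomputable def rh05329cf8e50c25f8 : CRef := CRef.mk (Pat.mk 0x800000008000000080000000000000000 0x140000001c0000001c0000001c0000001c0000000f0000003c0000001c 7 6) 0 0 (step_sound _ 35 [(rh193da7fc9e1674f1.shift 2 0), (rh32e32f03ae89b559.shift 2 0), rh641b5241be04eec6] (by decide +kernel))
noncomputable def rh6a276baf6ccb66e1 : CRef := CRef.mk (Pat.mk 0x2000000020000000200000007000000000 0x100000003000000030000003bf000001fe0000038e 7 10) 0 0 (step_sound _ 132 [(rh50fbb5868c909700.shift 4 1), rhd77ce3e7a7fb583a] (by decide +kernel))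
noncomputable def rh6b1137e0fae23a77 : CRef := CRef.mk (Pat.mk 0x3000000010000000100000003000000000 0x100000003000000030000001f7000000fe000001cf 7 9) 0 0 (step_sound _ 35 [rh652712fe16b5cdf7, (rh932754581e0f4330.shift 3 0)] (by decide +kernel))
noncomputable def rh44db0baa0f9a2c41 : CRef := CRef.mk (Pat.mk 0x20000000300000006000000020000000000000000000000000000000000000000 0x20000000300000007000000070000000300000003000000070000000700000005 7 3) 0 0 (step_sound _ 128 [rh76d8444e21292817, (rh79877ebd3ef475dd.shift 0 4)] (by decide +kernel))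
noncomputable def rh583bcf04cff517f4 : CRef := CRef.mk (Pat.mk 0x10000000180000007000000000000000000000000000000000 0x18000000180000007f0000003e000000180000001800000008 7 7) 0 0 (step_sound _ 100 [(rh01483ff9cba2f6ac.shift 3 0), (rh322e79f034282812.shift 1 2), (rh852e818bc8629e77.shift 1 2), (rhbe2dc84b41eb645f.shift 0 1)] (by decide +kernel))
noncomputable def rhb24fe1cfb6959dd0 : CRef := CRef.mk (Pat.mk 0x400000002000000020000000e0000000000000000 0x60000000e0000000b0000003e0000003e0000003000000010 7 6) 0 0 (step_sound _ 98 [rh2e3757e3a1b64a42, (rh82bd946b1709a78e.shift 1 2)] (by decide +kernel))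
noncomputable def rh778f996946c1c11c : CRef := CRef.mk (Pat.mk 0x2000000030000000600000000000000000000000000000000 0x100000003000000070000000600000007000000070000000600000003000000070000000700000005 7 3) 0 0 (step_sound _ 97 [(rh0845c696443da834.shift 0 3), (rh5192e84255fe3228.shift 0 1), rh95311890f436bcdc] (by decide +kernel))
noncomputable def rh08e1cac32ca04d83 : CRef := CRef.mk (Pat.mk 0x40000000400000004000000000000000000000000 0xa0000000e0000000e0000000f0000003c00000006000000060000000600000002 7 6) 0 0 (step_sound _ 65 [(rh0e6924d680f6455d.shift 1 0), (rhb77bfac3e9efecea.shift 1 2), (rhf2bd6a03d3c00d1f.shift 0 1)] (by decide +kernel))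
noncomputable def rh76abe62c19da8615 : CRef := CRef.mk (Pat.mk 0x400000004000000040000000400000000 0xc0000000c0000000c0000000f0000003c0000001c 7 6) 0 0 (step_sound _ 35 [rh448010a0de4ebdac, (rh55afc6a59410cf00.shift 2 0)] (by decide +kernel))
noncomputable def rh4d3e25a394f85ef9 : CRef := CRef.mk (Pat.mk 0x400000004000000040000000000000000 0x20000000e0000000f0000003c0000000e0000000e0000000e 7 6) 0 0 (step_sound _ 34 [rh20cddb3ba0450bc6, (rh5abfc4c9d959be03.shift 1 0), (rhc4ec57a3756c3a6c.shift 1 0)] (by decide +kernel))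
noncomputable def rhb72e738e0e67743b : CRef := CRef.mk (Pat.mk 0x10000000100000003000000020000000000000000000000000 0x8000000380000007f0000003e0000007e0000001e0000001800000010 7 7) 0 0 (step_sound _ 131 [(rh3ce854f4a795c89f.shift 1 3), (rh72374ec18fbad4fe.shift 1 0), (rhb2afcb5db661472f.shift 0 3)] (by decide +kernel))
noncomputable def rh11c91ffc637554bc : CRef := CRef.mk (Pat.mk 0x80000001e00000000 0x400000007000000070000003f0000001e00000007 7 6) 0 0 (step_sound _ 65 [(rh3244c3cc8379b070.shift 0 1), rhf4c0444226939407] (by decide +kernel))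
noncomputable def rh8b72e36695780984 : CRef := CRef.mk (Pat.mk 0x8000000180000001c00000000 0xc0000000c0000000f0000001b0000001f0000000a 7 5) 0 0 (step_sound _ 33 [(rh53b3c253cb0c65f4.shift 0 1), rh9e0d36d600671dda] (by decide +kernel))
noncomputable def rhd9a84ec400e39074 : CRef := CRef.mk (Pat.mk 0x2000000020000000200000000 0x6000000070000000700000007000000070000000700000006 7 3) 0 0 (step_sound _ 129 [rh75eefa99e816976e, rhc4055b4872d6fb38, (rhced6d86d2069808b.shift 1 0)] (by decide +kernel))
noncomputable def rh82fc52c02a55c550 : CRef := CRef.mk (Pat.mk 0xc000000080000000800000008 0x18000000180000001f0000007c0000001800000018 7 7) 0 0 (step_sound _ 132 [(rhbaefcd01e0a8bca3.shift 3 0), rhffec44ea36b33571] (by decide +kernel))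
noncomputable def rh0b3588ad43c930e9 : CRef := CRef.mk (Pat.mk 0x2000000020000000200000000000000000000000000000000 0x4000000070000000700000003000000030000000700000007000000070000000700000005 7 3) 0 0 (step_sound _ 97 [(rh1f25b33bbea643f0.shift 0 3), (rhc4ec57a3756c3a6c.shift 0 2), rhc850b49d039efae1] (by decide +kernel))
noncomputable def rh15017db131dc8e04 : CRef := CRef.mk (Pat.mk 0x400000004000000040000000400000000 0xc0000000c0000000c0000000f0000003c0000001c 7 6) 0 0 (step_sound _ 131 [rh11d7725d82cfa01b, (rh2f68792b6b779e96.shift 2 1)] (by decide +kernel))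
noncomputable def rh03141d78168828d0 : CRef := CRef.mk (Pat.mk 0x1800000010000000100000001000000000 0x18000000180000003e000000ff0000002e 7 8) 0 0 (step_sound _ 35 [rh389bed5eea0a8dfb, (rh932754581e0f4330.shift 3 0)] (by decide +kernel))
noncomputable def rh8b8544a2bc29784c : CRef := CRef.mk (Pat.mk 0x4000000040000000600000002000000020 0x10000000f8000000df000001fe0000003e00000028 7 9) 0 0 (step_sound _ 68 [(rh3cefcdf4a66fcca8.shift 2 0), (rh3f396fc471e867d8.shift 2 0), (rh4d63ff26ec2dbd2d.shift 0 1), (rhb12ffaec36122c99.shift 1 1), (rhd20916f8a49230a8.shift 2 0), (rhdaf962e95754b959.shift 1 0)] (by decide +kernel))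
noncomputable def rhe9604ec4c751e1ec : CRef := CRef.mk (Pat.mk 0x10000000180000000c000000000000000000000000 0x4000000360000001f000000ff000000070000000600000004 7 8) 0 0 (step_sound _ 97 [(rh53b3c253cb0c65f4.shift 0 3), rhee1a0400a973ac30] (by decide +kernel))
noncomputable def rhec4ac42e95ac8f0d : CRef := CRef.mk (Pat.mk 0x100000002000000020000000200000000 0x400000006000000070000000300000006000000070000000700000001 7 3) 0 0 (step_sound _ 129 [(rh50fbb5868c909700.shift 0 1), rh5cfeafb3b4901fdd] (by decide +kernel))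
noncomputable def rh023198f23cdae2e4 : CRef := CRef.mk (Pat.mk 0x3800000010000000100000001000000000 0x70000007f000000fe000000100000001800000008 7 8) 0 0 (step_sound _ 35 [(rh932754581e0f4330.shift 3 0), (rhd11a396ca7ed341b.shift 0 3)] (by decide +kernel))
noncomputable def rhb8e09dd6da2853a6 : CRef := CRef.mk (Pat.mk 0x18000000100000001000000018 0x140000001e0000007f000000ff0000001e 7 8) 0 0 (step_sound _ 35 [(rh5c5e593799055d58.shift 3 0), rh95ecc188ff63c01e] (by decide +kernel))
noncomputable def rh7690ae2f9623f137 : CRef := CRef.mk (Pat.mk 0xe00000004000000000 0x10000000100000001f000001fe000001ff00000020 7 9) 0 0 (step_sound _ 68 [(rha03f6e28ea70fc7d.shift 3 1), (rhbcc3f603667cc96f.shift 3 0), (rhf3e60b56d53bd032.shift 0 1)] (by decide +kernel))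
noncomputable def rh7a86267e401813d2 : CRef := CRef.mk (Pat.mk 0x200000002000000060000000400000004000000000 0xa0000001bf000001fe000001de0000005000000010 7 9) 0 0 (step_sound _ 100 [(rh5a1dc4f1ba2ce0d6.shift 0 2), (rhc5dec05a47d9bdb5.shift 3 1), (rhc92c11e8da6c894f.shift 1 2), (rhcced840e0475f351.shift 3 1), (rhd8215403ae36d74e.shift 1 0)] (by decide +kernel))
noncomputable def rh0dbff6accb4adcf3 : CRef := CRef.mk (Pat.mk 0x8000000180000001000000010 0x240000006e000000fe000000ff0000003e 7 8) 0 0 (step_sound _ 37 [(rh75ea294132184f25.shift 2 1), (rh92011a909a77227f.shift 1 0), rhd58a94a69b1f54b7, (rhdeca8db941583de2.shift 1 1)] (by decide +kernel))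
noncomputable def rh20d0c6ab813c6d71 : CRef := CRef.mk (Pat.mk 0x20000000200000006000000020 0x5e000000fe0000003f000001f000000020 7 9) 0 0 (step_sound _ 100 [(rh50fbb5868c909700.shift 4 0), rh795c1708322479b0] (by decide +kernel))
noncomputable def rh6a40c9ee6bc10322 : CRef := CRef.mk (Pat.mk 0x200000002000000060000000200000000000000000000000000000000 0x40000000600000002000000060000000600000007000000070000000700000004 7 3) 0 0 (step_sound _ 226 [(rh2f68792b6b779e96.shift 1 4), rh8435f16c73c7f2d9] (by decide +kernel))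
noncomputable def rh03d28ada00f151fa : CRef := CRef.mk (Pat.mk 0x1800000008000000180000000800000000000000000000000000000000 0x180000000f0000007c000000180000001c0000001c0000001c00000010 7 7) 0 0 (step_sound _ 194 [(rh5ac338b5fcda750b.shift 0 5), rh9a4f66cec3456d91, (rhbaff7ec0fcc038ba.shift 2 1)] (by decide +kernel))
noncomputable def rhd15017b599f17693 : CRef := CRef.mk (Pat.mk 0x8000000080000001800000000 0x100000001c0000001f0000003e0000007c0000001800000008 7 7) 0 0 (step_sound _ 131 [(rh0942688823996474.shift 1 0), rh2726962e49a46af1, (rh73f605273a09a9d0.shift 3 1)] (by decide +kernel))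
noncomputable def rhc1001722e7af2b19 : CRef := CRef.mk (Pat.mk 0xc00000008000000080000000800000000 0x800000008000000080000000f0000003c0000001c0000000c0000000c 7 6) 0 0 (step_sound _ 98 [rh2475293df139576c, (rh7b1f1fb55310c477.shift 2 0)] (by decide +kernel))
noncomputable def rh1ed4af354330e1a1 : CRef := CRef.mk (Pat.mk 0x80000000800000008000000000000000000000000 0x100000001800000018000000ff0000007f000000fc00000014 7 8) 0 0 (step_sound _ 67 [(rh4831f56b288300ad.shift 0 1), (rh6c59ce14113da07f.shift 3 0), (rh6eff4158bb400f47.shift 2 0), (rhcab3157f7bdcba3e.shift 2 0)] (by decide +kernel))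
noncomputable def rha9fbd962400a8b87 : CRef := CRef.mk (Pat.mk 0x800000008000000080000001800000000 0x40000000c00000008000000ff0000007e000000e4 7 8) 0 0 (step_sound _ 34 [(rh932754581e0f4330.shift 2 0), rhe0b2d27afc8c634c] (by decide +kernel))
noncomputable def rh10528b5419128bf2 : CRef := CRef.mk (Pat.mk 0x3000000020000000200000002000000000 0x4f000000fe000001fc000000300000007000000050 7 9) 0 0 (step_sound _ 36 [rh755ab12b41277c9d, (rh932754581e0f4330.shift 4 0)] (by decide +kernel))
noncomputable def rh049ad5bbac32cf6a : CRef := CRef.mk (Pat.mk 0x380000001000000000 0x400000004000000070000007f0000007e00000008 7 7) 0 0 (step_sound _ 66 [(rha03f6e28ea70fc7d.shift 1 1), (rhba5a7d18b895ae4d.shift 1 0), (rhc93c85c35c9e08d5.shift 0 1), (rhea719f25f550e5b4.shift 1 1)] (by decide +kernel))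
noncomputable def rh6c1a9934388d2c85 : CRef := CRef.mk (Pat.mk 0x800000008000000180000001000000010 0x2000000028000003ef000001fe000001f600000054 7 10) 0 0 (step_sound _ 69 [(rh1ef62f5a475a383c.shift 2 0), (rh305e60cb0bb1bfe3.shift 1 0), (rh44b78625f33babd5.shift 2 1), (rh7414e988019ffba0.shift 2 1), (rha9fbfd4bb8cf890b.shift 0 2), (rhbb07bccc04294ee7.shift 1 0)] (by decide +kernel))
noncomputable def rh05b817cff3cabe52 : CRef := CRef.mk (Pat.mk 0x80000000c000000180000001000000000 0x40000003f000000ff0000001f0000003200000022 7 8) 0 0 (step_sound _ 97 [rh0d00cc8f32aae260, (rhb739f4f82bb681b4.shift 0 2)] (by decide +kernel))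
noncomputable def rh643f6145890e754e : CRef := CRef.mk (Pat.mk 0x180000001800000030 0xc0000000c000000ef0000007f0000001f00000032 7 8) 0 0 (step_sound _ 66 [(rha223ed356ef75a97.shift 0 1), rhaa931ca66a15e1f1, rhace16348de435294, rhdc692b1e23a4285d, (rhfd2357e0e75c0947.shift 1 0)] (by decide +kernel))
noncomputable def rhe368b1c4c03f88bb : CRef := CRef.mk (Pat.mk 0x1000000018000000700000000000000000 0x1c0000003f0000007f000000f8000000780000001800000018 7 8) 0 0 (step_sound _ 131 [rh7e359ae73c2f0676, rhf765a9dbcf9edc5c, (rhfc7c29d8e65d775f.shift 3 1)] (by decide +kernel))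
noncomputable def rhfca93dc87e9faade : CRef := CRef.mk (Pat.mk 0x80000000c000000180000001000000000 0x10000000340000003f0000003f0000001f0000003200000022 7 6) 0 0 (step_sound _ 97 [rh6a2ae6d9a5a16c20, (rhb739f4f82bb681b4.shift 0 2)] (by decide +kernel))
noncomputable def rh3f11d2416f2bb08d : CRef := CRef.mk (Pat.mk 0x2000000020000000700000000000000000 0x8000000080000003f0000007c000001f80000001800000010 7 9) 0 0 (step_sound _ 100 [(rh7478433a598f2371.shift 3 0), rhd195c730c18b8256, (rhe2b63c00a3d7bb73.shift 2 2)] (by decide +kernel))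
noncomputable def rh23ad0677d2df0492 : CRef := CRef.mk (Pat.mk 0x8000000080000001c00000000 0x38000000780000001e000000380000001f00000008 7 7) 0 0 (step_sound _ 68 [(rhab2ad169e49f9c5e.shift 0 1), (rhafcf2efb892dfab7.shift 1 0)] (by decide +kernel))
noncomputable def rh9b57225dd2574556 : CRef := CRef.mk (Pat.mk 0x80000000e000000180000000000000000 0x10000000300000003f0000003e0000001f0000003000000030 7 6) 0 0 (step_sound _ 100 [rh1e1fdd334f5b3198, rh82c2513e6a093fcf, (rh8ebf9530de0f8ca7.shift 0 2)] (by decide +kernel))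
noncomputable def rhc2319c9ab2862bab : CRef := CRef.mk (Pat.mk 0x100000001800000070000000000000000000000000 0xc0000002f0000007c000000f80000007c000000e40000006000000060 7 8) 0 0 (step_sound _ 99 [(rh1675ec681ab62e79.shift 3 0), (rhaa5997f027e3866e.shift 2 0), (rhbd8e445cfcdc81f9.shift 2 1), (rhce71534e51e0a15e.shift 2 0), (rhe35171cb07345fe1.shift 0 2)] (by decide +kernel))
noncomputable def rhb7702162e34389e8 : CRef := CRef.mk (Pat.mk 0x180000000c00000008 0x10000000300000003f0000003f00000038 7 6) 0 0 (step_sound _ 33 [rh16b2ddea7c4d9b1b, (rh53b3c253cb0c65f4.shift 0 1)] (by decide +kernel))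
noncomputable def rh4a41830b2a89421b : CRef := CRef.mk (Pat.mk 0x40000000c000000060000000400000000 0x180000003c0000000f0000000e0000003c00000018 7 6) 0 0 (step_sound _ 131 [(rh2f68792b6b779e96.shift 2 1), rhdb807a49aea58b54] (by decide +kernel))
noncomputable def rh46193601e2093483 : CRef := CRef.mk (Pat.mk 0x80000000c000000180000001000000000 0x4000000040000003f000000ff0000001f0000003200000020 7 8) 0 0 (step_sound _ 97 [rh14f6c8a5a4f4a3d8, (rhb739f4f82bb681b4.shift 0 2)] (by decide +kernel))
noncomputable def rh52b294630ce33c5c : CRef := CRef.mk (Pat.mk 0x20000000200000006000000000000000000000000 0x7000000070000000700000003000000070000000700000006000000030000000300000003 7 3) 0 0 (step_sound _ 193 [(rh1148744b53f3df58.shift 0 3), (rh1527d809b137dbb1.shift 0 2), (rh219b9f23527e426f.shift 0 2), (rh5bd4bc0c2c48140c.shift 0 3), rhc459c257272b9dd1] (by decide +kernel))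
noncomputable def rh92c9e652875067f7 : CRef := CRef.mk (Pat.mk 0x800000018000000080000000000000000 0x140000001c0000001c0000001c0000001f0000003800000018000000080000000800000008 7 6) 0 0 (step_sound _ 163 [(rh2726962e49a46af1.shift 0 1), (rh64bc0dab78a08b48.shift 2 2), (rh8c1d47d14292b804.shift 2 0), (rhc85cc95794737cf7.shift 2 2), (rhde9d3a9fc46128a0.shift 2 1)] (by decide +kernel))
noncomputable def rh31c5339b64ac857f : CRef := CRef.mk (Pat.mk 0x8000000180000000c00000000 0xc0000001c0000001f000000380000007c0000000c00000008 7 7) 0 0 (step_sound _ 69 [(rh18965a982d73c794.shift 2 1), rh18fdfe1063c89b13] (by decide +kernel))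
noncomputable def rhf47e25ff2314b9e0 : CRef := CRef.mk (Pat.mk 0x40000000c00000004000000040000000000000000 0x40000000c0000007f0000003f0000003a00000010 7 7) 0 0 (step_sound _ 67 [rh2c46ce7c83b790cd, (rh55afc6a59410cf00.shift 2 1)] (by decide +kernel))
noncomputable def rhe121a6d40ce340d7 : CRef := CRef.mk (Pat.mk 0xc00000018000000080000000800000000000000000000000000000000 0xc000000780000001f0000007c000000180000001c0000000c00000004 7 7) 0 0 (step_sound _ 162 [(rh15983a9fa35a29a5.shift 0 3), (rh7de9f97699eea1e4.shift 2 0), (rh8f9617ee17321bd4.shift 0 5), (rhfba210e833d4f5e8.shift 0 3)] (by decide +kernel))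
noncomputable def rh8b5336af2c62a15c : CRef := CRef.mk (Pat.mk 0x60000000c000000040000000400000000000000000000000000000000 0x60000003c0000003f00000007000000060000000e0000000e0000000a 7 6) 0 0 (step_sound _ 196 [rhbb117eafdb04ce44, (rhf48373e13d2bc128.shift 1 6)] (by decide +kernel))
noncomputable def rhdd463482a04e439c : CRef := CRef.mk (Pat.mk 0x70000000c000000040000000000000000 0x8000000180000000f0000000c0000000f0000003e0000003e 7 6) 0 0 (step_sound _ 131 [rh362104532586ff12, (rh5421160f8e9bcf07.shift 0 2)] (by decide +kernel))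
noncomputable def rh00d804076c6183a8 : CRef := CRef.mk (Pat.mk 0x1000000030000000200000002000000000 0x1800000058000000df000000fe000001ef0000007c00000008 7 9) 0 0 (step_sound _ 99 [(rh8ee80cc30e93a344.shift 2 2), (rhc8ae77ecad49585e.shift 1 1), (rhc92c11e8da6c894f.shift 0 2), (rhcced840e0475f351.shift 2 1), rhe9a5346e8dd1e69f] (by decide +kernel))
noncomputable def rh411967cdb6c81fad : CRef := CRef.mk (Pat.mk 0x20000000600000004000000040 0x80000003bf000001fe000001fe00000040 7 10) 0 0 (step_sound _ 68 [(rhb2afcb5db661472f.shift 1 1), (rhcced840e0475f351.shift 3 0), (rhe8aaa8b400ab2fb5.shift 0 1)] (by decide +kernel))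
noncomputable def rh9a6cd3b5bd4fe9ca : CRef := CRef.mk (Pat.mk 0x800000008000000080000000c 0x170000007f0000003f0000000c0000000c 7 7) 0 0 (step_sound _ 100 [(rh2f68792b6b779e96.shift 3 0), rhe313b57165422369] (by decide +kernel))
noncomputable def rhcfe1fcff7a9e86cd : CRef := CRef.mk (Pat.mk 0x80000000c000000180000001000000000 0x14000000340000003f0000003f0000001f0000003200000020 7 6) 0 0 (step_sound _ 97 [(rhb739f4f82bb681b4.shift 0 2), rhf68616d13481a009] (by decide +kernel))
noncomputable def rh3a0845b4c1c12838 : CRef := CRef.mk (Pat.mk 0x80000000e00000018000000000000000000000000 0x7000000070000007f0000003e0000001f000000070000000600000006 7 7) 0 0 (step_sound _ 132 [(rh0cc4c691701426ad.shift 0 4), (rh3cc3e986d9471888.shift 0 2), (rh8dd8478f41507cb4.shift 0 2), rhbe5d9d97f84e0940] (by decide +kernel))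
noncomputable def rha26ae088b17d6732 : CRef := CRef.mk (Pat.mk 0x1000000018000000300000000000000000 0x1000000078000000ff000000ef00000008 7 8) 0 0 (step_sound _ 70 [rh00449622cd086a2e, (rhf48373e13d2bc128.shift 3 2)] (by decide +kernel))
noncomputable def rh9b6f21ca23e57ced : CRef := CRef.mk (Pat.mk 0x800000008000000180000000c 0x140000001c0000001c0000000c0000000c0000001c000000780000000f 7 7) 0 0 (step_sound _ 37 [(rh18965a982d73c794.shift 2 0), rhdcfc6c7d96612a51] (by decide +kernel))
noncomputable def rh57cbdc3a68ef5999 : CRef := CRef.mk (Pat.mk 0x100000001000000030000000200000002000000000 0x100000001c000000fc000001ef0000007c00000008 7 9) 0 0 (step_sound _ 99 [(rh328e394105afadd4.shift 2 0), rh36b8148486524bc5, rh596def3aae05c2e3, (rh8ee80cc30e93a344.shift 2 2)] (by decide +kernel))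
noncomputable def rhee3390fd0e127982 : CRef := CRef.mk (Pat.mk 0x100000001800000030000000200000000000000000 0xfe0000007e0000003f0000006e0000000c00000004 7 8) 0 0 (step_sound _ 130 [(rhb739f4f82bb681b4.shift 1 3), rhe1e1c9696a069f44] (by decide +kernel))
noncomputable def rh8e33f84ff272a42c : CRef := CRef.mk (Pat.mk 0x80000000e000000180000000000000000 0x38000000380000003f0000003e0000001b0000000f0000000e 7 6) 0 0 (step_sound _ 100 [(rh0b055f7e92de0c3a.shift 0 2), (rhc0ac6cdbaa8efa90.shift 1 1), rhdf88520561cf0839] (by decide +kernel))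
noncomputable def rh28c34f9629d5af14 : CRef := CRef.mk (Pat.mk 0x2000000030000000600000000 0x6000000060000001e0000000f0000001f0000000b 7 5) 0 0 (step_sound _ 35 [rh65e38daf893b8035, (rhf48373e13d2bc128.shift 0 1)] (by decide +kernel))
noncomputable def rhf73729f581db6eae : CRef := CRef.mk (Pat.mk 0x1c000000100000000000000000 0x4000000040000003f0000003f0000000300000002 7 6) 0 0 (step_sound _ 97 [rh072e16e08412f058, (rhe25b0a99195a5d59.shift 1 2)] (by decide +kernel))
noncomputable def rhd0ed36d5bf947d99 : CRef := CRef.mk (Pat.mk 0x40000000e000000080000000800000000 0x70000003e0000003f0000000f00000006 7 6) 0 0 (step_sound _ 100 [(rh48546bfd3f98c2d7.shift 0 2), rhba96842ad3e22ecf, (rhe3060b190bc0bc78.shift 0 3), rhe7e904f05c6d97c3] (by decide +kernel))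
noncomputable def rh60eba7ef1362f746 : CRef := CRef.mk (Pat.mk 0x1c00000008000000080000000000000000 0x80000003c0000000f0000003c0000000f0000000e 7 6) 0 0 (step_sound _ 98 [rh2bcd01745e1bd7fe, (rh4dc133ee0ba1420a.shift 0 3)] (by decide +kernel))
noncomputable def rh848d286bd00bba50 : CRef := CRef.mk (Pat.mk 0x1000000030000000200000002000000000 0x40000000df000001ff000000fe0000002c00000008 7 9) 0 0 (step_sound _ 102 [(rh3c9b9d910dace22d.shift 2 2), rh916e6753ed7fc760, (rh9f93e2b24091a43d.shift 3 2), (rhccf3382bd4256123.shift 0 1)] (by decide +kernel))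
noncomputable def rhb0e32d90d20aa3ea : CRef := CRef.mk (Pat.mk 0x800000008000000080000000c000000000000000000000000 0x80000000c0000003f0000003f000000130000000200000002 7 6) 0 0 (step_sound _ 100 [(rh55afc6a59410cf00.shift 3 2), rh874e2dbadadd320b] (by decide +kernel))
noncomputable def rh3bb80d4a0dc8e78e : CRef := CRef.mk (Pat.mk 0x3000000020000000200000003000000000 0x40000000c0000000f000000fe000001ff000000ff0000003e0000000e 7 9) 0 0 (step_sound _ 131 [rh7f24d2e8f434b11e, (rh8ee80cc30e93a344.shift 2 3), (rha0ae8adeb1dbcf8d.shift 0 3), (rha0e3f96e77f8cdb6.shift 0 2), (rhf748f01c7a8ecd84.shift 1 2)] (by decide +kernel))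
noncomputable def rhc0e23293d36925e1 : CRef := CRef.mk (Pat.mk 0xc00000018000000080000000000000000 0x10000000100000007c0000007e0000007f0000002600000006 7 7) 0 0 (step_sound _ 101 [rh7a9c493c93bef0c0, (rhf48373e13d2bc128.shift 2 3)] (by decide +kernel))
noncomputable def rh76b52f66b91f35b7 : CRef := CRef.mk (Pat.mk 0xc000000180000000800000000 0x40000000c0000001c000000380000001f0000001c0000001800000008 7 6) 0 0 (step_sound _ 97 [(rh0c0e76c65d56b128.shift 1 0), (rhb739f4f82bb681b4.shift 0 2)] (by decide +kernel))
noncomputable def rhba8c410163da4153 : CRef := CRef.mk (Pat.mk 0x100000007000000000 0x1c000000ff000000e7 7 8) 0 0 (step_sound _ 67 [rhc5268d11b03851a4, (rhf48373e13d2bc128.shift 3 1)] (by decide +kernel))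
noncomputable def rhc8145a8bb7299d28 : CRef := CRef.mk (Pat.mk 0x10000000700000008 0x730000007f000000fc 7 8) 0 0 (step_sound _ 35 [rh40d54a57cdcd8fde, rhe25b0a99195a5d59] (by decide +kernel))
noncomputable def rh04d98c6497dead16 : CRef := CRef.mk (Pat.mk 0x800000008000000380000000000000000 0x20000000200000006c000000fe0000003e0000007700000004 7 8) 0 0 (step_sound _ 101 [(rh03bcd6f6d790fbaf.shift 1 1), (rh637906290267366a.shift 2 2), (rhcb294b42d666f577.shift 1 0), rhd27ae42c368a3181, (rhe4d937a80d476d3f.shift 1 0)] (by decide +kernel))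
noncomputable def rh569dac1dcc1620b3 : CRef := CRef.mk (Pat.mk 0x100000001000000030000000200000000000000000 0x50000000d80000007c000001ef0000007c00000028 7 9) 0 0 (step_sound _ 37 [(rh7b1f1fb55310c477.shift 4 0), rhbc2be1894fd8140b] (by decide +kernel))
noncomputable def rh62dd3fa8f62f153f : CRef := CRef.mk (Pat.mk 0x4000000040000000c000000080000000000000000 0x6000000060000007f0000007f0000000600000002 7 7) 0 0 (step_sound _ 68 [(rh137b1ffac9cea56b.shift 1 1), (rh3c3e23a02e82b2ed.shift 0 2), (rh5c5a2014709044d0.shift 0 2), rh66c2d2b9858ee976] (by decide +kernel))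
noncomputable def rh9d7af430a069ae8e : CRef := CRef.mk (Pat.mk 0x4000000040000000c0000000000000000 0xc0000000c0000000c0000000f0000003e0000001600000002 7 6) 0 0 (step_sound _ 162 [(rh367118e0bf0473e0.shift 1 0), (rh448010a0de4ebdac.shift 0 1), (rh50fc3837f5e8c53a.shift 1 1)] (by decide +kernel))
noncomputable def rh2247f936db343a6f : CRef := CRef.mk (Pat.mk 0x3000000060000000200000000000000000000000000000000 0x400000006000000060000000600000007000000070000000600000003000000070000000600000004 7 3) 0 0 (step_sound _ 97 [rh46bfb734f58a0e67, (rhc705a4e0321a1bff.shift 0 2), (rhea3dd3f16be204e9.shift 0 2)] (by decide +kernel))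
noncomputable def rh86643f62ad1f66ab : CRef := CRef.mk (Pat.mk 0x60000002c0000000400000000 0x40000000c0000000e0000000f0000003e0000006c0000007c00000018 7 7) 0 0 (step_sound _ 130 [rh81d511d9edeeb57a, (rhd4b4beefcd67f51e.shift 2 0), (rhe0416c1b0e2a4508.shift 1 1)] (by decide +kernel))
noncomputable def rh6e2edfaf702f3752 : CRef := CRef.mk (Pat.mk 0x60000000c0000000400000000 0x400000004000000070000003f0000003f00000008 7 6) 0 0 (step_sound _ 68 [rh607b03317b81ae8f, (rhf48373e13d2bc128.shift 1 2)] (by decide +kernel))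
noncomputable def rh338f6b4d2d052dbf : CRef := CRef.mk (Pat.mk 0xc0000001800000008000000000000000000000000 0x800000018000000180000007c0000007e0000001f000000180000001800000010 7 7) 0 0 (step_sound _ 133 [rh6d8ab078a5891f1c, (rhf48373e13d2bc128.shift 2 4)] (by decide +kernel))
noncomputable def rh72f51092d690e9f9 : CRef := CRef.mk (Pat.mk 0x4000000040000001c0000000800000000 0xa0000000e0000007c0000007c0000000f00000006 7 7) 0 0 (step_sound _ 34 [rhf5094ad2a427d4d3, (rhfe7f9c5053549bdc.shift 1 0)] (by decide +kernel))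
noncomputable def rhd46a4724c955c894 : CRef := CRef.mk (Pat.mk 0x200000002000000020000000600000000000000000000000000000000 0x40000000600000006000000060000000600000003000000070000000700000004 7 3) 0 0 (step_sound _ 226 [(rh2f68792b6b779e96.shift 1 4), rhb10ebbd9973953c9] (by decide +kernel))
noncomputable def rhc8efd40ac9a212e9 : CRef := CRef.mk (Pat.mk 0x2000000020000000e000000000000000000000000 0x80000001b0000003e0000003f000000380000001800000008 7 6) 0 0 (step_sound _ 132 [(rh2e0bbdf954dd6902.shift 0 1), (rh347ba57bbef2b645.shift 0 1), rh834ef1c974e4840e, (rhb46d57dcd4b22d89.shift 0 3)] (by decide +kernel))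
noncomputable def rhddc9260be37904f8 : CRef := CRef.mk (Pat.mk 0x800000008000000180000001000000000 0x8000001fe000000fe000001f700000004 7 9) 0 0 (step_sound _ 69 [(rh41597e6b25c0e6ff.shift 1 0), (rh961318ea13ca3d27.shift 0 1), (rhae8d21abc86b555a.shift 2 1), (rhf3e2403dd629b811.shift 0 1)] (by decide +kernel))
noncomputable def rh160e8f77b783df1b : CRef := CRef.mk (Pat.mk 0x8000000080000000800000008 0xf4000000ff0000003f0000000800000008 7 8) 0 0 (step_sound _ 100 [(rh2f68792b6b779e96.shift 3 0), rh4e632c6e12b496a9] (by decide +kernel))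
noncomputable def rh8061912efa1cc4ed : CRef := CRef.mk (Pat.mk 0x1000000030000000200000002000000000 0x800000048000001df000000ff000001ef0000002400000004 7 9) 0 0 (step_sound _ 99 [rh485402a8f7f45389, (rh8ee80cc30e93a344.shift 2 2), (rhc92c11e8da6c894f.shift 0 2), (rhcced840e0475f351.shift 2 1)] (by decide +kernel))
noncomputable def rh1cdb478920a28255 : CRef := CRef.mk (Pat.mk 0x2000000060000000c000000000000000000000000 0x80000002f0000007e0000003f000000f80000001000000010 7 8) 0 0 (step_sound _ 100 [rhb130d6efc60af042, (rhf48373e13d2bc128.shift 1 3)] (by decide +kernel))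
noncomputable def rh581c3a3ec9811590 : CRef := CRef.mk (Pat.mk 0xc00000008000000080000000800000000 0x800000018000000180000001f0000003c000000180000000800000008 7 6) 0 0 (step_sound _ 98 [(rh7b1f1fb55310c477.shift 2 0), (rhec1dc87bd3399c22.shift 0 1)] (by decide +kernel))
noncomputable def rh6c235502c1411927 : CRef := CRef.mk (Pat.mk 0x20000000600000004000000040 0x80000003bf000001fe000003de00000040 7 10) 0 0 (step_sound _ 68 [(rh3918eeb6c53434d8.shift 1 1), (rh67ac962fbb7b0944.shift 0 1), (rh8ee80cc30e93a344.shift 3 1), (rhcced840e0475f351.shift 3 0)] (by decide +kernel))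
noncomputable def rhca590abd482844fb : CRef := CRef.mk (Pat.mk 0x1000000030000000000000002000000020 0x40000003fe000001fe000001c7000000e0000000a0 7 10) 0 0 (step_sound _ 102 [rh1f8fbfe0d6dc8c9f, (rh38791ac5737ed75e.shift 3 3), (rh7aa65331d581a723.shift 3 0), (rha91342a0c433cc0e.shift 3 0)] (by decide +kernel))
noncomputable def rh546cc221d30afdfb : CRef := CRef.mk (Pat.mk 0xe000000080000000000000000 0x1000000010000001f3000000fe000000fc0000000800000008 7 9) 0 0 (step_sound _ 100 [(rh3fc3a7fb6866dcd4.shift 1 2), (rhc99ea8e77ef24cf2.shift 0 2), (rhe5ad44e27e846693.shift 1 0), (rhe8ab71c4076c7ec8.shift 1 2), (rhee52be9f89f16e6e.shift 0 2)] (by decide +kernel))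
noncomputable def rh7705883c133055fd : CRef := CRef.mk (Pat.mk 0x380000002000000000 0x800000008000001ce000001fe0000003700000004 7 9) 0 0 (step_sound _ 66 [(rh0de499e0455c9c14.shift 0 1), (rh21460d2d48a35cb8.shift 1 0), (rhfa2c2dabe6624ce9.shift 1 1)] (by decide +kernel))
noncomputable def rh226e22fa8eac3d89 : CRef := CRef.mk (Pat.mk 0x1800000010000000100000001000000000 0x40000000400000006000000fe000000ff0000001f0000001000000010 7 8) 0 0 (step_sound _ 99 [(rh45342aa9fb1b5621.shift 0 2), (rh7b1f1fb55310c477.shift 3 0)] (by decide +kernel))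
noncomputable def rh7ebd44472092bf6d : CRef := CRef.mk (Pat.mk 0x200000002000000020000000200000000 0x10000000700000007000000070000000300000003000000030000000200000002 7 3) 0 0 (step_sound _ 161 [rh0105b2139521f473, (rh1741680720c097b4.shift 0 2), (rha6120682ef1101d2.shift 0 1), (rhe01cfd8f0577defd.shift 0 2)] (by decide +kernel))
noncomputable def rhbdb4f5aabd64b15f : CRef := CRef.mk (Pat.mk 0x1800000008000000080000001800000000 0x78000000ff000000ef0000007800000028 7 8) 0 0 (step_sound _ 100 [rh696d1deec12e3cf4, (rh71222050f2c63a3a.shift 3 0)] (by decide +kernel))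
noncomputable def rhf714be123b65041a : CRef := CRef.mk (Pat.mk 0x800000058000000100000001000000000 0x3000000030000000370000003f00000078000000f00000003c00000028 7 8) 0 0 (step_sound _ 130 [(rh2fe78cc5ca4405d8.shift 2 3), rhfd6313ea64610afd] (by decide +kernel))
noncomputable def rhbd5516641c6da0b1 : CRef := CRef.mk (Pat.mk 0x800000018000000180000000000000000 0x10000000300000003f0000007f0000007e0000006000000020 7 7) 0 0 (step_sound _ 98 [(rh5e850e70df253ad7.shift 0 2), (rh8ede165f0b3b60cc.shift 1 0), (rhad5d8fc3675c15dd.shift 0 2)] (by decide +kernel))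
noncomputable def rhbd3b2856b33d3f67 : CRef := CRef.mk (Pat.mk 0xe00000018000000000000000000000000 0x30000000360000003f0000003e0000001f000000070000000700000002 7 6) 0 0 (step_sound _ 132 [(rh0f9660ef447f8ad9.shift 0 3), (rh32af6e600e16eab8.shift 0 1), rh38944da09e6b0442, (rh9b6c363854efa280.shift 0 1)] (by decide +kernel))
noncomputable def rh3a0eb0e1e2abe5aa : CRef := CRef.mk (Pat.mk 0x60000000c000000000000000800000000 0x40000000c0000003e0000003f000000330000001a00000008 7 6) 0 0 (step_sound _ 100 [rh7ae5c02272e7fd4b, (rhf48373e13d2bc128.shift 1 3)] (by decide +kernel))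
noncomputable def rhd1012d47107b42eb : CRef := CRef.mk (Pat.mk 0x100000001000000030000000200000002000000000 0x10000001dc000000fc000001ef0000007c00000008 7 9) 0 0 (step_sound _ 99 [(rh328e394105afadd4.shift 2 0), rh596def3aae05c2e3, (rh8ee80cc30e93a344.shift 2 2), (rha423bcca7e3161f5.shift 2 0)] (by decide +kernel))
noncomputable def rh0fc8d2ec1286751c : CRef := CRef.mk (Pat.mk 0x80000000800000018000000040000000000000000 0x1000000018000000180000001800000018000000780000000f0000000c00000008 7 7) 0 0 (step_sound _ 67 [(rh932754581e0f4330.shift 2 1), rhb0d453cd63529a54] (by decide +kernel))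
noncomputable def rh92bc8b90a17ff850 : CRef := CRef.mk (Pat.mk 0x10000000100000001c0000000000000000 0x40000000c0000003e000000ff0000007c0000000e00000004 7 8) 0 0 (step_sound _ 98 [(rh92f351e5c2c3dea1.shift 0 1), (rhaa94dcb375d6f8a1.shift 0 2), (rhb7b1662c7b201604.shift 1 0), (rhbbc9ce310ac646aa.shift 1 1)] (by decide +kernel))
noncomputable def rhac344d7ef79b8ac0 : CRef := CRef.mk (Pat.mk 0x10000000000000001e0000000000000000 0x40000000e0000003e000000070000003e0000000c00000004 7 6) 0 0 (step_sound _ 97 [(rh3244c3cc8379b070.shift 0 2), (rhd35185bb7a4d19e3.shift 1 0)] (by decide +kernel))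
noncomputable def rhdfc7bcae9eddbb7b : CRef := CRef.mk (Pat.mk 0x8000000180000000c00000000000000000000000000000000 0x180000001c0000001c0000001c0000001f000000080000000c0000000c00000004 7 5) 0 0 (step_sound _ 129 [(rh53b3c253cb0c65f4.shift 0 4), (rha8b65dd656f170d7.shift 2 0)] (by decide +kernel))
noncomputable def rhc0278892119021a0 : CRef := CRef.mk (Pat.mk 0x4000000000000000e0000000800000008 0x10000000700000017000000330000001e0000003f00000008 7 6) 0 0 (step_sound _ 68 [(rh155fd1d16c429f55.shift 0 1), (rhbbda3e5cf400e6dd.shift 1 0)] (by decide +kernel))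
noncomputable def rh38e7f19f3b3e3503 : CRef := CRef.mk (Pat.mk 0x38000000200000000000000000 0x80000000f0000007e0000003e0000000600000004 7 7) 0 0 (step_sound _ 98 [(rh072e16e08412f058.shift 1 0), (rhaeebc73f5a9c796a.shift 1 2), (rhd1d05263fabc0227.shift 0 2)] (by decide +kernel))
noncomputable def rh791cad744141fa73 : CRef := CRef.mk (Pat.mk 0x18000000700000001000000000000000000000000000000000 0x180000007f000000fe0000003e000000380000003800000008 7 8) 0 0 (step_sound _ 130 [(rh3fa7867e63a3d41d.shift 2 1), rh69cb583660010eff, (rh8bf8257c7eeda352.shift 1 4)] (by decide +kernel))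
noncomputable def rh067dde84e7b794cf : CRef := CRef.mk (Pat.mk 0x1000000030000000200000002000000000 0x1000000050000000df0000007e000001ef0000002800000008 7 9) 0 0 (step_sound _ 164 [(rh2145e1d24b96a57e.shift 4 2), rh2d7c1e817addbf8d] (by decide +kernel))
noncomputable def rh9b1e47dceb3e4903 : CRef := CRef.mk (Pat.mk 0x1800000030000000100000000000000000 0x38000000ff000000ff0000000c0000000c 7 8) 0 0 (step_sound _ 102 [rh7804449b1af1bc81, (rhf48373e13d2bc128.shift 3 3)] (by decide +kernel))
noncomputable def rh5f9f4f3eaef07814 : CRef := CRef.mk (Pat.mk 0x40000000c000000180000000800000000 0x10000000370000001f0000001b0000000f00000006 7 6) 0 0 (step_sound _ 97 [rha3cfaa0f8cb1b948, (rhb739f4f82bb681b4.shift 0 2)] (by decide +kernel))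
noncomputable def rh5cb3ae0b3a3b9228 : CRef := CRef.mk (Pat.mk 0x80000000800000018000000100000001000000000 0x2000000068000001ef000000fe000001f60000003400000020 7 9) 0 0 (step_sound _ 101 [(rh5d54a69ee789ff61.shift 2 0), (rh9c94213f6896c74a.shift 2 2), (rha9fbfd4bb8cf890b.shift 0 3), (rhbb07bccc04294ee7.shift 1 1), (rhc2171142db0c7f2d.shift 2 1)] (by decide +kernel))
noncomputable def rhd73663a4a09f4452 : CRef := CRef.mk (Pat.mk 0x80000000e000000180000000000000000 0x800000018000000ff000000fe0000001b0000000f0000000e 7 8) 0 0 (step_sound _ 100 [(rh34b1188e635efc8d.shift 1 0), (rh6e0b393a3debc4b3.shift 0 2), rhdf88520561cf0839] (by decide +kernel))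
noncomputable def rhfa13f0e952d589d4 : CRef := CRef.mk (Pat.mk 0x4000000060000000c0000000000000000 0xc0000000c0000003e0000003f0000003300000010 7 6) 0 0 (step_sound _ 68 [rhcaf66884d399b0c0, (rhf48373e13d2bc128.shift 1 2)] (by decide +kernel))
noncomputable def rhf7343edccf421b8f : CRef := CRef.mk (Pat.mk 0xc00000018000000080000000000000000 0x2000000130000003f0000001f0000000c0000000c00000008 7 6) 0 0 (step_sound _ 129 [(rhb739f4f82bb681b4.shift 0 3), rhda5478f3b7ce7a55] (by decide +kernel))
noncomputable def rh743e5d044996b0c1 : CRef := CRef.mk (Pat.mk 0x60000000c000000040000000000000000 0x4000000070000003f0000003f0000000800000008 7 6) 0 0 (step_sound _ 100 [rh3cd735b9ebfa223b, (rhf48373e13d2bc128.shift 1 3)] (by decide +kernel))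
noncomputable def rh6ef2d1b733104897 : CRef := CRef.mk (Pat.mk 0xc00000038000000080000000000000000 0x180000001c0000003f0000003f0000007800000038 7 7) 0 0 (step_sound _ 35 [(rh358fe9994268f07a.shift 1 0), (rhc705a4e0321a1bff.shift 2 0), rheebfbcc5d7189c8f] (by decide +kernel))
noncomputable def rh4df689ae6850e166 : CRef := CRef.mk (Pat.mk 0x200000002000000060000000c0000000000000000 0xa0000000b0000003e0000003f0000003300000010 7 6) 0 0 (step_sound _ 68 [rh7d9cbbe4c49a0ab6, (rhf48373e13d2bc128.shift 1 2)] (by decide +kernel))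
noncomputable def rh36ef92f0778bfdee : CRef := CRef.mk (Pat.mk 0x100000001c000000300000000000000000 0x180000003c000000760000007c0000003f0000001f00000018 7 7) 0 0 (step_sound _ 67 [(rh172f21c8ef17e28c.shift 1 0), rh1a738581815cd520, (rh1e309b005ffa1b36.shift 3 0)] (by decide +kernel))
noncomputable def rhf9c71aacbfd11bdb : CRef := CRef.mk (Pat.mk 0x180000000c000000180000000000000000 0x40000000c0000000c0000000f0000007c0000001c000000780000000800000008 7 7) 0 0 (step_sound _ 133 [(rh18965a982d73c794.shift 2 3), rh710dd881f6893385] (by decide +kernel))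
noncomputable def rh5b631fe2a31cefeb : CRef := CRef.mk (Pat.mk 0xc000000060000000c0000000000000000 0x20000000b0000003f0000003e0000003c0000001000000010 7 6) 0 0 (step_sound _ 132 [(rh18965a982d73c794.shift 1 3), rhbc2271f19f28a8c0] (by decide +kernel))
noncomputable def rh7076b752f6b31556 : CRef := CRef.mk (Pat.mk 0x8000000380000000c0000000000000000 0x100000007f0000003f0000007c0000006000000060 7 7) 0 0 (step_sound _ 98 [(rh2456963ff1f7bf23.shift 0 2), (rh4de701cf26499410.shift 1 0), (rh668d1876510a8d45.shift 0 2), (rh915c3ff3d4fe3a39.shift 0 3), (rhb91bd40a584180c1.shift 0 2)] (by decide +kernel))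
noncomputable def rhe28acd267afcb80c : CRef := CRef.mk (Pat.mk 0x10000000300000001c00000000 0x6000000060000007e0000003f000001fc000001ce 7 9) 0 0 (step_sound _ 66 [(rh7e32ddfd4b7eca27.shift 1 0), (rhaa94dcb375d6f8a1.shift 0 1), (rhcfc85bdd18a9e4f0.shift 1 0)] (by decide +kernel))
noncomputable def rhd82074e6a33c7816 : CRef := CRef.mk (Pat.mk 0x800000008000000180000001000000010 0x200000007c000001ef000000fe000001f000000010 7 9) 0 0 (step_sound _ 69 [(rh9c94213f6896c74a.shift 2 1), (rha9fbfd4bb8cf890b.shift 0 2), (rhb97338e6ebc23a89.shift 1 0)] (by decide +kernel))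
noncomputable def rhbdf31c357499da4e : CRef := CRef.mk (Pat.mk 0x4000000040000000e00000008 0x180000003c000000ff0000007e00000078 7 8) 0 0 (step_sound _ 36 [rh0bec3ab09a0728dc, (rhe3060b190bc0bc78.shift 0 1), (rhf5fa5e48e0784de2.shift 1 0)] (by decide +kernel))
noncomputable def rh3afd7ee550f71b46 : CRef := CRef.mk (Pat.mk 0x2000000030000000e00000000 0x6000000060000001e0000001f0000000f0000000a 7 5) 0 0 (step_sound _ 129 [rh0247462e5ca63cb5, rh11d02f370d4be166, (rh85a605aac6183f28.shift 0 1)] (by decide +kernel))
noncomputable def rh2cc9c0da37f3da48 : CRef := CRef.mk (Pat.mk 0x400000002000000020000000e000000000000000000000000 0x40000001f0000007a0000001f0000003a0000000800000008 7 7) 0 0 (step_sound _ 162 [rh57963c755200c2d1, (rh71222050f2c63a3a.shift 1 2)] (by decide +kernel))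
noncomputable def rh111949cbede04bd3 : CRef := CRef.mk (Pat.mk 0x1000000010000000100000001000000000 0x1000000010000000ff000000fe0000002f 7 8) 0 0 (step_sound _ 35 [rh0b4aa3cd27fc4e16, (rh932754581e0f4330.shift 3 0)] (by decide +kernel))
noncomputable def rhfb4d857494a237da : CRef := CRef.mk (Pat.mk 0x100000003800000000 0x3f7000001fe000001c7 7 10) 0 0 (step_sound _ 38 [(rh3fc3a7fb6866dcd4.shift 3 0), rh988dac8d009f9f77, (rhe755d80139a0ae3f.shift 1 0), (rhf5fa5e48e0784de2.shift 3 0)] (by decide +kernel))
noncomputable def rhbc4686197fbb01d0 : CRef := CRef.mk (Pat.mk 0x20000000e000000040000000400000000 0xc0000000c0000000e0000003e0000003f0000000f00000003 7 6) 0 0 (step_sound _ 130 [(rh7ab09f375cd5d482.shift 2 1), rhbd043f62ea040647, rhf51e317c65ac025f] (by decide +kernel))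
noncomputable def rhaf28026d88225b9c : CRef := CRef.mk (Pat.mk 0x40000001c000000080000000800000000 0x180000001a0000001f0000001c0000003c0000001f00000006 7 6) 0 0 (step_sound _ 131 [rh15ce27dd2fb2db1e, (rh7ab09f375cd5d482.shift 3 1), (rhdf78c869cb679a1a.shift 2 0)] (by decide +kernel))
noncomputable def rhbefa1f29380f2fd4 : CRef := CRef.mk (Pat.mk 0x1c00000006000000040000000000000000 0x2000000170000001e000000360000003c0000000c0000000c 7 6) 0 0 (step_sound _ 129 [(rh309fd0c3d364cd61.shift 0 2), (rhd59f2f34b017c24b.shift 1 0)] (by decide +kernel))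
noncomputable def rha77b798e55a5f7bb : CRef := CRef.mk (Pat.mk 0x80000000c000000040000000400000000 0x60000000600000006000001df000000fc000000ef0000003c00000018 7 9) 0 0 (step_sound _ 100 [(rh04048a4a2acf2c94.shift 1 2), rh3b545fc8430e3234, (rh9fb657e6481dfcdc.shift 1 2), rha955033d1e583bd1] (by decide +kernel))
noncomputable def rhea33a791b46a631d : CRef := CRef.mk (Pat.mk 0x1000000010000000100000001800000000 0x200000003000000010000003f7000001fe000001e7 7 10) 0 0 (step_sound _ 37 [rh26f88b7b405dcf4c, (rh55afc6a59410cf00.shift 4 0)] (by decide +kernel))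
noncomputable def rh7427973844ea407d : CRef := CRef.mk (Pat.mk 0xc00000008000000080000000800000000 0x100000001800000018000000180000001f0000003c000000180000001c00000004 7 6) 0 0 (step_sound _ 34 [(rh932754581e0f4330.shift 2 0), (rhaa82b76a1712bdcc.shift 0 1)] (by decide +kernel))
noncomputable def rhb94686d3eaf23fad : CRef := CRef.mk (Pat.mk 0x1000000020000000200000002000000000000000000000000 0x300000003000000070000000600000006000000030000000300000003 7 3) 0 0 (step_sound _ 193 [(rh50fbb5868c909700.shift 0 3), rhfdb9c88e61426ec0] (by decide +kernel))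
noncomputable def rhd88fd96bf3a646a9 : CRef := CRef.mk (Pat.mk 0x200000002000000060000000400000004000000000 0x280000003f000001fe000000df000000f800000010 7 9) 0 0 (step_sound _ 100 [(rh33aeb546d8a8e1f5.shift 1 0), (rh5a1dc4f1ba2ce0d6.shift 0 2), (rhae043b7040a09eba.shift 0 2), (rhc1d728d83582478c.shift 2 0), (rhc92c11e8da6c894f.shift 1 2)] (by decide +kernel))
noncomputable def rh6b6f1f9b8caeb2f6 : CRef := CRef.mk (Pat.mk 0x80000000c000000180000001000000000 0x6000000060000000e0000000f0000001f0000003f0000000e 7 6) 0 0 (step_sound _ 97 [rhad30a11ef90f95bd, (rhb739f4f82bb681b4.shift 0 2)] (by decide +kernel))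
noncomputable def rhbcdade04f3acf4e5 : CRef := CRef.mk (Pat.mk 0x200000000000000060000000400000000000000000 0xb0000000b0000001df000001fe000000ff0000004800000040 7 9) 0 0 (step_sound _ 100 [(rh36ea2c6f5930e060.shift 3 0), (rh799bcd04cdf8ef40.shift 2 1), (rhc59ba9a1f24cb412.shift 0 2)] (by decide +kernel))
noncomputable def rhd1cd2c50783232ae : CRef := CRef.mk (Pat.mk 0x2000000020000000600000002000000000000000000000000 0x300000003000000070000001f000000070000000300000002 7 5) 0 0 (step_sound _ 98 [rh29a95aab344a5b9e, (rh55afc6a59410cf00.shift 1 2)] (by decide +kernel))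
noncomputable def rh5b884e02cc7e2faf : CRef := CRef.mk (Pat.mk 0x800000004000000040000000c000000000000000000000000 0x80000000e000000070000003e000000070000000600000004 7 6) 0 0 (step_sound _ 66 [rh4c837ed004ede88c, (rhbaefcd01e0a8bca3.shift 2 2)] (by decide +kernel))
noncomputable def rh81704fc5f23c6115 : CRef := CRef.mk (Pat.mk 0x18000000100000001000000010 0x400000004000000270000007f0000003e0000001800000010 7 7) 0 0 (step_sound _ 101 [(rh2f68792b6b779e96.shift 4 0), (rhaec9c184ac493f0c.shift 0 1)] (by decide +kernel))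
noncomputable def rh7d84574a082a395d : CRef := CRef.mk (Pat.mk 0x800000008000000080000001800000000 0x80000000800000018000000380000001f0000001c0000001800000008 7 6) 0 0 (step_sound _ 163 [rh77da9c3856ab2233, (rhd3458b32566d63f7.shift 3 1)] (by decide +kernel))
noncomputable def rh2505a2abd3e2b4e3 : CRef := CRef.mk (Pat.mk 0x1000000030000000100000002000000020 0x80000000c000000fe000000ff000000de0000006000000020 7 8) 0 0 (step_sound _ 102 [(rh2820ca9a6c4f41b4.shift 1 2), rh32493244f48256a0, (rha7edc60fc34bffff.shift 2 3), (rhd9106766b9ff53c0.shift 3 2)] (by decide +kernel))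
noncomputable def rh6af612a4d2df2512 : CRef := CRef.mk (Pat.mk 0x800000008000000080000000800000000 0x170000003f0000003f0000000c0000000c00000004 7 6) 0 0 (step_sound _ 132 [(rh2f68792b6b779e96.shift 3 1), rha680c62a058f2810] (by decide +kernel))
noncomputable def rhbac37b2dca3add66 : CRef := CRef.mk (Pat.mk 0x20000000e000000000000000400000004 0x10000000300000003f0000003f000000080000000c00000004 7 6) 0 0 (step_sound _ 100 [(rh3244c3cc8379b070.shift 0 3), rhf115ea59f760a714] (by decide +kernel))
noncomputable def rh7150b666d0193d36 : CRef := CRef.mk (Pat.mk 0x2000000020000000200000001 0x500000007000000070000000200000002000000060000000700000005 7 3) 0 0 (step_sound _ 129 [rh79877ebd3ef475dd, rha087c6594f4bfb59] (by decide +kernel))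
noncomputable def rha61a6e1c32afbe8a : CRef := CRef.mk (Pat.mk 0x800000008000000080000001800000000 0x100000001800000018000001df000000ff000000e4 7 9) 0 0 (step_sound _ 34 [rh8b4016ff0d4ef6e2, (rh932754581e0f4330.shift 2 0)] (by decide +kernel))
noncomputable def rh16b1e2f54ae75e88 : CRef := CRef.mk (Pat.mk 0x40000000d000000080 0x67000000fe000001c7 7 9) 0 0 (step_sound _ 37 [rh459539c88f7c5ecc, (rhe25b0a99195a5d59.shift 4 0)] (by decide +kernel))
noncomputable def rhe547c613c3850225 : CRef := CRef.mk (Pat.mk 0x8000000080000001a0000001000000000 0x40000000c0000000f0000003e0000003700000006 7 6) 0 0 (step_sound _ 66 [rh9c13babeb0f1676a, (rhe25b0a99195a5d59.shift 1 1)] (by decide +kernel))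
noncomputable def rhc6a323ff64d607a1 : CRef := CRef.mk (Pat.mk 0x80000000000000018000000100000001000000000 0xc0000000e0000007f0000003f0000003800000008 7 7) 0 0 (step_sound _ 67 [(rh6f1cbe15c631ee70.shift 3 1), rhf210d8573d0593dd] (by decide +kernel))
noncomputable def rh44fa075451721cfa : CRef := CRef.mk (Pat.mk 0x70000000400000000000000000 0x10000000100000001f000003fe0000007f0000000c00000008 7 10) 0 0 (step_sound _ 99 [(rh072e16e08412f058.shift 2 0), (rh3cc3e986d9471888.shift 2 1), (rh3e7e8b6d9c6d8299.shift 2 2), (rh88c620441a3a17ea.shift 0 2)] (by decide +kernel))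
noncomputable def rh86fc0ba6c8454a8a : CRef := CRef.mk (Pat.mk 0x300000002000000020 0x800000048000000df000003fe000001f700000024 7 10) 0 0 (step_sound _ 67 [(rh3ba2d86ff0e7efeb.shift 2 0), rh5d22706b51ff8465, (rh8ee80cc30e93a344.shift 2 1), (rhf530834c0c5f3ed9.shift 0 1)] (by decide +kernel))
noncomputable def rhc567fbe07c121a9d : CRef := CRef.mk (Pat.mk 0x60000000c00000004000000000000000000000000 0x400000004000000060000003c0000007f0000007f0000000200000002 7 7) 0 0 (step_sound _ 132 [rhd517d889eb9fd6bf, (rhf48373e13d2bc128.shift 1 4)] (by decide +kernel))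
noncomputable def rh67f38f9187ef04e9 : CRef := CRef.mk (Pat.mk 0x100000001000000030000000000000000000000000 0x10000001d8000000fc000001ff0000000800000008 7 9) 0 0 (step_sound _ 67 [(rh2f58de0fa47de9af.shift 1 1), (rh3743dbe66b959104.shift 3 0), (rh59fb10644bb918ac.shift 0 2), (rhb9b1d3af12922f73.shift 1 1), (rhec0013b7af202f19.shift 2 0)] (by decide +kernel))
noncomputable def rh7f6413caf818781b : CRef := CRef.mk (Pat.mk 0x200000002000000020000000200000000000000000000000000000000 0x20000000200000003000000030000000300000007000000070000000700000001 7 3) 0 0 (step_sound _ 97 [(rh379aa2230ca57fc6.shift 0 1), (rh6eff4158bb400f47.shift 0 1), (rh7928877f9bf74a91.shift 0 2), rhe84e00c98653ad0c] (by decide +kernel))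
noncomputable def rh1aae463c0f027cdf : CRef := CRef.mk (Pat.mk 0x60000001c00000004000000000000000000000000 0x1c0000001c0000001e0000001e0000001f0000007c0000001c00000004 7 7) 0 0 (step_sound _ 99 [(rh55a1f6c57a317ce6.shift 2 1), (rhabb1e3b045fa2726.shift 0 1), rhe279620e6a9ed39c] (by decide +kernel))
noncomputable def rhf603d2215944b818 : CRef := CRef.mk (Pat.mk 0x1800000010000000100000001000000000 0x270000007e000000ff000000100000001800000008 7 8) 0 0 (step_sound _ 133 [(rh2f68792b6b779e96.shift 4 1), rhac20aaa4d647b684] (by decide +kernel))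
noncomputable def rh3df1300477dfdfa2 : CRef := CRef.mk (Pat.mk 0x100000001000000030000000200000000000000000 0x10000001f8000000fe000001ef0000000800000008 7 9) 0 0 (step_sound _ 99 [(rh3ce854f4a795c89f.shift 1 2), (rh54a013cfd164c951.shift 2 0), rh596def3aae05c2e3] (by decide +kernel))
noncomputable def rhaed90a5ffb367bd2 : CRef := CRef.mk (Pat.mk 0x100000001000000030000000200000002000000000 0x100000001f000000fe000001ef0000007c00000008 7 9) 0 0 (step_sound _ 99 [rh36b8148486524bc5, (rh8ee80cc30e93a344.shift 2 2), (rhc92c11e8da6c894f.shift 0 2)] (by decide +kernel))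
noncomputable def rh42fe842a1215a058 : CRef := CRef.mk (Pat.mk 0xc00000018000000100000001000000000 0x100000001f00000038000000f00000003c00000028 7 8) 0 0 (step_sound _ 129 [(rh7b3b4e4ba01673eb.shift 1 0), (rhb739f4f82bb681b4.shift 0 3)] (by decide +kernel))
noncomputable def rhcf8065e90798a8d1 : CRef := CRef.mk (Pat.mk 0xc00000018000000100000001000000000 0x17000000ff0000001f000000f00000003c00000028 7 8) 0 0 (step_sound _ 129 [(rhb739f4f82bb681b4.shift 0 3), rhe783085795bc0c6b] (by decide +kernel))
noncomputable def rh9a4f660178e19811 : CRef := CRef.mk (Pat.mk 0x1800000030000000200000002000000000 0x38000000ff000000ee0000003c0000000c 7 8) 0 0 (step_sound _ 102 [rha123fe906470e0b5, (rhf48373e13d2bc128.shift 3 3)] (by decide +kernel))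
noncomputable def rhbbea8936d488b36a : CRef := CRef.mk (Pat.mk 0x40000001c00000004000000000000000000000000 0x400000004000000040000001c0000007f0000007f0000000200000002 7 7) 0 0 (step_sound _ 99 [(rh3e595262c1b737ad.shift 2 2), rh93e23e031ad132ca] (by decide +kernel))
noncomputable def rhbef49aa9bef89bea : CRef := CRef.mk (Pat.mk 0xe00000018000000080000000000000000 0x2000000020000001b0000003e0000001f0000000c0000000c0000000c 7 6) 0 0 (step_sound _ 35 [(rh043714561e53de0f.shift 0 1), (rh94aabd5f8d8b05fe.shift 1 0), (rha707fb719e87fe6e.shift 3 0)] (by decide +kernel))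
noncomputable def rhb318c6dd51a333f6 : CRef := CRef.mk (Pat.mk 0x10000000100000001e0000000000000000 0x6000000370000001f0000001e0000000700000006 7 6) 0 0 (step_sound _ 97 [(rh3244c3cc8379b070.shift 0 2), rhc576e8f65b1341c8] (by decide +kernel))
noncomputable def rh5c44751cac04307e : CRef := CRef.mk (Pat.mk 0x8000000080000001e00000000000000000000000000000000 0xa0000000f0000001e00000007000000070000000700000005 7 5) 0 0 (step_sound _ 161 [(rh3244c3cc8379b070.shift 0 4), rh94cfe30bf5752a56] (by decide +kernel))
noncomputable def rh36bf0c4b0383640d : CRef := CRef.mk (Pat.mk 0x40000001c0000000400000000 0x1c0000007c0000001f0000001c0000000c0000000c 7 7) 0 0 (step_sound _ 131 [rh1dc8c3d09eeb68d4, (rh4dec404a6c0e229a.shift 2 0), (rh5fcbac5b57173fc5.shift 2 0)] (by decide +kernel))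
noncomputable def rhfe6bd397ccc50b11 : CRef := CRef.mk (Pat.mk 0x8000000180000000c0000000000000000 0x800000018000000380000001f0000003f0000001800000008 7 6) 0 0 (step_sound _ 65 [rh4a258672ccea55b2, (rh53b3c253cb0c65f4.shift 0 2)] (by decide +kernel))
noncomputable def rh43e55c63d6e688f3 : CRef := CRef.mk (Pat.mk 0x8000000180000000c00000000 0x100000001c0000001c0000000c0000001f000000780000001c00000018 7 7) 0 0 (step_sound _ 69 [(rh18965a982d73c794.shift 2 1), rh9a6a19bced667b13] (by decide +kernel))
noncomputable def rh36de6e892d292102 : CRef := CRef.mk (Pat.mk 0x8000000180000000c0000000000000000 0x80000000c0000000c0000001f0000003f0000001300000002 7 6) 0 0 (step_sound _ 65 [rh134e9789cdabd4e6, (rh53b3c253cb0c65f4.shift 0 2)] (by decide +kernel))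
noncomputable def rh0778b4755056d669 : CRef := CRef.mk (Pat.mk 0xc00000038000000080000000000000000 0x18000000180000001c0000003f0000003f0000001800000008 7 6) 0 0 (step_sound _ 164 [(rh4dec404a6c0e229a.shift 3 1), rh5ac9b8a0acfcd6c0, (rh5fcbac5b57173fc5.shift 3 1)] (by decide +kernel))
noncomputable def rh0cbd384b4d417b56 : CRef := CRef.mk (Pat.mk 0x200000003000000020000000200000000 0x10000000700000007000000070000000300000003000000020000000300000001 7 3) 0 0 (step_sound _ 32 [rh932754581e0f4330, (rhd91b73d7ee353e95.shift 0 1)] (by decide +kernel))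
noncomputable def rh7915d2cf3222415c : CRef := CRef.mk (Pat.mk 0x80000000c00000008000000080000000000000000 0x80000000c0000001f0000007c0000001c0000000c 7 7) 0 0 (step_sound _ 34 [(rh79877ebd3ef475dd.shift 2 1), rha5daa9049e60d222] (by decide +kernel))
noncomputable def rh5f38c77c60d10f99 : CRef := CRef.mk (Pat.mk 0x8000000080000000800000000 0x140000001c0000001f000000380000000f0000003c0000001c 7 6) 0 0 (step_sound _ 131 [rh0c93e028432a0cb3, (rh1741680720c097b4.shift 2 1), rh69d74edc6ed8b1cb] (by decide +kernel))
noncomputable def rh595c05e439928412 : CRef := CRef.mk (Pat.mk 0xc00000004000000040000000400000000 0x140000003c0000000f0000000e0000007c00000018 7 7) 0 0 (step_sound _ 35 [rh33c5ef29598e2a2d, (rh55afc6a59410cf00.shift 2 0)] (by decide +kernel))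
noncomputable def rh48909e19f358d85b : CRef := CRef.mk (Pat.mk 0x800000004000000040000000400000000 0xe0000003e000000070000000c0000000c0000000c 7 6) 0 0 (step_sound _ 130 [(rh2f68792b6b779e96.shift 2 1), rhe0e49ae993f3735d] (by decide +kernel))
noncomputable def rh92b1d70824afaf0c : CRef := CRef.mk (Pat.mk 0x3800000010000000100000001000000000 0x70000007e0000001e000000fc0000003e0000000f 7 8) 0 0 (step_sound _ 35 [rh2b06e87926b2bbd3, (rh932754581e0f4330.shift 3 0)] (by decide +kernel))
noncomputable def rh71df4ed6f0445e6a : CRef := CRef.mk (Pat.mk 0x20000000300000001000000010 0x2800000028000001ef0000007e000000df00000050 7 9) 0 0 (step_sound _ 133 [(rh5c5e593799055d58.shift 4 1), rhbbdccefba4a3e34a] (by decide +kernel))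
noncomputable def rhebdf5ac9e90a55a4 : CRef := CRef.mk (Pat.mk 0x10000000180000000c00000008 0x20000000300000001f000000ff0000007f 7 8) 0 0 (step_sound _ 33 [rh2910559d50ed1943, (rh53b3c253cb0c65f4.shift 0 1)] (by decide +kernel))
noncomputable def rh23b6f2b60a2fd9b7 : CRef := CRef.mk (Pat.mk 0x10000000180000000c0000000800000000 0x4000000370000003f0000007c0000007800000020 7 7) 0 0 (step_sound _ 98 [(rh0ef477213ce910d0.shift 0 2), (rh14b8f82f7813ef46.shift 1 0), (rh3a90c00cc9547fea.shift 0 1)] (by decide +kernel))
noncomputable def rhf96e0540a04717ba : CRef := CRef.mk (Pat.mk 0x180000000c00000000 0x38000000ff000000e7 7 8) 0 0 (step_sound _ 33 [(rh53b3c253cb0c65f4.shift 0 1), rhb72fb263fa9dc0ad] (by decide +kernel))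
noncomputable def rh0429b4a798ca25be : CRef := CRef.mk (Pat.mk 0x1800000008000000080000001800000000 0x40000003f0000007f0000003f000000f800000020 7 8) 0 0 (step_sound _ 130 [rh499e45f1ceb07e87, (rh50fbb5868c909700.shift 2 1)] (by decide +kernel))
noncomputable def rhbc05030a34536bc7 : CRef := CRef.mk (Pat.mk 0x200000002000000020000000000000004 0x400000007000000070000000300000003000000030000000700000004 7 3) 0 0 (step_sound _ 33 [(rh1f25b33bbea643f0.shift 0 1), (rhd3458b32566d63f7.shift 1 0)] (by decide +kernel))
noncomputable def rha3c0629b1c215306 : CRef := CRef.mk (Pat.mk 0x2000000020000000200000004 0x400000007000000070000000300000003000000030000000700000004 7 3) 0 0 (step_sound _ 129 [(rh1f25b33bbea643f0.shift 0 1), (rhd3458b32566d63f7.shift 1 0)] (by decide +kernel))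
noncomputable def rh8ae8c57f43eb5c7c : CRef := CRef.mk (Pat.mk 0x8000000080000000800000008 0x1800000018000000180000007c0000001f0000000c 7 7) 0 0 (step_sound _ 132 [rh18e24faf7ee9b091, (rhbaefcd01e0a8bca3.shift 3 0)] (by decide +kernel))
noncomputable def rh8b7c418d67462b0c : CRef := CRef.mk (Pat.mk 0x800000038000000000000001000000000 0x10000000100000007f0000003e000000670000003000000030 7 7) 0 0 (step_sound _ 129 [(rh075211c3608a5a57.shift 0 3), (rh4b858afe2cb38247.shift 1 3), rhc2bb0b9eccbdeda1, (rhc30259bd62f0e380.shift 0 3)] (by decide +kernel))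
noncomputable def rhb4af1319568adbee : CRef := CRef.mk (Pat.mk 0x400000004000000080000000800000000 0x180000001c0000001c0000003c0000000f0000000f0000003c00000014 7 6) 0 0 (step_sound _ 99 [rh870b22be4fb0fac9, (rhc89253ff58c66167.shift 2 1), (rhe072fffdd2fccf38.shift 2 1)] (by decide +kernel))
noncomputable def rh92f48c6441d1cfca : CRef := CRef.mk (Pat.mk 0x8000000080000001000000010000000000000000000000000 0xc0000000c0000000f0000007c0000001e0000000c0000000c0000000c 7 7) 0 0 (step_sound _ 131 [rh10033a9518ee3244, (rh2145e1d24b96a57e.shift 3 3)] (by decide +kernel))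
noncomputable def rhe446f80dbedb1d47 : CRef := CRef.mk (Pat.mk 0x800000008000000080000000800000000 0x800000008000000ff0000007f000000f4 7 8) 0 0 (step_sound _ 36 [rh4cf0b791fb7b89ac, (rh55afc6a59410cf00.shift 3 0)] (by decide +kernel))
noncomputable def rha93e9a4013aee350 : CRef := CRef.mk (Pat.mk 0x80000000800000008000000080000000000000000 0x180000007c0000001f0000000c0000000c0000000c 7 7) 0 0 (step_sound _ 34 [rh5f8d49a519adbf2c, (rh79877ebd3ef475dd.shift 2 1)] (by decide +kernel))
noncomputable def rh01adbe7485cd5318 : CRef := CRef.mk (Pat.mk 0x200000002000000020000000200000000000000000000000000000000 0x600000007000000070000000700000006000000070000000300000001 7 3) 0 0 (step_sound _ 98 [rh8c3e1d7fb31dfd2c, (rhd3458b32566d63f7.shift 1 3)] (by decide +kernel))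
noncomputable def rhc7b433a2f902820f : CRef := CRef.mk (Pat.mk 0x100000003000000028 0x37000003fe000007ef 7 11) 0 0 (step_sound _ 35 [rh2820ca9a6c4f41b4, rh3918eeb6c53434d8, rh39ee55465d7f1610, (rha4fcb30e347b0290.shift 2 0)] (by decide +kernel))
noncomputable def rhd8d94239e1cff449 : CRef := CRef.mk (Pat.mk 0x1000000018000000300000002000000000 0x4000000040000000c0000002f0000007c0000001e0000003c0000007400000010 7 7) 0 0 (step_sound _ 98 [rh3cc10f9d4c8c11b4, (rhb739f4f82bb681b4.shift 1 2)] (by decide +kernel))
noncomputable def rhc6448efa7e68cded : CRef := CRef.mk (Pat.mk 0x2000000030000000600000004000000000000000000000000 0x1d0000001f000000070000001f00000006000000020000000200000002 7 5) 0 0 (step_sound _ 131 [(rhf48373e13d2bc128.shift 0 4), rhf67249db61dfcd64] (by decide +kernel))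
noncomputable def rhc204e9a9c0b5d4f0 : CRef := CRef.mk (Pat.mk 0x800000008000000180000001800000000 0x40000000c0000000c0000001f0000003f0000000e 7 6) 0 0 (step_sound _ 34 [rh2bd979fbdfd273f6, (rh932754581e0f4330.shift 2 0)] (by decide +kernel))
noncomputable def rhb5432da3ba4f8d3f : CRef := CRef.mk (Pat.mk 0x800000008000000180000001800000000 0x1000000018000000180000001f0000003f00000064 7 7) 0 0 (step_sound _ 132 [(rh2f68792b6b779e96.shift 3 1), rhdee681954dc75c33] (by decide +kernel))
noncomputable def rh996838947ddc7620 : CRef := CRef.mk (Pat.mk 0x800000000000000180000001000000000 0x1c0000003c0000000f000000780000001e0000000c 7 7) 0 0 (step_sound _ 99 [(rh2145e1d24b96a57e.shift 3 1), rh5c6aacd602b1d8ac] (by decide +kernel))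
noncomputable def rh239040a51b3b8c81 : CRef := CRef.mk (Pat.mk 0x2000000060000000000000006000000040 0x1ff000001fc000001fe0000001e000000f8000003d0 7 10) 0 0 (step_sound _ 132 [(rh2aabb6e508d653bb.shift 1 0), (rh3c3e23a02e82b2ed.shift 2 3), rh96385da6da08f0d2, (rhb0121edee88fe839.shift 2 3), (rhf4c158652ae61942.shift 2 3)] (by decide +kernel))
noncomputable def rh17672965ea3ef50a : CRef := CRef.mk (Pat.mk 0x60000000c000000000000000000000000 0x40000003e0000003f0000003b0000000200000002 7 6) 0 0 (step_sound _ 100 [rhe19a0e82cf571170, (rhf48373e13d2bc128.shift 1 3)] (by decide +kernel))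
noncomputable def rhfc1a85f7e7233e10 : CRef := CRef.mk (Pat.mk 0x4000000000000000e00000018000000000000000000000000 0xc0000000f000000fe0000001f000000370000001700000005 7 8) 0 0 (step_sound _ 132 [(rh391f4472eb57537b.shift 0 1), (rh412d230494194d0a.shift 0 3), rhc4b60f32b89c93a6] (by decide +kernel))
noncomputable def rhe16a30a243f74fe0 : CRef := CRef.mk (Pat.mk 0x100000000000000038000000600000000000000000 0x10000000140000001c0000007c0000002f000000f80000007c000000dc00000050 7 8) 0 0 (step_sound _ 131 [rh2927c9fbdf4e86e4, (rh6dcf9225a2e4d660.shift 2 0), (rh9eec19ff159bead1.shift 2 0), (rhae0e887bcb4a7906.shift 0 1), (rhc3976272001683df.shift 2 2)] (by decide +kernel))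
noncomputable def rhd693581cba73ffdb : CRef := CRef.mk (Pat.mk 0x800000000000000180000001000000000 0x1c0000007c0000001f0000007c0000001e0000000c 7 7) 0 0 (step_sound _ 99 [(rh2145e1d24b96a57e.shift 3 1), rh7d39efbeb939022d] (by decide +kernel))
noncomputable def rh4266eed522820b26 : CRef := CRef.mk (Pat.mk 0x2000000000000000400000004000000000000000000000000 0x20000000600000006000000060000003c0000000f0000000e0000000e0000000a 7 6) 0 0 (step_sound _ 162 [(rh114f4abf4ea101c9.shift 1 2), (rh87919bd563354cbc.shift 0 2), (rhc05d451ce3dd5e48.shift 1 0)] (by decide +kernel))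
noncomputable def rhf8b3c28fba479658 : CRef := CRef.mk (Pat.mk 0x2000000070000000000000000000000000 0x10000003bf000001fe0000038e0000000800000008 7 10) 0 0 (step_sound _ 99 [(rh1f9701c4cf497514.shift 0 2), (rh394e80a462af5b2f.shift 2 2), (rh592c7139d2c44767.shift 1 2), (rh6076add87d5fdaa7.shift 2 0), (rhec0f150ffdda098a.shift 1 2)] (by decide +kernel))
noncomputable def rhe33b7674ca8bb6b5 : CRef := CRef.mk (Pat.mk 0x18000000180000001000000000 0x4000000060000007e000000ff000000f800000008 7 8) 0 0 (step_sound _ 66 [(rh38f7b381e26610a2.shift 1 0), (rhab2ad169e49f9c5e.shift 0 2), (rhf56e6bc5d2f7fe77.shift 0 1)] (by decide +kernel))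
noncomputable def rhcf56966b824d1c9a : CRef := CRef.mk (Pat.mk 0x100000007000000020 0x1000000010000003d7000003fe00000770 7 11) 0 0 (step_sound _ 132 [(rh6f1cbe15c631ee70.shift 4 0), rha78b846106e42080] (by decide +kernel))
noncomputable def rh58f17fde6a07f1e6 : CRef := CRef.mk (Pat.mk 0x20000000f00000000000000000000000000000000 0x20000000a0000001e0000000f0000001c0000001c0000001c00000010 7 5) 0 0 (step_sound _ 163 [(rh33e738c4ed385b9f.shift 0 4), rh470aa88d9d80d21c] (by decide +kernel))
noncomputable def rh2e6867f189b05df4 : CRef := CRef.mk (Pat.mk 0x100000001000000030000000200000000000000000 0x10000001df000000ff000001ef0000000800000008 7 9) 0 0 (step_sound _ 99 [rh7e2bec390ca584ed, (rh8ee80cc30e93a344.shift 2 2), (rhab0175585b4b9e7c.shift 2 1), (rhc11d0f641d3e9ac0.shift 0 2), (rhc92c11e8da6c894f.shift 0 2)] (by decide +kernel))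
noncomputable def rh5b112448f4a6fa90 : CRef := CRef.mk (Pat.mk 0x8000000180000001000000010 0x20000000200000007f0000003f000000f700000010 7 8) 0 0 (step_sound _ 66 [(rh3ce854f4a795c89f.shift 0 1), (rh4173edafc27ebb95.shift 2 0), (rh8ee80cc30e93a344.shift 1 1), rhc711bfeed65d29e7] (by decide +kernel))
noncomputable def rhd628dd9207afe4d3 : CRef := CRef.mk (Pat.mk 0x40000000c000000020000000000000000 0x10000000360000003f0000003f0000000800000008 7 6) 0 0 (step_sound _ 100 [(rh7b030ba967bf927e.shift 1 2), rhb37864c0725bf711] (by decide +kernel))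
noncomputable def rh00319bb531489f5f : CRef := CRef.mk (Pat.mk 0x4000000040000000c000000020000000000000000 0x14000000370000003f0000003b0000000a0000000a 7 6) 0 0 (step_sound _ 97 [(rha83d0a1d851c6a27.shift 0 2), rhc9e4cc1d7b554c71, (rhf9af042da61fc652.shift 1 0)] (by decide +kernel))
noncomputable def rhfa4ef3fe105e39c1 : CRef := CRef.mk (Pat.mk 0x40000000000000008000000180000000000000000000000000000000000000000 0x100000001c0000001c0000000800000018000000780000001f0000001c0000001c0000001c00000010 7 7) 0 0 (step_sound _ 227 [(rh42c8ae686d713d97.shift 2 5), (rh6196b452c518de56.shift 2 4), rh9f211130ab0b7e10] (by decide +kernel))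
noncomputable def rhf01d2e9891c4849a : CRef := CRef.mk (Pat.mk 0x40000001e000000000000000000000000 0x10000000370000001e0000003f0000000b0000000b 7 6) 0 0 (step_sound _ 129 [(rh3244c3cc8379b070.shift 0 3), rhc0bd1c20ed1b87f9] (by decide +kernel))
noncomputable def rhee29a10c36f9d394 : CRef := CRef.mk (Pat.mk 0x800000008000000180000000800000000 0x8000000080000001f000000ff000000f4 7 8) 0 0 (step_sound _ 36 [(rh55afc6a59410cf00.shift 3 0), rh8a2a2bc5ffd9a184] (by decide +kernel))
noncomputable def rhc0f7b17634ab4e3c : CRef := CRef.mk (Pat.mk 0x4000000040000000c00000004000000000000000000000000 0x40000000e0000000f0000003e000000060000000600000004 7 6) 0 0 (step_sound _ 65 [(rh79877ebd3ef475dd.shift 1 2), rha9e6e7f699126aa5] (by decide +kernel))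
noncomputable def rh1026fa85fc3f8ea4 : CRef := CRef.mk (Pat.mk 0x200000000000000018000000c00000000000000000 0x10000000380000007c0000001f00000018000000f80000007800000038 7 8) 0 0 (step_sound _ 68 [(rh5419adcd928dba20.shift 3 2), rh90b4519e2bc1e805] (by decide +kernel))
noncomputable def rh1b5538303dde4040 : CRef := CRef.mk (Pat.mk 0xa00000018000000000000000000000000 0x80000000a000000fb0000007f000000ef0000000400000004 7 8) 0 0 (step_sound _ 98 [(rhd0ed6ce702d0de55.shift 0 3), (rhe5509b1c13eac54a.shift 1 0), rhea212a187e58a08e] (by decide +kernel))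
noncomputable def rhc7141a29bc12a821 : CRef := CRef.mk (Pat.mk 0x8000000080000001800000000000000100000000000000000 0x80000001c0000007c0000000f0000001c0000001c0000000c 7 7) 0 0 (step_sound _ 99 [(rh5b6574fdb121ea51.shift 0 1), rh7bf00c3db97a328c, (rh80650b8e93363f1e.shift 0 2), (rhf57aef432b6ec1e1.shift 2 0)] (by decide +kernel))
noncomputable def rh588ec470b64abbdd : CRef := CRef.mk (Pat.mk 0x10000000080000003800000000 0x140000001c0000001e0000007c0000000f0000007800000010 7 7) 0 0 (step_sound _ 66 [rh18a4045b8e31f997, (rhf48373e13d2bc128.shift 2 1)] (by decide +kernel))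
noncomputable def rh4c83580aecf1eec2 : CRef := CRef.mk (Pat.mk 0x8000000040000001c000000100000000000000000 0xc0000000c000000040000003c0000007f0000000f00000008 7 7) 0 0 (step_sound _ 66 [(rh455743481e179fac.shift 1 1), (rh4dec404a6c0e229a.shift 2 1), rh8a31d6c72afed64d] (by decide +kernel))
noncomputable def rhc5bfdb9b38b73f3b : CRef := CRef.mk (Pat.mk 0x1000000010000000100000003000000000 0x1000000010000000fe000000ff000001cf 7 9) 0 0 (step_sound _ 35 [(rh932754581e0f4330.shift 3 0), rh93622995447db9a4] (by decide +kernel))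
noncomputable def rh3e776fef2d24483e : CRef := CRef.mk (Pat.mk 0x10000000100000001000000038 0x2f0000003e000000770000007e0000007e 7 7) 0 0 (step_sound _ 101 [(rh2f68792b6b779e96.shift 4 0), rh96f7a0b878835f7a] (by decide +kernel))
noncomputable def rh866dcd755eb90056 : CRef := CRef.mk (Pat.mk 0x100000001000000038000000080000000000000000 0x30000001f7000001ff000003b80000003000000030 7 10) 0 0 (step_sound _ 102 [(rh95461b835b3f00cd.shift 0 2), (rha1f05977cb30c9d7.shift 3 2), (rhb2b31770788dded8.shift 3 0), (rhd156fa241efeb068.shift 1 1), (rhd584a578337d0023.shift 3 2)] (by decide +kernel))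
noncomputable def rha6a5beff7d3537f9 : CRef := CRef.mk (Pat.mk 0x200000007000000010 0xc0000000c000000fe0000007f0000001c 7 8) 0 0 (step_sound _ 35 [rhd34bc89f40435aa8, (rhdff00721f478c6f2.shift 2 0), (rhec46bd5500c722c9.shift 2 1)] (by decide +kernel))
noncomputable def rheb52051c824f964a : CRef := CRef.mk (Pat.mk 0x1000000010000000100000003800000000 0x200000003000000010000003f7000001fe000001c7 7 10) 0 0 (step_sound _ 133 [rh01a87a18ffca372f, (rh2f68792b6b779e96.shift 4 1)] (by decide +kernel))
noncomputable def rh86cd1596da2310b0 : CRef := CRef.mk (Pat.mk 0x80000000800000018000000100000000000000000 0xa0000003f0000007f000000ff0000000400000004 7 8) 0 0 (step_sound _ 98 [(rh2cdfea78c6914bf6.shift 1 0), (rh3ce854f4a795c89f.shift 0 2), rhaa29144116768c39] (by decide +kernel))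
noncomputable def rh9af26147252904aa : CRef := CRef.mk (Pat.mk 0x20000000f000000000 0x1bf000000fe0000000e 7 9) 0 0 (step_sound _ 71 [rh30db8da99646143a, (rh33e738c4ed385b9f.shift 4 1)] (by decide +kernel))
noncomputable def rh22d0ad1b59516f5a : CRef := CRef.mk (Pat.mk 0x1800000008000000080000001800000000 0x38000000ff000000ee0000007800000028 7 8) 0 0 (step_sound _ 100 [rh694ed1e85ca31949, (rh71222050f2c63a3a.shift 3 0)] (by decide +kernel))
noncomputable def rhfdca940af1ced708 : CRef := CRef.mk (Pat.mk 0x200000002000000060000000600000000 0x400000006000000070000003e0000003f0000000a 7 6) 0 0 (step_sound _ 130 [(rh2f68792b6b779e96.shift 1 1), rh7b613c777cc15e97] (by decide +kernel))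
noncomputable def rhb2f83e0bfb6cd931 : CRef := CRef.mk (Pat.mk 0x8000000080000001800000000 0x40000001c0000001f000000380000001e0000007800000028 7 7) 0 0 (step_sound _ 131 [rh2726962e49a46af1, (rh448010a0de4ebdac.shift 1 0), (rh5bd4bc0c2c48140c.shift 2 1)] (by decide +kernel))
noncomputable def rh65e16616467d1374 : CRef := CRef.mk (Pat.mk 0x8000000380000000c0000000000000000 0x80000001c0000001f000000380000003f0000006c0000007800000038 7 7) 0 0 (step_sound _ 132 [rh7526f2ea93d8cab7, (rh84d1c02a8954c6a8.shift 3 1), (rhf63fdee7f253523b.shift 0 2)] (by decide +kernel))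
noncomputable def rh21fc965379b4f2cc : CRef := CRef.mk (Pat.mk 0x800000008000000080000001c00000000 0x140000001c00000008000000ff0000007f000000e0 7 8) 0 0 (step_sound _ 132 [(rh2f68792b6b779e96.shift 3 1), rh7a58cf807a84e638] (by decide +kernel))
noncomputable def rhda6ee1387a9cdc07 : CRef := CRef.mk (Pat.mk 0x800000008000000080000001000000000 0x1800000018000000180000000f0000003c0000001c 7 6) 0 0 (step_sound _ 35 [(rh55afc6a59410cf00.shift 3 0), rhd5ef177d1cffb8e2] (by decide +kernel))
noncomputable def rhc028c9e376d366d8 : CRef := CRef.mk (Pat.mk 0x800000008000000080000000000000000 0x10000000140000003c0000001f000000180000000f0000003c00000014 7 6) 0 0 (step_sound _ 164 [(rh22d86f446f3de558.shift 0 1), rh3b6182323a282485, (rh5890386c1f942fa1.shift 3 2), (rh87d5e4118780fa3b.shift 3 1)] (by decide +kernel))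
noncomputable def rh4dbe8dca4d7b8293 : CRef := CRef.mk (Pat.mk 0x180000007000000010000000000000000000000000 0x8000000380000003800000030000000f80000007f0000001f000000300000003000000020 7 8) 0 0 (step_sound _ 196 [(rh1728b446c037fdbd.shift 3 3), (rh35c5f1c53251aa1b.shift 3 3), (rhc1f484555e5bc6ca.shift 0 3), (rhe95d1698e6af9655.shift 3 0)] (by decide +kernel))
noncomputable def rh2df96fe548c2b191 : CRef := CRef.mk (Pat.mk 0xe00000018000000080000000000000000 0x200000012000000330000003e0000001f0000000c0000000800000008 7 6) 0 0 (step_sound _ 132 [rh07efd08473cc6625, (rh5421160f8e9bcf07.shift 1 2), (rhc49beb43abaec120.shift 0 2)] (by decide +kernel))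
noncomputable def rh1ab438bcf7c50453 : CRef := CRef.mk (Pat.mk 0x8000000080000000c00000000000000000000000000000000 0x60000000f0000003c0000000e0000007c0000001c0000001c00000018 7 7) 0 0 (step_sound _ 98 [(rh42548283029e2a39.shift 2 1), rh6a0ade40003b9405, (rhf9af042da61fc652.shift 2 1)] (by decide +kernel))
noncomputable def rh1bd7e1c2bd3b77e0 : CRef := CRef.mk (Pat.mk 0x2000000020000000300000000000000000000000000000000 0x5000000070000000700000003000000030000000300000006000000070000000700000001 7 3) 0 0 (step_sound _ 224 [(rh114f4abf4ea101c9.shift 0 3), rh248783b885999ea2, (rh466a2277bc06011f.shift 0 4)] (by decide +kernel))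
noncomputable def rhe585778bea45e17f : CRef := CRef.mk (Pat.mk 0x2000000020000000200000007000000000 0x100000003000000030000003bf000001fe0000038e 7 10) 0 0 (step_sound _ 132 [rh1f5170306f1a696f, (rh50fbb5868c909700.shift 4 1)] (by decide +kernel))
noncomputable def rh79ab908b549378a3 : CRef := CRef.mk (Pat.mk 0x1000000030000000200000002000000000 0x1000000050000000df000000fe000001ef0000002800000008 7 9) 0 0 (step_sound _ 164 [(rh2145e1d24b96a57e.shift 4 2), rhca057816a6491176] (by decide +kernel))
noncomputable def rha520a17171764d94 : CRef := CRef.mk (Pat.mk 0x100000003800000020 0x4000000040000000df000001fe000003be 7 10) 0 0 (step_sound _ 38 [(rh48546bfd3f98c2d7.shift 2 0), rh8aa80d8d90d3223c, (rhe4b1e70c32ad43a7.shift 3 0)] (by decide +kernel))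
noncomputable def rh689ac439dee9bafa : CRef := CRef.mk (Pat.mk 0x30000000200000002000000000 0x400000044000000df000000fe000001fe0000006800000008 7 9) 0 0 (step_sound _ 99 [rh2944821ec1d622e9, (rh80b150511593bc79.shift 2 1), (rh9ed5bb099649ffd3.shift 2 1), (rhe77cdbae63d92bd9.shift 1 2), (rhf530834c0c5f3ed9.shift 0 2)] (by decide +kernel))
noncomputable def rhf158a4c713d96e4a : CRef := CRef.mk (Pat.mk 0x4000000040000000c00000000 0xc0000000c0000000c0000000f0000003c0000001c 7 6) 0 0 (step_sound _ 130 [rh448010a0de4ebdac, (rh55afc6a59410cf00.shift 2 0)] (by decide +kernel))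
noncomputable def rh3396f2816d946540 : CRef := CRef.mk (Pat.mk 0x4000000040000000c000000000000000000000000 0x180000003c0000000f0000003c0000000f0000000e00000008 7 6) 0 0 (step_sound _ 67 [(rh04bda38b50e6ab71.shift 0 1), (rh08edf065357d68e5.shift 2 0), (rh79ad7b82ec8c35e2.shift 2 0)] (by decide +kernel))
noncomputable def rhae42ae739f9e45b7 : CRef := CRef.mk (Pat.mk 0x1c00000008000000080000000800000000 0xff000001ff000000080000001c00000014 7 9) 0 0 (step_sound _ 36 [(rh55afc6a59410cf00.shift 3 0), rhea99f8e157347430] (by decide +kernel))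
noncomputable def rhc5b015f0d632f969 : CRef := CRef.mk (Pat.mk 0x40000000700000002000000020 0x10000000df000001fe0000003e00000020 7 9) 0 0 (step_sound _ 100 [(rh4d63ff26ec2dbd2d.shift 0 1), (rhd117684c4a851b90.shift 2 2), (rhede1dfc55ca9bb6f.shift 3 0)] (by decide +kernel))
noncomputable def rh4519934a3b573fe3 : CRef := CRef.mk (Pat.mk 0x1000000018000000080000000800000000 0x4000000040000003f0000007f000000fe0000002800000020 7 8) 0 0 (step_sound _ 98 [(rh1b610515904646e2.shift 0 1), (rh5dec5e73a267a1c4.shift 0 2), (rh8b488706f444a2de.shift 1 0)] (by decide +kernel))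
noncomputable def rhbab48393f5783145 : CRef := CRef.mk (Pat.mk 0xe00000004000000040000000400000000 0x100000003f0000003f0000003c0000000f0000000a 7 6) 0 0 (step_sound _ 35 [(rh55afc6a59410cf00.shift 2 0), rhb8284454e60bba5e] (by decide +kernel))
noncomputable def rheb55d8302aa4edd1 : CRef := CRef.mk (Pat.mk 0x80000001800000030000000100000000000000000 0x200000006c000000f8000000ff000000f70000006000000020 7 8) 0 0 (step_sound _ 102 [rhc81c36b29ab31035, (rhf48373e13d2bc128.shift 3 3)] (by decide +kernel))
noncomputable def rh731c4e474dda640d : CRef := CRef.mk (Pat.mk 0x1c00000008000000080000000800000000 0x600000003f0000007f0000003f0000007800000030 7 7) 0 0 (step_sound _ 36 [(rh55afc6a59410cf00.shift 3 0), rh5ef739bd19003a8e] (by decide +kernel))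
noncomputable def rhe07d512a95ead504 : CRef := CRef.mk (Pat.mk 0x8000000180000001000000010 0x240000006e000000fe000000ff0000003e 7 8) 0 0 (step_sound _ 37 [(rh75ea294132184f25.shift 2 1), (rh92011a909a77227f.shift 1 0), rhd58a94a69b1f54b7, rhebb0a8b8b1078164] (by decide +kernel))
noncomputable def rh8ec8c81fe07a9b83 : CRef := CRef.mk (Pat.mk 0x100000001000000070000000000000000000000000 0x50000000dc0000007f000000ef0000002800000020 7 8) 0 0 (step_sound _ 99 [(rh185f35b8bd8ec37f.shift 1 2), (rh6efafc70e63e91cf.shift 0 2), (rh71c91e0c7d2a8491.shift 2 0), (rhae036cc4ef671676.shift 2 1)] (by decide +kernel))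
noncomputable def rh7c1e3d95322a5e50 : CRef := CRef.mk (Pat.mk 0x2000000000000001e000000000000000000000000 0x80000000c0000001f000000380000001f0000000c0000000800000008 7 6) 0 0 (step_sound _ 132 [(rh33e738c4ed385b9f.shift 1 3), rh7b4c47f465ae51a3] (by decide +kernel))
noncomputable def rhb2f906ecb337670e : CRef := CRef.mk (Pat.mk 0x100000003800000000 0x1ff000000fe00000007 7 9) 0 0 (step_sound _ 38 [rh988dac8d009f9f77, (rhb6f72982232a8164.shift 3 1), (rhe3060b190bc0bc78.shift 2 1)] (by decide +kernel))
noncomputable def rh3d164bc9ea3dc8ba : CRef := CRef.mk (Pat.mk 0x80000000800000008000000000000000000000000 0x10000000140000003c0000001f0000001c000000080000001c0000001c00000004 7 6) 0 0 (step_sound _ 196 [(rh22d86f446f3de558.shift 0 2), (rh5890386c1f942fa1.shift 3 3), (rh5aff7dd62f36eb54.shift 2 0)] (by decide +kernel))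
noncomputable def rh0785dbf80e025217 : CRef := CRef.mk (Pat.mk 0x4000000040000000c000000080000000000000000 0x4000001c6000000ff000000ff0000000200000002 7 9) 0 0 (step_sound _ 100 [(rh7414e988019ffba0.shift 1 2), rh7e83efc0c0d75a40, (rh9f93e2b24091a43d.shift 1 2)] (by decide +kernel))
noncomputable def rh1b773c52993499ac : CRef := CRef.mk (Pat.mk 0x100000001000000018000000080000000800000000 0x14000003b7000001fe000001ef0000002800000020 7 10) 0 0 (step_sound _ 101 [(rh2820ca9a6c4f41b4.shift 0 2), (rh8e644d8be7574fe7.shift 2 2), (rh8e89ae0e98130f2c.shift 2 0), rha6c38ec6d730dbf9, rhebef72fb6a8d68f9] (by decide +kernel))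
noncomputable def rha39f578da233ec70 : CRef := CRef.mk (Pat.mk 0x40000000e000000020000000200000000 0x8000000ec0000007f0000007e0000003f00000018 7 8) 0 0 (step_sound _ 68 [rh460595216b09bad8, (rh71efda916732b25a.shift 0 2), (rh7f74ee904408f3a3.shift 0 2), (rhbc0930b8ae400bb5.shift 1 2), rhf0d8c1f881847c60] (by decide +kernel))
noncomputable def rh7688a83383d57cbe : CRef := CRef.mk (Pat.mk 0x8000000180000001000000010 0x280000007c000001ef0000007e0000007700000010 7 9) 0 0 (step_sound _ 131 [(rh2145e1d24b96a57e.shift 3 1), rhde865be01b10eb42] (by decide +kernel))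
noncomputable def rh4fcd5642bab1de5f : CRef := CRef.mk (Pat.mk 0xc00000008000000080000000000000000 0x1000000018000000380000001f0000007c0000001c0000001c00000014 7 7) 0 0 (step_sound _ 100 [(rh2efbb3071513816e.shift 0 1), (rh4ca5dae25f5c14ff.shift 0 3), (rhb4ab1f603a1f6377.shift 2 0)] (by decide +kernel))
noncomputable def rh3a1b0ae2f346386f : CRef := CRef.mk (Pat.mk 0x8000000080000000e0000000000000000 0x8000000ff0000007e000000f700000010 7 8) 0 0 (step_sound _ 68 [(rh45f730bcf36fcf64.shift 0 1), (rh625dde73e665edc8.shift 1 0), (rhaeebc73f5a9c796a.shift 0 1)] (by decide +kernel))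
noncomputable def rhad67c61b5385aebf : CRef := CRef.mk (Pat.mk 0x40000000c000000060000000000000000 0x1c0000003c0000001f0000000c0000001e0000003c00000018 7 6) 0 0 (step_sound _ 67 [(rh55a1f6c57a317ce6.shift 2 0), (rhafcf2efb892dfab7.shift 0 1), (rhef542d1a8a804277.shift 1 0)] (by decide +kernel))
noncomputable def rh00744065de4bdb3a : CRef := CRef.mk (Pat.mk 0x8000000180000000e000000000000000000000000 0x8000000080000000c0000001f0000003e000000330000001200000002 7 6) 0 0 (step_sound _ 100 [(rh3e595262c1b737ad.shift 3 2), (rh78974448101547fe.shift 1 1), rhd3063c58a8d9380d] (by decide +kernel))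
noncomputable def rh26e51adf79a465a5 : CRef := CRef.mk (Pat.mk 0x1000000030000000200000002000000000 0x1000000050000000df000000fe000001ef0000002800000008 7 9) 0 0 (step_sound _ 164 [(rh2145e1d24b96a57e.shift 4 2), rh352160a50e80ed35] (by decide +kernel))
noncomputable def rh71095cda9916d029 : CRef := CRef.mk (Pat.mk 0xc000000180000000800000000 0x12000000330000003f0000001f0000000c00000004 7 6) 0 0 (step_sound _ 97 [(rhb739f4f82bb681b4.shift 0 2), rhea963f5b2e1a821e] (by decide +kernel))
noncomputable def rhf895c61953946184 : CRef := CRef.mk (Pat.mk 0x10000000300000002000000020 0x40000001df000000fe000001ff00000020 7 9) 0 0 (step_sound _ 67 [(rh8ee80cc30e93a344.shift 2 1), (rhb2afcb5db661472f.shift 0 1), (rhcced840e0475f351.shift 2 0), (rhe0210c8056a715cf.shift 0 1)] (by decide +kernel))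
noncomputable def rhe6eef7b19b204d59 : CRef := CRef.mk (Pat.mk 0x3000000060000000200000000 0x60000000e0000001e0000000f0000001f0000000600000004 7 5) 0 0 (step_sound _ 67 [rh728d4314e53513c6, (rhf48373e13d2bc128.shift 0 2)] (by decide +kernel))
noncomputable def rh3cbd0d81a98ca9ae : CRef := CRef.mk (Pat.mk 0xc00000038000000080000000000000000 0x10000000100000003c0000003f0000007e0000000e00000006 7 7) 0 0 (step_sound _ 132 [rh74b578d87e20891d, (rh84d1c02a8954c6a8.shift 3 1)] (by decide +kernel))
noncomputable def rhcaa29ff67245d675 : CRef := CRef.mk (Pat.mk 0xc00000018000000080000000000000000 0x3c0000007f0000007f0000000600000006 7 7) 0 0 (step_sound _ 101 [rh59a59006f10a57e8, (rhf48373e13d2bc128.shift 2 3)] (by decide +kernel))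
noncomputable def rhd802f06a30b14661 : CRef := CRef.mk (Pat.mk 0x40000000c000000180000000800000000 0x12000000370000003f0000001f0000000f00000006 7 6) 0 0 (step_sound _ 97 [rh9efe9d2676f39eee, (rhb739f4f82bb681b4.shift 0 2)] (by decide +kernel))
noncomputable def rhf233e868030ab95b : CRef := CRef.mk (Pat.mk 0x80000000800000008000000000000000000000000 0x40000000c0000000c0000000c0000000f0000003c0000001c0000001c00000014 7 6) 0 0 (step_sound _ 194 [(rh114f4abf4ea101c9.shift 2 2), (rh2aef90968dbc61ee.shift 0 2), (rhbba7d23481996066.shift 2 0)] (by decide +kernel))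
noncomputable def rh890fbab98e8b72a3 : CRef := CRef.mk (Pat.mk 0x80000000800000008000000000000000000000000 0x140000001c0000001c0000003c0000000f0000000c0000000c0000000c00000004 7 6) 0 0 (step_sound _ 66 [(rh0e6924d680f6455d.shift 2 0), (rh8cdb937463140449.shift 0 1), (rhb77bfac3e9efecea.shift 2 2)] (by decide +kernel))
noncomputable def rhdd939797ea5b23fb : CRef := CRef.mk (Pat.mk 0x2000000070000000000000000000000000 0x10000003bf000001fe0000038e0000000800000008 7 10) 0 0 (step_sound _ 99 [(rh1f9701c4cf497514.shift 0 2), (rh45f730bcf36fcf64.shift 2 2), (rh592c7139d2c44767.shift 1 2), (rh6076add87d5fdaa7.shift 2 0), (rhec0f150ffdda098a.shift 1 2)] (by decide +kernel))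
end Crest.Agent.S0047.Helper85.Cert
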