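import Crest.Agent.Lib.S0047.Helper85CertPL6F0
import Crest.Agent.Lib.S0047.Helper85CertPL6F1
import Crest.Agent.Lib.S0047.Helper85CertPL6F2
import Crest.Agent.Lib.S0047.Helper85CertPL6F3
import Crest.Agent.Lib.S0047.Helper85CertPL6F4
import Crest.Agent.Lib.S0047.Helper85CertPL6F5
import Crest.Agent.Lib.S0047.Helper85CertPL6F6
import Crest.Agent.Lib.S0047.Helper85CertPL6F7
import Crest.Agent.Lib.S0047.Helper85CertPL6F8
import Crest.Agent.Lib.S0047.Helper85CertPL6F9
import Crest.Agent.Lib.S0047.Helper85CertPL6F10
import Crest.Agent.Lib.S0047.Helper85CertPL6F11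
import Crest.Agent.Lib.S0047.Helper85CertPL6F12
set_option autoImplicit false
set_option linter.all false
set_option Elab.async false
namespace Crest.Agent.S0047.Helper85.Cert
open Crest.Agent.S0047.Helper85

noncomputable def rh3217779c56a41372 : CRef := CRef.mk (Pat.mk 0x800000008000000080000000c0000000000000000 0xc0000000c0000003f0000003f0000001300000002 7 6) 0 0 (step_sound _ 68 [(rh55afc6a59410cf00.shift 3 1), rh9a7b7d54bf92be23] (by decide +kernel))
noncomputable def rh0fe7f0071d9bb8a7 : CRef := CRef.mk (Pat.mk 0x1800000008000000080000000800000000000000000000000000000000 0x1c0000000f0000007c0000001f0000000c0000001c0000001c00000014 7 7) 0 0 (step_sound _ 99 [(rh7928877f9bf74a91.shift 2 2), (rhc850b49d039efae1.shift 2 0), rhdb76e318f58310eb] (by decide +kernel))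
noncomputable def rhadb1d8d747083c2d : CRef := CRef.mk (Pat.mk 0x18000000080000000800000008000000000000000000000000 0x1c0000000f0000000c0000000c0000001c0000001c00000010 7 5) 0 0 (step_sound _ 66 [(rh79877ebd3ef475dd.shift 2 2), rhdf55a3cf74c000d9] (by decide +kernel))
noncomputable def rhd4c3ab5efcd8aa8a : CRef := CRef.mk (Pat.mk 0x200000002000000020000000200000000000000000000000000000000 0x300000003000000070000000600000006000000070000000700000005 7 3) 0 0 (step_sound _ 97 [rh00d408725a513cb5, rhc850b49d039efae1, (rhd29a1fb688eae70f.shift 1 2)] (by decide +kernel))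
noncomputable def rh20e1b6e80a121d79 : CRef := CRef.mk (Pat.mk 0x18000000080000000800000008000000000000000000000000 0x1c0000000f0000000c000000180000001c0000001c00000004 7 5) 0 0 (step_sound _ 68 [rh3d60672952e20467, (rhd3458b32566d63f7.shift 3 2)] (by decide +kernel))
noncomputable def rh29673a7392c1d075 : CRef := CRef.mk (Pat.mk 0x1c00000008000000180000000000000000 0x1c0000000f0000007e0000001f0000000e 7 7) 0 0 (step_sound _ 98 [rh3e86b50c48a174df, (rh5ac338b5fcda750b.shift 0 2), rhe0b148644bf3b5fe] (by decide +kernel))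
noncomputable def rhd7ecad7266fcdbaa : CRef := CRef.mk (Pat.mk 0x40000000400000004000000000000000000000000 0x80000000c0000000c0000000c0000003c0000000f0000000e0000000e0000000a 7 6) 0 0 (step_sound _ 195 [(rh08d50fe567eb1045.shift 2 2), (rh2148ea6ec6872841.shift 0 2), (rh984bfc6de6c2c524.shift 1 0)] (by decide +kernel))
noncomputable def rh98b527125c8808b3 : CRef := CRef.mk (Pat.mk 0x100000003800000000 0x1f7000000fe000001e7 7 9) 0 0 (step_sound _ 38 [rh3e8318bba8498a21, (rh3fc3a7fb6866dcd4.shift 3 0), rh988dac8d009f9f77] (by decide +kernel))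
noncomputable def rhef8a6b5071f02870 : CRef := CRef.mk (Pat.mk 0x100000001000000018000000080000000000000000 0x14000001f6000000fe000001ef0000002800000028 7 9) 0 0 (step_sound _ 35 [(rh71222050f2c63a3a.shift 3 0), rh9fc4675d371cc985] (by decide +kernel))
noncomputable def rh94a38316694329a3 : CRef := CRef.mk (Pat.mk 0x1000000010000000180000000c0000000000000000 0x12000000330000001f0000003f0000003700000004 7 6) 0 0 (step_sound _ 65 [(rh53b3c253cb0c65f4.shift 0 2), rhb6066409d8db432b] (by decide +kernel))
noncomputable def rh75d258ab2216cd27 : CRef := CRef.mk (Pat.mk 0x18000000080000000800000000 0x100000003c0000007f0000003e000000180000001800000010 7 7) 0 0 (step_sound _ 132 [rh1bdb157c3b067c99, (rh69755ef358ebfd54.shift 3 1), (rhbfb5770941270498.shift 3 1)] (by decide +kernel))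
noncomputable def rh91211849b7e0878e : CRef := CRef.mk (Pat.mk 0x20000000200000002000000000000000000000000 0x50000000700000007000000070000000200000007000000070000000700000004 7 3) 0 0 (step_sound _ 193 [(rh1741680720c097b4.shift 0 3), (rh6c59ce14113da07f.shift 1 1), rh7716a0b6c38a52b6] (by decide +kernel))
noncomputable def rh2885d9c2850555e5 : CRef := CRef.mk (Pat.mk 0x3800000010000000100000001000000000 0x1c7000001ff0000007f000000100000001800000008 7 9) 0 0 (step_sound _ 35 [(rh642a73086d688d95.shift 0 3), (rh932754581e0f4330.shift 3 0)] (by decide +kernel))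
noncomputable def rha00bbb379b675104 : CRef := CRef.mk (Pat.mk 0x100000002000000020000000200000000000000000000000000000000 0x100000007000000060000000600000006000000070000000700000001 7 3) 0 0 (step_sound _ 97 [rh165cdb78240e1819, (rhffd04209dc8ea796.shift 0 3)] (by decide +kernel))
noncomputable def rhb8ba44ed13f16098 : CRef := CRef.mk (Pat.mk 0x3000000010000000100000003000000000 0x180000000f00000007e000000f7000000fe000001cf 7 9) 0 0 (step_sound _ 35 [(rh932754581e0f4330.shift 3 0), rhdc92070d64f72b0c] (by decide +kernel))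
noncomputable def rhd4f01f1840b9fd5d : CRef := CRef.mk (Pat.mk 0x1800000008000000080000000800000000 0x140000001c0000001c0000000c0000003c0000000f0000000c0000001c00000010 7 6) 0 0 (step_sound _ 36 [(rh55afc6a59410cf00.shift 3 0), (rhde389c9e572c1fa9.shift 0 1)] (by decide +kernel))
noncomputable def rh9308c1695399a218 : CRef := CRef.mk (Pat.mk 0xc000000080000000c0000000000000000 0x60000000e0000000c0000003c0000000f0000000e 7 6) 0 0 (step_sound _ 35 [(rh50fbb5868c909700.shift 2 1), rhb54a26d2f745d65c] (by decide +kernel))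
noncomputable def rhd16d3951fa160465 : CRef := CRef.mk (Pat.mk 0x1800000010000000180000000800000000 0x20000000780000001e0000007c0000001f00000014 7 7) 0 0 (step_sound _ 34 [(rh34969f5e351ad088.shift 1 0), (rh4fa8a6123b57e686.shift 1 0), (rhd69c262cd33b94b3.shift 0 1)] (by decide +kernel))
noncomputable def rhc28be39963a1e256 : CRef := CRef.mk (Pat.mk 0x800000018000000100000001800000000 0x340000007f0000007e0000001f0000001f00000004 7 7) 0 0 (step_sound _ 130 [(rh62aba1704cf9e462.shift 1 1), (rhb0121edee88fe839.shift 0 3), rhcad22a9f15914a6a] (by decide +kernel))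
noncomputable def rh6481bd7ed36382ed : CRef := CRef.mk (Pat.mk 0x800000008000000080000000000000000 0x4000000140000001f0000003c0000000c000000780000001e00000014 7 7) 0 0 (step_sound _ 162 [(rh0dbc8abee7ad42d4.shift 2 1), (rh114f4abf4ea101c9.shift 2 1), (rh86deba971555456f.shift 1 0), (rha5dc83e34999ae02.shift 0 1), (rhbab796f6dafe9186.shift 2 2)] (by decide +kernel))
noncomputable def rh218cc41ca8733c26 : CRef := CRef.mk (Pat.mk 0x8000000080000001800000000000000000000000000000000 0x40000000c0000000c000000780000001f0000001c0000001c00000014 7 7) 0 0 (step_sound _ 99 [(rh46baee19951a66e7.shift 2 1), (rh8dce4397d6075b0b.shift 0 2), (rhab6ffbdaef6e235a.shift 1 2), (rhc850b49d039efae1.shift 2 0)] (by decide +kernel))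
noncomputable def rh90572456781cef89 : CRef := CRef.mk (Pat.mk 0x300000002000000020000000600000000 0x10000000700000007000000060000000300000003000000060000000700000001 7 3) 0 0 (step_sound _ 161 [rh2e15215092c81545, (rhd3458b32566d63f7.shift 1 1)] (by decide +kernel))
noncomputable def rhc65239bc18f7d457 : CRef := CRef.mk (Pat.mk 0x20000000300000001000000010 0x1000000018000001d8000001ff0000007c0000003800000010 7 9) 0 0 (step_sound _ 102 [(rh1d728dc5a9041f7d.shift 1 0), (rh69012675dfdb1a5b.shift 2 2), rh912f56bea38523b2, (rhd69c262cd33b94b3.shift 2 2)] (by decide +kernel))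
noncomputable def rh2d80582177806d31 : CRef := CRef.mk (Pat.mk 0x180000001e000000000000000000000000 0x10000000180000003e0000001f0000003c0000001c 7 6) 0 0 (step_sound _ 65 [(rhd8a69332657727ca.shift 1 0), (rheb0810cc63b001d8.shift 0 2)] (by decide +kernel))
noncomputable def rh3099bac5ce91b370 : CRef := CRef.mk (Pat.mk 0x1e00000006000000000000000000000000 0x800000008000000080000001e0000003e000000370000001600000006 7 6) 0 0 (step_sound _ 100 [(rhe25b0a99195a5d59.shift 1 3), rhe76d838c2d7ad60b] (by decide +kernel))
noncomputable def rhd8e24bad4c6be263 : CRef := CRef.mk (Pat.mk 0x180000000e000000000000000000000000 0x6000000070000001f000000fe000000070000000600000004 7 8) 0 0 (step_sound _ 100 [(rh21460d2d48a35cb8.shift 0 1), rh2395824d1086e2bc, (rh41d5a93e35cc8528.shift 0 1), (rhb447f348b8f2aaa5.shift 0 2), (rhf9971318f3fd5918.shift 0 1)] (by decide +kernel))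
noncomputable def rhf9a9d5225eff8455 : CRef := CRef.mk (Pat.mk 0x3800000018000000000000000000000000 0x8000000080000002800000038000000380000001f0000007c0000003c 7 7) 0 0 (step_sound _ 67 [(rh01063aa26991a6f6.shift 3 0), (rh30f7072667d65717.shift 1 0), (rh4f4c4c1027c971e0.shift 2 0), rh85395bb47882c6f4, rhd19292634af6195b] (by decide +kernel))
noncomputable def rh1e8bb100e8c0148d : CRef := CRef.mk (Pat.mk 0xc00000004000000000000000400000000 0x80000000c0000000c0000003e0000007f0000003a 7 7) 0 0 (step_sound _ 66 [(rh2f68792b6b779e96.shift 2 1), rh3b935267018b8d50] (by decide +kernel))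
noncomputable def rh3989a3ade8bd45e1 : CRef := CRef.mk (Pat.mk 0x3c0000000c00000000000000000000000000000000 0x1000000010000000300000003e0000006c0000007c0000007f0000005f00000010 7 7) 0 0 (step_sound _ 99 [(rh1864e4c677b30864.shift 0 1), (rh200490b95b6e5f38.shift 1 0), (rhb0c1e7919d9be92d.shift 2 1)] (by decide +kernel))
noncomputable def rhdda39c9944a3cc78 : CRef := CRef.mk (Pat.mk 0x180000000e0000000000000000 0x6000000070000001f000000fe000000e700000006 7 8) 0 0 (step_sound _ 68 [rh21460d2d48a35cb8, rh41d5a93e35cc8528, (rha1eb337eeb07c2e7.shift 0 1), rhf9971318f3fd5918] (by decide +kernel))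
noncomputable def rhf40eef5954dae213 : CRef := CRef.mk (Pat.mk 0x1c00000006000000000000000000000000 0x20000001b0000001f0000003e000000370000001700000017 7 6) 0 0 (step_sound _ 129 [(rh38a0850c9fea941e.shift 0 1), rh55a52bd085952ad0, rh95e960a96072856f] (by decide +kernel))
noncomputable def rhc53fd4282e2fbb17 : CRef := CRef.mk (Pat.mk 0xc0000000700000004000000000000000000000000 0xc0000000f0000003f0000003f0000000e0000000a 7 6) 0 0 (step_sound _ 100 [rh6045a1928ff32884, (rh68691964b29f233d.shift 0 3), rhb45defc2ba5580e7] (by decide +kernel))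
noncomputable def rha189188113024157 : CRef := CRef.mk (Pat.mk 0x180000000e000000080000000000000000 0x30000000300000001f0000001e0000007f0000003000000030 7 7) 0 0 (step_sound _ 68 [(rh7fb2b98ffd030877.shift 0 2), (rh89ade209b3e28f13.shift 1 2), rhe308f246507dcae5] (by decide +kernel))
noncomputable def rh7ee3ff31de662cc9 : CRef := CRef.mk (Pat.mk 0x40000000e000000020000000000000000 0xc0000000c0000000c0000000f0000003e0000001c00000008 7 6) 0 0 (step_sound _ 162 [(rh5c5e593799055d58.shift 1 2), rhcb0d5cc83f467747] (by decide +kernel))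
noncomputable def rhee424b515bf5a9e3 : CRef := CRef.mk (Pat.mk 0x80000001c00000006000000000000000000000000 0x10000000180000001e0000003e0000003f0000003f00000022 7 6) 0 0 (step_sound _ 66 [(rh71222050f2c63a3a.shift 2 1), rhef4be602d2899c8c] (by decide +kernel))
noncomputable def rh2aceddd737edafec : CRef := CRef.mk (Pat.mk 0x40000000e0000000200000000 0xc0000000c0000000c0000000f0000001e0000001e 7 5) 0 0 (step_sound _ 130 [(rh5c5e593799055d58.shift 1 1), rhdd33aeaeac85b2ce] (by decide +kernel))
noncomputable def rh4f2fd94d90530436 : CRef := CRef.mk (Pat.mk 0x5000000018000000000000000000000000 0x20000000280000006f000000ff000000f8000000d00000005000000040 7 8) 0 0 (step_sound _ 133 [(rh18965a982d73c794.shift 3 3), rh8df678ec2521a879] (by decide +kernel))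
noncomputable def rhb69c4430f7f403e3 : CRef := CRef.mk (Pat.mk 0x100000003c0000000000000000 0x60000000e0000000f0000001e0000003c0000000e00000004 7 6) 0 0 (step_sound _ 98 [(rh3244c3cc8379b070.shift 1 2), rhe686df4d7682774f] (by decide +kernel))
noncomputable def rh11844d670e8821e5 : CRef := CRef.mk (Pat.mk 0x38000000000000000000000000 0x40000000f0000007e000000ef0000000800000008 7 8) 0 0 (step_sound _ 98 [(rh06db8ceda6269a47.shift 1 2), (rh0cf480bf0f3cfd64.shift 1 0), (rh592c7139d2c44767.shift 0 2), (rh5e738780ccb5fa9e.shift 1 0), (rhe401600d466b97cd.shift 1 2)] (by decide +kernel))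
noncomputable def rhf116b490e5c05dd4 : CRef := CRef.mk (Pat.mk 0x80000001e0000000000000000 0x7000000070000001f0000001e0000000700000006 7 5) 0 0 (step_sound _ 97 [(rh3244c3cc8379b070.shift 0 2), rhc91e9d6dd6deba7c] (by decide +kernel))
noncomputable def rh0fa9af57968547e3 : CRef := CRef.mk (Pat.mk 0x180000001e000000000000000000000000 0x40000000700000007000000070000001f0000001e000000030000000200000002 7 5) 0 0 (step_sound _ 129 [rh0f7fe1328b21fc53, (rh3244c3cc8379b070.shift 0 3)] (by decide +kernel))
noncomputable def rhac321d569b4693b7 : CRef := CRef.mk (Pat.mk 0x1800000018000000000000000000000000 0x80000000800000008000000780000001f0000003f0000001c0000001c 7 7) 0 0 (step_sound _ 163 [(rh045eb03ae04c46fa.shift 1 2), rh133fc973467c7340, (rh3e595262c1b737ad.shift 3 2)] (by decide +kernel))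
noncomputable def rh1d840f8ef5a62766 : CRef := CRef.mk (Pat.mk 0x3800000018000000000000000000000000 0xc0000000c0000002f0000003f0000001f000000100000001000000010 7 6) 0 0 (step_sound _ 68 [(rh261f868a429ae0e3.shift 3 1), (rh95ff87767d7b7039.shift 0 2), (rhb0c1e7919d9be92d.shift 3 0)] (by decide +kernel))
noncomputable def rhd986777a1ee95960 : CRef := CRef.mk (Pat.mk 0x80000001800000018000000100000000000000000 0x40000000c0000001c0000001f0000003f0000000f0000000c 7 6) 0 0 (step_sound _ 98 [rh5cd25e8cfee4a4cf, (rhf56e6bc5d2f7fe77.shift 0 2)] (by decide +kernel))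
noncomputable def rh0b7e02bba377f955 : CRef := CRef.mk (Pat.mk 0x380000001c000000000000000000000000 0x1c0000003c0000000f0000003c0000001c0000000c0000000c0000000c 7 6) 0 0 (step_sound _ 163 [(rh1cf393a818e1cca8.shift 0 2), rh1ed8b4fdcc71a9ed, (rh37d9ceebb86d75d1.shift 2 2)] (by decide +kernel))
noncomputable def rhac6742ec0f3fe23f : CRef := CRef.mk (Pat.mk 0x1800000018000000000000000000000000 0x1c0000003c0000000f0000007c000000180000001c0000001c0000000c 7 7) 0 0 (step_sound _ 163 [rh08b1bc55b293a82e, (rh55a1f6c57a317ce6.shift 3 1), (rh84713c4bf66e2b3e.shift 0 2)] (by decide +kernel))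
noncomputable def rhc60eca57951bafb8 : CRef := CRef.mk (Pat.mk 0x80000001800000018000000000000000000000000 0xc000000f80000001f0000001f0000001c0000001c 7 8) 0 0 (step_sound _ 133 [rh4de41532da770f77, (rhb762f327c85d41a0.shift 2 3)] (by decide +kernel))
noncomputable def rhfd7d76e977ce17a5 : CRef := CRef.mk (Pat.mk 0x80000000c0000001800000010000000000000000000000000 0x40000000c0000000f0000001c0000001f0000000f0000000c00000008 7 5) 0 0 (step_sound _ 161 [rh9fa91495f8ddafa9, (rhb739f4f82bb681b4.shift 0 4)] (by decide +kernel))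
noncomputable def rh482f7830235ced74 : CRef := CRef.mk (Pat.mk 0x4000000060000000c0000000000000000 0x2000000070000003e0000003f0000000700000006 7 6) 0 0 (step_sound _ 68 [rh4cca100279b758e2, (rhf48373e13d2bc128.shift 1 2)] (by decide +kernel))
noncomputable def rh51ec5f3b0444fa3d : CRef := CRef.mk (Pat.mk 0x80000000c000000180000000000000000 0x4000000040000000f0000003f0000001f0000000f0000000e 7 6) 0 0 (step_sound _ 97 [rh8782ce0c2912cd73, (rhb739f4f82bb681b4.shift 0 2)] (by decide +kernel))
noncomputable def rh8075efc01572ae5f : CRef := CRef.mk (Pat.mk 0x100000001800000030000000000000000000000000 0x1000000018000000ff000000ff0000002800000020 7 8) 0 0 (step_sound _ 102 [rh6ffe651edfc67a41, (rhf48373e13d2bc128.shift 3 3)] (by decide +kernel))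
noncomputable def rh18cb095d4bda4e1c : CRef := CRef.mk (Pat.mk 0x80000000c00000018000000000000000000000000 0x80000001c0000001f000000ff000000fc0000001c 7 8) 0 0 (step_sound _ 67 [(rh15f571aba15ed1e1.shift 2 0), (rh839efa595751c4cf.shift 2 0), (rh8cdd36b03d57a2f6.shift 2 0), (rhb21236efc33f050d.shift 0 1)] (by decide +kernel))
noncomputable def rhe63fc523e81da4c0 : CRef := CRef.mk (Pat.mk 0x100000003800000020 0x1de000001fe000003b7 7 10) 0 0 (step_sound _ 66 [(rh40d54a57cdcd8fde.shift 2 0), (rh508d31626b5d2be8.shift 1 1), rhd59313b56f2e7bb3] (by decide +kernel))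
noncomputable def rhb130e3e21fd3a3c0 : CRef := CRef.mk (Pat.mk 0x80000001e000000100000000000000000 0x60000000f0000001e0000001f0000003e00000016 7 6) 0 0 (step_sound _ 129 [(rh3244c3cc8379b070.shift 0 3), rhd8e35070d8f4d602] (by decide +kernel))
noncomputable def rh4e5d4d88c821e3b0 : CRef := CRef.mk (Pat.mk 0x80000001e000000100000000000000000 0xef000000fe0000001c0000001000000010 7 8) 0 0 (step_sound _ 129 [(rh3244c3cc8379b070.shift 0 3), (rhb82c64198a2e83ed.shift 1 0)] (by decide +kernel))
noncomputable def rh9a675c44c5cdd8e2 : CRef := CRef.mk (Pat.mk 0x1000000018000000200000002800000000 0x10000000180000007f0000003e0000000f 7 7) 0 0 (step_sound _ 3 [(rh04253f50b6dd0619.shift 3 0), rh672f89fcd3cde2b2] (by decide +kernel))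
noncomputable def rhaad436eb1f8a8666 : CRef := CRef.mk (Pat.mk 0x80000000c000000100000001400000000 0x40000000c0000000c000000f70000007e000000ee 7 8) 0 0 (step_sound _ 66 [rh04a3f00e8605e1d0, (rh71222050f2c63a3a.shift 2 0)] (by decide +kernel))
noncomputable def rh53bded4f17d7c42d : CRef := CRef.mk (Pat.mk 0x80000000c000000100000001400000000 0x20000000f0000003c000000fc0000003e00000002 7 8) 0 0 (step_sound _ 69 [(rh0b786d94a31538a6.shift 1 1), (rh368dc3085932390d.shift 2 2), rh67389d957b6546fa] (by decide +kernel))
noncomputable def rhf399eabed2f06c38 : CRef := CRef.mk (Pat.mk 0x80000000c00000018000000000000000000000000 0x40000000c0000000f0000001e0000001f0000001e00000014 7 5) 0 0 (step_sound _ 129 [rh1baf1f1bde158072, (rhb739f4f82bb681b4.shift 0 3)] (by decide +kernel))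
noncomputable def rh847ab133cf1d2e54 : CRef := CRef.mk (Pat.mk 0x1000000038000000200000000000000000 0x8000000080000001e000000fc0000002f0000007c00000028 7 8) 0 0 (step_sound _ 37 [(rh7b1f1fb55310c477.shift 4 0), rh9e7fc64e715b2025] (by decide +kernel))
noncomputable def rh93d4cd91ae17be28 : CRef := CRef.mk (Pat.mk 0x80000001c00000010 0xef0000007e00000037 7 8) 0 0 (step_sound _ 33 [(rhe25b0a99195a5d59.shift 1 0), rhee4d0880a827f271] (by decide +kernel))
noncomputable def rh85c3c98d8ae88257 : CRef := CRef.mk (Pat.mk 0x400000007000000000 0xc70000007e000000e7 7 8) 0 0 (step_sound _ 35 [(rh33e738c4ed385b9f.shift 3 1), rh708c3bc8fe2f3084] (by decide +kernel))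
noncomputable def rh6204bdc625d23ae7 : CRef := CRef.mk (Pat.mk 0x80000000e000000080000000800000000 0x80000001e000000ef0000007e000000f4 7 8) 0 0 (step_sound _ 34 [rh5bc32746712445d7, (rh932754581e0f4330.shift 2 0)] (by decide +kernel))
noncomputable def rhf2bb4379030fb37d : CRef := CRef.mk (Pat.mk 0x200000003000000020000000200000000000000000000000000000000 0x200000007000000070000000700000003000000070000000600000004 7 3) 0 0 (step_sound _ 96 [(rh79877ebd3ef475dd.shift 0 3), rh8cf29acc80c00697] (by decide +kernel))
noncomputable def rh363a0309de42c24f : CRef := CRef.mk (Pat.mk 0x3800000020 0x38e000001fe000003bf 7 10) 0 0 (step_sound _ 38 [(rh10e3074efe589034.shift 2 0), rh2efad3051cff7df1, (rh592c7139d2c44767.shift 1 0), (rh74f48645dd37c94b.shift 1 0)] (by decide +kernel))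
noncomputable def rhcadd8838bb90b816 : CRef := CRef.mk (Pat.mk 0x100000001c000000000000000000000000 0x2000000330000003e000000370000000400000004 7 6) 0 0 (step_sound _ 97 [(rh33e738c4ed385b9f.shift 1 3), rh5e738780ccb5fa9e] (by decide +kernel))
noncomputable def rh3a7a0ecd7dad0703 : CRef := CRef.mk (Pat.mk 0x1800000038000000000000000000000000 0x80000000800000018000000380000007f000000fe0000007c 7 8) 0 0 (step_sound _ 67 [(rh362104532586ff12.shift 1 0), (rh497a05e3c8bf3361.shift 1 0), (rh7b42cdbb1c30cdfc.shift 1 0), rh85395bb47882c6f4, rhaf10d9b96b28ff65, (rhbd4a52ac624d985e.shift 1 0)] (by decide +kernel))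
noncomputable def rhffa1f0872b700131 : CRef := CRef.mk (Pat.mk 0x40000000c0000000c000000080000000000000000 0x60000000f0000007c0000007f0000000600000006 7 7) 0 0 (step_sound _ 100 [(rh79b3c29022acbdf3.shift 1 3), rhc0f560288a33232a, (rhf51e317c65ac025f.shift 1 0)] (by decide +kernel))
noncomputable def rh9e263a37ff4f4c4d : CRef := CRef.mk (Pat.mk 0x60000001e000000000000000000000000 0x10000000360000001e0000003f0000000b0000000b 7 6) 0 0 (step_sound _ 132 [(rh33e738c4ed385b9f.shift 1 3), rhb177df7b86913e1b] (by decide +kernel))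
noncomputable def rha4f60c74c9c0af6d : CRef := CRef.mk (Pat.mk 0x1800000018000000000000000000000000 0x4000000040000000f000000ff000000f80000000f0000003c0000001c 7 8) 0 0 (step_sound _ 67 [(rh370af384ddd2082c.shift 1 0), (rh3b48cd3fe207b607.shift 0 2), rh72b06522cc100222] (by decide +kernel))
noncomputable def rh77425f36ef096239 : CRef := CRef.mk (Pat.mk 0xc0000000c000000080000000000000000 0x20000000f0000003c0000000f0000003c0000001c 7 6) 0 0 (step_sound _ 35 [rh23ea10580a160264, (rh7b1f1fb55310c477.shift 2 0)] (by decide +kernel))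
noncomputable def rh0124767038b48ee1 : CRef := CRef.mk (Pat.mk 0xc0000000c000000000000000000000000 0x600000006000000060000000c0000003c0000000f0000000e0000000e 7 6) 0 0 (step_sound _ 162 [(rh3e595262c1b737ad.shift 2 2), rha7360cc2d941309a, (rhb3e5613249985042.shift 1 0)] (by decide +kernel))
noncomputable def rhc9ddcb1df022800a : CRef := CRef.mk (Pat.mk 0xc0000000c000000000000000000000000 0x14000000360000007f0000007c000000780000002800000020 7 7) 0 0 (step_sound _ 132 [(rh073589708c2d81a3.shift 1 1), (rh240ea196c381e9e6.shift 1 0), rh62fb63d9b42f2237] (by decide +kernel))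
noncomputable def rh3dffab7cddf4e11d : CRef := CRef.mk (Pat.mk 0x180000000e000000000000000000000000 0x4000000140000001f0000003e0000007f0000003a00000038 7 7) 0 0 (step_sound _ 67 [(rh000637b5a81e86aa.shift 2 0), rhef413c2d0781fc93, rhf775aca282a1435b] (by decide +kernel))
noncomputable def rh3c90279b2fd68964 : CRef := CRef.mk (Pat.mk 0xc00000006000000000000000000000000 0x80000003f0000003f000000300000001000000010 7 6) 0 0 (step_sound _ 132 [(rh18965a982d73c794.shift 1 3), rh1a1a18682c0d9828] (by decide +kernel))
noncomputable def rh4135b07e79a30064 : CRef := CRef.mk (Pat.mk 0x1e000000180000000000000000 0x1800000018000000380000001e0000001f0000003000000020 7 6) 0 0 (step_sound _ 65 [(rh5fa4104cacb07f9d.shift 1 0), (rheb0810cc63b001d8.shift 0 2)] (by decide +kernel))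
noncomputable def rh8c3d2bb5df9480cb : CRef := CRef.mk (Pat.mk 0x20000000f00000000000000000000000000000000 0xe0000001e0000000f0000001c0000001c0000001c00000014 7 5) 0 0 (step_sound _ 163 [(rh33e738c4ed385b9f.shift 0 4), rha9950db4eb996b95] (by decide +kernel))
noncomputable def rhcf270c8e24e69b57 : CRef := CRef.mk (Pat.mk 0x60000001e00000000 0x600000006000000070000003e0000001f0000000a 7 6) 0 0 (step_sound _ 68 [(rh33e738c4ed385b9f.shift 1 1), rhef5b9baa1068dc7c] (by decide +kernel))
noncomputable def rh567cde191f685200 : CRef := CRef.mk (Pat.mk 0x1e00000000000000000000000000000000 0x1800000018000000380000001e0000003b000000380000003800000028 7 6) 0 0 (step_sound _ 164 [rh2eac8b47c08b11de, (rh33e738c4ed385b9f.shift 1 4)] (by decide +kernel))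
noncomputable def rhdee1442ac9f48e6b : CRef := CRef.mk (Pat.mk 0x8000000000000000e00000018000000000000000000000000 0x8000000380000003e0000001f000000300000003000000030 7 6) 0 0 (step_sound _ 68 [rh3d46a4789c187384, (rh6f1cbe15c631ee70.shift 3 2)] (by decide +kernel))
noncomputable def rh1effa0580f529e7c : CRef := CRef.mk (Pat.mk 0x80000000e000000180000000000000000 0x30000000320000003f0000001e0000001f0000003400000034 7 6) 0 0 (step_sound _ 100 [rh2ab6e16b718ee7b1, rh82c2513e6a093fcf, (rhd283a685d2618d5b.shift 0 2), rhf37b56344af8bbd7] (by decide +kernel))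
noncomputable def rh18e980b7f617775f : CRef := CRef.mk (Pat.mk 0x1c00000006000000000000000000000000 0x80000000e0000000f0000001e000000060000000e0000000e0000000e 7 5) 0 0 (step_sound _ 66 [(rh000637b5a81e86aa.shift 1 0), (rh215e11e099257d75.shift 2 1), rh2bfd804cf5729c44, (rh9b9a56b9e08582e0.shift 0 1)] (by decide +kernel))
noncomputable def rh0f4cd55865daa4bc : CRef := CRef.mk (Pat.mk 0x1e000000100000000000000000 0x8000000080000003c0000003f000000170000000400000004 7 6) 0 0 (step_sound _ 65 [rh95c28bb70c879e42, (rheb0810cc63b001d8.shift 0 2)] (by decide +kernel))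
noncomputable def rh57547026bf9f4538 : CRef := CRef.mk (Pat.mk 0x1e0000000a00000000 0x160000003e0000003f0000001e0000000e00000006 7 6) 0 0 (step_sound _ 97 [(rh3244c3cc8379b070.shift 0 2), (rhf573e56196677539.shift 1 0)] (by decide +kernel))
noncomputable def rh83a608250b3a1341 : CRef := CRef.mk (Pat.mk 0x3c00000014000000000000000000000000 0x2000000028000000780000007c0000003c0000000f0000000c00000008 7 7) 0 0 (step_sound _ 99 [(rh18965a982d73c794.shift 2 3), rhb59e6b785b53a7cd] (by decide +kernel))
noncomputable def rh2fbddcf61b1cd260 : CRef := CRef.mk (Pat.mk 0x1e00000008 0x140000003c0000003f0000003e00000008 7 6) 0 0 (step_sound _ 65 [(rh3244c3cc8379b070.shift 0 1), (rhbe589b6cf9f57e82.shift 1 0)] (by decide +kernel))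
noncomputable def rh5c84e0dc8d15ab27 : CRef := CRef.mk (Pat.mk 0x3800000020 0x3c000000ff0000006e 7 8) 0 0 (step_sound _ 34 [rh803f6dd2a5876eb9, (rhe25b0a99195a5d59.shift 2 0)] (by decide +kernel))
noncomputable def rh183b5591c86df4fb : CRef := CRef.mk (Pat.mk 0x3c0000000c00000000 0xe0000000f0000003e0000003c0000000c00000004 7 6) 0 0 (step_sound _ 98 [rh2e7f8a2729b51c54, (rh3244c3cc8379b070.shift 1 2)] (by decide +kernel))
noncomputable def rh0c414efef45aaa33 : CRef := CRef.mk (Pat.mk 0x40000001c0000000a00000000 0x1c0000003c0000000f0000001c0000000e00000006 7 6) 0 0 (step_sound _ 130 [(rh2145e1d24b96a57e.shift 2 1), rh24ef24cefaf326ac] (by decide +kernel))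
noncomputable def rhb46272eeb54a1564 : CRef := CRef.mk (Pat.mk 0x60000000e000000000000000000000000 0x600000006000000060000000f0000003c0000000f0000000e 7 6) 0 0 (step_sound _ 66 [(rh3cb04db3dd2b6a55.shift 1 0), (rh5094583ce639ab92.shift 0 1), rh7bf9f9b2f3f08994] (by decide +kernel))
noncomputable def rh2c235085dfb4c8ec : CRef := CRef.mk (Pat.mk 0xe0000000c000000000000000000000000 0x1c0000001c0000001c0000000f0000000c000000180000001800000018 7 5) 0 0 (step_sound _ 67 [(rh3cb04db3dd2b6a55.shift 2 0), (rh4ee84d7f73540b6b.shift 2 0), (rhc07eadf8f1b2b776.shift 0 2)] (by decide +kernel))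
noncomputable def rh697fe60cbc26859b : CRef := CRef.mk (Pat.mk 0x4000000040000001c0000000800000000 0x380000003e000000370000001e0000007b00000032 7 7) 0 0 (step_sound _ 100 [(rha9088ffe4c58d4ac.shift 1 0), rhb595ae21e1db6eba, (rhbbbd2f5eb6f45b5a.shift 1 0)] (by decide +kernel))
noncomputable def rh565d58fcef5823bc : CRef := CRef.mk (Pat.mk 0x20000000e000000040000000000000000 0x800000008000001de000000ff000001fc0000001000000010 7 9) 0 0 (step_sound _ 100 [(rh2aac33c566332a8c.shift 1 2), (rh3a298edabae1d8a9.shift 0 2), rh4faa24555526a01c, (rh844e02e778852a5e.shift 1 2)] (by decide +kernel))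
noncomputable def rhcf1a8be4715cee57 : CRef := CRef.mk (Pat.mk 0xe000000180000000000000000 0x40000000600000007000000fe0000001f0000000700000006 7 8) 0 0 (step_sound _ 100 [rh21703bbb6af57eb9, rh32af6e600e16eab8, (rh412d230494194d0a.shift 0 2), (rh43dc67402634d54f.shift 0 1), rh73aa6c6cc77ba7b5] (by decide +kernel))
noncomputable def rh836f4ced76ca892c : CRef := CRef.mk (Pat.mk 0x60000000c000000000000000000000000 0x10000000370000003f000000380000000800000008 7 6) 0 0 (step_sound _ 100 [rh11ffb48dd5da4d94, (rhf48373e13d2bc128.shift 1 3)] (by decide +kernel))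
noncomputable def rh9d530f553b1279df : CRef := CRef.mk (Pat.mk 0x60000001c00000010000000000000000000000000 0x1c0000001c0000003e0000001f0000001b0000003a0000003800000030 7 6) 0 0 (step_sound _ 99 [(rh258b7dca9701fce8.shift 0 2), (rh2e017013ff157e93.shift 2 1), rhab14604a89c95407] (by decide +kernel))
noncomputable def rhd9b5ed542b27a9df : CRef := CRef.mk (Pat.mk 0x20000000e0000000800000000000000000000000000000000 0x6000000060000000e0000000e0000000e0000007c0000001f0000007e0000001400000004 7 7) 0 0 (step_sound _ 98 [(rh01d0cb90a5fc7f43.shift 0 2), (rh45d5f06ce553d0e6.shift 1 2), (rh95a80f84f48ac358.shift 1 2), (rhc9e87445c2295664.shift 0 1), (rhcef88e803adbe95a.shift 1 0)] (by decide +kernel))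
noncomputable def rh763800cfad64fd66 : CRef := CRef.mk (Pat.mk 0x60000000e000000020000000000000000 0x400000014000000360000003f0000003a0000000800000008 7 6) 0 0 (step_sound _ 194 [(rhee230b994cc8b773.shift 1 2), rhef3032495df9d34e] (by decide +kernel))
noncomputable def rh21f864b61c2f0a16 : CRef := CRef.mk (Pat.mk 0x1800000018000000000000000800000000 0x1f000000ff000000e70000000c0000000c 7 8) 0 0 (step_sound _ 101 [rh57aaaf0352f46bc0, (rh810fa74b1681ba9e.shift 0 2), (rhe2b63c00a3d7bb73.shift 1 3)] (by decide +kernel))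
noncomputable def rh0b2e6be991f8d9c6 : CRef := CRef.mk (Pat.mk 0x1000000018000000180000000800000000 0xc0000000f0000003f0000001f0000001c0000000c00000004 7 6) 0 0 (step_sound _ 98 [rh167204e06883dcc7, (rh34517e326ddb5b25.shift 0 2)] (by decide +kernel))
noncomputable def rhf107ca3778754f11 : CRef := CRef.mk (Pat.mk 0x1800000018000000000000000000000000 0x800000048000000df000000ff000000e70000002400000020 7 8) 0 0 (step_sound _ 101 [(rh6c5f16568e2653cf.shift 2 0), (rhbfad43945e84143d.shift 0 1), (rhe2b63c00a3d7bb73.shift 1 3)] (by decide +kernel))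
noncomputable def rha2c5146fa7ebf90c : CRef := CRef.mk (Pat.mk 0x180000001800000008 0x1c0000001c0000001f0000001f000000f80000000c 7 8) 0 0 (step_sound _ 37 [rh351882b69f82cf2d, (rha9e1a5d55b907abf.shift 2 0), (rhd9106766b9ff53c0.shift 2 0)] (by decide +kernel))
noncomputable def rh368d5ccc8ae674c1 : CRef := CRef.mk (Pat.mk 0x38000000140000000000000000 0xc0000000c0000000f0000007c0000001c0000000c00000008 7 7) 0 0 (step_sound _ 130 [(rh2f5d55553ef9d862.shift 1 1), (rh9bdb2f981711dfd3.shift 1 0), (rhdf6656ca36adc299.shift 0 1), (rhe9d682012dbceb06.shift 2 2)] (by decide +kernel))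
noncomputable def rhbd805a5534622eb6 : CRef := CRef.mk (Pat.mk 0xf0000000a0 0x4000000040000000e7000000fe000000be 7 8) 0 0 (step_sound _ 35 [rha3d5a187030543f4, (rheae1728ff4a56756.shift 2 0), (rhff05dfd7e8f9c96d.shift 1 0)] (by decide +kernel))
noncomputable def rh441eff3820cfaf02 : CRef := CRef.mk (Pat.mk 0x7000000020 0xfe000001fe000003b7 7 10) 0 0 (step_sound _ 67 [(rh8c12fdbbddc1e7ab.shift 1 1), rhb473f5aadaed2c9d, (rhf7c3976a2c30dd83.shift 3 0)] (by decide +kernel))
noncomputable def rh07907c05da2b5ffa : CRef := CRef.mk (Pat.mk 0x20000001c0000000800000000 0x14000000340000003e0000003f0000000b00000002 7 6) 0 0 (step_sound _ 98 [rhcfbeed7d979793f9, (rhf48373e13d2bc128.shift 1 2)] (by decide +kernel))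
noncomputable def rha1fa50b1094f1f04 : CRef := CRef.mk (Pat.mk 0x700000002000000000 0x1000000010000000fc000001fe0000003f00000008 7 9) 0 0 (step_sound _ 67 [(rh44dd78dd79fc4e0b.shift 2 0), (rhe924b7cb38494c49.shift 0 1), (rhfb2a8799b26953bf.shift 1 1)] (by decide +kernel))
noncomputable def rh8c828fe770f0753c : CRef := CRef.mk (Pat.mk 0xc0000001c0000000000000000 0xc0000000c0000000e0000007c0000001f0000003400000010 7 7) 0 0 (step_sound _ 100 [rha8bcb4927b3d3cd5, (rhb7d47b33b7781ac5.shift 1 1), (rhf9d36e158778ce35.shift 1 2)] (by decide +kernel))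
noncomputable def rha5a228b90b28e3e3 : CRef := CRef.mk (Pat.mk 0x1800000018000000000000000000000000 0x80000000a0000007b000000ff000000ef0000000400000004 7 8) 0 0 (step_sound _ 98 [(rh35facbe2d175b8f6.shift 1 0), rh9ecea4e1d309003f, (rhf9d36e158778ce35.shift 1 3)] (by decide +kernel))
noncomputable def rha19008afc55deb76 : CRef := CRef.mk (Pat.mk 0x1800000018000000000000000000000000 0x1c0000001c0000001e00000078000000180000000f0000003c0000001c 7 7) 0 0 (step_sound _ 67 [rh72b06522cc100222, (rh84d1c02a8954c6a8.shift 3 1), (rhf26117fad763842f.shift 1 2)] (by decide +kernel))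
noncomputable def rh2e8f173bf2dbea56 : CRef := CRef.mk (Pat.mk 0xe0000000e000000000000000000000000 0x600000006000000170000003e0000000e000000080000000800000008 7 6) 0 0 (step_sound _ 132 [(rh18965a982d73c794.shift 1 3), rh96b346b60cce2177] (by decide +kernel))
noncomputable def rh468971f35ff3057e : CRef := CRef.mk (Pat.mk 0x1800000018000000000000000000000000 0x10000000120000007b000000ff0000006f0000002400000004 7 8) 0 0 (step_sound _ 98 [rh9ecea4e1d309003f, (rha0fcf3c501ffacbe.shift 1 1), (rhf9d36e158778ce35.shift 1 3)] (by decide +kernel))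
noncomputable def rh66c8af5ba55cd98c : CRef := CRef.mk (Pat.mk 0x100000001000000030000000200000000000000000 0x10000003fc000001fe000001ef0000000800000008 7 10) 0 0 (step_sound _ 99 [(rh0aa14ddca32df44b.shift 2 1), (rh3ce854f4a795c89f.shift 1 2), rh62233c53af25a97b] (by decide +kernel))
noncomputable def rhee9281b3cff49349 : CRef := CRef.mk (Pat.mk 0x100000001c000000300000000000000000 0x80000000f0000007f0000007c000000360000001e0000001c 7 7) 0 0 (step_sound _ 131 [(rhf48996eac4735c93.shift 1 0), (rhfc2ecea71e1bde85.shift 0 1), (rhfc7c29d8e65d775f.shift 3 1)] (by decide +kernel))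
noncomputable def rhcbae5c1620a7e4bc : CRef := CRef.mk (Pat.mk 0x4000000060000000c0000000000000000 0x6000000070000003e0000003f0000000700000004 7 6) 0 0 (step_sound _ 68 [rh7d1277896881924d, (rhf48373e13d2bc128.shift 1 2)] (by decide +kernel))
noncomputable def rh3bc6049692250614 : CRef := CRef.mk (Pat.mk 0x80000000e000000180000000000000000 0x1800000018000000ff000000fe000000180000000800000008 7 8) 0 0 (step_sound _ 100 [(rh6e0b393a3debc4b3.shift 0 2), (rhc0ac6cdbaa8efa90.shift 1 1), rhfe013390b475a301] (by decide +kernel))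
noncomputable def rh427db29ed3838f59 : CRef := CRef.mk (Pat.mk 0x800000008000000180000000800000000 0x140000003c0000000f000000780000000c0000000c 7 7) 0 0 (step_sound _ 130 [rh1639178cdacb3c17, (rh50fbb5868c909700.shift 2 1)] (by decide +kernel))
noncomputable def rhee3dc871f54edfde : CRef := CRef.mk (Pat.mk 0x8000000080000003c00000000 0x1c0000001e00000078000000380000003f00000020 7 7) 0 0 (step_sound _ 68 [(rh5de5217ca6d6b365.shift 1 0), (rhab2ad169e49f9c5e.shift 0 1)] (by decide +kernel))
noncomputable def rh8ec4e0d40874ea4b : CRef := CRef.mk (Pat.mk 0x2000000020000000e00000000 0x8000000080000000f0000003f0000003f00000014 7 6) 0 0 (step_sound _ 36 [(rh3244c3cc8379b070.shift 0 1), rhe103bb87a43a847c] (by decide +kernel))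
noncomputable def rh17df396e5dfb45c3 : CRef := CRef.mk (Pat.mk 0x380000001000000030 0x7000000ff000000fe00000078 7 8) 0 0 (step_sound _ 35 [(rh4dc133ee0ba1420a.shift 1 1), (rhb1d8a7e321a4785e.shift 0 1), (rhca7b1c75b4cec277.shift 1 0)] (by decide +kernel))
noncomputable def rhfda7f9ad76313d5e : CRef := CRef.mk (Pat.mk 0x18000000100000003000000000 0x2c0000003c0000007f0000003e0000007f0000003e00000004 7 7) 0 0 (step_sound _ 98 [rh2750a3e2c268ce6b, (rh9909eeda0ef2ed2c.shift 1 2), (rhf4a027896f099533.shift 2 1)] (by decide +kernel))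
noncomputable def rh1ce4f391a2b5187d : CRef := CRef.mk (Pat.mk 0xc00000008000000180000000000000000 0x140000003c0000000f000000780000000c0000000c 7 7) 0 0 (step_sound _ 35 [rh1639178cdacb3c17, (rh50fbb5868c909700.shift 2 1)] (by decide +kernel))
noncomputable def rh1bda36292e81e9f1 : CRef := CRef.mk (Pat.mk 0x80000000800000018000000000000000000000000 0x100000007c0000001f0000007e0000007e0000001c00000010 7 7) 0 0 (step_sound _ 68 [(rh08edf065357d68e5.shift 3 0), (rh697510c285f99c3f.shift 0 1), (rh79ad7b82ec8c35e2.shift 3 0)] (by decide +kernel))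
noncomputable def rh152ac9e1681f6f1f : CRef := CRef.mk (Pat.mk 0x8000000040000000400000004000000060000000000000000 0xc0000000c000000060000000f0000003c0000000e0000000400000004 7 6) 0 0 (step_sound _ 194 [(rh2f68792b6b779e96.shift 2 3), rh887f76a961264d56] (by decide +kernel))
noncomputable def rh15e36513d8f37690 : CRef := CRef.mk (Pat.mk 0x800000008000000080000000c0000000000000000 0x100000001c0000001c0000000f0000003c0000001800000008 7 6) 0 0 (step_sound _ 68 [(rh55afc6a59410cf00.shift 3 1), rhbc950f7d10d241ed] (by decide +kernel))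
noncomputable def rhee0d91cf1fe02b2a : CRef := CRef.mk (Pat.mk 0x2000000020000000200000002 0x400000007000000070000000700000006000000060000000600000002 7 3) 0 0 (step_sound _ 129 [(rh1741680720c097b4.shift 0 1), (rh44f453b84f013105.shift 1 0), rh9c4cd94ef89c4f22, (rhc2034d656568cc12.shift 0 1)] (by decide +kernel))
noncomputable def rh7921d04ac80a576d : CRef := CRef.mk (Pat.mk 0xc000000080000000c00000008 0x2000000130000007e0000007f0000000c00000008 7 7) 0 0 (step_sound _ 100 [(rh002a0412570a27c5.shift 0 1), (rh2f68792b6b779e96.shift 3 0)] (by decide +kernel))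
noncomputable def rh7f8dbceedf3e679c : CRef := CRef.mk (Pat.mk 0x20000000200000003000000000000000000000000 0x600000006000000060000000300000003000000070000000600000006 7 3) 0 0 (step_sound _ 193 [(rh932754581e0f4330.shift 0 2), rhf51e9919d188a948] (by decide +kernel))
noncomputable def rhb9851ce295bb49f3 : CRef := CRef.mk (Pat.mk 0x40000001c00000006000000000000000000000000 0x80000000a0000003f0000001f0000003e0000003c0000001c00000018 7 6) 0 0 (step_sound _ 129 [(rh278e5126e461c114.shift 0 2), (rh38a0850c9fea941e.shift 0 1), rh7e1df22dfabdf852] (by decide +kernel))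
noncomputable def rh91cb8abe732b2594 : CRef := CRef.mk (Pat.mk 0x100000001000000010000000380000000000000000 0x200000003000000030000003f7000001fe000001c700000040 7 10) 0 0 (step_sound _ 70 [(rh2fa8a6cd8a03c75c.shift 2 0), (rh4d7c9cc78e37d477.shift 3 1), (rh66e9ffaa969ff0d3.shift 1 1), (rh988dac8d009f9f77.shift 0 1), (rha93a5dd541ab8209.shift 3 1)] (by decide +kernel))
noncomputable def rh4775f7f2a12b7585 : CRef := CRef.mk (Pat.mk 0x100000003800000000 0x1fe000000fe000001c7 7 9) 0 0 (step_sound _ 34 [(rh394e80a462af5b2f.shift 1 0), rh55c4ed4acec0f063, (rh98619266ffce163e.shift 1 1)] (by decide +kernel))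
noncomputable def rh50ae34eb259fa093 : CRef := CRef.mk (Pat.mk 0x1000000010000000180000001800000000 0x800000018000000380000007f0000007f00000006 7 7) 0 0 (step_sound _ 131 [(rh50fbb5868c909700.shift 3 1), rh8a9d77385e4cc73c] (by decide +kernel))
noncomputable def rhfcf23f3259bf237f : CRef := CRef.mk (Pat.mk 0xc000000080000000c00000008 0x100000003f0000007f0000001f00000008 7 7) 0 0 (step_sound _ 100 [(rh001bbc47d9c59d7e.shift 0 1), (rh2f68792b6b779e96.shift 3 0)] (by decide +kernel))
noncomputable def rhc6a797aab18c7913 : CRef := CRef.mk (Pat.mk 0x20000000a000000030000000200000000 0x4000000060000000e0000001b0000001f0000001d 7 5) 0 0 (step_sound _ 32 [rh437ff637dcc9b74d, rh932754581e0f4330] (by decide +kernel))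
noncomputable def rh662fb43306e0eaf8 : CRef := CRef.mk (Pat.mk 0x40000000c0000000600000000000000000000000000000000 0xa0000000f0000003c0000000e0000000c0000000e0000000e00000002 7 6) 0 0 (step_sound _ 164 [(rh18965a982d73c794.shift 1 4), rhd2a00e5d4099ba1a] (by decide +kernel))
noncomputable def rh6b09c3667fd9f984 : CRef := CRef.mk (Pat.mk 0x8000000080000000c000000000000000000000000 0x40000000c0000000c0000003f0000003f0000001e00000004 7 6) 0 0 (step_sound _ 66 [(rh42548283029e2a39.shift 2 0), (rhefb31357408b760c.shift 0 1), (rhf9af042da61fc652.shift 2 0)] (by decide +kernel))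
noncomputable def rh298f54403f2f8cbb : CRef := CRef.mk (Pat.mk 0x8000000080000000c000000000000000000000000 0x140000001e000000780000001f0000003c0000001c00000014 7 7) 0 0 (step_sound _ 132 [(rh574fdbf07bdd18b9.shift 0 3), (rh8e9e5cc0a473d397.shift 1 0), rhe54355bc0aaf2ee4] (by decide +kernel))
noncomputable def rh5609134fb0483e1c : CRef := CRef.mk (Pat.mk 0x8000000380000000c000000000000000000000000 0x10000000100000007f0000003f0000007c000000760000003600000030 7 7) 0 0 (step_sound _ 130 [(rh0eb14a2989a253bc.shift 0 1), (rh278e5126e461c114.shift 1 2), (rh7e1df22dfabdf852.shift 1 0), (rhf9d96bc4cfb7dfa2.shift 1 1)] (by decide +kernel))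
noncomputable def rh7a9c0526a804a4aa : CRef := CRef.mk (Pat.mk 0x8000000080000000c000000000000000000000000 0x140000001e0000007c0000001f0000003c0000001c00000004 7 7) 0 0 (step_sound _ 66 [(rh04e41ddbc123eaa0.shift 0 1), (rh42548283029e2a39.shift 2 0), (rhf9af042da61fc652.shift 2 0)] (by decide +kernel))
noncomputable def rh36e620be7f641696 : CRef := CRef.mk (Pat.mk 0x1000000018000000080000000800000000 0x24000001f6000000fe000001ef0000007c00000060 7 9) 0 0 (step_sound _ 101 [(rh2820ca9a6c4f41b4.shift 0 2), (rh644f785d2234933c.shift 1 0), (rha8e118612a5545ec.shift 1 1), (rhfa35e196e150edb4.shift 2 2)] (by decide +kernel))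
noncomputable def rh39a59a3d6cd6f06a : CRef := CRef.mk (Pat.mk 0x400000007000000020 0x77000003fe000003be 7 10) 0 0 (step_sound _ 35 [(rh21d582c147e7e118.shift 1 0), rh8aa80d8d90d3223c, rhbfdaafe6cbbfd7f3, (rhd0c0061ffd79e485.shift 2 0)] (by decide +kernel))
noncomputable def rh4efedb8ee3578e2d : CRef := CRef.mk (Pat.mk 0x200000002000000020000000700000000 0x600000006000000060000003e0000003f0000000a 7 6) 0 0 (step_sound _ 66 [(rh2145e1d24b96a57e.shift 1 1), rh597e08b8840409b7] (by decide +kernel))
noncomputable def rh154fceed9981c1e0 : CRef := CRef.mk (Pat.mk 0x8000000080000000c000000000000000000000000 0x1000000018000000780000001f0000003c0000001c00000010 7 7) 0 0 (step_sound _ 67 [(rh2ad4304994e985b6.shift 0 1), (rh6c59ce14113da07f.shift 3 0), (rhc9c1a6ade0802ee3.shift 0 1)] (by decide +kernel))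
noncomputable def rh03ff6822a9bfe313 : CRef := CRef.mk (Pat.mk 0x8000000080000000c0000000000000000 0x1800000018000000780000001f0000000c0000000c 7 7) 0 0 (step_sound _ 34 [rh09026d77553e85bf, (rh5c5e593799055d58.shift 2 1)] (by decide +kernel))
noncomputable def rh46fb181b3f3278c9 : CRef := CRef.mk (Pat.mk 0x80000000800000004000000000000000000000000 0x140000001c0000001c0000001e0000007c0000001f0000003c0000001800000010 7 7) 0 0 (step_sound _ 99 [(rh23aad281f166fc15.shift 1 2), (rh328e0484b9031ea7.shift 1 1), rh5eb0ec0b09e475c2, (rh6c03a9ef5fb89cef.shift 2 2), (rhbf000823819f4c0d.shift 2 1)] (by decide +kernel))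
noncomputable def rhb06041e9c5ed8b89 : CRef := CRef.mk (Pat.mk 0x1000000010000000100000003800000000 0x2800000038000000180000007f0000007e00000006 7 7) 0 0 (step_sound _ 131 [(rh50fbb5868c909700.shift 3 1), rh874dcc2fe8d98be7] (by decide +kernel))
noncomputable def rh9ac1e713266ebfdb : CRef := CRef.mk (Pat.mk 0x400000008000000080000000c00000000 0x40000001f0000007f0000001f0000000a 7 7) 0 0 (step_sound _ 98 [rh3d07f375d2a8ff82, (rh7b1f1fb55310c477.shift 2 0)] (by decide +kernel))
noncomputable def rh710df1ab1265f71b : CRef := CRef.mk (Pat.mk 0x100000001000000018000000080000000000000000 0x10000001f7000000fe000001ef0000002000000020 7 9) 0 0 (step_sound _ 101 [(rh2820ca9a6c4f41b4.shift 0 2), (rh2ead9b9cc22afc12.shift 1 0), (rhfa35e196e150edb4.shift 2 2), rhfc1bd713ef56f6f6] (by decide +kernel))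
noncomputable def rh2106745107ba3877 : CRef := CRef.mk (Pat.mk 0x180000000c000000040000000400000000 0x1c000000ff000000770000003c00000038 7 8) 0 0 (step_sound _ 97 [(rh53b3c253cb0c65f4.shift 0 3), rhc7b1da93a669443b] (by decide +kernel))
noncomputable def rh4a1ca1950814f521 : CRef := CRef.mk (Pat.mk 0x3000000018000000080000000800000000 0x28000000fc000000f8000000cf0000007c00000054 7 8) 0 0 (step_sound _ 134 [(rh18965a982d73c794.shift 3 3), rh68402c4bc2ac86b7] (by decide +kernel))
noncomputable def rhde57bc117639fd18 : CRef := CRef.mk (Pat.mk 0x1000000018000000080000000800000000 0x1c0000001c0000007c0000000f0000000c00000004 7 7) 0 0 (step_sound _ 131 [rh1a7ba950a8b51630, (rh2f68792b6b779e96.shift 3 1)] (by decide +kernel))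
noncomputable def rhbba20d836cb32786 : CRef := CRef.mk (Pat.mk 0x2000000038000000100000000000000000 0x1000000038000001ff000000fc0000002000000020 7 9) 0 0 (step_sound _ 102 [(rh39cea3beabd786c1.shift 0 2), (rh5339cdb064de282f.shift 2 0), (rhaf9f2efc81a8312b.shift 2 2)] (by decide +kernel))
noncomputable def rh8b1418178e24a6e7 : CRef := CRef.mk (Pat.mk 0x100000001c000000080000000800000000 0xc0000000c0000002c000000780000003c0000007f0000001e00000014 7 7) 0 0 (step_sound _ 131 [(rh4f402ce420c5c06c.shift 2 0), (rh81d2d5967a13b68f.shift 2 0), (rh9a956b622400e328.shift 1 0), rhbde581ad67601c48] (by decide +kernel))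
noncomputable def rh68d5266fa8e6f369 : CRef := CRef.mk (Pat.mk 0x1000000030000000180000000800000000 0xc0000003e0000003c0000001e0000001f00000012 7 6) 0 0 (step_sound _ 66 [(rh53b3c253cb0c65f4.shift 1 2), rh86479e1b3d0cd974] (by decide +kernel))
noncomputable def rhf01e9ef3b7e9583c : CRef := CRef.mk (Pat.mk 0x400000006000000030000000200000000 0x100000003000000070000001e000000070000001f0000001d 7 5) 0 0 (step_sound _ 99 [(rh18965a982d73c794.shift 0 2), rhd4f6e3f3671d2d23] (by decide +kernel))
noncomputable def rh8ad0dba9b1643004 : CRef := CRef.mk (Pat.mk 0xc00000004000000040000000400000000 0x720000007e000000ef000000040000000400000004 7 8) 0 0 (step_sound _ 129 [rh489179491b1d8f02, (rh50fbb5868c909700.shift 1 1)] (by decide +kernel))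
noncomputable def rh520a12e6c4a32389 : CRef := CRef.mk (Pat.mk 0x1000000010000000180000001000000000 0x28000000780000001e000000380000001f0000000c 7 7) 0 0 (step_sound _ 35 [rh3ff576ab9a9b8a15, (rh932754581e0f4330.shift 3 0)] (by decide +kernel))
noncomputable def rhb02c3d3d47781589 : CRef := CRef.mk (Pat.mk 0x8000000080000000c000000000000000000000000 0x140000001e000000780000001f0000003c0000001c00000014 7 7) 0 0 (step_sound _ 132 [(rh574fdbf07bdd18b9.shift 0 3), rhe54355bc0aaf2ee4, (rhff24698a4d3c90e7.shift 1 0)] (by decide +kernel))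
noncomputable def rhea774e22133b45b2 : CRef := CRef.mk (Pat.mk 0x100000007000000018000000000000000000000000 0xc0000000c000000fc0000007f000000f8000000e00000006000000060 7 8) 0 0 (step_sound _ 131 [(rh2e2af70cc0a250e3.shift 2 3), (rh7e1df22dfabdf852.shift 2 0), (rhbea32a382651a0e3.shift 0 3)] (by decide +kernel))
noncomputable def rh9ff4ae179b7cc8c4 : CRef := CRef.mk (Pat.mk 0x100000001000000018000000080000000800000000 0x10000001f0000000fe000001ef0000007c00000020 7 9) 0 0 (step_sound _ 101 [(rh2820ca9a6c4f41b4.shift 0 2), (rh2ead9b9cc22afc12.shift 1 0), (rh72010f2280fa7e86.shift 1 0), (rhfa35e196e150edb4.shift 2 2)] (by decide +kernel))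
noncomputable def rh17b9f8808b5cd482 : CRef := CRef.mk (Pat.mk 0x400000006000000030000000200000000 0x20000000300000003000000070000001f0000001b0000001f0000000d 7 5) 0 0 (step_sound _ 99 [(rh18965a982d73c794.shift 0 2), rh5902ee60d8bb3ff1] (by decide +kernel))
noncomputable def rhbdea224b79f319d8 : CRef := CRef.mk (Pat.mk 0x8000000080000000c0000000c000000000000000000000000 0x10000000180000000c0000003f0000001f000000130000000200000002 7 6) 0 0 (step_sound _ 100 [rh49a45477cb9dd943, (rh55afc6a59410cf00.shift 3 2)] (by decide +kernel))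
noncomputable def rhea7b480a7b06e535 : CRef := CRef.mk (Pat.mk 0x100000001c000000080000000800000000 0x80000000a0000000a0000001f0000001f0000003f0000003c00000034 7 6) 0 0 (step_sound _ 131 [(rh257cac3f88c56b7b.shift 2 0), rh3ed902448667e9e7, rh8d09613a0e903d5f, rhfe46d56bdd687b7c] (by decide +kernel))
noncomputable def rh1f2f75b9bb3e36d2 : CRef := CRef.mk (Pat.mk 0x100000001c000000080000000800000000 0x28000000780000003c0000007f0000001e00000014 7 7) 0 0 (step_sound _ 131 [(rh4f402ce420c5c06c.shift 2 0), (rh9a956b622400e328.shift 1 0), rhbde581ad67601c48] (by decide +kernel))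
noncomputable def rh8fe99ce312604477 : CRef := CRef.mk (Pat.mk 0x2000000038000000100000000000000000 0x10000000370000007e0000007e0000006000000020 7 7) 0 0 (step_sound _ 98 [(rh7fb660bc21ce4329.shift 0 3), (rha03f6e28ea70fc7d.shift 1 2), (rhd790f0a30753ef9b.shift 1 0)] (by decide +kernel))
noncomputable def rhe8154e2f3643f8cb : CRef := CRef.mk (Pat.mk 0x20000000300000001000000010 0x800000008000003ee000001fe000001ff00000010 7 10) 0 0 (step_sound _ 67 [(rh30d8de180e24b81f.shift 2 0), (rh5dec5e73a267a1c4.shift 1 1), (rha66affde9ba09e96.shift 0 1)] (by decide +kernel))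
noncomputable def rh6b331630ad304f77 : CRef := CRef.mk (Pat.mk 0x80000001c000000040000000400000000 0x60000000f0000007c0000003c0000000f0000000a 7 7) 0 0 (step_sound _ 130 [rh18907ec69159b549, (rh277b01412deaec89.shift 0 1), (rh79b3c29022acbdf3.shift 1 3)] (by decide +kernel))
noncomputable def rhcf3477a269724c32 : CRef := CRef.mk (Pat.mk 0x20000000700000001800000000 0x1c0000001e000000fc0000007f000000f800000008 7 8) 0 0 (step_sound _ 67 [(rh17f2cb9c16b8ffd4.shift 1 0), (rhc6f8b44da755dc85.shift 0 1), (rhec46bd5500c722c9.shift 2 2)] (by decide +kernel))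
noncomputable def rh1adc568348349b2f : CRef := CRef.mk (Pat.mk 0x100000001c0000000800000008 0x200000002000000070000003f0000001f0000000c00000008 7 6) 0 0 (step_sound _ 65 [rh1a7b7059856a31cf, (rh33e738c4ed385b9f.shift 1 2)] (by decide +kernel))
noncomputable def rhfac64882f8263252 : CRef := CRef.mk (Pat.mk 0x100000001c000000080000000800000000 0xa0000000a0000000f0000001f0000001f0000003c0000001c00000014 7 6) 0 0 (step_sound _ 131 [(rh257cac3f88c56b7b.shift 2 0), (rh361bd47d6742e588.shift 0 1), rh3ed902448667e9e7, rh6d718a88c83f7ffb] (by decide +kernel))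
noncomputable def rh40ae978c6deadec8 : CRef := CRef.mk (Pat.mk 0x100000001000000018000000080000000000000000 0x14000001f7000000fe000001ef0000002800000028 7 9) 0 0 (step_sound _ 35 [rh3e83f708735348e2, (rh71222050f2c63a3a.shift 3 0)] (by decide +kernel))
noncomputable def rheebbe9cf7107d80d : CRef := CRef.mk (Pat.mk 0x10000000180000000c0000000800000000 0x60000000f0000003f0000001f0000000c0000000c00000004 7 6) 0 0 (step_sound _ 131 [(rh03dfdf12d5937476.shift 2 0), (rh14d5fb538d4c2aa6.shift 0 1), (rhd2c74283b7b6e6b8.shift 2 1)] (by decide +kernel))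
noncomputable def rh09bb80eea5cd7b1b : CRef := CRef.mk (Pat.mk 0x1000000030000000180000000800000000 0xe0000001e0000003e0000007e0000000f00000006 7 7) 0 0 (step_sound _ 66 [(rh53b3c253cb0c65f4.shift 1 2), rhaaf3997ca13b744a] (by decide +kernel))
noncomputable def rhc2d8007580f6ebdf : CRef := CRef.mk (Pat.mk 0x8000000180000000e00000000000000000000000000000000 0x160000001f0000001b0000001e0000001c0000001c0000001800000018 7 5) 0 0 (step_sound _ 99 [(rh3820f35d5e705bec.shift 3 0), (rhac23380c356673f0.shift 0 2), (rhe52cc56a091e2831.shift 2 0)] (by decide +kernel))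
noncomputable def rhbd3c97c9c3e224b9 : CRef := CRef.mk (Pat.mk 0x8000000180000000c000000000000000000000000 0x100000001c0000001c0000001c000000180000001f000000080000000800000008 7 5) 0 0 (step_sound _ 97 [(rh23a4b133c5feed8b.shift 2 0), (rh53b3c253cb0c65f4.shift 0 3)] (by decide +kernel))
noncomputable def rh30524ef390eb060a : CRef := CRef.mk (Pat.mk 0x8000000180000000c0000000000000000 0x160000001f0000001e0000000f0000000c0000000c 7 5) 0 0 (step_sound _ 65 [(rh53b3c253cb0c65f4.shift 0 2), rhb820fe5e46c1f8f0] (by decide +kernel))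
noncomputable def rhaeccb00c108eb3a5 : CRef := CRef.mk (Pat.mk 0x80000001c0000000600000000 0x1e0000001f0000007f0000001c0000000e0000000a 7 7) 0 0 (step_sound _ 131 [rh0b447b394a6591ee, (rh5c5e593799055d58.shift 2 1)] (by decide +kernel))
noncomputable def rh603840ea6bc76243 : CRef := CRef.mk (Pat.mk 0x180000000e000000040000000000000000 0x2000000020000001f000000fe0000007c0000000400000004 7 8) 0 0 (step_sound _ 34 [(rh71222050f2c63a3a.shift 2 0), (rha503810eef345b1d.shift 0 1)] (by decide +kernel))
noncomputable def rhb735eabf0fdddb4f : CRef := CRef.mk (Pat.mk 0x80000001c0000000600000000 0x1e0000001f0000003c0000001c0000007e00000073 7 7) 0 0 (step_sound _ 131 [(rh5c5e593799055d58.shift 2 1), rh6fb4802e1aa0b49b] (by decide +kernel))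
noncomputable def rh17d4d6abcdf5f71d : CRef := CRef.mk (Pat.mk 0x100000001c000000080000000000000000 0xc0000000c0000000f0000001f0000001c0000001c0000000c0000000c 7 5) 0 0 (step_sound _ 35 [rh0af04280db0251d5, (rh71222050f2c63a3a.shift 3 0)] (by decide +kernel))
noncomputable def rhc3c1b8028b47d062 : CRef := CRef.mk (Pat.mk 0x300000001c0000000800000000 0x200000007e0000007e0000003e0000001c0000000f00000006 7 7) 0 0 (step_sound _ 132 [(rh5c5e593799055d58.shift 3 1), rhb4d207f38d01c7df] (by decide +kernel))
noncomputable def rhf8c0f5c84126ea71 : CRef := CRef.mk (Pat.mk 0x800000000000000380000000c00000000 0x1c0000001e0000000f0000003e0000000c00000004 7 6) 0 0 (step_sound _ 99 [(rh932754581e0f4330.shift 2 0), (rhde2edf187ca34439.shift 0 1)] (by decide +kernel))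
noncomputable def rh2f4234d5106b2c3c : CRef := CRef.mk (Pat.mk 0x20000000300000001c000000000000000000000000 0xc0000006e0000003f0000007c0000001e0000001800000008 7 7) 0 0 (step_sound _ 68 [(rh71222050f2c63a3a.shift 4 1), rhc33244e0364ecda2] (by decide +kernel))
noncomputable def rh427ea880d2d8aa38 : CRef := CRef.mk (Pat.mk 0x10000000180000000e00000000 0x1c0000001e000000780000001f0000003e00000027 7 7) 0 0 (step_sound _ 132 [rh04d13d6c4fb904dd, (rh5c5e593799055d58.shift 3 1)] (by decide +kernel))
noncomputable def rh97d3b5058d6d12e3 : CRef := CRef.mk (Pat.mk 0xc0000000600000000000000000000000000000000 0xa0000000e0000001f0000003c0000001e0000003c0000000e0000000e0000000a 7 6) 0 0 (step_sound _ 164 [(rh18965a982d73c794.shift 1 4), rh877258e55e352520] (by decide +kernel))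
noncomputable def rhbc1a9e3f9f592954 : CRef := CRef.mk (Pat.mk 0x10000000180000000e0000000000000000 0xc0000003c0000001f000000fe0000007b0000001a 7 8) 0 0 (step_sound _ 35 [rh5a9571250e350094, (rh71222050f2c63a3a.shift 3 0)] (by decide +kernel))
noncomputable def rh80fe703a1afc3ef6 : CRef := CRef.mk (Pat.mk 0x4000000060000000380000000000000000 0xc0000000d0000000de0000007f000000f8000000cc00000008 7 8) 0 0 (step_sound _ 166 [rh20486e0473d0c2d0, (rh5c5e593799055d58.shift 5 2)] (by decide +kernel))
noncomputable def rh52834166ddb9d13a : CRef := CRef.mk (Pat.mk 0x180000000e000000000000000000000000 0x140000001c0000001e0000007f0000001a0000000e0000003e0000001c00000004 7 7) 0 0 (step_sound _ 163 [(rh281c6819542c66e6.shift 2 0), (rh4bbf693d6319bdb7.shift 0 1), (rh68a777751bfeafdf.shift 2 2), (rhc1b5d17a350cbb83.shift 1 1)] (by decide +kernel))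
noncomputable def rhf4ff20018be44b95 : CRef := CRef.mk (Pat.mk 0x300000001c000000000000000800000000 0xc0000000c0000003e0000007c0000000f0000001c0000001c 7 7) 0 0 (step_sound _ 67 [(rh71222050f2c63a3a.shift 3 0), rhb397139c10ff981c] (by decide +kernel))
noncomputable def rh5ca4d6a5ab2c72f2 : CRef := CRef.mk (Pat.mk 0x180000000e000000000000000400000000 0x80000000a0000001b0000003e000000370000001400000010 7 6) 0 0 (step_sound _ 100 [rh6bfca2d49f843bd2, (rh87bfe8c45160c93d.shift 0 1), (rhea719cc8bd0bdd28.shift 1 1)] (by decide +kernel))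
noncomputable def rh483f1b12827519b0 : CRef := CRef.mk (Pat.mk 0x8000000380000000c00000000 0x1c0000001e000000780000003f0000007c00000070 7 7) 0 0 (step_sound _ 66 [(rh082a4b21b1673342.shift 1 0), (rh668d1876510a8d45.shift 0 1), (rh8ddec07355289b6c.shift 2 0), (rh9f705c7962e65ca6.shift 1 1)] (by decide +kernel))
noncomputable def rh8746a184b143207a : CRef := CRef.mk (Pat.mk 0x8000000380000000c0000000000000000 0x10000000140000007c0000003f0000007c0000000e0000000e 7 7) 0 0 (step_sound _ 98 [(rh0962b4e46de79b5b.shift 1 0), (rh245cfab0de74c583.shift 1 1), (rh668d1876510a8d45.shift 0 2)] (by decide +kernel))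
noncomputable def rh7e9a221777c46166 : CRef := CRef.mk (Pat.mk 0x180000000c000000000000000000000000 0xc0000000c0000003e0000007f0000007c0000000c0000000400000004 7 7) 0 0 (step_sound _ 133 [(rh18965a982d73c794.shift 2 3), rhfb74023a5a2bd835] (by decide +kernel))
noncomputable def rhd310ed859de71a1d : CRef := CRef.mk (Pat.mk 0x40000001c0000000600000000 0x20000000e0000000e0000000c0000000c0000001f0000003e0000001c 7 6) 0 0 (step_sound _ 130 [(rh35c5f1c53251aa1b.shift 1 1), (rh518d6f6eeebddcb2.shift 1 1), rh606e7f78ffeb489a] (by decide +kernel))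
noncomputable def rh806999bca8c417cb : CRef := CRef.mk (Pat.mk 0x1000000070000000180000000000000000 0x40000000f70000007f000000f80000002c00000028 7 8) 0 0 (step_sound _ 99 [(rh26e69b99bb961813.shift 2 0), (rh4c11c491f4d8ec0e.shift 2 0), (rh668d1876510a8d45.shift 1 2), rh879b9c82651b0eb4] (by decide +kernel))
noncomputable def rhd6530801147192fd : CRef := CRef.mk (Pat.mk 0x40000001c0000000600000000000000000000000000000000 0x2000000070000001f0000003e0000000f0000000e0000000c00000004 7 6) 0 0 (step_sound _ 193 [(rh05aa446b544bee25.shift 0 2), (rhc05be943fa815312.shift 1 0), (rhd652c19df8b64ee8.shift 0 2)] (by decide +kernel))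
noncomputable def rh29cad576b481bdfd : CRef := CRef.mk (Pat.mk 0x380000000c00000000 0x40000001c0000001e0000001e0000007f0000003f0000007c00000004 7 7) 0 0 (step_sound _ 99 [(rha3ee2577aed2dfc1.shift 0 1), (rhb2d999c672507e3f.shift 2 0), (rhcd32f2ed6c1181e7.shift 2 0)] (by decide +kernel))
noncomputable def rh871d79ce753c0ee6 : CRef := CRef.mk (Pat.mk 0x180000000c0000000000000000 0x1000000014000000770000007e0000007c0000002800000008 7 7) 0 0 (step_sound _ 101 [(rh18965a982d73c794.shift 2 2), rha8d0278b6e62a250] (by decide +kernel))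
noncomputable def rh211ee5040a2c84df : CRef := CRef.mk (Pat.mk 0x8000000180000000c0000000800000000 0x160000003f0000001f0000000c0000000c00000004 7 6) 0 0 (step_sound _ 34 [(rh932754581e0f4330.shift 2 0), (rheccc035946bfb2fd.shift 0 1)] (by decide +kernel))
noncomputable def rhd349b83eb7292102 : CRef := CRef.mk (Pat.mk 0x380000000c0000000000000000 0x40000001c0000001c0000001c0000003f0000003f0000007c0000000c00000008 7 7) 0 0 (step_sound _ 131 [rh667910d784635838, (rhb2d999c672507e3f.shift 2 1), (rhcd32f2ed6c1181e7.shift 2 1)] (by decide +kernel))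
noncomputable def rh10c5c87afc2de391 : CRef := CRef.mk (Pat.mk 0xc0000000700000000000000000000000000000000 0x80000000e0000000f0000003c000000070000003e0000000e0000000e0000000a 7 6) 0 0 (step_sound _ 164 [(rh18965a982d73c794.shift 1 4), rha9ce47e7b217680f] (by decide +kernel))
noncomputable def rhd13bef020f4b9915 : CRef := CRef.mk (Pat.mk 0x380000000c0000000000000000000000000000000000000000 0xc0000001f0000003c0000000c0000000c0000000c0000001c0000001c00000010 7 6) 0 0 (step_sound _ 131 [(rh000637b5a81e86aa.shift 2 2), (rh2222a27c490588f5.shift 2 0), (rh688fbb54c9d31d63.shift 0 3)] (by decide +kernel))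
noncomputable def rh679f8e4f917fabdd : CRef := CRef.mk (Pat.mk 0x180000000e0000000800000000 0x100000001c0000001c0000000e0000001f0000001e0000000e0000007c00000010 7 7) 0 0 (step_sound _ 131 [(rh14137cadce7ed032.shift 0 1), (rh325d3fb14cddc1a8.shift 1 0), (rh976a48eb1c80a12f.shift 2 1), (rh97ad1986540fd573.shift 2 1), (rhe9bf3c59c47cc9a2.shift 1 0)] (by decide +kernel))
noncomputable def rheb93c92740c49ccb : CRef := CRef.mk (Pat.mk 0x40000001c00000006000000000000000000000000 0x2000000070000001f0000003e0000003c0000001c00000018 7 6) 0 0 (step_sound _ 129 [(rh38a0850c9fea941e.shift 0 1), rh7e1df22dfabdf852] (by decide +kernel))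
noncomputable def rh112ce36214cd269d : CRef := CRef.mk (Pat.mk 0x6000000030000000200000000000000000000000000000000 0x500000007000000070000000200000006000000070000000700000006000000070000000300000001 7 3) 0 0 (step_sound _ 225 [(rh68a777751bfeafdf.shift 0 4), rh7de9f97699eea1e4, (rha087c6594f4bfb59.shift 0 3), (rhbb339bb7e4e96b38.shift 0 4)] (by decide +kernel))
noncomputable def rh7ef6d2a804ad4342 : CRef := CRef.mk (Pat.mk 0x180000000e0000000800000000 0x80000000c0000001f0000001f0000001f0000001e0000001c00000010 7 5) 0 0 (step_sound _ 131 [(rhbb339bb7e4e96b38.shift 2 1), (rhcfcb21518b2a0917.shift 0 1), (rhe63d8d7bcbe18261.shift 2 0)] (by decide +kernel))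
noncomputable def rh53fe569e573a274d : CRef := CRef.mk (Pat.mk 0x180000000e000000080000000000000000 0x200000002000000070000001f0000007e0000001f0000007800000018 7 7) 0 0 (step_sound _ 100 [(rh79ca413a1e436ec6.shift 0 2), rha37d73ec03729ca5, rhadab13ee164016a4, rhe6680a5f4c5660bb] (by decide +kernel))
noncomputable def rhd18b1fdd2bf4a298 : CRef := CRef.mk (Pat.mk 0x180000000e0000000800000000 0x14000000340000001f000000fe0000007f00000002 7 8) 0 0 (step_sound _ 68 [(rh300eedc557b86950.shift 1 1), rh4a59be183f8e90a1, (rhc6919780d26a686c.shift 1 1)] (by decide +kernel))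
noncomputable def rh7198c35631d94523 : CRef := CRef.mk (Pat.mk 0x1c000000060000000400000000 0x12000000330000001f0000003e0000000f00000008 7 6) 0 0 (step_sound _ 97 [(rh309fd0c3d364cd61.shift 0 1), rh65898ee9994bf512] (by decide +kernel))
noncomputable def rh6e6312382c15512c : CRef := CRef.mk (Pat.mk 0x40000000e00000002000000000000000000000000 0xe0000000f0000003e0000000e0000003e0000003c0000000c00000004 7 6) 0 0 (step_sound _ 194 [rh1e1b89b690aff0a6, (rh5c5e593799055d58.shift 1 3)] (by decide +kernel))
noncomputable def rh2281b9e5b05d47a6 : CRef := CRef.mk (Pat.mk 0x10000000180000000e0000000000000000 0x3000000034000000340000001f0000003e0000003300000002 7 6) 0 0 (step_sound _ 164 [(rh5c5e593799055d58.shift 3 2), rhcd3657898da9a3ec] (by decide +kernel))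
noncomputable def rhbd24b98d40af60af : CRef := CRef.mk (Pat.mk 0x10000000180000000e0000000000000000 0x1000000014000000340000001f0000003e0000002700000002 7 6) 0 0 (step_sound _ 164 [(rh5c5e593799055d58.shift 3 2), rhd9127502262c7c04] (by decide +kernel))
noncomputable def rhd4806d82162f2761 : CRef := CRef.mk (Pat.mk 0x10000000180000000e0000000000000000 0x80000000c0000000f0000001f0000001f0000001e0000000c00000008 7 5) 0 0 (step_sound _ 35 [(rh71222050f2c63a3a.shift 3 0), (rhed1d5a7317926038.shift 0 1)] (by decide +kernel))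
noncomputable def rh6a47cdba2b377be8 : CRef := CRef.mk (Pat.mk 0x8000000180000000e000000000000000000000000 0x200000002000000060000000f0000001e0000000e0000007c0000001800000010 7 7) 0 0 (step_sound _ 67 [(rh8ff3dde5b1c639e0.shift 2 0), (rh970969943afcb7d2.shift 0 1), (rhb0c6196f710d9a93.shift 1 1)] (by decide +kernel))
noncomputable def rh8ad58e4830a5af4f : CRef := CRef.mk (Pat.mk 0x8000000380000000c000000000000000000000000 0x40000000f0000003f0000007c000000780000003800000030 7 7) 0 0 (step_sound _ 130 [(rh06d16ed1005b3fa2.shift 0 3), (rh38a0850c9fea941e.shift 1 1), (rh7e1df22dfabdf852.shift 1 0)] (by decide +kernel))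
noncomputable def rhfba2e5dc3588605a : CRef := CRef.mk (Pat.mk 0xc000000070000000000000000000000000000000000000000 0xa0000000e0000000e0000000c000000070000003e0000000c0000000e0000000e00000002 7 6) 0 0 (step_sound _ 130 [(rh215e11e099257d75.shift 2 3), (rh3f069944e50c0cbf.shift 0 1), (rh4f3c983e7b2d8da3.shift 1 0), (rhfd156a95af17dab3.shift 0 3)] (by decide +kernel))
noncomputable def rh8ab8c3b1dfb87d77 : CRef := CRef.mk (Pat.mk 0x6000000030000000200000000000000000000000000000000 0x3000000030000000300000006000000070000000700000006000000070000000300000001 7 3) 0 0 (step_sound _ 225 [(rh5abfc4c9d959be03.shift 0 3), rh7de9f97699eea1e4, (rha77f215723363df0.shift 0 4), (rhbb339bb7e4e96b38.shift 0 4)] (by decide +kernel))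
noncomputable def rhb77aff98ba940b5a : CRef := CRef.mk (Pat.mk 0x8000000380000000c000000000000000000000000 0x6000000060000007f0000003f0000007c000000700000003000000030 7 7) 0 0 (step_sound _ 130 [(rh06d16ed1005b3fa2.shift 0 3), (rh2e2af70cc0a250e3.shift 1 3), (rh7e1df22dfabdf852.shift 1 0)] (by decide +kernel))
noncomputable def rh63ebd70aa2d21d60 : CRef := CRef.mk (Pat.mk 0x180000000e0000000000000000 0x10000000180000001c0000000c0000001f0000003e0000003700000012 7 6) 0 0 (step_sound _ 131 [(rh7a7e08304268422e.shift 2 1), (rhbb339bb7e4e96b38.shift 2 1), rhed7672605ccf0247] (by decide +kernel))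
noncomputable def rh9836c024ac3cbedb : CRef := CRef.mk (Pat.mk 0x1c00000006000000040000000000000000 0x10000000320000001f0000003e0000000f0000000c00000004 7 6) 0 0 (step_sound _ 129 [(rh3cb04db3dd2b6a55.shift 1 0), (rh65898ee9994bf512.shift 0 1)] (by decide +kernel))
noncomputable def rh1679cccaa3d4ebe3 : CRef := CRef.mk (Pat.mk 0x100000007000000018000000000000000000000000 0x8000000380000003800000030000000ff0000007f00000018000000300000003000000030 7 8) 0 0 (step_sound _ 196 [(rh35c5f1c53251aa1b.shift 3 3), (rh73fa94f14dc84edb.shift 0 3), (rh9a369cb82ea472da.shift 3 3), (rhcb8e97e388f6d328.shift 3 0)] (by decide +kernel))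
noncomputable def rheb31752aef35e3d3 : CRef := CRef.mk (Pat.mk 0x20000000e000000030000000000000000000000000000000000000000 0x4000000060000000e0000000f0000001f0000000e000000070000000300000001 7 5) 0 0 (step_sound _ 129 [(rh3a2447ed8c5fdc2c.shift 0 3), rh7de9f97699eea1e4, (rha707fb719e87fe6e.shift 1 3)] (by decide +kernel))
noncomputable def rh24b495f5624e440c : CRef := CRef.mk (Pat.mk 0x10000000700000001800000000 0x20000000380000003c000000f70000007f0000001800000010 7 8) 0 0 (step_sound _ 132 [(rh305945700f20b255.shift 2 0), (rh73fa94f14dc84edb.shift 0 1), (rh9a369cb82ea472da.shift 3 1)] (by decide +kernel))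
noncomputable def rh3317842dbf93ac21 : CRef := CRef.mk (Pat.mk 0x700000001800000000 0x1c0000001c000000fe0000007f0000007800000028 7 8) 0 0 (step_sound _ 100 [rh533bca98b060ca77, (rhbb339bb7e4e96b38.shift 3 0), (rhdafe67386ae33e6e.shift 0 1)] (by decide +kernel))
noncomputable def rh25efe895d4e37a89 : CRef := CRef.mk (Pat.mk 0x30000000180000000000000000 0x2000000028000000ff000000ff000000180000001000000010 7 8) 0 0 (step_sound _ 102 [(rh18965a982d73c794.shift 3 2), rh3b06560c6c7a4c44] (by decide +kernel))
noncomputable def rh4aaccfe0bab503cb : CRef := CRef.mk (Pat.mk 0x6000000030000000200000000000000000000000000000000 0x500000007000000070000000200000006000000070000000700000006000000070000000300000001 7 3) 0 0 (step_sound _ 225 [(rh57a06b43e72703e1.shift 0 4), (rh68a777751bfeafdf.shift 0 4), rh7de9f97699eea1e4, (rha087c6594f4bfb59.shift 0 3), (rhbb339bb7e4e96b38.shift 0 4)] (by decide +kernel))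
noncomputable def rhef209412714860a0 : CRef := CRef.mk (Pat.mk 0x10000000100000001c0000000000000000 0x1000000017000000ff000000fc00000028 7 8) 0 0 (step_sound _ 36 [rh72fb81b1f4fc8ce5, rhd3969ba2fee7b94e, (rhd9397e4126e81439.shift 2 0)] (by decide +kernel))
noncomputable def rh3322b3af2ef2f62f : CRef := CRef.mk (Pat.mk 0x400000004000000070000000000000000 0xe0000000e0000000e0000001c0000000f0000001c00000008 7 5) 0 0 (step_sound _ 67 [rh625dde73e665edc8, (rhba04d77b039f69d9.shift 0 1), (rhe2632f2447e1299b.shift 0 1)] (by decide +kernel))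
noncomputable def rh0eb4af2c02bb0b33 : CRef := CRef.mk (Pat.mk 0x1c000000070000000000000000000000000000000000000000 0x80000000a0000000f0000001c000000070000003e0000000c0000000e0000000e00000002 7 6) 0 0 (step_sound _ 130 [(rh215e11e099257d75.shift 2 3), (rh3f069944e50c0cbf.shift 0 1), (rh4f3c983e7b2d8da3.shift 1 0), (rhae7c0d2a25043073.shift 0 3)] (by decide +kernel))
noncomputable def rh41a6a629ed68db5c : CRef := CRef.mk (Pat.mk 0x80000001c000000060000000000000000 0x20000003b0000001e000000360000003c0000001c 7 6) 0 0 (step_sound _ 34 [rh135f475ddbc1bc26, (rh71222050f2c63a3a.shift 2 0)] (by decide +kernel))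
noncomputable def rh7be56a6200482899 : CRef := CRef.mk (Pat.mk 0x180000000e0000000800000000 0x80000000c0000001f0000001f0000001f0000000e0000003c00000010 7 6) 0 0 (step_sound _ 131 [(rhdfa1edaa5d35edb5.shift 0 1), (rhe63d8d7bcbe18261.shift 2 0), (rhe9bf3c59c47cc9a2.shift 1 0)] (by decide +kernel))
noncomputable def rh57d7be9962961da5 : CRef := CRef.mk (Pat.mk 0x1c000000060000000000000000 0x8000000080000003f0000001f000000070000000400000004 7 6) 0 0 (step_sound _ 97 [rh67c8e4f76257fd03, (rheb0810cc63b001d8.shift 0 2)] (by decide +kernel))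
noncomputable def rhc5700c7af871fcc0 : CRef := CRef.mk (Pat.mk 0x80000000e0000000400000004 0x2000001db000000fe0000007f00000004 7 9) 0 0 (step_sound _ 68 [(rhc3f1fdc610b622e4.shift 1 1), rhe4f9133a81c1dbc5] (by decide +kernel))
noncomputable def rh19d1ceefbb82180f : CRef := CRef.mk (Pat.mk 0x8000000080000000c0000000400000000 0x160000003f0000003f0000000f0000003c00000010 7 6) 0 0 (step_sound _ 35 [(rh7ec372de7fdf51d0.shift 0 1), rhfe557af9112f51d6] (by decide +kernel))
noncomputable def rh06e1ce0a4f66cb8c : CRef := CRef.mk (Pat.mk 0x40000000c000000060000000200000000 0x30000000b0000003f0000003e0000003e0000003300000011 7 6) 0 0 (step_sound _ 100 [(rh18965a982d73c794.shift 1 2), rh24c51386b595b117] (by decide +kernel))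
noncomputable def rh01d1663f36a1afd5 : CRef := CRef.mk (Pat.mk 0x2000000070000000100000001000000000 0xf70000007e000000fe000000f000000060 7 8) 0 0 (step_sound _ 99 [(rh01d64f4b25e9d366.shift 2 2), (rh20a20a2b23f2ba5f.shift 2 0), (rhc6a206db04c1b3f8.shift 0 2), (rhec46bd5500c722c9.shift 2 3)] (by decide +kernel))
noncomputable def rhba38e277003d3d30 : CRef := CRef.mk (Pat.mk 0x180000000e0000000800000000 0x1c0000003c0000001f0000001e0000003b00000012 7 6) 0 0 (step_sound _ 68 [rh4a59be183f8e90a1, (rhea719cc8bd0bdd28.shift 1 0)] (by decide +kernel))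
noncomputable def rhebef158356850d2b : CRef := CRef.mk (Pat.mk 0x70000000180000001000000000 0x8000000ef0000007f000000f8000000f000000060 7 8) 0 0 (step_sound _ 99 [(rh04adde65229dd8ca.shift 0 2), (rh309fd0c3d364cd61.shift 2 1), (rhe05b1d4d631ebf99.shift 2 0)] (by decide +kernel))
noncomputable def rh3dafd5a7733ff616 : CRef := CRef.mk (Pat.mk 0x18000000080000000800000000 0x1c0000001f0000007c000000780000001e00000014 7 7) 0 0 (step_sound _ 131 [rh0e5509c3e018ebea, (rh3ca4c10fdf355329.shift 1 0), (rh5aa5e9dc84124dd6.shift 0 1)] (by decide +kernel))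
noncomputable def rh4ea98ba0f1316f3e : CRef := CRef.mk (Pat.mk 0x180000000e0000000800000000 0xc0000001e0000001f0000001f0000001e0000000c00000004 7 5) 0 0 (step_sound _ 131 [(rh03dfdf12d5937476.shift 2 0), rh4dbdb09aea2f12ff, (rha86cc6850bd41e55.shift 2 1)] (by decide +kernel))
noncomputable def rhc76cff7a47b8d53e : CRef := CRef.mk (Pat.mk 0x7000000010000000100000000000000000 0xf0000007f000000fc000000100000001000000010 7 8) 0 0 (step_sound _ 131 [(rh132883a60cd8aed8.shift 2 1), (rh4054a53c669f4821.shift 2 0), (rhc833175dd2fdb85b.shift 0 3)] (by decide +kernel))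
noncomputable def rh992a279d675249dc : CRef := CRef.mk (Pat.mk 0x7000000020000000200000002000000000 0x38e000001fe000003bf000000300000003000000010 7 10) 0 0 (step_sound _ 131 [(rh10e3074efe589034.shift 2 3), (rh61c422903d1b2f65.shift 2 0), (rh775ca1963e850b80.shift 1 3), rha439821ebb26c5ce, (rhdfecfd54cee84037.shift 2 0)] (by decide +kernel))
noncomputable def rhe881977283b50b1c : CRef := CRef.mk (Pat.mk 0x800000008000000080000000800000000 0x800000008000000ff0000007e000000f4 7 8) 0 0 (step_sound _ 36 [(rh55afc6a59410cf00.shift 3 0), rh6286d58551d48457] (by decide +kernel))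
noncomputable def rhb1d0d0f71bd156d3 : CRef := CRef.mk (Pat.mk 0x180000000e000000080000000000000000 0x1f0000007e0000007f0000003000000030 7 7) 0 0 (step_sound _ 100 [(rh300eedc557b86950.shift 1 2), (rh79ca413a1e436ec6.shift 0 2), rhc62656d98e2efc3b, (rhe401600d466b97cd.shift 0 2)] (by decide +kernel))
noncomputable def rh19915eed2189e7f2 : CRef := CRef.mk (Pat.mk 0x70000000180000001000000000 0x48000000cf0000007f000000f80000003c00000020 7 8) 0 0 (step_sound _ 99 [(rh04adde65229dd8ca.shift 0 2), (rh309fd0c3d364cd61.shift 2 1), (rh65898ee9994bf512.shift 2 0)] (by decide +kernel))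
noncomputable def rh0f3e8649d339e19a : CRef := CRef.mk (Pat.mk 0x40000000e0000000000000000 0x2000000030000007f0000007f000000e400000004 7 8) 0 0 (step_sound _ 68 [(rha1f05977cb30c9d7.shift 1 1), (rhe3060b190bc0bc78.shift 0 2), rhf9d62ceb3254e4a2] (by decide +kernel))
noncomputable def rhd6bd806ba39ce876 : CRef := CRef.mk (Pat.mk 0x10000000100000003800000008 0xe0000001e000000770000003e0000000f 7 7) 0 0 (step_sound _ 34 [(rh010ba7c809afa7e3.shift 1 0), rh592c7139d2c44767, (rhec46bd5500c722c9.shift 1 1)] (by decide +kernel))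
noncomputable def rh94c986cd7c09ed58 : CRef := CRef.mk (Pat.mk 0x80000000c0000000400000000 0xc0000000c0000000c0000003f0000003f0000001a 7 6) 0 0 (step_sound _ 131 [(rh5c5e593799055d58.shift 2 1), rhefb31357408b760c] (by decide +kernel))
noncomputable def rhc84d4d4d25af9de7 : CRef := CRef.mk (Pat.mk 0x200000007000000000 0x3e000001fe000003c7 7 10) 0 0 (step_sound _ 7 [(rh20aaab6250709fa0.shift 3 0), rh45a40def5bcb8fb4, (rh71efda916732b25a.shift 3 0)] (by decide +kernel))
noncomputable def rh7073cfec9de6edf1 : CRef := CRef.mk (Pat.mk 0x100000003800000008 0x6000000060000007f0000003e0000000f 7 7) 0 0 (step_sound _ 34 [(rh2841e6906e50f5ad.shift 1 0), rh592c7139d2c44767, (rhec46bd5500c722c9.shift 1 1)] (by decide +kernel))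
noncomputable def rh193f98fc2a701e26 : CRef := CRef.mk (Pat.mk 0x4000000040000001600000002000000000000000000000000 0x140000003c0000001e0000003f000000380000003800000020 7 6) 0 0 (step_sound _ 131 [(rhe0822349ed747ae0.shift 1 0), (rheb0810cc63b001d8.shift 0 3)] (by decide +kernel))
noncomputable def rh8934dc26b9176290 : CRef := CRef.mk (Pat.mk 0x1000000010000000180000000c0000000000000000 0x12000000330000001f0000003f0000003400000004 7 6) 0 0 (step_sound _ 65 [(rh53b3c253cb0c65f4.shift 0 2), rhe070bd604e896104] (by decide +kernel))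
noncomputable def rha2e79f51a4df2c83 : CRef := CRef.mk (Pat.mk 0x80000001e000000040000000000000000 0x3b0000001e0000003f0000003000000030 7 6) 0 0 (step_sound _ 65 [rh89215ef90278b247, (rheb0810cc63b001d8.shift 0 2)] (by decide +kernel))
noncomputable def rh73d387a887a1e510 : CRef := CRef.mk (Pat.mk 0x80000001e00000004 0x1db000000fe0000007c 7 9) 0 0 (step_sound _ 65 [(rh3244c3cc8379b070.shift 0 1), (rhc3f1fdc610b622e4.shift 1 0)] (by decide +kernel))
noncomputable def rh986931bf4806d074 : CRef := CRef.mk (Pat.mk 0x2000000030000000100000000000000000 0x800000008000001ef000000fe000001df0000001000000010 7 9) 0 0 (step_sound _ 36 [(rh49f566ae2376a2d7.shift 0 1), (rh71222050f2c63a3a.shift 4 0)] (by decide +kernel))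
noncomputable def rh556d3f4e81af6c72 : CRef := CRef.mk (Pat.mk 0x20000000200000003000000018 0x1c0000003c000000ee000000ff00000038 7 8) 0 0 (step_sound _ 38 [(rh18965a982d73c794.shift 3 0), rhcb771e69246e53ac] (by decide +kernel))
noncomputable def rhfe19084a9d8fc411 : CRef := CRef.mk (Pat.mk 0x1000000010000000180000000c0000000000000000 0x280000003e000000f30000001f0000003f0000001400000004 7 8) 0 0 (step_sound _ 65 [rh3ef9c1c3100ef3b0, (rh53b3c253cb0c65f4.shift 0 2)] (by decide +kernel))
noncomputable def rh7d88c99c88a13827 : CRef := CRef.mk (Pat.mk 0x180000000800000008000000000000000000000000 0x40000000e0000007c0000000f0000007c0000001e0000001c00000004 7 7) 0 0 (step_sound _ 66 [(rh02ca3590c4af44a8.shift 1 1), (rh544d3caba1e1e2bb.shift 2 0), (rhcb50d15eba0fed68.shift 0 1), (rhfcd1a0faed0b2ebe.shift 1 2)] (by decide +kernel))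
noncomputable def rh6095e21d089c04b5 : CRef := CRef.mk (Pat.mk 0xc0000000400000004000000000000000000000000 0xa0000000e0000000e000000070000003e0000000600000006000000060000000600000002 7 6) 0 0 (step_sound _ 194 [(rh193da7fc9e1674f1.shift 1 2), (rh8fab73097cf3a8c4.shift 0 2), (rhe520c97f67e4a7f2.shift 1 0)] (by decide +kernel))
noncomputable def rha55207fd19a4eef9 : CRef := CRef.mk (Pat.mk 0xc00000004000000040000000000000000 0xe0000000e000000040000003c0000000f0000000a 7 6) 0 0 (step_sound _ 34 [(rh2f68792b6b779e96.shift 2 1), rh3d8d68a896ef6211] (by decide +kernel))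
noncomputable def rhfb6a9d73b01d02e8 : CRef := CRef.mk (Pat.mk 0xe0000000400000004 0x200000002000000f30000007e0000007e00000004 7 8) 0 0 (step_sound _ 97 [(rh7414e988019ffba0.shift 0 1), (rhd2c60c0a497faff6.shift 0 1), (rhe072fffdd2fccf38.shift 1 0)] (by decide +kernel))
noncomputable def rhe6f8715ed3b2ac19 : CRef := CRef.mk (Pat.mk 0x200000002000000030000000100000000000000000 0x20000003bf000001fe000003fe0000004000000040 7 10) 0 0 (step_sound _ 102 [rh153f59d0a20e2512, (rh6476892f2a819723.shift 3 2), (rhd9126a23a67e265c.shift 3 0)] (by decide +kernel))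
noncomputable def rhe42f480595bcc5b7 : CRef := CRef.mk (Pat.mk 0x1c0000000700000000000000000000000000000000 0x80000000c0000001c0000001c000000170000003e0000001e0000000e0000000a 7 6) 0 0 (step_sound _ 98 [(rh215e11e099257d75.shift 2 2), rh7ebd7cfa8708a818, (rhffb8e5993241bf15.shift 1 0)] (by decide +kernel))
noncomputable def rh90617e255318d2b0 : CRef := CRef.mk (Pat.mk 0x180000000e000000100000000000000000 0x20000000300000001f0000001e000000380000001800000018 7 6) 0 0 (step_sound _ 100 [rh69ddb689a2d405ae, (rhe25b0a99195a5d59.shift 1 2)] (by decide +kernel))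
noncomputable def rha740efe0f92742d1 : CRef := CRef.mk (Pat.mk 0x180000000e0000001000000000 0x18000000380000001f0000003e0000001800000018 7 6) 0 0 (step_sound _ 131 [(rh390a8df03c6c5a62.shift 3 0), rh49cfaa104330abee, (rh8f4050c06a082165.shift 3 0)] (by decide +kernel))
noncomputable def rh2d1da28961c102c5 : CRef := CRef.mk (Pat.mk 0xc0000000600000008000000000000000000000000 0x20000000e0000000e0000000c0000000e000000060000003c0000000f0000000e0000000a 7 6) 0 0 (step_sound _ 98 [(rh1165db1bbd06e8d5.shift 1 2), (rh5e5fa176a38538a9.shift 0 1), (rh70e33bfdf511e144.shift 2 0), (rhf6237156212ce777.shift 1 0)] (by decide +kernel))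
noncomputable def rh9b169f90753df4f9 : CRef := CRef.mk (Pat.mk 0x80000001c000000060000000000000000 0x380000001f0000003e0000003c0000001c 7 6) 0 0 (step_sound _ 34 [rh0e026ddf4b7fd3ab, (rh71222050f2c63a3a.shift 2 0)] (by decide +kernel))
noncomputable def rha54028fce028f21e : CRef := CRef.mk (Pat.mk 0x50000000e000000000000000000000000 0x80000000f0000007e000000760000000400000004 7 7) 0 0 (step_sound _ 100 [(rh3f8766e6ecb455ce.shift 0 3), (rhc9e40dcac8cf7114.shift 1 0)] (by decide +kernel))
noncomputable def rhb79a3132c31dd656 : CRef := CRef.mk (Pat.mk 0x80000000e000000040000000000000000 0xe0000007e0000007f0000003c00000014 7 7) 0 0 (step_sound _ 34 [(rh71222050f2c63a3a.shift 2 0), rh794433440c78b4c3] (by decide +kernel))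
noncomputable def rh8da4663813f516e7 : CRef := CRef.mk (Pat.mk 0x80000000e000000040000000000000000 0xe80000007e0000007f0000003c00000014 7 8) 0 0 (step_sound _ 34 [rh56f409cd8999f1c6, (rh71222050f2c63a3a.shift 2 0)] (by decide +kernel))
noncomputable def rhc7e2e831e6e7bd1e : CRef := CRef.mk (Pat.mk 0x80000000e000000040000000400000000 0x780000003e000000770000003c00000018 7 7) 0 0 (step_sound _ 100 [rh71a719594bdd40c9, (rha93a5dd541ab8209.shift 1 2), (rhaf9f2efc81a8312b.shift 0 2)] (by decide +kernel))
noncomputable def rhc899bd5f03945d61 : CRef := CRef.mk (Pat.mk 0x100000001c000000080000000800000000 0x80000000800000028000000780000001c0000007f0000003e00000014 7 7) 0 0 (step_sound _ 131 [(rh0a19b74020e11fa8.shift 1 0), (rh4f402ce420c5c06c.shift 2 0), (rhea90e7358341a1a4.shift 2 0), rhf3d11b058448e968] (by decide +kernel))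
noncomputable def rhb2642359dcb79944 : CRef := CRef.mk (Pat.mk 0x8000000080000000e00000004000000000000000000000000 0x140000003c0000001f0000000e0000003e0000001a0000001800000018 7 6) 0 0 (step_sound _ 99 [(rh21f08e622109e141.shift 0 2), (rh42afa1af9fffa0e1.shift 1 2), (rhd9164732ba75fd1b.shift 2 0)] (by decide +kernel))
noncomputable def rh9fe2ebcaabf6daf0 : CRef := CRef.mk (Pat.mk 0xe0000000300000001000000000000000000000000 0x6000000060000000f0000001b0000001f0000001e0000000600000002 7 5) 0 0 (step_sound _ 193 [(rh5c5e593799055d58.shift 0 3), rh802e5b16603ddc3d] (by decide +kernel))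
noncomputable def rha6793f40e639e854 : CRef := CRef.mk (Pat.mk 0x4000000030000000000000000000000000 0x80000000c000001ff0000007e0000001f0000000c00000008 7 9) 0 0 (step_sound _ 99 [(rh5e601430b8bc2e39.shift 0 2), (rhba3fefaa894766da.shift 3 3), rhf02c8537ba00a4d2] (by decide +kernel))
noncomputable def rh55f550e899decacd : CRef := CRef.mk (Pat.mk 0x4000000030000000000000000000000000 0x4000001f70000007e0000007f0000000800000008 7 9) 0 0 (step_sound _ 99 [(rh5e601430b8bc2e39.shift 0 2), rh9cfc0a016ed330b5, (rhba3fefaa894766da.shift 3 3)] (by decide +kernel))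
noncomputable def rh7aa845c2d540eae1 : CRef := CRef.mk (Pat.mk 0x10000000180000000e0000000000000000 0x60000000e0000003f0000001f0000001e0000003800000018 7 6) 0 0 (step_sound _ 35 [rh073c177bd9190a2a, (rh71222050f2c63a3a.shift 3 0)] (by decide +kernel))
noncomputable def rhb3081045920091d1 : CRef := CRef.mk (Pat.mk 0x180000000e000000000000000000000000 0x180000001a0000001b000000fe0000007f0000001c00000004 7 8) 0 0 (step_sound _ 66 [rh2cfc87a36ba8132d, (rh471c9edde87ddc5c.shift 1 1), rhc1abf54f7d403429, (rhcf80391c5046a495.shift 2 0)] (by decide +kernel))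
noncomputable def rh9c72ecc420beea00 : CRef := CRef.mk (Pat.mk 0x80000001c0000000600000000 0x1c0000001c0000003c0000001f0000001e0000001b 7 6) 0 0 (step_sound _ 131 [rh05d66663490d46ce, (rh5c5e593799055d58.shift 2 1)] (by decide +kernel))
noncomputable def rh097199a07cf9355d : CRef := CRef.mk (Pat.mk 0x380000000c000000040000000000000000 0x60000003f0000003c0000000f0000003c0000001c 7 6) 0 0 (step_sound _ 34 [(rh71222050f2c63a3a.shift 2 0), rheb8d7b7567064929] (by decide +kernel))
noncomputable def rh6afe90e367f5e049 : CRef := CRef.mk (Pat.mk 0x80000001c00000006000000000000000000000000 0xe0000000f0000003c0000001c0000001e0000001a0000001800000008 7 6) 0 0 (step_sound _ 195 [(rh5c5e593799055d58.shift 2 3), rhb59a214e4dc22cb7] (by decide +kernel))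
noncomputable def rh383bcc50dd35300d : CRef := CRef.mk (Pat.mk 0x700000001800000000 0x280000003c0000003c000000fe0000007f0000007800000008 7 8) 0 0 (step_sound _ 100 [(rh68a777751bfeafdf.shift 3 0), (rhcd32f2ed6c1181e7.shift 3 0), (rhdafe67386ae33e6e.shift 0 1)] (by decide +kernel))
noncomputable def rhae3b05d4385c6977 : CRef := CRef.mk (Pat.mk 0x30000000180000000000000000 0x8000000ef000000ff000000780000001000000010 7 8) 0 0 (step_sound _ 102 [(rh18965a982d73c794.shift 3 2), rhe43359d1c2c98f91] (by decide +kernel))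
noncomputable def rh3a25617c654e9ad4 : CRef := CRef.mk (Pat.mk 0x8000000080000000c0000000600000000 0x160000001f0000007c0000000c0000001e0000001a 7 7) 0 0 (step_sound _ 130 [(rh30df92a078d433d0.shift 1 0), (rh4c9eac6bf6ab9a81.shift 1 0), rhc3a9559c72b00d0b] (by decide +kernel))
noncomputable def rha912ad3ff9809524 : CRef := CRef.mk (Pat.mk 0x1c00000006000000000000000000000000 0x40000000e0000000f0000001e0000001e0000003e0000001e0000000a 7 6) 0 0 (step_sound _ 162 [(rh4e19592082f515f6.shift 1 0), (rh97bfcfad088be050.shift 0 1), (rhcd32f2ed6c1181e7.shift 1 2)] (by decide +kernel))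
noncomputable def rh95f9d8d9664b3580 : CRef := CRef.mk (Pat.mk 0x180000000e000000000000000000000000 0x140000001c0000001e0000007f0000001a0000000e0000003e0000001c00000014 7 7) 0 0 (step_sound _ 163 [(rh0fc40373e394f21b.shift 1 0), (rh4bbf693d6319bdb7.shift 0 1), (rh68a777751bfeafdf.shift 2 2)] (by decide +kernel))
noncomputable def rha06a91ca4b094b6c : CRef := CRef.mk (Pat.mk 0x100000000e000000100000000000000000 0x14000000140000003f0000001f0000000b0000000a 7 6) 0 0 (step_sound _ 67 [rhb124eef4af3973b0, (rhb739f4f82bb681b4.shift 0 2)] (by decide +kernel))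
noncomputable def rh2a033fa8425e5954 : CRef := CRef.mk (Pat.mk 0x2000000030000000200000000000000000000000000000000 0x5000000070000000700000002000000030000000300000007000000070000000700000001 7 3) 0 0 (step_sound _ 97 [(rh1726a00b0a8befd0.shift 0 2), (rh8cdd36b03d57a2f6.shift 0 1), (rh8ff71bc284510f75.shift 0 1), rhbaff7ec0fcc038ba] (by decide +kernel))
noncomputable def rhad84efa456ee1147 : CRef := CRef.mk (Pat.mk 0x180000000c000000040000000400000000 0x400000006000000160000001e0000000f0000003e0000000f0000000a 7 6) 0 0 (step_sound _ 97 [rh3e38eb79a8ff3f02, (rh53b3c253cb0c65f4.shift 0 3)] (by decide +kernel))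
noncomputable def rh85aeb47599f37174 : CRef := CRef.mk (Pat.mk 0x8000000080000000c0000000400000000 0x170000001f0000007c0000003f0000000f0000000a 7 7) 0 0 (step_sound _ 35 [rh04aa474d63f24212, (rh1bd0c14c4de1ef4d.shift 1 0), (rh3636a0a30050ed49.shift 0 1), rh4983ef42b6c40cbc, rha10abbb88ab9db0f] (by decide +kernel))
noncomputable def rh6410530e1aa906fd : CRef := CRef.mk (Pat.mk 0x80000001c00000006000000000000000000000000 0xc0000000c0000001c0000001c0000007e0000001b0000001800000008 7 7) 0 0 (step_sound _ 195 [(rh5c5e593799055d58.shift 2 3), rhc6b83ece5e5e5703] (by decide +kernel))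
noncomputable def rh1778dfecb45e8cef : CRef := CRef.mk (Pat.mk 0x80000001c0000000600000000000000000000000000000000 0x180000001c0000003e0000003f0000003f0000002a00000020 7 6) 0 0 (step_sound _ 98 [rh45023f76c71d2168, (rh71222050f2c63a3a.shift 2 2)] (by decide +kernel))
noncomputable def rh2bf5dd730bd01fd0 : CRef := CRef.mk (Pat.mk 0x180000000e000000040000000000000000 0x1c000000fe000000770000003c0000001c 7 8) 0 0 (step_sound _ 34 [rh21f347bcbe2825ae, (rh71222050f2c63a3a.shift 2 0)] (by decide +kernel))
noncomputable def rhf9eb21108079a15b : CRef := CRef.mk (Pat.mk 0xc0000000700000000000000000000000000000000 0xa0000000e0000000e0000000c0000000e000000070000001e0000000e0000000e0000000e 7 5) 0 0 (step_sound _ 98 [(rh1518b939c428b973.shift 1 0), (rh4a6f9d53d0edabe6.shift 1 0), (rh65fb53030b4207ec.shift 1 0), (rh7d2a61ed2fa6da49.shift 0 2), (rhffb8e5993241bf15.shift 1 0)] (by decide +kernel))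
noncomputable def rhc05334cb2b2282f5 : CRef := CRef.mk (Pat.mk 0xe000000030000000200000000 0x30000000300000007000000060000000e0000000f0000001f0000000d 7 5) 0 0 (step_sound _ 129 [rh03dfdf12d5937476, rh226ee65b5446c4fd, rh3a2447ed8c5fdc2c, rhdb457e0fcd7358da] (by decide +kernel))
noncomputable def rh3b2ea219f83edefe : CRef := CRef.mk (Pat.mk 0x800000018000000080000000800000000 0xc0000000c000000780000000f0000003c00000014 7 7) 0 0 (step_sound _ 130 [(rh50fbb5868c909700.shift 2 1), rhff76751b9e64b23d] (by decide +kernel))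
noncomputable def rh9c9d5eacd602763e : CRef := CRef.mk (Pat.mk 0x400000006000000030000000200000000 0x2000000060000001e000000070000001f0000001d 7 5) 0 0 (step_sound _ 99 [(rh18965a982d73c794.shift 0 2), rhbaf9ef6cd73c29fd] (by decide +kernel))
noncomputable def rhbfdce888b8542834 : CRef := CRef.mk (Pat.mk 0x1000000018000000080000000800000000 0x8000000080000002c0000007c0000001e0000007f0000007e00000034 7 7) 0 0 (step_sound _ 131 [(rh60f7890073fd1121.shift 1 0), rh7104db73f0b504c8, (rhad2e5f3a7ec95118.shift 2 0), (rhc71ed80c6d39935c.shift 1 0), (rhd802bb8339359eae.shift 1 0), (rhea90e7358341a1a4.shift 2 0)] (by decide +kernel))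
noncomputable def rh431e4f25aceb5b10 : CRef := CRef.mk (Pat.mk 0x80000000c0000000400000000 0x60000001e0000007f0000003e0000000f0000003e0000001a 7 7) 0 0 (step_sound _ 131 [(rh5c5e593799055d58.shift 2 1), rhe1eeebb7e793c63b] (by decide +kernel))
noncomputable def rh1cbb520b38c3ed8a : CRef := CRef.mk (Pat.mk 0x1c00000006000000000000000000000000 0xa0000000e0000000e0000003f0000001f0000003e0000003a0000001000000010 7 6) 0 0 (step_sound _ 194 [(rh34278e2214dbf1a2.shift 0 2), (rh51f3d73fa267b352.shift 1 2), rh57ed4e1cfda4b497] (by decide +kernel))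
noncomputable def rhf64cbaed4c8b2f80 : CRef := CRef.mk (Pat.mk 0x180000000c0000000000000000 0x8000000080000001e000000ff000000f700000010 7 8) 0 0 (step_sound _ 65 [(rh53b3c253cb0c65f4.shift 0 2), rhe73e09209f36e2d0] (by decide +kernel))
noncomputable def rhdcf447e011c02e60 : CRef := CRef.mk (Pat.mk 0x380000000c000000000000000000000000 0x140000001c0000001e0000007f000000380000000c0000001c0000001c00000014 7 7) 0 0 (step_sound _ 163 [(rh281c6819542c66e6.shift 2 0), (rh32431e66bbf434a4.shift 2 2), rh773388f5d93182f7, (rhd3427edfe1bb73fe.shift 1 0)] (by decide +kernel))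
noncomputable def rh5e1ef7b654ff3642 : CRef := CRef.mk (Pat.mk 0x180000000e0000000000000000 0x180000001800000018000000fe000000ff0000001c 7 8) 0 0 (step_sound _ 68 [(rha1eb337eeb07c2e7.shift 0 1), rhaef10c6fccb894fe, (rhea719cc8bd0bdd28.shift 1 0)] (by decide +kernel))
noncomputable def rh76d50900e97466be : CRef := CRef.mk (Pat.mk 0xc000000060000000000000000 0x20000000a0000003b0000003f0000003e0000003400000020 7 6) 0 0 (step_sound _ 100 [(rh18965a982d73c794.shift 1 2), rh74cf62e90e849fc2] (by decide +kernel))
noncomputable def rhb4f056d5be486737 : CRef := CRef.mk (Pat.mk 0x180000000e000000080000000000000000 0x1c000000fe0000007f000000fc0000003c 7 8) 0 0 (step_sound _ 100 [(rh5f68d4d802450994.shift 1 2), (rh914e6c6b2714f6f5.shift 1 0), (rhb447f348b8f2aaa5.shift 0 2), (rhe7196fc96509c637.shift 1 0)] (by decide +kernel))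
noncomputable def rh082e1dd03057997c : CRef := CRef.mk (Pat.mk 0x180000000e000000080000000000000000 0x10000000100000001c000000fe000000ff0000003000000030 7 8) 0 0 (step_sound _ 100 [(rh242dfbe4e7098cac.shift 1 2), (rh5a591c1cd3813a26.shift 0 2), (rh76c4edc656936505.shift 1 2), (rhb447f348b8f2aaa5.shift 0 2), rhd3114851a34382be] (by decide +kernel))
noncomputable def rh21073e81c29d5207 : CRef := CRef.mk (Pat.mk 0x180000000c000000080000000000000000 0x4000000040000001f0000007f0000007f0000003200000030 7 7) 0 0 (step_sound _ 97 [(rh53b3c253cb0c65f4.shift 0 3), rhd811802aff543e30] (by decide +kernel))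
noncomputable def rhf655a4b5a133708d : CRef := CRef.mk (Pat.mk 0x10000000100000001800000008000000000000000000000000 0x800000018000000180000007e0000007f000000370000003000000010 7 7) 0 0 (step_sound _ 98 [(rh0bb882ba86b2372d.shift 0 3), (rh707095ba11024fc9.shift 0 2), (rhbe788b914a0ed500.shift 1 0)] (by decide +kernel))
noncomputable def rhd154e1aa6ca2bfda : CRef := CRef.mk (Pat.mk 0xc00000007000000000000000000000000 0x80000000e0000000e0000000e0000000e0000000f0000003c0000000c0000000c 7 6) 0 0 (step_sound _ 66 [(rh000637b5a81e86aa.shift 1 0), rh7bbc308168ad65a6, (rha4a0a2874a9f7380.shift 0 1)] (by decide +kernel))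
noncomputable def rh51b1dee612845e5c : CRef := CRef.mk (Pat.mk 0x380000000c00000000000000000000000000000000 0x100000001c0000001e000000380000000f0000007c0000001c0000001c00000014 7 7) 0 0 (step_sound _ 129 [(rh53b3c253cb0c65f4.shift 0 4), (rha9ce47e7b217680f.shift 1 0)] (by decide +kernel))
noncomputable def rh40ec1630c0822f1f : CRef := CRef.mk (Pat.mk 0x30000000180000000000000000 0x1c0000007e0000003f0000007e0000006e0000002c 7 7) 0 0 (step_sound _ 66 [(rh53b3c253cb0c65f4.shift 1 2), rh748f36402bb371f7] (by decide +kernel))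
noncomputable def rh5540b307add15c6d : CRef := CRef.mk (Pat.mk 0x80000001c000000060000000000000000 0x800000008000000380000001f000000360000003e00000014 7 6) 0 0 (step_sound _ 163 [rh2dbb599cafd8431a, (rh5c5e593799055d58.shift 2 2)] (by decide +kernel))
noncomputable def rh34f47310fc4adc54 : CRef := CRef.mk (Pat.mk 0x2000000070000000180000000000000000 0x20000000200000007e0000007f000000d80000004000000040 7 8) 0 0 (step_sound _ 165 [rh2820aaf9abe86d2d, (rh5c5e593799055d58.shift 4 2)] (by decide +kernel))
noncomputable def rh882d6f14ad4f2c6b : CRef := CRef.mk (Pat.mk 0x180000000e000000000000000000000000 0x8000000180000001f0000007e0000007f0000003c0000001c 7 7) 0 0 (step_sound _ 67 [(rh37e1dec1d8213dc7.shift 0 1), (rh9bb5c7e5c08d4582.shift 2 0), rhe0cbc6fe9ebbddec] (by decide +kernel))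
noncomputable def rh3c5f1a848c202261 : CRef := CRef.mk (Pat.mk 0x380000000c000000000000000000000000 0x100000001c0000001c0000001e0000007f000000380000000c0000001c0000001c00000014 7 7) 0 0 (step_sound _ 163 [(rh32431e66bbf434a4.shift 2 2), rh773388f5d93182f7, (rha8241f37c79477a8.shift 2 2), (rhca9730d7dcb5167d.shift 2 0), (rhd3427edfe1bb73fe.shift 1 0)] (by decide +kernel))
noncomputable def rhb2be66501acb8344 : CRef := CRef.mk (Pat.mk 0x10000000180000000e0000000000000000 0x80000000c0000000e0000001f0000001b0000001e0000000c0000000c 7 5) 0 0 (step_sound _ 35 [rh03fd4196b4c73b9b, (rh71222050f2c63a3a.shift 3 0)] (by decide +kernel))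
noncomputable def rh05dfe4ec6924bbe6 : CRef := CRef.mk (Pat.mk 0x8000000080000000c000000000000000000000000 0x140000001c0000001f0000007c0000001f0000000c000000180000001800000010 7 7) 0 0 (step_sound _ 194 [(rh0dbc8abee7ad42d4.shift 2 2), (rh2e39650b785fec6a.shift 0 3), (rha5dc83e34999ae02.shift 0 2), (rhf435f65ca384ce7a.shift 2 0)] (by decide +kernel))
noncomputable def rh16d8d8bf04a0c7f8 : CRef := CRef.mk (Pat.mk 0xc000000080000000800000008 0x40000000c0000001c000000180000001f0000007c0000001800000008 7 7) 0 0 (step_sound _ 68 [(rh34b8ec5fc30356a4.shift 2 0), rh3832095e2d2fd3cf, (rh3c3e23a02e82b2ed.shift 0 2)] (by decide +kernel))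
noncomputable def rh629d253be493a12c : CRef := CRef.mk (Pat.mk 0x180000001e000000000000000000000000 0x4000000340000001f0000001e0000003b0000001a00000018 7 6) 0 0 (step_sound _ 129 [(rh3244c3cc8379b070.shift 0 3), rh67aa3c50ea93ad1e] (by decide +kernel))
noncomputable def rha94f6b209c37d359 : CRef := CRef.mk (Pat.mk 0x180000001e000000000000000000000000 0x1000000010000000100000001b0000003e0000007b0000001800000018 7 7) 0 0 (step_sound _ 65 [(rheb0810cc63b001d8.shift 0 2), rhef25275f197a46fc] (by decide +kernel))
noncomputable def rhc1df0b8480ab9f16 : CRef := CRef.mk (Pat.mk 0x80000000c0000001800000000 0x40000001c0000001c000000180000000c0000000f0000001800000010 7 5) 0 0 (step_sound _ 131 [(rh55afc6a59410cf00.shift 3 0), (rhccfa9dbe507a06aa.shift 0 1)] (by decide +kernel))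
noncomputable def rha507cda12106e46e : CRef := CRef.mk (Pat.mk 0x80000000e00000018000000000000000000000000 0x40000000c0000000e0000001b0000001f0000001e00000014 7 5) 0 0 (step_sound _ 67 [(rh6eff4158bb400f47.shift 2 0), (rha8adab4bc30e0ea1.shift 2 0), (rhe03ee404dc074495.shift 0 1), (rhe286c75f2739cce2.shift 2 1)] (by decide +kernel))
noncomputable def rh38644ea9fd71d8f9 : CRef := CRef.mk (Pat.mk 0x7800000000 0xc70000007e000000e7 7 8) 0 0 (step_sound _ 6 [rhc280a345dcd35ece, (rhe25b0a99195a5d59.shift 3 0)] (by decide +kernel))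
noncomputable def rh9ddf0a4fbb1b7ba8 : CRef := CRef.mk (Pat.mk 0x8000000080000001e00000000 0xc0000000c0000000f0000003b0000001e0000000a 7 6) 0 0 (step_sound _ 68 [(rh33e738c4ed385b9f.shift 1 1), rh54204b8f3766698a] (by decide +kernel))
noncomputable def rh74f7508ccb6f4ceb : CRef := CRef.mk (Pat.mk 0x8000000180000000c000000000000000000000000 0xc0000000c0000001c000000180000001f000000380000001800000008 7 6) 0 0 (step_sound _ 97 [(rh38768c4865b99a8c.shift 1 0), (rh53b3c253cb0c65f4.shift 0 3)] (by decide +kernel))
noncomputable def rha4227057e70dc928 : CRef := CRef.mk (Pat.mk 0x8000000380000000c0000000000000000 0x400000004000000160000001f0000003a0000000f0000000a00000008 7 6) 0 0 (step_sound _ 65 [rh125cab51679c4bee, (rh53b3c253cb0c65f4.shift 0 2)] (by decide +kernel))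
noncomputable def rhdadb8b537185d84d : CRef := CRef.mk (Pat.mk 0x2000000020000000600000000000000000000000000000000 0x4000000070000000700000007000000060000000600000002000000070000000700000005 7 3) 0 0 (step_sound _ 97 [(rh64bc0dab78a08b48.shift 0 3), (rh8c1d47d14292b804.shift 0 1), rh95311890f436bcdc, (rhc85cc95794737cf7.shift 0 3)] (by decide +kernel))
noncomputable def rhf3c40da8ec595222 : CRef := CRef.mk (Pat.mk 0x180000000e0000000800000000 0x14000000340000001f000000fe000000ef00000002 7 8) 0 0 (step_sound _ 68 [rh44dd78dd79fc4e0b, rh4b062606a3bb39d0, (rh5a591c1cd3813a26.shift 0 1), (rh6c65facbfc311a89.shift 0 1)] (by decide +kernel))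
noncomputable def rhea4654ff348b86c7 : CRef := CRef.mk (Pat.mk 0x80000001c000000060000000000000000 0x40000003c0000001f0000003e0000003700000036 7 6) 0 0 (step_sound _ 34 [(rh71222050f2c63a3a.shift 2 0), rhd1c46c24c8b78e87] (by decide +kernel))
noncomputable def rh9e4dce6b4d262c9f : CRef := CRef.mk (Pat.mk 0x10000000180000000e0000000000000000 0x4000000340000001f000000fe000000ef0000000a 7 8) 0 0 (step_sound _ 35 [(rh71222050f2c63a3a.shift 3 0), rh90901618e653bb3d] (by decide +kernel))
noncomputable def rh87c7c9b587e958ec : CRef := CRef.mk (Pat.mk 0x380000000e000000000000000000000000 0x4000000140000001e0000007f0000003a0000000e0000001e0000001c00000014 7 7) 0 0 (step_sound _ 163 [rh0ab273d635ba54c7, (rh281c6819542c66e6.shift 2 0), (rh5840dbfc019b4d17.shift 0 2), rh621baf5876219afc, (rh66ac29485c8cba5d.shift 1 2)] (by decide +kernel))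
noncomputable def rh188f4ce47b6e029c : CRef := CRef.mk (Pat.mk 0x100000003800000008 0x140000001e0000007f0000003f00000038 7 7) 0 0 (step_sound _ 100 [(rh5c5e593799055d58.shift 3 0), rh84d2d92f425b9f0a] (by decide +kernel))
noncomputable def rh119b8d534d66c8db : CRef := CRef.mk (Pat.mk 0x180000000e000000080000000000000000 0x4000000070000001f0000007e0000000f0000000e0000000c 7 7) 0 0 (step_sound _ 100 [rh2395824d1086e2bc, rh2cebb6564821bd8b, rh3059fd319a21d577, rh31eb30c068821a1a, (rh44dd78dd79fc4e0b.shift 0 1)] (by decide +kernel))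
noncomputable def rhd064aa33f79e8fdc : CRef := CRef.mk (Pat.mk 0x180000000e0000000800000000 0x16000000370000001f000000fe000000ef00000006 7 8) 0 0 (step_sound _ 68 [rh44dd78dd79fc4e0b, rh4ba3d6a9216436ea, (rh5a591c1cd3813a26.shift 0 1)] (by decide +kernel))
noncomputable def rh46de88657f082cde : CRef := CRef.mk (Pat.mk 0x80000000f00000000000000000000000000000000 0x40000001c0000001c000000180000000c0000000f0000001c0000001c0000001c00000010 7 5) 0 0 (step_sound _ 99 [(rh9ca4071e5dcbbe67.shift 2 0), (rhe25b0a99195a5d59.shift 0 3)] (by decide +kernel))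
noncomputable def rh0f4295832fe61694 : CRef := CRef.mk (Pat.mk 0x20000001e000000020000000000000000 0x7000000070000000f0000003e0000001e000000360000001200000010 7 6) 0 0 (step_sound _ 68 [rha36a279dbe3c0abf, (rhe25b0a99195a5d59.shift 1 2)] (by decide +kernel))
noncomputable def rh882252dda195b230 : CRef := CRef.mk (Pat.mk 0x20000000200000007000000010 0x80000003c000000fc0000007e000000f7 7 8) 0 0 (step_sound _ 35 [rh9686d3671f9d1c60, (rhb5026552920bacb8.shift 2 0), (rhec46bd5500c722c9.shift 2 1)] (by decide +kernel))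
noncomputable def rhd5a3064d5909d330 : CRef := CRef.mk (Pat.mk 0x10000000100000003800000008 0xc0000001e000000770000003e0000000f 7 7) 0 0 (step_sound _ 34 [rh775ca1963e850b80, (rha61d37f119958567.shift 1 0), (rhec46bd5500c722c9.shift 1 1)] (by decide +kernel))
noncomputable def rh6d1ba46103fec950 : CRef := CRef.mk (Pat.mk 0x8000000080000001c00000004000000000000000000000000 0x160000001f0000007c0000001c0000000f0000000a0000000800000008 7 7) 0 0 (step_sound _ 99 [(rh1bd0c14c4de1ef4d.shift 1 2), (rh3502d92c6cce609b.shift 2 0), (rha10abbb88ab9db0f.shift 0 2), (rha5db35bed5b9a95e.shift 0 2), (rhf80c5e44ef96fd8b.shift 0 2)] (by decide +kernel))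
noncomputable def rhf47aaf50b8322cf6 : CRef := CRef.mk (Pat.mk 0x1c00000004000000040000000000000000 0x70000003e000000f40000000e0000000e0000000a 7 8) 0 0 (step_sound _ 101 [(rh7b93e260e30176fc.shift 1 3), (rhbd743a7425dff4cb.shift 1 0), (rhf87585b0e9b4fc36.shift 0 1)] (by decide +kernel))
noncomputable def rhe90a5e266d4684db : CRef := CRef.mk (Pat.mk 0xe0000000200000002000000000000000000000000 0x50000000f0000001a00000002000000070000000700000005 7 5) 0 0 (step_sound _ 65 [(rh2f68792b6b779e96.shift 1 2), rh9dfa9ccb512a0788] (by decide +kernel))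
noncomputable def rh8f963b483016a80f : CRef := CRef.mk (Pat.mk 0x3800000008 0x770000007e000000ec 7 8) 0 0 (step_sound _ 38 [rh6c92adc4b31fcdd5, (rheb0810cc63b001d8.shift 2 0)] (by decide +kernel))
noncomputable def rhe62be27f93902e4e : CRef := CRef.mk (Pat.mk 0x40000003c00000004000000000000000000000000 0x80000000e0000000e0000000f0000007c0000003c000000040000000e0000000e0000000a 7 7) 0 0 (step_sound _ 194 [(rh138e912e9fa81428.shift 1 1), (rh1741680720c097b4.shift 1 3), (rh305945700f20b255.shift 0 2), (rh95311890f436bcdc.shift 1 0), (rhacb79211bf17cbc0.shift 1 3)] (by decide +kernel))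
noncomputable def rh5793da7f8056b034 : CRef := CRef.mk (Pat.mk 0x1c000000040000000000000000 0x1a0000001a0000003f0000007e000000f40000002400000024 7 8) 0 0 (step_sound _ 69 [rh37cee14fac1be201, (rh5064116d1b2ace0d.shift 1 0), (rh55fdb553fc38e587.shift 0 2), (rh6052fb40ff1ff60e.shift 1 1), (rh71efda916732b25a.shift 1 2)] (by decide +kernel))
noncomputable def rh40fa682fe199160d : CRef := CRef.mk (Pat.mk 0x10000000100000003800000008 0xc0000001e000000770000003e0000000f 7 7) 0 0 (step_sound _ 34 [rh592c7139d2c44767, (rha61d37f119958567.shift 1 0), (rhec46bd5500c722c9.shift 1 1)] (by decide +kernel))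
noncomputable def rhce133c60884b3a72 : CRef := CRef.mk (Pat.mk 0x1c000000060000000000000000000000000000000000000000 0x80000000e0000000e0000000f0000001c0000000e000000060000000e0000000e0000000e00000008 7 5) 0 0 (step_sound _ 130 [(rh164d9aed8aa31d30.shift 0 3), (rh215e11e099257d75.shift 2 3), (rh2222a27c490588f5.shift 1 0), (rh409831cc0d61a6f8.shift 1 1)] (by decide +kernel))
noncomputable def rhd38d9ac458df4a80 : CRef := CRef.mk (Pat.mk 0x38000000080000000000000000 0x24000000660000003e0000007f0000001800000018 7 7) 0 0 (step_sound _ 66 [(rh1e1ff12fc70a7ba1.shift 1 0), (rh7235e22a26ce31fe.shift 1 0), (rheea1a90336e79c71.shift 0 2)] (by decide +kernel))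
noncomputable def rh394a63bb21caa205 : CRef := CRef.mk (Pat.mk 0xc0000000600000004000000000000000000000000 0x40000003c0000000e0000003c0000000f0000000e0000000a 7 6) 0 0 (step_sound _ 164 [(rh18965a982d73c794.shift 1 4), rhcaadd3754c01bc7f] (by decide +kernel))
noncomputable def rh115c3e2f639f3b2b : CRef := CRef.mk (Pat.mk 0x180000000c0000000800000000 0x140000001f0000007c0000003c0000007c00000034 7 7) 0 0 (step_sound _ 101 [(rh18965a982d73c794.shift 2 2), rh2f25c377fb84c77b] (by decide +kernel))
noncomputable def rh7941d25e72023769 : CRef := CRef.mk (Pat.mk 0x180000000e000000000000000000000000 0x800000018000000180000001f000000fe000000fc0000001c00000014 7 8) 0 0 (step_sound _ 163 [(rh281c6819542c66e6.shift 2 0), (rh867f6cba49450cc2.shift 1 0), (rhd452154e2f95c1a3.shift 0 2)] (by decide +kernel))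
noncomputable def rhb706072ef360cf39 : CRef := CRef.mk (Pat.mk 0x1e00000006000000000000000000000000 0x300000001f0000003e000000380000001800000018 7 6) 0 0 (step_sound _ 100 [rh3dbfcdea2ee3a551, (rhe25b0a99195a5d59.shift 1 3)] (by decide +kernel))
noncomputable def rh311e90347bd2938d : CRef := CRef.mk (Pat.mk 0x8000000180000000e0000000000000000 0x2000000020000000b0000001f0000003e0000003c00000014 7 6) 0 0 (step_sound _ 36 [(rh478c4cadbcd4e066.shift 3 0), (rhb3a2f76440e25df9.shift 1 0), (rhc76d142f049b7a48.shift 1 0), (rhd4aa107219f07aff.shift 0 1)] (by decide +kernel))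
noncomputable def rh982240f51b65158e : CRef := CRef.mk (Pat.mk 0xc0000000700000004000000000000000000000000 0xc0000000c000000070000001e0000000e0000000e0000000c 7 5) 0 0 (step_sound _ 66 [(rh2f68792b6b779e96.shift 2 2), rhaae3a4f671e11608] (by decide +kernel))
noncomputable def rhb94b66119eb13f87 : CRef := CRef.mk (Pat.mk 0x180000000e000000080000000000000000 0x40000001f0000007e0000007c000000f800000038 7 8) 0 0 (step_sound _ 100 [rh31eb30c068821a1a, (rh49fb5eb5c0c3443b.shift 1 0), (rh5f68d4d802450994.shift 1 2)] (by decide +kernel))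
noncomputable def rh8cd5617a04f0021c : CRef := CRef.mk (Pat.mk 0x180000000e0000000800000000 0x12000000330000001f000000fe0000007c00000004 7 8) 0 0 (step_sound _ 68 [(rh242dfbe4e7098cac.shift 1 1), rh4ba3d6a9216436ea, (rh5f68d4d802450994.shift 1 1), (rh6c65facbfc311a89.shift 0 1)] (by decide +kernel))
noncomputable def rh190ccbc6174a1adb : CRef := CRef.mk (Pat.mk 0x300000001c000000000000000000000000 0x3c0000003e0000003f0000003c000000180000001800000018 7 6) 0 0 (step_sound _ 67 [(rh60a6f7364c9801a6.shift 1 1), (rhcf80391c5046a495.shift 3 0), rhe7c6a4dbed22a5ec, (rhf9366b6a121593ef.shift 3 0)] (by decide +kernel))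
noncomputable def rheb7c464c9245b724 : CRef := CRef.mk (Pat.mk 0x80000000c000000070000000000000000 0x400000006000000060000000e0000000e0000000f0000001e0000000c 7 5) 0 0 (step_sound _ 34 [(rh71222050f2c63a3a.shift 2 0), rhc8e0c352f7cc490e] (by decide +kernel))
noncomputable def rh18ab41ff9e9cf61b : CRef := CRef.mk (Pat.mk 0x180000000e000000000000000000000000 0x1800000018000000380000001f0000003e000000380000001800000018 7 6) 0 0 (step_sound _ 164 [rh1af2eed4e0065b29, (rhef0e71e7d99f5402.shift 0 1), (rhf9366b6a121593ef.shift 3 1)] (by decide +kernel))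
noncomputable def rh79f73cb6f2d7becf : CRef := CRef.mk (Pat.mk 0x180000000e00000000000000000000000000000000 0x80000000c0000001e0000001f0000001e0000000e0000007c0000001c0000001800000010 7 7) 0 0 (step_sound _ 99 [(rh000637b5a81e86aa.shift 2 1), (rh3f069944e50c0cbf.shift 1 0), (rh6edec57b64153980.shift 0 2)] (by decide +kernel))
noncomputable def rhe40ba50c4a4c386b : CRef := CRef.mk (Pat.mk 0x180000000e000000100000000000000000 0x200000012000000330000001f0000003e0000001c000000f800000038 7 8) 0 0 (step_sound _ 100 [(rh331d4a807f97bfca.shift 0 2), (rh6e242c6577930c77.shift 2 0), (rhd2705a941542c9fb.shift 0 1)] (by decide +kernel))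
noncomputable def rh5be180ead610399b : CRef := CRef.mk (Pat.mk 0x1000000030000000140000000000000000 0x8000000280000003f0000007e00000034000000140000001000000010 7 7) 0 0 (step_sound _ 163 [(rh114f4abf4ea101c9.shift 3 1), (rh76f83385fb238dcd.shift 0 2), (rha5dc83e34999ae02.shift 1 1), (rhd4516cf30f753281.shift 0 1), (rhedb11bef59254b8a.shift 3 0)] (by decide +kernel))
noncomputable def rh2f9005caceef89f3 : CRef := CRef.mk (Pat.mk 0x1000000030000000140000000000000000 0x8000000280000003f0000007e00000034000000140000001000000010 7 7) 0 0 (step_sound _ 163 [(rh114f4abf4ea101c9.shift 3 1), (rh76f83385fb238dcd.shift 0 2), (rha5dc83e34999ae02.shift 1 1), (rhedb11bef59254b8a.shift 3 0)] (by decide +kernel))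
noncomputable def rh77aa2ba39e3437a0 : CRef := CRef.mk (Pat.mk 0x8000000180000000e00000000000000000000000000000000 0x160000001f0000001b0000001e0000000c0000001c0000001c00000010 7 5) 0 0 (step_sound _ 99 [(rh3820f35d5e705bec.shift 3 0), (rh8a1bd34420cccc7f.shift 2 0), (rhac23380c356673f0.shift 0 2)] (by decide +kernel))
noncomputable def rhc9af767b523f59b1 : CRef := CRef.mk (Pat.mk 0x1000000038000000080000000000000000 0x1000000010000000770000003e0000006f0000002000000020 7 7) 0 0 (step_sound _ 164 [(rh5c5e593799055d58.shift 3 2), rhe2ad5468805b2f6a] (by decide +kernel))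
noncomputable def rh8dc4679c964f42fd : CRef := CRef.mk (Pat.mk 0x380000000c000000000000000000000000 0x4000000040000000e0000001f0000003a0000000f0000007e0000001400000004 7 7) 0 0 (step_sound _ 97 [rh1f9114330881d08f, (rh53b3c253cb0c65f4.shift 0 3)] (by decide +kernel))
noncomputable def rhe555d4bd8d5fba06 : CRef := CRef.mk (Pat.mk 0x8000000380000000c00000000 0xe0000000f0000003e0000003f0000007c00000010 7 7) 0 0 (step_sound _ 66 [(rh082a4b21b1673342.shift 1 0), (rh668d1876510a8d45.shift 0 1), (rhed809369164fc67c.shift 0 1)] (by decide +kernel))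
noncomputable def rhbab7d8e7e69920b7 : CRef := CRef.mk (Pat.mk 0x1000000070000000180000000000000000 0xc0000000c000000fc0000007f000000f80000000c00000008 7 8) 0 0 (step_sound _ 99 [(rh2c1f485dedae8cc7.shift 2 0), (rh2dc23df1105a8bfd.shift 2 2), (rh668d1876510a8d45.shift 1 2), (rhbea32a382651a0e3.shift 0 2)] (by decide +kernel))
noncomputable def rh0be81a1dbf0b29d2 : CRef := CRef.mk (Pat.mk 0xc00000006000000000000000000000000 0x600000006000000070000003f0000003e000000070000000600000002 7 6) 0 0 (step_sound _ 132 [(rh18965a982d73c794.shift 1 3), rhe98d820dcaa9ab58] (by decide +kernel))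
noncomputable def rh72ff52cf8f27cee7 : CRef := CRef.mk (Pat.mk 0x30000000180000000000000000 0x280000002f000000ff000000f8000000d000000050 7 8) 0 0 (step_sound _ 102 [(rh18965a982d73c794.shift 3 2), rh5e7aa396a261a685] (by decide +kernel))
noncomputable def rh173f5190eb247b3e : CRef := CRef.mk (Pat.mk 0x380000000c0000000000000000 0x1c0000003c0000003f0000003f0000007c0000000c00000008 7 7) 0 0 (step_sound _ 131 [rhb21866e5f36817d6, (rhcd32f2ed6c1181e7.shift 2 1), (rhd7fec266624cb6ac.shift 0 1)] (by decide +kernel))
noncomputable def rhc07e3bc9995bc44b : CRef := CRef.mk (Pat.mk 0x180000000e000000000000000000000000 0x4000000040000000e0000001f0000007a0000000e0000007e0000001400000004 7 7) 0 0 (step_sound _ 133 [(rh18965a982d73c794.shift 2 3), rh1f9114330881d08f] (by decide +kernel))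
noncomputable def rh132ad1729ba2bbeb : CRef := CRef.mk (Pat.mk 0x80000001e0000000000000000 0x1800000018000000380000003e0000000f0000000c 7 6) 0 0 (step_sound _ 100 [(rh33e738c4ed385b9f.shift 1 2), rhaef10c6fccb894fe] (by decide +kernel))
noncomputable def rh3ff03111bf6f4781 : CRef := CRef.mk (Pat.mk 0x40000000f0000000000000000 0x8000000080000001c0000007f0000003e00000004 7 7) 0 0 (step_sound _ 99 [(rh33e738c4ed385b9f.shift 0 2), rh874d35ef4c9559f4] (by decide +kernel))
noncomputable def rh197e276ad7430e67 : CRef := CRef.mk (Pat.mk 0x2000000020000000e000000020000000000000000 0x1000000030000003e0000003e000000060000000600000006 7 6) 0 0 (step_sound _ 34 [rh5cac123e76f49d10, (rhd3458b32566d63f7.shift 1 1)] (by decide +kernel))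
noncomputable def rhbf05abb6ce8df25d : CRef := CRef.mk (Pat.mk 0x70000000100000000000000000 0x48000000cf0000007f000000fe0000003000000030 7 8) 0 0 (step_sound _ 67 [rh0086abefef2dfe1a, (rh1ed7a3503fa50fc8.shift 1 2), (rheea1a90336e79c71.shift 1 2)] (by decide +kernel))
noncomputable def rh50ac2b50bb418a55 : CRef := CRef.mk (Pat.mk 0x180000000e00000004000000000000000000000000 0xe0000001f0000001f0000000e0000000c000000080000000800000008 7 5) 0 0 (step_sound _ 195 [rh349def677e490109, (rh5c5e593799055d58.shift 2 3)] (by decide +kernel))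
noncomputable def rh74b9f7332e934e92 : CRef := CRef.mk (Pat.mk 0x70000000180000000800000000 0x50000000f70000007f000000f80000002c00000020 7 8) 0 0 (step_sound _ 132 [(rh5c5e593799055d58.shift 3 1), rh639598c620f976c5] (by decide +kernel))
noncomputable def rhcb98c26545618a84 : CRef := CRef.mk (Pat.mk 0x380000000c00000000000000000000000000000000 0x40000000c0000000c0000001f000000380000001c0000000c0000001c0000001c00000010 7 6) 0 0 (step_sound _ 195 [(rh08e4861c03f0bc4a.shift 2 3), (rh281c6819542c66e6.shift 2 1), (rh5840dbfc019b4d17.shift 0 3), rhfbfbdc503383173f] (by decide +kernel))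
noncomputable def rha794a1a900d37e57 : CRef := CRef.mk (Pat.mk 0x300000001c000000080000000000000000 0xc0000000c0000003e0000007c0000000f0000001c0000001c 7 7) 0 0 (step_sound _ 35 [(rh71222050f2c63a3a.shift 3 0), rhb397139c10ff981c] (by decide +kernel))
noncomputable def rh41c96e6002827a83 : CRef := CRef.mk (Pat.mk 0x180000000e000000000000000000000000 0x800000008000000180000003e0000003f0000003400000034 7 6) 0 0 (step_sound _ 100 [rh6ae21157da276552, rh9cf1eae2eabf38ec, (rhea719cc8bd0bdd28.shift 1 1)] (by decide +kernel))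
noncomputable def rh4f2be0098201907d : CRef := CRef.mk (Pat.mk 0x10000000f00000001000000000000000000000000 0x10000001d0000000f0000001f0000001e0000001e00000014 7 5) 0 0 (step_sound _ 99 [rh0634126d54abd10f, (rhe25b0a99195a5d59.shift 0 3)] (by decide +kernel))
noncomputable def rh6e332a40b5bc3807 : CRef := CRef.mk (Pat.mk 0x1c00000004000000040000000400000000 0x140000001c0000000f0000000f0000003c00000018 7 6) 0 0 (step_sound _ 35 [rh00b343c93e2d78ab, (rh55afc6a59410cf00.shift 2 0)] (by decide +kernel))
noncomputable def rh5478ed8d867427b5 : CRef := CRef.mk (Pat.mk 0x40000000c000000040000000400000000 0xc0000000c0000003f0000003f0000007a 7 7) 0 0 (step_sound _ 35 [(rh55afc6a59410cf00.shift 2 0), rhaec83fcfdb59950d] (by decide +kernel))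
noncomputable def rh4cb1bbf913dd0201 : CRef := CRef.mk (Pat.mk 0x380000000c000000000000000000000000 0x100000001c0000001c0000000c0000001f000000380000000c0000001c0000001c00000014 7 6) 0 0 (step_sound _ 163 [(rh281c6819542c66e6.shift 2 0), rh28ea138fef552e6e, (rha8241f37c79477a8.shift 2 2), (rhca9730d7dcb5167d.shift 2 0), rhf92c71e6aca110e8] (by decide +kernel))
noncomputable def rh3c0a4e78470073a7 : CRef := CRef.mk (Pat.mk 0xc000000070000000400000000 0x80000000c0000000e000000060000000e0000000e000000070000001e0000000a 7 5) 0 0 (step_sound _ 130 [(rh97ad1986540fd573.shift 1 1), rhb379f99078aafa2d] (by decide +kernel))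
noncomputable def rh759e28e211287a74 : CRef := CRef.mk (Pat.mk 0xc0000000c000000040000000000000000 0xc0000000c0000003f0000003f0000001e 7 6) 0 0 (step_sound _ 34 [(rh71222050f2c63a3a.shift 2 0), rhc71ed80c6d39935c] (by decide +kernel))
noncomputable def rh44e4e1279b034b56 : CRef := CRef.mk (Pat.mk 0xc0000000c000000040000000000000000 0x4000000140000007e0000007c0000000f0000000a00000008 7 7) 0 0 (step_sound _ 67 [(rh045eb03ae04c46fa.shift 0 1), (rh55a1f6c57a317ce6.shift 2 0), (rhf27fde38f11e646b.shift 1 0)] (by decide +kernel))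
noncomputable def rh15d5297dec01d07d : CRef := CRef.mk (Pat.mk 0xc0000000c000000080000000800000000 0x100000007c0000000c0000003c0000001f00000017 7 7) 0 0 (step_sound _ 34 [rh54aa9bc4324063fa, (rh932754581e0f4330.shift 2 0)] (by decide +kernel))
noncomputable def rh92c3b01b8c0eeba7 : CRef := CRef.mk (Pat.mk 0x300000007000000000000000000000000 0x100000001c0000001f0000001f0000001c0000000c0000000c 7 5) 0 0 (step_sound _ 99 [rh4211127d9d5ad6be, (rhf48373e13d2bc128.shift 0 3)] (by decide +kernel))
noncomputable def rh4f7ed37177e574c0 : CRef := CRef.mk (Pat.mk 0x18000000180000000000000000 0x400000024000000e7000000ff000000fb0000001200000010 7 8) 0 0 (step_sound _ 98 [(rh6292bd8784ece55f.shift 1 2), (rhdc692b1e23a4285d.shift 0 1), (rheae1307b596ca461.shift 2 0)] (by decide +kernel))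
noncomputable def rhf875f8442d3dcb46 : CRef := CRef.mk (Pat.mk 0xc0000000c000000000000000000000000 0x600000006000000060000000c0000003c0000000f0000000e0000000e 7 6) 0 0 (step_sound _ 162 [rh30ab3c061ec51ccb, (rh55a1f6c57a317ce6.shift 2 1), (rhb3e5613249985042.shift 1 0)] (by decide +kernel))
noncomputable def rh23a64b1fe2a6fce6 : CRef := CRef.mk (Pat.mk 0xc0000000c000000000000000000000000 0x400000014000000760000007f0000007c000000780000006800000020 7 7) 0 0 (step_sound _ 132 [(rh113e957afa7c17ad.shift 1 2), rh62fb63d9b42f2237, (rhbaf50283bab76fed.shift 1 1)] (by decide +kernel))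
noncomputable def rh8b25784cbe4b9d62 : CRef := CRef.mk (Pat.mk 0x700000001800000008 0xc0000001c000000ff0000007f0000003800000008 7 8) 0 0 (step_sound _ 100 [(rh1c5d19b4fa761874.shift 0 1), (rh5c5e593799055d58.shift 3 0)] (by decide +kernel))
noncomputable def rhdf39e05c8ba3c9a0 : CRef := CRef.mk (Pat.mk 0x20000000600000003000000010000000000000000 0x4000000060000001f0000001f0000001f0000001e00000006 7 5) 0 0 (step_sound _ 131 [(rh18965a982d73c794.shift 0 3), rhdbd804d12e9d346b] (by decide +kernel))
noncomputable def rh11dfa7a3e01fdaa8 : CRef := CRef.mk (Pat.mk 0x10000000180000000c000000000000000000000000 0x2000000330000001f0000003f000000070000000400000004 7 6) 0 0 (step_sound _ 97 [rh29d69dc1825c2302, (rh53b3c253cb0c65f4.shift 0 3)] (by decide +kernel))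
noncomputable def rh71208a7c7a79ece6 : CRef := CRef.mk (Pat.mk 0x200000007000000010 0xc0000000c000000ff0000007e000000fc 7 8) 0 0 (step_sound _ 35 [(rh2841e6906e50f5ad.shift 2 0), rh3649f0f9b2ae946e, (rhec46bd5500c722c9.shift 2 1)] (by decide +kernel))
noncomputable def rh7ae5e02f808aab79 : CRef := CRef.mk (Pat.mk 0x1800000018000000080000000800000000 0x180000007c0000006f0000007c00000034 7 7) 0 0 (step_sound _ 34 [(rh932754581e0f4330.shift 2 0), rhff0e479837b0c09a] (by decide +kernel))
noncomputable def rhe3c77af5c1d096b6 : CRef := CRef.mk (Pat.mk 0x80000000c00000004000000000000000000000000 0x18000000180000001c0000000f0000003c000000180000001800000018 7 6) 0 0 (step_sound _ 195 [(rh5c5e593799055d58.shift 2 3), rhd9bcfe9aaaeb4622] (by decide +kernel))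
noncomputable def rhfb57aa2230d287ad : CRef := CRef.mk (Pat.mk 0x10000000180000000c000000080000000000000000 0x300000001f0000007f0000007f0000003000000030 7 7) 0 0 (step_sound _ 97 [rh3e2d88e19cc44f79, (rh53b3c253cb0c65f4.shift 0 3)] (by decide +kernel))
noncomputable def rh1af79435f0b03d1e : CRef := CRef.mk (Pat.mk 0x2000000020000000300000001000000000 0x20000003f7000001fe000001df00000040 7 10) 0 0 (step_sound _ 67 [(rh42c149c634520fed.shift 2 0), (rh4a9fe2d0a3378449.shift 0 1), (rha11dfd15f08f96e3.shift 2 2), (rhb103f40a53fe1424.shift 0 1)] (by decide +kernel))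
noncomputable def rhff3acc64d271735e : CRef := CRef.mk (Pat.mk 0x80000000c000000040000000400000000 0x120000007f0000003e0000003c0000000f0000000a 7 7) 0 0 (step_sound _ 130 [rh1c8b283f34188255, (rhcf85c92937975d4d.shift 0 1)] (by decide +kernel))
noncomputable def rh602126a74abd602f : CRef := CRef.mk (Pat.mk 0x20000000600000003000000010000000000000000 0x4000000060000001f0000001f0000001f0000000e00000006 7 5) 0 0 (step_sound _ 131 [(rh18965a982d73c794.shift 0 3), rhdf517af570edfac8] (by decide +kernel))
noncomputable def rh5f7f162eb605c3bb : CRef := CRef.mk (Pat.mk 0x1000000018000000080000000800000000 0x1000000014000001f7000000fe000001ef0000002800000020 7 9) 0 0 (step_sound _ 164 [rh3e83f708735348e2, (rh5c5e593799055d58.shift 3 2)] (by decide +kernel))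
noncomputable def rh09d90fccc1dddeae : CRef := CRef.mk (Pat.mk 0x100000001000000018000000080000000000000000 0x10000001f0000001fc000003ff0000002000000020 7 10) 0 0 (step_sound _ 101 [(rh2820ca9a6c4f41b4.shift 0 2), (rh360de2d52098df7a.shift 2 0), (rhbc097188b38155dd.shift 2 2)] (by decide +kernel))
noncomputable def rhabd22417ebc6728d : CRef := CRef.mk (Pat.mk 0x100000001000000018000000080000000000000000 0x30000000300000007f0000007f0000003000000020 7 7) 0 0 (step_sound _ 66 [(rh0bb882ba86b2372d.shift 0 2), (rh574fdbf07bdd18b9.shift 0 2), (rh749febdcb18efa47.shift 0 1), (rhe08b9b2fb0ef2273.shift 1 0)] (by decide +kernel))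
noncomputable def rh218478c7ebdb9423 : CRef := CRef.mk (Pat.mk 0x200000002000000070000000100000000000000000 0x200000003e0000007e000000f70000004000000040 7 8) 0 0 (step_sound _ 70 [(rh6803112df5f1595a.shift 2 1), (rh79ad7b82ec8c35e2.shift 5 0), (rhae043b7040a09eba.shift 0 2)] (by decide +kernel))
noncomputable def rh5467fdb52ec9fccd : CRef := CRef.mk (Pat.mk 0x4000000040000000600000002000000000000000000000000 0x80000000c0000000f0000003e0000003f0000003c0000000c00000004 7 6) 0 0 (step_sound _ 131 [(rh3905072ff89a80bc.shift 1 0), (rh67207cf6cd7da473.shift 0 1), (rha83d0a1d851c6a27.shift 0 3)] (by decide +kernel))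
noncomputable def rh41e473c33c682c1a : CRef := CRef.mk (Pat.mk 0x40000000f000000020000000000000000 0x80000001c0000000f0000001e0000003c0000001c 7 6) 0 0 (step_sound _ 131 [rh02a6a33df9904d94, (rh33e738c4ed385b9f.shift 0 3)] (by decide +kernel))
noncomputable def rh64304299c8ec0375 : CRef := CRef.mk (Pat.mk 0x8000000080000000c00000004000000000000000000000000 0x10000000180000007e0000007f0000007f000000380000001800000008 7 7) 0 0 (step_sound _ 132 [rh17849094ff28c456, (rh2cf84a602928f20d.shift 1 1), (rha83d0a1d851c6a27.shift 1 3)] (by decide +kernel))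
noncomputable def rh0a8a3382a8b650ff : CRef := CRef.mk (Pat.mk 0x2800000030000000100000001000000000 0xc00000007f0000007e000000300000003000000020 7 8) 0 0 (step_sound _ 130 [(rh52f53d3a55b22c68.shift 1 3), (rh95f73988d2dec2c0.shift 0 3), (rhb92b6387f99dce32.shift 1 0), (rhe2971afac17a6ffc.shift 2 3)] (by decide +kernel))
noncomputable def rh76be1e2376d339cc : CRef := CRef.mk (Pat.mk 0x50000000600000002000000020 0x10000000dc000000ff0000003e00000020 7 8) 0 0 (step_sound _ 68 [(rh1f92940eb4853ba9.shift 0 1), (rh960a8f47a8f1fa0e.shift 2 0), (rhd117684c4a851b90.shift 2 2)] (by decide +kernel))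
noncomputable def rh4e87534b133d92ab : CRef := CRef.mk (Pat.mk 0x100000001c0000000000000000 0x2000000030000003f0000003f0000000400000004 7 6) 0 0 (step_sound _ 65 [rh11a94151330d6f28, (rh33e738c4ed385b9f.shift 1 2)] (by decide +kernel))
noncomputable def rh3cc20009bad4b8f6 : CRef := CRef.mk (Pat.mk 0x80000000e000000040000000400000000 0x1d8000000fe0000007f0000003c00000010 7 9) 0 0 (step_sound _ 100 [rh53c40d3d6d122826, (rhaf9f2efc81a8312b.shift 0 2), (rhc3f1fdc610b622e4.shift 1 2)] (by decide +kernel))
noncomputable def rh12b433d6d72766de : CRef := CRef.mk (Pat.mk 0x40000000300000000000000000 0x1000000010000000ff000000fe0000000f00000008 7 8) 0 0 (step_sound _ 67 [(rh561ac13636e95fcb.shift 2 2), (rh5e601430b8bc2e39.shift 0 1), (rhe313f71a3fc362f5.shift 2 0)] (by decide +kernel))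
noncomputable def rha30ea49c5a3ef97f : CRef := CRef.mk (Pat.mk 0x1c0000000c000000000000000000000000 0x1c0000003c0000001f0000000c0000000f0000003c0000001c 7 6) 0 0 (step_sound _ 67 [(rh261f868a429ae0e3.shift 2 1), (rh72affcb440dc9fc0.shift 0 1), rhe2de5260b188f0f4] (by decide +kernel))
noncomputable def rh12d04ed5fd4452a9 : CRef := CRef.mk (Pat.mk 0x300000001c000000080000000000000000 0x6e0000003f0000001c0000007c0000001e0000001c 7 7) 0 0 (step_sound _ 35 [(rh71222050f2c63a3a.shift 3 0), rhdd1fc785f5e67b3e] (by decide +kernel))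
noncomputable def rhe3a17efe646c4d67 : CRef := CRef.mk (Pat.mk 0x380000001c0000000000000000 0x28000000280000007f0000003f0000001c0000001400000010 7 7) 0 0 (step_sound _ 131 [(rh37d9ceebb86d75d1.shift 2 1), (rhde10baa3043a2b46.shift 2 1), rhebc9f997fe8a0ad6] (by decide +kernel))
noncomputable def rhfeb087bc77cb13bc : CRef := CRef.mk (Pat.mk 0x180000000c000000000000000000000000 0x140000001c0000003c0000001f000000380000000f0000003c0000001c00000004 7 6) 0 0 (step_sound _ 97 [(rh53b3c253cb0c65f4.shift 0 3), rhdf6419128c11f7e7] (by decide +kernel))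
noncomputable def rhd387986c43c61197 : CRef := CRef.mk (Pat.mk 0x8000000180000000c0000000400000000 0x140000001f000000380000000c0000007c00000014 7 7) 0 0 (step_sound _ 35 [rh0e4d0c8a54344a68, (rh932754581e0f4330.shift 2 0)] (by decide +kernel))
noncomputable def rhf5ff55c32eec0d06 : CRef := CRef.mk (Pat.mk 0x200000002000000038000000100000000000000000 0x80000003f0000007c000000f8000000f00000004000000040 7 8) 0 0 (step_sound _ 102 [(rh23f3407eef9233d5.shift 0 2), (rhc7b95363f9049b11.shift 3 0)] (by decide +kernel))
noncomputable def rhd74229651812eb24 : CRef := CRef.mk (Pat.mk 0x8000000080000000e00000004 0x70000000f0000001f0000003e00000077 7 7) 0 0 (step_sound _ 36 [rh71434a0c3a9c84c9, rhaf9f2efc81a8312b, rhe401600d466b97cd] (by decide +kernel))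
noncomputable def rha39f787ec43db729 : CRef := CRef.mk (Pat.mk 0x140000003c000000000000000000000000 0xa0000000e0000000e0000000f0000003c0000003c000000060000000400000004 7 6) 0 0 (step_sound _ 66 [rh0ca62cd3475abf3f, (rheb0810cc63b001d8.shift 1 2)] (by decide +kernel))
noncomputable def rh5edaef764c440052 : CRef := CRef.mk (Pat.mk 0x80000000e0000000400000004 0x2000001db000000fe0000007f00000004 7 9) 0 0 (step_sound _ 68 [(rhaf9f2efc81a8312b.shift 0 1), (rhc3f1fdc610b622e4.shift 1 1), rhe4f9133a81c1dbc5] (by decide +kernel))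
noncomputable def rh0e6d04aadba4cdff : CRef := CRef.mk (Pat.mk 0x100000001c0000000800000000 0x1c0000001f000000380000001c0000007800000030 7 7) 0 0 (step_sound _ 132 [rh15f0d287e1c13e88, (rh5c5e593799055d58.shift 3 1)] (by decide +kernel))
noncomputable def rhb05b3e1fe4c550a7 : CRef := CRef.mk (Pat.mk 0x8000000080000000c0000000c00000000 0x170000001f0000003c0000000f0000001c00000010 7 6) 0 0 (step_sound _ 130 [(rh50fbb5868c909700.shift 2 1), rhed2c2a7fa591e01e] (by decide +kernel))
noncomputable def rha320349a308d71cd : CRef := CRef.mk (Pat.mk 0x10000000180000000c0000000800000000 0xa0000003b0000001f0000003f0000000f00000004 7 6) 0 0 (step_sound _ 65 [rh3b0347cbb248d2f9, (rh53b3c253cb0c65f4.shift 0 2)] (by decide +kernel))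
noncomputable def rh1be0fdcbf761e1ec : CRef := CRef.mk (Pat.mk 0x1000000018000000080000000800000000 0x2000000070000001f0000000fe000001ef0000007c00000070 7 9) 0 0 (step_sound _ 101 [(rh18c495d2a0e05999.shift 1 0), (rh2820ca9a6c4f41b4.shift 0 2), (rh3c0612130f5b9ee6.shift 1 0), (rhfa35e196e150edb4.shift 2 2)] (by decide +kernel))
noncomputable def rhd3cf12e0b8c39258 : CRef := CRef.mk (Pat.mk 0x80000000e0000000400000000000000000 0x10000000df000001fe0000007f0000002000000020 7 9) 0 0 (step_sound _ 100 [(rh2198e04b50d0665a.shift 0 2), (rh21d582c147e7e118.shift 2 2), (rhafa5a7051d37b143.shift 3 0)] (by decide +kernel))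
noncomputable def rh2f73d3603e57d05e : CRef := CRef.mk (Pat.mk 0x8000000040000000400000000000000000000000000000000 0x80000000c0000000c0000000c0000003c0000000f0000000e0000000e0000000a 7 6) 0 0 (step_sound _ 98 [(rh08d50fe567eb1045.shift 2 2), (rh984bfc6de6c2c524.shift 1 0), (rhd7edfb65051afa11.shift 0 2)] (by decide +kernel))
noncomputable def rhab2d585c5387876f : CRef := CRef.mk (Pat.mk 0x100000001000000018000000080000000800000000 0x10000001f0000000fe000001ef0000007c00000020 7 9) 0 0 (step_sound _ 101 [(rh2820ca9a6c4f41b4.shift 0 2), (rh2ead9b9cc22afc12.shift 1 0), (rhd637b0b45212c965.shift 1 0), (rhfa35e196e150edb4.shift 2 2)] (by decide +kernel))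
noncomputable def rha98c2a31c0f56d9b : CRef := CRef.mk (Pat.mk 0x180000000c000000040000000400000000 0x1c000000ff000000770000003c00000018 7 8) 0 0 (step_sound _ 97 [rh21f347bcbe2825ae, (rh53b3c253cb0c65f4.shift 0 3)] (by decide +kernel))
noncomputable def rh4943a4b36c7768fd : CRef := CRef.mk (Pat.mk 0x8000000180000000c00000004000000000000000000000000 0x40000001f000000780000001c0000001c000000180000001800000008 7 7) 0 0 (step_sound _ 165 [(rh18965a982d73c794.shift 2 4), rhb3eba2b986a9613a] (by decide +kernel))
noncomputable def rhb9651e61fb7df6ef : CRef := CRef.mk (Pat.mk 0x80000000c00000004000000000000000000000000 0xc0000000c0000000c0000003f0000003f0000001a0000001800000018 7 6) 0 0 (step_sound _ 195 [(rh5c5e593799055d58.shift 2 3), rh61f8ebf343e0373b] (by decide +kernel))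
noncomputable def rh9510e3a8ebd8211d : CRef := CRef.mk (Pat.mk 0x80000000c000000040000000000000000 0x1c0000001e0000007c0000000f0000003c0000001800000010 7 7) 0 0 (step_sound _ 163 [rh3c15c196f7f02af7, (rh5c5e593799055d58.shift 2 2)] (by decide +kernel))
noncomputable def rh28cb393557aa39b6 : CRef := CRef.mk (Pat.mk 0x1000000018000000080000000800000000 0x2000000060000001f0000000fe000001ff0000007c00000020 7 9) 0 0 (step_sound _ 101 [(rh2820ca9a6c4f41b4.shift 0 2), (rh2b64b83793d6285b.shift 1 0), (rh3c0612130f5b9ee6.shift 1 0), (rhfa35e196e150edb4.shift 2 2)] (by decide +kernel))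
noncomputable def rhaab9b0699763c76c : CRef := CRef.mk (Pat.mk 0x380000000c00000000000000000000000000000000 0x80000001c0000001f0000003c0000001c0000001c0000001c0000001c00000004 7 6) 0 0 (step_sound _ 195 [(rhb6ae154c262e3c9b.shift 0 1), (rhc8e8c9b8a5835135.shift 1 0), (rhcd32f2ed6c1181e7.shift 2 3)] (by decide +kernel))
noncomputable def rhbf5968149ca838c0 : CRef := CRef.mk (Pat.mk 0x100000007000000018000000000000000000000000 0x8000000380000003800000030000000fe0000007f00000018000000300000003000000030 7 8) 0 0 (step_sound _ 196 [(rh35c5f1c53251aa1b.shift 3 3), (rh61508dc2d4bd88da.shift 2 2), (rh9a369cb82ea472da.shift 3 3), (rhad2688ef6603f2bb.shift 0 3), (rhcb8e97e388f6d328.shift 3 0)] (by decide +kernel))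
noncomputable def rh6ab4da2e1edad5bc : CRef := CRef.mk (Pat.mk 0x20000000300000001000000010 0x8000003ee000001fe000003bf00000010 7 10) 0 0 (step_sound _ 70 [(rh2820ca9a6c4f41b4.shift 1 1), (rh60e41fe87125f997.shift 0 1), (rha8e118612a5545ec.shift 2 0), (rhdc1641106d7e5aa2.shift 3 1)] (by decide +kernel))
noncomputable def rh29d1e948ed6ffbf0 : CRef := CRef.mk (Pat.mk 0x200000003000000018 0xc0000000c000000fe000000ff00000018 7 8) 0 0 (step_sound _ 38 [(rh18965a982d73c794.shift 3 0), rheb57677b1822ccc5] (by decide +kernel))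
noncomputable def rh58685d48ba66daf0 : CRef := CRef.mk (Pat.mk 0x10000000180000000c000000080000000000000000 0x24000000340000001f0000001f0000003f0000003200000030 7 6) 0 0 (step_sound _ 97 [(rh53b3c253cb0c65f4.shift 0 3), rh98934c98e317e368] (by decide +kernel))
noncomputable def rh60c953c938a463e9 : CRef := CRef.mk (Pat.mk 0x400000006000000030000000200000000 0x2000000060000001e000000070000001f0000001d 7 5) 0 0 (step_sound _ 99 [(rh18965a982d73c794.shift 0 2), rh500c04f1655ed043] (by decide +kernel))
noncomputable def rh271ac9a0ccf7c588 : CRef := CRef.mk (Pat.mk 0x1000000018000000080000000000000000 0xc0000001e000000780000001f0000003c0000001c 7 7) 0 0 (step_sound _ 35 [rh43f954c487e28ef4, (rh71222050f2c63a3a.shift 3 0)] (by decide +kernel))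
noncomputable def rhbe0ce50172d083f5 : CRef := CRef.mk (Pat.mk 0x1000000010000000180000001800000000 0x2c0000003f0000001f000000780000001f00000004 7 7) 0 0 (step_sound _ 131 [(rh50fbb5868c909700.shift 3 1), rhe3095af0679fc6af] (by decide +kernel))
noncomputable def rhe06a95689a702a6c : CRef := CRef.mk (Pat.mk 0x100000001a0000000800000008 0x200000002000000070000003f0000001f0000000c00000008 7 6) 0 0 (step_sound _ 66 [rh1a7b7059856a31cf, (rh33e738c4ed385b9f.shift 1 2)] (by decide +kernel))
noncomputable def rh17de2a2b577b904b : CRef := CRef.mk (Pat.mk 0x200000007000000018 0x380000003c000000ee0000007f00000038 7 8) 0 0 (step_sound _ 101 [rh3ce71b4b93635ff9, (rh5c5e593799055d58.shift 4 0)] (by decide +kernel))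
noncomputable def rh85b8fba1ff373c5a : CRef := CRef.mk (Pat.mk 0x1000000010000000180000000800000000 0x80000000c0000003e000000ff0000003e0000001800000010 7 8) 0 0 (step_sound _ 101 [(rh0f790d0ff3e8085e.shift 0 1), (rh574fdbf07bdd18b9.shift 1 2), (rhcd26e4b6f232bfc1.shift 1 0)] (by decide +kernel))
noncomputable def rh5151555350bd12de : CRef := CRef.mk (Pat.mk 0x2000000060000000200000000000000000000000000000000 0x1000000030000000300000003000000060000000600000006000000070000000700000001 7 3) 0 0 (step_sound _ 224 [(rh0048f2ad683a82b8.shift 0 3), rh0b107fe4080d3ca4, (rh114f4abf4ea101c9.shift 0 3)] (by decide +kernel))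
noncomputable def rhcc772cf2a3285242 : CRef := CRef.mk (Pat.mk 0x80000000800000004000000000000000000000000 0x140000001c0000001c0000003c0000007f0000001e0000007c0000001800000010 7 7) 0 0 (step_sound _ 99 [(rh328e0484b9031ea7.shift 1 1), rh5a45a67be5726e14, (rh6c03a9ef5fb89cef.shift 2 2), (rhbf000823819f4c0d.shift 2 1), (rhee179f52d21ca1dd.shift 2 2)] (by decide +kernel))
noncomputable def rhfec59bd811f888c7 : CRef := CRef.mk (Pat.mk 0x4000000040000000600000002000000020 0x1000000050000003de000001fe000003b7000000a0 7 10) 0 0 (step_sound _ 68 [(rh3cefcdf4a66fcca8.shift 2 0), (rh5ad4bb574e084c28.shift 3 0), (rha11dfd15f08f96e3.shift 3 2), (rhb98e183a12ed98e4.shift 1 0), (rhda5bd266f468b314.shift 0 1)] (by decide +kernel))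
noncomputable def rh54c6e39b936ff2fb : CRef := CRef.mk (Pat.mk 0x800000008000000080000001c0000000000000000 0x140000001f000000380000007e0000007e0000006000000020 7 7) 0 0 (step_sound _ 69 [(rh2fa8a6cd8a03c75c.shift 1 0), (rhe3060b190bc0bc78.shift 1 2), (rhe9443c0983622ded.shift 0 1)] (by decide +kernel))
noncomputable def rhc09ff3c233d14d93 : CRef := CRef.mk (Pat.mk 0x100000001c000000080000000800000000 0xc0000000c0000000c0000001c0000001f0000003c000000fc00000034 7 8) 0 0 (step_sound _ 131 [(rh1b49a77e883412ed.shift 2 1), rh301aa7ef99633f17, rh6d718a88c83f7ffb, (rh81d2d5967a13b68f.shift 2 0)] (by decide +kernel))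
noncomputable def rhfe623a08e71bf229 : CRef := CRef.mk (Pat.mk 0x400000007000000020000000200000000 0xfc0000007f0000003f0000001e0000001c 7 8) 0 0 (step_sound _ 99 [rh7cdbd1ae84f62dbe, (rhc3f1fdc610b622e4.shift 0 2), (rhdc1641106d7e5aa2.shift 0 2)] (by decide +kernel))
noncomputable def rh032bd7a44c6ae170 : CRef := CRef.mk (Pat.mk 0x200000003800000010 0x3b7000001fe000000f8 7 10) 0 0 (step_sound _ 34 [(rh7fb660bc21ce4329.shift 0 1), (rha03f6e28ea70fc7d.shift 1 0), (rha1fbe9dd839a6753.shift 2 0)] (by decide +kernel))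
noncomputable def rh6528f20ab25f37be : CRef := CRef.mk (Pat.mk 0x80000000e000000040000000400000000 0x600000006000000160000003c0000000e0000003e0000000f0000000a 7 6) 0 0 (step_sound _ 130 [(rh0ef6c71ce89c1c36.shift 1 0), (rh4f402ce420c5c06c.shift 1 0), rh9a956b622400e328] (by decide +kernel))
noncomputable def rh495cbdd71b1da586 : CRef := CRef.mk (Pat.mk 0x20000000300000001000000010 0x800000008000001ef000000fe000001f800000010 7 9) 0 0 (step_sound _ 67 [(rh5dec5e73a267a1c4.shift 1 1), rhb98e183a12ed98e4, (rhf1d19987b0b07819.shift 2 0)] (by decide +kernel))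
noncomputable def rh2bab36285f0a9b73 : CRef := CRef.mk (Pat.mk 0x400000007000000020 0x77c000003fe00000737 7 11) 0 0 (step_sound _ 39 [(rh394e80a462af5b2f.shift 3 0), (rh6476892f2a819723.shift 4 0), (rha83d0a1d851c6a27.shift 4 0), rhcbf43dbdbdad0e01, (rhfa35e196e150edb4.shift 4 0)] (by decide +kernel))
noncomputable def rh6d16138496448551 : CRef := CRef.mk (Pat.mk 0x1000000030000000180000000800000000 0x200000003e000000ff000000f8000000cc00000040 7 8) 0 0 (step_sound _ 102 [(rh18965a982d73c794.shift 3 2), rh2b2593ef305911bf] (by decide +kernel))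
noncomputable def rhb73bb28b29792dfe : CRef := CRef.mk (Pat.mk 0x80000001c000000060000000000000000 0x380000001f0000003e0000003400000034 7 6) 0 0 (step_sound _ 34 [(rh71222050f2c63a3a.shift 2 0), rhca8490a835921c3d] (by decide +kernel))
noncomputable def rh02dcb5a744454fc1 : CRef := CRef.mk (Pat.mk 0x2000000070000000100000000000000000 0x770000003fe000003d70000001000000010 7 11) 0 0 (step_sound _ 36 [(rh376e6c20741b5ee7.shift 0 2), (rh71222050f2c63a3a.shift 4 0)] (by decide +kernel))
noncomputable def rh5d984f7d764cabf5 : CRef := CRef.mk (Pat.mk 0x1000000018000000080000000000000000 0xc0000000c0000000c0000001e0000007c0000000f0000000c0000000c 7 7) 0 0 (step_sound _ 35 [(rh71222050f2c63a3a.shift 3 0), rhc6609698f0507247] (by decide +kernel))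
noncomputable def rh8a1b35540753cdcf : CRef := CRef.mk (Pat.mk 0xf000000080000000000000000 0x4000000040000003e0000007f000000ec0000000800000008 7 8) 0 0 (step_sound _ 130 [(rh5d54cb79a67f97ab.shift 2 0), (rh91219f0a1c36088e.shift 0 2), (rha40d42a2e34c408d.shift 2 0)] (by decide +kernel))
noncomputable def rh0b0b23b75740bf8a : CRef := CRef.mk (Pat.mk 0x70000000100000000000000000 0x280000002f0000007f000000fe000000d000000050 7 8) 0 0 (step_sound _ 67 [(rh1ed7a3503fa50fc8.shift 1 2), rh5e7aa396a261a685, (rheea1a90336e79c71.shift 1 2)] (by decide +kernel))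
noncomputable def rh83e1b7a4b0de40d5 : CRef := CRef.mk (Pat.mk 0x8000000080000000c0000000c00000000 0x40000000c0000000c0000007c0000007e00000013 7 7) 0 0 (step_sound _ 36 [(rh55afc6a59410cf00.shift 3 0), rh5a26d9648abbf010] (by decide +kernel))
noncomputable def rh2f27692642871235 : CRef := CRef.mk (Pat.mk 0x1000000018000000080000000000000000 0xc0000000c0000000c0000001e000000780000001f0000000c0000000c 7 7) 0 0 (step_sound _ 35 [rh70d202208948fea2, (rh71222050f2c63a3a.shift 3 0)] (by decide +kernel))
noncomputable def rhba06e0cd05c9942f : CRef := CRef.mk (Pat.mk 0x10000000100000001800000018 0x2f0000003e000000770000001e00000018 7 7) 0 0 (step_sound _ 99 [(rh50fbb5868c909700.shift 3 0), rhc391acc8b103b6d8] (by decide +kernel))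
noncomputable def rh005565697767bc1d : CRef := CRef.mk (Pat.mk 0x100000001c000000080000000800000000 0x20000000e0000000f0000001f0000001f0000003f0000000c00000004 7 6) 0 0 (step_sound _ 131 [(rh1b49a77e883412ed.shift 2 1), (rh92f5c3eb13a89a23.shift 0 1), rhad7ca240fba4080a, (rhfa94943aa2f661bc.shift 0 1)] (by decide +kernel))
noncomputable def rhf369e82ded5bd0c7 : CRef := CRef.mk (Pat.mk 0x80000000c0000000400000000 0x1f0000001f0000003c0000000f0000003c00000010 7 6) 0 0 (step_sound _ 131 [rh3d17fda9b5b13219, (rh5c5e593799055d58.shift 2 1)] (by decide +kernel))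
noncomputable def rh466b977a27e844ea : CRef := CRef.mk (Pat.mk 0x180000000c0000000400000004 0x2000000020000001f000000ff0000007c00000004 7 8) 0 0 (step_sound _ 65 [(rh53b3c253cb0c65f4.shift 0 2), rha503810eef345b1d] (by decide +kernel))
noncomputable def rh4ede29b07ec7fd7e : CRef := CRef.mk (Pat.mk 0xc00000006000000000000000000000000 0x2000000020000000b0000003f0000003e000000340000001000000010 7 6) 0 0 (step_sound _ 132 [(rh18965a982d73c794.shift 1 3), rh415fee3b1932f515] (by decide +kernel))
noncomputable def rha12070af9b315777 : CRef := CRef.mk (Pat.mk 0x8000000180000000c00000000 0x100000001c0000001c0000000e0000001f0000001b0000001f0000000a 7 5) 0 0 (step_sound _ 33 [rh3861465abd8ad749, (rh53b3c253cb0c65f4.shift 0 1)] (by decide +kernel))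
noncomputable def rh10a1b0ae6227b6e5 : CRef := CRef.mk (Pat.mk 0x8000000180000000e00000000000000000000000000000000 0x200000002000000170000001f0000001f0000001e0000000c000000180000001800000010 7 5) 0 0 (step_sound _ 99 [(rh04ee05071d91faba.shift 2 2), (rh3820f35d5e705bec.shift 3 0), (rh970969943afcb7d2.shift 0 2), (rhcfcb21518b2a0917.shift 0 3)] (by decide +kernel))
noncomputable def rh337fb33f398f5267 : CRef := CRef.mk (Pat.mk 0x80000000c0000000400000000 0x1800000018000000780000001f0000000c0000000c 7 7) 0 0 (step_sound _ 131 [rh09026d77553e85bf, (rh5c5e593799055d58.shift 2 1)] (by decide +kernel))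
noncomputable def rh6dc9537a839cde77 : CRef := CRef.mk (Pat.mk 0x10000000180000000c0000000000000000 0xa0000003b0000001f0000001f0000003400000014 7 6) 0 0 (step_sound _ 65 [(rh53b3c253cb0c65f4.shift 0 2), rhdd31c05130e44b90] (by decide +kernel))
noncomputable def rh2d05c2396b1aeab3 : CRef := CRef.mk (Pat.mk 0x8000000080000000400000000 0x40000000c0000001c0000001f000000380000001f0000003c0000001c 7 6) 0 0 (step_sound _ 131 [rh20dd76e97b439bad, rh89c652428bf61924, (rhe16036ff578a11df.shift 2 1)] (by decide +kernel))
noncomputable def rh77b9dc7c4dff882c : CRef := CRef.mk (Pat.mk 0x40000001c000000060000000000000000000000000000000000000000 0xa0000000f0000001c0000000e0000000e0000000c0000000e0000000600000002 7 5) 0 0 (step_sound _ 130 [(rh039efe07c35de3d4.shift 0 4), (rh7de9f97699eea1e4.shift 1 0), (rha707fb719e87fe6e.shift 2 3)] (by decide +kernel))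
noncomputable def rhafc6315312d6e320 : CRef := CRef.mk (Pat.mk 0x8000000180000000e0000000000000000 0x200000002000000170000001f0000001f0000000e0000000c00000008 7 5) 0 0 (step_sound _ 35 [(rh04ee05071d91faba.shift 2 0), rh970969943afcb7d2, (rha707fb719e87fe6e.shift 3 0), (rhcfcb21518b2a0917.shift 0 1)] (by decide +kernel))
noncomputable def rh7eda0b979469865e : CRef := CRef.mk (Pat.mk 0x8000000380000000c0000000000000000000000000000000000000000 0x40000000f0000003c0000001c0000001c000000180000001c0000000c00000004 7 6) 0 0 (step_sound _ 131 [(rh29245de5933fbe8d.shift 1 3), (rh53509d91ff78ed56.shift 0 4), (rh7de9f97699eea1e4.shift 2 0)] (by decide +kernel))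
noncomputable def rh47dee5caf9e8183f : CRef := CRef.mk (Pat.mk 0x8000000180000000e0000000000000000 0x2000000020000000b0000001f0000003e0000007c00000010 7 7) 0 0 (step_sound _ 36 [(rh478c4cadbcd4e066.shift 3 0), (rhc76d142f049b7a48.shift 1 0), (rhd0d290958a39e026.shift 1 0), (rhd4aa107219f07aff.shift 0 1)] (by decide +kernel))
noncomputable def rh29cc951e16594952 : CRef := CRef.mk (Pat.mk 0x8000000080000000c0000000400000000 0x40000000c0000003f0000007f0000000700000006 7 7) 0 0 (step_sound _ 98 [rh322ece05456a115d, (rh71222050f2c63a3a.shift 2 0)] (by decide +kernel))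
noncomputable def rh3ec975a2e92421e3 : CRef := CRef.mk (Pat.mk 0x1000000018000000180000000800000000 0xc0000000c0000003c0000001f0000007c0000000f00000004 7 7) 0 0 (step_sound _ 98 [rh14d3c784643f19fa, (rh34517e326ddb5b25.shift 0 2), (rhcf86d050071af9b3.shift 1 2)] (by decide +kernel))
noncomputable def rh0d0d7071af95395d : CRef := CRef.mk (Pat.mk 0x1000000010000000180000000800000000 0x4000000040000003e000000ff000000f80000000800000008 7 8) 0 0 (step_sound _ 99 [(rh71222050f2c63a3a.shift 3 0), (rh7f0e261fe06ff320.shift 0 1)] (by decide +kernel))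
noncomputable def rhcf474b43285e2aaf : CRef := CRef.mk (Pat.mk 0x20000000300000001000000000 0x2800000028000000ef000000fe000000df00000054 7 8) 0 0 (step_sound _ 133 [(rh5c5e593799055d58.shift 4 1), rhe6ac88ff54798fc3] (by decide +kernel))
noncomputable def rhb5d91e16ed1d3d72 : CRef := CRef.mk (Pat.mk 0x80000000c0000000400000000 0x2000000070000007f0000007f0000000700000006 7 7) 0 0 (step_sound _ 100 [(rh69012675dfdb1a5b.shift 0 2), rhae95e9b6d29b3ccb, (rhd69c262cd33b94b3.shift 0 2), rhe797c241b4f7deb8] (by decide +kernel))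
noncomputable def rhc6cd9b305a5f1b9b : CRef := CRef.mk (Pat.mk 0x180000000e000000000000000000000000 0x100000001c0000003e0000000f0000001e0000000e0000003e0000001c00000014 7 6) 0 0 (step_sound _ 163 [(rh281c6819542c66e6.shift 2 0), (rh76032400c82475e9.shift 0 2), (rh7a7e08304268422e.shift 2 2), rhd4003d0370667601] (by decide +kernel))
noncomputable def rh99e844816cfd9142 : CRef := CRef.mk (Pat.mk 0x380000000c000000000000000000000000 0x1c0000003c0000000f0000003c0000001c0000001c0000001c00000014 7 6) 0 0 (step_sound _ 163 [rhb6ae154c262e3c9b, (rhcd32f2ed6c1181e7.shift 2 2), (rhdb9dc36888886841.shift 0 2)] (by decide +kernel))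
noncomputable def rhf77fcd6bd4ae2226 : CRef := CRef.mk (Pat.mk 0x8000000180000000e00000000000000000000000000000000 0x200000002000000060000000f0000001e0000001e0000000c0000001c0000001c00000014 7 5) 0 0 (step_sound _ 99 [(rh62e05db1b73ac916.shift 2 0), (rh8780feb96d6aa5c7.shift 0 2), (rh8a1bd34420cccc7f.shift 2 0), (rh970969943afcb7d2.shift 0 2), (rhcae287dd1526d47c.shift 2 0)] (by decide +kernel))
noncomputable def rh8a23c4b5837cd4de : CRef := CRef.mk (Pat.mk 0xe000000020000000000000000 0x20000000a0000007b0000003f000000360000001400000010 7 7) 0 0 (step_sound _ 100 [(rha28726814a3beaac.shift 0 1), rhb97d4bb47020f90a, (rhd584a578337d0023.shift 1 2)] (by decide +kernel))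
noncomputable def rh3dd8072eded6d126 : CRef := CRef.mk (Pat.mk 0xe0000000200000000000000000 0x1000000010000001bf000000fe0000007e0000002000000020 7 9) 0 0 (step_sound _ 100 [(rh1942c70cd1862f9d.shift 0 2), (rhb9dd680bb9375a9f.shift 3 0), (rhd5889c99d29bf7d6.shift 3 0)] (by decide +kernel))
noncomputable def rhc07133f661a1f94b : CRef := CRef.mk (Pat.mk 0xf000000020 0x18e000000fe0000003f 7 9) 0 0 (step_sound _ 71 [(rh33e738c4ed385b9f.shift 4 1), rh5097ebe0f36b58ed] (by decide +kernel))
noncomputable def rh6b86d7ef2d7d4c53 : CRef := CRef.mk (Pat.mk 0x70000000100000000000000000 0x40000001c7000001fe000003f70000002000000020 7 10) 0 0 (step_sound _ 99 [(rh3fc3a7fb6866dcd4.shift 3 2), (rh429d551bffc08aea.shift 1 2), (rh708c3bc8fe2f3084.shift 0 2), (rhdbe30b89b8872db3.shift 3 2), (rhf459621b93742302.shift 2 0)] (by decide +kernel))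
noncomputable def rh81e13c21d7042c78 : CRef := CRef.mk (Pat.mk 0x18000000080000000000000000 0x400000024000003ef000001fe000003fc0000001800000018 7 10) 0 0 (step_sound _ 101 [(rha997c6ce7e425b45.shift 1 2), (rhad562696acd1db6f.shift 2 2), rhb40afb1baaf28af5] (by decide +kernel))
noncomputable def rh08e2fb1623f9f337 : CRef := CRef.mk (Pat.mk 0x180000000e0000000000000000 0x10000000180000001e0000000f0000001f0000003e0000003700000016 7 6) 0 0 (step_sound _ 131 [rh681d40c5372a7c39, (rh7a7e08304268422e.shift 2 1), (rhbb339bb7e4e96b38.shift 2 1), rhed7672605ccf0247] (by decide +kernel))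
noncomputable def rh34a51fdd9a0f01aa : CRef := CRef.mk (Pat.mk 0xc000000060000000000000000 0x12000000330000003f0000003e0000000c0000000c 7 6) 0 0 (step_sound _ 100 [(rh18965a982d73c794.shift 1 2), rhffcccc644d77e7c4] (by decide +kernel))
noncomputable def rhef8e86f5c8d8df08 : CRef := CRef.mk (Pat.mk 0xc000000040000000c0000000000000000 0x20000000f0000003f0000003f0000003c0000001c 7 6) 0 0 (step_sound _ 99 [rh05da23be4d8a3aee, rh370af384ddd2082c] (by decide +kernel))
noncomputable def rhc3ee11b83e13621e : CRef := CRef.mk (Pat.mk 0x200000006000000020000000200000000000000000000000000000000 0x10000000300000007000000060000000200000002000000070000000700000005 7 3) 0 0 (step_sound _ 224 [rh1431e09b65456546, (rh50fbb5868c909700.shift 0 4)] (by decide +kernel))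
noncomputable def rh242a3e09b1b8a641 : CRef := CRef.mk (Pat.mk 0x8000000180000000800000008 0x100000001c0000001c0000000c0000001c0000000f0000000c 7 5) 0 0 (step_sound _ 130 [rh0e22bf40ed27576c, (rhffd04209dc8ea796.shift 2 0)] (by decide +kernel))
noncomputable def rhe391b1aaf40b2b9d : CRef := CRef.mk (Pat.mk 0x18000000080000000800000000000000000000000000000000 0x80000000800000018000000780000007e0000001f0000001c0000001c00000014 7 7) 0 0 (step_sound _ 132 [(rh046c5eb18e55a239.shift 3 1), rh1d2899c8d4dc46a7, (rh231006611e76e608.shift 0 1), (rh41cf98abf6c3c536.shift 2 2), (rh70e33bfdf511e144.shift 3 1)] (by decide +kernel))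
noncomputable def rhdc86d56c01e45573 : CRef := CRef.mk (Pat.mk 0x6000000020000000200000000000000000000000000000000 0x3000000030000000300000007000000070000000700000003000000070000000700000004 7 3) 0 0 (step_sound _ 97 [(rhdb991c49878b7ef7.shift 0 2), rhe0918f8a4faf36ed, (rhffd0ff6f60fa3c9a.shift 0 2)] (by decide +kernel))
noncomputable def rh52ffa351c564bfa9 : CRef := CRef.mk (Pat.mk 0x7000000020 0x38e000001fe000003bf 7 10) 0 0 (step_sound _ 35 [(rh10e3074efe589034.shift 2 0), (rh592c7139d2c44767.shift 1 0), (rh74f48645dd37c94b.shift 1 0), rheaad777ed634577b] (by decide +kernel))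
noncomputable def rh675c592c075aa0f4 : CRef := CRef.mk (Pat.mk 0xc0000000700000004000000000000000000000000 0x4000000140000003c000000170000003e0000001a0000000800000008 7 6) 0 0 (step_sound _ 164 [(rh18965a982d73c794.shift 1 4), rh7ebd7cfa8708a818] (by decide +kernel))
noncomputable def rh67c61522a3247eb9 : CRef := CRef.mk (Pat.mk 0x180000000e000000000000000000000000 0x100000001c0000003e0000000f0000001c0000000e0000003e0000001c00000014 7 6) 0 0 (step_sound _ 163 [rh0978f3ef7e1f1c5b, (rh281c6819542c66e6.shift 2 0), (rh76032400c82475e9.shift 0 2), (rh7a7e08304268422e.shift 2 2)] (by decide +kernel))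
noncomputable def rhba4e8b59ebe09ebf : CRef := CRef.mk (Pat.mk 0x180000000c000000080000000000000000 0x8000000080000001f0000007f0000007f0000001400000004 7 7) 0 0 (step_sound _ 97 [rh14c61a47cb726b5c, (rh53b3c253cb0c65f4.shift 0 3)] (by decide +kernel))
noncomputable def rh9d80ff53a58ac190 : CRef := CRef.mk (Pat.mk 0x400000006000000030000000200000000 0x2000000060000001e0000001f0000001f0000000d 7 5) 0 0 (step_sound _ 99 [(rh18965a982d73c794.shift 0 2), rh407dbb410c9e4aec] (by decide +kernel))
noncomputable def rh657679cc28ef1bbf : CRef := CRef.mk (Pat.mk 0x8000000080000000c00000000 0x100000001c0000001e000000780000000f0000003c00000018 7 7) 0 0 (step_sound _ 131 [rh361b7d07b7d79d82, (rh9a369cb82ea472da.shift 2 1), (rhf061e61953401a2f.shift 1 0)] (by decide +kernel))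
noncomputable def rh469c2cf0b05c66cf : CRef := CRef.mk (Pat.mk 0x8000000080000000c0000000000000000000000000000000000000000 0x10000000180000000c0000001f0000007c0000001c0000001c0000001c00000010 7 7) 0 0 (step_sound _ 131 [(rh0b0198cd56a23f60.shift 0 3), (rh431719c633196326.shift 2 0), (rhcc2a2baa9246395a.shift 0 3)] (by decide +kernel))
noncomputable def rh77fb5f82ca6c1bef : CRef := CRef.mk (Pat.mk 0x800000018000000100000001800000000 0x340000003f0000007f0000001f0000003f00000004 7 7) 0 0 (step_sound _ 67 [rh2fe0a58a3df289c0, (rh5bb34a05b323302d.shift 0 1), (rhca405e350c462817.shift 0 1), (rhfc21d93c70905a0f.shift 1 1)] (by decide +kernel))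
noncomputable def rh3892a2af32600897 : CRef := CRef.mk (Pat.mk 0x200000007000000000 0x3bf000001fe0000038e 7 10) 0 0 (step_sound _ 35 [rh1f9701c4cf497514, (rh394e80a462af5b2f.shift 2 0), (rh775ca1963e850b80.shift 1 0), (rhec0f150ffdda098a.shift 1 0)] (by decide +kernel))
noncomputable def rheaafc7abd64c7627 : CRef := CRef.mk (Pat.mk 0x1000000010000000180000000800000000 0x2800000078000001de000000f8000000ff00000037 7 9) 0 0 (step_sound _ 70 [(rh823892b6ed161c2f.shift 2 1), (rh837cbf422869f936.shift 1 0), (rh8aeae207ef4e32d0.shift 2 1), rhca0a60f1afb738a1] (by decide +kernel))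
noncomputable def rh37f1a8ce4544eb11 : CRef := CRef.mk (Pat.mk 0x1000000018000000080000000000000000 0xc0000001e000000780000001f0000007c0000001c 7 7) 0 0 (step_sound _ 35 [rh56e8addd8b888eef, (rh71222050f2c63a3a.shift 3 0)] (by decide +kernel))
noncomputable def rh8fa3e6caf2257465 : CRef := CRef.mk (Pat.mk 0x80000000c0000000400000000 0x1c0000003c0000000f0000000f0000003c00000018 7 6) 0 0 (step_sound _ 131 [rh4798c3ae9bba584c, (rh5c5e593799055d58.shift 2 1)] (by decide +kernel))
noncomputable def rhfeb5eb62842ac1aa : CRef := CRef.mk (Pat.mk 0x400000007000000000 0x77000003fe000003bf 7 10) 0 0 (step_sound _ 39 [(rh06db8ceda6269a47.shift 3 0), rh39044c6164022eb3, (rh6a5aad1075fb7119.shift 4 0)] (by decide +kernel))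
noncomputable def rh26ccbd76a4f07c1f : CRef := CRef.mk (Pat.mk 0x1c00000000 0x1cf000000fe000001ef 7 9) 0 0 (step_sound _ 37 [(rh06db8ceda6269a47.shift 1 0), (rh394e80a462af5b2f.shift 1 0), rh592c7139d2c44767] (by decide +kernel))
noncomputable def rh7c06f18d390d5e6b : CRef := CRef.mk (Pat.mk 0x200000007000000040 0x3bf000003fe00000077 7 10) 0 0 (step_sound _ 35 [rh3b2b05f77630fe70, rh5b2ce1e5aa4a4edd, (rhaedb9d07c94e868f.shift 2 0), (rhb4452f112b88b363.shift 2 0), (rhd1d05263fabc0227.shift 1 0), rhfd3b863ea463319a] (by decide +kernel))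
noncomputable def rha3eac3217ff7f587 : CRef := CRef.mk (Pat.mk 0x40000000e000000020000000200000000 0x10000000760000003f0000003a0000000f0000000c 7 7) 0 0 (step_sound _ 100 [(rhb6f72982232a8164.shift 1 3), rhc4048fdb9dbeea4d, rhce71534e51e0a15e] (by decide +kernel))
noncomputable def rh1c78d2317758da20 : CRef := CRef.mk (Pat.mk 0x2000000070000000100000001000000000 0x370000007e000000ff000003f000000040 7 10) 0 0 (step_sound _ 99 [(rh0901d4634e55bc25.shift 2 0), (rh1f9701c4cf497514.shift 0 2), (rh3b9460ceb992f88f.shift 1 2), (rh53c40d3d6d122826.shift 2 0), (rhc7d592a49b2c2ab2.shift 0 2), (rhe6bda222dda267c2.shift 2 0)] (by decide +kernel))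
noncomputable def rh2a7fc2ba0552f49e : CRef := CRef.mk (Pat.mk 0x10000000380000000000000000 0x8000000080000001f000000ff000000e700000004 7 8) 0 0 (step_sound _ 99 [rh53daa803953ee8cc, (rh810fa74b1681ba9e.shift 0 1), (rhe2b63c00a3d7bb73.shift 1 2)] (by decide +kernel))
noncomputable def rh80a0ebe3a8491f16 : CRef := CRef.mk (Pat.mk 0x1000000038000000080000000000000000 0x4000000170000003e0000007e0000006800000028 7 7) 0 0 (step_sound _ 35 [rh3137ef75640d683c, (rh71222050f2c63a3a.shift 3 0)] (by decide +kernel))
noncomputable def rh96fd46f0ba354c45 : CRef := CRef.mk (Pat.mk 0x40000000e000000020000000000000000 0x10000000740000003f0000003e0000000b0000000a 7 7) 0 0 (step_sound _ 33 [rh45c1591b3ffdd1f9, (rh71222050f2c63a3a.shift 1 0)] (by decide +kernel))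
noncomputable def rhb09cf1454b9fddbf : CRef := CRef.mk (Pat.mk 0x80000001c000000040000000400000000 0x20000000f0000007e000000740000001e00000018 7 7) 0 0 (step_sound _ 130 [(rh277b01412deaec89.shift 0 1), (rh2e8814637c3f6d46.shift 1 1), (rh4e3e80f1efad9d3b.shift 1 0)] (by decide +kernel))
noncomputable def rh511e836b6d308d55 : CRef := CRef.mk (Pat.mk 0x100000001c000000180000000000000000 0x4000000140000003f0000001f0000000b0000000a 7 6) 0 0 (step_sound _ 35 [(rh71222050f2c63a3a.shift 3 0), rha3861403680768ee] (by decide +kernel))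
noncomputable def rhc89d602465741051 : CRef := CRef.mk (Pat.mk 0x200000003800000010 0x20000000200000002e000001fe000003bf 7 10) 0 0 (step_sound _ 101 [(rh5c5e593799055d58.shift 4 0), rhb7fa1c73b1c4ec99] (by decide +kernel))
noncomputable def rhc5f15dff21b0f16d : CRef := CRef.mk (Pat.mk 0x1000000018000000080000000800000000 0xf0000001f0000007c0000000f0000000c00000004 7 7) 0 0 (step_sound _ 131 [rh07cbab85cc35a077, rh7efff25179d37ffa, (rhcf85c92937975d4d.shift 1 1)] (by decide +kernel))
noncomputable def rhc99a0c59c0274cca : CRef := CRef.mk (Pat.mk 0xc000000040000000400000000 0x80000000e0000000f0000003c0000003c0000000f0000000a 7 6) 0 0 (step_sound _ 131 [rh66ce4c5dc8bf2422, (rh69755ef358ebfd54.shift 2 1), (rhbfb5770941270498.shift 2 1)] (by decide +kernel))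
noncomputable def rh96051612af353f2d : CRef := CRef.mk (Pat.mk 0x2000000020000000300000001000000000 0x80000007c000000fe000000fe000001d700000044 7 9) 0 0 (step_sound _ 67 [rh896d971dc7aad50c, (rha62b83dd69dc04f5.shift 2 0), (rhb103f40a53fe1424.shift 0 1), (rhb935856717173846.shift 1 0)] (by decide +kernel))
noncomputable def rh6816996fdde7f991 : CRef := CRef.mk (Pat.mk 0x1000000010000000180000000800000000 0xc0000003e000000ff0000003e0000001800000010 7 8) 0 0 (step_sound _ 101 [(rh0bb882ba86b2372d.shift 1 2), (rh0f790d0ff3e8085e.shift 0 1), (rh574fdbf07bdd18b9.shift 1 2), (rha8c3c3974f50027b.shift 1 0)] (by decide +kernel))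
noncomputable def rha9e0e5b2fedf6a75 : CRef := CRef.mk (Pat.mk 0x3800000010000000100000001000000000 0x1c7000001fe000003f7000000100000003000000020 7 10) 0 0 (step_sound _ 134 [(rh3fc3a7fb6866dcd4.shift 3 3), (rh6e8201abcef385e8.shift 3 0), (rh7955269eb2fd1494.shift 1 0), (rhbb13f9e1d387f64a.shift 0 3)] (by decide +kernel))
noncomputable def rhc77c4d6775dbaaf6 : CRef := CRef.mk (Pat.mk 0x18000000080000000800000000 0x1000000018000000180000001c0000001f0000007c000000180000000c00000004 7 7) 0 0 (step_sound _ 131 [(rhca405e350c462817.shift 0 1), (rhea3dd3f16be204e9.shift 2 0), (rhfc21d93c70905a0f.shift 1 1)] (by decide +kernel))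
noncomputable def rha3b39134b535a08b : CRef := CRef.mk (Pat.mk 0xc000000040000000c00000000 0x1c0000007c0000001f0000007c0000007f00000012 7 7) 0 0 (step_sound _ 67 [rh045eb03ae04c46fa, (rh82598cd3a7032126.shift 1 0), (rhad590f0693506156.shift 0 1)] (by decide +kernel))
noncomputable def rh14b9821616f990a3 : CRef := CRef.mk (Pat.mk 0x600000002000000060000000000000000 0x40000000c0000003f0000003e0000003f0000000c0000000c 7 6) 0 0 (step_sound _ 98 [(rh7998308012cda1f6.shift 1 0), (rh82598cd3a7032126.shift 0 1), rhf27fde38f11e646b] (by decide +kernel))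
noncomputable def rhfb82e76cea561a87 : CRef := CRef.mk (Pat.mk 0x100000001a000000080000000800000000 0x4000000370000001e0000003b0000000f00000006 7 6) 0 0 (step_sound _ 98 [(rh33e738c4ed385b9f.shift 1 3), rh723b55a7e834e946] (by decide +kernel))
noncomputable def rheb0d5bb2c8e57bef : CRef := CRef.mk (Pat.mk 0x8000000080000000c00000004000000000000000000000000 0x170000001f0000003c0000001c0000007c000000780000001800000018 7 7) 0 0 (step_sound _ 99 [(rh754ed8af3fcc8232.shift 0 3), (rha068555654cd13ea.shift 2 2), (rhdd11e03a2f8b13b6.shift 2 0)] (by decide +kernel))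
noncomputable def rh96bc02b36bfa66ae : CRef := CRef.mk (Pat.mk 0x40000000e000000020000000200000000 0x8000000ec0000007f0000007e0000003b00000018 7 8) 0 0 (step_sound _ 68 [rh2767ac40d1aacd89, (rh71efda916732b25a.shift 0 2), (rhbc0930b8ae400bb5.shift 1 2)] (by decide +kernel))
noncomputable def rh8fa76646598c2f23 : CRef := CRef.mk (Pat.mk 0xf00000009000000000000000000000000 0x40000001c0000000f0000000f0000001e0000001c00000014 7 5) 0 0 (step_sound _ 163 [(rh33e738c4ed385b9f.shift 0 4), rh596ad0734dc51e67] (by decide +kernel))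
noncomputable def rh113b7782ed76706f : CRef := CRef.mk (Pat.mk 0x2000000070000000100000000 0x60000000600000006000000070000001f0000000f 7 5) 0 0 (step_sound _ 129 [(rh5c5e593799055d58.shift 0 1), rhb6044cb65f8e1ddd] (by decide +kernel))
noncomputable def rh57bb17e3f4e71c73 : CRef := CRef.mk (Pat.mk 0x100000001000000038000000080000000000000000 0x30000001f7000000ff000001f80000003000000030 7 9) 0 0 (step_sound _ 102 [(rh95461b835b3f00cd.shift 0 2), (rha93a5dd541ab8209.shift 3 2), (rhb2b31770788dded8.shift 3 0)] (by decide +kernel))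
noncomputable def rh49e89daa252c18f6 : CRef := CRef.mk (Pat.mk 0x100000003800000008 0x3f7000001fe000000f8 7 10) 0 0 (step_sound _ 34 [rh0d378fd9e8917c5a, (rhc3f1fdc610b622e4.shift 2 0), (rhec46bd5500c722c9.shift 1 1)] (by decide +kernel))
noncomputable def rhc61fdd8f9622301c : CRef := CRef.mk (Pat.mk 0x1c000000080000000000000000 0x4000000240000006f000000ff0000007b0000001200000010 7 8) 0 0 (step_sound _ 68 [(rh31bde021a3df9e03.shift 1 0), (rh6292bd8784ece55f.shift 1 2), (rhdc692b1e23a4285d.shift 0 1)] (by decide +kernel))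
noncomputable def rh307c4439f714f777 : CRef := CRef.mk (Pat.mk 0x20000000e000000020000000200000000 0x4000000060000003f0000003a0000000f0000000c 7 6) 0 0 (step_sound _ 130 [(rh2f68792b6b779e96.shift 1 1), rh4e3e80f1efad9d3b] (by decide +kernel))
noncomputable def rh31501b6cdb328657 : CRef := CRef.mk (Pat.mk 0x8000000000000000c0000000400000000 0xe0000000f0000003c0000000f0000003c00000018 7 6) 0 0 (step_sound _ 99 [rh1fff0ef2c284a2c0, (rh5c5e593799055d58.shift 2 1)] (by decide +kernel))
noncomputable def rhc029edca28d9028d : CRef := CRef.mk (Pat.mk 0x8000000000000000c00000004000000000000000000000000 0x60000000f0000003c0000000f0000003c0000001c0000001c00000018 7 6) 0 0 (step_sound _ 163 [(rh42548283029e2a39.shift 2 1), rh80a760f74fa692a7, (rhf9af042da61fc652.shift 2 1)] (by decide +kernel))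
noncomputable def rh13f2755a79eb1cd4 : CRef := CRef.mk (Pat.mk 0x20000001e000000000000000000000000 0x50000000700000007000000060000001e000000370000000600000004 7 6) 0 0 (step_sound _ 65 [rh60162e03655ad5a5, (rheb0810cc63b001d8.shift 0 2)] (by decide +kernel))
noncomputable def rhf8cdf05499d8df2b : CRef := CRef.mk (Pat.mk 0x80000000e000000000000000000000000 0x40000000c0000007f0000003e000000330000001200000010 7 7) 0 0 (step_sound _ 132 [(rh572132728df34c43.shift 1 3), (rh80f90a60d87caa0d.shift 1 3), rhe8352ac8f77731cc] (by decide +kernel))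
noncomputable def rh664982eea08a6cf4 : CRef := CRef.mk (Pat.mk 0x1c000000060000000000000000 0x8000000080000003c0000001f0000003e0000003c00000014 7 6) 0 0 (step_sound _ 131 [rh33429fa3f39cbfba, (rh4821dcf828b9d7bf.shift 2 0), (rhadf429772c25fde0.shift 2 0), rhe40b193aff768ad1] (by decide +kernel))
noncomputable def rhb035367d28da21b6 : CRef := CRef.mk (Pat.mk 0x1c0000000600000000000000000000000000000000 0xa0000000e0000001f0000001c0000001e0000003c0000001e0000000e0000000a 7 6) 0 0 (step_sound _ 98 [(rh1f92911e4f033b3f.shift 1 0), (rh215e11e099257d75.shift 2 2), (rhac917a7a6fd43377.shift 2 0), (rhb3151143ccbe9e5a.shift 0 2)] (by decide +kernel))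
noncomputable def rh3043f8a6a6b38f48 : CRef := CRef.mk (Pat.mk 0xa0000000e0000000000000000 0x600000016000000370000003e0000003e0000000b0000000a 7 6) 0 0 (step_sound _ 98 [(rh07543f4b2ab89060.shift 1 0), rh87e2ca517c87b4c2, (rhb7d47b33b7781ac5.shift 0 1)] (by decide +kernel))
noncomputable def rh307bb816efbd4ba7 : CRef := CRef.mk (Pat.mk 0x80000001e00000000 0x1f8000000fe000000e3 7 9) 0 0 (step_sound _ 1 [(rh426e7f3c9692c92e.shift 1 0), rheb0810cc63b001d8] (by decide +kernel))
noncomputable def rha3ed21156e2bcae6 : CRef := CRef.mk (Pat.mk 0x140000001c00000000 0x1c0000001c0000003f0000007f0000001c00000014 7 7) 0 0 (step_sound _ 67 [rh6096bce092f617bd, (rh8b5a5116588ab9aa.shift 0 1), (rhb7d47b33b7781ac5.shift 1 0)] (by decide +kernel))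
noncomputable def rh6e772bf209b6671d : CRef := CRef.mk (Pat.mk 0x4000000070000000000000000000000000 0x380000003c0000007f000001fe0000001f0000001800000008 7 9) 0 0 (step_sound _ 132 [rh915f68127b702515, (rha9fbfd4bb8cf890b.shift 1 3), (rhc285527e08d8cdd3.shift 3 1), rhcb2d87c35a92205f, (rhf60aa8aede119d3b.shift 1 3)] (by decide +kernel))
noncomputable def rhe943b9a5e5507f81 : CRef := CRef.mk (Pat.mk 0x380000000c00000000000000000000000000000000 0x1000000050000000f70000003e0000007c00000060000000600000004000000040 7 8) 0 0 (step_sound _ 133 [(rh0c19a731112882f2.shift 2 0), (rh64a91c118681c512.shift 0 4), (rhbd9ac79c87120162.shift 1 3)] (by decide +kernel))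
noncomputable def rhb59840d60ceae331 : CRef := CRef.mk (Pat.mk 0x1000000020000000200000002000000000000000000000000 0x300000003000000060000000600000006000000070000000700000007 7 3) 0 0 (step_sound _ 193 [(rh50fbb5868c909700.shift 0 3), rhe6c56a62fe5a862f] (by decide +kernel))
noncomputable def rh16e2b99240741605 : CRef := CRef.mk (Pat.mk 0x80000000c000000080000000000000000 0x1c0000001c0000001c0000001f0000003c000000180000001800000010 7 6) 0 0 (step_sound _ 163 [(rh6c59ce14113da07f.shift 3 0), (rh6ebd0df19ee0dbf0.shift 0 1), (rhc85cc95794737cf7.shift 2 2)] (by decide +kernel))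
noncomputable def rh1ef28569659301f2 : CRef := CRef.mk (Pat.mk 0x180000000b00000000000000000000000000000000 0x10000000140000001f000000380000001b0000007e0000001e0000001c00000014 7 7) 0 0 (step_sound _ 99 [(rh215e11e099257d75.shift 3 2), (rh274a837cd7eaa569.shift 2 0), (rh6f728df43593bc4b.shift 0 2), (rhbbe9e4cfcfefa888.shift 1 0)] (by decide +kernel))
noncomputable def rh771721dda730c85c : CRef := CRef.mk (Pat.mk 0xc000000070000000000000000000000000000000000000000 0xa0000000e0000000e0000000c000000070000003e0000000e0000000e0000000e00000002 7 6) 0 0 (step_sound _ 130 [(rh0794c465b5535106.shift 0 3), (rh215e11e099257d75.shift 2 3), (rh3f069944e50c0cbf.shift 0 1), (rhc850ef9393baf884.shift 1 0)] (by decide +kernel))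
noncomputable def rh3992b8c260fffbdc : CRef := CRef.mk (Pat.mk 0x100000001c000000000000000000000000 0x1000000010000000170000003e000000ff0000002800000020 7 8) 0 0 (step_sound _ 69 [(rh613f120011b7f3a5.shift 1 0), (rh6aa0ed61cce1493b.shift 1 2), (rh782848cf5e4b1e5e.shift 1 2), rh887da605b3070d45, (rhebaa3168f6f6fdb4.shift 1 1)] (by decide +kernel))
noncomputable def rh5da5bd32d63a8f85 : CRef := CRef.mk (Pat.mk 0x1000000038000000000000000000000000 0x1000000010000000170000003e000000770000002000000020 7 7) 0 0 (step_sound _ 69 [(rh2d64593639590f1b.shift 1 0), (rh3918eeb6c53434d8.shift 0 2), (rhc38f566cab2818e5.shift 4 0)] (by decide +kernel))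
noncomputable def rh702ec5379705ccc9 : CRef := CRef.mk (Pat.mk 0x8000000180000000c000000000000000000000000 0x140000001f000000780000000c0000001c0000001c00000014 7 7) 0 0 (step_sound _ 133 [(rh18965a982d73c794.shift 2 3), rh621baf5876219afc] (by decide +kernel))
noncomputable def rh3158adcef44a580b : CRef := CRef.mk (Pat.mk 0x8000000180000000e00000000000000000000000000000000 0x160000001f0000001b0000001e0000000c0000001c0000001c00000010 7 5) 0 0 (step_sound _ 99 [(rh8a1bd34420cccc7f.shift 2 0), (rha707fb719e87fe6e.shift 3 2), (rhac23380c356673f0.shift 0 2)] (by decide +kernel))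
noncomputable def rhb87f9ac3cd41e2ad : CRef := CRef.mk (Pat.mk 0x2000000030000000100000000000000000 0x800000008000001ef000000fe000001df0000001000000010 7 9) 0 0 (step_sound _ 36 [(rh71222050f2c63a3a.shift 4 0), (rhc43d90d706a0a1fd.shift 0 1)] (by decide +kernel))
noncomputable def rh7759690f192770f7 : CRef := CRef.mk (Pat.mk 0x200000002000000000000000300000001000000000 0x2800000068000003ce000001ff000003fe00000010 7 10) 0 0 (step_sound _ 70 [(rh2820ca9a6c4f41b4.shift 1 1), (rh4a81b279a40262a1.shift 3 1), (rh6f0e0ef2f1f57e1c.shift 2 0), (rhdc1641106d7e5aa2.shift 3 1), (rhe125ed51b2878ed7.shift 0 1)] (by decide +kernel))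
noncomputable def rhe6ba3c56e0d42ef6 : CRef := CRef.mk (Pat.mk 0x1000000018000000080000000800000000 0x1000000014000000360000007e000001ef0000007c00000020 7 9) 0 0 (step_sound _ 164 [(rh5c5e593799055d58.shift 3 2), rhbd6b69cfebae9e26] (by decide +kernel))
noncomputable def rh1992fbf0832c9e2f : CRef := CRef.mk (Pat.mk 0x80000000c0000000000000004 0x10000000180000001800000018000000380000001f0000007c00000014 7 7) 0 0 (step_sound _ 131 [(rh615a42bddefc9f31.shift 2 0), rh6a6d4f6eb565ee3c, rh7847051ba627ac19, (rh958ac04a5d3bcb36.shift 2 1)] (by decide +kernel))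
noncomputable def rhbcf24f928762ca2f : CRef := CRef.mk (Pat.mk 0x80000000c000000000000000400000000 0x140000001c0000001c000000380000001f000000780000001e0000001c 7 7) 0 0 (step_sound _ 67 [rh12eeb6e96e64e320, (rh86aa94d7c0c1e10d.shift 1 0), (rh8fe5917a5861ae62.shift 0 1)] (by decide +kernel))
noncomputable def rhf9438d076a734804 : CRef := CRef.mk (Pat.mk 0x100000001000000018000000080000000000000000 0x10000003b7000001fe000001ef0000002000000020 7 10) 0 0 (step_sound _ 101 [(rh2820ca9a6c4f41b4.shift 0 2), rh440fed56995fb185, (rh9fb657e6481dfcdc.shift 2 2), (rhc32688944b7f7dbb.shift 2 0)] (by decide +kernel))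
noncomputable def rh62be759487a831b5 : CRef := CRef.mk (Pat.mk 0x1c0000000600000000000000000000000000000000 0x80000000e0000000e0000000f0000001c0000000e000000060000000e0000000e00000008 7 5) 0 0 (step_sound _ 98 [(rh164d9aed8aa31d30.shift 0 2), (rh215e11e099257d75.shift 2 2), (rh409831cc0d61a6f8.shift 1 0), (rhac917a7a6fd43377.shift 2 0)] (by decide +kernel))
noncomputable def rhbda618ea600fd3c0 : CRef := CRef.mk (Pat.mk 0x1c000000070000000000000000000000000000000000000000 0x80000000e0000000f0000001c000000070000003e0000000c0000000e0000000e00000002 7 6) 0 0 (step_sound _ 130 [(rh1c0908b54421561f.shift 0 3), (rh215e11e099257d75.shift 2 3), (rh3f069944e50c0cbf.shift 0 1), (rhc850ef9393baf884.shift 1 0), (rhd1fd8cf6458d03f9.shift 0 2)] (by decide +kernel))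
noncomputable def rh8e5a074eca8e223f : CRef := CRef.mk (Pat.mk 0xa000000030000000000000000000000000 0x2800000028000000ef0000007e000000ff0000004400000040 7 8) 0 0 (step_sound _ 99 [(rh3d980a95bbd7ebd4.shift 3 0), (rhb12ffaec36122c99.shift 0 2), rhdc6e71c82f8056a6] (by decide +kernel))
noncomputable def rh63af6d4aee3af36b : CRef := CRef.mk (Pat.mk 0x8000000080000000c000000000000000000000000 0x140000001e000000780000000f0000003c0000001c00000010 7 7) 0 0 (step_sound _ 67 [(rh6311a353758d5f3a.shift 1 1), (rh6c59ce14113da07f.shift 3 0), (rhc9c1a6ade0802ee3.shift 0 1)] (by decide +kernel))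
noncomputable def rh9467613b0826e44c : CRef := CRef.mk (Pat.mk 0x40000000400000004000000000000000000000000 0xa0000000e0000000e0000000f0000003c0000000c0000000c0000000c00000008 7 6) 0 0 (step_sound _ 67 [(rh1148744b53f3df58.shift 1 2), (rh2977b00063528966.shift 2 0), (rh47dece01c1595e79.shift 2 0), (rh9dd91bba88ed65ca.shift 0 1)] (by decide +kernel))
noncomputable def rhc427bb6b9f118fb8 : CRef := CRef.mk (Pat.mk 0x3400000006000000000000000000000000 0xa0000000e0000000e0000001e00000036000000070000003e0000000e0000000e 7 6) 0 0 (step_sound _ 162 [(rh04725cccf4f32c57.shift 1 0), (rh281c6819542c66e6.shift 1 0), (rh7a7e08304268422e.shift 1 2), (rh818a0d2a5d6a2115.shift 0 1)] (by decide +kernel))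
noncomputable def rh5f7818fae278b84d : CRef := CRef.mk (Pat.mk 0x38000000080000000000000000 0x400000014000000ff0000007c000000e80000000800000008 7 8) 0 0 (step_sound _ 130 [(rh356e916bfa1b2a0a.shift 1 0), (rh8c12fdbbddc1e7ab.shift 0 3), (rhabcfbb5502de12b0.shift 1 0), (rhda789f95f34c7cae.shift 2 0)] (by decide +kernel))
noncomputable def rh5bffc074f65938d8 : CRef := CRef.mk (Pat.mk 0xe000000040000000000000000 0x200000002000000770000003e000000740000000400000004 7 7) 0 0 (step_sound _ 129 [rh0ba76a6c656f5362, (rha40d42a2e34c408d.shift 1 0), (rhae8d21abc86b555a.shift 0 2)] (by decide +kernel))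
noncomputable def rhf4471cf129ec70a6 : CRef := CRef.mk (Pat.mk 0xc000000070000000000000000000000000000000000000000 0xa0000000e0000000e0000000c000000070000003e0000000f0000000e0000000e00000008 7 6) 0 0 (step_sound _ 130 [(rh215e11e099257d75.shift 2 3), (rh2222a27c490588f5.shift 1 0), (rh7e6c0749b1cabd18.shift 0 3), (rha7054fc384045257.shift 0 2), (rhb6e5fd90818b20b8.shift 0 1)] (by decide +kernel))
noncomputable def rh7cfc9d9a72067e45 : CRef := CRef.mk (Pat.mk 0x30000000180000000800000000000000000000000000000000 0x2800000038000000180000001f0000007c0000003c0000001000000010 7 7) 0 0 (step_sound _ 99 [rh1d59449cfac07c78, (rh71222050f2c63a3a.shift 3 2)] (by decide +kernel))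
noncomputable def rh74681cc65f7f6c4d : CRef := CRef.mk (Pat.mk 0x38000000080000000000000000 0x400000004000000ff0000007c000000e80000000800000008 7 8) 0 0 (step_sound _ 130 [(rh1ea0e2de227fcbb5.shift 2 2), (rh356e916bfa1b2a0a.shift 1 0), (rh8c12fdbbddc1e7ab.shift 0 3), (rhabcfbb5502de12b0.shift 1 0)] (by decide +kernel))
noncomputable def rhc3a65d53ed06e166 : CRef := CRef.mk (Pat.mk 0x1c00000002 0xfc000000ff000000e3 7 8) 0 0 (step_sound _ 33 [rh3a72b52e5253e95e, rheb0810cc63b001d8] (by decide +kernel))
noncomputable def rh8e8581018ee69c6b : CRef := CRef.mk (Pat.mk 0x2000000030000000000000003000000010 0x2000000020000001ff0000007e000000cf0000007c00000010 7 9) 0 0 (step_sound _ 99 [(rh1389bf67c0295075.shift 1 0), rh29e898f5faf91243, rh7446ed4000dfb787, (rha11dfd15f08f96e3.shift 2 3), (rhb103f40a53fe1424.shift 0 2)] (by decide +kernel))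
noncomputable def rh699d1752a80a3e78 : CRef := CRef.mk (Pat.mk 0x1000000010000000100000001000000000 0x180000001800000018000000380000001f0000001c 7 6) 0 0 (step_sound _ 131 [(rh50fbb5868c909700.shift 3 1), rhd9e20e62b98e4adc] (by decide +kernel))
noncomputable def rh784469a9cba766f9 : CRef := CRef.mk (Pat.mk 0x70000000100000000000000000 0x2000000028000000ef0000007f000000dc0000005000000010 7 8) 0 0 (step_sound _ 99 [(rh4c622fddc53a5f99.shift 1 3), (rh4e9101e89b88eb2f.shift 2 1), (rhb9dd680bb9375a9f.shift 2 0), (rhd050ea11a2b85eec.shift 0 2)] (by decide +kernel))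
noncomputable def rhc605d52cc7daef77 : CRef := CRef.mk (Pat.mk 0x1000000010000000100000001000000000 0x180000001800000018000000380000001f0000001c 7 6) 0 0 (step_sound _ 35 [(rh932754581e0f4330.shift 3 0), rhfacc264970e52242] (by decide +kernel))
noncomputable def rh4341ad515b07a9d7 : CRef := CRef.mk (Pat.mk 0x1800000018000000080000000800000000 0xe0000001f0000001b0000000f0000000c00000004 7 5) 0 0 (step_sound _ 130 [(rh50fbb5868c909700.shift 2 1), rha32504ffa5ea71cb] (by decide +kernel))
noncomputable def rhca044724da5aa4b9 : CRef := CRef.mk (Pat.mk 0x40000000c0000000600000000000000000000000000000000 0xa0000000f0000003c0000000e000000060000000e0000000e00000008 7 6) 0 0 (step_sound _ 164 [rh17a257064db5b8bf, (rh18965a982d73c794.shift 1 4)] (by decide +kernel))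
noncomputable def rh9074ab79de2f1963 : CRef := CRef.mk (Pat.mk 0x200000002000000020000000200000003 0x500000007000000070000000200000002000000060000001e00000007 7 5) 0 0 (step_sound _ 34 [rh5202bc01a167ca8a, (rh55afc6a59410cf00.shift 1 0)] (by decide +kernel))
noncomputable def rhaba1c6ff33f12e07 : CRef := CRef.mk (Pat.mk 0x8000000080000000c000000000000000000000000 0x140000001e0000007c0000000f0000003c0000001c00000004 7 7) 0 0 (step_sound _ 66 [(rh42548283029e2a39.shift 2 0), (rhde99996d4163e786.shift 0 1), (rhf9af042da61fc652.shift 2 0)] (by decide +kernel))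
noncomputable def rh1f4e63d424645ac6 : CRef := CRef.mk (Pat.mk 0x5800000008 0xe70000007f0000003c 7 8) 0 0 (step_sound _ 37 [rh95461b835b3f00cd, (rheb0810cc63b001d8.shift 2 0)] (by decide +kernel))
noncomputable def rh7a775aa243d2192f : CRef := CRef.mk (Pat.mk 0x180000000c000000000000000000000000 0x20000003b0000003f000000070000000400000004 7 6) 0 0 (step_sound _ 97 [(rh53b3c253cb0c65f4.shift 0 3), rh7c6860d0f6b9005d] (by decide +kernel))
noncomputable def rh9a42e5a6fb69f8e9 : CRef := CRef.mk (Pat.mk 0x10000000180000000c000000000000000000000000 0x20000000320000001f000000ff000000f70000000400000004 7 8) 0 0 (step_sound _ 97 [(rh53b3c253cb0c65f4.shift 0 3), rh6965431395b48a0c] (by decide +kernel))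
noncomputable def rh3c7359374dcfcb64 : CRef := CRef.mk (Pat.mk 0x80000000c000000060000000400000000 0x380000003f0000003e0000003c00000018 7 6) 0 0 (step_sound _ 100 [rh0e026ddf4b7fd3ab, (rh18965a982d73c794.shift 1 2)] (by decide +kernel))
noncomputable def rhca75e2ac28e42eea : CRef := CRef.mk (Pat.mk 0x80000000c000000040000000000000000 0xc0000000c0000000c0000000f0000003c0000001c 7 6) 0 0 (step_sound _ 34 [(rh71222050f2c63a3a.shift 2 0), rhbb8536fee503e30c] (by decide +kernel))
noncomputable def rh803a65317ffac913 : CRef := CRef.mk (Pat.mk 0x1800000018000000080000000800000000 0xc0000003f0000001f000000380000001800000010 7 6) 0 0 (step_sound _ 130 [rh38261935704bf1e5, (rh50fbb5868c909700.shift 2 1)] (by decide +kernel))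
noncomputable def rh65e7ea0807768b12 : CRef := CRef.mk (Pat.mk 0x8000000180000000c000000000000000000000000 0x60000001f0000001e0000000f0000001c0000001c00000010 7 5) 0 0 (step_sound _ 97 [rh0562de5a23f261fd, (rh53b3c253cb0c65f4.shift 0 3)] (by decide +kernel))
noncomputable def rhad1c5a3aeb7fb640 : CRef := CRef.mk (Pat.mk 0x40000000c0000000600000000000000000000000000000000 0xa0000000f0000003c0000000e0000000c0000000e0000000e00000002 7 6) 0 0 (step_sound _ 164 [(rh18965a982d73c794.shift 1 4), rhc4963ce654273355] (by decide +kernel))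
noncomputable def rh7fc683d4ccdb2d69 : CRef := CRef.mk (Pat.mk 0x8000000180000000c0000000000000000 0x40000000c0000001f0000003f0000003300000012 7 6) 0 0 (step_sound _ 65 [(rh53b3c253cb0c65f4.shift 0 2), rhc6a43c72a280bf9a] (by decide +kernel))
noncomputable def rh8ad3b4a58f046194 : CRef := CRef.mk (Pat.mk 0x8000000380000000c000000000000000000000000 0x6000000060000007f0000003f0000007c000000740000003400000030 7 7) 0 0 (step_sound _ 130 [(rh0eb14a2989a253bc.shift 0 1), (rh2e2af70cc0a250e3.shift 1 3), (rh7e1df22dfabdf852.shift 1 0)] (by decide +kernel))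
noncomputable def rhf6641e21fecad291 : CRef := CRef.mk (Pat.mk 0x8000000180000000c0000000000000000 0x20000000b0000001f0000003f0000003700000014 7 6) 0 0 (step_sound _ 65 [(rh53b3c253cb0c65f4.shift 0 2), rhaed0955df3c9691b] (by decide +kernel))
noncomputable def rh3fd3933371c9ec63 : CRef := CRef.mk (Pat.mk 0x8000000080000000c0000000800000000 0x80000007f0000003f0000003800000010 7 7) 0 0 (step_sound _ 36 [(rh55afc6a59410cf00.shift 3 0), (rhf4c158652ae61942.shift 0 1)] (by decide +kernel))
noncomputable def rh0e799e9757080220 : CRef := CRef.mk (Pat.mk 0x2000000030000000100000001000000000 0x180000007e0000007e000000ff000000f000000060 7 8) 0 0 (step_sound _ 98 [(rh1469ddb4039b2ce8.shift 1 2), (rh879cdb683ee6f2d5.shift 0 2), (rh997b7f2cb08d4963.shift 1 0)] (by decide +kernel))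
noncomputable def rh32b25a0950a1ec04 : CRef := CRef.mk (Pat.mk 0x1800000018000000000000000000000000 0x1c0000003c0000001f0000007c00000018000000180000001800000008 7 7) 0 0 (step_sound _ 163 [rh1983194a2a0dc53a, (rh28152048bc8b598f.shift 0 2), (rh55a1f6c57a317ce6.shift 3 1)] (by decide +kernel))
noncomputable def rh41439805cecdddf3 : CRef := CRef.mk (Pat.mk 0x1800000018000000000000000000000000 0x10000000100000007e000000ff000000f00000002000000020 7 8) 0 0 (step_sound _ 101 [(rh79b3c29022acbdf3.shift 2 3), rhaee78aca67c3b1d1, (rhbc29707f2e68882b.shift 2 0)] (by decide +kernel))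
noncomputable def rhae0224c50dc4149c : CRef := CRef.mk (Pat.mk 0xc0000000c0000000800000000 0x80000000c0000000c0000000c0000001f0000007c00000014 7 7) 0 0 (step_sound _ 130 [(rh2145e1d24b96a57e.shift 2 1), rh3ca1f38d136ed19a] (by decide +kernel))
noncomputable def rhc5aaeacd5b2e5a3b : CRef := CRef.mk (Pat.mk 0x1c000000180000000000000000 0x4000000040000000f0000003f0000001b0000000800000008 7 6) 0 0 (step_sound _ 97 [rh62424766d6e677d3, (rhb739f4f82bb681b4.shift 0 2)] (by decide +kernel))
noncomputable def rha78e3005b2c086dc : CRef := CRef.mk (Pat.mk 0x1000000018000000080000000800000000 0xc0000000c0000000c00000018000000780000003f000000ff00000034 7 8) 0 0 (step_sound _ 131 [(rh1904b52b42aee148.shift 1 0), (rh2170712584e495b1.shift 2 0), (rh65a3a4cf67baf828.shift 2 0), rhb048bfd4891c06d6, rhd1671c6e88add9be] (by decide +kernel))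
noncomputable def rhaddeddca0cac8d9b : CRef := CRef.mk (Pat.mk 0x10000000100000001800000008000000000000000000000000 0x8000000180000003800000078000000ff000000360000003000000030 7 8) 0 0 (step_sound _ 100 [(rh0c0f747ad49e1798.shift 1 0), (rhbf0d14c42d6ac6b9.shift 1 0), (rhdd11e03a2f8b13b6.shift 3 0), (rhe27111ad792274ca.shift 0 2)] (by decide +kernel))
noncomputable def rh3c82c76931b548e0 : CRef := CRef.mk (Pat.mk 0x1800000018000000000000000000000000 0x180000001800000018000000180000007c0000000f0000007c0000001c 7 7) 0 0 (step_sound _ 67 [(rh0bb3bf9cae16a8bf.shift 1 0), (rhe23694c5b7a04d19.shift 0 1), (rhea7a1800d6f053bd.shift 3 0)] (by decide +kernel))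
noncomputable def rhac4a57e2edfb2fb3 : CRef := CRef.mk (Pat.mk 0x18000000180000000800000000 0x180000001c0000001f0000007c000000180000000c00000004 7 7) 0 0 (step_sound _ 164 [rh5e414ec35b13c173, (rhee230b994cc8b773.shift 3 1)] (by decide +kernel))
noncomputable def rh084aae5bbfedc3b4 : CRef := CRef.mk (Pat.mk 0x1c00000018000000000000000000000000 0x600000006000000060000003c0000007f0000000f0000000c0000000c 7 7) 0 0 (step_sound _ 101 [rh51e65d08ec8b5124, (rhf48373e13d2bc128.shift 2 3)] (by decide +kernel))
noncomputable def rh1884b8a8ed9da8ec : CRef := CRef.mk (Pat.mk 0x180000001c000000000000000000000000 0x2000000070000001f0000001f000000070000000600000002 7 5) 0 0 (step_sound _ 97 [(rh53b3c253cb0c65f4.shift 0 3), rh985b564f2c18451d] (by decide +kernel))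
noncomputable def rh3b9cf22c625e7886 : CRef := CRef.mk (Pat.mk 0x1800000018000000000000000000000000 0xc0000000c0000000c00000018000000380000001f0000001c0000001c 7 6) 0 0 (step_sound _ 163 [(rh55a1f6c57a317ce6.shift 3 1), rh6c9ee0ee4e41bf6f, (rhdb891aab85de5d49.shift 2 0)] (by decide +kernel))
noncomputable def rhf38de394f0e59ead : CRef := CRef.mk (Pat.mk 0x80000000c000000040000000400000000 0x600000006000000060000000f0000003c000000070000003e0000000a 7 6) 0 0 (step_sound _ 130 [rh1904b52b42aee148, (rh43f7aebc74997e86.shift 1 0), rh5b42d230652d96f8, rha8fd5cfc43aa7576, rhd24778b085d8f6e1] (by decide +kernel))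
noncomputable def rh9b269f1017a1e841 : CRef := CRef.mk (Pat.mk 0x100000001800000008000000000000000000000000 0x1800000018000000180000003c000000ff000000340000003000000030 7 8) 0 0 (step_sound _ 196 [(rh5c5e593799055d58.shift 3 3), rhcdfeae1ed7cdfadc] (by decide +kernel))
noncomputable def rh7182b246030a141c : CRef := CRef.mk (Pat.mk 0x200000003800000000 0x3f000001fe000001cf 7 9) 0 0 (step_sound _ 38 [(rh2bac60f600d85b1b.shift 1 0), (rh3947d1dfff0afc6c.shift 2 0), rh3f9ef063c03c3f0a, (rh775ca1963e850b80.shift 1 0), (rhc6ebdb02f2c2b584.shift 2 0), rhdf831d775948f871] (by decide +kernel))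
noncomputable def rhe6722d491c27efd5 : CRef := CRef.mk (Pat.mk 0x80000000e0000000000000000 0x3000000030000007f0000003e0000007700000004 7 7) 0 0 (step_sound _ 68 [(rh07fc106a6edf0c0a.shift 0 1), (rh3947d1dfff0afc6c.shift 0 1), (rhc6ebdb02f2c2b584.shift 0 1), rhfbac4fd0c7870155] (by decide +kernel))
noncomputable def rhd968596fd299ac44 : CRef := CRef.mk (Pat.mk 0x1000000018000000080000000800000000 0xc0000000c0000000c0000001c000000180000003c000000ff00000034 7 8) 0 0 (step_sound _ 131 [(rh43f7aebc74997e86.shift 2 0), rhb048bfd4891c06d6, (rhcb5b9f48a2219b5b.shift 2 0), (rhd72a5b150c8b03c9.shift 2 0)] (by decide +kernel))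
noncomputable def rh2f10fd47b3130ef9 : CRef := CRef.mk (Pat.mk 0x8000000080000000c00000004000000000000000000000000 0x60000000f0000003c0000000e0000007e0000001a0000001800000018 7 7) 0 0 (step_sound _ 99 [(rh36d4d92ef3dad5f8.shift 1 2), (rhce583c15c3d7d233.shift 0 2), (rhdd11e03a2f8b13b6.shift 2 0)] (by decide +kernel))
noncomputable def rh5f9a8c2fb6eadb71 : CRef := CRef.mk (Pat.mk 0x20000000300000001000000010 0x2800000028000001ef000000fe000001df00000010 7 9) 0 0 (step_sound _ 165 [rh2d6ffdea76f9c725, (rhee230b994cc8b773.shift 4 1)] (by decide +kernel))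
noncomputable def rh7ceebbadeac83483 : CRef := CRef.mk (Pat.mk 0x200000003000000010000000100000000000000000 0x400000067000000ff000000fe000000fe000003ec00000068 7 10) 0 0 (step_sound _ 99 [(rh53a5249b05406106.shift 1 0), (rh69012675dfdb1a5b.shift 1 3), (rh928c2afd87d91a03.shift 0 1), (rhd69c262cd33b94b3.shift 1 3)] (by decide +kernel))
noncomputable def rhc037919b0e9c9b7e : CRef := CRef.mk (Pat.mk 0x10000000100000001800000008000000000000000000000000 0xc0000001e000000f7000000ff000000fe000000300000003000000010 7 8) 0 0 (step_sound _ 100 [(rh36d4d92ef3dad5f8.shift 2 2), (rha01670a126d01dee.shift 0 3), (rhbf0d14c42d6ac6b9.shift 1 0)] (by decide +kernel))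
noncomputable def rh9aba0cd2190bf4a2 : CRef := CRef.mk (Pat.mk 0x80000000e000000000000000000000000 0x80000007f0000003e000000730000001000000010 7 7) 0 0 (step_sound _ 100 [(rh98608c6afefa0c7d.shift 0 2), rh9b62cf7d94729623, (rhc6ebdb02f2c2b584.shift 0 2), rhefb519189d8f62d1] (by decide +kernel))
noncomputable def rh3a19160c6b0679e0 : CRef := CRef.mk (Pat.mk 0x200000002000000020000000000000000000000000 0x400000006000000060000001ff000000fe0000007f00000050 7 9) 0 0 (step_sound _ 69 [(rh1a5850ee4326b921.shift 0 1), (rh367118e0bf0473e0.shift 4 0), (rh8cdd36b03d57a2f6.shift 4 0), (rhc9de03f9731897d4.shift 5 0)] (by decide +kernel))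
noncomputable def rh9b27b88f02cd4850 : CRef := CRef.mk (Pat.mk 0x200000002000000020000000000000000000000000 0x100000003000000030000001ff000000fe0000007f00000050 7 9) 0 0 (step_sound _ 69 [(rh1a5850ee4326b921.shift 0 1), (rh46baee19951a66e7.shift 4 0), (rh6aa5625770489e83.shift 4 0), (rh8cdd36b03d57a2f6.shift 4 0)] (by decide +kernel))
noncomputable def rh36c1eb736447b13b : CRef := CRef.mk (Pat.mk 0x20000000200000002000000000 0x10000000300000003000000020000001ff000000fe0000005f 7 9) 0 0 (step_sound _ 133 [rh1a5850ee4326b921, (rh565a0c22519f57e9.shift 4 0), (rh8065c10b3cae6218.shift 4 0), (rhd7cb8ed87e2022d8.shift 4 0)] (by decide +kernel))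
noncomputable def rh46ffe68c19a9638e : CRef := CRef.mk (Pat.mk 0x200000002000000020000000000000000 0x500000007000000070000000700000002000000070000000700000001 7 3) 0 0 (step_sound _ 161 [rh367118e0bf0473e0, rh6aa5625770489e83, (rh91429c40af715d36.shift 0 1), (rhc4055b4872d6fb38.shift 0 1)] (by decide +kernel))
noncomputable def rhbe05a8eb0f29d239 : CRef := CRef.mk (Pat.mk 0x8000000080000000800000008000000040000000000000000 0x8000000080000001800000018000000780000001f0000000c00000008 7 7) 0 0 (step_sound _ 67 [(rh932754581e0f4330.shift 2 1), rhd2249103dfd2febb] (by decide +kernel))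
noncomputable def rhdd4885de3c11a4cc : CRef := CRef.mk (Pat.mk 0x200000002000000020000000200000000 0x100000007000000070000000600000003000000030000000700000004 7 3) 0 0 (step_sound _ 2 [(rhca85590e660df518.shift 0 1), (rhd3458b32566d63f7.shift 1 0)] (by decide +kernel))
noncomputable def rhba8d276688fdfe4e : CRef := CRef.mk (Pat.mk 0x20000000200000002000000020000000100000000 0x50000000700000007000000020000000200000006000000060000000700000001 7 3) 0 0 (step_sound _ 0 [(rh20e56a1196e70fcc.shift 0 1), rheea67dfebd0f8008] (by decide +kernel))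
noncomputable def rhec40b1b9702b09ce : CRef := CRef.mk (Pat.mk 0x2000000020000000200000002000000000000000000000000 0x600000006000000060000000600000006000000070000000300000003 7 3) 0 0 (step_sound _ 98 [(rh55afc6a59410cf00.shift 1 2), rhc782798f9862273f] (by decide +kernel))
noncomputable def rh2f139f176ec17088 : CRef := CRef.mk (Pat.mk 0x200000002000000020000000200000000 0x200000003000000030000000700000007000000070000000300000002 7 3) 0 0 (step_sound _ 160 [rhe76a4f7e06815b5f, (rhffd04209dc8ea796.shift 0 1)] (by decide +kernel))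
noncomputable def rhce9487d7bd70535d : CRef := CRef.mk (Pat.mk 0x20000000200000002000000020000000000000000 0x200000006000000070000000700000003000000070000000600000002 7 3) 0 0 (step_sound _ 34 [rh435dd3dd0bf07b3a, (rhd3458b32566d63f7.shift 1 1)] (by decide +kernel))
noncomputable def rhdd4c9993b616f443 : CRef := CRef.mk (Pat.mk 0x200000002000000020000000200000000 0x400000007000000070000000300000003000000030000000700000004 7 3) 0 0 (step_sound _ 2 [(rh1f25b33bbea643f0.shift 0 1), (rhd3458b32566d63f7.shift 1 0)] (by decide +kernel))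
noncomputable def rha0e33e5af101b8ad : CRef := CRef.mk (Pat.mk 0x1800000010000000100000001000000000 0x270000003e0000007f0000001c0000001800000008 7 7) 0 0 (step_sound _ 133 [(rh2f68792b6b779e96.shift 4 1), rh76f25d919876a11c] (by decide +kernel))
noncomputable def rh9ec72520c61ec0c6 : CRef := CRef.mk (Pat.mk 0x800000008000000080000000800000000 0x1000000018000000180000003e0000007f00000074 7 7) 0 0 (step_sound _ 34 [rh438793dd2cee1d67, (rh932754581e0f4330.shift 2 0)] (by decide +kernel))
noncomputable def rh3285e98ecd2821b2 : CRef := CRef.mk (Pat.mk 0x8000000080000000800000008000000100000000000000000 0x8000000080000000c0000000c0000000f0000007c0000001800000008 7 7) 0 0 (step_sound _ 67 [rh24be7cc1e839c9ad, (rh55afc6a59410cf00.shift 3 1)] (by decide +kernel))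
noncomputable def rhfb812c0aa973830d : CRef := CRef.mk (Pat.mk 0x200000002000000020000000200000000 0x400000007000000070000000300000006000000060000000700000001 7 3) 0 0 (step_sound _ 0 [(rh66ee4e4e1313f0fc.shift 0 1), rh79877ebd3ef475dd] (by decide +kernel))
noncomputable def rh42123b47b1238bbe : CRef := CRef.mk (Pat.mk 0x2000000020000000200000002000000000000000000000000 0x300000003000000030000000300000003000000070000000600000006 7 3) 0 0 (step_sound _ 96 [(rh932754581e0f4330.shift 0 2), rhe4092d1a8b2697df] (by decide +kernel))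
noncomputable def rhf4bc43673eb10f5e : CRef := CRef.mk (Pat.mk 0x20000000200000002000000020000000000000000 0x200000003000000070000000700000006000000070000000300000002 7 3) 0 0 (step_sound _ 32 [(rh79877ebd3ef475dd.shift 0 1), rha6a1a25c0c5e7d58] (by decide +kernel))
noncomputable def rh6fca6d95a5d9bba2 : CRef := CRef.mk (Pat.mk 0x800000008000000080000001800000000 0x140000001f0000007f0000007f000000fe00000020 7 8) 0 0 (step_sound _ 132 [(rh2f68792b6b779e96.shift 3 1), rhe9496cfbb261879b] (by decide +kernel))
noncomputable def rhb912769947de1712 : CRef := CRef.mk (Pat.mk 0x20000000200000002000000000000000000000000000000000 0x20000000200000007000000070000001ff000000fe0000007f0000007000000050 7 9) 0 0 (step_sound _ 101 [(rh1a5850ee4326b921.shift 0 2), (rh8cdd36b03d57a2f6.shift 4 1), (rh8e3b1d976c2c4cbf.shift 4 0), (rhb4d78cd0e58cc17c.shift 4 0), (rhf517b930ee0bd92d.shift 4 1), (rhff6b27c9612d7353.shift 4 1)] (by decide +kernel))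
noncomputable def rh5e1465115ac307a9 : CRef := CRef.mk (Pat.mk 0x2000000020000000200000000000000000000000000000000 0x40000000600000007000000070000000300000003000000070000000700000005 7 3) 0 0 (step_sound _ 97 [(rh20966da26a1c2ae8.shift 0 2), (rh367118e0bf0473e0.shift 0 1), rh49759b6975f15643, rh832d53b0c7150d1d, rhf6cabd8f5704560e] (by decide +kernel))
noncomputable def rh9c31544c5db97ab1 : CRef := CRef.mk (Pat.mk 0x2000000020000000200000000000000000000000000000000 0x40000000600000007000000070000000700000006000000070000000700000005 7 3) 0 0 (step_sound _ 97 [rh49759b6975f15643, rh8e3b1d976c2c4cbf, (rhc9de03f9731897d4.shift 1 1), (rhced6d86d2069808b.shift 1 2), rhe002d1fefa6e3fcb] (by decide +kernel))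
noncomputable def rh6414f710372afdc9 : CRef := CRef.mk (Pat.mk 0x20000000200000002000000020000000000000000 0x600000006000000070000000300000003000000030000000300000003 7 3) 0 0 (step_sound _ 32 [(rh79877ebd3ef475dd.shift 0 1), rh79ca1456921d9eee] (by decide +kernel))
noncomputable def rh088f357c2e4dac83 : CRef := CRef.mk (Pat.mk 0x20000000200000002000000000 0x40000000600000006000000020000001ff000000fe0000005f 7 9) 0 0 (step_sound _ 133 [(rh12461e137161f2e1.shift 4 0), rh1a5850ee4326b921, (rh20966da26a1c2ae8.shift 4 0), (rhced6d86d2069808b.shift 5 0)] (by decide +kernel))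
noncomputable def rh9acf459e8e69b878 : CRef := CRef.mk (Pat.mk 0x1000000010000000100000001000000000 0x2f0000007e000000ff000000100000001800000008 7 8) 0 0 (step_sound _ 131 [rh459ef5ce8c61db81, (rh50fbb5868c909700.shift 3 1)] (by decide +kernel))
noncomputable def rhb340035d8e792659 : CRef := CRef.mk (Pat.mk 0x3000000010000000100000001000000000 0xf0000007e000000ff000000100000003800000028 7 8) 0 0 (step_sound _ 131 [(rh50fbb5868c909700.shift 3 1), rhb89f85803a702b86] (by decide +kernel))
noncomputable def rh080cfd884bd25811 : CRef := CRef.mk (Pat.mk 0x800000018000000080000000800000000 0x10000000180000007c0000003f0000007800000030 7 7) 0 0 (step_sound _ 36 [rh0c35e5acfe734ec7, (rh55afc6a59410cf00.shift 3 0)] (by decide +kernel))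
noncomputable def rhee96664009745300 : CRef := CRef.mk (Pat.mk 0x2000000060000000200000002 0x20000000600000007000000070000001f0000000700000002 7 5) 0 0 (step_sound _ 96 [rh50fbb5868c909700, rhd842c0adc7410c34] (by decide +kernel))
noncomputable def rh9137dce9dbdc3996 : CRef := CRef.mk (Pat.mk 0x200000006000000020000000200000000 0x40000000600000007000000030000000700000006000000060000000600000004 7 3) 0 0 (step_sound _ 2 [(rhc30986a36c402b34.shift 0 1), (rhd3458b32566d63f7.shift 1 0)] (by decide +kernel))
noncomputable def rhf4b5437ea871a846 : CRef := CRef.mk (Pat.mk 0x2000000030000000100000001000000000 0x80000001b7000001fe000001fe000000f000000040 7 9) 0 0 (step_sound _ 102 [(rh2820ca9a6c4f41b4.shift 1 2), rh55c0d10bb7bcbcfb, (rha070572f61c8fb0d.shift 3 0), (rhf0f55c4504412200.shift 1 2)] (by decide +kernel))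
noncomputable def rhed92c94d61031e96 : CRef := CRef.mk (Pat.mk 0x18000000080000000800000000 0x100000001c0000001c0000001f00000078000000180000001800000010 7 7) 0 0 (step_sound _ 131 [rh74723a599927bd90, (rhced6d86d2069808b.shift 3 0), (rhdb019b0e908810fb.shift 0 1), (rhe913eab949cfc300.shift 2 0)] (by decide +kernel))
noncomputable def rh6be72825b09b8fd7 : CRef := CRef.mk (Pat.mk 0x38000000100000000000000000 0x80000000f0000003e0000007f0000000600000006 7 7) 0 0 (step_sound _ 98 [(rh775ca1963e850b80.shift 0 2), (rha03f6e28ea70fc7d.shift 1 2), (rha42db4b4bc101bc4.shift 1 0)] (by decide +kernel))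
noncomputable def rh6d51fd5a9263d7c0 : CRef := CRef.mk (Pat.mk 0xe00000004000000040000000000000000 0x80000000c0000000f0000003e0000007c0000001800000008 7 7) 0 0 (step_sound _ 99 [(rh6292bd8784ece55f.shift 0 3), (rha914abb13ce40377.shift 1 0)] (by decide +kernel))
noncomputable def rhcfafd520b4052cd3 : CRef := CRef.mk (Pat.mk 0x200000006000000020000000200000000 0x40000000700000007000000070000000600000006000000020000000600000004 7 3) 0 0 (step_sound _ 34 [(rh55afc6a59410cf00.shift 1 0), (rhc5bc895526f9deb4.shift 0 1)] (by decide +kernel))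
noncomputable def rhf0e35144595f5182 : CRef := CRef.mk (Pat.mk 0x800000018000000080000000800000000 0x100000001f000000ff0000006f0000007800000030 7 8) 0 0 (step_sound _ 132 [(rh2f68792b6b779e96.shift 3 1), rh58f61359ae436620] (by decide +kernel))
noncomputable def rhd57e12767049e4f4 : CRef := CRef.mk (Pat.mk 0x38000000080000000000000000 0x40000001c7000000ff000000f80000002000000020 7 9) 0 0 (step_sound _ 102 [(rhb286084fe4a70453.shift 0 2), (rhc9b4544d1563f47a.shift 2 0), (rhd584a578337d0023.shift 3 2), (rhf459621b93742302.shift 2 0)] (by decide +kernel))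
noncomputable def rh3225626012c49542 : CRef := CRef.mk (Pat.mk 0x200000006000000020000000200000000 0x200000006000000070000000700000007000000070000000600000004 7 3) 0 0 (step_sound _ 2 [(rh431180ccec67ce83.shift 0 1), (rhd3458b32566d63f7.shift 1 0)] (by decide +kernel))
noncomputable def rhc685d84e368eea4c : CRef := CRef.mk (Pat.mk 0x800000008000000080000000c00000000 0x140000001e00000078000001f8000000ff000001f0 7 9) 0 0 (step_sound _ 36 [(rh55afc6a59410cf00.shift 3 0), rhb7e5e4c668b720e2] (by decide +kernel))
noncomputable def rh6504013834226b52 : CRef := CRef.mk (Pat.mk 0x1000000030000000180000000000000000 0x30000000fe000000ff000000f8000000e0000000e0 7 8) 0 0 (step_sound _ 102 [(rh18965a982d73c794.shift 3 2), rh8de90a7479b0bae2] (by decide +kernel))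
noncomputable def rh15787be111b1222d : CRef := CRef.mk (Pat.mk 0x8000000180000000c000000000000000000000000 0xc0000001f0000003f000000330000001200000002 7 6) 0 0 (step_sound _ 97 [rh05a2c98e1ebba74f, (rh53b3c253cb0c65f4.shift 0 3)] (by decide +kernel))
noncomputable def rh32d5ae6be94994f8 : CRef := CRef.mk (Pat.mk 0x1000000018000000180000000000000000 0xf0000000ff0000007e0000006800000028 7 8) 0 0 (step_sound _ 98 [(rh0680823d2ef87154.shift 1 0), (rh34517e326ddb5b25.shift 0 2), (rh6292bd8784ece55f.shift 1 2)] (by decide +kernel))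
noncomputable def rh2a296bf8063b9b5d : CRef := CRef.mk (Pat.mk 0x1000000018000000180000000000000000 0x400000004000000fe000000ff000000780000000800000008 7 8) 0 0 (step_sound _ 35 [(rh71222050f2c63a3a.shift 3 0), (rhc1fd879a84b52f9b.shift 0 1)] (by decide +kernel))
noncomputable def rh80178649ea2242e9 : CRef := CRef.mk (Pat.mk 0x1000000018000000180000000000000000 0x3e000000ff0000007e0000006000000020 7 8) 0 0 (step_sound _ 98 [(rh133051c3a8158a54.shift 1 0), (rh34517e326ddb5b25.shift 0 2), (rh6292bd8784ece55f.shift 1 2)] (by decide +kernel))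
noncomputable def rh90be9a66cb1e69f3 : CRef := CRef.mk (Pat.mk 0x100000001800000018000000000000000000000000 0x1c000000f8000000fe0000000f0000000c00000004 7 8) 0 0 (step_sound _ 67 [(rh71222050f2c63a3a.shift 3 1), rhbbff08da6ed102c9] (by decide +kernel))
noncomputable def rh58c4739394a3deba : CRef := CRef.mk (Pat.mk 0x200000002000000020000000000000000 0x20000000600000007000000070000000300000003000000030000000300000001 7 3) 0 0 (step_sound _ 161 [(rh20966da26a1c2ae8.shift 0 1), rh6aa5625770489e83, (rh8dd419aa8bce8f44.shift 0 1)] (by decide +kernel))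
noncomputable def rhd195fcc0cc431959 : CRef := CRef.mk (Pat.mk 0x20000000200000002000000020000000400000000 0x10000000700000007000000060000000300000003000000030000000600000004 7 3) 0 0 (step_sound _ 2 [(rhbe0e43a3bc50a43f.shift 1 0), (rhca85590e660df518.shift 0 2)] (by decide +kernel))
noncomputable def rh9cfaabd3215f3fc8 : CRef := CRef.mk (Pat.mk 0x20000000200000002000000000 0x50000000700000007000000020000001ff000000fe0000005f 7 9) 0 0 (step_sound _ 133 [(rh12461e137161f2e1.shift 4 0), rh1a5850ee4326b921, (rh762a1aeaf83c662a.shift 4 0), (rhc17b7d8fab3dfe57.shift 4 0), (rhd7cb8ed87e2022d8.shift 4 0)] (by decide +kernel))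
noncomputable def rhfa65b750c7e84d73 : CRef := CRef.mk (Pat.mk 0x20000000200000002000000020000000100000000 0x40000000700000007000000030000000600000006000000060000000300000001 7 3) 0 0 (step_sound _ 0 [(rh66ee4e4e1313f0fc.shift 0 2), rheea67dfebd0f8008] (by decide +kernel))
noncomputable def rh2a190ebfed55963d : CRef := CRef.mk (Pat.mk 0x1800000010000000100000001000000000 0x270000003e0000007f0000001c000000f800000028 7 8) 0 0 (step_sound _ 133 [(rh2f68792b6b779e96.shift 4 1), rhb8d52298bf66f588] (by decide +kernel))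
noncomputable def rhda23a105739b86cb : CRef := CRef.mk (Pat.mk 0x20000000200000002000000020000000000000000 0x300000003000000070000000600000006000000060000000600000006 7 3) 0 0 (step_sound _ 34 [rhbe303033d4e95fc0, (rhd3458b32566d63f7.shift 1 1)] (by decide +kernel))
noncomputable def rh9d8e10dd64ef255f : CRef := CRef.mk (Pat.mk 0x800000008000000080000001800000000 0x140000001e00000078000001f8000000ff000001e4 7 9) 0 0 (step_sound _ 34 [(rh932754581e0f4330.shift 2 0), rhb7e5e4c668b720e2] (by decide +kernel))
noncomputable def rh2e3dadb7d7da9142 : CRef := CRef.mk (Pat.mk 0x2000000038000000000000000000000000 0x4000000370000007e0000006f0000000800000008 7 7) 0 0 (step_sound _ 98 [(rh2591032a0e7f4182.shift 0 2), (rh7fb660bc21ce4329.shift 0 3), (rhf0a8276bbb29b270.shift 1 0)] (by decide +kernel))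
noncomputable def rh111a5ca7ee19df68 : CRef := CRef.mk (Pat.mk 0x100000003c000000000000000000000000 0x60000000e0000000f0000001e0000003c0000000e0000000c0000000c 7 6) 0 0 (step_sound _ 66 [rh887ea6b30e2fa6b0, (rheb0810cc63b001d8.shift 1 2)] (by decide +kernel))
noncomputable def rh48fcf4e84f526231 : CRef := CRef.mk (Pat.mk 0x180000000e000000000000000000000000 0x3000000170000001f000000fe0000000f0000000e0000000e 7 8) 0 0 (step_sound _ 100 [rh2395824d1086e2bc, (rh3f38de6b95fe6c30.shift 0 1), rhaaacd47ac23f5f85, (rhb447f348b8f2aaa5.shift 0 2), rhefd858cfdc5d2964] (by decide +kernel))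
noncomputable def rha6d1edbc505876aa : CRef := CRef.mk (Pat.mk 0x3000000018000000000000000000000000 0x80000002e000000ff000000f8000000d00000005000000040 7 8) 0 0 (step_sound _ 134 [(rh18965a982d73c794.shift 3 3), rhbb832e0fef5d7add] (by decide +kernel))
noncomputable def rh80dc33839571a82f : CRef := CRef.mk (Pat.mk 0x180000000e000000000000000000000000 0x2000000170000001f000000fe000000fc0000001c0000001c 7 8) 0 0 (step_sound _ 100 [(rh29a72d02b02e6a96.shift 1 0), (rh76c4edc656936505.shift 1 2), rhaaacd47ac23f5f85, (rhd8a69d8a2039d214.shift 0 2), rhe94987b5d0bb7360] (by decide +kernel))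
noncomputable def rhccff8d6cf4b8f8f8 : CRef := CRef.mk (Pat.mk 0x180000000e000000000000000000000000 0x100000001c000000fe0000007f0000003800000038 7 8) 0 0 (step_sound _ 100 [rh37f57d3c2a5647b7, (rh76c4edc656936505.shift 1 2), (rhaff555eb5cb4a0fd.shift 0 2), (rhb447f348b8f2aaa5.shift 0 2)] (by decide +kernel))
noncomputable def rh42a6be97a70f4b42 : CRef := CRef.mk (Pat.mk 0x700000001800000000000000000000000000000000 0x80000002c00000078000000f8000000fc000000ff000000fc000000a8 7 8) 0 0 (step_sound _ 100 [(rh000637b5a81e86aa.shift 3 1), (rh15590a39afd9a120.shift 3 0), (rh49e063294fe29976.shift 2 0), rh713301f9956244a5] (by decide +kernel))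
noncomputable def rh6d3bdae500f6b39b : CRef := CRef.mk (Pat.mk 0x600000003800000000000000000000000000000000 0x40000001c0000001c0000005c0000007f000000780000007e0000003e0000003c00000018 7 7) 0 0 (step_sound _ 101 [(rh000637b5a81e86aa.shift 4 1), (rh15590a39afd9a120.shift 4 0), rhb8c1889162712137] (by decide +kernel))
noncomputable def rh99aa92e656c48a2b : CRef := CRef.mk (Pat.mk 0x80000001e000000000000000000000000 0x10000000380000001e0000003f0000003800000038 7 6) 0 0 (step_sound _ 65 [(rheb0810cc63b001d8.shift 0 2), (rhf4b58e3456a65d0f.shift 1 0)] (by decide +kernel))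
noncomputable def rhbe63256c9de76e79 : CRef := CRef.mk (Pat.mk 0x1800000038000000000000000000000000 0xc0000000c0000000c00000018000000380000001f0000001c0000001c 7 6) 0 0 (step_sound _ 163 [rh289b3ddd1d209975, (rh55a1f6c57a317ce6.shift 3 1), (rhdb891aab85de5d49.shift 2 0)] (by decide +kernel))
noncomputable def rhfc2d07691244eb1c : CRef := CRef.mk (Pat.mk 0x20000000f000000000000000000000000 0x4000000040000003e0000003f0000001c0000000800000008 7 6) 0 0 (step_sound _ 67 [rh3b7edd5aa55dfd0f, (rhe25b0a99195a5d59.shift 0 2)] (by decide +kernel))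
noncomputable def rh1209e0c9a7d7f3b9 : CRef := CRef.mk (Pat.mk 0x40000001e00000000000000000000000000000000 0x8000000080000003c0000001e0000003f0000003e0000003a00000028 7 6) 0 0 (step_sound _ 97 [(rhcf37c34b91cd8a76.shift 1 0), (rheb0810cc63b001d8.shift 0 3)] (by decide +kernel))
noncomputable def rh05234e997bdaa865 : CRef := CRef.mk (Pat.mk 0x1000000038000000000000000800000000 0x1000000038000000380000007c000001ff 7 9) 0 0 (step_sound _ 3 [(rh04253f50b6dd0619.shift 3 0), rh95d17095912bda47] (by decide +kernel))
noncomputable def rh0bee117fa148cec8 : CRef := CRef.mk (Pat.mk 0x80000001c000000000000000400000000 0x60000000f0000001c0000000e0000007c0000001c 7 7) 0 0 (step_sound _ 66 [(rh71222050f2c63a3a.shift 2 0), rhd3869433f2520e82] (by decide +kernel))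
noncomputable def rh7bab607ba77cc521 : CRef := CRef.mk (Pat.mk 0x80000001c000000000000000400000000 0x60000000f0000001c000000070000003e0000000e 7 6) 0 0 (step_sound _ 66 [(rh71222050f2c63a3a.shift 2 0), rhb6936da08a345706] (by decide +kernel))
noncomputable def rh8f08a52086557fc0 : CRef := CRef.mk (Pat.mk 0x1000000038000000000000000800000000 0x280000003800000038000001f7000000fe000001ff 7 9) 0 0 (step_sound _ 36 [rh017cf5bf2551e060, (rh42768138bebe71fc.shift 3 0), rh9472942ab209ac4e, (rhcfa4160f528048be.shift 2 0), (rhfff8953c7af09ce5.shift 3 0)] (by decide +kernel))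
noncomputable def rh93750c1aea09a73f : CRef := CRef.mk (Pat.mk 0x100000003800000000000000080000000000000000 0x2e0000003e00000038000001ff000000fe000001f700000004 7 9) 0 0 (step_sound _ 68 [rh26f72d7cf5f0bf4d, (rh339bdec2854d1d48.shift 1 1), rh350afd8833ecaf49, (rhcfa4160f528048be.shift 2 1)] (by decide +kernel))
noncomputable def rh02065935a6412323 : CRef := CRef.mk (Pat.mk 0x1000000038000000000000000800000000 0x30000000380000003f0000007e000001ef 7 9) 0 0 (step_sound _ 3 [(rh04253f50b6dd0619.shift 3 0), rhc241497d91be2cc8] (by decide +kernel))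
noncomputable def rh5bf85932bb4e4f18 : CRef := CRef.mk (Pat.mk 0x40000001e000000000000000000000000 0x2000000070000001e0000003f0000000700000007 7 6) 0 0 (step_sound _ 129 [rh084fe995122958ab, (rh3244c3cc8379b070.shift 0 3)] (by decide +kernel))
noncomputable def rh7fd53a5a59b30452 : CRef := CRef.mk (Pat.mk 0x180000000e00000000000000000000000000000000 0x140000001f0000003e0000007b0000001f0000001e00000004 7 7) 0 0 (step_sound _ 67 [(rh3476bc8608165c40.shift 0 1), (rh5a7dce561d0bf78d.shift 2 1), (rhdc8a292ac5fa5a38.shift 0 1), (rhfae2d0771380d1f3.shift 2 0)] (by decide +kernel))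
noncomputable def rh32f5846af4abfdcf : CRef := CRef.mk (Pat.mk 0x180000001c000000000000000000000000 0x80000000c0000000c0000001c0000001c0000001f0000001f0000001c 7 5) 0 0 (step_sound _ 163 [(rh37d9ceebb86d75d1.shift 2 2), (rh55a1f6c57a317ce6.shift 3 1), rhdbdbdda4706b7fbe] (by decide +kernel))
noncomputable def rhaf01720f2e1f09bb : CRef := CRef.mk (Pat.mk 0x180000001c000000000000000000000000 0x30000000b0000001f0000001f0000000f0000000400000004 7 5) 0 0 (step_sound _ 97 [(rh53b3c253cb0c65f4.shift 0 3), rh899d6420917dc49f] (by decide +kernel))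
noncomputable def rh8bae12767d682d62 : CRef := CRef.mk (Pat.mk 0x3000000038000000000000000000000000 0x54000000fe00000038000001ff000000fc000001ff 7 9) 0 0 (step_sound _ 37 [(rh186fe4ed6bb82831.shift 3 1), (rhd2987d494005f708.shift 3 0), rhd7daa586f30867b6, (rhdd1b84382d19bcbb.shift 4 0)] (by decide +kernel))
noncomputable def rh5474f539ae7595c9 : CRef := CRef.mk (Pat.mk 0x80000001800000018000000000000000000000000 0x8000000380000001f0000003f0000001c0000001c 7 6) 0 0 (step_sound _ 67 [(rh2415f34f0f426962.shift 0 1), (rhbb83b53687587fb2.shift 2 0), (rhf57bd6481b8b2ca7.shift 3 0)] (by decide +kernel))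
noncomputable def rh8085982410cfb674 : CRef := CRef.mk (Pat.mk 0x3800000018000000000000000000000000 0xc0000000c0000002f0000003f0000001f000000100000001000000010 7 6) 0 0 (step_sound _ 68 [(rh95ff87767d7b7039.shift 0 2), (rhb0c1e7919d9be92d.shift 3 0)] (by decide +kernel))
noncomputable def rh843829df747681b1 : CRef := CRef.mk (Pat.mk 0x180000001c000000000000000000000000 0xc0000000c0000000f0000007c0000001c0000000c0000000c0000000c 7 7) 0 0 (step_sound _ 133 [(rh18965a982d73c794.shift 2 3), rh261e44630dc26bfc] (by decide +kernel))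
noncomputable def rh6a816885f89d1c97 : CRef := CRef.mk (Pat.mk 0x180000001a000000000000000000000000 0x2000000070000003f0000001e000000070000000600000002 7 6) 0 0 (step_sound _ 98 [(rh33e738c4ed385b9f.shift 1 3), rh985b564f2c18451d] (by decide +kernel))
noncomputable def rha877df957c7a9699 : CRef := CRef.mk (Pat.mk 0x180000001a000000000000000000000000 0x2000000070000001f0000001f000000070000000600000002 7 5) 0 0 (step_sound _ 98 [(rh53b3c253cb0c65f4.shift 0 3), rh985b564f2c18451d] (by decide +kernel))
noncomputable def rh5742cd45fbc5eac9 : CRef := CRef.mk (Pat.mk 0x180000001a00000000000000000000000000000000 0x5000000070000003f0000001b0000001f0000007f0000007f00000005 7 7) 0 0 (step_sound _ 99 [(rh362104532586ff12.shift 1 1), rh3fb0ebf6698586e1, (rh402f4e2dbf644af4.shift 0 1), (rh5985850aa843fa06.shift 0 1), (rha9cf00949a0a2b57.shift 0 1)] (by decide +kernel))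
noncomputable def rhf78fc298110578d8 : CRef := CRef.mk (Pat.mk 0x80000001800000018000000000000000000000000 0x40000000f0000007c000000180000001c0000001c00000018 7 7) 0 0 (step_sound _ 36 [rh2e6ec2f0d19ae79d, (rh9e07f76261b05888.shift 3 1)] (by decide +kernel))
noncomputable def rhb032e3d88c98fd59 : CRef := CRef.mk (Pat.mk 0x100000001e000000000000000000000000 0x17000000ff0000003c0000000800000008 7 8) 0 0 (step_sound _ 68 [rh3555f48661c374f0, (rhe25b0a99195a5d59.shift 1 2)] (by decide +kernel))
noncomputable def rh7fda3391534aa52c : CRef := CRef.mk (Pat.mk 0x80000001e000000000000000000000000 0x10000000380000001e0000003f0000003800000038 7 6) 0 0 (step_sound _ 132 [(rh33e738c4ed385b9f.shift 1 3), rh82b7cb25363f9fd0] (by decide +kernel))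
noncomputable def rhbe01cdf6e33566dd : CRef := CRef.mk (Pat.mk 0x20000000600000006000000000000000000000000 0x100000003000000070000001f0000003f0000001f0000000b 7 6) 0 0 (step_sound _ 66 [rh32cfacbe6d462931, (rh7b1f1fb55310c477.shift 1 1)] (by decide +kernel))
noncomputable def rhb88bc411763d5eca : CRef := CRef.mk (Pat.mk 0x800000018000000180000000000000000 0x500000007000000070000000f0000001f0000003f0000003b00000013 7 6) 0 0 (step_sound _ 97 [rh4acac3221eea1f75, rh6d4e60afcd903d8e, (rhcd6baf37b3e5de21.shift 0 2)] (by decide +kernel))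
noncomputable def rh8ef85b0caba361e4 : CRef := CRef.mk (Pat.mk 0x1800000018000000000000000000000000 0x80000001e000000ff000000f70000000400000004 7 8) 0 0 (step_sound _ 101 [rh3719d517a2319662, (rh79b3c29022acbdf3.shift 2 3), (rh8ea35f7744b2cf7f.shift 0 2)] (by decide +kernel))
noncomputable def rh5e52af8cb217ef05 : CRef := CRef.mk (Pat.mk 0x1c000000180000000000000000 0x40000000f0000001f0000001f0000000b0000000b 7 5) 0 0 (step_sound _ 97 [(rhb739f4f82bb681b4.shift 0 2), rhf560572d1bf302d3] (by decide +kernel))
noncomputable def rha566f9776e5ccd1e : CRef := CRef.mk (Pat.mk 0x1c00000018000000000000000000000000 0xc0000000c0000000c0000001c0000007c0000000f0000000c0000000c 7 7) 0 0 (step_sound _ 101 [rhb703046658387e51, (rhf48373e13d2bc128.shift 2 3)] (by decide +kernel))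
noncomputable def rh2f148cf059aeed38 : CRef := CRef.mk (Pat.mk 0xc0000001c000000000000000000000000 0xc0000007c0000007f0000003e0000003e 7 7) 0 0 (step_sound _ 66 [rh1705b5bddb0730dc, (rha60bba45939e72bf.shift 1 0), (rha9e1a5d55b907abf.shift 1 2)] (by decide +kernel))
noncomputable def rhb8a0ff851ff37617 : CRef := CRef.mk (Pat.mk 0x80000000c000000040000000000000000 0x60000000f0000003c0000000e0000007c0000001c 7 7) 0 0 (step_sound _ 34 [(rh71222050f2c63a3a.shift 2 0), rhfadd02d7ecfdbbbd] (by decide +kernel))
noncomputable def rh390667071659a826 : CRef := CRef.mk (Pat.mk 0x1000000018000000080000000000000000 0x80000000c0000000c0000001e000000780000001f0000000c0000000c 7 7) 0 0 (step_sound _ 35 [rh564a4672b73a87ea, (rh71222050f2c63a3a.shift 3 0)] (by decide +kernel))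
noncomputable def rh4cab8416eb765a1a : CRef := CRef.mk (Pat.mk 0x1000000018000000080000000800000000 0xc0000000c0000000c0000001e00000078000000380000001f00000014 7 7) 0 0 (step_sound _ 131 [(rh2170712584e495b1.shift 2 0), (rha8fd5cfc43aa7576.shift 1 0), rhc9a8c524b5efcba1, (rhd24778b085d8f6e1.shift 1 0), (rhd72a5b150c8b03c9.shift 2 0)] (by decide +kernel))
noncomputable def rh359ce82976204a09 : CRef := CRef.mk (Pat.mk 0x20000000700000001000000000000000000000000 0x4000000040000003e0000001f0000003f0000001f0000001d00000014 7 6) 0 0 (step_sound _ 131 [(rh116cc7a10a931d20.shift 0 1), (rh1f3d3ec4f2060646.shift 0 1), rhcf37c34b91cd8a76, (rhd81be5dd160c5ea0.shift 0 1), (rhec9ce50cf1f066e7.shift 0 1)] (by decide +kernel))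
noncomputable def rh54988ba77eb826a8 : CRef := CRef.mk (Pat.mk 0x10000000380000000800000000000000000000000000000000 0x3000000038000001ff000000ff000001fe0000005400000054 7 9) 0 0 (step_sound _ 99 [(rh71222050f2c63a3a.shift 3 2), rh91106e82c879f9df] (by decide +kernel))
noncomputable def rh921e27cf06299291 : CRef := CRef.mk (Pat.mk 0x1000000018000000180000000000000000 0x80000002f000000ff000000f80000001f0000001400000010 7 8) 0 0 (step_sound _ 131 [(rh3cb04db3dd2b6a55.shift 3 0), (rhe2d7daae1577d340.shift 0 1), rhf442107f839a7c25] (by decide +kernel))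
noncomputable def rhefd030c6838cbf29 : CRef := CRef.mk (Pat.mk 0x100000001800000018000000000000000000000000 0x2f000000ff000000f800000018000000300000003000000030 7 8) 0 0 (step_sound _ 68 [(rh3cb04db3dd2b6a55.shift 3 0), (rh820d4e04d5dcd02e.shift 3 0), (rhe1401d4cf62f87d2.shift 0 2)] (by decide +kernel))
noncomputable def rh43c0d0553c97414b : CRef := CRef.mk (Pat.mk 0x100000001800000018000000000000000000000000 0x12000000fb000000ff000000e70000002400000024 7 8) 0 0 (step_sound _ 98 [rh9ecea4e1d309003f, (rhab2ad169e49f9c5e.shift 0 3), (rhae0eadd6a828794d.shift 1 0)] (by decide +kernel))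
noncomputable def rhc31d6a3c669c26a7 : CRef := CRef.mk (Pat.mk 0x1e00000008 0x1dc000000fe0000007f 7 9) 0 0 (step_sound _ 0 [(rh0815036f1e2464bf.shift 1 0), rh80fcd6d0a18cb2dd] (by decide +kernel))
noncomputable def rhc52cd54296eaaee3 : CRef := CRef.mk (Pat.mk 0x1e00000008000000000000000000000000 0x1c0000001e0000003f000000330000003200000032 7 6) 0 0 (step_sound _ 97 [rh8478d14481800153, (rheb0810cc63b001d8.shift 0 3)] (by decide +kernel))
noncomputable def rh8f6ed239932f7739 : CRef := CRef.mk (Pat.mk 0x1e00000000 0x1dc000000fe000000e7 7 9) 0 0 (step_sound _ 1 [(rhb99c3591d8de3a5a.shift 1 0), rheb0810cc63b001d8] (by decide +kernel))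
noncomputable def rh5594e1504ea82e67 : CRef := CRef.mk (Pat.mk 0x3800000060000000000000000000000000 0x140000005c0000007e0000007c0000006f000000f80000007f000000de0000005400000044 7 8) 0 0 (step_sound _ 163 [rh0ad29edfbe990c31, (rh5bf15fd85065ce99.shift 0 1), (rh65059e7eb071aab3.shift 2 1), (rh69a62ee0c754d19e.shift 0 1), (rh6a5e9c40aa2bdf82.shift 2 0), (rh90f07dfc49f09c11.shift 0 2)] (by decide +kernel))
noncomputable def rh0d89a7aa3bfae2be : CRef := CRef.mk (Pat.mk 0x1e00000008000000000000000000000000 0x1c0000001e0000003f000000330000003200000032 7 6) 0 0 (step_sound _ 100 [rh1c1825d6590f7e1f, (rhe25b0a99195a5d59.shift 1 3)] (by decide +kernel))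
noncomputable def rhfc4d743d8bc12af8 : CRef := CRef.mk (Pat.mk 0x1e000000080000000000000000 0x4000000040000000e000000fe000001fb0000000200000002 7 9) 0 0 (step_sound _ 65 [(rhd4cef4087b51869c.shift 1 0), (rheb0810cc63b001d8.shift 0 2)] (by decide +kernel))
noncomputable def rh02fe001071444006 : CRef := CRef.mk (Pat.mk 0xf00000004 0x1ce000000ff000001fe 7 9) 0 0 (step_sound _ 4 [(rh4df4107700f06a12.shift 1 0), rh96851dee118c1ba3] (by decide +kernel))
noncomputable def rhf583a26d2b61a9cd : CRef := CRef.mk (Pat.mk 0x1c00000018000000000000000000000000 0x140000001c0000003c0000001f0000000f0000000e0000000c 7 6) 0 0 (step_sound _ 98 [rh143a9b02560e1c7d, (rhab2ad169e49f9c5e.shift 0 3)] (by decide +kernel))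
noncomputable def rha41b2e3b8c5d39fa : CRef := CRef.mk (Pat.mk 0x1c00000030000000000000000000000000 0x1c0000001c0000001e000000fc0000003c0000006f0000002c0000002c 7 8) 0 0 (step_sound _ 99 [(rh1dabb36a6c68f7d7.shift 1 0), (rh243fb694c5a02c37.shift 1 0), rh3945ed363d0aa72c, (rh4a6d80034a60f738.shift 1 0), rhb703046658387e51, (rhc05db6b064f0d29b.shift 1 0)] (by decide +kernel))
noncomputable def rh6cc3fe0ba547dda8 : CRef := CRef.mk (Pat.mk 0x38000000200000000000000000 0x60000000600000007f000001fe000000380000001000000010 7 9) 0 0 (step_sound _ 98 [(rh61325f73ebf98108.shift 0 3), (rh821c1a631420eb55.shift 1 2), (rh9d535f0ade5d030d.shift 1 1), (rhba50fd7aca570c30.shift 1 0)] (by decide +kernel))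
noncomputable def rh8e8c0c1f631f240e : CRef := CRef.mk (Pat.mk 0x10000000180000001000000000 0x2800000038000000380000003c0000003f00000038000000380000001f0000000c 7 6) 0 0 (step_sound _ 132 [(rh03dfdf12d5937476.shift 3 0), rh4d2eada41861bb93, (rha0f5657e879a471e.shift 3 1)] (by decide +kernel))
noncomputable def rh39c5608e01067eed : CRef := CRef.mk (Pat.mk 0x4000000070000000400000000 0xa0000000e0000000e0000000e0000000e0000000e0000000f0000003c00000008 7 6) 0 0 (step_sound _ 130 [(rha0f5657e879a471e.shift 1 1), (rhc17b7d8fab3dfe57.shift 1 0), rhd9397e4126e81439] (by decide +kernel))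
noncomputable def rh3c08da9eb16c1386 : CRef := CRef.mk (Pat.mk 0x80000000e00000008000000000000000000000000 0x1dc000000fe000000ff000000330000001200000002 7 9) 0 0 (step_sound _ 132 [(rh856cf79165ebf3f0.shift 1 3), (rh956ae7015b4d5c0d.shift 0 3), (rhb5f97b2e422b1431.shift 0 1), rhd071a02de85e517e, (rhf8eb8f3224a7a442.shift 0 3), (rhf8f9e2d01472be99.shift 0 3)] (by decide +kernel))
noncomputable def rh040addc57a7d909b : CRef := CRef.mk (Pat.mk 0xe00000008000000000000000000000000 0x600000007000000fe0000007f000000070000000700000002 7 8) 0 0 (step_sound _ 132 [rh1c9a3da3bc00019f, (rha42db4b4bc101bc4.shift 0 1), (rhafa5a7051d37b143.shift 0 1), (rhc6ebdb02f2c2b584.shift 0 3), (rhe4374866cadc7201.shift 0 3), (rhefd858cfdc5d2964.shift 0 1)] (by decide +kernel))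
noncomputable def rhe893e51a0a084857 : CRef := CRef.mk (Pat.mk 0xc0000002800000000000000000000000000000000 0x80000000c0000000c0000007c0000001f0000001c0000001c00000014 7 7) 0 0 (step_sound _ 132 [rhd7112f8f8642f8f0, (rhf48373e13d2bc128.shift 2 4)] (by decide +kernel))
noncomputable def rh3186fba49ce17118 : CRef := CRef.mk (Pat.mk 0x2c00000028000000000000000000000000 0x10000000100000003c0000007c0000002f000000780000001f0000001c00000010 7 7) 0 0 (step_sound _ 100 [rh2f4f79213bd2b631, (rhf48373e13d2bc128.shift 2 3)] (by decide +kernel))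
noncomputable def rh3be75cd2ccb2b4ca : CRef := CRef.mk (Pat.mk 0xc0000000800000000000000000000000000000000 0x100000001c0000001c0000003c0000000f0000000c0000001c0000001c0000001c00000014 7 6) 0 0 (step_sound _ 99 [(rh0a6888916bcef86b.shift 2 0), (rh3f720f95742a2611.shift 2 0), (rh43d8dfd721575dfb.shift 2 0), (rhc3972d64d2d2971a.shift 0 2), (rhd1779d7de7f8215b.shift 2 0)] (by decide +kernel))
noncomputable def rhc2469bfab31eb442 : CRef := CRef.mk (Pat.mk 0x1e00000008 0x1c3000000fe000000fc 7 9) 0 0 (step_sound _ 65 [(rh3244c3cc8379b070.shift 0 1), (rh521ac07dcb525ca0.shift 1 0)] (by decide +kernel))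
noncomputable def rh46563f8da64b084c : CRef := CRef.mk (Pat.mk 0x1e0000000800000000 0x1c0000003c0000001f0000003e0000003800000010 7 6) 0 0 (step_sound _ 36 [rhd0ee3a34261bc64f, (rhe25b0a99195a5d59.shift 1 1)] (by decide +kernel))
noncomputable def rhced6693a241950ed : CRef := CRef.mk (Pat.mk 0x78000000200000000000000000 0x64000001ff000000fe0000007f00000078000000f00000005000000010 7 9) 0 0 (step_sound _ 165 [(rh0a661a4ff8ecee34.shift 1 1), (rh4a700fbd61fb9ea6.shift 1 1), rha7ba90ee9b5ef077, (rhbcf2e5d9844d8614.shift 3 1)] (by decide +kernel))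
noncomputable def rh6ac630e7834375bf : CRef := CRef.mk (Pat.mk 0x1e00000008 0x1c7000000fe000000dc 7 9) 0 0 (step_sound _ 65 [(rh3244c3cc8379b070.shift 0 1), (rhc5f9d687ed90f454.shift 1 0)] (by decide +kernel))
noncomputable def rhe64b2b72cb72044e : CRef := CRef.mk (Pat.mk 0x20000000e0000000800000000 0x1c0000003c0000001f0000003e0000003800000010 7 6) 0 0 (step_sound _ 68 [(rh3244c3cc8379b070.shift 0 2), (rhafb1507c5f328274.shift 1 0)] (by decide +kernel))
noncomputable def rhd1b7df15667251d3 : CRef := CRef.mk (Pat.mk 0x1800000050000000000000000000000000 0x80000001c000000f8000000ff0000001f0000001800000008 7 8) 0 0 (step_sound _ 101 [rhce701e8b96f2250f, (rhf48373e13d2bc128.shift 3 3)] (by decide +kernel))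
noncomputable def rhc07922dd3a68be08 : CRef := CRef.mk (Pat.mk 0x1800000050000000400000000000000000 0x20000000380000003c0000007f000000ff000000df0000005f0000005c0000001800000010 7 8) 0 0 (step_sound _ 164 [(rh409214a989d651bc.shift 0 1), (rh456a3283a6a4a5e9.shift 1 1), (rh523c30775c382bfb.shift 0 1), (rh78e08efebdfe3e47.shift 2 2), (rh8a70429e109e9a84.shift 1 2), (rhb0f5b706125405f6.shift 1 1), (rhf826c6b73aca288d.shift 0 1), (rhfb2d28b63d9194c4.shift 1 0)] (by decide +kernel))
noncomputable def rh4f9ac044c281071a : CRef := CRef.mk (Pat.mk 0x1000000058000000400000000000000000 0x80000003c000000ff000000ff0000005f0000005c0000001c0000001c 7 8) 0 0 (step_sound _ 67 [rhae853812b66bb5e0, (rhb5ec8486eae36709.shift 1 1), (rhcf80391c5046a495.shift 3 0), (rhf9366b6a121593ef.shift 3 0)] (by decide +kernel))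
noncomputable def rhdd0fa5500c60187f : CRef := CRef.mk (Pat.mk 0x8000000080000002800000020 0x1c0000001c0000001c0000001f000000fc0000002c0000002800000028 7 8) 0 0 (step_sound _ 131 [(rh187733abe5006915.shift 2 0), (rhc85cc95794737cf7.shift 2 1), rhc8e5a5606908e7d0, (rhfb657409fbb16679.shift 2 0)] (by decide +kernel))
noncomputable def rhf7d0feae4fff54f9 : CRef := CRef.mk (Pat.mk 0x8000000080000002800000000000000000000000000000000 0x140000003c0000000f0000007c0000000f0000001c0000001c00000014 7 7) 0 0 (step_sound _ 99 [(rh47992774edf9829f.shift 2 0), (rh5ee4dc8825dcefa0.shift 0 2), (rh6aa5625770489e83.shift 2 1), (rhc8fd50c44a2112a0.shift 0 2)] (by decide +kernel))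
noncomputable def rhdefac4dcb02ba3ae : CRef := CRef.mk (Pat.mk 0x20000001a0000000800000000 0x1c0000003c0000001f0000003e0000003800000010 7 6) 0 0 (step_sound _ 66 [(rh3244c3cc8379b070.shift 0 2), (rhafb1507c5f328274.shift 1 0)] (by decide +kernel))
noncomputable def rh942a2d842af349d5 : CRef := CRef.mk (Pat.mk 0x800000068000000200000000000000000 0x1c0000001c0000001c0000007f000000fc0000006f00000078000000ec0000004c00000004 7 8) 0 0 (step_sound _ 163 [(rh1d0b0a3c6f51529f.shift 2 1), (rh4f9fe315e4abf40b.shift 2 1), (rh7865043f0e018291.shift 0 2), (rha1a577fd68ecd424.shift 0 1), (rhd1a7153b74913c43.shift 2 2), (rhec390ca0ae4dc666.shift 2 0), rhff729c16316de54a] (by decide +kernel))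
noncomputable def rhb2a7b2e9e3b894c6 : CRef := CRef.mk (Pat.mk 0x400000034000000100000000000000000 0x80000003a0000007f0000003c000000fc000000360000002600000004 7 8) 0 0 (step_sound _ 131 [(rh368dc3085932390d.shift 2 3), (rh59c4ba0bdf4c9f43.shift 0 1), (rhb75933baa346adba.shift 1 0), (rhd7b56b4db0e6d390.shift 2 1)] (by decide +kernel))
noncomputable def rh923df335d2d135e4 : CRef := CRef.mk (Pat.mk 0x4000000340000001000000000 0x280000003b0000007e0000003e000000f40000003400000020 7 8) 0 0 (step_sound _ 100 [rh36fa5a9e87ad6f72, (rh6c78af2ad637a9d8.shift 1 0), (rh9ebd639649ea671c.shift 1 2), (rhb6bbf1b8e0d619f0.shift 2 0)] (by decide +kernel))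
noncomputable def rh3853d8dac06a7153 : CRef := CRef.mk (Pat.mk 0x20000000e00000000000000000000000000000000 0x4000000070000000700000007000000060000003e00000003000000070000000700000005 7 6) 0 0 (step_sound _ 97 [rh19b19bf0872cfe73, (rh8774521e81d4f0dc.shift 0 2), rhb2147935ca93e326, (rhecbd7dfedd5db675.shift 0 1)] (by decide +kernel))
noncomputable def rhdd497deecc067aae : CRef := CRef.mk (Pat.mk 0x8000000080000002800000020000000000000000000000000 0xd800000078000000ff0000007e0000006f0000002c0000001c0000001c00000010 7 8) 0 0 (step_sound _ 228 [(rh66d46f39a73ee696.shift 2 2), (rhb2e9fa111791276b.shift 0 3), (rhb55f1a29bce9ac15.shift 2 0), (rhcd6e8ab92f0a4103.shift 3 3)] (by decide +kernel))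
noncomputable def rh7a9eeb1ec32721a2 : CRef := CRef.mk (Pat.mk 0x2000000020000000a00000008000000000 0x1000000110000001bf000001fe000001ff000001a0000001a000000120 7 9) 0 0 (step_sound _ 132 [rh6f92d849ef5f2072, (rhb1a251d9bff81766.shift 4 1), (rhde573fb9eec4e89b.shift 2 0)] (by decide +kernel))
noncomputable def rh6b7d4a9432f4ffc1 : CRef := CRef.mk (Pat.mk 0x4000000040000001400000010 0xa0000000e0000003f0000003f000000160000001600000012 7 6) 0 0 (step_sound _ 130 [(rh20966da26a1c2ae8.shift 1 0), rh3b73fff9f005e55b, (rh565a0c22519f57e9.shift 1 0), (rhc85cc95794737cf7.shift 1 1)] (by decide +kernel))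
noncomputable def rh3cab7ac674d41be0 : CRef := CRef.mk (Pat.mk 0x80000000800000028000000200000000000000000 0x740000007f0000007f000000280000002c0000000c00000004 7 7) 0 0 (step_sound _ 67 [(rh367118e0bf0473e0.shift 2 0), (rh6aa5625770489e83.shift 2 0), (rha3ca12991df5858c.shift 0 2)] (by decide +kernel))
noncomputable def rh1c381d6fd284ebf3 : CRef := CRef.mk (Pat.mk 0x38000000200000000000000000 0x60000000600000007f000001fe000000380000001000000010 7 9) 0 0 (step_sound _ 98 [(rh61325f73ebf98108.shift 0 3), (rh821c1a631420eb55.shift 1 2), (rh8859ac061aed93d9.shift 1 0), (rh9d535f0ade5d030d.shift 1 1), (rhba50fd7aca570c30.shift 1 0)] (by decide +kernel))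
noncomputable def rhfc739efe5bf2828e : CRef := CRef.mk (Pat.mk 0x20000000e00000008000000000000000000000000 0xb0000003e0000003f000000300000001000000010 7 6) 0 0 (step_sound _ 132 [(rh3244c3cc8379b070.shift 0 4), rh95e2497d07ae4e12] (by decide +kernel))
noncomputable def rh36937c11ea8193b0 : CRef := CRef.mk (Pat.mk 0x40000001c00000010000000000000000000000000 0x1e0000001e0000001e0000001c0000007f0000000f0000000c00000004 7 7) 0 0 (step_sound _ 99 [rh51278663a7d64a36, (rh5d54cb79a67f97ab.shift 2 1), (rh7fbeb074c0d20e2a.shift 0 1), (rha40d42a2e34c408d.shift 2 1)] (by decide +kernel))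
noncomputable def rh3ab2a7a132a1fc95 : CRef := CRef.mk (Pat.mk 0x800000038000000000000000000000000 0x140000001c0000001c0000000c0000001c0000001c000000380000001f0000001c0000001c 7 6) 0 0 (step_sound _ 163 [(rh046c5eb18e55a239.shift 3 0), (rh63ac5d7eaa6d8c56.shift 2 0), rh88923257c65ef0b4] (by decide +kernel))
noncomputable def rh6607ddfa70decb1f : CRef := CRef.mk (Pat.mk 0x800000038000000000000000000000000 0x140000001c0000003c0000000f0000001c000000380000001f0000001c00000014 7 6) 0 0 (step_sound _ 163 [(rh14e0829dc73b6804.shift 2 2), (rh70e33bfdf511e144.shift 3 0), rh88923257c65ef0b4, (rhc7fafea993c2e47f.shift 0 2)] (by decide +kernel))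
noncomputable def rha9a0d34b2af72dae : CRef := CRef.mk (Pat.mk 0x800000038000000200000000000000000 0x1c0000001c0000001c0000001f000000fc0000002c000000380000003f0000001c00000014 7 8) 0 0 (step_sound _ 163 [(rh14e0829dc73b6804.shift 2 2), (rh70e33bfdf511e144.shift 3 0), (rh7865043f0e018291.shift 0 2), rh88923257c65ef0b4] (by decide +kernel))
noncomputable def rhb6e13c8af7e6c1a6 : CRef := CRef.mk (Pat.mk 0x80000003800000000000000000000000000000000 0x100000001c0000001c0000001f00000078000000f80000000c0000001c0000001c00000014 7 8) 0 0 (step_sound _ 99 [(rh19b19bf0872cfe73.shift 2 0), (rh2048b9855f7c15ab.shift 0 1), (rh8774521e81d4f0dc.shift 2 2), (rhb2147935ca93e326.shift 2 0), (rhecbd7dfedd5db675.shift 2 1)] (by decide +kernel))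
noncomputable def rh7765a470acfadf64 : CRef := CRef.mk (Pat.mk 0x800000038000000200000000000000000 0x1c0000001c0000001c0000003f000000ff0000007f000000380000002c0000000c0000000c 7 8) 0 0 (step_sound _ 163 [rh20acedd11cd2828b, (rh63ac5d7eaa6d8c56.shift 2 0), (rh7865043f0e018291.shift 0 2), (rh8d02c9f33e051d63.shift 1 1), (rhc7fafea993c2e47f.shift 0 2), (rhc8d87857cd4a1a6a.shift 1 0), (rhdbaffde9ea0ca776.shift 1 2), (rhf5815e56377ddf29.shift 0 2)] (by decide +kernel))
noncomputable def rhfd8b4a7384ef7a79 : CRef := CRef.mk (Pat.mk 0x2000000020000000a00000008000000000000000000000000 0x200000002000000030000007e0000007f000000050000000400000004 7 7) 0 0 (step_sound _ 98 [(rh04f196c7060ce8d5.shift 1 0), (rh09e3de9652e65ee7.shift 0 2), (rh6559c1b37b741ede.shift 0 1), (rhec17607bd1d271be.shift 0 3)] (by decide +kernel))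
noncomputable def rh4d9785d94e9b41e0 : CRef := CRef.mk (Pat.mk 0x8000000080000002800000020000000000000000000000000 0x380000007c0000002f000001f8000001fe000000540000001000000010 7 9) 0 0 (step_sound _ 100 [(rh04f196c7060ce8d5.shift 3 0), (rh09e3de9652e65ee7.shift 2 2), (rh6559c1b37b741ede.shift 2 1), (rhd351028b4234a131.shift 0 2)] (by decide +kernel))
noncomputable def rh0f3cfb62589a6fd6 : CRef := CRef.mk (Pat.mk 0x800000008000000280000002000000000 0x140000001c0000001c0000001c0000007f0000007c0000002c000000780000007000000050 7 7) 0 0 (step_sound _ 163 [(rh925183b655681fc2.shift 2 1), rh95388497e8f54457, (rhc17b7d8fab3dfe57.shift 2 1), (rhc85cc95794737cf7.shift 2 2), (rhdad8220a6cd60687.shift 2 1)] (by decide +kernel))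
noncomputable def rh9a821ead5edbe8cc : CRef := CRef.mk (Pat.mk 0x20000001a00000008000000000000000000000000 0xb0000003e0000003f000000300000001000000010 7 6) 0 0 (step_sound _ 130 [(rh3244c3cc8379b070.shift 0 4), rh95e2497d07ae4e12] (by decide +kernel))
noncomputable def rh7450cea881bffed3 : CRef := CRef.mk (Pat.mk 0x20000001a00000008000000000000000000000000 0x40000000e000000fe0000007f000000330000001300000010 7 8) 0 0 (step_sound _ 130 [(rh18ce1c06357adb0d.shift 0 1), (rh31905c9abd083ad2.shift 0 3), (rh4df605d6a934e0f4.shift 1 3), (rh8fc6e84d6e407574.shift 0 1), rh95e2497d07ae4e12] (by decide +kernel))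
noncomputable def rh99bb83237d3ccd53 : CRef := CRef.mk (Pat.mk 0x2000000180000000800000000 0x140000001c0000003c0000001f000000780000001f00000014 7 7) 0 0 (step_sound _ 99 [rh1f11f3806b0e7523, (rh9ebd639649ea671c.shift 0 2), rhd70b3489660c414d] (by decide +kernel))
noncomputable def rh56d6cc6c29cd492e : CRef := CRef.mk (Pat.mk 0x100000005000000050000000000000000000000000 0x1000000010000000f70000007e000000370000002000000020 7 8) 0 0 (step_sound _ 101 [(rha768b229dc254047.shift 4 0), (rhdda18f14314c6e63.shift 0 2)] (by decide +kernel))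
noncomputable def rh70ddb03f15264b0d : CRef := CRef.mk (Pat.mk 0x2000000020000000a000000000000000000000000 0x5000000070000000700000006000000060000001f000000030000000300000002 7 5) 0 0 (step_sound _ 193 [rh27ccc3b87268a2ca, (rh367118e0bf0473e0.shift 0 1), (rhc85cc95794737cf7.shift 0 3)] (by decide +kernel))
noncomputable def rhc8307ff49760a494 : CRef := CRef.mk (Pat.mk 0x800000068000000200000000000000000 0x1c0000001c0000001c0000007f000000fc0000006f00000078000000ec0000004c00000004 7 8) 0 0 (step_sound _ 163 [(rh1d0b0a3c6f51529f.shift 2 1), (rh4f9fe315e4abf40b.shift 2 1), (rh7865043f0e018291.shift 0 2), (rha1a577fd68ecd424.shift 0 1), (rhb02c57409ba18ec3.shift 0 1), (rhd1a7153b74913c43.shift 2 2), (rhec390ca0ae4dc666.shift 2 0), rhff729c16316de54a] (by decide +kernel))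
noncomputable def rh63a4e07fad9681ce : CRef := CRef.mk (Pat.mk 0x14000000140000001000000000 0x280000003c0000007f0000003c0000003c0000007800000028 7 7) 0 0 (step_sound _ 132 [(rh12461e137161f2e1.shift 3 0), (rh762a1aeaf83c662a.shift 3 0), rha9891382d4830bbd, (rhaba26d7b21102469.shift 3 0), (rhc17b7d8fab3dfe57.shift 3 0)] (by decide +kernel))
noncomputable def rhc5b4a290ad56a0b8 : CRef := CRef.mk (Pat.mk 0xa000000080000000800000000 0x140000001c0000001e0000001f000000780000001c00000014 7 7) 0 0 (step_sound _ 131 [rh14b2a9aeb9e37c73, rh50381b1ee12ee04f, (rh762a1aeaf83c662a.shift 2 0), rhf8f79df7a30ca28e] (by decide +kernel))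
noncomputable def rh497690ddab9e262e : CRef := CRef.mk (Pat.mk 0xa0000000a0000000800000000 0x140000001f0000001e0000000b0000001e0000003c00000014 7 6) 0 0 (step_sound _ 131 [rh37559da68f71ea7a, (rh762a1aeaf83c662a.shift 2 0), (rhc17b7d8fab3dfe57.shift 2 0), rhfc993a6ca5f5731c] (by decide +kernel))
noncomputable def rhb5310abda5fee0fe : CRef := CRef.mk (Pat.mk 0xa000000080000000800000000 0x40000001c0000007e0000001f0000000c0000001c00000014 7 7) 0 0 (step_sound _ 131 [rh14b2a9aeb9e37c73, rh50381b1ee12ee04f, (rhaba26d7b21102469.shift 2 0), rhbdbc38e9704037ba, rhdef8b7208c70155f, rhfa41604cdcda6bb6] (by decide +kernel))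
noncomputable def rh4ff0b701d473b99c : CRef := CRef.mk (Pat.mk 0xa0000000a0000000800000000 0x140000001c0000001e0000000f0000001e0000003c00000014 7 6) 0 0 (step_sound _ 131 [rh14b2a9aeb9e37c73, rh37559da68f71ea7a, rh50381b1ee12ee04f, (rh91429c40af715d36.shift 2 0), rhbdbc38e9704037ba] (by decide +kernel))
noncomputable def rh2878761e1902e012 : CRef := CRef.mk (Pat.mk 0x8000000080000002800000000000000000000000000000000 0x1800000018000000f80000001f0000001c0000001c00000014 7 8) 0 0 (step_sound _ 99 [(rh165cdb78240e1819.shift 2 0), (rh50d4d0fd838213a3.shift 0 2), (rh8cdd36b03d57a2f6.shift 2 1), (rhb4d78cd0e58cc17c.shift 2 0), (rhcd8c2876e3909fb3.shift 2 1)] (by decide +kernel))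
noncomputable def rh8cbe7084457f5a82 : CRef := CRef.mk (Pat.mk 0x8000000280000002800000000 0x140000007c0000007f0000007f000000380000003c00000014 7 7) 0 0 (step_sound _ 131 [(rh12461e137161f2e1.shift 2 0), (rha3ca12991df5858c.shift 0 1), (rhc85cc95794737cf7.shift 2 1), (rhd7cb8ed87e2022d8.shift 2 0)] (by decide +kernel))
noncomputable def rhbe9fb93e772e6a0b : CRef := CRef.mk (Pat.mk 0x80000002800000028000000000000000000000000 0x740000003c000000680000007c0000001f0000001c00000014 7 7) 0 0 (step_sound _ 67 [(rh50d4d0fd838213a3.shift 0 1), (rh8cdd36b03d57a2f6.shift 2 0), (rhc8fd50c44a2112a0.shift 0 1), (rhe382f86513959cd2.shift 2 1)] (by decide +kernel))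
noncomputable def rh90e4bc6f867a10c0 : CRef := CRef.mk (Pat.mk 0x20000000200000002000000000000000000000000 0x500000007000000070000000200000002000000070000000700000005 7 3) 0 0 (step_sound _ 65 [rh482d647aab4b93ee, rh8cdd36b03d57a2f6, (rh91429c40af715d36.shift 0 1), rhb106de594f87c71e] (by decide +kernel))
noncomputable def rh99aa0aa18f28cb63 : CRef := CRef.mk (Pat.mk 0xa0000000e000000000 0x1bf000000fe0000000e 7 9) 0 0 (step_sound _ 36 [rh32a3539172fc0837, (rh33e738c4ed385b9f.shift 4 1)] (by decide +kernel))
noncomputable def rhd2550ef10c2ac8f0 : CRef := CRef.mk (Pat.mk 0x8000000380000000000000000000000000000000000000000 0x140000001c0000001c000000080000007c0000001f0000001c0000001c0000001c00000010 7 7) 0 0 (step_sound _ 131 [(rh2820ca9a6c4f41b4.shift 0 4), (rh3df0e85aff8338af.shift 2 0), (rhf0f55c4504412200.shift 0 4)] (by decide +kernel))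
noncomputable def rh1547f435eb46ea03 : CRef := CRef.mk (Pat.mk 0xa0000000e0000000000000000000000000 0x2000000020000000bf000000fe0000007e0000007000000070 7 8) 0 0 (step_sound _ 100 [(rh32a3539172fc0837.shift 0 2), (rh3423e5ac208fb65b.shift 3 0), (rh775ca1963e850b80.shift 2 2), (rhbc6c8589eec50122.shift 2 0)] (by decide +kernel))
noncomputable def rhb7f406cc1dc4516f : CRef := CRef.mk (Pat.mk 0x2800000038000000000000000000000000 0x140000001c0000003e0000007f0000006c000000380000001f0000001c00000014 7 7) 0 0 (step_sound _ 163 [(rh065d11488daa6fe7.shift 0 1), (rh14e0829dc73b6804.shift 2 2), rh88923257c65ef0b4, (rha768b229dc254047.shift 3 0)] (by decide +kernel))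
noncomputable def rh59f9ca75b00ea64b : CRef := CRef.mk (Pat.mk 0x80000002800000008000000000000000000000000 0x140000001c0000001c0000001f0000007c0000006c0000000c000000180000001800000010 7 7) 0 0 (step_sound _ 195 [(rh079ffb1985424a66.shift 0 2), (rh1f25b33bbea643f0.shift 2 3), (rhc85cc95794737cf7.shift 2 3), (rhca85590e660df518.shift 2 3), (rhf6cabd8f5704560e.shift 2 0)] (by decide +kernel))
noncomputable def rh64f90866bbc57e76 : CRef := CRef.mk (Pat.mk 0x40000001400000004000000000000000000000000 0xa0000003e00000037000000040000000e0000000e0000000a 7 6) 0 0 (step_sound _ 66 [(rh46baee19951a66e7.shift 1 0), (rh6aa5625770489e83.shift 1 0), (rh7053687f880f33b6.shift 0 1), (rh8cdd36b03d57a2f6.shift 1 0)] (by decide +kernel))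
noncomputable def rh580b040c4cbecba4 : CRef := CRef.mk (Pat.mk 0x8000000280000002800000000 0x140000007c0000007f0000007f0000002c0000002c00000004 7 7) 0 0 (step_sound _ 131 [(rh20966da26a1c2ae8.shift 2 0), (rh565a0c22519f57e9.shift 2 0), (rh762a1aeaf83c662a.shift 2 0), (rha3ca12991df5858c.shift 0 1), (rhc85cc95794737cf7.shift 2 1)] (by decide +kernel))
noncomputable def rh84a12ea5de0af63d : CRef := CRef.mk (Pat.mk 0x2800000028000000000000000000000000 0x28000000ef000000fe000000df0000005400000054 7 8) 0 0 (step_sound _ 100 [(rh24e72371d7873615.shift 2 0), (rh7dc5059a8510f4a2.shift 1 0), (rhb12ffaec36122c99.shift 0 2), (rhd117684c4a851b90.shift 1 3), (rhd2f6bb1288d36d0d.shift 2 0)] (by decide +kernel))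
noncomputable def rhe5841e6148016832 : CRef := CRef.mk (Pat.mk 0xe00000008000000000000000000000000 0x40000000f000000fe0000007f000000330000001300000012 7 8) 0 0 (step_sound _ 132 [rh1c9a3da3bc00019f, rh95e2497d07ae4e12, (rha42db4b4bc101bc4.shift 0 1), (rhc6ebdb02f2c2b584.shift 0 3), (rhe4374866cadc7201.shift 0 3), (rhefd858cfdc5d2964.shift 0 1)] (by decide +kernel))
noncomputable def rh00acf3325d08def4 : CRef := CRef.mk (Pat.mk 0x20000000200000002000000000000000000000000 0x500000007000000070000000200000006000000070000000700000005 7 3) 0 0 (step_sound _ 65 [rh482d647aab4b93ee, rh8cdd36b03d57a2f6, rhb106de594f87c71e, (rhd7cb8ed87e2022d8.shift 0 1)] (by decide +kernel))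
noncomputable def rh352fe8a98d9bda86 : CRef := CRef.mk (Pat.mk 0x20000000200000002000000000000000000000000 0x500000007000000070000000300000002000000070000000700000005 7 3) 0 0 (step_sound _ 65 [rh46baee19951a66e7, rh6aa5625770489e83, rh8cdd36b03d57a2f6, (rh91429c40af715d36.shift 0 1)] (by decide +kernel))
noncomputable def rh75f7c81ccb1d343f : CRef := CRef.mk (Pat.mk 0x20000000200000002000000000 0x50000000700000007000000020000001ff000000fe0000005f 7 9) 0 0 (step_sound _ 133 [(rh12461e137161f2e1.shift 4 0), rh1a5850ee4326b921, (rh762a1aeaf83c662a.shift 4 0), (rh91429c40af715d36.shift 4 0), (rhc17b7d8fab3dfe57.shift 4 0), (rhd7cb8ed87e2022d8.shift 4 0)] (by decide +kernel))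
noncomputable def rhf98c7e9725950ff1 : CRef := CRef.mk (Pat.mk 0x1e000000020000000000000000 0x6000000070000001e0000003e0000000700000007 7 6) 0 0 (step_sound _ 129 [(rh3244c3cc8379b070.shift 0 3), rh517f7ea899666a81] (by decide +kernel))
noncomputable def rh192e8533435dd98d : CRef := CRef.mk (Pat.mk 0x20000000300000002000000000000000000000000 0x1000000070000000700000007000000030000000300000002000000070000000700000005 7 3) 0 0 (step_sound _ 65 [(rh46778aeefcf6d76c.shift 0 1), rh8cdd36b03d57a2f6, (rhe286c75f2739cce2.shift 0 1)] (by decide +kernel))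
noncomputable def rhf42b01870a257519 : CRef := CRef.mk (Pat.mk 0x6800000000 0xe0000000ff000001fc 7 9) 0 0 (step_sound _ 36 [rh097a8214b5852d20, (rh0edd3afef6b5d7e0.shift 2 0), (rh2381ca26b8b38d1e.shift 2 0)] (by decide +kernel))
noncomputable def rh6c6265349f3c3049 : CRef := CRef.mk (Pat.mk 0x6800000000 0xfe000000ff0000003c 7 8) 0 0 (step_sound _ 36 [(rh4c622fddc53a5f99.shift 1 1), rhd2053798cf91e388, (rhd52e3929053d9d5f.shift 2 0)] (by decide +kernel))
noncomputable def rh0d6916c8cdb04161 : CRef := CRef.mk (Pat.mk 0x340000000400000004000000000000000000000000 0x20000002600000036000000740000007e0000001f0000003e0000000a0000000a 7 7) 0 0 (step_sound _ 132 [(rh252812771d70da16.shift 1 1), (rh388f7e2a4406db03.shift 1 0), rh518971a4afa7de09, (rhdb11e2ee87c104a9.shift 1 3)] (by decide +kernel))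
noncomputable def rh86f9fc6ff91f9779 : CRef := CRef.mk (Pat.mk 0x20000001a000000060000000200000000 0x8000000090000001f0000001b0000001e0000001200000012 7 5) 0 0 (step_sound _ 128 [(rh50fbb5868c909700.shift 0 1), rh807cce3c0d449a1e] (by decide +kernel))
noncomputable def rh16d689626723f9bc : CRef := CRef.mk (Pat.mk 0x2000000060000000200000000000000000000000000000000 0x1000000030000000300000003000000070000000600000006000000070000000700000001 7 3) 0 0 (step_sound _ 224 [(rh0048f2ad683a82b8.shift 0 3), rh0b107fe4080d3ca4, (rh0dbc8abee7ad42d4.shift 0 3)] (by decide +kernel))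
noncomputable def rh63251eccdf2370fc : CRef := CRef.mk (Pat.mk 0x40000000c0000000400000000000000000000000000000000 0x400000004000000040000000e0000003e0000000f0000000e0000000e00000004 7 6) 0 0 (step_sound _ 97 [(rh544d3caba1e1e2bb.shift 1 1), (rh7c0ee1e2d26a8687.shift 1 0), (rh7e2b5fc52af4e919.shift 1 3), (rh86aa94d7c0c1e10d.shift 0 2)] (by decide +kernel))
noncomputable def rh94fce1dbf7530cfe : CRef := CRef.mk (Pat.mk 0x10000001a000000060000000200000000 0xb0000000f0000003a0000001e0000003600000010 7 6) 0 0 (step_sound _ 129 [(rh50fbb5868c909700.shift 0 1), rh63dced063d3ec848] (by decide +kernel))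
noncomputable def rhc6f6d9e755d06e6d : CRef := CRef.mk (Pat.mk 0x40000000c00000004000000040000000000000000 0x400000004000000060000000f0000003e000000060000000600000004 7 6) 0 0 (step_sound _ 65 [rh4856766d64383744, (rh932754581e0f4330.shift 1 1)] (by decide +kernel))
noncomputable def rh39a48000612aa06a : CRef := CRef.mk (Pat.mk 0x2000000020000000200000000000000000000000000000000 0x10000000300000003000000030000000600000007000000070000000700000005 7 3) 0 0 (step_sound _ 97 [(rh5abfc4c9d959be03.shift 0 2), (rh6eff4158bb400f47.shift 0 1), (rh8ff3dde5b1c639e0.shift 0 1), (rhc4526fc8abf298b6.shift 0 1), rhc850b49d039efae1] (by decide +kernel))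
noncomputable def rh2177f1a07ba2ed01 : CRef := CRef.mk (Pat.mk 0x6800000008000000080000000800000000 0x200000006800000048000000ff0000007e00000034 7 8) 0 0 (step_sound _ 36 [(rh55afc6a59410cf00.shift 3 0), rh9498b12f918ce30a] (by decide +kernel))
noncomputable def rh34bd0c4556796489 : CRef := CRef.mk (Pat.mk 0x600000034000000040000000400000000 0x100000001e000000340000003c0000003f0000003a 7 6) 0 0 (step_sound _ 132 [(rhc10214bf3fe8094a.shift 1 3), rhe2cc0d9d55c42d59] (by decide +kernel))
noncomputable def rh7f04eb2613ed8b6b : CRef := CRef.mk (Pat.mk 0x1a0000000a00000002000000000000000000000000 0x1000000090000000f0000001b0000001e00000013000000170000000700000005 7 5) 0 0 (step_sound _ 192 [(rh114f4abf4ea101c9.shift 0 2), (rh2bbfc39375aea374.shift 0 2), rhc05d451ce3dd5e48] (by decide +kernel))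
noncomputable def rh50025ecc65780503 : CRef := CRef.mk (Pat.mk 0x10000000180000000a00000000 0x380000003c000000f0000000380000003e00000037 7 8) 0 0 (step_sound _ 132 [rh37c2ba6883c89054, (rh5c5e593799055d58.shift 3 1)] (by decide +kernel))
noncomputable def rhcea03d4dccec7b71 : CRef := CRef.mk (Pat.mk 0x80000000c000000050000000400000000 0x600000006000000060000000c0000001c0000003f0000001e0000003a 7 6) 0 0 (step_sound _ 130 [rh6cb33c1b1a733882, (rhcbaa34959f85e2ef.shift 1 0), (rhea90e7358341a1a4.shift 1 0)] (by decide +kernel))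
noncomputable def rhf0a5eead15e5dd3a : CRef := CRef.mk (Pat.mk 0x1000000014000000140000001000000000 0x200000003400000014000000160000003e0000002f 7 6) 0 0 (step_sound _ 165 [(rhbaefcd01e0a8bca3.shift 4 1), rhf92c094e260f0cb7] (by decide +kernel))
noncomputable def rh495ac0e5440fb38c : CRef := CRef.mk (Pat.mk 0x80000001a000000120000001000000000 0x3000000030000000340000003f0000001b0000003e0000003800000028 7 6) 0 0 (step_sound _ 132 [rh14061fa143511e7e, (rh1adc8391535f5fb2.shift 3 0), (rh65a9d34d908f363c.shift 3 0), (rh929981d1a150078c.shift 3 0)] (by decide +kernel))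
noncomputable def rh00e7107a6d377529 : CRef := CRef.mk (Pat.mk 0x80000001a0000001200000000 0x1c0000001e0000007f0000001a0000001f0000000e 7 7) 0 0 (step_sound _ 131 [(rh2145e1d24b96a57e.shift 3 1), rh6b5dfae983be0244] (by decide +kernel))
noncomputable def rh5d47a50b2712b693 : CRef := CRef.mk (Pat.mk 0x80000001a000000120000000000000000 0x1000000010000000180000003b000000fe0000003c00000038 7 8) 0 0 (step_sound _ 36 [rh61ac1ef0c2f77d9f, (rh7b1f1fb55310c477.shift 3 0)] (by decide +kernel))
noncomputable def rha08e517d7cb06996 : CRef := CRef.mk (Pat.mk 0x40000000c0000000900000000 0x1c0000003c0000000f0000001c0000000f00000006 7 6) 0 0 (step_sound _ 130 [(rh2145e1d24b96a57e.shift 2 1), rh603b58037db264ca] (by decide +kernel))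
noncomputable def rhef8687d6ea97d648 : CRef := CRef.mk (Pat.mk 0x8000000180000000a00000000 0x40000001c0000001c0000001800000018000000180000000f00000004 7 5) 0 0 (step_sound _ 34 [(rh53b3c253cb0c65f4.shift 0 1), (rhb2d999c672507e3f.shift 2 0)] (by decide +kernel))
noncomputable def rhd24bb8905cb209e4 : CRef := CRef.mk (Pat.mk 0x800000018000000020000001000000000 0x140000001c0000001c00000018000000180000000f0000003c00000018 7 6) 0 0 (step_sound _ 67 [rh169c532dd39f3a5d, (rh8f4050c06a082165.shift 3 0), (rhe0dec116d57544aa.shift 0 1)] (by decide +kernel))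
noncomputable def rh45ac5dfb5da0d7b5 : CRef := CRef.mk (Pat.mk 0x100000003400000004000000000000000000000000 0xa0000001f0000001e000000760000003e0000007e0000002600000002 7 7) 0 0 (step_sound _ 99 [(rh10b77e1eac635185.shift 1 1), (rh51ff335405c97b2c.shift 1 3), rhf9f69c06e6d16316] (by decide +kernel))
noncomputable def rhbfc3a0e31291ebf9 : CRef := CRef.mk (Pat.mk 0x8000000180000000a00000000 0x140000001e00000078000000180000000f0000000c 7 7) 0 0 (step_sound _ 34 [(rh53b3c253cb0c65f4.shift 0 1), (rh66ac29485c8cba5d.shift 1 0)] (by decide +kernel))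
noncomputable def rh6aef10d66c20254f : CRef := CRef.mk (Pat.mk 0xc000000180000000a00000000 0x8000000180000001c0000001c0000001c000000180000000f00000004 7 5) 0 0 (step_sound _ 34 [(rh53b3c253cb0c65f4.shift 0 1), (rhf00ffa848eb8744f.shift 2 0)] (by decide +kernel))
noncomputable def rh2542f0b6d1380238 : CRef := CRef.mk (Pat.mk 0x10000000a0000001a000000020000000000000000 0x1c0000000f0000001b0000001a000000130000000300000001 7 5) 0 0 (step_sound _ 33 [rhf46b39396e6480d6, (rhffd04209dc8ea796.shift 0 1)] (by decide +kernel))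
noncomputable def rhc66371d7479288c0 : CRef := CRef.mk (Pat.mk 0x4000000340000000c00000000 0xa0000003f0000003f000000340000000c00000008 7 6) 0 0 (step_sound _ 130 [(rh05b17f93018545a9.shift 0 1), (rh55afc6a59410cf00.shift 2 0)] (by decide +kernel))
noncomputable def rh3f4246fcd4938ad1 : CRef := CRef.mk (Pat.mk 0x8000000680000001c000000000000000000000000 0x140000003c000000680000001f0000001f0000001c00000014 7 7) 0 0 (step_sound _ 67 [(rh4ab73194455a61f4.shift 0 1), (rh4b0872fb7dc6b201.shift 0 1), (rh6eff4158bb400f47.shift 2 0), (rha33ecc1c0af70900.shift 0 1)] (by decide +kernel))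
noncomputable def rh95e148075f17c77a : CRef := CRef.mk (Pat.mk 0x4000000340000000c00000000 0x3a0000003e00000037000000340000002c00000008 7 6) 0 0 (step_sound _ 130 [(rh55afc6a59410cf00.shift 2 0), (rhde167e5f9ee0b3c2.shift 0 1)] (by decide +kernel))
noncomputable def rh6289c945a0624314 : CRef := CRef.mk (Pat.mk 0x1000000038000000000000000000000000 0x1000000010000000170000003e0000007f0000002800000028 7 7) 0 0 (step_sound _ 164 [rh09387dde597ce57b, (rh281c6819542c66e6.shift 3 0), (rhde10baa3043a2b46.shift 3 2)] (by decide +kernel))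
noncomputable def rh4762c13f5711784f : CRef := CRef.mk (Pat.mk 0x1a0000000b000000000000000000000000 0x4000000140000003f0000001f0000003b0000000b0000000b0000000300000003 7 6) 0 0 (step_sound _ 161 [rh281c6819542c66e6, rha05f8e412b607849, (rhbb3f0f767052d86a.shift 0 2), rhfafeb437ceb8396d] (by decide +kernel))
noncomputable def rhc6d0044c22f5f95a : CRef := CRef.mk (Pat.mk 0x1a000000080000000800000000 0x140000001c0000001c0000001f0000001b000000180000001800000010 7 5) 0 0 (step_sound _ 131 [(rh20e56a1196e70fcc.shift 2 0), (rh5abfc4c9d959be03.shift 2 0), (rh6132a70967ffabf6.shift 0 1), (rh7ab09f375cd5d482.shift 3 1)] (by decide +kernel))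
noncomputable def rhde236ed18f998f21 : CRef := CRef.mk (Pat.mk 0x60000000200000002000000000000000000000000 0x4000000070000000700000003000000060000000600000006000000070000000700000005 7 3) 0 0 (step_sound _ 66 [(rh2977b00063528966.shift 1 0), (rh89a6eb7e3968858f.shift 0 2), rh9db51efc6d9d93b8] (by decide +kernel))
noncomputable def rhdb911a29b693bced : CRef := CRef.mk (Pat.mk 0x1a0000000a000000000000000000000000 0x20000003a0000003f000000370000000400000004 7 6) 0 0 (step_sound _ 98 [(rh53b3c253cb0c65f4.shift 0 3), rhb9607afc3cd6ba2b] (by decide +kernel))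
noncomputable def rh225d159806ff43c9 : CRef := CRef.mk (Pat.mk 0x180000000a00000000000000000000000000000000 0x140000001c0000001c000000180000000f0000007c0000001c0000001c00000014 7 7) 0 0 (step_sound _ 130 [(rh391617e2f0a93e14.shift 1 0), (rh53b3c253cb0c65f4.shift 0 4)] (by decide +kernel))
noncomputable def rhf7478ef95d968f83 : CRef := CRef.mk (Pat.mk 0x600000002000000020000000400000000 0x300000003000000030000000600000006000000070000000700000003 7 3) 0 0 (step_sound _ 161 [(rhd3458b32566d63f7.shift 1 1), rhfb45a41e8425ee21] (by decide +kernel))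
noncomputable def rh037ade8431fcc1fd : CRef := CRef.mk (Pat.mk 0x3000000010000000d000000010 0x1cf000000fe000001be000000d000000050 7 9) 0 0 (step_sound _ 99 [rh27e25cc78547879f, (rh50fbb5868c909700.shift 3 0)] (by decide +kernel))
noncomputable def rhdca175250c5f12cf : CRef := CRef.mk (Pat.mk 0x400000034000000040000000600000000 0xa0000000e000000340000003f0000003f00000008 7 6) 0 0 (step_sound _ 35 [(rh2f7e59c25c59915c.shift 0 1), (rh55afc6a59410cf00.shift 2 0)] (by decide +kernel))
noncomputable def rhc92ca060f42e631c : CRef := CRef.mk (Pat.mk 0x20000001a0000000200000002000000020000000000000000 0x20000003a0000003f00000006000000070000000300000003 7 6) 0 0 (step_sound _ 98 [(rh55afc6a59410cf00.shift 1 2), rhe0bb77b4dbd2288b] (by decide +kernel))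
noncomputable def rh4436b3116a16cb42 : CRef := CRef.mk (Pat.mk 0x1a000000020000000200000002000000000000000000000000 0x1b0000000f0000000600000003000000070000000700000004 7 5) 0 0 (step_sound _ 64 [rh1751f8b8f06a9336, (rh79877ebd3ef475dd.shift 0 2)] (by decide +kernel))
noncomputable def rh415eb0ca9bdaff6e : CRef := CRef.mk (Pat.mk 0x3000000010000000100000001000000000 0xf0000007f0000003e000000180000001800000008 7 7) 0 0 (step_sound _ 131 [(rh50fbb5868c909700.shift 3 1), rhe66b102d6557917c] (by decide +kernel))
noncomputable def rh65d7e142f15bb3c7 : CRef := CRef.mk (Pat.mk 0x400000034000000040000000000000000 0x200000006e0000003e00000074000000170000003e0000000a 7 7) 0 0 (step_sound _ 131 [(rh458384369c405129.shift 1 1), rh935ec10e58072ec6, (rh9d15916a925d4940.shift 1 1)] (by decide +kernel))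
noncomputable def rheb3ba5da590fe224 : CRef := CRef.mk (Pat.mk 0x20000001a000000030000000200000000000000000000000000000000 0x20000001b0000000f0000000700000003000000070000000600000004 7 5) 0 0 (step_sound _ 96 [(rh79877ebd3ef475dd.shift 0 3), rheef8212e03c72039] (by decide +kernel))
noncomputable def rh8e2320083ab6fb28 : CRef := CRef.mk (Pat.mk 0x200000002000000020000000200000000000000000000000000000000 0x200000003000000030000000300000007000000070000000700000001 7 3) 0 0 (step_sound _ 97 [(rh6eff4158bb400f47.shift 0 1), (rh7928877f9bf74a91.shift 0 2), (rhced1fa756b93455b.shift 0 1), rhe84e00c98653ad0c] (by decide +kernel))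
noncomputable def rhe5729f0f07ef6187 : CRef := CRef.mk (Pat.mk 0x1800000010000000100000001000000000 0x270000007f0000003e000000180000001800000008 7 7) 0 0 (step_sound _ 133 [(rh2f68792b6b779e96.shift 4 1), rhe66b102d6557917c] (by decide +kernel))
noncomputable def rh0021c879160f6499 : CRef := CRef.mk (Pat.mk 0x1800000010000000d000000010 0x1e7000000fe000001be000000d000000050 7 9) 0 0 (step_sound _ 101 [rh27e25cc78547879f, (rh2f68792b6b779e96.shift 4 0)] (by decide +kernel))
noncomputable def rhb8803991128d42dc : CRef := CRef.mk (Pat.mk 0x8000000180000000800000008000000000000000000000000 0x40000000f00000018000000180000000c0000001c0000001c00000010 7 5) 0 0 (step_sound _ 194 [(rh50fbb5868c909700.shift 2 3), rh7f9222fe26e32fd0] (by decide +kernel))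
noncomputable def rh8073cd3c40eaf5c8 : CRef := CRef.mk (Pat.mk 0x80000001a00000012000000000000000000000000 0x1c0000001e0000007c0000001b0000001e0000000c0000000c0000000c 7 7) 0 0 (step_sound _ 195 [(rh2145e1d24b96a57e.shift 3 3), rh4c9ef44d4f5ee662] (by decide +kernel))
noncomputable def rh3998dbe24ccbd38d : CRef := CRef.mk (Pat.mk 0x80000001a0000001200000000 0x1c0000001e000000780000003b0000001e00000008 7 7) 0 0 (step_sound _ 131 [(rh2145e1d24b96a57e.shift 3 1), rhbb411e0fc958625b] (by decide +kernel))
noncomputable def rh58352d64d8168fcb : CRef := CRef.mk (Pat.mk 0x40000000c000000090000000000000000 0x8000000080000000c0000000c0000007f0000001f0000001e 7 7) 0 0 (step_sound _ 35 [rh0024bba0b80456d5, (rh7b1f1fb55310c477.shift 2 0)] (by decide +kernel))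
noncomputable def rhee3545fe19585a84 : CRef := CRef.mk (Pat.mk 0xe0000001200000002000000000000000000000000 0x340000001e0000003200000002000000070000000700000005 7 6) 0 0 (step_sound _ 65 [(rh2f68792b6b779e96.shift 1 2), rhfd9553feaebcd262] (by decide +kernel))
noncomputable def rhdeff4fe67c4bf27f : CRef := CRef.mk (Pat.mk 0x2000000020000000600000000000000000000000000000000 0x300000003000000030000000600000006000000070000000300000003 7 3) 0 0 (step_sound _ 98 [(rh2145e1d24b96a57e.shift 1 3), rhf43be9e603194a9e] (by decide +kernel))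
noncomputable def rha793018b3f421c45 : CRef := CRef.mk (Pat.mk 0xa0000001a00000002000000000000000000000000 0x90000000f0000001e0000003b00000016000000160000000400000004 7 6) 0 0 (step_sound _ 66 [(rh2977b00063528966.shift 1 0), (rh5666a7219a7df38c.shift 0 1), (rh7977cca6ebb8d57c.shift 0 2)] (by decide +kernel))
noncomputable def rhfc1ee0386daa921e : CRef := CRef.mk (Pat.mk 0x2000000020000000200000002000000000000000000000000 0x300000003000000030000000600000006000000070000000300000003 7 3) 0 0 (step_sound _ 98 [(rh55afc6a59410cf00.shift 1 2), rh6b2401b9916e863f] (by decide +kernel))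
noncomputable def rh2812d759a6b639db : CRef := CRef.mk (Pat.mk 0x80000001a00000012000000000000000000000000 0x1800000018000000180000003b0000001e0000000c0000000c0000000c 7 6) 0 0 (step_sound _ 195 [(rh2145e1d24b96a57e.shift 3 3), rhbc4118ca589e5aca] (by decide +kernel))
noncomputable def rh44faa36f5ef6f668 : CRef := CRef.mk (Pat.mk 0x140000001400000004000000000000000000000000 0xa0000001e00000037000000160000001c0000001e0000000e0000000a 7 6) 0 0 (step_sound _ 67 [(rh08c75accbceac6f3.shift 1 0), (rh209fff658f9e6bfa.shift 0 2), (rha0d97ddec4fdd57b.shift 2 0), (rheece6aff2001ab10.shift 2 0)] (by decide +kernel))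
noncomputable def rhc114113e733f2342 : CRef := CRef.mk (Pat.mk 0x100000001a0000000a00000000 0x380000003c000000f00000003b0000001e00000010 7 8) 0 0 (step_sound _ 132 [(rh5c5e593799055d58.shift 3 1), rh5cb93da93234a12a] (by decide +kernel))
noncomputable def rh49581607ba373f3d : CRef := CRef.mk (Pat.mk 0x1000000010000000140000001000000000 0x200000003000000010000000360000003e0000002f 7 6) 0 0 (step_sound _ 133 [(rh2f68792b6b779e96.shift 4 1), rhdef1137b3014024c] (by decide +kernel))
noncomputable def rhb41af2bc9e68be99 : CRef := CRef.mk (Pat.mk 0x80000000800000008000000180000000000000000 0xc0000000c0000001f0000007c0000000c0000000c 7 7) 0 0 (step_sound _ 34 [(rh79877ebd3ef475dd.shift 2 1), rh9849e7a3b9fff88d] (by decide +kernel))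
noncomputable def rh01b171d6c5859c8f : CRef := CRef.mk (Pat.mk 0x1a0000000a000000000000000000000000 0xe0000000f0000003b0000001e0000000e0000000400000004 7 6) 0 0 (step_sound _ 98 [rh05d04936b4a5e493, (rh5ec015d369888aae.shift 0 3)] (by decide +kernel))
noncomputable def rhea9aee0e86aaf6b9 : CRef := CRef.mk (Pat.mk 0x6800000000 0x3c000000ff000000fe 7 8) 0 0 (step_sound _ 36 [(rh185f35b8bd8ec37f.shift 1 0), rhc0e8f02ceab6dbde, (rhd52e3929053d9d5f.shift 2 0)] (by decide +kernel))
noncomputable def rh0664fee0f9c11c59 : CRef := CRef.mk (Pat.mk 0x1600000007000000010000000000000000 0xe0000000f0000003e00000036000000070000000d0000000c0000000c 7 6) 0 0 (step_sound _ 162 [(rh642e50382fd7f7a3.shift 1 0), (rhdceb5e6cd223697b.shift 0 2), (rhdf3015c1291f0d07.shift 0 1), (rhe2031cd839b38d08.shift 0 2)] (by decide +kernel))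
noncomputable def rh72f25b6b934b3bd9 : CRef := CRef.mk (Pat.mk 0x80000001c00000004000000040000000000000000 0x20000000780000001f000000f60000003e0000007800000020 7 8) 0 0 (step_sound _ 100 [(rh03ca9335106b34cd.shift 1 0), (rh3ce854f4a795c89f.shift 0 3), (rh9d7d16d264e8ffb3.shift 1 1), (rhc85aa36aca002f4f.shift 1 1)] (by decide +kernel))
noncomputable def rh294ac3ea1568105f : CRef := CRef.mk (Pat.mk 0x40000000e000000020000000000000000 0x4000000140000003c0000001f0000007a0000000800000008 7 7) 0 0 (step_sound _ 162 [(rh5c5e593799055d58.shift 1 2), rhe69ecbd8938ac080] (by decide +kernel))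
noncomputable def rh85d914f416377520 : CRef := CRef.mk (Pat.mk 0x2000000070000000100000000000000000 0x1f0000000fe000001f70000001000000010 7 9) 0 0 (step_sound _ 36 [(rh0aa7d1d25f792b56.shift 0 2), (rh71222050f2c63a3a.shift 4 0)] (by decide +kernel))
noncomputable def rhcd060d1ef43faa47 : CRef := CRef.mk (Pat.mk 0x200000007000000000 0x1e7000000fe000001e7 7 9) 0 0 (step_sound _ 35 [(rh5c4e3b9267338a4f.shift 3 0), rh708c3bc8fe2f3084, (rhec46bd5500c722c9.shift 2 1)] (by decide +kernel))
noncomputable def rhd5215fed8f58e94d : CRef := CRef.mk (Pat.mk 0x2000000020000000f000000000 0x200000002000000020000001bf000000fe0000000e 7 9) 0 0 (step_sound _ 71 [(rh33e738c4ed385b9f.shift 4 1), rha3299991d9536132] (by decide +kernel))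
noncomputable def rh04409af2dc0aea39 : CRef := CRef.mk (Pat.mk 0x2000000030000000f000000000000000000000000 0x140000001c0000001c0000001e0000001b0000000f000000060000000600000006 7 5) 0 0 (step_sound _ 131 [(rh33e738c4ed385b9f.shift 0 3), rh562b2101dbd20143] (by decide +kernel))
noncomputable def rh8458d8e5ffdb6347 : CRef := CRef.mk (Pat.mk 0x40000001c000000080000000000000000 0x1000000010000000740000003f0000001f0000000800000008 7 7) 0 0 (step_sound _ 35 [(rh364bbb610d92995c.shift 0 1), (rh7b1f1fb55310c477.shift 2 0)] (by decide +kernel))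
noncomputable def rhcfecd0915ef67407 : CRef := CRef.mk (Pat.mk 0x100000001000000070000000300000000 0x1e0000001f00000007000000070000000700000005 7 5) 0 0 (step_sound _ 129 [(rh2f68792b6b779e96.shift 0 1), rh3b7b266d689fbbaa] (by decide +kernel))
noncomputable def rh928f837b5797197a : CRef := CRef.mk (Pat.mk 0x40000001c0000000e 0x1c0000003c000000370000001f0000003e 7 6) 0 0 (step_sound _ 98 [(rh2145e1d24b96a57e.shift 2 0), rh98f018df1a2a3f1f] (by decide +kernel))
noncomputable def rh4b4f49e0c8373f1a : CRef := CRef.mk (Pat.mk 0x60000001a000000100000000000000000 0x60000001e0000003f0000000f00000007 7 6) 0 0 (step_sound _ 98 [rha0acaf2f21dde3aa, (rhe25b0a99195a5d59.shift 1 2)] (by decide +kernel))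
noncomputable def rh2b8735dad8b4064b : CRef := CRef.mk (Pat.mk 0x20000000300000002000000000000000000000000 0x50000000700000007000000030000000300000003000000030000000300000001 7 3) 0 0 (step_sound _ 65 [(rh1726a00b0a8befd0.shift 0 1), rh24b4f41f846cb1d8, (rh34126e62fae680d3.shift 0 2)] (by decide +kernel))
noncomputable def rh4565f7ce5ccc3278 : CRef := CRef.mk (Pat.mk 0x600000007000000010000000000000000 0xe0000000e0000003e0000003e000000070000000d0000000c0000000c 7 6) 0 0 (step_sound _ 162 [(rh642e50382fd7f7a3.shift 1 0), (rhe2031cd839b38d08.shift 0 2), (rhf74fde2ced99cbe2.shift 0 1)] (by decide +kernel))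
noncomputable def rh68b2d4d9ec21edc3 : CRef := CRef.mk (Pat.mk 0x2000000070000000180000001000000000 0xfe0000007f000000d8000000f000000060 7 8) 0 0 (step_sound _ 99 [(rh14b7f29a2029f50d.shift 0 2), (rh38cd9cf6c8e249d1.shift 2 0), (rhec46bd5500c722c9.shift 2 3)] (by decide +kernel))
noncomputable def rhade591e9b4645119 : CRef := CRef.mk (Pat.mk 0x1c000000070000000000000000000000000000000000000000 0x80000000c0000001c0000001c000000170000003e0000001e0000000e0000000e00000002 7 6) 0 0 (step_sound _ 130 [(rh215e11e099257d75.shift 2 3), (rh4f3c983e7b2d8da3.shift 1 0), (rhc6b4afa6ebd07226.shift 0 1)] (by decide +kernel))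
noncomputable def rhfd0f77fc3b6e8c63 : CRef := CRef.mk (Pat.mk 0x7000000000 0x3c000000ff000000fe 7 8) 0 0 (step_sound _ 35 [(rh185f35b8bd8ec37f.shift 1 0), rhc0e8f02ceab6dbde, (rhd52e3929053d9d5f.shift 2 0)] (by decide +kernel))
noncomputable def rh5690a93fc254799e : CRef := CRef.mk (Pat.mk 0x800000018000000100000001800000000 0x180000001c000001d6000000fc000001ef 7 9) 0 0 (step_sound _ 37 [rh3d164a09ad92dabc, (rh7137fe2c8900c160.shift 1 0), (rhd5979d9ced4acd89.shift 2 0), (rhde10baa3043a2b46.shift 3 0)] (by decide +kernel))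
noncomputable def rh20bf6a1c5aef056c : CRef := CRef.mk (Pat.mk 0x40000001c00000008000000000000000000000000 0xc0000000c0000000c0000003c0000000f000000060000000600000006 7 6) 0 0 (step_sound _ 194 [(rh2145e1d24b96a57e.shift 2 3), rh8eaac4b014231a3e] (by decide +kernel))
noncomputable def rhc6999b9898b5e47d : CRef := CRef.mk (Pat.mk 0x20000000300000007000000010000000000000000 0x50000000700000007000000070000001f0000001e00000002 7 5) 0 0 (step_sound _ 65 [rh15a1b6b82d9fd81f, (rh455c27449d64ea24.shift 0 1), (rhfc7c29d8e65d775f.shift 0 1)] (by decide +kernel))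
noncomputable def rhce3ef7fc368f94a2 : CRef := CRef.mk (Pat.mk 0x300000007000000010000000100000000 0x1d0000001f00000007000000070000000700000006 7 5) 0 0 (step_sound _ 33 [rh55afc6a59410cf00, rh921092b6ff72a9ee] (by decide +kernel))
noncomputable def rhcce8bdf75d493f1e : CRef := CRef.mk (Pat.mk 0xc0000001c000000040000000000000000 0x18000000780000001f0000001c0000001c0000001800000018 7 7) 0 0 (step_sound _ 163 [(rh5c5e593799055d58.shift 2 2), rhfc930f9bddd85f48] (by decide +kernel))
noncomputable def rh37e3871d9baf3220 : CRef := CRef.mk (Pat.mk 0x20000001c0000000000000000 0x8000000080000003b0000001f0000003300000010 7 6) 0 0 (step_sound _ 65 [rh0eadbca7f75f3bf3, (rh3244c3cc8379b070.shift 0 2)] (by decide +kernel))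
noncomputable def rhacae4c935bc52444 : CRef := CRef.mk (Pat.mk 0x20000001c0000000000000000 0x200000002000000330000003e0000003700000004 7 6) 0 0 (step_sound _ 65 [rh309ea988ccf3c5e8, (rh3244c3cc8379b070.shift 0 2)] (by decide +kernel))
noncomputable def rh820376ae52af4b66 : CRef := CRef.mk (Pat.mk 0x70000000000000000000000000 0x8000000ee000000ff0000003c0000001000000010 7 8) 0 0 (step_sound _ 99 [(rh4c622fddc53a5f99.shift 1 3), (rhafa5a7051d37b143.shift 2 0), (rhd2053798cf91e388.shift 0 2)] (by decide +kernel))
noncomputable def rh62f796724e7faac1 : CRef := CRef.mk (Pat.mk 0x8000000480000007800000000 0x140000007c0000007f000000fe000000780000007800000020 7 8) 0 0 (step_sound _ 131 [(rh5bd4bc0c2c48140c.shift 2 1), (rh73f605273a09a9d0.shift 3 1), rhb969fa8ba3b3fcbb, (rheac5ba6efd47d678.shift 1 0)] (by decide +kernel))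
noncomputable def rh1179999f0793a2a2 : CRef := CRef.mk (Pat.mk 0x800000048000000780000000000000000 0x7000000077000000ff00000078000000780000003000000030 7 8) 0 0 (step_sound _ 100 [(rh0010d4b44862a10d.shift 2 0), (rh6ac6befd8fa4f4b0.shift 3 0), rhb348d3f5a54aac3a, (rhd5f14d1bdeeb9b81.shift 2 0)] (by decide +kernel))
noncomputable def rh71adc9d976d8aff0 : CRef := CRef.mk (Pat.mk 0x2000000030000000200000000000000000000000000000000 0x5000000070000000700000002000000030000000300000007000000070000000700000001 7 3) 0 0 (step_sound _ 225 [(rh03dfdf12d5937476.shift 0 3), rhb3b1bbcc0d0fbf9e, (rhc85cc95794737cf7.shift 0 4)] (by decide +kernel))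
noncomputable def rh8f7fca54f783b579 : CRef := CRef.mk (Pat.mk 0x100000007000000020000000000000000 0xf0000001f00000007000000060000000600000006 7 5) 0 0 (step_sound _ 33 [rh7b1f1fb55310c477, rhe48f5c47be1f6e00] (by decide +kernel))
noncomputable def rhea1eabba50b57d7f : CRef := CRef.mk (Pat.mk 0x100000007000000030000000200000000 0x60000001e0000001f00000007000000070000000700000005 7 5) 0 0 (step_sound _ 129 [(rh5fa50b509d4ce753.shift 0 1), (rh84d1c02a8954c6a8.shift 0 1), rhedb5c0ef153ed839] (by decide +kernel))
noncomputable def rhdccce800e9843a20 : CRef := CRef.mk (Pat.mk 0x40000001c0000000800000000 0xe0000000f0000003c0000003c0000000f00000004 7 6) 0 0 (step_sound _ 130 [(rh2145e1d24b96a57e.shift 2 1), rhb08132e42e5c2e8b] (by decide +kernel))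
noncomputable def rh2ad644bf5d23d5ab : CRef := CRef.mk (Pat.mk 0x100000001c000000100000000000000000 0x20000000280000007f0000007f0000001c000000100000001000000010 7 7) 0 0 (step_sound _ 131 [(rh4e448da1f2ebc7c7.shift 2 0), (rh539635c43f092905.shift 0 2), (rhfc7c29d8e65d775f.shift 3 1)] (by decide +kernel))
noncomputable def rh0812c2a289e0a09c : CRef := CRef.mk (Pat.mk 0x40000001c0000000c0000000000000000 0x18000000180000001c0000001c0000001f0000007800000018 7 7) 0 0 (step_sound _ 35 [rh04b16b10eb37026a, (rh7b1f1fb55310c477.shift 2 0)] (by decide +kernel))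
noncomputable def rhc761e44cbdadbe4b : CRef := CRef.mk (Pat.mk 0x1e000000000000000000000000 0x20000003b0000003f000000070000000400000004 7 6) 0 0 (step_sound _ 132 [rh27f9cc92c916aa05, (rh33e738c4ed385b9f.shift 1 3)] (by decide +kernel))
noncomputable def rh7d7ed1d206442880 : CRef := CRef.mk (Pat.mk 0x4000000040000000c00000008000000000000000000000000 0x40000007c000000ff0000007f000000760000000600000004 7 8) 0 0 (step_sound _ 100 [(rh5c5a2014709044d0.shift 0 3), (rh97372b5dd791e302.shift 1 0), (rha1dfaa4b0e5164ad.shift 0 1), (rhc3525dd5b9dd89b5.shift 1 0)] (by decide +kernel))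
noncomputable def rh338daaecda3b02ca : CRef := CRef.mk (Pat.mk 0x80000000e000000080000000000000000 0xe0000001f0000003c0000000e0000000e0000000e0000000e 7 6) 0 0 (step_sound _ 130 [rh352d9399b5081eee, (rhf8d29f3cbeaf06f7.shift 1 0), (rhfc7c29d8e65d775f.shift 2 1)] (by decide +kernel))
noncomputable def rhd362a3747fc44bcb : CRef := CRef.mk (Pat.mk 0x180000001c00000000 0x200000002000000330000001f0000003f00000004 7 6) 0 0 (step_sound _ 33 [(rh53b3c253cb0c65f4.shift 0 1), rhdf596cee2362b2b5] (by decide +kernel))
noncomputable def rhe6107c9c48250bf9 : CRef := CRef.mk (Pat.mk 0x200000006000000020000000000000000 0x40000000700000007000000070000000600000006000000060000000600000004 7 3) 0 0 (step_sound _ 34 [(rh1148744b53f3df58.shift 0 1), (rh390a8df03c6c5a62.shift 1 0), (rh478c4cadbcd4e066.shift 1 0), rh707beaee57f52872] (by decide +kernel))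
noncomputable def rhd41ec00ee16f5a4a : CRef := CRef.mk (Pat.mk 0x2000000120000001e000000000000000000000000 0x90000000f0000001a0000001e0000003f0000001e0000001c 7 6) 0 0 (step_sound _ 65 [rhad8dd6be3da81651, (rheb0810cc63b001d8.shift 0 2)] (by decide +kernel))
noncomputable def rhaf3310e4b10c739b : CRef := CRef.mk (Pat.mk 0x2000000120000001e0000000000000000000000000000000000000000 0x1000000012000000120000001e0000003f0000003c000000380000003800000028 7 6) 0 0 (step_sound _ 132 [rh030b40c8527a16fb, (rhe25b0a99195a5d59.shift 1 4)] (by decide +kernel))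
noncomputable def rh5381369eacd58c71 : CRef := CRef.mk (Pat.mk 0x1000000080000000f00000000000000000000000000000000 0x140000001c0000001f0000000c0000000f0000001c0000001c0000001c00000010 7 5) 0 0 (step_sound _ 99 [rh01e96e5140c5755b, (rhe25b0a99195a5d59.shift 0 3)] (by decide +kernel))
noncomputable def rh4133cdac37559176 : CRef := CRef.mk (Pat.mk 0x2000000120000001e000000000000000000000000 0x40000000e0000001a0000001e0000003f0000003400000030 7 6) 0 0 (step_sound _ 65 [(rhd11d10d86b2f8859.shift 1 0), (rheb0810cc63b001d8.shift 0 2)] (by decide +kernel))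
noncomputable def rh60d58901f45aac7f : CRef := CRef.mk (Pat.mk 0x2000000120000001e00000000 0x1d0000001f0000001a0000001e00000033 7 6) 0 0 (step_sound _ 1 [rhc98846061407cbba, rheb0810cc63b001d8] (by decide +kernel))
noncomputable def rhe56bb198f542678f : CRef := CRef.mk (Pat.mk 0x2000000120000001e00000000 0x3d0000001f0000001a0000001e0000000b 7 6) 0 0 (step_sound _ 1 [rh445c5f9b767b987d, rheb0810cc63b001d8] (by decide +kernel))
noncomputable def rhafac329c7bc87869 : CRef := CRef.mk (Pat.mk 0x200000012000000020000000200000000 0x3d0000001f0000003a000000020000000300000001 7 6) 0 0 (step_sound _ 32 [rh932754581e0f4330, (rheb1fc97f3a2af76b.shift 0 1)] (by decide +kernel))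
noncomputable def rh067028b21ab6791a : CRef := CRef.mk (Pat.mk 0x200000012000000020000000200000000 0x3d0000001f0000003a000000020000000600000004 7 6) 0 0 (step_sound _ 34 [(rh55afc6a59410cf00.shift 1 0), (rheb1fc97f3a2af76b.shift 0 1)] (by decide +kernel))
noncomputable def rhaef1479805b3a8e2 : CRef := CRef.mk (Pat.mk 0x600000002000000020000000e00000000 0x300000003e0000003f0000007a0000001e0000000a 7 7) 0 0 (step_sound _ 98 [rh67b6d7f7c21ae307, (rh71222050f2c63a3a.shift 1 0)] (by decide +kernel))
noncomputable def rh5529ae54660529d9 : CRef := CRef.mk (Pat.mk 0x100000007000000020000000000000000 0x2000000060000001e0000001f00000007000000070000000600000006 7 5) 0 0 (step_sound _ 33 [rh7b1f1fb55310c477, rheaca61f7b6300775] (by decide +kernel))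
noncomputable def rhc2a23e5e6dab8244 : CRef := CRef.mk (Pat.mk 0x60000001c0000000800000000 0x2000000370000003e0000003e0000001c0000000f00000006 7 6) 0 0 (step_sound _ 130 [(rh2145e1d24b96a57e.shift 2 1), rha627acec9d629f35] (by decide +kernel))
noncomputable def rh0e902d11df755a17 : CRef := CRef.mk (Pat.mk 0x4000000070000000c00000000 0xa0000003f0000003f000000070000000c00000008 7 6) 0 0 (step_sound _ 130 [(rh2bfd20ad06a88b15.shift 0 1), (rh55afc6a59410cf00.shift 2 0)] (by decide +kernel))
noncomputable def rhb03fcaf8c86e521a : CRef := CRef.mk (Pat.mk 0x4000000070000000c0000000000000000000000000000000000000000 0xa0000001e000000070000000c0000000c0000000e0000000e0000000e00000008 7 5) 0 0 (step_sound _ 130 [(rh4017de503635a93b.shift 0 4), (rh8435f16c73c7f2d9.shift 1 0), (rhe286c75f2739cce2.shift 1 3)] (by decide +kernel))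
noncomputable def rhe58b7c65629e8c41 : CRef := CRef.mk (Pat.mk 0x80000001800000008000000100000000000000000 0x800000008000000180000003f0000003f0000000400000004 7 6) 0 0 (step_sound _ 98 [(rh281c6819542c66e6.shift 2 0), rhf3791e3fc6142e86, (rhfc69c8ab61af24a3.shift 0 2)] (by decide +kernel))
noncomputable def rhb9e389b6b17858ba : CRef := CRef.mk (Pat.mk 0xe000000180000000800000000 0x1c0000003c0000001e0000001b0000001f00000016 7 6) 0 0 (step_sound _ 100 [rh18d72f62729943e8, (rh5421160f8e9bcf07.shift 1 1)] (by decide +kernel))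
noncomputable def rh1960797d21bbc8cc : CRef := CRef.mk (Pat.mk 0x8000000180000001c000000100000000000000000 0x34000000fc0000001c0000001f000000180000000800000008 7 8) 0 0 (step_sound _ 96 [(rh24ae073cf30720c4.shift 0 3), (rh30761c8ae97067ff.shift 2 0)] (by decide +kernel))
noncomputable def rh799602d8fbd1f0c2 : CRef := CRef.mk (Pat.mk 0x180000001c000000100000001000000000 0x10000000180000001f0000001c000000fc0000002c 7 8) 0 0 (step_sound _ 35 [rh249fb3ed69219bce, (rh932754581e0f4330.shift 3 0)] (by decide +kernel))
noncomputable def rh3fbb9a3b6393b6aa : CRef := CRef.mk (Pat.mk 0x80000000800000008000000100000000000000000 0x800000008000000f80000007f000000ff0000000400000004 7 8) 0 0 (step_sound _ 100 [(rh2145e1d24b96a57e.shift 3 2), rh30799a62b75c23c9] (by decide +kernel))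
noncomputable def rh456fb08c25edc26b : CRef := CRef.mk (Pat.mk 0x200000006000000120000000000000000000000000000000000000000 0x400000007000000070000000700000006000000060000001e0000000300000003000000070000000700000005 7 5) 0 0 (step_sound _ 129 [(rh007baba6eba7b9ea.shift 0 4), (rha707fb719e87fe6e.shift 1 3), rhdb2600a847273fc5] (by decide +kernel))
noncomputable def rhae511df4588c50d6 : CRef := CRef.mk (Pat.mk 0x20000000600000002000000000000000000000000 0x4000000070000000700000007000000060000000600000002000000070000000700000005 7 3) 0 0 (step_sound _ 65 [(rh031124573f7c2f61.shift 0 1), rh6eff4158bb400f47, (rha707fb719e87fe6e.shift 1 1)] (by decide +kernel))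
noncomputable def rhed870e9f2bab57e0 : CRef := CRef.mk (Pat.mk 0x1e000000120000000200000000 0x30000000340000003f0000001e0000001a0000000e00000004 7 6) 0 0 (step_sound _ 129 [(rh3244c3cc8379b070.shift 0 3), (rh88688cfef49cfe9f.shift 1 0)] (by decide +kernel))
noncomputable def rheb946c77979c84e0 : CRef := CRef.mk (Pat.mk 0x1e000000120000000200000000 0x2800000038000000380000003c0000003f0000001e000000120000001200000010 7 6) 0 0 (step_sound _ 132 [(rh33e738c4ed385b9f.shift 1 3), rhcde5728f600bb6ff] (by decide +kernel))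
noncomputable def rh0416139b50d85f8d : CRef := CRef.mk (Pat.mk 0xf00000008000000000000000000000000 0x100000001c0000001c0000001c0000000f0000000c0000001c0000001c00000014 7 5) 0 0 (step_sound _ 163 [(rh33e738c4ed385b9f.shift 0 4), (rhafe97f46963dbce5.shift 2 0)] (by decide +kernel))
noncomputable def rh58cfa046bc21ec48 : CRef := CRef.mk (Pat.mk 0x1e000000120000000200000000 0xb0000001e0000001a0000001f0000003d 7 6) 0 0 (step_sound _ 129 [(rh3244c3cc8379b070.shift 0 3), rhb9831e53396f30f9] (by decide +kernel))
noncomputable def rhf8c1e55d716489bb : CRef := CRef.mk (Pat.mk 0x1e000000120000000200000000 0x330000001e0000001a0000001f0000001d 7 6) 0 0 (step_sound _ 129 [(rh3244c3cc8379b070.shift 0 3), rh358c3012ea04bddb] (by decide +kernel))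
noncomputable def rhcd6a33c8e94ad3b4 : CRef := CRef.mk (Pat.mk 0x200000002000000120000000200000000 0x400000006000000020000003a0000001f0000003d 7 6) 0 0 (step_sound _ 162 [(rhbaefcd01e0a8bca3.shift 1 1), rhcb3abe4c0241db1d] (by decide +kernel))
noncomputable def rhac706d001bdb10d3 : CRef := CRef.mk (Pat.mk 0x200000002000000120000000200000000 0x100000003000000020000003a0000001f0000003d 7 6) 0 0 (step_sound _ 128 [(rh50fbb5868c909700.shift 0 1), rhcb3abe4c0241db1d] (by decide +kernel))
noncomputable def rh9983496674e77058 : CRef := CRef.mk (Pat.mk 0xe00000002000000020000000600000000 0xa0000001e0000007a0000003f0000003e00000030 7 7) 0 0 (step_sound _ 66 [rh0d11a751507083cf, (rh2145e1d24b96a57e.shift 1 1)] (by decide +kernel))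
noncomputable def rh58315ac26307bf24 : CRef := CRef.mk (Pat.mk 0x4000000040000000e00000003000000000000000000000000 0xa0000000e0000000e0000000e0000003f0000003d0000000c00000004 7 6) 0 0 (step_sound _ 98 [(rh18b49738f4e5d343.shift 0 2), (rh2bf2743efa8a0379.shift 1 2), (rhdaa34f01e5e560a1.shift 1 0)] (by decide +kernel))
noncomputable def rh3d497ce94bfd3bc0 : CRef := CRef.mk (Pat.mk 0x400000006000000030000000000000000 0x300000003000000030000000600000006000000070000001f0000001f 7 5) 0 0 (step_sound _ 33 [(rh71222050f2c63a3a.shift 1 0), rh9551af2d9205c9fe] (by decide +kernel))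
noncomputable def rhc36420913778ecd3 : CRef := CRef.mk (Pat.mk 0x60000001c0000000400000000 0x20000000e0000000e0000000e00000006000000060000001c0000000f0000000a 7 5) 0 0 (step_sound _ 130 [(rh14e0829dc73b6804.shift 1 1), (rh72780865fc6287b5.shift 1 1), rhfbf2eae4035425b6] (by decide +kernel))
noncomputable def rh9dc1f021d5134051 : CRef := CRef.mk (Pat.mk 0x40000001c00000004000000000000000000000000 0x400000004000000040000001c0000007f0000007f0000001800000018 7 7) 0 0 (step_sound _ 99 [(rh55a1f6c57a317ce6.shift 2 1), rh701870544881cd13, (rhd188899883dd9128.shift 0 2)] (by decide +kernel))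
noncomputable def rhae923afead7067a1 : CRef := CRef.mk (Pat.mk 0x100000001c0000001000000000 0x20000000280000007f000000ff0000001c0000001000000010 7 8) 0 0 (step_sound _ 131 [rh5d36b24d3ac5a5d9, (rh616c75d1b5542aee.shift 3 1), (rhbec796c3ea7a32e6.shift 2 0), (rhc17a6a02773cc5f6.shift 3 0)] (by decide +kernel))
noncomputable def rha63b6180cfd6843d : CRef := CRef.mk (Pat.mk 0x70000000c000000040000000000000000 0xc0000003c0000000f0000000c0000001f0000007800000018 7 7) 0 0 (step_sound _ 67 [(rh3e595262c1b737ad.shift 2 1), rh8fd0ef559203cc11, (rhbc0bd9dbce3989d4.shift 0 2)] (by decide +kernel))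
noncomputable def rh1c82648f3f9180fe : CRef := CRef.mk (Pat.mk 0x20000000600000002000000000000000000000000 0x4000000070000000700000007000000060000000600000002000000070000000700000005 7 3) 0 0 (step_sound _ 65 [(rh007baba6eba7b9ea.shift 0 2), rh6eff4158bb400f47, (rha707fb719e87fe6e.shift 1 1)] (by decide +kernel))
noncomputable def rh59c4b101fdd8aec0 : CRef := CRef.mk (Pat.mk 0x120000001e00000002000000000000000000000000 0x28000000390000003f0000001f000000160000001e0000000a000000070000000700000005 7 6) 0 0 (step_sound _ 194 [(rh5fcbac5b57173fc5.shift 1 2), (rh956e257dd5ed2933.shift 0 3), rh984bfc6de6c2c524] (by decide +kernel))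
noncomputable def rh5d2a2d05f86d3f34 : CRef := CRef.mk (Pat.mk 0x1e000000000000000000000000 0x2000000030000003f0000003f0000000400000004 7 6) 0 0 (step_sound _ 68 [rh963770b8b25b3cfc, (rhe25b0a99195a5d59.shift 1 2)] (by decide +kernel))
noncomputable def rh18670ed04ae8c803 : CRef := CRef.mk (Pat.mk 0x100000001c00000010000000000000000000000000 0x1000000010000000100000001c0000007f0000007f0000002800000020 7 7) 0 0 (step_sound _ 99 [(rh121397a93ef3afd3.shift 2 2), (rh1e309b005ffa1b36.shift 3 1), rhcb6bcb73424f5111] (by decide +kernel))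
noncomputable def rhc32611c523f07a66 : CRef := CRef.mk (Pat.mk 0x800000008000000180000000800000000 0x340000007f0000003e000000180000001800000010 7 7) 0 0 (step_sound _ 36 [(rh55afc6a59410cf00.shift 3 0), (rhee4f0b4f01bb30f1.shift 0 1)] (by decide +kernel))
noncomputable def rh16963cdb05e86e47 : CRef := CRef.mk (Pat.mk 0x40000001c0000000400000000000000000000000000000000 0xa0000000f0000001c0000000c000000060000000e0000000e00000008 7 5) 0 0 (step_sound _ 98 [(rh039efe07c35de3d4.shift 0 3), (rha707fb719e87fe6e.shift 2 2), (rhcae287dd1526d47c.shift 1 0)] (by decide +kernel))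
noncomputable def rhce8418f891744ae1 : CRef := CRef.mk (Pat.mk 0x40000000c0000000e0000000000000000 0x180000007a0000001f0000003c0000000e0000000400000004 7 7) 0 0 (step_sound _ 100 [(rh18965a982d73c794.shift 1 2), rh1db4e06c25c4d4cf] (by decide +kernel))
noncomputable def rh9c15c2691ded3390 : CRef := CRef.mk (Pat.mk 0x40000001c0000000600000000 0xa0000000f0000003f0000001c0000000600000006 7 6) 0 0 (step_sound _ 130 [rh1df76c7e7b2d8de4, (rh932754581e0f4330.shift 1 0)] (by decide +kernel))
noncomputable def rh35f32ed507cf46ee : CRef := CRef.mk (Pat.mk 0x10000000100000001000000014 0x2f0000007e000000fe0000001400000014 7 8) 0 0 (step_sound _ 101 [(rh2f68792b6b779e96.shift 4 0), rhbd1eebb2c3ff6107] (by decide +kernel))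
noncomputable def rhc1df3a4500ee718f : CRef := CRef.mk (Pat.mk 0x20000001e00000002000000000000000000000000 0x4000000070000000700000007000000060000001e00000032000000070000000700000005 7 6) 0 0 (step_sound _ 100 [rhb44485453b2205d7, (rhe25b0a99195a5d59.shift 1 3)] (by decide +kernel))
noncomputable def rh25e75513bc4fd8c5 : CRef := CRef.mk (Pat.mk 0x1e000000180000000000000000 0xe0000000e0000000f0000001e0000001e000000fc00000014 7 8) 0 0 (step_sound _ 129 [(rh3244c3cc8379b070.shift 0 3), (rh48ff90d9265d40c7.shift 1 0)] (by decide +kernel))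
noncomputable def rhed1b3e7d9cb86123 : CRef := CRef.mk (Pat.mk 0x7800000000 0x3c0000007f000000e7 7 8) 0 0 (step_sound _ 6 [rhc3523e57029333dd, (rhe25b0a99195a5d59.shift 3 0)] (by decide +kernel))
noncomputable def rh6566cc310f2880c8 : CRef := CRef.mk (Pat.mk 0x800000038000000080000000000000000 0x1c0000001f0000003800000038000000380000003f0000003c 7 6) 0 0 (step_sound _ 132 [rh8a81244b44d96c38, rhe3f3463fe062b57f, (rhea7a1800d6f053bd.shift 3 0)] (by decide +kernel))
noncomputable def rh661fe68dbe17f4b8 : CRef := CRef.mk (Pat.mk 0x100000001e00000000 0x200000002000000330000001f0000003f00000004 7 6) 0 0 (step_sound _ 67 [(rh53b3c253cb0c65f4.shift 0 1), rhdf596cee2362b2b5] (by decide +kernel))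
noncomputable def rheebe79397c2082b4 : CRef := CRef.mk (Pat.mk 0x8000000080000001c0000003000000000 0x32000000320000007f0000007f0000003c0000003400000024 7 7) 0 0 (step_sound _ 98 [(rh18783cb2029772f7.shift 2 0), rh2c0c47a199c2e0fc, (rhe2b63c00a3d7bb73.shift 0 2)] (by decide +kernel))
noncomputable def rh32f5bb15faf383e7 : CRef := CRef.mk (Pat.mk 0x80000001c000000300000001000000000 0x140000001f0000003c000000380000003e0000002c 7 6) 0 0 (step_sound _ 130 [(rh8ee3ac1471aaf617.shift 1 0), (rhe2b63c00a3d7bb73.shift 0 3)] (by decide +kernel))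
noncomputable def rh529bdf5341925aff : CRef := CRef.mk (Pat.mk 0x2000000020000001e00000002000000000000000000000000 0x12000000320000001e0000003e0000001f0000000f00000001 7 6) 0 0 (step_sound _ 66 [rh57b6ae9e866a218e, (rhd3458b32566d63f7.shift 1 2)] (by decide +kernel))
noncomputable def rh3cba8956e58a8fe4 : CRef := CRef.mk (Pat.mk 0x2000000020000001e0000000200000000000000000000000000000000 0x20000000a0000001e0000003e0000001f0000003d0000003800000008 7 6) 0 0 (step_sound _ 98 [rhaf270dcbf6a42261, (rhd3458b32566d63f7.shift 1 3)] (by decide +kernel))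
noncomputable def rh57ec8334c221608b : CRef := CRef.mk (Pat.mk 0x2000000020000001e00000002 0x3d0000001f0000003a0000001e0000000a 7 6) 0 0 (step_sound _ 68 [(rh33e738c4ed385b9f.shift 1 1), rh445c5f9b767b987d] (by decide +kernel))
noncomputable def rh0d5042701e486d8e : CRef := CRef.mk (Pat.mk 0x2000000020000001e00000002 0x1d0000001f0000003a0000001e00000032 7 6) 0 0 (step_sound _ 4 [rh75f3e1b8421f5813, (rhe25b0a99195a5d59.shift 1 0)] (by decide +kernel))
noncomputable def rh5d21c53ada365dda : CRef := CRef.mk (Pat.mk 0x60000000c000000080000000000000000 0xa0000000e0000000c0000007c0000001f0000001e 7 7) 0 0 (step_sound _ 35 [(rh7b1f1fb55310c477.shift 2 0), rhba804b84dee47b97] (by decide +kernel))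
noncomputable def rhb94ffaf7a3105590 : CRef := CRef.mk (Pat.mk 0xe000000380000000000000000000000000000000000000000 0x1c0000003c0000000e000000380000007f0000003e0000001c0000001c00000004 7 7) 0 0 (step_sound _ 131 [(rh1a617df1a8e4b4ba.shift 0 2), (rh32a427049fd021cb.shift 2 0), (rh373667474aafa28f.shift 0 2), (rh53e5c1cd464022b3.shift 1 3), (rh9a699cd7f4dbed76.shift 0 1)] (by decide +kernel))
noncomputable def rhcef3b7d41a42b38e : CRef := CRef.mk (Pat.mk 0x80000001e00000018000000000000000000000000 0x40000000c0000001e0000001b0000001f0000001e0000000c 7 5) 0 0 (step_sound _ 68 [(rh7b1f1fb55310c477.shift 3 1), rhbe2baa205312da68] (by decide +kernel))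
noncomputable def rhf4037f8eb977016a : CRef := CRef.mk (Pat.mk 0x20000001e0000000000000000 0x100000007000000070000003e0000001e0000000700000006 7 6) 0 0 (step_sound _ 33 [rh85efd1e2f2c42ddd, (rheb0810cc63b001d8.shift 0 1)] (by decide +kernel))
noncomputable def rhd68aaf9d4475de1a : CRef := CRef.mk (Pat.mk 0x200000002000000070000000c0000000000000000 0xc0000003f00000007000000070000000f0000000b00000003 7 6) 0 0 (step_sound _ 32 [(rh06181a2dc624c6f8.shift 0 1), rhb44c1555a6ad8ac0, rhd5b92086fe7b06e3, rhdebc43b768884653] (by decide +kernel))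
noncomputable def rhe62a5c9ad4f6fb8c : CRef := CRef.mk (Pat.mk 0x1800000038000000000000000000000000 0x80000001c0000001f0000001f000000380000001c0000001c0000001c 7 6) 0 0 (step_sound _ 129 [rh53834f4c8bd2c639, (rhab22b5b56e7b3243.shift 1 3)] (by decide +kernel))
noncomputable def rhe124a32fd0dd9e34 : CRef := CRef.mk (Pat.mk 0xe0000001c0000000000000000 0xa0000000a0000007f0000007e0000001c0000001400000004 7 7) 0 0 (step_sound _ 131 [rh384f6f6296a2182e, (rh571950d89739e871.shift 2 1)] (by decide +kernel))
noncomputable def rh44b76bf554dd5ec3 : CRef := CRef.mk (Pat.mk 0xc0000001c0000000000000000 0x80000000a0000000f0000003c0000003c0000001600000006 7 6) 0 0 (step_sound _ 131 [(rh571950d89739e871.shift 2 1), rhdaf3ea57664bea8e] (by decide +kernel))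
noncomputable def rh6858b46ac3714a48 : CRef := CRef.mk (Pat.mk 0x1000000010000000380000001000000000 0xc0000001f0000001f000000380000001800000018 7 6) 0 0 (step_sound _ 35 [(rh932754581e0f4330.shift 3 0), rhfd0036212ace426a] (by decide +kernel))
noncomputable def rheebe87f7169f4165 : CRef := CRef.mk (Pat.mk 0x10000000100000003800000028000000000000000000000000 0x2c0000003f0000003f00000038000000fe000000d40000001000000010 7 8) 0 0 (step_sound _ 100 [(rh1c7350dbe55ddeca.shift 1 2), (rh229881a96a2b32fa.shift 3 0), (rh97ee4674338c15de.shift 1 2), (rhfd0036212ace426a.shift 0 2)] (by decide +kernel))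
noncomputable def rhba50068e9a3167f6 : CRef := CRef.mk (Pat.mk 0x40000000e000000080000000000000000 0x180000003c0000000e0000000f0000003c0000001c 7 6) 0 0 (step_sound _ 35 [rh4a3458baae28de85, (rh7b1f1fb55310c477.shift 2 0)] (by decide +kernel))
noncomputable def rhfc124062c85240e3 : CRef := CRef.mk (Pat.mk 0x2000000060000000e0000000400000000 0x140000003c0000003f0000003e0000000e0000000c00000008 7 6) 0 0 (step_sound _ 130 [(rh571950d89739e871.shift 1 1), rhc7b47f93266b0cfd, (rhed466165ef71abfa.shift 0 1)] (by decide +kernel))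
noncomputable def rha0c214e79698e8d9 : CRef := CRef.mk (Pat.mk 0xc0000001c000000000000000000000000 0x14000000370000003f0000001c0000000c0000000c0000000c 7 6) 0 0 (step_sound _ 129 [(rhb739f4f82bb681b4.shift 0 3), rhd95954340e2fbf38] (by decide +kernel))
noncomputable def rh06a4692ca3bc3224 : CRef := CRef.mk (Pat.mk 0x60000000e000000040000000000000000 0x30000000b0000003e0000001e0000003f0000001300000013 7 6) 0 0 (step_sound _ 161 [(rh2145e1d24b96a57e.shift 1 2), rhb7782adcbb03c7b7] (by decide +kernel))
noncomputable def rh73bb80ee521df000 : CRef := CRef.mk (Pat.mk 0x80000001c00000000000000000000000000000000 0x140000001c0000001c00000018000000180000003c0000007f0000003c0000001800000008 7 7) 0 0 (step_sound _ 195 [(rh68a777751bfeafdf.shift 2 3), (rh70e33bfdf511e144.shift 3 1), (rh79464e2b86481fa3.shift 2 0), (rh8e16ad693f79269c.shift 0 2)] (by decide +kernel))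
noncomputable def rh2352f5ac42a9bcc0 : CRef := CRef.mk (Pat.mk 0xc0000001c00000000 0x18000000180000007f0000007f0000001c00000018 7 7) 0 0 (step_sound _ 65 [rh8b3e23dc5e515904, (rhb739f4f82bb681b4.shift 0 1)] (by decide +kernel))
noncomputable def rh34faaa53eecaf592 : CRef := CRef.mk (Pat.mk 0x6800000000 0x1fc000000ff000000e0 7 9) 0 0 (step_sound _ 36 [(rh22b38309c56a80eb.shift 2 1), (rh2381ca26b8b38d1e.shift 2 0), rhc0e8f02ceab6dbde] (by decide +kernel))
noncomputable def rh49ea8cda4c968e6c : CRef := CRef.mk (Pat.mk 0x6800000000 0xfe000000ff0000003c 7 8) 0 0 (step_sound _ 36 [rh097a8214b5852d20, (rh4c622fddc53a5f99.shift 1 1), (rhaeebc73f5a9c796a.shift 2 0)] (by decide +kernel))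
noncomputable def rh1ad04fecc383d531 : CRef := CRef.mk (Pat.mk 0x1a0000000b000000000000000000000000 0x5000000070000000f0000000f0000001b0000000b0000000b0000000300000003 7 5) 0 0 (step_sound _ 161 [rh281c6819542c66e6, (rh7a7e08304268422e.shift 0 2), rha05f8e412b607849, (rhbbf076d3d71c4c1a.shift 0 2)] (by decide +kernel))
noncomputable def rh2dc7a3b2b419a286 : CRef := CRef.mk (Pat.mk 0x34000000140000000000000000 0x1c0000001e000000760000003c0000007f0000002a 7 7) 0 0 (step_sound _ 67 [rh1a61b61e3f367940, (rh5ec015d369888aae.shift 1 2)] (by decide +kernel))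
noncomputable def rhfe6aa8a30401d0ea : CRef := CRef.mk (Pat.mk 0x80000001a0000000a0000000800000000 0x40000000f0000001a0000000b0000001f00000017 7 5) 0 0 (step_sound _ 130 [rh38f0fb95a88aa8b6, (rh50fbb5868c909700.shift 2 1)] (by decide +kernel))
noncomputable def rh30c95b29b3f06d3c : CRef := CRef.mk (Pat.mk 0x100000001a0000000a000000000000000000000000 0x1800000018000000180000003b0000001e000000300000003000000030 7 6) 0 0 (step_sound _ 196 [(rh5c5e593799055d58.shift 3 3), rhea3d6ec7fa4706f6] (by decide +kernel))
noncomputable def rhb0550de9dd190266 : CRef := CRef.mk (Pat.mk 0x34000000140000001000000000000000000000000000000000 0x1400000034000000340000003f000000f8000000780000003800000028 7 8) 0 0 (step_sound _ 100 [(rh4484f1f6caa2756c.shift 2 2), (rh67d2d5a07ad83471.shift 3 1), (rh92775caef34f07f6.shift 2 2), (rha7d828196854930b.shift 0 2), (rhc94dfb5f501cb051.shift 3 0)] (by decide +kernel))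
noncomputable def rh2969ade003b41945 : CRef := CRef.mk (Pat.mk 0x80000001a000000020000000000000000 0x1000000030000000b0000001f0000003b0000001f0000003700000010 7 6) 0 0 (step_sound _ 129 [(rh052037c23179916b.shift 0 3), (rh46990448042cc692.shift 0 1), rhe63f804e7ce73b19] (by decide +kernel))
noncomputable def rhf8d89fdb850d7dcf : CRef := CRef.mk (Pat.mk 0x80000001a0000000200000000 0x40000000c0000000c0000000f0000003b0000001f0000001e 7 6) 0 0 (step_sound _ 35 [(rh60a781551e50bc18.shift 0 1), rhbf41a22f541fcd76, rhe907bfb2280a18a5] (by decide +kernel))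
noncomputable def rhc5c7e873ce3ac452 : CRef := CRef.mk (Pat.mk 0x40000000c000000070000000000000000000000000000000000000000 0x80000000c0000000c000000070000003e0000000c0000000e0000000e00000002 7 6) 0 0 (step_sound _ 130 [(rh4f3c983e7b2d8da3.shift 1 0), (rha707fb719e87fe6e.shift 2 3), (rhb0c6196f710d9a93.shift 0 3)] (by decide +kernel))
noncomputable def rhb31a464fd516bbd5 : CRef := CRef.mk (Pat.mk 0x1000000034000000040000000000000000 0xa0000000e0000001e0000003f00000076000000060000000600000002 7 7) 0 0 (step_sound _ 130 [rh01b3c1357dc39fe6, (rh052037c23179916b.shift 1 3), (rh519f933ad7bc219c.shift 1 1), (rhbe5703805fd7fa8f.shift 1 1), (rhd946de83b99086da.shift 1 1)] (by decide +kernel))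
noncomputable def rhb5dda433d625486e : CRef := CRef.mk (Pat.mk 0x8000000080000001a000000080000000000000000 0x18000000180000001c0000001f0000001b000000080000000800000008 7 5) 0 0 (step_sound _ 196 [(rhbaefcd01e0a8bca3.shift 3 2), rhebd59031dcdfd5d6] (by decide +kernel))
noncomputable def rh457396a08945569d : CRef := CRef.mk (Pat.mk 0x2000000120000000e00000000 0x50000000700000007000000320000001e00000033 7 6) 0 0 (step_sound _ 36 [(rh33e738c4ed385b9f.shift 1 1), rhd602d1b97db51e18] (by decide +kernel))
noncomputable def rh1184750508653d07 : CRef := CRef.mk (Pat.mk 0x4000000020000001a0000000a0000000000000000 0x1000000170000001f000000120000001a0000001a0000000800000008 7 5) 0 0 (step_sound _ 161 [(rh2f68792b6b779e96.shift 1 2), rha0caf797f3ff7416] (by decide +kernel))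
noncomputable def rh5dbd5f190139bd87 : CRef := CRef.mk (Pat.mk 0x800000068000000080000000000000000 0x4000000140000001c0000001c0000006c0000003f0000003800000010 7 7) 0 0 (step_sound _ 162 [rh05e0bcd2f4116389, (rh0dbc8abee7ad42d4.shift 2 1), (rh21ffa27e82a77d78.shift 2 0), (rhbab796f6dafe9186.shift 2 2)] (by decide +kernel))
noncomputable def rh47759ad27e4c4731 : CRef := CRef.mk (Pat.mk 0x1000000020000000200000002000000000000000000000000 0x500000007000000060000000200000002000000070000000700000005 7 3) 0 0 (step_sound _ 193 [(rh50fbb5868c909700.shift 0 3), rh95311890f436bcdc] (by decide +kernel))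
noncomputable def rh705eec3590f24f25 : CRef := CRef.mk (Pat.mk 0x20000001a0000000e000000000000000000000000 0x20000003a0000001e0000003f0000003400000030 7 6) 0 0 (step_sound _ 100 [(rh33e738c4ed385b9f.shift 1 3), rh8a44e44af3b52b57] (by decide +kernel))
noncomputable def rhbe784867873578cb : CRef := CRef.mk (Pat.mk 0x2000000020000000200000002 0x100000007000000070000000700000003000000030000000300000002 7 3) 0 0 (step_sound _ 129 [(rh1741680720c097b4.shift 0 1), rh3ca48e2a6d60153d, rh522f51b0ff72c680, (rhe01cfd8f0577defd.shift 0 1)] (by decide +kernel))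
noncomputable def rhb0951f9de6080990 : CRef := CRef.mk (Pat.mk 0x600000002000000020000000200000000000000000000000000000000 0x600000006000000030000000300000007000000070000000700000001 7 3) 0 0 (step_sound _ 97 [rhb86f8c359c5b8429, (rhbaefcd01e0a8bca3.shift 1 3)] (by decide +kernel))
noncomputable def rh4eba2b61da141a19 : CRef := CRef.mk (Pat.mk 0xa0000000a0000000800000004 0x500000007000000070000000a0000000a0000000e0000000e00000004 7 4) 0 0 (step_sound _ 34 [(rh5c5e593799055d58.shift 2 0), rh9aed1232c1216b82] (by decide +kernel))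
noncomputable def rhd3ceaa5f933816f7 : CRef := CRef.mk (Pat.mk 0x200000002000000020000001a 0x4000000070000000700000003000000060000000f0000001b 7 5) 0 0 (step_sound _ 128 [rh9323631ea85d900e, rhffd04209dc8ea796] (by decide +kernel))
noncomputable def rhdfb71b54c86a9936 : CRef := CRef.mk (Pat.mk 0x1a000000080000000800000000 0x140000001c0000001c0000001f0000003b000000180000001800000010 7 6) 0 0 (step_sound _ 131 [(rh20e56a1196e70fcc.shift 2 0), (rh6e4fe9c378beabca.shift 0 1), (rh7ab09f375cd5d482.shift 3 1)] (by decide +kernel))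
noncomputable def rh27bbbe5b8e1b7e9f : CRef := CRef.mk (Pat.mk 0x40000000c000000090000000000000000 0x8000000080000000c0000000c0000007f0000001f0000001e 7 7) 0 0 (step_sound _ 35 [(rh7b1f1fb55310c477.shift 2 0), rhd6a4414310581d00] (by decide +kernel))
noncomputable def rh56a48575f33fc819 : CRef := CRef.mk (Pat.mk 0x40000000c0000000900000000 0xe0000000f0000003c0000001c0000000f00000006 7 6) 0 0 (step_sound _ 130 [rh0d11766df30aeb49, (rh2145e1d24b96a57e.shift 2 1)] (by decide +kernel))
noncomputable def rh20911cf897c69891 : CRef := CRef.mk (Pat.mk 0x80000001a00000002000000000000000000000000 0x50000001d0000000f0000001f0000003b00000012000000070000000700000005 7 6) 0 0 (step_sound _ 161 [(rh052037c23179916b.shift 0 4), rhbd5aca5d260ddaa9, (rhbe5703805fd7fa8f.shift 0 2), (rhd946de83b99086da.shift 0 2)] (by decide +kernel))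
noncomputable def rh1a0dd3c509f76edb : CRef := CRef.mk (Pat.mk 0x80000001a00000002000000000000000000000000 0x500000007000000070000001f0000003b00000006000000070000000700000005 7 6) 0 0 (step_sound _ 161 [(rh052037c23179916b.shift 0 4), (rhbe5703805fd7fa8f.shift 0 2), (rhd946de83b99086da.shift 0 2), rhf1d1ac747eec4e14] (by decide +kernel))
noncomputable def rhc924e85500f168a3 : CRef := CRef.mk (Pat.mk 0xa0000001a00000002000000040000000000000000 0x8000000080000001a0000001a000000120000001f0000001700000001 7 5) 0 0 (step_sound _ 65 [(rh55afc6a59410cf00.shift 1 1), rh74c475c8b3a9da2d] (by decide +kernel))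
noncomputable def rh363eb4345dfae02f : CRef := CRef.mk (Pat.mk 0x40000000c00000009000000000000000000000000 0xe0000000f0000003e0000001c0000000f000000060000000600000006 7 6) 0 0 (step_sound _ 194 [(rh2145e1d24b96a57e.shift 2 3), rhaac461888f755c19] (by decide +kernel))
noncomputable def rh3a0ade51cf0870bd : CRef := CRef.mk (Pat.mk 0xa0000000a00000002000000000000000000000000 0x4000000040000000d0000000f0000001e0000000a0000000e0000000e0000000400000004 7 5) 0 0 (step_sound _ 66 [(rh2977b00063528966.shift 1 0), (rh82a1eb6dfea10329.shift 0 2), (rh91413b63662c8c12.shift 1 1), (rheece6aff2001ab10.shift 1 0)] (by decide +kernel))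
noncomputable def rh0403288e9a410579 : CRef := CRef.mk (Pat.mk 0x20000000a0000001a000000020000000000000000 0x10000000f0000001f0000000a0000001a0000001a0000001000000010 7 5) 0 0 (step_sound _ 162 [(rh2f68792b6b779e96.shift 1 2), rh4017251efac0244d] (by decide +kernel))
noncomputable def rh932a75c6d278b7e1 : CRef := CRef.mk (Pat.mk 0x40000000a0000001a000000020000000000000000 0x10000000f0000001f0000000a0000001a0000001a0000001000000010 7 5) 0 0 (step_sound _ 161 [(rh2f68792b6b779e96.shift 1 2), rh4017251efac0244d] (by decide +kernel))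
noncomputable def rh15aa5e843f48a9d0 : CRef := CRef.mk (Pat.mk 0x40000000e000000080000000000000000 0x400000014000000360000001e0000003b0000000a0000000a 7 6) 0 0 (step_sound _ 162 [(rh2145e1d24b96a57e.shift 2 2), rh96c7f707bea99b74] (by decide +kernel))
noncomputable def rh8c1ee0d974c70140 : CRef := CRef.mk (Pat.mk 0xe0000000a000000000000000000000000 0x1800000018000000380000001e0000003b000000300000003000000030 7 6) 0 0 (step_sound _ 132 [(rhb82c892115b12889.shift 1 0), (rheb0810cc63b001d8.shift 0 3)] (by decide +kernel))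
noncomputable def rh849ac401f514375e : CRef := CRef.mk (Pat.mk 0x4000000040000000e0000000a 0x180000003c000000370000001e0000003b 7 6) 0 0 (step_sound _ 36 [rheb0810cc63b001d8, rhfe8763e059bbd621] (by decide +kernel))
noncomputable def rh89c1e6298b045c49 : CRef := CRef.mk (Pat.mk 0x80000001c000000100000000000000000 0x20000000220000007e0000003c000000760000003e0000001f 7 7) 0 0 (step_sound _ 36 [rh1c67e5b3f9deaae5, (rh7b1f1fb55310c477.shift 3 0)] (by decide +kernel))
noncomputable def rhca18b078a5ac2818 : CRef := CRef.mk (Pat.mk 0xe0000000800000000000000000000000000000000 0x800000008000000780000001f0000000e0000007c0000001c0000001c00000004 7 7) 0 0 (step_sound _ 195 [(rh4d72501e9a1677d5.shift 1 0), (rha11dfd15f08f96e3.shift 0 5)] (by decide +kernel))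
noncomputable def rh2f56381da8a4db48 : CRef := CRef.mk (Pat.mk 0xc0000000c000000040000000000000000 0xc0000000c0000003e0000007f0000001e 7 7) 0 0 (step_sound _ 34 [rh53a826bce8ba335b, (rh71222050f2c63a3a.shift 2 0)] (by decide +kernel))
noncomputable def rh5753bc690dc6a0be : CRef := CRef.mk (Pat.mk 0x1800000070000000100000000000000000 0x6000000068000000ec000000f80000007f000000f00000006000000020 7 8) 0 0 (step_sound _ 99 [(rhce71534e51e0a15e.shift 2 0), (rhd0412b58ec137e9d.shift 2 1), (rhe4bcf77fb379312d.shift 2 2), (rhe74f96057964b96f.shift 0 2)] (by decide +kernel))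
noncomputable def rha2e5125cc8a3c4e0 : CRef := CRef.mk (Pat.mk 0xc0000000700000000000000000000000000000000 0xa0000000e0000000e0000003c000000070000003e0000000e0000000e0000000a 7 6) 0 0 (step_sound _ 164 [(rh18965a982d73c794.shift 1 4), rh274af268928ab1aa] (by decide +kernel))
noncomputable def rh4e1f59917c360f0f : CRef := CRef.mk (Pat.mk 0x1a0000000e000000040000000000000000 0x400000004000000340000001e0000000e0000000f0000003e0000000e 7 6) 0 0 (step_sound _ 34 [(rh71222050f2c63a3a.shift 2 0), rh93cd3876ecb74842] (by decide +kernel))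
noncomputable def rh447e1124fa5c0f95 : CRef := CRef.mk (Pat.mk 0x100000001c00000008000000000000000000000000 0x100000003f0000007e000000f80000003800000038 7 8) 0 0 (step_sound _ 100 [(rh1884d079e27942be.shift 1 0), (rh6292bd8784ece55f.shift 1 3), rh74d7a1840536e62c] (by decide +kernel))
noncomputable def rhf7545a1129b09f78 : CRef := CRef.mk (Pat.mk 0x10000000140000001c0000000800000000 0x28000000780000001c0000001f0000007c00000034 7 7) 0 0 (step_sound _ 36 [rh0f98cf88c6b784e8, (rh42afa1af9fffa0e1.shift 2 0)] (by decide +kernel))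
noncomputable def rh6aece017f1932e5c : CRef := CRef.mk (Pat.mk 0x100000001c00000010000000000000000000000000 0x10000000100000001c0000007f0000007f0000002800000020 7 7) 0 0 (step_sound _ 99 [(rh1bcac5affc534ecf.shift 0 2), (rh1e309b005ffa1b36.shift 3 1), rhcb6bcb73424f5111] (by decide +kernel))
noncomputable def rhdc8acfffae2db35e : CRef := CRef.mk (Pat.mk 0x20000001e00000002000000000000000000000000 0x300000003000000060000001e0000003e000000070000000700000002 7 6) 0 0 (step_sound _ 100 [rh462fe2fb006bc1ed, (rhe25b0a99195a5d59.shift 1 3)] (by decide +kernel))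
end Crest.Agent.S0047.Helper85.Cert
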