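import Crest.Agent.Lib.S0047.Helper85CertPL7F0
import Crest.Agent.Lib.S0047.Helper85CertPL7F1
import Crest.Agent.Lib.S0047.Helper85CertPL7F2
import Crest.Agent.Lib.S0047.Helper85CertPL7F3
import Crest.Agent.Lib.S0047.Helper85CertPL7F4
import Crest.Agent.Lib.S0047.Helper85CertPL7F5
import Crest.Agent.Lib.S0047.Helper85CertPL7F6
import Crest.Agent.Lib.S0047.Helper85CertPL7F7
import Crest.Agent.Lib.S0047.Helper85CertPL7F8
import Crest.Agent.Lib.S0047.Helper85CertPL7F9
import Crest.Agent.Lib.S0047.Helper85CertPL7F10
import Crest.Agent.Lib.S0047.Helper85CertPL7F11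
set_option autoImplicit false
set_option linter.all false
set_option Elab.async false
namespace Crest.Agent.S0047.Helper85.Cert
open Crest.Agent.S0047.Helper85

noncomputable def rhfe52f574cf77969c : CRef := CRef.mk (Pat.mk 0x70000000000000004000000000000000000000000 0xa0000000e0000000e0000001e000000070000000e0000000e0000000e0000000e0000000a 8 5) 0 0 (step_sound _ 130 [(rh0a6888916bcef86b.shift 1 0), (rh784876c95d58a29a.shift 1 1), (rh7b24c4ccc068b0b2.shift 1 2), (rhd5cca885b01fff10.shift 0 2)] (by decide +kernel))
noncomputable def rh77f0c65b1d51d92f : CRef := CRef.mk (Pat.mk 0x80000000e000000000 0x18e000000fe0000007f 8 9) 0 0 (step_sound _ 36 [rh19a8ecb481294573, (rh33e738c4ed385b9f.shift 4 1)] (by decide +kernel))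
noncomputable def rh1f6c49886d748c9d : CRef := CRef.mk (Pat.mk 0x2000000080000000e00000004 0x7b0000003e0000007e0000000e00000004 8 7) 0 0 (step_sound _ 129 [rh9aa8b9ad63c86b68, (rhff0f29cb645b05f7.shift 1 0)] (by decide +kernel))
noncomputable def rh1eee7122191a30c3 : CRef := CRef.mk (Pat.mk 0x2000000180000000c00000000 0x100000001c0000001c0000001c0000001f000000780000000c00000004 8 7) 0 0 (step_sound _ 69 [(rh18965a982d73c794.shift 2 1), rh2ae58a958b8aec11] (by decide +kernel))
noncomputable def rh2ad16b965e9d69db : CRef := CRef.mk (Pat.mk 0xe000000080 0x7f000000fe0000018f 8 9) 0 0 (step_sound _ 36 [rhcfb90d20d31fbd05, (rhe25b0a99195a5d59.shift 4 0)] (by decide +kernel))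
noncomputable def rh88f1069cb237f708 : CRef := CRef.mk (Pat.mk 0x1e0000001e 0x3e0000003e000000370000001e0000001e 8 6) 0 0 (step_sound _ 68 [(rh33e738c4ed385b9f.shift 1 1), rh393af85eda76ca1d] (by decide +kernel))
noncomputable def rha09abd6e963616ae : CRef := CRef.mk (Pat.mk 0x600000000000000060000000000000000000000000000000000000000 0x500000007000000070000000600000002000000060000000600000007000000070000000700000004 8 3) 0 0 (step_sound _ 193 [(rh215e11e099257d75.shift 1 4), (rh70e33bfdf511e144.shift 1 2), rhf8a5cc8781f6c852, (rhfb9fb48a5e63ed80.shift 0 4)] (by decide +kernel))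
noncomputable def rh55f6d01c20c1cddb : CRef := CRef.mk (Pat.mk 0x80000000c0000000c 0x1f0000001f0000007b0000001f0000000c 8 7) 0 0 (step_sound _ 99 [rh17eb382d51a2da5b, (rh5c5e593799055d58.shift 2 0)] (by decide +kernel))
noncomputable def rh62b60545e4f8c584 : CRef := CRef.mk (Pat.mk 0x80000001800000018 0x3c0000007c0000006f0000007c00000018 8 7) 0 0 (step_sound _ 99 [(rh2145e1d24b96a57e.shift 3 0), rh5b8eefcc57d56f3a] (by decide +kernel))
noncomputable def rhd3f8932cb9a4e53c : CRef := CRef.mk (Pat.mk 0x1000000050000000700000000000000000 0x2f0000003e00000077000000700000003e00000008 8 7) 0 0 (step_sound _ 36 [(rh565169fdbcfbf9eb.shift 0 1), (rh852e818bc8629e77.shift 1 0)] (by decide +kernel))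
noncomputable def rhc5a5a2069e61bda6 : CRef := CRef.mk (Pat.mk 0x100000001c00000018000000000000000000000000 0x4000000140000001c0000007f0000007f0000002a00000022 8 7) 0 0 (step_sound _ 67 [(rh71222050f2c63a3a.shift 3 1), rhb7370d61f34c1837] (by decide +kernel))
noncomputable def rhf0e16192053cae6a : CRef := CRef.mk (Pat.mk 0x50000000100000001800000000 0x2f0000003e00000077000000100000001800000008 8 7) 0 0 (step_sound _ 132 [(rh09239ae6bbb8f776.shift 0 1), (rh932754581e0f4330.shift 3 0)] (by decide +kernel))
noncomputable def rh270647afd5b5c1fd : CRef := CRef.mk (Pat.mk 0x1000000014000000100000002000000000 0x1400000014000001de000000fe000001ef 8 9) 0 0 (step_sound _ 36 [(rh55afc6a59410cf00.shift 4 0), rhdf735d13e6d20c50] (by decide +kernel))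
noncomputable def rhbdd2bab514871eac : CRef := CRef.mk (Pat.mk 0x30000000140000001000000000 0x200000003800000038000000380000003000000030000000360000003e0000002f 8 6) 0 0 (step_sound _ 132 [rh4ef08985abf3d83f, (rha087c6594f4bfb59.shift 3 0), (rhd4fce4f58f6374a0.shift 3 1), (rhdcad673cf80944f9.shift 3 0)] (by decide +kernel))
noncomputable def rh476fd648740bfe4a : CRef := CRef.mk (Pat.mk 0x1000000000000000100000001800000000 0x2f000000fe000000ff000000100000001800000008 8 8) 0 0 (step_sound _ 100 [(rh6866f8109e430b25.shift 0 1), (rh932754581e0f4330.shift 3 0)] (by decide +kernel))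
noncomputable def rh7880d85762223a39 : CRef := CRef.mk (Pat.mk 0x78000000000000000000000008 0x1c0000001c0000001f0000003c000000780000000c0000000800000008 8 7) 0 0 (step_sound _ 67 [rhcd7efbfbe2aae807, (rheb0810cc63b001d8.shift 2 2)] (by decide +kernel))
noncomputable def rh2c2857be09221fa2 : CRef := CRef.mk (Pat.mk 0x1e00000000 0x400000007000000070000000f0000003f0000001e00000007 8 6) 0 0 (step_sound _ 65 [(rh3244c3cc8379b070.shift 0 1), rh6e7775e16bb199db] (by decide +kernel))
noncomputable def rha937f8d425970aac : CRef := CRef.mk (Pat.mk 0x8000000300000001200000012000000100000000000000000 0x5000000070000000f0000001f0000003300000013000000130000003f0000000f00000005 8 6) 0 0 (step_sound _ 193 [(rh7664c0268a2a7089.shift 0 1), rh832bfc5bb1da7c5c, (rha0038b646a484065.shift 1 3)] (by decide +kernel))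
noncomputable def rh3dac4abfd688f463 : CRef := CRef.mk (Pat.mk 0x1000000010000000500000000000000000 0x80000001800000018000000100000007f0000003e0000002f 8 7) 0 0 (step_sound _ 36 [rh333ab359bc9d6b4c, (rh771d065bdc85bf2d.shift 3 0), (rh7eb4a07d72ad7934.shift 3 0)] (by decide +kernel))
noncomputable def rhc8c8ca90955b904b : CRef := CRef.mk (Pat.mk 0x800000008000000080000000800000000 0x40000000c0000000c0000003f0000003f00000017 8 6) 0 0 (step_sound _ 34 [rh06cf26177c5687fa, (rh932754581e0f4330.shift 2 0)] (by decide +kernel))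
noncomputable def rha073318917eadebc : CRef := CRef.mk (Pat.mk 0x4000000240000001400000000 0x20000000e0000000e0000000e0000000600000006000000370000001e0000000a 8 6) 0 0 (step_sound _ 130 [(rh0f5f1b59b141efbf.shift 1 0), (rh193da7fc9e1674f1.shift 1 0), rh73ba6c579e4b229a, (rhd64e30a9b5595dfb.shift 1 1)] (by decide +kernel))
noncomputable def rh3aceeb9848294860 : CRef := CRef.mk (Pat.mk 0x400000022000000020000001a000000120000000300000000 0x40000001e0000007b0000001b0000001a0000001a0000000f00000004 8 7) 0 0 (step_sound _ 34 [(rh008bc3a0881c8f8e.shift 0 1), (rh55afc6a59410cf00.shift 1 0)] (by decide +kernel))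
noncomputable def rh019bbf4e10c92149 : CRef := CRef.mk (Pat.mk 0x22000000020000001a00000012 0x1000000070000001f0000007e0000001a0000001a00000012 8 7) 0 0 (step_sound _ 130 [rh95f3535201325cfa, (rhbaefcd01e0a8bca3.shift 1 0)] (by decide +kernel))
noncomputable def rh6e2b005ff3c88caa : CRef := CRef.mk (Pat.mk 0x20000000020000001a0000001200000002 0x40000001f0000007f0000001b0000001a0000001200000002 8 7) 0 0 (step_sound _ 128 [(rhf5fc030d19d0255c.shift 0 1), rhffd04209dc8ea796] (by decide +kernel))
noncomputable def rh2cb1a5859571c059 : CRef := CRef.mk (Pat.mk 0x2000000002000000220000001a000000120000000100000000 0x3d0000001f0000003a0000001a0000001a0000000f00000005 8 6) 0 0 (step_sound _ 33 [rh932754581e0f4330, rhbd19a27b033329bc] (by decide +kernel))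
noncomputable def rh66d68e1b48fd06fa : CRef := CRef.mk (Pat.mk 0x2000000020000001200000003000000000 0x100000003000000030000001bf000000fe0000004e 8 9) 0 0 (step_sound _ 38 [(rh55afc6a59410cf00.shift 5 0), rhd79f39cc52d1df34] (by decide +kernel))
noncomputable def rhc72aca1629e66c02 : CRef := CRef.mk (Pat.mk 0x80000000c80000004800000048000000000000000000000000 0x80000000840000008c000000cc00000068000000ff0000003c0000001c00000014 8 8) 0 0 (step_sound _ 231 [(rh5c5e593799055d58.shift 6 4), rh8f8d4b58284cf663] (by decide +kernel))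
noncomputable def rh8aa509b8367791f1 : CRef := CRef.mk (Pat.mk 0x2000000008000000000000000200000002000000020000000000000000 0x1000000070000003f0000001f000000030000000300000003000000030000000300000001 8 6) 0 0 (step_sound _ 161 [(rh193da7fc9e1674f1.shift 0 1), (rh4b86d6c07933485e.shift 0 2), rh6aa5625770489e83, (rh771d065bdc85bf2d.shift 0 1), (rh79e47392fd96ea81.shift 0 1), (rhd64e30a9b5595dfb.shift 0 2)] (by decide +kernel))
noncomputable def rh8603dc7c7820c13d : CRef := CRef.mk (Pat.mk 0x80000002000000032000000120000001200000000 0x40000003f0000003f00000023000000330000001b0000001f00000005 8 6) 0 0 (step_sound _ 129 [(rh569aee9b78b5dc6e.shift 0 1), rh771d065bdc85bf2d, rh7ec945f88b66a691, rhacb8cae8858f8b17] (by decide +kernel))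
noncomputable def rhc1eb7c765f88eeb4 : CRef := CRef.mk (Pat.mk 0x20000001a0000000200000000 0x100000007000000070000000700000003000000030000001b0000000f00000005 8 5) 0 0 (step_sound _ 129 [rh36e6bb6cca6188da, (rhd64e30a9b5595dfb.shift 0 1)] (by decide +kernel))
noncomputable def rh0363733e431156c8 : CRef := CRef.mk (Pat.mk 0x20000000200000002000000020000000000000000 0x100000007000000070000000700000003000000030000000300000003000000030000000200000002 8 3) 0 0 (step_sound _ 193 [(rh3ca48e2a6d60153d.shift 0 2), rh5baa46239919fe38, (rh771d065bdc85bf2d.shift 0 2), (rhd64e30a9b5595dfb.shift 0 3)] (by decide +kernel))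
noncomputable def rheee6015668ddef99 : CRef := CRef.mk (Pat.mk 0x1e00000004 0x70000000f0000003f0000001e00000007 8 6) 0 0 (step_sound _ 65 [(rh3244c3cc8379b070.shift 0 1), rh48e99bdd43c23dfe] (by decide +kernel))
noncomputable def rh2d2d036056a48433 : CRef := CRef.mk (Pat.mk 0x2000000030000000240000002000000000 0x100000003000000030000000360000007e0000005f 8 7) 0 0 (step_sound _ 132 [rh08fe4a1279355696, (rh50fbb5868c909700.shift 4 1)] (by decide +kernel))
noncomputable def rhd4fbc3dcb9085c11 : CRef := CRef.mk (Pat.mk 0x18000000100000001000000000000000000000000000000000 0x1800000018000000ff000000fe0000003f0000003800000028 8 8) 0 0 (step_sound _ 100 [(rh21574c04c88fbf88.shift 0 2), (rha613ffd40b6c9d24.shift 3 1), (rhc05d451ce3dd5e48.shift 3 0), (rhe4441baab75a6f73.shift 3 1)] (by decide +kernel))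
noncomputable def rh4e3ed8c1482d7e7e : CRef := CRef.mk (Pat.mk 0x6800000008000000000000000000000000 0x40000001c0000001c0000003c0000000f0000007c0000000c0000001c0000001c00000014 8 7) 0 0 (step_sound _ 163 [(rh01e48cd9f335aa73.shift 2 3), (rh8b24269fce9ae942.shift 2 2), (rhd634e9ad7050dba7.shift 0 1), (rhf59657c8f752e82c.shift 2 0)] (by decide +kernel))
noncomputable def rhc4ae21f60a70ce38 : CRef := CRef.mk (Pat.mk 0x78000000000000000000000000 0x180000001c000000780000003c0000001f0000001c 8 7) 0 0 (step_sound _ 67 [rh57c72e6edf5f5bef, (rheb0810cc63b001d8.shift 2 2)] (by decide +kernel))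
noncomputable def rh3ec7b1d0b03b3028 : CRef := CRef.mk (Pat.mk 0x1e000000000000000000000000 0x280000003800000038000000380000001e0000003b0000001800000008 8 6) 0 0 (step_sound _ 68 [rh26da079c2f18b961, (rhe25b0a99195a5d59.shift 1 2)] (by decide +kernel))
noncomputable def rhb8620f1503af0376 : CRef := CRef.mk (Pat.mk 0xf0000000000000000000000000000000000000000 0xc0000000c0000001c0000000f0000001c0000001c0000001c0000001c00000014 8 5) 0 0 (step_sound _ 131 [(rhe25b0a99195a5d59.shift 0 4), rheeba24856b08a1dd] (by decide +kernel))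
noncomputable def rha683599be3e69071 : CRef := CRef.mk (Pat.mk 0xf000000000 0x1ce000000fe00000077 8 9) 0 0 (step_sound _ 71 [(rh33e738c4ed385b9f.shift 4 1), rhecc2f590e920be22] (by decide +kernel))
noncomputable def rh0aaff76dd8790323 : CRef := CRef.mk (Pat.mk 0x100000001e00000000000000000000000000000000 0x3000000030000000180000001e0000003f000000380000003800000018 8 6) 0 0 (step_sound _ 100 [rh166de8b4ce42e660, (rhe25b0a99195a5d59.shift 1 3)] (by decide +kernel))
noncomputable def rhff8d7321d3ecd888 : CRef := CRef.mk (Pat.mk 0x1e00000004 0x70000000f0000003f0000001e00000007 8 6) 0 0 (step_sound _ 65 [(rh3244c3cc8379b070.shift 0 1), rhfdf26b31a8a6b28f] (by decide +kernel))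
noncomputable def rh98f33d63be3590fc : CRef := CRef.mk (Pat.mk 0x3c00000002000000200000003800000000 0x640000003e00000003000000630000003e00000067 8 7) 0 0 (step_sound _ 34 [(rh33e738c4ed385b9f.shift 2 1), rh6b6d833c3b0d509a] (by decide +kernel))
noncomputable def rh1cb08dfdea594a4c : CRef := CRef.mk (Pat.mk 0x1e0000001a000000000000000000000000 0x3e0000001e0000003f0000000f00000007 8 6) 0 0 (step_sound _ 98 [(rh18965a982d73c794.shift 1 3), rhe48bac672b5ffde1] (by decide +kernel))
noncomputable def rhcf82f26a8102c560 : CRef := CRef.mk (Pat.mk 0xe0000000200000000000000000 0x1000000010000001de000000fe0000003f0000002000000020 8 9) 0 0 (step_sound _ 100 [(rh04e2f6df131e4749.shift 0 2), (rh15b856e33c69f807.shift 1 2), (rh5c160883f28e43e1.shift 2 2), (rhaa738e8eddf7e18b.shift 3 0)] (by decide +kernel))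
noncomputable def rhfc9dd66c322241be : CRef := CRef.mk (Pat.mk 0x40000000e0000000a00000002000000000 0x1000000010000000ff000000fe000000a7000000a000000080 8 8) 0 0 (step_sound _ 39 [(rh7b1f1fb55310c477.shift 6 0), (rhbcc9514a225d3baa.shift 0 1)] (by decide +kernel))
noncomputable def rh8a9298f2a4f03702 : CRef := CRef.mk (Pat.mk 0x100000001c000000140000001000000000 0x8000000380000003800000038000000180000001f000000140000003400000024 8 6) 0 0 (step_sound _ 37 [(rh55afc6a59410cf00.shift 4 0), rh581d8032ca75627d] (by decide +kernel))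
noncomputable def rh26e4b8188f39da75 : CRef := CRef.mk (Pat.mk 0x7000000000 0x7ff000007fe00000707 8 11) 0 0 (step_sound _ 39 [(rh45f730bcf36fcf64.shift 3 0), (rh4c622fddc53a5f99.shift 2 1), rh55b3c0081173592a, (rh757e1def9d4f67d9.shift 3 0), (rhb18e6c78a554867d.shift 3 1)] (by decide +kernel))
noncomputable def rh259ee2e7b51c1b63 : CRef := CRef.mk (Pat.mk 0x220000001e00000014000000000000000800000000 0x620000003e00000014000000f40000007e000000ff 8 8) 0 0 (step_sound _ 133 [(rh33e738c4ed385b9f.shift 2 4), rh9d17c577c59b9567] (by decide +kernel))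
noncomputable def rh7c1981faeaf0940f : CRef := CRef.mk (Pat.mk 0x200000000000000010000000100000001000000000 0x200000003000000010000000ff000000fe0000002f 8 8) 0 0 (step_sound _ 132 [rh21574c04c88fbf88, (rhbaefcd01e0a8bca3.shift 4 1)] (by decide +kernel))
noncomputable def rh6326ce91c1ffd1d0 : CRef := CRef.mk (Pat.mk 0x1000000010000000100000000000000000000000000000000000000000 0x200000003000000038000000ff000000fe0000003f000000380000003800000028 8 8) 0 0 (step_sound _ 132 [(rh61cedbc46ecc4102.shift 0 3), (rh6c59ce14113da07f.shift 4 2), (rh8cdd36b03d57a2f6.shift 3 2), (rhc13e880241b5adb7.shift 3 0)] (by decide +kernel))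
noncomputable def rh6330463fb5067672 : CRef := CRef.mk (Pat.mk 0x400000004000000040000000000000000000000000000000000000000 0x40000000e0000000f0000003e0000000f0000000e0000000e0000000e00000008 8 6) 0 0 (step_sound _ 130 [(rh7133a7a78d762f91.shift 0 3), (rh8cdd36b03d57a2f6.shift 1 2), (rhd8df402186ea5d9d.shift 0 2), (rhe84e00c98653ad0c.shift 1 1), (rhecb5030495b54322.shift 1 0)] (by decide +kernel))
noncomputable def rh76d4e9baa312c343 : CRef := CRef.mk (Pat.mk 0x1c000000140000000000000000 0x280000002a0000007f0000007c000000140000001400000014 8 7) 0 0 (step_sound _ 131 [rh1d1a818e6a174a83, (rh4821dcf828b9d7bf.shift 2 0), (rhf71cb1a94bedb48c.shift 2 0)] (by decide +kernel))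
noncomputable def rh90b4aa62dcf5a5be : CRef := CRef.mk (Pat.mk 0x100000001c000000140000000000000000 0x380000003f000000ff000000f80000001c000000140000001000000010 8 8) 0 0 (step_sound _ 131 [(rh3398070c7eadd413.shift 0 2), (rh35ab8589afe62dd0.shift 2 1), (rhf8d29f3cbeaf06f7.shift 2 0)] (by decide +kernel))
noncomputable def rhe7e70883527e9292 : CRef := CRef.mk (Pat.mk 0x1000000000000000000000001e00000002 0x5000000070000001f0000000f0000003b0000001e00000006 8 6) 0 0 (step_sound _ 65 [rh030114b1ff4912ec, (rh3244c3cc8379b070.shift 0 1)] (by decide +kernel))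
noncomputable def rha1f0678f77f4164b : CRef := CRef.mk (Pat.mk 0x1e000000080 0x7f000001fe000000cf 8 9) 0 0 (step_sound _ 36 [(rh88c620441a3a17ea.shift 1 0), (rhd5eb272e07a4e288.shift 3 1), rhd667349ad2f165ea] (by decide +kernel))
noncomputable def rhaf3c665ed29491e3 : CRef := CRef.mk (Pat.mk 0x30000001800000008000000000000000000000000 0x100000001c0000001c0000001c0000001f00000018000000080000001c0000001c00000014 8 5) 0 0 (step_sound _ 163 [(rh4018ab20e41853dc.shift 2 0), (rhc10214bf3fe8094a.shift 0 4)] (by decide +kernel))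
noncomputable def rhd178c31af7ef4cfb : CRef := CRef.mk (Pat.mk 0x8000000280000002800000000000000000000000000000000 0x40000000d4000000ff000000fc00000028000000080000001c0000001c00000014 8 8) 0 0 (step_sound _ 99 [(rh47992774edf9829f.shift 2 0), (rh7430a052bcb4bacd.shift 0 3), (rhdf6e52dc69951ef8.shift 1 2), (rhf871d9f63f891fa6.shift 2 2)] (by decide +kernel))
noncomputable def rha03dfeb30d65a4ff : CRef := CRef.mk (Pat.mk 0x10000000500000005000000000 0x2000000028000003fc000001ff000003d80000005000000050 8 10) 0 0 (step_sound _ 133 [(rh39fe51eda3f2ba6d.shift 4 0), (rh3de47907cb7b8669.shift 3 0), rh7c529692b3fb6705] (by decide +kernel))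
noncomputable def rh60997b376d57f48e : CRef := CRef.mk (Pat.mk 0x4000000020000000a0000000a000000000000000000000000 0x140000001e0000007a0000001f0000000a0000001c0000001c00000014 8 7) 0 0 (step_sound _ 163 [rh1b00066703a0370a, (rh8b14df1b185c100a.shift 1 3), (rhbfa1debe7707a1f4.shift 2 0)] (by decide +kernel))
noncomputable def rh4a0330821bc45ec1 : CRef := CRef.mk (Pat.mk 0x7000000040000000000000000000000000 0x18000000180000001f0000007e0000007f0000001c0000001c00000014 8 7) 0 0 (step_sound _ 131 [(rh36eba2a3de447758.shift 0 3), (rh84efdb14278181c3.shift 2 0), (rhd1d05263fabc0227.shift 1 3), (rhdceeca65bdd8095a.shift 1 3)] (by decide +kernel))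
noncomputable def rhe0c2c7aba54ff101 : CRef := CRef.mk (Pat.mk 0xa0000000a0000000200000002000000000 0xa0000000a0000001ef000001fe000001df 8 9) 0 0 (step_sound _ 38 [(rh55afc6a59410cf00.shift 5 0), rh856f53c12d627823] (by decide +kernel))
noncomputable def rhc7e4b96fa8bb79e7 : CRef := CRef.mk (Pat.mk 0xa0000000a0000000200000004 0xa0000000a000000eb0000007e000000fc 8 8) 0 0 (step_sound _ 34 [(rh2145e1d24b96a57e.shift 1 0), rh60fe80ad43750b65] (by decide +kernel))
noncomputable def rh72381dc21f268830 : CRef := CRef.mk (Pat.mk 0x400000014000000140000001400000000 0x380000007f0000001f000000170000003c00000030 8 7) 0 0 (step_sound _ 131 [(rh2f68792b6b779e96.shift 2 1), rhace5a6f832b2c581] (by decide +kernel))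
noncomputable def rha7c7e95928c8200d : CRef := CRef.mk (Pat.mk 0x800000038000000000000001000000010 0x140000001c0000001c0000001c000000080000003c0000000f0000001c00000010 8 6) 0 0 (step_sound _ 67 [(rhbd237ca1ec04cb8f.shift 0 1), (rhbe0e43a3bc50a43f.shift 3 0)] (by decide +kernel))
noncomputable def rhd160c09cc9af68b4 : CRef := CRef.mk (Pat.mk 0x1e000000000000000800000008 0x7000000070000003f0000001e000000070000000e00000008 8 6) 0 0 (step_sound _ 129 [(rh3244c3cc8379b070.shift 0 3), rhdf8488b526711eb1] (by decide +kernel))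
noncomputable def rh1bd50022e29be571 : CRef := CRef.mk (Pat.mk 0x80000000800000010000000140000001400000010000000000000000000000000 0x80000000e0000001600000016000000160000003c0000002f0000000e0000000a 8 6) 0 0 (step_sound _ 98 [(rh11a243992b58ed44.shift 1 2), (rh48ec8217c159c863.shift 1 2), rh938bdd32f6670479, (rh952a1d9c59ebf308.shift 1 0), (rhfb39f57ae6073efa.shift 1 0)] (by decide +kernel))
noncomputable def rhd2a3f908cf5307ef : CRef := CRef.mk (Pat.mk 0x18000000080000000a0000000a0000000800000000 0x40000001f0000000b0000000b0000000b0000001e00000017 8 5) 0 0 (step_sound _ 162 [(rh50fbb5868c909700.shift 2 2), rh763233f24138f620] (by decide +kernel))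
noncomputable def rh111ae6df5f4fd51e : CRef := CRef.mk (Pat.mk 0x100000001400000014000000000000000000000000 0x2000000020000002f0000003e0000003600000014000000380000003800000028 8 6) 0 0 (step_sound _ 68 [(rh367118e0bf0473e0.shift 3 0), (rh6c59ce14113da07f.shift 4 0), (rh8cdd36b03d57a2f6.shift 3 0), (rhc9da5ebd6bbd1c8c.shift 0 2)] (by decide +kernel))
noncomputable def rh20c042d77d4eafac : CRef := CRef.mk (Pat.mk 0x10000000080000000a0000000a0000000800000000 0x10000000190000000f0000000b0000000b0000001e00000017 8 5) 0 0 (step_sound _ 163 [(rh2f68792b6b779e96.shift 3 2), rh720b614e8ef0a3f6] (by decide +kernel))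
noncomputable def rh5096814befefbae0 : CRef := CRef.mk (Pat.mk 0x40000000a0000000a0000000200000000 0xe4000000fe000001fb0000000200000002 8 9) 0 0 (step_sound _ 98 [(rh71222050f2c63a3a.shift 1 0), (rhc16212a59b74b245.shift 0 2)] (by decide +kernel))
noncomputable def rhd72bd88edc0a5758 : CRef := CRef.mk (Pat.mk 0xa0000000a0000000a0000000000000000 0x500000007000000070000001f0000001f0000001b0000000b0000000b0000000200000002 8 5) 0 0 (step_sound _ 161 [rh380f73ccc23a6c58, rh7603558598a70dab, rh8303e25b77b8b7bf, (rhdc0d6a1e31bca9d6.shift 0 2), (rhf515f701b82bbaa6.shift 0 2)] (by decide +kernel))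
noncomputable def rh19a8b91109d77b18 : CRef := CRef.mk (Pat.mk 0x200000002800000028000000200000000000000000 0x4000000040000001e0000007c0000006f00000028000000300000003000000010 8 7) 0 0 (step_sound _ 36 [rh109ccf5ca9b3d139, (rh79877ebd3ef475dd.shift 4 1)] (by decide +kernel))
noncomputable def rh5e34b90da737a2ee : CRef := CRef.mk (Pat.mk 0x800000028000000280000000800000000 0x100000001e0000007c0000002f0000007800000030 8 7) 0 0 (step_sound _ 100 [(rh2820ca9a6c4f41b4.shift 0 2), rhbc2e2bd3b5da1a9f, (rhfafe3c6a86a63237.shift 1 1)] (by decide +kernel))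
noncomputable def rha9f3f19b4d3ce621 : CRef := CRef.mk (Pat.mk 0x40000000800000008000000280000000800000008 0xc0000000c0000001800000398000001fc0000038f00000008 8 10) 0 0 (step_sound _ 163 [(rh50fbb5868c909700.shift 2 2), rhb8e417d3fe2095a5] (by decide +kernel))
noncomputable def rh973cc6b6ab09634c : CRef := CRef.mk (Pat.mk 0x2000000020000000200000002000000000000000000000000 0x50000000700000007000000020000000200000006000000070000000700000001 8 3) 0 0 (step_sound _ 66 [rh1c57e04e09fbac4e, (rhd3458b32566d63f7.shift 1 2)] (by decide +kernel))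
noncomputable def rh80933efecf65a8f2 : CRef := CRef.mk (Pat.mk 0x20000001a0000000a00000002000000000000000000000000 0x320000001e0000000b0000000e0000001f0000000700000001 8 6) 0 0 (step_sound _ 162 [rh298566d37b6ffcee, (rheb0810cc63b001d8.shift 0 4)] (by decide +kernel))
noncomputable def rh0be5a34564d3c645 : CRef := CRef.mk (Pat.mk 0x20000001a0000000a000000020000000600000003 0x40000001f00000017000000130000001a0000000a0000000a0000001e00000003 8 5) 0 0 (step_sound _ 35 [rh18965a982d73c794, (rh1ce50e86171a4830.shift 0 1)] (by decide +kernel))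
noncomputable def rh33ec534cf876afd1 : CRef := CRef.mk (Pat.mk 0x1c000000140000000000000000 0x80000002b0000007f0000003f000000140000001400000014 8 7) 0 0 (step_sound _ 131 [(rh4821dcf828b9d7bf.shift 2 0), rh4f68e2db5301ccc9, (rha7e239a8204be023.shift 2 0)] (by decide +kernel))
noncomputable def rh750e839ca6fcf545 : CRef := CRef.mk (Pat.mk 0x200000002000000020000000000000000000000000000000000000000 0x1000000030000000300000003000000030000000700000007000000070000000700000001 8 3) 0 0 (step_sound _ 129 [rh255353f4b2345ec5, (rh47992774edf9829f.shift 0 1), (rh5ad9898cc32ef511.shift 0 2), (rh771d065bdc85bf2d.shift 0 3)] (by decide +kernel))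
noncomputable def rhadf09b710084340a : CRef := CRef.mk (Pat.mk 0x1800000010000000500000000c00000000 0x70000001f0000001f0000007e0000000c00000004 8 7) 0 0 (step_sound _ 67 [(rh361cc68994bd8a63.shift 2 1), rhf1d136317f8be587] (by decide +kernel))
noncomputable def rhfc369d9c042642bb : CRef := CRef.mk (Pat.mk 0x80000002800000028000000000000000000000000 0x40000002c0000002c00000028000000fc000000ff0000005c00000054 8 8) 0 0 (step_sound _ 67 [(rh6eff4158bb400f47.shift 2 0), (rh771d065bdc85bf2d.shift 2 1), (rh825b7b70c076098e.shift 3 0), (rhc8fd50c44a2112a0.shift 0 1)] (by decide +kernel))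
noncomputable def rh9565e2f5f5465f8e : CRef := CRef.mk (Pat.mk 0x38000000000000001000000014000000140000001000000000 0xf0000007e000000e70000001600000016000000160000003c0000002c 8 8) 0 0 (step_sound _ 35 [rh00edbc97147801e8, (rh932754581e0f4330.shift 3 0)] (by decide +kernel))
noncomputable def rh1f668177f4bbeefe : CRef := CRef.mk (Pat.mk 0x700000000000000000000000000000000800000070 0x1ef000000fe000001cf00000000000000000000000c00000078 8 9) 0 0 (step_sound _ 3 [(rh3244c3cc8379b070.shift 2 0), (rh391d9f82314770c1.shift 0 4)] (by decide +kernel))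
noncomputable def rhc39de04245f652fc : CRef := CRef.mk (Pat.mk 0x1e0000000000000000 0x38000000380000003f0000001e0000003800000018 8 6) 0 0 (step_sound _ 36 [rha2e20590fa7be3f6, (rhe25b0a99195a5d59.shift 1 1)] (by decide +kernel))
noncomputable def rha7257c5fe7487efa : CRef := CRef.mk (Pat.mk 0xf000000000 0x77000000fe000001ce 8 9) 0 0 (step_sound _ 7 [rh7bd4f9f9438f00ff, (rhe25b0a99195a5d59.shift 4 0)] (by decide +kernel))
noncomputable def rh2d9968f7bfa119ba : CRef := CRef.mk (Pat.mk 0x1e0000000000000000 0x3000000038000000380000003f0000001e0000003800000010 8 6) 0 0 (step_sound _ 100 [(rh33e738c4ed385b9f.shift 1 2), rh8093951c673ad5a9] (by decide +kernel))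
noncomputable def rh7cf87eb4148196f7 : CRef := CRef.mk (Pat.mk 0x280000002800000008 0x400000386000003fc000007ef00000008 8 11) 0 0 (step_sound _ 68 [(rh06be8e5562dc7104.shift 1 0), (rh2820ca9a6c4f41b4.shift 0 1), (rh8ee80cc30e93a344.shift 2 1), (rhc16212a59b74b245.shift 2 1)] (by decide +kernel))
noncomputable def rhb0ef2e53cc9ebd3d : CRef := CRef.mk (Pat.mk 0x7000000010000000000000000 0x140000001c0000001c0000007c0000003f0000007f0000000c0000000c 8 7) 0 0 (step_sound _ 99 [rhbc61463a522fcd04, (rhd584a578337d0023.shift 0 2), (rhf2b3bcf1454375d8.shift 0 2), (rhf3baec4a0a3dd35e.shift 0 2)] (by decide +kernel))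
noncomputable def rh73ef9029486d9ebb : CRef := CRef.mk (Pat.mk 0x10000000100000005000000018000000000000000000000000 0x300000003000000018000000df000000ff000000070000000400000004 8 8) 0 0 (step_sound _ 131 [(rh5c5e593799055d58.shift 3 3), rhbe36ce273ee037be] (by decide +kernel))
noncomputable def rheaae47637ecd3188 : CRef := CRef.mk (Pat.mk 0x20000000a0000000a000000020000000000000000 0x10000000100000003c0000001e0000000b0000001e0000001b0000001100000010 8 6) 0 0 (step_sound _ 64 [(rh932754581e0f4330.shift 0 1), rha3ac2afaa29d5756] (by decide +kernel))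
noncomputable def rha299bf8984363a29 : CRef := CRef.mk (Pat.mk 0x80000002800000028000000080000000000000000 0x40000000440000007f0000007c00000028000000780000006c0000004400000040 8 7) 0 0 (step_sound _ 66 [rh4009f53a024ff92e, (rh932754581e0f4330.shift 2 1)] (by decide +kernel))
noncomputable def rh2479b600d52864de : CRef := CRef.mk (Pat.mk 0xc00000018000000280000002800000000000000000000000000000000 0x2f00000078000000280000007c000001f0000000600000004000000040 8 9) 0 0 (step_sound _ 197 [rhb61f97f552199a20, (rhf48373e13d2bc128.shift 2 6)] (by decide +kernel))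
noncomputable def rhc64a9559282249b8 : CRef := CRef.mk (Pat.mk 0x1c0000003800000000 0xa0000000e0000000e000000060000007c0000003f0000000f 8 7) 0 0 (step_sound _ 34 [(rh2c5c7672006b9cb0.shift 1 0), (rhab2ad169e49f9c5e.shift 0 1), rhcc2be1f880c5ea3e] (by decide +kernel))
noncomputable def rh47bdbc56a4c90577 : CRef := CRef.mk (Pat.mk 0x20000000a0000000e000000000000000000000000 0xa0000000a000000ea0000007f000000fe0000001000000010 8 8) 0 0 (step_sound _ 66 [rh0005edc40b82082c, (rh2145e1d24b96a57e.shift 1 2)] (by decide +kernel))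
noncomputable def rhfdef26e44483acf2 : CRef := CRef.mk (Pat.mk 0xc00000008000000280000002c000000000000000000000000 0x10000003f0000007f0000002f0000007e000000e30000004000000040 8 8) 0 0 (step_sound _ 100 [(rh1254acb2dcf1a026.shift 0 2), (rh184d51411777a23a.shift 0 2), (rh53a9eca71b4a4b8f.shift 2 0), (rhe3060b190bc0bc78.shift 1 3)] (by decide +kernel))
noncomputable def rhad02f4055655e295 : CRef := CRef.mk (Pat.mk 0xd00000004000000040000000400000000 0x60000000600000007f0000007c000000740000001400000004 8 7) 0 0 (step_sound _ 99 [(rh5171a48cdf5c647f.shift 0 1), (rh71222050f2c63a3a.shift 2 0)] (by decide +kernel))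
noncomputable def rh73f3d377bdc17932 : CRef := CRef.mk (Pat.mk 0x80000000c00000008000000080000002c00000028000000000000000000000000 0x10000000780000004f00000078000000780000002c00000078000000600000004000000040 8 7) 0 0 (step_sound _ 260 [(rh2f68792b6b779e96.shift 3 5), rh48ffe60921a5a3e8] (by decide +kernel))
noncomputable def rh79b9bf4a66eff567 : CRef := CRef.mk (Pat.mk 0x100000001800000018 0x600000006000000ff000000ff0000001e 8 8) 0 0 (step_sound _ 37 [(rh2612b4f73ba7c3b3.shift 2 0), rh30b1045e318f0560, rhd149b1ca8d686de3] (by decide +kernel))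
noncomputable def rh6bc0c8939a9a008f : CRef := CRef.mk (Pat.mk 0x10000000180000001c0000000000000000 0x1e0000001e000000f70000007f0000001c0000000400000004 8 8) 0 0 (step_sound _ 98 [(rh20d2f9ea09b5b961.shift 1 2), (rha11dfd15f08f96e3.shift 1 3), rhaed54c24fb91f24a, (rhf32ad60d2824f85e.shift 0 2)] (by decide +kernel))
noncomputable def rh281e9a87c20e4a66 : CRef := CRef.mk (Pat.mk 0x20000000380000000000000000 0xe0000000e0000003f0000003e0000000f0000000c 8 6) 0 0 (step_sound _ 66 [(rh21d582c147e7e118.shift 0 1), (rh775ca1963e850b80.shift 0 1), (rh7fb660bc21ce4329.shift 0 2), (rhd460056c501ff99e.shift 1 0)] (by decide +kernel))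
noncomputable def rhf1e3b24975f9e705 : CRef := CRef.mk (Pat.mk 0x100000003400000030000000600000000000000000 0xa0000000e0000000f0000001e000000360000003e0000006e0000000e0000000a 8 7) 0 0 (step_sound _ 98 [(rhab22b5b56e7b3243.shift 2 2), rhe7db47fda10b5278] (by decide +kernel))
noncomputable def rh575122883a8a7381 : CRef := CRef.mk (Pat.mk 0x800000010000000100000001c 0x1c0000001e000000770000007f0000001c 8 7) 0 0 (step_sound _ 100 [rh49f7ed66bc6716eb, (rh50fbb5868c909700.shift 3 0)] (by decide +kernel))
noncomputable def rh0f250c3faaf51672 : CRef := CRef.mk (Pat.mk 0x20000000a0000000a000000010000000000000000 0x10000000100000003c0000001e0000000b0000001e0000001b0000001100000010 8 6) 0 0 (step_sound _ 65 [(rh932754581e0f4330.shift 0 1), rha3ac2afaa29d5756] (by decide +kernel))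
noncomputable def rh2e56d16230636d71 : CRef := CRef.mk (Pat.mk 0x100000001000000018000000500000000000000000 0x1000000014000000170000001f0000007f0000000300000003 8 7) 0 0 (step_sound _ 67 [(rh5c5e593799055d58.shift 3 2), rh92a4df4963de3427] (by decide +kernel))
noncomputable def rh1feee178ec91ccda : CRef := CRef.mk (Pat.mk 0x80000000800000028000000000000000000000000 0x40000001c0000007c0000000f0000003e0000007e0000000c00000008 8 7) 0 0 (step_sound _ 67 [(rh771d065bdc85bf2d.shift 2 1), (rh9f9eff1d8b440b82.shift 0 1), (rhe1bcd80b5c7d4f4c.shift 1 1), (rhe8775f4a901009e3.shift 1 0)] (by decide +kernel))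
noncomputable def rh9aed8ce57f5522df : CRef := CRef.mk (Pat.mk 0x20000000a0000000a00000000000000000000000000000000 0x110000001f0000001f0000000a0000000f0000003f0000001f0000001500000010 8 6) 0 0 (step_sound _ 97 [(rh6eff4158bb400f47.shift 0 1), (rh771d065bdc85bf2d.shift 0 2), rhd393899bc6319650] (by decide +kernel))
noncomputable def rh9218e4fc9107e1fe : CRef := CRef.mk (Pat.mk 0x800000028000000280000000000000000000000000000000000000000 0xf8000000780000002f0000003e0000007e0000001c0000001c0000001c00000004 8 8) 0 0 (step_sound _ 131 [(rh6eff4158bb400f47.shift 2 2), (rh6f15d5bf35c461a3.shift 2 3), (rh713d96f87d124bea.shift 2 0), (rh9f9eff1d8b440b82.shift 0 3)] (by decide +kernel))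
noncomputable def rh0adee9b3cd10f608 : CRef := CRef.mk (Pat.mk 0x8000000280000002800000000000000000000000000000000 0x3c0000007c0000002f000000380000001c0000001c0000001c00000014 8 7) 0 0 (step_sound _ 99 [(rh47992774edf9829f.shift 2 0), (rh6eff4158bb400f47.shift 2 1), (rhbe57b4d86580fecf.shift 0 2), (rhe1bcd80b5c7d4f4c.shift 1 2)] (by decide +kernel))
noncomputable def rh317cccc9c3d03212 : CRef := CRef.mk (Pat.mk 0x800000028000000280000000000000000000000000000000000000000 0x380000007c0000002f0000003c0000001e0000001c0000001c0000001c00000004 8 7) 0 0 (step_sound _ 131 [(rh255353f4b2345ec5.shift 2 0), (rh6eff4158bb400f47.shift 2 2), (rhbe57b4d86580fecf.shift 0 3), (rhe8775f4a901009e3.shift 1 2)] (by decide +kernel))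
noncomputable def rh448d18cae6809d1f : CRef := CRef.mk (Pat.mk 0x4000000140000001400000000000000000000000000000000 0x200000007e0000003e000000170000001e0000007c0000003e0000002e0000002a 8 7) 0 0 (step_sound _ 98 [(rh47992774edf9829f.shift 1 0), (rh6f15d5bf35c461a3.shift 1 2), (rhd393899bc6319650.shift 1 0), (rhe1bcd80b5c7d4f4c.shift 0 2)] (by decide +kernel))
noncomputable def rh33bce5f048c750a8 : CRef := CRef.mk (Pat.mk 0x100000002000000020000000a0000000a00000000000000000000000000000000 0x1000000130000001e0000001f0000000a0000000f0000001d0000001c0000001400000014 8 5) 0 0 (step_sound _ 257 [(rh50fbb5868c909700.shift 0 5), rhf5a362233c857d29] (by decide +kernel))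
noncomputable def rhb0aabc08a537e739 : CRef := CRef.mk (Pat.mk 0xa0000000a0000000800000008 0xf0000000fe000001fb0000000800000008 8 9) 0 0 (step_sound _ 100 [(rh2f68792b6b779e96.shift 3 0), (rhf598c87b5a1c7ab5.shift 0 2)] (by decide +kernel))
noncomputable def rh647c73487fcf3f67 : CRef := CRef.mk (Pat.mk 0x120000000a0000000800000008 0xf0000000fe000001fb0000000800000008 8 9) 0 0 (step_sound _ 99 [(rh2f68792b6b779e96.shift 3 0), (rhf598c87b5a1c7ab5.shift 0 2)] (by decide +kernel))
noncomputable def rh6a170a5d2b7f2b35 : CRef := CRef.mk (Pat.mk 0x400000004000000040000000000000000000000000000000000000000 0x20000000e0000003e0000000700000006000000060000000e0000000e0000000e00000002 8 6) 0 0 (step_sound _ 130 [(rh255353f4b2345ec5.shift 1 0), (rh47992774edf9829f.shift 1 1), (rh771d065bdc85bf2d.shift 1 3), (rhc4526fc8abf298b6.shift 1 2), (rhe1bcd80b5c7d4f4c.shift 0 3)] (by decide +kernel))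
noncomputable def rhe373c8a3bee9551d : CRef := CRef.mk (Pat.mk 0x10000000500000005000000010000000000000000000000000 0x100000005000000058000000df000000ff000001cf0000000400000004 8 9) 0 0 (step_sound _ 99 [(rh932754581e0f4330.shift 3 2), rhb72cad3ab6762185] (by decide +kernel))
noncomputable def rhcf284e0fb448e50d : CRef := CRef.mk (Pat.mk 0x20000000a000000180000003e00000000 0x1b0000001e0000000b00000018000000fe000000e3 8 8) 0 0 (step_sound _ 1 [rh2407944f14f56ae7, rheb0810cc63b001d8] (by decide +kernel))
noncomputable def rh2bbf60134305dc90 : CRef := CRef.mk (Pat.mk 0xa0000000a0000000a00000002000000000000000000000000 0xa0000001a0000001a0000001e0000001f0000001700000001 8 5) 0 0 (step_sound _ 66 [rh1ff9517b4b39645e, (rhd3458b32566d63f7.shift 1 2)] (by decide +kernel))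
noncomputable def rh6be151c8a20c06ef : CRef := CRef.mk (Pat.mk 0x20000000a0000000a0000000a000000020000000000000000 0x10000000180000001e0000000b0000001b0000001a0000003f0000001e00000004 8 6) 0 0 (step_sound _ 34 [rh94af40c82b178ff7, (rhd3458b32566d63f7.shift 1 1)] (by decide +kernel))
noncomputable def rhc6ef1fead54bfbe8 : CRef := CRef.mk (Pat.mk 0x20000000a0000000a0000000a00000002000000000000000000000000 0x10000000180000001e0000000b0000001b0000001a0000003b0000001f0000000700000005 8 6) 0 0 (step_sound _ 65 [rh6eff4158bb400f47, (rh70da3784e6ca9872.shift 0 1), (rh7928877f9bf74a91.shift 0 1)] (by decide +kernel))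
noncomputable def rhb701499b59feaa8d : CRef := CRef.mk (Pat.mk 0x20000000a0000000a0000000a000000020000000000000000 0x10000000180000001e0000000b0000001b0000001a0000001f0000001300000001 8 5) 0 0 (step_sound _ 32 [(rh79877ebd3ef475dd.shift 0 1), rhfd19a9b6d78d6cf2] (by decide +kernel))
noncomputable def rh1fff88f83a1750b7 : CRef := CRef.mk (Pat.mk 0xa0000000a00000002000000060000000000000000 0x8000000080000000b0000001f0000001a0000001f0000001300000001 8 5) 0 0 (step_sound _ 32 [(rh79877ebd3ef475dd.shift 0 1), rh9e94dc55ba38ce16] (by decide +kernel))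
noncomputable def rh32ed2d9de977ab04 : CRef := CRef.mk (Pat.mk 0x80000002800000028000000000000000000000000 0x80000000800000028000001fe000000ff000001dc00000054 8 9) 0 0 (step_sound _ 67 [(rh6eff4158bb400f47.shift 2 0), (rhb50fddfb51d8cb0c.shift 1 1), (rhc8fd50c44a2112a0.shift 0 1), (rhe66541d385788e02.shift 2 0)] (by decide +kernel))
noncomputable def rh6a7f0c52f102bbac : CRef := CRef.mk (Pat.mk 0x2000000038000000000000000000000000 0xa0000000e0000000e0000003f0000003e0000000f0000000c00000008 8 6) 0 0 (step_sound _ 98 [(rh21d582c147e7e118.shift 0 2), (rh2c154aad053a87e5.shift 1 0), (rh7fb660bc21ce4329.shift 0 3)] (by decide +kernel))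
noncomputable def rh7319239261bcf46f : CRef := CRef.mk (Pat.mk 0x2000000020000000e000000000000000000000000 0x200000002000000e30000007e000000fc0000000400000004 8 8) 0 0 (step_sound _ 66 [(rh2145e1d24b96a57e.shift 1 2), rh628648917988e791] (by decide +kernel))
noncomputable def rhdeb2404550f3c7fa : CRef := CRef.mk (Pat.mk 0x800000008000000280000000000000000000000000000000000000000 0x40000000c0000000c0000000f0000007c0000000c0000001c0000001c0000001c00000004 8 7) 0 0 (step_sound _ 131 [(rh255353f4b2345ec5.shift 2 0), (rh47992774edf9829f.shift 2 1), (rh771d065bdc85bf2d.shift 2 3), (rh92ed3525f919a568.shift 0 3)] (by decide +kernel))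
noncomputable def rhbadcfac9041644b4 : CRef := CRef.mk (Pat.mk 0x40000003800000028000000200000002000000000 0x60000003c000000280000006f0000003e00000017 8 7) 0 0 (step_sound _ 36 [(rh932754581e0f4330.shift 4 0), rhd4e69802d9204c36] (by decide +kernel))
noncomputable def rhd193573677d8a2ed : CRef := CRef.mk (Pat.mk 0x1a000000020000000200000000 0x1000000070000000700000007000000030000001f000000030000000300000001 8 5) 0 0 (step_sound _ 129 [(rh01e48cd9f335aa73.shift 0 2), rh1726a00b0a8befd0, (rh5e05da03898e7023.shift 0 1), rh771d065bdc85bf2d, (rhf4053002e64835a1.shift 0 1)] (by decide +kernel))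
noncomputable def rhbdb462b350c48652 : CRef := CRef.mk (Pat.mk 0x1e0000001400000010000000100000001000000000 0x600000006000000060000001e00000017000000170000001f0000003700000020 8 6) 0 0 (step_sound _ 193 [rh1206b774cff5d7bd, (rh950c8f52e62c89f9.shift 0 1), (rhc2c7bae8f445c890.shift 1 2)] (by decide +kernel))
noncomputable def rhc051073932639182 : CRef := CRef.mk (Pat.mk 0x1e00000016000000100000001000000000 0x600000006000000360000001e00000016000000370000003f00000007 8 6) 0 0 (step_sound _ 164 [(rh33e738c4ed385b9f.shift 1 4), rh481f354fe1bf3f00] (by decide +kernel))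
noncomputable def rhe0cd8340a632436e : CRef := CRef.mk (Pat.mk 0x1a0000000a 0xe3000000fe000001fb 8 9) 0 0 (step_sound _ 34 [rh45cf153bdcbab066, rheb0810cc63b001d8] (by decide +kernel))
noncomputable def rha1f87386ec8b9004 : CRef := CRef.mk (Pat.mk 0x20000000200000002000000020000000000000000 0x100000007000000070000000700000003000000030000000300000003000000030000000200000002 8 3) 0 0 (step_sound _ 193 [(rh1726a00b0a8befd0.shift 0 2), (rh3ca48e2a6d60153d.shift 0 2), rh5baa46239919fe38, (rh771d065bdc85bf2d.shift 0 2), (rhf4053002e64835a1.shift 0 3)] (by decide +kernel))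
noncomputable def rhb19cf16d0bbd36d2 : CRef := CRef.mk (Pat.mk 0x20000000200000002000000020000000000000000000000000000000000000000 0x2000000020000000300000003000000030000000700000007000000070000000700000001 8 3) 0 0 (step_sound _ 129 [rh255353f4b2345ec5, (rh6eff4158bb400f47.shift 0 2), (rh7928877f9bf74a91.shift 0 3), (rh7ac7f773826df96f.shift 0 2)] (by decide +kernel))
noncomputable def rhed3b0c4c8e42d710 : CRef := CRef.mk (Pat.mk 0x1800000018000000100000001800000000 0x140000001c0000001e0000001f0000001f00000007 8 5) 0 0 (step_sound _ 67 [(rh5c5e593799055d58.shift 3 1), rhbb66889bafd98e97] (by decide +kernel))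
noncomputable def rh3c3f9ee7df44e231 : CRef := CRef.mk (Pat.mk 0x20000000a0000000a000000020000000000000000 0xd0000001f0000000b0000001e0000001a0000001200000010 8 5) 0 0 (step_sound _ 160 [rh4d241eae9b919d24, (rh50fbb5868c909700.shift 0 2)] (by decide +kernel))
noncomputable def rh7075c9edb3fcde2e : CRef := CRef.mk (Pat.mk 0x8000000080000002800000028000000000000000000000000 0x40000003f000000f8000000280000007c0000006c0000004400000040 8 8) 0 0 (step_sound _ 66 [(rh79877ebd3ef475dd.shift 2 2), rhaa060996c6fab713] (by decide +kernel))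
noncomputable def rhba75e719405cbd37 : CRef := CRef.mk (Pat.mk 0x6000000020000000800000008000000100000000000000000000000000000000000000000 0x700000003e0000007b0000000800000038000000380000003800000010000000180000001800000008 8 7) 0 0 (step_sound _ 132 [(rh2f600c7f0c289788.shift 0 3), (rhb1dbab2654f08006.shift 3 0), (rhc0c95b32fb8e7c20.shift 0 4), (rhe482ee30a2733b5f.shift 3 2)] (by decide +kernel))
noncomputable def rhfbc45077e654582a : CRef := CRef.mk (Pat.mk 0x2000000020000000a0000000a00000013 0x700000003e0000007f0000000a0000001e00000013 8 7) 0 0 (step_sound _ 36 [rh1609cf6b6e461e07, rhb2a0b9ccfb5cecd5] (by decide +kernel))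
noncomputable def rh6b1c275b9a050651 : CRef := CRef.mk (Pat.mk 0x2000000020000000a0000001a000000120000000000000000 0x700000003e0000007f0000000a0000001a000000120000001000000010 8 7) 0 0 (step_sound _ 36 [(rh1609cf6b6e461e07.shift 0 2), (rh7b1f1fb55310c477.shift 3 0)] (by decide +kernel))
noncomputable def rhd8b83c90fc12a81a : CRef := CRef.mk (Pat.mk 0x2000000020000000a0000001a000000300000001000000000 0x700000003e0000007f0000000a0000001a000000f30000001f00000005 8 8) 0 0 (step_sound _ 70 [rh39ec035b1a0cd45d, (rhf48373e13d2bc128.shift 3 2)] (by decide +kernel))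
noncomputable def rh4389fb86fb15076a : CRef := CRef.mk (Pat.mk 0x60000001e000000020000000000000000 0xe0000001e0000003a0000001f0000003f 8 6) 0 0 (step_sound _ 33 [(rh71222050f2c63a3a.shift 1 0), rh8d3d8e4dfe20f05e] (by decide +kernel))
noncomputable def rhc6d2599da87b0b99 : CRef := CRef.mk (Pat.mk 0x20000001a000000720000000100000000 0xc0000000c2000000fa0000007a000000ef00000025 8 8) 0 0 (step_sound _ 33 [rh932754581e0f4330, (rhdaafc7f0e5f62f55.shift 1 0)] (by decide +kernel))
noncomputable def rh653c327ac0a2093a : CRef := CRef.mk (Pat.mk 0x400000004000000050000000c0000000000000000 0x400000064000000640000007f0000007c0000007000000010 8 7) 0 0 (step_sound _ 99 [(rh2145e1d24b96a57e.shift 2 2), rh5171a48cdf5c647f] (by decide +kernel))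
noncomputable def rh6b37e68b76acbd5a : CRef := CRef.mk (Pat.mk 0x10000000180000005800000050000000000000000000000000 0x1000000013000000530000007f0000005f000000f7000000c40000008000000080 8 8) 0 0 (step_sound _ 228 [(rh5c5e593799055d58.shift 3 4), rhf999fdc40b9ecc6a] (by decide +kernel))
noncomputable def rhfa98e4db559b6d63 : CRef := CRef.mk (Pat.mk 0x1c0000001800000004 0x50000000700000007000000030000001f0000001f00000004 8 5) 0 0 (step_sound _ 65 [rh76e5a56812011884, (rhb739f4f82bb681b4.shift 0 1)] (by decide +kernel))
noncomputable def rh9bcfc2eac03b4f27 : CRef := CRef.mk (Pat.mk 0x80000002c0000003800000000000000000000000000000000 0x100000007c0000002f00000038000000280000001c0000001c00000014 8 7) 0 0 (step_sound _ 161 [(rhb739f4f82bb681b4.shift 0 4), (rhfc7a77f59a220bc2.shift 1 0)] (by decide +kernel))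
noncomputable def rh8011d369fe5fa33d : CRef := CRef.mk (Pat.mk 0x80000000c00000018000000000000000000000000 0x40000000c0000000f0000001b0000001f0000001e00000014 8 5) 0 0 (step_sound _ 129 [rh28dfe8903c7485e3, (rhb739f4f82bb681b4.shift 0 3)] (by decide +kernel))
noncomputable def rh84296c011116bd58 : CRef := CRef.mk (Pat.mk 0x3000000030000000200000002000000000 0x30000000300000003e0000007e0000005f 8 7) 0 0 (step_sound _ 36 [rh10928736c70f2541, (rh932754581e0f4330.shift 4 0)] (by decide +kernel))
noncomputable def rh632207cf66104cb2 : CRef := CRef.mk (Pat.mk 0x400000004000000040000000400000000 0x7a0000003e00000077000000040000000400000004 8 7) 0 0 (step_sound _ 129 [(rh50fbb5868c909700.shift 1 1), rh736213e7636ad170] (by decide +kernel))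
noncomputable def rhcc7bbbe1e143df66 : CRef := CRef.mk (Pat.mk 0x4000000060000000400000004000000040 0x7c7000003fe000007ff0000004000000040 8 11) 0 0 (step_sound _ 100 [(rhc59ba9a1f24cb412.shift 0 2), (rhcf86d050071af9b3.shift 3 2), (rhe5932d147c89a3a2.shift 3 0)] (by decide +kernel))
noncomputable def rh101597249a6996cb : CRef := CRef.mk (Pat.mk 0x80000000800000008000000080000000800000000000000000000000000000000 0x80000001c0000007c0000001f0000000c000000080000001c0000001c00000014 8 7) 0 0 (step_sound _ 162 [rh780045270ef93d36, (rh932754581e0f4330.shift 2 4)] (by decide +kernel))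
noncomputable def rh1a8de4899e50cf4a : CRef := CRef.mk (Pat.mk 0x20000000200000002000000020000000000000000000000000000000000000000 0x20000000600000006000000060000000700000007000000070000000700000005 8 3) 0 0 (step_sound _ 129 [(rh8cdd36b03d57a2f6.shift 0 2), (rh8d8bfe45b7d5275a.shift 0 1), (rhd29a1fb688eae70f.shift 1 3), rhe72f31e85e5c82d6] (by decide +kernel))
noncomputable def rh2e4eb00129a8b640 : CRef := CRef.mk (Pat.mk 0x2000000020000000200000002000000000 0x2000000020000001ff000001fe0000005f 8 9) 0 0 (step_sound _ 36 [(rh932754581e0f4330.shift 4 0), rh9afadd83b55228ef] (by decide +kernel))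
noncomputable def rh3682506ad92a92ce : CRef := CRef.mk (Pat.mk 0x1000000010000000100000001000000000 0x4000000040000002f0000003f0000001f000000180000001000000010 8 6) 0 0 (step_sound _ 131 [rh1c32588dab464fcb, (rh50fbb5868c909700.shift 3 1)] (by decide +kernel))
noncomputable def rh4dda2589854e6479 : CRef := CRef.mk (Pat.mk 0x20000000200000002000000020000000200000000000000000000000000000000 0x30000000300000007000000060000000600000002000000070000000700000005 8 3) 0 0 (step_sound _ 224 [(rh50fbb5868c909700.shift 0 4), rhc594cc7cce017515] (by decide +kernel))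
noncomputable def rh8498e7a7baf18b19 : CRef := CRef.mk (Pat.mk 0x2000000030000000a00000000 0x50000000700000007000000020000000200000003000000030000001f00000004 8 5) 0 0 (step_sound _ 34 [rhcb1ea5bd083fe91b, (rhf48373e13d2bc128.shift 0 1)] (by decide +kernel))
noncomputable def rhf57854ce7945c3ec : CRef := CRef.mk (Pat.mk 0x1000000018000000180000000800000000 0xc0000000f0000001f0000001f0000001e0000000c00000004 8 5) 0 0 (step_sound _ 131 [rh0668c447fd80549a, (rh7b9fbdf6d2d059e4.shift 2 1), (rh925a1628dd8a50da.shift 2 0)] (by decide +kernel))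
noncomputable def rhafbe8c089139cfe3 : CRef := CRef.mk (Pat.mk 0x2000000020000000200000007000000000 0x1000000030000000300000007f000001fe0000000f 8 9) 0 0 (step_sound _ 132 [(rh50fbb5868c909700.shift 4 1), rhbe97a34c53cfc6df] (by decide +kernel))
noncomputable def rh235f69a07ab720cb : CRef := CRef.mk (Pat.mk 0xa0000000a000000080000000800000000 0x170000001e0000000a0000001f0000000f00000005 8 5) 0 0 (step_sound _ 34 [rh2c1bbe64d2e10ddc, (rh932754581e0f4330.shift 2 0)] (by decide +kernel))
noncomputable def rh1d29fa65dade6cbd : CRef := CRef.mk (Pat.mk 0x200000002800000020000000200000000000000000 0x770000003e00000027000000300000003000000010 8 7) 0 0 (step_sound _ 36 [(rh79877ebd3ef475dd.shift 4 1), rhbe90be549cd8e973] (by decide +kernel))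
noncomputable def rh98dd16571ef4f021 : CRef := CRef.mk (Pat.mk 0x280000002800000060000000600000000000000000 0x40000001f0000037c00000328000007f8000003e80000078000000080 8 11) 0 0 (step_sound _ 164 [(rh50fbb5868c909700.shift 4 2), rh5fe9bbb63f08fd9c] (by decide +kernel))
noncomputable def rh45dbe7a67071c8fc : CRef := CRef.mk (Pat.mk 0x14000000140000001000000030 0x2f0000003e000000140000003e000000f4 8 8) 0 0 (step_sound _ 99 [rh1fed7826ff37398e, (rh50fbb5868c909700.shift 3 0)] (by decide +kernel))
noncomputable def rh89a9ea7b3ec640f1 : CRef := CRef.mk (Pat.mk 0x2000000028000000280000002000000060 0x40000003f0000007c000000280000003c000001f8 8 9) 0 0 (step_sound _ 36 [rh35633fb4bfdd3f8f, (rh932754581e0f4330.shift 4 0)] (by decide +kernel))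
noncomputable def rh964b80b1fb5de76f : CRef := CRef.mk (Pat.mk 0x280000002800000028000000200000000000000000 0x1000000038000000280000007c0000003f0000003c00000010 8 7) 0 0 (step_sound _ 36 [rh01a4b32ce9c010b8, (rh79877ebd3ef475dd.shift 4 1)] (by decide +kernel))
noncomputable def rh80b14c002b5bedd2 : CRef := CRef.mk (Pat.mk 0x40000001400000010000000100000000000000000 0x20000000fc0000001e000000140000003f0000003f0000003a0000002a 8 8) 0 0 (step_sound _ 164 [(rh8cdd36b03d57a2f6.shift 3 0), rh9bd9ef1b871cd492, (rhd7429d15a03f54e4.shift 1 1)] (by decide +kernel))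
noncomputable def rh93864499bc1325c2 : CRef := CRef.mk (Pat.mk 0x140000001400000010000000000000000000000000 0x20000000fc0000001e000000140000003f0000003f0000003a0000002a 8 8) 0 0 (step_sound _ 68 [(rh8cdd36b03d57a2f6.shift 3 0), rh9bd9ef1b871cd492, (rhd7429d15a03f54e4.shift 1 1)] (by decide +kernel))
noncomputable def rhdbf2116d4bcf3026 : CRef := CRef.mk (Pat.mk 0x280000002800000020000000000000000000000000 0x78000000780000002f0000007e0000003e0000001400000004 8 7) 0 0 (step_sound _ 69 [(rh360686c1c249e008.shift 0 1), (rh9258736a7488cc35.shift 2 2), (rh9bd9ef1b871cd492.shift 1 0)] (by decide +kernel))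
noncomputable def rh568b8cdc1b2d82cd : CRef := CRef.mk (Pat.mk 0x2800000028000000200000000000000000 0x40000001f80000007c0000002f0000007c0000007e00000050 8 9) 0 0 (step_sound _ 37 [rh360686c1c249e008, (rh70c796c1040c85c7.shift 0 1), (rha51f537e042fce54.shift 0 1), (rhced6d86d2069808b.shift 5 0)] (by decide +kernel))
noncomputable def rh552a6936c04b14b8 : CRef := CRef.mk (Pat.mk 0x1e000000000000000000000000 0x6000000070000001e0000003f0000000700000007 8 6) 0 0 (step_sound _ 68 [rhc98c1f4f583d33e4, (rhe25b0a99195a5d59.shift 1 2)] (by decide +kernel))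
noncomputable def rh7db7945beb4d3953 : CRef := CRef.mk (Pat.mk 0x1e0000000000000000 0x7000000070000003f0000001e0000000700000006 8 6) 0 0 (step_sound _ 33 [rhbad45c8e9cb46418, (rheb0810cc63b001d8.shift 0 1)] (by decide +kernel))
noncomputable def rh08bad8e17a315636 : CRef := CRef.mk (Pat.mk 0xe000000080000000a00000000000000000 0x5e000001fe000000bf000000a0000000a000000020 8 9) 0 0 (step_sound _ 101 [(rh2820ca9a6c4f41b4.shift 2 3), rhd32df40bca9186f0, (rhd8a13c7f042cc6ea.shift 5 1)] (by decide +kernel))
noncomputable def rh05dae7526eb63b92 : CRef := CRef.mk (Pat.mk 0x1c00000010000000140000000000000000 0x630000003e000000170000001f0000001700000001 8 7) 0 0 (step_sound _ 133 [rh5c8224642afe99e4, (rhd4d36b4007f546b1.shift 2 1)] (by decide +kernel))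
noncomputable def rh19863bb6b03fa27c : CRef := CRef.mk (Pat.mk 0x400000000000000040000000f00000000000000000 0x60000000780000003c0000007f000000fe0000003700000030 8 8) 0 0 (step_sound _ 67 [(rh5e601430b8bc2e39.shift 0 1), (rh7fb660bc21ce4329.shift 1 2), (rhabdfb90173fb29c1.shift 2 0), (rhd5eb272e07a4e288.shift 2 2)] (by decide +kernel))
noncomputable def rh684647bd66f98623 : CRef := CRef.mk (Pat.mk 0x38000000200000002000000000 0x1000000010000000180000007c0000002f0000007c00000028 8 7) 0 0 (step_sound _ 132 [rh462b53f1a4fa550a, (rh7b1f1fb55310c477.shift 4 0)] (by decide +kernel))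
noncomputable def rhabbbfd4810ce4949 : CRef := CRef.mk (Pat.mk 0x200000000000000060000001700000004000000000000000000000000 0x280000003e000000380000003e000000170000003e000000380000003800000028 8 6) 0 0 (step_sound _ 164 [(rh361cc68994bd8a63.shift 0 4), rhe841419546ca0fbb] (by decide +kernel))
noncomputable def rh3ac1d28ba571105f : CRef := CRef.mk (Pat.mk 0x8000000080000000c00000008000000020000000000000000 0x18000000180000001c0000000c0000000c000000080000001f0000001c00000010 8 5) 0 0 (step_sound _ 228 [(rhbaefcd01e0a8bca3.shift 3 3), rhe74c96626c0ff10f] (by decide +kernel))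
noncomputable def rh232cbea1b7742fe5 : CRef := CRef.mk (Pat.mk 0x700000004000000040 0x1000000030000003bf000003ff0000006f00000068 8 10) 0 0 (step_sound _ 67 [(rh290a9fb7ead95533.shift 2 0), (rh2d8db8ae5a897a2b.shift 0 1), (rh36eba2a3de447758.shift 0 1), (rh43dc67402634d54f.shift 2 0), (rh592c7139d2c44767.shift 1 1)] (by decide +kernel))
noncomputable def rh959850bff64c8374 : CRef := CRef.mk (Pat.mk 0x1e000000500000000000000000 0x8000000080000001e7000000fe0000005c0000004000000040 8 9) 0 0 (step_sound _ 129 [(rh2425347b71cd950f.shift 1 0), (rh3244c3cc8379b070.shift 0 3)] (by decide +kernel))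
noncomputable def rhdce3d6b87e60b48e : CRef := CRef.mk (Pat.mk 0x1e0000000e00000008 0x1000000170000001f000000370000001e0000000e00000008 8 6) 0 0 (step_sound _ 130 [(rh6f1cbe15c631ee70.shift 2 0), (rh8977ad8cde131a7b.shift 0 1)] (by decide +kernel))
noncomputable def rh4aada9479f250edb : CRef := CRef.mk (Pat.mk 0x1e0000000a00000008000000000 0x50000000500000007f000001fe000000e7000000a000000020 8 9) 0 0 (step_sound _ 134 [(rh4821dcf828b9d7bf.shift 5 0), (rhe072fffdd2fccf38.shift 6 1), rhe0e5767efeb17121] (by decide +kernel))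
noncomputable def rhd28f7b358a124c7e : CRef := CRef.mk (Pat.mk 0x1e00000000000000000000000000000000 0x600000006000000070000001e00000007000000070000000700000003 8 5) 0 0 (step_sound _ 97 [rhc02ee3fcddc8af0c, (rheb0810cc63b001d8.shift 0 3)] (by decide +kernel))
noncomputable def rh6b5c5f6d28c1df7c : CRef := CRef.mk (Pat.mk 0x3c00000058000000100000001000000000 0xc0000000ff00000058000000f8000000f0000000a0 8 8) 0 0 (step_sound _ 134 [rh00569ec8c040c7ff, (rh18965a982d73c794.shift 3 3)] (by decide +kernel))
noncomputable def rhc70700ceea55a332 : CRef := CRef.mk (Pat.mk 0x1000000018000000280000000800000000 0x1000000010000003f0000001f8000003af0000007c00000020 8 10) 0 0 (step_sound _ 164 [(rh5c5e593799055d58.shift 3 2), rh6e2fb4a072d2c626] (by decide +kernel))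
noncomputable def rhd4a736842dec618f : CRef := CRef.mk (Pat.mk 0x1c00000002000000000000000000000000 0x600000006000000070000001e00000007000000070000000700000003 8 5) 0 0 (step_sound _ 129 [rhc02ee3fcddc8af0c, (rheb0810cc63b001d8.shift 0 3)] (by decide +kernel))
noncomputable def rh96d82cdbfbd3234d : CRef := CRef.mk (Pat.mk 0x380000002400000020000000000000000000000000 0x2000000170000003e000000260000003e0000007e0000004e0000000a 8 7) 0 0 (step_sound _ 69 [(rh50fbb5868c909700.shift 4 2), rhce70a7eb762d0b5d] (by decide +kernel))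
noncomputable def rhe5f1648f1cf73d4b : CRef := CRef.mk (Pat.mk 0xa0000000300000008000000000000000000000000 0x500000007000000070000001e000000030000001e000000070000000700000005 8 5) 0 0 (step_sound _ 162 [(rh18965a982d73c794.shift 0 4), rh8e53911c00842b22] (by decide +kernel))
noncomputable def rh604084affc1aa34c : CRef := CRef.mk (Pat.mk 0xa0000000300000008000000000000000000000000 0x500000007000000070000001f000000030000001e000000060000000600000004 8 5) 0 0 (step_sound _ 162 [(rh18965a982d73c794.shift 0 4), rh60d19540b9746d5a] (by decide +kernel))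
noncomputable def rh12061920b041db2a : CRef := CRef.mk (Pat.mk 0x18000000180000001a000000500000000000000000 0x5000000070000003f0000001f0000001b000000f70000000700000005 8 8) 0 0 (step_sound _ 71 [(rh5419adcd928dba20.shift 3 2), rh7722674408abc77d] (by decide +kernel))
noncomputable def rh38fe41199d46bd27 : CRef := CRef.mk (Pat.mk 0x180000001e00000000 0x10000000700000007000000070000001f0000001e00000003 8 5) 0 0 (step_sound _ 65 [(rh3244c3cc8379b070.shift 0 1), rh6ec66fba7087e67a] (by decide +kernel))
noncomputable def rh2579e45badb532ba : CRef := CRef.mk (Pat.mk 0x18000000100000001000000018 0xe7000000ff0000003f0000001800000018 8 8) 0 0 (step_sound _ 101 [rh05b63e365368301c, (rh2f68792b6b779e96.shift 4 0)] (by decide +kernel))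
noncomputable def rh568888e51aa47d8f : CRef := CRef.mk (Pat.mk 0x180000001000000012000000100000000000000000 0x500000007000000270000003f0000001f00000013000000170000001700000005 8 6) 0 0 (step_sound _ 129 [(rh55ab471746fb11ce.shift 0 1), (rh61bb3e87044802ff.shift 0 1), (rh8d89c67429283111.shift 0 2), (rha1c2d3324fed5736.shift 0 1), rhf61eeaac5a7050bf] (by decide +kernel))
noncomputable def rhd397cddb210a7dee : CRef := CRef.mk (Pat.mk 0x8000000030000000a000000000000000000000000 0x500000007000000070000001e000000030000001e000000070000000700000005 8 5) 0 0 (step_sound _ 98 [rh65683665a4367d5a, (rhf48373e13d2bc128.shift 0 3)] (by decide +kernel))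
noncomputable def rhc2ad40f2ae2910b3 : CRef := CRef.mk (Pat.mk 0x8000000030000000a000000000000000000000000 0x400000006000000060000001e000000030000001f000000070000000700000005 8 5) 0 0 (step_sound _ 98 [(rhf48373e13d2bc128.shift 0 3), rhf8d2c7754c529ada] (by decide +kernel))
noncomputable def rhccd3da8ad89ccecc : CRef := CRef.mk (Pat.mk 0x500000001a00000018000000180000000000000000 0x500000007000000f70000001b0000001f0000003f0000000700000005 8 8) 0 0 (step_sound _ 167 [rh490f1f4b9520b041, (rhb2a0b9ccfb5cecd5.shift 3 4)] (by decide +kernel))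
noncomputable def rhdd5421d82ea8dda4 : CRef := CRef.mk (Pat.mk 0x1e0000001800000000000000000000000000000000 0x30000001e0000001f00000007000000070000000700000001 8 5) 0 0 (step_sound _ 129 [rh8e1215a39536ed93, (rheb0810cc63b001d8.shift 0 4)] (by decide +kernel))
noncomputable def rh502024dceb64c54f : CRef := CRef.mk (Pat.mk 0x1800000010000000100000001800000000 0x18000000180000003f000000ff000000e7 8 8) 0 0 (step_sound _ 37 [(rh55afc6a59410cf00.shift 4 0), rh699b58f21bb7f044] (by decide +kernel))
noncomputable def rhd2535ba1c3cca78a : CRef := CRef.mk (Pat.mk 0x10000000120000001000000018000000000000000000000000 0x50000001700000017000000130000001f0000003f000000270000000700000005 8 6) 0 0 (step_sound _ 129 [(rh3bb9a3c01f594cd8.shift 0 3), (rh9f4cbde3360fd981.shift 0 3), (rhbce4ce20abb4e41c.shift 0 2), (rhbeeaa3c318ac1705.shift 0 3), rhdf645b7890f614b7] (by decide +kernel))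
noncomputable def rh664bab8444a1d212 : CRef := CRef.mk (Pat.mk 0x180000000c0000004000000000000000000000000000000000 0x100000001800000018000000180000000f0000007c0000001c0000001c0000001c00000004 8 7) 0 0 (step_sound _ 161 [(rh53b3c253cb0c65f4.shift 0 5), (rhf729c277a7963145.shift 2 0)] (by decide +kernel))
noncomputable def rh843dd54217a611e0 : CRef := CRef.mk (Pat.mk 0x8000000380000002000000038 0x1c0000003c0000001f00000018000000380000003800000038 8 6) 0 0 (step_sound _ 100 [(rh1ededbcb63c3ab78.shift 3 0), rhb38d2f0b884a522a, (rhc2f05e62faab8d19.shift 3 0), (rhe072fffdd2fccf38.shift 4 0)] (by decide +kernel))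
noncomputable def rh1cf7204b4a3ab876 : CRef := CRef.mk (Pat.mk 0x10000000000000001e00000000000000000000000000000000 0x1000000070000001f000000070000001e00000003000000070000000700000005 8 5) 0 0 (step_sound _ 161 [(rh3244c3cc8379b070.shift 0 4), rhacaf1dec1964dd73] (by decide +kernel))
noncomputable def rh38c8fde7d4ea4394 : CRef := CRef.mk (Pat.mk 0x20000000200000002000000030 0x5f0000007e000000ff0000003800000030 8 8) 0 0 (step_sound _ 100 [rh44d6531c7ef9718f, (rh50fbb5868c909700.shift 4 0)] (by decide +kernel))
noncomputable def rhb0844fa5cc84ae8b : CRef := CRef.mk (Pat.mk 0x10000000300000001a 0x28000000380000003f0000003e000000770000003e0000001a 8 7) 0 0 (step_sound _ 100 [(rh5d410e570082021e.shift 3 0), (rh64bc0dab78a08b48.shift 3 0), (rh9fb9dc683e09b5f3.shift 3 0), (rhdf9f2056a37121a5.shift 3 0), rhf6383a43a4d8b352] (by decide +kernel))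
noncomputable def rh65dc60f498c199b3 : CRef := CRef.mk (Pat.mk 0x300000001a000000c000000040000000000000000000000000 0x40000000c0000002f0000003f0000001b000000d800000078000000380000003800000020 8 8) 0 0 (step_sound _ 100 [(rh4deed075e3d46aba.shift 0 2), (rh57128f9752fd2baa.shift 3 2), (rhbc49f56af93ead8f.shift 3 2), (rhd22919919fc506b5.shift 3 0)] (by decide +kernel))
noncomputable def rhb8408edd4fb55b0c : CRef := CRef.mk (Pat.mk 0x140000001600000006000000000000000000000000 0x80000003c000000160000003e0000003b0000003a00000028 8 6) 0 0 (step_sound _ 65 [rh5a198e34aa5d1367, (rh71222050f2c63a3a.shift 1 1)] (by decide +kernel))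
noncomputable def rh5f3acdbdeac0cab2 : CRef := CRef.mk (Pat.mk 0x160000001600000006000000000000000000000000 0x280000003f0000003b00000036000000160000003e0000003b0000003b00000028 8 6) 0 0 (step_sound _ 100 [(rh5610213daa1b6928.shift 0 1), (rh628177e2e22def3f.shift 0 1), (rh73c9385ceb03b91b.shift 1 0), (rh895960a8d60b102d.shift 3 0), rhe37ea9bb9eb2baa5] (by decide +kernel))
noncomputable def rh1e0c585f9b29c5f4 : CRef := CRef.mk (Pat.mk 0x120000001600000006000000000000000000000000 0x280000003e0000003a00000032000000160000003f000000380000003800000028 8 6) 0 0 (step_sound _ 100 [(rh3c3d6eca3b18f12d.shift 0 1), (rh73c9385ceb03b91b.shift 1 0), (rhbba60a05fb0c46a0.shift 1 1), (rhda7c17c004b4f878.shift 1 2)] (by decide +kernel))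
noncomputable def rh864d0f7e0b70fcf1 : CRef := CRef.mk (Pat.mk 0x180000005300000058000000000000000000000000 0xa0000000e8000000ec000000f80000005b000000fe000000cc0000008c00000080 8 8) 0 0 (step_sound _ 131 [(rh5610213daa1b6928.shift 2 1), (rhd3ac4c405d15beae.shift 2 0), (rheef7c93d6194f833.shift 0 2)] (by decide +kernel))
noncomputable def rh45a7d24dda29117d : CRef := CRef.mk (Pat.mk 0x430000005800000000000000000000000000000000 0xa0000000e0000000e000000043000000fe000000e0000000e0000000a000000080 8 8) 0 0 (step_sound _ 130 [(rh09d4dfe75d4407d6.shift 0 4), (rh2e7ab314c00e4ac4.shift 2 0)] (by decide +kernel))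
noncomputable def rh3a602b9f5da63875 : CRef := CRef.mk (Pat.mk 0xb0000000a0000000a000000000000000000000000 0x100000001d0000001f0000001d0000001b0000000b0000001a0000001c0000001c00000014 8 5) 0 0 (step_sound _ 195 [(rh6c59ce14113da07f.shift 3 1), rhc754b30bf0ce4832, (rhfae6d335bc204cce.shift 0 3)] (by decide +kernel))
noncomputable def rh00e164d6cde6a508 : CRef := CRef.mk (Pat.mk 0x16000000140000001400000000 0x200000003a0000003e0000003b0000001e000000160000003400000020 8 6) 0 0 (step_sound _ 132 [(rh5c2604daa0330ae7.shift 3 0), (rhc7d27719f4944644.shift 0 1), (rhddcd04bb31546311.shift 1 1), (rhfae6d335bc204cce.shift 1 1)] (by decide +kernel))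
noncomputable def rh2e1974493f032c80 : CRef := CRef.mk (Pat.mk 0x6000000160000001400000000 0x280000003a0000003b0000003e000000160000003c00000008 8 6) 0 0 (step_sound _ 129 [(rh2145e1d24b96a57e.shift 1 1), rh6dd622a1e2b981fb] (by decide +kernel))
noncomputable def rh7dd0fcc09b49d7bb : CRef := CRef.mk (Pat.mk 0x12000000060000000200000000000000000000000000000000 0x5000000070000000700000007000000070000001e000000060000000200000007000000070000000700000005 8 5) 0 0 (step_sound _ 97 [rh1b9022be4f7af407, (rh301a6b3a9154ed36.shift 1 1), (rh6eff4158bb400f47.shift 0 1), (rh91a545eb3be094e3.shift 0 1), (rhd37b89f2d83c2639.shift 0 3)] (by decide +kernel))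
noncomputable def rh02fbbc0a8f992bc1 : CRef := CRef.mk (Pat.mk 0x120000000300000010000000000000000000000000 0x500000007000000070000001f000000030000001e000000060000000600000004 8 5) 0 0 (step_sound _ 162 [(rh361cc68994bd8a63.shift 0 4), rhea6fe48d7dc85872] (by decide +kernel))
noncomputable def rha725460ffe1da1b4 : CRef := CRef.mk (Pat.mk 0x12000000030000001000000000000000000000000000000000 0x500000007000000070000001e000000030000001f00000007000000070000000700000001 8 5) 0 0 (step_sound _ 194 [(rh361cc68994bd8a63.shift 0 5), rh5d727e9e2cb8a0a4] (by decide +kernel))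
noncomputable def rh696e4b2d4403ab50 : CRef := CRef.mk (Pat.mk 0x8000000180000000c000000000000000000000000 0x2000000170000003f0000001f0000000c0000000c0000000c0000000c 8 6) 0 0 (step_sound _ 67 [(rh000637b5a81e86aa.shift 2 0), (rha707fb719e87fe6e.shift 3 1), (rhd1fa8140a3eb151f.shift 2 0), (rhe0a833230a2d30d2.shift 0 2)] (by decide +kernel))
noncomputable def rhdbb1046ae8740e38 : CRef := CRef.mk (Pat.mk 0x200000002000000030 0x500000007f000000fe000000fe0000003000000030 8 8) 0 0 (step_sound _ 101 [(rh1741680720c097b4.shift 4 0), rh4da0bf2b49ae6da1, (rh9a369cb82ea472da.shift 4 0), (rhe62cab2ff5ad6fe2.shift 4 0)] (by decide +kernel))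
noncomputable def rh9ca81fc7eafca0fb : CRef := CRef.mk (Pat.mk 0x180000000c0000004000000000000000000000000000000000 0x140000001c0000001e0000000f0000001e0000000f0000007c0000003c0000001c0000001c00000010 8 7) 0 0 (step_sound _ 131 [(rh12452934acb847d5.shift 2 3), (rh60e2265b2a69f75b.shift 2 0), (rh7dfb6563d40d6241.shift 2 2), (rh97173829eca70163.shift 2 0), (rhaf20dac045c88d13.shift 0 3)] (by decide +kernel))
noncomputable def rh2832baeff091a0bc : CRef := CRef.mk (Pat.mk 0x400000000c00000018000000000000000000000000 0x40000001c0000001c0000001c0000007c0000000f00000018000000180000001800000010 8 7) 0 0 (step_sound _ 129 [(rh38f5a6be3f89f342.shift 2 0), (rhb739f4f82bb681b4.shift 0 3)] (by decide +kernel))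
noncomputable def rhec64a586f25bb7f2 : CRef := CRef.mk (Pat.mk 0x38000000200000003800000008000000000000000000000000 0x380000003800000038000000180000001f0000003c0000001c 8 6) 0 0 (step_sound _ 100 [(rh530f636ca6cd92e8.shift 3 1), (rh7e6cfecd672676db.shift 3 2), rhab690dc9988027b7, (rhf9af042da61fc652.shift 4 1)] (by decide +kernel))
noncomputable def rh159d2c9ab420c97c : CRef := CRef.mk (Pat.mk 0x1e00000000000000100000000000000000 0x50000000700000007000000030000001e000000070000001f0000000700000001 8 5) 0 0 (step_sound _ 97 [rhd23270369ababbf5, (rheb0810cc63b001d8.shift 0 3)] (by decide +kernel))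
noncomputable def rh96b735175f692bff : CRef := CRef.mk (Pat.mk 0x3000000020000000200000002000000000 0x3000000038000000ff0000007e0000005f 8 8) 0 0 (step_sound _ 36 [rh1f6899fc789327bb, (rh932754581e0f4330.shift 4 0)] (by decide +kernel))
noncomputable def rh1f2fb4b4d66a9d38 : CRef := CRef.mk (Pat.mk 0x1a000000300000001000000000000000000000000000000000 0x1a0000003e000000770000003e0000003f0000003800000028 8 7) 0 0 (step_sound _ 100 [(rh46bfb734f58a0e67.shift 3 0), (rh8a1bd34420cccc7f.shift 3 0), (rh993f8fc304a17471.shift 0 2), (rhbba7d23481996066.shift 3 0), (rhde32e0b5ff3be9cc.shift 3 0)] (by decide +kernel))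
noncomputable def rh1bdf217f2f5c8138 : CRef := CRef.mk (Pat.mk 0x40000000c00000001a00000030000000000000000000000000 0x20000000380000003800000078000000d80000001b0000003f0000002f0000000c00000004 8 8) 0 0 (step_sound _ 196 [(rh16fc365d6ae07ed0.shift 3 1), (rh71aae90b29d9e2ee.shift 3 2), rh82acaa091ceefd4f, (rhbde396fddbbf315b.shift 3 2)] (by decide +kernel))
noncomputable def rh03153d0859b1137f : CRef := CRef.mk (Pat.mk 0x6000000160000001400000000 0x280000003a0000003b0000003e000000160000003c00000008 8 6) 0 0 (step_sound _ 129 [(rh2145e1d24b96a57e.shift 1 1), rh68538c9da66367ba] (by decide +kernel))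
noncomputable def rhe0487d4c002a15f7 : CRef := CRef.mk (Pat.mk 0x60000001600000016000000000000000000000000 0x280000003b0000003b0000003e00000016000000360000003b0000003f00000028 8 6) 0 0 (step_sound _ 164 [(rh2938af1adc3912ac.shift 0 1), (rh82874e8df3455493.shift 1 0), (rh8ebc15871c473b31.shift 0 3), rh968530234fcc08bd, (rhd03d0c8aad655629.shift 3 1)] (by decide +kernel))
noncomputable def rh013e7e31299d95f9 : CRef := CRef.mk (Pat.mk 0x60000001600000012000000000000000000000000 0x2800000038000000380000003f00000016000000320000003a0000003e00000028 8 6) 0 0 (step_sound _ 164 [(rh2fd51713639d5752.shift 0 3), (rh32ed7c24a64682a4.shift 1 0), (rh8062e0b2b3b80ab1.shift 1 0), (rh82874e8df3455493.shift 1 0)] (by decide +kernel))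
noncomputable def rh4c3671d8fdb5d6e7 : CRef := CRef.mk (Pat.mk 0x580000005300000018000000000000000000000000 0x800000008c000000cc000000fe0000005b000000f8000000ec000000e8000000a0 8 8) 0 0 (step_sound _ 131 [(rh0b5e6a45800386fb.shift 2 0), (rh34c55192f3ac329c.shift 0 1), (rh8ebc15871c473b31.shift 2 3)] (by decide +kernel))
noncomputable def rh5cdf77804fbf687f : CRef := CRef.mk (Pat.mk 0x5800000043000000000000000000000000 0x80000000a0000000e0000000e0000000fe00000043000000e0000000e0000000a0 8 8) 0 0 (step_sound _ 130 [(rhca9569cc80abfe76.shift 0 3), (rhed073f5a5fc487b4.shift 2 0)] (by decide +kernel))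
noncomputable def rhe540f3fdb3162fca : CRef := CRef.mk (Pat.mk 0xa0000000a0000000b00000000000000000000000000000000 0x140000001c0000001c0000001a0000000b0000001b0000001d0000001f0000001d00000010 8 5) 0 0 (step_sound _ 99 [rh1a687c16a49d3c24, (rh80ca7d6ec55069d4.shift 0 1), (rhced6d86d2069808b.shift 3 2)] (by decide +kernel))
noncomputable def rh8709a8d5cbb13fd6 : CRef := CRef.mk (Pat.mk 0x14000000140000001600000000000000000000000000000000 0x2000000034000000160000001e0000003b0000003e0000003a00000020 8 6) 0 0 (step_sound _ 100 [(rh04ac465dcf32a7fa.shift 0 1), (rh1a687c16a49d3c24.shift 1 0), (rh4a38b3b3b5efb383.shift 3 1), (rh5f11ee373cbffcaa.shift 1 2)] (by decide +kernel))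
noncomputable def rh5e5c883489c18f65 : CRef := CRef.mk (Pat.mk 0x140000001600000006000000000000000000000000 0x80000003c000000160000003e0000003b0000003a00000028 8 6) 0 0 (step_sound _ 65 [(rh71222050f2c63a3a.shift 1 1), rhace794de8565254d] (by decide +kernel))
noncomputable def rh867717c91c782956 : CRef := CRef.mk (Pat.mk 0x200000006000000120000000000000000000000000000000000000000 0x500000007000000070000000700000002000000060000001e0000000700000007000000070000000700000005 8 5) 0 0 (step_sound _ 257 [(rh14f80659e6313cc6.shift 1 5), (rh1741680720c097b4.shift 0 5), (rh3da62da861143b9a.shift 0 5), rh8ac0375feb65ec36, (rhfb9fb48a5e63ed80.shift 0 5)] (by decide +kernel))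
noncomputable def rh163e8683bc765019 : CRef := CRef.mk (Pat.mk 0x100000000300000012000000000000000000000000 0x400000006000000060000001e000000030000001f000000070000000700000005 8 5) 0 0 (step_sound _ 98 [(rh2fe78cc5ca4405d8.shift 0 3), rh604d59a1a247a2ca] (by decide +kernel))
noncomputable def rh16e079015aac45af : CRef := CRef.mk (Pat.mk 0x100000000300000012000000000000000000000000 0x10000000700000007000000070000001f000000030000001e000000070000000700000005 8 5) 0 0 (step_sound _ 98 [(rh2fe78cc5ca4405d8.shift 0 3), rhf58597dfe0277d79] (by decide +kernel))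
noncomputable def rh524dd40e00a932b0 : CRef := CRef.mk (Pat.mk 0xc00000018000000080000000000000000 0xc0000000c0000000c0000000c0000001f0000003f0000001700000002 8 6) 0 0 (step_sound _ 163 [rh5f35a4995f96f8f2, (rh79bf920132cab629.shift 2 2), (rhb23658ecdd7ce5df.shift 2 2), (rhd4b4beefcd67f51e.shift 3 1)] (by decide +kernel))
noncomputable def rhca2a506d6f2037fc : CRef := CRef.mk (Pat.mk 0x300000002000000020000000000000000000000000 0x3000000030000000fe000000fe0000007f00000050 8 8) 0 0 (step_sound _ 69 [(rh6eff4158bb400f47.shift 4 0), (rha613ffd40b6c9d24.shift 4 0), (rhc03d1d5fd6c0a2a4.shift 0 1), (rhe4441baab75a6f73.shift 4 0)] (by decide +kernel))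
noncomputable def rhf9625a8f6cfa87d9 : CRef := CRef.mk (Pat.mk 0x400000000c0000001800000000000000000000000000000000 0x100000001c0000001c0000003c0000007c0000000f0000001e0000000f0000001e0000001c00000014 8 7) 0 0 (step_sound _ 195 [(rh1d7913ad4aba122e.shift 2 3), (rh433b97a3e346ca44.shift 2 3), rh472062a1553a9798, (rhc47fe1bc6b175f77.shift 2 2), (rhdd300e2c6de2e7d6.shift 2 2)] (by decide +kernel))
noncomputable def rhb858bac114020475 : CRef := CRef.mk (Pat.mk 0x5300000052000000420000000000000000 0xa0000000e0000000e0000000530000007e000000ef0000007800000028 8 8) 0 0 (step_sound _ 166 [(rh1741680720c097b4.shift 5 2), (rh20966da26a1c2ae8.shift 5 1), (rh771d065bdc85bf2d.shift 5 1), rhe437dd67d2565595] (by decide +kernel))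
noncomputable def rh9097ff079cc91439 : CRef := CRef.mk (Pat.mk 0x40000000500000005800000042000000000000000000000000 0x4000000050000000780000006f000000f8000000e800000080 8 8) 0 0 (step_sound _ 69 [(rh79877ebd3ef475dd.shift 5 2), rhf809877c39da8efa] (by decide +kernel))
noncomputable def rh1cc5a25ac290d6f6 : CRef := CRef.mk (Pat.mk 0x80000000a000000080000000000000000000000000000000000000000 0x8000001ff000000fc000001ff000000fc0000001c0000001c00000014 8 9) 0 0 (step_sound _ 131 [rh10938268e7997fb4, rh39aba2be4450db88, (rh8cdd36b03d57a2f6.shift 2 2), (rh98e81da02e1c1726.shift 1 3)] (by decide +kernel))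
noncomputable def rh4c8206db8f5451aa : CRef := CRef.mk (Pat.mk 0x40000001400000014000000000000000000000000 0xa0000003a000000fb0000003f000000160000003c000000780000003800000028 8 8) 0 0 (step_sound _ 164 [(rh09744b0e0b12763d.shift 0 1), (rh12f357f1cbc005b5.shift 1 0), (rh3c851893f2b0a6e0.shift 1 0), (rh584475c404e701ef.shift 0 1), (rh735dfb772402a1b5.shift 1 0), (rh77ada954ad055f4e.shift 1 0), (rh7a0a2d7bb6275fce.shift 1 2), (rhbfaa092374ea7b3c.shift 1 0), (rhc92cf1503da0b447.shift 1 0)] (by decide +kernel))
noncomputable def rhc97d122e381eb1e2 : CRef := CRef.mk (Pat.mk 0x50000000500000005800000002000000000000000000000000 0x280000006c000000f800000058000000d8000000ef000000fc000000e800000080 8 8) 0 0 (step_sound _ 102 [(rh17d87c96c8ae7cc1.shift 0 2), (rh1a687c16a49d3c24.shift 3 0), (rh5abfc4c9d959be03.shift 5 2)] (by decide +kernel))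
noncomputable def rh87da00773181b0d5 : CRef := CRef.mk (Pat.mk 0x500000005300000052000000000000000000000000 0xa0000000e0000000e0000000500000005b000000de000000e8000000f800000028 8 8) 0 0 (step_sound _ 71 [(rh1148744b53f3df58.shift 5 2), rh897cf50eb2dd4f57] (by decide +kernel))
noncomputable def rhd1b713fac0441705 : CRef := CRef.mk (Pat.mk 0xa0000000a0000000b00000000000000000000000000000000 0x100000001c0000001f0000000b0000000b0000000d0000001f0000001d00000010 8 5) 0 0 (step_sound _ 99 [rh1a687c16a49d3c24, (rh2c718f29f451ad95.shift 0 3)] (by decide +kernel))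
noncomputable def rh4c7ecf213f21fb53 : CRef := CRef.mk (Pat.mk 0x40000000500000005300000052000000000000000000000000 0x40000000500000005b000000de000000e8000000f800000028 8 8) 0 0 (step_sound _ 99 [(rh5419adcd928dba20.shift 0 3), (rh6fdaeaada4868619.shift 3 0)] (by decide +kernel))
noncomputable def rh434c8c5524d05458 : CRef := CRef.mk (Pat.mk 0x14000000140000001400000000 0xa0000002a000001fb000001ff000001d60000001400000010 8 9) 0 0 (step_sound _ 99 [(rh5968a43710cc2049.shift 1 2), (rh5bc090164f229948.shift 1 0), (rh6a0d0a5496e7040a.shift 0 1), (rhd01ed0cc6ce530d4.shift 2 0)] (by decide +kernel))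
noncomputable def rhc8375744fa84e1b9 : CRef := CRef.mk (Pat.mk 0x400000005000000053000000520000000200000000 0x20000000e0000000e8000000e80000006c000000fc0000005b0000005e0000000f0000000c 8 8) 0 0 (step_sound _ 133 [rh34997c6c45a82ad4, (rhc570cd3ed08f11ec.shift 2 2), (rhd91b73d7ee353e95.shift 5 2)] (by decide +kernel))
noncomputable def rh88a545f133649fdc : CRef := CRef.mk (Pat.mk 0x4000000140000001e00000010000000000000000000000000 0x2800000038000000380000003e000000140000001e0000001b0000003e0000003a00000020 8 6) 0 0 (step_sound _ 196 [(rh03dfdf12d5937476.shift 3 2), (rh2c718f29f451ad95.shift 1 3), (rh68a777751bfeafdf.shift 3 3), rh9d65deac8c430355] (by decide +kernel))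
noncomputable def rhce5bcebd56b0adeb : CRef := CRef.mk (Pat.mk 0x3c0000002000000020 0xa0000000e0000001e0000001f0000001e0000003c0000003e00000024 8 6) 0 0 (step_sound _ 100 [rh7d1dda835f84a090, (rhe072fffdd2fccf38.shift 4 0)] (by decide +kernel))
noncomputable def rh011789c12a2c3fb6 : CRef := CRef.mk (Pat.mk 0x300000002000000020000000000000000000000000000000000000000 0x10000000300000006000000060000000600000007000000070000000700000004 8 3) 0 0 (step_sound _ 129 [(rh50fbb5868c909700.shift 0 4), rh8aa44be36bea6fc8] (by decide +kernel))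
noncomputable def rh30305d136c4e797b : CRef := CRef.mk (Pat.mk 0x20000001a0000000a000000020000000000000000000000000000000000000000 0x20000001a0000000f000000030000000700000007000000070000000700000005 8 5) 0 0 (step_sound _ 129 [(rh17cd837667d3ea4b.shift 0 1), rh3029fcc108c82106, (rh7928877f9bf74a91.shift 0 3), (rh8cdd36b03d57a2f6.shift 0 2)] (by decide +kernel))
noncomputable def rh20283759a95f39c9 : CRef := CRef.mk (Pat.mk 0x20000000200000002000000000000000000000000000000000000000000000000 0x3000000030000000300000007000000070000000700000007000000070000000700000005 8 3) 0 0 (step_sound _ 161 [rh4501b96deca5f8bd, (rh6eff4158bb400f47.shift 0 3), (rh8ff3dde5b1c639e0.shift 0 3), (rhc4526fc8abf298b6.shift 0 3), (rhc9ac229b3c77cd55.shift 0 4)] (by decide +kernel))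
noncomputable def rh1139d6bf4d5e5990 : CRef := CRef.mk (Pat.mk 0x20000000200000002000000000000000000000000000000000000000000000000 0x400000006000000060000000300000007000000070000000700000007000000070000000700000005 8 3) 0 0 (step_sound _ 161 [(rh20966da26a1c2ae8.shift 0 4), rh4501b96deca5f8bd, (rh6eff4158bb400f47.shift 0 3), (rhc9ac229b3c77cd55.shift 0 4), (rhced6d86d2069808b.shift 1 4)] (by decide +kernel))
noncomputable def rh3cdfc95b8a6c8f07 : CRef := CRef.mk (Pat.mk 0x2000000020000000200000002000000000 0x5e000000fe0000007f000000300000003000000010 8 8) 0 0 (step_sound _ 132 [(rh50fbb5868c909700.shift 4 1), rheabe0e438c33a4c3] (by decide +kernel))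
noncomputable def rh9b7e08ffb97738fd : CRef := CRef.mk (Pat.mk 0x20000001a0000000000000000000000000000000000000000 0x10000000300000003000000030000001f0000000700000007000000070000000700000005 8 5) 0 0 (step_sound _ 129 [(rh01e48cd9f335aa73.shift 0 4), (rhb87c81b4d8d5df91.shift 0 1), rhe2f0be86d9180f25, (rhec5c45900e0e4fe3.shift 0 3)] (by decide +kernel))
noncomputable def rhd2824b026a0ea136 : CRef := CRef.mk (Pat.mk 0x80000006800000008000000000000000000000000000000000000000000000000 0x10000000180000007c0000001f0000007c0000001c0000001c0000001c0000001c00000014 8 7) 0 0 (step_sound _ 163 [(rh6eff4158bb400f47.shift 2 3), (rhad85a7675287bf13.shift 2 4), (rhced73f53d168b489.shift 2 0), (rhf2cc13c7785bbe1b.shift 0 4)] (by decide +kernel))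
noncomputable def rhb047b58c6647e019 : CRef := CRef.mk (Pat.mk 0x20000000200000002000000000000000000000000 0x4000000070000000700000007000000060000000600000006000000070000000700000005 8 3) 0 0 (step_sound _ 65 [rh6eff4158bb400f47, (rh79879632b2de51d2.shift 0 1), (rhced6d86d2069808b.shift 1 1)] (by decide +kernel))
noncomputable def rh75f553ebfb1a0a2a : CRef := CRef.mk (Pat.mk 0x20000000200000002000000000000000000000000000000000000000000000000 0x400000006000000060000000300000007000000070000000700000007000000070000000700000005 8 3) 0 0 (step_sound _ 161 [(rh20966da26a1c2ae8.shift 0 4), (rhced6d86d2069808b.shift 1 4), rhced73f53d168b489] (by decide +kernel))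
noncomputable def rhcc3d89bc571f34f7 : CRef := CRef.mk (Pat.mk 0x1000000010000000100000001000000000 0x800000018000000180000007e0000007e0000002f 8 7) 0 0 (step_sound _ 37 [rh37c6865929b64cd4, (rh55afc6a59410cf00.shift 4 0)] (by decide +kernel))
noncomputable def rhbd422f78fde663fb : CRef := CRef.mk (Pat.mk 0xc00000008000000680000000800000000 0x130000003f0000003f0000006c0000001c00000014 8 7) 0 0 (step_sound _ 132 [(rh2f68792b6b779e96.shift 3 1), rh4456cd0744d45437] (by decide +kernel))
noncomputable def rhd2aeb162551083e7 : CRef := CRef.mk (Pat.mk 0x10000000530000005a000000020000000000000000 0x110000005b0000005a0000006b0000007e0000007c 8 7) 0 0 (step_sound _ 35 [rhbd25a435242a4e32, (rhdebc43b768884653.shift 3 0)] (by decide +kernel))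
noncomputable def rh5bf21aa5f1a04c87 : CRef := CRef.mk (Pat.mk 0x10000000130000005a00000000000000000000000000000000 0x110000001b0000007a0000000f0000000f0000000f00000005 8 7) 0 0 (step_sound _ 99 [rh4f2be587b12529e6, (rhf9af042da61fc652.shift 3 1)] (by decide +kernel))
noncomputable def rh6a6424593d1db86c : CRef := CRef.mk (Pat.mk 0xa6000000b400000080000000000000000000000000 0x140000001c0000001c0000000a6000000f6000001de000000ff0000005e0000000a 8 9) 0 0 (step_sound _ 199 [rh00b540c67a2756af, (rh1741680720c097b4.shift 6 3), (rh20966da26a1c2ae8.shift 6 2), (rh771d065bdc85bf2d.shift 6 2)] (by decide +kernel))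
noncomputable def rha3a5b6818f489b0e : CRef := CRef.mk (Pat.mk 0x218000002d0000002000000020000000000 0x1c0000003c0000000f00000218000003d800001f18000003d000000100 8 13) 0 0 (step_sound _ 163 [(rhbd3b54bf001bc25c.shift 0 2), (rhc38f566cab2818e5.shift 3 1), (rhe39d8df881a686a0.shift 6 0)] (by decide +kernel))
noncomputable def rhd70fdbdd3c7facf2 : CRef := CRef.mk (Pat.mk 0x10000001100000003000000018 0x2f000000fe000001de000000340000001e 8 9) 0 0 (step_sound _ 2 [rh1c6efd333055354b, (rh53b3c253cb0c65f4.shift 1 0)] (by decide +kernel))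
noncomputable def rhc6d870872cf7a4df : CRef := CRef.mk (Pat.mk 0x80000000a0000000a0000000b000000000000000000000000 0x10000000180000000a0000000b0000001b0000001d0000001f00000005 8 5) 0 0 (step_sound _ 196 [(rh2f68792b6b779e96.shift 3 3), rh6fdaeaada4868619] (by decide +kernel))
noncomputable def rh4de917f2331580f9 : CRef := CRef.mk (Pat.mk 0x5000000050000000580000000200000000 0x20000000e0000000e8000000e8000003ec000003fc00000058000000580000000f0000000c 8 10) 0 0 (step_sound _ 166 [(rh0363d47a46978688.shift 3 2), (rh1741680720c097b4.shift 5 2), (rh2ace414d8183e76e.shift 2 2), rhbf02021c77817f50, (rhf1422681c6b900c2.shift 3 2)] (by decide +kernel))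
noncomputable def rh41b634482c33837b : CRef := CRef.mk (Pat.mk 0xa0000000a0000000b000000080000000000000000 0x10000000180000001a0000000b0000001b0000001d0000000f00000005 8 5) 0 0 (step_sound _ 34 [rh04b479415565aff9, (rh79877ebd3ef475dd.shift 2 1)] (by decide +kernel))
noncomputable def rh63b4356b753a8e7c : CRef := CRef.mk (Pat.mk 0x300000001800000000 0x280000003c0000003c000000ff000000ff000000f800000008 8 8) 0 0 (step_sound _ 70 [(rh18965a982d73c794.shift 3 1), rhad335599bc762b9d] (by decide +kernel))
noncomputable def rh93cfe605a6cfcbb7 : CRef := CRef.mk (Pat.mk 0x180000000c0000008000000000 0x200000006000000070000001f0000007f000000e700000002 8 8) 0 0 (step_sound _ 65 [(rh53b3c253cb0c65f4.shift 0 2), rh8ea229f5e9713ea2] (by decide +kernel))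
noncomputable def rhafd364ec7e69465b : CRef := CRef.mk (Pat.mk 0x2000000038000000100000007000000240 0x28000000280000002f0000007c0000001e00000074000003c0 8 10) 0 0 (step_sound _ 8 [(rh5419adcd928dba20.shift 5 0), (rhd20600d06944f4a7.shift 0 1)] (by decide +kernel))
noncomputable def rhbd5247e30ba47ccf : CRef := CRef.mk (Pat.mk 0x400000006000000400000000c000000180 0x30000003ff000003fe0000071f000000f800000198 8 11) 0 0 (step_sound _ 36 [(rhab22b5b56e7b3243.shift 4 0), rhf4fe39f76551673e] (by decide +kernel))
noncomputable def rhd0c84b89b0b69dae : CRef := CRef.mk (Pat.mk 0x20000002200000002000000020 0x5e000001fe000003bf0000002000000020 8 10) 0 0 (step_sound _ 100 [(rh50fbb5868c909700.shift 4 0), rh79e1f7b4de22e7cd] (by decide +kernel))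
noncomputable def rh4c31972280a3e7ef : CRef := CRef.mk (Pat.mk 0xe000000820000000200000030000000000000000000000000 0x730000007e000000e6000000030000003f000000770000000700000005 8 8) 0 0 (step_sound _ 97 [(rh79c0cf18aa204516.shift 0 2), rh984bfc6de6c2c524, (rhd0b5e121ccd1e6a2.shift 0 2)] (by decide +kernel))
noncomputable def rhf6c8d0449fbe3691 : CRef := CRef.mk (Pat.mk 0x180000000800000068000000c0000000000000000000000000 0x8000000180000001c0000006f000000fc000001dc0000001c0000001c 8 9) 0 0 (step_sound _ 99 [rh0fb3380c10651271, (rh984bfc6de6c2c524.shift 2 0), (rhd0b5e121ccd1e6a2.shift 2 2), (rhd630af2e39ca770f.shift 2 2)] (by decide +kernel))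
noncomputable def rhdaeccdbc26f7f25e : CRef := CRef.mk (Pat.mk 0xa00000082000000020000000200000000000000000000000000000000 0x700000007e000000e7000000030000000300000007000000070000000700000005 8 8) 0 0 (step_sound _ 128 [(rh932754581e0f4330.shift 0 3), rhfe582f9046590ed2] (by decide +kernel))
noncomputable def rha8736d66892c8c62 : CRef := CRef.mk (Pat.mk 0xa000000020000001a00000010000000000000000000000000 0x1000000030000001f000000070000001b0000001f000000070000000700000005 8 5) 0 0 (step_sound _ 97 [(rh13b7b4cecee73cc4.shift 0 2), (rh771d065bdc85bf2d.shift 0 2), (rha893ef807ce322b1.shift 0 2), rhc850b49d039efae1] (by decide +kernel))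
noncomputable def rh88ccb8bac705ffdb : CRef := CRef.mk (Pat.mk 0x280000020000000060000000c0 0x3800000038000001f8000001fc0000039f00000078000000f8 8 10) 0 0 (step_sound _ 100 [(rh16f04c9d7fe4feb3.shift 1 2), (rh75567da539a59428.shift 3 0), rhc1afa7a83dc6d141] (by decide +kernel))
noncomputable def rha42f102edfb2d060 : CRef := CRef.mk (Pat.mk 0x50000000100000001000000000 0x2800000038000000380000003f0000003e00000077000000380000001800000008 8 7) 0 0 (step_sound _ 132 [(rh193da7fc9e1674f1.shift 3 0), (rh20966da26a1c2ae8.shift 3 0), (rh3fe25ec969704845.shift 0 1), (rh771d065bdc85bf2d.shift 3 0), (rhfbb519b1183670ff.shift 3 1)] (by decide +kernel))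
noncomputable def rh8c175e8c35ce1ec9 : CRef := CRef.mk (Pat.mk 0x2000000020000000200000002000000000 0x5e000000fe0000007f000000300000003000000010 8 8) 0 0 (step_sound _ 36 [(rh932754581e0f4330.shift 4 0), (rhf89edf73a5e15437.shift 0 1)] (by decide +kernel))
noncomputable def rh61225f19dbdc612e : CRef := CRef.mk (Pat.mk 0x2000000020000000200000030000000000000000000000000 0x10000000700000007000000070000000300000003000000030000003e000000770000000700000005 8 7) 0 0 (step_sound _ 97 [(rh1b4f0069412b7448.shift 0 2), rhc850b49d039efae1, (rhd0b5e121ccd1e6a2.shift 0 2)] (by decide +kernel))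
noncomputable def rhfd20bf8e1547d7b2 : CRef := CRef.mk (Pat.mk 0xe000000800000000000000000 0x200000007000000070000007f0000007e000000e70000000200000002 8 8) 0 0 (step_sound _ 100 [(rh0f1f75917d11acd2.shift 1 2), (rh4189d026c588653f.shift 0 2), rhdd84cee66008963d] (by decide +kernel))
noncomputable def rhd75013dc52fe4dbe : CRef := CRef.mk (Pat.mk 0x1e000000000000000000000000 0x50000000700000007000000370000001e000000070000000600000006 8 6) 0 0 (step_sound _ 65 [rhd8a09c23402609b8, (rheb0810cc63b001d8.shift 0 2)] (by decide +kernel))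
noncomputable def rhca5a3450947b29b5 : CRef := CRef.mk (Pat.mk 0x20000001e0000000000000000 0x400000007000000070000000f0000003e0000001e0000000700000004 8 6) 0 0 (step_sound _ 33 [(rheb0810cc63b001d8.shift 0 1), rhfcca778270d78265] (by decide +kernel))
noncomputable def rh3d40c39e665f4252 : CRef := CRef.mk (Pat.mk 0x380000000000000000 0x40000000e0000000e0000007f0000003e0000000f00000004 8 7) 0 0 (step_sound _ 66 [(rh4c622fddc53a5f99.shift 0 2), (rh592c7139d2c44767.shift 0 1), (rh7503b04969fe6b86.shift 1 0), (rh9e97bba44c1b13e4.shift 0 1)] (by decide +kernel))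
noncomputable def rh9f52acd5c7c25880 : CRef := CRef.mk (Pat.mk 0x1c00000100000000300000006000000000 0x1800000018000000f8000000fc000001cf0000003c0000007f000000ee 8 9) 0 0 (step_sound _ 67 [(rhb739f4f82bb681b4.shift 2 1), rhf9a4d64d41965934] (by decide +kernel))
noncomputable def rh4e46b76d18650bf6 : CRef := CRef.mk (Pat.mk 0x70000000000000002000000000 0x1ce000001fe0000003f0000002000000020 8 9) 0 0 (step_sound _ 99 [rh1597be57f2f4e72d, (rh3b00e9e9432b8f40.shift 2 2), (rh592c7139d2c44767.shift 1 2), (rhef1db6dac90851f4.shift 1 0)] (by decide +kernel))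
noncomputable def rh3a21753ce8e9e620 : CRef := CRef.mk (Pat.mk 0x2800000200000000680000000000000000 0x4000001ff000001fe0000038f000000680000003c0000001c 8 10) 0 0 (step_sound _ 132 [rh19d493f5ae85a4a3, (rh33f26072e0c5c9bf.shift 1 3), (rh424c8d85d70bde57.shift 0 1), (rh94c3229752fa6e32.shift 2 0)] (by decide +kernel))
noncomputable def rhb8a199cf31a866f3 : CRef := CRef.mk (Pat.mk 0x18000001000000003000000018 0xef000000fe000001d7000000300000001e 8 9) 0 0 (step_sound _ 101 [rh2439bc6aef3fc917, (rh5a4df29f20c07a62.shift 3 0), (rh6de9f2ff3549b970.shift 2 0), (rh981e53b33f264963.shift 1 2)] (by decide +kernel))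
noncomputable def rh1276910a2c206cfd : CRef := CRef.mk (Pat.mk 0x800000008000000180000001000000000 0x40000000c0000000e0000001f0000001f00000017 8 5) 0 0 (step_sound _ 35 [rh49dc6ff8ea18768c, (rh55afc6a59410cf00.shift 3 0)] (by decide +kernel))
noncomputable def rhe759b6a7f2166f7e : CRef := CRef.mk (Pat.mk 0x400000002000000020000000600000002 0x50000000700000007000000060000000700000003000000070000000600000002 8 3) 0 0 (step_sound _ 129 [(rh2f68792b6b779e96.shift 1 1), rh6e0d248e3b80ac14] (by decide +kernel))
noncomputable def rh24fdfc38e02f2ad4 : CRef := CRef.mk (Pat.mk 0x100000001000000070000000f0000000000000000000000000 0xe8000000fc0000003f00000070000000f0000001800000008000000080 8 9) 0 0 (step_sound _ 197 [(rh2f68792b6b779e96.shift 4 3), rhecafb423dbcf6ddd] (by decide +kernel))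
noncomputable def rh9ee07d9e6562d233 : CRef := CRef.mk (Pat.mk 0x800000008000000380000002000000000000000000000000000000000 0x140000001c0000001c000000180000007c0000001f000000380000002c0000001c0000001c0000001c00000014 8 7) 0 0 (step_sound _ 194 [(rh5350a5c3672f0581.shift 0 4), (rhc02b3aee7ab87ee1.shift 0 5), (rhcf7c6259d0c8bf4c.shift 2 0)] (by decide +kernel))
noncomputable def rhd2080ece698416bd : CRef := CRef.mk (Pat.mk 0x800000018000000380000002000000000 0xc0000001f0000007c0000001e000000380000002800000008 8 7) 0 0 (step_sound _ 132 [(rh2145e1d24b96a57e.shift 4 1), rhea12a3b50176196c] (by decide +kernel))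
noncomputable def rh0b9139bcbc059e8b : CRef := CRef.mk (Pat.mk 0x4000000000000001c0000003000000000000000000000000000000000 0xa0000000e0000000e0000000c0000000c0000001c0000003f0000000e0000000e0000000e0000000a 8 6) 0 0 (step_sound _ 194 [(rh14e0829dc73b6804.shift 1 4), (rh4d7ddf60dd370de9.shift 1 4), rh960aaa25ee393022] (by decide +kernel))
noncomputable def rh810ed33b9c57137c : CRef := CRef.mk (Pat.mk 0x200000003000000200000000680000000000000000 0x80000000c000001ef000001fe0000038f0000006c0000003c0000001c 8 10) 0 0 (step_sound _ 131 [(rh8b7ec1b2b48007ba.shift 1 3), rh9185107e9f8e405a, (rha11dfd15f08f96e3.shift 2 4), (rha1826255f1f84bae.shift 2 0), (rha4e887c2a2a0f60b.shift 0 3)] (by decide +kernel))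
noncomputable def rhcc5ab90388f799eb : CRef := CRef.mk (Pat.mk 0x1800000100000000340000007000000000 0x2000000ef000000fe000001c7000000360000007e0000000e 8 9) 0 0 (step_sound _ 34 [rh2f5360b5ad08d90e, (rh32fdcf43850040ab.shift 1 0), (rh6e1685e3533aff0e.shift 1 1), (rhab087011127a035a.shift 1 0)] (by decide +kernel))
noncomputable def rhd427cfd0dc02f81c : CRef := CRef.mk (Pat.mk 0x380000000000000000 0x40000000e0000000e0000007f0000003e0000000f00000004 8 7) 0 0 (step_sound _ 66 [(rh4c622fddc53a5f99.shift 0 2), (rh7503b04969fe6b86.shift 1 0), (rh775ca1963e850b80.shift 0 1), (rh9e97bba44c1b13e4.shift 0 1)] (by decide +kernel))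
noncomputable def rh6a7a928648825441 : CRef := CRef.mk (Pat.mk 0x18000001000000003000000020 0xff000000fe000001d70000003000000030 8 9) 0 0 (step_sound _ 68 [(rh2145e1d24b96a57e.shift 4 0), rha0a71f416b3c80b0] (by decide +kernel))
noncomputable def rh7b36464026668db6 : CRef := CRef.mk (Pat.mk 0x200000002000000020000000200000000 0x50000000700000007000000070000000700000003000000030000000200000002 8 3) 0 0 (step_sound _ 128 [(rh50fbb5868c909700.shift 0 1), rhfce861f7bf6425ca] (by decide +kernel))
noncomputable def rh97c29639673a5412 : CRef := CRef.mk (Pat.mk 0x2000000020000000600000002 0x50000000700000007000000070000000300000003000000070000000600000002 8 3) 0 0 (step_sound _ 129 [rh3ca48e2a6d60153d, rh6a2243783d7ebeca, (rhba97f7f4ade5e136.shift 0 1)] (by decide +kernel))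
noncomputable def rhe5c99c8a0a047532 : CRef := CRef.mk (Pat.mk 0x4000000840000000400000000 0xa0000000a0000003f0000007f000000e60000000400000004 8 8) 0 0 (step_sound _ 129 [(rh041e4d25099758bc.shift 1 0), (rh0dbc8abee7ad42d4.shift 1 0), rh7dab7edc690d2789, (rhbab796f6dafe9186.shift 1 1), rhbec796c3ea7a32e6] (by decide +kernel))
noncomputable def rhde5eb7ef104fcd5f : CRef := CRef.mk (Pat.mk 0x10000000100000007000000040 0x28000000380000003f0000007e000000ff0000003c0000007000000040 8 8) 0 0 (step_sound _ 132 [(rh0f4f5e983b383ce5.shift 0 1), (rh642c7f59d8cca692.shift 1 0), (rh74077b621f65b9d0.shift 4 0), (rhba97f7f4ade5e136.shift 3 1), (rhc85cc95794737cf7.shift 3 1)] (by decide +kernel))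
noncomputable def rhb5ddd0b817a70aca : CRef := CRef.mk (Pat.mk 0x1000000014000000300000001000000000 0x2f0000003e00000016000000340000001e00000008 8 6) 0 0 (step_sound _ 133 [(rh2f68792b6b779e96.shift 4 1), rh87dd4c00dcd5841a] (by decide +kernel))
noncomputable def rh9bce65c81475c8f7 : CRef := CRef.mk (Pat.mk 0x1800000100000000300000002000000000 0x400000004000000f7000000ff000001df000000380000003e0000001e 8 9) 0 0 (step_sound _ 100 [(rh2145e1d24b96a57e.shift 4 1), rha88c87c7d4c65be1] (by decide +kernel))
noncomputable def rhb51026332be4f3ca : CRef := CRef.mk (Pat.mk 0x380000000c00000000 0xe0000000f0000007f0000003e0000007c00000004 8 7) 0 0 (step_sound _ 66 [(rh2456963ff1f7bf23.shift 0 1), (rh3e1b7b343686dca1.shift 1 1), (rha181fcaac96efe0b.shift 1 1), rha59868ab65d1c188] (by decide +kernel))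
noncomputable def rhf38c8f4ab95bfb18 : CRef := CRef.mk (Pat.mk 0x60000000100000020000000200 0x800000008000003ff000001fe000001df0000031000000200 8 10) 0 0 (step_sound _ 100 [(rh12134e6f6ee52d7d.shift 1 1), (rh2820ca9a6c4f41b4.shift 1 2), (rh3df4bc1dee31a5c0.shift 3 0), (rh59b20a83ad3a2740.shift 0 2)] (by decide +kernel))
noncomputable def rh52f62baa2bd577f6 : CRef := CRef.mk (Pat.mk 0xe000000400000000400000000 0x4000000770000003e000000730000000600000006 8 7) 0 0 (step_sound _ 100 [(rh22b38309c56a80eb.shift 0 3), rh8c1d1de12a5dfe82, (rheaa91b92daf0efc8.shift 1 2)] (by decide +kernel))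
noncomputable def rh614614d4afb09d1b : CRef := CRef.mk (Pat.mk 0x1e00000000 0x400000007000000070000000f0000003f0000001e00000007 8 6) 0 0 (step_sound _ 1 [rh38194636140b0b09, rheb0810cc63b001d8] (by decide +kernel))
noncomputable def rhbc286b80ee9664de : CRef := CRef.mk (Pat.mk 0x6000000460000000c0 0x3000000030000003be000003fe0000077f000000c0 8 11) 0 0 (step_sound _ 71 [(rh0ea7c0b623fbcc17.shift 2 1), rhb67995d9b8c191cf, (rhcd92c9961d7f9922.shift 3 1), (rhcf4316681f1a3ab1.shift 4 1)] (by decide +kernel))
noncomputable def rh622246f824e31842 : CRef := CRef.mk (Pat.mk 0x1800000008000000300000006000000000 0x240000007c0000001f000000380000007e0000001e 8 7) 0 0 (step_sound _ 98 [(rh0bb882ba86b2372d.shift 0 3), (rha4ba4a2d923cbc47.shift 1 0), (rhb75a95a254d02bf0.shift 0 2)] (by decide +kernel))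
noncomputable def rhacfdbe2d70239ed4 : CRef := CRef.mk (Pat.mk 0x60000004200000000000000000 0x1000000010000003bf000003fe0000077f0000002000000020 8 11) 0 0 (step_sound _ 103 [rh9dfa600520b0cd44, (rhcd92c9961d7f9922.shift 3 2), (rhcf4316681f1a3ab1.shift 4 2)] (by decide +kernel))
noncomputable def rh83a10de96baa52fb : CRef := CRef.mk (Pat.mk 0xe00000002000000040000000000000000000000000 0x3000000030000001be000000fe0000003f00000060000000600000006000000040 8 9) 0 0 (step_sound _ 164 [(rh392314259252cd8a.shift 3 0), (rhb7f3afec56e7e07e.shift 3 3), (rhd5889c99d29bf7d6.shift 3 2), (rhdd3ef923ff6c7ad5.shift 3 3), (rhe15c56d4137cf69b.shift 0 4)] (by decide +kernel))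
noncomputable def rhb8f9fa9db0507437 : CRef := CRef.mk (Pat.mk 0x1800000108000000300000000000000000 0x40000000c000000ef000000ff000001df000000380000001000000010 8 9) 0 0 (step_sound _ 100 [(rh2ea805e6ad9a2539.shift 1 0), (rh3cb04db3dd2b6a55.shift 3 0), (rhf84a249e25f68613.shift 0 2)] (by decide +kernel))
noncomputable def rh6f6f1e21e018fde9 : CRef := CRef.mk (Pat.mk 0x30000002200000006000000000 0x4000001cf000001fe000003bf0000006800000028 8 10) 0 0 (step_sound _ 99 [(rh3867295c14ae187b.shift 0 2), rh52880b774d2ce572, (rh94c0d316370a5350.shift 1 0), (rhb74e79c8165c0c07.shift 2 0), rhc96d4ee935588af4] (by decide +kernel))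
noncomputable def rh01c24e918bd12a7d : CRef := CRef.mk (Pat.mk 0xe0000008800000008 0x10000000700000007000000770000007e000000ef0000000a 8 8) 0 0 (step_sound _ 130 [rh57b65224143a00aa, (rhc170f0dd98931ff9.shift 0 1), rhcebfdf35356b8f69, (rhdf6eda84f2eabc48.shift 2 0)] (by decide +kernel))
noncomputable def rh037c64109c72a7f4 : CRef := CRef.mk (Pat.mk 0x70000004400000004000000000 0x2000000020000003b7000003fe0000077f0000005000000010 8 11) 0 0 (step_sound _ 99 [rh0d56160e37f800fb, (rh0de499e0455c9c14.shift 1 2), (rh36eba2a3de447758.shift 0 2), (rha2c3460320009baa.shift 2 2)] (by decide +kernel))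
noncomputable def rh8584abe4937ed0be : CRef := CRef.mk (Pat.mk 0x1000000018000000080000000800000000 0xc0000000c000000ee000000ff0000001f0000000f0000000c00000004 8 8) 0 0 (step_sound _ 131 [(rh0b88b3654eeeb39b.shift 0 1), (rh6db76a192117795b.shift 2 0), (rh771d065bdc85bf2d.shift 2 0), rhb9ce1429ba36f8a2] (by decide +kernel))
noncomputable def rh5c2a4b5f6d90b7cd : CRef := CRef.mk (Pat.mk 0x1000000018000000300000000000000000 0xc0000000c000000ef000000ff0000001f000000300000001000000010 8 8) 0 0 (step_sound _ 131 [(rh2ea805e6ad9a2539.shift 1 0), (rh68e4b3ae7c660a96.shift 0 2), (rhfc7c29d8e65d775f.shift 3 1)] (by decide +kernel))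
noncomputable def rh512606f6fc503a73 : CRef := CRef.mk (Pat.mk 0x800000004000000380000006000000000000000000000000000000000 0x740000007c0000001f00000038000000780000001c0000001c0000001c00000014 8 7) 0 0 (step_sound _ 195 [(rh2b4f4fe1e74e5cff.shift 2 0), (rhc02b3aee7ab87ee1.shift 0 5), (rhc55f41ccd8b45a01.shift 1 3), (rhcd335d0c5c0514e3.shift 0 1)] (by decide +kernel))
noncomputable def rh1ba100fa74da1424 : CRef := CRef.mk (Pat.mk 0x4000000020000001800000038000000000000000000000000 0x50000000f0000001f0000003a0000006f0000007e0000003c 8 7) 0 0 (step_sound _ 67 [(rh440277417d1344b0.shift 2 0), (rhda49d08e88765cc3.shift 1 0), rhe5dfcd491d6e1bd6, (rheafdc4532b9aaf7b.shift 1 0)] (by decide +kernel))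
noncomputable def rh2b5cae87044724f5 : CRef := CRef.mk (Pat.mk 0x2000000018000000100000000000000000000000000000000000000000 0x80000001c0000001f000000ff0000003f000000180000001800000018000000380000003800000028 8 8) 0 0 (step_sound _ 228 [(rh69012675dfdb1a5b.shift 1 6), (rhd4f727ca2399a462.shift 0 3), (rhe45cb71df1dcb7e9.shift 3 0)] (by decide +kernel))
noncomputable def rhc196ef9a5d08f86a : CRef := CRef.mk (Pat.mk 0x2800000018000000d00000008000000000 0x1c000000df000000fc0000005f000000dc0000008c00000004 8 8) 0 0 (step_sound _ 163 [rh13d5c1737724b7f8, (rh2145e1d24b96a57e.shift 3 2)] (by decide +kernel))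
noncomputable def rh77ba2537ea5e0761 : CRef := CRef.mk (Pat.mk 0x2800000018000000d00000008000000000 0x1000000010000000d4000000ff0000005f000000d80000009800000018 8 8) 0 0 (step_sound _ 36 [(rh7b1f1fb55310c477.shift 3 0), rh7faccd1efcc5f308] (by decide +kernel))
noncomputable def rh0ea3ea440c153f37 : CRef := CRef.mk (Pat.mk 0x4000000070000000000000000000000000 0x40000001c0000001c0000001c0000007f0000007e0000001f0000001800000018 8 7) 0 0 (step_sound _ 99 [(rh21d582c147e7e118.shift 1 2), (rh551591afa7e9bd9a.shift 0 2), (rh734d84bb129a235f.shift 2 0), (rh7fb660bc21ce4329.shift 1 3)] (by decide +kernel))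
noncomputable def rhe09d9c8007b25d47 : CRef := CRef.mk (Pat.mk 0x4000000030000001a0000001000000000 0x10000000b0000001f0000000f0000001b0000001300000003 8 5) 0 0 (step_sound _ 33 [rh0c4d15b887a2c1a5, rh78a2ae019a90c733, rhb1a251d9bff81766] (by decide +kernel))
noncomputable def rh67c0c01cfdea501c : CRef := CRef.mk (Pat.mk 0x3000000018000000100000000000000000 0x8000000080000001c000000ff00000038000000180000001800000018 8 8) 0 0 (step_sound _ 134 [(rh18965a982d73c794.shift 3 3), rh55308d67c546621c] (by decide +kernel))
noncomputable def rh847bf291850cc9bf : CRef := CRef.mk (Pat.mk 0x4000000020000001a000000120000000000000000000000000000000000000000 0x4000000060000001b0000001f0000000300000007000000070000000700000005 8 5) 0 0 (step_sound _ 129 [rh306e0bd49a008e51, (rhbaefcd01e0a8bca3.shift 1 4)] (by decide +kernel))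
noncomputable def rhf7562a7aa6d2962b : CRef := CRef.mk (Pat.mk 0x10000002080000006000000040000000000000000000000000 0x3ef000001fe000003bf0000006c0000007c000000380000003000000030 8 10) 0 0 (step_sound _ 197 [(rh3f5c91607523fd66.shift 2 2), (rh43172e20cca0e4a6.shift 0 4), (rh45aa62a864c28db9.shift 3 0), (rh69b429538faa6466.shift 0 3), (rha8601016a1f63c6f.shift 1 5), (rhbdfe061a979a2f2d.shift 2 2)] (by decide +kernel))
noncomputable def rhba5e5618f392f00b : CRef := CRef.mk (Pat.mk 0x10000002080000006000000040000000000000000000000000 0x3ef000001fe000003bf000000700000007c0000003c0000003000000030 8 10) 0 0 (step_sound _ 197 [(rh0b4cf4ea50bfddd7.shift 2 2), (rh3f5c91607523fd66.shift 2 2), (rh43172e20cca0e4a6.shift 0 4), (rh45aa62a864c28db9.shift 3 0), (rh69b429538faa6466.shift 0 3), (rha8601016a1f63c6f.shift 1 5)] (by decide +kernel))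
noncomputable def rhc7c397f01ba039ac : CRef := CRef.mk (Pat.mk 0x10000000100000001000000090000000000000000000000000 0x1000000010000000180000001f000000ff0000000f0000000400000004 8 8) 0 0 (step_sound _ 99 [(rh932754581e0f4330.shift 3 2), rha010bb76e16a849f] (by decide +kernel))
noncomputable def rh92f899eeb48e16c4 : CRef := CRef.mk (Pat.mk 0x400000002000000020000001600000000 0x40000000600000007000000030000000700000007000000030000001e00000004 8 5) 0 0 (step_sound _ 129 [(rh55afc6a59410cf00.shift 1 0), (rhaca92f83e26f9970.shift 0 1)] (by decide +kernel))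
noncomputable def rha79c4945eba3fd96 : CRef := CRef.mk (Pat.mk 0x80000001c00000018000000000000000000000000 0x60000000f0000001c0000001e0000007c0000001c0000000c 8 7) 0 0 (step_sound _ 68 [rh189711dc5baa310e, (rh7b1f1fb55310c477.shift 3 1)] (by decide +kernel))
noncomputable def rhbf01dc6925d5c323 : CRef := CRef.mk (Pat.mk 0x800000018000000180000001800000000 0x40000000f0000001f0000001f0000003b0000000a 8 6) 0 0 (step_sound _ 130 [rh0c346e5f11db15e7, (rh50fbb5868c909700.shift 2 1)] (by decide +kernel))
noncomputable def rhbab50450307b0ccc : CRef := CRef.mk (Pat.mk 0x1800000098000000000000000000000000 0x1c0000003c0000000f00000018000000ff0000003e0000001400000004 8 8) 0 0 (step_sound _ 101 [(rh2fe78cc5ca4405d8.shift 3 3), rh946ff5e72f5366a1] (by decide +kernel))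
noncomputable def rh3ddcedc385338aa9 : CRef := CRef.mk (Pat.mk 0x1c00000038000000000000000000000000 0x600000006000000060000001c0000003f0000007f0000000c0000000c 8 7) 0 0 (step_sound _ 98 [(rh822be8c6befcb82b.shift 1 0), (rhcc2be1f880c5ea3e.shift 0 2), (rhe153806bfe3acc65.shift 0 2)] (by decide +kernel))
noncomputable def rh39dbcbb1f4b7b6c6 : CRef := CRef.mk (Pat.mk 0x1800000098000000000000000000000000 0x1c0000003c0000000f0000001e000000f80000001f0000000c0000000c 8 8) 0 0 (step_sound _ 101 [(rh2fe78cc5ca4405d8.shift 3 3), rh43015da629ed2c40] (by decide +kernel))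
noncomputable def rh14c666cb37f3f3cc : CRef := CRef.mk (Pat.mk 0x80000001800000018000000100000000000000000 0x40000000c0000001c0000001e0000007f0000000f0000000c 8 7) 0 0 (step_sound _ 67 [(rh46530d756bdf8511.shift 2 0), rhaf316a0913ee7052, (rhdf997f77704b6375.shift 2 0), (rheee68c4e0e628a59.shift 0 1)] (by decide +kernel))
noncomputable def rh5310c859a73a8d65 : CRef := CRef.mk (Pat.mk 0x8000000180000001800000000 0x1c0000007c0000000e000000180000001f0000000c 8 7) 0 0 (step_sound _ 131 [(rh2145e1d24b96a57e.shift 3 1), rh24d112c9229bc923] (by decide +kernel))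
noncomputable def rhceae4dfa56b77c97 : CRef := CRef.mk (Pat.mk 0x1c00000038000000100000000000000000 0xe0000000f0000001c0000003e0000007c0000006c00000020 8 7) 0 0 (step_sound _ 163 [(rh2145e1d24b96a57e.shift 3 2), rh42b99f1206125ed4] (by decide +kernel))
noncomputable def rh552181e1518816ab : CRef := CRef.mk (Pat.mk 0x1800000098000000100000000000000000 0x80000000800000018000000ff0000007f0000006400000020 8 8) 0 0 (step_sound _ 101 [(rh2fe78cc5ca4405d8.shift 3 3), rhbd2f7f9b31254d51] (by decide +kernel))
noncomputable def rhb4fceb9fafd3560d : CRef := CRef.mk (Pat.mk 0x1800000038000000100000000000000000 0x4000000040000001e0000003f0000007f0000006800000020 8 7) 0 0 (step_sound _ 130 [rh4886eb7dbafbd795, (rhb739f4f82bb681b4.shift 1 3)] (by decide +kernel))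
noncomputable def rh671c85f63984b171 : CRef := CRef.mk (Pat.mk 0x400000004c00000048000000080000000000000000000000000000000000000000 0x400000006c0000007c0000003f0000007c000000380000001c0000001c00000014 8 7) 0 0 (step_sound _ 131 [(rh863f9384137efd39.shift 2 0), (rha613ffd40b6c9d24.shift 2 2), (rhb4167e6082834458.shift 0 3)] (by decide +kernel))
noncomputable def rhadec02863b4b3a9c : CRef := CRef.mk (Pat.mk 0x8800000098000000d8000000100000000000000000 0x40000008c000000df000000df000000780000004c0000004c 8 8) 0 0 (step_sound _ 67 [rh941ec8a88442757d, (rhc4713ca36c943a51.shift 3 0), (rhdf997f77704b6375.shift 2 0)] (by decide +kernel))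
noncomputable def rha298beecb8c016e1 : CRef := CRef.mk (Pat.mk 0x800000018000000980000000800000000 0x800000018000000df0000007f000000f4 8 8) 0 0 (step_sound _ 36 [rh51485200710abf14, (rh7b1f1fb55310c477.shift 3 0)] (by decide +kernel))
noncomputable def rhe7ba383ec7c8367c : CRef := CRef.mk (Pat.mk 0x800000088000000180000001c 0x140000007e000000ef0000001f0000001f 8 8) 0 0 (step_sound _ 1 [rh53b3c253cb0c65f4, rh9b6ae0dfe4335913] (by decide +kernel))
noncomputable def rh8eef53dd7c907163 : CRef := CRef.mk (Pat.mk 0x40000000c0000001c000000000000000000000000 0x2000000060000000f0000001f0000003e0000003e00000016 8 6) 0 0 (step_sound _ 129 [rha64c0cb83bc1d0ec, (rhb739f4f82bb681b4.shift 0 3)] (by decide +kernel))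
noncomputable def rhd28fd41eb15b4d84 : CRef := CRef.mk (Pat.mk 0xe0000001e000000000000000000000000 0x6000000060000000e0000001e0000003f0000003c00000010 8 6) 0 0 (step_sound _ 65 [(rh3eab0d40b8ca8099.shift 1 0), (rheb0810cc63b001d8.shift 0 2)] (by decide +kernel))
noncomputable def rh764bd67bc079721d : CRef := CRef.mk (Pat.mk 0x1800000018000000000000000000000000 0x1c0000007c0000000f0000001c0000003f0000001f0000001c00000008 8 7) 0 0 (step_sound _ 163 [(rh05607e02b2ff73f6.shift 0 2), (rh3e595262c1b737ad.shift 3 2), (rh57c2f33d7db628c6.shift 0 2), rh86d28d4178059560, (rh9607ace265ad3036.shift 1 2)] (by decide +kernel))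
noncomputable def rh77737e3cf784e2f5 : CRef := CRef.mk (Pat.mk 0x1800000098000000100000000000000000 0x18000000ff0000007f0000006600000024 8 8) 0 0 (step_sound _ 101 [(rh2fe78cc5ca4405d8.shift 3 3), rh8354f06d9a428f7c] (by decide +kernel))
noncomputable def rh96caa15a528c64be : CRef := CRef.mk (Pat.mk 0x800000018000000180000001800000000 0x40000000f0000001f0000001b0000001f00000007 8 5) 0 0 (step_sound _ 34 [rh4a3944338be98f71, (rh932754581e0f4330.shift 2 0)] (by decide +kernel))
noncomputable def rh49886a88e1a7a0fd : CRef := CRef.mk (Pat.mk 0x1800000018000000180000000800000000 0x70000001f0000001b0000001f0000000f00000004 8 5) 0 0 (step_sound _ 130 [(rh50fbb5868c909700.shift 2 1), rh8a147a2d4bef5875] (by decide +kernel))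
noncomputable def rh494b2001d0112460 : CRef := CRef.mk (Pat.mk 0xc0000004c000000080000000000000000 0x4000000040000000c0000007f0000003f0000003200000012 8 7) 0 0 (step_sound _ 100 [(rh2fe78cc5ca4405d8.shift 2 3), rh7da908d2252e378e] (by decide +kernel))
noncomputable def rh5f326d6d5583448a : CRef := CRef.mk (Pat.mk 0x1800000098000000100000000000000000 0x40000001e000000fe0000007e0000006f0000002c 8 8) 0 0 (step_sound _ 101 [(rh2fe78cc5ca4405d8.shift 3 3), rh5f451b25fac69952] (by decide +kernel))
noncomputable def rhaa9fc76512d6a52f : CRef := CRef.mk (Pat.mk 0x10000000130000001a000000020000000000000000 0x110000001b0000003a0000006b0000003e0000007c 8 7) 0 0 (step_sound _ 33 [(rh50fbb5868c909700.shift 0 1), rhe664d3fb0b958104] (by decide +kernel))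
noncomputable def rhf7d44d189d78c9ca : CRef := CRef.mk (Pat.mk 0x80000003800000010000000000000000000000000 0x1c0000003c0000000f000000380000001e0000000c0000000c0000000c 8 6) 0 0 (step_sound _ 195 [(rh2145e1d24b96a57e.shift 3 3), rha9782e86d47d816d] (by decide +kernel))
noncomputable def rhfa192cc3bf3fd6ba : CRef := CRef.mk (Pat.mk 0x1c000000180000001000000000 0x60000000e0000000f0000001c0000001f0000003f0000000a 8 6) 0 0 (step_sound _ 131 [(rh2145e1d24b96a57e.shift 3 1), rhb727914afe096787] (by decide +kernel))
noncomputable def rhecfa9a5c21e0fe3b : CRef := CRef.mk (Pat.mk 0x100000001300000012000000020000000200000000 0x100000001b0000003e0000006b0000003e0000007c 8 7) 0 0 (step_sound _ 99 [(rh5419adcd928dba20.shift 0 3), rhe664d3fb0b958104] (by decide +kernel))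
noncomputable def rhce024e22c3948170 : CRef := CRef.mk (Pat.mk 0x1e00000010000000000000000000000000 0x300000003000000070000001e0000001f000000070000000700000002 8 5) 0 0 (step_sound _ 161 [(rh3244c3cc8379b070.shift 0 4), rh3c130933cc90410b] (by decide +kernel))
noncomputable def rhb7f018c9267b7c79 : CRef := CRef.mk (Pat.mk 0x80000001800000018000000100000000000000000 0x60000000f0000001f0000003f0000007c0000000f0000000c 8 7) 0 0 (step_sound _ 67 [rha6f802784adb25e2, (rhdf997f77704b6375.shift 2 0), (rhffdd50a8a9616919.shift 0 1)] (by decide +kernel))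
noncomputable def rh6f12e1e507d74d3c : CRef := CRef.mk (Pat.mk 0x800000018000000180000001000000000 0x2000000060000000f0000001f0000003f0000003700000006 8 6) 0 0 (step_sound _ 66 [rhc5e85eb1535de781, rhd9b6067dacf5ff35, (rhf56e6bc5d2f7fe77.shift 0 1)] (by decide +kernel))
noncomputable def rhde8ffb442feb9cac : CRef := CRef.mk (Pat.mk 0x800000018000000180000000c00000000 0x60000000f0000001f0000001f0000003f00000003 8 6) 0 0 (step_sound _ 130 [(rh50fbb5868c909700.shift 2 1), rhdf3cd4cb77823c08] (by decide +kernel))
noncomputable def rhb50986846f7b4973 : CRef := CRef.mk (Pat.mk 0x1c00000018000000000000000000000000 0xc0000000e0000000f0000001c0000001c0000000f0000003e0000001c 8 6) 0 0 (step_sound _ 67 [(rh40241bd608e5be1a.shift 2 0), (rh9e8430fd1e28d4a0.shift 0 1), rhf59a6115c1be017f] (by decide +kernel))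
noncomputable def rh8fb48bf895dc6169 : CRef := CRef.mk (Pat.mk 0x1c000000180000000000000000 0x4000000040000000f0000001f0000001b0000000f0000000b 8 5) 0 0 (step_sound _ 97 [rh5326fe1f47529aba, (rhb739f4f82bb681b4.shift 0 2)] (by decide +kernel))
noncomputable def rhbb6bea929057f9b0 : CRef := CRef.mk (Pat.mk 0x1c00000018000000000000000000000000 0x600000006000000060000001c0000003f0000003f0000007e0000007e 8 7) 0 0 (step_sound _ 35 [(rh08eb4edd77e5005f.shift 1 0), rh644b27b086d3ce47, (rhc93583770a36d0f1.shift 2 0), (rhd9156bbf0c5a3938.shift 1 0)] (by decide +kernel))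
noncomputable def rh7eb4f82b561029e0 : CRef := CRef.mk (Pat.mk 0x100000003400000030000000200000000000000000 0xa0000000e0000000f0000001e000000360000003e000000660000000600000002 8 7) 0 0 (step_sound _ 98 [(rh39f426ebe0691969.shift 1 2), (rh7174a5174d2fbf5b.shift 1 2), rhcbec85f1afe4598a] (by decide +kernel))
noncomputable def rhcad483dcb4dcff76 : CRef := CRef.mk (Pat.mk 0x10000000340000003000000000 0xa0000000e0000000e0000000f0000001e0000003e0000003e00000004 8 6) 0 0 (step_sound _ 67 [rh7d1dda835f84a090, (rhb739f4f82bb681b4.shift 1 1)] (by decide +kernel))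
noncomputable def rh023a5485d0bafa14 : CRef := CRef.mk (Pat.mk 0x800000018000000180000000800000000 0x40000000c0000001f0000001e0000001f00000017 8 5) 0 0 (step_sound _ 36 [(rh7b1f1fb55310c477.shift 3 0), rhbac7775403877014] (by decide +kernel))
noncomputable def rh5d9debd8ccee4af0 : CRef := CRef.mk (Pat.mk 0x1800000018000000080000000800000000 0x70000001f0000001f0000000e0000001c00000014 8 5) 0 0 (step_sound _ 36 [rh23c6c68ce68a727c, (rh55afc6a59410cf00.shift 3 0)] (by decide +kernel))
noncomputable def rhaaff864bd57619bc : CRef := CRef.mk (Pat.mk 0x1800000018000000000000000000000000 0x80000000800000008000000180000003c0000003f000000ff0000007c 8 8) 0 0 (step_sound _ 67 [(rh362104532586ff12.shift 1 0), (rh4f4c4c1027c971e0.shift 2 0), rh8a81244b44d96c38, (rhd694cd1ab59225e7.shift 1 0), (rhee537adefd1463ea.shift 0 1), rhf59a6115c1be017f] (by decide +kernel))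
noncomputable def rhb4f8b2db1634e36f : CRef := CRef.mk (Pat.mk 0x300000006000000020000000000000000000000000 0x100000001c0000001f0000003c00000078000000fc000000df0000005000000010 8 8) 0 0 (step_sound _ 99 [(rh501e1d7082fd8abb.shift 2 1), (rh6519d56dd3fba26c.shift 0 2), (rh67d3ab9a640bfd15.shift 2 0), (rhad16a1d99b102e69.shift 1 2), (rhc470db9f800383fe.shift 1 2), (rhd984edb6210ac7bb.shift 0 2), (rhf54fbd8db7a4ec56.shift 2 1)] (by decide +kernel))
noncomputable def rh8d7603b4f20f6003 : CRef := CRef.mk (Pat.mk 0xc0000000800000008000000000000000000000000 0xc0000000c0000003e0000007f0000001f00000014 8 7) 0 0 (step_sound _ 67 [(rh6eff4158bb400f47.shift 2 0), (rh78179f6ada3e46d9.shift 0 1), (rha613ffd40b6c9d24.shift 2 0), (rhe4441baab75a6f73.shift 2 0)] (by decide +kernel))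
noncomputable def rhc2f65035633957f1 : CRef := CRef.mk (Pat.mk 0x1c00000030000000100000000000000000000000000000000000000000 0x40000001c000000380000003f000000ff0000003c000000380000003800000028 8 8) 0 0 (step_sound _ 132 [(rh6eff4158bb400f47.shift 3 2), (rh71a107b69e7ce33b.shift 3 0), (rha52e1acf7ed5511e.shift 3 1), (rha613ffd40b6c9d24.shift 3 2), (rhd44c5255a25eff97.shift 3 0), (rhe0e9d92d04f3a56c.shift 0 3), (rhe4441baab75a6f73.shift 3 2)] (by decide +kernel))
noncomputable def rhf04e139ff82daf60 : CRef := CRef.mk (Pat.mk 0x380000006000000020000000000000000000000000 0x100000001000000018000000380000007e0000007c000000df0000005c00000014 8 8) 0 0 (step_sound _ 99 [(rh2982fb501603e7f9.shift 2 0), (rh385995ab0a783966.shift 1 2), (rh844ebdfebc1d8882.shift 0 2), (rh9e4f5f4a33433ac3.shift 2 1), (rhc5a0d29a3b12ff5f.shift 2 0)] (by decide +kernel))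
noncomputable def rhb947d749739a4d06 : CRef := CRef.mk (Pat.mk 0x3000000020000000200000002000000000 0x3000000038000000ff0000007e0000005f 8 8) 0 0 (step_sound _ 38 [(rh55afc6a59410cf00.shift 5 0), rhabc5fb792f41ce5f] (by decide +kernel))
noncomputable def rh76063b6cb3d42cce : CRef := CRef.mk (Pat.mk 0x10000000120000001a0000000200000002000000000 0x100000001a0000001a0000000ef000000fe000000df 8 9) 0 0 (step_sound _ 38 [(rh55afc6a59410cf00.shift 5 0), rhb429e44f384978fa] (by decide +kernel))
noncomputable def rha910126b8d7c83b7 : CRef := CRef.mk (Pat.mk 0x380000002000000030000000000000000000000000 0x8000000380000007f000000ff0000001e0000001800000010 8 8) 0 0 (step_sound _ 68 [(rh1c69bb92c13f27a0.shift 3 1), rh8a3a7dea29a924b0, (rha653f0f2fffecc3e.shift 1 1), (rhf9af042da61fc652.shift 4 0)] (by decide +kernel))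
noncomputable def rh8fca7a90a3078f78 : CRef := CRef.mk (Pat.mk 0x1c0000009000000018000000000000000000000000 0x40000001c000000df0000007f000000ef0000000c00000008 8 8) 0 0 (step_sound _ 101 [(rh3d4bb710c6f26f04.shift 1 2), (rh481de1e06b1f0f40.shift 0 2), (rh5722efdd5c9f52cf.shift 0 1), (rh976a453170fe60d9.shift 2 0)] (by decide +kernel))
noncomputable def rhb37b7446294f4b33 : CRef := CRef.mk (Pat.mk 0x10000000130000001a00000002000000000000000000000000 0x100000001b0000003b0000006b0000003f0000007f00000005 8 7) 0 0 (step_sound _ 65 [rh6eff4158bb400f47, rhe4441baab75a6f73, (rhe664d3fb0b958104.shift 0 1)] (by decide +kernel))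
noncomputable def rha4220c7fce4c3085 : CRef := CRef.mk (Pat.mk 0x1c0000003c000000200000000000000000 0x1e0000007e0000000f0000001c0000003c0000002c0000002400000020 8 7) 0 0 (step_sound _ 37 [(rh2faa4fd6e0870582.shift 0 1), (rh7b1f1fb55310c477.shift 4 0)] (by decide +kernel))
noncomputable def rh2913d1f81bc7a724 : CRef := CRef.mk (Pat.mk 0x1000000003400000034000000000000000000000000 0xa0000003e000000ff000001de0000003600000036000000360000000600000002 8 9) 0 0 (step_sound _ 164 [(rh3e595262c1b737ad.shift 4 2), (rh9607ace265ad3036.shift 2 2), (rh9858131e68831015.shift 1 2), rhcbec85f1afe4598a] (by decide +kernel))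
noncomputable def rhdfb0c44b422dd2b8 : CRef := CRef.mk (Pat.mk 0x1c00000038000000000000000000000000 0x4000000040000001c0000003f0000007f0000000e00000006 8 7) 0 0 (step_sound _ 98 [(rh16be6998ea92c908.shift 1 0), (rhcc2be1f880c5ea3e.shift 0 2), (rhe153806bfe3acc65.shift 0 2)] (by decide +kernel))
noncomputable def rh89032a7fa0eebb4e : CRef := CRef.mk (Pat.mk 0x70000000c000000010000000000000000000000000 0x2800000038000000380000003000000070000000ff0000007e000000ef000000e0000000a0 8 8) 0 0 (step_sound _ 99 [(rh2fe91d613ad7ba20.shift 3 0), (rh39838216fd3023fa.shift 3 2), (rhaa26c83b691e7073.shift 0 2)] (by decide +kernel))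
noncomputable def rhc4cf41027497d95b : CRef := CRef.mk (Pat.mk 0x38000000200000000800000000 0xc0000001c0000001c0000001e000000380000003f0000002c0000002c 8 6) 0 0 (step_sound _ 132 [(rh00d6a6e3c7e3bb40.shift 3 0), rh51487f214949aab5, (rhc38f566cab2818e5.shift 4 0)] (by decide +kernel))
noncomputable def rh7217bf3c0366330f : CRef := CRef.mk (Pat.mk 0x600000002000000020000000200000000 0x5000000070000000700000007000000030000000600000006000000060000000600000004 8 3) 0 0 (step_sound _ 34 [(rh55afc6a59410cf00.shift 1 0), (rhb9da8ed13e0c27c5.shift 0 1)] (by decide +kernel))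
noncomputable def rhf0e1328955fbbd0e : CRef := CRef.mk (Pat.mk 0x38000000200000000800000000 0xc0000003c0000007c0000001e000000380000003f0000003c0000002c 8 7) 0 0 (step_sound _ 132 [(rh00d6a6e3c7e3bb40.shift 3 0), rh51487f214949aab5, (rh8379e5f86d72d548.shift 1 1), (rhc38f566cab2818e5.shift 4 0)] (by decide +kernel))
noncomputable def rh02f6df7cf6374303 : CRef := CRef.mk (Pat.mk 0x3800000020000000000000000000000000 0xc0000000c0000000f0000003e0000003f0000000e0000000e0000000a 8 6) 0 0 (step_sound _ 130 [(rh0de499e0455c9c14.shift 0 3), (rh592c7139d2c44767.shift 0 3), (rh75a786e20aa9ee6e.shift 1 0), (rhd1d05263fabc0227.shift 0 3)] (by decide +kernel))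
noncomputable def rh0820b2f9ecdd0d55 : CRef := CRef.mk (Pat.mk 0x400000004e000000680000000a0000000000000000 0xe0000003e000000470000006e0000006e0000003e0000002200000020 8 7) 0 0 (step_sound _ 162 [(rh00d6a6e3c7e3bb40.shift 1 1), (rh1471fd48a0d0d5c3.shift 1 0), (rhe072fffdd2fccf38.shift 2 2), (rhe30ce762bc48bc4a.shift 0 2)] (by decide +kernel))
noncomputable def rhde40e15162ee529c : CRef := CRef.mk (Pat.mk 0x38000000200000002800000000 0xc0000001c0000001c0000001e000000380000003f0000002c0000000c 8 6) 0 0 (step_sound _ 132 [(rh00d6a6e3c7e3bb40.shift 3 0), rh51487f214949aab5, (rhe072fffdd2fccf38.shift 4 1)] (by decide +kernel))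
noncomputable def rh370a4659f3c524dc : CRef := CRef.mk (Pat.mk 0xc000000180000000e00000000000000000000000000000000 0xc0000001f0000001e00000033000000170000000700000005 8 6) 0 0 (step_sound _ 132 [rh2ec804fbe0df033a, (rh78974448101547fe.shift 1 2)] (by decide +kernel))
noncomputable def rh72a7c738593b4bdb : CRef := CRef.mk (Pat.mk 0x3800000020000000000000000000000000 0xc0000000c0000000f0000003e0000003f0000000e0000000e0000000a 8 6) 0 0 (step_sound _ 130 [(rh0de499e0455c9c14.shift 0 3), (rh75a786e20aa9ee6e.shift 1 0), (rhd1d05263fabc0227.shift 0 3)] (by decide +kernel))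
noncomputable def rhcbb6eb0bba44162c : CRef := CRef.mk (Pat.mk 0xc000000180000000a000000000000000000000000 0x40000000f0000001e0000000f000000070000000700000005 8 5) 0 0 (step_sound _ 96 [rh1c26daf0b934cb8a, (rh1c62b6193297d9e3.shift 0 3)] (by decide +kernel))
noncomputable def rh895bf40b44a59989 : CRef := CRef.mk (Pat.mk 0xc000000480000000a000000000000000000000000 0x40000000f0000007c0000001f000000370000001200000002 8 7) 0 0 (step_sound _ 132 [(rh2fe78cc5ca4405d8.shift 2 4), rha46a392b247bda40] (by decide +kernel))
noncomputable def rh4cea0f098a372db2 : CRef := CRef.mk (Pat.mk 0x180000009000000014000000000000000000000000 0x80000001e000000ff000000360000000e0000000e0000000a 8 8) 0 0 (step_sound _ 133 [(rh2fe78cc5ca4405d8.shift 3 4), rh3bb85dd85ae8cac9] (by decide +kernel))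
noncomputable def rh14a027d8bf9f85d8 : CRef := CRef.mk (Pat.mk 0x8000000100000001c000000000000000000000000 0x80000000b0000000f0000001f0000003f000000070000000600000006 8 6) 0 0 (step_sound _ 131 [(rh37d9ceebb86d75d1.shift 2 2), rhb899a09af20cf53b, rhc44c8d83416659b3] (by decide +kernel))
noncomputable def rhe586d5bdd2538835 : CRef := CRef.mk (Pat.mk 0x20000000400000007000000000000000000000000000000000 0x2000000020000000380000007f0000007e0000001f0000001c0000001c00000014 8 7) 0 0 (step_sound _ 131 [(rh2df96f83c49a9883.shift 2 3), (rh592c7139d2c44767.shift 1 3), (rh5e601430b8bc2e39.shift 0 3), (rhe0fb44cdc2e7ce3b.shift 2 0)] (by decide +kernel))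
noncomputable def rh02dd4bdbb8a6468f : CRef := CRef.mk (Pat.mk 0x18000000900000001c0000000000000000 0x80000000800000018000000df0000007f000000ec0000000c 8 8) 0 0 (step_sound _ 99 [(rh37d9ceebb86d75d1.shift 2 1), rh5114e833dbe348d6, (rha0468cb09b4cf890.shift 0 1)] (by decide +kernel))
noncomputable def rhb1348edb38c47c92 : CRef := CRef.mk (Pat.mk 0x300000012000000028000000000000000000000000 0x1000000010000000100000003c000001fe000000f8000000df0000005c00000014 8 9) 0 0 (step_sound _ 134 [(rh2fe78cc5ca4405d8.shift 4 4), rh4fa68c21d69166ab] (by decide +kernel))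
noncomputable def rh4e511d3fac65df68 : CRef := CRef.mk (Pat.mk 0x3000000020000000200000002000000000 0x3000000038000000fe0000007e0000005f 8 8) 0 0 (step_sound _ 36 [(rh932754581e0f4330.shift 4 0), rhad0b6a9132066517] (by decide +kernel))
noncomputable def rhccedbad53afed989 : CRef := CRef.mk (Pat.mk 0x1100000013000000130000000000000000800000000 0x110000001b0000001b0000000f0000001fe000001ff 8 9) 0 0 (step_sound _ 37 [rh0cba89c346cd335e, (rh9e07f76261b05888.shift 4 1)] (by decide +kernel))
noncomputable def rhbacfc529f0cb7d19 : CRef := CRef.mk (Pat.mk 0x4000000000000001c00000018000000000000000000000000 0x200000006000000070000001f0000001f0000007c000000fe0000003c 8 8) 0 0 (step_sound _ 67 [(rh10a923e42e35dcbb.shift 0 2), (rh40241bd608e5be1a.shift 2 0), (rh5d7e754330ccd2f8.shift 1 0)] (by decide +kernel))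
noncomputable def rhc2ecac2fc39f3552 : CRef := CRef.mk (Pat.mk 0x70000000000000006000000000 0x140000001c0000001c000000ef0000007e0000001f0000007c0000001c 8 8) 0 0 (step_sound _ 99 [(rh4c622fddc53a5f99.shift 1 3), (rh592c7139d2c44767.shift 1 2), (rh988dac8d009f9f77.shift 0 2), (rh9e97bba44c1b13e4.shift 1 2), (rhee04100d6dda0e26.shift 2 0)] (by decide +kernel))
noncomputable def rhb442011526476878 : CRef := CRef.mk (Pat.mk 0x800000018000000980000001800000000 0x40000000f0000001f000000df0000007e000000e7 8 8) 0 0 (step_sound _ 130 [(rh50fbb5868c909700.shift 2 1), rhc35412a7dc04f1a9] (by decide +kernel))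
noncomputable def rh3e3eef69b5a0c4e0 : CRef := CRef.mk (Pat.mk 0x1800000018000000180000000000000000 0x70000001f0000001c0000003c0000000f0000000c 8 6) 0 0 (step_sound _ 35 [(rh71222050f2c63a3a.shift 3 0), rhcfaedafa6e524371] (by decide +kernel))
noncomputable def rhf5f5a345225909b7 : CRef := CRef.mk (Pat.mk 0x100000003000000034000000100000000000000000 0xa0000000e0000000f0000001e0000003e000000360000003e0000002600000002 8 6) 0 0 (step_sound _ 130 [(rh086f6046fa319626.shift 1 3), (rh0d43ff7658cd4585.shift 1 2), (rh10c7a09b519aae77.shift 1 1), (rhbf91138e2c89ade4.shift 1 1), rhcbec85f1afe4598a] (by decide +kernel))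
noncomputable def rhd2dfb83d7afbfc32 : CRef := CRef.mk (Pat.mk 0x8000000180000001a0000001000000000 0x2000000070000000f0000001f0000001e0000003700000002 8 6) 0 0 (step_sound _ 66 [rhb10683d481939e66, (rhe25b0a99195a5d59.shift 1 1)] (by decide +kernel))
noncomputable def rhfba6a2ef17561fff : CRef := CRef.mk (Pat.mk 0x8000000180000001e00000000000000000000000000000000 0x400000004000000040000000f0000001f0000001e0000000b000000070000000700000005 8 5) 0 0 (step_sound _ 161 [(rh3244c3cc8379b070.shift 0 4), rhd4ba648c5f9ad49f] (by decide +kernel))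
noncomputable def rh95529873678b85d0 : CRef := CRef.mk (Pat.mk 0x3400000034000000200000000000000000 0xa0000000e0000001f0000001e0000003600000036000000260000000600000002 8 6) 0 0 (step_sound _ 164 [(rh2145e1d24b96a57e.shift 4 2), rhcbec85f1afe4598a] (by decide +kernel))
noncomputable def rhe0dc25f1da29c8bf : CRef := CRef.mk (Pat.mk 0x180000003000000030000000000000000000000000 0x40000001e000000380000003e0000007f0000002c00000008 8 7) 0 0 (step_sound _ 69 [rh35bc20dfe58f48dc, (rh7b1f1fb55310c477.shift 4 1)] (by decide +kernel))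
noncomputable def rhadcb73a925dd73aa : CRef := CRef.mk (Pat.mk 0x180000001e00000000 0x50000000700000007000000030000001f0000001e00000007 8 5) 0 0 (step_sound _ 65 [(rh3244c3cc8379b070.shift 0 1), rh7c86a119526beb8f] (by decide +kernel))
noncomputable def rh09bbd6a4dcdaa3d3 : CRef := CRef.mk (Pat.mk 0x8000000000000001a0000001a000000000000000000000000 0x1000000070000001f000000070000001f0000001a000000070000000700000005 8 5) 0 0 (step_sound _ 130 [rh8d9b97fa186a1462, (rhb739f4f82bb681b4.shift 0 3)] (by decide +kernel))
noncomputable def rh4a2f65eae0891e4d : CRef := CRef.mk (Pat.mk 0x880000001a0000001a 0xff0000007f000000ef0000001a0000001a 8 8) 0 0 (step_sound _ 99 [(rh2145e1d24b96a57e.shift 3 0), rh9a9ff84c528d9979] (by decide +kernel))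
noncomputable def rh2c201274c3e39ee8 : CRef := CRef.mk (Pat.mk 0x180000001e00000000000000000000000000000000 0xc0000000c0000000c0000001f0000001e0000000f0000000f0000000f00000001 8 5) 0 0 (step_sound _ 161 [(rh3244c3cc8379b070.shift 0 4), rh50997ec8a1c9f664] (by decide +kernel))
noncomputable def rh5c7ef2f530f7e1bd : CRef := CRef.mk (Pat.mk 0x180000001c000000000000000000000000 0xf0000000f0000001b0000001f0000000f0000000400000004 8 5) 0 0 (step_sound _ 97 [(rh53b3c253cb0c65f4.shift 0 3), rhaf05ea5e8472e862] (by decide +kernel))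
noncomputable def rhe2fc8567d7e4b793 : CRef := CRef.mk (Pat.mk 0x180000001c000000000000000000000000 0x1c0000007e0000000f0000001c0000001c0000000f0000000e0000000c 8 7) 0 0 (step_sound _ 163 [rh29282e2fddcef4d8, (rh37d9ceebb86d75d1.shift 2 2), (rh57c2f33d7db628c6.shift 0 2), (rh9607ace265ad3036.shift 1 2)] (by decide +kernel))
noncomputable def rhaf86b24cc6ab6e2a : CRef := CRef.mk (Pat.mk 0x180000001c00000000000000000000000000000000 0x50000000f0000001f0000001f00000003000000070000000700000005 8 5) 0 0 (step_sound _ 129 [(rh53b3c253cb0c65f4.shift 0 4), rh7915b4af95b8e416] (by decide +kernel))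
noncomputable def rh7dde268130da3aab : CRef := CRef.mk (Pat.mk 0x1e000000000000000800000018 0x50000000700000007000000030000001e000000070000001f00000078 8 7) 0 0 (step_sound _ 34 [rh5c5a2014709044d0, (rhe476af74ce517c34.shift 0 1)] (by decide +kernel))
noncomputable def rh8885e8ba3bbbe723 : CRef := CRef.mk (Pat.mk 0x1c0000001800000008 0x50000000700000007000000070000001f0000001f0000000c 8 5) 0 0 (step_sound _ 65 [(rhb739f4f82bb681b4.shift 0 1), rhde17708d0817349a] (by decide +kernel))
noncomputable def rh3ab23325bf9fa7a0 : CRef := CRef.mk (Pat.mk 0x1c0000001800000000000000000000000000000000 0x70000001f0000001f00000003000000030000000300000001 8 5) 0 0 (step_sound _ 161 [(rhb739f4f82bb681b4.shift 0 4), rhbc1642932f323abc] (by decide +kernel))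
noncomputable def rhdcf24baeaac9cdc9 : CRef := CRef.mk (Pat.mk 0x1e000000000000000800000018 0x50000000700000007000000030000001e000000070000000f0000007c 8 7) 0 0 (step_sound _ 65 [rhdef4da15d4ad0bd2, (rheb0810cc63b001d8.shift 0 2)] (by decide +kernel))
noncomputable def rhb8f56f1cf7ea79f8 : CRef := CRef.mk (Pat.mk 0x180000001a00000008000000000000000000000000 0x500000007000000070000001f0000001e0000003f000000370000003500000001 8 6) 0 0 (step_sound _ 161 [(rh2d51a1641b81b364.shift 0 1), (rh2e095ce826f2f201.shift 0 1), rha255bbd86f524eec, (rhd8be3b7ca6adb62f.shift 0 4)] (by decide +kernel))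
noncomputable def rh6bcdcaefc9d3d476 : CRef := CRef.mk (Pat.mk 0x180000001a00000008000000000000000000000000 0x50000000700000007000000070000001f0000001b0000001f000000370000001700000005 8 6) 0 0 (step_sound _ 161 [(rh086f6046fa319626.shift 0 4), (rh10c7a09b519aae77.shift 0 2), (rh2e095ce826f2f201.shift 0 1), rh6931bfc29687ff42, (rhaa9e54c62ea29f9b.shift 0 1)] (by decide +kernel))
noncomputable def rhf4dd57159edd30f9 : CRef := CRef.mk (Pat.mk 0x1c00000018000000080000001800000000 0x1f0000001f0000007b0000003f00000027 8 7) 0 0 (step_sound _ 34 [(rh932754581e0f4330.shift 2 0), rhbdb213fe124adada] (by decide +kernel))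
noncomputable def rhdc17d41c3cb86e14 : CRef := CRef.mk (Pat.mk 0x1800000018000000080000000000000000 0x70000001f0000001f0000000e0000000c0000000c 8 5) 0 0 (step_sound _ 35 [rh23c6c68ce68a727c, (rh71222050f2c63a3a.shift 3 0)] (by decide +kernel))
noncomputable def rh282ab6f39ff84c70 : CRef := CRef.mk (Pat.mk 0x1e00000000000000000000000000000000 0x4000000070000001e0000003f0000000f0000000700000001 8 6) 0 0 (step_sound _ 97 [rh7dfbda8c4a60088f, (rheb0810cc63b001d8.shift 0 3)] (by decide +kernel))
noncomputable def rh905f99cd1c450654 : CRef := CRef.mk (Pat.mk 0x800000018000000180000001c00000000 0x40000000f0000001f0000001f0000003f00000003 8 6) 0 0 (step_sound _ 33 [(rh53b3c253cb0c65f4.shift 0 1), rh5bacff3ee1aa083d] (by decide +kernel))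
noncomputable def rhed41705f3288cd2a : CRef := CRef.mk (Pat.mk 0x3000000200000000680000006000000000 0x4000001ff000001fe0000038f0000006c0000007c00000014 8 10) 0 0 (step_sound _ 35 [rh36397d32cd7ee473, rh5c19014a0513e944, (rh6e1685e3533aff0e.shift 2 1), rh77798d3a3e051f5d] (by decide +kernel))
noncomputable def rh91633dcd441d0b73 : CRef := CRef.mk (Pat.mk 0x1a00000038000000000000000000000000 0x800000008000000080000001b0000003f0000007c0000007c0000003c 8 7) 0 0 (step_sound _ 163 [(rh3e595262c1b737ad.shift 3 2), (rh918bcafda8d5258e.shift 0 2), rhb75641e0700fe88a] (by decide +kernel))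
noncomputable def rh0e17804478cdc6c0 : CRef := CRef.mk (Pat.mk 0x1c0000003c000000000000000000000000 0xe0000000e0000000f0000001c0000003c000000740000003e0000003e 8 7) 0 0 (step_sound _ 66 [(rh294cbd542416a599.shift 0 2), (rha7ce7f992fce752d.shift 1 0), (rhea7a1800d6f053bd.shift 2 0)] (by decide +kernel))
noncomputable def rh82e907a71625680a : CRef := CRef.mk (Pat.mk 0x200000002600000036000000000000000000000000 0x7000000070000002300000036000000370000001f0000001f00000017 8 6) 0 0 (step_sound _ 161 [rh1fee0b19f604853e, (rh3e595262c1b737ad.shift 1 2), rh63840dbdb4d13278, rh86a14cef6209af9c, (rhdeffc169d2474e23.shift 0 1)] (by decide +kernel))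
noncomputable def rh4090abae398a2d6f : CRef := CRef.mk (Pat.mk 0x1c0000003c000000000000000000000000 0x40000001c0000003c0000007c0000003e000000ff 8 8) 0 0 (step_sound _ 35 [rh51b175d154e191b3, (rhc93583770a36d0f1.shift 2 0), (rhdd8e0f2deaaf4e1f.shift 3 0), (rhec712fb3b31b95ca.shift 1 0)] (by decide +kernel))
noncomputable def rhe3e7d03f31148a82 : CRef := CRef.mk (Pat.mk 0x1800000038000000080000000000000000 0x8000000080000001f0000003f0000006c0000007c00000038 8 7) 0 0 (step_sound _ 35 [(rh71222050f2c63a3a.shift 3 0), rhb77dacad33d3c70a] (by decide +kernel))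
noncomputable def rh7a38e9ea2da2bd89 : CRef := CRef.mk (Pat.mk 0x400000000000000180000001800000008 0x10000000700000007000000070000001f0000001f0000000c 8 5) 0 0 (step_sound _ 66 [rh10a923e42e35dcbb, (rh3915c5ec9c95aaed.shift 0 1), (rh9ac953fe06873c81.shift 0 1), (rhdf6eda84f2eabc48.shift 2 0)] (by decide +kernel))
noncomputable def rhe93e15031c0721ba : CRef := CRef.mk (Pat.mk 0x800000009800000098000000000000000000000000 0x1c0000003c0000008f000000dc000000f8000000780000005800000048 8 8) 0 0 (step_sound _ 102 [(rh5419adcd928dba20.shift 3 3), rhb1745e9dcf0be5d5] (by decide +kernel))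
noncomputable def rhfab7a04b339a3133 : CRef := CRef.mk (Pat.mk 0x420000005200000053000000000000000000000000 0x2800000078000000ef0000007e00000053000000e0000000e0000000a0 8 8) 0 0 (step_sound _ 70 [(rh6eff4158bb400f47.shift 5 0), (rh8cf25b1888f6daf8.shift 0 2), (rh8ff3dde5b1c639e0.shift 5 0), (rhc4526fc8abf298b6.shift 5 0)] (by decide +kernel))
noncomputable def rhc190783df232cb3c : CRef := CRef.mk (Pat.mk 0x42000000580000005000000040 0x80000000e8000000f80000006f000000780000005000000040 8 8) 0 0 (step_sound _ 133 [(rh257c27b6d1d8a984.shift 0 1), (rhffd04209dc8ea796.shift 5 0)] (by decide +kernel))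
noncomputable def rh73c1788f824bb73c : CRef := CRef.mk (Pat.mk 0x80000000a00000008 0x140000001c0000001c000000fc000001ff000000fc000001ff00000008 8 9) 0 0 (step_sound _ 99 [rh6446dba3ab1a1ca4, rhaff61888e231fe00, (rhc85cc95794737cf7.shift 2 0), (rhcae9bfc70aa696ff.shift 1 0)] (by decide +kernel))
noncomputable def rhdfa5e7b350e617de : CRef := CRef.mk (Pat.mk 0x140000001400000004000000000000000000000000 0x2800000038000000780000003c000000160000003f000000fb0000003a0000000a 8 8) 0 0 (step_sound _ 100 [rh02f41392a26a57df, (rh0a7c49a46b040134.shift 1 2), (rh13db63d90e5e3a0d.shift 1 2), (rh32d58e0e1d6c2282.shift 1 1), (rh744add5a1d9c68a1.shift 1 1), (rh9108709ab2ddf7d4.shift 1 0), rhae6e799f534d112b, (rhb0128545929f00d4.shift 1 1), (rhbe9b65000fd59b6d.shift 1 1)] (by decide +kernel))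
noncomputable def rh440524ee67b83256 : CRef := CRef.mk (Pat.mk 0x20000005800000050000000500000000000000000 0x80000000e8000000fc000000ef000000d800000058000000f80000006c00000028 8 8) 0 0 (step_sound _ 166 [rh1ee2bce15c075f44, (rhcab3157f7bdcba3e.shift 5 0), (rhfae6d335bc204cce.shift 3 2)] (by decide +kernel))
noncomputable def rh666baf91b3445600 : CRef := CRef.mk (Pat.mk 0x520000005300000050000000000000000000000000 0x28000000f8000000e8000000de0000005b00000050000000e0000000e0000000a0 8 8) 0 0 (step_sound _ 199 [(rh984bfc6de6c2c524.shift 5 0), (rhdae442c60a455926.shift 0 3)] (by decide +kernel))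
noncomputable def rhf3f03626c5a77931 : CRef := CRef.mk (Pat.mk 0xb0000000a0000000a0000000000000000 0x100000001d0000001f0000000d0000000b0000000b0000001f0000001c00000010 8 5) 0 0 (step_sound _ 163 [rhd8c37efe07b158de, (rhfae6d335bc204cce.shift 0 2)] (by decide +kernel))
noncomputable def rhd70f34f7b129cde9 : CRef := CRef.mk (Pat.mk 0x52000000530000005000000040 0x28000000f8000000e8000000de0000005b0000005000000040 8 8) 0 0 (step_sound _ 99 [(rh0beae699cdacdfe7.shift 3 0), (rhb2a0b9ccfb5cecd5.shift 0 2)] (by decide +kernel))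
noncomputable def rhb071d60fc8bb1e89 : CRef := CRef.mk (Pat.mk 0x140000001400000014000000000000000000000000 0x1000000014000001d6000001ff000001fb0000002a0000000a 8 9) 0 0 (step_sound _ 99 [(rh299a18a9bb09cab4.shift 1 2), rh34841b85007100f7, (rh71d10f4225de5f62.shift 1 2), (rh86bdd6388b8581ae.shift 2 0)] (by decide +kernel))
noncomputable def rhb5cf342fce823e6c : CRef := CRef.mk (Pat.mk 0x20000005200000053000000500000004000000000000000000000000000000000 0xc0000000f0000005e0000005b000000fc0000006c000000e8000000e8000000e000000020 8 8) 0 0 (step_sound _ 165 [(rh01027f0b9a8d00ba.shift 2 2), (rhdd6e3944a86c3034.shift 0 3), (rhe08b3642bf78c2d5.shift 5 0)] (by decide +kernel))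
noncomputable def rh5ef8d50464867950 : CRef := CRef.mk (Pat.mk 0x100000001e0000001400000004000000000000000000000000 0x200000003a0000003e0000001b0000001e000000140000003e000000380000003800000028 8 6) 0 0 (step_sound _ 100 [(rh349c5a6376bf2658.shift 0 3), (rh56259dd1390eee46.shift 3 0), (rhd8c37efe07b158de.shift 1 1), (rhe286c75f2739cce2.shift 3 2)] (by decide +kernel))
noncomputable def rh7d5cf8f3f21d3317 : CRef := CRef.mk (Pat.mk 0x20000000200000003c0000000000000000000000000000000000000000 0x240000003e0000003c0000001e0000001f0000001e0000000e0000000a 8 6) 0 0 (step_sound _ 132 [(rhf9af042da61fc652.shift 4 2), rhff2fe99714906ec8] (by decide +kernel))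
noncomputable def rh03bd649c87d6ed86 : CRef := CRef.mk (Pat.mk 0x2000000020000000300000000 0x40000000700000007000000070000000600000006000000060000000300000001 8 3) 0 0 (step_sound _ 129 [rh932754581e0f4330, (rhf8aa6e00902d9ee7.shift 0 1)] (by decide +kernel))
noncomputable def rhec7bb34b193f448b : CRef := CRef.mk (Pat.mk 0x20000000a0000001a00000002 0x500000007000000070000000700000007000000030000000f0000001a00000002 8 5) 0 0 (step_sound _ 129 [rh3ca48e2a6d60153d, rh5b6a89c489da4bd1, (rhc85cc95794737cf7.shift 0 1), (rhdbbf446b8d94728f.shift 0 1)] (by decide +kernel))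
noncomputable def rh7c5ac3871bb5b078 : CRef := CRef.mk (Pat.mk 0x2000000020000000200000000 0x5000000070000000700000007000000070000000700000007000000030000000300000003 8 3) 0 0 (step_sound _ 129 [rh00c644645561e9be, (rh1741680720c097b4.shift 0 1), rh20966da26a1c2ae8, rh771d065bdc85bf2d, (rhcc327f43fb371f11.shift 0 1)] (by decide +kernel))
noncomputable def rh074bebdeeadc30e2 : CRef := CRef.mk (Pat.mk 0x1e000000000000000000000000 0x6000000070000001e0000003f0000000700000007 8 6) 0 0 (step_sound _ 129 [(rh3244c3cc8379b070.shift 0 3), rh7c3385621c4441ba] (by decide +kernel))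
noncomputable def rh1dd12dbc2b4733ab : CRef := CRef.mk (Pat.mk 0x200000002000000020000000000000000 0x500000007000000070000000700000007000000070000000700000003000000060000000600000004 8 3) 0 0 (step_sound _ 161 [(rh00c644645561e9be.shift 0 1), (rh1741680720c097b4.shift 0 2), (rh6c59ce14113da07f.shift 1 0), rh8ff3dde5b1c639e0, (rhcc327f43fb371f11.shift 0 2)] (by decide +kernel))
noncomputable def rh1f30fd575e31d468 : CRef := CRef.mk (Pat.mk 0x2000000020000000200000002000000000 0x1000000030000000300000007f000000fe0000005e 8 8) 0 0 (step_sound _ 36 [rh5ab97627f6c1f108, (rh932754581e0f4330.shift 4 0)] (by decide +kernel))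
noncomputable def rh975eb8ba9cf5d11c : CRef := CRef.mk (Pat.mk 0x1a00000002000000000000000000000000 0x5000000070000000700000007000000070000001f00000003000000030000000300000001 8 5) 0 0 (step_sound _ 161 [(rh01e48cd9f335aa73.shift 0 3), rhb87c81b4d8d5df91, (rhd4aa9db2f393411d.shift 0 2), (rhec5c45900e0e4fe3.shift 0 2)] (by decide +kernel))
noncomputable def rh30c94c886e5427d6 : CRef := CRef.mk (Pat.mk 0x8000000680000000800000000 0x140000001c0000001c0000001c0000001c0000007c0000001f0000007c0000001800000010 8 7) 0 0 (step_sound _ 131 [(rh05c024c471721d4f.shift 2 0), (rh079365485f9cae2a.shift 2 1), (rh15fa72c11eaefdb1.shift 0 1), (rh1741680720c097b4.shift 2 1)] (by decide +kernel))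
noncomputable def rh695cf97890960404 : CRef := CRef.mk (Pat.mk 0x2000000020000000200000000000000000000000000000000 0x5000000070000000700000006000000060000000600000007000000070000000700000004 8 3) 0 0 (step_sound _ 225 [(rh1741680720c097b4.shift 0 4), rh664e17a3f7ba8d05, (rh6c59ce14113da07f.shift 1 2)] (by decide +kernel))
noncomputable def rh1e4c7ccad4dac3f9 : CRef := CRef.mk (Pat.mk 0x200000002000000020000000000000000 0x500000007000000070000000700000007000000070000000700000003000000060000000600000004 8 3) 0 0 (step_sound _ 161 [(rh079365485f9cae2a.shift 0 2), (rh6c59ce14113da07f.shift 1 0), rh8ff3dde5b1c639e0] (by decide +kernel))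
noncomputable def rh704f6074f100fa8e : CRef := CRef.mk (Pat.mk 0x1000000010000000100000001000000000 0x2f0000007e0000007e000000180000001800000008 8 7) 0 0 (step_sound _ 133 [(rh2f68792b6b779e96.shift 4 1), rh65a1bdb9d9ae8f6d] (by decide +kernel))
noncomputable def rh8489fe5c7650d082 : CRef := CRef.mk (Pat.mk 0x800000068000000080000000c00000000 0x140000001c0000006c0000003f0000003f00000013 8 7) 0 0 (step_sound _ 36 [rh1c0147aa9b5349f5, (rh55afc6a59410cf00.shift 3 0)] (by decide +kernel))
noncomputable def rh778079f613304021 : CRef := CRef.mk (Pat.mk 0x20000005a0000005300000010 0x7c0000007e0000006b0000005a0000005b00000011 8 7) 0 0 (step_sound _ 131 [rh3bacd338ad65ada0, (rhdf6eda84f2eabc48.shift 3 0)] (by decide +kernel))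
noncomputable def rh8e9d029a9dbe8f27 : CRef := CRef.mk (Pat.mk 0x5a0000001300000010 0x50000000f0000000f0000000f0000007a0000001b00000011 8 7) 0 0 (step_sound _ 99 [rh68acbb8f47f2490b, (rhe072fffdd2fccf38.shift 3 0)] (by decide +kernel))
noncomputable def rhea5dbf8fa2fe87df : CRef := CRef.mk (Pat.mk 0x80000000b4000000a6000000000000000000000000 0xa0000005e000000ff000001de000000f6000000a6000001c0000001c000000140 8 9) 0 0 (step_sound _ 71 [(rh3d788eb58ad10389.shift 0 2), (rh6eff4158bb400f47.shift 6 0), (rh8ff3dde5b1c639e0.shift 6 0), (rhc4526fc8abf298b6.shift 6 0)] (by decide +kernel))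
noncomputable def rh9cb7a2d7e28f07ce : CRef := CRef.mk (Pat.mk 0x20000000200000002d000000218000000000000000000000000 0x100000003d000001f18000003d8000002180000000f0000003c0000001c 8 13) 0 0 (step_sound _ 67 [rh9d1ac2999872b20d, (rha100d0586d1721fb.shift 6 3), (rhf9366b6a121593ef.shift 3 0)] (by decide +kernel))
noncomputable def rhfa43249c1e3b910b : CRef := CRef.mk (Pat.mk 0x1800000030000001100000001000000000 0x1e00000034000001de000000fe0000002f 8 9) 0 0 (step_sound _ 130 [rh8a2881cec042d166, (rhb739f4f82bb681b4.shift 1 3)] (by decide +kernel))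
noncomputable def rh6eadb76e76341036 : CRef := CRef.mk (Pat.mk 0xb0000000a0000000a0000000800000000 0x50000001f0000001d0000001b0000000b0000000a0000001800000010 8 5) 0 0 (step_sound _ 36 [(rh0beae699cdacdfe7.shift 0 1), (rh55afc6a59410cf00.shift 3 0)] (by decide +kernel))
noncomputable def rh6554ddd907c112f5 : CRef := CRef.mk (Pat.mk 0x20000005800000050000000500000000000000000000000000000000000000000 0xc0000000f0000005800000058000003fc000003ec000000e8000000e8000000e000000020 8 10) 0 0 (step_sound _ 134 [(rh231ac0f35bf7589d.shift 2 2), (rh6eff4158bb400f47.shift 5 2), rh9f48f2f0c6d198ef, (rhc247f2d7a10544ae.shift 3 3), (rhc486ae0fcc44be52.shift 3 3)] (by decide +kernel))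
noncomputable def rh5a50073d702166ca : CRef := CRef.mk (Pat.mk 0x80000000b0000000a0000000a0000000000000000 0x50000000f0000001d0000001b0000000b0000001a0000001800000010 8 5) 0 0 (step_sound _ 194 [rh874cc54042502027, (rhffd04209dc8ea796.shift 2 2)] (by decide +kernel))
noncomputable def rh0ff089b494221760 : CRef := CRef.mk (Pat.mk 0x180000003000000000000000000000000000000000 0x8000000f8000000ff000000ff0000003c0000003c00000028 8 8) 0 0 (step_sound _ 134 [rh3a55c6adc49fb581, (rhf48373e13d2bc128.shift 3 4)] (by decide +kernel))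
noncomputable def rh6d81785a33777cc3 : CRef := CRef.mk (Pat.mk 0x800000000c00000018000000000000000000000000 0x2000000e70000007f0000001f000000070000000600000002 8 8) 0 0 (step_sound _ 129 [rh0fdff3d025c663c6, (rhb739f4f82bb681b4.shift 0 3)] (by decide +kernel))
noncomputable def rh8a4e0ea1381c90bd : CRef := CRef.mk (Pat.mk 0x240000000700000001000000038000000200000000000000000 0x3c0000000740000001e0000007c0000002f0000002800000028 8 10) 0 0 (step_sound _ 200 [(rhb2a0b9ccfb5cecd5.shift 5 5), rhb7874f537db240d9] (by decide +kernel))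
noncomputable def rhf00edfae04934934 : CRef := CRef.mk (Pat.mk 0x180000000c000000400000000600000004000000000 0x198000000f80000071f000003fe000003ff00000030 8 11) 0 0 (step_sound _ 132 [(rh24ae073cf30720c4.shift 4 4), rh5f0005ecb08b9c14] (by decide +kernel))
noncomputable def rh385097d62420cb49 : CRef := CRef.mk (Pat.mk 0x2000000020000002200000002000000000 0x2000000020000003bf000001fe0000005e 8 10) 0 0 (step_sound _ 36 [rh4811c0f728856eeb, (rh932754581e0f4330.shift 4 0)] (by decide +kernel))
noncomputable def rhf22539ab3f079b17 : CRef := CRef.mk (Pat.mk 0x3000000002000000820000000e00000000 0x500000007000000770000003f00000003000000e60000007e00000073 8 8) 0 0 (step_sound _ 129 [(rh0f7120a7b28fa607.shift 0 1), (rh1148744b53f3df58.shift 0 1), rhfeaff310dac38ae4] (by decide +kernel))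
noncomputable def rhd811af3c559b2305 : CRef := CRef.mk (Pat.mk 0xc000000068000000080000001800000000 0x1c0000001c000001dc000000fc0000006f0000001c0000001800000008 8 9) 0 0 (step_sound _ 131 [(rh0f7120a7b28fa607.shift 2 1), (rh1148744b53f3df58.shift 2 1), (rh2f7aebebd7d680c3.shift 2 1), rhc2e832d6ba509010] (by decide +kernel))
noncomputable def rh33340c4e08a82282 : CRef := CRef.mk (Pat.mk 0x200000002000000820000000a00000000 0x50000000700000007000000070000000300000003000000e70000007e00000070 8 8) 0 0 (step_sound _ 128 [(rh50fbb5868c909700.shift 0 1), rhc551e1bdf123c18c] (by decide +kernel))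
noncomputable def rh77b2662185882dd1 : CRef := CRef.mk (Pat.mk 0x100000001a000000020000000a0000000000000000 0x500000007000000070000001f0000001b000000070000001f0000000300000001 8 5) 0 0 (step_sound _ 161 [(rh193da7fc9e1674f1.shift 0 1), rhb38ae3b0d70db56c, rhc4526fc8abf298b6, (rhd30c856bbcb3617d.shift 0 2)] (by decide +kernel))
noncomputable def rhc12b4e97974b9403 : CRef := CRef.mk (Pat.mk 0xc0000000600000020000000028000000000000000000000000 0xf8000000780000039f000001fc000001f80000003800000038 8 10) 0 0 (step_sound _ 100 [rhaa203263abd046db, (rhc4980ea2da4c4e0c.shift 3 0), (rhe5a9f5da05e448ca.shift 1 2)] (by decide +kernel))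
noncomputable def rh4cca2c2774c7a65d : CRef := CRef.mk (Pat.mk 0x1000000010000000500000000000000000000000000000000000000000 0x80000001800000038000000770000003e0000003f000000380000003800000028 8 7) 0 0 (step_sound _ 132 [(rh333ab359bc9d6b4c.shift 0 3), (rh4f141d3988ce8943.shift 3 0), (rh8ff3dde5b1c639e0.shift 3 2), (rhc4526fc8abf298b6.shift 3 2), (rhc850b49d039efae1.shift 3 1)] (by decide +kernel))
noncomputable def rh6dbc3543a57a36eb : CRef := CRef.mk (Pat.mk 0x1e0000000e 0x1f0000001f0000003b0000001e0000000e 8 6) 0 0 (step_sound _ 65 [rh02353f785262f094, (rh3244c3cc8379b070.shift 0 1)] (by decide +kernel))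
noncomputable def rh1c05b8b69c9a9cdc : CRef := CRef.mk (Pat.mk 0x2000000020000000200000002000000000 0x1000000030000000300000007f000000fe0000005e 8 8) 0 0 (step_sound _ 132 [(rh50fbb5868c909700.shift 4 1), rhdb23ec1e4f9b4da0] (by decide +kernel))
noncomputable def rh1f929f3c25ec8dff : CRef := CRef.mk (Pat.mk 0x3000000002000000020000000200000000000000000000000000000000 0x500000007000000770000003e00000003000000030000000300000007000000070000000700000001 8 7) 0 0 (step_sound _ 225 [(rh0f7120a7b28fa607.shift 0 4), (rh193da7fc9e1674f1.shift 0 3), rh713d96f87d124bea] (by decide +kernel))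
noncomputable def rh61a7e658b710b9f2 : CRef := CRef.mk (Pat.mk 0x800000000e00000000000000000000000000000000 0x200000002000000e70000007e0000007f000000070000000700000002 8 8) 0 0 (step_sound _ 132 [(rh3e2531436cb70ef7.shift 0 4), (rh6dd26613a1ae639b.shift 1 3), rhebc469e2dc0a6e28] (by decide +kernel))
noncomputable def rh58bbb2cb2c30456e : CRef := CRef.mk (Pat.mk 0x1e00000000000000000000000000000000 0x600000006000000070000001e00000037000000070000000700000005 8 6) 0 0 (step_sound _ 161 [(rh3244c3cc8379b070.shift 0 4), rhae9eba5134444b8d] (by decide +kernel))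
noncomputable def rhaa77979a8df9e46e : CRef := CRef.mk (Pat.mk 0x1e0000000200000000000000000000000000000000 0x4000000070000001e0000003e0000000f000000070000000700000004 8 6) 0 0 (step_sound _ 193 [rh1a1fea72f6085445, (rh3244c3cc8379b070.shift 0 5)] (by decide +kernel))
noncomputable def rh347286d342cd1ea3 : CRef := CRef.mk (Pat.mk 0x3800000000000000000000000000000000 0x40000000f0000003e0000007f0000000e0000000e00000004 8 7) 0 0 (step_sound _ 130 [(rh0d378fd9e8917c5a.shift 0 3), (rh185f35b8bd8ec37f.shift 0 3), (rh775ca1963e850b80.shift 0 3), (rhc19283cc03c95f08.shift 1 0)] (by decide +kernel))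
noncomputable def rh8d28bd6f899222e3 : CRef := CRef.mk (Pat.mk 0x6000000030000001000000001c000000000000000000000000 0xee0000007f0000003c000001cf000000fc000000f80000001800000018 8 9) 0 0 (step_sound _ 163 [(rh53b3c253cb0c65f4.shift 2 5), rhb597cde2e9a9ec1a] (by decide +kernel))
noncomputable def rhf5e8d98e2bc3a71e : CRef := CRef.mk (Pat.mk 0x20000000000000007000000000 0x20000000200000003f000001fe000001ce 8 9) 0 0 (step_sound _ 35 [(rh775ca1963e850b80.shift 1 0), rha9fd18d31b126316, (rhe35334cb61fb4c7c.shift 1 0), (rhe401600d466b97cd.shift 2 0)] (by decide +kernel))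
noncomputable def rhe86c25402244045a : CRef := CRef.mk (Pat.mk 0x6800000200000000280000000000000000 0x1c0000003c000000680000038f000001fe000001ff00000004 8 10) 0 0 (step_sound _ 68 [rh3197eb789e6d3734, rh4758085fcf28c9f8, (rhcb80472e20cd3872.shift 1 1), (rhe812181c4182cd5b.shift 2 1)] (by decide +kernel))
noncomputable def rh2a9db1145b5fd99a : CRef := CRef.mk (Pat.mk 0x1800000030000001000000001800000000 0x1e00000030000001d7000000fe000000ef 8 9) 0 0 (step_sound _ 37 [(rh36c0fb010e405737.shift 1 0), rh7eab645ee700f881, (rh8966ae1067be186a.shift 2 0), (rhbf726fa7097229f2.shift 3 0)] (by decide +kernel))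
noncomputable def rhc0b4dbf406018161 : CRef := CRef.mk (Pat.mk 0x1000000018000000080000000800000000 0x170000001f0000001f0000000e0000000c00000004 8 5) 0 0 (step_sound _ 131 [rh1dcfdd430eac7808, (rh2f68792b6b779e96.shift 3 1)] (by decide +kernel))
noncomputable def rhe3b014b75d257472 : CRef := CRef.mk (Pat.mk 0x20000000600000002000000020000000400000000000000000000000000000000 0x20000000600000007000000030000000700000006000000070000000700000005 8 3) 0 0 (step_sound _ 129 [(rh55afc6a59410cf00.shift 1 3), rh65570242b1742841] (by decide +kernel))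
noncomputable def rh58c13b788cd59d35 : CRef := CRef.mk (Pat.mk 0xf000000070000000100000001000000000 0x800000008000000180000000f0000000700000003f000000fc000000e8 8 9) 0 0 (step_sound _ 37 [(rh55afc6a59410cf00.shift 4 0), rhca4ed386037f40dd] (by decide +kernel))
noncomputable def rhb6960c168faf3f9b : CRef := CRef.mk (Pat.mk 0x2000000038000000080000000800000000000000000000000000000000 0x140000001c0000001c0000001c0000002c000000380000001f0000007c000000180000001c0000001c00000014 8 7) 0 0 (step_sound _ 162 [(rhbd8dff2a50231c67.shift 0 1), (rhe482a9706a72b14d.shift 2 0), (rheea1a90336e79c71.shift 0 5)] (by decide +kernel))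
noncomputable def rh37ab9987c9783813 : CRef := CRef.mk (Pat.mk 0x200000003800000018000000080000000000000000 0x800000028000000380000001e0000007c0000001f0000000c 8 7) 0 0 (step_sound _ 68 [(rh71222050f2c63a3a.shift 4 1), rhec85c376c5c3c12e] (by decide +kernel))
noncomputable def rha87895ece8aba5ac : CRef := CRef.mk (Pat.mk 0x300000001c0000000000000004000000000000000000000000 0xa0000000e0000000e0000000e0000003f0000001c0000000c0000000c0000000e0000000e0000000a 8 6) 0 0 (step_sound _ 130 [(rh490abc4fb027b4ea.shift 0 3), (rh4d9128180b38b07f.shift 1 0), (rhffb8e5993241bf15.shift 1 0)] (by decide +kernel))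
noncomputable def rhf432483aaccf856f : CRef := CRef.mk (Pat.mk 0x680000020000000030000000200000000000000000 0x1c0000003c0000006c0000038f000001fe000001ef0000000c00000008 8 10) 0 0 (step_sound _ 99 [rh10fe7d1e29fc31b4, (rh3918eeb6c53434d8.shift 0 2), (rh8ee80cc30e93a344.shift 2 2), (rhb35119aab3f911f9.shift 1 2), (rhea8427070a982594.shift 2 2)] (by decide +kernel))
noncomputable def rh3a0a51d370ebca74 : CRef := CRef.mk (Pat.mk 0x700000003400000100000000180000000000000000 0xe0000007e00000036000001c7000000fe000000ef00000002 8 9) 0 0 (step_sound _ 162 [(rh086f6046fa319626.shift 1 4), (rh2e966cc2a51d47f2.shift 1 4), rh82c62a21601d7d61, (rha4d0a9d7ac239863.shift 1 4)] (by decide +kernel))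
noncomputable def rh0ca4a1cfecc4130b : CRef := CRef.mk (Pat.mk 0x3800000000000000000000000000000000 0x40000000f0000003e0000007f0000000e0000000e00000004 8 7) 0 0 (step_sound _ 130 [(rh0d378fd9e8917c5a.shift 0 3), (rh185f35b8bd8ec37f.shift 0 3), (rh592c7139d2c44767.shift 0 3), (rhc19283cc03c95f08.shift 1 0)] (by decide +kernel))
noncomputable def rh802365df4de5c77c : CRef := CRef.mk (Pat.mk 0x2000000030000001000000001800000000 0x3000000030000001d7000000fe000000ff 8 9) 0 0 (step_sound _ 68 [rh383b059e93639bb9, (rh71222050f2c63a3a.shift 4 0)] (by decide +kernel))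
noncomputable def rh8932e21c7c78d028 : CRef := CRef.mk (Pat.mk 0x200000002000000020000000200000000000000000000000000000000 0x20000000200000003000000030000000700000007000000070000000700000005 8 3) 0 0 (step_sound _ 128 [(rh932754581e0f4330.shift 0 3), rhf2e8548db77a4af3] (by decide +kernel))
noncomputable def rhe7697f1b3ce34399 : CRef := CRef.mk (Pat.mk 0x20000000600000002000000020000000000000000000000000000000000000000 0x20000000600000007000000030000000300000007000000070000000700000005 8 3) 0 0 (step_sound _ 129 [(rh7928877f9bf74a91.shift 0 3), rh88b73d83fad6bdb2, (rhc94dfb5f501cb051.shift 0 1)] (by decide +kernel))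
noncomputable def rh75ab280807132a22 : CRef := CRef.mk (Pat.mk 0x40000008400000004000000000000000000000000 0x400000004000000e60000007f0000003f0000000a0000000a 8 8) 0 0 (step_sound _ 65 [(rh205a3275fc4c0218.shift 1 1), rh2c68625345fbaa7e, (rh3743dbe66b959104.shift 1 0), (rh544d3caba1e1e2bb.shift 1 0), (rh86aa94d7c0c1e10d.shift 0 1)] (by decide +kernel))
noncomputable def rh5ff52a3c69824ec5 : CRef := CRef.mk (Pat.mk 0x4000000070000000100000001000000000000000000000000000000000 0x40000000700000003c000000ff0000007e0000003f0000003800000028 8 8) 0 0 (step_sound _ 100 [(rh1aa605c562139465.shift 0 2), (rh383c223d1a08a073.shift 1 2), (rh8cdd36b03d57a2f6.shift 3 1), (rha171e17c78ad84df.shift 4 2), (rhc94dfb5f501cb051.shift 3 0)] (by decide +kernel))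
noncomputable def rh7d46ca99cff0bf9c : CRef := CRef.mk (Pat.mk 0x1000000030000000140000001000000000 0x80000001e00000034000000160000003e0000002f 8 6) 0 0 (step_sound _ 37 [(rh55afc6a59410cf00.shift 4 0), rhfc4321913d75569f] (by decide +kernel))
noncomputable def rh03f6c5d959e65f42 : CRef := CRef.mk (Pat.mk 0x20000000300000010000000018000000000000000000000000 0x1e0000003e00000038000001df000000ff000000f70000000400000004 8 9) 0 0 (step_sound _ 132 [(rh71222050f2c63a3a.shift 4 2), rh8c036e70001c6cb4] (by decide +kernel))
noncomputable def rh7cbe911a3d1b0fc6 : CRef := CRef.mk (Pat.mk 0xc00000038000000000000000000000000 0x40000007c0000003e0000007f0000000f0000000e 8 7) 0 0 (step_sound _ 98 [(rh2381ca26b8b38d1e.shift 1 2), rh343b49c92b0d1ab6, (rh5c75ef1ea170a9c9.shift 0 2), (rhbb7a69f31443c624.shift 1 0)] (by decide +kernel))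
noncomputable def rh765afb4c4c69d08d : CRef := CRef.mk (Pat.mk 0x200000002000000001000000060000000000000000000000000 0x20000000310000001df000001fe000003ff0000000800000008 8 10) 0 0 (step_sound _ 100 [(rh1d2959ed89b45393.shift 0 2), (rh217f95aeeba9853f.shift 1 0), (rha9fbfd4bb8cf890b.shift 1 3), (rhf516d1cec07c11dd.shift 3 2)] (by decide +kernel))
noncomputable def rhf5a56d1d3da40461 : CRef := CRef.mk (Pat.mk 0x4000000400000000e0000000000000000 0x600000006000000730000003e0000007700000004 8 7) 0 0 (step_sound _ 68 [(rh0edd3afef6b5d7e0.shift 0 1), (rh45e9dfbd6bd5d256.shift 1 2), rh66bc42aef72ed29e] (by decide +kernel))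
noncomputable def rh98c349a850b32313 : CRef := CRef.mk (Pat.mk 0x1e0000000000000000000000000000000000000000 0x70000001e0000003f0000000f000000070000000700000004 8 6) 0 0 (step_sound _ 193 [(rh3244c3cc8379b070.shift 0 5), rha542bd266301efcf] (by decide +kernel))
noncomputable def rhf1348847de3d7c99 : CRef := CRef.mk (Pat.mk 0xc00000046000000060000000000000000000000000 0xc00000077f000003fe000003be0000003000000030 8 11) 0 0 (step_sound _ 103 [(rh1f6db40266a7e837.shift 2 2), (rh4115c02c20bfbac7.shift 4 3), (rh8d68598c2ad98dab.shift 3 2), rhe76712f6cc34fa8a] (by decide +kernel))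
noncomputable def rhe2fecfd23a14b663 : CRef := CRef.mk (Pat.mk 0x6000000030000000080000001800000000 0x1e0000007e000000380000001f0000007c00000024 8 7) 0 0 (step_sound _ 66 [(rh4d2c176d3ba1201d.shift 1 0), (rh963947c056dfa370.shift 0 1), (rhdeca8db941583de2.shift 0 1)] (by decide +kernel))
noncomputable def rhfea4b8f8f554645a : CRef := CRef.mk (Pat.mk 0x42000000060000000000000000000000000 0x20000000200000077f000003fe000003bf0000001000000010 8 11) 0 0 (step_sound _ 103 [(rh4115c02c20bfbac7.shift 4 3), (rh8d68598c2ad98dab.shift 3 2), rhdd7ef502740dd93f] (by decide +kernel))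
noncomputable def rhaee3946d18522e4e : CRef := CRef.mk (Pat.mk 0x4000000020000000e0000000000000000000000000 0x400000006000000060000000600000003f000000fe000001be0000003000000030 8 9) 0 0 (step_sound _ 100 [(rh77d69f1d64c8a7bf.shift 0 2), (rh88129595a1b18399.shift 3 0), (rha0cb3bbe8e8f737b.shift 3 0), (rhcfde16a7ff36af03.shift 3 0), (rhe95764522a3045ba.shift 3 0)] (by decide +kernel))
noncomputable def rh44e3a696c68bdf71 : CRef := CRef.mk (Pat.mk 0x300000010800000018000000000000000000000000 0x100000001000000038000001df000000ff000000ef0000000c00000004 8 9) 0 0 (step_sound _ 132 [(rh503dd4575245365b.shift 3 2), (rh708bc64a570577a3.shift 1 2), rhc596c3b48d27f3ff] (by decide +kernel))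
noncomputable def rhdeeda52dcb26d28e : CRef := CRef.mk (Pat.mk 0x6000000220000000300000000000000000 0x2800000068000003bf000001fe000001cf00000004 8 10) 0 0 (step_sound _ 67 [rh25e345de685d2ea1, (rh53dc8f2a0d03c1bb.shift 1 1), (rhc438194bb1afa290.shift 2 1), (rhcd5202c2f44956cd.shift 0 1), (rhf7c67434615c489e.shift 0 1)] (by decide +kernel))
noncomputable def rh6397864faed7dd63 : CRef := CRef.mk (Pat.mk 0x8000000880000000e00000000000000000000000000000000 0xa000000ef0000007e00000077000000070000000700000001 8 8) 0 0 (step_sound _ 66 [(rh004eb042272b171f.shift 0 1), rh2be55ed2cf41e82d, (rhb06fe4ed243a8544.shift 0 2), (rhdebc43b768884653.shift 2 1)] (by decide +kernel))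
noncomputable def rhaee21cc6c898f5a0 : CRef := CRef.mk (Pat.mk 0x400000044000000070000000000000000000000000 0x10000000500000077f000003fe000003b70000002000000020 8 11) 0 0 (step_sound _ 99 [(rh4a48bdcac7eb7535.shift 2 2), (rh5e601430b8bc2e39.shift 0 2), (rh7fb660bc21ce4329.shift 1 3), rhc6d8423fce477eae] (by decide +kernel))
noncomputable def rh5fd94e24f9e537d8 : CRef := CRef.mk (Pat.mk 0x8000000080000001800000010000000000000000000000000 0x40000000c0000000f0000001f000000ff000000ee0000000c0000000c 8 8) 0 0 (step_sound _ 99 [(rh27583648a5859718.shift 2 0), (rh27800583ef719a7c.shift 0 2), (rh81ff32de2979b8ba.shift 0 2), (rhc4526fc8abf298b6.shift 2 1)] (by decide +kernel))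
noncomputable def rh2c51b2bc1a4c4600 : CRef := CRef.mk (Pat.mk 0x300000001800000010000000000000000000000000 0x1000000010000000300000001f000000ff000000ef0000000c0000000c 8 8) 0 0 (step_sound _ 99 [(rh1e309b005ffa1b36.shift 3 1), (rh708bc64a570577a3.shift 1 2), rhe5e7f3ce924c22dc] (by decide +kernel))
noncomputable def rh38e54919b2e165d5 : CRef := CRef.mk (Pat.mk 0x6000000038000000040000000800000000 0x140000001c0000001c0000001c00000078000000380000001f0000007c00000074 8 7) 0 0 (step_sound _ 67 [rh3a85671e22302ca4, (rhbbd9e14f32dff073.shift 1 0), (rhd4827d0149fd9ee2.shift 2 0), (rheea1a90336e79c71.shift 0 2)] (by decide +kernel))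
noncomputable def rh6f71ba7d47a17374 : CRef := CRef.mk (Pat.mk 0x38000000180000000200000004 0x3c0000007e0000006f0000003a0000001f0000000f00000005 8 7) 0 0 (step_sound _ 131 [rh70484eefc62234e7, (rh93ae72e16f3e6ebe.shift 2 0), (rhc218c754d11d095e.shift 1 2), (rhd188899883dd9128.shift 1 1)] (by decide +kernel))
noncomputable def rhe10bf887de8b406d : CRef := CRef.mk (Pat.mk 0x100000001800000020000000000000000000000000 0x2800000038000000380000001800000018000000180000003f000000ff0000001f0000001c00000008 8 8) 0 0 (step_sound _ 100 [(rh5c5a2014709044d0.shift 1 3), (rh6d5e3c633cfb8d8e.shift 3 1), rhf31987f04b2ef343] (by decide +kernel))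
noncomputable def rhd14568cc992204e6 : CRef := CRef.mk (Pat.mk 0x80000000d000000018000000280000000000000000 0x40000008c000000dc0000005f000000fc000000df0000001c 8 8) 0 0 (step_sound _ 35 [rh44e8312d0ea12e08, (rh71222050f2c63a3a.shift 3 0)] (by decide +kernel))
noncomputable def rhb59f92c17d33b803 : CRef := CRef.mk (Pat.mk 0x80000000d00000001800000028000000000000000000000000 0x1800000098000000d80000005f000000ff000000d40000001000000010 8 8) 0 0 (step_sound _ 196 [(rh5c5e593799055d58.shift 3 3), rhbed3030968891e6d] (by decide +kernel))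
noncomputable def rh6745c5ff56c9e9b6 : CRef := CRef.mk (Pat.mk 0x700000004000000000000000000000000000000000 0x18000000180000001f0000007e0000007f0000001c0000001c0000001c00000004 8 7) 0 0 (step_sound _ 163 [(rh0de499e0455c9c14.shift 1 4), (rh88c620441a3a17ea.shift 0 4), (rh9bf7868648b61fa5.shift 2 0), (rhd1d05263fabc0227.shift 1 4)] (by decide +kernel))
noncomputable def rh74b7acafecb441b1 : CRef := CRef.mk (Pat.mk 0x100000001a00000003000000040000000000000000 0x3000000130000001b0000000f0000001f0000000b00000001 8 5) 0 0 (step_sound _ 161 [rh281c6819542c66e6, (rhb97e9696aca01bb4.shift 0 2), rhf17cac4927d2b252] (by decide +kernel))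
noncomputable def rh4a102f56f45b9696 : CRef := CRef.mk (Pat.mk 0x100000001800000030000000000000000000000000 0x18000000180000001800000038000000ff0000001c0000000800000008 8 8) 0 0 (step_sound _ 102 [rh390c02dca95b3e92, (rhf48373e13d2bc128.shift 3 3)] (by decide +kernel))
noncomputable def rh8f9f0dfb4a0bdb83 : CRef := CRef.mk (Pat.mk 0x120000001a0000000200000004 0x5000000070000000700000007000000030000001f0000001b0000000600000004 8 5) 0 0 (step_sound _ 129 [(rh76476fb06443618f.shift 0 1), (rhd3458b32566d63f7.shift 1 0)] (by decide +kernel))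
noncomputable def rh3a601bbda3c50460 : CRef := CRef.mk (Pat.mk 0x4000000060000002080000001000000000 0x3000000030000000380000007c0000006c000003bf000001fe000003ef 8 10) 0 0 (step_sound _ 37 [(rh2674d74952efbaa7.shift 0 1), (rh6306c33b2c5ecc3d.shift 2 0), rh801c94eb53239f03, (rh9126ab5c0957071d.shift 2 0), (rhc6c43133bd18cd01.shift 3 0), (rhddfb8b3b81b2cb9e.shift 1 0)] (by decide +kernel))
noncomputable def rh9d1779f735912eef : CRef := CRef.mk (Pat.mk 0x4000000060000002080000001000000000 0x30000000300000003c0000007c00000070000003bf000001fe000003ef 8 10) 0 0 (step_sound _ 37 [(rh2674d74952efbaa7.shift 0 1), (rh2e8463c74ca5e14f.shift 2 0), (rh6306c33b2c5ecc3d.shift 2 0), rh801c94eb53239f03, (rhc6c43133bd18cd01.shift 3 0), (rhddfb8b3b81b2cb9e.shift 1 0)] (by decide +kernel))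
noncomputable def rh3022e539c37b4796 : CRef := CRef.mk (Pat.mk 0x9000000010000000100000001000000000 0x4000000040000000f000000ff0000001f000000180000001000000010 8 8) 0 0 (step_sound _ 131 [(rh50fbb5868c909700.shift 3 1), rh76607de0752cb102] (by decide +kernel))
noncomputable def rh78dc42c9dfcfea2e : CRef := CRef.mk (Pat.mk 0x1600000002000000020000000400000000000000000000000000000000 0x40000001e00000003000000070000000700000003000000070000000600000004 8 5) 0 0 (step_sound _ 129 [(rh2f68792b6b779e96.shift 1 4), rhcad14a77f13d4ef7] (by decide +kernel))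
noncomputable def rh82b0eb7ce5f29c3f : CRef := CRef.mk (Pat.mk 0x180000001c0000000800000000 0xc0000001c0000007c0000001e0000001c0000000f00000006 8 7) 0 0 (step_sound _ 132 [rh376f56e07341711e, (rh5c5e593799055d58.shift 3 1)] (by decide +kernel))
noncomputable def rhf57f97dc2369cf92 : CRef := CRef.mk (Pat.mk 0x1800000018000000180000000800000000 0xa0000003b0000001f0000001f0000000f00000004 8 6) 0 0 (step_sound _ 34 [(rh932754581e0f4330.shift 2 0), (rhc96ba193bffa29c7.shift 0 1)] (by decide +kernel))
noncomputable def rhbe662e14f5aac2f7 : CRef := CRef.mk (Pat.mk 0x9800000018000000000000000000000000 0x4000000140000003e000000ff000000180000000f0000003c0000001c 8 8) 0 0 (step_sound _ 133 [(rh361cc68994bd8a63.shift 3 3), rhaf1fe3e582eac314] (by decide +kernel))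
noncomputable def rh7bfbb51c679b913e : CRef := CRef.mk (Pat.mk 0x380000001c000000000000000000000000 0xc0000000c0000007f0000003f0000001c000000060000000600000006 8 7) 0 0 (step_sound _ 130 [(rh89a182a5c191c2c5.shift 1 0), (rhba89ab7cb81bcc90.shift 0 3), (rhe25191970535449e.shift 0 3)] (by decide +kernel))
noncomputable def rh65d7ca34c36186de : CRef := CRef.mk (Pat.mk 0x9800000018000000000000000000000000 0xc0000000c0000001f000000f80000001e0000000f0000003c0000001c 8 8) 0 0 (step_sound _ 133 [rh33af28911adab0a6, (rh361cc68994bd8a63.shift 3 3)] (by decide +kernel))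
noncomputable def rhb7abc84d1061fd9c : CRef := CRef.mk (Pat.mk 0x1000000018000000180000000800000000 0xc0000000f0000007f0000001e0000001c0000000c00000004 8 7) 0 0 (step_sound _ 131 [rh36f871eae198a85d, (rh61a70030856c1f8c.shift 0 1), (rh7b9fbdf6d2d059e4.shift 2 1), (rh925a1628dd8a50da.shift 2 0)] (by decide +kernel))
noncomputable def rh64c7865595ed6f7e : CRef := CRef.mk (Pat.mk 0x1800000018000000080000000000000000 0xc0000001f000000180000000e0000007c0000001c 8 7) 0 0 (step_sound _ 35 [(rh71222050f2c63a3a.shift 3 0), rh953ee682fa68f127] (by decide +kernel))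
noncomputable def rh9d905d38a8f2b637 : CRef := CRef.mk (Pat.mk 0x10000000380000001c0000000000000000 0x200000006c0000007c0000003e0000001c0000000f0000000e 8 7) 0 0 (step_sound _ 35 [(rh71222050f2c63a3a.shift 3 0), rhb3cd6b7cac7b3e8a] (by decide +kernel))
noncomputable def rhaf2fa9cc7c8459c0 : CRef := CRef.mk (Pat.mk 0x1000000098000000180000000000000000 0x20000000640000007f000000ff000000180000000800000008 8 8) 0 0 (step_sound _ 101 [(rh361cc68994bd8a63.shift 3 2), rhc19c3e8671cf472d] (by decide +kernel))
noncomputable def rhb4f690055ec3bfef : CRef := CRef.mk (Pat.mk 0x1000000038000000180000000000000000 0x20000000680000007f0000003f0000001e0000000400000004 8 7) 0 0 (step_sound _ 66 [(rh53b3c253cb0c65f4.shift 1 2), rh5d12ff4213831537] (by decide +kernel))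
noncomputable def rhc0c71ca73184d2dd : CRef := CRef.mk (Pat.mk 0x8000000480000004c00000040 0x140000001c0000001c000000380000007c0000003f0000007c0000006c00000040 8 7) 0 0 (step_sound _ 131 [rh3eb70c5b9f895cc5, (rh83b602833a62f83f.shift 2 1), (rh9a369cb82ea472da.shift 2 1)] (by decide +kernel))
noncomputable def rh96771e4d2d9cd1b6 : CRef := CRef.mk (Pat.mk 0x10000000d8000000980000008800000000 0x4c0000004c00000078000000df000000df0000008c00000004 8 8) 0 0 (step_sound _ 131 [(rh23625f181fa295a9.shift 3 1), (rh925a1628dd8a50da.shift 2 0), (rhc7469040363f06d7.shift 0 1)] (by decide +kernel))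
noncomputable def rh93ebb9c80adce467 : CRef := CRef.mk (Pat.mk 0x8000000980000001800000008 0xf40000007f000000df0000001800000008 8 8) 0 0 (step_sound _ 100 [(rh5c5e593799055d58.shift 3 0), rh84a77af056cc0ecc] (by decide +kernel))
noncomputable def rh3ba7041cce459f47 : CRef := CRef.mk (Pat.mk 0x1c00000018000000880000000800000000 0x1f0000001f000000ef0000007e00000014 8 8) 0 0 (step_sound _ 129 [rh1d31a08224fc3acc, (rhb739f4f82bb681b4.shift 0 3)] (by decide +kernel))
noncomputable def rh0639031dd8fffce6 : CRef := CRef.mk (Pat.mk 0x1c0000000c0000000400000000 0x160000003e0000003e0000001f0000000f0000000600000002 8 6) 0 0 (step_sound _ 65 [(rh53b3c253cb0c65f4.shift 0 2), rhe5977812052fd13c] (by decide +kernel))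
noncomputable def rhf4464e16bd84923e : CRef := CRef.mk (Pat.mk 0x1e0000000e0000000000000000 0x100000003c0000003f0000001e0000000e0000000600000006 8 6) 0 0 (step_sound _ 129 [(rh3244c3cc8379b070.shift 0 3), (rh4f6a7e1817ad81b0.shift 1 0)] (by decide +kernel))
noncomputable def rhc8d974ac801cdc7e : CRef := CRef.mk (Pat.mk 0x1800000018000000000000000000000000 0x80000001c0000001f0000003f0000001c0000000f0000007c0000001c 8 7) 0 0 (step_sound _ 67 [(rh0bb3bf9cae16a8bf.shift 1 0), (rh5fb5fc5f2cc2ee3c.shift 0 1), rh72b06522cc100222, rh89fdf87e8478868f, (rhea7a1800d6f053bd.shift 3 0)] (by decide +kernel))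
noncomputable def rh622e057eef4d3aff : CRef := CRef.mk (Pat.mk 0x100000009800000018 0x24000000660000007f000000ff00000018 8 8) 0 0 (step_sound _ 37 [(rh361cc68994bd8a63.shift 3 0), rh59ef90f1a341f5f8] (by decide +kernel))
noncomputable def rh763dc42a4ad21787 : CRef := CRef.mk (Pat.mk 0x80000004c0000000c0000000000000000 0x12000000320000003f0000007f0000000c0000000400000004 8 7) 0 0 (step_sound _ 100 [(rh361cc68994bd8a63.shift 2 2), rh821e2b249dabc99e] (by decide +kernel))
noncomputable def rhe9a65a40f6d46941 : CRef := CRef.mk (Pat.mk 0x10000000980000001800000000 0x2c0000006f0000007e000000fe0000001e00000004 8 8) 0 0 (step_sound _ 69 [(rh361cc68994bd8a63.shift 3 1), rhc067126faa05399d] (by decide +kernel))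
noncomputable def rhe566f6163fc5e306 : CRef := CRef.mk (Pat.mk 0x20000001a0000001300000010 0x7c0000003e0000006b0000003a0000001b00000011 8 7) 0 0 (step_sound _ 129 [rh932754581e0f4330, rhea620fd197d7b398] (by decide +kernel))
noncomputable def rh85981d64381482f7 : CRef := CRef.mk (Pat.mk 0x1000000038000000080000000000000000 0xc0000000c0000000c0000001e000000380000000f0000003c0000001c 8 6) 0 0 (step_sound _ 35 [(rh71222050f2c63a3a.shift 3 0), rhdd0204f7d0593322] (by decide +kernel))
noncomputable def rhd0de0a6d6677bb9a : CRef := CRef.mk (Pat.mk 0x10000000180000001c000000000000000000000000 0xa0000003f0000001f0000001c0000000f0000000e00000006 8 6) 0 0 (step_sound _ 67 [(rh71222050f2c63a3a.shift 3 1), rhcf1c4abdb38935f3] (by decide +kernel))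
noncomputable def rhc3d0685d4229b680 : CRef := CRef.mk (Pat.mk 0x200000002000000120000001300000010 0x7c0000003e0000006b0000003e0000001b00000010 8 7) 0 0 (step_sound _ 67 [(rhb2a0b9ccfb5cecd5.shift 0 1), rhea620fd197d7b398] (by decide +kernel))
noncomputable def rhd181063e2d6f3e58 : CRef := CRef.mk (Pat.mk 0x100000001e000000000000000000000000 0x200000007000000070000001f0000001e000000070000000300000003 8 5) 0 0 (step_sound _ 65 [rhb2117f5c4198772a, (rheb0810cc63b001d8.shift 0 2)] (by decide +kernel))
noncomputable def rh3cc8098aa49461a3 : CRef := CRef.mk (Pat.mk 0x1000000018000000180000000800000000 0xc0000000f0000007c0000003f0000001f0000000f00000006 8 7) 0 0 (step_sound _ 131 [(rh01ff8e29f1e0af53.shift 0 2), (rh925a1628dd8a50da.shift 2 0), rhc22f7def605069e8] (by decide +kernel))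
noncomputable def rh31e8ab66817c9b50 : CRef := CRef.mk (Pat.mk 0x100000001800000018000000080000000000000000 0x6000000370000003f0000001f0000000f0000000600000002 8 6) 0 0 (step_sound _ 130 [(rh10661bc2ae381af4.shift 0 1), rh2ff3123b8be10030, (rh34517e326ddb5b25.shift 0 3)] (by decide +kernel))
noncomputable def rh3e67125b2faf441c : CRef := CRef.mk (Pat.mk 0xc00000018000000180000000800000000 0x30000003f0000001f0000001f0000000f00000006 8 6) 0 0 (step_sound _ 34 [rh0ecb3c73c974f19f, (rh932754581e0f4330.shift 2 0)] (by decide +kernel))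
noncomputable def rhe3d0d9bd562d1f31 : CRef := CRef.mk (Pat.mk 0x180000001c000000000000000000000000 0x1c0000003e0000000f0000001c0000001c0000000f0000000e0000000c 8 6) 0 0 (step_sound _ 163 [rh29282e2fddcef4d8, (rh2b4f3c0785538b0e.shift 0 2), (rh37d9ceebb86d75d1.shift 2 2)] (by decide +kernel))
noncomputable def rh9c70b30a20f56331 : CRef := CRef.mk (Pat.mk 0x180000001c000000000000000000000000 0xb0000000f0000001b0000001f0000000f0000000400000004 8 5) 0 0 (step_sound _ 97 [(rh53b3c253cb0c65f4.shift 0 3), rh84d30f004d60fc45] (by decide +kernel))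
noncomputable def rha1e34485085d267d : CRef := CRef.mk (Pat.mk 0x180000001c000000000000000000000000 0x7e0000007e0000003f0000003f0000001c000000060000000600000006 8 7) 0 0 (step_sound _ 195 [rh1556d2f2b9d8f0cc, (rh4ec4eb1e6df06e8b.shift 1 3), (rh82dab21003612da6.shift 1 2), (rhe908f39dd8d66be2.shift 2 2)] (by decide +kernel))
noncomputable def rh8e7402f15cb94778 : CRef := CRef.mk (Pat.mk 0x20000000300000003400000010000000000000000000000000 0x200000006000000660000003e000000360000001e0000000f0000000e0000000a 8 7) 0 0 (step_sound _ 162 [rh48b3a43f2f70c509, (rh760717e835f8c2f3.shift 1 4), (rh7dcc577706dd2abd.shift 1 4)] (by decide +kernel))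
noncomputable def rh7845670759dc0bcb : CRef := CRef.mk (Pat.mk 0x30000000340000001000000000000000000000000000000000 0x40000003e0000003e0000001e0000000f0000000e0000000e0000000a 8 6) 0 0 (step_sound _ 163 [(rh53b3c253cb0c65f4.shift 1 5), rhff2fe99714906ec8] (by decide +kernel))
noncomputable def rh439879a7f613b890 : CRef := CRef.mk (Pat.mk 0x800000018000000180000000800000000 0x170000001f0000001e0000001f0000000c00000004 8 5) 0 0 (step_sound _ 132 [rh10caf0c599b88049, (rh5c5e593799055d58.shift 3 1)] (by decide +kernel))
noncomputable def rh339defbbd9c20dbe : CRef := CRef.mk (Pat.mk 0x1800000018000000000000000000000000 0x7c000000ff0000003f0000003c00000018000000080000000800000008 8 8) 0 0 (step_sound _ 163 [(rh2b4f3c0785538b0e.shift 0 2), (rh3a4a3279d1203ea1.shift 1 2), (rh495a39b8a06d7922.shift 1 3), (rhaf1889c8c18df41b.shift 0 2), rhc3b3fbc12563084b, (rhf7c77fe48087fd5b.shift 2 0)] (by decide +kernel))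
noncomputable def rh156ec82af878a28b : CRef := CRef.mk (Pat.mk 0x200000006000000030000000000000000000000000 0x1000000050000000df000000fc000000780000003c0000001f0000001c00000010 8 8) 0 0 (step_sound _ 163 [rh124ea65f687bc384, (rh2b97ffc987f58186.shift 0 1), (rh51b3569eaa51cd94.shift 2 3), (rh5fadb4328f622dc2.shift 1 0), (rh6ae105d62f1df5d6.shift 1 0), (rh9d0278d2c0bfad43.shift 2 2), (rhc7de75c4f5377b84.shift 2 1)] (by decide +kernel))
noncomputable def rh503845878d31a61c : CRef := CRef.mk (Pat.mk 0x8000000080000000c 0x140000001f0000007f0000003e0000000c0000000c 8 7) 0 0 (step_sound _ 99 [(rh1741680720c097b4.shift 2 0), (rh9a369cb82ea472da.shift 2 0), rhd8051e8b79411f9c, (rhe62cab2ff5ad6fe2.shift 2 0)] (by decide +kernel))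
noncomputable def rh1d375726d1a8e0a8 : CRef := CRef.mk (Pat.mk 0x10000000300000001c00000000 0x2800000038000000380000003c000000ff0000003f000000380000001c00000004 8 8) 0 0 (step_sound _ 132 [(rh1741680720c097b4.shift 3 1), (rh35c5f1c53251aa1b.shift 3 1), (rh8aa0f211686350a1.shift 3 1), (rh9a369cb82ea472da.shift 3 1), rhd6d0e6a677caad26, (rhe62cab2ff5ad6fe2.shift 3 1), (rhf3bc05ddeebb714c.shift 3 1)] (by decide +kernel))
noncomputable def rhaaa14b20aedb262c : CRef := CRef.mk (Pat.mk 0x200000006000000038000000000000000000000000 0x140000005c000000df0000007c0000007e00000038000000180000001000000010 8 8) 0 0 (step_sound _ 163 [(rh16f812703776bd30.shift 2 2), rh3452acf58a5488fb, (rh3e1cfd1006139d22.shift 1 0), (rhba3de35515f04ede.shift 2 2), (rhfa4e74cf276cb686.shift 2 1)] (by decide +kernel))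
noncomputable def rh0b1b5d22e3fdb264 : CRef := CRef.mk (Pat.mk 0x20000000200000002000000030 0x5f0000007e000000ff0000003800000030 8 8) 0 0 (step_sound _ 102 [(rh2f68792b6b779e96.shift 5 0), rhcf7a4a71ba2d0e10] (by decide +kernel))
noncomputable def rh6831f9c0a6fbf048 : CRef := CRef.mk (Pat.mk 0x2000000020000001a00000012000000100 0xdf000000fe000000ef000001a0000001a000000100 8 9) 0 0 (step_sound _ 134 [(rh2f68792b6b779e96.shift 5 1), rhc9965c972f41f0fd] (by decide +kernel))
noncomputable def rhfece896c4f05d948 : CRef := CRef.mk (Pat.mk 0x30000000200000003800000000 0x10000000180000001e000000ff0000007f0000003800000008 8 8) 0 0 (step_sound _ 132 [rh3c41bccf8d7bca96, (rh565efde0ae11a447.shift 1 0), (rh79a48be3ac30af6a.shift 3 0), (rhe072fffdd2fccf38.shift 4 1)] (by decide +kernel))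
noncomputable def rhe2207c58c58eb607 : CRef := CRef.mk (Pat.mk 0x18000000900000001c00000000 0x80000000c000000ef0000007f000000df0000001c00000004 8 8) 0 0 (step_sound _ 101 [(rh1894f2ed4500f242.shift 1 2), rh20b6fd84536f847b, (rh5b4b3af11d136d4c.shift 0 2), (rh65b5b71720bdfb2f.shift 2 1)] (by decide +kernel))
noncomputable def rh92f824a565616456 : CRef := CRef.mk (Pat.mk 0x20000001a0000001300000010 0x50000007f0000003f0000006b0000003b0000001b00000010 8 7) 0 0 (step_sound _ 129 [(rh1741680720c097b4.shift 0 1), (rhe62cab2ff5ad6fe2.shift 0 1), rhea620fd197d7b398] (by decide +kernel))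
noncomputable def rh648cb65b07201b67 : CRef := CRef.mk (Pat.mk 0x200000003c0000001c000000000000000000000000 0x20000000240000002c0000003c0000001c0000000f0000007e0000001e 8 7) 0 0 (step_sound _ 197 [rh2b6da0ce21b405c1, (rh5c5e593799055d58.shift 4 3)] (by decide +kernel))
noncomputable def rhd3b81804e1b3874f : CRef := CRef.mk (Pat.mk 0x340000003400000100000000000000000000000000 0x200000006000000360000003600000036000001de000000ff0000003e0000000a 8 9) 0 0 (step_sound _ 100 [(rh0bb3bf9cae16a8bf.shift 2 1), rh48b3a43f2f70c509, (rh57c2fb96bba75c8c.shift 1 1), (rhea7a1800d6f053bd.shift 4 1)] (by decide +kernel))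
noncomputable def rh3730c0e847592473 : CRef := CRef.mk (Pat.mk 0x380000001c0000000000000000 0x60000000e0000007f0000003f0000001c0000000400000004 8 7) 0 0 (step_sound _ 98 [(rh2bee50a785d9baac.shift 1 0), (rhba89ab7cb81bcc90.shift 0 2), (rhe25191970535449e.shift 0 2)] (by decide +kernel))
noncomputable def rh8f25df1c4401e6bf : CRef := CRef.mk (Pat.mk 0x10000000c00000007000000000000000000000000000000000 0xa0000000e0000000ef0000007e000000ff0000007000000030000000380000003800000028 8 8) 0 0 (step_sound _ 195 [(rh12bb0db31a322525.shift 3 0), (rh25e2d6120361da26.shift 3 3), (rh9eee4c6bb46bd9bb.shift 0 5)] (by decide +kernel))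
noncomputable def rh34683d25e468c185 : CRef := CRef.mk (Pat.mk 0x8000000200000003800000000000000000000000000000000 0x2c0000002c0000003f000000380000001e0000001c0000001c0000000c 8 6) 0 0 (step_sound _ 100 [(rh0588d2c7f2cab5e9.shift 3 1), rhb9e7c05834e2b8c4, (rhf9366b6a121593ef.shift 4 1)] (by decide +kernel))
noncomputable def rh7c9af8700cf27961 : CRef := CRef.mk (Pat.mk 0x20000000200000002000000060000000000000000000000000000000000000000 0x4000000060000000600000006000000060000000300000007000000070000000700000005 8 3) 0 0 (step_sound _ 258 [(rh2f68792b6b779e96.shift 1 5), rh6b12d1f58a080aba] (by decide +kernel))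
noncomputable def rh124e1422b028ecf1 : CRef := CRef.mk (Pat.mk 0x8000000200000003800000000000000000000000000000000 0x2c0000003c0000003f000000380000001e0000007c0000003c0000000c 8 7) 0 0 (step_sound _ 100 [(rh0588d2c7f2cab5e9.shift 3 1), rhb9e7c05834e2b8c4, (rhf9366b6a121593ef.shift 4 1), (rhfdc14af84f181ffe.shift 1 1)] (by decide +kernel))
noncomputable def rh931e099d36dc5a6d : CRef := CRef.mk (Pat.mk 0x2000000038000000000000000000000000 0xa0000000e0000000e0000003f0000003e0000000f0000000c0000000c 8 6) 0 0 (step_sound _ 98 [(rh21d582c147e7e118.shift 0 2), (rh775ca1963e850b80.shift 0 2), (rh7fb660bc21ce4329.shift 0 3), (rha864593327555e86.shift 1 0)] (by decide +kernel))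
noncomputable def rh0078733da135a0ce : CRef := CRef.mk (Pat.mk 0xa000000680000004e000000400000000000000000 0x20000000220000003e0000006e0000006e000000470000003e0000000e 8 7) 0 0 (step_sound _ 66 [(rh0588d2c7f2cab5e9.shift 1 0), rh8996b44e7b4d578a, (rhe88c550d8f93cc58.shift 1 2), (rhf9af042da61fc652.shift 2 0)] (by decide +kernel))
noncomputable def rhe3fb37630d4ca04a : CRef := CRef.mk (Pat.mk 0x28000000200000003800000000000000000000000000000000 0xc0000002c0000003f000000380000001e0000001c0000001c0000000c 8 6) 0 0 (step_sound _ 100 [(rh0588d2c7f2cab5e9.shift 3 1), rhb9e7c05834e2b8c4, (rhf9af042da61fc652.shift 4 1)] (by decide +kernel))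
noncomputable def rh92fc335d199f61a1 : CRef := CRef.mk (Pat.mk 0xe000000180000000c 0x50000000700000017000000330000001e0000001f0000000c 8 6) 0 0 (step_sound _ 68 [(rh5421160f8e9bcf07.shift 1 0), rhe476af74ce517c34] (by decide +kernel))
noncomputable def rhaf883f35b8ae1ddd : CRef := CRef.mk (Pat.mk 0x2000000038000000000000000000000000 0xa0000000e0000000e0000003f0000003e0000000f0000000c0000000c 8 6) 0 0 (step_sound _ 98 [(rh21d582c147e7e118.shift 0 2), (rh7fb660bc21ce4329.shift 0 3), (rha864593327555e86.shift 1 0)] (by decide +kernel))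
noncomputable def rhb888a4ed66abb9b6 : CRef := CRef.mk (Pat.mk 0xa000000180000000c00000000 0x500000007000000070000000f0000001e0000000f00000004 8 5) 0 0 (step_sound _ 96 [rh0622000b439688b9, (rhc10214bf3fe8094a.shift 0 2)] (by decide +kernel))
noncomputable def rh0d198e7b3b22188e : CRef := CRef.mk (Pat.mk 0xa000000480000000c00000000 0x200000012000000370000001f0000007c0000000f00000004 8 7) 0 0 (step_sound _ 68 [(rh361cc68994bd8a63.shift 2 1), rhaf880aabec1648e3] (by decide +kernel))
noncomputable def rhaf0cdc8d03649a0d : CRef := CRef.mk (Pat.mk 0x14000000900000001800000000 0xa0000000e0000000e00000036000000ff0000001e00000008 8 8) 0 0 (step_sound _ 69 [(rh361cc68994bd8a63.shift 3 1), rhce50caaf6070b48d] (by decide +kernel))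
noncomputable def rh1f4df707a11c768c : CRef := CRef.mk (Pat.mk 0x1c00000010000000080000000000000000 0x600000006000000070000003f0000001f0000000f0000000b00000008 8 6) 0 0 (step_sound _ 99 [(rh40241bd608e5be1a.shift 2 0), (rh4252738265855d8f.shift 0 1), (rhaf6f6536f36508a5.shift 0 2)] (by decide +kernel))
noncomputable def rh6392b194c2250731 : CRef := CRef.mk (Pat.mk 0x7000000040000000200000000000000000 0x140000001c0000001c0000001f0000007e0000007f000000380000002000000020 8 7) 0 0 (step_sound _ 131 [(rh1e68a8f8d4e6068c.shift 2 0), (rh36eba2a3de447758.shift 0 3), (rh775ca1963e850b80.shift 1 3), (rhbcba2c69c000b897.shift 2 2)] (by decide +kernel))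
noncomputable def rh301918382b31d376 : CRef := CRef.mk (Pat.mk 0x1c00000090000000180000000000000000 0xc000000ec0000007f000000df000000180000000800000008 8 8) 0 0 (step_sound _ 99 [(rh40241bd608e5be1a.shift 2 0), (rh44c9093828af93dc.shift 0 2), rh967b1f03b1a51abb] (by decide +kernel))
noncomputable def rhad87d98ff58cc971 : CRef := CRef.mk (Pat.mk 0x280000012000000030000000000000000000000000 0x140000005c000000df000000f8000001fe0000003c000000100000001000000010 8 9) 0 0 (step_sound _ 134 [(rh361cc68994bd8a63.shift 4 3), rh3be249b7dfe4b0c8] (by decide +kernel))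
noncomputable def rh3ad8c33d1e59f72f : CRef := CRef.mk (Pat.mk 0x20000000200000002000000030 0x5f0000007e000000fe0000003800000030 8 8) 0 0 (step_sound _ 100 [(rh50fbb5868c909700.shift 4 0), rhd03d94b6081854a5] (by decide +kernel))
noncomputable def rhc592605715f672d5 : CRef := CRef.mk (Pat.mk 0x800000000000001300000013000000110 0x1ff000001fe000000f0000001b0000001b000000110 8 9) 0 0 (step_sound _ 133 [rh11366d728954a393, (rhee230b994cc8b773.shift 4 0)] (by decide +kernel))
noncomputable def rhe5b71c37373d98f9 : CRef := CRef.mk (Pat.mk 0x180000001c000000000000000400000000 0x3c000000fe0000007c0000001f0000001f000000070000000600000002 8 8) 0 0 (step_sound _ 163 [rh16d6d4897ab42222, (rh37d9ceebb86d75d1.shift 2 2), (rhd5461851e65b5783.shift 1 3)] (by decide +kernel))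
noncomputable def rh18ca5f7096039d29 : CRef := CRef.mk (Pat.mk 0x60000000000000007000000000000000000000000000000000 0x1c0000007c0000001f0000007e000000ef0000001c0000001c00000014 8 8) 0 0 (step_sound _ 131 [(rh0d378fd9e8917c5a.shift 1 3), (rh185f35b8bd8ec37f.shift 1 3), (rh33fea92da69efb3d.shift 2 0), (rh775ca1963e850b80.shift 1 3), (rhbb13f9e1d387f64a.shift 0 3)] (by decide +kernel))
noncomputable def rh3bd7840805157786 : CRef := CRef.mk (Pat.mk 0x1800000098000000180000000800000000 0xe70000007e000000df0000001f0000000f00000004 8 8) 0 0 (step_sound _ 34 [(rh04edab567457b339.shift 0 1), (rh932754581e0f4330.shift 2 0)] (by decide +kernel))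
noncomputable def rha7c33e4c67a5da70 : CRef := CRef.mk (Pat.mk 0x18000000180000001800000000 0xc0000000f0000003c0000001c0000001f00000007 8 6) 0 0 (step_sound _ 131 [(rh2145e1d24b96a57e.shift 3 1), rh412bae3e588ec957] (by decide +kernel))
noncomputable def rh93e03a66e493979d : CRef := CRef.mk (Pat.mk 0x10000000340000003000000010000000000000000000000000 0x2000000260000003e000000360000003e0000001e0000000f0000000e0000000a 8 6) 0 0 (step_sound _ 130 [(rh2c066ee1c5ee8ac1.shift 1 2), rh48b3a43f2f70c509, (rh6e1685e3533aff0e.shift 1 4), (rhad7977e38c228a96.shift 1 0), (rhe69eae3a7677d0f9.shift 1 0)] (by decide +kernel))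
noncomputable def rh59f151bdef48d0ee : CRef := CRef.mk (Pat.mk 0x100000001a00000018000000080000000000000000 0x2000000370000001e0000001f0000000f0000000700000002 8 6) 0 0 (step_sound _ 130 [(rh33e738c4ed385b9f.shift 1 4), rh7292f58be624bbb0] (by decide +kernel))
noncomputable def rha4cfcc078715a95f : CRef := CRef.mk (Pat.mk 0x1e0000001800000008000000000000000000000000 0x500000007000000070000000b0000001e0000001f0000000f000000040000000400000004 8 5) 0 0 (step_sound _ 129 [rha9e59e1da88d1192, (rheb0810cc63b001d8.shift 0 4)] (by decide +kernel))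
noncomputable def rhf90c31cc11b42f94 : CRef := CRef.mk (Pat.mk 0x20000000340000003400000000000000000000000000000000 0x2000000060000002600000036000000360000001e0000001f0000000e0000000a 8 6) 0 0 (step_sound _ 100 [rh48b3a43f2f70c509, (rh71222050f2c63a3a.shift 4 2)] (by decide +kernel))
noncomputable def rhf8f3f20c2284a69f : CRef := CRef.mk (Pat.mk 0x30000000300000001800000000 0x80000002c0000007f0000003e000000380000001e00000004 8 7) 0 0 (step_sound _ 133 [(rh5c5e593799055d58.shift 4 1), rhb0f6f82c81bd050e] (by decide +kernel))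
noncomputable def rh22e8b6572a2a969e : CRef := CRef.mk (Pat.mk 0x1e0000001800000000000000000000000000000000 0x70000001e0000001f00000003000000070000000700000005 8 5) 0 0 (step_sound _ 129 [rhb624fe41750363c1, (rheb0810cc63b001d8.shift 0 4)] (by decide +kernel))
noncomputable def rha5d7771fbef1a42a : CRef := CRef.mk (Pat.mk 0x1a0000001a00000000000000080000000000000000 0x500000007000000070000001a0000001f000000070000001f0000000700000001 8 5) 0 0 (step_sound _ 130 [(rh53b3c253cb0c65f4.shift 0 4), rh5854c020c97ff32b] (by decide +kernel))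
noncomputable def rh5439e3aa279d637d : CRef := CRef.mk (Pat.mk 0x1a0000001a000000880000000000000000 0x1a0000001a000000ef0000007f000000ff 8 8) 0 0 (step_sound _ 35 [rh22765f884d28ab92, (rh71222050f2c63a3a.shift 3 0)] (by decide +kernel))
noncomputable def rh055a94e78211b7cd : CRef := CRef.mk (Pat.mk 0x1e00000018000000000000000000000000 0x10000000f0000000f0000000f0000001e0000001f0000000c0000000c0000000c 8 5) 0 0 (step_sound _ 97 [rh934dff11b019b1da, (rheb0810cc63b001d8.shift 0 3)] (by decide +kernel))
noncomputable def rh045096250a64bcbe : CRef := CRef.mk (Pat.mk 0x1c000000180000000000000000 0x4000000040000000f0000001f0000001b0000000f0000000f 8 5) 0 0 (step_sound _ 97 [rh8e1995675f27b640, (rhb739f4f82bb681b4.shift 0 2)] (by decide +kernel))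
noncomputable def rh22601b998b71ca07 : CRef := CRef.mk (Pat.mk 0x1c00000018000000000000000000000000 0xc0000000e0000000f0000001c0000001c0000000f0000007e0000001c 8 7) 0 0 (step_sound _ 67 [(rh0bb3bf9cae16a8bf.shift 1 0), (rh40241bd608e5be1a.shift 2 0), rh72b06522cc100222, (rh9e8430fd1e28d4a0.shift 0 1)] (by decide +kernel))
noncomputable def rh00a147244f7b7e41 : CRef := CRef.mk (Pat.mk 0x1c000000180000000000000000 0x50000000700000007000000030000001f0000001f0000000f00000005 8 5) 0 0 (step_sound _ 97 [rh242da236d25e3a20, (rhb739f4f82bb681b4.shift 0 2)] (by decide +kernel))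
noncomputable def rhdb8ef9f8c8b57f42 : CRef := CRef.mk (Pat.mk 0x1800000008000000000000001e00000000000000000000000000000000 0x780000001f000000070000001e00000003000000070000000700000005 8 7) 0 0 (step_sound _ 194 [rh2ec804fbe0df033a, (rh69012675dfdb1a5b.shift 0 6)] (by decide +kernel))
noncomputable def rh911afb7894f49e78 : CRef := CRef.mk (Pat.mk 0x8000000180000001c00000000000000000000000000000000 0xc0000001f0000001f00000007000000070000000700000005 8 5) 0 0 (step_sound _ 129 [(rh53b3c253cb0c65f4.shift 0 4), rhc7797d8044370911] (by decide +kernel))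
noncomputable def rhe8b49820a5c39089 : CRef := CRef.mk (Pat.mk 0x180000001c00000000 0x10000000300000003000000030000001f0000001f00000007 8 5) 0 0 (step_sound _ 33 [(rh53b3c253cb0c65f4.shift 0 1), rh97009123efd6388b] (by decide +kernel))
noncomputable def rhf98c0cd53fd7379e : CRef := CRef.mk (Pat.mk 0x1800000008000000000000001e00000000000000000000000000000000 0x7c0000000f000000070000001e00000003000000070000000700000005 8 7) 0 0 (step_sound _ 161 [(rh3244c3cc8379b070.shift 0 4), rh708bb0c71cfc68dd] (by decide +kernel))
noncomputable def rhd0cae7a5c36b3761 : CRef := CRef.mk (Pat.mk 0x80000001a00000018000000000000000000000000 0x100000035000000370000003f0000001e0000001f000000070000000700000005 8 6) 0 0 (step_sound _ 97 [rh2889dbd31c9f9295, (rh3860a403b9fb0c23.shift 0 3), (rhae10b161d58eac03.shift 0 1), (rhda02c4ce0b224328.shift 0 3)] (by decide +kernel))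
noncomputable def rh0d2506715b368dfb : CRef := CRef.mk (Pat.mk 0x80000001a0000001800000000000000000000000000000000 0x500000017000000370000001f0000001b0000001f00000007000000070000000700000005 8 6) 0 0 (step_sound _ 129 [(rh1a2d631749e0ac12.shift 0 2), (rh3a99a353950d6315.shift 0 1), (rh6e1685e3533aff0e.shift 0 4), rhad7977e38c228a96, (rhae10b161d58eac03.shift 0 2)] (by decide +kernel))
noncomputable def rhd27fabf0663470c7 : CRef := CRef.mk (Pat.mk 0x1800000008000000180000001c 0x270000003f0000007b0000001f0000001f 8 7) 0 0 (step_sound _ 98 [(rh50fbb5868c909700.shift 2 0), rhcc9905bd7b811457] (by decide +kernel))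
noncomputable def rha6a27f667eb860a4 : CRef := CRef.mk (Pat.mk 0x8000000180000001800000000 0xc0000000c0000000e0000001f0000001f00000007 8 5) 0 0 (step_sound _ 131 [rh04f32d166f1c28ac, (rh2145e1d24b96a57e.shift 3 1)] (by decide +kernel))
noncomputable def rhcec4d6e93d600f7a : CRef := CRef.mk (Pat.mk 0x1e0000000000000000 0x1000000070000000f0000003f0000001e0000000700000004 8 6) 0 0 (step_sound _ 97 [(rh3244c3cc8379b070.shift 0 2), rh8edd5e44a0701a59] (by decide +kernel))
noncomputable def rhdfb7e2ae95ebcd54 : CRef := CRef.mk (Pat.mk 0x1c00000018000000180000000800000000 0x30000003f0000001f0000001f0000000f00000004 8 6) 0 0 (step_sound _ 129 [(rhb739f4f82bb681b4.shift 0 3), rhce781957238eeb13] (by decide +kernel))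
noncomputable def rh4c3707919602ce19 : CRef := CRef.mk (Pat.mk 0x600000006800000200000000300000000000000000 0x140000007c0000006c0000038f000001fe000001ff00000004 8 10) 0 0 (step_sound _ 163 [(rh086f6046fa319626.shift 2 4), rhcdcae55ee22826d6, (rhe41a4dd78a7e5aba.shift 0 1), (rhe95191bb1778f74d.shift 0 1)] (by decide +kernel))
noncomputable def rh0ced53cd3be53ce0 : CRef := CRef.mk (Pat.mk 0x380000001a000000000000000000000000 0x3c0000007c0000007c0000003f0000001b000000080000000800000008 8 7) 0 0 (step_sound _ 67 [rh025f5a8d72a8b681, (rhc1cf994113067fab.shift 0 2), (rhea7a1800d6f053bd.shift 3 0)] (by decide +kernel))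
noncomputable def rhd176b2b3fa857f35 : CRef := CRef.mk (Pat.mk 0x3c0000001c000000000000000000000000 0x3e0000003e000000740000003c0000001c0000000f0000000e0000000e 8 7) 0 0 (step_sound _ 162 [(rh02353f785262f094.shift 1 3), (rh3e595262c1b737ad.shift 2 2), rhb8568cd48cd0369c] (by decide +kernel))
noncomputable def rh805563a7cda984e0 : CRef := CRef.mk (Pat.mk 0x3600000026000000200000000000000000 0x170000001f0000001f0000003700000036000000230000000700000007 8 6) 0 0 (step_sound _ 65 [rh131244fa5f5aa6a5, (rh4c1df022320c34d4.shift 0 2), rh8838b43a888e502e, rh8a9a0f84b36a2d4f, (rhea7a1800d6f053bd.shift 1 0)] (by decide +kernel))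
noncomputable def rh1a81a9a346820211 : CRef := CRef.mk (Pat.mk 0x3c0000001c00000000 0xff0000003e0000007c0000003c0000001c00000004 8 8) 0 0 (step_sound _ 131 [(rh6e8c68fa89a505c6.shift 1 1), rh8da67fc4d51f10b7, (rhcba04ef744144677.shift 3 1), (rhe908f39dd8d66be2.shift 2 0)] (by decide +kernel))
noncomputable def rhc4c055193397c921 : CRef := CRef.mk (Pat.mk 0x800000038000000180000000000000000 0x380000007c0000006c0000003f0000001f0000000800000008 8 7) 0 0 (step_sound _ 163 [(rh2145e1d24b96a57e.shift 3 2), rhca59a3548921eb7d] (by decide +kernel))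
noncomputable def rh2b321b3bba2075df : CRef := CRef.mk (Pat.mk 0x8000000180000001800000000000000040000000000000000 0xc0000001f0000001f00000007000000070000000700000001 8 5) 0 0 (step_sound _ 130 [(rh16d6d4897ab42222.shift 0 1), rh53e6de8d0a80751f, (rhdebc43b768884653.shift 2 1), (rhfe78e78768b72ccf.shift 0 1)] (by decide +kernel))
noncomputable def rh6beee8ddcac0c9aa : CRef := CRef.mk (Pat.mk 0x9800000098000000800000000000000000 0x480000005800000078000000f8000000dc0000008f0000003c0000001c 8 8) 0 0 (step_sound _ 134 [rh3b5e0548b89ec4b7, (rhb2a0b9ccfb5cecd5.shift 3 3)] (by decide +kernel))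
noncomputable def rh7e1155cf4b4bdd4f : CRef := CRef.mk (Pat.mk 0x100000001800000032000000080000000000000000 0x500000007000000170000001f000000330000001f0000000b00000001 8 6) 0 0 (step_sound _ 129 [(rhab22b5b56e7b3243.shift 1 3), rhb99169ecf0e38ba2] (by decide +kernel))
noncomputable def rhb927bcae22c2e7c1 : CRef := CRef.mk (Pat.mk 0x1000000090000000180000009200000000000000000000000000000000 0x10000000f20000001f000000fe0000000f000000060000000400000004 8 8) 0 0 (step_sound _ 161 [(rh41955519f857d4d5.shift 1 4), (rh90982cf581ae3e69.shift 1 5), rhc63714e1d754eae6] (by decide +kernel))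
noncomputable def rhb1845721ea04c47f : CRef := CRef.mk (Pat.mk 0x10000000100000001000000000000000000000000000000000 0x800000018000000180000003e0000007f0000003e0000003800000028 8 7) 0 0 (step_sound _ 100 [(rh39ec536f32deb957.shift 0 2), (rh47992774edf9829f.shift 3 0), (rh8cdd36b03d57a2f6.shift 3 1), (rh8ff3dde5b1c639e0.shift 3 1), (rhc4526fc8abf298b6.shift 3 1)] (by decide +kernel))
noncomputable def rh8d9dc76d2caafca6 : CRef := CRef.mk (Pat.mk 0x10000000100000001000000000 0x280000003e0000007f0000003e000000180000001800000008 8 7) 0 0 (step_sound _ 132 [(rh20966da26a1c2ae8.shift 3 0), (rh771d065bdc85bf2d.shift 3 0), rhbfe224b39bd022a6, (rhc85cc95794737cf7.shift 3 1)] (by decide +kernel))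
noncomputable def rh37b4266f71a5b9e2 : CRef := CRef.mk (Pat.mk 0x680000000800000000000000000000000000000000 0x140000001c0000003c0000001f0000007c000000180000001c0000001c0000001c00000014 8 7) 0 0 (step_sound _ 195 [(rh0a60e7220a478b3f.shift 2 1), (rh594d2b3b2a15b4fa.shift 2 0), (rh7a241aa7d09f4fda.shift 0 3), (rhcce661c357cfd33b.shift 2 1), (rhf64cf2cfa0eeb0d9.shift 2 3), (rhfc7a679450f55fe7.shift 2 1)] (by decide +kernel))
noncomputable def rhfc482d3460204337 : CRef := CRef.mk (Pat.mk 0x100000003000000018000000120000000000000000 0x10000000b0000001f000000330000001f0000001f0000000700000004 8 6) 0 0 (step_sound _ 97 [(rh24ae073cf30720c4.shift 1 3), rh455248d9133c6d43] (by decide +kernel))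
noncomputable def rhc54bda19b377e696 : CRef := CRef.mk (Pat.mk 0x20000001a0000001200000012 0x50000007f0000003f0000006b0000003a0000001a00000012 8 7) 0 0 (step_sound _ 129 [rh3ca48e2a6d60153d, (rhc85cc95794737cf7.shift 0 1), rhea620fd197d7b398] (by decide +kernel))
noncomputable def rhba33d2e1ea190e78 : CRef := CRef.mk (Pat.mk 0x38000000200000003000000120 0x470000007e0000002e0000003c000001e4 8 9) 0 0 (step_sound _ 102 [rh108f308758bc6644, (rh2f68792b6b779e96.shift 5 0)] (by decide +kernel))
noncomputable def rhfa26177841f892c8 : CRef := CRef.mk (Pat.mk 0x38000001200000003000000130 0x4f000000fe000001a70000003e000001fe 8 9) 0 0 (step_sound _ 34 [(rh41955519f857d4d5.shift 2 0), rh44aba1180b8b9f60] (by decide +kernel))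
noncomputable def rhde32889ccc76bdcd : CRef := CRef.mk (Pat.mk 0x1c000000000000001800000098000000000000000000000000 0x60000001e000000070000001e000000ff000000070000000200000002 8 8) 0 0 (step_sound _ 101 [(rh2fe78cc5ca4405d8.shift 3 3), rh98da62b94cfcd230] (by decide +kernel))
noncomputable def rhc359ae14cfe16595 : CRef := CRef.mk (Pat.mk 0x40000001e000000000000000000000000 0x30000000300000003000000070000001e000000070000000600000006 8 5) 0 0 (step_sound _ 129 [(rh3244c3cc8379b070.shift 0 3), rh822be8c6befcb82b] (by decide +kernel))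
noncomputable def rh7d3911264e228925 : CRef := CRef.mk (Pat.mk 0xa0000000b0000000300000000000000000000000000000000 0x140000001c0000001c0000001a0000000b0000001f0000001d0000001f0000001c00000010 8 5) 0 0 (step_sound _ 64 [rh629adf3cfca3b589, (rh9e3edb185cc347de.shift 0 2)] (by decide +kernel))
noncomputable def rh5b4e7f7751f15b2a : CRef := CRef.mk (Pat.mk 0xb0000000b000000090000000000000000 0x40000001c0000001c0000001c0000001c0000001f0000000b000000090000000100000001 8 5) 0 0 (step_sound _ 163 [rh0f5c806ada905950, (rhc85cc95794737cf7.shift 2 2), (rhf21a690ddaaecbd4.shift 0 3)] (by decide +kernel))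
noncomputable def rh1f54ddeaa03f681d : CRef := CRef.mk (Pat.mk 0xa0000000b0000000900000000000000000000000000000000 0x10000000180000001a0000000b000000190000001d0000001f0000001c00000010 8 5) 0 0 (step_sound _ 99 [(rh60046cf1b0bc5677.shift 0 1), rh7a82be1b187b9ea8, (rh8cdd36b03d57a2f6.shift 2 1), (rhced6d86d2069808b.shift 3 2)] (by decide +kernel))
noncomputable def rh18d511e648aabc8c : CRef := CRef.mk (Pat.mk 0x20000000b0000000a000000000000000000000000 0x140000001c0000001c0000001e0000000b0000001e0000001c0000001c00000014 8 5) 0 0 (step_sound _ 98 [rhc139c4ce22601657, (rhf48373e13d2bc128.shift 0 3)] (by decide +kernel))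
noncomputable def rh3b8ecd29f69a1162 : CRef := CRef.mk (Pat.mk 0x90000000b0000000a0000000000000000 0x100000001c0000001f0000001d000000190000000b0000001a0000001800000010 8 5) 0 0 (step_sound _ 163 [rh21794f47d32d47a4, (rh4dda259e61937cfe.shift 0 2), (rh6c59ce14113da07f.shift 3 0), (rhc85cc95794737cf7.shift 2 2)] (by decide +kernel))
noncomputable def rhe0ed90f0c21106f5 : CRef := CRef.mk (Pat.mk 0x80000000b0000000b0000000000000000000000000000000000000000 0x80000000b0000001f0000001c0000001c0000001c0000001c00000004 8 5) 0 0 (step_sound _ 162 [rh52642875800c893b, (rhf48373e13d2bc128.shift 0 5)] (by decide +kernel))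
noncomputable def rh3e4f775a4c1b3a1b : CRef := CRef.mk (Pat.mk 0xa0000000b00000002000000000000000000000000 0x140000001c0000001c0000001e0000000b0000001e0000001c0000001c00000014 8 5) 0 0 (step_sound _ 162 [(rh18965a982d73c794.shift 0 4), rhf8cc6566a25825fd] (by decide +kernel))
noncomputable def rh7b67d2d838dda2d6 : CRef := CRef.mk (Pat.mk 0x30000000b0000000a000000000000000000000000 0x100000001c0000001f0000001d0000001f0000000b0000000a0000001c0000001c00000014 8 5) 0 0 (step_sound _ 224 [rh4b18e940be189c36, (rh6f1cbe15c631ee70.shift 0 3)] (by decide +kernel))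
noncomputable def rhe3e6acd8c2dc0ebc : CRef := CRef.mk (Pat.mk 0x60000000300000006000000000000000000000000000000000000000000000000 0x4000000060000000300000007000000070000000300000003000000070000000700000005 8 3) 0 0 (step_sound _ 161 [(rh2f68792b6b779e96.shift 1 5), rh80d0277df4a48d5f] (by decide +kernel))
noncomputable def rh723e4316482866bb : CRef := CRef.mk (Pat.mk 0x1800000010000000100000001000000000 0x180000001c0000007f0000003e0000002f 8 7) 0 0 (step_sound _ 35 [(rh932754581e0f4330.shift 3 0), rhe80c5896064fd2d1] (by decide +kernel))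
noncomputable def rh7231ee61eca7cd30 : CRef := CRef.mk (Pat.mk 0x1800000030000000100000001000000000 0x1e0000003e000000770000003e0000002f 8 7) 0 0 (step_sound _ 37 [rh476ab0bd2a626cde, (rh55afc6a59410cf00.shift 4 0)] (by decide +kernel))
noncomputable def rh17b2a013f667385e : CRef := CRef.mk (Pat.mk 0xc000000180000000c0000000800000000 0x20000000f0000001b0000003f0000001f00000014 8 6) 0 0 (step_sound _ 36 [(rh55afc6a59410cf00.shift 3 0), rhe44ec8f9a9c44904] (by decide +kernel))
noncomputable def rheb753bb01ec49d1e : CRef := CRef.mk (Pat.mk 0x1800000018000000180000000800000000 0x200000006000000070000001f0000001f0000003f0000000a00000002 8 6) 0 0 (step_sound _ 97 [rh63661e35b72561cd, (rh9cac931137f1cfa0.shift 0 1), (rhcd6baf37b3e5de21.shift 0 2)] (by decide +kernel))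
noncomputable def rh6d5e29ea8bf39a1b : CRef := CRef.mk (Pat.mk 0x300000003000000030000000000000000000000000 0xe0000000e0000000e0000003e0000003e0000007e0000000f0000000e0000000a 8 7) 0 0 (step_sound _ 130 [(rh63661e35b72561cd.shift 1 1), (rhcd6baf37b3e5de21.shift 1 3), rhfa0c249203e12377, (rhfb48a445bef9445e.shift 1 2)] (by decide +kernel))
noncomputable def rhac217a4e7489474d : CRef := CRef.mk (Pat.mk 0x1800000018000000180000000800000000 0x60000001f0000001b0000003f0000000f00000004 8 6) 0 0 (step_sound _ 34 [(rh5a97e3b798e89cc5.shift 0 1), (rh932754581e0f4330.shift 2 0)] (by decide +kernel))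
noncomputable def rh310e4bcdb236de4b : CRef := CRef.mk (Pat.mk 0x1800000018000000180000000000000000 0x70000001f0000001c0000003c0000000f0000000c 8 6) 0 0 (step_sound _ 35 [(rh71222050f2c63a3a.shift 3 0), rhc29aedc95e7761c8] (by decide +kernel))
noncomputable def rh2ebb2cdde0d627b5 : CRef := CRef.mk (Pat.mk 0x800000018000000180000000800000000 0x30000000b0000001f0000003f0000000f00000004 8 6) 0 0 (step_sound _ 34 [(rh5509b73f58566afc.shift 0 1), (rh932754581e0f4330.shift 2 0)] (by decide +kernel))
noncomputable def rh235cd1ec4d165c07 : CRef := CRef.mk (Pat.mk 0x8000000018000000100000000000000000000000000000000000000000 0x280000003800000078000000f0000000180000001e0000007c000000ff0000003e0000003800000028 8 8) 0 0 (step_sound _ 132 [(rh54a034778fbcbb2d.shift 3 2), rh64eecdb7cb21875f, (rh8fd2932cfb7921ee.shift 3 0), (rha83b9947c4b91a20.shift 3 2), (rhcc0adc762e1c045d.shift 1 3), (rhdfc34cf075c29d29.shift 3 1)] (by decide +kernel))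
noncomputable def rhaca4c29c466fa863 : CRef := CRef.mk (Pat.mk 0x100000000300000012000000000000000000000000 0x400000006000000060000001e000000030000001f000000070000000700000005 8 5) 0 0 (step_sound _ 98 [(rh2fe78cc5ca4405d8.shift 0 3), rh74eb69def1cee84c] (by decide +kernel))
noncomputable def rhb2d23edd8b9a7eb2 : CRef := CRef.mk (Pat.mk 0x100000001300000012000000000000000000000000 0xc0000000d0000000f0000001e0000001b0000001e000000070000000700000005 8 5) 0 0 (step_sound _ 98 [(rh2fe78cc5ca4405d8.shift 0 3), rhb08689784dc9cc96] (by decide +kernel))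
noncomputable def rh861aa21a8abf63ef : CRef := CRef.mk (Pat.mk 0x80000003200000018000000100000000000000000 0x10000000b0000001f000000330000001f000000170000000700000005 8 6) 0 0 (step_sound _ 97 [(rh24ae073cf30720c4.shift 1 3), rh665c2302469f0acd] (by decide +kernel))
noncomputable def rhebbf48b1a3ae19f7 : CRef := CRef.mk (Pat.mk 0x92000000180000009000000010 0x400000004000000060000000f000000fe0000001f000000f200000010 8 8) 0 0 (step_sound _ 65 [(rh41955519f857d4d5.shift 1 1), rh827bdaa087d93190, (rh90982cf581ae3e69.shift 1 2)] (by decide +kernel))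
noncomputable def rh5776f5af2d5083ab : CRef := CRef.mk (Pat.mk 0x10000000100000001000000000 0x28000000380000003e0000007f0000003e000000180000001800000008 8 7) 0 0 (step_sound _ 132 [(rh1726a00b0a8befd0.shift 3 0), (rh20966da26a1c2ae8.shift 3 0), (rh771d065bdc85bf2d.shift 3 0), rhbfe224b39bd022a6, (rhc85cc95794737cf7.shift 3 1)] (by decide +kernel))
noncomputable def rh193fe20a2c074999 : CRef := CRef.mk (Pat.mk 0x100000001000000010000000000000000000000000 0x800000018000000180000003e0000007f0000003e00000028 8 7) 0 0 (step_sound _ 68 [(rh39ec536f32deb957.shift 0 1), (rh8cdd36b03d57a2f6.shift 3 0), (rh8ff3dde5b1c639e0.shift 3 0), (rhc4526fc8abf298b6.shift 3 0)] (by decide +kernel))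
noncomputable def rh1a6046b48d6847cb : CRef := CRef.mk (Pat.mk 0x80000006800000000000000000000000000000000 0x140000001c0000001c0000001c000000180000007c0000001f0000003c0000001c00000014 8 7) 0 0 (step_sound _ 99 [(rh1178ea75e399fb40.shift 2 0), (rh7d9e47d97216213f.shift 2 0), (rh8043836756913f6b.shift 2 1), rh8049364beae32462, (rha5319e3b7adbd777.shift 2 1), (rhca161cd30e405913.shift 2 2)] (by decide +kernel))
noncomputable def rh7dabf39ac89801bf : CRef := CRef.mk (Pat.mk 0x120000001800000030000000100000000000000000 0x4000000070000001f0000001f000000330000001f0000000b00000001 8 6) 0 0 (step_sound _ 129 [rh20a65614db7e08f1, (rhab22b5b56e7b3243.shift 1 3)] (by decide +kernel))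
noncomputable def rh53df49c1fd8f6dbf : CRef := CRef.mk (Pat.mk 0x12000000120000001a00000002000000000000000000000000 0x120000001a0000003a0000006b0000003f0000007f00000005 8 7) 0 0 (step_sound _ 65 [(rh7928877f9bf74a91.shift 0 1), rh8cdd36b03d57a2f6, (rhe664d3fb0b958104.shift 0 1)] (by decide +kernel))
noncomputable def rh618ecf727f042bb6 : CRef := CRef.mk (Pat.mk 0x12000000030000000200000003800000000 0x1e40000003c0000002e0000007e00000047 8 9) 0 0 (step_sound _ 38 [(rh55afc6a59410cf00.shift 5 0), rh6e839994e8d49f1e] (by decide +kernel))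
noncomputable def rh660c4edc1a0db54d : CRef := CRef.mk (Pat.mk 0x13000000030000001200000003800000000 0x1fe0000003e000001a7000000fe0000004f 8 9) 0 0 (step_sound _ 98 [rh69db8126b554832a, (rh90982cf581ae3e69.shift 2 3)] (by decide +kernel))
noncomputable def rhdfc0009829e9e9fd : CRef := CRef.mk (Pat.mk 0x9800000018000000000000001c00000000 0x20000000200000007000000ff0000001e000000070000001e00000006 8 8) 0 0 (step_sound _ 133 [(rh361cc68994bd8a63.shift 3 3), rh4eb2e4e33e559d31] (by decide +kernel))
noncomputable def rhb4e301194f3259f8 : CRef := CRef.mk (Pat.mk 0x30000000b0000000a000000000000000000000000 0x100000001c0000001f0000001d0000001f0000000b0000001a0000001c0000001c00000014 8 5) 0 0 (step_sound _ 224 [rh6501bf422d44f6e0, (rh6f1cbe15c631ee70.shift 0 3)] (by decide +kernel))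
noncomputable def rh5e1d13674f8bee28 : CRef := CRef.mk (Pat.mk 0x90000000b0000000b0000000000000000000000000000000000000000 0x100000001000000090000000b0000001f0000001c0000001c0000001c0000001c00000004 8 5) 0 0 (step_sound _ 131 [(rh0fd75c581727f18e.shift 0 4), (rh8cdd36b03d57a2f6.shift 2 2), rhf7d496d37053b674] (by decide +kernel))
noncomputable def rha5309de37aeb3a95 : CRef := CRef.mk (Pat.mk 0xb0000000b00000008 0x40000001c0000001c0000001c0000001c0000001f0000000b00000008 8 5) 0 0 (step_sound _ 66 [(rh18965a982d73c794.shift 0 1), rhf1199fca3802452f] (by decide +kernel))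
noncomputable def rh379043b98eca61d9 : CRef := CRef.mk (Pat.mk 0xa0000000b0000000300000000000000000000000000000000 0x140000001c0000001c0000000a0000000b0000001f0000001d0000001f0000001c00000010 8 5) 0 0 (step_sound _ 64 [(rh9e3edb185cc347de.shift 0 2), rhe345ea3f761bc898] (by decide +kernel))
noncomputable def rhdf383997fb71fef5 : CRef := CRef.mk (Pat.mk 0x6000000030000000600000000 0x5000000070000000700000003000000030000000700000007000000030000000600000004 8 3) 0 0 (step_sound _ 129 [(rh24ef45dd8569860e.shift 0 1), (rh55afc6a59410cf00.shift 1 0)] (by decide +kernel))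
noncomputable def rhd3d25ab0b094d51a : CRef := CRef.mk (Pat.mk 0x10000000100000001000000018 0x2f0000003e0000007f0000001c00000018 8 7) 0 0 (step_sound _ 99 [(rh50fbb5868c909700.shift 3 0), rh756ea9c2c00bdfff] (by decide +kernel))
noncomputable def rh7bb992c4c92f7229 : CRef := CRef.mk (Pat.mk 0x10000000100000003000000018 0x2f0000003e000000770000003e0000001e 8 7) 0 0 (step_sound _ 101 [(rh2f68792b6b779e96.shift 4 0), rh45ead82745f0f03f] (by decide +kernel))
noncomputable def rhf7049bd8bede25b9 : CRef := CRef.mk (Pat.mk 0x80000000c000000180000000c00000000 0x140000001f0000003f0000001b0000000f00000002 8 6) 0 0 (step_sound _ 132 [(rh2f68792b6b779e96.shift 3 1), rhda1c6fa2ae31d956] (by decide +kernel))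
noncomputable def rhda9b1415646b8e88 : CRef := CRef.mk (Pat.mk 0x8000000180000001800000018000000000000000000000000 0x20000000a0000003f0000001f0000001f000000070000000600000002 8 6) 0 0 (step_sound _ 129 [(rh114380420d2c6317.shift 0 2), (rh6d571b54e8dd9e33.shift 0 4), rhc52de95476f99525] (by decide +kernel))
noncomputable def rh70d51e8d9429a5af : CRef := CRef.mk (Pat.mk 0x300000003000000030000000000000000000000000 0xa0000000e0000000f0000007e0000003e0000003e0000000e0000000e0000000e 8 7) 0 0 (step_sound _ 130 [(rh6d571b54e8dd9e33.shift 1 4), (rh7d14bdd45bfca3c1.shift 1 1), rh8c69bdde60b71d9b, (rhc52de95476f99525.shift 1 0)] (by decide +kernel))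
noncomputable def rh19ec84a2cdc3b128 : CRef := CRef.mk (Pat.mk 0x800000018000000180000001800000000 0x40000000f0000003f0000001b0000001f00000006 8 6) 0 0 (step_sound _ 130 [(rh50fbb5868c909700.shift 2 1), rh917d745602630977] (by decide +kernel))
noncomputable def rh8847e56c0a18d977 : CRef := CRef.mk (Pat.mk 0x18000000180000001800000000 0xc0000000f0000003c0000001c0000001f00000007 8 6) 0 0 (step_sound _ 131 [(rh2145e1d24b96a57e.shift 3 1), rh3c20ade7adc86131] (by decide +kernel))
noncomputable def rh65ae3269d89f5b42 : CRef := CRef.mk (Pat.mk 0x800000018000000180000000800000000 0x40000000f0000003f0000001f0000000b00000003 8 6) 0 0 (step_sound _ 130 [(rh50fbb5868c909700.shift 2 1), rh868a6956ff14186e] (by decide +kernel))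
noncomputable def rh904258867bc37db1 : CRef := CRef.mk (Pat.mk 0x100000001800000080000000000000000000000000 0x28000000380000003e000000ff0000007c0000001e00000018000000f0000000780000003800000028 8 8) 0 0 (step_sound _ 196 [(rh46b6ced56a59dc85.shift 1 0), (rh52a14b35399e424a.shift 3 2), (rh5b3539ab434dd2ee.shift 3 1), (rhc5e8d6a486b8fcf2.shift 0 4), (rhc917fffa4099ea70.shift 3 0), (rhf9b7e8752027f878.shift 3 2)] (by decide +kernel))
noncomputable def rh5b5fbba1643cef83 : CRef := CRef.mk (Pat.mk 0x120000000300000010000000000000000000000000 0x500000007000000070000001f000000030000001e000000060000000600000004 8 5) 0 0 (step_sound _ 162 [(rh361cc68994bd8a63.shift 0 4), rh86e9ecb1df8d2754] (by decide +kernel))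
noncomputable def rhdee0d555221f23a6 : CRef := CRef.mk (Pat.mk 0x120000001300000010000000000000000000000000 0x500000007000000070000001e0000001b0000001e0000000f0000000d0000000c 8 5) 0 0 (step_sound _ 162 [(rh361cc68994bd8a63.shift 0 4), rhe58493e74fb45f9a] (by decide +kernel))
noncomputable def rh62e1be487d928a58 : CRef := CRef.mk (Pat.mk 0x600000000c0000000000000000 0x140000001c0000001c0000003c0000003f0000007c0000000f0000007c00000010 8 7) 0 0 (step_sound _ 99 [rh9ee65a6ce2af22b3, (rhb2a0b9ccfb5cecd5.shift 2 2)] (by decide +kernel))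
noncomputable def rh6b91ca8699efbaac : CRef := CRef.mk (Pat.mk 0x80000000980000008b00000000000000000000000000000000 0x10000000180000001c0000000c0000009c000000d8000000fb0000007e0000005c0000005c00000014 8 8) 0 0 (step_sound _ 99 [(rh1b9022be4f7af407.shift 2 0), (rh274a837cd7eaa569.shift 2 0), (rh3820f35d5e705bec.shift 3 0), (rh47f1d36de527460c.shift 0 1), (rha1f9695a79a6fefc.shift 1 1)] (by decide +kernel))
noncomputable def rhc15d8a133f58123b : CRef := CRef.mk (Pat.mk 0xc0000000700000000000000000000000000000000 0xa0000000e0000000e0000000c000000070000003e0000003e0000000e0000000e 8 6) 0 0 (step_sound _ 98 [(rh215e11e099257d75.shift 2 2), (rh7e6c0749b1cabd18.shift 0 2), rhd2c22b2c5602a476, (rhffb8e5993241bf15.shift 1 0)] (by decide +kernel))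
noncomputable def rhe5e7df0dfe4db41d : CRef := CRef.mk (Pat.mk 0x20000000200000007000000020000000000000000000000000000000000000000 0x20000000300000007000000070000000300000003000000070000000700000005 8 3) 0 0 (step_sound _ 128 [rh28a7e94e46a9563f, (rh79877ebd3ef475dd.shift 0 4)] (by decide +kernel))
noncomputable def rh1393983197bff31f : CRef := CRef.mk (Pat.mk 0x1e000000000000000000000000 0x6000000070000001e0000003f0000000700000007 8 6) 0 0 (step_sound _ 65 [rhe1a96e86e7860659, (rheb0810cc63b001d8.shift 0 2)] (by decide +kernel))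
noncomputable def rh346e187a23833754 : CRef := CRef.mk (Pat.mk 0x1000000018000000080000000800000000 0x40000000f0000001f0000001f0000001e0000001c00000014 8 5) 0 0 (step_sound _ 131 [rh23c6c68ce68a727c, (rh4bc3fb1b54fe76ba.shift 2 0), (rhbad6ff9bdc3f8001.shift 2 0)] (by decide +kernel))
noncomputable def rh41745629e4ea8f1a : CRef := CRef.mk (Pat.mk 0x800000010000000180000001800000000 0x40000000c0000001e0000001f0000001f00000017 8 5) 0 0 (step_sound _ 99 [(rh7b1f1fb55310c477.shift 3 0), rhbb66889bafd98e97] (by decide +kernel))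
noncomputable def rh1f69e0bb1354f088 : CRef := CRef.mk (Pat.mk 0x20000001a00000003000000030 0x1f000000fe000001be0000003000000030 8 9) 0 0 (step_sound _ 100 [(rh50fbb5868c909700.shift 4 0), rh8b62aaa6fa573660] (by decide +kernel))
noncomputable def rh8e7d0810c73cd1b3 : CRef := CRef.mk (Pat.mk 0x1000000018000000080000000800000000 0xc0000000c0000000f0000001f0000001f0000001e0000000c00000004 8 5) 0 0 (step_sound _ 131 [(rh0ef6c71ce89c1c36.shift 2 0), rh1dcfdd430eac7808, (rh771d065bdc85bf2d.shift 2 0), (rhcee1a2e826d13404.shift 2 1), (rhea90e7358341a1a4.shift 2 0)] (by decide +kernel))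
noncomputable def rha33447e4cb719ad2 : CRef := CRef.mk (Pat.mk 0x20000001a000000030000000200000000000000000 0x6400000066000001fe000001bf0000003e0000006f0000002800000020 8 9) 0 0 (step_sound _ 132 [(rh3cb04db3dd2b6a55.shift 4 0), rh67e4eb1d598b0fa6, (rh6e1b1d58142ab3a3.shift 4 2)] (by decide +kernel))
noncomputable def rh6f07c57edaa7dadb : CRef := CRef.mk (Pat.mk 0x1a0000000300000002000000020000000000000000 0x1a0000001a0000001b0000001e0000001e0000001c00000010 8 5) 0 0 (step_sound _ 66 [(rh55afc6a59410cf00.shift 1 1), rh9d82877c1d98a066] (by decide +kernel))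
noncomputable def rhe9d8f1b39a46107a : CRef := CRef.mk (Pat.mk 0x6c0000000c000000080000000c0000000000000000 0x600000006c0000006f0000007b0000007f0000007200000040 8 7) 0 0 (step_sound _ 68 [rh1c56fb653dce29e2, (rh55afc6a59410cf00.shift 3 1)] (by decide +kernel))
noncomputable def rh1be92d3407a6aa8b : CRef := CRef.mk (Pat.mk 0x1a000000030000000200000000 0x50000000f0000000f0000001f0000001b000000130000001e00000014 8 5) 0 0 (step_sound _ 129 [rh12afe8ba4117ccce, (rh1741680720c097b4.shift 0 1), (rh42ab489a1be3958e.shift 0 1), rh4cc86c46ceb158f4, rh8b6d14a23e992fe5] (by decide +kernel))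
noncomputable def rha109c8280d615d4f : CRef := CRef.mk (Pat.mk 0x1a0000000200000012000000040000000000000000 0x80000001a0000001a000000120000003f0000003700000021 8 6) 0 0 (step_sound _ 65 [rh3ff55aecb578fa09, (rh55afc6a59410cf00.shift 1 1)] (by decide +kernel))
noncomputable def rh8308117fcfc4a40c : CRef := CRef.mk (Pat.mk 0x20000000260000002000000004000000000000000000000000 0x80000003c000000360000003e0000001f0000003e0000001e0000000a 8 6) 0 0 (step_sound _ 130 [(rh11b4de844050161c.shift 1 1), (rh5fcef0471e9e6014.shift 1 2), rh7cea752bf6f25b5a, (rhb8a270321a453828.shift 1 0), (rhdc66d69a1ab5e852.shift 1 0), (rhe26705136af96c38.shift 1 1)] (by decide +kernel))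
noncomputable def rh04b190d10bff8bfc : CRef := CRef.mk (Pat.mk 0x800000001a000000830000000200000000000000000000000000000000 0x80000002d000000ff0000001b000000f30000007a0000003f0000003f0000002f00000005 8 8) 0 0 (step_sound _ 97 [(rh5192e84255fe3228.shift 0 1), rh56259dd1390eee46, (rh769c8bac0b178383.shift 0 3), (rh8cdd36b03d57a2f6.shift 0 1), (rhda88202a27137cb5.shift 0 1)] (by decide +kernel))
noncomputable def rh86c8d0f94c7b320c : CRef := CRef.mk (Pat.mk 0x82000000980000008800000000000000000000000000000000 0xc0000009f000000d8000000f8000000780000005c0000005c00000014 8 8) 0 0 (step_sound _ 99 [(rh1b9022be4f7af407.shift 2 0), (rh274a837cd7eaa569.shift 2 0), (rh3820f35d5e705bec.shift 3 0), (rhceb0514b630541ea.shift 0 1)] (by decide +kernel))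
noncomputable def rhfc3dc29d065de2f2 : CRef := CRef.mk (Pat.mk 0x810000009900000089000000090000000000000000 0xa0000008f000000d9000000f9000000790000005000000040 8 8) 0 0 (step_sound _ 161 [(rh2f68792b6b779e96.shift 0 2), rhf8bbce0dd61cd8f3] (by decide +kernel))
noncomputable def rh98cacf36ec4a43e1 : CRef := CRef.mk (Pat.mk 0x810000009800000088000000080000000000000000 0x100000001c0000001c0000000c0000009f000000d8000000f8000000780000005000000040 8 8) 0 0 (step_sound _ 163 [(rh8613c4d15736e5cc.shift 3 0), (rhaeb617a54744e672.shift 0 2), (rhdcad673cf80944f9.shift 2 1)] (by decide +kernel))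
noncomputable def rhac0a67c951ef6745 : CRef := CRef.mk (Pat.mk 0x800000008000000180000000800000000 0x40000000c0000000e0000001f0000001f00000017 8 5) 0 0 (step_sound _ 36 [(rh55afc6a59410cf00.shift 3 0), rhbb66889bafd98e97] (by decide +kernel))
noncomputable def rh374e1de1c4fe1205 : CRef := CRef.mk (Pat.mk 0x2000000300000000600000000000000000000000000000000 0x5000000070000001f0000001f000000370000000700000007000000070000000700000005 8 6) 0 0 (step_sound _ 161 [(rh04bc0bc315096e76.shift 0 2), (rh8599f462953abc6e.shift 1 3), (rhe380c42df720a63d.shift 0 3), rhe412d34999dcf2bd] (by decide +kernel))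
noncomputable def rh83a3057590d82c3b : CRef := CRef.mk (Pat.mk 0xc0000000700000000000000000000000000000000 0xa0000000e0000000e0000000c000000070000001f0000003e0000000e0000000e 8 6) 0 0 (step_sound _ 98 [(rh215e11e099257d75.shift 2 2), (rh5cadcf7d54a5df99.shift 0 1), (rh7e6c0749b1cabd18.shift 0 2), rh80340a4db9fcc46d, (rhffb8e5993241bf15.shift 1 0)] (by decide +kernel))
noncomputable def rhb52f55d967af4571 : CRef := CRef.mk (Pat.mk 0x820000001a000000830000000200000000000000000000000000000000 0x800000028000000fa0000001b000000f30000007e0000003f0000003f0000002f00000005 8 8) 0 0 (step_sound _ 97 [rh56259dd1390eee46, (rh8cdd36b03d57a2f6.shift 0 1), (rhd29a1fb688eae70f.shift 1 2), (rhda88202a27137cb5.shift 0 1)] (by decide +kernel))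
noncomputable def rhc1570fe3aa34e0fe : CRef := CRef.mk (Pat.mk 0x1a0000009e000000000000000000000000 0xc0000000e0000001f0000001a000000fe0000000c0000000c0000000c 8 8) 0 0 (step_sound _ 101 [rh044a741e43855ed0, (rh2fe78cc5ca4405d8.shift 3 3)] (by decide +kernel))
noncomputable def rhb0daf349861163a7 : CRef := CRef.mk (Pat.mk 0x200000002600000026000000000000000000000000 0x30000000300000023000000360000003e0000001f0000001700000013 8 6) 0 0 (step_sound _ 100 [(rh5419adcd928dba20.shift 1 3), rhf2938fc44764622c] (by decide +kernel))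
noncomputable def rh87056637fcab2e6b : CRef := CRef.mk (Pat.mk 0x1a0000000a0000000800000000 0x1000000030000000f0000001f0000001b0000000f0000003d00000014 8 6) 0 0 (step_sound _ 131 [(rh38895f1f2aca191c.shift 0 1), (rh934b7b499abbb98b.shift 1 0)] (by decide +kernel))
noncomputable def rh14411ff6624fa9b6 : CRef := CRef.mk (Pat.mk 0x1a0000001a000000000000000000000000 0xc0000000e0000001f0000001b0000001e0000000c0000000c0000000c 8 5) 0 0 (step_sound _ 98 [rh044a741e43855ed0, (rh3244c3cc8379b070.shift 0 3)] (by decide +kernel))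
noncomputable def rhaf355b722930d125 : CRef := CRef.mk (Pat.mk 0x800000001a00000018000000000000000000000000 0x80000002c000000ff0000001b000000180000003c0000003c0000003c 8 8) 0 0 (step_sound _ 68 [(rh3cb04db3dd2b6a55.shift 3 0), (rh504e55626661b5b1.shift 3 0), rh5f4b63e4efe1b82d, (rhb1a251d9bff81766.shift 3 1)] (by decide +kernel))
noncomputable def rh8a5a9846a31f2ef9 : CRef := CRef.mk (Pat.mk 0x800000009a0000008a000000080000000000000000 0x100000001d0000001f0000000f0000009f000000db000000fb000000790000005000000040 8 8) 0 0 (step_sound _ 163 [(rh38895f1f2aca191c.shift 0 2), (rh8613c4d15736e5cc.shift 3 0), (rhdcad673cf80944f9.shift 2 1)] (by decide +kernel))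
noncomputable def rh18b07360e0d27fa6 : CRef := CRef.mk (Pat.mk 0x400000000f0000000100000000000000000000000000000000 0x4000000140000007c0000000f0000001f0000001e0000001c0000001c00000014 8 7) 0 0 (step_sound _ 131 [rhc7b5bff7dc022b05, (rhe25b0a99195a5d59.shift 0 4)] (by decide +kernel))
noncomputable def rh9ed996b6caee57e3 : CRef := CRef.mk (Pat.mk 0x1e000000020 0x1f000001fe000003ef 8 10) 0 0 (step_sound _ 8 [rh4abf2c972b67871c, (rhe25b0a99195a5d59.shift 5 0)] (by decide +kernel))
noncomputable def rh7352c32b6596e1da : CRef := CRef.mk (Pat.mk 0x1e000000020 0x39f000001fe0000006f 8 10) 0 0 (step_sound _ 72 [(rh33e738c4ed385b9f.shift 5 1), rhda62dcb2624bce2a] (by decide +kernel))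
noncomputable def rhdc8ca092e87e77e8 : CRef := CRef.mk (Pat.mk 0x1a0000008a0000000000000000000000000000000000000000 0x8000000180000001a000000ef0000007e0000003f0000001c0000001c00000010 8 8) 0 0 (step_sound _ 131 [(rh144b706311123356.shift 0 2), (rh1b9022be4f7af407.shift 2 1), (rh7a6e0c81de4f203b.shift 0 1), rh81b758912cbd6f6c] (by decide +kernel))
noncomputable def rh7684d34fd48eccb4 : CRef := CRef.mk (Pat.mk 0x80000000980000008a000000180000000000000000 0x20000000f0000000d8000000fb0000007f000000f000000070 8 8) 0 0 (step_sound _ 100 [rh0702e15526b8e14a, (rh0fbbb92589a12005.shift 3 0), (rh504e55626661b5b1.shift 3 0)] (by decide +kernel))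
noncomputable def rhdd70a67b9f6e1957 : CRef := CRef.mk (Pat.mk 0x1a0000001a000000000000000000000000 0x1b0000001e0000003f0000003c00000038 8 6) 0 0 (step_sound _ 98 [rh2ff36503bf7ba977, (rh3244c3cc8379b070.shift 0 3)] (by decide +kernel))
noncomputable def rh485f7a47e9148ecf : CRef := CRef.mk (Pat.mk 0x8000000098000000d8000000000000000000000000 0xc0000000c0000008c000000d8000000d80000007c0000005f0000004c 8 8) 0 0 (step_sound _ 163 [(rh55a1f6c57a317ce6.shift 3 1), rh5c051fca65e92d72, (rhb3e5613249985042.shift 2 0)] (by decide +kernel))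
noncomputable def rhe38b0e2d00685855 : CRef := CRef.mk (Pat.mk 0xc0000004c000000000000000000000000 0x4000000040000000c0000000c0000007c0000000f0000003e0000001c 8 7) 0 0 (step_sound _ 100 [(rh2fe78cc5ca4405d8.shift 2 3), rhb039e3d6d37dd2fa] (by decide +kernel))
noncomputable def rh8e37ecb9994b662c : CRef := CRef.mk (Pat.mk 0x8000000080000001c000000000000000000000000 0x40000000c0000000c0000001c0000007f0000001f00000014 8 7) 0 0 (step_sound _ 67 [(rh08055883e3ab9384.shift 0 1), (rh8cdd36b03d57a2f6.shift 2 0), (rh8ff3dde5b1c639e0.shift 2 0), (rhc4526fc8abf298b6.shift 2 0)] (by decide +kernel))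
noncomputable def rh64fd5766270a6a1e : CRef := CRef.mk (Pat.mk 0x600000000c000000000000000000000000 0x140000001c0000003c0000000f0000007c0000000f0000003c0000001c00000014 8 7) 0 0 (step_sound _ 131 [rh226ecfbce22d1a50, (rhb2a0b9ccfb5cecd5.shift 2 3)] (by decide +kernel))
noncomputable def rh88eca4c091d4486e : CRef := CRef.mk (Pat.mk 0x120000001e000000120000001000000000 0x40000000c0000001e0000001e0000001a0000003f0000002f 8 6) 0 0 (step_sound _ 131 [rh448d7a0e044e6315, (rh50fbb5868c909700.shift 3 1)] (by decide +kernel))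
noncomputable def rhcb3b4cec603a45d1 : CRef := CRef.mk (Pat.mk 0x340000002400000000000000000000000000000000 0xa0000000e0000001e0000001f0000007e00000036000000260000000e0000000e0000000e0000000a 8 7) 0 0 (step_sound _ 194 [(rh429e0350fe767c28.shift 1 2), (rh511dc1b406b90eda.shift 1 0), (rh8f9531e0aab507df.shift 0 3), (rhaf7955adbc1f7ff4.shift 1 1), (rhb9a02b14ad2280dd.shift 1 1), (rhe7744232a23032a1.shift 1 2)] (by decide +kernel))
noncomputable def rh3b0d0c8a37241a87 : CRef := CRef.mk (Pat.mk 0x3400000024000000000000000000000000 0xa0000001e0000001f0000001e00000036000000360000002e0000002e0000000a 8 6) 0 0 (step_sound _ 164 [rh76e127f4c0d66448, (rhc38f566cab2818e5.shift 4 1)] (by decide +kernel))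
noncomputable def rhd516063d870b5511 : CRef := CRef.mk (Pat.mk 0x2000000026000000340000000000000000000000000000000000000000 0x80000003c00000036000000360000001e0000001f0000001e0000000e0000000a 8 6) 0 0 (step_sound _ 132 [rh16c856bb124915bd, (rhf9af042da61fc652.shift 4 2)] (by decide +kernel))
noncomputable def rhec8e258b8e00c7b4 : CRef := CRef.mk (Pat.mk 0x10000000130000001200000000000000000000000000000000 0x1000000050000001f0000001b0000001e0000000f0000000f0000000f00000005 8 5) 0 0 (step_sound _ 131 [(rh5419adcd928dba20.shift 0 4), rhba5c741e4ff05aa5] (by decide +kernel))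
noncomputable def rh851c9d9a4716b6a1 : CRef := CRef.mk (Pat.mk 0xc00000008000000080000000800000000 0x130000003f0000003f0000000c0000001c00000014 8 6) 0 0 (step_sound _ 132 [rh0d05d10d42a28a04, (rh2f68792b6b779e96.shift 3 1)] (by decide +kernel))
noncomputable def rh5eee9690d5115f28 : CRef := CRef.mk (Pat.mk 0x180000001c000000100000000000000000 0xe0000000f0000001c0000001c0000001f0000000e0000000c 8 5) 0 0 (step_sound _ 163 [(rh2145e1d24b96a57e.shift 3 2), rh29282e2fddcef4d8] (by decide +kernel))
noncomputable def rh59b17fa0646976f3 : CRef := CRef.mk (Pat.mk 0x400000004c0000004700000000000000000000000000000000 0x80000000c0000000e000000060000004e0000006e0000007f0000003c0000002e0000002e0000000a 8 7) 0 0 (step_sound _ 98 [(rh1b9022be4f7af407.shift 1 0), (rh274a837cd7eaa569.shift 1 0), (rh655e5788d5e5cde7.shift 1 0), (rh67e68e733fb290f2.shift 1 1), (rhd54738fdf67f5811.shift 0 1)] (by decide +kernel))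
noncomputable def rh66fb48f0b4ac1e61 : CRef := CRef.mk (Pat.mk 0x300000001c000000080000000800000000 0x800000028000000380000007c0000001f0000007c00000034 8 7) 0 0 (step_sound _ 66 [(rh481350de478e8d00.shift 2 0), (rh4dc133ee0ba1420a.shift 0 2), (rh5700fcd3e497af08.shift 2 0)] (by decide +kernel))
noncomputable def rhd0dd91947cb4a83e : CRef := CRef.mk (Pat.mk 0x200000006000000038000000100000000000000000 0x1f0000007c00000070000000f80000003e0000006800000020 8 8) 0 0 (step_sound _ 67 [(rh2a7d854bcc08cc32.shift 2 0), (rh4dc133ee0ba1420a.shift 1 2), (rh5ecb91b4cc5c6c51.shift 0 1)] (by decide +kernel))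
noncomputable def rhb8e15d71c7db821a : CRef := CRef.mk (Pat.mk 0xc0000001e000000000000000000000000 0x80000000c0000001e0000003b0000001f0000001e 8 6) 0 0 (step_sound _ 65 [rh318ff19065bc7699, (rheb0810cc63b001d8.shift 0 2)] (by decide +kernel))
noncomputable def rhc8add3a484c45c83 : CRef := CRef.mk (Pat.mk 0x180000000e00000004000000000000000000000000 0x600000006000000160000001c0000000e0000003f0000007e0000001e00000008 8 7) 0 0 (step_sound _ 66 [rh569044fbbbdf922b, (rh71222050f2c63a3a.shift 2 1)] (by decide +kernel))
noncomputable def rhd3f17668cbdbc349 : CRef := CRef.mk (Pat.mk 0x400000000c0000004c000000000000000000000000 0x10000000780000000c0000006e0000003f0000003f0000001e 8 7) 0 0 (step_sound _ 67 [(rh17b57fb9811034e1.shift 1 1), (rh504e55626661b5b1.shift 2 0), (rh93fa1e348e3c1468.shift 2 0), rhf351c68a885f5397] (by decide +kernel))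
noncomputable def rh1fc543b83a6f897a : CRef := CRef.mk (Pat.mk 0x80000000180000001c000000000000000000000000 0xc0000002c000000fc000000180000001c0000007c0000003f0000000c 8 8) 0 0 (step_sound _ 163 [(rh55a1f6c57a317ce6.shift 3 1), rh9532a413c3e2da9d, (rhb3e5613249985042.shift 2 0), (rhc2c7bae8f445c890.shift 3 1)] (by decide +kernel))
noncomputable def rh52aba57861521431 : CRef := CRef.mk (Pat.mk 0x880000001a00000012000000000000000000000000 0x50000000f0000000f000000ff0000001b0000001e000000070000000700000005 8 8) 0 0 (step_sound _ 161 [rh4a551ad45d81d4f8, rh6dbfa710a30f272c, rh767298da26e1abcd, (rhbe5703805fd7fa8f.shift 0 2), (rhe56a240322c9305b.shift 0 4)] (by decide +kernel))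
noncomputable def rh805fd22999b566bd : CRef := CRef.mk (Pat.mk 0x800000001a00000012000000100000000000000000 0x2a000000ff0000001b0000001e000000360000002400000004 8 8) 0 0 (step_sound _ 164 [(rh04e571695666b5c1.shift 3 2), rh6d1f1083a416b747] (by decide +kernel))
noncomputable def rhff6d5b43c9bc859b : CRef := CRef.mk (Pat.mk 0x1a0000001a000000000000000000000000 0x400000004000000060000000f0000001f0000001a0000000f0000000f00000005 8 5) 0 0 (step_sound _ 130 [(rhb739f4f82bb681b4.shift 0 3), rhecdcb4e5163846a9] (by decide +kernel))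
noncomputable def rh5e434339b4ac2f52 : CRef := CRef.mk (Pat.mk 0x1a000000120000000200000000000000000000000000000000 0xc0000000c0000001d0000001b0000001e0000000f0000000f0000000f0000000700000004 8 5) 0 0 (step_sound _ 97 [(rh1d8291d07025a130.shift 0 2), (rh8cdd36b03d57a2f6.shift 0 1), rhd7d36e40438b8935] (by decide +kernel))
noncomputable def rh7ecc293e0f10e07d : CRef := CRef.mk (Pat.mk 0x1a000000920000000200000000 0x500000007000000070000000f0000001a000000fe0000000f00000005 8 8) 0 0 (step_sound _ 70 [(rh5419adcd928dba20.shift 3 2), rhd4125b666a9113f5] (by decide +kernel))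
noncomputable def rh4d95a05dc08713ed : CRef := CRef.mk (Pat.mk 0x20000000200000002000000020000000000000000 0x10000000700000007000000060000000200000002000000070000000700000005 8 3) 0 0 (step_sound _ 194 [rh1f810e2126be2e45, (rhbaefcd01e0a8bca3.shift 1 2)] (by decide +kernel))
noncomputable def rh0b2269650396b9a9 : CRef := CRef.mk (Pat.mk 0x1a00000092000000020000000000000000 0x500000007000000070000000f0000001b000000f6000000060000000600000004 8 8) 0 0 (step_sound _ 102 [(rh5419adcd928dba20.shift 3 3), rhfaf60435e51d3754] (by decide +kernel))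
noncomputable def rha819c97e925865da : CRef := CRef.mk (Pat.mk 0x80000001800000012000000000000000000000000 0xc0000000c0000001e0000001f0000001e0000000f0000000c0000000c 8 5) 0 0 (step_sound _ 195 [(rh2145e1d24b96a57e.shift 3 3), rhe962b29739cbe41c] (by decide +kernel))
noncomputable def rh36fd44123b18b270 : CRef := CRef.mk (Pat.mk 0x180000001e000000000000000000000000 0x80000000e0000001f0000001b0000001e0000001c0000001c00000008 8 5) 0 0 (step_sound _ 129 [rh2e8c19877a32b1f7, (rh3244c3cc8379b070.shift 0 3)] (by decide +kernel))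
noncomputable def rh8a13f19db78da086 : CRef := CRef.mk (Pat.mk 0x8000000180000003e00000000000000000000000000000000 0x60000001f0000001b0000003e0000006c0000001c0000001c00000014 8 7) 0 0 (step_sound _ 101 [(rhe25b0a99195a5d59.shift 2 3), rhf6a38ebe2a7c2baa] (by decide +kernel))
noncomputable def rh94cc1232bebcea1d : CRef := CRef.mk (Pat.mk 0x180000001e000000000000000000000000 0xb0000001f0000001b0000001e0000003f0000000c0000000c 8 6) 0 0 (step_sound _ 68 [rhabb020b45818ef2f, (rhe25b0a99195a5d59.shift 1 2)] (by decide +kernel))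
noncomputable def rh07e7ecd0f3fca5f7 : CRef := CRef.mk (Pat.mk 0x180000008e000000040000000000000000 0xb0000001f0000001b000000fe000000070000000700000005 8 8) 0 0 (step_sound _ 163 [(rh5c5e593799055d58.shift 2 2), rh70095558d639ccfa] (by decide +kernel))
noncomputable def rhe72c5e8195d548a1 : CRef := CRef.mk (Pat.mk 0x300000001c00000008000000080000000000000000 0x24000000360000007c0000001f0000007f0000002200000002 8 7) 0 0 (step_sound _ 98 [(rh1b048598a8b37bd5.shift 1 2), rh2f86f1e520a73467, (rh4dc133ee0ba1420a.shift 0 3)] (by decide +kernel))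
noncomputable def rhe7765f56d875d8f1 : CRef := CRef.mk (Pat.mk 0x8000000180000008e000000040000000000000000 0x70000001f0000001b000000fe0000000f0000000800000008 8 8) 0 0 (step_sound _ 100 [(rh7a89dccc93a85add.shift 1 2), (rhb5644b0700ae2baa.shift 0 2), rhfa644eb94c8714bb] (by decide +kernel))
noncomputable def rhe7368c2b0029a122 : CRef := CRef.mk (Pat.mk 0x80000000180000000e000000000000000000000000 0x2e000000ff0000001b0000001e0000003f0000001c0000001c 8 8) 0 0 (step_sound _ 100 [(rh84cadcd2156b2a3e.shift 1 0), rh852d45ce63e2bcf5, (rhea719cc8bd0bdd28.shift 1 1)] (by decide +kernel))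
noncomputable def rh981f6ab9d6a9d967 : CRef := CRef.mk (Pat.mk 0x180000008e000000000000000000000000 0x20000001b000000fe0000007f0000003c0000003c 8 8) 0 0 (step_sound _ 100 [rh2ff36503bf7ba977, rhafa5a7051d37b143, (rhb8546cc3e1ee40c7.shift 1 2)] (by decide +kernel))
noncomputable def rh0c4e9915c7e26adc : CRef := CRef.mk (Pat.mk 0x80000000180000000e000000000000000000000000 0x2b000000ff0000001b0000003e0000003f0000001800000018 8 8) 0 0 (step_sound _ 100 [(rh597873b64e6f6d89.shift 0 2), (rh84cadcd2156b2a3e.shift 1 0), (rhea719cc8bd0bdd28.shift 1 1)] (by decide +kernel))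
noncomputable def rhee89854a5c57fda6 : CRef := CRef.mk (Pat.mk 0x30000000140000001800000000 0x80000001e00000034000000160000003e0000002f 8 6) 0 0 (step_sound _ 132 [rh400d7d7e93dd299d, (rh932754581e0f4330.shift 3 0)] (by decide +kernel))
noncomputable def rh819f3515e6c04c26 : CRef := CRef.mk (Pat.mk 0x180000003a000000000000000000000000 0xe0000000f0000001b0000003e0000007f0000000400000004 8 7) 0 0 (step_sound _ 98 [(rh4ad5fc38f1b69f65.shift 1 2), rh852d45ce63e2bcf5, (rheae1728ff4a56756.shift 0 2)] (by decide +kernel))
noncomputable def rh9ec33b98ee176bfe : CRef := CRef.mk (Pat.mk 0x180000001a00000010 0xb0000000f0000001b0000003e00000037 8 6) 0 0 (step_sound _ 34 [rh597873b64e6f6d89, (rhe25b0a99195a5d59.shift 1 0)] (by decide +kernel))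
noncomputable def rh66969a038b9db9ff : CRef := CRef.mk (Pat.mk 0x88000000980000008a00000000000000000000000000000000 0x800000098000000d8000000ff000000780000005c0000005c00000014 8 8) 0 0 (step_sound _ 130 [(rh084262b1c43d6016.shift 2 0), (rh53b3c253cb0c65f4.shift 0 4)] (by decide +kernel))
noncomputable def rhd71de2792a2d0bc0 : CRef := CRef.mk (Pat.mk 0x8000000180000008e00000000 0xc0000000c0000000f0000001b000000fe0000007a 8 8) 0 0 (step_sound _ 36 [rh09d7d475b1a06021, rh54204b8f3766698a, (rhb8546cc3e1ee40c7.shift 1 0)] (by decide +kernel))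
noncomputable def rhe547bf8c118f609e : CRef := CRef.mk (Pat.mk 0x800000008000000080000003e00000000 0x50000000f0000001f0000000b0000003e00000063 8 7) 0 0 (step_sound _ 5 [rh20cd015da527ac81, (rhe25b0a99195a5d59.shift 2 0)] (by decide +kernel))
noncomputable def rhc1bde4cdc2ffef89 : CRef := CRef.mk (Pat.mk 0x2000000060000000200000000000000000000000000000000 0x500000007000000070000000300000006000000060000000600000006000000070000000700000005 8 3) 0 0 (step_sound _ 225 [rh5b70a91ba3c0e5f0, (rh64bc0dab78a08b48.shift 0 4), (rh8599f462953abc6e.shift 1 4), (rhd4b4beefcd67f51e.shift 1 3), (rhfb9fb48a5e63ed80.shift 0 4)] (by decide +kernel))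
noncomputable def rh79ca08188692bb36 : CRef := CRef.mk (Pat.mk 0x8000000180000008a000000000000000000000000 0xc0000000c0000001c00000018000000ff000000780000001800000008 8 8) 0 0 (step_sound _ 98 [(rh0c3353d496b9b9cc.shift 1 0), (rh53b3c253cb0c65f4.shift 0 3)] (by decide +kernel))
noncomputable def rh7502a9258f92337c : CRef := CRef.mk (Pat.mk 0x1800000003000000000000000000000000 0x70000000f0000001e0000000f000000070000000700000005 8 5) 0 0 (step_sound _ 129 [(rhb2a0b9ccfb5cecd5.shift 0 3), rhca4267ad9e97cd8f] (by decide +kernel))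
noncomputable def rh854fdc369b550b27 : CRef := CRef.mk (Pat.mk 0xc000000600000000000000000000000000000000000000000 0x100000007c0000000f0000007c0000003f0000003c0000001c0000001c00000014 8 7) 0 0 (step_sound _ 163 [rh47e9644bea98ad22, (rh5419adcd928dba20.shift 2 5)] (by decide +kernel))
noncomputable def rh7c86e47e9ccfb3d9 : CRef := CRef.mk (Pat.mk 0x8b000000980000008000000000000000000000000000000000 0x140000005c0000005c0000007e000000fb000000d80000009c0000000c0000001c0000001800000010 8 8) 0 0 (step_sound _ 227 [(rh0fa4a62bba50784f.shift 2 4), (rh8599f462953abc6e.shift 3 4), (rhb7abd424ee9a5622.shift 1 2), rhd39acf815273c3d0, (rhfb9fb48a5e63ed80.shift 2 4)] (by decide +kernel))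
noncomputable def rhb956b4a39abe463e : CRef := CRef.mk (Pat.mk 0x70000000c000000000000000000000000 0xe0000000e0000003e0000003e000000070000000c0000000e0000000e0000000a 8 6) 0 0 (step_sound _ 162 [(rh14e0829dc73b6804.shift 1 2), rh6651941e2d90b947, (rh70e33bfdf511e144.shift 2 0), (rh9dd7fdfa5dafbf88.shift 0 1)] (by decide +kernel))
noncomputable def rh84b808f2994504a3 : CRef := CRef.mk (Pat.mk 0x2000000070000000200000002 0x50000000700000007000000030000000300000007000000070000000300000002 8 3) 0 0 (step_sound _ 128 [(rha7bbd8539b0a643c.shift 0 1), rhffd04209dc8ea796] (by decide +kernel))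
noncomputable def rhde26a6daac8b723d : CRef := CRef.mk (Pat.mk 0x1e0000000000000000 0x7000000070000003f0000001e0000000700000006 8 6) 0 0 (step_sound _ 97 [(rh3244c3cc8379b070.shift 0 2), rhe018a4f808783a24] (by decide +kernel))
noncomputable def rha5afaf184286b3cd : CRef := CRef.mk (Pat.mk 0x80000000800000018000000100000000000000000 0x140000001c0000001e0000001f0000001f0000000f00000004 8 5) 0 0 (step_sound _ 67 [(rh04f32d166f1c28ac.shift 0 1), (rhc86e08a1a4264962.shift 2 0), (rhfb4b0c4778973b3d.shift 2 1)] (by decide +kernel))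
noncomputable def rhd496d31260bb594f : CRef := CRef.mk (Pat.mk 0x1800000018000000100000000800000000 0x170000001f0000001f0000001e0000000c00000004 8 5) 0 0 (step_sound _ 67 [rh0668c447fd80549a, (rh5c5e593799055d58.shift 3 1)] (by decide +kernel))
noncomputable def rhc9ef3197110724c2 : CRef := CRef.mk (Pat.mk 0x3000000030000001a00000002000000000 0x3000000030000001be000000fe0000001f 8 9) 0 0 (step_sound _ 36 [rh426ba0b2b4907369, (rh932754581e0f4330.shift 4 0)] (by decide +kernel))
noncomputable def rhd0590a4d9ce3dbda : CRef := CRef.mk (Pat.mk 0x8000000080000001800000010000000000000000000000000 0x40000000c0000001e0000001f0000001f0000000f0000000c0000000c 8 5) 0 0 (step_sound _ 99 [(rh2c4176124d95c1a8.shift 2 0), (rh49dc6ff8ea18768c.shift 0 2), (rh544fd3f279a4d968.shift 2 0), (rha9a9dd876407ae9a.shift 2 0), (rhc4526fc8abf298b6.shift 2 1)] (by decide +kernel))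
noncomputable def rh186fb1c4b495d047 : CRef := CRef.mk (Pat.mk 0x2000000030000001a0000000200000000000000000 0x20000000280000006f0000003e000001bf000001fe0000006600000064 8 9) 0 0 (step_sound _ 100 [(rh503dd4575245365b.shift 4 2), rh8dee1cc0a075b338, (rh9eb5c6fb4065164f.shift 4 1)] (by decide +kernel))
noncomputable def rh643e326d7e4b3aa0 : CRef := CRef.mk (Pat.mk 0x200000002000000030000001a00000000 0x100000001c0000001e0000001e0000001b0000001a0000001a 8 5) 0 0 (step_sound _ 130 [rh01a2ac1e5b6d14ba, (rh2f68792b6b779e96.shift 1 1)] (by decide +kernel))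
noncomputable def rh252cc9cf4d079dc5 : CRef := CRef.mk (Pat.mk 0xc000000080000000c0000006c00000000 0x40000000720000007f0000007b0000006f0000006c00000060 8 7) 0 0 (step_sound _ 132 [(rh2f68792b6b779e96.shift 3 1), rh3f2a10a93cd5915c] (by decide +kernel))
noncomputable def rh53110345b2ea10d5 : CRef := CRef.mk (Pat.mk 0x2000000030000001a00000000000000000000000000000000 0x140000001e000000130000001b0000001f0000000f0000000f00000005 8 5) 0 0 (step_sound _ 97 [(rh1cd233c4744b3638.shift 0 1), rh32218586537ba4bc, (rh6eff4158bb400f47.shift 0 1), rhbaff7ec0fcc038ba, (rhd5389eb6d0e281f1.shift 0 1)] (by decide +kernel))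
noncomputable def rhea51a4c66ea9046a : CRef := CRef.mk (Pat.mk 0x400000012000000020000001a00000000 0x21000000370000003f000000120000001a0000001a00000008 8 6) 0 0 (step_sound _ 129 [(rh2f68792b6b779e96.shift 1 1), rh56aef22155a77151] (by decide +kernel))
noncomputable def rh39edbc2707e147d4 : CRef := CRef.mk (Pat.mk 0x400000020000000260000002000000000 0xa0000001e0000003e0000001f0000003e000000360000003c00000008 8 6) 0 0 (step_sound _ 98 [(rh2436336ef7364037.shift 1 0), (rh3c5806cf8b1fa8a5.shift 0 1), (rh4ff3fe580a147f22.shift 1 0), (rh5aa4b7d75b99940f.shift 1 0), (rha965b8b136d85005.shift 1 0), (rhc90a4a3d68552525.shift 1 0)] (by decide +kernel))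
noncomputable def rh6898d36076d64919 : CRef := CRef.mk (Pat.mk 0x2000000830000001a000000800000000000000000 0x50000002f0000003f0000003f0000007a000000f30000001b000000ff0000002d00000008 8 8) 0 0 (step_sound _ 193 [rh083c4fbc294a24b8, (rh68a777751bfeafdf.shift 0 3), (rha77f215723363df0.shift 0 3), (rhbd7d57cbe6532a20.shift 0 1), (rhc85cc95794737cf7.shift 0 3)] (by decide +kernel))
noncomputable def rh7a0e026e0f6b9790 : CRef := CRef.mk (Pat.mk 0x88000000980000008200000000 0x140000005c0000005c00000078000000f8000000d80000009f0000000c 8 8) 0 0 (step_sound _ 131 [(rh0fa4a62bba50784f.shift 2 1), (rh8599f462953abc6e.shift 3 1), rhc02306f4dfb3f737, (rhfb9fb48a5e63ed80.shift 2 1)] (by decide +kernel))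
noncomputable def rh95124b413261eddd : CRef := CRef.mk (Pat.mk 0x1000000010000000100000001000000000 0x2f0000003e00000077000000100000001000000010 8 7) 0 0 (step_sound _ 133 [rh1eebb1f05e73cdbf, (rh2f68792b6b779e96.shift 4 1)] (by decide +kernel))
noncomputable def rh4bb722c3bc1e3bed : CRef := CRef.mk (Pat.mk 0x900000089000000990000008100000000 0x400000005000000079000000f9000000d90000008f0000000a 8 8) 0 0 (step_sound _ 33 [rh55afc6a59410cf00, rheebce950f25443cb] (by decide +kernel))
noncomputable def rh5e510c163318571c : CRef := CRef.mk (Pat.mk 0x800000088000000980000008100000000000000000000000000000000 0x400000005000000078000000f8000000d80000009f0000000c0000001c0000001c00000010 8 8) 0 0 (step_sound _ 131 [(rh669c503fc29231eb.shift 0 3), (rh9cf464eb73f7ae11.shift 2 0), (rhb781b7d4512f8b10.shift 3 3)] (by decide +kernel))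
noncomputable def rh4d36718ad7ef5347 : CRef := CRef.mk (Pat.mk 0x800000018000000080000000800000000 0x170000001f0000001f0000000e0000000c00000004 8 5) 0 0 (step_sound _ 132 [rh0668c447fd80549a, (rh2f68792b6b779e96.shift 3 1)] (by decide +kernel))
noncomputable def rhd56637c057a804d1 : CRef := CRef.mk (Pat.mk 0x60000003000000002000000000000000000000000 0x500000007000000070000000700000007000000370000001f0000001f0000000700000005 8 6) 0 0 (step_sound _ 129 [(rh3820f35d5e705bec.shift 1 0), (rh69fbd87dbd051716.shift 0 2), rhd8480aedf4075c15, rhe95a2e51b0ee5fdb] (by decide +kernel))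
noncomputable def rh0577eb307c357d56 : CRef := CRef.mk (Pat.mk 0x70000000c000000000000000000000000 0xe0000000e0000003e0000001f000000070000000c0000000e0000000e0000000a 8 6) 0 0 (step_sound _ 162 [(rh14e0829dc73b6804.shift 1 2), rh6651941e2d90b947, (rh70e33bfdf511e144.shift 2 0), (rhc66886b1af313c08.shift 0 1), (rhdd6f43d9d85c24ef.shift 0 2)] (by decide +kernel))
noncomputable def rh41b74d59d8bd4bab : CRef := CRef.mk (Pat.mk 0x2000000830000001a000000820000000000000000 0x50000002f0000003f0000003f0000007e000000f30000001b000000fa0000002800000008 8 8) 0 0 (step_sound _ 193 [rh083c4fbc294a24b8, (rh44f453b84f013105.shift 1 2), (rh68a777751bfeafdf.shift 0 3), (rhc85cc95794737cf7.shift 0 3)] (by decide +kernel))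
noncomputable def rh58a7f2e0d7c947bf : CRef := CRef.mk (Pat.mk 0x9e0000001a000000000000000000000000 0xc0000000c0000000c000000fe0000001a0000001f0000000e0000000c 8 8) 0 0 (step_sound _ 133 [(rh361cc68994bd8a63.shift 3 3), rhf97771223c63d1e4] (by decide +kernel))
noncomputable def rh95b8e0c093d5ee59 : CRef := CRef.mk (Pat.mk 0x2600000026000000200000000000000000 0x13000000170000001f0000003e00000036000000230000000300000003 8 6) 0 0 (step_sound _ 132 [rh350b319afd3d1103, (rhb2a0b9ccfb5cecd5.shift 1 3)] (by decide +kernel))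
noncomputable def rheb8aeeedd9d2df88 : CRef := CRef.mk (Pat.mk 0x80000000a0000001a00000000000000000000000000000000 0x140000003d0000000f0000001b0000001f0000000f0000000300000001 8 6) 0 0 (step_sound _ 99 [rh507f0a030798d8c6, (rh516963541d5f8797.shift 1 2)] (by decide +kernel))
noncomputable def rha0652198e682bc2c : CRef := CRef.mk (Pat.mk 0x1a0000001a000000000000000000000000 0xc0000000c0000000c0000001e0000001b0000001f0000000e0000000c 8 5) 0 0 (step_sound _ 130 [(rheb0810cc63b001d8.shift 0 3), rhf97771223c63d1e4] (by decide +kernel))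
noncomputable def rh82c30767fac832a5 : CRef := CRef.mk (Pat.mk 0x180000001a000000800000000000000000 0x3c0000003c0000003c000000180000001b000000ff0000002c00000008 8 8) 0 0 (step_sound _ 164 [(rh05ed29275c2f01a0.shift 0 1), (rh281c6819542c66e6.shift 3 0), (rh503dd4575245365b.shift 3 2), (rhd9a6eb52cc5f3a98.shift 3 1)] (by decide +kernel))
noncomputable def rhb426d15b87b4072e : CRef := CRef.mk (Pat.mk 0x80000008a0000009a0000008000000000000000000000000000000000 0x400000005000000079000000fb000000db0000009f0000000f0000001f0000001d00000010 8 8) 0 0 (step_sound _ 131 [(rh507f0a030798d8c6.shift 0 1), (rh9cf464eb73f7ae11.shift 2 0), (rhb781b7d4512f8b10.shift 3 3)] (by decide +kernel))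
noncomputable def rh27c06de0e13c0a9f : CRef := CRef.mk (Pat.mk 0x10000000f000000400000000000000000 0x140000001c0000001c0000001e0000001f0000000f0000007c0000001400000004 8 7) 0 0 (step_sound _ 131 [(rh33e738c4ed385b9f.shift 0 3), rhd7a5998d997ee0f9] (by decide +kernel))
noncomputable def rha8c69142fea144c6 : CRef := CRef.mk (Pat.mk 0x20000001e000000000 0x3ef000001fe0000001f 8 10) 0 0 (step_sound _ 72 [rh203137072fe5db19, (rh33e738c4ed385b9f.shift 5 1)] (by decide +kernel))
noncomputable def rh2090acd143595efc : CRef := CRef.mk (Pat.mk 0x20000001e000000000 0x6f000001fe0000039f 8 10) 0 0 (step_sound _ 8 [rh480f1e65211a4dc0, (rhe25b0a99195a5d59.shift 5 0)] (by decide +kernel))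
noncomputable def rhd905c2f9447a38a2 : CRef := CRef.mk (Pat.mk 0x8a0000001a0000000000000000 0x100000001c0000001c0000003f0000007e000000ef0000001a0000001800000008 8 8) 0 0 (step_sound _ 131 [rh32d0de3ae41474de, (rh44ef475688875815.shift 0 1), (rhc79d8e4c006bb434.shift 0 1), (rhfb9fb48a5e63ed80.shift 2 1)] (by decide +kernel))
noncomputable def rhdce01ee5202fb1a6 : CRef := CRef.mk (Pat.mk 0x180000008a000000980000008000000000 0x70000000f00000007f000000fb000000d8000000f000000020 8 8) 0 0 (step_sound _ 100 [(rh6a6060c6b6bde3df.shift 3 1), (rh845fd09a735d09aa.shift 0 1), (rhd9a6eb52cc5f3a98.shift 3 0)] (by decide +kernel))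
noncomputable def rh99980c94e15b7a86 : CRef := CRef.mk (Pat.mk 0x1a0000001a 0x380000003c0000003f0000001e0000001b 8 6) 0 0 (step_sound _ 34 [rh1c9a2e22e7550ada, rheb0810cc63b001d8] (by decide +kernel))
noncomputable def rh76ba6b68068b74ec : CRef := CRef.mk (Pat.mk 0xd800000098000000800000000000000000 0x4c0000005f0000007c000000d8000000d80000008c0000000c0000000c 8 8) 0 0 (step_sound _ 67 [(rh84d1c02a8954c6a8.shift 3 1), (rh9954101f0efffb9e.shift 2 0), (rhcda0ab04e3e378e2.shift 0 2)] (by decide +kernel))
noncomputable def rh187da8fb71e75d78 : CRef := CRef.mk (Pat.mk 0x4c0000000c000000000000000000000000 0x1c0000003e0000000f0000007c0000000c0000000c0000000400000004 8 7) 0 0 (step_sound _ 132 [(rh361cc68994bd8a63.shift 2 3), rh6931e7d7c195cb33] (by decide +kernel))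
noncomputable def rhb35a2851e3aabda7 : CRef := CRef.mk (Pat.mk 0x1c000000080000000800000000 0x140000001f0000007f0000001c0000000c0000000c00000004 8 7) 0 0 (step_sound _ 131 [(rh20966da26a1c2ae8.shift 2 0), rh24628b0c10cc9a46, (rh771d065bdc85bf2d.shift 2 0), (rhc85cc95794737cf7.shift 2 1)] (by decide +kernel))
noncomputable def rh7dbf15a8a6671efa : CRef := CRef.mk (Pat.mk 0xc0000006000000000000000000000000000000000 0x140000001c0000003c0000000f0000007c0000000f0000003c0000001c00000014 8 7) 0 0 (step_sound _ 131 [rh35069720656b5241, (rh5419adcd928dba20.shift 2 4)] (by decide +kernel))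
noncomputable def rh7654250a92548068 : CRef := CRef.mk (Pat.mk 0x10000000120000001e000000120000000000000000 0x2f0000003f0000001a0000001e0000001e0000000c00000004 8 6) 0 0 (step_sound _ 67 [rh5c7b51a4b0962b9b, (rh932754581e0f4330.shift 3 1)] (by decide +kernel))
noncomputable def rhdeee2289b213cb4f : CRef := CRef.mk (Pat.mk 0x24000000340000000000000000000000000000000000000000 0xa0000000e0000000e0000000e00000026000000360000007e0000001f0000001e0000000e0000000a 8 7) 0 0 (step_sound _ 130 [(rh1f25bef8f9fe2597.shift 1 1), (rh5fd75665a30f6573.shift 1 0), (rha749589d3479e302.shift 1 3), (rhb96a5d92e5ca5e99.shift 1 0), (rhceb5f5a915f974ce.shift 1 2), rhd839be4f8778aeba] (by decide +kernel))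
noncomputable def rhe2fad46ac445cad6 : CRef := CRef.mk (Pat.mk 0x240000003400000000000000000000000000000000 0xa0000002e0000002e00000036000000360000001e0000001f0000001e0000000a 8 6) 0 0 (step_sound _ 100 [rha9587d1c92531f1c, (rhf9366b6a121593ef.shift 4 1)] (by decide +kernel))
noncomputable def rha6ea904a9a91c3d4 : CRef := CRef.mk (Pat.mk 0x34000000260000002000000000 0xa0000000e0000001e0000001f0000001e00000036000000360000003c00000008 8 6) 0 0 (step_sound _ 132 [rh2701154ca1ced74e, (rhe072fffdd2fccf38.shift 4 1)] (by decide +kernel))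
noncomputable def rhbcde47e7dc71a931 : CRef := CRef.mk (Pat.mk 0x1200000013000000100000000000000000 0x50000000f0000000f0000000f0000001e0000001b0000001f0000000500000001 8 5) 0 0 (step_sound _ 131 [rh79293711a769e05c, (rhb2a0b9ccfb5cecd5.shift 0 3)] (by decide +kernel))
noncomputable def rh783aff09e1185792 : CRef := CRef.mk (Pat.mk 0x800000008000000080000000c00000000 0x140000001c0000000c0000003f0000003f00000013 8 6) 0 0 (step_sound _ 36 [rh276d0db3359d824b, (rh55afc6a59410cf00.shift 3 0)] (by decide +kernel))
noncomputable def rhd8d24875a5d3ecce : CRef := CRef.mk (Pat.mk 0x100000001c000000180000000000000000 0xc0000000e0000001f0000001c0000001c0000000f0000000e 8 5) 0 0 (step_sound _ 35 [(rh71222050f2c63a3a.shift 3 0), rh9e8430fd1e28d4a0] (by decide +kernel))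
noncomputable def rhbaa25b66256485bd : CRef := CRef.mk (Pat.mk 0x470000004c0000004000000000000000000000000000000000 0xa0000002e0000002e0000003c0000007f0000006e0000004e000000060000000e0000000c00000008 8 7) 0 0 (step_sound _ 226 [(rh0fa4a62bba50784f.shift 1 4), rh2310f57335d68db2, (rh53287dc308810e87.shift 1 3), (rhc85ec9580a76dde6.shift 1 3), (rhfb9fb48a5e63ed80.shift 1 4)] (by decide +kernel))
noncomputable def rhc8dec50e0cd75297 : CRef := CRef.mk (Pat.mk 0x8000000080000001c000000300000000000000000 0x340000007c0000001f0000007c000000380000002800000008 8 7) 0 0 (step_sound _ 130 [(rh462c65f345fd800c.shift 2 0), (rhe2b63c00a3d7bb73.shift 0 3), (rhf9e4061467fc5bbc.shift 2 0)] (by decide +kernel))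
noncomputable def rh24fc04875b06e2fd : CRef := CRef.mk (Pat.mk 0x1000000038000000600000002000000000 0x20000000680000003e000000f8000000700000007c0000001f 8 8) 0 0 (step_sound _ 131 [(rh5acd38f69cd83523.shift 2 0), rh88cd1cf829b57afe, (rhe2b63c00a3d7bb73.shift 1 3)] (by decide +kernel))
noncomputable def rh3c0c3c20ca9414e9 : CRef := CRef.mk (Pat.mk 0x1e0000000c00000000 0x1e0000001f0000003b0000001e0000000c00000008 8 6) 0 0 (step_sound _ 97 [(rh3244c3cc8379b070.shift 0 2), rh8f65df716299472f] (by decide +kernel))
noncomputable def rh4c53c474d2e58faf : CRef := CRef.mk (Pat.mk 0x40000000e00000018000000000000000000000000 0x80000001e0000007e0000003f0000000e0000001c000000160000000600000006 8 7) 0 0 (step_sound _ 194 [(rh2145e1d24b96a57e.shift 2 3), rhf52884a25e47157a] (by decide +kernel))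
noncomputable def rh4c8a13d81ff46705 : CRef := CRef.mk (Pat.mk 0x4c0000000c0000004000000000 0x1e0000003f0000003f0000006e0000000c0000007800000010 8 7) 0 0 (step_sound _ 131 [(rh1e358bb15332430b.shift 2 0), (rhb54a06ec479fcef8.shift 0 2), (rhd57a477c48ddfb57.shift 1 0), (rhd9a6eb52cc5f3a98.shift 2 0)] (by decide +kernel))
noncomputable def rh84f1e2371b19fba5 : CRef := CRef.mk (Pat.mk 0x1c00000018000000800000000000000000 0xc0000003f0000007c0000001c00000018000000fc0000002c0000000c 8 8) 0 0 (step_sound _ 67 [(rh5e3e6eeff2892011.shift 0 1), (rh84d1c02a8954c6a8.shift 3 1), (rh9954101f0efffb9e.shift 2 0), (rhcf80391c5046a495.shift 3 0)] (by decide +kernel))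
noncomputable def rh4108ff370a0a5cdb : CRef := CRef.mk (Pat.mk 0x120000001a00000088000000000000000000000000 0x500000007000000070000001e0000001b000000ff0000000f0000000f00000005 8 8) 0 0 (step_sound _ 97 [(rh06ff36bfd1a8454e.shift 0 1), rh21950a721262aa62, (rh4254078ec028aae0.shift 0 2), (rh730084c02ab4739e.shift 0 2), rh794501743a61ce18] (by decide +kernel))
noncomputable def rhc55e460ae4e03932 : CRef := CRef.mk (Pat.mk 0x10000000120000001a0000008000000000 0x400000024000000360000001e0000001b000000ff0000002a 8 8) 0 0 (step_sound _ 36 [(rhf8edb192cdea7ada.shift 3 0), rhf922624328f466f6] (by decide +kernel))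
noncomputable def rhf9d43bd86e72e6b1 : CRef := CRef.mk (Pat.mk 0x1a0000001a00000000000000000000000000000000 0x50000000f0000000f0000001a0000001f0000000f000000060000000400000004 8 5) 0 0 (step_sound _ 130 [(rh53b3c253cb0c65f4.shift 0 4), rhb4d6d303e4881871] (by decide +kernel))
noncomputable def rh1dedb4f12e9eeb90 : CRef := CRef.mk (Pat.mk 0x2000000120000001a000000000000000000000000 0x4000000070000000f0000000f0000000f0000001e0000001b0000001d0000000c0000000c 8 5) 0 0 (step_sound _ 193 [rh18f0901257ec6192, (rhb6d3f53349cc5a9e.shift 0 2), (rhc85cc95794737cf7.shift 0 3)] (by decide +kernel))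
noncomputable def rhccbd3a26fdc13d05 : CRef := CRef.mk (Pat.mk 0x2000000920000001a00000000000000000000000000000000 0x50000000f000000fe0000001a0000000f000000070000000700000005 8 8) 0 0 (step_sound _ 166 [rh59d733434658d4d5, (rhb2a0b9ccfb5cecd5.shift 3 4)] (by decide +kernel))
noncomputable def rh90103010c3888027 : CRef := CRef.mk (Pat.mk 0x2000000920000001a00000000000000000000000000000000 0x40000000600000006000000f60000001b0000000f000000070000000700000005 8 8) 0 0 (step_sound _ 166 [rh8c1b8bff757e7fa7, (rhb2a0b9ccfb5cecd5.shift 3 4)] (by decide +kernel))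
noncomputable def rh56eecca7f6b0c43a : CRef := CRef.mk (Pat.mk 0x1200000018000000080000000000000000 0xc0000000c0000000f0000001e0000001f0000001e0000000c0000000c 8 5) 0 0 (step_sound _ 35 [(rh71222050f2c63a3a.shift 3 0), rhf5bfcc9ad06a3320] (by decide +kernel))
noncomputable def rh7a43381dba1590f7 : CRef := CRef.mk (Pat.mk 0x1e00000018000000000000000000000000 0x80000001c0000001c0000001e0000001b0000001f0000000e00000008 8 5) 0 0 (step_sound _ 97 [(rheb0810cc63b001d8.shift 0 3), rhed16472ca7356e97] (by decide +kernel))
noncomputable def rh57d9bed7ae8c7094 : CRef := CRef.mk (Pat.mk 0x3e000000180000000800000000 0x140000001c0000001c0000006c0000003e0000001b0000001f00000006 8 7) 0 0 (step_sound _ 133 [(rh33e738c4ed385b9f.shift 2 3), rhb85c25459383f5b5] (by decide +kernel))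
noncomputable def rhcb32fe4b3fce5ae8 : CRef := CRef.mk (Pat.mk 0x1e000000180000000000000000 0xc0000000c0000003f0000001e0000001b0000001f0000000b 8 6) 0 0 (step_sound _ 132 [(rh33e738c4ed385b9f.shift 1 3), rh40a2acb6f5a68453] (by decide +kernel))
noncomputable def rh1f88ddd64e5d4105 : CRef := CRef.mk (Pat.mk 0x40000008e000000180000000000000000 0x50000000700000007000000fe0000001b0000001f0000000b 8 8) 0 0 (step_sound _ 35 [rh207676dbb32aeb6a, (rh7b1f1fb55310c477.shift 2 0)] (by decide +kernel))
noncomputable def rhf28a14c2e5e134ae : CRef := CRef.mk (Pat.mk 0x8000000080000001c0000003000000000 0x2000000220000007f0000001f0000007c0000003600000024 8 7) 0 0 (step_sound _ 98 [rh3c4c90353228a406, (rh7478433a598f2371.shift 1 0), (rhe2b63c00a3d7bb73.shift 0 2)] (by decide +kernel))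
noncomputable def rh58588d2c08b23777 : CRef := CRef.mk (Pat.mk 0x40000008e000000180000000800000000 0x8000000080000000f000000fe0000001b0000001f00000007 8 8) 0 0 (step_sound _ 100 [rh8aaa22d8586bbc0f, (rh8ce3cabf63226892.shift 1 2), rhdca949c35be320bb] (by decide +kernel))
noncomputable def rhfe9fb0321c9c9aba : CRef := CRef.mk (Pat.mk 0xe000000180000008000000000 0x1c0000001c0000003f0000001e0000001b000000ff0000002e 8 8) 0 0 (step_sound _ 100 [(rh0f46d994b415db7f.shift 1 0), (rh34b1188e635efc8d.shift 1 0), rh3e62f47361bd9ab0] (by decide +kernel))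
noncomputable def rhc1a8146a78b821c1 : CRef := CRef.mk (Pat.mk 0x8e0000001800000000 0x3c0000003c0000007f000000fe0000001b00000002 8 8) 0 0 (step_sound _ 68 [(rh1c9a2e22e7550ada.shift 0 1), rh21460d2d48a35cb8, (rh361215bab1155e5e.shift 1 1)] (by decide +kernel))
noncomputable def rh60d964a4edf69137 : CRef := CRef.mk (Pat.mk 0xe000000180000008000000000 0x18000000180000003f0000003e0000001b000000ff0000002b 8 8) 0 0 (step_sound _ 100 [(rh0f46d994b415db7f.shift 1 0), rh2025686536f7751e, (rh34b1188e635efc8d.shift 1 0)] (by decide +kernel))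
noncomputable def rh3d7ccf763c87fe22 : CRef := CRef.mk (Pat.mk 0x1800000014000000300000000000000000 0x2f0000003e00000016000000340000001e00000008 8 6) 0 0 (step_sound _ 36 [rh385d196ad4f580d4, (rh50fbb5868c909700.shift 3 1)] (by decide +kernel))
noncomputable def rhdd4de6ea0429dffa : CRef := CRef.mk (Pat.mk 0x3a000000180000000000000000 0x4000000040000007f0000003e0000001b0000000f0000000e 8 7) 0 0 (step_sound _ 98 [rh3e62f47361bd9ab0, (rh9890f9d77740bbed.shift 1 3), (rhd5eb272e07a4e288.shift 0 3)] (by decide +kernel))
noncomputable def rh355433a973311398 : CRef := CRef.mk (Pat.mk 0x100000001a000000180000000000000000 0x370000003e0000001b0000000f0000000b 8 6) 0 0 (step_sound _ 98 [rh2025686536f7751e, (rh33e738c4ed385b9f.shift 1 3)] (by decide +kernel))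
noncomputable def rhfffe96e9da5f56fd : CRef := CRef.mk (Pat.mk 0x8a000000980000008800000000 0x140000005c0000005c00000078000000ff000000d80000009800000008 8 8) 0 0 (step_sound _ 98 [(rh13c47ace23dd415c.shift 2 0), (rhb739f4f82bb681b4.shift 0 2)] (by decide +kernel))
noncomputable def rh13ebc97a1de32a29 : CRef := CRef.mk (Pat.mk 0x8e00000018000000080000000000000000 0x7a000000fe0000001b0000000f0000000c0000000c 8 8) 0 0 (step_sound _ 132 [(rh361215bab1155e5e.shift 1 3), rhabea66a5c2facc27, rhdac6e46976628e33] (by decide +kernel))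
noncomputable def rhf4700f76dad429e3 : CRef := CRef.mk (Pat.mk 0x3e00000008000000080000000800000000 0x630000003e0000000b0000001f0000000f00000005 8 7) 0 0 (step_sound _ 165 [(rh33e738c4ed385b9f.shift 2 4), rh6290a8880d4edd4b] (by decide +kernel))
noncomputable def rh0a4bd2056e862232 : CRef := CRef.mk (Pat.mk 0x2000000060000000200000000000000000000000000000000 0x500000007000000070000000600000006000000060000000600000003000000070000000700000005 8 3) 0 0 (step_sound _ 97 [(rh0505ae96fab7bcd8.shift 0 2), rh1b9022be4f7af407, (rh3820f35d5e705bec.shift 1 0), rh8a1bd34420cccc7f, (rha707fb719e87fe6e.shift 1 2)] (by decide +kernel))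
noncomputable def rh0c2066596fbe131f : CRef := CRef.mk (Pat.mk 0x8a00000018000000080000000000000000 0x80000001800000078000000ff000000180000001c0000000c0000000c 8 8) 0 0 (step_sound _ 130 [(rh29b644cd032341d3.shift 1 0), (rhb739f4f82bb681b4.shift 0 3)] (by decide +kernel))
noncomputable def rh0a1636e762a4507b : CRef := CRef.mk (Pat.mk 0x3000000180000000000000000 0x500000007000000070000000f0000001e0000000f00000007 8 5) 0 0 (step_sound _ 65 [(rh5419adcd928dba20.shift 0 2), rh5aa0df8efe2e9eb2] (by decide +kernel))
noncomputable def rh864969a68fdcd72f : CRef := CRef.mk (Pat.mk 0x10000001100000003000000100000000000000000 0x600000007000000070000001f000000030000001e0000000600000006 8 5) 0 0 (step_sound _ 65 [(rh2145e1d24b96a57e.shift 0 2), rh711cedfac771e4e0] (by decide +kernel))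
noncomputable def rh10ee1f19a84f84f6 : CRef := CRef.mk (Pat.mk 0x80000001800000030000000000000000000000000 0x20000000f0000001e0000003e0000007e0000007600000020 8 7) 0 0 (step_sound _ 130 [(rhb739f4f82bb681b4.shift 1 3), rhc66bac1e8e3bd465] (by decide +kernel))
noncomputable def rh7c8e909822b6c34c : CRef := CRef.mk (Pat.mk 0x88000000180000009000000000 0x3c0000007f000000ff0000001f000000f800000028 8 8) 0 0 (step_sound _ 37 [rh12afb3c815563747, (rh2fe78cc5ca4405d8.shift 3 1)] (by decide +kernel))
noncomputable def rh0a4dcf51a719c563 : CRef := CRef.mk (Pat.mk 0x400000000c00000048000000000000000000000000 0x10000000140000003c000000780000000f000000780000001c0000001c00000014 8 7) 0 0 (step_sound _ 100 [rh2b19999c092a58b8, (rh2fe78cc5ca4405d8.shift 2 3)] (by decide +kernel))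
noncomputable def rh611a1f5575a908b7 : CRef := CRef.mk (Pat.mk 0x800000018000000080000003800000000 0x40000000f0000001f0000000f0000003e00000007 8 6) 0 0 (step_sound _ 34 [(rh932754581e0f4330.shift 2 0), rhb5a3b6fa2ff8260b] (by decide +kernel))
noncomputable def rhf7bcff3564451e2f : CRef := CRef.mk (Pat.mk 0x800000008000000080000003c00000000 0x50000000f0000001f0000000f0000003e00000003 8 6) 0 0 (step_sound _ 65 [(rh3f8766e6ecb455ce.shift 1 1), rh746dec0120aeca1d] (by decide +kernel))
noncomputable def rh00a1470d73594ab7 : CRef := CRef.mk (Pat.mk 0x440000000c000000400000000000000000 0x20000000e0000000e0000000f0000007c0000000e0000007e0000003e0000000a 8 7) 0 0 (step_sound _ 162 [(rh0fa4a62bba50784f.shift 1 2), (rh2997503d57fc5b3f.shift 1 1), (rh53287dc308810e87.shift 1 1), (rh70e33bfdf511e144.shift 2 0), rh831700586d15c1eb] (by decide +kernel))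
noncomputable def rh428a7f48a5d50791 : CRef := CRef.mk (Pat.mk 0x800000008000000080000003c00000000 0x140000001f0000000f0000000f0000003e00000003 8 6) 0 0 (step_sound _ 65 [(rh3f8766e6ecb455ce.shift 1 1), rhc84648c506dc0921] (by decide +kernel))
noncomputable def rhb0b851c6b984b28e : CRef := CRef.mk (Pat.mk 0x6c0000004c0000004000000000 0x3e0000007f0000003e0000006c0000006e0000004600000006 8 7) 0 0 (step_sound _ 131 [(rh503dd4575245365b.shift 2 1), (rhc437a30d701ba7ca.shift 0 1), (rhe389f45105baff9f.shift 1 0)] (by decide +kernel))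
noncomputable def rh30f117cd82bf52cf : CRef := CRef.mk (Pat.mk 0x1000000098000000180000000800000000 0xc000000ec0000007f000000df0000001c0000000c00000004 8 8) 0 0 (step_sound _ 131 [(rh7b9fbdf6d2d059e4.shift 2 1), (rh84a77af056cc0ecc.shift 0 1), (rh925a1628dd8a50da.shift 2 0)] (by decide +kernel))
noncomputable def rh29881af8da976cfb : CRef := CRef.mk (Pat.mk 0x18000000180000000000000000 0x3c0000007e0000007f000000380000001c0000000c0000000c 8 7) 0 0 (step_sound _ 132 [(rh503dd4575245365b.shift 3 1), (rh9b8fea266a2cfe24.shift 1 2), rhfe6dd5420f1f2bbc] (by decide +kernel))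
noncomputable def rh22d3cf2aa79e6c48 : CRef := CRef.mk (Pat.mk 0x38000000180000000000000000 0x3c0000007e0000007f0000003f000000180000000800000008 8 7) 0 0 (step_sound _ 132 [(rh503dd4575245365b.shift 3 1), (rh9b8fea266a2cfe24.shift 1 2), rhd35332aa9cd4d6d7] (by decide +kernel))
noncomputable def rh73fb042208b2237d : CRef := CRef.mk (Pat.mk 0x1e0000000e0000000000000000 0x140000003c0000003f0000001e0000000e0000000600000004 8 6) 0 0 (step_sound _ 129 [(rh3244c3cc8379b070.shift 0 3), (rhdbec77c2bb1bef0b.shift 1 0)] (by decide +kernel))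
noncomputable def rh4943581eb3cf81b7 : CRef := CRef.mk (Pat.mk 0x80000001c0000000c00000000 0x1e0000001f0000003c0000001c0000000f00000002 8 6) 0 0 (step_sound _ 131 [rh2a5cf721219d09d9, (rh5c5e593799055d58.shift 2 1)] (by decide +kernel))
noncomputable def rh660cd9f78cd2785f : CRef := CRef.mk (Pat.mk 0x98000000180000000000000000 0x220000002200000077000000ff0000001e0000001400000014 8 8) 0 0 (step_sound _ 101 [(rh361cc68994bd8a63.shift 3 2), rh495b46cd64be53a2] (by decide +kernel))
noncomputable def rh20cc24a8b18ca0fd : CRef := CRef.mk (Pat.mk 0x440000000c000000080000000000000000 0x7e0000003e0000006f0000000c0000000e0000000600000002 8 7) 0 0 (step_sound _ 162 [(rh2145e1d24b96a57e.shift 2 2), rh5eb970eef4b69f27] (by decide +kernel))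
noncomputable def rh94e66bb224d09075 : CRef := CRef.mk (Pat.mk 0x100000000300000011000000010000000000000000 0x6000000060000001e000000030000001f000000070000000700000006 8 5) 0 0 (step_sound _ 161 [(rh71222050f2c63a3a.shift 0 1), rhdc3d9be1e8b9b02a] (by decide +kernel))
noncomputable def rh74d9a5726fbc5dbd : CRef := CRef.mk (Pat.mk 0x30000000180000000800000000 0x20000000760000007e0000003e0000001e0000000f00000002 8 7) 0 0 (step_sound _ 66 [(rh53b3c253cb0c65f4.shift 1 2), rhd2c1623ff48a55f3] (by decide +kernel))
noncomputable def rhaeb1cd3494b49c26 : CRef := CRef.mk (Pat.mk 0x9000000018000000880000000000000000 0x28000000f80000001f000000ff0000007f0000003c 8 8) 0 0 (step_sound _ 133 [(rh361cc68994bd8a63.shift 3 3), rha9897cfbb454e56c] (by decide +kernel))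
noncomputable def rh2e1c90998a150258 : CRef := CRef.mk (Pat.mk 0x480000000c00000040000000000000000000000000 0x140000001c0000001c000000780000000f000000780000003c0000001400000010 8 7) 0 0 (step_sound _ 164 [(rh361cc68994bd8a63.shift 2 4), rh5ea20ac8a1d85ab2] (by decide +kernel))
noncomputable def rh29cf9c503135e1c1 : CRef := CRef.mk (Pat.mk 0x3800000008000000180000000800000000 0x70000003e0000000f0000001f0000000f00000004 8 6) 0 0 (step_sound _ 130 [rh03614f8e67ecd6ac, (rh50fbb5868c909700.shift 2 1)] (by decide +kernel))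
noncomputable def rhb3df527f2868ef84 : CRef := CRef.mk (Pat.mk 0x3c00000008000000080000000800000000 0x30000003e0000000f0000001f0000000f00000005 8 6) 0 0 (step_sound _ 97 [(rh80fcd6d0a18cb2dd.shift 1 3), rhb225dfca0e551fef] (by decide +kernel))
noncomputable def rh5cb46391262e4abe : CRef := CRef.mk (Pat.mk 0x400000000c0000004400000000000000000000000000000000 0xa0000003e0000007e0000000e0000007c0000000f0000000e0000000e00000002 8 7) 0 0 (step_sound _ 98 [(rh00bd71d3d71b55ff.shift 0 2), (rh215e11e099257d75.shift 2 2), (rh274a837cd7eaa569.shift 1 0), (rh67e68e733fb290f2.shift 1 1), (rhd3ce7047182a729e.shift 1 0)] (by decide +kernel))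
noncomputable def rhf78195abbf864a13 : CRef := CRef.mk (Pat.mk 0x3c00000008000000080000000800000000 0x30000003e0000000f0000000f0000001f00000014 8 6) 0 0 (step_sound _ 97 [rh0b27f0f6e2bd15ff, (rh80fcd6d0a18cb2dd.shift 1 3)] (by decide +kernel))
noncomputable def rh36b5d6eb1f885a58 : CRef := CRef.mk (Pat.mk 0x400000004c0000006c000000000000000000000000 0x6000000460000006e0000006c0000003e0000007f0000003e 8 7) 0 0 (step_sound _ 67 [(rh3cb04db3dd2b6a55.shift 2 0), rh583cb5fc4f8adc3d, (rh83925760de8cb0a5.shift 1 0)] (by decide +kernel))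
noncomputable def rhc27d991eb67e9a5f : CRef := CRef.mk (Pat.mk 0x80000001800000098000000100000000000000000 0x40000000c0000001c000000df0000007f000000ec0000000c 8 8) 0 0 (step_sound _ 67 [(rh46530d756bdf8511.shift 2 0), (rh51485200710abf14.shift 0 1), (rhdf997f77704b6375.shift 2 0)] (by decide +kernel))
noncomputable def rhd8a5b88c8d234be7 : CRef := CRef.mk (Pat.mk 0x1800000018000000000000000000000000 0xc0000000c0000001c000000380000007f0000007e0000003c 8 7) 0 0 (step_sound _ 68 [(rh3cb04db3dd2b6a55.shift 3 0), (rh87fb231a5bb8610f.shift 1 0), rhbb33178ae52f4cf1] (by decide +kernel))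
noncomputable def rh591a9c4308c2af44 : CRef := CRef.mk (Pat.mk 0x1800000038000000000000000000000000 0x800000008000000180000003f0000007f0000007e0000003c 8 7) 0 0 (step_sound _ 68 [(rh3cb04db3dd2b6a55.shift 3 0), (rh87fb231a5bb8610f.shift 1 0), rh9109b25900d7e4c5] (by decide +kernel))
noncomputable def rhee4940ee514b36e2 : CRef := CRef.mk (Pat.mk 0xc0000001c000000080000000000000000 0x20000000f0000001c0000003c0000001f0000001e 8 6) 0 0 (step_sound _ 35 [rh3e44f79f55f54975, (rh7b1f1fb55310c477.shift 2 0)] (by decide +kernel))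
noncomputable def rh71d6d170ad989b3f : CRef := CRef.mk (Pat.mk 0x1800000098000000000000000000000000 0x14000000140000001e000000ff000000770000002200000022 8 8) 0 0 (step_sound _ 101 [rh0319c64b41c71468, (rh2fe78cc5ca4405d8.shift 3 3)] (by decide +kernel))
noncomputable def rhb67af93cbf170b29 : CRef := CRef.mk (Pat.mk 0x80000000c000000440000000000000000 0x2000000060000000e0000000c0000006f0000003e0000007e 8 7) 0 0 (step_sound _ 34 [rh3ef4c6d3dce8688a, (rh71222050f2c63a3a.shift 2 0)] (by decide +kernel))
noncomputable def rh7efdaf8c01a507fa : CRef := CRef.mk (Pat.mk 0x900000001800000088000000000000000000000000 0x3000000038000000f80000001f000000ff000000170000001400000004 8 8) 0 0 (step_sound _ 165 [(rh361cc68994bd8a63.shift 3 4), rhcb74e94a45f2afc6] (by decide +kernel))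
noncomputable def rh03cffd233922a240 : CRef := CRef.mk (Pat.mk 0x900000001800000088000000000000000000000000 0x24000000ff0000001f000000dc000000780000003800000010 8 8) 0 0 (step_sound _ 165 [rh151095795377b1ae, (rh361cc68994bd8a63.shift 3 4)] (by decide +kernel))
noncomputable def rhc47a1980b9430a5c : CRef := CRef.mk (Pat.mk 0xc0000001c000000080000000000000000 0x20000000f0000001c0000003c0000001f0000001e 8 6) 0 0 (step_sound _ 35 [rh2de34ad94f1c3d77, (rh7b1f1fb55310c477.shift 2 0)] (by decide +kernel))
noncomputable def rh3979e4d097d6d46a : CRef := CRef.mk (Pat.mk 0x8000000018000000880000000000000000 0x8000000380000007c000000ff0000001f000000fc0000002c0000000c 8 8) 0 0 (step_sound _ 132 [(rh37235d0a647eab3b.shift 3 1), rh54e490846bf0bb2e, (rhf9366b6a121593ef.shift 3 0)] (by decide +kernel))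
noncomputable def rhc2ec70993dfb9cdc : CRef := CRef.mk (Pat.mk 0x900000009800000088000000080000000000000000 0x80000000800000008000000f8000000d8000000fe0000007f000000f400000040 8 8) 0 0 (step_sound _ 165 [(rh361cc68994bd8a63.shift 3 4), rhe2310aaf65a36cec] (by decide +kernel))
noncomputable def rh9a3541bf6862d5d7 : CRef := CRef.mk (Pat.mk 0xb00000009800000088000000000000000000000000 0xc000000bf000000df000000f80000007f0000005c00000040 8 8) 0 0 (step_sound _ 67 [(rh71222050f2c63a3a.shift 3 1), rh9aeec1fd1230c4c4] (by decide +kernel))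
noncomputable def rha4de965d49f749e4 : CRef := CRef.mk (Pat.mk 0x800000001800000088000000000000000000000000 0x3800000078000000f80000001f000000ff0000003f0000003400000034 8 8) 0 0 (step_sound _ 100 [(rh305ba824b8d6a1c3.shift 3 0), (rh97db52eb6bf5b8c9.shift 3 0), rh9e141fa6bc2add05] (by decide +kernel))
noncomputable def rh02dfd75c8a5012b1 : CRef := CRef.mk (Pat.mk 0x1800000098000000000000000000000000 0x14000000140000001e000000ff000000770000002200000022 8 8) 0 0 (step_sound _ 101 [(rh2fe78cc5ca4405d8.shift 3 3), rhbf0cbb9ebcf7c414] (by decide +kernel))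
noncomputable def rh487ac70e945fbb83 : CRef := CRef.mk (Pat.mk 0x1800000038000000000000000000000000 0x200000006000000170000001f0000003f0000000f0000000e0000000e 8 6) 0 0 (step_sound _ 98 [(rh38b3b1b375fe87da.shift 1 0), rha4f81fa13720f1a8, (rhbe5fc5902345a0b9.shift 0 3), (rhcc2be1f880c5ea3e.shift 0 2)] (by decide +kernel))
noncomputable def rh1f0969eec54b4e70 : CRef := CRef.mk (Pat.mk 0xc0000001e000000020000000000000000 0x20000000e0000001e0000003e0000003f0000001f 8 6) 0 0 (step_sound _ 68 [rha293007e4be2602c, (rhe25b0a99195a5d59.shift 1 2)] (by decide +kernel))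
noncomputable def rhe2ec7081a4bdc2db : CRef := CRef.mk (Pat.mk 0x900000001800000088000000000000000000000000 0x28000000f80000001f000000ff000000370000003400000034 8 8) 0 0 (step_sound _ 165 [(rh361cc68994bd8a63.shift 3 4), rh912e9ae0d002c230] (by decide +kernel))
noncomputable def rh4fcd0b14004f93a2 : CRef := CRef.mk (Pat.mk 0x1c00000018000000100000000000000000 0xe0000000f0000001c0000001f0000007c0000000f0000000c 8 7) 0 0 (step_sound _ 163 [(rh2145e1d24b96a57e.shift 3 2), rh936d70bfac2607ca] (by decide +kernel))
noncomputable def rh684846c5c340ef35 : CRef := CRef.mk (Pat.mk 0x80000001800000018000000100000000000000000 0x40000000c0000001c0000001e0000007f0000000f0000000c 8 7) 0 0 (step_sound _ 67 [(rh46530d756bdf8511.shift 2 0), (rhc4526fc8abf298b6.shift 2 0), (rhdf997f77704b6375.shift 2 0), (rheee68c4e0e628a59.shift 0 1)] (by decide +kernel))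
noncomputable def rh99d129008fb4e62f : CRef := CRef.mk (Pat.mk 0x1800000038000000000000000000000000 0x8000000180000003f0000007f0000007600000034 8 7) 0 0 (step_sound _ 68 [(rh3cb04db3dd2b6a55.shift 3 0), rh8354f06d9a428f7c] (by decide +kernel))
noncomputable def rhd11067a17957b0c8 : CRef := CRef.mk (Pat.mk 0xc0000001c000000080000000000000000 0x20000000f0000001c0000001f0000007c0000001c 8 7) 0 0 (step_sound _ 35 [rh451a6fee66bbdbf7, (rh7b1f1fb55310c477.shift 2 0)] (by decide +kernel))
noncomputable def rh3d8c7972416e2e7f : CRef := CRef.mk (Pat.mk 0x8800000018000000900000000000000000 0x40000001400000017000000ff0000001f000000f80000003800000030 8 8) 0 0 (step_sound _ 69 [(rh2fe78cc5ca4405d8.shift 3 2), rh7e2029248b419eb4] (by decide +kernel))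
noncomputable def rh64d0dfaf00c250e1 : CRef := CRef.mk (Pat.mk 0x88000000180000009000000000 0x100000003800000078000000dc0000001f000000ff00000024 8 8) 0 0 (step_sound _ 37 [(rh2fe78cc5ca4405d8.shift 3 1), rhabd0f27bf19ba79b] (by decide +kernel))
noncomputable def rh1699e3c8b5729242 : CRef := CRef.mk (Pat.mk 0x80000001c0000000c00000000 0x1e0000001f0000003c0000001c0000000f00000002 8 6) 0 0 (step_sound _ 131 [(rh5c5e593799055d58.shift 2 1), rh8e46d9ae079708b5] (by decide +kernel))
noncomputable def rh5c958660f015e174 : CRef := CRef.mk (Pat.mk 0x880000001800000080000000000000000000000000 0xc0000002c000000fc0000001f000000ff0000007c0000003800000008 8 8) 0 0 (step_sound _ 100 [(rh990fd10f5c71e5ea.shift 3 1), (rhc38f566cab2818e5.shift 3 1), rhcb58c19703886190] (by decide +kernel))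
noncomputable def rh10db1c845cdc7a32 : CRef := CRef.mk (Pat.mk 0x8000000880000009800000090000000000000000000000000 0x40000000f40000007f000000fe000000d8000000f8000000080000000800000008 8 8) 0 0 (step_sound _ 101 [rh1b494f9c01000b9c, (rh2fe78cc5ca4405d8.shift 3 3)] (by decide +kernel))
noncomputable def rh10b761850c4552e9 : CRef := CRef.mk (Pat.mk 0x8800000098000000b000000000 0x400000005c0000007f000000f8000000df000000bf0000000c 8 8) 0 0 (step_sound _ 131 [(rh2145e1d24b96a57e.shift 3 1), rha03acd43b76f1039] (by decide +kernel))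
noncomputable def rhe9be15ecd46b9644 : CRef := CRef.mk (Pat.mk 0x8800000018000000800000000000000000 0x34000000340000003f000000ff0000001f000000f80000007800000038 8 8) 0 0 (step_sound _ 132 [(rh26ffcb37093465b4.shift 0 2), (rha357caa34b903cbf.shift 3 0), (rhd6cb68f8d67de0a2.shift 3 0)] (by decide +kernel))
noncomputable def rh8aeee0238399e329 : CRef := CRef.mk (Pat.mk 0x98000000180000000000000000 0x220000002200000077000000ff0000001e0000001400000014 8 8) 0 0 (step_sound _ 101 [(rh361cc68994bd8a63.shift 3 2), rhdd68fc24310d27e3] (by decide +kernel))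
noncomputable def rhcde6ea049e762803 : CRef := CRef.mk (Pat.mk 0x3800000018000000000000000000000000 0xe0000000e0000000f0000003f0000001f000000170000000600000002 8 6) 0 0 (step_sound _ 130 [rh62a4711043010a12, (rhb14e2588a8d71db8.shift 0 3), (rhba89ab7cb81bcc90.shift 0 3), (rhfc63ac286d878ff9.shift 1 2)] (by decide +kernel))
noncomputable def rh2205e9378575dfbc : CRef := CRef.mk (Pat.mk 0x20000001e0000000c00000000 0x1f0000003f0000003e0000001e0000000e00000002 8 6) 0 0 (step_sound _ 100 [(rh33e738c4ed385b9f.shift 1 2), rh89ce64e6308d3ffd] (by decide +kernel))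
noncomputable def rhff8b7ea87144b8a4 : CRef := CRef.mk (Pat.mk 0x380000001c00000000 0xe0000000e0000007f0000003f0000001c00000004 8 7) 0 0 (step_sound _ 66 [(rh293940884cb943ce.shift 1 0), (rhba89ab7cb81bcc90.shift 0 1), (rhe25191970535449e.shift 0 1)] (by decide +kernel))
noncomputable def rhc41352f5c78d4ab1 : CRef := CRef.mk (Pat.mk 0x88000000180000009000000000 0x340000003400000037000000ff0000001f000000f800000028 8 8) 0 0 (step_sound _ 37 [(rh2fe78cc5ca4405d8.shift 3 1), rheb04175f0a8689e2] (by decide +kernel))
noncomputable def rh67c272ba3f375a34 : CRef := CRef.mk (Pat.mk 0x10000000180000001c0000000000000000 0xc0000000f0000007c0000001f0000001c0000000f0000000e 8 7) 0 0 (step_sound _ 35 [rh484a7f4f0fecce2e, (rh71222050f2c63a3a.shift 3 0)] (by decide +kernel))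
noncomputable def rhe1599bc1598d0fee : CRef := CRef.mk (Pat.mk 0x1000000018000000180000000800000000 0xc0000000f0000007f0000001e0000001c0000000c00000004 8 7) 0 0 (step_sound _ 131 [rh36f871eae198a85d, (rh771d065bdc85bf2d.shift 2 0), (rh7b9fbdf6d2d059e4.shift 2 1), (rh925a1628dd8a50da.shift 2 0)] (by decide +kernel))
noncomputable def rh6337f5b6ce16b4e1 : CRef := CRef.mk (Pat.mk 0x380000001800000000 0x34000000760000007f0000003f0000001800000008 8 7) 0 0 (step_sound _ 100 [(rh503dd4575245365b.shift 3 0), (rh59ef90f1a341f5f8.shift 0 1)] (by decide +kernel))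
noncomputable def rh47fabe710f059c1c : CRef := CRef.mk (Pat.mk 0x80000001c0000000c00000000 0x1c0000007c0000001f0000001c0000000f00000002 8 7) 0 0 (step_sound _ 131 [(rh5c5e593799055d58.shift 2 1), rhd4ab9079bab7879c] (by decide +kernel))
noncomputable def rh7aa534f9a8417559 : CRef := CRef.mk (Pat.mk 0x6c0000004c000000400000000000000000 0x3e0000007e0000003f0000006c0000006c0000004c0000000c00000004 8 7) 0 0 (step_sound _ 162 [(rh55a1f6c57a317ce6.shift 2 1), (rh991c05553ebfc16e.shift 0 1), (rhf7c77fe48087fd5b.shift 1 0)] (by decide +kernel))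
noncomputable def rh6a5680a7ab1df68f : CRef := CRef.mk (Pat.mk 0x1c0000000c000000000000000000000000 0x1c0000001c0000003c0000001f0000000f000000180000001800000018 8 6) 0 0 (step_sound _ 96 [rh20277466cec22ba9, (rh24ae073cf30720c4.shift 0 3)] (by decide +kernel))
noncomputable def rh23164e599a95be23 : CRef := CRef.mk (Pat.mk 0x8000000180000001800000008000000000000000000000000 0x80000001c0000001f0000003f000000170000000200000002 8 6) 0 0 (step_sound _ 100 [rh6b82ad8538a2c276, (rh7b1f1fb55310c477.shift 3 2)] (by decide +kernel))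
noncomputable def rhd82f6fd6847c3c5b : CRef := CRef.mk (Pat.mk 0x3c0000001c0000000000000000 0x20000000380000007e0000003c0000001c0000000f0000000e 8 7) 0 0 (step_sound _ 130 [rh29dcd6f202bb903d, (rh3244c3cc8379b070.shift 1 3)] (by decide +kernel))
noncomputable def rh21209c823c891eb5 : CRef := CRef.mk (Pat.mk 0x38000000180000001000000000 0x80000000f0000003f0000001f0000001f0000000e 8 6) 0 0 (step_sound _ 98 [rh68533a26f7edfd44, (rhb14e2588a8d71db8.shift 0 2), (rhba89ab7cb81bcc90.shift 0 2)] (by decide +kernel))
noncomputable def rhc7ee9b345b80c973 : CRef := CRef.mk (Pat.mk 0x1800000018000000000000000000000000 0x300000003000000030000000180000001f0000003f0000003f0000003c 8 6) 0 0 (step_sound _ 164 [(rh503dd4575245365b.shift 3 2), (rh642e50382fd7f7a3.shift 3 0), rhbf84b86a987447b7] (by decide +kernel))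
noncomputable def rhd63d3c6ca3e875b3 : CRef := CRef.mk (Pat.mk 0x180000001e00000000 0x50000000700000007000000030000001f0000001e00000007 8 5) 0 0 (step_sound _ 1 [rh4e6e4f01458feea6, rheb0810cc63b001d8] (by decide +kernel))
noncomputable def rhad87b0763af9651c : CRef := CRef.mk (Pat.mk 0xc0000000c000000000000000000000000 0x1e0000003f0000003f0000000f0000000c0000001c0000001c00000018 8 6) 0 0 (step_sound _ 163 [(rh1e309b005ffa1b36.shift 2 1), (rh9b8fea266a2cfe24.shift 0 3), rhc048fe4a2609840b] (by decide +kernel))
noncomputable def rh3f59e6a013622bb8 : CRef := CRef.mk (Pat.mk 0x98000000180000000000000000 0x40000000400000007000000ff0000001f0000000b00000003 8 8) 0 0 (step_sound _ 101 [(rh361cc68994bd8a63.shift 3 2), rh3a17e062c35cf8ef] (by decide +kernel))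
noncomputable def rha31714ade6b30f5d : CRef := CRef.mk (Pat.mk 0x800000008000000100000003800000000 0x40000000c0000000e0000003f0000007f00000007 8 7) 0 0 (step_sound _ 67 [rh6fae963f33cfdfd7, rhbb66889bafd98e97, (rhe2b63c00a3d7bb73.shift 1 1)] (by decide +kernel))
noncomputable def rh1a65b40f49f2fac8 : CRef := CRef.mk (Pat.mk 0x8000000080000001800000010000000000000000000000000 0x40000000c0000001f0000001e0000001f0000000f0000000c0000000c 8 5) 0 0 (step_sound _ 99 [(rh544fd3f279a4d968.shift 2 0), (rh7b18f3f209f14cd6.shift 2 0), (rha9a9dd876407ae9a.shift 2 0), (rhbac7775403877014.shift 0 2), (rhc4526fc8abf298b6.shift 2 1)] (by decide +kernel))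
noncomputable def rhdb60d54b4838bac1 : CRef := CRef.mk (Pat.mk 0x8000000080000001800000008000000000000000000000000 0x80000000c0000001f0000003f000000170000000200000002 8 6) 0 0 (step_sound _ 98 [(rh932754581e0f4330.shift 2 2), rhf6a52681dad7ce3f] (by decide +kernel))
noncomputable def rh2fe231011f722c61 : CRef := CRef.mk (Pat.mk 0x3800000018000000000000000000000000 0xc0000000c0000001f000000380000001e0000000c0000000c0000000c 8 6) 0 0 (step_sound _ 98 [(rh53b3c253cb0c65f4.shift 1 3), rh86a88608d565b486] (by decide +kernel))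
noncomputable def rhebf1fcf54d55f9c0 : CRef := CRef.mk (Pat.mk 0x1c0000000e000000000000000000000000 0x1e0000001e0000003f0000001e0000000e000000080000000800000008 8 6) 0 0 (step_sound _ 67 [(rh3cb04db3dd2b6a55.shift 2 0), (rh9acbeda4dd46eb2c.shift 0 2), (rhb0c1e7919d9be92d.shift 2 0), (rhfc7c29d8e65d775f.shift 2 1)] (by decide +kernel))
noncomputable def rh380dd236995fc104 : CRef := CRef.mk (Pat.mk 0x8000000880000001800000010000000000000000000000000 0xf40000007c000000df000000180000001f0000000c0000000c0000000c 8 8) 0 0 (step_sound _ 99 [(rh05bfc9d638def702.shift 1 2), (rh3a61644a128cd4ab.shift 0 2), (rhb1c562e40ee61608.shift 2 0), rhcc747324ec4b3797] (by decide +kernel))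
noncomputable def rhcb9f1087d72f22bb : CRef := CRef.mk (Pat.mk 0x4c0000004e00000048 0x380000007c0000003f0000007c0000006e00000048 8 7) 0 0 (step_sound _ 69 [(rh361cc68994bd8a63.shift 1 1), rhf4ea9b074c449713] (by decide +kernel))
noncomputable def rh35bd92213dc6a7cc : CRef := CRef.mk (Pat.mk 0x800000018000000180000001c00000000 0x60000000f0000001b0000001f0000003f00000003 8 6) 0 0 (step_sound _ 33 [(rh53b3c253cb0c65f4.shift 0 1), rhe53757e9b6e5b680] (by decide +kernel))
noncomputable def rh6aa60ec1858dcc2b : CRef := CRef.mk (Pat.mk 0x1800000018000000000000000000000000 0x3e0000003e000000760000001c0000001f0000003f0000003f0000003c 8 7) 0 0 (step_sound _ 164 [(rh503dd4575245365b.shift 3 2), (rhba63d255a8bbea6f.shift 1 3), rhbf84b86a987447b7] (by decide +kernel))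
noncomputable def rh898de146901a0bcc : CRef := CRef.mk (Pat.mk 0x1800000018000000000000000000000000 0xc0000001c0000001f0000003f0000001c0000000c0000000c0000000c 8 6) 0 0 (step_sound _ 67 [rh89fdf87e8478868f, (rh964f75781a0ff979.shift 0 1), (rhea7a1800d6f053bd.shift 3 0)] (by decide +kernel))
noncomputable def rh26570d32842f45e6 : CRef := CRef.mk (Pat.mk 0x26000000260000002000000000 0xa0000001e0000001f0000001e0000003e000000370000002300000003 8 6) 0 0 (step_sound _ 100 [(rhb2a0b9ccfb5cecd5.shift 1 2), rhcc5d7f5742aa6f0f] (by decide +kernel))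
noncomputable def rhb6253e9002b1da89 : CRef := CRef.mk (Pat.mk 0x8000000080000001800000000000000000000000000000000 0x8000000180000001c0000001c0000000f0000001c0000000c0000001c0000001c00000014 8 5) 0 0 (step_sound _ 99 [(rh20966da26a1c2ae8.shift 2 2), (rh47992774edf9829f.shift 2 0), (rh5427db86361c1fd4.shift 0 2)] (by decide +kernel))
noncomputable def rh60ddb123e268bde8 : CRef := CRef.mk (Pat.mk 0x800000008000000180000000800000000 0x40000000c0000000e0000001f0000001f00000017 8 5) 0 0 (step_sound _ 34 [(rh932754581e0f4330.shift 2 0), rh9a5e90fb6c2b3692] (by decide +kernel))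
noncomputable def rhc2a3ec5fa943f33b : CRef := CRef.mk (Pat.mk 0x800000008000000180000001800000000 0x140000003c0000000f0000001c0000001f00000007 8 6) 0 0 (step_sound _ 34 [rh28a47b1f1561a6b9, (rh932754581e0f4330.shift 2 0)] (by decide +kernel))
noncomputable def rh5db266b7131283b6 : CRef := CRef.mk (Pat.mk 0x400000004c0000006c000000000000000000000000 0x40000000c0000004c0000006c0000006c0000003f0000007e0000003e 8 7) 0 0 (step_sound _ 66 [rh3fe1c437754382b6, (rh4f4c4c1027c971e0.shift 1 0), (rh84d1c02a8954c6a8.shift 2 1)] (by decide +kernel))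
noncomputable def rhf9ed024c3318586a : CRef := CRef.mk (Pat.mk 0xc0000001c000000000000000000000000 0x1800000018000000180000000f0000001f0000003c0000001c0000001c 8 6) 0 0 (step_sound _ 128 [(rhab22b5b56e7b3243.shift 0 3), rhc4ef6306db5f37fa] (by decide +kernel))
noncomputable def rhd3cd28bb98f4eef3 : CRef := CRef.mk (Pat.mk 0x8000000180000001800000008 0x200000002000000170000003f0000001f0000001c00000008 8 6) 0 0 (step_sound _ 100 [rh43b4f7d9d8c73dfd, (rh5c5e593799055d58.shift 3 0)] (by decide +kernel))
noncomputable def rhe7627975d3d2788d : CRef := CRef.mk (Pat.mk 0x1c0000003c000000000000000000000000 0xe0000000f0000001c0000003c0000007e0000003800000020 8 7) 0 0 (step_sound _ 66 [(rheb0810cc63b001d8.shift 1 2), rhfa48504c11e28fb8] (by decide +kernel))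
noncomputable def rhaa234234cdd30fad : CRef := CRef.mk (Pat.mk 0x1000000018000000380000000000000000 0xe0000001f0000001f0000003f0000000f00000008 8 6) 0 0 (step_sound _ 66 [(rhbe5fc5902345a0b9.shift 0 2), (rhcc2be1f880c5ea3e.shift 0 1), rhf72c8328dc3ec8e4] (by decide +kernel))
noncomputable def rh9d152bbdfc5208e7 : CRef := CRef.mk (Pat.mk 0x1800000018000000000000000000000000 0x3c0000003f0000003f0000001f00000018000000300000003000000030 8 6) 0 0 (step_sound _ 68 [(rh3cb04db3dd2b6a55.shift 3 0), (rh4ee84d7f73540b6b.shift 3 0), (rhdf1539d898777a52.shift 0 2)] (by decide +kernel))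
noncomputable def rh1b3af92ea531b599 : CRef := CRef.mk (Pat.mk 0x1e0000001800000000000000000000000000000000 0x70000001e0000001f00000003000000070000000700000005 8 5) 0 0 (step_sound _ 193 [(rh3244c3cc8379b070.shift 0 5), rhb96740ba38a6bf29] (by decide +kernel))
noncomputable def rhf1b842122e2826b8 : CRef := CRef.mk (Pat.mk 0xc0000000c000000000000000000000000 0x180000001c0000001c0000000c0000000f0000003f0000003f0000001e 8 6) 0 0 (step_sound _ 67 [(rh5dce70bad701a129.shift 0 1), rh87fb231a5bb8610f, (rhfc7c29d8e65d775f.shift 2 1)] (by decide +kernel))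
noncomputable def rhc22507c45ae387cb : CRef := CRef.mk (Pat.mk 0x1800000098000000000000000000000000 0x30000000b0000001f000000ff000000070000000400000004 8 8) 0 0 (step_sound _ 101 [(rh2fe78cc5ca4405d8.shift 3 3), rhbe7c469adf46a220] (by decide +kernel))
noncomputable def rhb537f0806fa6ed05 : CRef := CRef.mk (Pat.mk 0x3800000010000000080000000800000000 0x70000007f0000003f0000000e0000000c00000004 8 7) 0 0 (step_sound _ 99 [rh0668c447fd80549a, (rh4dc133ee0ba1420a.shift 1 3), (rhc647a25a08ddf0ec.shift 0 1)] (by decide +kernel))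
noncomputable def rhc480fc957c70cdeb : CRef := CRef.mk (Pat.mk 0x1000000018000000080000000800000000 0xc0000000c0000000f0000001f0000001e0000001f0000000c00000004 8 5) 0 0 (step_sound _ 131 [(rh0ef6c71ce89c1c36.shift 2 0), rh10caf0c599b88049, (rh771d065bdc85bf2d.shift 2 0), (rh933f3ac7d57d09d8.shift 2 1), (rhea90e7358341a1a4.shift 2 0)] (by decide +kernel))
noncomputable def rhfc18e786075cb33a : CRef := CRef.mk (Pat.mk 0x8000000180000000800000008 0x200000002000000170000003f0000001f0000000c00000008 8 6) 0 0 (step_sound _ 98 [rh0484b6509b470bb7, (rh50fbb5868c909700.shift 2 0)] (by decide +kernel))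
noncomputable def rh32b92f3f20664212 : CRef := CRef.mk (Pat.mk 0x1800000038000000000000000000000000 0xc0000000c0000000c0000001e000000380000001f0000000c0000000c 8 6) 0 0 (step_sound _ 130 [(rhb739f4f82bb681b4.shift 1 3), rhdf6436e71326bf33] (by decide +kernel))
noncomputable def rh0da2cb0367939538 : CRef := CRef.mk (Pat.mk 0xe0000001c000000000000000000000000 0x800000008000000080000000e0000001e0000003f0000001e0000001e 8 6) 0 0 (step_sound _ 163 [(rh1e309b005ffa1b36.shift 2 1), (rh503dd4575245365b.shift 2 2), (rh571950d89739e871.shift 2 2), rh6717c29cf54c2308] (by decide +kernel))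
noncomputable def rh2afa547825f35211 : CRef := CRef.mk (Pat.mk 0x1000000018000000880000000800000000 0xc0000000c0000000c0000001f00000018000000df0000007c000000f4 8 8) 0 0 (step_sound _ 131 [(rhcbaa34959f85e2ef.shift 2 0), rhe2a99da09057dfc6, (rhe3d74dc6875acb98.shift 1 0), rhf0d38cf1e7116183] (by decide +kernel))
noncomputable def rh0bbc4e65714eb846 : CRef := CRef.mk (Pat.mk 0x480000004e0000004c000000000000000000000000 0x480000006e0000007c0000003f0000007c00000038 8 7) 0 0 (step_sound _ 101 [(rh2fe78cc5ca4405d8.shift 1 3), rh90d2f49f506bd1dd] (by decide +kernel))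
noncomputable def rhfbc00eac58294445 : CRef := CRef.mk (Pat.mk 0x1c00000018000000180000000800000000 0x30000003f0000001f0000001b0000000f00000006 8 6) 0 0 (step_sound _ 129 [rh807247d9a0029607, (rhb739f4f82bb681b4.shift 0 3)] (by decide +kernel))
noncomputable def rh57c259a384730b86 : CRef := CRef.mk (Pat.mk 0x1800000018000000000000000000000000 0x3c0000003f0000003f0000001f0000001c000000760000003e0000003e 8 7) 0 0 (step_sound _ 68 [(rh3cb04db3dd2b6a55.shift 3 0), (rhdf1539d898777a52.shift 0 2), (rhdfb85d8e685264b4.shift 1 0)] (by decide +kernel))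
noncomputable def rh20e3a7ed1f8d80aa : CRef := CRef.mk (Pat.mk 0x1800000018000000000000000000000000 0xc0000000c0000000c0000001c0000003f0000001f0000001c0000000c 8 6) 0 0 (step_sound _ 163 [(rh05607e02b2ff73f6.shift 0 2), (rh3e595262c1b737ad.shift 3 2), rh921af43d3ba4d0b9] (by decide +kernel))
noncomputable def rhe0e8bef27294a797 : CRef := CRef.mk (Pat.mk 0x20000000260000002600000000000000000000000000000000 0x300000023000000370000003e0000001e0000001f0000001e0000000a 8 6) 0 0 (step_sound _ 132 [(rh5419adcd928dba20.shift 1 4), rh85519decc8e5d083] (by decide +kernel))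
noncomputable def rh790a6e0b3d6507f9 : CRef := CRef.mk (Pat.mk 0x180000000800000008000000000000000000000000 0x140000001c0000001c0000000c0000001c0000000f0000001c0000001c0000001800000008 8 5) 0 0 (step_sound _ 195 [(rh1726a00b0a8befd0.shift 2 2), (rh8ff3dde5b1c639e0.shift 2 1), rhea017950332447f0] (by decide +kernel))
noncomputable def rh006c8b244f84d464 : CRef := CRef.mk (Pat.mk 0x800000018000000080000000800000000 0x170000001f0000001f0000000e0000000c00000004 8 5) 0 0 (step_sound _ 130 [rh01f86b9786bd9499, (rh50fbb5868c909700.shift 2 1)] (by decide +kernel))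
noncomputable def rhc00d8e3616870f32 : CRef := CRef.mk (Pat.mk 0x1800000018000000080000000800000000 0x70000001f0000001c0000000f0000003c00000014 8 6) 0 0 (step_sound _ 130 [rh1b6a0bd10f8f81d2, (rh50fbb5868c909700.shift 2 1)] (by decide +kernel))
noncomputable def rh8b79cf238414cfb1 : CRef := CRef.mk (Pat.mk 0x900000001a000000880000000800000000 0x40000000c000000ff0000001b000000ff0000000e00000004 8 8) 0 0 (step_sound _ 134 [rh024260ddf11de43b, (rhb2a0b9ccfb5cecd5.shift 3 3)] (by decide +kernel))
noncomputable def rhd469d186518a52c3 : CRef := CRef.mk (Pat.mk 0x20000000340000001000000000000000000000000000000000 0x40000003f0000003e0000001f0000000f0000000e0000000e0000000a 8 6) 0 0 (step_sound _ 163 [(rh21d582c147e7e118.shift 0 4), (rh592c7139d2c44767.shift 0 4), (rh7fb660bc21ce4329.shift 0 5), rhff2fe99714906ec8] (by decide +kernel))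
noncomputable def rha533158c760d2c53 : CRef := CRef.mk (Pat.mk 0x30000000180000000800000000 0x20000000760000003e0000003c0000001e0000000f00000002 8 7) 0 0 (step_sound _ 132 [rh3eb7772926f2cb65, (rh5c5e593799055d58.shift 3 1)] (by decide +kernel))
noncomputable def rh70d9bc11478c6418 : CRef := CRef.mk (Pat.mk 0x480000004c00000044000000040000000000000000 0x2000000060000007e0000006c0000007f0000003e0000007a00000020 8 7) 0 0 (step_sound _ 164 [(rh361cc68994bd8a63.shift 2 4), rh3db3cec0079cd628] (by decide +kernel))
noncomputable def rhdaf9c0fb4beffb13 : CRef := CRef.mk (Pat.mk 0xb00000009800000088000000000000000000000000 0x40000000f000000bf000000df000000f8000000780000005800000040 8 8) 0 0 (step_sound _ 67 [(rh71222050f2c63a3a.shift 3 1), rhbe356a9805652aea] (by decide +kernel))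
noncomputable def rh102126d77a916feb : CRef := CRef.mk (Pat.mk 0x1800000098000000000000000000000000 0x140000001f000000ff0000000f0000000c0000000c 8 8) 0 0 (step_sound _ 101 [(rh2fe78cc5ca4405d8.shift 3 3), rh72c7977c130cc405] (by decide +kernel))
noncomputable def rhebc8321090d5ca14 : CRef := CRef.mk (Pat.mk 0x1c00000038000000000000000000000000 0x600000006000000060000001c0000003f0000007e0000000c0000000c 8 7) 0 0 (step_sound _ 98 [(rh822be8c6befcb82b.shift 1 0), (rhe153806bfe3acc65.shift 0 2)] (by decide +kernel))
noncomputable def rh1344168b263b5f7b : CRef := CRef.mk (Pat.mk 0x8800000018000000080000000800000000 0x18000000f80000001e0000000f0000003c00000014 8 8) 0 0 (step_sound _ 132 [(rh2f68792b6b779e96.shift 3 1), rh68f2b6dc78a8a066] (by decide +kernel))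
noncomputable def rhc23de22a3132a245 : CRef := CRef.mk (Pat.mk 0xc0000001e000000080000000000000000 0x4000000060000000f0000001e0000003e0000003600000014 8 6) 0 0 (step_sound _ 129 [(rh3244c3cc8379b070.shift 0 3), (rh6b95404ef2d41242.shift 1 0)] (by decide +kernel))
noncomputable def rh634bb638430963cc : CRef := CRef.mk (Pat.mk 0x800000009800000098000000000000000000000000 0x80000008c000000df000000ff0000007b0000007e0000007e 8 8) 0 0 (step_sound _ 68 [(rh1864e4c677b30864.shift 1 0), (rh3cb04db3dd2b6a55.shift 3 0), rha88a296af148b25e] (by decide +kernel))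
noncomputable def rhd1e64bf41617b69a : CRef := CRef.mk (Pat.mk 0x1800000038000000000000000000000000 0xc0000001e000000380000003f000000fe0000003c 8 8) 0 0 (step_sound _ 130 [rh0f5b430620b278ee, (rhb739f4f82bb681b4.shift 1 3)] (by decide +kernel))
noncomputable def rh3775448547e8cddf : CRef := CRef.mk (Pat.mk 0x18000000180000001800000008 0x200000002000000070000001f0000001f0000003f00000008 8 6) 0 0 (step_sound _ 98 [(rh50fbb5868c909700.shift 2 0), (rh53ff93931f1fe954.shift 0 1)] (by decide +kernel))
noncomputable def rhc9e4d546eaf1f4ab : CRef := CRef.mk (Pat.mk 0x8000000080000001800000018000000000000000000000000 0x80000000f0000001f0000003f000000070000000200000002 8 6) 0 0 (step_sound _ 98 [(rh932754581e0f4330.shift 2 2), rhb899a09af20cf53b] (by decide +kernel))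
noncomputable def rh49721f14f543caa8 : CRef := CRef.mk (Pat.mk 0x3000000018000000180000000800000000 0x60000007f0000001e0000001c0000000f00000006 8 7) 0 0 (step_sound _ 98 [rh41cbdafadb77a24d, (rh53b3c253cb0c65f4.shift 1 3)] (by decide +kernel))
noncomputable def rh0765abb9d1cf6d53 : CRef := CRef.mk (Pat.mk 0x180000001a000000180000000000000000 0x30000000300000001f0000001e0000001f0000003000000030 8 6) 0 0 (step_sound _ 36 [(rh7b1f1fb55310c477.shift 3 0), rhf4ef86aeba7b430a] (by decide +kernel))
noncomputable def rh45eb7bbcbb132cb8 : CRef := CRef.mk (Pat.mk 0x1a000000180000000000000000 0x50000000700000007000000070000001f0000001f0000000600000006 8 5) 0 0 (step_sound _ 98 [rha864593327555e86, (rhb739f4f82bb681b4.shift 0 2)] (by decide +kernel))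
noncomputable def rhf4c78ed7abc84f21 : CRef := CRef.mk (Pat.mk 0x180000001e0000000000000000 0x50000000700000007000000030000001f0000001e0000000700000004 8 5) 0 0 (step_sound _ 97 [rh11b651d36f317e04, (rh3244c3cc8379b070.shift 0 2)] (by decide +kernel))
noncomputable def rhc2d0945ec54014f8 : CRef := CRef.mk (Pat.mk 0xc0000001e000000020000000000000000 0x40000000e0000001e0000003a0000001f0000001f 8 6) 0 0 (step_sound _ 33 [(rh71222050f2c63a3a.shift 1 0), rh7ed964f48a49056a] (by decide +kernel))
noncomputable def rh323c210576d7015a : CRef := CRef.mk (Pat.mk 0x100000000300000007000000000000000000000000 0x5000000070000000700000006000000060000001f0000000300000007000000060000000600000006 8 5) 0 0 (step_sound _ 161 [rh17fd23ce851b0345, (rh566659606c8abe04.shift 0 2), (rh571950d89739e871.shift 0 2), (rhe37d1ee5d79a9fc4.shift 0 2)] (by decide +kernel))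
noncomputable def rha8ff6568553180ed : CRef := CRef.mk (Pat.mk 0x6000000030000001200000000 0x50000000700000007000000060000000600000007000000030000001e00000004 8 5) 0 0 (step_sound _ 34 [rh29cad279ba07067a, (rh2fe78cc5ca4405d8.shift 0 1)] (by decide +kernel))
noncomputable def rhd9433c250228664c : CRef := CRef.mk (Pat.mk 0x8000000880000001a000000900000000000000000 0x40000000e000000ff0000001b000000ff0000000c00000004 8 8) 0 0 (step_sound _ 70 [rh1f9a4b017e1e4aaa, (rh5419adcd928dba20.shift 3 2)] (by decide +kernel))
noncomputable def rh86b810cb588d8f67 : CRef := CRef.mk (Pat.mk 0x10000000340000002000000000 0xa0000000e0000000e0000000f0000001f0000003e0000003f00000004 8 6) 0 0 (step_sound _ 67 [(rh0de499e0455c9c14.shift 0 1), (rh775ca1963e850b80.shift 0 1), rh7d1dda835f84a090, (rhd1d05263fabc0227.shift 0 1)] (by decide +kernel))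
noncomputable def rhdd88d74d8ca0bd10 : CRef := CRef.mk (Pat.mk 0x80000001800000030000000000000000000000000 0x20000000f0000001e0000003c0000003e0000007600000020 8 7) 0 0 (step_sound _ 68 [rh089d964e82110b11, (rh7b1f1fb55310c477.shift 3 1)] (by decide +kernel))
noncomputable def rhc30aab7d7681b014 : CRef := CRef.mk (Pat.mk 0x4000000440000004c000000480000000000000000 0x200000007a0000003e0000007f0000006c0000007e0000000600000002 8 7) 0 0 (step_sound _ 68 [(rh2fe78cc5ca4405d8.shift 2 2), rh59d350aaad49c210] (by decide +kernel))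
noncomputable def rhd7e8f26df6e9940a : CRef := CRef.mk (Pat.mk 0x8800000098000000b00000000000000000 0x400000005800000078000000f8000000df000000bf0000000f00000004 8 8) 0 0 (step_sound _ 163 [(rh2145e1d24b96a57e.shift 3 2), rhad2491a10d7d492a] (by decide +kernel))
noncomputable def rh8f26fa7cae4f34bd : CRef := CRef.mk (Pat.mk 0x980000001800000000 0xc0000000c0000000f000000ff0000001f00000014 8 8) 0 0 (step_sound _ 69 [rh1554c6a3031e44c1, (rh361cc68994bd8a63.shift 3 1)] (by decide +kernel))
noncomputable def rha9d28131cd56500f : CRef := CRef.mk (Pat.mk 0x380000001c000000000000000000000000 0xc0000000c0000007e0000003f0000001c000000060000000600000006 8 7) 0 0 (step_sound _ 130 [(rh89a182a5c191c2c5.shift 1 0), (rhe25191970535449e.shift 0 3)] (by decide +kernel))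
noncomputable def rh518e8f618396c20e : CRef := CRef.mk (Pat.mk 0x800000008000000180000008800000000 0x140000003c0000000f0000001e000000f800000018 8 8) 0 0 (step_sound _ 36 [(rh55afc6a59410cf00.shift 3 0), rhd38911bea56681da] (by decide +kernel))
noncomputable def rhbe13032a17eca955 : CRef := CRef.mk (Pat.mk 0x80000001e0000000c0000000000000000 0x14000000360000003e0000001e0000000f0000000600000004 8 6) 0 0 (step_sound _ 65 [(rhd9fd4512593f4679.shift 1 0), (rheb0810cc63b001d8.shift 0 2)] (by decide +kernel))
noncomputable def rh3c4b012b196bde2e : CRef := CRef.mk (Pat.mk 0x98000000980000008000000000 0x7e0000007e0000007b000000ff000000df0000008c00000008 8 8) 0 0 (step_sound _ 132 [(rh503dd4575245365b.shift 3 1), (rh9dbc063ae34b2487.shift 1 2), rhafda2fa2e018255f] (by decide +kernel))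
noncomputable def rh9deb46bd2a35e064 : CRef := CRef.mk (Pat.mk 0x380000001800000000 0x3c000000fe0000003f000000380000001e0000000c 8 8) 0 0 (step_sound _ 34 [rh40bae0465e983163, (rh53b3c253cb0c65f4.shift 1 1)] (by decide +kernel))
noncomputable def rh863dbea2bef7647b : CRef := CRef.mk (Pat.mk 0x18000000180000000800000008 0x200000002000000070000003f0000001f0000000f00000008 8 6) 0 0 (step_sound _ 98 [(rh50fbb5868c909700.shift 2 0), (rhaf6f6536f36508a5.shift 0 1)] (by decide +kernel))
noncomputable def rhce12326eda7f5ea5 : CRef := CRef.mk (Pat.mk 0x800000018000000180000003000000000 0x60000000f0000001c0000001e0000007f00000006 8 7) 0 0 (step_sound _ 66 [rh4511d1d6433de07f, (rhb739f4f82bb681b4.shift 1 1)] (by decide +kernel))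
noncomputable def rh8f8b4cc2601047b3 : CRef := CRef.mk (Pat.mk 0x180000001a000000180000000000000000 0x30000000300000001f0000001e0000001f0000003000000030 8 6) 0 0 (step_sound _ 164 [(rh5c5e593799055d58.shift 3 2), rhdf6310c512ddbfd7] (by decide +kernel))
noncomputable def rh86edc4f4325a51ed : CRef := CRef.mk (Pat.mk 0x180000001a00000000000000000000000000000000 0x6000000060000001f0000001f00000007000000070000000700000005 8 5) 0 0 (step_sound _ 130 [(rh53b3c253cb0c65f4.shift 0 4), rh75a786e20aa9ee6e] (by decide +kernel))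
noncomputable def rh97cfa51bbec4ec42 : CRef := CRef.mk (Pat.mk 0x1e0000001800000000000000000000000000000000 0x4000000070000001e0000001f00000003000000070000000700000005 8 5) 0 0 (step_sound _ 129 [rh7d022e0021f2e430, (rheb0810cc63b001d8.shift 0 4)] (by decide +kernel))
noncomputable def rhb100dcf3bca36246 : CRef := CRef.mk (Pat.mk 0x20000001e0000000c00000000 0x1f0000001f0000003a0000001e0000000e00000004 8 6) 0 0 (step_sound _ 129 [(rh2145e1d24b96a57e.shift 1 1), rhf13f708293a72c5d] (by decide +kernel))
noncomputable def rh1229ebb3ac5f892f : CRef := CRef.mk (Pat.mk 0x700000003000000100000000000000000000000000000000000000000 0x6000000060000000600000007000000030000001f0000000600000006000000070000000700000005 8 5) 0 0 (step_sound _ 161 [(rh36d02af028602191.shift 0 4), (rh4c145d583973abd2.shift 0 2), rh6e7fbfa39d08c5c7, (rhb0c1e7919d9be92d.shift 0 3)] (by decide +kernel))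
noncomputable def rh970a0cc351b94a12 : CRef := CRef.mk (Pat.mk 0x1200000003000000060000000000000000000000000000000000000000 0x40000001e00000003000000070000000600000006000000070000000700000005 8 5) 0 0 (step_sound _ 226 [(rh361cc68994bd8a63.shift 0 6), rh72e03255e234953d] (by decide +kernel))
noncomputable def rha10ceded666c09f9 : CRef := CRef.mk (Pat.mk 0x180000001c000000100000001000000000 0x60000001f0000001c0000001e0000007c0000002c 8 7) 0 0 (step_sound _ 35 [rh1f3f33a43c815999, (rh932754581e0f4330.shift 3 0)] (by decide +kernel))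
noncomputable def rhf89532e72e8d3e14 : CRef := CRef.mk (Pat.mk 0x1a000000130000001200000001 0xe0000001f0000000b0000001b0000001b0000001300000003 8 5) 0 0 (step_sound _ 129 [rh79877ebd3ef475dd, rhe09b3b43cde84d84] (by decide +kernel))
noncomputable def rhac1acd57d0fc9c9f : CRef := CRef.mk (Pat.mk 0x40000000e000000180000000800000000 0x140000001c0000001c000000080000003c0000000e0000001f0000001f00000006 8 6) 0 0 (step_sound _ 131 [rh3fa593463b88cf42, rh6b195deb0fa6a088, (rhb060aca2ad7ec3d4.shift 1 1), (rhb23658ecdd7ce5df.shift 2 1), (rhfa3205aafd2af0b3.shift 2 1)] (by decide +kernel))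
noncomputable def rh05dd9edeeff9bbec : CRef := CRef.mk (Pat.mk 0x3000000018000000080000000800000000 0xc0000000c0000000e0000003f0000001f0000000f0000000c00000004 8 6) 0 0 (step_sound _ 97 [(rh24ae073cf30720c4.shift 1 3), rhb3774a94777b772d] (by decide +kernel))
noncomputable def rhc889d3e5dc9407af : CRef := CRef.mk (Pat.mk 0x3000000030000000200000002000000000 0x30000000300000003e0000007e0000005f 8 7) 0 0 (step_sound _ 36 [rh4ec0df7d52515497, (rh932754581e0f4330.shift 4 0)] (by decide +kernel))
noncomputable def rh4b0265eac4157bc9 : CRef := CRef.mk (Pat.mk 0x300000001c000000100000000000000000 0xc0000001c0000001f0000003f0000001c0000001c0000000c0000000c 8 6) 0 0 (step_sound _ 67 [(rh089bead2c0bb59a3.shift 1 2), (rh1e309b005ffa1b36.shift 3 0), (rh503dd4575245365b.shift 3 1), rh8055bb9dd0aa04a2] (by decide +kernel))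
noncomputable def rh412229cdb1cd8fa9 : CRef := CRef.mk (Pat.mk 0xc000000080000000800000000000000000000000000000000 0xc0000000c0000003f0000003f0000001f0000001c00000014 8 6) 0 0 (step_sound _ 99 [(rh1f3a6ba70a310ab1.shift 2 1), (rh20605be9cfe324a0.shift 0 2), (rh8cdd36b03d57a2f6.shift 2 1), (rha613ffd40b6c9d24.shift 2 1), (rhbba7d23481996066.shift 2 0)] (by decide +kernel))
noncomputable def rh7a1bc29db4f94c13 : CRef := CRef.mk (Pat.mk 0x18000000900000001800000000 0x80000000a0000001f0000001e000000f40000001e0000000c 8 8) 0 0 (step_sound _ 69 [(rh361cc68994bd8a63.shift 3 1), rh859100a5910086ba] (by decide +kernel))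
noncomputable def rh9a29d2166b97ce6b : CRef := CRef.mk (Pat.mk 0x1800000018000000180000001c00000000 0x40000001f0000001f0000001b0000003f00000023 8 6) 0 0 (step_sound _ 33 [(rh53b3c253cb0c65f4.shift 0 1), rhce4a2fcfe006baa9] (by decide +kernel))
end Crest.Agent.S0047.Helper85.Cert
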