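import Crest.Agent.Lib.S0047.Helper85CertPL7F0
import Crest.Agent.Lib.S0047.Helper85CertPL7F1
import Crest.Agent.Lib.S0047.Helper85CertPL7F2
import Crest.Agent.Lib.S0047.Helper85CertPL7F3
import Crest.Agent.Lib.S0047.Helper85CertPL7F4
import Crest.Agent.Lib.S0047.Helper85CertPL7F5
import Crest.Agent.Lib.S0047.Helper85CertPL7F6
import Crest.Agent.Lib.S0047.Helper85CertPL7F7
import Crest.Agent.Lib.S0047.Helper85CertPL7F8
import Crest.Agent.Lib.S0047.Helper85CertPL7F9
import Crest.Agent.Lib.S0047.Helper85CertPL7F10
import Crest.Agent.Lib.S0047.Helper85CertPL7F11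
set_option autoImplicit false
set_option linter.all false
set_option Elab.async false
namespace Crest.Agent.S0047.Helper85.Cert
open Crest.Agent.S0047.Helper85

noncomputable def rh58a27f2dfe2842ab : CRef := CRef.mk (Pat.mk 0x8000000180000001800000000 0xc0000000c0000000c0000001e0000007f00000007 8 7) 0 0 (step_sound _ 131 [(rh2145e1d24b96a57e.shift 3 1), rheee68c4e0e628a59] (by decide +kernel))
noncomputable def rh8d7228d4a2459588 : CRef := CRef.mk (Pat.mk 0x3000000018000000180000000800000000 0xc0000000e0000003f0000001e0000001c0000000f00000006 8 6) 0 0 (step_sound _ 98 [(rh53b3c253cb0c65f4.shift 1 3), rhb8dcac5bc32e77d9] (by decide +kernel))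
noncomputable def rhc5dee4b6054fbd87 : CRef := CRef.mk (Pat.mk 0x800000001800000038000000000000000000000000 0x1c0000001c000000ff0000001f00000038000000080000000800000008 8 8) 0 0 (step_sound _ 67 [(rh215e11e099257d75.shift 3 1), (rh37e8c6cc6d461d35.shift 0 2), (rh3f09e2870ec06b4b.shift 1 0)] (by decide +kernel))
noncomputable def rh7dd3d324d2489ccb : CRef := CRef.mk (Pat.mk 0x800000001800000098000000000000000000000000 0x1c0000001c000000ff0000001f000000f80000000f0000003c0000001c 8 8) 0 0 (step_sound _ 67 [(rh215e11e099257d75.shift 3 1), (rh37e8c6cc6d461d35.shift 0 2), rh59884d4b0b1c90ac, (rhd8b043fc3420d8cd.shift 1 0)] (by decide +kernel))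
noncomputable def rh599a60f6863fd029 : CRef := CRef.mk (Pat.mk 0x180000009800000000000000000000000000000000 0x140000001c0000001c00000018000000fc0000000f0000003c0000001c00000014 8 8) 0 0 (step_sound _ 133 [(rh2fe78cc5ca4405d8.shift 3 4), rhef2a5712647a9ea5] (by decide +kernel))
noncomputable def rhaa10b9dc076cd26f : CRef := CRef.mk (Pat.mk 0xc000000480000000800000000000000000000000000000000 0x80000000f0000007c0000000f0000003c0000001c0000001c00000014 8 7) 0 0 (step_sound _ 164 [(rh2fe78cc5ca4405d8.shift 2 5), rhd14f712e2e2a926a] (by decide +kernel))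
noncomputable def rh2aaddab9c85bffae : CRef := CRef.mk (Pat.mk 0xc0000004c000000080000000000000000 0x20000000f0000007e0000003f0000003700000016 8 7) 0 0 (step_sound _ 100 [(rh2fe78cc5ca4405d8.shift 2 3), rh6a0019c7d12ce8d7] (by decide +kernel))
noncomputable def rh3e35c40c744e2117 : CRef := CRef.mk (Pat.mk 0x80000001a00000030000000000000000000000000 0x1c0000001c0000001c0000001b0000003f0000006c0000000c0000000c 8 7) 0 0 (step_sound _ 195 [(rh2145e1d24b96a57e.shift 3 3), rhaf2a243d55857b3c] (by decide +kernel))
noncomputable def rh9f099b52c62df192 : CRef := CRef.mk (Pat.mk 0x40000000c00000018000000000000000000000000 0x140000001c0000001c000000080000000c0000000c0000001c0000001f0000003f00000010 8 6) 0 0 (step_sound _ 67 [(rh7b1f1fb55310c477.shift 2 1), rhe2e30dbdf27d477d] (by decide +kernel))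
noncomputable def rh226684e548f05fa7 : CRef := CRef.mk (Pat.mk 0x10000000100000001c0000001800000000 0x2c0000007c0000001e0000001c0000001f00000006 8 7) 0 0 (step_sound _ 131 [(rh50fbb5868c909700.shift 3 1), rh914087d91deeb0be] (by decide +kernel))
noncomputable def rhd7526ccac6352a19 : CRef := CRef.mk (Pat.mk 0x100000012000000130000001a000000000000000000000000 0x3000000130000001b0000001b0000000b0000001f0000000e 8 5) 0 0 (step_sound _ 65 [rhb4797a1c7ead2d88, (rhffd04209dc8ea796.shift 0 2)] (by decide +kernel))
noncomputable def rh00794e6bbd02e3ae : CRef := CRef.mk (Pat.mk 0x8000000180000000e0000000400000000000000000000000000000000 0x60000001f0000001f0000000e0000003c000000080000001c0000001c00000014 8 6) 0 0 (step_sound _ 131 [(rh000637b5a81e86aa.shift 2 2), (rh14de69240a9eb4a9.shift 1 0), (rh7a0689dcfeca7b5f.shift 0 4), (rh7b56876222bf9c8a.shift 0 3), (rhe8826dab31f3e5a9.shift 2 0)] (by decide +kernel))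
noncomputable def rhce9232f63fe77619 : CRef := CRef.mk (Pat.mk 0x8000000080000001800000030000000000000000000000000 0x40000000c0000000f0000001f0000003f0000000e0000000c0000000c 8 6) 0 0 (step_sound _ 129 [rh8db695cf3349212e, (rhab22b5b56e7b3243.shift 1 3)] (by decide +kernel))
noncomputable def rhe11ed297f19634bd : CRef := CRef.mk (Pat.mk 0x20000000200000003000000030 0x5f0000007e0000003e0000003000000030 8 7) 0 0 (step_sound _ 100 [(rh50fbb5868c909700.shift 4 0), rhefeb60103a7845a9] (by decide +kernel))
noncomputable def rhfb69de277c851520 : CRef := CRef.mk (Pat.mk 0x100000001c00000030000000000000000000000000 0xc0000000c0000001c0000001c0000003f0000001f0000001c0000000c 8 6) 0 0 (step_sound _ 163 [(rh3cb04db3dd2b6a55.shift 3 1), rhb3cf1a42181f2319, (rhcc8ae2cac0a2d054.shift 1 1), (rhfc7c29d8e65d775f.shift 3 2)] (by decide +kernel))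
noncomputable def rhe145bdbd45fce79b : CRef := CRef.mk (Pat.mk 0x8000000080000000c 0x140000001c0000001f0000003f0000003f0000000c0000000c 8 6) 0 0 (step_sound _ 99 [rh26de692f03d4cb57, (rh9a369cb82ea472da.shift 2 0), (rh9fb9dc683e09b5f3.shift 2 0), (rha54302d5ccf5246c.shift 2 0), (rhc85cc95794737cf7.shift 2 0)] (by decide +kernel))
noncomputable def rh7ecadda0695945eb : CRef := CRef.mk (Pat.mk 0x180000009000000018000000000000000000000000 0xc0000001e000000f40000001e0000001f0000000a00000008 8 8) 0 0 (step_sound _ 133 [(rh2fe78cc5ca4405d8.shift 3 4), rhe6c37a9d815abc1e] (by decide +kernel))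
noncomputable def rh9230b156ff49db95 : CRef := CRef.mk (Pat.mk 0x1c00000018000000180000001800000000 0x230000003f0000001b0000001f0000001f00000004 8 6) 0 0 (step_sound _ 129 [rhac3dded86da619a4, (rhb739f4f82bb681b4.shift 0 3)] (by decide +kernel))
noncomputable def rh10d6e428fce92817 : CRef := CRef.mk (Pat.mk 0x1800000018000000080000000000000000 0x70000007f0000001e0000000c0000000c0000000c 8 7) 0 0 (step_sound _ 35 [rh36f871eae198a85d, (rh71222050f2c63a3a.shift 3 0)] (by decide +kernel))
noncomputable def rhb3fcf67e43c586ff : CRef := CRef.mk (Pat.mk 0x80000001800000018000000300000000000000000 0x60000000f0000001c0000001e0000003f0000000e0000000c 8 6) 0 0 (step_sound _ 98 [(rhb739f4f82bb681b4.shift 1 2), rhfd1244b5f942cbaf] (by decide +kernel))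
noncomputable def rhed003e2aeeb6e295 : CRef := CRef.mk (Pat.mk 0x3800000018000000800000000000000000 0x80000000800000008000000380000001f000000ff0000001c0000001c 8 8) 0 0 (step_sound _ 163 [(rh3af54b5f78790764.shift 1 2), (rh70e33bfdf511e144.shift 3 0), rhdfe91081415a753c] (by decide +kernel))
noncomputable def rh37bdffde165f321d : CRef := CRef.mk (Pat.mk 0x9800000018000000800000000000000000 0x1c0000003c0000000f000000f80000001f000000ff0000001c0000001c 8 8) 0 0 (step_sound _ 163 [(rh28152048bc8b598f.shift 0 2), (rh53e00373d4310763.shift 1 2), (rh70e33bfdf511e144.shift 3 0), rhdfe91081415a753c] (by decide +kernel))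
noncomputable def rh966c3ea23245b2ce : CRef := CRef.mk (Pat.mk 0x9800000018000000000000000000000000 0x140000001c0000003c0000000f000000fc000000180000001c0000001c00000014 8 8) 0 0 (step_sound _ 133 [rh24d4d4a7690d5fea, (rh361cc68994bd8a63.shift 3 3)] (by decide +kernel))
noncomputable def rh160305803deb2a0e : CRef := CRef.mk (Pat.mk 0x8000000480000000c00000000 0x140000001c0000001c0000003c0000000f0000007c0000000f00000008 8 7) 0 0 (step_sound _ 68 [(rh361cc68994bd8a63.shift 2 1), rh56df600adb90bf68] (by decide +kernel))
noncomputable def rh45461180feb6e135 : CRef := CRef.mk (Pat.mk 0x80000004c0000000c00000000 0x16000000370000003f0000007e0000000f00000002 8 7) 0 0 (step_sound _ 68 [(rh361cc68994bd8a63.shift 2 1), rh441c13cef3a571ea] (by decide +kernel))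
noncomputable def rhc02baa3f181a70b4 : CRef := CRef.mk (Pat.mk 0x300000001a000000080000000000000000 0xc0000000c0000006c0000003f0000001b0000001c0000001c0000001c 8 7) 0 0 (step_sound _ 35 [(rh71222050f2c63a3a.shift 3 0), rhe4cc6393f3c23c99] (by decide +kernel))
noncomputable def rh43083b39eec69134 : CRef := CRef.mk (Pat.mk 0x180000000c0000000400000000000000000000000000000000 0x100000003f0000001f0000001c0000000c0000000c000000080000001c0000001c00000014 8 6) 0 0 (step_sound _ 227 [(rh5c5e593799055d58.shift 2 4), rhde33a10a407e655a] (by decide +kernel))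
noncomputable def rhba7c59832a4ff493 : CRef := CRef.mk (Pat.mk 0x8000000880000001800000030000000000000000000000000 0xf40000007c000000df0000001e00000038000000280000000800000008 8 8) 0 0 (step_sound _ 130 [rh6133faec8f9b0103, (rhb739f4f82bb681b4.shift 1 3)] (by decide +kernel))
noncomputable def rhbdafb3d85b369369 : CRef := CRef.mk (Pat.mk 0xc0000000c0000001800000000 0x1f0000001f0000003b0000000e0000000c0000001800000010 8 6) 0 0 (step_sound _ 131 [(rh55afc6a59410cf00.shift 3 0), (rhba63d255a8bbea6f.shift 0 2)] (by decide +kernel))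
noncomputable def rhb5e03d30b20f24e2 : CRef := CRef.mk (Pat.mk 0x40000000c00000018000000000000000000000000 0x1e0000003e0000000f0000000c0000001c000000160000000600000006 8 6) 0 0 (step_sound _ 194 [(rh2145e1d24b96a57e.shift 2 3), rh3c4a6ce6652bd85b] (by decide +kernel))
noncomputable def rh959688b6cf706288 : CRef := CRef.mk (Pat.mk 0x80000001c0000003000000010000000000000000000000000 0x20000001f0000001c0000003f0000001f0000000f0000000e00000008 8 6) 0 0 (step_sound _ 99 [(rh4d681855812c288b.shift 0 1), (rhb9c383b3f0d7f2d9.shift 0 2), (rhebbf0f79de50f641.shift 1 2), (rhfafeb437ceb8396d.shift 3 0)] (by decide +kernel))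
noncomputable def rh41a1122184bcdc64 : CRef := CRef.mk (Pat.mk 0x8800000018000000300000000000000000 0xfc0000007c000000df000000180000003c0000006c00000004 8 8) 0 0 (step_sound _ 163 [(rh2145e1d24b96a57e.shift 3 2), rhabf404dcde258f31] (by decide +kernel))
noncomputable def rh08b8aef564a7c69c : CRef := CRef.mk (Pat.mk 0x1c0000003c0000000000000000 0x1e0000001f0000001c0000003c0000006e00000008 8 7) 0 0 (step_sound _ 37 [rh172ed5ec80c11d8c, (rhe25b0a99195a5d59.shift 2 1)] (by decide +kernel))
noncomputable def rh0601ebff20167fbd : CRef := CRef.mk (Pat.mk 0x180000009800000000000000000000000000000000 0x1c0000001c0000001f0000001f000000f8000000080000001c0000001c00000014 8 8) 0 0 (step_sound _ 99 [(rh84d1c02a8954c6a8.shift 3 2), (rhd8b043fc3420d8cd.shift 1 1), (rhdd228d7495546ede.shift 0 3), (rhea7a1800d6f053bd.shift 3 1), (rhffb8e5993241bf15.shift 2 0)] (by decide +kernel))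
noncomputable def rhf082acb7e91ee90a : CRef := CRef.mk (Pat.mk 0x18000000980000000000000000 0x20000000380000003c0000001c0000001c00000018000000fc0000002f0000000c 8 8) 0 0 (step_sound _ 69 [(rh2fe78cc5ca4405d8.shift 3 2), rh806ebeff7d7374dd] (by decide +kernel))
noncomputable def rhbf63a9a4e020b9e3 : CRef := CRef.mk (Pat.mk 0x800000018000000080000000800000000 0x170000001f0000001e0000000f0000000c00000004 8 5) 0 0 (step_sound _ 132 [rh10caf0c599b88049, (rh2f68792b6b779e96.shift 3 1)] (by decide +kernel))
noncomputable def rhd092811bc747ec2d : CRef := CRef.mk (Pat.mk 0xc0000004c000000000000000000000000 0x800000008000000080000000f0000007f0000003c0000001c0000001c 8 7) 0 0 (step_sound _ 100 [(rh2fe78cc5ca4405d8.shift 2 3), rh563186a524acb4a4] (by decide +kernel))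
noncomputable def rh0ba91d29d11884ed : CRef := CRef.mk (Pat.mk 0x400000004c0000004c000000040000000000000000 0x8000000480000006c0000007c0000003f0000007800000038 8 7) 0 0 (step_sound _ 101 [(rh5419adcd928dba20.shift 2 3), rhfda3dc31c1fd0612] (by decide +kernel))
noncomputable def rh8296ee936f711373 : CRef := CRef.mk (Pat.mk 0x400000004e0000004c000000040000000000000000 0x8000000480000006e0000007c0000003f0000007800000038 8 7) 0 0 (step_sound _ 101 [(rh2fe78cc5ca4405d8.shift 1 3), rhfda3dc31c1fd0612] (by decide +kernel))
noncomputable def rhc6b17a136fb65659 : CRef := CRef.mk (Pat.mk 0x1e0000001800000008000000000000000000000000 0x4000000070000001e0000001b0000000f000000070000000700000005 8 5) 0 0 (step_sound _ 129 [rh2ad5b247aee95739, (rheb0810cc63b001d8.shift 0 4)] (by decide +kernel))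
noncomputable def rhf7491f15b99a6227 : CRef := CRef.mk (Pat.mk 0x1800000018000000100000000800000000 0x170000001f0000001c0000003c0000000f00000004 8 6) 0 0 (step_sound _ 67 [(rh5c5e593799055d58.shift 3 1), rhc29aedc95e7761c8] (by decide +kernel))
noncomputable def rh77f0c98dc9b6febd : CRef := CRef.mk (Pat.mk 0x180000001800000010000000000000000000000000 0x10000000140000001f0000001f000000780000002c0000000c00000004 8 7) 0 0 (step_sound _ 99 [(rh84d1c02a8954c6a8.shift 3 2), (rh941ec8a88442757d.shift 0 1), (rhc355bcc39d2b9dce.shift 1 2), (rhd8480aedf4075c15.shift 2 0)] (by decide +kernel))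
noncomputable def rh64d81e43c99da735 : CRef := CRef.mk (Pat.mk 0x80000000c000000480000000000000000 0x180000001c0000003c0000000f0000000f0000007c0000000800000008 8 7) 0 0 (step_sound _ 68 [(rh2fe78cc5ca4405d8.shift 2 2), rh6121012648d706fb] (by decide +kernel))
noncomputable def rh76176f1787543b6a : CRef := CRef.mk (Pat.mk 0x1e00000010000000100000001000000000 0x4000000070000001e000000130000001f0000003700000025 8 6) 0 0 (step_sound _ 37 [rh1bbe87e2a59c9ff5, (rh55afc6a59410cf00.shift 4 0)] (by decide +kernel))
noncomputable def rhbf4b5b5642ab6879 : CRef := CRef.mk (Pat.mk 0x1c0000001c000000300000001000000000 0x600000006000000060000001c0000001c0000003f0000007700000026 8 7) 0 0 (step_sound _ 37 [(rh55afc6a59410cf00.shift 4 0), rhce0e3321b8d65e61] (by decide +kernel))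
noncomputable def rh5b31ef0438c74f80 : CRef := CRef.mk (Pat.mk 0x1800000030000000600000000000000000 0xc0000000c0000000c0000001e0000003c0000007f0000000c0000000c 8 7) 0 0 (step_sound _ 99 [(rhb739f4f82bb681b4.shift 2 2), rhc760802b631e17f0] (by decide +kernel))
noncomputable def rhaed8330d4f691f6f : CRef := CRef.mk (Pat.mk 0x1c00000018000000000000000000000000 0x140000001f0000001f0000001c0000001c0000000c0000000c00000008 8 5) 0 0 (step_sound _ 67 [(rh261f868a429ae0e3.shift 2 1), (rh40241bd608e5be1a.shift 2 0), (rhe1b103d69743c636.shift 0 1), (rhea7a1800d6f053bd.shift 3 0)] (by decide +kernel))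
noncomputable def rh872a2f96c251e61f : CRef := CRef.mk (Pat.mk 0x2000000100000000380000003000000000 0x4000001ff000000fe0000019f000000380000003e00000024 8 9) 0 0 (step_sound _ 132 [rh714fb4f7a93a268e, (rh85e0f5cc78e9cbe0.shift 4 0), (rhd727bb41309b6841.shift 4 1), (rhda6cc5da102e1723.shift 4 0)] (by decide +kernel))
noncomputable def rhd29a6049a581a13e : CRef := CRef.mk (Pat.mk 0x1800000038000000000000000000000000 0xc0000000c0000000f0000001e000000380000001f0000000c0000000c 8 6) 0 0 (step_sound _ 130 [(rhb739f4f82bb681b4.shift 1 3), rhd454d9c1f992fd76] (by decide +kernel))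
noncomputable def rhcb7fdf67e43f20d0 : CRef := CRef.mk (Pat.mk 0x3000000018000000880000000800000000 0x80000000800000028000000380000001e000000df0000007c000000f4 8 8) 0 0 (step_sound _ 98 [(rh53b3c253cb0c65f4.shift 1 3), rhb5a09ed44a7471a5] (by decide +kernel))
noncomputable def rh9ed269deb495bfb0 : CRef := CRef.mk (Pat.mk 0x180000000c0000000c000000000000000000000000 0x10000000180000000c0000000e0000003b0000001f0000001f 8 6) 0 0 (step_sound _ 67 [(rh2f68792b6b779e96.shift 3 2), rhdfb85d8e685264b4] (by decide +kernel))
noncomputable def rhe3d27a7125b6c3e4 : CRef := CRef.mk (Pat.mk 0x180000000c000000040000000000000000 0x600000006000000160000001c0000000c0000000f0000003e0000001e 8 6) 0 0 (step_sound _ 34 [(rh71222050f2c63a3a.shift 2 0), rh775ffdb06044a4df] (by decide +kernel))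
noncomputable def rh3fb24f959eadd9f6 : CRef := CRef.mk (Pat.mk 0x10000000300000001c0000000800000000 0x80000000e0000000f0000001f0000003f0000001c0000001f00000002 8 6) 0 0 (step_sound _ 131 [(rh2affbbf66a313b7d.shift 0 1), rh2de1ac2dd8f67323, (rh3cb659a608caaffd.shift 1 1), (rhf9a6286f1d5377a2.shift 3 1)] (by decide +kernel))
noncomputable def rhc3afe52b4a9b0729 : CRef := CRef.mk (Pat.mk 0x3000000018000000880000000000000000 0x40000006c0000003c00000018000000df0000007c000000fc 8 8) 0 0 (step_sound _ 35 [(rh71222050f2c63a3a.shift 3 0), rhd8539c57a05dfa2a] (by decide +kernel))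
noncomputable def rhf2a7b7edf1bbb817 : CRef := CRef.mk (Pat.mk 0x3c0000001c0000000000000000 0x80000006e0000003c0000001c0000001f0000001e 8 7) 0 0 (step_sound _ 133 [(rh33e738c4ed385b9f.shift 2 3), rh3eff4bbc7b8d6081] (by decide +kernel))
noncomputable def rh8eb33a80b485f32d : CRef := CRef.mk (Pat.mk 0x9800000018000000000000000000000000 0x140000001c0000001c00000008000000f80000001f0000001f0000001c0000001c 8 8) 0 0 (step_sound _ 163 [(rh14e0829dc73b6804.shift 2 2), (rh3e595262c1b737ad.shift 3 2), rh409d31dfc7a45237, (rh53e00373d4310763.shift 1 2), (rh55a1f6c57a317ce6.shift 3 1)] (by decide +kernel))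
noncomputable def rh242cbd474342afdf : CRef := CRef.mk (Pat.mk 0x98000000180000000000000000000000000000000000000000 0xc0000002f000000fc000000180000001c0000001c0000003c0000003800000020 8 8) 0 0 (step_sound _ 197 [(rh361cc68994bd8a63.shift 3 5), rh3b0397c76d601574] (by decide +kernel))
noncomputable def rh0bc31c456da4ae1b : CRef := CRef.mk (Pat.mk 0x800000008000000180000000800000000 0x40000000c0000000f0000001e0000001f00000017 8 5) 0 0 (step_sound _ 36 [(rh55afc6a59410cf00.shift 3 0), rhbac7775403877014] (by decide +kernel))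
noncomputable def rhc3bc818ef055f509 : CRef := CRef.mk (Pat.mk 0x4c0000000c000000000000000000000000 0x1c0000001c0000003c0000007f0000000f000000080000000800000008 8 7) 0 0 (step_sound _ 132 [(rh361cc68994bd8a63.shift 2 3), rh95d3f48b4da68fc9] (by decide +kernel))
noncomputable def rhba8869081440dc58 : CRef := CRef.mk (Pat.mk 0x40000004c0000004c0000004000000000 0x38000000780000003f0000007c0000006c0000004800000008 8 7) 0 0 (step_sound _ 101 [(rhb2a0b9ccfb5cecd5.shift 2 2), rhdac4f212680a31af] (by decide +kernel))
noncomputable def rhe32fe32ea832a12e : CRef := CRef.mk (Pat.mk 0x40000004c0000004e0000004000000000 0x38000000780000003f0000007c0000006e0000004800000008 8 7) 0 0 (step_sound _ 101 [(rh361cc68994bd8a63.shift 1 2), rhdac4f212680a31af] (by decide +kernel))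
noncomputable def rh2bd54d05d99623a2 : CRef := CRef.mk (Pat.mk 0x8000000180000001e0000000000000000 0x500000007000000070000000f0000001b0000001e0000000700000004 8 5) 0 0 (step_sound _ 97 [(rh3244c3cc8379b070.shift 0 2), rh48a15509d2117973] (by decide +kernel))
noncomputable def rh248387735c33fadb : CRef := CRef.mk (Pat.mk 0x800000010000000180000001800000000 0x40000000f0000003c0000001c0000001f00000017 8 6) 0 0 (step_sound _ 99 [rh3c20ade7adc86131, (rh7b1f1fb55310c477.shift 3 0)] (by decide +kernel))
noncomputable def rh4a445c3657611769 : CRef := CRef.mk (Pat.mk 0x1000000018000000180000000000000000 0x40000000c0000002c000000780000001f0000001f0000001400000010 8 7) 0 0 (step_sound _ 131 [(rh55a1f6c57a317ce6.shift 3 0), (rh677e6fbb651585de.shift 1 0), (rhc7469040363f06d7.shift 0 1), (rhe380c42df720a63d.shift 2 1)] (by decide +kernel))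
noncomputable def rhc37c27b8316f4fd0 : CRef := CRef.mk (Pat.mk 0x480000000c00000008000000000000000000000000 0x8000000080000007c0000000f0000000f0000003c0000001c00000018 8 7) 0 0 (step_sound _ 164 [(rh361cc68994bd8a63.shift 2 4), rhdf5100fe8cc088fd] (by decide +kernel))
noncomputable def rh07a0b96e4b6960a9 : CRef := CRef.mk (Pat.mk 0x1000000010000000100000001e0000000000000000 0x25000000370000001f000000130000001e0000000700000004 8 6) 0 0 (step_sound _ 165 [(rh2f68792b6b779e96.shift 4 2), rhabdbc393d546be11] (by decide +kernel))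
noncomputable def rh869fde8b75eeeecb : CRef := CRef.mk (Pat.mk 0x10000000300000001c0000001c000000000000000000000000 0x26000000770000003f0000001c0000001c000000060000000600000006 8 7) 0 0 (step_sound _ 197 [rh2a1b1cb9fedfb244, (rh2f68792b6b779e96.shift 4 3)] (by decide +kernel))
noncomputable def rhc06aaa0134469ce0 : CRef := CRef.mk (Pat.mk 0x600000003000000018000000000000000000000000 0xc0000000c0000007f0000003c0000001e0000000c0000000c0000000c 8 7) 0 0 (step_sound _ 131 [rh229a23df591ff6e6, (rh53b3c253cb0c65f4.shift 2 4)] (by decide +kernel))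
noncomputable def rhf738d324b96c896c : CRef := CRef.mk (Pat.mk 0x180000001c000000000000000000000000 0x80000000c0000000c0000001c0000001c0000001f0000001f00000014 8 5) 0 0 (step_sound _ 163 [(rh37d9ceebb86d75d1.shift 2 2), (rh3e595262c1b737ad.shift 3 2), (rhde10baa3043a2b46.shift 2 2), rhfee86ab23a573a0d] (by decide +kernel))
noncomputable def rhd903513057233b8e : CRef := CRef.mk (Pat.mk 0x300000003800000100000000200000000000000000 0x240000003e000000380000019f000000fe000001ff00000004 8 9) 0 0 (step_sound _ 68 [(rh2c7fc7a7cc8a47be.shift 4 1), (rh807d78fa6ca78542.shift 4 1), (rh8556ce617a451e36.shift 4 1), rhc617f6444579c950] (by decide +kernel))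
noncomputable def rhe47e8eed47870ef2 : CRef := CRef.mk (Pat.mk 0x3800000018000000000000000000000000 0xc0000000c0000001f000000380000001e0000000f0000000c0000000c 8 6) 0 0 (step_sound _ 98 [rh0a0584dc96f7c367, (rh53b3c253cb0c65f4.shift 1 3)] (by decide +kernel))
noncomputable def rha0b68b90090a22a8 : CRef := CRef.mk (Pat.mk 0x100000001300000012000000020000000000000000 0x500000007000000070000001e0000001b0000001f0000000f0000000900000008 8 5) 0 0 (step_sound _ 99 [(rh5419adcd928dba20.shift 0 3), rhd6cae3a89ed7fe10] (by decide +kernel))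
noncomputable def rh6b23697e3f4667e7 : CRef := CRef.mk (Pat.mk 0x1000000013000000120000000200000000 0x50000000f0000000f0000000f0000001f0000001b000000130000000300000001 8 5) 0 0 (step_sound _ 129 [(rh04e571695666b5c1.shift 0 1), rh1726a00b0a8befd0, (rh79bf920132cab629.shift 0 1), (rha8dae4a6283fcb12.shift 0 2)] (by decide +kernel))
noncomputable def rh2d4fe43f53412df5 : CRef := CRef.mk (Pat.mk 0x10000000030000001000000002000000000000000000000000 0x500000007000000070000001f000000030000001f00000006000000060000000600000004 8 5) 0 0 (step_sound _ 129 [(rhb1a251d9bff81766.shift 0 2), rhd1779d7de7f8215b, (rhd65e234e33e3a1b6.shift 0 2)] (by decide +kernel))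
noncomputable def rhf9478b3a573bdbe9 : CRef := CRef.mk (Pat.mk 0x10000000130000001a000000020000000000000000 0x500000007000000070000001e0000001b0000001b0000000b0000001f0000000e 8 5) 0 0 (step_sound _ 161 [(rh04e571695666b5c1.shift 0 2), (rh1726a00b0a8befd0.shift 0 1), rhb4797a1c7ead2d88] (by decide +kernel))
noncomputable def rhfa0c806ef3217d05 : CRef := CRef.mk (Pat.mk 0x10000000030000001000000002000000000000000000000000 0x500000007000000070000001f000000030000001e00000006000000070000000700000005 8 5) 0 0 (step_sound _ 129 [rh0a6888916bcef86b, (rhb1a251d9bff81766.shift 0 2), (rhd65e234e33e3a1b6.shift 0 2)] (by decide +kernel))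
noncomputable def rh3c489c4dae8d13f6 : CRef := CRef.mk (Pat.mk 0x60000000000000006000000000000000000000000 0x5000000070000000700000006000000060000000300000007000000070000000700000005 8 3) 0 0 (step_sound _ 129 [(rh215e11e099257d75.shift 1 2), (rh70e33bfdf511e144.shift 1 0), (rhcd6f12620c36a682.shift 0 2), rhffb8e5993241bf15] (by decide +kernel))
noncomputable def rhe0eb21830d325c7f : CRef := CRef.mk (Pat.mk 0x3000000030000000100000003000000000 0xe0000003e000000380000001f0000007c00000008 8 7) 0 0 (step_sound _ 131 [(rh50fbb5868c909700.shift 3 1), rh9d73e8b02b9a8e27] (by decide +kernel))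
noncomputable def rh4e135e28bb1b8e89 : CRef := CRef.mk (Pat.mk 0x800000008000000180000000800000000 0x8000000080000001f000000ff000000f4 8 8) 0 0 (step_sound _ 36 [(rh55afc6a59410cf00.shift 3 0), rh81ff32de2979b8ba] (by decide +kernel))
noncomputable def rhe430aea55fcd0fbe : CRef := CRef.mk (Pat.mk 0x1e00000002000000000000000000000000 0x4000000070000001e0000003e0000000f0000000700000005 8 6) 0 0 (step_sound _ 161 [(rh3244c3cc8379b070.shift 0 4), rha7a0a847d8d4d77d] (by decide +kernel))
noncomputable def rh53a1e84b78019883 : CRef := CRef.mk (Pat.mk 0x300000006000000020000000000000000000000000 0x1000000010000000180000003c0000007e000000fc000000df0000005c00000014 8 8) 0 0 (step_sound _ 163 [(rhb739f4f82bb681b4.shift 2 4), rhf76f581d29a7b79e] (by decide +kernel))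
noncomputable def rh37deb14b1487b038 : CRef := CRef.mk (Pat.mk 0x400000000c0000004800000008000000000000000000000000 0x10000000780000000f0000007c0000000c0000001c0000001c00000010 8 7) 0 0 (step_sound _ 132 [(rh2fe78cc5ca4405d8.shift 2 4), rhd02cd602fd950687] (by decide +kernel))
noncomputable def rh69a97230b3fe4455 : CRef := CRef.mk (Pat.mk 0x80000000180000000000000018000000000000000000000000 0x40000001c000000ff0000001f0000000f0000003c0000001c0000001800000010 8 8) 0 0 (step_sound _ 131 [(rh4f9803e0f496cc8a.shift 0 2), (rh70e33bfdf511e144.shift 3 0), (rhbc848e7a23a64cbe.shift 0 2), (rhf849c8472bff4b9d.shift 2 0)] (by decide +kernel))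
noncomputable def rh03f40eb6af3261a1 : CRef := CRef.mk (Pat.mk 0x80000000180000000000000018000000000000000000000000 0x14000000ff0000001f000000080000007c0000001f0000001400000010 8 8) 0 0 (step_sound _ 131 [(rh65a4716999eb180c.shift 0 1), (rh70e33bfdf511e144.shift 3 0), (rhbc848e7a23a64cbe.shift 0 2)] (by decide +kernel))
noncomputable def rh14162504cfbd6827 : CRef := CRef.mk (Pat.mk 0x8000000018000000000000001800000000000000000000000000000000 0x14000000ff0000001f0000000c0000001c000000180000001c0000001c00000014 8 8) 0 0 (step_sound _ 163 [(rh4a68914b8a155f3e.shift 2 0), (rh70e33bfdf511e144.shift 3 1), (rhbc848e7a23a64cbe.shift 0 3)] (by decide +kernel))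
noncomputable def rha572239b5d9c2e69 : CRef := CRef.mk (Pat.mk 0x80000000180000000000000018000000000000000000000000 0x14000000ff0000001f0000000c000000180000001c0000001c00000014 8 8) 0 0 (step_sound _ 131 [(rh70e33bfdf511e144.shift 3 0), (rhbc848e7a23a64cbe.shift 0 2), (rhd8480aedf4075c15.shift 2 0)] (by decide +kernel))
noncomputable def rh3fd626a71f279ab5 : CRef := CRef.mk (Pat.mk 0x8000000018000000000000001800000000000000000000000000000000 0x40000001c000000ff0000001f0000000f0000007c0000000f0000001c0000001c00000014 8 8) 0 0 (step_sound _ 163 [(rh4a68914b8a155f3e.shift 2 0), (rh4f9803e0f496cc8a.shift 0 3), (rh65a4716999eb180c.shift 0 2), (rh728fb0f814e06178.shift 0 1), (rhd8480aedf4075c15.shift 2 1)] (by decide +kernel))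
noncomputable def rhbb8902779543614b : CRef := CRef.mk (Pat.mk 0x1e00000000000000000000000000000000 0x4000000070000001e0000003f0000000f0000000700000005 8 6) 0 0 (step_sound _ 97 [rh9a4d3b8eb9b70c80, (rheb0810cc63b001d8.shift 0 3)] (by decide +kernel))
noncomputable def rh9d9972562b396778 : CRef := CRef.mk (Pat.mk 0x80000000180000008000000018000000000000000000000000 0x40000001c000000ff0000001f000001ef0000007e000000770000000400000004 8 9) 0 0 (step_sound _ 131 [(rh4f9803e0f496cc8a.shift 0 2), rhb740cefa1088d8c7, (rhbc848e7a23a64cbe.shift 0 2), (rhe380c42df720a63d.shift 2 2)] (by decide +kernel))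
noncomputable def rhd14ce9892aaeb68c : CRef := CRef.mk (Pat.mk 0x200000006000000030000000000000000000000000 0x140000005c000000df000000fc0000007e0000003c000000180000001000000010 8 8) 0 0 (step_sound _ 99 [(rh53b3c253cb0c65f4.shift 2 3), rhe3ed4de2c8902779] (by decide +kernel))
noncomputable def rh3824beb4fce50949 : CRef := CRef.mk (Pat.mk 0x8000000480000000c0000004000000000 0x100000001c0000001c0000000c0000007c0000000f0000007800000010 8 7) 0 0 (step_sound _ 100 [(rh361cc68994bd8a63.shift 2 2), rh8a4b8992e397d071] (by decide +kernel))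
noncomputable def rhb4eb3007002222b4 : CRef := CRef.mk (Pat.mk 0x180000000000000018000000800000000000000000 0x10000000180000001c0000003c0000000f0000001f000000ff0000001c00000004 8 8) 0 0 (step_sound _ 131 [(rh215e11e099257d75.shift 3 2), (rh2f96ce69fd1b37fd.shift 0 1), (rhc88eb406ccb299be.shift 2 2), rhf0b7e2ff2c1a4b20] (by decide +kernel))
noncomputable def rh84683ddf4521399b : CRef := CRef.mk (Pat.mk 0x1800000000000000180000008000000000 0x10000000140000001f0000007c000000080000001f000000ff00000014 8 8) 0 0 (step_sound _ 99 [(rh215e11e099257d75.shift 3 1), rh2f96ce69fd1b37fd, (rhe2228a62b296fa97.shift 0 1)] (by decide +kernel))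
noncomputable def rh710e580e72e0447e : CRef := CRef.mk (Pat.mk 0x1800000000000000180000008000000000 0x140000001c0000001c000000180000001c0000000c0000001f000000ff00000014 8 8) 0 0 (step_sound _ 99 [(rh215e11e099257d75.shift 3 1), (rh2eb9f452dc71df4a.shift 2 1), rh2f96ce69fd1b37fd] (by decide +kernel))
noncomputable def rhe9027b323e1a94d7 : CRef := CRef.mk (Pat.mk 0x1800000000000000180000008000000000 0x140000001c0000001c000000180000000c0000001f000000ff00000014 8 8) 0 0 (step_sound _ 99 [(rh215e11e099257d75.shift 3 1), rh2f96ce69fd1b37fd, (rhe380c42df720a63d.shift 2 1)] (by decide +kernel))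
noncomputable def rh053c2a9556e0db47 : CRef := CRef.mk (Pat.mk 0x180000000000000018000000800000000000000000 0x140000001c0000001c0000000f0000007c0000000f0000001f000000ff0000001c00000004 8 8) 0 0 (step_sound _ 131 [(rh2eb9f452dc71df4a.shift 2 2), (rh695957111d347926.shift 0 1), (rhe2228a62b296fa97.shift 0 2), (rhe380c42df720a63d.shift 2 2), rhf0b7e2ff2c1a4b20] (by decide +kernel))
noncomputable def rh41fec018d4554c23 : CRef := CRef.mk (Pat.mk 0x1e0000000000000000 0x5000000070000000f0000003f0000001e0000000700000004 8 6) 0 0 (step_sound _ 97 [(rh3244c3cc8379b070.shift 0 2), rh4cbedccfcd2893c6] (by decide +kernel))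
noncomputable def rh979d498e72008f15 : CRef := CRef.mk (Pat.mk 0x180000008000000018000000800000000000000000 0x400000004000000770000007e000001ef0000001f000000ff0000001c00000004 8 9) 0 0 (step_sound _ 131 [(rh2f96ce69fd1b37fd.shift 0 1), (rhd8480aedf4075c15.shift 2 0), rhf0b7e2ff2c1a4b20, (rhfc6bab299c41ac3e.shift 0 3)] (by decide +kernel))
noncomputable def rh12b55f8c459f18ec : CRef := CRef.mk (Pat.mk 0x20000001e0000000000000000 0x5000000070000000f0000003e0000001e0000000700000004 8 6) 0 0 (step_sound _ 33 [rha3c24a5ec57718f4, (rheb0810cc63b001d8.shift 0 1)] (by decide +kernel))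
noncomputable def rhc19f30fb82180036 : CRef := CRef.mk (Pat.mk 0x160000001400000014 0x200000003a0000003e0000003b0000001e0000001600000014 8 6) 0 0 (step_sound _ 100 [rhc7d27719f4944644, (rhc85cc95794737cf7.shift 3 0), (rhfae6d335bc204cce.shift 1 0)] (by decide +kernel))
noncomputable def rh9c6b9a0537523f69 : CRef := CRef.mk (Pat.mk 0x1000000003000000120000000000000000 0x40000000700000007000000070000001f000000030000001e0000000600000002 8 5) 0 0 (step_sound _ 66 [(rh2fe78cc5ca4405d8.shift 0 2), rh3fb5a10016ea7097] (by decide +kernel))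
noncomputable def rha18dcc8cb01229f3 : CRef := CRef.mk (Pat.mk 0x10000000130000001200000000000000000000000000000000 0x40000001f0000001b0000001e0000000f0000000f0000000f00000005 8 5) 0 0 (step_sound _ 131 [rh527c6f14336d0e7c, (rh5419adcd928dba20.shift 0 4)] (by decide +kernel))
noncomputable def rhf7fdb9666d162e22 : CRef := CRef.mk (Pat.mk 0x10000000030000000200000000000000000000000000000000 0x500000007000000070000000f0000001f000000030000000300000003000000070000000700000005 8 5) 0 0 (step_sound _ 193 [rh225e8ebb80fdf0f8, (rh387519ea8780f7e9.shift 0 2), (rh566659606c8abe04.shift 0 3), (rh6c1e14971d560b91.shift 0 3), (rhc47fe1bc6b175f77.shift 0 2)] (by decide +kernel))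
noncomputable def rha7bdfb184f334248 : CRef := CRef.mk (Pat.mk 0x120000005300000052000000000000000000000000 0xa8000000e8000000ec000000fe0000005b000000fe0000006c0000002800000008 8 8) 0 0 (step_sound _ 99 [rh31a9f32ffcc8a712, (rh5419adcd928dba20.shift 0 3)] (by decide +kernel))
noncomputable def rhe8d7fabc8b012c7b : CRef := CRef.mk (Pat.mk 0x12000000530000005800000008 0xa0000000e8000000ec000000fe0000005b000000f80000002c 8 8) 0 0 (step_sound _ 99 [(rh9d8f30e0d0dcf248.shift 2 0), (rhb2a0b9ccfb5cecd5.shift 0 2)] (by decide +kernel))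
noncomputable def rhd9dfd2071564949b : CRef := CRef.mk (Pat.mk 0x1000000030000000060000000c0000000000000000 0x80000000e0000000f0000001f00000037000000060000000f0000000b00000001 8 6) 0 0 (step_sound _ 162 [rh3d30d2c8b4b2194e, (rh71aae90b29d9e2ee.shift 1 1), (rh945049bd1097e0c5.shift 1 1), (rha7e5b30d6e5612d1.shift 1 1)] (by decide +kernel))
noncomputable def rh0eb9596e3208703b : CRef := CRef.mk (Pat.mk 0x18000000030000001200000000 0x40000000700000007000000030000001f000000030000001e00000004 8 5) 0 0 (step_sound _ 97 [rh79c8a8cfe2c792e5, (rhb2a0b9ccfb5cecd5.shift 0 2)] (by decide +kernel))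
noncomputable def rh7c34d3a7187b7bcc : CRef := CRef.mk (Pat.mk 0x2000000020000000300000000000000000000000000000000 0x500000007000000070000000700000003000000030000000300000006000000070000000700000001 8 3) 0 0 (step_sound _ 225 [rh04c04748d8e723dd, (rh1741680720c097b4.shift 0 4), (rh9a369cb82ea472da.shift 0 4), (rh9fb9dc683e09b5f3.shift 0 4), (rhe62cab2ff5ad6fe2.shift 0 4)] (by decide +kernel))
noncomputable def rh5f26444d0785c042 : CRef := CRef.mk (Pat.mk 0xb0000000a0000000a000000000000000000000000 0x50000001f0000001d0000001b0000000b0000000a0000001c0000001c00000014 8 5) 0 0 (step_sound _ 67 [(rh0beae699cdacdfe7.shift 0 2), (rh4a38b3b3b5efb383.shift 2 0), (rh6eff4158bb400f47.shift 2 0)] (by decide +kernel))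
noncomputable def rh112c116f809bddde : CRef := CRef.mk (Pat.mk 0x2000000030000001000000000000000000000000000000000 0x400000006000000060000000700000003000000030000001f00000007000000070000000700000005 8 5) 0 0 (step_sound _ 225 [(rh0c80f618bc7e666c.shift 0 2), rh27475cab30f8eb5a, (rh281c6819542c66e6.shift 0 2), (rh7a7e08304268422e.shift 0 4), (rhfafeb437ceb8396d.shift 0 2)] (by decide +kernel))
noncomputable def rh245dab86daa60af8 : CRef := CRef.mk (Pat.mk 0xa0000001a000000030000000000000000000000000000000000000000 0x40000000f0000001a000000030000000300000007000000070000000700000005 8 5) 0 0 (step_sound _ 226 [(rhb739f4f82bb681b4.shift 0 6), rhcf0f3bd774c9b84b] (by decide +kernel))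
noncomputable def rh6778ea9fdf9e6d39 : CRef := CRef.mk (Pat.mk 0xb0000000a0000000a00000008000000080000001000000000 0x50000001f0000001d0000001b0000000b0000000a00000008000000080000001800000010 8 5) 0 0 (step_sound _ 35 [(rh0beae699cdacdfe7.shift 0 3), (rh55afc6a59410cf00.shift 3 0)] (by decide +kernel))
noncomputable def rhea9d80481c911e78 : CRef := CRef.mk (Pat.mk 0x80000000b000000000000000100000000000000000000000000000000 0x140000001c0000001c000000080000001f0000001c0000001f0000001c0000001c0000001c00000004 8 5) 0 0 (step_sound _ 163 [(rh0640759f80205b45.shift 2 3), (rh574ebb91789afc68.shift 0 3), (rh6a198d064322c53a.shift 0 2), (rh92758c3412962234.shift 0 4), rhe47cbfed93d20d34] (by decide +kernel))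
noncomputable def rh219fe7e1dd43b1c8 : CRef := CRef.mk (Pat.mk 0x40000000500000005800000041000000000000000000000000 0x4000000050000000780000006f000000f8000000e800000080 8 8) 0 0 (step_sound _ 69 [(rh79877ebd3ef475dd.shift 5 2), rha3f377bfc4ee9606] (by decide +kernel))
noncomputable def rh28466a375eadb735 : CRef := CRef.mk (Pat.mk 0x4000000050000000400000000 0xa0000000e0000000e00000004000000ff0000007e000000fa 8 8) 0 0 (step_sound _ 130 [(rh20966da26a1c2ae8.shift 1 0), (rh5abfc4c9d959be03.shift 1 0), rha6078fa417d10ef7, (rhced6d86d2069808b.shift 2 0)] (by decide +kernel))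
noncomputable def rh998ec9bcbc3508a5 : CRef := CRef.mk (Pat.mk 0x1000000030000000180000000000000008 0x24000000660000007f0000003f000000180000000800000008 8 7) 0 0 (step_sound _ 99 [(rh59ef90f1a341f5f8.shift 0 2), (rh9e3edb185cc347de.shift 3 0)] (by decide +kernel))
noncomputable def rh09bd02f02f9a14da : CRef := CRef.mk (Pat.mk 0x8000000080000000c 0x140000001f0000003f0000003f0000000c0000000c 8 6) 0 0 (step_sound _ 99 [(rh1741680720c097b4.shift 2 0), (rh9a369cb82ea472da.shift 2 0), rhc5b6ec687d13b121, (rhe62cab2ff5ad6fe2.shift 2 0)] (by decide +kernel))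
noncomputable def rhc3bd74b730aa07ed : CRef := CRef.mk (Pat.mk 0x1200000003000000100000000100000000 0x500000007000000070000001e000000030000001e0000000700000005 8 5) 0 0 (step_sound _ 130 [(rh361cc68994bd8a63.shift 0 3), rhb826126e4a988313] (by decide +kernel))
noncomputable def rh0e9eba12a09adc02 : CRef := CRef.mk (Pat.mk 0x1200000003000000100000000100000000 0x500000007000000070000001e000000030000001f0000000f00000004 8 5) 0 0 (step_sound _ 130 [(rh361cc68994bd8a63.shift 0 3), rh75b56322188f6373] (by decide +kernel))
noncomputable def rhee91b0436ee0fb26 : CRef := CRef.mk (Pat.mk 0x10000000100000000000000003c00000000 0x10000000180000000ce000000fe000001c7 8 9) 0 0 (step_sound _ 66 [rh089cf11448c139f2, (rh3244c3cc8379b070.shift 1 1)] (by decide +kernel))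
noncomputable def rhb91b6a88a09d420b : CRef := CRef.mk (Pat.mk 0x80000000f0000000000000000000000000000000000000000 0x140000001c0000001c0000001c000000080000000f0000001c0000001c0000001c0000001c00000004 8 5) 0 0 (step_sound _ 131 [(rh84bfb9cf6d67624b.shift 2 0), (rhe25b0a99195a5d59.shift 0 4)] (by decide +kernel))
noncomputable def rh508104c5d0731274 : CRef := CRef.mk (Pat.mk 0x1c00000018000000080000000800000000 0x30000001f0000001b0000001f0000000f00000005 8 5) 0 0 (step_sound _ 129 [rhb666cc965902e784, (rhb739f4f82bb681b4.shift 0 3)] (by decide +kernel))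
noncomputable def rhef499c3499c8e1bd : CRef := CRef.mk (Pat.mk 0x10000000030000001a00000001000000000000000000000000 0x50000000f0000001f000000030000001b0000000f000000060000000400000004 8 5) 0 0 (step_sound _ 97 [(rh3d099b67400b5eba.shift 0 2), (rhb1a251d9bff81766.shift 0 2), rhcfcd2037840c80a2, (rhf9a6286f1d5377a2.shift 0 2)] (by decide +kernel))
noncomputable def rhccf80a95c603969e : CRef := CRef.mk (Pat.mk 0x400000000c000000000000000c000000200000000000000000 0x180000007c0000000c0000000e0000000f0000007a0000001f0000000a 8 7) 0 0 (step_sound _ 67 [(rh1994ac8a04f3a247.shift 2 1), (rh226a323aaa2d8e76.shift 2 1), rh8c0b4eb94240a6f8, (rhdb2909ac5c854515.shift 2 2)] (by decide +kernel))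
noncomputable def rhe757a7284fc1c5ca : CRef := CRef.mk (Pat.mk 0x140000001600000002000000000000000000000000 0x280000003800000038000000140000001e0000003b0000003e0000003a00000020 8 6) 0 0 (step_sound _ 100 [(rhcaa7ba44a31c4370.shift 0 3), (rhf4347dad4576cefc.shift 1 0)] (by decide +kernel))
noncomputable def rha54756a302b8ca04 : CRef := CRef.mk (Pat.mk 0x80000000b000000080000000100000000000000000000000000000000 0x80000001f000000180000001f0000001c0000001c0000001c00000014 8 5) 0 0 (step_sound _ 131 [(rh498ac7c130e1377d.shift 0 3), (rh6eff4158bb400f47.shift 2 2), rh70e513e6aaa4848c] (by decide +kernel))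
noncomputable def rh8c53cd00250235a8 : CRef := CRef.mk (Pat.mk 0x1c00000018000000080000000800000000 0x30000001f0000001b0000000f0000001f00000014 8 5) 0 0 (step_sound _ 129 [rh26fc789329d7c4b0, (rhb739f4f82bb681b4.shift 0 3)] (by decide +kernel))
noncomputable def rhd08020fd32db6f15 : CRef := CRef.mk (Pat.mk 0x200000002000000020000000000000000000000000 0x1000000030000000300000002000000030000001fe000001fe0000005f00000040 8 9) 0 0 (step_sound _ 70 [(rh0f3bd9f59743e30c.shift 0 1), (rh2977b00063528966.shift 5 0), (rhaf349dd7709502bf.shift 4 2), (rhfa80626feb4e9cb5.shift 2 1)] (by decide +kernel))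
noncomputable def rhcd8abf348d670e57 : CRef := CRef.mk (Pat.mk 0x4000000000000000c000000200000000000000000 0x400000004000000060000000f0000007e0000001f0000000a 8 7) 0 0 (step_sound _ 67 [(rh0588d2c7f2cab5e9.shift 2 0), rh2e609392e202475a, (rh8c25cb665ab79ec0.shift 0 2)] (by decide +kernel))
noncomputable def rhf25fd84660e6ca78 : CRef := CRef.mk (Pat.mk 0x140000001600000002000000000000000000000000 0x280000003800000038000000140000001e0000003b0000003e0000003a00000020 8 6) 0 0 (step_sound _ 100 [(rh92758c3412962234.shift 1 2), (rhcaa7ba44a31c4370.shift 0 3), (rhf4347dad4576cefc.shift 1 0)] (by decide +kernel))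
noncomputable def rh7210c5738948ad11 : CRef := CRef.mk (Pat.mk 0x400000004000000050000000400000000 0x80000000c00000004000000ff0000007e000000f8 8 8) 0 0 (step_sound _ 35 [(rh55afc6a59410cf00.shift 2 0), rhdc2fb49eef31a9fb] (by decide +kernel))
noncomputable def rh4b6d1f1dbed377ad : CRef := CRef.mk (Pat.mk 0x50000000530000005000000041000000000000000000000000 0x5000000070000005f000000530000007e000000ef0000007f0000002f00000005 8 8) 0 0 (step_sound _ 131 [(rh03ba50a68dc25bae.shift 0 1), rha2792ba678e3dcd1, (rhbf5d9e90d56c2a5f.shift 1 3), (rhc10977e2d5b1bf53.shift 0 3)] (by decide +kernel))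
noncomputable def rh6b97811909dabb93 : CRef := CRef.mk (Pat.mk 0x1400000016000000100000001000000000 0x1400000016000000fa000000fe000001ef 8 9) 0 0 (step_sound _ 35 [(rh932754581e0f4330.shift 3 0), rhdd1a89908ba862f8] (by decide +kernel))
noncomputable def rh3c1bfe158ed8b439 : CRef := CRef.mk (Pat.mk 0x80000000a000000080000000800000000000000000000000000000000 0x80000001f0000007c0000001c000000180000001c0000001c00000014 8 7) 0 0 (step_sound _ 164 [(rh174a767562f03570.shift 0 5), (rh2422930f8725375a.shift 2 0), (rh9ebd639649ea671c.shift 0 5), (rhf5becaca8d13cfd1.shift 2 0)] (by decide +kernel))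
noncomputable def rh374baecead7cd8a9 : CRef := CRef.mk (Pat.mk 0x80000000a0000000800000008000000000000000000000000 0x80000001f0000007c000000180000001c0000001c00000004 8 7) 0 0 (step_sound _ 68 [(rhd3458b32566d63f7.shift 3 2), rhe17bf4a4dbd30e04] (by decide +kernel))
noncomputable def rh74d2f5fb27c42879 : CRef := CRef.mk (Pat.mk 0x20000000200000006000000020000000000000000000000000000000000000000 0x20000000700000007000000030000000300000007000000070000000700000005 8 3) 0 0 (step_sound _ 129 [rh6b7644617a28bc5d, (rh7928877f9bf74a91.shift 0 3), (rh91a545eb3be094e3.shift 0 2), (rhffb8e5993241bf15.shift 0 1)] (by decide +kernel))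
noncomputable def rh798f66d33c0d9e26 : CRef := CRef.mk (Pat.mk 0x80000000180000000000000008000000000000000000000000 0x100000001c0000007c000000fc000000180000001f0000003c0000001c0000001c00000014 8 8) 0 0 (step_sound _ 131 [(rh215e11e099257d75.shift 3 2), (rh96d52616c08cd483.shift 0 1), (rhd2d370f5ea2dce1d.shift 0 2), (rhffb8e5993241bf15.shift 2 0)] (by decide +kernel))
noncomputable def rh6db903dfd159fe19 : CRef := CRef.mk (Pat.mk 0x200000012000000130000001200000000 0xe0000001f0000000b0000001f0000001b0000001200000002 8 5) 0 0 (step_sound _ 128 [(rh50fbb5868c909700.shift 0 1), rha3a1db0dcf83f059] (by decide +kernel))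
noncomputable def rh726fe2d8bfa746d1 : CRef := CRef.mk (Pat.mk 0x10000000130000005800000008000000000000000000000000 0x40000001f000000130000007b0000000f0000000f0000000b00000001 8 7) 0 0 (step_sound _ 67 [(rh71222050f2c63a3a.shift 3 1), rhd042ad9b7b17fe89] (by decide +kernel))
noncomputable def rhe42bb21035df5e0c : CRef := CRef.mk (Pat.mk 0xf00000000 0x1f0000000ff000001fe 8 9) 0 0 (step_sound _ 36 [rh270d453340dd4fe5, rh4ad5fc38f1b69f65, (rha866c51301bf0130.shift 1 0), (rha93a5dd541ab8209.shift 1 0)] (by decide +kernel))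
noncomputable def rhb887a0f6ae2e10fc : CRef := CRef.mk (Pat.mk 0x90000000180000008800000000000000000000000000000000 0x200000002000000030000000f80000001f000000ff000000170000003c0000003c00000028 8 8) 0 0 (step_sound _ 197 [(rh361cc68994bd8a63.shift 3 5), rhd946052d0c2b917f] (by decide +kernel))
noncomputable def rh59116f42ceecf9df : CRef := CRef.mk (Pat.mk 0x300000001800000018000000000000000000000000 0x4000000360000007e0000001f0000000f0000000a00000002 8 7) 0 0 (step_sound _ 130 [(rh53b3c253cb0c65f4.shift 1 4), rhff9f641f02c9ce41] (by decide +kernel))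
noncomputable def rh242767287c2b6973 : CRef := CRef.mk (Pat.mk 0x600000003000000010000000080000000000000000 0xc0000000c0000007f0000003c0000001e0000000f0000003c0000001c 8 7) 0 0 (step_sound _ 131 [(rh53b3c253cb0c65f4.shift 2 4), rhc6054f72e9f4917a] (by decide +kernel))
noncomputable def rh2370132f9e74bb47 : CRef := CRef.mk (Pat.mk 0x600000003000000010000000080000000000000000 0xc0000000c0000007f0000003c0000001e0000001c0000000c0000000c 8 7) 0 0 (step_sound _ 131 [(rh53b3c253cb0c65f4.shift 2 4), rh5e8a24c02010f853] (by decide +kernel))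
noncomputable def rhb57c833171db5e3f : CRef := CRef.mk (Pat.mk 0x12000000038000000100000000800000000 0x80000000c000001ff000000380000001f0000001f00000014 8 9) 0 0 (step_sound _ 36 [(rh71222050f2c63a3a.shift 4 0), rh7dc6fa2a3b265b7e] (by decide +kernel))
noncomputable def rhab77603de2f0d7f2 : CRef := CRef.mk (Pat.mk 0x1000000018000000980000000000000000 0x40000001f0000001f000000fc0000000f0000000c 8 8) 0 0 (step_sound _ 69 [(rh2fe78cc5ca4405d8.shift 3 2), rhb4313816b942b1bb] (by decide +kernel))
noncomputable def rh47603ed4778fd1e9 : CRef := CRef.mk (Pat.mk 0x30000000180000008c00000000 0x8000000380000003800000030000000380000001f000000ff00000020 8 8) 0 0 (step_sound _ 36 [(rh01e7a5813b8e330e.shift 3 0), (rh87fb4af8316b9600.shift 0 1)] (by decide +kernel))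
noncomputable def rh649cad3ce9f40b2c : CRef := CRef.mk (Pat.mk 0x300000001c0000008c00000000 0x30000000740000003e0000001c000000ff00000023 8 8) 0 0 (step_sound _ 33 [(rh53b3c253cb0c65f4.shift 0 1), rh92c3a37ac4b015de] (by decide +kernel))
noncomputable def rhb3471bbac1bb101d : CRef := CRef.mk (Pat.mk 0x1000000090000000180000008c000000000000000000000000 0x2000000074000000fe0000001c000000ff000000270000000200000002 8 8) 0 0 (step_sound _ 100 [rh03ed53576330a40c, (rhf8edb192cdea7ada.shift 3 2)] (by decide +kernel))
noncomputable def rh02d95980aef6155e : CRef := CRef.mk (Pat.mk 0x600000003800000018000000000000000000000000 0x2c0000002c0000007f000000380000001e0000000c0000000c0000000c 8 7) 0 0 (step_sound _ 98 [(rh53b3c253cb0c65f4.shift 1 3), rh9ce5fdcabdfeca67] (by decide +kernel))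
noncomputable def rhb95dd6e3695a98da : CRef := CRef.mk (Pat.mk 0x1200000003000000018000000000000000000000000 0xc0000000c000001f80000003c0000003e0000000f0000000c00000008 8 9) 0 0 (step_sound _ 166 [(rh361cc68994bd8a63.shift 4 4), rh40fedc54f846b548] (by decide +kernel))
noncomputable def rhe9c9348ba7ea0725 : CRef := CRef.mk (Pat.mk 0x20000000600000003800000038000000000000000000000000 0x4c000000ec0000007f00000038000000380000000c0000000c0000000c 8 8) 0 0 (step_sound _ 198 [(rh2f68792b6b779e96.shift 5 3), rh78ffff805be6d489] (by decide +kernel))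
noncomputable def rhd39cbd3b68a4b04b : CRef := CRef.mk (Pat.mk 0x1000000010000000180000008e00000000 0x25000000370000001f0000001b000000fe00000027 8 8) 0 0 (step_sound _ 36 [rh6c5b90ba2a83bd67, rh7aaf0585026c93e5, rh97f2b2d2f7d0ce77, (rhf8edb192cdea7ada.shift 3 0)] (by decide +kernel))
noncomputable def rh189eabfd2aeca85e : CRef := CRef.mk (Pat.mk 0x100000001c0000008c000000000000000000000000 0x10000000100000001c0000001c000000ff000000270000000600000006 8 8) 0 0 (step_sound _ 97 [(rh53b3c253cb0c65f4.shift 0 3), rh7b0dbe165b3dc6dc] (by decide +kernel))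
noncomputable def rhaeed7d8f13066267 : CRef := CRef.mk (Pat.mk 0x90000000980000008800000008000000000000000000000000 0x20000000f8000000d8000001ff0000007e000000770000005400000010 8 9) 0 0 (step_sound _ 197 [(rh361cc68994bd8a63.shift 3 5), rhcc5f94dc782fd597] (by decide +kernel))
noncomputable def rhef80f603f505bf65 : CRef := CRef.mk (Pat.mk 0x1c00000038000000000000000000000000 0x40000001c0000003f0000007f0000007e0000007c 8 7) 0 0 (step_sound _ 67 [(rh1705b5bddb0730dc.shift 1 0), rh22f6dd0ceab27685, (rh362104532586ff12.shift 1 0), (rh40241bd608e5be1a.shift 2 0)] (by decide +kernel))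
noncomputable def rh0e53d22a031edbcb : CRef := CRef.mk (Pat.mk 0xb00000009800000088000000000000000000000000 0x400000027000000bf000000df000000f8000000780000005800000040 8 8) 0 0 (step_sound _ 67 [(rh71222050f2c63a3a.shift 3 1), rhfdc480d32b2ddaf9] (by decide +kernel))
noncomputable def rh5816797891c67f01 : CRef := CRef.mk (Pat.mk 0x3e00000008000000080000000800000000 0x630000003e0000000b0000000f0000001f00000014 8 7) 0 0 (step_sound _ 165 [rh26fc789329d7c4b0, (rh33e738c4ed385b9f.shift 2 4)] (by decide +kernel))
noncomputable def rh3f20436c3f549b15 : CRef := CRef.mk (Pat.mk 0x1c00000018000000080000000800000000 0x30000001f0000001b0000001f0000000f00000005 8 5) 0 0 (step_sound _ 129 [rh96da54ea6eb24b81, (rhb739f4f82bb681b4.shift 0 3)] (by decide +kernel))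
noncomputable def rhfe754b976f025ac1 : CRef := CRef.mk (Pat.mk 0x1000000010000000100000001000000000 0x2f0000003e0000007f0000001c0000001800000008 8 7) 0 0 (step_sound _ 131 [(rh50fbb5868c909700.shift 3 1), rhdad52172cfbe46bb] (by decide +kernel))
noncomputable def rhb4dfb04b233a0268 : CRef := CRef.mk (Pat.mk 0x10000000900000001a0000000a00000000000000000000000000000000 0x2500000037000000ff0000001b0000001e00000037000000380000003800000028 8 8) 0 0 (step_sound _ 197 [rh3278fd1eeb522a09, (rh361cc68994bd8a63.shift 3 5)] (by decide +kernel))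
noncomputable def rh5492a090f7472398 : CRef := CRef.mk (Pat.mk 0x20000001e00000000000000000000000000000000 0x50000000700000007000000060000001e00000007000000070000000700000005 8 5) 0 0 (step_sound _ 97 [rh2f511c88d9ed4437, (rheb0810cc63b001d8.shift 0 3)] (by decide +kernel))
noncomputable def rh912a6c9ba21e3185 : CRef := CRef.mk (Pat.mk 0x3000000018000000080000000000000000 0x4000000670000003f0000001e0000001c0000001c0000001c 8 7) 0 0 (step_sound _ 35 [rh1b97df9688dba0d7, (rh71222050f2c63a3a.shift 3 0)] (by decide +kernel))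
noncomputable def rhb508c6a3cfac6721 : CRef := CRef.mk (Pat.mk 0x900000001800000088000000000000000000000000 0x20000000f80000001f000000ff000000370000003400000034 8 8) 0 0 (step_sound _ 165 [rh30f282e0a6c80d35, (rh361cc68994bd8a63.shift 3 4)] (by decide +kernel))
noncomputable def rh734a2a47806d59a5 : CRef := CRef.mk (Pat.mk 0x100000000300000001400000038000000000000000000000000 0x2000000020000001f40000003c000000160000003e000000070000000200000002 8 9) 0 0 (step_sound _ 98 [(rh3244c3cc8379b070.shift 1 3), rh3f965bfa273fda86] (by decide +kernel))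
noncomputable def rhb2e5dcb21d0ddf6f : CRef := CRef.mk (Pat.mk 0x200000002000000020000000000000000000000000000000000000000 0x1000000030000000300000003000000030000000700000007000000070000000700000001 8 3) 0 0 (step_sound _ 129 [(rh565a0c22519f57e9.shift 0 3), (rh8ff3dde5b1c639e0.shift 0 2), rhce907bcfdc3c1988] (by decide +kernel))
noncomputable def rh47ec3a61bb0ba774 : CRef := CRef.mk (Pat.mk 0x80000000180000008a000000000000000000000000 0x200000003000000033000000f30000001f000000ff000000370000003400000030 8 8) 0 0 (step_sound _ 100 [(rh0bb2219927e980d0.shift 0 2), (rh16f30ea31c710a8b.shift 3 0), (rhf1cf5c2b9141cce8.shift 0 3), (rhfb48a445bef9445e.shift 0 1)] (by decide +kernel))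
noncomputable def rh464482e2b33d85ca : CRef := CRef.mk (Pat.mk 0x80000000180000008a000000000000000000000000 0x1000000030000000f800000018000000ff000000370000003000000030 8 8) 0 0 (step_sound _ 98 [rh071dff6099056fad, (rh53b3c253cb0c65f4.shift 0 3)] (by decide +kernel))
noncomputable def rhc2b7295c9a896ef4 : CRef := CRef.mk (Pat.mk 0x10000000030000000700000000000000000000000000000000 0x10000000700000007000000060000001f000000030000000700000006000000070000000700000005 8 5) 0 0 (step_sound _ 193 [rh0bbd46f3b1d34fe5, (rh571950d89739e871.shift 0 3), (rh642e50382fd7f7a3.shift 0 1), (rhcc21179e9c7abcbc.shift 0 3)] (by decide +kernel))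
noncomputable def rhb3847ae9161819c8 : CRef := CRef.mk (Pat.mk 0x1800000018000000100000000000000000 0x180000001c000000770000003e0000003f 8 7) 0 0 (step_sound _ 36 [(rh7b1f1fb55310c477.shift 3 0), rhab389758baad27be] (by decide +kernel))
noncomputable def rhe9828b39fc7aa316 : CRef := CRef.mk (Pat.mk 0x180000009a0000000000000000 0x4000000070000000f0000001f000000fe0000000700000004 8 8) 0 0 (step_sound _ 69 [(rh2fe78cc5ca4405d8.shift 3 2), rh35a0c2cfc9163e0d] (by decide +kernel))
noncomputable def rhf1292e3d9a433dd0 : CRef := CRef.mk (Pat.mk 0x1000000018000000080000000800000000 0x80000000c0000000f0000001f0000001f0000001e0000001c00000014 8 5) 0 0 (step_sound _ 131 [rh23c6c68ce68a727c, (rhbad6ff9bdc3f8001.shift 2 0), (rhea90e7358341a1a4.shift 2 0)] (by decide +kernel))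
noncomputable def rhad392d63b0aaf61a : CRef := CRef.mk (Pat.mk 0x10000000d00000001800000008000000000000000000000000 0x80000002c0000007f000000df0000001c0000001c000000340000003000000030 8 8) 0 0 (step_sound _ 195 [(rh0d53cd1e9f3102a3.shift 3 0), (rh895494d4db98bdf7.shift 0 2), (rh8a1dec1aefe40e23.shift 0 2), (rhd926a964535711f6.shift 0 2), (rhf43630dd991c80b6.shift 3 3)] (by decide +kernel))
noncomputable def rhffba4a541da5a530 : CRef := CRef.mk (Pat.mk 0x1000000013000000130000000000000000000000000 0x4000000040000011f000001be000001ff000000f8000000b8000000b0 8 9) 0 0 (step_sound _ 131 [(rh8da403d76f906cad.shift 3 0), (rhc92c11e8da6c894f.shift 0 3), (rhf411018740259958.shift 1 0)] (by decide +kernel))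
noncomputable def rhdc49ed7da409a531 : CRef := CRef.mk (Pat.mk 0x1000000013000000130000000000000000000000000 0x8000000080000011f000001be000001ff000000f6000000b6000000b0 8 9) 0 0 (step_sound _ 131 [(rh5bb78067c54b222b.shift 2 3), (rh8da403d76f906cad.shift 3 0), (rhad5d8fc3675c15dd.shift 1 3), (rhc92c11e8da6c894f.shift 0 3), (rhfb34c423822c472c.shift 1 1)] (by decide +kernel))
noncomputable def rh593bcb08a4a5db9f : CRef := CRef.mk (Pat.mk 0x3800000030000000100000000000000000 0xc0000001f000000380000003e0000007e000001ec0000006c 8 9) 0 0 (step_sound _ 69 [(rh3cb04db3dd2b6a55.shift 4 0), rhc9ce103cd31ebbb7, (rhf26139e0ddf2f31b.shift 2 0)] (by decide +kernel))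
noncomputable def rhceb8ed986c1341a7 : CRef := CRef.mk (Pat.mk 0x1c000000100000000000000000 0x50000000700000007000000070000001e000000370000000600000006 8 6) 0 0 (step_sound _ 97 [rha864593327555e86, (rhe25b0a99195a5d59.shift 1 2)] (by decide +kernel))
noncomputable def rh3f5be10fae4595bb : CRef := CRef.mk (Pat.mk 0x880000001800000090000000000000000000000000 0x280000003c0000003c00000017000000ff0000001f000000f8000000300000002000000020 8 8) 0 0 (step_sound _ 101 [rh10adcc9eabc44b37, (rh2fe78cc5ca4405d8.shift 3 3)] (by decide +kernel))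
noncomputable def rh42c52fc930a7b45d : CRef := CRef.mk (Pat.mk 0x18000000180000003000000000 0x20000000a0000000f0000001f0000007e0000003600000004 8 7) 0 0 (step_sound _ 66 [rh8a5a6ea90186a6dc, (rhb739f4f82bb681b4.shift 1 1)] (by decide +kernel))
noncomputable def rh27d885408af946a2 : CRef := CRef.mk (Pat.mk 0x80000001000000030000000600000000000000000 0x1c0000003c0000000f0000001e0000003c0000007f0000000c0000000c 8 7) 0 0 (step_sound _ 99 [rh33216de640c91506, (rhb739f4f82bb681b4.shift 2 2)] (by decide +kernel))
noncomputable def rh381d93bca1a506e4 : CRef := CRef.mk (Pat.mk 0x80000001000000030000000600000000000000000 0xc0000000c0000001c0000001e0000003c0000007f0000000c0000000c 8 7) 0 0 (step_sound _ 99 [(rhb739f4f82bb681b4.shift 2 2), rhc6bd7a4e18331601] (by decide +kernel))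
noncomputable def rhfcce6d330ab93c51 : CRef := CRef.mk (Pat.mk 0x80000001000000038000001200000000000000000 0x140000001f0000001f00000038000001ff0000000c00000008 8 9) 0 0 (step_sound _ 164 [rh0938404a1275f099, (rh2145e1d24b96a57e.shift 4 2)] (by decide +kernel))
noncomputable def rhbf3faf08f20d30dc : CRef := CRef.mk (Pat.mk 0x98000000180000001000000000 0xc0000000f000000fc0000001f0000001f00000004 8 8) 0 0 (step_sound _ 101 [(rh361cc68994bd8a63.shift 3 2), rhe4b5ce0c6c874422] (by decide +kernel))
noncomputable def rhf12ace6107562e72 : CRef := CRef.mk (Pat.mk 0x8c000000180000003000000000000000000000000000000000 0x20000000ff0000001f0000003800000030000000380000003800000008 8 8) 0 0 (step_sound _ 196 [(rh6d9172875361fe79.shift 3 0), (rhace16348de435294.shift 0 4)] (by decide +kernel))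
noncomputable def rh0244fa68b8a7406a : CRef := CRef.mk (Pat.mk 0x8c0000001c000000300000000000000000 0x23000000ff0000001c0000003e0000007400000030 8 8) 0 0 (step_sound _ 129 [rh3f31d407a442c093, (rhb739f4f82bb681b4.shift 0 3)] (by decide +kernel))
noncomputable def rh0e48a6d525548132 : CRef := CRef.mk (Pat.mk 0x8c00000018000000900000001000000000 0x20000000200000027000000ff0000001c000000fe0000007400000020 8 8) 0 0 (step_sound _ 132 [(rh04e571695666b5c1.shift 3 1), rh2426ab78476f2df5] (by decide +kernel))
noncomputable def rh2f76c9cbfdece845 : CRef := CRef.mk (Pat.mk 0x1800000038000000600000000000000000 0xc0000000c0000000c0000001e000000380000007f0000002c0000002c 8 7) 0 0 (step_sound _ 130 [rh7af0b224d989c0c2, (rhb739f4f82bb681b4.shift 1 3)] (by decide +kernel))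
noncomputable def rhc235a4c14390c0df : CRef := CRef.mk (Pat.mk 0x1800000030000001200000000000000000 0x80000000c0000000f0000003e0000003c000001f80000000c0000000c 8 9) 0 0 (step_sound _ 70 [(rh2fe78cc5ca4405d8.shift 4 2), rhf38a62f8f5e22c95] (by decide +kernel))
noncomputable def rhba91484cf1964543 : CRef := CRef.mk (Pat.mk 0x3800000038000000600000002000000000 0xc0000000c0000000c00000038000000380000007f000000ec0000004c 8 8) 0 0 (step_sound _ 38 [rh11af4eb413f30520, (rh55afc6a59410cf00.shift 5 0)] (by decide +kernel))
noncomputable def rh5174af0ecfd92fb5 : CRef := CRef.mk (Pat.mk 0x8e00000018000000100000001000000000 0x27000000fe0000001b0000001f0000003700000025 8 8) 0 0 (step_sound _ 132 [(rh04e571695666b5c1.shift 3 1), (rh17659c9d2e0466f4.shift 0 1), rh6b9ebbe3865fa35c, rh7cb4a9b5b09da590] (by decide +kernel))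
noncomputable def rh6ce3d05bb3cb8753 : CRef := CRef.mk (Pat.mk 0x8c0000001c000000100000000000000000 0x60000000600000027000000ff0000001c0000001c0000001000000010 8 8) 0 0 (step_sound _ 129 [(rhb739f4f82bb681b4.shift 0 3), rhd6bd4e1df344c440] (by decide +kernel))
noncomputable def rh364c932959ecd537 : CRef := CRef.mk (Pat.mk 0x800000088000000980000009000000000 0x1000000054000000770000007e000001ff000000d8000000f800000020 8 9) 0 0 (step_sound _ 37 [(rh2fe78cc5ca4405d8.shift 3 1), rh4191ca5507ce8b92] (by decide +kernel))
noncomputable def rh2cc863de7e36293a : CRef := CRef.mk (Pat.mk 0x380000001c00000000 0x7c0000007e0000007f0000003f0000001c00000004 8 7) 0 0 (step_sound _ 99 [(rh37d9ceebb86d75d1.shift 2 0), (rh495a39b8a06d7922.shift 1 1), (rh8fe46d04008547ec.shift 1 1), (rhb9b16228623b9b8d.shift 0 1)] (by decide +kernel))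
noncomputable def rhf4c07ab58b47d967 : CRef := CRef.mk (Pat.mk 0x8800000098000000b00000000000000000 0x400000005800000078000000f8000000df000000bf0000002700000004 8 8) 0 0 (step_sound _ 163 [(rh2145e1d24b96a57e.shift 3 2), rh62e23ba22a60e4e5] (by decide +kernel))
noncomputable def rha4f3a1639dd04c76 : CRef := CRef.mk (Pat.mk 0x800000008000000080000003e00000000 0x140000001f0000000f0000000b0000003e00000063 8 7) 0 0 (step_sound _ 5 [(rhe25b0a99195a5d59.shift 2 0), rhe788e277f4def1eb] (by decide +kernel))
noncomputable def rh30c269dd0a5f1dca : CRef := CRef.mk (Pat.mk 0x800000008000000180000001c00000000 0x50000000f0000001f0000001b0000001f00000003 8 5) 0 0 (step_sound _ 33 [rh27c39574d6b065ec, (rh53b3c253cb0c65f4.shift 0 1)] (by decide +kernel))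
noncomputable def rh1109a082d1455468 : CRef := CRef.mk (Pat.mk 0x1000000010000000100000001000000000 0x8000000180000001c0000007f0000003e0000002f 8 7) 0 0 (step_sound _ 35 [rh71d3f9b1ec257103, (rh932754581e0f4330.shift 3 0)] (by decide +kernel))
noncomputable def rhb5f8ccef2adfead0 : CRef := CRef.mk (Pat.mk 0xa0000001a000000900000001000000000 0x280000003800000038000000370000001e0000001b000000ff0000003700000025 8 8) 0 0 (step_sound _ 69 [rh2f63da6438174cc4, (rh2fe78cc5ca4405d8.shift 3 2)] (by decide +kernel))
noncomputable def rh623e465634380f59 : CRef := CRef.mk (Pat.mk 0x1e00000002000000000000000000000000 0x50000000700000007000000070000001e00000006000000070000000700000005 8 5) 0 0 (step_sound _ 161 [(rh3244c3cc8379b070.shift 0 4), rhaa0b58ab551de52c] (by decide +kernel))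
noncomputable def rh47a58a985a35773d : CRef := CRef.mk (Pat.mk 0x800000018000000300000000000000000 0x1c0000001c0000001c0000001e0000003f0000006700000004 8 7) 0 0 (step_sound _ 163 [(rh2145e1d24b96a57e.shift 3 2), rh521e822e8e52a8ac] (by decide +kernel))
noncomputable def rhb102f5944f000458 : CRef := CRef.mk (Pat.mk 0x88000000180000009000000000 0x340000003400000037000000ff0000001f000000f800000020 8 8) 0 0 (step_sound _ 37 [(rh2fe78cc5ca4405d8.shift 3 1), rh6a9b5743ffa5827c] (by decide +kernel))
noncomputable def rh3020ef2008af56eb : CRef := CRef.mk (Pat.mk 0x380000001400000030000001000000000000000000 0x200000002000000070000003e000000160000003c000001f40000002000000020 8 9) 0 0 (step_sound _ 162 [rh125426cc7196637f, (rheb0810cc63b001d8.shift 1 4)] (by decide +kernel))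
noncomputable def rh5dc8a6147c8f83be : CRef := CRef.mk (Pat.mk 0x200000002000000020000000000000000 0x1000000070000000700000007000000070000000300000003000000030000000300000001 8 3) 0 0 (step_sound _ 161 [(rh20966da26a1c2ae8.shift 0 1), (rhc949bef7ce52bf39.shift 0 1), rhfb48bea540f6436d] (by decide +kernel))
noncomputable def rhe823384f686e162c : CRef := CRef.mk (Pat.mk 0x8a0000001800000080000000000000000000000000 0x300000003400000037000000ff0000001f000000f3000000330000003000000020 8 8) 0 0 (step_sound _ 164 [(rh14ee6c800684e33b.shift 0 4), (rh7d14bdd45bfca3c1.shift 0 2), (rha8b02da4b279b3fc.shift 3 0), (rhb641ea938b9240a9.shift 0 4)] (by decide +kernel))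
noncomputable def rha4ccd487d35eb2df : CRef := CRef.mk (Pat.mk 0x8a00000018000000800000000000000000 0x300000003000000037000000ff00000018000000f80000003000000010 8 8) 0 0 (step_sound _ 130 [(rhb739f4f82bb681b4.shift 0 3), rhdfbde5b0acf1808b] (by decide +kernel))
noncomputable def rh749922d4be4b3add : CRef := CRef.mk (Pat.mk 0x7000000030000001000000000000000000000000000000000 0x500000007000000070000000600000007000000030000001f00000006000000070000000700000001 8 5) 0 0 (step_sound _ 129 [(rh1cc7c0a4374e72e9.shift 0 3), (rh4ee84d7f73540b6b.shift 0 2), (rhb0c1e7919d9be92d.shift 0 2), rhc850ef9393baf884] (by decide +kernel))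
noncomputable def rhcde25cfa3581ac09 : CRef := CRef.mk (Pat.mk 0x100000001800000018 0x3f0000003e000000770000001c00000018 8 7) 0 0 (step_sound _ 100 [rh4d33ae5f486df8f2, (rh5c5e593799055d58.shift 3 0)] (by decide +kernel))
noncomputable def rh6149dc8e4065094c : CRef := CRef.mk (Pat.mk 0x9a00000018000000000000000000000000 0x400000007000000fe0000001f0000000f0000000700000004 8 8) 0 0 (step_sound _ 133 [(rh361cc68994bd8a63.shift 3 3), rhc0f9e5bbcd71a3d2] (by decide +kernel))
noncomputable def rh86ad8d6e9d6617b0 : CRef := CRef.mk (Pat.mk 0x8000000080000001800000010000000000000000000000000 0x140000001c0000001e0000001f0000001f0000000f0000000c00000008 8 5) 0 0 (step_sound _ 99 [(rh04f32d166f1c28ac.shift 0 2), (rh544fd3f279a4d968.shift 2 0), (rhc86e08a1a4264962.shift 2 1)] (by decide +kernel))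
noncomputable def rh526d683992292443 : CRef := CRef.mk (Pat.mk 0x800000018000000d0000000100000000000000000 0x3000000030000000340000001c0000001c000000df0000007f0000002c00000008 8 8) 0 0 (step_sound _ 67 [(rh3c9e709b165902cc.shift 0 1), (rh762aa57f284f76f4.shift 3 1), rh9fd413f270802756, (rhb85933af4b83d5ab.shift 3 1), (rhe17fc05566e42183.shift 0 1)] (by decide +kernel))
noncomputable def rhc109f3f7d5aceb20 : CRef := CRef.mk (Pat.mk 0x13000000130000001000000000000000000 0xb0000000b8000000f8000001ff000001be0000011f0000000400000004 8 9) 0 0 (step_sound _ 99 [(rhb12ffaec36122c99.shift 0 2), (rhb416dfc5ec7431cf.shift 3 2), (rhdcf7f29e82ea01c9.shift 1 0)] (by decide +kernel))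
noncomputable def rh5f339fb88512199c : CRef := CRef.mk (Pat.mk 0x13000000130000001000000000000000000 0xb0000000b6000000f6000001ff000001be0000011f0000000800000008 8 9) 0 0 (step_sound _ 99 [(rh2b3584ef0f05e9c2.shift 2 3), (rh82d555ca139397c6.shift 1 0), (rhab2ad169e49f9c5e.shift 1 3), (rhb12ffaec36122c99.shift 0 2), (rhb416dfc5ec7431cf.shift 3 2)] (by decide +kernel))
noncomputable def rh501162af44546794 : CRef := CRef.mk (Pat.mk 0x1000000030000000380000000000000000 0x6c000001ec0000007e0000003e000000380000001f0000000c 8 9) 0 0 (step_sound _ 133 [(rh503dd4575245365b.shift 4 1), (rhad590f0693506156.shift 2 2), rhcbadaa9363159b40] (by decide +kernel))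
noncomputable def rh27477c82a1ffa23c : CRef := CRef.mk (Pat.mk 0x100000001c00000000000000000000000000000000 0x600000006000000370000001e00000007000000070000000700000005 8 6) 0 0 (step_sound _ 129 [(rh33e738c4ed385b9f.shift 1 4), rh75a786e20aa9ee6e] (by decide +kernel))
noncomputable def rh77de483a0fd23afa : CRef := CRef.mk (Pat.mk 0x520000005300000012000000000000000000000000 0x88000000cc000000fe0000005b000000fe000001ec000000e8000000a0 8 9) 0 0 (step_sound _ 163 [rh0e020e4be850a960, (rhb2a0b9ccfb5cecd5.shift 0 4)] (by decide +kernel))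
noncomputable def rha6b5e59d94079c0e : CRef := CRef.mk (Pat.mk 0x80000000e000000000 0x18e000000fe0000007f 8 9) 0 0 (step_sound _ 36 [(rh33e738c4ed385b9f.shift 4 1), rh3e4b9488ac4c48cd] (by decide +kernel))
noncomputable def rh6bc4ad39fdd95f73 : CRef := CRef.mk (Pat.mk 0x2000000020000000300000002000000000 0x5f0000007e00000070000000300000003000000010 8 7) 0 0 (step_sound _ 36 [(rh089b387372e6da77.shift 0 1), (rh932754581e0f4330.shift 4 0)] (by decide +kernel))
noncomputable def rh899aa131991e1e11 : CRef := CRef.mk (Pat.mk 0xe000000180000000800000000000000000000000000000000 0x20000000e0000001c0000003f0000003f0000001e0000001c00000014 8 6) 0 0 (step_sound _ 99 [(rh46bfb734f58a0e67.shift 2 0), (rh6eff4158bb400f47.shift 2 1), (rh701b10bfa25a93d3.shift 0 2), (rhbba7d23481996066.shift 2 0), (rhde32e0b5ff3be9cc.shift 2 0), (rhe4441baab75a6f73.shift 2 1)] (by decide +kernel))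
noncomputable def rh13cfb81d5721d6d0 : CRef := CRef.mk (Pat.mk 0x180000000c00000018000000000000000000000000 0x10000000180000000c0000001f0000003f0000001700000002 8 6) 0 0 (step_sound _ 67 [rh1d286e780360c6d2, (rh2f68792b6b779e96.shift 3 2)] (by decide +kernel))
noncomputable def rh88726f9b8ae45453 : CRef := CRef.mk (Pat.mk 0x80000000c000000180000000000000000000000000000000000000000 0x80000000c0000001f0000003f0000001f0000001e0000001c00000014 8 6) 0 0 (step_sound _ 131 [(rh1d286e780360c6d2.shift 0 2), (rh410c4b99ba6e975c.shift 2 0), (rh4ed972033d0a12ff.shift 2 1), (rh697eeeab831b09b3.shift 2 1), (rh6eff4158bb400f47.shift 2 2), (rh78d78d3e585dd69b.shift 2 0)] (by decide +kernel))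
noncomputable def rh99f26731b215bf54 : CRef := CRef.mk (Pat.mk 0x1200000003000000060000000000000000000000000000000000000000 0x40000001e00000003000000070000000600000006000000070000000700000005 8 5) 0 0 (step_sound _ 226 [rh2b60ca869143ae83, (rh361cc68994bd8a63.shift 0 6)] (by decide +kernel))
noncomputable def rh27dde67f94d0c18e : CRef := CRef.mk (Pat.mk 0x8000000480000000b000000090000000000000000 0x160000003e0000006e0000000b0000000f0000000500000001 8 7) 0 0 (step_sound _ 66 [(rh932754581e0f4330.shift 2 1), rhd9d7f55e653a9061] (by decide +kernel))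
noncomputable def rh63c8e784ce2a8ab1 : CRef := CRef.mk (Pat.mk 0x10000000030000000600000000000000000000000000000000 0x50000000700000007000000060000001f000000030000000700000006000000070000000700000005 8 5) 0 0 (step_sound _ 193 [rh0bbd46f3b1d34fe5, (rh566659606c8abe04.shift 0 3), (rhfa3205aafd2af0b3.shift 0 3)] (by decide +kernel))
noncomputable def rh29c4a643c22dd7d0 : CRef := CRef.mk (Pat.mk 0x10000000f0000000a000000000000000000000000 0x100000001d0000001f0000001d0000000f0000000a0000001c0000001c00000014 8 5) 0 0 (step_sound _ 163 [rh1e799c93e7279403, (rh33e738c4ed385b9f.shift 0 4)] (by decide +kernel))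
noncomputable def rh3b18d927ac3dd480 : CRef := CRef.mk (Pat.mk 0x100000000300000012000000000000000000000000 0x400000006000000060000001e000000030000001f000000070000000700000005 8 5) 0 0 (step_sound _ 98 [(rh2fe78cc5ca4405d8.shift 0 3), rhbb62d6666e07104c] (by decide +kernel))
noncomputable def rhac55f7bf52687e52 : CRef := CRef.mk (Pat.mk 0x100000000300000006000000000000000000000000 0x5000000070000000700000007000000060000001f0000000300000006000000070000000700000005 8 5) 0 0 (step_sound _ 161 [(rh566659606c8abe04.shift 0 2), rh62825c4dfa6be415, (rhcc21179e9c7abcbc.shift 0 2), rhd8bdfd4ba4d80bf5, (rhe37d1ee5d79a9fc4.shift 0 2)] (by decide +kernel))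
noncomputable def rh609872bffbe364ea : CRef := CRef.mk (Pat.mk 0x1c0000000c00000008 0x1f0000001f0000003f0000001e0000000c00000008 8 6) 0 0 (step_sound _ 99 [(rh1741680720c097b4.shift 2 0), (rh5fa50b509d4ce753.shift 2 0), (rh7f9f3607ee25a93b.shift 2 0), (rhba63d255a8bbea6f.shift 0 1), rhde0753a2d00007af] (by decide +kernel))
noncomputable def rhcd8f1cf8d3adaf40 : CRef := CRef.mk (Pat.mk 0x4c0000000c0000000800000000 0x180000001a0000003b0000007e0000000f0000000c00000004 8 7) 0 0 (step_sound _ 100 [(rh361cc68994bd8a63.shift 2 2), rh5ad370b2afd973bd] (by decide +kernel))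
noncomputable def rh8c12254ab6ceca75 : CRef := CRef.mk (Pat.mk 0x1c0000003000000010000000000000000000000000 0x4000000140000001c0000001c0000003f0000007f0000006f0000002e0000000a 8 7) 0 0 (step_sound _ 101 [(rh3e595262c1b737ad.shift 4 2), (rh539625230f89d59c.shift 1 1), rhda744085b7b5dfd1, (rhe012ffa67dd2c6eb.shift 0 1)] (by decide +kernel))
noncomputable def rh4be33259bb102110 : CRef := CRef.mk (Pat.mk 0x80000001c00000038000000000000000000000000 0x40000000c0000001c0000003e0000007c000000ff0000002c 8 8) 0 0 (step_sound _ 68 [(rh7b1f1fb55310c477.shift 3 1), rhbceb45bae056aa38] (by decide +kernel))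
noncomputable def rh0e1279061719a0af : CRef := CRef.mk (Pat.mk 0x800000009800000098000000000000000000000000 0x8c000000df000000ff0000007b0000005a0000005a 8 8) 0 0 (step_sound _ 68 [(rh3cb04db3dd2b6a55.shift 3 0), rhd7f085354b1a39c2] (by decide +kernel))
noncomputable def rh08abaaa17308cf7d : CRef := CRef.mk (Pat.mk 0x180000003800000000000000000000000000000000 0xc0000001e000000380000007e0000007f0000003e00000028 8 7) 0 0 (step_sound _ 162 [rha957f5cc86e7dbe1, (rhb739f4f82bb681b4.shift 1 4)] (by decide +kernel))
noncomputable def rh67a4f40273f88ea0 : CRef := CRef.mk (Pat.mk 0x180000001c000000000000000000000000 0x180000001f0000003f0000003c00000038 8 6) 0 0 (step_sound _ 97 [(rh53b3c253cb0c65f4.shift 0 3), rhed9575cdee0ab1ad] (by decide +kernel))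
noncomputable def rh0aa6175f824af332 : CRef := CRef.mk (Pat.mk 0x80000001800000018000000100000000000000000 0x40000000c0000001e0000001f0000001f0000000f0000000c 8 5) 0 0 (step_sound _ 67 [(rh46530d756bdf8511.shift 2 0), (rhbb66889bafd98e97.shift 0 1), (rhdf997f77704b6375.shift 2 0)] (by decide +kernel))
noncomputable def rh30a9b2ae13910fe4 : CRef := CRef.mk (Pat.mk 0x10000000100000001800000088000000000000000000000000 0x800000018000000180000001f000000ff000000370000003400000034 8 8) 0 0 (step_sound _ 100 [rh9bb786ef3e042462, (rhc6a146d25e06303d.shift 0 1), (rhdd11e03a2f8b13b6.shift 3 0), (rhf8edb192cdea7ada.shift 3 2)] (by decide +kernel))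
noncomputable def rh43e13d2b24b8230b : CRef := CRef.mk (Pat.mk 0x80000000c000000440000000000000000 0x2000000060000000e0000000c0000007f0000003f0000001e 8 7) 0 0 (step_sound _ 34 [(rh71222050f2c63a3a.shift 2 0), rh988789a164f1199b] (by decide +kernel))
noncomputable def rhc60f47f785060e23 : CRef := CRef.mk (Pat.mk 0x80000005800000003000000000000000000000000 0x500000007000000070000000f0000007b00000003000000070000000700000005 8 7) 0 0 (step_sound _ 162 [(rh2fe78cc5ca4405d8.shift 2 4), rh58e7ce167b4c58f9] (by decide +kernel))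
noncomputable def rhae622559812d8eef : CRef := CRef.mk (Pat.mk 0x2000000030000000200000000000000000000000000000000 0x100000007000000070000000600000003000000030000000300000007000000070000000700000005 8 3) 0 0 (step_sound _ 97 [rh0a6888916bcef86b, (rh2fd3c82e8124b6af.shift 0 2), rh43d8dfd721575dfb, (rh8cdd36b03d57a2f6.shift 0 1), rhd1779d7de7f8215b] (by decide +kernel))
noncomputable def rh4a22cf2325b02851 : CRef := CRef.mk (Pat.mk 0x120000001300000012000000000000000000000000 0x1000000070000000700000006000000130000001b0000001f0000000b0000001f0000000c 8 5) 0 0 (step_sound _ 99 [(rh5419adcd928dba20.shift 0 3), rhc16df757c2ec1ce5] (by decide +kernel))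
noncomputable def rhde6413e7a2a1d041 : CRef := CRef.mk (Pat.mk 0x580000001300000010 0x10000000b0000000b0000000f0000007f0000001b00000011 8 7) 0 0 (step_sound _ 65 [(rhb2a0b9ccfb5cecd5.shift 0 1), rhebeb1d2884d86247] (by decide +kernel))
noncomputable def rh5da5ff6b5e993966 : CRef := CRef.mk (Pat.mk 0x10000000100000001800000010000000000000000000000000 0x800000018000000180000001f0000003f0000002f0000000400000004 8 6) 0 0 (step_sound _ 99 [(rh932754581e0f4330.shift 3 2), rh9bb786ef3e042462] (by decide +kernel))
noncomputable def rhb070b81d3ed3d6c1 : CRef := CRef.mk (Pat.mk 0x2000000020000000300000000000000000000000000000000 0x500000007000000070000000700000006000000030000000300000006000000070000000700000001 8 3) 0 0 (step_sound _ 225 [(rh1741680720c097b4.shift 0 4), rh2b6f3d735bfdbe30, (rh9a369cb82ea472da.shift 0 4), (rh9fb9dc683e09b5f3.shift 0 4), (rhe62cab2ff5ad6fe2.shift 0 4)] (by decide +kernel))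
noncomputable def rh333816e82cf72c91 : CRef := CRef.mk (Pat.mk 0x800000098000000180000009000000000 0x400000004000000040000000f000000fc0000001f000000ff00000004 8 8) 0 0 (step_sound _ 101 [(rh361cc68994bd8a63.shift 3 2), rh7e964456697e72b2] (by decide +kernel))
noncomputable def rh0a8ed9f9cc4bf7a7 : CRef := CRef.mk (Pat.mk 0x8000000300000001800000000 0x1c0000003c0000007e0000007f000000380000001e00000004 8 7) 0 0 (step_sound _ 34 [(rh53b3c253cb0c65f4.shift 1 1), rhaea142b551fae2dd] (by decide +kernel))
noncomputable def rh2cf94225fdf7c48f : CRef := CRef.mk (Pat.mk 0x8000000800000001c000000300000000000000000 0x340000007c000000fc0000001c0000003f0000003700000014 8 8) 0 0 (step_sound _ 131 [(rh08edf065357d68e5.shift 3 0), rh24a38c3ca2fad7f6, (rh79ad7b82ec8c35e2.shift 3 0)] (by decide +kernel))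
noncomputable def rhdad4b298ad1a0b1c : CRef := CRef.mk (Pat.mk 0x8000000000000001800000090000000000000000000000000 0xc0000000c0000001c0000001f000000ff0000000f0000000c0000000c 8 8) 0 0 (step_sound _ 101 [rh088159be70fea814, (rh2fe78cc5ca4405d8.shift 3 3)] (by decide +kernel))
noncomputable def rhc2f888aede60dcbf : CRef := CRef.mk (Pat.mk 0x400000000c000000180000000800000000000000000000000000000000 0x10000000780000000f0000001c0000001c0000000c0000001c0000001c00000014 8 7) 0 0 (step_sound _ 193 [(rhb739f4f82bb681b4.shift 0 5), (rhbbf898d147e53635.shift 2 0)] (by decide +kernel))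
noncomputable def rhc18535aa188ba4fe : CRef := CRef.mk (Pat.mk 0x1000000003000000120000000200000000000000000000000000000000 0x40000001e000000030000001f0000000600000006000000070000000700000005 8 5) 0 0 (step_sound _ 225 [(rh04e571695666b5c1.shift 0 4), rhb46695e692e52d88] (by decide +kernel))
noncomputable def rh7403c827bda2f2c8 : CRef := CRef.mk (Pat.mk 0x400000000c00000018000000080000000000000000 0x10000000780000000c0000001f0000003f0000001700000002 8 7) 0 0 (step_sound _ 163 [(rh04e571695666b5c1.shift 2 2), rh1d286e780360c6d2] (by decide +kernel))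
noncomputable def rh1a41199cb1732a22 : CRef := CRef.mk (Pat.mk 0x10000000140000000600000002000000000000000000000000 0x28000000380000003800000030000000140000003e0000007b0000003e0000003a00000020 8 7) 0 0 (step_sound _ 65 [rh4b7c6a3353f25f98, (rh71222050f2c63a3a.shift 1 1)] (by decide +kernel))
noncomputable def rhc4ec7d1c5025eeda : CRef := CRef.mk (Pat.mk 0x4000000050000000180000000a0000000000000000 0x80000000c0000000c000000050000000f8000000ef000000f8000000a8 8 8) 0 0 (step_sound _ 66 [(rh53b3c253cb0c65f4.shift 0 2), (rhea3aeba536f7ce5c.shift 2 0)] (by decide +kernel))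
noncomputable def rha708f8dbd677a0cf : CRef := CRef.mk (Pat.mk 0x20000000600000002000000020000000000000000000000000000000000000000 0x20000000600000007000000030000000300000007000000070000000700000005 8 3) 0 0 (step_sound _ 129 [rh569cfe459e9e0c33, (rh7928877f9bf74a91.shift 0 3), (rhc94dfb5f501cb051.shift 0 1)] (by decide +kernel))
noncomputable def rh7aba3f457816467a : CRef := CRef.mk (Pat.mk 0x5800000043000000000000000000000000 0xa0000000e0000000e0000000e0000000fe00000043000000e0000000e0000000a0 8 8) 0 0 (step_sound _ 166 [rh70627328f86b69a8, (rh70d0154f1dbcad31.shift 0 3), (rh71acfb0c109ec4cb.shift 5 0), (rhd2f81451d7df0686.shift 3 2)] (by decide +kernel))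
noncomputable def rh859fe1bb7f85965f : CRef := CRef.mk (Pat.mk 0x12000000300000002600000000 0x7000000170000003f0000001f000000370000002700000005 8 6) 0 0 (step_sound _ 98 [rh063fde0fd37c0252, (rhc10214bf3fe8094a.shift 1 2)] (by decide +kernel))
noncomputable def rhac65a468c58fcab5 : CRef := CRef.mk (Pat.mk 0x1000000180000000800000008 0x40000000c0000001c0000001c0000001f0000001c0000001800000008 8 5) 0 0 (step_sound _ 99 [(rh5a860b5057e1e4c5.shift 2 0), rhaeb617a54744e672, rhfd8d26ebb5df7133] (by decide +kernel))
noncomputable def rhb8f84d5e7eac8322 : CRef := CRef.mk (Pat.mk 0x40000000500000004000000000000000000000000 0xf80000007e000000ff000000040000000e0000000e0000000a 8 8) 0 0 (step_sound _ 66 [(rh2926b8f0dc3058f0.shift 0 2), (rh6c59ce14113da07f.shift 2 0), (rh6eff4158bb400f47.shift 1 0)] (by decide +kernel))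
noncomputable def rha484c3d71fb115e6 : CRef := CRef.mk (Pat.mk 0x41000000580000005000000040 0x80000000e8000000f80000006f000000780000005000000040 8 8) 0 0 (step_sound _ 133 [(rh0f63ac4a2890c272.shift 0 1), (rhffd04209dc8ea796.shift 5 0)] (by decide +kernel))
noncomputable def rh3caba516acc46302 : CRef := CRef.mk (Pat.mk 0x8000000080000001800000090000000000000000000000000 0x140000001c0000001c00000018000000ff0000006c0000000c0000000c 8 8) 0 0 (step_sound _ 99 [(rh544fd3f279a4d968.shift 2 0), (rha9a9dd876407ae9a.shift 2 0), (rhc20ef6ea94f41f77.shift 0 2), (rhc4526fc8abf298b6.shift 2 1), (rhcab3157f7bdcba3e.shift 2 1)] (by decide +kernel))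
noncomputable def rh67f70ce1828ccc82 : CRef := CRef.mk (Pat.mk 0x4000000180000000c000000000000000000000000 0x100000003b0000001f0000001e0000000f000000060000000600000006 8 6) 0 0 (step_sound _ 97 [(rh53b3c253cb0c65f4.shift 0 3), rhc8e64ff26830cd49] (by decide +kernel))
noncomputable def rh2ed163ab0b248192 : CRef := CRef.mk (Pat.mk 0x100000001800000088000000000000000000000000 0x100000001f000000ff0000007f0000003c0000003c 8 8) 0 0 (step_sound _ 100 [(rh53f3e6031473637a.shift 1 0), rh6284c016c6647ae5, (rh6d6b249c85a0838e.shift 2 0), rh7f9803a04bd21501, (rhdeb566a97d63a39f.shift 3 0)] (by decide +kernel))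
noncomputable def rhb40cded1ce9244b1 : CRef := CRef.mk (Pat.mk 0x20000000200000006000000020000000000000000000000000000000000000000 0x1000000030000000300000007000000060000000600000006000000070000000700000005 8 3) 0 0 (step_sound _ 129 [(rh3ca48e2a6d60153d.shift 0 4), (rh8ff3dde5b1c639e0.shift 0 2), rhbffee8330f79a213, (rhd29a1fb688eae70f.shift 1 3)] (by decide +kernel))
noncomputable def rh4ebfc2d05b10a946 : CRef := CRef.mk (Pat.mk 0x7000000020000002200000022000000000 0x38f000001fe000001fe000003200000023000000010 8 10) 0 0 (step_sound _ 36 [(rh48c47727a92b1a14.shift 0 1), (rh932754581e0f4330.shift 4 0)] (by decide +kernel))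
noncomputable def rha656b0e8264085e9 : CRef := CRef.mk (Pat.mk 0x30000000200000022000000220 0x3cf000001fe000001fe0000032000000220 8 10) 0 0 (step_sound _ 102 [(rh2f68792b6b779e96.shift 5 0), rh48c47727a92b1a14] (by decide +kernel))
noncomputable def rh2da430f377ef9d62 : CRef := CRef.mk (Pat.mk 0x80000008800000018000000000000000000000000 0x140000001c0000001c0000000c0000000f000000fc0000001c0000000c0000000c0000000c 8 8) 0 0 (step_sound _ 195 [(rh771d065bdc85bf2d.shift 2 2), rh999e60c270782f1d, (rhba97f7f4ade5e136.shift 2 3), (rhc4526fc8abf298b6.shift 2 1)] (by decide +kernel))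
noncomputable def rhff22dde660c0d331 : CRef := CRef.mk (Pat.mk 0x60000002200000006000000020 0x39e000001fe000003f70000006000000020 8 10) 0 0 (step_sound _ 100 [(rh50fbb5868c909700.shift 4 0), (rhc122cf6cdec26e56.shift 0 1)] (by decide +kernel))
noncomputable def rh7b2a5389fbdeb937 : CRef := CRef.mk (Pat.mk 0x20000000410000005000000053000000100000000000000000 0x50000002f0000007f000000cf0000007e000000530000001f0000000500000001 8 8) 0 0 (step_sound _ 131 [(rh1abe4adb128d0412.shift 0 3), (rh33e6d365a89c069c.shift 2 3), rhea73a7dfb27367a9] (by decide +kernel))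
noncomputable def rhaa1314a9d741ee30 : CRef := CRef.mk (Pat.mk 0x10000000100000001400000014 0x1ef000000fe000000fb0000001600000014 8 9) 0 0 (step_sound _ 99 [rh21cd9916e0625d8a, (rh50fbb5868c909700.shift 3 0)] (by decide +kernel))
noncomputable def rh4e8d4a68c5715d9b : CRef := CRef.mk (Pat.mk 0x1200000053000000520000000000000000 0xa0000000e8000001ec000000fe0000005b000000fe000000cc00000088 8 9) 0 0 (step_sound _ 67 [rh3409b0f62558ff0b, (rh5419adcd928dba20.shift 0 2)] (by decide +kernel))
noncomputable def rhb994459733f41147 : CRef := CRef.mk (Pat.mk 0xe000000080 0x7f000000fe0000018e 8 9) 0 0 (step_sound _ 36 [rha223b06eb4ab7e9f, (rhe25b0a99195a5d59.shift 4 0)] (by decide +kernel))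
noncomputable def rhe5a6973d56949a77 : CRef := CRef.mk (Pat.mk 0x2000000030000000200000002000000000 0x100000003000000030000000700000007e0000005f 8 7) 0 0 (step_sound _ 132 [(rh50fbb5868c909700.shift 4 1), rhb5fa061a04a7f251] (by decide +kernel))
noncomputable def rh6000b24de01b26eb : CRef := CRef.mk (Pat.mk 0x12000000030000001000000000000000000000000000000000 0x2000000060000001e000000030000001f00000007000000070000000700000004 8 5) 0 0 (step_sound _ 194 [rh2d2054a8283afcc1, (rh361cc68994bd8a63.shift 0 5)] (by decide +kernel))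
noncomputable def rh730e30a055b5a286 : CRef := CRef.mk (Pat.mk 0x2000000030000001000000000000000000000000000000000 0x500000007000000070000000300000003000000030000001f0000000f000000070000000700000005 8 5) 0 0 (step_sound _ 129 [(rh0de8f4ef896631be.shift 0 2), (rh12452934acb847d5.shift 0 3), rh1bc81710c92c3767, (rh4c145d583973abd2.shift 0 1), (rh9c21692481bcb707.shift 0 2)] (by decide +kernel))
noncomputable def rh2ae074037f032728 : CRef := CRef.mk (Pat.mk 0x8000000180000000e00000000 0x140000001c0000001e0000003f0000003f0000001c0000000e00000002 8 6) 0 0 (step_sound _ 131 [(rh1741680720c097b4.shift 2 1), rh2fc2e33584cb656e, (rh5d410e570082021e.shift 2 1), (rh9fb9dc683e09b5f3.shift 2 1), (rhdf9f2056a37121a5.shift 2 1), (rhe62cab2ff5ad6fe2.shift 2 1)] (by decide +kernel))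
noncomputable def rhd4e7a2fb3491d6cd : CRef := CRef.mk (Pat.mk 0x180000000c0000001800000000 0x2000000170000003f0000001f0000000c0000001800000010 8 6) 0 0 (step_sound _ 131 [(rh55afc6a59410cf00.shift 3 0), (rhfdb027e5be1c5c6a.shift 0 1)] (by decide +kernel))
noncomputable def rh6b9e510cdd796283 : CRef := CRef.mk (Pat.mk 0x180000000c00000008 0x140000001c0000001e0000001f0000003f0000001f0000000c00000008 8 6) 0 0 (step_sound _ 99 [(rh09670c84f0ed1150.shift 2 0), (rh10e19c4a59f04b1a.shift 2 0), (rh1741680720c097b4.shift 2 0), (rh3e6987732fdd2dca.shift 2 0), (rh4e2df8342d3b8ae8.shift 2 0), rhfdb027e5be1c5c6a] (by decide +kernel))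
noncomputable def rhccd3548d55d62cb7 : CRef := CRef.mk (Pat.mk 0x6000000030000001200000000 0x50000000700000007000000060000000600000007000000030000001e00000004 8 5) 0 0 (step_sound _ 34 [rh2c1dc4fec0aa6c71, (rh2fe78cc5ca4405d8.shift 0 1)] (by decide +kernel))
noncomputable def rhc77d4a09f6ff3b2b : CRef := CRef.mk (Pat.mk 0x90000000b000000480000000800000000 0x1000000050000000f0000000b0000006e0000003e00000016 8 7) 0 0 (step_sound _ 130 [(rh50fbb5868c909700.shift 2 1), rhca44ed8b43254344] (by decide +kernel))
noncomputable def rhc8c6b69b9e9c59c6 : CRef := CRef.mk (Pat.mk 0x6000000030000001000000000000000000000000000000000 0x500000007000000070000000600000007000000030000001f00000006000000070000000700000005 8 5) 0 0 (step_sound _ 129 [(rh1cc7c0a4374e72e9.shift 0 3), (rh4c145d583973abd2.shift 0 1), rhe8826dab31f3e5a9] (by decide +kernel))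
noncomputable def rhbee42d0f0d1feff8 : CRef := CRef.mk (Pat.mk 0xa0000000f00000001000000000000000000000000 0x140000001c0000001c0000000a0000000f0000001d0000001f0000001d00000010 8 5) 0 0 (step_sound _ 99 [(rhe25b0a99195a5d59.shift 0 3), rhf4347dad4576cefc] (by decide +kernel))
noncomputable def rhb4428e63c3c20639 : CRef := CRef.mk (Pat.mk 0x120000000300000010000000000000000000000000 0x500000007000000070000001f000000030000001e000000060000000600000004 8 5) 0 0 (step_sound _ 162 [(rh361cc68994bd8a63.shift 0 4), rhdaa7b104475e1f6c] (by decide +kernel))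
noncomputable def rhc74fa9c027adee12 : CRef := CRef.mk (Pat.mk 0x600000003000000100000000000000000000000000000000000000000 0x5000000070000000700000006000000030000001f0000000600000007000000070000000700000005 8 5) 0 0 (step_sound _ 161 [(rh4c145d583973abd2.shift 0 2), (rh5efaf85ec96fcaef.shift 0 4), rh6e7fbfa39d08c5c7, (rhc850ef9393baf884.shift 0 1), (rhed4da78fe89f6176.shift 0 4)] (by decide +kernel))
noncomputable def rha9cc135d79de0f87 : CRef := CRef.mk (Pat.mk 0x80000000c0000001c000000000000000000000000 0x80000000c0000001e0000003f0000001f0000001f 8 6) 0 0 (step_sound _ 67 [(rh53e41f96b2b88c97.shift 2 0), (rh6eff4158bb400f47.shift 2 0), (rh820d4e04d5dcd02e.shift 2 0), rha6ffec1eb8a5a97d, rhdfb85d8e685264b4] (by decide +kernel))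
noncomputable def rhc8e846e7295b45af : CRef := CRef.mk (Pat.mk 0x80000000c0000004c000000000000000000000000 0x40000000c0000000f0000007e0000003b0000001a00000018 8 7) 0 0 (step_sound _ 100 [(rh2fe78cc5ca4405d8.shift 2 3), rhe076282df68226a9] (by decide +kernel))
noncomputable def rh2d68da2e52dcd6c3 : CRef := CRef.mk (Pat.mk 0x1800000010000000180000001800000000 0x70000001f0000001f0000001e0000001c00000014 8 5) 0 0 (step_sound _ 99 [rh0668c447fd80549a, (rh7b1f1fb55310c477.shift 3 0)] (by decide +kernel))
noncomputable def rhfcfcd9c092bc3ec3 : CRef := CRef.mk (Pat.mk 0x10000000300000001c000000000000000000000000 0xa0000002e0000006f0000007f0000003f0000001c0000001c0000001400000004 8 7) 0 0 (step_sound _ 165 [(rh7dd99c40dd8f3c05.shift 0 2), (rhaf50c754c3cc8571.shift 0 2), (rhea7a1800d6f053bd.shift 4 1), (rhf94ec4fbe378eb86.shift 1 0)] (by decide +kernel))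
noncomputable def rh466e341eaf8e8f76 : CRef := CRef.mk (Pat.mk 0x20000000200000003000000030 0x5f0000007e0000003e0000003000000030 8 7) 0 0 (step_sound _ 100 [(rh50fbb5868c909700.shift 4 0), rh8101de8a10825e2e] (by decide +kernel))
noncomputable def rh2d9da442dd4dc788 : CRef := CRef.mk (Pat.mk 0x380000001c0000000800000000 0x2c000000ff0000007c0000003e0000001c0000000c00000004 8 8) 0 0 (step_sound _ 132 [rh3f4384b4b40d49f8, (rh5c5e593799055d58.shift 3 1)] (by decide +kernel))
noncomputable def rh837a8e007b5801e7 : CRef := CRef.mk (Pat.mk 0x980000009800000080 0x5a0000005a0000007b000000ff000000df0000008c 8 8) 0 0 (step_sound _ 100 [(rh503dd4575245365b.shift 3 0), rhe20093ebb6d0a0a7] (by decide +kernel))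
noncomputable def rh3916da5d397cb27d : CRef := CRef.mk (Pat.mk 0x380000001800000000 0x280000003e0000007f0000007e000000380000001e0000000c 8 7) 0 0 (step_sound _ 34 [rh0c4b2a5e9566f518, (rh53b3c253cb0c65f4.shift 1 1)] (by decide +kernel))
noncomputable def rhfa8ab4e8ce7b3b52 : CRef := CRef.mk (Pat.mk 0x1c00000018 0x380000003c0000003f0000001f00000018 8 6) 0 0 (step_sound _ 33 [rh8c7c8a0d99f0a4c8, rhb739f4f82bb681b4] (by decide +kernel))
noncomputable def rh2abd2245bf90a235 : CRef := CRef.mk (Pat.mk 0x8800000018000000100000001000000000 0x340000003400000037000000ff0000001f000000180000001800000008 8 8) 0 0 (step_sound _ 132 [(rh04e571695666b5c1.shift 3 1), rh90b4a2bebec5a8e5, (rhbe6a11bbb961c2b9.shift 3 0), rhc5b507f3b9dbe039] (by decide +kernel))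
noncomputable def rh200fa942fdc91528 : CRef := CRef.mk (Pat.mk 0x440000000c000000080000000000000000 0x1e0000003f0000007f0000000c0000000e0000000600000002 8 7) 0 0 (step_sound _ 162 [rh09a9e319286e6f34, (rh2145e1d24b96a57e.shift 2 2)] (by decide +kernel))
noncomputable def rhe92ea42e5d485c45 : CRef := CRef.mk (Pat.mk 0x30000005800000008000000000000000000000000 0x50000000700000007000000030000007b0000000f000000070000000700000005 8 7) 0 0 (step_sound _ 98 [(rh361cc68994bd8a63.shift 2 3), rhf3020d845e6fcf09] (by decide +kernel))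
noncomputable def rh7552f018eb36ad91 : CRef := CRef.mk (Pat.mk 0x2000000030000000200000000000000000000000000000000 0x500000007000000070000000700000003000000030000000300000006000000070000000700000001 8 3) 0 0 (step_sound _ 225 [(rh32431e66bbf434a4.shift 0 4), (rh7a7e08304268422e.shift 0 4), (rhc85cc95794737cf7.shift 0 4), (rhc9b7a010d6829066.shift 0 4), rhe6e15c94901d6426] (by decide +kernel))
noncomputable def rh0661b8a2baeb8fbf : CRef := CRef.mk (Pat.mk 0x12000000130000001200000000000000000000000000000000 0xc0000001f0000000b0000001f0000001b0000001300000006000000070000000700000001 8 5) 0 0 (step_sound _ 195 [(rhb2a0b9ccfb5cecd5.shift 0 5), rhdc09f576138e123a] (by decide +kernel))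
noncomputable def rh843394203d3a1a38 : CRef := CRef.mk (Pat.mk 0x10000000130000005800000000000000000000000000000000 0x110000001b0000007f0000000f0000000b0000000b00000001 8 7) 0 0 (step_sound _ 129 [(rh5419adcd928dba20.shift 0 4), rhc09fd3463534d4d4] (by decide +kernel))
noncomputable def rh51b4282a01ff6a69 : CRef := CRef.mk (Pat.mk 0x1000000018000000100000001000000000 0x4000000040000002f0000003f0000001f000000180000001800000008 8 6) 0 0 (step_sound _ 131 [(rh50fbb5868c909700.shift 3 1), rh90b4a2bebec5a8e5] (by decide +kernel))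
noncomputable def rhb128789f71b4b6dc : CRef := CRef.mk (Pat.mk 0x3000000020000000200000000000000000000000000000000 0x100000007000000070000000600000003000000030000000600000007000000070000000700000005 8 3) 0 0 (step_sound _ 97 [(rh5b5ceeb118a9ed7c.shift 0 2), (rh6eff4158bb400f47.shift 0 1), (rha613ffd40b6c9d24.shift 0 1), rhbba7d23481996066, (rhe4441baab75a6f73.shift 0 1)] (by decide +kernel))
noncomputable def rh53d3c8ea25f042ed : CRef := CRef.mk (Pat.mk 0x90000000180000009800000008000000000000000000000000 0x4000000ff0000001f000000fc0000000f000000040000000400000004 8 8) 0 0 (step_sound _ 133 [(rh2fe78cc5ca4405d8.shift 3 4), rhdb607f86315170d3] (by decide +kernel))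
noncomputable def rh09a6e0d94cc27c13 : CRef := CRef.mk (Pat.mk 0x180000003000000008000000000000000000000000 0x40000001e000000380000007f0000007e0000003c0000001c 8 7) 0 0 (step_sound _ 162 [rh88ac7488d15bed61, (rhb739f4f82bb681b4.shift 1 4)] (by decide +kernel))
noncomputable def rh3997435df71c7a6b : CRef := CRef.mk (Pat.mk 0x300000001c000000800000000800000000 0x14000000370000003f0000001c000000fc0000007c00000034 8 8) 0 0 (step_sound _ 67 [rh454e93d9fd1cde42, (rh69755ef358ebfd54.shift 3 1), (rhbfb5770941270498.shift 3 1)] (by decide +kernel))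
noncomputable def rh2df4dd43521d32ba : CRef := CRef.mk (Pat.mk 0x9000000018000000000000000800000000 0xc0000000c0000000f000000ff0000001f0000001c0000000c0000000c 8 8) 0 0 (step_sound _ 133 [(rh361cc68994bd8a63.shift 3 3), rhefcb4cb46d3a1398] (by decide +kernel))
noncomputable def rha373c5473ee1314b : CRef := CRef.mk (Pat.mk 0x8000000180000000c0000004000000000 0x140000001c0000001c0000000c0000001c0000001c0000000f0000007800000010 8 7) 0 0 (step_sound _ 65 [(rh53b3c253cb0c65f4.shift 0 2), (rh88c10c83b02a4a79.shift 2 0)] (by decide +kernel))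
noncomputable def rh34da0b21768fa40a : CRef := CRef.mk (Pat.mk 0x200000012000000030000001000000000 0x5000000070000000700000006000000060000001f000000030000001e00000004 8 5) 0 0 (step_sound _ 33 [(rh3012105889e1bacf.shift 0 1), rhf8edb192cdea7ada] (by decide +kernel))
noncomputable def rh23358b2fe788262d : CRef := CRef.mk (Pat.mk 0x8000000180000000c0000004000000000 0x2000000170000003f0000001f0000000c0000007800000010 8 7) 0 0 (step_sound _ 35 [(rhf8edb192cdea7ada.shift 2 0), (rhfdb027e5be1c5c6a.shift 0 1)] (by decide +kernel))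
noncomputable def rhc09058418d70a80a : CRef := CRef.mk (Pat.mk 0x2000000060000001400000010000000000000000000000000 0x200000003a0000003e0000007b0000003e0000001400000030000000380000003800000028 8 7) 0 0 (step_sound _ 225 [(rh2145e1d24b96a57e.shift 1 4), rh2de39e20a3deaa3b] (by decide +kernel))
noncomputable def rh6f033827b70492d3 : CRef := CRef.mk (Pat.mk 0xa0000001800000050000000400000000000000000 0xa8000000f8000000ef000000f800000050000000c0000000c000000080 8 8) 0 0 (step_sound _ 162 [(rh4e0bfcbeeacd805f.shift 2 0), (rhb739f4f82bb681b4.shift 0 4)] (by decide +kernel))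
noncomputable def rhe03e7bea4efc52b3 : CRef := CRef.mk (Pat.mk 0x2000000020000000600000002 0x50000000700000007000000070000000300000003000000070000000600000002 8 3) 0 0 (step_sound _ 129 [rh3ca48e2a6d60153d, rhb870aa2c50c4a860, (rhba97f7f4ade5e136.shift 0 1)] (by decide +kernel))
noncomputable def rhc3898f5d1713e0e1 : CRef := CRef.mk (Pat.mk 0x430000005800000000000000000000000000000000 0xa0000000e0000000e000000043000000fe000000e0000000e0000000e0000000a0 8 8) 0 0 (step_sound _ 102 [(rh25c8cf2c0b699319.shift 0 2), (rh2ee329c40df4056f.shift 3 0), (rhc10977e2d5b1bf53.shift 0 3), (rhf6a455fd2a498193.shift 5 0)] (by decide +kernel))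
noncomputable def rhd0b2ad0c4f69be75 : CRef := CRef.mk (Pat.mk 0x260000003000000012000000000000000000000000 0x500000027000000370000001f0000003f0000001700000007 8 6) 0 0 (step_sound _ 98 [(rh1c62b6193297d9e3.shift 1 3), rh3084e2dbca8617a1] (by decide +kernel))
noncomputable def rh63c9f8dfc046ee87 : CRef := CRef.mk (Pat.mk 0x800000008000000180000000100000000000000000000000000000000 0x8000000180000001c0000001f0000001c0000001c0000000c00000004 8 5) 0 0 (step_sound _ 131 [(rh669c503fc29231eb.shift 0 3), rh945293a166e367f7, (rhb72c6d3b8f00eaae.shift 2 1)] (by decide +kernel))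
noncomputable def rh5ce65ffe000b43dc : CRef := CRef.mk (Pat.mk 0x4000000050000000400000000 0xa0000000e0000000e00000004000000ff0000007e000000f8 8 8) 0 0 (step_sound _ 130 [(rh1741680720c097b4.shift 1 1), rh7d0ea98b23f4080f, (rhced6d86d2069808b.shift 2 0)] (by decide +kernel))
noncomputable def rhc8f8bd26e90f6e1e : CRef := CRef.mk (Pat.mk 0x9000000018000000080000000800000000 0xc0000000c0000006c000000ff000000180000001c0000001c00000014 8 8) 0 0 (step_sound _ 131 [(rh0ef6c71ce89c1c36.shift 2 0), rh40fed994e48439f8, (rh5abfc4c9d959be03.shift 2 0), (rh771d065bdc85bf2d.shift 2 0), (rhea90e7358341a1a4.shift 2 0)] (by decide +kernel))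
noncomputable def rhbdf6f5d3aeb5ec6b : CRef := CRef.mk (Pat.mk 0xc00000018000000040000000000000000 0x600000006000000060000000f0000001e0000001f0000003b00000010 8 6) 0 0 (step_sound _ 129 [rh4952b0f5ec475c78, (rhb739f4f82bb681b4.shift 0 3)] (by decide +kernel))
noncomputable def rh572e03cf9b4b35c6 : CRef := CRef.mk (Pat.mk 0x880000001800000010 0x3c0000003c0000007f000000ff0000001f00000010 8 8) 0 0 (step_sound _ 68 [(rh09c8174d9908c93a.shift 3 0), rh2b1ede70f50c7531, (rh555130c76c8b7190.shift 1 0), (rh667089498581842b.shift 2 0), rhce3d0c4a4ebee03d] (by decide +kernel))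
noncomputable def rha6ef7c743a41b850 : CRef := CRef.mk (Pat.mk 0x200000006000000020000000200000000 0x5000000070000000700000006000000060000000600000007000000030000000300000001 8 3) 0 0 (step_sound _ 161 [(rh20966da26a1c2ae8.shift 0 1), (rh44f453b84f013105.shift 1 1), (rh679fd8b96be65abb.shift 0 1), rh7928877f9bf74a91] (by decide +kernel))
noncomputable def rhaf68b1e902b3d201 : CRef := CRef.mk (Pat.mk 0x22000000220000000200000007000000000 0x100000023000000320000001fe000001fe0000038f 8 10) 0 0 (step_sound _ 132 [(rh50fbb5868c909700.shift 4 1), rh93d731ed4ae5d1a8] (by decide +kernel))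
noncomputable def rh9a20c633e1137e1a : CRef := CRef.mk (Pat.mk 0x22000000220000000200000003000000000 0x22000000320000001fe000001fe000003cf 8 10) 0 0 (step_sound _ 38 [(rh55afc6a59410cf00.shift 5 0), rh93d731ed4ae5d1a8] (by decide +kernel))
noncomputable def rhd91fa6d4e5a4a425 : CRef := CRef.mk (Pat.mk 0x18000000880000000800000000000000000000000000000000 0xc0000000c0000000c0000001c000000fc0000000f0000000c0000001c0000001c00000014 8 8) 0 0 (step_sound _ 99 [(rh555b9f6f6f811517.shift 0 2), (rh771d065bdc85bf2d.shift 2 2), (rhc4526fc8abf298b6.shift 2 1), (rhc94dfb5f501cb051.shift 2 0)] (by decide +kernel))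
noncomputable def rha7ec421d07d3f5a8 : CRef := CRef.mk (Pat.mk 0x2000000060000002200000006000000000 0x2000000060000003f7000001fe0000039e 8 10) 0 0 (step_sound _ 36 [(rh932754581e0f4330.shift 4 0), rhb27d32cdf420c044] (by decide +kernel))
noncomputable def rh74d309238b3ec835 : CRef := CRef.mk (Pat.mk 0x10000000530000005000000041000000200000000000000000 0x1000000050000001f000000530000007e000000cf0000007f0000002f00000005 8 8) 0 0 (step_sound _ 131 [rh21b02ce1f3f6563f, (rh9290253259ab20d8.shift 0 1), (rhd9e6805862b3eca6.shift 2 1)] (by decide +kernel))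
noncomputable def rh5d7ef8eeb650fa23 : CRef := CRef.mk (Pat.mk 0x1400000014000000100000001000000000 0x1400000016000000fb000000fe000001ef 8 9) 0 0 (step_sound _ 35 [(rh932754581e0f4330.shift 3 0), rhe77f7e5720b80116] (by decide +kernel))
noncomputable def rh69aa5f0dd10c1a01 : CRef := CRef.mk (Pat.mk 0x580000004c0000004400000004000000000000000000000000 0x140000005c0000006c0000007f0000003e0000007a0000003800000008 8 7) 0 0 (step_sound _ 99 [(rh046c5eb18e55a239.shift 2 0), (rh53a57142eebd4e25.shift 0 2), (rh8f4b24c3cc76dc38.shift 2 1), (rh97c0bb1b783a0a3e.shift 2 1), (rhcc665d498e5a5a88.shift 2 2)] (by decide +kernel))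
noncomputable def rh957ab23f8e9b970c : CRef := CRef.mk (Pat.mk 0x180000000c000000400000000400000000 0x140000001c0000001c000000180000000f000000780000001c00000014 8 7) 0 0 (step_sound _ 97 [(rh53b3c253cb0c65f4.shift 0 3), (rhb826126e4a988313.shift 2 0)] (by decide +kernel))
noncomputable def rhe6ed87fa160461e0 : CRef := CRef.mk (Pat.mk 0x580000004c00000040000000040000000000000000 0x140000001c0000001c000000580000006f0000007c0000003c0000003000000030 8 7) 0 0 (step_sound _ 129 [(rh53b3c253cb0c65f4.shift 0 4), (rhf6a76b75b1629233.shift 2 0)] (by decide +kernel))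
noncomputable def rhea8e0d3f4c6be2c7 : CRef := CRef.mk (Pat.mk 0x160000001300000010000000010000000000000000 0x1000000070000000700000006000000170000001b0000001e0000000f0000000d0000000c 8 5) 0 0 (step_sound _ 97 [(rh01e7a5813b8e330e.shift 0 2), rh4c145d583973abd2, rh69d88cbb5684b192, (rh8c01e5409b730b8b.shift 0 1)] (by decide +kernel))
noncomputable def rh95262f90b3411b37 : CRef := CRef.mk (Pat.mk 0x160000001300000010000000010000000000000000 0x1000000070000000700000006000000170000001b0000001f0000000f0000000c0000000c 8 5) 0 0 (step_sound _ 97 [(rh01e7a5813b8e330e.shift 0 2), rh4c145d583973abd2, (rh568dedf39348a228.shift 0 2), rh69d88cbb5684b192] (by decide +kernel))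
noncomputable def rh6703b0a0ed1a867b : CRef := CRef.mk (Pat.mk 0x6000000020000000000000002000000000 0x1f000000fe000001ff000003fc000001fc000003d0 8 10) 0 0 (step_sound _ 69 [(rhae5bb84161f1f0d2.shift 2 0), (rhf9dc12edad40519c.shift 0 1)] (by decide +kernel))
noncomputable def rh9f7f168bcaaa198d : CRef := CRef.mk (Pat.mk 0x600000002000000000000000200000000000000000 0x1f000000fe000001ff00000020000000600000006000000040 8 9) 0 0 (step_sound _ 101 [(rh8c3839f9b9075f23.shift 5 0), (rh8ff3dde5b1c639e0.shift 4 0), (rhf9dc12edad40519c.shift 0 2)] (by decide +kernel))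
noncomputable def rh514830abf9a0893a : CRef := CRef.mk (Pat.mk 0x180000000800000000000000080000000000000000 0x1800000018000000ff0000007f000000fc00000014 8 8) 0 0 (step_sound _ 99 [(rh8c3839f9b9075f23.shift 3 0), (rh8cdd36b03d57a2f6.shift 2 0), (rha8bc3cae4d77a08f.shift 2 0), (rhae5bb84161f1f0d2.shift 0 1)] (by decide +kernel))
noncomputable def rhb5e9bed0c951c76b : CRef := CRef.mk (Pat.mk 0x800000001800000008000000000000000800000000 0x1e70000007e0000007f000000060000000e0000000c 8 9) 0 0 (step_sound _ 133 [(rh1f36686c55693598.shift 2 4), rh469930a298d2d075, (rh4a2d14650c96af18.shift 2 3)] (by decide +kernel))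
noncomputable def rhf154673466109248 : CRef := CRef.mk (Pat.mk 0x1000000000000000e0000000200000000000000000 0x10000000100000019e000000fe0000003f0000002000000020 8 9) 0 0 (step_sound _ 100 [(rh0588d2c7f2cab5e9.shift 4 0), (rh756bf0ac35c4fb2d.shift 3 2), (rh775ca1963e850b80.shift 2 2), (rhb49cc5abe5813f44.shift 0 2)] (by decide +kernel))
noncomputable def rh7a4c831c7598d954 : CRef := CRef.mk (Pat.mk 0x900000001c0000008000000008000000080000000000000000 0xf40000001c000000f60000007e000000ff0000000800000008 8 8) 0 0 (step_sound _ 197 [(rh361cc68994bd8a63.shift 3 5), rhd1652a1e1431a84e] (by decide +kernel))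
noncomputable def rh05abc6a23c92d85e : CRef := CRef.mk (Pat.mk 0x580000004c0000004400000004000000000000000000000000 0x140000005c0000006c000000fe0000003f000000fb0000003a0000000a 8 8) 0 0 (step_sound _ 99 [(rh046c5eb18e55a239.shift 2 0), rh67f82fe108bf7836, (rh8f4b24c3cc76dc38.shift 2 1), (rh97c0bb1b783a0a3e.shift 2 1), (rhcc665d498e5a5a88.shift 2 2)] (by decide +kernel))
noncomputable def rhc74d69308bf3da19 : CRef := CRef.mk (Pat.mk 0x160000001300000011000000010000000000000000000000000 0x5000000170000001b0000001f7000000fe000001ef000000e000000020 8 9) 0 0 (step_sound _ 101 [(rh046c5eb18e55a239.shift 4 0), (rh8f4b24c3cc76dc38.shift 4 1), (rh97c0bb1b783a0a3e.shift 4 1), (rhcc665d498e5a5a88.shift 4 2), (rhd5e08b9e62fa7401.shift 0 2)] (by decide +kernel))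
noncomputable def rh9566fc6189817f9c : CRef := CRef.mk (Pat.mk 0x6000000030000000000000007000000000 0x10000000740000003c0000001f0000007e000000f7 8 8) 0 0 (step_sound _ 68 [rh652f4c8b2fff750c, (rh71222050f2c63a3a.shift 4 0)] (by decide +kernel))
noncomputable def rh56b294bd68552b61 : CRef := CRef.mk (Pat.mk 0x110000001300000011000000010000000000000000 0x60000001f0000001b0000001f0000000f0000000a00000008 8 5) 0 0 (step_sound _ 161 [(rh2f68792b6b779e96.shift 0 2), rhb1e8470e90b9b4f6] (by decide +kernel))
noncomputable def rha9f6dd52f167963f : CRef := CRef.mk (Pat.mk 0xc000000080000000e00000000000000000000000000000000 0x80000000c0000000f0000001e0000001b000000170000001700000005 8 5) 0 0 (step_sound _ 132 [rh2ec804fbe0df033a, (rh70e33bfdf511e144.shift 3 1)] (by decide +kernel))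
noncomputable def rh0d28f0fb53508b9c : CRef := CRef.mk (Pat.mk 0xc000000480000000c000000000000000000000000 0x20000000f0000007e0000000f0000001e0000001c00000014 8 7) 0 0 (step_sound _ 132 [(rh361cc68994bd8a63.shift 2 3), rhf76b3e965b841936] (by decide +kernel))
noncomputable def rha69bdc0399d9b069 : CRef := CRef.mk (Pat.mk 0x100000000000000060000000200000000000000000 0x10000000100000001f000000fe000001ff0000002800000020 8 9) 0 0 (step_sound _ 100 [(rh0588d2c7f2cab5e9.shift 4 0), (rh99c2f6734bf49fc3.shift 0 2), (rhb60d820cc668a5ac.shift 1 0)] (by decide +kernel))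
noncomputable def rhe4587ad40d32b3ec : CRef := CRef.mk (Pat.mk 0x200000003c00000000000000300000000000000000 0x4000000040000002e0000003c0000001e0000007e0000001f0000000e 8 7) 0 0 (step_sound _ 100 [rh59977fde88b96ce7, (rh71222050f2c63a3a.shift 4 1)] (by decide +kernel))
noncomputable def rhadaa214f84d19d9c : CRef := CRef.mk (Pat.mk 0x1e00000010000000300000000000000000 0x40000001f00000018000000ff000000ef0000000c 8 8) 0 0 (step_sound _ 99 [rh9fa83421e47d3d39, (rhb739f4f82bb681b4.shift 0 3)] (by decide +kernel))
noncomputable def rh4d7bb0b9cddad2fe : CRef := CRef.mk (Pat.mk 0x3c000000100000003000000000 0x70000003f0000001c000000fc000000ee 8 8) 0 0 (step_sound _ 129 [rh1d413dd4e500227d, (rh3f8766e6ecb455ce.shift 1 3)] (by decide +kernel))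
noncomputable def rh2b25bc9a05c71505 : CRef := CRef.mk (Pat.mk 0xc000000480000000c000000000000000000000000 0x20000000f0000007b0000001f0000003c0000001400000004 8 7) 0 0 (step_sound _ 132 [(rh361cc68994bd8a63.shift 2 3), rh55123eee4b8ac293] (by decide +kernel))
noncomputable def rh598d2c5bacfdea97 : CRef := CRef.mk (Pat.mk 0x100000001300000018000000030000000000000000 0x500000007000000070000001e0000001b0000001f0000000b0000001e0000000e 8 5) 0 0 (step_sound _ 97 [rh78ffd887545956ac, (rhb2a0b9ccfb5cecd5.shift 0 2)] (by decide +kernel))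
noncomputable def rh963418645cd9dbfd : CRef := CRef.mk (Pat.mk 0x18000000c000000018000000000000000000000000 0x18000000f80000001f0000003f0000003e00000028 8 8) 0 0 (step_sound _ 132 [rh59383a4d2ec076cb, (rhb2a0b9ccfb5cecd5.shift 3 3)] (by decide +kernel))
noncomputable def rh12bc9016c46aee78 : CRef := CRef.mk (Pat.mk 0x18000000000000001e00000000000000000000000000000000 0x70000001f000000070000001e00000033000000070000000700000005 8 6) 0 0 (step_sound _ 161 [(rh3244c3cc8379b070.shift 0 4), rh8652e775ff0e9f83] (by decide +kernel))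
noncomputable def rh0069bdff5bba684b : CRef := CRef.mk (Pat.mk 0xc000000480000000c0000000000000000 0xf0000007f0000003f0000003300000012 8 7) 0 0 (step_sound _ 100 [(rh361cc68994bd8a63.shift 2 2), rh5c4e8f1ca850e1cb] (by decide +kernel))
noncomputable def rhfbe82baa8b23dcab : CRef := CRef.mk (Pat.mk 0x180000000c0000000000000004 0x140000001c0000001c0000001f0000003c0000001c0000000c0000000c0000000c 8 6) 0 0 (step_sound _ 131 [(rh06181a2dc624c6f8.shift 2 0), (rh615a42bddefc9f31.shift 2 0), (rh976a48eb1c80a12f.shift 2 1), rha0b9ce7dea8e39bc] (by decide +kernel))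
noncomputable def rhbf4b61a088705768 : CRef := CRef.mk (Pat.mk 0x8000000000000003800000000000000000000000000000000 0x80000000f0000003e000000770000000e0000000e0000000a 8 7) 0 0 (step_sound _ 130 [(rh0d378fd9e8917c5a.shift 0 3), (rh41140eaa67c26838.shift 0 3), (rh775ca1963e850b80.shift 0 3), (rhf356c5bf1a286bb3.shift 1 0)] (by decide +kernel))
noncomputable def rhb7a9b8968a0c592a : CRef := CRef.mk (Pat.mk 0x10000000030000000200000003 0x40000000700000007000000070000001f000000030000000300000003 8 5) 0 0 (step_sound _ 97 [rh04e571695666b5c1, rh1dfdc683c7c17c32, rh9fb9dc683e09b5f3] (by decide +kernel))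
noncomputable def rha0b4aed11df1fc19 : CRef := CRef.mk (Pat.mk 0x400000000c000000180000000c0000000000000000 0x140000001c0000007c0000000f000000180000001f0000003000000010 8 7) 0 0 (step_sound _ 65 [rh48980a58887652ab, (rh53b3c253cb0c65f4.shift 0 2)] (by decide +kernel))
noncomputable def rh8473fb0df66d0342 : CRef := CRef.mk (Pat.mk 0x8800000018000000000000001800000000 0x78000000ff0000001f0000001f0000003c00000004 8 8) 0 0 (step_sound _ 132 [rh427abe06d1d20c3a, rh629adabffd279916, (rh732dfd73a271848a.shift 0 1), (rhbf7176cc3f4cdc4c.shift 3 1)] (by decide +kernel))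
noncomputable def rhe2f01b8686fd165f : CRef := CRef.mk (Pat.mk 0x8000000018000000080000000c00000000 0x18000000f80000001e0000000f0000003c00000014 8 8) 0 0 (step_sound _ 131 [rh7b438a6fd1714943, (rh932754581e0f4330.shift 2 0)] (by decide +kernel))
noncomputable def rh3d397cfd990b086d : CRef := CRef.mk (Pat.mk 0x3000000010000000180000000000000000 0x28000000380000001e000000380000001f0000001c 8 6) 0 0 (step_sound _ 36 [rh2b3af347fa02ca58, (rh2f68792b6b779e96.shift 4 1)] (by decide +kernel))
noncomputable def rhd969ee7f356ad27e : CRef := CRef.mk (Pat.mk 0x300000010000000018000000000000000000000000 0x20000000200000003000000030000001d7000000fe000000ff0000003800000028 8 9) 0 0 (step_sound _ 132 [(rh215e11e099257d75.shift 4 2), (rha94705fc46044d1b.shift 0 2), (rhffb8e5993241bf15.shift 3 0)] (by decide +kernel))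
noncomputable def rhe4202a1fe58ccfa8 : CRef := CRef.mk (Pat.mk 0x10000000030000000000000007800000000 0x2000000020000001f40000003c0000001e0000007e00000017 8 9) 0 0 (step_sound _ 66 [(rh3f8766e6ecb455ce.shift 2 1), rhdc43e6a1fdb7d875] (by decide +kernel))
noncomputable def rh20b5d29ffe8415ee : CRef := CRef.mk (Pat.mk 0xc000000040000001e00000000 0xa0000000e0000000e0000000c0000000c0000000e000000070000001e00000008 8 5) 0 0 (step_sound _ 65 [(rh0d6b516fa5ea0b40.shift 1 0), (rh3244c3cc8379b070.shift 0 1)] (by decide +kernel))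
noncomputable def rhc153c5f4c8e97f79 : CRef := CRef.mk (Pat.mk 0x1e00000000000000000000000000000000 0x4000000070000001e0000003f0000000f0000000700000005 8 6) 0 0 (step_sound _ 161 [(rh3244c3cc8379b070.shift 0 4), rh86cf5cd85a9c6100] (by decide +kernel))
noncomputable def rh3842156d5dbbe8d2 : CRef := CRef.mk (Pat.mk 0x1e0000000000000000000000000000000000000000 0x6000000070000001e0000003f00000007000000070000000300000001 8 6) 0 0 (step_sound _ 129 [rh97f1528b536af43b, (rheb0810cc63b001d8.shift 0 4)] (by decide +kernel))
noncomputable def rhbfda2ee34edc542f : CRef := CRef.mk (Pat.mk 0x1e00000002000000000000000000000000 0x300000003000000070000001e0000003e000000070000000300000002 8 6) 0 0 (step_sound _ 161 [(rh3244c3cc8379b070.shift 0 4), rh3ea0601384bab685] (by decide +kernel))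
noncomputable def rhcea783c954a2d6f0 : CRef := CRef.mk (Pat.mk 0x400000000c000000400000000c0000000000000000 0x40000001c0000007c0000000f000000780000001f0000007c00000010 8 7) 0 0 (step_sound _ 99 [rh3544b13ee1fe4ab3, rh8464c34b4eba5e43, (rh8ca74fa25325e393.shift 2 1), (rhb1a251d9bff81766.shift 2 1)] (by decide +kernel))
noncomputable def rh624c1adcc8cec403 : CRef := CRef.mk (Pat.mk 0x180000003000000018000000000000000000000000 0x80000000a0000000f0000001e000000340000001e0000000e0000000e0000000a 8 6) 0 0 (step_sound _ 98 [rh2550b71238f829dc, (rh53b3c253cb0c65f4.shift 1 3)] (by decide +kernel))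
noncomputable def rh0340fb167638fef0 : CRef := CRef.mk (Pat.mk 0x600000000000000070000000000000000000000000 0x1c0000007c0000001e0000007e000000ff0000001800000010 8 8) 0 0 (step_sound _ 99 [(rh04797e9e06425c4e.shift 0 2), (rh0d378fd9e8917c5a.shift 1 2), (rh185f35b8bd8ec37f.shift 1 2), (rh592c7139d2c44767.shift 1 2), (rh7bd517417e797094.shift 2 0)] (by decide +kernel))
noncomputable def rh76638a8beb9efd1d : CRef := CRef.mk (Pat.mk 0x7800000040000000000000000000000000 0xc0000000c0000001c000000780000007c0000001f0000001c0000000c 8 7) 0 0 (step_sound _ 163 [(rh3244c3cc8379b070.shift 2 4), rhb8146c0a70b21fea] (by decide +kernel))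
noncomputable def rh5b524d74b1ef45c7 : CRef := CRef.mk (Pat.mk 0x10000000100000001e00000010000000080000000000000000 0x1c0000001f0000007b0000001f0000001e000000170000000f0000000f00000001 8 7) 0 0 (step_sound _ 163 [(rh262ed0982878f4e9.shift 1 3), (rh7f9f3607ee25a93b.shift 3 3), (rhc1ea310e2ecda8bf.shift 0 1), rhd4582841eca1c57e] (by decide +kernel))
noncomputable def rh906473dd3f481652 : CRef := CRef.mk (Pat.mk 0x10000000100000001e000000100000000800000000 0x20000000320000001f0000001e000000170000000e0000000e 8 6) 0 0 (step_sound _ 129 [(rh3244c3cc8379b070.shift 0 3), rhccc7a77a2900cc24] (by decide +kernel))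
noncomputable def rh47395bb7c99a0fd7 : CRef := CRef.mk (Pat.mk 0x1e00000000000000080000000000000000 0x80000001f000000380000000f0000003c0000001c 8 6) 0 0 (step_sound _ 100 [rhac0018b62bb36f86, (rhe25b0a99195a5d59.shift 1 3)] (by decide +kernel))
noncomputable def rhf34630cea86647af : CRef := CRef.mk (Pat.mk 0x300000003400000010000000100000000000000000 0x200000006000000060000003e000000360000003f0000001f0000000e0000000a 8 6) 0 0 (step_sound _ 162 [(rh086f6046fa319626.shift 1 4), (rh37ad3135243bbdba.shift 1 0), (rh53c646ccda0e783c.shift 1 1), (rhab3acdd4e950f148.shift 1 1), rhcdca8e17054a8510] (by decide +kernel))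
noncomputable def rhdbe41a1357f1b6ca : CRef := CRef.mk (Pat.mk 0x900000009800000080000000080000000000000000 0x28000000f8000000df000000ff0000007f0000005c00000044 8 8) 0 0 (step_sound _ 100 [rh2e6b56485668d558, (rh3dfd0fec5144fe4a.shift 3 0), (rhc47fe1bc6b175f77.shift 3 1)] (by decide +kernel))
noncomputable def rh5ac55a79dae8a79d : CRef := CRef.mk (Pat.mk 0x200000002200000020000000070000000000000000000000000 0x22000000320000003f7000001fe0000013e0000011000000010 8 10) 0 0 (step_sound _ 99 [(rh27ce058b59d72f64.shift 2 2), (rh322c43ea68da35e1.shift 2 0), (rh61e0d0d348b5564c.shift 0 2), (rha0508b537a31e81b.shift 1 1)] (by decide +kernel))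
noncomputable def rhc29b8d5f76f8c4ae : CRef := CRef.mk (Pat.mk 0x10000000000000003800000000000000000000000000000000 0x100000001c0000007f0000003e0000000f0000000e0000000e0000000a 8 7) 0 0 (step_sound _ 130 [(rh322c43ea68da35e1.shift 1 1), (rh775ca1963e850b80.shift 0 3), (rh7f76d08e24449b56.shift 1 0)] (by decide +kernel))
noncomputable def rh769b84ab3ace55ae : CRef := CRef.mk (Pat.mk 0x80000008000000018000000000000000000000000 0x800000008000000cf0000007e000000ff0000001400000014 8 8) 0 0 (step_sound _ 101 [(rh6815aea2c6c4a2a3.shift 2 0), rh84184a4a5fd81e24, (rh9128edfd050b394d.shift 0 2), (rhefb19ffaaa7a0748.shift 1 2)] (by decide +kernel))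
noncomputable def rhca5d75ed7bb1113d : CRef := CRef.mk (Pat.mk 0x4000000440000004c0000005800000000 0x8000000380000007a0000003e0000007f0000006c0000005c00000014 8 7) 0 0 (step_sound _ 131 [(rh0ebec13c619669fc.shift 2 1), (rha61bfc5754658db7.shift 2 0), rhaf73bef71e4379aa, (rhb730ba14aa32bdb3.shift 2 1), (rhe1224f3a51caebb6.shift 2 0)] (by decide +kernel))
noncomputable def rh065feb69e017dff2 : CRef := CRef.mk (Pat.mk 0x4000000400000000c00000018000000000000000000000000 0x140000001c000000780000000f000000180000001c0000001c00000014 8 7) 0 0 (step_sound _ 129 [(rh25c5e2298e5b100a.shift 2 0), (rhb739f4f82bb681b4.shift 0 3)] (by decide +kernel))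
noncomputable def rh1e6a53eca823bcea : CRef := CRef.mk (Pat.mk 0x4000000400000004c00000058000000000000000000000000 0x30000000300000003c0000007c0000006f000000580000001c0000001c00000014 8 7) 0 0 (step_sound _ 129 [(rh342611c936f24af5.shift 2 0), (rhb739f4f82bb681b4.shift 0 3)] (by decide +kernel))
noncomputable def rhb034d33cb17e8e88 : CRef := CRef.mk (Pat.mk 0x100000010000000130000001600000000000000000000000000000000 0xc0000000d0000000f0000001e0000001b0000001700000006000000070000000700000001 8 5) 0 0 (step_sound _ 193 [(rh0fd707edf5b3f4b4.shift 0 3), (rh566659606c8abe04.shift 0 3), (rh6196b452c518de56.shift 0 3), rh6d9172875361fe79] (by decide +kernel))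
noncomputable def rhbd5e8ffc34ecffb3 : CRef := CRef.mk (Pat.mk 0x100000010000000130000001600000000000000000000000000000000 0xc0000000c0000000f0000001f0000001b0000001700000006000000070000000700000001 8 5) 0 0 (step_sound _ 193 [(rh0fd707edf5b3f4b4.shift 0 3), rh509475ff030b1703, (rh566659606c8abe04.shift 0 3), rh6d9172875361fe79] (by decide +kernel))
noncomputable def rh7e44d5fd7af46b45 : CRef := CRef.mk (Pat.mk 0x2000000000000000200000006000000000 0x3d0000001fc000003fc000001ff000000fe0000001f 8 10) 0 0 (step_sound _ 101 [(rh20ccc7280544702b.shift 2 1), rh590cd271dca6c6e3] (by decide +kernel))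
noncomputable def rhf2c887f918843c4a : CRef := CRef.mk (Pat.mk 0x2000000000000000200000006000000000 0x40000000600000006000000020000001ff000000fe0000001f 8 9) 0 0 (step_sound _ 101 [(rh20966da26a1c2ae8.shift 4 0), rh590cd271dca6c6e3, (rh73f605273a09a9d0.shift 5 1)] (by decide +kernel))
noncomputable def rhbc4bea5aff41e470 : CRef := CRef.mk (Pat.mk 0x8000000000000000800000018 0x14000000fc0000007f000000ff0000001800000018 8 8) 0 0 (step_sound _ 67 [rh20ccc7280544702b, (rh5bd4bc0c2c48140c.shift 2 0), (rh73f605273a09a9d0.shift 3 0), (rhc85cc95794737cf7.shift 2 0)] (by decide +kernel))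
noncomputable def rh41fbdbf4b4800b91 : CRef := CRef.mk (Pat.mk 0x800000000000000080000001800000080 0xc0000000e000000060000007f0000007e000001e7 8 9) 0 0 (step_sound _ 37 [(rh8a14c52668870c9c.shift 2 0), rhbc79a0c00168db1f, (rhf1af73716833b731.shift 2 0)] (by decide +kernel))
noncomputable def rh4eb490786d4a91c4 : CRef := CRef.mk (Pat.mk 0x20000000e0000000000000001000000000 0x20000000200000003f000000fe0000019e0000001000000010 8 9) 0 0 (step_sound _ 100 [(rh00d6a6e3c7e3bb40.shift 4 0), (rh3b5c03bebe0f2b7f.shift 0 2), (rh3ea8f185d13574b4.shift 3 0), (rh592c7139d2c44767.shift 2 2)] (by decide +kernel))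
noncomputable def rh7d021c4fc9a20c29 : CRef := CRef.mk (Pat.mk 0x800000008000000800000001c00000090 0x800000008000000ff0000007e000000f60000001c000000f4 8 8) 0 0 (step_sound _ 5 [rh0729fe3d519cd3dc, (rh2fe78cc5ca4405d8.shift 3 0)] (by decide +kernel))
noncomputable def rh07f73d0ff909a014 : CRef := CRef.mk (Pat.mk 0x4000000440000004c0000005800000000 0xa0000003a000000fb0000003f000000fe0000006c0000005c00000014 8 8) 0 0 (step_sound _ 131 [(rh0ebec13c619669fc.shift 2 1), (rh4a791d5257ad6011.shift 0 1), (rha61bfc5754658db7.shift 2 0), (rhb730ba14aa32bdb3.shift 2 1), (rhe1224f3a51caebb6.shift 2 0)] (by decide +kernel))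
noncomputable def rhc0a4a3074c6df0a1 : CRef := CRef.mk (Pat.mk 0x1000000110000001300000016000000000 0x20000000e0000001ef000000fe000001f7000001b00000017000000050 8 9) 0 0 (step_sound _ 133 [(rh0ebec13c619669fc.shift 4 1), (rh23bc48af4596d9a6.shift 0 1), (rha61bfc5754658db7.shift 4 0), (rhb730ba14aa32bdb3.shift 4 1), (rhe1224f3a51caebb6.shift 4 0)] (by decide +kernel))
noncomputable def rhf0b2851a6ea926cb : CRef := CRef.mk (Pat.mk 0x7000000000000000300000006000000000 0xf70000007e0000001f0000003c0000007400000010 8 8) 0 0 (step_sound _ 100 [(rh2145e1d24b96a57e.shift 4 1), rh9601cb5687c04431] (by decide +kernel))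
noncomputable def rhb1240ddd48f9d47f : CRef := CRef.mk (Pat.mk 0x100000011000000130000001100000000 0x80000000a0000000f0000001f0000001b0000001f00000006 8 5) 0 0 (step_sound _ 33 [rh55afc6a59410cf00, rh653bd924d4805703] (by decide +kernel))
noncomputable def rh7686c69c75f5866b : CRef := CRef.mk (Pat.mk 0xe000000080000000c00000000 0x500000017000000170000001b0000001e0000000f0000000c00000008 8 5) 0 0 (step_sound _ 100 [(rh215e11e099257d75.shift 3 0), (rhe476af74ce517c34.shift 0 1)] (by decide +kernel))
noncomputable def rh6cedf07b388dfaa4 : CRef := CRef.mk (Pat.mk 0xc000000480000000c00000000 0x140000001c0000001e0000000f0000007e0000000f00000002 8 7) 0 0 (step_sound _ 68 [(rh2fe78cc5ca4405d8.shift 2 2), rhf47c8b45a166b750] (by decide +kernel))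
noncomputable def rhaf935276576988d7 : CRef := CRef.mk (Pat.mk 0x2000000060000000000000001000000000 0x2000000028000001ff000000fe0000001f0000001000000010 8 9) 0 0 (step_sound _ 100 [(rh00d6a6e3c7e3bb40.shift 4 0), (rh2b54d5a05a791b0a.shift 0 2), (rhfd73fc08c9f56e93.shift 1 0)] (by decide +kernel))
noncomputable def rh34e5ca8b604facc8 : CRef := CRef.mk (Pat.mk 0x30000000000000003c000000200000000000000000 0xe0000001f0000007e0000001e0000003c0000002e0000000400000004 8 7) 0 0 (step_sound _ 132 [(rh2145e1d24b96a57e.shift 4 2), rh2fdd9932c8d6780e] (by decide +kernel))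
noncomputable def rh981c8c71ff7f86a0 : CRef := CRef.mk (Pat.mk 0x30000000100000001e00000000 0xc000000ef000000ff000000180000001f00000004 8 8) 0 0 (step_sound _ 67 [(rh53b3c253cb0c65f4.shift 0 1), rhe216a2795ead1c45] (by decide +kernel))
noncomputable def rhca0138a71fa69511 : CRef := CRef.mk (Pat.mk 0x30000000100000003c00000000 0xee000000fc0000001c0000003f00000007 8 8) 0 0 (step_sound _ 1 [(rh80fcd6d0a18cb2dd.shift 1 0), rhaaacf7390db65c0d] (by decide +kernel))
noncomputable def rh82c5d1095b74bdca : CRef := CRef.mk (Pat.mk 0xc000000480000000c00000000 0x4000000140000003c0000001f0000007b0000000f00000002 8 7) 0 0 (step_sound _ 68 [(rh2fe78cc5ca4405d8.shift 2 2), rh965c3be468ddab89] (by decide +kernel))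
noncomputable def rha28f1f17bca18172 : CRef := CRef.mk (Pat.mk 0x3000000180000001300000010000000000000000000000000 0xe0000001e0000000b0000001f0000001b0000001e000000070000000700000005 8 5) 0 0 (step_sound _ 161 [(rh5419adcd928dba20.shift 0 5), rh764594db9c017076] (by decide +kernel))
noncomputable def rhd81ed44a9ed0232d : CRef := CRef.mk (Pat.mk 0x18000000c000000018 0x280000003e0000003f0000001f000000f800000018 8 8) 0 0 (step_sound _ 36 [(rh5419adcd928dba20.shift 3 1), rhf642cc89098c085b] (by decide +kernel))
noncomputable def rhe9b08f41bf3a885c : CRef := CRef.mk (Pat.mk 0x1e000000000000001800000000 0x50000000700000007000000330000001e000000070000001f00000007 8 6) 0 0 (step_sound _ 65 [rhcd7475ef09546e4f, (rheb0810cc63b001d8.shift 0 2)] (by decide +kernel))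
noncomputable def rh1c7ce97be2832ce9 : CRef := CRef.mk (Pat.mk 0xc000000480000000c 0x12000000330000003f0000007f0000000f 8 7) 0 0 (step_sound _ 36 [(rh2fe78cc5ca4405d8.shift 2 1), rh81d899bb162558be] (by decide +kernel))
noncomputable def rha3ab2d8b8a28d411 : CRef := CRef.mk (Pat.mk 0x4000000000000000c000000180000000000000000000000000000000000000000 0xc0000000c0000000c0000001c0000003c0000001f0000001c0000001c00000014 8 6) 0 0 (step_sound _ 131 [(rh01483ff9cba2f6ac.shift 2 1), rh4f2180497ed22584, (rh50a14b5cf38c0cd7.shift 2 3), (rh92d527fd57e151ef.shift 2 4)] (by decide +kernel))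
noncomputable def rh3b2a3ec390b836fa : CRef := CRef.mk (Pat.mk 0x380000000000000008 0xa0000000e0000000e000000770000003e0000000f00000008 8 7) 0 0 (step_sound _ 66 [(rh31e1bc69abf86ee5.shift 1 0), (rh592c7139d2c44767.shift 0 1), (rh61325f73ebf98108.shift 0 2), (rh9e97bba44c1b13e4.shift 0 1)] (by decide +kernel))
noncomputable def rhe6f8f0c3648954d0 : CRef := CRef.mk (Pat.mk 0x300000002000000030000001000000000000000000000000000000000 0x300000003000000030000001f00000007000000070000000700000004 8 5) 0 0 (step_sound _ 129 [rh90d877f11235d11f, (rhbba7d23481996066.shift 0 1), (rhf8edb192cdea7ada.shift 0 3)] (by decide +kernel))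
noncomputable def rh5c5f3ad623e7433f : CRef := CRef.mk (Pat.mk 0xc000000180000000c000000400000000000000000 0x10000000300000001f000000180000000f0000007c0000001c00000014 8 7) 0 0 (step_sound _ 161 [rh6148fa15a8ea5229, (rhb739f4f82bb681b4.shift 0 4)] (by decide +kernel))
noncomputable def rh040ba0f36ac8ff88 : CRef := CRef.mk (Pat.mk 0x1800000000000000180000008800000000 0x40000003c0000001f0000001f000000ff00000078 8 8) 0 0 (step_sound _ 36 [rh1b29b20cab12bc92, (rh69b9713071586710.shift 3 0), rh6a272813f9d4f2de, rhb294636a9d1af784] (by decide +kernel))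
noncomputable def rh3017d25d78b4d84f : CRef := CRef.mk (Pat.mk 0xc00000008000000180000008000000000 0x140000003c0000000f0000001e000000f800000018 8 8) 0 0 (step_sound _ 35 [rh36f0cb2abfee7f5c, (rh50fbb5868c909700.shift 2 1)] (by decide +kernel))
noncomputable def rh97d9d8d872f65553 : CRef := CRef.mk (Pat.mk 0x18000000100000003000000000 0x1c0000001f000000380000001e0000003800000028 8 6) 0 0 (step_sound _ 132 [(rh55afc6a59410cf00.shift 4 0), rh95763d2e7d52b196] (by decide +kernel))
noncomputable def rhf1c87a7318c711a4 : CRef := CRef.mk (Pat.mk 0x180000010000000030000000000000000000000000 0x2800000038000000ff000000fe000001d700000030000000300000002000000020 8 9) 0 0 (step_sound _ 132 [(rh0c73448074db8fb0.shift 0 2), (rh14e0829dc73b6804.shift 3 2), (rh70e33bfdf511e144.shift 4 0)] (by decide +kernel))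
noncomputable def rh623136dad2354286 : CRef := CRef.mk (Pat.mk 0x780000000000000030000001000000000000000000 0x170000007e0000001e0000003c000001f40000002000000020 8 9) 0 0 (step_sound _ 130 [rh12d1f72ca852c6aa, (rh80fcd6d0a18cb2dd.shift 2 4)] (by decide +kernel))
noncomputable def rha46ba7e1739ef911 : CRef := CRef.mk (Pat.mk 0x1e000000040000000c0000000000000000000000000000000000000000 0x80000001e000000070000000e0000000c0000000c0000000e0000000e0000000a 8 5) 0 0 (step_sound _ 193 [(rh603f61259d1e12be.shift 1 0), (rheb0810cc63b001d8.shift 0 6)] (by decide +kernel))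
noncomputable def rh308a8596f9045463 : CRef := CRef.mk (Pat.mk 0x1e0000000000000000 0x5000000070000000f0000003f0000001e0000000700000004 8 6) 0 0 (step_sound _ 33 [rh213a78bf0780c83b, (rheb0810cc63b001d8.shift 0 1)] (by decide +kernel))
noncomputable def rhaa3a8093534b4613 : CRef := CRef.mk (Pat.mk 0x20000001e000000000000000000000000 0x200000003000000070000003e0000001e000000070000000300000003 8 6) 0 0 (step_sound _ 65 [rh6d6b2bc7cb570ef8, (rheb0810cc63b001d8.shift 0 2)] (by decide +kernel))
noncomputable def rhbdabd635878d8057 : CRef := CRef.mk (Pat.mk 0xc000000400000000c000000400000000000000000 0x100000007c0000001f000000780000000f0000007c0000001c00000004 8 7) 0 0 (step_sound _ 131 [(rh281c6819542c66e6.shift 2 0), (rh91dea0178d2e1c92.shift 0 2), (rh9bf6ac8dea9c2a25.shift 0 1), (rhb7ec845def264386.shift 2 1)] (by decide +kernel))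
noncomputable def rh324d0ea50577142e : CRef := CRef.mk (Pat.mk 0x180000003000000018000000000000000000000000 0xa0000000e0000000e0000001e000000340000001e0000000f0000000a00000008 8 6) 0 0 (step_sound _ 162 [(rhb739f4f82bb681b4.shift 1 4), rhc228ee9a1cd04719] (by decide +kernel))
noncomputable def rh929afe6d5ee8cc62 : CRef := CRef.mk (Pat.mk 0x70000000000000006000000000 0x1000000018000000ff0000007e0000001e0000007c0000001c 8 8) 0 0 (step_sound _ 99 [(rh4c622fddc53a5f99.shift 1 3), (rh775ca1963e850b80.shift 1 2), (rh7ca554f1b40b6ca2.shift 2 0), (rh9e97bba44c1b13e4.shift 1 2), (rhaeac014a58998cf3.shift 0 2)] (by decide +kernel))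
noncomputable def rhc1619fc31161e2b4 : CRef := CRef.mk (Pat.mk 0x4000000078000000000000000000000000 0xc0000001c0000001f0000007c000000780000001c0000000c0000000c 8 7) 0 0 (step_sound _ 67 [rh79b2e424592c064c, (rheb0810cc63b001d8.shift 2 2)] (by decide +kernel))
noncomputable def rh5dcd6e5f43e1328e : CRef := CRef.mk (Pat.mk 0x8000000100000001e00000010000000100000000000000000 0x10000000f0000000f000000170000001e0000001f0000007b0000001f0000001c 8 7) 0 0 (step_sound _ 99 [rh1c1376a909b2fe89, (rh53e41f96b2b88c97.shift 3 0), (rhb372e42a3e002988.shift 1 0), (rhec26a2350d17aaca.shift 0 1)] (by decide +kernel))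
noncomputable def rha04d4bd5c298d1be : CRef := CRef.mk (Pat.mk 0x8000000100000001e000000100000001000000000 0xe0000000e000000170000001e0000001f0000003200000020 8 6) 0 0 (step_sound _ 65 [rhb81d623340b2d3ba, (rheb0810cc63b001d8.shift 0 2)] (by decide +kernel))
noncomputable def rh5fe3e239c7f00e2b : CRef := CRef.mk (Pat.mk 0x8000000000000001e00000000 0x1c0000003c0000000f000000380000001f00000008 8 6) 0 0 (step_sound _ 68 [(rh33e738c4ed385b9f.shift 1 1), rh449f245d62bfb222] (by decide +kernel))
noncomputable def rhf1018b4394019803 : CRef := CRef.mk (Pat.mk 0x10000000100000003400000030000000000000000000000000 0xa0000000e0000001f0000003f000000360000003e000000060000000600000002 8 6) 0 0 (step_sound _ 98 [(rh44be20fc84585162.shift 1 2), (rh55aac5348564f5f5.shift 1 2), (rh6e1685e3533aff0e.shift 1 3), (rhca8625714f44deb5.shift 1 0), rhf1f0b6c6ad4cd3da] (by decide +kernel))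
noncomputable def rhfffef3ab1033e99b : CRef := CRef.mk (Pat.mk 0x800000080000000980000009000000000 0x440000005c0000007f000000ff000000df000000f800000028 8 8) 0 0 (step_sound _ 100 [(rh12452934acb847d5.shift 3 0), (rh6f2bc3ab1000e855.shift 0 1), (rhe93d745c30552876.shift 3 1)] (by decide +kernel))
noncomputable def rh04ec5264a1e834aa : CRef := CRef.mk (Pat.mk 0x70000002000000022000000200 0x10000001100000013e000001fe000003f70000032000000220 8 10) 0 0 (step_sound _ 99 [(rh3947d1dfff0afc6c.shift 2 2), (rh6420acd695fe1acd.shift 2 0), rhb830c427c90d44d4, (rhecf366b0ef44fd1e.shift 1 0)] (by decide +kernel))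
noncomputable def rh4c47f9d4566e15ff : CRef := CRef.mk (Pat.mk 0x38000000000000001000000000 0xa0000000e0000000e0000000f0000003e0000007f0000001c00000010 8 7) 0 0 (step_sound _ 98 [(rh592c7139d2c44767.shift 0 2), (rh6420acd695fe1acd.shift 1 0), (rh815323fc4347d821.shift 1 1)] (by decide +kernel))
noncomputable def rh904acdbd7790e72d : CRef := CRef.mk (Pat.mk 0x18000000800000000800000000 0x1400000014000000ff0000007e000000cf0000000800000008 8 8) 0 0 (step_sound _ 101 [(rh04263e10ff9fff0c.shift 2 0), rh61bc20c9bb823b52, (rhadc58f335021d7cb.shift 1 2), (rheb0ee1f47322713f.shift 0 2)] (by decide +kernel))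
noncomputable def rh10f72fbeabd82e15 : CRef := CRef.mk (Pat.mk 0x1000000080000000b000000000000000000000000 0x50000000700000007000000030000001e0000000f000000070000000700000005 8 5) 0 0 (step_sound _ 132 [(rh1c62b6193297d9e3.shift 0 3), rha58760f2ecd36de8] (by decide +kernel))
noncomputable def rhe1464fd7fe467fc3 : CRef := CRef.mk (Pat.mk 0xc0000003800000008000000000000000000000000 0x8000000080000000c0000003c0000001e0000001f0000001f0000000c 8 6) 0 0 (step_sound _ 100 [(rh3af54b5f78790764.shift 1 2), rh3df29aba6c2b9ff3, (rh55a1f6c57a317ce6.shift 3 1)] (by decide +kernel))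
noncomputable def rh08840d7eb0a3d489 : CRef := CRef.mk (Pat.mk 0x4000000200000000c000000200000000000000000 0x60000001f0000007e0000000c0000007e0000001f0000001e 8 7) 0 0 (step_sound _ 67 [rh09fa886eef6664b2, (rh5258ec1d25e4f835.shift 0 1), (rh98bb8091976abc32.shift 1 0), (rhe88dc7c5f20af3f7.shift 2 0)] (by decide +kernel))
noncomputable def rh4f7f82fcdc6d49b1 : CRef := CRef.mk (Pat.mk 0x1c000000100000000800000000 0x400000014000000170000001f0000001f0000000b0000000b 8 5) 0 0 (step_sound _ 67 [rh4252738265855d8f, (rh84d1c02a8954c6a8.shift 3 0)] (by decide +kernel))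
noncomputable def rh4c7b023274139050 : CRef := CRef.mk (Pat.mk 0x38000000200000001000000000 0x8000000080000001f0000003e0000003f0000001600000016 8 6) 0 0 (step_sound _ 98 [(rh248fcd68bb785bad.shift 1 0), (rh592c7139d2c44767.shift 0 2), (rhba68f42d885e5165.shift 1 0)] (by decide +kernel))
noncomputable def rh475651e00172e788 : CRef := CRef.mk (Pat.mk 0x380000003000000010 0x2800000038000000ff0000007e0000003f000000380000003800000010 8 8) 0 0 (step_sound _ 132 [(rh102916a627c132e0.shift 3 0), (rh46e896b4f1769f6b.shift 4 0), rhbcb5ce8976c1b5b3, (rhc1e3a08176fd5136.shift 3 0), (rhd0303f9e15e24ff8.shift 3 0)] (by decide +kernel))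
noncomputable def rh7bbca7199f72f7e6 : CRef := CRef.mk (Pat.mk 0xe00000004000000040 0x800000038000000380000007f000000fe000000ff00000050 8 8) 0 0 (step_sound _ 68 [(rh4d02ae931481892e.shift 3 0), (rh4f8edb321cf5b49d.shift 2 1), (rhc49681b28f5f311d.shift 0 1), (rhfcb55d5dc3b78d1f.shift 2 1)] (by decide +kernel))
noncomputable def rhab1a9ca8a4af84de : CRef := CRef.mk (Pat.mk 0x38000000000000000000000000 0x4000000060000000e0000007f0000003e0000000f0000000400000004 8 7) 0 0 (step_sound _ 98 [(rh4c622fddc53a5f99.shift 0 3), (rh775ca1963e850b80.shift 0 2), (rh9e97bba44c1b13e4.shift 0 2), (rhe3cc687b2b177653.shift 1 0)] (by decide +kernel))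
noncomputable def rhac33eef3adcbbdb3 : CRef := CRef.mk (Pat.mk 0x70000000000000002000000000 0x5000000050000000f70000007e000000670000002000000020 8 8) 0 0 (step_sound _ 69 [(rh215e11e099257d75.shift 5 0), (rh261f868a429ae0e3.shift 4 0), (rh63250e489b65c600.shift 0 1), (rhb1a251d9bff81766.shift 4 0)] (by decide +kernel))
noncomputable def rhd03b113250ee824e : CRef := CRef.mk (Pat.mk 0x60000000b00000002000000000000000000000000 0x140000001c0000001c0000001e0000000b0000001f0000001c0000001400000004 8 5) 0 0 (step_sound _ 163 [(rh18965a982d73c794.shift 0 4), rhb2799a2d9a4d4545] (by decide +kernel))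
noncomputable def rh90e850ed26c24b2c : CRef := CRef.mk (Pat.mk 0x1000000020000000200000002000000000 0x8000000480000004f000000fe000000ff000000300000002000000020 8 8) 0 0 (step_sound _ 134 [(rh09801475d705d836.shift 5 0), (rh2e02ae96d64880aa.shift 4 0), (rh4fc958d04f888cc0.shift 0 1), (rh6a8bc3ce66b827c6.shift 2 0)] (by decide +kernel))
noncomputable def rhad290403e98fc978 : CRef := CRef.mk (Pat.mk 0x60000001200000002000000020 0x1e000000fe000001bf0000002000000020 8 9) 0 0 (step_sound _ 100 [(rh10c03fd30aa23561.shift 0 2), (rh50fbb5868c909700.shift 4 0)] (by decide +kernel))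
noncomputable def rh7b8cfaa3fca23dd7 : CRef := CRef.mk (Pat.mk 0x2000000100000001a00000010000000000000000000000000 0xd000000ef000000ff0000001a0000001f0000000f0000000f00000005 8 8) 0 0 (step_sound _ 161 [(rh404a32e66ca9f6b8.shift 0 1), (rh419b05225c061a67.shift 0 1), rh5b04283243ca9ec0, rhb49b0fd37d009a4a, rhbe8af0daf1ab405b, (rhd801faf61c02b86f.shift 0 3)] (by decide +kernel))
noncomputable def rh770a5a98a9f094d6 : CRef := CRef.mk (Pat.mk 0x4000000160000001e00000010000000000000000000000000 0x4000000160000001f0000001a0000003f0000003f00000038 8 6) 0 0 (step_sound _ 99 [(rhb739f4f82bb681b4.shift 0 3), rhe137cf72b4d2699e] (by decide +kernel))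
noncomputable def rh6c3986a287dfc9df : CRef := CRef.mk (Pat.mk 0x4000000160000000c000000000000000000000000 0x28000000380000003c000000160000003e0000003b0000003a00000028 8 6) 0 0 (step_sound _ 100 [rh317b10d8bcd07a0c, (rhf48373e13d2bc128.shift 1 3)] (by decide +kernel))
noncomputable def rh012840e935d2cff0 : CRef := CRef.mk (Pat.mk 0x20000000b00000006000000000000000000000000 0x140000001c0000001c0000001e0000000b0000001e0000001c0000001c00000014 8 5) 0 0 (step_sound _ 99 [(rhf48373e13d2bc128.shift 0 3), rhf5bab88091b19b4c] (by decide +kernel))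
noncomputable def rh82b8db4f2cbc1330 : CRef := CRef.mk (Pat.mk 0x800000048000000180000001c00000000 0x40000000f0000007f0000001b0000001f00000003 8 7) 0 0 (step_sound _ 33 [(rh53b3c253cb0c65f4.shift 0 1), rhefd9cbb6976c16a6] (by decide +kernel))
noncomputable def rh52be32fc3697216c : CRef := CRef.mk (Pat.mk 0x180000001c00000000 0x140000001e0000001e0000007e0000007f0000003c00000004 8 7) 0 0 (step_sound _ 66 [(rh8effc1b4b248b652.shift 1 0), (rhe2b63c00a3d7bb73.shift 0 1)] (by decide +kernel))
noncomputable def rhb4fea50914d79e96 : CRef := CRef.mk (Pat.mk 0x80000001e00000000 0x40000000700000007000000030000003f0000001e00000007 8 6) 0 0 (step_sound _ 68 [rh1c900ba7e7dcfea1, (rh33e738c4ed385b9f.shift 1 1)] (by decide +kernel))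
noncomputable def rh83f1b22257ae680c : CRef := CRef.mk (Pat.mk 0x40000000e000000000000000c000000280 0x3ef000001fe0000003f000000c000000780 8 11) 0 0 (step_sound _ 8 [(rhb27bd2e2f859c92b.shift 0 2), (rhf48373e13d2bc128.shift 6 0)] (by decide +kernel))
noncomputable def rhfdb50135dd20ef21 : CRef := CRef.mk (Pat.mk 0x140000003c0000000000000000 0x1c0000001e0000001f0000001c0000007f0000000c00000004 8 7) 0 0 (step_sound _ 99 [rh1be7c23515f7561e, (rhf48373e13d2bc128.shift 2 2)] (by decide +kernel))
noncomputable def rhc31600c52b933ba5 : CRef := CRef.mk (Pat.mk 0xe0000001c00000000 0x38000000f80000007f0000007e0000001c00000004 8 8) 0 0 (step_sound _ 68 [(rh226655e3fe6b4a8a.shift 1 1), (rh771383521b68d2cd.shift 0 1), (rh7e08d51ecc561f42.shift 1 0), (rhb18e6c78a554867d.shift 0 2)] (by decide +kernel))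
noncomputable def rh356fb9d71b793b0d : CRef := CRef.mk (Pat.mk 0x18000000380000000000000030000000a0 0x7c0000007c0000001f00000078000000780000000c00000034000001e0 8 9) 0 0 (step_sound _ 8 [(rh5419adcd928dba20.shift 4 0), (rh6501c3f7dd16f957.shift 0 1)] (by decide +kernel))
noncomputable def rh9a3bfb77d156872e : CRef := CRef.mk (Pat.mk 0x200000012000000120000001000000000 0xc0000000c0000000f0000003f0000001e0000003c0000000c 8 6) 0 0 (step_sound _ 66 [rh0b3aeb0090bdcea4, (rh12d50e65fdd458b1.shift 0 2), (rh665fa2b016ee28ae.shift 0 1), (rhabf575676fe0ef70.shift 1 1)] (by decide +kernel))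
noncomputable def rhc1d8cfb54668e2bf : CRef := CRef.mk (Pat.mk 0x1000000010000000100000001000000000 0x200000003000000010000000ff0000007e0000002f 8 8) 0 0 (step_sound _ 35 [(rh932754581e0f4330.shift 3 0), rhfcfd3e419d242bd7] (by decide +kernel))
noncomputable def rh7efb698069e7d046 : CRef := CRef.mk (Pat.mk 0x4000000040000000400000004 0xe0000000e0000000e0000003c0000000f0000000e00000004 8 6) 0 0 (step_sound _ 130 [(rh44f453b84f013105.shift 2 0), (rhb2e9f9e85c9ec8af.shift 0 1), (rhc85cc95794737cf7.shift 1 1)] (by decide +kernel))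
noncomputable def rhde88f12b974d6cb1 : CRef := CRef.mk (Pat.mk 0x20000000200000002000000020 0x8000000080000005f000000fe000000ff0000003000000020 8 8) 0 0 (step_sound _ 102 [(rh2f68792b6b779e96.shift 5 0), rhd5973d0d3a54b5c4] (by decide +kernel))
noncomputable def rhab69b9193cc85018 : CRef := CRef.mk (Pat.mk 0x20000000200000002000000020 0x8000000080000005f000000fe000000ff0000003000000020 8 8) 0 0 (step_sound _ 102 [(rh2f68792b6b779e96.shift 5 0), rhfdcd97de63d4a58a] (by decide +kernel))
noncomputable def rh22e55772dfe04723 : CRef := CRef.mk (Pat.mk 0x800000008000000080000000800000008 0x140000001c0000001c000000180000000c0000001f0000003c0000001c00000008 8 6) 0 0 (step_sound _ 98 [(rh50fbb5868c909700.shift 2 0), (rhae182e3a57d967e7.shift 0 1)] (by decide +kernel))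
noncomputable def rh8b4e143382c60276 : CRef := CRef.mk (Pat.mk 0x1000000010000000100000001800000000 0x280000003800000010000000ff0000007e00000027 8 8) 0 0 (step_sound _ 37 [(rh55afc6a59410cf00.shift 4 0), rhcd7dd4c3ff57fa1b] (by decide +kernel))
noncomputable def rh238dfe96441452dd : CRef := CRef.mk (Pat.mk 0x2000000120000000600000022000000a400000020000000000000000000000000 0x5000000070000000700000003000000030000001e00000006000000e2000000bc000001f8000001d80000005000000040 8 9) 0 0 (step_sound _ 132 [(rh2e8c37f65ed14456.shift 0 5), (rh60131db1effcf1bc.shift 2 0), (rhc924e5f7a4031fcc.shift 2 3)] (by decide +kernel))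
noncomputable def rh53ce98c440f4f2e0 : CRef := CRef.mk (Pat.mk 0x2000000120000001e00000002 0x50000000700000037000000360000003f0000001e0000001e00000002 8 6) 0 0 (step_sound _ 129 [(rh44f453b84f013105.shift 1 0), (rhba97f7f4ade5e136.shift 0 1), rhebd3c11f59be2cbd] (by decide +kernel))
noncomputable def rhbd27678d53491cff : CRef := CRef.mk (Pat.mk 0x1e0000000000000000 0x10000000700000007000000070000003f0000001e0000000700000002 8 6) 0 0 (step_sound _ 97 [rh1d78dab1cd5f7e30, (rh3244c3cc8379b070.shift 0 2)] (by decide +kernel))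
noncomputable def rh25de839e9c008433 : CRef := CRef.mk (Pat.mk 0x30000000c00000029000000080000000000000000 0x10000000730000007e0000002f000000780000007000000040 8 7) 0 0 (step_sound _ 132 [(rh09d4dfe75d4407d6.shift 0 4), rh7bd5a9e447539348] (by decide +kernel))
noncomputable def rh99d5b9ef2979bf4c : CRef := CRef.mk (Pat.mk 0xf00000008000000000000000000000000 0x40000001c0000001c0000001c0000001c0000000f000000080000001c0000001c00000014 8 5) 0 0 (step_sound _ 163 [(rh33e738c4ed385b9f.shift 0 4), (rhcbb0a083822849da.shift 2 0)] (by decide +kernel))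
noncomputable def rh62dcecc53faf83c1 : CRef := CRef.mk (Pat.mk 0xc0000002000000024000000200000000000000000 0xc0000001f000000780000003c0000007e0000001c00000014 8 7) 0 0 (step_sound _ 99 [(rh042e0f0ce201750f.shift 1 1), (rhabf575676fe0ef70.shift 2 2), (rhd31ad8cde770d6cd.shift 1 1), rhe4d523cfb9e4c280] (by decide +kernel))
noncomputable def rh4b5b940b21eff260 : CRef := CRef.mk (Pat.mk 0x10000000120000001e00000000 0x50000000700000007000000070000003f0000001e0000001e00000003 8 6) 0 0 (step_sound _ 1 [rh380e962e68659d29, rheb0810cc63b001d8] (by decide +kernel))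
noncomputable def rhde9a024a75bcc2d8 : CRef := CRef.mk (Pat.mk 0x8000000580000001800000000 0x3c0000003f00000038000000f80000001800000008 8 8) 0 0 (step_sound _ 131 [(rh2145e1d24b96a57e.shift 3 1), rh99701c9008ca365f] (by decide +kernel))
noncomputable def rh391e6aeea958789b : CRef := CRef.mk (Pat.mk 0x1c0000000c00000048 0x200000002000000030000001f0000003f0000007f 8 7) 0 0 (step_sound _ 33 [(rh53b3c253cb0c65f4.shift 0 1), rh7d5778ca233fe3ca] (by decide +kernel))
noncomputable def rh176e9b90035e335b : CRef := CRef.mk (Pat.mk 0x38000000600000002000000000 0x2c0000003c0000007c0000003e000000780000007f0000002c0000000c 8 7) 0 0 (step_sound _ 132 [rh9a323e9da0964c84, (rhc89253ff58c66167.shift 4 1), (rhe072fffdd2fccf38.shift 4 1)] (by decide +kernel))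
noncomputable def rhd94eec85b09820d1 : CRef := CRef.mk (Pat.mk 0x30000001200000002000000020 0x4e000000fe000001bf0000002000000020 8 9) 0 0 (step_sound _ 102 [(rh2f68792b6b779e96.shift 5 0), (rhf22663d8ae703112.shift 0 2)] (by decide +kernel))
noncomputable def rh544629f9993b9a36 : CRef := CRef.mk (Pat.mk 0x180000009000000010 0x28000000280000007f0000007e000000df00000010 8 8) 0 0 (step_sound _ 99 [rha579923211fdca03, (rhc89253ff58c66167.shift 3 0), (rhe072fffdd2fccf38.shift 3 0)] (by decide +kernel))
noncomputable def rh572ace3c3f6a224b : CRef := CRef.mk (Pat.mk 0x20000001e000000020000000000000000 0x300000007000000070000003e0000001e000000060000000300000003 8 6) 0 0 (step_sound _ 132 [(rh33e738c4ed385b9f.shift 1 3), rh6c4088caf4e79528] (by decide +kernel))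
noncomputable def rh67c65460973ddcef : CRef := CRef.mk (Pat.mk 0x1e000000000000000800000000 0x400000004000000070000001e0000003f0000000b0000000b 8 6) 0 0 (step_sound _ 68 [rhd1252e1f21e0b11f, (rhe25b0a99195a5d59.shift 1 2)] (by decide +kernel))
noncomputable def rhede7a913bbfdaf08 : CRef := CRef.mk (Pat.mk 0xe00000000000000080 0x40000003e7000001fe000001ff00000080 8 10) 0 0 (step_sound _ 68 [(rh185f35b8bd8ec37f.shift 2 1), (rh507c820bd498f3fc.shift 0 1), (rh6cc0f305be0098c0.shift 3 1), (rh7654d7b92c96fe12.shift 2 1), (rhed1419bd24fead7d.shift 3 0)] (by decide +kernel))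
noncomputable def rhd6372986e467aa61 : CRef := CRef.mk (Pat.mk 0x3800000000000000000000000000000000 0xc0000000c0000000f0000003e0000007f0000000e0000000e0000000a 8 7) 0 0 (step_sound _ 130 [(rh03c06803d1655eb6.shift 1 0), (rh0d378fd9e8917c5a.shift 0 3), (rh185f35b8bd8ec37f.shift 0 3), (rh592c7139d2c44767.shift 0 3)] (by decide +kernel))
noncomputable def rhf1a5c739604d4496 : CRef := CRef.mk (Pat.mk 0xa0000001a000000900000009000000080 0x100000001400000077000000ff0000005a000000ff000000d700000080 8 8) 0 0 (step_sound _ 130 [rh9254dec333938b9b, (rhb739f4f82bb681b4.shift 0 3)] (by decide +kernel))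
noncomputable def rh8bc4abfc476f3cec : CRef := CRef.mk (Pat.mk 0x20000001a0000001200000000 0x1000000070000000700000006000000030000001b0000001f00000005 8 5) 0 0 (step_sound _ 129 [rh20966da26a1c2ae8, rh36e6bb6cca6188da, rha893ef807ce322b1, rhfb405cddc3b2faa4] (by decide +kernel))
noncomputable def rhea2ab123d2846334 : CRef := CRef.mk (Pat.mk 0x40000000d000000000000000000000000000000000 0x3000000030000000fe000000fe0000007f000000380000003800000028 8 8) 0 0 (step_sound _ 133 [(rh03c06803d1655eb6.shift 3 0), (rh55c4ed4acec0f063.shift 2 3), (rh592c7139d2c44767.shift 2 3), (rha4e887c2a2a0f60b.shift 1 3), (rhd72e035d2f16b543.shift 0 3)] (by decide +kernel))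
noncomputable def rhf662a0f3107b5399 : CRef := CRef.mk (Pat.mk 0x800000008000000180000003000000000 0x20000000200000007f0000007f0000001e0000003000000010 8 7) 0 0 (step_sound _ 100 [(rh7b1f1fb55310c477.shift 3 0), (rhfc71a8e2f9894675.shift 0 1)] (by decide +kernel))
noncomputable def rh76de68150f28808e : CRef := CRef.mk (Pat.mk 0x80000001c00000018000000000000000000000000 0x770000007f0000001c00000018000000180000000800000008 8 7) 0 0 (step_sound _ 67 [(rh40241bd608e5be1a.shift 2 0), (rh750befad281eee48.shift 0 2), (rha707fb719e87fe6e.shift 3 1)] (by decide +kernel))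
noncomputable def rh00612dd337361f8b : CRef := CRef.mk (Pat.mk 0x2000000020000000300000006000000000 0x100000003000000030000000770000007e0000001f 8 7) 0 0 (step_sound _ 36 [(rh932754581e0f4330.shift 4 0), rhee0a8129e9bedfc2] (by decide +kernel))
noncomputable def rhd8a757daf8388885 : CRef := CRef.mk (Pat.mk 0x2000000020000000300000007000000000 0x500000007000000030000000770000007e0000000f 8 7) 0 0 (step_sound _ 132 [rh3a3ab2664d1381f5, (rh50fbb5868c909700.shift 4 1)] (by decide +kernel))
noncomputable def rh5402d89d0d342a88 : CRef := CRef.mk (Pat.mk 0x30000000300000002000000000 0x4800000048000000cf000001fe000001f70000003400000030 8 9) 0 0 (step_sound _ 99 [(rh6292bd8784ece55f.shift 2 2), (rh8fdc94bd12046e05.shift 1 0), (rha29636a05f167d4f.shift 3 0), (rhc92c11e8da6c894f.shift 0 2), (rhd22590dd64ac39a1.shift 1 0)] (by decide +kernel))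
noncomputable def rh90c25fb46e141444 : CRef := CRef.mk (Pat.mk 0x1c0000001800000000 0x3c0000007f000000fe0000001e0000001800000008 8 8) 0 0 (step_sound _ 100 [(rh16337c54e5e60ac4.shift 0 1), (rh503dd4575245365b.shift 3 0), (rhff7d63dcb3cf9f74.shift 1 2)] (by decide +kernel))
noncomputable def rh526f36f762e6f626 : CRef := CRef.mk (Pat.mk 0x3800000030000000000000000000000000 0x3c0000007c0000001e000000780000003e0000001f0000000c00000004 8 7) 0 0 (step_sound _ 99 [(rh8f7039354bfc4ec2.shift 1 0), (rhab2ad169e49f9c5e.shift 1 3), (rhd8eb0630a2f45a00.shift 0 1)] (by decide +kernel))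
noncomputable def rh56e7b40b7291011f : CRef := CRef.mk (Pat.mk 0x7000000000000000000000000000000000 0x1800000018000000ff0000007e0000001f0000001c0000001c00000014 8 8) 0 0 (step_sound _ 131 [(rh03c06803d1655eb6.shift 2 0), (rh4c622fddc53a5f99.shift 1 4), (rh988dac8d009f9f77.shift 0 3), (rh9e97bba44c1b13e4.shift 1 3)] (by decide +kernel))
noncomputable def rh1c05aabf677823fd : CRef := CRef.mk (Pat.mk 0x60000001c000000000000000000000000 0x30000000300000003000000070000001e000000070000000600000006 8 5) 0 0 (step_sound _ 97 [(rh3244c3cc8379b070.shift 0 3), rh822be8c6befcb82b] (by decide +kernel))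
noncomputable def rh51c3ca895621e214 : CRef := CRef.mk (Pat.mk 0x18000000180000001000000000 0x300000003c0000003f0000001f000000180000001800000008 8 6) 0 0 (step_sound _ 132 [(rh03dfdf12d5937476.shift 3 0), (rh503dd4575245365b.shift 3 1), (rh5fa50b509d4ce753.shift 3 1), rhc92adb09026e8c0a] (by decide +kernel))
noncomputable def rhe506c945a1ee89fa : CRef := CRef.mk (Pat.mk 0x4800000018000000100000001000000000 0x30000000780000001c0000001f0000003f0000002c 8 7) 0 0 (step_sound _ 132 [rh52da69560d6afc2c, (rh8d930ef2202f3fb0.shift 2 1)] (by decide +kernel))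
noncomputable def rhcbc2210cc93681ef : CRef := CRef.mk (Pat.mk 0x8000000030000000a00000000000000000000000000000000 0x2000000060000001f000000030000001f00000007000000070000000700000001 8 5) 0 0 (step_sound _ 130 [rh262447fc156361c7, (rhf48373e13d2bc128.shift 0 4)] (by decide +kernel))
noncomputable def rhe1c294874c7409c4 : CRef := CRef.mk (Pat.mk 0x1000000018000000180000001800000000 0xc0000001c0000001c0000001f0000003f00000007 8 6) 0 0 (step_sound _ 131 [rh4310fc046cc18785, (rh50fbb5868c909700.shift 3 1)] (by decide +kernel))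
noncomputable def rhf4fbb1b9236a794d : CRef := CRef.mk (Pat.mk 0x1800000018000000180000001000000000 0x70000003f0000001f0000001c0000001c0000000c 8 6) 0 0 (step_sound _ 35 [rh4e7ceac3c24ebede, (rh932754581e0f4330.shift 3 0)] (by decide +kernel))
noncomputable def rh3cca38aa06f632da : CRef := CRef.mk (Pat.mk 0xa00000003000000080000000000000000 0x10000000700000007000000070000001f000000030000001f0000000600000002 8 5) 0 0 (step_sound _ 130 [(rh18965a982d73c794.shift 0 3), rhcd0c09a8bae76a72] (by decide +kernel))
noncomputable def rh71075b63545df86a : CRef := CRef.mk (Pat.mk 0x60000000300000008000000000000000000000000 0x100000007000000070000000600000007000000030000001f000000070000000700000005 8 5) 0 0 (step_sound _ 97 [rh1b9022be4f7af407, (rh215e11e099257d75.shift 1 2), (rh873152f5c63c9e04.shift 0 2), rhe2588b4180893417, (rhe8045cab2fcb988d.shift 0 2)] (by decide +kernel))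
noncomputable def rh97ca6f776a25d864 : CRef := CRef.mk (Pat.mk 0x80000000c00000020000000000000000000000000 0x40000001c0000001c000000180000000c0000000f0000007c0000001c0000001c00000010 8 7) 0 0 (step_sound _ 99 [(rh2af0210ad3cd0058.shift 2 0), (rh8c25cb665ab79ec0.shift 0 3), (rhe2588b4180893417.shift 2 0), (rhe8045cab2fcb988d.shift 2 2)] (by decide +kernel))
noncomputable def rhbc234d174ca48365 : CRef := CRef.mk (Pat.mk 0x8000000030000000600000000000000000000000000000000 0x500000007000000070000001f000000030000000700000006000000070000000700000001 8 5) 0 0 (step_sound _ 193 [rh3f9b03d6a459e876, (rh70e33bfdf511e144.shift 1 1), (rhaa02d759ac0b5be0.shift 0 2), rhe71ac8da02dbefd9, (rhfb9fb48a5e63ed80.shift 0 3)] (by decide +kernel))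
noncomputable def rheaa525cab2814556 : CRef := CRef.mk (Pat.mk 0x200000000c0000000800000000000000000000000000000000 0x100000001c0000001c0000007c0000000f0000000c000000180000001c0000001c00000004 8 7) 0 0 (step_sound _ 195 [(rh3f9b03d6a459e876.shift 2 0), (rh9ab0ed084d168e00.shift 2 3), (rhe33d9496e10d8eb0.shift 0 5), (rhe71ac8da02dbefd9.shift 2 0)] (by decide +kernel))
noncomputable def rh890bcb427de20597 : CRef := CRef.mk (Pat.mk 0x100000001e0000001200000000000000000000000000000000 0x50000000700000007000000170000001e0000001e0000000f0000000f0000000700000005 8 5) 0 0 (step_sound _ 193 [(rh3244c3cc8379b070.shift 0 5), rh7ec013b03c8736a1] (by decide +kernel))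
noncomputable def rh6c1cdca9e0563a00 : CRef := CRef.mk (Pat.mk 0x280000000c00000020000000000000000000000000 0xa0000001f0000007a0000000f0000003e0000001c0000001c00000018 8 7) 0 0 (step_sound _ 164 [(rh18965a982d73c794.shift 2 4), rh2dd67086abd50df0] (by decide +kernel))
noncomputable def rhe93a86005ec16405 : CRef := CRef.mk (Pat.mk 0x5000000018000000480000000000000000 0x8000000080000000c000000fc000000180000007f0000003c0000001c 8 8) 0 0 (step_sound _ 35 [(rh71222050f2c63a3a.shift 3 0), rh753d8769fe7793a5] (by decide +kernel))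
noncomputable def rhe7b1cef18b79e1f3 : CRef := CRef.mk (Pat.mk 0x1800000018000000180000001800000000 0x40000001f0000001f0000001b0000001f00000007 8 5) 0 0 (step_sound _ 34 [rh89609278b6780218, (rh932754581e0f4330.shift 2 0)] (by decide +kernel))
noncomputable def rhfc2ea406fedd95c5 : CRef := CRef.mk (Pat.mk 0x120000001e00000010000000000000000000000000 0x5000000070000000f0000000f0000001e0000001e00000017000000070000000700000005 8 5) 0 0 (step_sound _ 97 [rhb406d3ee55f767b6, (rheb0810cc63b001d8.shift 0 3)] (by decide +kernel))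
noncomputable def rhb3a84f823285b4f5 : CRef := CRef.mk (Pat.mk 0x200000000c000000280000000000000000 0x180000001c0000001c0000003e0000000f0000007a0000001f0000000a 8 7) 0 0 (step_sound _ 68 [rhb1536bcd9f25cbb5, (rhf48373e13d2bc128.shift 2 2)] (by decide +kernel))
noncomputable def rh03720221dce5bb36 : CRef := CRef.mk (Pat.mk 0x480000001800000050000000000000000000000000 0x1c0000003c0000007f00000018000000fc0000000c0000000800000008 8 8) 0 0 (step_sound _ 195 [rh04addc76c3cd212c, (rh2145e1d24b96a57e.shift 3 3)] (by decide +kernel))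
noncomputable def rh93a6b901282244f0 : CRef := CRef.mk (Pat.mk 0x1800000018000000180000001800000000 0x70000001f0000001b0000001f0000001f00000004 8 5) 0 0 (step_sound _ 130 [(rh50fbb5868c909700.shift 2 1), rhed31eb97e70978b8] (by decide +kernel))
noncomputable def rh6c274d2d020a6b0a : CRef := CRef.mk (Pat.mk 0x200000000c00000038000000000000000000000000 0x140000007c0000000f000000380000001e0000001c00000014 8 7) 0 0 (step_sound _ 129 [(rh1c2e5d1f85693edf.shift 1 0), (rhb739f4f82bb681b4.shift 0 3)] (by decide +kernel))
noncomputable def rh5db3c2745ae3d1ae : CRef := CRef.mk (Pat.mk 0x380000000c0000002000000000 0x140000001c0000001e000000380000000f0000007c00000014 8 7) 0 0 (step_sound _ 65 [(rh53b3c253cb0c65f4.shift 0 2), (rhd23d3b38a1da9c9f.shift 1 0)] (by decide +kernel))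
noncomputable def rha5a3f4073b5bb156 : CRef := CRef.mk (Pat.mk 0x1c00000006000000000000000000000000 0x600000006000000070000001e00000007000000030000000300000003 8 5) 0 0 (step_sound _ 129 [rh89a182a5c191c2c5, (rheb0810cc63b001d8.shift 0 3)] (by decide +kernel))
noncomputable def rhe14fc7e364857bff : CRef := CRef.mk (Pat.mk 0x8000000180000001800000000 0xc0000000c0000000c0000001f0000001f0000000f 8 5) 0 0 (step_sound _ 131 [(rh2145e1d24b96a57e.shift 3 1), rhb1e8ee2230336338] (by decide +kernel))
noncomputable def rhf446cc0fdc5bfdeb : CRef := CRef.mk (Pat.mk 0x1800000018000000180000001800000000 0x20000000390000001f0000001f0000001f00000007 8 6) 0 0 (step_sound _ 34 [rh8bf52c477d698a46, (rh932754581e0f4330.shift 2 0)] (by decide +kernel))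
noncomputable def rh58490d8150452a41 : CRef := CRef.mk (Pat.mk 0x1800000018000000180000001800000000 0x70000001f0000001b0000001f0000001f00000004 8 5) 0 0 (step_sound _ 130 [(rh50fbb5868c909700.shift 2 1), rh6ae7ab53853a913f] (by decide +kernel))
noncomputable def rhca7a90608d5ccc41 : CRef := CRef.mk (Pat.mk 0x1800000018000000080000000000000000 0x70000001f0000001f0000000e0000000c0000000c 8 5) 0 0 (step_sound _ 35 [rh0668c447fd80549a, (rh71222050f2c63a3a.shift 3 0)] (by decide +kernel))
noncomputable def rh4237f462a9fac39e : CRef := CRef.mk (Pat.mk 0x800000008000000180000000800000000 0x40000000c0000000e0000001f0000001f00000017 8 5) 0 0 (step_sound _ 34 [rh648a4a8f5d0ea464, (rh932754581e0f4330.shift 2 0)] (by decide +kernel))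
noncomputable def rh9856bd5a5bf110f8 : CRef := CRef.mk (Pat.mk 0x80000001800000018000000000000000000000000 0x340000003f0000001f00000018000000180000001800000008 8 6) 0 0 (step_sound _ 68 [(rh7b1f1fb55310c477.shift 3 1), rhfdb7a135f424ad69] (by decide +kernel))
noncomputable def rhc910297120d18e1a : CRef := CRef.mk (Pat.mk 0x2000000100000000600000000000000000000000000000000 0x500000007000000070000000f0000001f0000000600000007000000070000000700000005 8 5) 0 0 (step_sound _ 161 [(rh14e0829dc73b6804.shift 0 3), rh233a76cd06273ad7, (rh70e33bfdf511e144.shift 1 1)] (by decide +kernel))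
noncomputable def rh7801be426ffd689d : CRef := CRef.mk (Pat.mk 0x100000006000000030000000000000000000000000000000000000000 0x500000007000000070000000700000006000000030000000300000007000000070000000700000001 8 3) 0 0 (step_sound _ 225 [(rh281c6819542c66e6.shift 0 2), rh61c77d157628455f, (rh668fc65514a55b16.shift 0 3), (rh68a777751bfeafdf.shift 0 4)] (by decide +kernel))
noncomputable def rh598f91d18bcc66c5 : CRef := CRef.mk (Pat.mk 0x1800000008000000180000001c00000000 0x60000007f0000003f0000001f0000001f00000002 8 7) 0 0 (step_sound _ 33 [(rh53b3c253cb0c65f4.shift 0 1), rhe4849805307f1679] (by decide +kernel))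
noncomputable def rha0f14535aaf04b1a : CRef := CRef.mk (Pat.mk 0x1000000010000000000000003000000000 0x2e0000007f0000003e000000180000003800000028 8 7) 0 0 (step_sound _ 68 [(rh55afc6a59410cf00.shift 4 0), rhbfe224b39bd022a6] (by decide +kernel))
noncomputable def rhf63e6767a4d7973d : CRef := CRef.mk (Pat.mk 0x10000000100000001000000000 0x28000000380000003e0000007f0000003e000000180000001800000008 8 7) 0 0 (step_sound _ 132 [(rh193da7fc9e1674f1.shift 3 0), (rh20966da26a1c2ae8.shift 3 0), (rh771d065bdc85bf2d.shift 3 0), rhbfe224b39bd022a6, (rhc85cc95794737cf7.shift 3 1)] (by decide +kernel))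
noncomputable def rhd7d261cc9481cf89 : CRef := CRef.mk (Pat.mk 0x1000000010000000100000001000000000 0x800000018000000180000003f0000007e0000002f 8 7) 0 0 (step_sound _ 35 [rh8c9f90f5a2d5a18f, (rh932754581e0f4330.shift 3 0)] (by decide +kernel))
noncomputable def rhffda8a88c63a3621 : CRef := CRef.mk (Pat.mk 0x200000002000000020000000200000000000000000000000000000000 0x40000000600000007000000030000000300000006000000070000000700000001 8 3) 0 0 (step_sound _ 226 [(rh2f68792b6b779e96.shift 1 4), rh4de12cc7feafb128] (by decide +kernel))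
noncomputable def rh47cb302106d74e2a : CRef := CRef.mk (Pat.mk 0x60000000b00000002000000000000000000000000 0x140000001c0000001c0000001e0000000b0000001e0000001c0000001c00000014 8 5) 0 0 (step_sound _ 163 [(rh18965a982d73c794.shift 0 4), rhf8cc6566a25825fd] (by decide +kernel))
noncomputable def rh2f49f0d2b09f94e7 : CRef := CRef.mk (Pat.mk 0xc000000000000000c0000000000000000000000000000000000000000 0x140000001c0000003c0000000f000000080000000c0000000c0000001c0000001c0000001c00000004 8 6) 0 0 (step_sound _ 195 [(rh281c6819542c66e6.shift 2 2), (rh47ecea03df6fae84.shift 2 3), (rh4f34fdf39c8bfb04.shift 0 4), (rh61c77d157628455f.shift 2 0), (rh68a777751bfeafdf.shift 2 4), (rhb1a251d9bff81766.shift 2 4)] (by decide +kernel))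
noncomputable def rh108ae7717c23a852 : CRef := CRef.mk (Pat.mk 0x2000000020000000200000002000000000 0x5f000000fe000000fc000000300000003000000010 8 8) 0 0 (step_sound _ 132 [(rh50fbb5868c909700.shift 4 1), rh5160138ce69f6052] (by decide +kernel))
noncomputable def rhb2e8ce3297b78ea1 : CRef := CRef.mk (Pat.mk 0x10000000000000007000000020000000000000000000000000 0x100000001e0000007e0000007f0000001c0000001c00000014 8 7) 0 0 (step_sound _ 131 [(rh4f8edb321cf5b49d.shift 1 3), (rh592c7139d2c44767.shift 1 3), (rh5c8f5b6734dfd8f9.shift 2 0), (rha0ae8adeb1dbcf8d.shift 0 3)] (by decide +kernel))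
noncomputable def rh4f99cffbd657d358 : CRef := CRef.mk (Pat.mk 0xc00000000000000180000000800000000000000000000000000000000 0xc0000001e0000001f0000001f0000001f0000001c0000001c00000014 8 5) 0 0 (step_sound _ 195 [(rh35c57459bec5e8de.shift 0 3), (rh8cdd36b03d57a2f6.shift 2 2), (rha613ffd40b6c9d24.shift 2 2), (rhb2334dead4e9a08c.shift 2 0)] (by decide +kernel))
noncomputable def rh502c745d53c803fe : CRef := CRef.mk (Pat.mk 0xc00000000000000180000000800000000 0x40000000c0000000e0000001f0000001f00000017 8 5) 0 0 (step_sound _ 99 [rh35c57459bec5e8de, (rh50fbb5868c909700.shift 2 1)] (by decide +kernel))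
noncomputable def rhb0efbadc3906b2d2 : CRef := CRef.mk (Pat.mk 0xc000000480000000800000000 0x12000000330000003f0000007f0000000c00000004 8 7) 0 0 (step_sound _ 68 [(rh2fe78cc5ca4405d8.shift 2 2), rhb43a63bf123b720f] (by decide +kernel))
noncomputable def rhb7c65291bb7e0616 : CRef := CRef.mk (Pat.mk 0x200000006000000020000000000000000000000000000000000000000 0x400000006000000060000000700000007000000070000000300000003000000070000000700000005 8 3) 0 0 (step_sound _ 129 [rh6b7644617a28bc5d, (rha707fb719e87fe6e.shift 1 3), (rhdd474ad759fb06b7.shift 0 3)] (by decide +kernel))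
noncomputable def rh39b2a7d6ed212c96 : CRef := CRef.mk (Pat.mk 0x200000006000000020000000000000000000000000000000000000000 0x1000000030000000700000007000000030000000300000007000000070000000700000005 8 3) 0 0 (step_sound _ 129 [rh6b7644617a28bc5d, (rh771d065bdc85bf2d.shift 0 3), rhbb8a11291ee9661c, (rhc4526fc8abf298b6.shift 0 2)] (by decide +kernel))
noncomputable def rh2ce42d98aa524e3e : CRef := CRef.mk (Pat.mk 0x1800000018000000080000000000000000 0xf0000001f0000001f0000000c0000000c0000000c 8 5) 0 0 (step_sound _ 35 [rh13944d096ef01147, (rh71222050f2c63a3a.shift 3 0)] (by decide +kernel))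
noncomputable def rh1451fb88c146e794 : CRef := CRef.mk (Pat.mk 0x1800000018000000180000001800000000 0x70000001f0000001f0000001f0000003900000020 8 6) 0 0 (step_sound _ 130 [rh3c44a6ff6b1725ba, (rh50fbb5868c909700.shift 2 1)] (by decide +kernel))
noncomputable def rh409ccfb5c1e19dfc : CRef := CRef.mk (Pat.mk 0x1800000018000000180000001800000000 0x40000001f0000001f0000001b0000001f00000007 8 5) 0 0 (step_sound _ 34 [rh1421e40f6ee4155f, (rh932754581e0f4330.shift 2 0)] (by decide +kernel))
noncomputable def rhfa68d77a8eb0398e : CRef := CRef.mk (Pat.mk 0x8000000180000001800000000 0xc0000000c0000000e0000001f0000001f00000007 8 5) 0 0 (step_sound _ 131 [(rh2145e1d24b96a57e.shift 3 1), rhbb66889bafd98e97] (by decide +kernel))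
noncomputable def rhb2fb99c2d88149c2 : CRef := CRef.mk (Pat.mk 0x800000018000000080000000800000000 0x170000001f0000001f0000000e0000000c00000004 8 5) 0 0 (step_sound _ 130 [(rh50fbb5868c909700.shift 2 1), rhd7bd9d00d87c3c7a] (by decide +kernel))
noncomputable def rhe7fe121323391a2a : CRef := CRef.mk (Pat.mk 0x18000000180000000800000000 0x80000001800000018000000180000001f0000003f00000034 8 6) 0 0 (step_sound _ 132 [(rh5c5e593799055d58.shift 3 1), rhe0c3f2217ea1932c] (by decide +kernel))
noncomputable def rh77c5bbcfe31ce7ea : CRef := CRef.mk (Pat.mk 0x60000001000000002000000000000000000000000 0x5000000070000000700000007000000060000001f0000000f000000070000000700000005 8 5) 0 0 (step_sound _ 129 [(rh1a77ad8ec79f7516.shift 0 2), (rh215e11e099257d75.shift 1 2), rhffb8e5993241bf15] (by decide +kernel))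
noncomputable def rh94e1dae75c471bde : CRef := CRef.mk (Pat.mk 0x30000000600000001000000000000000000000000 0x100000007000000070000000700000003000000030000000600000007000000070000000700000005 8 3) 0 0 (step_sound _ 97 [rh56259dd1390eee46, (rhb1a251d9bff81766.shift 0 2), (rhbb339bb7e4e96b38.shift 0 2), (rhc521446c57d25f07.shift 0 2)] (by decide +kernel))
noncomputable def rh03429bc7267c41a5 : CRef := CRef.mk (Pat.mk 0x1c00000018000000080000001800000000 0x20000001f0000001f0000003f0000007f00000006 8 7) 0 0 (step_sound _ 129 [rh6b8445460f3ccb2a, (rhb739f4f82bb681b4.shift 0 3)] (by decide +kernel))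
noncomputable def rhebfc976813209182 : CRef := CRef.mk (Pat.mk 0x3000000000000000100000001000000000 0x2800000038000000180000003e0000007f0000002e 8 7) 0 0 (step_sound _ 100 [(rh2f68792b6b779e96.shift 4 1), rh39ec536f32deb957] (by decide +kernel))
noncomputable def rh364574667b51295a : CRef := CRef.mk (Pat.mk 0x10000000100000001000000000000000000000000000000000 0x800000018000000180000003e0000007f0000003e0000003800000028 8 7) 0 0 (step_sound _ 100 [(rh39ec536f32deb957.shift 0 2), (rh8cdd36b03d57a2f6.shift 3 1), (rh8ff3dde5b1c639e0.shift 3 1), (rhc4526fc8abf298b6.shift 3 1), (rhc850b49d039efae1.shift 3 0)] (by decide +kernel))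
noncomputable def rhcad5cd41a0833516 : CRef := CRef.mk (Pat.mk 0x1000000010000000100000001000000000 0x2f0000007e0000003f000000180000001800000008 8 7) 0 0 (step_sound _ 131 [(rh50fbb5868c909700.shift 3 1), rhf63555b3ca00b367] (by decide +kernel))
noncomputable def rh5c02f9c76b250244 : CRef := CRef.mk (Pat.mk 0x200000002000000020000000200000000 0x10000000700000007000000060000000300000003000000070000000600000004 8 3) 0 0 (step_sound _ 34 [(rh55afc6a59410cf00.shift 1 0), (rh91282f98d4e8ad3c.shift 0 1)] (by decide +kernel))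
noncomputable def rh9db4c888db2f22b3 : CRef := CRef.mk (Pat.mk 0x20000000b00000006000000000000000000000000 0x140000001c0000001c0000001e0000000b0000001e0000001c0000001c00000014 8 5) 0 0 (step_sound _ 99 [rhc139c4ce22601657, (rhf48373e13d2bc128.shift 0 3)] (by decide +kernel))
noncomputable def rh30d90ac17b9ab3d1 : CRef := CRef.mk (Pat.mk 0xc000000000000000c000000000000000000000000 0x40000001c0000001c0000001c0000000c0000000c000000080000000f0000003c0000001c00000014 8 6) 0 0 (step_sound _ 131 [(rh281c6819542c66e6.shift 2 0), (rh56259dd1390eee46.shift 2 0), (rh69a3776feaa48c5d.shift 2 2), (rhb1a251d9bff81766.shift 2 2), (rhc521446c57d25f07.shift 2 2), (rhded67413d3ef3da1.shift 0 1)] (by decide +kernel))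
noncomputable def rh4c5b6f5be70356db : CRef := CRef.mk (Pat.mk 0x2000000020000000200000002000000000 0x100000003000000030000000fc000000fe0000005f 8 8) 0 0 (step_sound _ 36 [(rh932754581e0f4330.shift 4 0), rhd720d9242027bc00] (by decide +kernel))
noncomputable def rh44e92dcc048aa319 : CRef := CRef.mk (Pat.mk 0x20000000700000000000000010 0x140000001c0000001c0000007f0000007e0000001e00000010 8 7) 0 0 (step_sound _ 67 [(rh3e0b38310ac09007.shift 0 2), (rh55c4ed4acec0f063.shift 1 1), (rh775ca1963e850b80.shift 1 1), (rhe8d57b97e55d6ec7.shift 2 0)] (by decide +kernel))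
noncomputable def rhc808ef50a185a442 : CRef := CRef.mk (Pat.mk 0x800000018000000000000000c 0x140000001c0000001c0000001f0000001f0000001f0000001e0000000c 8 5) 0 0 (step_sound _ 35 [(rh716f496a6f55b076.shift 2 0), (rh9a369cb82ea472da.shift 2 0), rhb9adf74fa6d7ddae, (rhc85cc95794737cf7.shift 2 0)] (by decide +kernel))
noncomputable def rhe383be776ef489d9 : CRef := CRef.mk (Pat.mk 0x800000018000000000000000c00000000 0x170000001f0000001f0000000e0000000c00000004 8 5) 0 0 (step_sound _ 67 [(rh932754581e0f4330.shift 2 0), (rhb9adf74fa6d7ddae.shift 0 1)] (by decide +kernel))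
noncomputable def rh2e883ccb2e85cccb : CRef := CRef.mk (Pat.mk 0x8000000480000000c0000000000000000 0x40000000c0000007f0000003f0000003300000012 8 7) 0 0 (step_sound _ 100 [rh0ff963783a3dd728, (rh361cc68994bd8a63.shift 2 2)] (by decide +kernel))
noncomputable def rh42e8034d4874bc94 : CRef := CRef.mk (Pat.mk 0x20000000600000002000000000000000000000000 0x500000007000000070000000300000003000000070000000700000007000000060000000600000004 8 3) 0 0 (step_sound _ 193 [rh4a2ef90436fa9e13, (rhcd6f12620c36a682.shift 0 3), (rhd4b4beefcd67f51e.shift 1 2)] (by decide +kernel))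
noncomputable def rhb26340aed194a825 : CRef := CRef.mk (Pat.mk 0x200000006000000020000000000000000 0x5000000070000000700000007000000030000000300000007000000070000000300000001 8 3) 0 0 (step_sound _ 161 [(rh771d065bdc85bf2d.shift 0 1), (rh9bd84e06d77e62f6.shift 0 2), rhc4526fc8abf298b6, (rhcd6f12620c36a682.shift 0 2)] (by decide +kernel))
noncomputable def rh9b9a99813c68398d : CRef := CRef.mk (Pat.mk 0x80000000b0000000a0000000000000000000000000000000000000000 0x80000000b0000001f0000003c0000001c0000001c0000001c00000004 8 6) 0 0 (step_sound _ 162 [rh5354e47e6ed2ac33, (rhf48373e13d2bc128.shift 0 5)] (by decide +kernel))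
noncomputable def rhb104857dd9c10002 : CRef := CRef.mk (Pat.mk 0x80000001a0000001e00000000000000000000000000000000 0x400000004000000060000000f0000001e0000001e0000000b000000070000000700000005 8 5) 0 0 (step_sound _ 194 [(rh78e424ef2951d21e.shift 1 3), rhbd4b69c657792f99, (rhf9a6286f1d5377a2.shift 2 3)] (by decide +kernel))
noncomputable def rh066bc44b95f79a95 : CRef := CRef.mk (Pat.mk 0x100000003400000004000000000000000000000000 0xa0000000e0000000f0000001e000000f600000006000000060000000600000002 8 8) 0 0 (step_sound _ 162 [(rh04bc0bc315096e76.shift 1 1), (rh5f452f890cbd7cd4.shift 1 1), (rhbe5703805fd7fa8f.shift 1 2), (rhc522833f09a27255.shift 0 2), (rhf2eb0d5b8c248a4e.shift 1 0)] (by decide +kernel))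
noncomputable def rh0982409dd09ad83d : CRef := CRef.mk (Pat.mk 0x10000000d000000080 0x7f000001fe000000c7 8 9) 0 0 (step_sound _ 37 [(rh3244c3cc8379b070.shift 3 1), rhb0e13791a95643de] (by decide +kernel))
noncomputable def rh212a89ef3f4379a9 : CRef := CRef.mk (Pat.mk 0x20000001a0000001200000010000000000000000000000000 0x10000000f0000001f0000000f0000001b0000001a00000013000000070000000700000005 8 5) 0 0 (step_sound _ 97 [(rh4ebd90bd92772a20.shift 0 3), (rh97e428c054eb3c0a.shift 0 3), (rhc4526fc8abf298b6.shift 0 1), rhc850b49d039efae1] (by decide +kernel))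
noncomputable def rh374d8aee495b7b8f : CRef := CRef.mk (Pat.mk 0x1e000000020000000000000000000000000000000000000000 0x10000000700000007000000070000001e000000060000000300000007000000070000000700000005 8 5) 0 0 (step_sound _ 225 [(rh3244c3cc8379b070.shift 0 6), rh9cbb0e312d7cbbb3] (by decide +kernel))
noncomputable def rh2168740fa36ac074 : CRef := CRef.mk (Pat.mk 0x800000060000000480000004000000000 0x140000001c0000007c0000002f0000007e0000007c000000ee00000004 8 8) 0 0 (step_sound _ 69 [(rh08436c2649689ebd.shift 1 1), rh24ea301ad3b731d7, (rh473b2f7acaa88f87.shift 1 1), (rh9e85d6b9ab5a43e7.shift 2 1), (rhf762bcda196c9e5f.shift 1 1)] (by decide +kernel))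
noncomputable def rhe2f90e3326c0197d : CRef := CRef.mk (Pat.mk 0x2000000020000000200000002000000000 0x5f000000fe0000007c000000380000003000000010 8 8) 0 0 (step_sound _ 132 [(rh50fbb5868c909700.shift 4 1), rhd333a05ea47170bd] (by decide +kernel))
noncomputable def rh4f206d3f8a6f638b : CRef := CRef.mk (Pat.mk 0x2000000080000001e00000010 0x1000000070000001f0000000e0000000b0000001e00000013 8 5) 0 0 (step_sound _ 65 [(rh3244c3cc8379b070.shift 0 1), rhd2a0fb2755dd4492] (by decide +kernel))
noncomputable def rh6f931acf8cf20b6c : CRef := CRef.mk (Pat.mk 0x5000000050000000d000000000 0x20000000380000003f0000003e0000007700000078000000d000000050 8 8) 0 0 (step_sound _ 132 [(rh565169fdbcfbf9eb.shift 0 1), (rha1bb7b9a3b189997.shift 3 0), (rhc5998ce9d02e6204.shift 4 0), (rhc85cc95794737cf7.shift 3 1), (rhfb179d972138044b.shift 3 1)] (by decide +kernel))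
noncomputable def rhf9dfc51ee078650d : CRef := CRef.mk (Pat.mk 0xa0000000b00000008 0x40000001c0000001c0000001c0000003c0000001f0000000b00000008 8 6) 0 0 (step_sound _ 66 [(rh18965a982d73c794.shift 0 1), rh3b2041359e6d1085] (by decide +kernel))
noncomputable def rh12ca04846377c794 : CRef := CRef.mk (Pat.mk 0x1e0000001a00000008000000000000000000000000 0x500000007000000070000000b0000001e0000001e0000000f000000060000000400000004 8 5) 0 0 (step_sound _ 98 [(rh4f7aa851c68c5803.shift 1 0), (rh81cb3c29c6fb1814.shift 0 3), (rhfafeb437ceb8396d.shift 2 0)] (by decide +kernel))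
noncomputable def rh207de66a44e8b82c : CRef := CRef.mk (Pat.mk 0x40000003400000010000000000000000000000000 0x2000000060000000600000006000000f60000001e0000000f0000000e0000000a 8 8) 0 0 (step_sound _ 98 [(rh168fed7625321222.shift 1 0), rh2d49e5c3e37433a0, (rh7183d73c74feafce.shift 1 2), (rh794501743a61ce18.shift 1 0), (rhe95a2e51b0ee5fdb.shift 1 0)] (by decide +kernel))
noncomputable def rh529dbabb2a6c0429 : CRef := CRef.mk (Pat.mk 0x80000000d000000010 0xc7000001fe0000007f 8 9) 0 0 (step_sound _ 37 [rh1b3382ecb325b895, (rheb0810cc63b001d8.shift 3 0)] (by decide +kernel))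
noncomputable def rh030500ba0764469f : CRef := CRef.mk (Pat.mk 0x10000000120000001a00000002000000000000000000000000 0x50000000700000007000000130000001a0000001b0000000f0000001f0000000f00000001 8 5) 0 0 (step_sound _ 193 [(rh193da7fc9e1674f1.shift 0 2), (rh5c735efb546c43d8.shift 0 1), (rh771d065bdc85bf2d.shift 0 2), rh7bb88d00bf5ff4e2] (by decide +kernel))
noncomputable def rhe81d76997e665179 : CRef := CRef.mk (Pat.mk 0x20000001e00000000000000000000000000000000 0x500000007000000070000000700000003000000060000001e00000007000000070000000700000001 8 5) 0 0 (step_sound _ 97 [rhc1cef1f6a0bbb739, (rheb0810cc63b001d8.shift 0 3)] (by decide +kernel))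
noncomputable def rhb3387b6e8aae7569 : CRef := CRef.mk (Pat.mk 0x40000000480000006000000008000000000000000000000000 0x4000000ee0000007c0000007e0000002f0000007c0000001c00000014 8 8) 0 0 (step_sound _ 165 [(rh0109c1f5b269e043.shift 1 5), (rh6b20c526ec8deffc.shift 1 4), rha7737f43cfd9648e, (rhb63f16694a63b337.shift 1 4), (rhbb4420c8950163a5.shift 2 2)] (by decide +kernel))
noncomputable def rh60bc5ea561e94b8b : CRef := CRef.mk (Pat.mk 0x2000000020000000200000002000000000 0x1000000030000000380000007c000000fe0000005f 8 8) 0 0 (step_sound _ 36 [(rh932754581e0f4330.shift 4 0), rha8d064aec974c436] (by decide +kernel))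
noncomputable def rhbf15faf1c2b3c8a3 : CRef := CRef.mk (Pat.mk 0x100000001e0000000800000002000000000000000000000000 0x130000001e0000000b0000000e0000001f0000000700000001 8 5) 0 0 (step_sound _ 129 [rh9656a0adefdbe6cb, (rheb0810cc63b001d8.shift 0 4)] (by decide +kernel))
noncomputable def rh93de9c75d5b261a0 : CRef := CRef.mk (Pat.mk 0xd0000000500000005000000000000000000000000000000000 0x50000000d000000078000000770000003e0000003f0000003800000020 8 8) 0 0 (step_sound _ 100 [(rh0b62d136262e8d56.shift 3 1), (rh5127e7c97837a809.shift 3 0), (rh8cdd36b03d57a2f6.shift 3 1), (rhd92f1551f0fdfa3f.shift 0 2), (rhfef0a9b9c00f57c1.shift 4 2)] (by decide +kernel))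
noncomputable def rh600ec3b8a1485e87 : CRef := CRef.mk (Pat.mk 0x1a0000001e0000000200000000 0x17000000170000003f0000001e0000001e0000000a00000008 8 6) 0 0 (step_sound _ 132 [rh2444e76f61b71095, (rh503dd4575245365b.shift 3 1), (rhec9d84076eed1856.shift 0 1)] (by decide +kernel))
noncomputable def rhbe084178632aba19 : CRef := CRef.mk (Pat.mk 0x180000001e000000100000000000000000 0x3000000030000000300000001f0000001e0000001b0000003000000030 8 6) 0 0 (step_sound _ 129 [(rh3244c3cc8379b070.shift 0 3), rh5e2610addfc44fc1] (by decide +kernel))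
noncomputable def rhdc4c385d09a4fb22 : CRef := CRef.mk (Pat.mk 0x180000001e000000100000001000000000 0x3000000030000001f0000001e000000170000003c00000028 8 6) 0 0 (step_sound _ 129 [(rh3244c3cc8379b070.shift 0 3), rhc9f5bcb8a5b2f67c] (by decide +kernel))
noncomputable def rhd2ddbe88a8c68dc0 : CRef := CRef.mk (Pat.mk 0x100000001c0000001000000000000000000000000000000000 0xc0000001f0000003c0000001e00000078000000380000003800000028 8 7) 0 0 (step_sound _ 100 [(rh8c892ddaa71499ee.shift 0 2), (rhbaff7ec0fcc038ba.shift 3 0), (rhd1779d7de7f8215b.shift 3 0), (rhe286c75f2739cce2.shift 3 2)] (by decide +kernel))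
noncomputable def rh8a6c6845836f3233 : CRef := CRef.mk (Pat.mk 0x6000000030000000000000000000000000 0x1000000010000000380000003c0000007f0000007c000000380000001000000010 8 7) 0 0 (step_sound _ 99 [rh34dc8da0cdeaa1ff, (rh53b3c253cb0c65f4.shift 2 3)] (by decide +kernel))
noncomputable def rha3e85e8cd0a2174b : CRef := CRef.mk (Pat.mk 0x180000000c000000400000000000000000 0x10000000180000001c0000000c0000001c0000001f0000007c0000001c00000004 8 7) 0 0 (step_sound _ 97 [(rh53b3c253cb0c65f4.shift 0 3), (rha80c708cfbead677.shift 1 0)] (by decide +kernel))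
noncomputable def rh81de3e6bbacc1a7c : CRef := CRef.mk (Pat.mk 0x180000000c00000040000000000000000000000000 0x140000001c0000001c000000180000000f0000007c0000001c0000001c00000014 8 7) 0 0 (step_sound _ 128 [(rh24ae073cf30720c4.shift 0 4), (rhd7c567a927574595.shift 2 0)] (by decide +kernel))
noncomputable def rh9b057c7f07519584 : CRef := CRef.mk (Pat.mk 0x20000001e0000001a000000000000000000000000 0x80000000a0000001e0000001e0000003f0000001700000017 8 6) 0 0 (step_sound _ 68 [rh0e016af0ed99a6ab, (rh3cb04db3dd2b6a55.shift 3 0), rh43e6117207b0e5da] (by decide +kernel))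
noncomputable def rh874c821f73e699f8 : CRef := CRef.mk (Pat.mk 0x100000001e00000018000000000000000000000000 0x30000000300000001b0000001e0000001f000000300000003000000030 8 6) 0 0 (step_sound _ 97 [(rheb0810cc63b001d8.shift 0 3), rhebfae94a1e240809] (by decide +kernel))
noncomputable def rh60513d8ac0c2b3dc : CRef := CRef.mk (Pat.mk 0x10000000100000001e000000180000000000000000 0x280000003c000000170000001e0000001f0000000300000003 8 6) 0 0 (step_sound _ 65 [rha7b489ab1f604df5, (rheb0810cc63b001d8.shift 0 2)] (by decide +kernel))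
noncomputable def rhccc465e4178a099e : CRef := CRef.mk (Pat.mk 0x100000001c0000001000000000 0x280000003800000038000000780000001e0000003c0000001f0000000c 8 7) 0 0 (step_sound _ 132 [(rh03dfdf12d5937476.shift 3 0), (rh42ab489a1be3958e.shift 3 1), (rh7a7e08304268422e.shift 3 1), rhf17f441682b5e6f8] (by decide +kernel))
noncomputable def rh9416af69aa2d1af4 : CRef := CRef.mk (Pat.mk 0x300000006000000000000000000000000000000000 0x1000000010000000380000007c0000007f0000003c000000380000001000000010 8 7) 0 0 (step_sound _ 163 [rh555ceee39862ac7d, (rhb739f4f82bb681b4.shift 2 4)] (by decide +kernel))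
noncomputable def rhaf8b4fc0cd973ed3 : CRef := CRef.mk (Pat.mk 0x400000000c0000001800000000000000000000000000000000 0x40000001c0000007c0000001f0000001c0000000c0000001c0000001800000010 8 7) 0 0 (step_sound _ 161 [(rh05e81f00c7f62ca1.shift 1 0), (rhb739f4f82bb681b4.shift 0 4)] (by decide +kernel))
noncomputable def rh4996befd3bb78d64 : CRef := CRef.mk (Pat.mk 0x400000000c00000018000000000000000000000000 0x140000001c0000001c0000007c0000000f000000180000001c0000001c00000014 8 7) 0 0 (step_sound _ 128 [(rh0e3fd6f9f7c56c6c.shift 2 0), (rhab22b5b56e7b3243.shift 0 3)] (by decide +kernel))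
noncomputable def rh3335926a1eb6b5e8 : CRef := CRef.mk (Pat.mk 0x300000001c0000008000000000000000000000000000000000 0x280000003800000038000000380000003c000000ff0000001e000000340000003400000020 8 8) 0 0 (step_sound _ 132 [(rh000637b5a81e86aa.shift 3 2), (rh215e11e099257d75.shift 4 3), (rh63aae37a5ea11039.shift 3 0), (rhc3c85d91d0ac033e.shift 0 1)] (by decide +kernel))
noncomputable def rhd993ca6e56657236 : CRef := CRef.mk (Pat.mk 0x1a0000001e000000020000000000000000 0x180000003c0000003f0000001e0000001e000000060000000600000002 8 6) 0 0 (step_sound _ 130 [(rh058b3baf2a1f70c5.shift 0 1), (rh84d1c02a8954c6a8.shift 1 1), rh91a354e885dc0f48, (rhea7a1800d6f053bd.shift 1 0)] (by decide +kernel))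
noncomputable def rhbf21c1b7096a9243 : CRef := CRef.mk (Pat.mk 0x1a0000001e000000000000000000000000 0x28000000380000003c000000340000001e0000001e0000000b0000000200000002 8 6) 0 0 (step_sound _ 65 [(rh380d707ab50b892b.shift 1 0), (rheb0810cc63b001d8.shift 0 2)] (by decide +kernel))
noncomputable def rh5834d070b73de990 : CRef := CRef.mk (Pat.mk 0xd0000000f000000010000000200000000 0x140000001c0000001c000000180000000f0000000f000000050000000300000003 8 5) 0 0 (step_sound _ 32 [rh55afc6a59410cf00, rh764fcefe6d9a6d6b] (by decide +kernel))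
noncomputable def rh591182709f252ff1 : CRef := CRef.mk (Pat.mk 0x30000000180000001000000000000000000000000000000000 0x200000003000000018000000180000003e0000007f0000003e00000028 8 7) 0 0 (step_sound _ 100 [(rh2f68792b6b779e96.shift 4 3), rh9d6f8faf656a0a57] (by decide +kernel))
noncomputable def rhde1e8ce8a5b51144 : CRef := CRef.mk (Pat.mk 0x1000000030000000180000001800000000 0x280000007e0000003e000000380000001f00000004 8 7) 0 0 (step_sound _ 131 [(rh50fbb5868c909700.shift 3 1), rhf95bda2b09d25edf] (by decide +kernel))
noncomputable def rh72e63d714a13bc0c : CRef := CRef.mk (Pat.mk 0x1a0000001e000000100000000000000000 0x4000000070000001e0000001e0000001b0000001f0000001f 8 5) 0 0 (step_sound _ 35 [rhc150b639ade37442, (rhe437f081bfcdb831.shift 3 0), rhf11c180ee7210978] (by decide +kernel))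
noncomputable def rhb93304f30ff8e958 : CRef := CRef.mk (Pat.mk 0x180000001e000000100000000000000000 0x1c0000001e000000170000003e0000003f 8 6) 0 0 (step_sound _ 36 [rh12e35db25aa48f6b, (rh7b1f1fb55310c477.shift 3 0)] (by decide +kernel))
noncomputable def rh53c39d62899594f6 : CRef := CRef.mk (Pat.mk 0x4000000070000001000000000000000000000000000000000 0xa0000000e0000000e0000000e00000004000000070000003e0000000e0000000e0000000e00000002 8 6) 0 0 (step_sound _ 130 [(rh2af0210ad3cd0058.shift 1 1), (rh68691964b29f233d.shift 0 4), (rh84bfb9cf6d67624b.shift 1 0)] (by decide +kernel))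
noncomputable def rh5671b10472da9848 : CRef := CRef.mk (Pat.mk 0x100000001800000088000000000000000000000000 0x18000000180000001800000038000000ff000000770000003000000030 8 8) 0 0 (step_sound _ 196 [(rh5c5e593799055d58.shift 3 3), rhd1e50a2a087f5b51] (by decide +kernel))
noncomputable def rh72eef7e356518668 : CRef := CRef.mk (Pat.mk 0x180000001e000000100000000000000000 0x140000001c0000001e0000001b0000001f0000001e 8 5) 0 0 (step_sound _ 36 [rh502c001bd9d174e1, (rh7b1f1fb55310c477.shift 3 0)] (by decide +kernel))
noncomputable def rh6c75f75cc965fff4 : CRef := CRef.mk (Pat.mk 0x180000001e0000000000000000000000000000000000000000 0x40000001e0000001f0000001e0000000b0000000f0000000f0000000700000005 8 5) 0 0 (step_sound _ 193 [rh166f126d1798b47c, (rh3244c3cc8379b070.shift 0 5)] (by decide +kernel))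
noncomputable def rh367989083b658e34 : CRef := CRef.mk (Pat.mk 0x800000001c00000030000000000000000000000000 0x2000000034000000340000001e000000ff0000003c00000038000000380000003800000028 8 8) 0 0 (step_sound _ 164 [(rh70e33bfdf511e144.shift 4 0), rh8dfd2e44885dccbf, (rhb23658ecdd7ce5df.shift 3 2), (rhdae9388eef521f76.shift 3 2)] (by decide +kernel))
noncomputable def rh759cd0b3f819ba17 : CRef := CRef.mk (Pat.mk 0x20000001e0000001a000000000000000000000000 0x200000006000000060000001e0000001e0000003f0000003c00000018 8 6) 0 0 (step_sound _ 98 [(rh3e595262c1b737ad.shift 1 2), rh51472befb67cfb50, (rh55a1f6c57a317ce6.shift 1 1), rhb62edbf18b8ea5b2] (by decide +kernel))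
noncomputable def rh686309ab50c84075 : CRef := CRef.mk (Pat.mk 0x1e0000001a00000000000000000000000000000000 0x2000000020000000b0000001e0000001e000000340000003c0000003800000028 8 6) 0 0 (step_sound _ 193 [(rh3244c3cc8379b070.shift 0 5), (rha7d1e73d528d717b.shift 1 0)] (by decide +kernel))
noncomputable def rh4d059ba98ece9c43 : CRef := CRef.mk (Pat.mk 0x2000000010000000f0000000d00000000000000000000000000000000 0x300000003000000050000000f0000000f000000180000001c0000001c00000014 8 5) 0 0 (step_sound _ 224 [(rh2f68792b6b779e96.shift 0 4), rha412d8a223f8c324] (by decide +kernel))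
noncomputable def rh79761d0672ae3fdb : CRef := CRef.mk (Pat.mk 0x10000000180000003000000000 0x280000003e0000007f0000003e00000018000000180000003000000020 8 7) 0 0 (step_sound _ 132 [(rh3fe627b4a17a5c9f.shift 0 2), (rh55afc6a59410cf00.shift 4 0)] (by decide +kernel))
noncomputable def rh9f9e9cb31a0b5e03 : CRef := CRef.mk (Pat.mk 0x1800000018000000300000001000000000 0x40000001f000000380000003e0000007e00000028 8 7) 0 0 (step_sound _ 35 [rh13817f2655fdda18, (rh932754581e0f4330.shift 3 0)] (by decide +kernel))
noncomputable def rh4144738ad4b1b02b : CRef := CRef.mk (Pat.mk 0x100000001e0000001a0000000000000000 0x1f0000001f0000001b0000001e0000001e0000000700000004 8 5) 0 0 (step_sound _ 163 [rh04a80dfbd4bdd13b, (rh15c2e01fba4be427.shift 0 1), (rh16567ae718d9fd54.shift 3 2)] (by decide +kernel))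
noncomputable def rh9cb7460c3c1b1126 : CRef := CRef.mk (Pat.mk 0x100000001e00000018 0x3f0000003e000000170000001e0000001c 8 6) 0 0 (step_sound _ 100 [(rh5c5e593799055d58.shift 3 0), rh9ee9ef9e8348f62e] (by decide +kernel))
noncomputable def rhae78d81915981534 : CRef := CRef.mk (Pat.mk 0x10000000070000000400000000000000000000000000000000 0x20000000e0000000e0000000e0000003e00000007000000040000000e0000000e0000000e0000000a 8 6) 0 0 (step_sound _ 194 [(rh160bb2cc6df447ce.shift 1 0), (rh4fd54f6717f3e7ac.shift 0 5), (rh9ab0ed084d168e00.shift 1 3)] (by decide +kernel))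
noncomputable def rhf36b7fdefc9f591f : CRef := CRef.mk (Pat.mk 0x8800000018000000100000000000000000 0x300000003000000077000000ff00000038000000180000001800000018 8 8) 0 0 (step_sound _ 36 [rh3f7590892e5cb373, (rh7b1f1fb55310c477.shift 3 0)] (by decide +kernel))
noncomputable def rhc727847d0db593a8 : CRef := CRef.mk (Pat.mk 0x100000001e0000001800000000 0x1e0000001f0000001b0000001e0000001c00000014 8 5) 0 0 (step_sound _ 132 [rh213d7a9a3a2c0cd1, (rh5c5e593799055d58.shift 3 1)] (by decide +kernel))
noncomputable def rhbd05343ab39b824a : CRef := CRef.mk (Pat.mk 0x1e000000180000000000000000 0x5000000070000000f0000000f0000000b0000001e0000001f0000001e00000004 8 5) 0 0 (step_sound _ 65 [rh12fa343d93f70f99, (rheb0810cc63b001d8.shift 0 2)] (by decide +kernel))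
noncomputable def rh969cf86e195c1029 : CRef := CRef.mk (Pat.mk 0x1e000000180000000800000000 0x40000000c0000000f0000001e0000001c0000001f00000017 8 5) 0 0 (step_sound _ 129 [(rh3244c3cc8379b070.shift 0 3), rhcef3b775146be3e5] (by decide +kernel))
noncomputable def rh435bd94551dda45a : CRef := CRef.mk (Pat.mk 0x1e00000002000000000000000000000000 0x50000000700000007000000070000001e00000006000000070000000700000005 8 5) 0 0 (step_sound _ 161 [rh0d93ce26a8b0a932, (rh3244c3cc8379b070.shift 0 4)] (by decide +kernel))
noncomputable def rh6bb130905d49e62c : CRef := CRef.mk (Pat.mk 0x1e00000018000000000000000000000000 0x4000000040000000f0000001e0000001f0000003b0000001a00000010 8 6) 0 0 (step_sound _ 97 [rh34fa40dcee9c45e8, (rheb0810cc63b001d8.shift 0 3)] (by decide +kernel))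
noncomputable def rhe0493133269f1b3c : CRef := CRef.mk (Pat.mk 0x120000001e00000018000000000000000000000000 0x2f0000003e0000001e0000001e0000001c000000300000003000000030 8 6) 0 0 (step_sound _ 68 [(rh3cb04db3dd2b6a55.shift 3 0), (rh820d4e04d5dcd02e.shift 3 0), (rhbefcb7dcde8b8707.shift 0 2)] (by decide +kernel))
noncomputable def rh85de8bfe3cf9bcd5 : CRef := CRef.mk (Pat.mk 0x120000001e00000018000000000000000000000000 0x2e0000003e0000001e0000001e0000001b000000300000003000000030 8 6) 0 0 (step_sound _ 97 [(rh5283ce000dfc3dbd.shift 1 0), (rheb0810cc63b001d8.shift 0 3)] (by decide +kernel))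
noncomputable def rh170b8ca624304747 : CRef := CRef.mk (Pat.mk 0x80000000c00000018000000000000000000000000 0x40000000c0000000c0000001f0000003f0000003f00000012 8 6) 0 0 (step_sound _ 67 [(rhe286c75f2739cce2.shift 2 1), rhfa78c6b5c6036616] (by decide +kernel))
noncomputable def rh995367f936b80b01 : CRef := CRef.mk (Pat.mk 0x300000001c0000003000000000000000000000000000000000 0x2e0000003f0000001c0000003e0000003e0000006e0000002200000002 8 7) 0 0 (step_sound _ 100 [(rh2f68792b6b779e96.shift 4 3), rhe643c415ee942cf2] (by decide +kernel))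
noncomputable def rh68c5de0cd07c7e55 : CRef := CRef.mk (Pat.mk 0x3800000060000000000000000000000000 0x380000007c0000003e000000780000007e0000007c0000003f00000018 8 7) 0 0 (step_sound _ 164 [(rh037408bb717fecca.shift 1 2), (rh39c1fc7021d2dd05.shift 1 0), (rhc2c7bae8f445c890.shift 4 1), (rhd5f847f00611d1de.shift 0 1)] (by decide +kernel))
noncomputable def rhb896b00eba4f621f : CRef := CRef.mk (Pat.mk 0x1e0000001a000000000000000000000000 0xc0000001e0000001e000000370000003e0000003f 8 6) 0 0 (step_sound _ 68 [rh0ea7c3c63498df9f, rh1440f6a1c37c6417, (rh3cb04db3dd2b6a55.shift 3 0)] (by decide +kernel))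
noncomputable def rh90f97ea8fdb7e3ad : CRef := CRef.mk (Pat.mk 0xc00000018000000000000000000000000 0x120000003b0000001f0000001f0000003c0000001c00000010 8 6) 0 0 (step_sound _ 129 [(rhb739f4f82bb681b4.shift 0 3), rhd777406fc1cb696e] (by decide +kernel))
noncomputable def rh4568d2e26188261f : CRef := CRef.mk (Pat.mk 0x8000000180000001e000000000000000000000000 0x170000001f0000001c0000001e0000000f0000000c00000004 8 5) 0 0 (step_sound _ 65 [rh0ae5f4bd4a748cc7, (rheb0810cc63b001d8.shift 0 2)] (by decide +kernel))
noncomputable def rh355f68752cbea554 : CRef := CRef.mk (Pat.mk 0x20000001e00000000000000000000000000000000 0x50000000700000007000000060000001e00000007000000070000000700000005 8 5) 0 0 (step_sound _ 97 [rha1bb609c7cfcbfbc, (rheb0810cc63b001d8.shift 0 3)] (by decide +kernel))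
noncomputable def rh1476d3cafc39d63d : CRef := CRef.mk (Pat.mk 0x180000001e000000000000000000000000 0x100000001a0000003b0000001f0000001e0000000f0000000400000004 8 6) 0 0 (step_sound _ 129 [(rh3244c3cc8379b070.shift 0 3), rhbee88536d0384830] (by decide +kernel))
noncomputable def rhf683422703876cb8 : CRef := CRef.mk (Pat.mk 0x180000001e000000120000000000000000 0x3000000030000000300000001c0000001e0000001e0000003e0000002f 8 6) 0 0 (step_sound _ 164 [rh4fd8fb411cd06528, (rh503dd4575245365b.shift 3 2), (rh5fa50b509d4ce753.shift 3 2)] (by decide +kernel))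
noncomputable def rh54f866d5e60a46fd : CRef := CRef.mk (Pat.mk 0x180000001e000000120000000000000000 0x3000000030000000300000001b0000001e0000001e0000003e0000002e 8 6) 0 0 (step_sound _ 129 [(rh3244c3cc8379b070.shift 0 3), (rhba6f756b227beefc.shift 1 0)] (by decide +kernel))
noncomputable def rh8ee247f2e00e2063 : CRef := CRef.mk (Pat.mk 0x180000000c0000000800000000 0x120000003f0000003f0000001f0000000c0000000c00000004 8 6) 0 0 (step_sound _ 131 [(rh03dfdf12d5937476.shift 2 0), (rh50d725eea37ce2f2.shift 0 1)] (by decide +kernel))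
noncomputable def rh01eabe45a6c5f059 : CRef := CRef.mk (Pat.mk 0x300000001c0000003000000000 0x2000000220000006e0000003e0000003e0000001c0000003f0000002e 8 7) 0 0 (step_sound _ 132 [(rh55afc6a59410cf00.shift 4 0), rh6324bad4622325a2] (by decide +kernel))
noncomputable def rh39b93a99ded68957 : CRef := CRef.mk (Pat.mk 0x6000000038000000000000000000000000 0x180000003f0000007c0000007e000000780000003e0000007c00000038 8 7) 0 0 (step_sound _ 68 [(rhbc343beb35af32be.shift 1 0), (rhcf80391c5046a495.shift 4 0), (rhdc7e9364bc747883.shift 1 0), (rhfee50c63635088b9.shift 0 1)] (by decide +kernel))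
noncomputable def rhe6b0aa7eff5c86b0 : CRef := CRef.mk (Pat.mk 0x1a0000001e00000000 0x3f0000003e000000370000001e0000001e0000000c 8 6) 0 0 (step_sound _ 100 [rh114680e7a1ca66eb, (rh503dd4575245365b.shift 3 0), (rhb2a28379b4d84ac8.shift 0 1)] (by decide +kernel))
noncomputable def rh9d3bfcde6e7ea807 : CRef := CRef.mk (Pat.mk 0x180000000c0000000000000000 0x100000001c0000003c0000001f0000001f0000003b00000012 8 6) 0 0 (step_sound _ 65 [(rh53b3c253cb0c65f4.shift 0 2), rh9a291ac088a44618] (by decide +kernel))
noncomputable def rh8d6027ecf2dddd69 : CRef := CRef.mk (Pat.mk 0x100000001c000000880000000800000000 0x80000000c0000000c0000001c0000003c000000ff0000007e00000034 8 8) 0 0 (step_sound _ 131 [rh010598802585d3f5, (rhbb00e3681d5eb8f8.shift 1 0), (rhe897af202bc68eb8.shift 2 1)] (by decide +kernel))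
noncomputable def rh73fffb3e21547544 : CRef := CRef.mk (Pat.mk 0x180000000c00000044000000000000000000000000 0xe0000000f0000001c0000000c0000007f000000380000001800000018 8 7) 0 0 (step_sound _ 195 [rh4a0a9e7716f84bce, (rh5c5e593799055d58.shift 2 3)] (by decide +kernel))
noncomputable def rh17c5c960d4b2ac6b : CRef := CRef.mk (Pat.mk 0x180000001e0000000000000000000000000000000000000000 0x500000007000000070000001f0000001e0000000300000007000000070000000700000005 8 5) 0 0 (step_sound _ 193 [(rh3244c3cc8379b070.shift 0 5), rh81ea6aa777366e40] (by decide +kernel))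
noncomputable def rh7c39a1a715d9c849 : CRef := CRef.mk (Pat.mk 0xc0000001e000000400000000800000000 0x40000000f0000001e0000007c0000001f00000017 8 7) 0 0 (step_sound _ 129 [rh1d385386d25488b4, (rh3244c3cc8379b070.shift 0 3)] (by decide +kernel))
noncomputable def rh2cc1b1d6d0408438 : CRef := CRef.mk (Pat.mk 0x1e0000001e000000600000000000000000 0x600000006000000070000001e0000001e000000680000003c0000001c 8 7) 0 0 (step_sound _ 161 [(rh3244c3cc8379b070.shift 0 4), (rhe081fd9b80201e9c.shift 1 0)] (by decide +kernel))
noncomputable def rh8c3ce7eb1e1347c6 : CRef := CRef.mk (Pat.mk 0x1c0000001c000000100000001000000000 0xe0000003e000000070000001c0000001c0000001c0000001800000008 8 6) 0 0 (step_sound _ 35 [(rh0ba00633885eb3e9.shift 0 1), (rh932754581e0f4330.shift 3 0)] (by decide +kernel))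
noncomputable def rh5e22c6ff3668998f : CRef := CRef.mk (Pat.mk 0x100000001e000000100000001000000000 0x170000001e000000170000003e0000002f 8 6) 0 0 (step_sound _ 129 [rh12e35db25aa48f6b, (rh3244c3cc8379b070.shift 0 3)] (by decide +kernel))
noncomputable def rh60b59cd1407e45b6 : CRef := CRef.mk (Pat.mk 0x180000000e000000000000000000000000 0xb0000000f0000001b0000001e0000003f0000003c0000003c 8 6) 0 0 (step_sound _ 100 [rh84d30f004d60fc45, (rhea719cc8bd0bdd28.shift 1 1), rhed9575cdee0ab1ad] (by decide +kernel))
noncomputable def rh337b97864464a7c8 : CRef := CRef.mk (Pat.mk 0x180000000c000000000000000000000000 0x20000000e0000000f0000001f0000001f000000370000001200000002 8 6) 0 0 (step_sound _ 97 [(rh53b3c253cb0c65f4.shift 0 3), rhd84d19bdf570ce06] (by decide +kernel))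
noncomputable def rh0e17e7d9e5e7998d : CRef := CRef.mk (Pat.mk 0x8000000880000001c00000010000000000000000000000000 0x340000007e000000ff0000003c0000001c0000000c0000000c00000008 8 8) 0 0 (step_sound _ 99 [(rh277593e967ce41e6.shift 2 0), (rhb814456c6481bc85.shift 0 2), (rhd4b54dd7a1b064a8.shift 1 2)] (by decide +kernel))
noncomputable def rhfea0689e1fa82827 : CRef := CRef.mk (Pat.mk 0x440000000c000000180000000000000000 0x1800000018000000380000007f0000000c0000001c0000000f0000000e 8 7) 0 0 (step_sound _ 35 [(rh7b1f1fb55310c477.shift 2 0), rhd14220ca1755ac48] (by decide +kernel))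
noncomputable def rh453dea99e34b074c : CRef := CRef.mk (Pat.mk 0x1e00000018000000000000000000000000 0x5000000070000000700000007000000030000001e0000001f000000070000000700000005 8 5) 0 0 (step_sound _ 97 [rhb0e34a6262492046, (rheb0810cc63b001d8.shift 0 3)] (by decide +kernel))
noncomputable def rh4fba31df106e1138 : CRef := CRef.mk (Pat.mk 0x8000000400000001e0000000c00000000 0x170000001f0000007c0000001e0000000f00000004 8 7) 0 0 (step_sound _ 33 [rh0fd89807ad0bcbeb, (rheb0810cc63b001d8.shift 0 1)] (by decide +kernel))
noncomputable def rhd397f45936c72e12 : CRef := CRef.mk (Pat.mk 0x600000001e0000001e000000000000000000000000 0x1c0000003c000000680000001e0000001e000000070000000600000006 8 7) 0 0 (step_sound _ 65 [(rh58260040f5df8a8e.shift 1 0), (rheb0810cc63b001d8.shift 0 2)] (by decide +kernel))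
noncomputable def rhee0520d9a5885d75 : CRef := CRef.mk (Pat.mk 0x10000000100000001c0000001c000000000000000000000000 0x8000000180000001c0000001c0000001c000000070000003e0000000e 8 6) 0 0 (step_sound _ 195 [rh01fe463c915afd3c, (rh50fbb5868c909700.shift 3 3)] (by decide +kernel))
noncomputable def rh4ddefe67706b8d41 : CRef := CRef.mk (Pat.mk 0x10000000100000001e00000010 0x2f0000003e000000170000001e00000017 8 6) 0 0 (step_sound _ 1 [rh9ee9ef9e8348f62e, rheb0810cc63b001d8] (by decide +kernel))
noncomputable def rh22d12b2afbd7ea9f : CRef := CRef.mk (Pat.mk 0xe000000180000000000000000 0x3c0000003c0000003f0000001e0000001b0000000f0000000b 8 6) 0 0 (step_sound _ 100 [(rh34b1188e635efc8d.shift 1 0), rh5326fe1f47529aba, (rh8c7c8a0d99f0a4c8.shift 0 2)] (by decide +kernel))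
noncomputable def rh7dcbbfc2e76bcc96 : CRef := CRef.mk (Pat.mk 0xc00000018000000000000000000000000 0x200000012000000370000001f0000001f0000000f0000000e00000002 8 6) 0 0 (step_sound _ 129 [rh14659965e3782cea, (rhb739f4f82bb681b4.shift 0 3)] (by decide +kernel))
noncomputable def rh74b8ab36e47241ad : CRef := CRef.mk (Pat.mk 0x80000000c000000480000000c0000000000000000 0x40000000c0000000c0000007f0000003f0000003300000012 8 7) 0 0 (step_sound _ 100 [(rh2fe78cc5ca4405d8.shift 2 3), rh6eb702912009ce27] (by decide +kernel))
noncomputable def rhe04cc3e1fefcc74f : CRef := CRef.mk (Pat.mk 0x300000001800000080000000100000000000000000 0x40000000c0000003f00000038000001ef0000007e000000ff00000004 8 9) 0 0 (step_sound _ 67 [(rh1721f7e9b0efc937.shift 0 1), (rh29e0ca93f2bd96af.shift 0 1), (rh65192658d2813781.shift 0 1), (rh87871ba89f4f33c8.shift 2 1), rhc3f2132704145109, (rhf3232538870e86ed.shift 0 1)] (by decide +kernel))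
noncomputable def rh164774969be14489 : CRef := CRef.mk (Pat.mk 0x100000001800000080000000100000000000000000 0x1000000038000001ff0000007e000001ff00000004 8 9) 0 0 (step_sound _ 67 [(rh688bceba44b52bbe.shift 0 1), rhc3f2132704145109, (rhe1fafb62d66eba59.shift 3 1), (rhecb97fed8c7f1286.shift 3 1)] (by decide +kernel))
noncomputable def rh55869a89e7001fda : CRef := CRef.mk (Pat.mk 0x6000000038000000000000000000000000 0x40000000680000007c0000007f00000078000000380000003000000010 8 7) 0 0 (step_sound _ 68 [(rh0025cc51ca3fe979.shift 0 1), rh66c0439a462c197e, (rhcf80391c5046a495.shift 4 0), (rhf9366b6a121593ef.shift 4 0)] (by decide +kernel))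
noncomputable def rh4c1b1762f2f0e9fe : CRef := CRef.mk (Pat.mk 0xc000000480000000c0000000800000000 0x12000000330000003f0000007f0000000c0000000c00000004 8 7) 0 0 (step_sound _ 100 [(rh361cc68994bd8a63.shift 2 2), rh48f970c406779c5d] (by decide +kernel))
noncomputable def rhb4d8c58419fd7da0 : CRef := CRef.mk (Pat.mk 0x100000008000000018000000300000000000000000 0x4000000ff0000007e000001ef000000380000003f0000000c00000004 8 9) 0 0 (step_sound _ 163 [(rh1b556319d3519010.shift 0 2), (rh356b76fdcfed491c.shift 0 2), (rh36ae2ab44cf797d9.shift 0 1), (rh6ca3451713930659.shift 0 2), (rh8618d060f83f4227.shift 2 0), (rhb27efdb874cdc612.shift 0 2)] (by decide +kernel))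
noncomputable def rha2ea393c84cb5419 : CRef := CRef.mk (Pat.mk 0x10000000800000001800000010 0x4000001ff0000007e000001ff0000003800000010 8 9) 0 0 (step_sound _ 99 [(rh692de1f1b989c1c1.shift 3 0), rhb27efdb874cdc612, (rhdb2909ac5c854515.shift 3 0), rhf65d4b9d155f6aed] (by decide +kernel))
noncomputable def rh9c4de80e08b34dca : CRef := CRef.mk (Pat.mk 0x3800000060000000000000000000000000 0x100000003000000038000000780000007f0000007c0000006800000040 8 7) 0 0 (step_sound _ 164 [(rh7494a966108a2ece.shift 0 1), (rhc2c7bae8f445c890.shift 4 1), (rhc38f566cab2818e5.shift 4 1), rhfd6f0b103196719d] (by decide +kernel))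
noncomputable def rh50f007810629d47f : CRef := CRef.mk (Pat.mk 0x60000000300000003000000030000000000000000000000000 0xa0000006e0000003e0000007f0000003e0000006f0000002e0000000a 8 7) 0 0 (step_sound _ 98 [(rh3696608e2c96b8ce.shift 1 1), (rh4e92ebbe5ff82759.shift 1 1), (rh60ef4995b1f84f64.shift 1 0), (rh764646065eef9665.shift 2 1), (rhb63f16694a63b337.shift 0 2)] (by decide +kernel))
noncomputable def rh65f59a8dacb93335 : CRef := CRef.mk (Pat.mk 0x3000000030000000300000006000000000 0xa0000002e0000006f0000003e0000007f0000003e0000006e0000000a 8 7) 0 0 (step_sound _ 130 [(rh08436c2649689ebd.shift 0 3), (rh7ae81a4244b92688.shift 1 1), (rh854941ff1eae263f.shift 2 2), (rhc54499a394b6b23d.shift 1 0), (rhcd04ce9a8dfd6991.shift 1 2)] (by decide +kernel))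
noncomputable def rh797f484c8a6367b8 : CRef := CRef.mk (Pat.mk 0x400000000c00000048000000000000000000000000 0x1000000018000000180000001c0000007c0000000f0000007c000000180000001800000010 8 7) 0 0 (step_sound _ 100 [(rh2fe78cc5ca4405d8.shift 2 3), rhc55e661b08b45364] (by decide +kernel))
noncomputable def rhff2ecba54480a251 : CRef := CRef.mk (Pat.mk 0x3800000060000000000000000000000000 0x100000003c0000003e000000780000007f000000ec0000006c00000040 8 8) 0 0 (step_sound _ 164 [(rh0ea6ccce9923b6f7.shift 0 1), rh12b2ede94f7befcd, (rhc2c7bae8f445c890.shift 4 1), (rhc38f566cab2818e5.shift 4 1)] (by decide +kernel))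
noncomputable def rh6cebbde1e7007d5d : CRef := CRef.mk (Pat.mk 0x100000001e00000018 0x3e0000003e000000170000001e0000001b 8 6) 0 0 (step_sound _ 100 [rh48703a3be20de620, (rh5c5e593799055d58.shift 3 0)] (by decide +kernel))
noncomputable def rh9bb10a325484170c : CRef := CRef.mk (Pat.mk 0x1200000003000000020000000000000000000000000000000000000000 0x40000001e00000007000000030000000200000002000000070000000700000005 8 5) 0 0 (step_sound _ 226 [(rh361cc68994bd8a63.shift 0 6), rha4272e0aa8a5ea23] (by decide +kernel))
noncomputable def rh308180abb9b2fdae : CRef := CRef.mk (Pat.mk 0x10000000030000000200000002 0x50000000700000007000000070000001f000000070000000300000002 8 5) 0 0 (step_sound _ 97 [rh04e571695666b5c1, rha7bb430bc20854cc, rhc0001e053d3dc35a] (by decide +kernel))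
noncomputable def rh223f7dfa9fa3667e : CRef := CRef.mk (Pat.mk 0x480000000c0000004000000000000000000000000000000000 0x1000000018000000180000007c0000000f0000007c0000001c000000180000001800000010 8 7) 0 0 (step_sound _ 196 [(rh361cc68994bd8a63.shift 2 5), rhf18b9669b15c940f] (by decide +kernel))
noncomputable def rh2f0972ef04616995 : CRef := CRef.mk (Pat.mk 0x6000000038000000000000000000000000 0x400000006c000000ec0000007f000000780000003e0000003c00000010 8 8) 0 0 (step_sound _ 68 [rh1ee8417e25c598ff, (rh659b7ea4f38ba254.shift 0 1), (rhcf80391c5046a495.shift 4 0), (rhf9366b6a121593ef.shift 4 0)] (by decide +kernel))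
noncomputable def rha5db6962292c783c : CRef := CRef.mk (Pat.mk 0x180000001e000000100000000000000000 0x1b0000001e000000170000003e0000003e 8 6) 0 0 (step_sound _ 36 [(rh7b1f1fb55310c477.shift 3 0), rhf4e63142e6871d41] (by decide +kernel))
noncomputable def rhc6fae9da7ec824dc : CRef := CRef.mk (Pat.mk 0x2000000030000001200000000 0x50000000700000007000000020000000200000003000000070000001e00000004 8 5) 0 0 (step_sound _ 34 [(rh2fe78cc5ca4405d8.shift 0 1), rhe76451963c0d974a] (by decide +kernel))
noncomputable def rh793c5585f2e4b081 : CRef := CRef.mk (Pat.mk 0x200000002000000030000001000000000000000000000000000000000 0x200000003000000070000001f00000007000000070000000700000005 8 5) 0 0 (step_sound _ 129 [rhc91b188b7f6449f3, rhe0be7ab05c8f9e7a, (rhf8edb192cdea7ada.shift 0 3)] (by decide +kernel))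
noncomputable def rhdbff0042d9c18cd0 : CRef := CRef.mk (Pat.mk 0x180000001e000000100000000000000000 0x1000000010000000340000001f0000001e0000001b0000003200000032 8 6) 0 0 (step_sound _ 129 [(rh3244c3cc8379b070.shift 0 3), rh8bacad09a3fe8b20] (by decide +kernel))
noncomputable def rhf26678cbbb095e02 : CRef := CRef.mk (Pat.mk 0x8000000080000000c 0x140000001f0000003f0000003f0000000c0000000c 8 6) 0 0 (step_sound _ 99 [rh26de692f03d4cb57, (rh9a369cb82ea472da.shift 2 0), (rhc85cc95794737cf7.shift 2 0), (rhe62cab2ff5ad6fe2.shift 2 0)] (by decide +kernel))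
noncomputable def rh7b15644ec221579e : CRef := CRef.mk (Pat.mk 0x2000000020000000600000002000000000 0xde000000fe000000ff000000600000006000000040 8 8) 0 0 (step_sound _ 38 [(rh55afc6a59410cf00.shift 5 0), (rhc05ca29dea29957f.shift 0 1)] (by decide +kernel))
noncomputable def rh457b8fe904b690c2 : CRef := CRef.mk (Pat.mk 0x180000001e000000000000000000000000 0x20000001b0000001e0000003f0000003400000034 8 6) 0 0 (step_sound _ 68 [rh79a10eb4fb0b57c1, (rhe25b0a99195a5d59.shift 1 2)] (by decide +kernel))
noncomputable def rh8d20653c3cc9f281 : CRef := CRef.mk (Pat.mk 0x200000006000000060 0xfe000000fe000000ff0000006000000060 8 8) 0 0 (step_sound _ 101 [(rh2145e1d24b96a57e.shift 5 0), rhc05ca29dea29957f] (by decide +kernel))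
noncomputable def rh4ac3f56766ee3cb3 : CRef := CRef.mk (Pat.mk 0x80000001e0000000000000000000000000000000000000000 0x4000000040000000c0000000e0000000f0000001e0000000b00000007000000070000000700000005 8 5) 0 0 (step_sound _ 193 [(rh3244c3cc8379b070.shift 0 5), rh815767f867c3c94f] (by decide +kernel))
noncomputable def rhd870735a4c5cca5c : CRef := CRef.mk (Pat.mk 0xa0000001e00000010000000000000000000000000 0x10000000f0000001f0000000e0000001e00000013000000070000000700000005 8 5) 0 0 (step_sound _ 97 [(rheb0810cc63b001d8.shift 0 3), rhfd0fbe343c3d8645] (by decide +kernel))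
noncomputable def rh398798d936007c12 : CRef := CRef.mk (Pat.mk 0x280000003800000000000000000000000000000000 0x1c0000001e00000038000000780000003e0000001f0000001c0000000c 8 7) 0 0 (step_sound _ 100 [(rh5d54cb79a67f97ab.shift 3 1), rh93231295e8c7ce73, (rha40d42a2e34c408d.shift 3 1), (rhc24c6d0a52df1cd2.shift 1 0)] (by decide +kernel))
noncomputable def rh3183e63ea7c66766 : CRef := CRef.mk (Pat.mk 0xa0000000e0000000000000000000000000 0x2000000020000000ee000000fe0000007f0000001000000010 8 8) 0 0 (step_sound _ 100 [(rh21d582c147e7e118.shift 2 2), (rh3423e5ac208fb65b.shift 3 0), (rh5e601430b8bc2e39.shift 1 2), (rhecc2f590e920be22.shift 0 2)] (by decide +kernel))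
noncomputable def rh5d6ebeda8e93d78c : CRef := CRef.mk (Pat.mk 0x1a0000000e000000000000000000000000 0x20000001b0000001e0000003f0000003400000034 8 6) 0 0 (step_sound _ 100 [(rh3244c3cc8379b070.shift 0 3), rh366fd3c353de60e4] (by decide +kernel))
noncomputable def rhc0eb320c9cb95511 : CRef := CRef.mk (Pat.mk 0x2800000030000000000000000000000000 0x40000000e0000003f0000007e0000000e0000000c00000004 8 7) 0 0 (step_sound _ 130 [(rh52f53d3a55b22c68.shift 1 3), (rh95f73988d2dec2c0.shift 0 3), (rha8c5bceee2b73e0c.shift 1 0), (rhe2971afac17a6ffc.shift 2 3)] (by decide +kernel))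
noncomputable def rhede4e331ce0659db : CRef := CRef.mk (Pat.mk 0x100000001800000088000000000000000000000000 0x3c0000007f0000003f0000001f000000ff000000270000000400000004 8 8) 0 0 (step_sound _ 196 [rh46513b21ce7f7a38, (rh5c5e593799055d58.shift 3 3)] (by decide +kernel))
noncomputable def rh218a77afb1f96192 : CRef := CRef.mk (Pat.mk 0x10000000900000001800000088000000000000000000000000 0x2800000078000000dc0000003f000000ff000000670000002400000024 8 8) 0 0 (step_sound _ 100 [(rh26c1f1c45fdba1a4.shift 0 2), rh9e141fa6bc2add05, rhe1d4bc43c9f1699d, (rhf8edb192cdea7ada.shift 3 2)] (by decide +kernel))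
noncomputable def rh2ab9bc22ff61b1a1 : CRef := CRef.mk (Pat.mk 0x10000000180000001c0000000000000000 0xc0000000f0000007c0000001f0000001c0000000f0000000e 8 7) 0 0 (step_sound _ 35 [rh33a4530129083b07, (rh71222050f2c63a3a.shift 3 0)] (by decide +kernel))
noncomputable def rh3e77b14c71fa8d7f : CRef := CRef.mk (Pat.mk 0x20000000300000003400000010000000000000000000000000 0x200000006000000660000003e000000360000001e0000000f0000000e0000000a 8 7) 0 0 (step_sound _ 162 [(rh086f6046fa319626.shift 1 4), rh759e6aaa4cbc726d, (rh760717e835f8c2f3.shift 1 4), (rh7dcc577706dd2abd.shift 1 4)] (by decide +kernel))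
noncomputable def rh88c66cd595bb6a28 : CRef := CRef.mk (Pat.mk 0x1000000038000000180000000000000000 0x200000006000000370000003f0000001e0000000c0000000c 8 6) 0 0 (step_sound _ 66 [rh49baecebbfe15048, (rh53b3c253cb0c65f4.shift 1 2)] (by decide +kernel))
noncomputable def rh2d093a50830e3e0a : CRef := CRef.mk (Pat.mk 0x1000000038000000180000000000000000 0xc0000000f0000007e000000380000001e0000000c0000000c 8 7) 0 0 (step_sound _ 35 [(rh71222050f2c63a3a.shift 3 0), rhcad4769be2bc6f16] (by decide +kernel))
noncomputable def rha95c05b0b27d50b0 : CRef := CRef.mk (Pat.mk 0x1c0000001800000004 0x50000000700000007000000030000001f0000001f00000004 8 5) 0 0 (step_sound _ 65 [rh31e1bc69abf86ee5, (rhb739f4f82bb681b4.shift 0 1)] (by decide +kernel))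
noncomputable def rhd3a8265e0e9817ac : CRef := CRef.mk (Pat.mk 0x100000001e00000018000000000000000000000000 0x32000000320000001b0000001e0000001f000000340000001000000010 8 6) 0 0 (step_sound _ 97 [rh2fd837c1b3dc9d14, (rheb0810cc63b001d8.shift 0 3)] (by decide +kernel))
noncomputable def rh70e2db778ce43bdb : CRef := CRef.mk (Pat.mk 0xc0000000800000008000000000000000000000000 0xc0000000c0000003f0000003f0000001f00000014 8 6) 0 0 (step_sound _ 67 [(rh20605be9cfe324a0.shift 0 1), (rh8cdd36b03d57a2f6.shift 2 0), (rha613ffd40b6c9d24.shift 2 0), (rhe4441baab75a6f73.shift 2 0)] (by decide +kernel))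
noncomputable def rhefc4da190d1cc847 : CRef := CRef.mk (Pat.mk 0x2000000060000000200000002000000000 0x400000006000000060000000ff000000fe000000de 8 8) 0 0 (step_sound _ 134 [(rh2f68792b6b779e96.shift 5 1), rh777d8a53f6522b7c] (by decide +kernel))
noncomputable def rh6e4a74575a998d00 : CRef := CRef.mk (Pat.mk 0x1e0000001800000000 0x34000000340000003f0000001e0000001b00000002 8 6) 0 0 (step_sound _ 100 [(rh33e738c4ed385b9f.shift 1 2), rh7052275de093c3e1] (by decide +kernel))
noncomputable def rhd9ffb9bed2be85c3 : CRef := CRef.mk (Pat.mk 0x6000000060000000200000000000000000 0x6000000060000000ff000000fe000000fe 8 8) 0 0 (step_sound _ 37 [(rh71222050f2c63a3a.shift 5 0), rh777d8a53f6522b7c] (by decide +kernel))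
noncomputable def rhbd978bb55b8ed546 : CRef := CRef.mk (Pat.mk 0x1e0000000800000000000000000000000000000000 0x50000000700000007000000070000000b0000001e0000000f0000000e0000000c0000000400000004 8 5) 0 0 (step_sound _ 129 [rh0a7eae12eaa3e2ee, (rheb0810cc63b001d8.shift 0 4)] (by decide +kernel))
noncomputable def rh07e8da69c477925c : CRef := CRef.mk (Pat.mk 0x100000001e0000000a000000000000000000000000 0x50000000700000007000000130000001e0000000e0000001f0000000f00000001 8 5) 0 0 (step_sound _ 161 [(rh3244c3cc8379b070.shift 0 4), rh5b14afa794b0e2e1] (by decide +kernel))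
noncomputable def rhe0e756012fee8c74 : CRef := CRef.mk (Pat.mk 0x38000000280000000000000000 0xc0000001c0000001f0000003e00000078000000380000001e0000001c 8 7) 0 0 (step_sound _ 132 [(rh4821dcf828b9d7bf.shift 3 0), (rh567d3032b176e7e3.shift 1 0), (rhadf429772c25fde0.shift 3 0), (rhfdb321702ac18442.shift 0 1)] (by decide +kernel))
noncomputable def rh2d9aeae574918fb7 : CRef := CRef.mk (Pat.mk 0xe0000000a00000000000000000 0x10000000100000007f000000fe000000ee0000002000000020 8 8) 0 0 (step_sound _ 100 [(rh36eba2a3de447758.shift 1 2), (rh7bd4f9f9438f00ff.shift 0 2), (rhd1d05263fabc0227.shift 2 2), (rhe1ef59f9ff87186c.shift 3 0)] (by decide +kernel))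
noncomputable def rh5d7d159610e0d2dc : CRef := CRef.mk (Pat.mk 0xe0000001a00000000 0x34000000340000003f0000001e0000001b00000002 8 6) 0 0 (step_sound _ 68 [rh19cd09d0f5c71e61, (rheb0810cc63b001d8.shift 0 1)] (by decide +kernel))
noncomputable def rh6dd2cd80f5214abb : CRef := CRef.mk (Pat.mk 0x30000000280000000000000000 0x40000000c0000000e0000007e0000003f0000000e00000004 8 7) 0 0 (step_sound _ 66 [(rh18106ac0f60c265a.shift 1 2), (rh3c14fcf8b65bfab5.shift 2 2), (rh69c0727cabe26add.shift 1 0), (rhbd2e91c3fdbfa961.shift 0 2)] (by decide +kernel))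
noncomputable def rh6f9ce0305bdef05e : CRef := CRef.mk (Pat.mk 0x8800000018000000100000000000000000 0x40000000400000027000000ff0000001f0000003f0000007f0000003c 8 8) 0 0 (step_sound _ 36 [rh518a564e93045e5d, (rh7b1f1fb55310c477.shift 3 0)] (by decide +kernel))
noncomputable def rh7e1567b9a0964927 : CRef := CRef.mk (Pat.mk 0x8800000018000000900000001000000000 0x240000002400000067000000ff0000003f000000dc0000007800000028 8 8) 0 0 (step_sound _ 132 [(rh04e571695666b5c1.shift 3 1), (rh26ffcb37093465b4.shift 0 2), rhd9775e76b9bd2de1, (rhfc65d810a86f213b.shift 0 2)] (by decide +kernel))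
noncomputable def rh0399b77a7d302d36 : CRef := CRef.mk (Pat.mk 0x1c00000018000000100000000000000000 0xe0000000f0000001c0000001f0000007c0000000f0000000c 8 7) 0 0 (step_sound _ 163 [(rh2145e1d24b96a57e.shift 3 2), rhde69f708829ac721] (by decide +kernel))
noncomputable def rhc8262c63f3da5dbb : CRef := CRef.mk (Pat.mk 0x100000003400000030000000200000000000000000 0xa0000000e0000000f0000001e000000360000003e000000660000000600000002 8 7) 0 0 (step_sound _ 98 [(rh39f426ebe0691969.shift 1 2), (rh6e1685e3533aff0e.shift 1 3), (rh7174a5174d2fbf5b.shift 1 2), rhd671e98fe3036812] (by decide +kernel))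
noncomputable def rhd846878614c9ddf8 : CRef := CRef.mk (Pat.mk 0x1800000038000000100000000000000000 0xc0000000c0000001e0000003f000000370000000600000002 8 6) 0 0 (step_sound _ 130 [rh23f489e7dae165b2, (rhb739f4f82bb681b4.shift 1 3)] (by decide +kernel))
noncomputable def rh6dad6ee62db31490 : CRef := CRef.mk (Pat.mk 0x1800000038000000100000000000000000 0xc0000000c0000001e000000380000007e0000000f0000000c 8 7) 0 0 (step_sound _ 163 [(rh2145e1d24b96a57e.shift 3 2), rh437c9511455a1e61] (by decide +kernel))
noncomputable def rhdc3057b3d7d61c66 : CRef := CRef.mk (Pat.mk 0x4000000180000001c00000000000000000000000000000000 0x40000001f0000001f00000003000000070000000700000005 8 5) 0 0 (step_sound _ 129 [(rh53b3c253cb0c65f4.shift 0 4), rhf356c5bf1a286bb3] (by decide +kernel))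
noncomputable def rh051357491b722a02 : CRef := CRef.mk (Pat.mk 0x480000000e0000001800000000000000000000000000000000 0x40000007c0000000e0000001b0000001f0000001e0000001c00000014 8 7) 0 0 (step_sound _ 196 [(rh361cc68994bd8a63.shift 2 5), rh6d6be729dacc9a59] (by decide +kernel))
noncomputable def rh3d528d28349dc2fd : CRef := CRef.mk (Pat.mk 0x800000008000000180000001000000000000000000000000000000000 0x40000000c0000001c000000380000001f0000000c0000001c0000001c00000014 8 6) 0 0 (step_sound _ 131 [(rh6fae963f33cfdfd7.shift 0 3), (rh8cfb1a99ecfeaa6e.shift 2 0)] (by decide +kernel))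
noncomputable def rhd743aab01efa0d94 : CRef := CRef.mk (Pat.mk 0x480000000e000000180000000000000000 0x140000007c0000000e0000001b0000001f00000016 8 7) 0 0 (step_sound _ 132 [rh0efcd3f5ca38cfe0, (rh361cc68994bd8a63.shift 2 3)] (by decide +kernel))
noncomputable def rh73cd6241a8d42df3 : CRef := CRef.mk (Pat.mk 0x1000000010000000180000001000000000 0x2c0000003f00000038000000380000001f0000000c 8 6) 0 0 (step_sound _ 35 [(rh932754581e0f4330.shift 3 0), rhae3e36366d12e3cd] (by decide +kernel))
noncomputable def rhcfd0179807569c91 : CRef := CRef.mk (Pat.mk 0x40000000c00000018000000080000000000000000 0x1800000018000000180000000c0000000c0000001f0000003f0000003700000012 8 6) 0 0 (step_sound _ 163 [(rh7263bee49303e8fc.shift 2 2), (rhbe6a11bbb961c2b9.shift 2 1), (rhd4b4beefcd67f51e.shift 3 1), rhfa78c6b5c6036616] (by decide +kernel))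
noncomputable def rh0dfb067cd5f204a2 : CRef := CRef.mk (Pat.mk 0x10000000030000000600000000000000000000000000000000 0x10000000700000007000000070000001f000000070000000600000007000000070000000700000005 8 5) 0 0 (step_sound _ 193 [(rh70e33bfdf511e144.shift 1 1), (rh8599f462953abc6e.shift 1 3), (rhc47fe1bc6b175f77.shift 0 2), rhe3dbe8f11c676a0f] (by decide +kernel))
noncomputable def rh31ae1d05b4482e0b : CRef := CRef.mk (Pat.mk 0x800000001800000038000000000000000000000000 0x3e0000003e000000f80000003f0000003f000000680000002800000020 8 8) 0 0 (step_sound _ 164 [(rh503dd4575245365b.shift 3 2), (rhb08df400a8290686.shift 1 3), rhb9d68e7cd466af25] (by decide +kernel))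
noncomputable def rh682ae951eef2ec3f : CRef := CRef.mk (Pat.mk 0x20000000060000000600000000000000000000000000000000 0x80000000f0000001f0000003f0000000e0000000600000003000000070000000700000005 8 6) 0 0 (step_sound _ 97 [(rh169c8587e9bc9740.shift 0 3), (rh84d1c02a8954c6a8.shift 1 2), (rh9954101f0efffb9e.shift 0 1), rhffb8e5993241bf15] (by decide +kernel))
noncomputable def rhb156d28b0b135bca : CRef := CRef.mk (Pat.mk 0x10000000180000001800000000 0x3c0000003f00000038000000380000001f00000004 8 6) 0 0 (step_sound _ 132 [(rh5c5e593799055d58.shift 3 1), rhae3e36366d12e3cd] (by decide +kernel))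
noncomputable def rh4f2f9eb43fda910e : CRef := CRef.mk (Pat.mk 0x9000000018000000180000000000000000 0x2c0000002c0000006f000000fc000000380000001f0000000c0000000c 8 8) 0 0 (step_sound _ 35 [(rh71222050f2c63a3a.shift 3 0), rhe8d31e49457d6a9f] (by decide +kernel))
noncomputable def rhe7ea408305dd3cee : CRef := CRef.mk (Pat.mk 0x4000000440000000e00000018000000000000000000000000 0x34000000f60000001e0000001b0000003a0000003a00000030 8 8) 0 0 (step_sound _ 67 [rh070d1c18fe0cd5fc, (rh7b1f1fb55310c477.shift 2 1)] (by decide +kernel))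
noncomputable def rh67cce10698f0a95d : CRef := CRef.mk (Pat.mk 0x440000000e00000018000000000000000000000000 0x30000000f40000001e0000001f0000003f0000003a00000030 8 8) 0 0 (step_sound _ 67 [(rh7b1f1fb55310c477.shift 2 1), rhc51e9eef92ceb5de] (by decide +kernel))
noncomputable def rhbb11b2660c1163d2 : CRef := CRef.mk (Pat.mk 0x10000000180000001000000000000000000000000000000000 0x800000018000000180000003e0000007f0000007f0000003e00000028 8 7) 0 0 (step_sound _ 100 [rh9d6f8faf656a0a57, (rhb1a2e31b491e763d.shift 0 2), (rhe286c75f2739cce2.shift 3 2)] (by decide +kernel))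
noncomputable def rh6c3abda1771d0c4b : CRef := CRef.mk (Pat.mk 0x100000001c0000009000000000000000000000000000000000 0x8000000180000001c000000de0000007e0000007f0000003e00000028 8 8) 0 0 (step_sound _ 100 [(rh7ea382b98d27bedb.shift 1 2), rh9d6f8faf656a0a57, (rhe286c75f2739cce2.shift 3 2)] (by decide +kernel))
noncomputable def rhc9467d8b09504220 : CRef := CRef.mk (Pat.mk 0x1400000003000000020000000000000000000000000000000000000000 0x40000001e00000007000000030000000200000002000000070000000700000005 8 5) 0 0 (step_sound _ 225 [(rh361cc68994bd8a63.shift 0 6), rha4272e0aa8a5ea23] (by decide +kernel))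
noncomputable def rh4cb75d0d99567cbf : CRef := CRef.mk (Pat.mk 0x20000000180000003000000000000000000000000000000000 0x200000003000000038000000380000003e0000007f0000003e00000028 8 7) 0 0 (step_sound _ 100 [(rh5fcbac5b57173fc5.shift 4 2), (rh93edfa1f77289b62.shift 4 3), rh9d6f8faf656a0a57] (by decide +kernel))
noncomputable def rhf61d216cd79fc1a5 : CRef := CRef.mk (Pat.mk 0x180000000e0000004800000000 0x140000001c0000001e0000001f0000001b0000000e0000007c00000004 8 7) 0 0 (step_sound _ 36 [(rh2fe78cc5ca4405d8.shift 2 1), rh3fb63470d3d42e89] (by decide +kernel))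
noncomputable def rhb026e96fd83c006e : CRef := CRef.mk (Pat.mk 0x1000000018000000080000000800000000 0x140000001c0000001c0000000c0000001f000000380000001c0000000c00000004 8 6) 0 0 (step_sound _ 131 [(rh30c061e58ebf1ac8.shift 2 0), (rhc647a25a08ddf0ec.shift 0 1)] (by decide +kernel))
noncomputable def rh09fb7a7c0aac9423 : CRef := CRef.mk (Pat.mk 0x180000000e0000004800000000 0x160000001f0000001b0000000e0000007c00000014 8 7) 0 0 (step_sound _ 36 [(rh2fe78cc5ca4405d8.shift 2 1), rh78254d41759720f6] (by decide +kernel))
noncomputable def rh76d96e94cace76a3 : CRef := CRef.mk (Pat.mk 0x1000000018000000100000001000000000 0xc0000001f00000038000000380000003f0000002c 8 6) 0 0 (step_sound _ 131 [(rh50fbb5868c909700.shift 3 1), rhe2889920feb41ea5] (by decide +kernel))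
noncomputable def rh5909afe0c617e2ab : CRef := CRef.mk (Pat.mk 0x8000000180000000c00000004000000000000000000000000 0x12000000370000003f0000001f0000000c0000000c000000180000001800000018 8 6) 0 0 (step_sound _ 99 [(rh50d725eea37ce2f2.shift 0 3), (rh9bd2bb1b625e8a7e.shift 2 1), (rha707fb719e87fe6e.shift 3 2), (rhdd11e03a2f8b13b6.shift 2 0)] (by decide +kernel))
noncomputable def rh62210429a3837785 : CRef := CRef.mk (Pat.mk 0x6000000030000001000000000000000000000000000000000 0x500000007000000070000000700000006000000070000001f00000007000000070000000700000001 8 5) 0 0 (step_sound _ 129 [(rh12452934acb847d5.shift 0 3), (rh215e11e099257d75.shift 1 3), rh2252b8da6e6831c7, (rh3820f35d5e705bec.shift 1 1)] (by decide +kernel))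
noncomputable def rhd467fbc92cc94e64 : CRef := CRef.mk (Pat.mk 0x3800000018000000800000000000000000 0x2000000028000000680000003f0000003f000000f80000003e0000003e 8 8) 0 0 (step_sound _ 68 [(rh18cabc9a3fb38b04.shift 1 0), (rh3cb04db3dd2b6a55.shift 3 0), (rhce698ba6d035a43f.shift 0 2)] (by decide +kernel))
noncomputable def rh327536faaaa74c81 : CRef := CRef.mk (Pat.mk 0x60000000600000020000000000000000000000000 0x5000000070000000700000003000000060000000e0000003f0000001f0000000f00000008 8 6) 0 0 (step_sound _ 193 [rh003769f94c3a82e9, (rh14e0829dc73b6804.shift 0 3), (rh55a1f6c57a317ce6.shift 1 2), (rhb3e5613249985042.shift 0 1)] (by decide +kernel))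
noncomputable def rh92ade98158ad8454 : CRef := CRef.mk (Pat.mk 0x1800000018000000100000000000000000 0x40000001f00000038000000380000003f0000003c 8 6) 0 0 (step_sound _ 36 [(rh7b1f1fb55310c477.shift 3 0), rhe2889920feb41ea5] (by decide +kernel))
noncomputable def rh0aecdb2f10f98522 : CRef := CRef.mk (Pat.mk 0x180000001800000090000000000000000000000000 0xc0000000c0000001f00000038000000fc0000006f0000002c0000002c 8 8) 0 0 (step_sound _ 195 [(rh2145e1d24b96a57e.shift 3 3), rhb82f9ea48cb080de] (by decide +kernel))
noncomputable def rhdbeb9cdf04720cd9 : CRef := CRef.mk (Pat.mk 0x180000000e0000004400000004 0x300000003a0000003a0000001b0000001e000000f600000034 8 8) 0 0 (step_sound _ 131 [(rh5c5e593799055d58.shift 2 1), rhd992f6aae1112388] (by decide +kernel))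
noncomputable def rhdc2285bbee7d535e : CRef := CRef.mk (Pat.mk 0x180000000e0000004400000000 0x300000003a0000003f0000001f0000001e000000f400000030 8 8) 0 0 (step_sound _ 131 [(rh5c5e593799055d58.shift 2 1), rhacb64126916f370d] (by decide +kernel))
noncomputable def rhbda20124defa0fc6 : CRef := CRef.mk (Pat.mk 0x10000000180000001000000000 0x280000003e0000007f0000007f0000003e000000180000001800000008 8 7) 0 0 (step_sound _ 132 [(rh03dfdf12d5937476.shift 3 0), (rh3fe627b4a17a5c9f.shift 0 2), rh6ce07b0bc5d1170f] (by decide +kernel))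
noncomputable def rh4aacbc52f2edfee3 : CRef := CRef.mk (Pat.mk 0x900000001c0000001000000000 0x280000003e0000007f0000007e000000de0000001c0000001800000008 8 8) 0 0 (step_sound _ 132 [(rh03dfdf12d5937476.shift 3 0), (rh3fe627b4a17a5c9f.shift 0 2), (rh9067a749d3ada477.shift 1 0)] (by decide +kernel))
noncomputable def rhf034b91e4b0e1c51 : CRef := CRef.mk (Pat.mk 0x2000000030000001400000000 0x50000000700000007000000020000000200000003000000070000001e00000004 8 5) 0 0 (step_sound _ 33 [(rh2fe78cc5ca4405d8.shift 0 1), rhe76451963c0d974a] (by decide +kernel))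
noncomputable def rhdacf328ac7e3d000 : CRef := CRef.mk (Pat.mk 0x30000000180000002000000000 0x280000003e0000007f0000003e00000038000000380000003000000020 8 7) 0 0 (step_sound _ 132 [(rh390a8df03c6c5a62.shift 4 0), (rh3fe627b4a17a5c9f.shift 0 2), (rh478c4cadbcd4e066.shift 4 0)] (by decide +kernel))
noncomputable def rh26420c0e3bb591bb : CRef := CRef.mk (Pat.mk 0x12000000030000000200000000000000000000000000000000 0x50000000700000007000000030000001e000000070000000300000007000000070000000700000001 8 5) 0 0 (step_sound _ 194 [(rh361cc68994bd8a63.shift 0 5), rh3e86a33b5c98ab1a] (by decide +kernel))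
noncomputable def rh8b54c14bf0c5ba14 : CRef := CRef.mk (Pat.mk 0x10000000030000001200000000000000000000000000000000 0x500000007000000070000001f000000030000001f00000006000000060000000600000004 8 5) 0 0 (step_sound _ 130 [(rh2fe78cc5ca4405d8.shift 0 4), rh7ba7f7732625eca2] (by decide +kernel))
noncomputable def rh13ec5f55e610b919 : CRef := CRef.mk (Pat.mk 0x800000018000000300000000000000000 0x140000001f00000038000000380000003e0000003c 8 6) 0 0 (step_sound _ 36 [(rh7b1f1fb55310c477.shift 3 0), rhf067533ef3ca3e01] (by decide +kernel))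
noncomputable def rh75109a7064686394 : CRef := CRef.mk (Pat.mk 0x100000000300000012000000000000000000000000 0x500000007000000070000001e000000030000001e000000070000000700000005 8 5) 0 0 (step_sound _ 98 [rh0e7b0537fe37f12c, (rh2fe78cc5ca4405d8.shift 0 3)] (by decide +kernel))
noncomputable def rh0c1fa21a29120a87 : CRef := CRef.mk (Pat.mk 0x100000000300000012000000000000000000000000 0x400000006000000060000001e000000030000001f000000070000000700000005 8 5) 0 0 (step_sound _ 98 [(rh2fe78cc5ca4405d8.shift 0 3), rhd7cab93cf15eb971] (by decide +kernel))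
noncomputable def rh7ac579666a7b27c4 : CRef := CRef.mk (Pat.mk 0x80000001800000038000000000000001000000000 0x40000000f0000003c0000003e000000680000003800000038 8 7) 0 0 (step_sound _ 67 [(rh9b4df57cddcda711.shift 3 0), (rhdf997f77704b6375.shift 2 0), rhe2608be91ada6d5e] (by decide +kernel))
noncomputable def rh9620ddd4764fbf99 : CRef := CRef.mk (Pat.mk 0xc0000001e000000020000000000000000 0x100000001c0000001e0000003e0000003f0000003e 8 6) 0 0 (step_sound _ 68 [rha8b45d2c26d4a107, (rhe25b0a99195a5d59.shift 1 2)] (by decide +kernel))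
noncomputable def rh0e121116e6cb9d51 : CRef := CRef.mk (Pat.mk 0x480000000c0000000800000000 0x40000001c0000001f0000001f0000007c0000000c0000000c00000004 8 7) 0 0 (step_sound _ 100 [(rh361cc68994bd8a63.shift 2 2), rh704c734d870d6fb3] (by decide +kernel))
noncomputable def rh0e5efc445ea123fc : CRef := CRef.mk (Pat.mk 0x80000000f0000000000000000000000000000000000000000 0x40000001c0000001c0000001c0000000c0000000f000000180000001c0000001c0000001c00000014 8 5) 0 0 (step_sound _ 131 [(rh7f8b017491bdbc1e.shift 2 0), (rhe25b0a99195a5d59.shift 0 4)] (by decide +kernel))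
noncomputable def rh0d388319206c8337 : CRef := CRef.mk (Pat.mk 0x7800000000 0xe7000000fe000001c7 8 9) 0 0 (step_sound _ 70 [rh0a6837be2b6c97fb, (rh33e738c4ed385b9f.shift 3 1)] (by decide +kernel))
noncomputable def rhb110bee72ded4f68 : CRef := CRef.mk (Pat.mk 0xa0000001e0000001000000008000000000000000000000000 0x40000000e0000001e0000001b0000001f000000170000000700000005 8 5) 0 0 (step_sound _ 129 [rh833b7874e35532d1, (rheb0810cc63b001d8.shift 0 4)] (by decide +kernel))
noncomputable def rh19bf0a16a7508ecd : CRef := CRef.mk (Pat.mk 0x1e0000000000000008000000080000000000000000 0x4000000070000001e000000030000000f0000001f0000000700000005 8 5) 0 0 (step_sound _ 193 [rh205d134347061cb7, (rh3244c3cc8379b070.shift 0 5)] (by decide +kernel))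
noncomputable def rh1c36a3a3bb7df293 : CRef := CRef.mk (Pat.mk 0x1e000000000000000800000000 0x4000000040000000f0000001e0000003b0000000f0000000e 8 6) 0 0 (step_sound _ 68 [rh7e729d6a7814282b, (rhe25b0a99195a5d59.shift 1 2)] (by decide +kernel))
noncomputable def rh26e193a08491d3af : CRef := CRef.mk (Pat.mk 0xf00000000000000040000000000000000 0x1c0000000f000000180000001f0000007c00000010 8 7) 0 0 (step_sound _ 163 [(rh33e738c4ed385b9f.shift 0 4), rh89e64f2fa689a92a] (by decide +kernel))
noncomputable def rh628e2c5c77d1b5c3 : CRef := CRef.mk (Pat.mk 0x100000001e000000100000000000000000 0x34000000340000001f0000001e0000001b0000000f0000000e 8 6) 0 0 (step_sound _ 129 [(rh3244c3cc8379b070.shift 0 3), rh48632ff08a630567] (by decide +kernel))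
noncomputable def rh67af138b9590ad10 : CRef := CRef.mk (Pat.mk 0x120000001e00000010000000000000000000000000 0x1d0000001f0000001e0000001e00000013000000070000000700000005 8 5) 0 0 (step_sound _ 97 [rh05c2018fa1e25f80, (rheb0810cc63b001d8.shift 0 3)] (by decide +kernel))
noncomputable def rh84201e0604d1efb9 : CRef := CRef.mk (Pat.mk 0x90000000f00000009000000000000000000000000 0x140000001c0000001e0000000b0000000f0000000d0000001f0000001d00000010 8 5) 0 0 (step_sound _ 195 [(rh03dfdf12d5937476.shift 2 2), (rh1741680720c097b4.shift 2 3), rhf6b58f36ccd0861b] (by decide +kernel))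
noncomputable def rh95c7e118086b2217 : CRef := CRef.mk (Pat.mk 0x120000001e0000000200000000000000000000000000000000 0x3d0000001f0000001e0000001e0000000a00000007000000070000000700000005 8 6) 0 0 (step_sound _ 97 [(rh02fa2cd79e26ebb3.shift 0 3), rh1b9022be4f7af407, (rh6eff4158bb400f47.shift 0 1), (rha707fb719e87fe6e.shift 1 2)] (by decide +kernel))
noncomputable def rh11213fd779aeb7bc : CRef := CRef.mk (Pat.mk 0x20000001a000000120000000200000000 0x10000000f0000001f0000000e0000001a0000001a0000001200000010 8 5) 0 0 (step_sound _ 162 [(rhbaefcd01e0a8bca3.shift 1 1), rhc6fc557f89345728] (by decide +kernel))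
noncomputable def rh6bd89ba8735cea62 : CRef := CRef.mk (Pat.mk 0x3800000000000000000000000000000000 0xc0000000c0000007f0000003e0000000f0000000e0000000e0000000a 8 7) 0 0 (step_sound _ 130 [(rh4c622fddc53a5f99.shift 0 4), (rh61aef1e967b8dd77.shift 1 0), (rh9e97bba44c1b13e4.shift 0 3)] (by decide +kernel))
noncomputable def rhe66df16e7851a7cf : CRef := CRef.mk (Pat.mk 0xf0000000800000000000000000000000000000000 0x140000001c0000001c0000001c000000180000000f0000000c0000001c0000001c0000001c00000004 8 5) 0 0 (step_sound _ 195 [(rh090a121bd4f7c195.shift 2 0), (rh33e738c4ed385b9f.shift 0 5)] (by decide +kernel))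
noncomputable def rh55f3dc8812bf5b74 : CRef := CRef.mk (Pat.mk 0x7800000000 0x1c7000000fe000000e7 8 9) 0 0 (step_sound _ 6 [rh0cc88aba61ec009f, (rhe25b0a99195a5d59.shift 3 0)] (by decide +kernel))
noncomputable def rha0af8a87cf7f814e : CRef := CRef.mk (Pat.mk 0x8000000100000001e0000000a00000000 0x500000007000000170000001f0000001b0000001e0000000e00000004 8 5) 0 0 (step_sound _ 97 [(rh3244c3cc8379b070.shift 0 2), rh44680e250406f18d] (by decide +kernel))
noncomputable def rh450c145b76fa75d0 : CRef := CRef.mk (Pat.mk 0x800000008000000000000001e0000000000000000 0x5000000070000001f0000000f000000030000001e0000000700000004 8 5) 0 0 (step_sound _ 33 [rh40c3005243f5c871, (rheb0810cc63b001d8.shift 0 1)] (by decide +kernel))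
noncomputable def rh41f9d4db8887bc51 : CRef := CRef.mk (Pat.mk 0x8000000000000001e000000000000000000000000 0xe0000000f0000003b0000001e0000000f0000000400000004 8 6) 0 0 (step_sound _ 132 [(rh33e738c4ed385b9f.shift 1 3), rhb0cc89533f22af42] (by decide +kernel))
noncomputable def rh1c40e8bd39a28df0 : CRef := CRef.mk (Pat.mk 0x4000000000000000f00000000 0x100000007c0000001f000000180000000f0000001c 8 7) 0 0 (step_sound _ 3 [rh95b2cb8b7f4c38e5, rhe25b0a99195a5d59] (by decide +kernel))
noncomputable def rh8f56f24846053bc2 : CRef := CRef.mk (Pat.mk 0x100000001e000000100000000000000000 0xe0000000f0000001b0000001e0000001f0000003400000034 8 6) 0 0 (step_sound _ 65 [rh4572a62812e2ec95, (rheb0810cc63b001d8.shift 0 2)] (by decide +kernel))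
noncomputable def rhd36d36f8e07da989 : CRef := CRef.mk (Pat.mk 0x100000001e000000120000000000000000 0x50000000700000007000000130000001e0000001e0000001f0000001d 8 5) 0 0 (step_sound _ 129 [rh1ce7ed7c6048a841, (rh3244c3cc8379b070.shift 0 3)] (by decide +kernel))
noncomputable def rh93e2ce761246cb32 : CRef := CRef.mk (Pat.mk 0x90000000f00000009000000000000000000000000 0x100000001d0000001f0000000d0000000f0000000b0000001e0000001c00000014 8 5) 0 0 (step_sound _ 67 [(rh6eff4158bb400f47.shift 2 0), (rhe286c75f2739cce2.shift 2 1), (rhfa75700c83922aad.shift 0 2)] (by decide +kernel))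
noncomputable def rh0361426074790674 : CRef := CRef.mk (Pat.mk 0x20000001e000000120000000000000000 0x50000000700000007000000070000000a0000001e0000001e0000001f0000003d 8 6) 0 0 (step_sound _ 161 [(rh1741680720c097b4.shift 0 2), rh5474ac059eadf761, (rhd4b4beefcd67f51e.shift 1 1), (rhfb9fb48a5e63ed80.shift 0 2)] (by decide +kernel))
noncomputable def rhab3dc487befda424 : CRef := CRef.mk (Pat.mk 0x2000000120000001a00000002000000000000000000000000 0x10000000120000001a0000001a0000000e0000001f0000000f00000001 8 5) 0 0 (step_sound _ 66 [rh5948c076a599186c, (rhd3458b32566d63f7.shift 1 2)] (by decide +kernel))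
noncomputable def rh2cdb45970d098203 : CRef := CRef.mk (Pat.mk 0x38000000000000000000000000 0xa0000000e0000000e0000000f0000003e0000007f0000000c0000000c 8 7) 0 0 (step_sound _ 98 [(rh0d378fd9e8917c5a.shift 0 2), (rh1773693aa87f208b.shift 1 0), (rh185f35b8bd8ec37f.shift 0 2)] (by decide +kernel))
noncomputable def rh9ccc1f174fc9e5b8 : CRef := CRef.mk (Pat.mk 0x400000000c0000001800000000000000000000000000000000 0x140000001c0000001c0000007c0000000f0000001c00000018000000180000001800000010 8 7) 0 0 (step_sound _ 161 [(rh7ba7f7732625eca2.shift 2 0), (rhb739f4f82bb681b4.shift 0 4)] (by decide +kernel))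
noncomputable def rhe0450f09c3428e8e : CRef := CRef.mk (Pat.mk 0x400000000c00000018000000000000000000000000 0x100000001800000018000000780000000f0000001c0000001c0000001c00000014 8 7) 0 0 (step_sound _ 129 [(rhb739f4f82bb681b4.shift 0 3), (rhd7cab93cf15eb971.shift 2 0)] (by decide +kernel))
noncomputable def rh641570b714abf37d : CRef := CRef.mk (Pat.mk 0x400000000c00000018000000000000000000000000 0x140000001c0000001c000000780000000f000000180000001c0000001c00000014 8 7) 0 0 (step_sound _ 129 [(rh0e7b0537fe37f12c.shift 2 0), (rhb739f4f82bb681b4.shift 0 3)] (by decide +kernel))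
noncomputable def rhb5f0bc483d5e7700 : CRef := CRef.mk (Pat.mk 0x800000001800000038000000000000000000000000 0x1c0000001c000000ff0000001f00000038000000080000000800000008 8 8) 0 0 (step_sound _ 67 [(rh3f09e2870ec06b4b.shift 1 0), (rhea7a1800d6f053bd.shift 3 0), (rhfc882fe82af9c3da.shift 0 2)] (by decide +kernel))
noncomputable def rhdd62a5fa4b62f2dd : CRef := CRef.mk (Pat.mk 0x800000001800000018000000000000000000000000 0x1c0000001c000000ff0000001f000000180000000c0000000c0000000c 8 8) 0 0 (step_sound _ 67 [(rh215e11e099257d75.shift 3 1), (rh9954101f0efffb9e.shift 2 0), (rhea7a1800d6f053bd.shift 3 0), (rhfc882fe82af9c3da.shift 0 2)] (by decide +kernel))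
noncomputable def rh6d0717456b4d61db : CRef := CRef.mk (Pat.mk 0x8000000018000000380000000000000000 0x280000003c0000003f000000fc000000180000003c0000002f0000000c 8 8) 0 0 (step_sound _ 132 [rh1bc6498f5ba4e1e8, (rh503dd4575245365b.shift 3 1), (rhfb9fb48a5e63ed80.shift 3 1)] (by decide +kernel))
noncomputable def rh4c5426433429daae : CRef := CRef.mk (Pat.mk 0x180000003800000000000000000000000000000000 0x80000001f0000003f000000070000000e0000000e0000000a 8 6) 0 0 (step_sound _ 130 [(rhbe5fc5902345a0b9.shift 0 4), (rhcc2be1f880c5ea3e.shift 0 3), (rhf68b145ddcdc8b3f.shift 1 0)] (by decide +kernel))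
noncomputable def rhc5b2dd566dfef9d3 : CRef := CRef.mk (Pat.mk 0x400000000c00000018000000000000000000000000 0x140000001c0000001c000000780000000f0000001c0000001c0000001c00000014 8 7) 0 0 (step_sound _ 129 [(rh64854facbab1ad73.shift 2 0), (rhb739f4f82bb681b4.shift 0 3)] (by decide +kernel))
noncomputable def rh6dbe88631b08141a : CRef := CRef.mk (Pat.mk 0x1800000098000000080000001000000000 0x2800000038000000ff00000078000000f000000060 8 8) 0 0 (step_sound _ 98 [(rh5fd027962edf3b21.shift 0 1), (rh7b6376742f9400ab.shift 2 0), (rhab2ad169e49f9c5e.shift 0 3)] (by decide +kernel))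
noncomputable def rh93513a0cafe97200 : CRef := CRef.mk (Pat.mk 0x1000000030000001100000003800000000 0x80000001e000000340000019e000000fe000001c7 8 9) 0 0 (step_sound _ 131 [(rh50fbb5868c909700.shift 3 1), rh79e32805541677ca] (by decide +kernel))
noncomputable def rhe3d22be3ad0d99c3 : CRef := CRef.mk (Pat.mk 0xc0000004400000004000000000000000000000000 0xa0000000e0000000e000000060000000c000000fc0000003f0000000e0000000e00000008 8 8) 0 0 (step_sound _ 194 [(rh20e56a1196e70fcc.shift 1 2), (rh2f6b95e004f68a41.shift 1 1), (rh51ea68a1376ace25.shift 1 2), (rh8cdd36b03d57a2f6.shift 1 1), (rha9774d3fe0d9106c.shift 0 2), (rhcae287dd1526d47c.shift 1 0)] (by decide +kernel))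
noncomputable def rhe52dd2c61e02d0a0 : CRef := CRef.mk (Pat.mk 0x18000000080000000800000000 0x140000001c0000001c0000001c0000001f000000380000001f0000001c00000004 8 6) 0 0 (step_sound _ 131 [(rh30c061e58ebf1ac8.shift 2 0), (rh5aa5e9dc84124dd6.shift 0 1), (rh65bbdb8058fbf355.shift 0 1)] (by decide +kernel))
noncomputable def rh974be4a934d53feb : CRef := CRef.mk (Pat.mk 0x1800000008000000080000000000000000 0x140000001c0000001c0000001c00000008000000380000001f0000001c0000001c00000014 8 6) 0 0 (step_sound _ 163 [(rh20e56a1196e70fcc.shift 2 1), (rh30c061e58ebf1ac8.shift 2 1), (rh65bbdb8058fbf355.shift 0 2), (rh8cdd36b03d57a2f6.shift 2 0)] (by decide +kernel))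
noncomputable def rh4b374e373d9afde3 : CRef := CRef.mk (Pat.mk 0x900000001800000000000000080000000000000000 0x2c000000ff0000003800000018000000180000001800000010 8 8) 0 0 (step_sound _ 99 [(rh71222050f2c63a3a.shift 3 1), rhd6df9037bf148874] (by decide +kernel))
noncomputable def rh393ff7a2f1a16fb7 : CRef := CRef.mk (Pat.mk 0x120000000300000010000000010000000000000000 0x500000007000000070000001e000000070000001e000000070000000700000004 8 5) 0 0 (step_sound _ 162 [(rh361cc68994bd8a63.shift 0 4), rh65f4922c8c2e87f9] (by decide +kernel))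
noncomputable def rheceadeb1a5313184 : CRef := CRef.mk (Pat.mk 0x120000000300000010000000010000000000000000 0x500000007000000070000001e000000070000001f000000070000000600000004 8 5) 0 0 (step_sound _ 162 [(rh361cc68994bd8a63.shift 0 4), rhf3df48e2bad30f6c] (by decide +kernel))
noncomputable def rhc8bf64f432d85ff6 : CRef := CRef.mk (Pat.mk 0x8800000018000000d80000001800000000 0x200000002000000067000000ff00000038000000de0000007800000020 8 8) 0 0 (step_sound _ 37 [(rh3fc040e777f1679e.shift 3 1), rhee928e29a7e62817] (by decide +kernel))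
noncomputable def rh547badf8d403a7aa : CRef := CRef.mk (Pat.mk 0x1200000003000000060000000100000000000000000 0x1e0000000770000007e000000df0000005000000040 8 9) 0 0 (step_sound _ 100 [rh472311b50863267e, (rh71222050f2c63a3a.shift 4 1)] (by decide +kernel))
noncomputable def rh2a047981615953f9 : CRef := CRef.mk (Pat.mk 0x20000000060000000c000000020000000000000000 0xa0000000e0000001e0000007c0000000e0000000c0000001f0000007e00000018 8 7) 0 0 (step_sound _ 162 [(rhb8fabe28d4babe66.shift 1 1), rhce279e175f0338bb, (rhfb9fb48a5e63ed80.shift 1 2)] (by decide +kernel))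
noncomputable def rhf052087f74fce7de : CRef := CRef.mk (Pat.mk 0x130000001200000003000000000000000000000000 0x130000001f0000000f0000001f0000000f00000005 8 5) 0 0 (step_sound _ 131 [rh501c1b3f6c9d6a52, (rhb2a0b9ccfb5cecd5.shift 0 3)] (by decide +kernel))
noncomputable def rhcb1b0b80ba165c33 : CRef := CRef.mk (Pat.mk 0x400000000c000000180000000c0000000000000000 0x30000000f00000001c0000001f0000003f000000f300000032 8 8) 0 0 (step_sound _ 65 [(rh53b3c253cb0c65f4.shift 0 2), rhbe4d955a2823203c] (by decide +kernel))
noncomputable def rhe7920d1b4df02c33 : CRef := CRef.mk (Pat.mk 0x480000000c00000018000000040000000000000000 0x10000000780000000c0000001f0000003f0000003300000012 8 7) 0 0 (step_sound _ 164 [(rh361cc68994bd8a63.shift 2 4), rh90d90aefe11780af] (by decide +kernel))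
noncomputable def rhfb3ea2fa958ef7a5 : CRef := CRef.mk (Pat.mk 0x400000000c0000000800000008 0x10000000180000007c0000001f0000007c0000001c0000000c00000008 8 7) 0 0 (step_sound _ 99 [(rh04e571695666b5c1.shift 2 0), rh1d5410a14414e7d3, (rhf9aa1aea0941c399.shift 2 0)] (by decide +kernel))
noncomputable def rh4ffccb7042136be7 : CRef := CRef.mk (Pat.mk 0x2000000006000000240000000200000000 0x20000000e0000000e0000001f0000007e0000000e0000003e0000000e00000004 8 7) 0 0 (step_sound _ 67 [(rh2fe78cc5ca4405d8.shift 1 2), rhb200040bb154dbd4] (by decide +kernel))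
noncomputable def rhb7b50373a94d3d04 : CRef := CRef.mk (Pat.mk 0xc00000048000000040000000000000000 0x4000000040000000c0000000c0000007f0000003f0000007b00000012 8 7) 0 0 (step_sound _ 100 [(rh2fe78cc5ca4405d8.shift 2 3), rhf063c34fdb8e3b1c] (by decide +kernel))
noncomputable def rh09cd67926f7ecdd3 : CRef := CRef.mk (Pat.mk 0xc00000048000000040000000000000000 0x140000001c0000007f0000003f0000007b0000001a 8 7) 0 0 (step_sound _ 100 [(rh2fe78cc5ca4405d8.shift 2 3), rhfb45dc91be7b1753] (by decide +kernel))
noncomputable def rhb5c514d837945659 : CRef := CRef.mk (Pat.mk 0x100000008000000018000000300000000800000000 0x4000000ff0000007e000001ef000000380000003f0000000f00000004 8 9) 0 0 (step_sound _ 163 [(rh1b556319d3519010.shift 0 2), (rh356b76fdcfed491c.shift 0 2), (rh36ae2ab44cf797d9.shift 0 1), rha5a8ebbc55518652, (rhb27efdb874cdc612.shift 0 2), (rhb7219ef0a2e38313.shift 0 2), (rhfa39b4415c8c7a83.shift 2 1)] (by decide +kernel))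
noncomputable def rhde6121efe7d65cef : CRef := CRef.mk (Pat.mk 0x8800000018000000100000000800000000 0x200000002000000077000000ff000000380000001f0000003f00000014 8 8) 0 0 (step_sound _ 36 [(rh7b1f1fb55310c477.shift 3 0), rhb4da0633f9c60a31] (by decide +kernel))
noncomputable def rhfd78e1d445dfc9bd : CRef := CRef.mk (Pat.mk 0x400000000c00000018000000040000000000000000 0x40000001c0000001c0000003e000000fc0000001c0000001c0000001f0000007800000010 8 8) 0 0 (step_sound _ 163 [(rh518d6f6eeebddcb2.shift 2 2), (rh927c870b1977d574.shift 1 3), (rh9ba9957bbfe0717f.shift 2 2), rhec4090ef8b39fac7, (rhfb9fb48a5e63ed80.shift 2 2)] (by decide +kernel))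
noncomputable def rh840f85098366c4ad : CRef := CRef.mk (Pat.mk 0x100000001000000010000000000000000000000000 0x280000003800000038000000100000001000000018000000ff000000fe0000002f00000020 8 8) 0 0 (step_sound _ 69 [(rh2662059f10b002ab.shift 0 1), (rh2977b00063528966.shift 4 0), (rh906b02cb2885dc07.shift 3 2), (rhb6e11cfc959c8a3c.shift 2 1)] (by decide +kernel))
noncomputable def rhdf7255d1e60f0837 : CRef := CRef.mk (Pat.mk 0x30000001000000003000000000000000000000000 0x5000000070000000700000007000000070000001e00000007000000030000000300000001 8 5) 0 0 (step_sound _ 129 [rh281c6819542c66e6, (rh9db499c9f3e9a8e7.shift 0 2), (rhb1a251d9bff81766.shift 0 2), (rhdddca37c4662ca83.shift 0 1)] (by decide +kernel))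
noncomputable def rh9064eab2f5a75772 : CRef := CRef.mk (Pat.mk 0x80000000180000008000000018000000000000000000000000 0x280000003800000038000000f000000018000001f70000007e000000ef0000002000000020 8 9) 0 0 (step_sound _ 132 [rh400ee49dd4ebac3a, (rh8ca74fa25325e393.shift 3 2), (rh9db499c9f3e9a8e7.shift 3 2), (rhe592aca24e1e4cb2.shift 1 1)] (by decide +kernel))
noncomputable def rh5f1b7916fe7bd610 : CRef := CRef.mk (Pat.mk 0x80000000100000008000000018000000000000000000000000 0x1000000050000001f000000030000001e70000007e000000ff0000007000000050 8 9) 0 0 (step_sound _ 101 [(rh1f36686c55693598.shift 2 3), (rh9735b6fb702b6423.shift 0 2), (rhbb082eb609cfe56e.shift 3 0), (rhbd852b24efab923f.shift 0 2)] (by decide +kernel))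
noncomputable def rhc9180c94ab4eac1f : CRef := CRef.mk (Pat.mk 0x30000001000000003000000000000000000000000 0x5000000070000000700000003000000030000001e00000007000000070000000700000005 8 5) 0 0 (step_sound _ 129 [rh0a6888916bcef86b, rh281c6819542c66e6, (rh9db499c9f3e9a8e7.shift 0 2), (rhb1a251d9bff81766.shift 0 2)] (by decide +kernel))
noncomputable def rh6d24e068c0dd33f7 : CRef := CRef.mk (Pat.mk 0x20000000600000002000000020000000000000000000000000000000000000000 0x20000000600000007000000030000000300000007000000070000000700000005 8 3) 0 0 (step_sound _ 129 [rh569cfe459e9e0c33, (rh7928877f9bf74a91.shift 0 3), (rh984bfc6de6c2c524.shift 0 1)] (by decide +kernel))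
noncomputable def rhbac28d392c520207 : CRef := CRef.mk (Pat.mk 0x10000000300000001000000000 0x2800000038000000380000003800000010000000770000003e0000002f 8 7) 0 0 (step_sound _ 132 [(rh14e0829dc73b6804.shift 3 1), (rh1741680720c097b4.shift 3 1), rh2c1bec4ded2666b0, (rhd4b4beefcd67f51e.shift 4 0)] (by decide +kernel))
noncomputable def rh434d70daf9d9e692 : CRef := CRef.mk (Pat.mk 0x1800000088000000080000000800000000 0xc0000000c0000000c00000038000000ff0000000e0000000c00000008 8 8) 0 0 (step_sound _ 100 [(rh71222050f2c63a3a.shift 3 0), (rh92dbf289a70dd34e.shift 0 1)] (by decide +kernel))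
noncomputable def rh3e94624e4cbf8da9 : CRef := CRef.mk (Pat.mk 0x1000000010000000180000001000000000 0x1000000010000000f8000000ff0000002f 8 8) 0 0 (step_sound _ 37 [(rh55afc6a59410cf00.shift 4 0), rh58a4bce27a18509f] (by decide +kernel))
noncomputable def rh845938e2dfbbc36b : CRef := CRef.mk (Pat.mk 0x1800000098000000080000000800000000 0x38000000ff0000007f0000006e00000024 8 8) 0 0 (step_sound _ 101 [(rh2fe78cc5ca4405d8.shift 3 3), rh4a7d7b5f4f2b6fd5] (by decide +kernel))
noncomputable def rhb51f27eceb40133f : CRef := CRef.mk (Pat.mk 0x3000000010000000100000001000000000 0x30000000300000007f0000007e000000ef 8 8) 0 0 (step_sound _ 35 [rh6ccdc9605097efd5, (rh932754581e0f4330.shift 3 0)] (by decide +kernel))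
noncomputable def rh7aa2b8b726642349 : CRef := CRef.mk (Pat.mk 0x1800000088000000080000001000000000 0x38000000ff0000006e0000007800000038 8 8) 0 0 (step_sound _ 35 [rh2311c2ae46997870, (rh55afc6a59410cf00.shift 3 0)] (by decide +kernel))
noncomputable def rhd1769e69b74063a9 : CRef := CRef.mk (Pat.mk 0xc00000018000000080000000800000000 0x140000001c0000001c000000080000000f000000180000001c0000000c00000004 8 5) 0 0 (step_sound _ 129 [(rh30c061e58ebf1ac8.shift 2 0), (rhb739f4f82bb681b4.shift 0 3)] (by decide +kernel))
noncomputable def rhb67112d1a5517cbe : CRef := CRef.mk (Pat.mk 0x1e00000000000000000000000000000000 0x600000006000000070000001e00000007000000070000000700000005 8 5) 0 0 (step_sound _ 97 [rhc366d44422cfceba, (rheb0810cc63b001d8.shift 0 3)] (by decide +kernel))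
noncomputable def rhc3bd3cafb7315f85 : CRef := CRef.mk (Pat.mk 0xe000000000000000000000000000000000 0x3000000030000003be000001fe0000007f000000380000003800000028 8 10) 0 0 (step_sound _ 132 [(rh01d49d2eea03de7d.shift 3 1), (rh05fadc0638981c34.shift 3 1), (rh06c54508efd5b78e.shift 3 0), (rh56a24c72f1c55520.shift 3 4), (rhd6a543980fee235b.shift 0 3)] (by decide +kernel))
noncomputable def rh304002f43fe926d5 : CRef := CRef.mk (Pat.mk 0x48000000d00000009c0000000800000000 0x4c0000004e0000004f000000dc0000009c0000000f00000006 8 8) 0 0 (step_sound _ 166 [(rh2145e1d24b96a57e.shift 6 2), rhc2254054aa567fd3] (by decide +kernel))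
noncomputable def rhf28eafe585dd74a1 : CRef := CRef.mk (Pat.mk 0x40000001c00000000000000000000000000000000 0x80000001c0000003f0000001f0000001c0000001f0000003e0000001e00000006 8 6) 0 0 (step_sound _ 99 [(rh5d54cb79a67f97ab.shift 2 1), rh9c4aa89fe3e19a97, (rha40d42a2e34c408d.shift 2 1), (rhcaf9d6b2d4250c67.shift 0 1)] (by decide +kernel))
noncomputable def rh36d8dfd49dd2c68e : CRef := CRef.mk (Pat.mk 0x100000007000000030000000000000000 0x2000000060000000700000007000000070000001f0000001f 8 5) 0 0 (step_sound _ 33 [rh7b1f1fb55310c477, rh7e36fcb8550a5960] (by decide +kernel))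
noncomputable def rh471e176a838f2935 : CRef := CRef.mk (Pat.mk 0x180000001c000000000000000000000000 0xc0000001f0000001f0000001e0000003c0000000c0000000c0000000c 8 6) 0 0 (step_sound _ 67 [rha7620454f0e91e91, (rhe9c3fa6cccae3b13.shift 0 1), (rhea7a1800d6f053bd.shift 3 0)] (by decide +kernel))
noncomputable def rh0264aa946e8b1e61 : CRef := CRef.mk (Pat.mk 0x1e00000000000000000000000000000000 0x8000000380000001f00000030000000380000003800000028 8 6) 0 0 (step_sound _ 164 [rh285a3e21cc6061bd, (rh33e738c4ed385b9f.shift 1 4)] (by decide +kernel))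
noncomputable def rhee977e353f789025 : CRef := CRef.mk (Pat.mk 0x1e000000000000000000000000 0x50000000700000007000000070000001e000000070000000600000006 8 5) 0 0 (step_sound _ 129 [(rh3244c3cc8379b070.shift 0 3), rhcdbae199e29b6a4f] (by decide +kernel))
noncomputable def rh77de7437174df855 : CRef := CRef.mk (Pat.mk 0xe0000000000000000000000000 0x2800000038000000380000007f000001fe000003be0000003000000030 8 10) 0 0 (step_sound _ 100 [(rh01d49d2eea03de7d.shift 3 0), (rh05fadc0638981c34.shift 3 0), (rh207cfd9c044cf941.shift 0 2), (rh42d32bf970c9c157.shift 3 2), (rh7e8391acd972767e.shift 3 0)] (by decide +kernel))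
noncomputable def rhb6e99b66a4f88bd4 : CRef := CRef.mk (Pat.mk 0x80000009c000000d0000000480000000000000000 0x60000000f0000009c000000dc0000004f0000004e0000004c 8 8) 0 0 (step_sound _ 38 [rh62293d4d2214dbc9, (rh71222050f2c63a3a.shift 6 0)] (by decide +kernel))
noncomputable def rhba1028e35a2a8d1b : CRef := CRef.mk (Pat.mk 0x1c00000004000000000000000000000000 0x60000001e0000003e0000001f0000001c0000001f0000003f0000001c00000008 8 6) 0 0 (step_sound _ 163 [(rh4821dcf828b9d7bf.shift 2 1), rh6f2b59a7c05e06fb, (rh762cfac2eb3b9ad3.shift 0 1), (rhadf429772c25fde0.shift 2 1)] (by decide +kernel))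
noncomputable def rhdc6b4505c2469271 : CRef := CRef.mk (Pat.mk 0x300000007000000010000000000000000 0x1f0000001f0000000700000007000000070000000600000002 8 5) 0 0 (step_sound _ 161 [(rh5c5e593799055d58.shift 0 2), rhf3a5f7dfc12e094d] (by decide +kernel))
noncomputable def rh008ec883d4619f17 : CRef := CRef.mk (Pat.mk 0xf000000000 0x77000000fe000000fc 8 8) 0 0 (step_sound _ 3 [(rh80fcd6d0a18cb2dd.shift 3 0), rhd12dead1e978399a] (by decide +kernel))
noncomputable def rh7ff83e255ffc0f7c : CRef := CRef.mk (Pat.mk 0x1c00000018000000000000000000000000 0xc0000000c0000000c0000003c0000001e0000001f0000001f0000000c 8 6) 0 0 (step_sound _ 163 [(rh2a9d29ebdff1d0ae.shift 0 2), (rh3e595262c1b737ad.shift 3 2), rhb97d5a7e7999a19a] (by decide +kernel))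
noncomputable def rh37fda04cb288357c : CRef := CRef.mk (Pat.mk 0x80000000f00000000000000000000000000000000 0x40000001c0000001c0000001c0000000c0000000f000000180000001c0000001c00000014 8 5) 0 0 (step_sound _ 99 [(rh442e67139a662716.shift 2 0), (rhe25b0a99195a5d59.shift 0 3)] (by decide +kernel))
noncomputable def rhf576cbc6ba99d365 : CRef := CRef.mk (Pat.mk 0x1e0000000000000000 0x7000000070000003f0000001e0000000700000006 8 6) 0 0 (step_sound _ 100 [(rh33e738c4ed385b9f.shift 1 2), rhd460056c501ff99e] (by decide +kernel))
noncomputable def rhe5afaa6c0c9ec9c5 : CRef := CRef.mk (Pat.mk 0x20000001e00000000000000000000000000000000 0x40000000600000006000000060000001e00000007000000070000000700000005 8 5) 0 0 (step_sound _ 97 [rh20a944a0e95c783c, (rheb0810cc63b001d8.shift 0 3)] (by decide +kernel))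
noncomputable def rh45d1f9cc4728a903 : CRef := CRef.mk (Pat.mk 0xf0000000800000000000000000000000000000000 0x140000001c0000001c000000180000000f0000000c0000001c0000001c0000001c00000004 8 5) 0 0 (step_sound _ 195 [(rh33e738c4ed385b9f.shift 0 5), (rh957c6f6c91365c95.shift 2 0)] (by decide +kernel))
noncomputable def rhbe615db3d7119bfe : CRef := CRef.mk (Pat.mk 0x1e00000002000000000000000000000000 0x50000000700000007000000070000001e00000006000000060000000600000004 8 5) 0 0 (step_sound _ 161 [(rh3244c3cc8379b070.shift 0 4), rh8b47f6d3f26d9283] (by decide +kernel))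
noncomputable def rh7f6381860ffb9811 : CRef := CRef.mk (Pat.mk 0x8000000090000000b00000008000000000000000000000000 0x1000000090000000b0000000b0000000e0000001f0000001e00000010 8 5) 0 0 (step_sound _ 66 [(rh79877ebd3ef475dd.shift 2 2), rhb80515605443557f] (by decide +kernel))
noncomputable def rhee04ebb463528c3e : CRef := CRef.mk (Pat.mk 0x8000000400000001e00000018000000000000000000000000 0x170000003f0000007c0000001e0000001f000000070000000200000002 8 7) 0 0 (step_sound _ 163 [(rh2b8a9fe9bffb42b7.shift 0 2), rh75451e2a9db82819, (rhc0378c037ae8bbdc.shift 2 3)] (by decide +kernel))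
noncomputable def rh7466654cbcc9ba1a : CRef := CRef.mk (Pat.mk 0x400000000c000000480000000000000000 0x100000001800000018000000180000007c0000001f0000007c0000001800000008 8 7) 0 0 (step_sound _ 68 [rh011518c4733e3011, (rh2fe78cc5ca4405d8.shift 2 2)] (by decide +kernel))
noncomputable def rh1869826b6f95e91c : CRef := CRef.mk (Pat.mk 0x480000000c0000000800000000 0x140000001f0000001f0000007c0000000c0000000c00000004 8 7) 0 0 (step_sound _ 100 [(rh361cc68994bd8a63.shift 2 2), rhe5af82f1721304f6] (by decide +kernel))
noncomputable def rh54756c1d87b35482 : CRef := CRef.mk (Pat.mk 0xe0000001a000000000000000000000000 0x1800000018000000380000001e0000001b000000300000003000000030 8 6) 0 0 (step_sound _ 132 [(rh20aa4f45d68bc15e.shift 1 0), (rheb0810cc63b001d8.shift 0 3)] (by decide +kernel))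
noncomputable def rhbb38e400e915dae9 : CRef := CRef.mk (Pat.mk 0x3000000030000000200000002000000000 0x30000000380000003e0000007e0000005f 8 7) 0 0 (step_sound _ 36 [(rh932754581e0f4330.shift 4 0), rha4644d8277f344b8] (by decide +kernel))
noncomputable def rh9ca2224253149574 : CRef := CRef.mk (Pat.mk 0x200000000e00000024000000000000000000000000 0xc0000001f000000780000000e0000003c0000001c0000001c0000001c 8 7) 0 0 (step_sound _ 99 [(rh2fe78cc5ca4405d8.shift 1 3), rhacb9c406a8c74341] (by decide +kernel))
noncomputable def rhc04cc13a45fd9ec6 : CRef := CRef.mk (Pat.mk 0xe0000001a00000000000000000000000000000000 0x400000004000000140000001e0000001e0000003f0000007f0000001f00000015 8 7) 0 0 (step_sound _ 97 [(rh1a088ebc49a2614c.shift 1 2), rh1b9022be4f7af407, rha51492af436893ed, (rha88610d1a6ef75a7.shift 0 1), rhf91074c71e1ee924] (by decide +kernel))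
noncomputable def rhde016052a80d3526 : CRef := CRef.mk (Pat.mk 0x180000001e000000400000000800000000 0x200000002000000070000001f0000001e0000007c0000003f00000017 8 7) 0 0 (step_sound _ 67 [(rh5ab13697a1e10053.shift 2 0), (rh7696ae8b0f0f5a20.shift 0 1), rhebca3adafb798950] (by decide +kernel))
noncomputable def rhce9696821af08137 : CRef := CRef.mk (Pat.mk 0x480000000c0000004000000000000000000000000000000000 0x8000000180000007c0000001f0000007c00000018000000180000001800000010 8 7) 0 0 (step_sound _ 196 [(rh361cc68994bd8a63.shift 2 5), rhe01ac23c3e93dbb4] (by decide +kernel))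
noncomputable def rhc6b224b6d178ecf8 : CRef := CRef.mk (Pat.mk 0x80000000c00000048000000000000000000000000 0x40000000c0000000c0000007c0000001f0000001f00000014 8 7) 0 0 (step_sound _ 100 [rh2b342287611906be, (rh2fe78cc5ca4405d8.shift 2 3)] (by decide +kernel))
noncomputable def rh48e6fc66f64fc72e : CRef := CRef.mk (Pat.mk 0x1a0000000e000000000000000000000000 0x3000000030000000300000001b0000001e000000380000001800000018 8 6) 0 0 (step_sound _ 100 [(rh3244c3cc8379b070.shift 0 3), (rh612003c16d254781.shift 1 0)] (by decide +kernel))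
noncomputable def rhad2abb9494c0989c : CRef := CRef.mk (Pat.mk 0x20000000200000003000000030 0x5f0000007e0000003e0000003800000030 8 7) 0 0 (step_sound _ 100 [(rh50fbb5868c909700.shift 4 0), rhdebad1ff0712b889] (by decide +kernel))
noncomputable def rhdd7e7f5e40699f67 : CRef := CRef.mk (Pat.mk 0x240000000e000000200000000000000000 0x1c0000001c0000001c0000003c0000000e000000780000001f0000000c 8 7) 0 0 (step_sound _ 131 [(rh361cc68994bd8a63.shift 1 3), rha5bcb9c19860faf0] (by decide +kernel))
noncomputable def rh8a9f989a26cb40b9 : CRef := CRef.mk (Pat.mk 0x1a0000000e000000000000000000000000 0x150000001f0000007f0000003f0000001e0000001e000000140000000400000004 8 7) 0 0 (step_sound _ 161 [(rh04c51f7f10c01fc5.shift 0 2), (rh655caa2f2fd5fd70.shift 0 3), (rh68a54c1cf70d3e04.shift 0 2), (rhd01938b442f37426.shift 1 0), (rhfb9fb48a5e63ed80.shift 0 2)] (by decide +kernel))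
noncomputable def rh4f8162692210f097 : CRef := CRef.mk (Pat.mk 0x8000000480000001c000000100000000000000000 0x170000001f0000007c0000001c0000001c0000000c0000000c 8 7) 0 0 (step_sound _ 132 [(rh361cc68994bd8a63.shift 2 3), rh3d44f0a8525e81a5] (by decide +kernel))
noncomputable def rhfa3da53dd8360358 : CRef := CRef.mk (Pat.mk 0x1800000018000000100000000000000000 0x1000000018000000180000001f0000003f0000003c 8 6) 0 0 (step_sound _ 36 [rh52da69560d6afc2c, (rh7b1f1fb55310c477.shift 3 0)] (by decide +kernel))
noncomputable def rhf1a8f4bd88d60e52 : CRef := CRef.mk (Pat.mk 0x100000001c000000480000000800000000 0xc0000000c0000001c0000001c0000007c0000001f00000017 8 7) 0 0 (step_sound _ 68 [(rh2fe78cc5ca4405d8.shift 2 2), rhd499da3447cd2f43] (by decide +kernel))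
noncomputable def rh1d6a790d61718848 : CRef := CRef.mk (Pat.mk 0x10000000180000001800000000 0x3c0000003f0000001f000000180000001800000010 8 6) 0 0 (step_sound _ 132 [(rh5c5e593799055d58.shift 3 1), rhfb42c09541988aac] (by decide +kernel))
noncomputable def rh8fab0bc5ec92af95 : CRef := CRef.mk (Pat.mk 0xf0000000000000000 0x1c0000003c0000001f0000000f0000001c0000000c 8 6) 0 0 (step_sound _ 99 [(rh33e738c4ed385b9f.shift 0 2), rhaa0e543bdcebd29e] (by decide +kernel))
noncomputable def rha71d30e3224d1cd8 : CRef := CRef.mk (Pat.mk 0xf000000000000000000000000 0xc0000001c0000000f0000001f0000003c0000001c 8 6) 0 0 (step_sound _ 67 [rh9e26cbf840adee11, (rhe25b0a99195a5d59.shift 0 2)] (by decide +kernel))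
noncomputable def rh79d10fa3eeef4305 : CRef := CRef.mk (Pat.mk 0x1c0000000400000000000000000 0x10000000300000003f000001fe000000ff0000004800000048 8 9) 0 0 (step_sound _ 101 [(rh242e36d95db5aaa2.shift 1 2), (rh274118944d245832.shift 2 0), (rh592c7139d2c44767.shift 3 2), (rhb9dd680bb9375a9f.shift 4 0), (rhfa744b509e7e69f3.shift 0 2)] (by decide +kernel))
noncomputable def rh97bf57c6677c9d2b : CRef := CRef.mk (Pat.mk 0x1000000010000000100000003800000000 0x800000018000000180000003e000000ff000000c7 8 8) 0 0 (step_sound _ 131 [(rh50fbb5868c909700.shift 3 1), rheba7d54923b0dec4] (by decide +kernel))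
noncomputable def rhc30f48ddc6fc54d9 : CRef := CRef.mk (Pat.mk 0x2000000020000000200000002000000000 0x100000003000000020000001fe000000fe0000005f 8 9) 0 0 (step_sound _ 36 [(rh932754581e0f4330.shift 4 0), rhe620defc67453408] (by decide +kernel))
noncomputable def rhc23d842ba69180fe : CRef := CRef.mk (Pat.mk 0x100000001000000010000000000000000000000000 0x80000001800000018000000ff000000fe0000003f00000028 8 8) 0 0 (step_sound _ 68 [(rh21574c04c88fbf88.shift 0 1), (rh8ff3dde5b1c639e0.shift 3 0), (rhc4526fc8abf298b6.shift 3 0)] (by decide +kernel))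
noncomputable def rh9e62a52686d7cbe8 : CRef := CRef.mk (Pat.mk 0x4000000000000000000000003800000000 0x4000000040000000cf000000fe000001f7 8 9) 0 0 (step_sound _ 38 [(rh52f94888bbeb9de6.shift 3 0), rhb40da17b8b619f22, rhbb13f9e1d387f64a] (by decide +kernel))
noncomputable def rha86238bf9c102144 : CRef := CRef.mk (Pat.mk 0x380000002000000020000000300000000000000000 0xf0000007e00000037000000240000003c0000006000000040 8 7) 0 0 (step_sound _ 162 [(rh0de499e0455c9c14.shift 0 4), (rh44ea481e962519f9.shift 1 0), (rh464bab2e226d0259.shift 1 1), (rh592c7139d2c44767.shift 0 4)] (by decide +kernel))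
noncomputable def rhe317ea46c0626ead : CRef := CRef.mk (Pat.mk 0x1e0000001000000010000000300000000000000000 0x4000000070000003e0000001b00000012000000f20000001800000008 8 8) 0 0 (step_sound _ 36 [rhbbb03ad99d265c45, (rhffd04209dc8ea796.shift 3 1)] (by decide +kernel))
noncomputable def rh9014f69254e382b1 : CRef := CRef.mk (Pat.mk 0x180000000a000000080000000800000000 0x180000000f0000007c0000007e000000f4 8 8) 0 0 (step_sound _ 98 [(rh53b3c253cb0c65f4.shift 0 3), (rh774743791e4471f2.shift 1 0)] (by decide +kernel))
noncomputable def rh025ed86d449e9649 : CRef := CRef.mk (Pat.mk 0x80000000a000000080000000800000000000000000000000000000000 0x10000000180000000f0000007c0000001f0000000c0000001c0000001c00000014 8 7) 0 0 (step_sound _ 228 [(rh2f68792b6b779e96.shift 3 4), rh53c0a6bc31fc445c] (by decide +kernel))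
noncomputable def rh571428492a87aece : CRef := CRef.mk (Pat.mk 0x20000000300000002000000020000000000000000000000000000000000000000 0x20000000300000007000000060000000600000007000000070000000700000005 8 3) 0 0 (step_sound _ 129 [(rha613ffd40b6c9d24.shift 0 2), (rhc05d451ce3dd5e48.shift 0 1), rhc594cc7cce017515, (rhd29a1fb688eae70f.shift 1 3)] (by decide +kernel))
noncomputable def rh08f500103af46dfa : CRef := CRef.mk (Pat.mk 0x80000001800000018000000100000000000000000 0x18000000180000001c000000ff000000ef0000000c 8 8) 0 0 (step_sound _ 67 [(rh1e309b005ffa1b36.shift 3 0), (rhb06c1ab6a73015a1.shift 0 1), (rhbb83b53687587fb2.shift 2 0)] (by decide +kernel))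
noncomputable def rh2b4d4dd0c6731211 : CRef := CRef.mk (Pat.mk 0x180000001e000000080000000800000000 0x1b0000001e000001dc000000fc000000f4 8 9) 0 0 (step_sound _ 34 [rh17c44794849beffc, (rh932754581e0f4330.shift 2 0)] (by decide +kernel))
noncomputable def rh2ce6beec7b351e8b : CRef := CRef.mk (Pat.mk 0x600000006000000020000000200000000 0x60000000e0000007b0000003f0000007d 8 7) 0 0 (step_sound _ 32 [rh932754581e0f4330, rh98676b1f4c927e47] (by decide +kernel))
noncomputable def rh8ee5b1dc83465cd0 : CRef := CRef.mk (Pat.mk 0x1800000008000000080000001800000000 0x18000000180000007c000000ff000000e7 8 8) 0 0 (step_sound _ 34 [rh67bdc841705b645f, (rh932754581e0f4330.shift 2 0)] (by decide +kernel))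
noncomputable def rh635c0230fe857cf4 : CRef := CRef.mk (Pat.mk 0x200000002000000020000000200000000 0x4000000060000000e0000003f0000001f0000003d 8 6) 0 0 (step_sound _ 130 [(rh2f68792b6b779e96.shift 1 1), rhd275c188bb062996] (by decide +kernel))
noncomputable def rh6b5b2883e1a7ce16 : CRef := CRef.mk (Pat.mk 0x4000000000000000000000002800000020 0x4000000040000007cf000003fe000007f7 8 11) 0 0 (step_sound _ 36 [(rh443c7b3254f5e65b.shift 3 0), rh59be2eaa5a68484e, (rhc21a95c499b3efdb.shift 2 0), rhc92c11e8da6c894f] (by decide +kernel))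
noncomputable def rhce7e11f9e9dfdfc3 : CRef := CRef.mk (Pat.mk 0x20000000a00000002000000000000000500000000000000000 0xa0000000a0000000e0000003e7000000fe000000e700000040 8 10) 0 0 (step_sound _ 38 [(rh0eb4637a3cd5e262.shift 5 1), (rh1a127fc7471c4614.shift 0 1), (rh1b781e7362e23db8.shift 3 0)] (by decide +kernel))
noncomputable def rh2fbcd6b2428243f2 : CRef := CRef.mk (Pat.mk 0x100000005000000010000000000000002800000000 0x100000005000000050000003f7000001fe000003df 8 10) 0 0 (step_sound _ 36 [(rh3506277512a833a2.shift 3 0), (rh72b2b5614a542436.shift 2 0), rh7fcea06424a643f2, rhe96f1330dd5e50ac] (by decide +kernel))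
noncomputable def rhe72a2ee9a383cd6d : CRef := CRef.mk (Pat.mk 0x800000008000000080000000800000000 0x800000008000001ff000000fe000001f4 8 9) 0 0 (step_sound _ 36 [(rh55afc6a59410cf00.shift 3 0), rhdf7c7c6d155ed2f8] (by decide +kernel))
noncomputable def rhc878396e6bd32792 : CRef := CRef.mk (Pat.mk 0x1000000000000000000000001e0000001a000000000000000000000000 0x1000000010000000100000003e0000001e0000003f0000000b00000003 8 6) 0 0 (step_sound _ 98 [(rh18965a982d73c794.shift 1 3), rh8dd0bcfa2b541f12] (by decide +kernel))
noncomputable def rh6eb2d6db5a72db4b : CRef := CRef.mk (Pat.mk 0x1e0000000000000000000000000000000000000000 0x600000006000000070000001e0000000700000007000000070000000700000005 8 5) 0 0 (step_sound _ 129 [rhda51b6a18a91e9e4, (rheb0810cc63b001d8.shift 0 4)] (by decide +kernel))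
noncomputable def rhb28ade722a660c2f : CRef := CRef.mk (Pat.mk 0x5000000040000000400000004000000000 0x8000000080000000f000000fe000003ff000000500000004000000040 8 10) 0 0 (step_sound _ 133 [(rh0534ccfab756e493.shift 4 0), (rh8ee80cc30e93a344.shift 3 3), (rhc59ba9a1f24cb412.shift 0 3), (rhdb909085e775a4a4.shift 2 0)] (by decide +kernel))
noncomputable def rhbdfffbc76cd386f8 : CRef := CRef.mk (Pat.mk 0x300000001c00000010000000100000000800000000 0xf00000001c0000007f000000770000001e0000001c 8 8) 0 0 (step_sound _ 99 [rh1a51befed60b53dd, rh9c72a5ad9ea74698, (rhe437f081bfcdb831.shift 3 0)] (by decide +kernel))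
noncomputable def rh301e290ea5b31219 : CRef := CRef.mk (Pat.mk 0x180000000a000000080000000800000000000000000000000000000000 0x780000000f0000000f0000007c000000180000001c0000001c00000014 8 7) 0 0 (step_sound _ 194 [rh16c6ab373202da1b, (rh53b3c253cb0c65f4.shift 0 6)] (by decide +kernel))
noncomputable def rh5362f7092d8ac125 : CRef := CRef.mk (Pat.mk 0x80000000e000000080000000000000000 0xf80000007e000000ff000000fc0000003c 8 8) 0 0 (step_sound _ 100 [(rh205dc383ce3b31ea.shift 0 2), (rh300eedc557b86950.shift 1 2), (rh38497638916a38c6.shift 1 0), (rh3fc3a7fb6866dcd4.shift 1 2), rh743587a59db56a03] (by decide +kernel))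
noncomputable def rhf84ba13d5f59187e : CRef := CRef.mk (Pat.mk 0x1800000038000000000000001000000000 0x40000001e000000380000007c0000001f0000001c 8 7) 0 0 (step_sound _ 68 [(rh7b1f1fb55310c477.shift 3 0), rhde588f480392264b] (by decide +kernel))
noncomputable def rhbf1ac8122154e259 : CRef := CRef.mk (Pat.mk 0x4000000000000000000000007c00000038000000000000001000000000 0x4000000040000000460000007c000000380000002f0000007e000000ff 8 8) 0 0 (step_sound _ 162 [(rh3244c3cc8379b070.shift 1 4), rhfb7adce55fd8880a] (by decide +kernel))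
noncomputable def rhe220c0de9982429b : CRef := CRef.mk (Pat.mk 0x1000000010000000100000001000000000 0x1000000010000000ff000000fe000001ef 8 9) 0 0 (step_sound _ 35 [(rh932754581e0f4330.shift 3 0), rhe1f711e9bcdcf7b8] (by decide +kernel))
noncomputable def rhd64673c95c04d899 : CRef := CRef.mk (Pat.mk 0xc00000008000000000000003c00000000000000000000000000000000 0xf0000007c000000760000003c00000060000000700000007000000050 8 7) 0 0 (step_sound _ 161 [(rh3f8766e6ecb455ce.shift 1 4), rhda13bf75e51d42a6] (by decide +kernel))
noncomputable def rh1e450ca191fb0255 : CRef := CRef.mk (Pat.mk 0x10000000700000000000000000000000000000000 0x40000000c0000007f0000003f0000007c0000001c0000001c00000014 8 7) 0 0 (step_sound _ 131 [(rh0786c19de25163c7.shift 0 3), (rh2aac33c566332a8c.shift 0 3), rh7542131adc1aa0d7, (rh790acd67f4fffd04.shift 0 4)] (by decide +kernel))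
noncomputable def rhd570598789c06f74 : CRef := CRef.mk (Pat.mk 0x3000000020000000200000002000000000 0xf0000003e000000ff000000700000003e00000038 8 8) 0 0 (step_sound _ 100 [rh135e4dfc2226d772, (rh7b1f1fb55310c477.shift 4 0)] (by decide +kernel))
noncomputable def rhfa2f04f86dfc7d53 : CRef := CRef.mk (Pat.mk 0x1000000010000000100000003000000000 0x800000018000000180000003e000000ff000000ce 8 8) 0 0 (step_sound _ 35 [rh3e2dc9d20b376ff1, (rh932754581e0f4330.shift 3 0)] (by decide +kernel))
noncomputable def rhebeee8c045375f95 : CRef := CRef.mk (Pat.mk 0x1000000010000000100000001000000000 0x80000001800000010000000ff000000fe0000002f 8 8) 0 0 (step_sound _ 131 [rh2fa6876bc5d9c7cb, (rh50fbb5868c909700.shift 3 1)] (by decide +kernel))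
noncomputable def rh27a3414dd8ade423 : CRef := CRef.mk (Pat.mk 0x20000000200000001800000018000000100000000000000000 0x2000000060000000de000000ff000000ff0000000600000006 8 8) 0 0 (step_sound _ 101 [(rh37aed1c9caf4a2d8.shift 2 2), rh40810c163117d68c, (rhe2b63c00a3d7bb73.shift 1 3)] (by decide +kernel))
noncomputable def rh0ecb674cebaf0a24 : CRef := CRef.mk (Pat.mk 0x80000000800000008000000080000000000000000000000000000000000000000 0x80000001c0000007f0000007f0000001c0000000c0000001c0000001c00000014 8 7) 0 0 (step_sound _ 131 [(rh101b69d24224c63e.shift 0 2), (rh4bbb81894b96eb05.shift 2 2), (rh7928877f9bf74a91.shift 2 3), rhb28d70720f337bcb] (by decide +kernel))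
noncomputable def rhf085abb8f8f2bd3e : CRef := CRef.mk (Pat.mk 0x50000000100000000c00000008000000280000001c0000000000000000 0x4000000050000000700000006f0000007f0000003c0000007e0000006000000040 8 7) 0 0 (step_sound _ 133 [(rh26b719545cf81053.shift 0 2), (rh8c25cb665ab79ec0.shift 0 4), (rhc9adee06efc10ab6.shift 1 0)] (by decide +kernel))
noncomputable def rhded03eae47b48b5c : CRef := CRef.mk (Pat.mk 0x8000000180000001e00000000 0x500000007000000070000000f0000001b0000001e00000007 8 5) 0 0 (step_sound _ 1 [rh6602a7c6805e8a1a, rheb0810cc63b001d8] (by decide +kernel))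
noncomputable def rh585063eeaafa339c : CRef := CRef.mk (Pat.mk 0x400000004000000050000000000000000000000000 0x40000007ff000003fe000007cf0000008000000080 8 11) 0 0 (step_sound _ 101 [(rh44387fa9c06e0d2b.shift 3 0), (rh647faed73cd07a03.shift 0 2), (rha11dfd15f08f96e3.shift 3 3), (rha2b6411962a48741.shift 2 2), (rha4e887c2a2a0f60b.shift 1 2)] (by decide +kernel))
noncomputable def rh404fe6d9790db83e : CRef := CRef.mk (Pat.mk 0x50000000100000000c0000000c0000000a00000000 0x5000000070000001ee000000fe000001ff000000e7 8 9) 0 0 (step_sound _ 68 [(rh076be03eb7063320.shift 0 1), (rh51e1c6fcf00b5e70.shift 2 1), (rh653dd416ea360d58.shift 1 1), (rh7414e988019ffba0.shift 1 1), (rh79b3c29022acbdf3.shift 1 2), (rhdf4d6f1e644f86a2.shift 1 1), rhefd08f920351276a] (by decide +kernel))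
noncomputable def rh57026eff083916f6 : CRef := CRef.mk (Pat.mk 0x4000000080000000a0000000800000000000000000000000000000000 0x40000001c0000001f0000000c000000180000001c0000001c00000004 8 5) 0 0 (step_sound _ 99 [rhc21bc5d93c5770e7, (rhffd04209dc8ea796.shift 2 3)] (by decide +kernel))
noncomputable def rh7f8476316fee2a1b : CRef := CRef.mk (Pat.mk 0x500000001000000008000000080000001a0000000800000000 0x50000000f4000000ec000003f8000001fe000003cf00000040 8 10) 0 0 (step_sound _ 69 [(rh2820ca9a6c4f41b4.shift 0 1), (rh7ee559e0b2173ec0.shift 3 0), (rh8a0fefa1af4cde73.shift 0 1)] (by decide +kernel))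
noncomputable def rhab99e4cdfdfcc1db : CRef := CRef.mk (Pat.mk 0x80000000e000000000 0xce000001fe000003ff 8 10) 0 0 (step_sound _ 36 [(rh0edd3afef6b5d7e0.shift 3 0), (rh551591afa7e9bd9a.shift 1 0), rhecc2f590e920be22] (by decide +kernel))
noncomputable def rh9ec4b189858e6030 : CRef := CRef.mk (Pat.mk 0x4000000040000000700000000000000000 0x20000000600000005f000001fe000003ff00000080 8 10) 0 0 (step_sound _ 38 [(rh2cc67ae61edd03dc.shift 0 1), (rhb0c6196f710d9a93.shift 4 0), (rhbdde238153e38af9.shift 3 0)] (by decide +kernel))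
noncomputable def rh0250d898c9054a62 : CRef := CRef.mk (Pat.mk 0x20000000200000001800000010000000140000001000000000 0x2200000062000000df000000ff000000d60000001400000014 8 8) 0 0 (step_sound _ 99 [rh52d416b6acb09eb7, (rh7b1f1fb55310c477.shift 3 0)] (by decide +kernel))
noncomputable def rhe5193cb07d9333df : CRef := CRef.mk (Pat.mk 0x8000000100000001c0000001000000000 0x2000000020000000f0000001f0000003f0000001400000014 8 6) 0 0 (step_sound _ 99 [(rh7b1f1fb55310c477.shift 3 0), rhc4c2b6ca8dd8bf9c] (by decide +kernel))
noncomputable def rh54a9d6b90dd94a72 : CRef := CRef.mk (Pat.mk 0x1800000018000000140000001000000000 0x600000006000000060000001f0000001f000000370000003e00000006 8 6) 0 0 (step_sound _ 98 [rh1fab2f508e558282, rhf4e4690e1d4c3fc6, (rhf56e6bc5d2f7fe77.shift 0 2)] (by decide +kernel))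
noncomputable def rhb7ec75a34a7834fa : CRef := CRef.mk (Pat.mk 0x4000000000000000000000003000000060000000380000000000000000 0x100000007c0000001c0000000c0000003c0000007f000000f80000001c00000008 8 8) 0 0 (step_sound _ 131 [rh7980c084e5a2508a, (rhb739f4f82bb681b4.shift 2 3)] (by decide +kernel))
noncomputable def rh8ea3e871763d5ce2 : CRef := CRef.mk (Pat.mk 0xa0000000200000001800000010000000140000001000000000 0xa2000000e2000003df000001ff000003fc0000001600000016 8 10) 0 0 (step_sound _ 99 [(rh7b1f1fb55310c477.shift 3 0), rh7eec747258500b6d] (by decide +kernel))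
noncomputable def rhd9a877c628be425a : CRef := CRef.mk (Pat.mk 0x500000001000000000000000080000001a0000000800000000 0x50000000f0000000e0000003ff000001fe000003cc00000040 8 10) 0 0 (step_sound _ 69 [(rh1e581fcebcca7a34.shift 2 1), (rh7ee559e0b2173ec0.shift 3 0), (rh99571310822a59fa.shift 0 2), (rhae8d21abc86b555a.shift 2 1), (rhd9106766b9ff53c0.shift 2 1)] (by decide +kernel))
noncomputable def rh72b946105f8330dc : CRef := CRef.mk (Pat.mk 0x140000000400000000000000028000000280000000000000000 0x14000000170000003b0000001fe000001ef0000002000000020 8 10) 0 0 (step_sound _ 133 [(rh1006c02ae4212ff0.shift 5 2), rh9f46cebbd77ea71a] (by decide +kernel))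
noncomputable def rh6767252407a6ab2b : CRef := CRef.mk (Pat.mk 0x80000001c000000140000000000000000 0x600000006000000060000000f0000001c000000170000003e00000016 8 6) 0 0 (step_sound _ 36 [rh1fab2f508e558282, (rh7b1f1fb55310c477.shift 3 0)] (by decide +kernel))
noncomputable def rhaa79a099736eb728 : CRef := CRef.mk (Pat.mk 0x100000001c000000140000000000000000 0xa0000000a0000000f0000001f0000007c000000740000001e00000016 8 7) 0 0 (step_sound _ 131 [rh1604d298968a6f05, (rh4821dcf828b9d7bf.shift 2 0), (rh78e424ef2951d21e.shift 2 1), (rhfc7c29d8e65d775f.shift 3 1)] (by decide +kernel))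
noncomputable def rh139c88fd133742b2 : CRef := CRef.mk (Pat.mk 0x20000000000000000000000014000000140000001400000000 0x20000000e0000003e0000000e0000000c0000001e000000370000001600000016 8 6) 0 0 (step_sound _ 130 [rh34b3399fa8422ec1, (rh40da458a77534118.shift 1 0), (rh79e9e49a44a69e40.shift 1 0), (rhc5998ce9d02e6204.shift 2 0), (rhe01cfd8f0577defd.shift 1 1)] (by decide +kernel))
noncomputable def rha3a926c6bbe7b967 : CRef := CRef.mk (Pat.mk 0x80000000000000000000000050000000100000001000000000 0x800000038000000f80000003f0000003e00000077000000180000001800000008 8 8) 0 0 (step_sound _ 132 [(rh20966da26a1c2ae8.shift 3 0), (rh3fe25ec969704845.shift 0 1), (rh771d065bdc85bf2d.shift 3 0), (rh93b19dc363914c10.shift 3 0), (rhc85cc95794737cf7.shift 3 1)] (by decide +kernel))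
noncomputable def rhfa95a84a9d75ee01 : CRef := CRef.mk (Pat.mk 0x1000000000000000000000000200000002000000020000000000000000 0x1000000070000001f00000007000000030000000300000003000000030000000300000001 8 5) 0 0 (step_sound _ 161 [(rh771d065bdc85bf2d.shift 0 1), (rh79e9e49a44a69e40.shift 0 1), (rhb9471a58a9808ccb.shift 0 2), rhc4526fc8abf298b6] (by decide +kernel))
noncomputable def rha0a8379952207406 : CRef := CRef.mk (Pat.mk 0x100000001000000000000000080000000e000000000000000000000000 0x120000007600000067000000ff0000007e000000ff0000000200000002 8 8) 0 0 (step_sound _ 100 [(rh06db8ceda6269a47.shift 0 2), (rh27ce058b59d72f64.shift 0 2), (rh2e5eb6eba75947cc.shift 1 2), rhd36a7d89ca14714c, (rhe401600d466b97cd.shift 0 2)] (by decide +kernel))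
noncomputable def rh3da478f020abb9c4 : CRef := CRef.mk (Pat.mk 0x8000000180000001e00000000 0x100000007000000070000000f0000001f0000001e00000003 8 5) 0 0 (step_sound _ 65 [(rh3244c3cc8379b070.shift 0 1), rh36efc73395149816] (by decide +kernel))
noncomputable def rhcba359270a1c4eb5 : CRef := CRef.mk (Pat.mk 0x280000000800000000000000040000000f0000000000000000 0x280000007800000070000001fc000000ff000001f000000020 8 9) 0 0 (step_sound _ 68 [(rh35e918dd76851f8c.shift 1 1), (rh7ee559e0b2173ec0.shift 2 0), (rh9890f9d77740bbed.shift 0 2), (rha553dc0c8b2a30f4.shift 0 1), (rhf5fa5e48e0784de2.shift 1 1)] (by decide +kernel))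
noncomputable def rhcea113df8f1ef6c1 : CRef := CRef.mk (Pat.mk 0x4000000070000000000000000000000000 0x140000001c0000001c0000007f0000007e0000001f0000001800000018 8 7) 0 0 (step_sound _ 99 [(rh1773693aa87f208b.shift 2 0), (rh21d582c147e7e118.shift 1 2), (rh551591afa7e9bd9a.shift 0 2), (rhf015c446b680a84f.shift 1 3)] (by decide +kernel))
noncomputable def rhd67ddc8991fc6770 : CRef := CRef.mk (Pat.mk 0x1000000010000000100000000800000000 0x80000001800000010000000ff000000fe0000002f 8 8) 0 0 (step_sound _ 36 [rh3b766c197fe19002, (rh932754581e0f4330.shift 3 0)] (by decide +kernel))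
noncomputable def rh54308ed43bfdd542 : CRef := CRef.mk (Pat.mk 0xc00000008000000000000001e00000000 0x2f0000007c000000700000007e000000e0 8 8) 0 0 (step_sound _ 69 [(rh428265de8cd3cd2d.shift 1 1), rh95b1c67da8338b3e] (by decide +kernel))
noncomputable def rhac7d6bbb58ec72fc : CRef := CRef.mk (Pat.mk 0xc00000008000000080000001c00000000 0x10000000f0000001f000000ef0000007e000000e3 8 8) 0 0 (step_sound _ 37 [rh184d51411777a23a, (rha93a5dd541ab8209.shift 2 0), (rhe3060b190bc0bc78.shift 1 1)] (by decide +kernel))
noncomputable def rh4e0212bccf27eebf : CRef := CRef.mk (Pat.mk 0x2000000020000000200000003000000000 0x2000000020000007ef000003fe000003cf 8 11) 0 0 (step_sound _ 38 [(rh55afc6a59410cf00.shift 5 0), rhecab815d28b38d35] (by decide +kernel))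
noncomputable def rhd8b6b96ce64ab221 : CRef := CRef.mk (Pat.mk 0x400000007000000000000000000000000000000000 0x18000000180000007f0000007e0000001f0000001c0000001c00000014 8 7) 0 0 (step_sound _ 131 [(rh03c06803d1655eb6.shift 2 0), (rh21d582c147e7e118.shift 1 3), (rh592c7139d2c44767.shift 1 3), (rh5e601430b8bc2e39.shift 0 3), (rh7fb660bc21ce4329.shift 1 4)] (by decide +kernel))
noncomputable def rh3405158eb3704a32 : CRef := CRef.mk (Pat.mk 0x10000000200000003000000038000000000000000000000000 0x10000000ff000000fe000000380000000c0000000c0000000c 8 8) 0 0 (step_sound _ 134 [rh061cd29c2d4d3df3, (rh18965a982d73c794.shift 3 3)] (by decide +kernel))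
noncomputable def rh1f793dcb2f55d7df : CRef := CRef.mk (Pat.mk 0x8000000080000000e00000004 0x70000000f000003fb000001fe000003e7 8 10) 0 0 (step_sound _ 36 [rh010ba7c809afa7e3, (rh352b7f91eba0c81f.shift 1 0), (rh760768b52a3c5f47.shift 1 0), (rh9fb657e6481dfcdc.shift 1 0)] (by decide +kernel))
noncomputable def rh32da4dcdbc5be6f2 : CRef := CRef.mk (Pat.mk 0x380000001800000010000000000000000000000000 0xc0000000f0000003c0000001e0000001c0000000c0000000c0000000c 8 6) 0 0 (step_sound _ 130 [(rh53b3c253cb0c65f4.shift 1 4), rhe1a71f68e7af08e4] (by decide +kernel))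
noncomputable def rh6f30b9806435927e : CRef := CRef.mk (Pat.mk 0x100000003800000000 0x7f7000003fe000007c7 8 11) 0 0 (step_sound _ 34 [rh592c7139d2c44767, (rh760768b52a3c5f47.shift 2 0), (rhec46bd5500c722c9.shift 1 1), (rhedf6b6c69a16cbd5.shift 0 1)] (by decide +kernel))
noncomputable def rh4141fe07bc2916ac : CRef := CRef.mk (Pat.mk 0x8000000080000000a0000000000000000000000000000000000000000 0x40000000c0000001c0000001f000000780000001c0000001c0000001c00000010 8 7) 0 0 (step_sound _ 131 [(rh47992774edf9829f.shift 2 1), (rh8ff3dde5b1c639e0.shift 2 2), (rhc486ae0fcc44be52.shift 0 3), (rheb928ba02c1bb8b4.shift 2 0)] (by decide +kernel))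
noncomputable def rh8054609d8b031a11 : CRef := CRef.mk (Pat.mk 0x80000000e000000000000000000000000 0x8000001ff000000fe000000f00000001000000010 8 9) 0 0 (step_sound _ 100 [(rh394e80a462af5b2f.shift 0 2), (rh4569bd9aa4440d20.shift 1 0), (rh8377537580a72741.shift 1 2), (rh9a91d8f32e6bd95b.shift 0 2), (rha93a5dd541ab8209.shift 1 2), (rhe6bdd62e1711df0b.shift 1 3)] (by decide +kernel))
noncomputable def rhb0de3eeae8874868 : CRef := CRef.mk (Pat.mk 0x8000000080000000b00000000000000000000000000000000 0x40000000c0000001c0000000f000000180000001c0000001c00000014 8 5) 0 0 (step_sound _ 130 [(rh33e738c4ed385b9f.shift 0 4), rhf0b499fba42fe51c] (by decide +kernel))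
noncomputable def rh479762e25c185f37 : CRef := CRef.mk (Pat.mk 0x20000000200000002c00000000000000000000000000000000 0x1000000030000000370000003e00000067000000700000007000000050 8 7) 0 0 (step_sound _ 132 [(rh592c7139d2c44767.shift 0 3), (rhf0b499fba42fe51c.shift 2 0)] (by decide +kernel))
noncomputable def rh9086636054fda4d6 : CRef := CRef.mk (Pat.mk 0x30000000200000002800000000 0x10000000100000001f0000003e0000006f0000002800000028 8 7) 0 0 (step_sound _ 132 [(rh7b1f1fb55310c477.shift 4 0), rhdae8802aa1c6b8e6] (by decide +kernel))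
noncomputable def rhdfadbe57591631e4 : CRef := CRef.mk (Pat.mk 0x400000007000000000000000200000002800000000 0x5e000000fc0000018e000001ef000000fe000000ef 8 9) 0 0 (step_sound _ 131 [(rh36a1ae055c31ee25.shift 1 0), (rh775ca1963e850b80.shift 1 3), rh8da1091cccc51351, (rh9033d4dd7a934d39.shift 1 0)] (by decide +kernel))
noncomputable def rh5e54e5d53e5286ed : CRef := CRef.mk (Pat.mk 0x100000001c000000100000003000000000 0xf00000007c000000f7000000fe000001cf 8 9) 0 0 (step_sound _ 35 [rh125a33bad65ba726, (rh932754581e0f4330.shift 3 0)] (by decide +kernel))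
noncomputable def rh2d188d26f69b0dd2 : CRef := CRef.mk (Pat.mk 0x10000000000000002000000028000000000000000000000000 0x140000001c0000003c0000006f0000007e000000ef0000004000000040 8 8) 0 0 (step_sound _ 100 [(rh209658185e438b00.shift 1 2), (rh7180a8c1fcdc4d47.shift 0 2), (rh8d2713e2e287ebae.shift 2 0), (rha2b6411962a48741.shift 1 2), (rha4e887c2a2a0f60b.shift 0 2)] (by decide +kernel))
noncomputable def rh0adc0745e1aa601e : CRef := CRef.mk (Pat.mk 0x1400000000000000000000000e00000000 0x1000000070000001f00000006000000730000003e00000073 8 7) 0 0 (step_sound _ 36 [rh26ac81903d4f0969, (rha93a5dd541ab8209.shift 1 0)] (by decide +kernel))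
noncomputable def rh20ef21b53f9550fc : CRef := CRef.mk (Pat.mk 0x3800000000000000000000000400000000 0xf0000007e0000000f000000070000000700000005 8 7) 0 0 (step_sound _ 130 [(rh5cac334ca64bdc84.shift 1 0), (rh775ca1963e850b80.shift 0 3), rh9033d4dd7a934d39, rhbade3b1553fee5d1] (by decide +kernel))
noncomputable def rh4ab5e84f45c738f8 : CRef := CRef.mk (Pat.mk 0x1000000020000000200000002800000000 0x10000000100000001f0000003e0000006f0000002800000028 8 7) 0 0 (step_sound _ 100 [(rh7b1f1fb55310c477.shift 4 0), rhdae8802aa1c6b8e6] (by decide +kernel))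
noncomputable def rh87299d5f0623721e : CRef := CRef.mk (Pat.mk 0x8000000080000001e00000000000000000000000000000000 0x400000004000000040000000e0000000f0000001e0000000b000000070000000700000005 8 5) 0 0 (step_sound _ 161 [(rh3244c3cc8379b070.shift 0 4), rhdd5696e42e56377b] (by decide +kernel))
noncomputable def rh43bb7a5cea3e4777 : CRef := CRef.mk (Pat.mk 0x100000000d00000008000000000000000000000000 0x3000000030000000f00000003f000000f8000000300000003000000030 8 8) 0 0 (step_sound _ 132 [(rh2935cd497823f94c.shift 0 2), (rh2957c4cc869e5708.shift 2 0), (rhd4dac5621b04fe4d.shift 0 3), (rheb4d08aa211d1b03.shift 1 3)] (by decide +kernel))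
noncomputable def rh81349719466fd7f7 : CRef := CRef.mk (Pat.mk 0x1400000004000000020000000a0000000600000004000000000000000000000000 0x140000001c0000003b000000fe0000007e000000fe000000180000001800000018 8 8) 0 0 (step_sound _ 131 [(rh0321fa5f1441d911.shift 0 4), (rh2957c4cc869e5708.shift 1 0), (rha26f419eec247473.shift 1 2), (rhddb62b46690203e5.shift 1 1), (rhf897c94d76815c4b.shift 1 0)] (by decide +kernel))
noncomputable def rh85ae36e2850b4f44 : CRef := CRef.mk (Pat.mk 0x1c000000000000000000000000 0x20000003e0000001ff000003fc0000001000000010 8 10) 0 0 (step_sound _ 101 [(rh4a20ac7afc87e99b.shift 0 2), (rh8125f50c3313160d.shift 0 2), (rha93a5dd541ab8209.shift 2 2), (rhc02275ce183c9512.shift 1 0), (rhe6287d96d1a4a02a.shift 2 2)] (by decide +kernel))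
noncomputable def rhfd21c8fee3a7c651 : CRef := CRef.mk (Pat.mk 0x1000000000000000e00000000000000000 0x100000001f000003fe000000ff00000020 8 10) 0 0 (step_sound _ 68 [(rh04797e9e06425c4e.shift 1 1), (rh1bd1ffd5ccb9b7fd.shift 0 1), (rh592c7139d2c44767.shift 2 1), (rhcb500f09795e10dd.shift 3 0), (rhe55b0dbbf3210617.shift 2 1)] (by decide +kernel))
noncomputable def rh37caf04d3aa6b3ef : CRef := CRef.mk (Pat.mk 0x500000001000000000000000080000001a0000000000000000 0x50000000f0000000e0000003ff000001fe000003c000000040 8 10) 0 0 (step_sound _ 69 [(rh1e581fcebcca7a34.shift 2 1), (rh7ee559e0b2173ec0.shift 3 0), (rh99571310822a59fa.shift 0 2), (rh9c94213f6896c74a.shift 2 1)] (by decide +kernel))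
noncomputable def rhf8cfe824bf4003fb : CRef := CRef.mk (Pat.mk 0x1480000007800000000000000200000002800000000 0x158000001f800000388000001fc000001ef00000004 8 10) 0 0 (step_sound _ 67 [(rh232478a9d80dd61b.shift 0 1), (rh4720fe996927e97d.shift 0 1), (rh8171917db5627bbb.shift 3 1), rh9de956ef1ae824fc] (by decide +kernel))
noncomputable def rh2063d934709491ad : CRef := CRef.mk (Pat.mk 0x4000000004000000000000000a000000020000000000000000 0x4400000044000000e60000007e000000730000000200000002 8 8) 0 0 (step_sound _ 98 [(rh11dd23444d8c33e6.shift 0 2), (rh16cbd58a1619e6a8.shift 1 0), (rhb1d4c672c39fd791.shift 0 2)] (by decide +kernel))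
noncomputable def rh3bf8e27e072b0a46 : CRef := CRef.mk (Pat.mk 0x400000000000000020000000200000000000000000000000000000000 0x1000000070000000700000007000000030000000300000003000000070000000700000005 8 3) 0 0 (step_sound _ 193 [(rh04cb187b8574b039.shift 0 2), rh610000747ee1c669, (rh642171e5aebd4b20.shift 0 2), (rh8f3c544a17d1186e.shift 0 3)] (by decide +kernel))
noncomputable def rh372db7e305e6ee08 : CRef := CRef.mk (Pat.mk 0x100000000000000000000000020000000280000002000000020 0x1000000010000000397000001fe000001ef0000002000000020 8 10) 0 0 (step_sound _ 100 [(rh50fbb5868c909700.shift 4 0), (rh8d410e81c580f9d4.shift 0 2)] (by decide +kernel))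
noncomputable def rh3bf49dea77240230 : CRef := CRef.mk (Pat.mk 0x1c0000001e000000080000000000000000 0x1f0000001e000000f80000007c000001fc 8 9) 0 0 (step_sound _ 36 [(rh2bbc4934553ffbfd.shift 1 0), (rh478c4cadbcd4e066.shift 3 0), (rh7bed6280d5711866.shift 2 0), rh8d36113e88d845e0] (by decide +kernel))
noncomputable def rhed2c7500c8df6474 : CRef := CRef.mk (Pat.mk 0x10000000000000001e0000001e000000080000000000000000 0x1000000070000001f000000070000001e0000001e000000380000001000000010 8 6) 0 0 (step_sound _ 68 [rh4a57edb730aadb8a, (rhe25b0a99195a5d59.shift 1 2)] (by decide +kernel))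
noncomputable def rh231debc6d53f5459 : CRef := CRef.mk (Pat.mk 0x8000000080000000000000004000000050000000000000000000000000 0x80000000c000000048000003ff000003fe000003df0000009000000090 8 10) 0 0 (step_sound _ 166 [(rh1006c02ae4212ff0.shift 6 3), rh9751345583b54b0b] (by decide +kernel))
noncomputable def rh05c74ae76b09a0de : CRef := CRef.mk (Pat.mk 0x20000000200000001800000018000000100000001800000000 0x2400000064000000de000000ff000000f70000001e00000006 8 8) 0 0 (step_sound _ 101 [rh14884d6cb68b1292, (rh51e1c6fcf00b5e70.shift 3 2), (rh79b3c29022acbdf3.shift 2 3)] (by decide +kernel))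
noncomputable def rh37228fd8f723ae11 : CRef := CRef.mk (Pat.mk 0x1400000004000000000000000300000006000000000000000000000000 0x10000000140000001c000000180000007f0000001f000000180000001800000010 8 7) 0 0 (step_sound _ 99 [rhd3d91023f1c11d59, (rhf48373e13d2bc128.shift 0 3)] (by decide +kernel))
noncomputable def rh3cab7e4c264186c1 : CRef := CRef.mk (Pat.mk 0x30000000300000002000000010 0xc0000000c0000000f0000003e000000ff000000fe00000010 8 8) 0 0 (step_sound _ 99 [(rh3918eeb6c53434d8.shift 0 2), (rh53ff93931f1fe954.shift 1 1), (rh6292bd8784ece55f.shift 2 2), (rhad5d8fc3675c15dd.shift 1 2), (rhd6c17a657eb5f7bf.shift 2 0)] (by decide +kernel))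
noncomputable def rh6798e924bc94cc92 : CRef := CRef.mk (Pat.mk 0x5000000014000000040000000e000000080000000000000000 0x5000000074000000e4000000fe000001ff0000000200000002 8 9) 0 0 (step_sound _ 100 [rh1e8d6e1ef30e2d92, (rh59810ecc3e5f50ca.shift 1 2), (rh8788ce12e6153d01.shift 0 2), (rhe20bcaddb59e2e67.shift 0 2)] (by decide +kernel))
noncomputable def rh393f7255ff6e81af : CRef := CRef.mk (Pat.mk 0x1c000000180000001000000000 0x40000000c0000000f0000001f0000001f0000001b00000003 8 5) 0 0 (step_sound _ 97 [rh6c22cdca9a55de25, (rhb739f4f82bb681b4.shift 0 2)] (by decide +kernel))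
noncomputable def rhf8130010fcaa4b4e : CRef := CRef.mk (Pat.mk 0x1e0000001800000010000000000000000000000000 0x40000001e0000001f00000033000000070000000700000005 8 6) 0 0 (step_sound _ 129 [rh697ed245e41c611b, (rheb0810cc63b001d8.shift 0 4)] (by decide +kernel))
noncomputable def rh25f885f9c7e711f4 : CRef := CRef.mk (Pat.mk 0x1800000018000000100000001800000000 0x40000001f0000007c0000007e0000001f00000007 8 7) 0 0 (step_sound _ 130 [rh5048d0f92f1a3960, rh7ccf3f603f87c1ba, (rhad5d8fc3675c15dd.shift 0 3)] (by decide +kernel))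
noncomputable def rh2bed358dcaea05f2 : CRef := CRef.mk (Pat.mk 0x800000018000000180000001000000000 0x2000000020000000b0000001f0000007f0000003700000004 8 7) 0 0 (step_sound _ 98 [(rh53ff93931f1fe954.shift 0 1), (rhad5d8fc3675c15dd.shift 0 2), rhffde65833b632b77] (by decide +kernel))
noncomputable def rh2ec0888f0862e239 : CRef := CRef.mk (Pat.mk 0x2000000030000000200000001000000000 0x180000001f0000003e000000f7000000f80000003e00000028 8 8) 0 0 (step_sound _ 132 [(rh6bcbe5f517d76cf6.shift 1 0), rhbcb7352d3d9f0105, (rhfc7c29d8e65d775f.shift 4 1)] (by decide +kernel))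
noncomputable def rh40dcc8bac196bd60 : CRef := CRef.mk (Pat.mk 0x1c00000018000000000000000000000000 0x4000000070000001f0000001f000000070000000700000005 8 5) 0 0 (step_sound _ 129 [(rhb739f4f82bb681b4.shift 0 3), rhedc12914631f5fa4] (by decide +kernel))
noncomputable def rh6c3a756c5edbe4b8 : CRef := CRef.mk (Pat.mk 0x100000000000000000000000000000001e0000000200000004 0x1000000070000001f0000000700000003000000030000001e0000000600000004 8 5) 0 0 (step_sound _ 97 [rh1cc6a76e43083efc, (rh3244c3cc8379b070.shift 0 2)] (by decide +kernel))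
noncomputable def rh6d038aae6d074ccd : CRef := CRef.mk (Pat.mk 0x7000000040000000000000000000000000 0x18000000180000001f0000007e0000007f0000001c0000001c00000014 8 7) 0 0 (step_sound _ 131 [(rh06c54508efd5b78e.shift 2 0), (rh0de499e0455c9c14.shift 1 3), (rh36eba2a3de447758.shift 0 3), (rhd1d05263fabc0227.shift 1 3)] (by decide +kernel))
noncomputable def rh01bb025c46c1ab61 : CRef := CRef.mk (Pat.mk 0x500000001000000000000000080000000800000008000000080000000400000000 0x400000005000000070000001e0000000fc000001ff00000028000000080000000c00000004 8 9) 0 0 (step_sound _ 35 [(rh6a622c0e66d4c0f9.shift 0 1), (rh932754581e0f4330.shift 2 0)] (by decide +kernel))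
noncomputable def rhd2347c784448740d : CRef := CRef.mk (Pat.mk 0x500000001000000000000000080000000800000008000000080000001000000000 0x400000005000000070000001e0000000fc000001ff00000028000000080000001800000010 8 9) 0 0 (step_sound _ 35 [(rh55afc6a59410cf00.shift 3 0), (rh6a622c0e66d4c0f9.shift 0 1)] (by decide +kernel))
noncomputable def rhba60f23f4ff758ff : CRef := CRef.mk (Pat.mk 0x100000003000000010000000100000000000000000 0x7df000007fe000003f7000000100000001000000010 8 11) 0 0 (step_sound _ 134 [rh08ef1a550cd0d261, (rh232468d9f272e606.shift 3 3), (rh9c94213f6896c74a.shift 3 3), (rha9fbfd4bb8cf890b.shift 1 4)] (by decide +kernel))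
noncomputable def rh2875b8cb541ec21f : CRef := CRef.mk (Pat.mk 0xa00000002000000000000000100000003000000000 0x80000000a0000000e0000000c0000007ff000003fe000007e7 8 11) 0 0 (step_sound _ 38 [(rh0809abc0fbb36fcd.shift 3 0), rh0a8f401740d0da41, (rh1e581fcebcca7a34.shift 3 0), (rh9c94213f6896c74a.shift 3 0)] (by decide +kernel))
noncomputable def rh2e14de18b68917ef : CRef := CRef.mk (Pat.mk 0x40000000400000000000000000000000f000000020 0x40000000c0000000800000018e000000fe000001bf 8 9) 0 0 (step_sound _ 35 [(rh0dd57e1c77649845.shift 1 0), (rh592c7139d2c44767.shift 1 0), (rh60ca9ad3e90a2511.shift 1 0), (rh70543c5e7e75eabe.shift 1 0), rh8941baf23665e2f6, (rheae1728ff4a56756.shift 2 0)] (by decide +kernel))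
noncomputable def rhbac63f7342df8fab : CRef := CRef.mk (Pat.mk 0x80000001e00000000 0x10000000300000003000000030000003f0000001e00000007 8 6) 0 0 (step_sound _ 68 [(rh33e738c4ed385b9f.shift 1 1), rh61109e2ac5d46fd5] (by decide +kernel))
noncomputable def rh0620bf2d7765e1e7 : CRef := CRef.mk (Pat.mk 0x100000001000000010000000000000000000000000 0x800000018000000180000003e000000ff0000003e00000028 8 8) 0 0 (step_sound _ 68 [(rh6aa5625770489e83.shift 3 0), (rh8cdd36b03d57a2f6.shift 3 0), (rh8ff3dde5b1c639e0.shift 3 0), (rhe3714ee5692a3e38.shift 0 1)] (by decide +kernel))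
noncomputable def rha03ba84d9d2a9412 : CRef := CRef.mk (Pat.mk 0x1800000000000000000000000e000000000000000000000000 0x40000001e00000007000000070000003e000000770000000600000006 8 7) 0 0 (step_sound _ 100 [(rh06db8ceda6269a47.shift 0 2), rh9482602681e8791e, (rhe401600d466b97cd.shift 0 2)] (by decide +kernel))
noncomputable def rh0fdb7f2688bb68d0 : CRef := CRef.mk (Pat.mk 0x180000001e000000100000000000000000 0x1b0000001e000000170000003e0000003e 8 6) 0 0 (step_sound _ 36 [(rh7b1f1fb55310c477.shift 3 0), rhf7cd006c0817214d] (by decide +kernel))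
noncomputable def rh4e4ac940a362749f : CRef := CRef.mk (Pat.mk 0x380000001000000010 0x8000000080000078f000003fc0000079800000010 8 11) 0 0 (step_sound _ 99 [(rha9fbfd4bb8cf890b.shift 0 2), (rhceb67c7899738093.shift 2 1), (rhe072fffdd2fccf38.shift 3 0)] (by decide +kernel))
noncomputable def rh9057b17c674e45b5 : CRef := CRef.mk (Pat.mk 0x100000001c000000080000000000000000 0xc0000000c0000000c0000001f000000ff000000ec0000000c0000000c 8 8) 0 0 (step_sound _ 35 [rh0e51915d4ba61866, (rh71222050f2c63a3a.shift 3 0)] (by decide +kernel))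
noncomputable def rh0d3a2396f8aa48c1 : CRef := CRef.mk (Pat.mk 0x400000007000000020 0x400000004000000f7f000007fe00000fb7 8 12) 0 0 (step_sound _ 39 [rh22e925655c07f4ca, (rh30a68598243a7dc0.shift 4 0), (rh9ab60d74117ac343.shift 4 0), (rhb40fe8c4ac8565bb.shift 3 0)] (by decide +kernel))
noncomputable def rhb875a38b866bb5ab : CRef := CRef.mk (Pat.mk 0x400000007000000000 0xe77000007fe00000fbf 8 12) 0 0 (step_sound _ 39 [(rh06db8ceda6269a47.shift 3 0), rh07d1eff637b84cbf, (rh5e265b5b30f99924.shift 3 0), (rhadbf54074ee49c40.shift 4 0)] (by decide +kernel))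
noncomputable def rhfaa719289f0d8837 : CRef := CRef.mk (Pat.mk 0x2000000038000000000000000000000000 0xe0000000e0000003f0000003e0000000f0000000c0000000c 8 6) 0 0 (step_sound _ 98 [(rh21d582c147e7e118.shift 0 2), (rh592c7139d2c44767.shift 0 2), (rh7fb660bc21ce4329.shift 0 3), (rhf527709f74998536.shift 1 0)] (by decide +kernel))
noncomputable def rhf10fc1782e30af94 : CRef := CRef.mk (Pat.mk 0x38000000000000000000000000 0xa0000000e0000000e0000000f0000007c0000001f0000000c0000000c 8 7) 0 0 (step_sound _ 66 [(rh4c5c51b0ae60cece.shift 0 2), (rh73f5f7cdf41b5bc9.shift 1 1), rh7b6f93b80ab2294a, (rhe1c32197ffb40f8f.shift 0 2)] (by decide +kernel))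
noncomputable def rh34fa030ade5d82f7 : CRef := CRef.mk (Pat.mk 0x40000000400000000000000028000000280000000000000000 0x54000000fc0000003e000000fe0000003f0000000800000008 8 8) 0 0 (step_sound _ 100 [(rh2820ca9a6c4f41b4.shift 0 2), (rh303d7f35d57e8fb4.shift 1 0), (rh480231ab31e80384.shift 2 1)] (by decide +kernel))
noncomputable def rhe3ca3d4a714d3f60 : CRef := CRef.mk (Pat.mk 0x1000000010000000000000001a0000000b000000000000000000000000 0x5000000170000001f0000000f0000001a0000000b000000070000000700000005 8 5) 0 0 (step_sound _ 163 [(rh1006c02ae4212ff0.shift 3 3), rhf18dcc925de519d0] (by decide +kernel))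
noncomputable def rh87b2a0211e6beb09 : CRef := CRef.mk (Pat.mk 0xa0000000b0000000000000000000000000 0x2000000020000000ee000000fe0000007f0000001000000010 8 8) 0 0 (step_sound _ 102 [(rh21d582c147e7e118.shift 2 2), (rh3423e5ac208fb65b.shift 3 0), (rh551591afa7e9bd9a.shift 1 2), (rhecc2f590e920be22.shift 0 2)] (by decide +kernel))
noncomputable def rhaf359bf56d6512c3 : CRef := CRef.mk (Pat.mk 0xc0000000000000005000000058000000000000000000000000 0x18000000f80000001c0000007f0000007e0000002f0000000800000008 8 8) 0 0 (step_sound _ 101 [(rh21d582c147e7e118.shift 1 2), (rh551591afa7e9bd9a.shift 0 2), (rh88129595a1b18399.shift 2 0), (rhdbf7fc5480bb2158.shift 2 2)] (by decide +kernel))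
noncomputable def rhd73782b8d4550726 : CRef := CRef.mk (Pat.mk 0x1000000010000000500000001000000000 0x200000003000000010000000770000003e0000002f 8 7) 0 0 (step_sound _ 165 [rh333ab359bc9d6b4c, (rhbaefcd01e0a8bca3.shift 4 1)] (by decide +kernel))
noncomputable def rhc2dee24317815e65 : CRef := CRef.mk (Pat.mk 0x20000000000000003000000004000000040000000400000000 0x20000000e0000003e0000000e0000007c0000000f000000040000000400000004 8 7) 0 0 (step_sound _ 131 [(rh155fa7b85b00c3f4.shift 2 0), (rh3cc5c7fb74c49f61.shift 0 3), (rhe1a42aa75f25337a.shift 1 2)] (by decide +kernel))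
noncomputable def rhfde16437934d4f4c : CRef := CRef.mk (Pat.mk 0x10000000500000001000000000000000000000000000000000 0x2f0000003e0000007f0000001000000038000000380000003800000028 8 7) 0 0 (step_sound _ 100 [(rh09239ae6bbb8f776.shift 0 3), (rh8cdd36b03d57a2f6.shift 3 1), (rh8ff3dde5b1c639e0.shift 3 1), (rh95311890f436bcdc.shift 3 0), (rhc4526fc8abf298b6.shift 3 1)] (by decide +kernel))
noncomputable def rh233183eb1f3b7d66 : CRef := CRef.mk (Pat.mk 0x8000000080000000000000005000000050000000000000000000000000 0x88000000d80000005c000000ff0000007e0000001f0000000800000008 8 8) 0 0 (step_sound _ 198 [(rh04253f50b6dd0619.shift 6 3), rh8c84597491cc1916] (by decide +kernel))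
noncomputable def rh6badc4bba85c71f5 : CRef := CRef.mk (Pat.mk 0x100000003c0000000800000000 0x1e0000001f0000001e0000003c0000000e00000004 8 6) 0 0 (step_sound _ 164 [(rhee230b994cc8b773.shift 3 1), rhf6293b576a2c752d] (by decide +kernel))
noncomputable def rh2420647470b2a10b : CRef := CRef.mk (Pat.mk 0x800000008000000000000000500000005000000000 0x20000000a0000000f00000007f000001fe000003df00000010 8 10) 0 0 (step_sound _ 102 [(rh1006c02ae4212ff0.shift 6 1), rh8ba25a2277fee101] (by decide +kernel))
noncomputable def rhc595c752673fc9ce : CRef := CRef.mk (Pat.mk 0x140000000400000000000000028000000280000000000000000 0x150000001f0000007b8000003fe000007ef0000000800000008 8 11) 0 0 (step_sound _ 100 [(rh220c7768764e3771.shift 2 2), (rh2820ca9a6c4f41b4.shift 0 2), (rh69c86f14a1fa43ec.shift 1 0), (rh8ee80cc30e93a344.shift 2 2)] (by decide +kernel))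
noncomputable def rhad999c3d6513a242 : CRef := CRef.mk (Pat.mk 0x1000000010000000100000001000000000 0x2f0000003e0000003f0000001c0000001800000008 8 6) 0 0 (step_sound _ 131 [(rh50fbb5868c909700.shift 3 1), rhca1b381f161b1610] (by decide +kernel))
noncomputable def rh9c9fbf6f36d0eecd : CRef := CRef.mk (Pat.mk 0x400000004000000040000000000000002800000028000000000000000000000000 0x100000007c0000005c000000fc0000003f00000078000000280000001c0000001c00000014 8 8) 0 0 (step_sound _ 163 [(rh194c1e59bae0431f.shift 2 2), (rh928b1b9b02e2976a.shift 2 3), rhcff54e5e807bd594, (rhf4f12114332b7238.shift 1 2)] (by decide +kernel))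
noncomputable def rhdd1bb1708ee682dc : CRef := CRef.mk (Pat.mk 0x14000000040000000000000002800000028 0x140000001c000000787000003fe000007ef 8 11) 0 0 (step_sound _ 36 [(rh220c7768764e3771.shift 2 0), rh2820ca9a6c4f41b4, rh3918eeb6c53434d8, (rh8ee80cc30e93a344.shift 2 0)] (by decide +kernel))
noncomputable def rh1ea1ceb05ac4327d : CRef := CRef.mk (Pat.mk 0x200000002000000020000000000000001400000014000000000000000000000000 0x80000003e0000002e0000007e0000001f00000036000000160000000e0000000e0000000a 8 7) 0 0 (step_sound _ 162 [(rh194c1e59bae0431f.shift 1 2), (rh4c3b4a849b1027d2.shift 1 0), (rh5f452f890cbd7cd4.shift 1 1), (rh928b1b9b02e2976a.shift 1 3), (rhaf7955adbc1f7ff4.shift 1 0), (rhf4f12114332b7238.shift 0 2)] (by decide +kernel))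
noncomputable def rh84d563c0d5fddcd4 : CRef := CRef.mk (Pat.mk 0x80000000000000000000000010000000f00000000000000000000000000000000 0x8000000180000001c0000001f0000000f000000180000001c0000001c00000014 8 5) 0 0 (step_sound _ 163 [(rh33e738c4ed385b9f.shift 0 4), rh585a80d39591c17d] (by decide +kernel))
noncomputable def rh2fd9e64fd2c9a359 : CRef := CRef.mk (Pat.mk 0x1000000010000000000000000a0000000a0000000000000000 0x120000001a0000000b0000007f0000007e0000007400000010 8 7) 0 0 (step_sound _ 68 [(rh43ac487bc75b4a22.shift 0 1), rh690f26b67ca15585, (rh9ebd639649ea671c.shift 0 2), (rhd8be3b7ca6adb62f.shift 0 2)] (by decide +kernel))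
noncomputable def rh349bb13281589fed : CRef := CRef.mk (Pat.mk 0x200000002000000020000000000000001400000014000000000000000000000000 0x80000003e0000002e0000007e0000001f000000f60000007c000000ee0000000e0000000a 8 8) 0 0 (step_sound _ 162 [(rh194c1e59bae0431f.shift 1 2), (rh4c3b4a849b1027d2.shift 1 0), (rh8f23606baa98b532.shift 1 2), (rhf4f12114332b7238.shift 0 2)] (by decide +kernel))
noncomputable def rh99431c244b692f57 : CRef := CRef.mk (Pat.mk 0xa0000000a000000000000000000000000 0x500000007000000070000001f0000007e000000770000000600000004 8 7) 0 0 (step_sound _ 100 [rh1f6fd311369e1322, (rh5fd06f057288bbe5.shift 0 2), (rh9ebd639649ea671c.shift 0 3), (rhd8be3b7ca6adb62f.shift 0 3)] (by decide +kernel))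
noncomputable def rh5c5b3414155a4528 : CRef := CRef.mk (Pat.mk 0x140000003c000000040000000000000000 0xe0000000f0000001c0000003c0000006c0000007c0000003c 8 7) 0 0 (step_sound _ 69 [rhc102a6951e639ca9, (rhe25b0a99195a5d59.shift 2 2)] (by decide +kernel))
noncomputable def rh937dda6a580ad7b9 : CRef := CRef.mk (Pat.mk 0x800000008000000080000000800000000000000000000000000000000 0x8000000180000007c0000001f0000000c0000000c0000001c0000001c00000014 8 7) 0 0 (step_sound _ 130 [(rh932754581e0f4330.shift 2 3), rhfafaaca2cb9574e5] (by decide +kernel))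
noncomputable def rh0880d4f588257e6c : CRef := CRef.mk (Pat.mk 0x8000000080000000800000000000000000000000000000000 0x40000000c0000001c0000001f0000007c000000180000001c0000001c00000004 8 7) 0 0 (step_sound _ 99 [(rh8065c10b3cae6218.shift 2 2), (rh8ff3dde5b1c639e0.shift 2 1), (rha7788a23a70e77b5.shift 0 1), (rhcaeb492376c707d4.shift 2 0), (rhf62e0bde5b9f0689.shift 2 0)] (by decide +kernel))
noncomputable def rh8efea855b9b25970 : CRef := CRef.mk (Pat.mk 0x4000000040000000000000002000000060000000300000000000000000 0x40000001c000000180000001f8000001fe000001f70000001800000010 8 9) 0 0 (step_sound _ 103 [(rh18965a982d73c794.shift 4 2), rhcb236ea576025317] (by decide +kernel))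
noncomputable def rhed070cfec526849f : CRef := CRef.mk (Pat.mk 0x4000000040000000000000002000000060000000300000000000000000 0x40000001c0000001a0000001f8000001fe000001f70000004000000040 8 9) 0 0 (step_sound _ 103 [(rh18965a982d73c794.shift 4 2), rhd5c0f23f15caa6c9] (by decide +kernel))
noncomputable def rhaec1fdae0b8e279a : CRef := CRef.mk (Pat.mk 0x180000001e000000000000000000000000 0x1b0000001e0000003f0000003c00000038 8 6) 0 0 (step_sound _ 129 [rh2ff36503bf7ba977, (rh3244c3cc8379b070.shift 0 3)] (by decide +kernel))
noncomputable def rhdbc02e9d729001e6 : CRef := CRef.mk (Pat.mk 0x1000000000000000180000000e000000000000000000000000 0x60000001f000000070000001f000000fe000000070000000600000004 8 8) 0 0 (step_sound _ 100 [(rh21460d2d48a35cb8.shift 0 1), rh2395824d1086e2bc, (rh331d4a807f97bfca.shift 0 2), (rhb447f348b8f2aaa5.shift 0 2), (rhc7d898515ebf1fc2.shift 0 1)] (by decide +kernel))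
noncomputable def rh6a94b0a6c4b5cbad : CRef := CRef.mk (Pat.mk 0xd0000000f000000000000000000000000 0x1000000010000000f0000000f0000001f0000003e0000001e 8 6) 0 0 (step_sound _ 67 [rh70ce3f2ebb688499, (rhe25b0a99195a5d59.shift 0 2)] (by decide +kernel))
noncomputable def rh78173cbe13a3f133 : CRef := CRef.mk (Pat.mk 0x100000001e000000100000001400000000 0x200000002000000170000001e000001dc000000fc000001e8 8 9) 0 0 (step_sound _ 35 [rh5d7beceefb622ddd, (rh932754581e0f4330.shift 3 0)] (by decide +kernel))
noncomputable def rh89318481c075852c : CRef := CRef.mk (Pat.mk 0x1000000000000000180000000e0000000000000000 0x40000001f000000070000001f000000fe000000e700000006 8 8) 0 0 (step_sound _ 68 [rh21460d2d48a35cb8, (rh883451bd3feec117.shift 0 1), (rha1eb337eeb07c2e7.shift 0 1), (rhb447f348b8f2aaa5.shift 0 1), rhc7d898515ebf1fc2] (by decide +kernel))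
noncomputable def rha942d7b9587b63c1 : CRef := CRef.mk (Pat.mk 0x180000000e000000000000000000000000 0x1c000000fe000000ff0000003c00000038 8 8) 0 0 (step_sound _ 100 [(rh06db8ceda6269a47.shift 0 2), (rh16e36070ae0d26ac.shift 1 2), rh2ff36503bf7ba977, (rha1eb337eeb07c2e7.shift 0 2), (rhb447f348b8f2aaa5.shift 0 2)] (by decide +kernel))
noncomputable def rh02853fb307cb65f3 : CRef := CRef.mk (Pat.mk 0x2000000000000000180000001800000000000000000000000000000000 0xc0000003c0000000f0000007c0000001f0000003c0000003c0000003c00000028 8 7) 0 0 (step_sound _ 130 [rh0f2f5a94e5b54817, (rhe7aff87fd8558c86.shift 0 1), (rhf9d36e158778ce35.shift 1 4)] (by decide +kernel))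
noncomputable def rh0db056f7ec90e10f : CRef := CRef.mk (Pat.mk 0x40000000000000003000000030000000000000000000000000 0x18000000780000001e000000f00000007e0000007f0000003800000038 8 8) 0 0 (step_sound _ 99 [(rh0568b7ab013f43a7.shift 0 2), (rh0aec30edcdcfd7b2.shift 1 0), (rhab2ad169e49f9c5e.shift 1 3), (rhc3475aa1b87613a5.shift 1 0)] (by decide +kernel))
noncomputable def rhc431f45082d81ca2 : CRef := CRef.mk (Pat.mk 0x1800000018000000000000000000000000 0x200000006000000070000007f0000003f0000007f0000003c00000030 8 7) 0 0 (step_sound _ 98 [(rh16dc24e044feaae7.shift 0 1), (rh2b0b4f8fe0be8394.shift 0 2), (rh8522c6bc3a1a8270.shift 0 2), rh873d7742e0d81ba6, (rhab2ad169e49f9c5e.shift 0 3)] (by decide +kernel))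
noncomputable def rhe9459d834c9e9d10 : CRef := CRef.mk (Pat.mk 0x380000001c000000000000000000000000 0xc0000000c0000000e0000003f0000003c000000060000000600000006 8 6) 0 0 (step_sound _ 130 [(rh89a182a5c191c2c5.shift 1 0), (rhad5d8fc3675c15dd.shift 0 3)] (by decide +kernel))
noncomputable def rhad663572d0e909a2 : CRef := CRef.mk (Pat.mk 0x40000001c0000000e000000000000000000000000 0x40000001f0000001e0000003f0000003a00000032 8 6) 0 0 (step_sound _ 67 [(rh7b1f1fb55310c477.shift 2 1), rhed01363aaf4471ee] (by decide +kernel))
noncomputable def rh18211f97f4a5cc52 : CRef := CRef.mk (Pat.mk 0x800000008000000000000000600000006000000000000000000000000 0x800000038000000300000003f0000003e0000003c0000003800000028 8 6) 0 0 (step_sound _ 100 [(rh0f0b5086ab56197a.shift 1 2), (rh6d7e602c7b52fbbc.shift 0 2), (rha955dcaf922e95b2.shift 1 0), (rhfd0f316c42bbba52.shift 0 3)] (by decide +kernel))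
noncomputable def rh76de21557045ed7c : CRef := CRef.mk (Pat.mk 0x1000000018000000080000000800000000 0x8000000180000007c0000007f000000fe00000074 8 8) 0 0 (step_sound _ 131 [rh40c96dfe17741e7f, (rh85480f11efc1e555.shift 1 0), rh9dfe7bbd9d986933, (rhc3d57a2bdd687966.shift 1 0)] (by decide +kernel))
end Crest.Agent.S0047.Helper85.Cert
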