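import Crest.Agent.Lib.S0047.Helper85CertPL7F0
import Crest.Agent.Lib.S0047.Helper85CertPL7F1
import Crest.Agent.Lib.S0047.Helper85CertPL7F2
import Crest.Agent.Lib.S0047.Helper85CertPL7F3
import Crest.Agent.Lib.S0047.Helper85CertPL7F4
import Crest.Agent.Lib.S0047.Helper85CertPL7F5
import Crest.Agent.Lib.S0047.Helper85CertPL7F6
import Crest.Agent.Lib.S0047.Helper85CertPL7F7
import Crest.Agent.Lib.S0047.Helper85CertPL7F8
import Crest.Agent.Lib.S0047.Helper85CertPL7F9
import Crest.Agent.Lib.S0047.Helper85CertPL7F10
import Crest.Agent.Lib.S0047.Helper85CertPL7F11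
set_option autoImplicit false
set_option linter.all false
set_option Elab.async false
namespace Crest.Agent.S0047.Helper85.Cert
open Crest.Agent.S0047.Helper85

noncomputable def rhf85c2933d8ce6317 : CRef := CRef.mk (Pat.mk 0x2000000020000000000000001000000018000000080000000000000000 0x200000006000000044000001d7000000fe000001ff0000002800000008 8 9) 0 0 (step_sound _ 35 [(rh71222050f2c63a3a.shift 3 0), (rhe28489d2674387af.shift 0 1)] (by decide +kernel))
noncomputable def rh563df09e4360fed9 : CRef := CRef.mk (Pat.mk 0x1800000018000000080000001800000000 0x70000001f0000001b0000000f0000001f00000004 8 5) 0 0 (step_sound _ 34 [(rh11aca9a9537d59a4.shift 0 1), (rh932754581e0f4330.shift 2 0)] (by decide +kernel))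
noncomputable def rhfa4524adde54e850 : CRef := CRef.mk (Pat.mk 0x2000000030000000180000000000000000 0x1c0000001e0000003f000000fe000000f8000000c800000040 8 8) 0 0 (step_sound _ 102 [(rh18965a982d73c794.shift 3 2), rhdca9f447b7c826d2] (by decide +kernel))
noncomputable def rh9458d4be74707da8 : CRef := CRef.mk (Pat.mk 0x800000018000000180000000800000000 0x8000000180000001f000000ff000000f4 8 8) 0 0 (step_sound _ 36 [(rh7b1f1fb55310c477.shift 3 0), rh81ff32de2979b8ba] (by decide +kernel))
noncomputable def rhceb8d80fa24a5902 : CRef := CRef.mk (Pat.mk 0x3800000000000000000000000000000000 0xc0000000c0000001f0000007c0000000f0000000e0000000e0000000a 8 7) 0 0 (step_sound _ 162 [(rh40811da85268475d.shift 0 4), (rh4df35fbc131eb4ae.shift 0 4), (rh8bb330ee5aea9f6b.shift 1 1), (rh8c12fdbbddc1e7ab.shift 0 4), rhf199887f50d2050e] (by decide +kernel))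
noncomputable def rh7753eaa55f9d2cc9 : CRef := CRef.mk (Pat.mk 0xa0000001e000000020000000000000000 0x6000000060000000e0000001e0000003e0000003f00000015 8 6) 0 0 (step_sound _ 68 [rh9544ed608c649338, (rhe25b0a99195a5d59.shift 1 2)] (by decide +kernel))
noncomputable def rh1c50ca694e98612a : CRef := CRef.mk (Pat.mk 0x1c0000003800000000000000000000000000000000 0x8000000080000001c0000003f000000770000003c0000003800000028 8 7) 0 0 (step_sound _ 130 [(rh031a926e4a883687.shift 1 2), rh0f2f5a94e5b54817, (rh185f35b8bd8ec37f.shift 0 3)] (by decide +kernel))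
noncomputable def rhf75c674fcd26bb0e : CRef := CRef.mk (Pat.mk 0x800000008000000000000001600000006000000000000000000000000 0x80000003800000030000000360000003f0000007c0000003800000028 8 7) 0 0 (step_sound _ 100 [(rh4ca3b344f1b51833.shift 1 3), rh6a6d0ad5a30616b5, (rha598999fc2aeda36.shift 1 0), (rhe673baf37e340621.shift 1 0)] (by decide +kernel))
noncomputable def rh8b133dae1f39aaa8 : CRef := CRef.mk (Pat.mk 0x1a0000001e000000000000000000000000 0x1a0000001e000000370000003e0000003e 8 6) 0 0 (step_sound _ 65 [(rhba1d4568c344bb60.shift 1 0), (rheb0810cc63b001d8.shift 0 2)] (by decide +kernel))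
noncomputable def rh9095d182cf5c1998 : CRef := CRef.mk (Pat.mk 0x20000000200000006000000000000000000000000000000000000000000000000 0x2000000060000001f0000003f0000003f0000000f0000000f0000000700000005 8 6) 0 0 (step_sound _ 161 [(rh0323aab125c50769.shift 0 2), (rh248a87c7370a10b9.shift 0 2), (rh6eff4158bb400f47.shift 0 3), (rh8435f16c73c7f2d9.shift 0 1), rhafa445209071e29b, rhda432e4b2ba2aa89] (by decide +kernel))
noncomputable def rhf5d4c91151b1c3f4 : CRef := CRef.mk (Pat.mk 0x100000001000000070000000000000000000000000 0x8000000090000001f7000001fe000000f70000006000000060 8 9) 0 0 (step_sound _ 69 [(rh08edf065357d68e5.shift 4 0), rh54257df8acac0b4d, (rh79ad7b82ec8c35e2.shift 4 0)] (by decide +kernel))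
noncomputable def rh2d181e99dd1906fd : CRef := CRef.mk (Pat.mk 0x100000000000000002000000020000000e00000004 0x10000000180000003b000001fe000000ff000001ee 8 9) 0 0 (step_sound _ 36 [(rh167fff566cb27b75.shift 1 0), rh245a574770208525, (rh3910448e169e3eab.shift 1 0), (rh6287b81491833f3f.shift 1 0), (rh795d3e5d420177aa.shift 1 0)] (by decide +kernel))
noncomputable def rh292bd24c5102e671 : CRef := CRef.mk (Pat.mk 0x40000001c00000008000000000000000000000000 0x100000001c0000007f000000fc000000760000002400000024 8 8) 0 0 (step_sound _ 101 [(rh3915ac739bc6321f.shift 1 0), (rh71efda916732b25a.shift 1 3), (rh8c25cb665ab79ec0.shift 0 3), (rhe913bbd8998b6509.shift 2 3)] (by decide +kernel))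
noncomputable def rh1f624a16a7920ee2 : CRef := CRef.mk (Pat.mk 0x40000001c00000008000000000000000000000000 0x30000000f40000003f000000f8000000380000003800000030 8 8) 0 0 (step_sound _ 67 [(rh7b1f1fb55310c477.shift 2 1), rhccaceb2d6d132f7a] (by decide +kernel))
noncomputable def rhf36b0802c3ca9fa9 : CRef := CRef.mk (Pat.mk 0x1c000000080000000000000000 0x2000000020000001f0000000ff000001fc0000001000000010 8 9) 0 0 (step_sound _ 68 [(rh1c110b532cc33039.shift 2 0), (rh8ee80cc30e93a344.shift 1 2), (rhad5d8fc3675c15dd.shift 0 2), rhcd717259c611d3c9, (rhdeca8db941583de2.shift 0 2)] (by decide +kernel))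
noncomputable def rh3d8a0f2d8dd95176 : CRef := CRef.mk (Pat.mk 0x140000000400000000000000000000000e00000000000000000000000000000000 0x10000000140000001c000000180000007c0000000f0000007c0000001c0000001c00000010 8 7) 0 0 (step_sound _ 163 [rh6bccb8d5f2a5a9be, (rh913edd1e892a09fd.shift 1 2), (rh937a27f26253f544.shift 0 2), (rhff7d63dcb3cf9f74.shift 0 4)] (by decide +kernel))
noncomputable def rh7c3cc99e1c36e252 : CRef := CRef.mk (Pat.mk 0x80000000800000018000000000000000000000000000000000000000000000000 0x800000018000000780000001f0000001c0000001c0000001c0000001c00000014 8 7) 0 0 (step_sound _ 163 [(rh248a87c7370a10b9.shift 2 2), (rh8435f16c73c7f2d9.shift 2 1), (rhafa445209071e29b.shift 2 0), (rhfea49f007ffffe7c.shift 0 4)] (by decide +kernel))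
noncomputable def rhe932349687fdd2a6 : CRef := CRef.mk (Pat.mk 0x2000000020000000e00000002 0x100000003000000fa000000ff0000007e 8 8) 0 0 (step_sound _ 96 [rh232468d9f272e606, rh50fbb5868c909700] (by decide +kernel))
noncomputable def rh2357112e71ab632a : CRef := CRef.mk (Pat.mk 0x100000007000000000 0x37000003fe000007fe 8 11) 0 0 (step_sound _ 39 [rh2576a49d57ece4bc, (rh2d3cfdad8a2a86a9.shift 3 0), (rh41140eaa67c26838.shift 2 0), (rhe79590487a395ecc.shift 4 0)] (by decide +kernel))
noncomputable def rheb90cf94d00b4889 : CRef := CRef.mk (Pat.mk 0x2000000020000000100000001000000070000000000000000000000000 0x200000006000000050000000f70000007e000000ff0000000800000008 8 8) 0 0 (step_sound _ 99 [(rh185f35b8bd8ec37f.shift 1 2), (rh1e8d6e1ef30e2d92.shift 2 0), (rh988dac8d009f9f77.shift 0 2), (rhbb13f9e1d387f64a.shift 0 2), (rhc893f8e485dabf36.shift 0 2)] (by decide +kernel))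
noncomputable def rhd217a97288258a7f : CRef := CRef.mk (Pat.mk 0x100000007000000000 0x7f7000003fe0000007f 8 11) 0 0 (step_sound _ 39 [(rh2d3cfdad8a2a86a9.shift 3 0), rh34b3df9f15589b89, (rh790acd67f4fffd04.shift 4 1), (rhb822f7880acf97b0.shift 4 0)] (by decide +kernel))
noncomputable def rh6dae75dfb1ef3176 : CRef := CRef.mk (Pat.mk 0x40000000400000000000000000000000f00000000000000000000000000000000 0x40000000c000000080000001c0000000f0000001c0000001c0000001c00000010 8 5) 0 0 (step_sound _ 163 [(rh33e738c4ed385b9f.shift 0 4), rh3abbdf84403897b9] (by decide +kernel))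
noncomputable def rh1c641f6c2021c0b0 : CRef := CRef.mk (Pat.mk 0x20000000e000000000 0xe6f000007fe00000fdf 8 12) 0 0 (step_sound _ 36 [(rh185f35b8bd8ec37f.shift 2 0), rhc33780f73196dd1c, rhe6f05702474da38c, (rhf2802af942290794.shift 4 0)] (by decide +kernel))
noncomputable def rhe5ae2c0738c96dc9 : CRef := CRef.mk (Pat.mk 0x40000000400000000000000000000000e000000000000000000000000 0x40000001c00000018000000780000001f0000007c0000001c00000004 8 7) 0 0 (step_sound _ 68 [(rh0d3c8bf4bf97ae4a.shift 1 2), (rh6aa0ed61cce1493b.shift 0 2), rhb6575f72d06eebf8, (rhef9a75933276d06a.shift 0 1)] (by decide +kernel))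
noncomputable def rh7e77e2fa0de01e4a : CRef := CRef.mk (Pat.mk 0x280000000800000004000000040000000e000000000000000000000000 0x280000007800000074000001fc000000fe000001f70000002200000002 8 9) 0 0 (step_sound _ 100 [rh1e8d6e1ef30e2d92, (rh5dce78d28c627f6b.shift 1 2), (rh7ee559e0b2173ec0.shift 2 1), (rhf5fa5e48e0784de2.shift 1 2)] (by decide +kernel))
noncomputable def rhb0f758679862063c : CRef := CRef.mk (Pat.mk 0x40000001e00000004000000000000000800000000 0x3c0000001f00000034000000f40000007e000000ff 8 8) 0 0 (step_sound _ 163 [rh957ebd2bfa44abcc, (rhf9d36e158778ce35.shift 0 4)] (by decide +kernel))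
noncomputable def rh6c655961b2bc0800 : CRef := CRef.mk (Pat.mk 0x80000000800000000000000000000001e00000000000000000000000800000000 0x80000001800000010000000380000001f00000030000000380000003800000028 8 6) 0 0 (step_sound _ 164 [(rh33e738c4ed385b9f.shift 1 4), rh4d2b3a97d07567ed] (by decide +kernel))
noncomputable def rh0096df1507d559fc : CRef := CRef.mk (Pat.mk 0x40000000400000000000000080000000f000000020 0x40000000c000000080000000ce000000fe000001b7 8 9) 0 0 (step_sound _ 35 [rh3a334ef82de53551, (rh428265de8cd3cd2d.shift 3 1)] (by decide +kernel))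
noncomputable def rhd4d6f7c990784ef5 : CRef := CRef.mk (Pat.mk 0x8000000080000001800000008000000000000000000000000 0x2000000028000000f8000000fe000000ff000000f00000002000000020 8 8) 0 0 (step_sound _ 100 [rh4a9468c696d78e52, (rh55afc6a59410cf00.shift 3 2)] (by decide +kernel))
noncomputable def rh28539e7b767a2262 : CRef := CRef.mk (Pat.mk 0x200000007000000000 0xfef000007fe00000fe7 8 12) 0 0 (step_sound _ 35 [(rh0d378fd9e8917c5a.shift 1 0), (rh760768b52a3c5f47.shift 3 0), rha4e887c2a2a0f60b, (rhedf6b6c69a16cbd5.shift 1 1)] (by decide +kernel))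
noncomputable def rhaa8c2c774a6881be : CRef := CRef.mk (Pat.mk 0x80000000800000000000000100000001e00000000000000000000000200000000 0x80000001800000010000000180000001e000000370000003c0000003e00000028 8 6) 0 0 (step_sound _ 228 [(rh2613c889e411427e.shift 3 4), rhed960203f32757ad] (by decide +kernel))
noncomputable def rh6d6bcfcf7d81ee72 : CRef := CRef.mk (Pat.mk 0x80000000800000000000000140000001e0000000000000000000000020000000000000000 0x800000018000000100000001c0000001e000000340000003e0000003f0000003800000028 8 6) 0 0 (step_sound _ 260 [(rh2613c889e411427e.shift 3 5), rh60371f4fc4ccdcec] (by decide +kernel))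
noncomputable def rh00aa351f3d920c10 : CRef := CRef.mk (Pat.mk 0x80000000800000000000000140000001e00000000000000000000000200000000 0x800000018000000100000001c0000001e000000360000003e0000003b00000020 8 6) 0 0 (step_sound _ 228 [(rh2613c889e411427e.shift 3 4), rh7af8a7f581225d5e] (by decide +kernel))
noncomputable def rh77fb94fd731d7f43 : CRef := CRef.mk (Pat.mk 0x80000000800000000000000140000001e00000000 0x80000001800000010000001dc000000fe000001c7 8 9) 0 0 (step_sound _ 132 [(rh2613c889e411427e.shift 3 1), rh4289e834c09fdda6] (by decide +kernel))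
noncomputable def rh52c32b7e58b1ca29 : CRef := CRef.mk (Pat.mk 0x1000000010000000100000003000000000 0x1000000010000003be000001fe000001cf 8 10) 0 0 (step_sound _ 35 [(rh932754581e0f4330.shift 3 0), rhabf86be4015a1e4d] (by decide +kernel))
noncomputable def rhade3a9fc8c65e20e : CRef := CRef.mk (Pat.mk 0x2000000020000000200000007000000000 0x140000003c0000007c0000006f0000007e0000000f 8 7) 0 0 (step_sound _ 35 [(rh20cd015da527ac81.shift 2 0), (rh55c4ed4acec0f063.shift 1 0), rha4e887c2a2a0f60b, (rhedf6b6c69a16cbd5.shift 1 1)] (by decide +kernel))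
noncomputable def rh05b50c09533147ee : CRef := CRef.mk (Pat.mk 0x1000000010000000140000003800000000 0x280000007c0000001e000000160000003e00000007 8 7) 0 0 (step_sound _ 34 [(rh3244c3cc8379b070.shift 1 1), rhd6c1d584e46bad4e] (by decide +kernel))
noncomputable def rh5d72c3b5572771c0 : CRef := CRef.mk (Pat.mk 0x3000000030000000200000003000000000 0x30000000300000007f000001fe0000004f 8 9) 0 0 (step_sound _ 38 [rh398f38c76fd248cf, (rh55afc6a59410cf00.shift 5 0)] (by decide +kernel))
noncomputable def rh79cc4a49c4dcea1c : CRef := CRef.mk (Pat.mk 0x2000000020000000200000007000000000 0x500000007000000020000001ff000001fe0000000f 8 9) 0 0 (step_sound _ 132 [rh21af45ec9f402856, (rh50fbb5868c909700.shift 4 1)] (by decide +kernel))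
noncomputable def rh57a5c00391f8f1b1 : CRef := CRef.mk (Pat.mk 0x2000000020000000200000007000000000 0x500000007000000038000000ff0000007e0000000f 8 8) 0 0 (step_sound _ 132 [(rh50fbb5868c909700.shift 4 1), rh7fc8b770ebe5724b] (by decide +kernel))
noncomputable def rhd65746d29ca4d4e7 : CRef := CRef.mk (Pat.mk 0x800000028000000080000001c00000000 0x140000003c00000028000001ff000000fe000000e0 8 9) 0 0 (step_sound _ 130 [(rh50fbb5868c909700.shift 2 1), rh9c4a694ab3d12622] (by decide +kernel))
noncomputable def rha6b75009b4c8d098 : CRef := CRef.mk (Pat.mk 0x3000000038000000200000002000000000 0x3000000038000000ef0000007e0000005f 8 8) 0 0 (step_sound _ 36 [rh4c6c98914bc1a4c9, (rh932754581e0f4330.shift 4 0)] (by decide +kernel))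
noncomputable def rh12878c459a546dda : CRef := CRef.mk (Pat.mk 0x2000000020000000200000002000000000 0x2000000020000001ff000001fe0000005f 8 9) 0 0 (step_sound _ 36 [rh23fb9fec68bf76db, (rh932754581e0f4330.shift 4 0)] (by decide +kernel))
noncomputable def rhee6727832910a972 : CRef := CRef.mk (Pat.mk 0x7c00000050000000100000001000000000 0xc70000007e00000050000000f8000000f0000000a0 8 8) 0 0 (step_sound _ 161 [(rh3f8766e6ecb455ce.shift 1 4), rh6197279da0b28749] (by decide +kernel))
noncomputable def rhffedd92ad5785517 : CRef := CRef.mk (Pat.mk 0xf0000000a000000020000000200000000 0x380000001f0000000a0000007f0000003e00000004 8 7) 0 0 (step_sound _ 164 [(rh428265de8cd3cd2d.shift 0 4), rh4397de840afcb735] (by decide +kernel))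
noncomputable def rh438467d0217c3fef : CRef := CRef.mk (Pat.mk 0x40000003800000028000000200000002000000000 0x60000003c000000280000006f0000003e00000017 8 7) 0 0 (step_sound _ 130 [(rh3244c3cc8379b070.shift 1 4), rha355fbd4fbd4a199] (by decide +kernel))
noncomputable def rh73302c3f61b5ffae : CRef := CRef.mk (Pat.mk 0x3800000028000000080000000800000000 0xe40000007c000000280000007c0000002f00000004 8 8) 0 0 (step_sound _ 130 [(rh50fbb5868c909700.shift 2 1), rhd64c3122339b289e] (by decide +kernel))
noncomputable def rh5825ea3fc986a461 : CRef := CRef.mk (Pat.mk 0x8000000280000000800000008000000000000000000000000 0xf0000007c000000180000000c0000001c0000001c00000010 8 7) 0 0 (step_sound _ 66 [rh78bce38d2b28aa66, (rh79877ebd3ef475dd.shift 2 2)] (by decide +kernel))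
noncomputable def rhb65d374da893649d : CRef := CRef.mk (Pat.mk 0x3800000008000000080000000800000000000000000000000000000000 0x780000000f0000001c000000180000001c0000001c0000001c00000014 8 7) 0 0 (step_sound _ 99 [(rh3032f6e811053f1f.shift 2 0), (rh6eff4158bb400f47.shift 2 1), rhb6b23671e296826e, (rhd29a1fb688eae70f.shift 3 2)] (by decide +kernel))
noncomputable def rhe2c6d6e9a6a0545e : CRef := CRef.mk (Pat.mk 0x20000000a0000000a00000002000000060000000100000000 0xc0000001e0000000b0000001b0000001a0000001e0000001300000001 8 5) 0 0 (step_sound _ 33 [rh932754581e0f4330, (rhf0aa506182671f59.shift 0 1)] (by decide +kernel))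
noncomputable def rh6fe14436bf182bfc : CRef := CRef.mk (Pat.mk 0xa0000000a00000002000000040000000000000000 0x1000000018000000180000000b0000001f0000007a0000001f0000001700000011 8 7) 0 0 (step_sound _ 99 [rh8c56c81183c6cc9e, (rhe38ad39d05c44887.shift 1 1), rhf7d000525154c5b6] (by decide +kernel))
noncomputable def rhd8e5dbfaebe72109 : CRef := CRef.mk (Pat.mk 0x20000000a0000000a000000020000000200000000 0x140000001c0000003c0000001e0000000b0000001f0000007a0000001f0000003d 8 7) 0 0 (step_sound _ 163 [(rh327e561a6d0abcde.shift 0 1), rh9fec5f19ce893209, rhae18d5d38738ebe6, (rhcdb9098f1bb090ca.shift 0 2), rhe28d51e58d268b16] (by decide +kernel))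
noncomputable def rhc9eba88465801533 : CRef := CRef.mk (Pat.mk 0x20000000a0000000a00000002000000020000000100000000 0xc0000001e0000000b0000001f0000001a000000120000001300000001 8 5) 0 0 (step_sound _ 33 [(rh6001e699e40fe003.shift 0 1), rh932754581e0f4330] (by decide +kernel))
noncomputable def rhcfdd8a313729ff44 : CRef := CRef.mk (Pat.mk 0x20000000a0000000a00000002000000020000000400000000 0xc0000001e0000000b0000001f0000001a000000120000001600000004 8 5) 0 0 (step_sound _ 33 [(rh55afc6a59410cf00.shift 1 0), (rh6001e699e40fe003.shift 0 1)] (by decide +kernel))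
noncomputable def rhffe9a540292db46f : CRef := CRef.mk (Pat.mk 0xa0000000a000000020000000400000000 0x140000001c0000001c0000000a0000001f0000007a0000001e00000014 8 7) 0 0 (step_sound _ 67 [(rh089a35bad79b642b.shift 2 0), (rh131960b11392079e.shift 0 1), (rhe38ad39d05c44887.shift 1 0)] (by decide +kernel))
noncomputable def rh423e64b91cf4a654 : CRef := CRef.mk (Pat.mk 0xa0000000a0000000a000000020000000000000000 0x40000000e0000000a0000001f0000007e0000001e00000004 8 7) 0 0 (step_sound _ 34 [rh598d9d5a77122418, (rhd3458b32566d63f7.shift 1 1)] (by decide +kernel))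
noncomputable def rhfa89501cc4cd9210 : CRef := CRef.mk (Pat.mk 0x280000002800000008000000080000000000000000 0x500000007000000070000000680000002f0000007c000000fe0000007800000050 8 8) 0 0 (step_sound _ 101 [(rh06772b481b5ae650.shift 2 0), (rh06f1c17b7aa8d8de.shift 2 0), (rh32650d1bea17c2f2.shift 2 2), rh5db26f6f12bd6d22, (rh86c5959807151eba.shift 2 0), (rha577da2f3ca7d83b.shift 3 0), (rhd27c8fcc2b2e465e.shift 1 1), (rhe6fa192f79d3524d.shift 3 1)] (by decide +kernel))
noncomputable def rha1575ac87dd4bf60 : CRef := CRef.mk (Pat.mk 0x1400000014000000140000000400000000 0x300000003c000000170000001f0000007f00000078 8 7) 0 0 (step_sound _ 35 [rh17ef02bfbea9e4d4, (rh55afc6a59410cf00.shift 2 0)] (by decide +kernel))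
noncomputable def rh31397b5a8a9b68b1 : CRef := CRef.mk (Pat.mk 0x2800000008000000080000000800000008000000000000000000000000 0x10000000780000000f0000000c00000008000000080000001c0000001c00000014 8 7) 0 0 (step_sound _ 228 [(rh2f68792b6b779e96.shift 3 4), rhb6b23671e296826e] (by decide +kernel))
noncomputable def rhd32b7619d85987a2 : CRef := CRef.mk (Pat.mk 0x280000002800000008000000000000000000000000 0x500000007000000070000000780000002f0000007c000001f00000007000000050 8 9) 0 0 (step_sound _ 101 [(rh06772b481b5ae650.shift 2 0), (rh32650d1bea17c2f2.shift 2 2), rh5db26f6f12bd6d22, (rh875b06254eb4f481.shift 0 2), (rh9b578cfc7d2906a4.shift 2 0), (rhb2ee0bd2da7f4612.shift 2 1)] (by decide +kernel))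
noncomputable def rh84db5d54655a9592 : CRef := CRef.mk (Pat.mk 0x2000000020000000a0000000300000000000000000 0x400000006400000024000000f70000007e0000000f00000008 8 8) 0 0 (step_sound _ 166 [rh185e279297798aa6, (rh2f68792b6b779e96.shift 5 2)] (by decide +kernel))
noncomputable def rhb6836417b21c61a4 : CRef := CRef.mk (Pat.mk 0xa0000000b000000000 0x1bf000000fe0000018e 8 9) 0 0 (step_sound _ 38 [(rh33e738c4ed385b9f.shift 4 1), rhbeb1d0eae72df3db] (by decide +kernel))
noncomputable def rhc59679e4e6b24087 : CRef := CRef.mk (Pat.mk 0x600000016000000040000000700000000 0x380000003e000000160000003e0000003f00000021 8 6) 0 0 (step_sound _ 131 [(rh2f68792b6b779e96.shift 2 1), rhc11d0d8a3a310ef7] (by decide +kernel))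
noncomputable def rhab2ecaa89ab08986 : CRef := CRef.mk (Pat.mk 0x800000008000000480000000c00000000 0x40000000c0000000e0000007f0000001f00000013 8 7) 0 0 (step_sound _ 68 [(rh361cc68994bd8a63.shift 2 1), rh9a5e90fb6c2b3692] (by decide +kernel))
noncomputable def rhb64455a7ad0558fc : CRef := CRef.mk (Pat.mk 0x800000008000000480000000800000000 0x40000000c0000000f0000007e0000000f0000000e 8 7) 0 0 (step_sound _ 34 [rh6af40ba4c5de00df, (rh932754581e0f4330.shift 2 0)] (by decide +kernel))
noncomputable def rhe859b7afcdff0648 : CRef := CRef.mk (Pat.mk 0x180000001a0000001000000000 0x500000007000000070000001f0000001e0000003700000004 8 6) 0 0 (step_sound _ 66 [rhc9117c7e05881b72, (rhe25b0a99195a5d59.shift 1 1)] (by decide +kernel))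
noncomputable def rh900ff5afbaf3c7b8 : CRef := CRef.mk (Pat.mk 0x200000000000000100000001700000004000000000000000000000000 0x20000000380000003e0000003800000030000000170000003e000000f80000002000000020 8 8) 0 0 (step_sound _ 100 [(rh122ba9816f30fc72.shift 1 1), (rh633720215627220a.shift 1 2), (rh68691964b29f233d.shift 0 3), (rh8eae7edef4456675.shift 1 1), (rha30e9719150721ce.shift 0 1), (rha66e4e5ada000089.shift 1 0)] (by decide +kernel))
noncomputable def rh6c00093836682326 : CRef := CRef.mk (Pat.mk 0x800000018000000180000001800000000 0x60000000f0000001f0000001f0000003c0000000c 8 6) 0 0 (step_sound _ 130 [rh423af0bd02fdf2da, (rh50fbb5868c909700.shift 2 1)] (by decide +kernel))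
noncomputable def rhe342cd6d6dd2dc22 : CRef := CRef.mk (Pat.mk 0x800000000000000180000005800000000 0x2c0000002c000000e7000000ff0000005f00000040 8 8) 0 0 (step_sound _ 69 [(rh05ed002a452bb230.shift 2 0), (rh4dc133ee0ba1420a.shift 1 1), (rhb338e9cabce25268.shift 0 1)] (by decide +kernel))
noncomputable def rhb212a8e0e6794e3c : CRef := CRef.mk (Pat.mk 0x21000000080000000e00000000 0x2100000023000001ff000000fe000000e3 8 9) 0 0 (step_sound _ 36 [(rh6f5644ad7e5af09d.shift 1 0), (rh8377537580a72741.shift 1 0), rh963519b1454827ff, rh9a91d8f32e6bd95b, rhd05bb961106909ef] (by decide +kernel))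
noncomputable def rh26916b974eccce86 : CRef := CRef.mk (Pat.mk 0x3800000024000000200000000000000000 0x170000003e000000260000007e0000007e0000001f 8 7) 0 0 (step_sound _ 34 [(rh132e8b4115802db3.shift 1 0), rhb38c8bb3d8951b09, (rhd06c0cb1e0ae426f.shift 1 0), (rhee37d230d297e9fd.shift 0 1)] (by decide +kernel))
noncomputable def rh1683ac9a8961d536 : CRef := CRef.mk (Pat.mk 0x1c000000120000001000000002000000000000000000000000 0xc0000001e00000013000000120000003b0000001f0000000f00000005 8 6) 0 0 (step_sound _ 193 [rh8ab144743d715b5f, (rheb0810cc63b001d8.shift 0 5)] (by decide +kernel))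
noncomputable def rhdd1bc65c518f605d : CRef := CRef.mk (Pat.mk 0x600000002000000020000000000000000000000000000000000000000 0x40000000600000003000000030000000300000007000000070000000700000001 8 3) 0 0 (step_sound _ 129 [(rh2f68792b6b779e96.shift 1 4), rh339c0a111e1920b9] (by decide +kernel))
noncomputable def rh42e0b09f6489cf28 : CRef := CRef.mk (Pat.mk 0x3c00000014000000100000000000000000 0x40000007c0000001c0000007c0000001f0000001c 8 7) 0 0 (step_sound _ 99 [rh17b288cfff1da6ea, (rh18965a982d73c794.shift 2 3)] (by decide +kernel))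
noncomputable def rhfb03c8295033c7e6 : CRef := CRef.mk (Pat.mk 0x2000000000000000600000013000000060000000000000000 0x20000000380000003e000000380000003e000000130000003e0000003000000020 8 6) 0 0 (step_sound _ 68 [(rh2fe78cc5ca4405d8.shift 0 2), rhfd63afcb92e1e147] (by decide +kernel))
noncomputable def rhf3e24e4acbe5e0ec : CRef := CRef.mk (Pat.mk 0x3c00000024000000200000002000000000 0x70000003e00000024000000740000003e00000017 8 7) 0 0 (step_sound _ 161 [(rh3f8766e6ecb455ce.shift 1 4), rhe7a225c6775a4191] (by decide +kernel))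
noncomputable def rh9963bb4b5ca5dd09 : CRef := CRef.mk (Pat.mk 0xe00000008000000080000000800000000 0x130000001e0000000b0000001f0000000f00000005 8 5) 0 0 (step_sound _ 132 [(rh2f68792b6b779e96.shift 3 1), rh96da54ea6eb24b81] (by decide +kernel))
noncomputable def rh61dfe63d3a56496f : CRef := CRef.mk (Pat.mk 0x4000000040000000c 0xa0000003e0000003f0000003f0000000c0000000c 8 6) 0 0 (step_sound _ 98 [rh3949a9a3df047322, (rh5bd4bc0c2c48140c.shift 1 0), (rh73f605273a09a9d0.shift 2 0), (rhc85cc95794737cf7.shift 1 0)] (by decide +kernel))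
noncomputable def rh4525851cb6ba592a : CRef := CRef.mk (Pat.mk 0xe000000000000000000000000 0x100000003800000038000000ff0000007e000000f80000001000000010 8 8) 0 0 (step_sound _ 100 [(rh3fc3a7fb6866dcd4.shift 1 2), (rh45f730bcf36fcf64.shift 0 2), (rhb18e6c78a554867d.shift 0 3), (rhe401600d466b97cd.shift 0 2), rhf791c62307fb06df] (by decide +kernel))
noncomputable def rh8b17b2181f7115bc : CRef := CRef.mk (Pat.mk 0x6000000000000000500000004000000000000000200000000 0x140000001c0000001c0000007c0000001f0000007c0000001f00000004000000040000000600000002 8 7) 0 0 (step_sound _ 195 [(rh49a2b9abcd32fefb.shift 0 3), (rhb610a44bb7d47cab.shift 0 3), (rhb8cb4bffa7c72137.shift 1 3), rhd33e9632c9816c96] (by decide +kernel))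
noncomputable def rh6a7a5199f681af34 : CRef := CRef.mk (Pat.mk 0x38000000070000000400000014000000040000000000000000 0x500000007000000070000001e0000000f8000001f70000007e000000140000003e0000003200000020 8 9) 0 0 (step_sound _ 132 [(rh0ab7f80194410269.shift 1 1), (rh68691964b29f233d.shift 0 4), (rhb8cb4bffa7c72137.shift 3 3), (rhd33beae08f69b6d9.shift 1 0)] (by decide +kernel))
noncomputable def rh3e53307e5b4df530 : CRef := CRef.mk (Pat.mk 0x300000000c00000008000000280000000800000000 0x50000000700000006f0000007c000000280000007c00000074 8 7) 0 0 (step_sound _ 36 [rh1f4773ad863a4162, (rh55afc6a59410cf00.shift 3 0)] (by decide +kernel))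
noncomputable def rh2a0978bba1598d2f : CRef := CRef.mk (Pat.mk 0x8000000000000000e00000000000000000000000000000000 0x8000000f80000007e000000f7000000380000003800000028 8 8) 0 0 (step_sound _ 132 [(rh06db8ceda6269a47.shift 0 3), (rh10e3074efe589034.shift 0 3), (rh1b9ada9647cec197.shift 1 0), (rh3b00e9e9432b8f40.shift 0 3), (rha93a5dd541ab8209.shift 1 3)] (by decide +kernel))
noncomputable def rh55bb45053f264d17 : CRef := CRef.mk (Pat.mk 0x7000000040000000000000000000000000 0x18000000180000001f0000007e0000007f0000001c0000001c00000014 8 7) 0 0 (step_sound _ 131 [(rh0de499e0455c9c14.shift 1 3), (rh61aef1e967b8dd77.shift 2 0), (rh775ca1963e850b80.shift 1 3), (rh88c620441a3a17ea.shift 0 3), (rhd1d05263fabc0227.shift 1 3)] (by decide +kernel))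
noncomputable def rh1b783eb773eac7fb : CRef := CRef.mk (Pat.mk 0x100000000e00000020000000200000003800000000 0x170000003e00000023000000670000003e00000060 8 7) 0 0 (step_sound _ 132 [rh530737fce91db0a2, (rhcfdf45280693d3da.shift 4 1)] (by decide +kernel))
noncomputable def rhf1637021ea74c40a : CRef := CRef.mk (Pat.mk 0x1000000030000000200000008000000000 0x79f000003fe000001ff0000008c0000008c 8 11) 0 0 (step_sound _ 102 [(rh0b165e1f1f0bec12.shift 2 2), rh8333c4bd7c656596, (rhb0e86790e62db09c.shift 3 2), (rhe2f93f751a1b2a86.shift 3 0)] (by decide +kernel))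
noncomputable def rh0e54e943bd9c5ed0 : CRef := CRef.mk (Pat.mk 0x7000000040000000400000000000000000 0x180000001f000003fe0000007f0000005c0000005800000048 8 10) 0 0 (step_sound _ 131 [(rh88c620441a3a17ea.shift 0 3), (rh9da097a2f040ea6a.shift 2 0), (rhafa5a7051d37b143.shift 2 1), (rhffe65ed05f55816a.shift 2 0)] (by decide +kernel))
noncomputable def rh84f9486e6ec18576 : CRef := CRef.mk (Pat.mk 0x1e00000002000000000000000000000000 0x300000003000000070000001e0000003e000000070000000700000002 8 6) 0 0 (step_sound _ 161 [(rh3244c3cc8379b070.shift 0 4), rhf2a6f205bc2dd868] (by decide +kernel))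
noncomputable def rh8c0c3a41ec9a31a9 : CRef := CRef.mk (Pat.mk 0x28000000280000002800000000000000100000000000000000 0x280000002800000028000001ef000000fe000001ff00000004 8 9) 0 0 (step_sound _ 67 [(rh17ba7f593d7135d4.shift 2 0), (rh23ce5619305fee81.shift 2 1), (rh7303246287e0be0a.shift 0 1), (rha2ed0b3a86580fd5.shift 0 1), (rha3711ed12866f068.shift 2 1)] (by decide +kernel))
noncomputable def rh6965b3e0a1a7e0a4 : CRef := CRef.mk (Pat.mk 0x1000000070000000000000000 0x1c0000001c0000003f0000001f0000003c0000000c 8 6) 0 0 (step_sound _ 67 [rh0e218b55d9487fc5, (rh2aac33c566332a8c.shift 0 1), (rh790acd67f4fffd04.shift 0 2), (rha93a5dd541ab8209.shift 0 1)] (by decide +kernel))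
noncomputable def rhd5ea7194db578f61 : CRef := CRef.mk (Pat.mk 0x3000000000000000400000004000000040 0x3ff000001fe000003cf000000400000004000000040 8 10) 0 0 (step_sound _ 134 [(rh11c908474401bff1.shift 5 0), (rh1b80a69c4b670f84.shift 0 3), (rhcb9c9b99670e1770.shift 1 1), (rhf50f13a2a538f763.shift 4 0)] (by decide +kernel))
noncomputable def rh1d57028cacfb2c5e : CRef := CRef.mk (Pat.mk 0x3000000000000000100000001000000010 0x3df000001fc000003de000000100000001000000010 8 10) 0 0 (step_sound _ 131 [(rh012db007bcb18160.shift 1 3), (rh1aab0db3647530f7.shift 2 0), (rh687076296dd60842.shift 0 1), (rhb782824a29123179.shift 3 0)] (by decide +kernel))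
noncomputable def rh9e7dd783abb26a40 : CRef := CRef.mk (Pat.mk 0x2000000020000000a00000002 0x10000000300000003000000720000003e00000077 8 7) 0 0 (step_sound _ 128 [rh85cb3828eadc3450, rhffd04209dc8ea796] (by decide +kernel))
noncomputable def rh7a490efa1b2b6edb : CRef := CRef.mk (Pat.mk 0x10000000100000001000000010 0x4000000040000002f0000007e000000ff0000001800000010 8 8) 0 0 (step_sound _ 99 [rh389c71b61d63ca2a, (rh50fbb5868c909700.shift 3 0)] (by decide +kernel))
noncomputable def rha5695dd6c76db17e : CRef := CRef.mk (Pat.mk 0x10000000100000001000000010 0x3000000030000000300000001f0000007c00000038 8 7) 0 0 (step_sound _ 133 [rh87deea997987d089, (rhbaefcd01e0a8bca3.shift 4 0)] (by decide +kernel))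
noncomputable def rh6f43a1101239fdb7 : CRef := CRef.mk (Pat.mk 0x4000000040000000400000004 0x80000000e0000000e0000000e0000003c0000000f0000000e00000004 8 6) 0 0 (step_sound _ 130 [(rh44f453b84f013105.shift 2 0), (rh66ee4e4e1313f0fc.shift 1 1), (rh9e8a45bc44d032b2.shift 0 1), (rhc85cc95794737cf7.shift 1 1)] (by decide +kernel))
noncomputable def rhd2dd9d964e6bc071 : CRef := CRef.mk (Pat.mk 0x1000000010000000100000001000000010 0x2800000038000000380000001800000030000000ff0000007e0000003800000010 8 8) 0 0 (step_sound _ 101 [(rh2f68792b6b779e96.shift 4 0), (rh8f7a88b0b2be2898.shift 0 1)] (by decide +kernel))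
noncomputable def rh1db35a40d847f096 : CRef := CRef.mk (Pat.mk 0x800000008000000080000000800000008 0x800000008000003ff000001fe000003df 8 10) 0 0 (step_sound _ 36 [rh010fc4f2dd216d36, (rh55afc6a59410cf00.shift 3 0)] (by decide +kernel))
noncomputable def rhcee2dd124ac7cfe4 : CRef := CRef.mk (Pat.mk 0x70000000100000004 0x140000001c0000001c000000380000001f0000003f00000004 8 6) 0 0 (step_sound _ 67 [rh6e238882d2315fd5, (rhd584a578337d0023.shift 0 1), (rhf3baec4a0a3dd35e.shift 0 1)] (by decide +kernel))
noncomputable def rh14868310222b4e34 : CRef := CRef.mk (Pat.mk 0x38000000100000001000000000 0x8000000080000000c0000000f0000003e0000007f0000001600000006 8 7) 0 0 (step_sound _ 98 [(rh775ca1963e850b80.shift 0 2), (rh83714816f4b15a68.shift 1 0), (rha03f6e28ea70fc7d.shift 1 2)] (by decide +kernel))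
noncomputable def rhdabe48cffde4ecfc : CRef := CRef.mk (Pat.mk 0xf00000008000000000000000000000000 0x40000001c0000001c0000001c0000001c0000000f000000080000001c0000001c00000014 8 5) 0 0 (step_sound _ 163 [(rh33e738c4ed385b9f.shift 0 4), (rh5539f4a7f16e4da8.shift 2 0)] (by decide +kernel))
noncomputable def rh406d1928033c93f2 : CRef := CRef.mk (Pat.mk 0x200000038000000280000000000000000 0x1c0000005c000000ff000003ff000001f8000003a80000002000000020 8 10) 0 0 (step_sound _ 132 [(rh1aff377368479d05.shift 0 2), (rh5af6af1857824b11.shift 0 2), (rha7e239a8204be023.shift 3 0), (rhdc39098b8e9acfc7.shift 3 0)] (by decide +kernel))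
noncomputable def rhfc9e92fd8130681b : CRef := CRef.mk (Pat.mk 0xe0000000a0000000000000000 0x1400000014000001ff000000fe000000ea0000000800000008 8 9) 0 0 (step_sound _ 100 [(rh00e5429bfb6aa774.shift 1 2), (rh427b18cb5af6a3d8.shift 0 2), rh487e398f2023ec8e, (rh6eb76252a9026692.shift 1 0)] (by decide +kernel))
noncomputable def rh99066e8ee5738879 : CRef := CRef.mk (Pat.mk 0x200000003000000004000000300000001800000000 0xc0000000c0000007e0000007e00000007000000360000001e0000000c 8 7) 0 0 (step_sound _ 34 [(rh53b3c253cb0c65f4.shift 1 1), rha5e0f1e43c24309e] (by decide +kernel))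
noncomputable def rh24fd22363d47dca9 : CRef := CRef.mk (Pat.mk 0x1800000002000000300000002600000000000000000000000000000000 0x40000007e000001f3000000320000002600000074000000700000007000000050 8 9) 0 0 (step_sound _ 101 [(rh0a6888916bcef86b.shift 4 0), (rh31533a4fbcdea4bf.shift 0 3), (rh50a14b5cf38c0cd7.shift 4 2), (rh7320b56634d3886a.shift 0 1)] (by decide +kernel))
noncomputable def rhe246de0844c484e0 : CRef := CRef.mk (Pat.mk 0x18000000020000002000000020000000000000000000000000 0x40000001ff000000fe000001e30000002000000020000000700000007000000050 8 9) 0 0 (step_sound _ 197 [(rh416b7159d5a5d59d.shift 0 3), (rh7198def3152eab5c.shift 4 0), (rh7ea8e52a3ea3a261.shift 0 5), (rha14125c7dfda9d47.shift 2 0), (rhdec73fa5b5af4323.shift 2 3)] (by decide +kernel))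
noncomputable def rhdd27dd6371a9f7e4 : CRef := CRef.mk (Pat.mk 0x800000008000000000000001400000014 0x1ff000000fe000000f40000001400000014 8 9) 0 0 (step_sound _ 98 [(rh04253f50b6dd0619.shift 2 0), rhec920829c5f8ad15] (by decide +kernel))
noncomputable def rhfea0fc5dd0061968 : CRef := CRef.mk (Pat.mk 0x30000000f00000000 0x100000001c0000001c0000001c0000001f0000000f00000018 8 5) 0 0 (step_sound _ 67 [(rh33e738c4ed385b9f.shift 0 1), rhc9cfa3e71f7ae31d] (by decide +kernel))
noncomputable def rhd2b9a42744ae2c4d : CRef := CRef.mk (Pat.mk 0x30000000040000003000000010 0x39c000001fc0000039f0000003000000010 8 10) 0 0 (step_sound _ 99 [(rh3cc5c7fb74c49f61.shift 0 2), (rha37933c539715a95.shift 0 1), (rhd82de6e5a2ce54e7.shift 2 0)] (by decide +kernel))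
noncomputable def rhf13f69a39856bc36 : CRef := CRef.mk (Pat.mk 0xc000000010000001000000010000000000000000000000000 0x7f0000003e000000330000001000000010000000380000003800000028 8 7) 0 0 (step_sound _ 196 [(rh05e901ba99ed5efd.shift 0 5), (rh7198def3152eab5c.shift 3 0), (rhf738355e2874670f.shift 0 3)] (by decide +kernel))
noncomputable def rh02dac2d4d352e241 : CRef := CRef.mk (Pat.mk 0x20000000040000003000000010 0x1e0000000fc000001ff0000003000000010 8 9) 0 0 (step_sound _ 133 [rh311254c446b68106, (rh3c88ce959c0e423f.shift 4 0)] (by decide +kernel))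
noncomputable def rh8c7de65d40e5cff0 : CRef := CRef.mk (Pat.mk 0x8000000010000001c00000015000000000000000000000000000000000 0x2800000228000003f8000003fe000001df0000015000000398000003980000038800000280 8 10) 0 0 (step_sound _ 197 [(rh5013872860cb36fd.shift 3 5), (rh554282f29c8c0d24.shift 4 2), (rh96506dac5eafec0d.shift 0 1), (rhf4b1430de81ad04d.shift 2 0)] (by decide +kernel))
noncomputable def rhfc0a5aa9dcf2274c : CRef := CRef.mk (Pat.mk 0x10000000c000000070000000000000000000000000 0x2800000038000000780000007e000000df000000700000003c0000003800000028 8 8) 0 0 (step_sound _ 132 [(rh3e2c9a93a47040f2.shift 2 0), (rh70e33bfdf511e144.shift 4 0), rhac1000ca8703d9b1, (rhfb9fb48a5e63ed80.shift 3 2)] (by decide +kernel))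
noncomputable def rhb8f980b9bc09d0c3 : CRef := CRef.mk (Pat.mk 0x600000002000000060000000b000000000000000000000000 0x190000001f0000007e0000001e0000000b0000001c0000001c00000014 8 7) 0 0 (step_sound _ 131 [(rh18965a982d73c794.shift 0 3), rh5164112ed736214c] (by decide +kernel))
noncomputable def rhb8399cc923e59944 : CRef := CRef.mk (Pat.mk 0x2000000380000002e000000000000000000000000 0x50000001700000057000000fe0000003a0000002e000000270000002700000005 8 8) 0 0 (step_sound _ 164 [rh7574608ac1db3e93, (rha7e239a8204be023.shift 3 1), (rhf71cb1a94bedb48c.shift 3 1)] (by decide +kernel))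
noncomputable def rhd3c68f6c4a864a2b : CRef := CRef.mk (Pat.mk 0x20000003a0000002a0000000200000000 0x1000000170000001f000000360000003a0000002a0000002200000020 8 6) 0 0 (step_sound _ 162 [(rhbaefcd01e0a8bca3.shift 1 1), rhc4b1f3d15039547a] (by decide +kernel))
noncomputable def rh2cdb07717aa1e3e7 : CRef := CRef.mk (Pat.mk 0xa000000180000000c00000000 0x14000000f7000000ff0000001a0000000f00000002 8 8) 0 0 (step_sound _ 98 [rh2344e8bb445172d2, (rhb739f4f82bb681b4.shift 0 2)] (by decide +kernel))
noncomputable def rhcca991c8287f0498 : CRef := CRef.mk (Pat.mk 0x5000000040000000600000000 0x7a0000003e00000077000000040000000600000002 8 7) 0 0 (step_sound _ 130 [(rh4d2a054ed6195303.shift 0 1), (rh932754581e0f4330.shift 1 0)] (by decide +kernel))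
noncomputable def rh2b945ff47592fafe : CRef := CRef.mk (Pat.mk 0x2000000180000002c000000000000000000000000 0x100000005a000000fe0000007a0000002f000000260000002400000004 8 8) 0 0 (step_sound _ 133 [(rh18965a982d73c794.shift 2 3), rhc927e7e6351ad112] (by decide +kernel))
noncomputable def rhd32c32a772ffb18a : CRef := CRef.mk (Pat.mk 0x60000001800000000000000000000000000000000 0x4000000070000003e00000003000000070000000700000005 8 6) 0 0 (step_sound _ 130 [rh6944a238d7c4ec23, (rhf48373e13d2bc128.shift 1 4)] (by decide +kernel))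
noncomputable def rhd67e88e7fe653665 : CRef := CRef.mk (Pat.mk 0x2c000000600000002000000000 0x5000000078000000780000007c0000006f0000006c0000003c00000014 8 7) 0 0 (step_sound _ 133 [(rh10c6c2c3da962758.shift 2 0), (rh4a57183b91ec83ec.shift 2 1), (rh64bc0dab78a08b48.shift 4 1), (rh7197886dcad71dea.shift 0 1), (rhccb3a79fd989e123.shift 4 1)] (by decide +kernel))
noncomputable def rhc91286365cb10619 : CRef := CRef.mk (Pat.mk 0x20000001c0000000000000000 0x50000000700000007000000030000003e0000000700000004 8 6) 0 0 (step_sound _ 65 [(rh3244c3cc8379b070.shift 0 2), rhf900cf5d3716b858] (by decide +kernel))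
noncomputable def rh75206a2c95306be4 : CRef := CRef.mk (Pat.mk 0x40000007000000010000000000000000000000000 0x600000076000000ff0000001e0000000f0000000e0000000a 8 8) 0 0 (step_sound _ 99 [(rh18965a982d73c794.shift 3 3), rh43e5309922239189] (by decide +kernel))
noncomputable def rh485547c197806ade : CRef := CRef.mk (Pat.mk 0xe00000002 0x1fc000000fe000000e3 8 9) 0 0 (step_sound _ 36 [(rh00e5429bfb6aa774.shift 1 0), rheb0810cc63b001d8] (by decide +kernel))
noncomputable def rh4d130210d7523874 : CRef := CRef.mk (Pat.mk 0x100000001c0000001000000000000000000000000000000000 0x8000000380000003800000038000000180000001f0000001000000038000000380000003800000028 8 6) 0 0 (step_sound _ 100 [(rh0a6888916bcef86b.shift 3 0), (rh5192e84255fe3228.shift 3 1), (rh5c651669912fbab1.shift 3 1), (rh8cdd36b03d57a2f6.shift 3 1), (rh9bd464d72418e132.shift 0 2)] (by decide +kernel))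
noncomputable def rh7dba94687c0913d0 : CRef := CRef.mk (Pat.mk 0x240000003c00000014000000000000000000000000 0x2c0000002c0000002c0000003f0000001c0000000f0000000e00000006 8 6) 0 0 (step_sound _ 197 [(rh5c5e593799055d58.shift 4 3), rhce5c5e3502eab792] (by decide +kernel))
noncomputable def rh0358a0971668addd : CRef := CRef.mk (Pat.mk 0xc0000001800000010000000000000000000000000 0xc0000000c0000000f0000001c0000001f0000000f0000000c00000008 8 5) 0 0 (step_sound _ 195 [(rh2145e1d24b96a57e.shift 3 3), rhde41330a4adeacf8] (by decide +kernel))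
noncomputable def rh715a74713cf8614d : CRef := CRef.mk (Pat.mk 0x3000000030000000500000000000000000 0x3000000030000000770000003e0000003f 8 7) 0 0 (step_sound _ 36 [(rh71222050f2c63a3a.shift 4 0), rhd92f1551f0fdfa3f] (by decide +kernel))
noncomputable def rhf50f239e2104efd0 : CRef := CRef.mk (Pat.mk 0x4000000180000001c00000000000000000000000000000000 0x40000001f0000001f00000003000000070000000700000005 8 5) 0 0 (step_sound _ 129 [rh2ec804fbe0df033a, (rh53b3c253cb0c65f4.shift 0 4)] (by decide +kernel))
noncomputable def rh9fbd2c8ad518b547 : CRef := CRef.mk (Pat.mk 0x180000001c0000001000000000 0x20000000a0000000f0000007f0000007c0000001600000004 8 7) 0 0 (step_sound _ 101 [(rh18965a982d73c794.shift 2 2), rh50c6b507fb91315b] (by decide +kernel))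
noncomputable def rhdb98ef2821c37c39 : CRef := CRef.mk (Pat.mk 0x20000001e00000000000000000000000000000000 0x4000000070000000700000003000000060000001e00000007000000070000000700000001 8 5) 0 0 (step_sound _ 97 [rh32ed449c336a9e09, (rheb0810cc63b001d8.shift 0 3)] (by decide +kernel))
noncomputable def rh6370dd1ee84dad11 : CRef := CRef.mk (Pat.mk 0x1e0000000000000000 0x500000007000000070000003f0000001e0000000700000002 8 6) 0 0 (step_sound _ 33 [rh5e6a269e3b11e54a, (rheb0810cc63b001d8.shift 0 1)] (by decide +kernel))
noncomputable def rhde1f0c0d7fc93739 : CRef := CRef.mk (Pat.mk 0xf000000000 0x1c7000000fe000000e7 8 9) 0 0 (step_sound _ 71 [(rh33e738c4ed385b9f.shift 4 1), rh5d6faa2816a200a4] (by decide +kernel))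
noncomputable def rhaa269e5c03281f1a : CRef := CRef.mk (Pat.mk 0x1e0000001800000008000000000000000000000000 0x70000001e0000001f0000000f000000070000000700000005 8 5) 0 0 (step_sound _ 129 [rh5380fe2eb4b012cd, (rheb0810cc63b001d8.shift 0 4)] (by decide +kernel))
noncomputable def rhbf1ae7ece9f8a82e : CRef := CRef.mk (Pat.mk 0x80000000e000000180000000000000000 0x400000004000000ef000000fe0000001f0000000b0000000b 8 8) 0 0 (step_sound _ 130 [rh0c2a3049bbbc63ad, rhec979629f7f835e6, (rhfc7c29d8e65d775f.shift 2 1)] (by decide +kernel))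
noncomputable def rhce42d16f4e1378fc : CRef := CRef.mk (Pat.mk 0x8000000080000001c0000001000000000000000000000000000000000 0x40000000c0000001c0000001c0000001f0000000f0000001c0000001c00000014 8 5) 0 0 (step_sound _ 131 [(rh8cfb1a99ecfeaa6e.shift 2 0), (rhf5e15cdcea0762c2.shift 2 1), (rhfbb399d9cc55fe51.shift 0 3)] (by decide +kernel))
noncomputable def rh045c067aa1674a39 : CRef := CRef.mk (Pat.mk 0x10000000780000000000000010 0x1c0000003c0000000f0000001c000000780000001800000010 8 7) 0 0 (step_sound _ 99 [(rh3244c3cc8379b070.shift 2 2), rh7e73e40251326cba] (by decide +kernel))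
noncomputable def rh1c972fde5c668e7b : CRef := CRef.mk (Pat.mk 0xe00000018000000100000000000000000 0x20000000a000000ef000000fe0000001f000000170000000600000002 8 8) 0 0 (step_sound _ 163 [(rh2145e1d24b96a57e.shift 3 2), rh5b1cc133f89c4a32] (by decide +kernel))
noncomputable def rh62b8d838eedf7883 : CRef := CRef.mk (Pat.mk 0x200000002800000020000000a0 0x397000001fe000001ef000000a0000000a0 8 10) 0 0 (step_sound _ 100 [(rh50fbb5868c909700.shift 4 0), rhbd81797e761b1a1a] (by decide +kernel))
noncomputable def rh2e27c869e42fe209 : CRef := CRef.mk (Pat.mk 0xc0000001800000010000000000000000000000000 0x18000000780000001f0000001c0000001c0000000c0000000c0000000c 8 7) 0 0 (step_sound _ 195 [(rh2145e1d24b96a57e.shift 3 3), rhbba2c239aa95994a] (by decide +kernel))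
noncomputable def rh22476bf79ebdea3a : CRef := CRef.mk (Pat.mk 0xc0000001800000010000000000000000000000000 0x180000007c0000000f000000780000001e0000000c0000000c0000000c 8 7) 0 0 (step_sound _ 195 [(rh2145e1d24b96a57e.shift 3 3), rha8b8cd489df8f7b7] (by decide +kernel))
noncomputable def rhad16872f2d996238 : CRef := CRef.mk (Pat.mk 0xc0000001800000010000000000000000000000000 0x180000007c0000001f00000018000000180000000c0000000c0000000c 8 7) 0 0 (step_sound _ 195 [(rh2145e1d24b96a57e.shift 3 3), rh8fd117af1e4fe66b] (by decide +kernel))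
noncomputable def rha501234103352993 : CRef := CRef.mk (Pat.mk 0xc0000001800000010 0x3000000038000000ff000000ff0000001f00000010 8 8) 0 0 (step_sound _ 65 [(rhb739f4f82bb681b4.shift 0 1), rhe76c94b69ac6091e] (by decide +kernel))
noncomputable def rh562d97bc9e96843d : CRef := CRef.mk (Pat.mk 0x80000000c0000001800000010000000000000000000000000 0x100000001c0000001c0000001f0000001f0000000f0000000e0000000c 8 5) 0 0 (step_sound _ 99 [(rh46d6183566ef1216.shift 2 0), (rh5642a6f45d885063.shift 0 1), (rhca94598dce6b754e.shift 2 0), (rhe443475c6fff10d6.shift 2 1)] (by decide +kernel))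
noncomputable def rhdbb0a6241119420c : CRef := CRef.mk (Pat.mk 0x80000000c0000001800000010000000000000000000000000 0x100000001c0000000c0000001f0000001f0000000f0000000e0000000c 8 5) 0 0 (step_sound _ 99 [(rh46d6183566ef1216.shift 2 0), (rh5642a6f45d885063.shift 0 1), (rh6abf65651ac164b5.shift 2 0), (rhca94598dce6b754e.shift 2 0)] (by decide +kernel))
noncomputable def rhb46d473d71af96f0 : CRef := CRef.mk (Pat.mk 0x80000000c0000003800000010000000000000000000000000 0x100000001c0000000c0000003f0000001f0000000f0000000e0000000c 8 6) 0 0 (step_sound _ 99 [(rh1c214b98c27a159d.shift 2 0), (rh2f01f8afb9019df1.shift 1 0), (rh46d6183566ef1216.shift 2 0), (rh5642a6f45d885063.shift 0 1), (rhca94598dce6b754e.shift 2 0)] (by decide +kernel))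
noncomputable def rhfa72faa1303d4e24 : CRef := CRef.mk (Pat.mk 0x300000004000000040 0xa0000000e0000001ff000001fe000003df00000040 8 10) 0 0 (step_sound _ 70 [(rh122cd325d6f3fe51.shift 2 0), (rh8ee80cc30e93a344.shift 3 1), (rh8f608fc770a6e29a.shift 0 1), (rh9311bff356bd1036.shift 3 0)] (by decide +kernel))
noncomputable def rhfd51391f24c73af2 : CRef := CRef.mk (Pat.mk 0x100000001c00000010000000000000000000000000 0x8000000380000003800000038000000180000001f00000010000000380000003800000028 8 6) 0 0 (step_sound _ 68 [(rh140d987a8619920f.shift 0 2), (rh8cdd36b03d57a2f6.shift 3 0), (rh9bd464d72418e132.shift 0 1)] (by decide +kernel))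
noncomputable def rh21bcb7ba4f990780 : CRef := CRef.mk (Pat.mk 0xc0000006000000020000000000000000000000000 0xc0000000c0000007c0000003c0000001f0000001c00000014 8 7) 0 0 (step_sound _ 131 [(rh5419adcd928dba20.shift 2 4), rh589c8ae891e6bf01] (by decide +kernel))
noncomputable def rhf9fb0407d2623645 : CRef := CRef.mk (Pat.mk 0x1e000000600000002000000000 0x10000000120000003b0000001e0000006f0000003c0000000c 8 7) 0 0 (step_sound _ 65 [rh3c30c8055d7e13c6, (rheb0810cc63b001d8.shift 0 2)] (by decide +kernel))
noncomputable def rh20355ff53d86955b : CRef := CRef.mk (Pat.mk 0x800000018000000080000000800000000 0x170000001f0000001f0000000e0000000c00000004 8 5) 0 0 (step_sound _ 132 [rh1dcfdd430eac7808, (rh2f68792b6b779e96.shift 3 1)] (by decide +kernel))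
noncomputable def rh7d7ed6130a534f8f : CRef := CRef.mk (Pat.mk 0xa00000038000000280000000000000000 0x140000001c0000001c0000005f000000fb00000038000000280000002000000020 8 8) 0 0 (step_sound _ 163 [(rh018f2ebb4d91ad9d.shift 0 2), (rh64bc0dab78a08b48.shift 2 2), (rhae1dd4283bf2190f.shift 3 0), (rhbd12d67b56b3a18b.shift 2 0), (rhc85cc95794737cf7.shift 2 2), (rhccb3a79fd989e123.shift 2 2)] (by decide +kernel))
noncomputable def rh3afdcdf137303c16 : CRef := CRef.mk (Pat.mk 0xa0000001800000008 0x180000001c000000ff000000ff0000001800000008 8 8) 0 0 (step_sound _ 66 [rh9ce86bf1fa49fcf0, (rhb739f4f82bb681b4.shift 0 1)] (by decide +kernel))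
noncomputable def rh99b9e4825cc47b7a : CRef := CRef.mk (Pat.mk 0x200000000c000000000000000400000000 0xa0000001f0000007e0000000f000000060000000400000004 8 7) 0 0 (step_sound _ 131 [(rh00d6a6e3c7e3bb40.shift 2 0), rh68fc8604eafce2e3, (rhe33d9496e10d8eb0.shift 0 3)] (by decide +kernel))
noncomputable def rh1b1ee78933ae1fc2 : CRef := CRef.mk (Pat.mk 0xa000000030000001000000010000000000000000000000000 0x280000003e000000330000001000000010000000380000003800000028 8 6) 0 0 (step_sound _ 196 [(rh7198def3152eab5c.shift 3 0), (rhb2a0b9ccfb5cecd5.shift 0 5)] (by decide +kernel))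
noncomputable def rhfac9a2e26c0cda21 : CRef := CRef.mk (Pat.mk 0x2000000380000002c0000000000000000 0x1000000018000000180000007c000000ff000000380000002c0000002400000020 8 8) 0 0 (step_sound _ 131 [(rh075211c3608a5a57.shift 0 3), (rh2d6292e9915b0989.shift 2 0), (rh9ff0bceb6239a573.shift 0 1), (rhdeb26f2c1965e74f.shift 1 0)] (by decide +kernel))
noncomputable def rhbde95eadf1e18d44 : CRef := CRef.mk (Pat.mk 0x8000000180000000c00000000 0x180000001c0000001f0000007c000000180000000c00000004 8 7) 0 0 (step_sound _ 131 [(rh932754581e0f4330.shift 2 0), (rhba0cadad884e7b0c.shift 0 1)] (by decide +kernel))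
noncomputable def rh03417aa6cf85f7e8 : CRef := CRef.mk (Pat.mk 0x100000001000000002000000180000000c00000000 0x50000003f0000001f0000000b0000001a0000000f00000004 8 6) 0 0 (step_sound _ 131 [(rh04253f50b6dd0619.shift 3 1), rh1dd00983a80a782f] (by decide +kernel))
noncomputable def rh8cd27b1950c5f13a : CRef := CRef.mk (Pat.mk 0x7000000000000000e0000000b000000000000000000000000 0x10000000180000001f0000007e0000000e0000000b0000001d0000001d00000015 8 7) 0 0 (step_sound _ 64 [rh5171bad11988e096, (rhee230b994cc8b773.shift 0 2)] (by decide +kernel))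
noncomputable def rh0491492b235c9302 : CRef := CRef.mk (Pat.mk 0xe0000000000000008 0x280000003800000038000000770000003e0000007800000008 8 7) 0 0 (step_sound _ 68 [(rha93a5dd541ab8209.shift 1 1), (rhb18e6c78a554867d.shift 0 2), (rhcfd856fe4b7cfa5e.shift 1 0), (rhe401600d466b97cd.shift 0 1)] (by decide +kernel))
noncomputable def rh9ba53f68feecebf2 : CRef := CRef.mk (Pat.mk 0x30000000040000001000000014 0x39f000001fe000003960000001400000014 8 10) 0 0 (step_sound _ 99 [(rh2af2a57ff79386f9.shift 1 0), (rhd82de6e5a2ce54e7.shift 2 0), rhee37d230d297e9fd] (by decide +kernel))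
noncomputable def rhf46a8d8b7aa983cf : CRef := CRef.mk (Pat.mk 0x1000000010000000020000002800000028 0x3ff000001fe000003eb0000002800000028 8 10) 0 0 (step_sound _ 99 [(rh04253f50b6dd0619.shift 3 0), rh3d6455680b89d287] (by decide +kernel))
noncomputable def rh9b817791fbf7069f : CRef := CRef.mk (Pat.mk 0x80000000e00000000 0x1800000038000000380000007f0000003e00000070 8 7) 0 0 (step_sound _ 36 [(rha93a5dd541ab8209.shift 1 0), (rhb18e6c78a554867d.shift 0 1), rhcb40e638d6d82ada, rhe401600d466b97cd] (by decide +kernel))
noncomputable def rhd21f87d2a5856ca5 : CRef := CRef.mk (Pat.mk 0x80000000c0000000800000000 0x40000001c0000001f0000001f0000007c0000000f0000000c00000004 8 7) 0 0 (step_sound _ 131 [(rh03dfdf12d5937476.shift 2 0), rh61c1432f4163f3ca, (rh976a48eb1c80a12f.shift 2 1), (rhc85cc95794737cf7.shift 2 1)] (by decide +kernel))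
noncomputable def rh1275da058e9689dc : CRef := CRef.mk (Pat.mk 0x3000000180000000800000000 0x140000001c0000001c0000001e0000001f0000001e0000000c00000004 8 5) 0 0 (step_sound _ 99 [rh78f759e424d35eaf, (rhc10214bf3fe8094a.shift 0 2)] (by decide +kernel))
noncomputable def rhb6f80341672666c6 : CRef := CRef.mk (Pat.mk 0x2000000380000002e000000000000000000000000 0x50000001700000057000000fe0000003a0000002e000000270000002700000005 8 8) 0 0 (step_sound _ 164 [(rha7e239a8204be023.shift 3 1), rhe86b6dd4fd230cd3, (rhf71cb1a94bedb48c.shift 3 1)] (by decide +kernel))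
noncomputable def rh34c46e1efd9cfe7a : CRef := CRef.mk (Pat.mk 0x4000000700000001c000000000000000000000000 0x160000003e000000760000001c0000000f0000000e00000002 8 7) 0 0 (step_sound _ 67 [(rh74c61e969e71c48a.shift 1 2), (rhbf2363c3d7d988f3.shift 1 0), (rhdd715bdc41a6788d.shift 0 1)] (by decide +kernel))
noncomputable def rh845650a413891bbc : CRef := CRef.mk (Pat.mk 0x100000001800000002000000000000000600000000 0x2000000070000003f0000001f00000003000000030000000600000006 8 6) 0 0 (step_sound _ 129 [(rh2f5c1f7004ec74ce.shift 0 1), rh444da232525db12e, rh66d6a627e69b735a, (rh760717e835f8c2f3.shift 0 3)] (by decide +kernel))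
noncomputable def rhd617d66f35960c37 : CRef := CRef.mk (Pat.mk 0x3000000004000000600000004400000000000000000000000000000000 0x7000000fe000000e60000006400000044000000e0000000e0000000e0000000a0 8 8) 0 0 (step_sound _ 102 [(rh0a6888916bcef86b.shift 5 0), (rh594ac2bd7b54a39a.shift 0 3), (rhf1ff944bb86b3a50.shift 0 1)] (by decide +kernel))
noncomputable def rhe3482780b88c5a6e : CRef := CRef.mk (Pat.mk 0x18000000020000002000000020000000000000000000000000 0x40000001ff000000fe000001e30000002000000020000000700000007000000050 8 9) 0 0 (step_sound _ 197 [(rh416b7159d5a5d59d.shift 0 3), (rh7198def3152eab5c.shift 4 0), (rha14125c7dfda9d47.shift 2 0), (rhdec73fa5b5af4323.shift 2 3), (rheed4a7151102a91c.shift 0 5)] (by decide +kernel))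
noncomputable def rh7c29ee38dc926fb9 : CRef := CRef.mk (Pat.mk 0x8000000000000001c00000014 0xff0000007e000000fc0000001c00000014 8 8) 0 0 (step_sound _ 131 [(rh3c88ce959c0e423f.shift 2 0), rh69fa3f61121e4144] (by decide +kernel))
noncomputable def rh84361ae44d3fe889 : CRef := CRef.mk (Pat.mk 0x1000000004000000000000001c000000000000000000000000 0xa000001ff000000fe000001ce000000060000001c0000000f0000000e0000000a 8 9) 0 0 (step_sound _ 130 [rh3e2c9a93a47040f2, (rh70e33bfdf511e144.shift 2 0), rh92eb8a3f9e036452, (rhc0f6fe06378683f4.shift 1 2)] (by decide +kernel))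
noncomputable def rh8c8bc92b6b1553f7 : CRef := CRef.mk (Pat.mk 0x1c0000000000000004000000000000000000000000 0x80000000e0000000e0000000f0000001c0000000e000000060000000e0000000e0000000a 8 5) 0 0 (step_sound _ 130 [(rh274a837cd7eaa569.shift 1 0), (rh724651232aad8528.shift 1 0), (rh889672774368853b.shift 0 2), (rhb730ba14aa32bdb3.shift 2 2)] (by decide +kernel))
noncomputable def rh6101ed8a4c02a8c6 : CRef := CRef.mk (Pat.mk 0x32000000380000002c00000000 0x64000000740000007e0000003e0000003a0000002f00000002 8 7) 0 0 (step_sound _ 132 [(rh5c5e593799055d58.shift 3 1), rha37a5c91c22105f3] (by decide +kernel))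
noncomputable def rhc8c96f914b3edabd : CRef := CRef.mk (Pat.mk 0x4000000000000001c0000000c00000008 0x20000000ff0000007e000000f80000001c0000000c00000008 8 8) 0 0 (step_sound _ 131 [(rh11c908474401bff1.shift 2 0), (rh4c61a8d65f05c464.shift 2 1), (rha799fda0b978792d.shift 2 0), (rhe9729b82f59f9809.shift 0 1)] (by decide +kernel))
noncomputable def rh9792dbfa0e9248ed : CRef := CRef.mk (Pat.mk 0x26000000380000002c000000000000000000000000 0x54000000740000007e000000660000003a0000002f000000720000007000000050 8 7) 0 0 (step_sound _ 97 [(rh53b3c253cb0c65f4.shift 0 3), (rhf09b08d10097eb4a.shift 1 0)] (by decide +kernel))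
noncomputable def rheef67d74a3c8f4a1 : CRef := CRef.mk (Pat.mk 0x2000000180000000e000000000000000000000000 0x140000001c000000ff000000ff0000001b0000000e000000060000000400000004 8 8) 0 0 (step_sound _ 163 [(rh1b8205aeab53059f.shift 1 0), (rh32431e66bbf434a4.shift 2 2), (rh72d46c3d1a169e7a.shift 0 2)] (by decide +kernel))
noncomputable def rh12322fa7c6b38814 : CRef := CRef.mk (Pat.mk 0x2000000180000002c000000000000000000000000 0x100000001a0000003e0000007a0000002f000000260000002400000004 8 7) 0 0 (step_sound _ 133 [(rh18965a982d73c794.shift 2 3), rhcc660c82c5ae9cf5] (by decide +kernel))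
noncomputable def rh36178d5c583bf07a : CRef := CRef.mk (Pat.mk 0x1e000000000000000000000000 0x5000000070000000700000007000000070000001e000000070000000600000006 8 5) 0 0 (step_sound _ 65 [rhd01f53eb3bf20b62, (rheb0810cc63b001d8.shift 0 2)] (by decide +kernel))
noncomputable def rh36e14854f8a9d7cf : CRef := CRef.mk (Pat.mk 0x3c000000000000000000000000 0x8000000080000000c0000001e0000007f0000003c0000001c00000018 8 7) 0 0 (step_sound _ 130 [rh09ee132b0c9bd8f5, (rh3244c3cc8379b070.shift 1 3)] (by decide +kernel))
noncomputable def rh241d3a3c14edeb5d : CRef := CRef.mk (Pat.mk 0x3800000008000000000000000000000000 0x140000001c0000001c0000001f0000003e000000380000003e0000001f0000001c0000001c 8 6) 0 0 (step_sound _ 163 [rh1ac7d339f035520b, (rhcea87fa9fe548f5b.shift 1 0), (rhf03c4ffe64c777a2.shift 0 1), (rhf15a311d14bd0c9a.shift 1 2)] (by decide +kernel))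
noncomputable def rha1583b2b9f81af23 : CRef := CRef.mk (Pat.mk 0x3800000008000000000000000000000000 0x140000001c0000001c0000001c0000001e0000003c0000001f0000001c0000001c00000014 8 6) 0 0 (step_sound _ 98 [(rh1ed7a3503fa50fc8.shift 0 3), (rh5d551c31036948c3.shift 1 0), (rheea1a90336e79c71.shift 0 3)] (by decide +kernel))
noncomputable def rhdc8e786826114c16 : CRef := CRef.mk (Pat.mk 0x70000000000000000000000000 0x140000001c0000001c000000ff0000007e0000001f0000001800000018 8 8) 0 0 (step_sound _ 99 [(rh15b856e33c69f807.shift 0 2), (rh592c7139d2c44767.shift 1 2), (rh61325f73ebf98108.shift 1 3), (rh9e97bba44c1b13e4.shift 1 2), (rhd006db0d9f9b2ec7.shift 2 0)] (by decide +kernel))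
noncomputable def rh1b4767f6e5121d6d : CRef := CRef.mk (Pat.mk 0x38000000000000000000000000 0x20000000e0000000e0000000e0000007f0000003e0000000f0000000c0000000c 8 7) 0 0 (step_sound _ 98 [(rh47ca132480fc32c7.shift 1 0), (rh4c622fddc53a5f99.shift 0 3), (rh775ca1963e850b80.shift 0 2), (rh9e97bba44c1b13e4.shift 0 2)] (by decide +kernel))
noncomputable def rh111ba3208ce75e3e : CRef := CRef.mk (Pat.mk 0x30000001a000000020 0x4000000040000000ee000000fe000001b700000020 8 9) 0 0 (step_sound _ 70 [rhcd94e27c99497a78, (rhd6e447e81774439e.shift 4 1)] (by decide +kernel))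
noncomputable def rh1e2a8eceb775fb97 : CRef := CRef.mk (Pat.mk 0x700000000000000020000000000000000000000000 0x4000000040000000fe0000007e0000003700000020000000300000003000000010 8 8) 0 0 (step_sound _ 133 [(rh01483ff9cba2f6ac.shift 4 0), (rh261f868a429ae0e3.shift 4 2), (rhcd94e27c99497a78.shift 0 3)] (by decide +kernel))
noncomputable def rhe50399a1a8a3fbbb : CRef := CRef.mk (Pat.mk 0x200000002000000060000000e0000000a0000000000000000 0x7c0000003f0000007b0000003e0000000e0000000a0000000800000008 8 7) 0 0 (step_sound _ 131 [rh7f4135a6fa77026a, (rhb762f327c85d41a0.shift 0 3), (rhf8d29f3cbeaf06f7.shift 1 0)] (by decide +kernel))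
noncomputable def rh31251d00f48b5833 : CRef := CRef.mk (Pat.mk 0x20000000200000002000000020 0x8000000080000005e000000fe0000007f0000003000000020 8 8) 0 0 (step_sound _ 100 [(rh50fbb5868c909700.shift 4 0), rhdd452e78acc4ce20] (by decide +kernel))
noncomputable def rhb0444ca05028c92e : CRef := CRef.mk (Pat.mk 0xc000000180000001000000000 0x300000003a000000fb000000ff0000001f0000001c0000000c 8 8) 0 0 (step_sound _ 131 [rh1a96a7c54f46d178, (rh2145e1d24b96a57e.shift 3 1)] (by decide +kernel))
noncomputable def rh31967e3f0443a5e3 : CRef := CRef.mk (Pat.mk 0x1c000000200000000000000000 0x50000000700000007000000070000001e000000370000000600000006 8 6) 0 0 (step_sound _ 97 [(rh96851dee118c1ba3.shift 1 2), rhc575b7e1010db4bb] (by decide +kernel))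
noncomputable def rh278c09721bb92f20 : CRef := CRef.mk (Pat.mk 0x1c0000001000000010 0x20000002a0000003b0000003f0000007f0000001400000010 8 7) 0 0 (step_sound _ 100 [(rh018f2ebb4d91ad9d.shift 1 0), (rh1741680720c097b4.shift 3 0), rh7f06f0d66ad32591, (rhdab32775f5c78fcf.shift 1 0)] (by decide +kernel))
noncomputable def rh5b36b02b2b297ef6 : CRef := CRef.mk (Pat.mk 0xa00000038000000280000000000000000 0x140000001c0000001c0000007c0000007e000000fb00000038000000280000002000000020 8 8) 0 0 (step_sound _ 163 [(rh64bc0dab78a08b48.shift 2 2), (rh81a21d9aef0e52d5.shift 2 0), (rha074b596ddba7932.shift 0 2), (rhc85cc95794737cf7.shift 2 2), (rhe238cad3f5c33294.shift 2 0)] (by decide +kernel))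
noncomputable def rhabe121237277a85f : CRef := CRef.mk (Pat.mk 0x200000002c0000002400000024 0x4000000540000007f0000007e0000006b0000002e0000002c00000024 8 7) 0 0 (step_sound _ 133 [(rh1741680720c097b4.shift 4 1), (rh44f453b84f013105.shift 5 0), rh4ba51498c54f4175] (by decide +kernel))
noncomputable def rh5146e0082c931b2e : CRef := CRef.mk (Pat.mk 0x30000000100000001000000000000000000000000000000000 0xf0000003e0000003f0000001c00000038000000380000003800000028 8 6) 0 0 (step_sound _ 100 [(rh36422e4e7a526054.shift 0 2), (rh6eff4158bb400f47.shift 3 1), (rh8c3839f9b9075f23.shift 4 1), (rh984bfc6de6c2c524.shift 3 0)] (by decide +kernel))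
noncomputable def rh678b80e023dffa5f : CRef := CRef.mk (Pat.mk 0x600000030000000120000000000000000000000000000000000000000 0x400000006000000370000001f0000000700000007000000070000000700000005 8 6) 0 0 (step_sound _ 162 [(rh1c62b6193297d9e3.shift 1 5), rhe9d07ed2f561035a] (by decide +kernel))
noncomputable def rh6bcf5c09da53248f : CRef := CRef.mk (Pat.mk 0x3000000030000000000000006800000000 0x40000000c0000000e0000003e0000003e0000000f0000007c0000000c 8 7) 0 0 (step_sound _ 99 [rh5704e001fbc70110, (rh8eb5866e4932a1e4.shift 1 0), (rha4f81fa13720f1a8.shift 1 0), (rhad5157b407008106.shift 1 0), (rhbc3856c45b8aec4f.shift 1 0)] (by decide +kernel))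
noncomputable def rhc70df92508b35bf8 : CRef := CRef.mk (Pat.mk 0x200000002000000060000000200000000 0x50000000700000007000000060000000600000006000000070000000300000001 8 3) 0 0 (step_sound _ 130 [(rh2f68792b6b779e96.shift 1 1), rh7b3828af614c0a71] (by decide +kernel))
noncomputable def rh8ea57463cda4abb4 : CRef := CRef.mk (Pat.mk 0xc0000001800000010000000000000000000000000 0x1c0000001c0000001f0000001c0000001f0000000f0000000c0000000c 8 5) 0 0 (step_sound _ 195 [(rh2145e1d24b96a57e.shift 3 3), rhe4409a634f4ac19d] (by decide +kernel))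
noncomputable def rhe37e92ae9241c82c : CRef := CRef.mk (Pat.mk 0xf000000080000000800000000 0x40000001c0000001c000000180000001c0000000f0000000c0000000c00000004 8 5) 0 0 (step_sound _ 131 [(rh2fd3c82e8124b6af.shift 2 0), (rh33e738c4ed385b9f.shift 0 3)] (by decide +kernel))
noncomputable def rh82a20018d98048f7 : CRef := CRef.mk (Pat.mk 0x1000000018000000300000002000000000 0xc0000000c000000ef000000ff000000df000000f00000003000000010 8 8) 0 0 (step_sound _ 131 [(rh2342f206a8a64b2d.shift 0 2), rhc772f6e9dea1a42c, (rhfc7c29d8e65d775f.shift 3 1)] (by decide +kernel))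
noncomputable def rhaa0eec57d75bda3b : CRef := CRef.mk (Pat.mk 0x30000000600000004000000000000000000000000 0xf0000001f0000001b0000001f00000007000000030000000300000003 8 5) 0 0 (step_sound _ 193 [(rh2145e1d24b96a57e.shift 1 3), rh5b3a9df881306da7] (by decide +kernel))
noncomputable def rh9312608831dbc7ca : CRef := CRef.mk (Pat.mk 0x18000000300000002000000000 0x40000000c0000003e000000ff0000001f000000380000003000000010 8 8) 0 0 (step_sound _ 132 [(rh2145e1d24b96a57e.shift 4 1), rh6291649859f7d266] (by decide +kernel))
noncomputable def rhbb69f3b9766e801a : CRef := CRef.mk (Pat.mk 0x2000000030000000e00000004000000000000000000000000 0xd0000001f0000007f0000000f00000006000000020000000200000002 8 7) 0 0 (step_sound _ 97 [rh4476a440891ea183, (rhd0f1b3cb55cbf465.shift 0 3), (rhe286c75f2739cce2.shift 0 2), (rhe443475c6fff10d6.shift 0 1)] (by decide +kernel))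
noncomputable def rh261b50e769e1f644 : CRef := CRef.mk (Pat.mk 0x80000000c000000180000004000000000 0x30000000300000007f000000ff000000dc0000004000000040 8 8) 0 0 (step_sound _ 97 [rh020a1347009e98b9, (rhb739f4f82bb681b4.shift 0 2)] (by decide +kernel))
noncomputable def rhd6e74e2f3840d34d : CRef := CRef.mk (Pat.mk 0x100000001c0000001000000010 0x2000000020000000f0000001f0000003f0000001400000014 8 6) 0 0 (step_sound _ 99 [(rh50fbb5868c909700.shift 3 0), rhded9b1eff8c514b5] (by decide +kernel))
noncomputable def rh3675c5e80244345c : CRef := CRef.mk (Pat.mk 0x1000000038000000100000001000000000 0x30000000340000003e000000380000001f0000001f0000000c 8 6) 0 0 (step_sound _ 67 [(rh03dfdf12d5937476.shift 3 0), rh1cead203137e9b93, (rh5db479c9ce22a9b1.shift 3 1)] (by decide +kernel))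
noncomputable def rhfe01bf044090285e : CRef := CRef.mk (Pat.mk 0x80000000b0000001800000008000000000000000000000000 0x10000000190000000b0000001f0000000f000000070000000300000001 8 5) 0 0 (step_sound _ 196 [(rh2f68792b6b779e96.shift 3 3), rhe2cec9762afc786b] (by decide +kernel))
noncomputable def rh138b7d65a6c9bf2c : CRef := CRef.mk (Pat.mk 0x16000000300000001000000000 0x2a0000003e0000003f0000003e00000036000000360000001e0000000a 8 6) 0 0 (step_sound _ 132 [(rh4a57183b91ec83ec.shift 1 1), (rh4d798349a89301b1.shift 1 0), (rh64bc0dab78a08b48.shift 3 1), (rh6cae0ab134e00e2b.shift 0 1), (rhccb3a79fd989e123.shift 3 1)] (by decide +kernel))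
noncomputable def rha6a0b1be648c76dc : CRef := CRef.mk (Pat.mk 0x16000000300000001000000000 0x28000000380000003b0000003e000000360000003c0000001e0000000c 8 6) 0 0 (step_sound _ 66 [rh4d79f822a1a1ed72, (rh5419adcd928dba20.shift 1 2)] (by decide +kernel))
noncomputable def rhc538a4f863906d56 : CRef := CRef.mk (Pat.mk 0x10000000180000003000000020000000000000000000000000 0x2e0000003f00000038000000f800000038000000180000001800000018 8 8) 0 0 (step_sound _ 135 [(rh2fe78cc5ca4405d8.shift 3 4), rh71ac770aa1625c5f] (by decide +kernel))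
noncomputable def rhb01d5178b3647b6f : CRef := CRef.mk (Pat.mk 0x100000001c0000003000000020000000000000000000000000 0x40000002e0000003f0000007c0000003e00000038000000180000001800000018 8 7) 0 0 (step_sound _ 100 [(rh1152aee0afa96cae.shift 3 0), (rh2f1f42444a562377.shift 1 2), (rhaeecc7287588a69b.shift 3 0), (rhb1c562e40ee61608.shift 3 0), (rhcebf3869a7708aac.shift 0 2)] (by decide +kernel))
noncomputable def rhfb11a0059d2545f5 : CRef := CRef.mk (Pat.mk 0x1e0000000a0000000800000000 0x300000007000000070000000f0000001e0000000e0000000e00000006 8 5) 0 0 (step_sound _ 129 [(rh3244c3cc8379b070.shift 0 3), rh92a58601b1d8077f] (by decide +kernel))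
noncomputable def rh177611406e131364 : CRef := CRef.mk (Pat.mk 0x100000001c000000100000001000000000 0x1f0000001f0000001c0000001c0000001c0000000c 8 5) 0 0 (step_sound _ 131 [rh2728c03367c410e2, (rh50fbb5868c909700.shift 3 1)] (by decide +kernel))
noncomputable def rhf05013e07c94059c : CRef := CRef.mk (Pat.mk 0x180000001c000000100000001000000000 0x170000001f0000001c0000007c0000001c0000000c 8 7) 0 0 (step_sound _ 35 [(rh932754581e0f4330.shift 3 0), rhde3ed961eb432876] (by decide +kernel))
noncomputable def rh5ca668c9b4595c7e : CRef := CRef.mk (Pat.mk 0x300000004000000040 0x20000000e0000000e0000000e0000001ff000001fe000003df00000040 8 10) 0 0 (step_sound _ 70 [(rh8f608fc770a6e29a.shift 0 1), (rh9311bff356bd1036.shift 3 0), (rh9485c0e130697c34.shift 2 0), (rhe77cdbae63d92bd9.shift 2 1)] (by decide +kernel))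
noncomputable def rh84b1e9528762b864 : CRef := CRef.mk (Pat.mk 0x7000000080000000800000000 0x140000001c0000001c000000180000000f0000001c0000000c00000004 8 5) 0 0 (step_sound _ 99 [rha15903eb1bcf16d5, (rhe25b0a99195a5d59.shift 0 2)] (by decide +kernel))
noncomputable def rh60ab467fe83d5128 : CRef := CRef.mk (Pat.mk 0xc0000001800000010000000000000000000000000 0x4000000140000003c0000000f000000780000001e0000000c0000000c0000000c 8 7) 0 0 (step_sound _ 133 [rh6fd46a0846eae517, (rhf48373e13d2bc128.shift 2 4)] (by decide +kernel))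
noncomputable def rh8f1ebdbbc7402a97 : CRef := CRef.mk (Pat.mk 0x120000001a0000001a0000000200000000 0x50000003700000037000000120000001a0000001e0000000600000004 8 6) 0 0 (step_sound _ 34 [(rh55afc6a59410cf00.shift 1 0), (rhfbf07de32ecfd2f4.shift 0 1)] (by decide +kernel))
noncomputable def rh9df9dd6c10f80a9f : CRef := CRef.mk (Pat.mk 0x80000001e000000080000000000000000 0x500000007000000070000000b0000001e0000000f0000000e00000004 8 5) 0 0 (step_sound _ 65 [rh80762ac8182d9399, (rheb0810cc63b001d8.shift 0 2)] (by decide +kernel))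
noncomputable def rh0f809ff1a4bff254 : CRef := CRef.mk (Pat.mk 0x20000000380000006000000000000000000000000000000000 0x8000000dc000000de000000fe000000780000007f0000001c0000001c0000001c00000014 8 8) 0 0 (step_sound _ 131 [(rh9646ef012e4a1424.shift 2 4), (rhb854d1754ef6c91d.shift 1 0), (rhf0f55c4504412200.shift 0 4), (rhf89d9478b5f90bc7.shift 1 2)] (by decide +kernel))
noncomputable def rhebd859c5a70f7cf7 : CRef := CRef.mk (Pat.mk 0x1e0000001a0000000000000000000000000000000000000000 0x4000000070000001e0000001e0000000700000007000000070000000700000005 8 5) 0 0 (step_sound _ 225 [(rh3244c3cc8379b070.shift 0 6), rhc472f8ac7fc4eb99] (by decide +kernel))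
noncomputable def rh3a9d5d138f842f8f : CRef := CRef.mk (Pat.mk 0x3c00000018000000100000000000000000 0xe0000000e0000000f0000003c0000001e000000160000000600000006 8 6) 0 0 (step_sound _ 98 [rh02e9fafe8fd96002, (rheb0810cc63b001d8.shift 1 3)] (by decide +kernel))
noncomputable def rhcca42c150d240686 : CRef := CRef.mk (Pat.mk 0x100000001e000000060000000000000000 0x180000001e0000003f0000001e0000001f000000060000000200000002 8 6) 0 0 (step_sound _ 131 [(rh53b3c253cb0c65f4.shift 0 3), rha0b1876c15605c05] (by decide +kernel))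
noncomputable def rh913d91fa772f6dd6 : CRef := CRef.mk (Pat.mk 0x3800000038000000200000003000000000 0x60000003e000000380000006f0000003e00000007 8 7) 0 0 (step_sound _ 130 [(rhb739f4f82bb681b4.shift 1 3), rhdeb9d2989f296e94] (by decide +kernel))
noncomputable def rh1f5b4eb7498a344f : CRef := CRef.mk (Pat.mk 0x400000003800000018000000200000002000000000 0x600000003c000000180000007f0000003e0000001f 8 7) 0 0 (step_sound _ 165 [(rh53b3c253cb0c65f4.shift 2 4), rhe9e5573cf9b13a35] (by decide +kernel))
noncomputable def rh4e766febd5d32004 : CRef := CRef.mk (Pat.mk 0x20000000080000002000000030000000000000000000000000 0x28000000280000006f0000003e0000001f0000001400000014 8 7) 0 0 (step_sound _ 68 [rh469e0c7f5a4feabc, (rhee230b994cc8b773.shift 4 2)] (by decide +kernel))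
noncomputable def rhfe5c5d2a3ff40a09 : CRef := CRef.mk (Pat.mk 0x70000000800000008 0x40000001c0000001c0000001c0000001c0000000f0000001800000008 8 5) 0 0 (step_sound _ 67 [rh10f0822a4f7470ae, (rhe25b0a99195a5d59.shift 0 1)] (by decide +kernel))
noncomputable def rhd111675597f8a3d0 : CRef := CRef.mk (Pat.mk 0x38000000000000000000000000 0x40000000e0000000e0000007f0000003e0000000f0000000400000004 8 7) 0 0 (step_sound _ 98 [(rh61325f73ebf98108.shift 0 3), (rh775ca1963e850b80.shift 0 2), (rh9e97bba44c1b13e4.shift 0 2), (rhf7bfa696246e1215.shift 1 0)] (by decide +kernel))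
noncomputable def rhbe76e34e83fa3789 : CRef := CRef.mk (Pat.mk 0x2c0000001c000000000000000000000000 0x1e0000003e0000000f0000003c0000001e0000000c0000000c00000004 8 6) 0 0 (step_sound _ 132 [rh522bfaffcb994ed7, (rheb0810cc63b001d8.shift 1 3)] (by decide +kernel))
noncomputable def rh6a720d6d0b2a9973 : CRef := CRef.mk (Pat.mk 0x1e000000100000001000000000 0x14000000340000003e0000001f0000001b0000000a 8 6) 0 0 (step_sound _ 132 [(rh33e738c4ed385b9f.shift 1 3), rhfce8ec15120b1ac8] (by decide +kernel))
noncomputable def rh48d0e92ecc684371 : CRef := CRef.mk (Pat.mk 0x6000000180000000c000000000000000000000000 0x100000003a0000001e0000001f0000000f000000040000000400000004 8 6) 0 0 (step_sound _ 97 [rh4bde6bd61829688a, (rh53b3c253cb0c65f4.shift 0 3)] (by decide +kernel))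
noncomputable def rha4898672bbe30c3c : CRef := CRef.mk (Pat.mk 0x1000000014000000100000001000000000 0x1400000014000001de000000fe000001ef 8 9) 0 0 (step_sound _ 37 [(rh55afc6a59410cf00.shift 4 0), rhdf735d13e6d20c50] (by decide +kernel))
noncomputable def rhba03d6618726f0ff : CRef := CRef.mk (Pat.mk 0x180000006000000038000000000000000000000000 0x4c000000fc000000f80000006c000000380000001f0000001400000010 8 8) 0 0 (step_sound _ 131 [(rh078f4f3247d56360.shift 2 2), (rh61147287bacde07b.shift 0 1), (rh70e33bfdf511e144.shift 3 0), (rha8b407a04468a08a.shift 2 0)] (by decide +kernel))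
noncomputable def rhc4b3a1f14ed9a396 : CRef := CRef.mk (Pat.mk 0x10000000180000006000000030 0x1c0000003c000000ef000000ff000000f80000007800000030 8 8) 0 0 (step_sound _ 99 [rh49c84b4b6b7f889e, (rh92ca7083b53c6ac4.shift 3 0), rhafa7debcbabdd1bb] (by decide +kernel))
noncomputable def rh6e7c4d821e790886 : CRef := CRef.mk (Pat.mk 0x6000000180000000c000000000000000000000000 0x20000001a000000ff000000fe0000001f0000000c000000060000000600000006 8 8) 0 0 (step_sound _ 130 [(rh46d6183566ef1216.shift 1 0), rh6e89f1d5c7e3b33e, (rh8ab8ca759e5a7140.shift 0 3), (rhb1a251d9bff81766.shift 1 2)] (by decide +kernel))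
noncomputable def rh6197b4f8826b3bbd : CRef := CRef.mk (Pat.mk 0x1200000038000000280000000000000000 0x1c0000001c0000001f000000df000000f8000000280000002000000020 8 8) 0 0 (step_sound _ 131 [rh19f00468d16b30a5, (rhab22b5b56e7b3243.shift 1 3)] (by decide +kernel))
noncomputable def rh92a8457ebe03c117 : CRef := CRef.mk (Pat.mk 0x3000000006000000300000001000000000 0x5000000070000003f00000006000000360000001e00000006 8 6) 0 0 (step_sound _ 130 [rh19edcc26b17bf335, (rhb2a0b9ccfb5cecd5.shift 1 3)] (by decide +kernel))
noncomputable def rh3b071fce79af88d8 : CRef := CRef.mk (Pat.mk 0x1800000006000000300000001000000000 0x5000000070000003f00000006000000360000001e00000006 8 6) 0 0 (step_sound _ 130 [(rh18965a982d73c794.shift 1 3), rh19edcc26b17bf335] (by decide +kernel))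
noncomputable def rh92f2313c842689fb : CRef := CRef.mk (Pat.mk 0x20000000180000001000000016000000300000001000000000 0x500000027000000370000001f0000001700000017000000370000001f00000005 8 6) 0 0 (step_sound _ 196 [rh0e1c908aa72ce316, (rh2f68792b6b779e96.shift 4 3)] (by decide +kernel))
noncomputable def rh161133668844638f : CRef := CRef.mk (Pat.mk 0x180000001000000006000000300000001000000000 0x700000007000000070000001f0000003700000007000000370000001f00000005 8 6) 0 0 (step_sound _ 161 [(rh2be070733f81f31a.shift 0 2), rh5274bdb88bc355e1, rh55d630c386875143, (rh71d72022feb6a164.shift 0 2)] (by decide +kernel))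
noncomputable def rhd0c16a96b9e7d71e : CRef := CRef.mk (Pat.mk 0x1400000070000000500000000000000000 0x20000000380000003f000000be000001f600000070000000500000004000000040 8 9) 0 0 (step_sound _ 164 [(rh1741680720c097b4.shift 3 2), (rh4779e9e3b0ddb607.shift 0 2), (rh64bc0dab78a08b48.shift 3 2), (rhae1dd4283bf2190f.shift 4 0), (rhbd12d67b56b3a18b.shift 3 0)] (by decide +kernel))
noncomputable def rh8448a351cceb7d21 : CRef := CRef.mk (Pat.mk 0x1e000000020000000000000000 0x200000007000000070000003f0000001e000000060000000300000003 8 6) 0 0 (step_sound _ 129 [(rh3244c3cc8379b070.shift 0 3), rha5af5f299b34de8a] (by decide +kernel))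
noncomputable def rhd2c3141809176f29 : CRef := CRef.mk (Pat.mk 0x200000000c00000038000000180000000000000000 0x20000000200000006c0000003f0000001b0000000f0000000e 8 7) 0 0 (step_sound _ 133 [(rh5c5e593799055d58.shift 4 2), rhc75a3564cdf11cdc] (by decide +kernel))
noncomputable def rh91174d9c61e133cc : CRef := CRef.mk (Pat.mk 0xc0000000e000000180000000000000000 0x100000001f0000007e0000001f0000000b0000000b 8 7) 0 0 (step_sound _ 35 [(rh7b1f1fb55310c477.shift 2 0), rhef361b1db5790df6] (by decide +kernel))
noncomputable def rhcd1b4b39ba727be4 : CRef := CRef.mk (Pat.mk 0x8000000020000001e0000001e000000000000000000000000 0x3f0000001f000000120000001e0000001e000000030000000200000002 8 6) 0 0 (step_sound _ 65 [(rheb0810cc63b001d8.shift 0 2), rhfa79672e8a43e295] (by decide +kernel))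
noncomputable def rh10bf281a9ced894f : CRef := CRef.mk (Pat.mk 0x80000000c000000180000001000000000 0x34000000360000007f0000007f0000001c0000001800000008 8 7) 0 0 (step_sound _ 97 [rh01b73b68359c2e1f, (rhb739f4f82bb681b4.shift 0 2)] (by decide +kernel))
noncomputable def rh8ac5b2738f8f2256 : CRef := CRef.mk (Pat.mk 0xe0000000800000028000000000000000000000000 0x6000000060000001f0000003e0000007f0000002c000000700000007000000050 8 7) 0 0 (step_sound _ 164 [(rh257411a10614b6c1.shift 1 0), (rh47c07cd0cc865f65.shift 0 4), (rhb39bbd02d7aa1dd4.shift 0 3), (rhff60e4c5a2b76c5f.shift 0 3)] (by decide +kernel))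
noncomputable def rh5e85ec45a167bb10 : CRef := CRef.mk (Pat.mk 0xe000000080000002800000000 0x600000006000000ef0000007e0000007f0000002c00000020 8 8) 0 0 (step_sound _ 100 [(rh47c07cd0cc865f65.shift 0 2), (rhb39bbd02d7aa1dd4.shift 0 1), (rhff137c455409f0e3.shift 1 0)] (by decide +kernel))
noncomputable def rhf773ae79cbe6c672 : CRef := CRef.mk (Pat.mk 0x7000000040000000400000000 0x20000000e0000000e0000000e0000001e00000007000000060000000600000002 8 5) 0 0 (step_sound _ 130 [(rh193da7fc9e1674f1.shift 1 0), (rh1dffa6d8a02b5f3a.shift 1 1), (rh2fd3c82e8124b6af.shift 1 0), (rh4017de503635a93b.shift 0 1), (rh771d065bdc85bf2d.shift 1 0), (rhd91b73d7ee353e95.shift 1 1)] (by decide +kernel))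
noncomputable def rh60a2685cbac03297 : CRef := CRef.mk (Pat.mk 0x70000000400000014000000000000000000000000 0x8000000080000007c0000003f0000003c00000014000000380000003800000028 8 7) 0 0 (step_sound _ 163 [rh257411a10614b6c1, (rh49606a42a30c7ac4.shift 0 3), (rh94246470f0e6fdf7.shift 0 3), (rhff137c455409f0e3.shift 0 2)] (by decide +kernel))
noncomputable def rh4b5b6fed36179a3c : CRef := CRef.mk (Pat.mk 0xc0000001800000010000000000000000000000000 0x3c0000007f0000003c00000078000000180000000c0000000c0000000c 8 7) 0 0 (step_sound _ 195 [(rh2145e1d24b96a57e.shift 3 3), rhe9005be8dce43a68] (by decide +kernel))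
noncomputable def rh2253ffaa075818a2 : CRef := CRef.mk (Pat.mk 0x4000000180000001c00000000000000000000000000000000 0x40000001f0000001f00000003000000070000000700000005 8 5) 0 0 (step_sound _ 129 [(rh53b3c253cb0c65f4.shift 0 4), rha3708673ce6a5ec7] (by decide +kernel))
noncomputable def rh968e624264c565f5 : CRef := CRef.mk (Pat.mk 0x3000000030000000500000000000000000 0x3000000030000000770000003e0000003f 8 7) 0 0 (step_sound _ 36 [rh5133fbe07fd94255, (rh71222050f2c63a3a.shift 4 0)] (by decide +kernel))
noncomputable def rh0f7d56f838539f54 : CRef := CRef.mk (Pat.mk 0x20000000e000000080000000000000000000000000 0x20000001ff000000fe000000df000000380000003800000028 8 9) 0 0 (step_sound _ 132 [(rh0de499e0455c9c14.shift 2 3), (rh152d3b71cd350273.shift 1 3), (rhbd2ff28a4a1671c5.shift 0 3), (rhf5ccbd9087578dc3.shift 3 0)] (by decide +kernel))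
noncomputable def rh89023288cad75979 : CRef := CRef.mk (Pat.mk 0x1800000038000000200000000000000000 0x1c0000003c0000001f000000780000003e000000280000000800000008 8 7) 0 0 (step_sound _ 133 [(rh4dc133ee0ba1420a.shift 1 3), rh858a7e28662c0118] (by decide +kernel))
noncomputable def rh640b7efa9d417d36 : CRef := CRef.mk (Pat.mk 0x80000000e00000018000000000000000000000000 0x6000000060000000f000000fe0000001f000000070000000600000002 8 8) 0 0 (step_sound _ 132 [(rh21460d2d48a35cb8.shift 0 2), (rh2395824d1086e2bc.shift 0 1), (rh412d230494194d0a.shift 0 3), rh71fd4ce61976df02, (rhc6956c01bebae6c8.shift 0 3)] (by decide +kernel))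
noncomputable def rhcef342ff4fc45254 : CRef := CRef.mk (Pat.mk 0x40000001c00000018000000000000000000000000 0x800000008000000ec000000fc0000001e0000000f0000000e00000002 8 8) 0 0 (step_sound _ 67 [(rh7b1f1fb55310c477.shift 2 1), rhc4131633dab05806] (by decide +kernel))
noncomputable def rh7faa0b945f01f97c : CRef := CRef.mk (Pat.mk 0x8000000380000001000000000 0x1c0000001f00000038000000f80000001e0000000c 8 8) 0 0 (step_sound _ 131 [(rh2145e1d24b96a57e.shift 3 1), rhf5c017a3c2b7e0ba] (by decide +kernel))
noncomputable def rheac7a0eea0d2311d : CRef := CRef.mk (Pat.mk 0x18000000300000002000000000 0x180000001800000018000000770000003e0000001f 8 7) 0 0 (step_sound _ 132 [(rh2145e1d24b96a57e.shift 4 1), rh866c2d93a161c3f4] (by decide +kernel))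
noncomputable def rh10c90991544eb537 : CRef := CRef.mk (Pat.mk 0x100000001c000000300000002000000000 0x20000000a0000000f0000001f0000007c000000360000003e0000001c 8 7) 0 0 (step_sound _ 131 [(rh186a81581a6a7e7a.shift 0 1), (rh3cb04db3dd2b6a55.shift 3 0), (rhe03933d511c256c8.shift 1 0)] (by decide +kernel))
noncomputable def rh57218186cf0e061b : CRef := CRef.mk (Pat.mk 0x1e0000000200000000000000000000000000000000 0x50000000700000007000000070000001e0000000600000006000000070000000700000005 8 5) 0 0 (step_sound _ 193 [(rh3244c3cc8379b070.shift 0 5), rhdd467f9cdb224cdf] (by decide +kernel))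
noncomputable def rh4409e11745a38854 : CRef := CRef.mk (Pat.mk 0x1c0000001800000010000000000000000000000000 0x14000000160000007c0000001f0000001f0000000e0000000e0000000c 8 7) 0 0 (step_sound _ 99 [(rh1e309b005ffa1b36.shift 3 1), (rh46d6183566ef1216.shift 2 0), (rh7e56b91726d0b647.shift 0 1)] (by decide +kernel))
noncomputable def rhe4abfb192d31c518 : CRef := CRef.mk (Pat.mk 0x180000001c0000001000000000 0x60000000e0000000f0000001f0000007c0000001c0000000c 8 7) 0 0 (step_sound _ 131 [(rh2145e1d24b96a57e.shift 3 1), rhcdde6d7bc40e4bb4] (by decide +kernel))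
noncomputable def rhc126a2d483e3db27 : CRef := CRef.mk (Pat.mk 0x80000003800000020000000000000000000000000 0xc000000f80000003c0000001f0000001c0000001c 8 8) 0 0 (step_sound _ 134 [(rh3244c3cc8379b070.shift 2 4), rh9f254fcbdfeefb81] (by decide +kernel))
noncomputable def rh5f98b24570859296 : CRef := CRef.mk (Pat.mk 0x20000001e000000080 0x67000001fe000000ff 8 9) 0 0 (step_sound _ 4 [rh4b72cf4a8bbd352e, (rh80fcd6d0a18cb2dd.shift 4 0)] (by decide +kernel))
noncomputable def rh61f3e7ba5d6248e4 : CRef := CRef.mk (Pat.mk 0x1000000070000000000000000000000000 0x8000000180000001c000000fc0000007f0000001f0000001800000008 8 8) 0 0 (step_sound _ 99 [(rh05b45f17d817b10b.shift 2 1), (rh152d3b71cd350273.shift 0 2), (rhcfde16a7ff36af03.shift 2 0)] (by decide +kernel))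
noncomputable def rh92c5928e8d143f39 : CRef := CRef.mk (Pat.mk 0x40000003c000000140000000800000000 0x20000000740000007c0000003c0000001c0000000f00000006 8 7) 0 0 (step_sound _ 67 [(rh2145e1d24b96a57e.shift 2 1), rh2b1a1d49bb9c484e] (by decide +kernel))
noncomputable def rh7b239c7a8b24cb81 : CRef := CRef.mk (Pat.mk 0x800000028000000200000000000000000 0x6800000068000001ff000001fe000000380000001000000010 8 9) 0 0 (step_sound _ 100 [(rh38791ac5737ed75e.shift 2 3), (rha9d5af57152f357b.shift 1 0), (rha9fbfd4bb8cf890b.shift 0 3), (rhb1f5ad2500550291.shift 1 0)] (by decide +kernel))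
noncomputable def rh7b790e1d308472f0 : CRef := CRef.mk (Pat.mk 0x20000000a00000008000000000 0x18000000180000007ff000003fe000000ff00000040 8 11) 0 0 (step_sound _ 70 [(rh38791ac5737ed75e.shift 4 2), rh3e58306bfa190149, (rha9fbfd4bb8cf890b.shift 2 2), (rhe091ed77919be4bd.shift 2 1)] (by decide +kernel))
noncomputable def rh1e1431f923e9af50 : CRef := CRef.mk (Pat.mk 0x20000000a0000000800000000000000000 0x1a0000001a0000007ff000007fe000000df0000004000000040 8 11) 0 0 (step_sound _ 102 [(rh38791ac5737ed75e.shift 4 3), (rh3e58306bfa190149.shift 0 1), (rha9d5af57152f357b.shift 3 0), (rha9fbfd4bb8cf890b.shift 2 3)] (by decide +kernel))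
noncomputable def rh0c47bc719ec59a37 : CRef := CRef.mk (Pat.mk 0x80000002800000028000000000000000000000000 0x140000001c0000001c0000000800000008000000780000003e0000001f0000000400000004 8 7) 0 0 (step_sound _ 98 [(rh281c6819542c66e6.shift 2 0), (rh70e34184530296ae.shift 2 2), (rh9f2591205204f08d.shift 2 3), (rha3fd83893c3ef42f.shift 0 2), (rhc1e1b5d93dc49743.shift 2 2)] (by decide +kernel))
noncomputable def rh1fb3bf20344ca92d : CRef := CRef.mk (Pat.mk 0x20000000a0000000a000000000000000000000000 0xa0000001f0000007e0000000f000000040000000400000004 8 7) 0 0 (step_sound _ 132 [(rh01e48cd9f335aa73.shift 0 3), (rh46ba0607dc7404b2.shift 0 3), (rhda02c4ce0b224328.shift 0 3), rhe4a42abbbbe0e378] (by decide +kernel))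
noncomputable def rh4dc75d06c1bf4c3e : CRef := CRef.mk (Pat.mk 0x1000000010000000500000001000000000 0x80000001800000010000000770000003e0000002f 8 7) 0 0 (step_sound _ 131 [(rh50fbb5868c909700.shift 3 1), rh5133fbe07fd94255] (by decide +kernel))
noncomputable def rh8e5458a3b4c6664a : CRef := CRef.mk (Pat.mk 0x400000004000000140000000600000000000000000 0x2000000070000000d0000001ff000000fe0000001f00000008 8 9) 0 0 (step_sound _ 165 [(rh50fbb5868c909700.shift 5 2), rhb4748319fb2e44b9] (by decide +kernel))
noncomputable def rhe65ae0df377fe13d : CRef := CRef.mk (Pat.mk 0x400000016000000100000000000000000 0x200000036000000370000003f0000001f0000001c0000000c00000008 8 6) 0 0 (step_sound _ 99 [(rh05b45f17d817b10b.shift 0 1), (rh14ebe618fe80128a.shift 0 1), rh31edea79c38d604a] (by decide +kernel))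
noncomputable def rhd3988dbd7a7bc962 : CRef := CRef.mk (Pat.mk 0x1000000058000000000000000000000000 0x8000000180000001c000000fc0000007f0000001f0000001800000008 8 8) 0 0 (step_sound _ 101 [(rh05b45f17d817b10b.shift 2 1), (rh152d3b71cd350273.shift 0 2), (rhcfde16a7ff36af03.shift 2 0)] (by decide +kernel))
noncomputable def rha3077da8245306f2 : CRef := CRef.mk (Pat.mk 0x1800000010000000180000001800000000 0x70000001f0000001f0000001e0000001c00000014 8 5) 0 0 (step_sound _ 99 [rh1dcfdd430eac7808, (rh7b1f1fb55310c477.shift 3 0)] (by decide +kernel))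
noncomputable def rh335fd4dc083b6880 : CRef := CRef.mk (Pat.mk 0x10000000500000005800000000 0x1c0000001f00000038000000dc0000007800000010 8 8) 0 0 (step_sound _ 37 [(rh33e738c4ed385b9f.shift 3 1), rh4b8d3c113cac4076] (by decide +kernel))
noncomputable def rh5f83072f3a3235e6 : CRef := CRef.mk (Pat.mk 0x10000000500000007000000000 0x1c0000001f00000038000000dc0000007800000010 8 8) 0 0 (step_sound _ 35 [(rh33e738c4ed385b9f.shift 3 1), rh4b8d3c113cac4076] (by decide +kernel))
noncomputable def rhdd67586c1db5e4fd : CRef := CRef.mk (Pat.mk 0x1c00000008000000080000000c00000000 0x1e3000000fe000001ef0000001f0000000f00000001 8 9) 0 0 (step_sound _ 133 [(rh352b7f91eba0c81f.shift 2 3), (rh3fc3a7fb6866dcd4.shift 2 3), rhcc315457aa11eb51] (by decide +kernel))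
noncomputable def rh23ef1103e2f1cbb8 : CRef := CRef.mk (Pat.mk 0x20000000a0000000a0000000200000000000000000000000000000000 0x20000001b0000000f0000000600000007000000070000000700000004 8 5) 0 0 (step_sound _ 97 [(rh8cdd36b03d57a2f6.shift 0 1), (rhd29a1fb688eae70f.shift 1 2), (rhd989e035f19a6306.shift 0 1), rhee3ad1a66c51093e] (by decide +kernel))
noncomputable def rh0e4b065ff1343ed7 : CRef := CRef.mk (Pat.mk 0x100000007c00000010000000200000000000000000 0x170000007f0000001c000000f00000003800000018 8 8) 0 0 (step_sound _ 99 [(rheb0810cc63b001d8.shift 2 3), rhecf163fb90743fed] (by decide +kernel))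
noncomputable def rhedd860f1c68fa72a : CRef := CRef.mk (Pat.mk 0x10000000100000005800000010000000000000000000000000 0x10000000120000007b0000003f0000000f0000000400000004 8 7) 0 0 (step_sound _ 99 [(rh932754581e0f4330.shift 3 2), rhba6620038af86015] (by decide +kernel))
noncomputable def rh6a3a033dbfcc0146 : CRef := CRef.mk (Pat.mk 0x1800000000000000400000006000000020 0x3ff000001fe000003c7000000400000006000000020 8 10) 0 0 (step_sound _ 134 [(rh0d1553da6ca96a4b.shift 0 3), (rhee230b994cc8b773.shift 5 0)] (by decide +kernel))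
noncomputable def rh0da0c3a9036404ec : CRef := CRef.mk (Pat.mk 0x100000001000000010000000500000000000000000 0x1000000010000000100000007f0000003e0000002f 8 7) 0 0 (step_sound _ 35 [rh44dad3b9f0ade61b, (rh79877ebd3ef475dd.shift 3 1)] (by decide +kernel))
noncomputable def rhe5154f101f0e52e6 : CRef := CRef.mk (Pat.mk 0xe00000009 0x1c7000000fe000001cf 8 9) 0 0 (step_sound _ 36 [rh14f0649c351b0eb7, rh80fcd6d0a18cb2dd] (by decide +kernel))
noncomputable def rh66b1bce6d5c872a4 : CRef := CRef.mk (Pat.mk 0x1e000000000000000000000000 0x50000000700000007000000070000001e000000070000000600000006 8 5) 0 0 (step_sound _ 65 [rh949aad91152c3c2c, (rheb0810cc63b001d8.shift 0 2)] (by decide +kernel))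
noncomputable def rh4ffe68a833cd64d8 : CRef := CRef.mk (Pat.mk 0x2c00000018000000180000000000000000 0x6c0000007f0000001b0000000f0000000e 8 7) 0 0 (step_sound _ 101 [rhc75a3564cdf11cdc, (rhf48373e13d2bc128.shift 2 3)] (by decide +kernel))
noncomputable def rh8f45f8b4f95424a8 : CRef := CRef.mk (Pat.mk 0x18000000300000002000000000 0x50000000d0000000f8000000ff0000002f00000008 8 8) 0 0 (step_sound _ 132 [(rh2145e1d24b96a57e.shift 4 1), rhc5ad862e5e765d7f] (by decide +kernel))
noncomputable def rh394dc79bf690ecc6 : CRef := CRef.mk (Pat.mk 0xe0000000100000020000000000000000000000000 0xf00000007e0000006300000020000000700000007000000050 8 8) 0 0 (step_sound _ 164 [(rh80fcd6d0a18cb2dd.shift 0 4), (rha3cd6e417638cbd6.shift 1 0)] (by decide +kernel))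
noncomputable def rheb30d58c87534c0f : CRef := CRef.mk (Pat.mk 0x4000000040000000e0000000000000020000000000000000000000000 0x4000000f60000007e0000006300000022000000720000007000000050 8 8) 0 0 (step_sound _ 164 [(rha3cd6e417638cbd6.shift 1 0), (rhd1474a84c69f0140.shift 0 2)] (by decide +kernel))
noncomputable def rh83a9df1805fd92e4 : CRef := CRef.mk (Pat.mk 0x20000000700000004000000100000000000000000000000000 0x7b7000003fe0000037c00000100000003800000038000000280 8 11) 0 0 (step_sound _ 167 [(rh606342497c588657.shift 0 4), (rha3cd6e417638cbd6.shift 4 0)] (by decide +kernel))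
noncomputable def rh3d5b9978396f3dee : CRef := CRef.mk (Pat.mk 0x20000000e0000000c00000020000000000000000000000000 0x130000007e0000006c00000020000000700000007000000050 8 7) 0 0 (step_sound _ 164 [(rh130899da3617ea38.shift 2 0), (rh3244c3cc8379b070.shift 0 5)] (by decide +kernel))
noncomputable def rhe9b8460dd5b589d9 : CRef := CRef.mk (Pat.mk 0x10000000e0000000000000020000000000000000000000000 0xf30000007e0000006000000020000000700000007000000050 8 8) 0 0 (step_sound _ 164 [(rh3f8766e6ecb455ce.shift 0 5), (rha3cd6e417638cbd6.shift 1 0)] (by decide +kernel))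
noncomputable def rh394b5e194a5b6455 : CRef := CRef.mk (Pat.mk 0x1e0000000000000020000000000000000000000000 0x170000003e0000006000000020000000700000007000000050 8 7) 0 0 (step_sound _ 193 [(rh3244c3cc8379b070.shift 0 5), (rhaf58610a239b8be6.shift 1 0)] (by decide +kernel))
noncomputable def rh866868afb1330d2e : CRef := CRef.mk (Pat.mk 0x120000001e0000000a0000000800000000 0x30000001700000017000000160000001e0000000e0000000e00000006 8 5) 0 0 (step_sound _ 164 [(rh5c5e593799055d58.shift 3 2), rhd22ee77b1538e581] (by decide +kernel))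
noncomputable def rh51518339b5082a11 : CRef := CRef.mk (Pat.mk 0xe0000000400000010000000000000000000000000 0x380000003e0000003700000010000000380000003800000028 8 6) 0 0 (step_sound _ 164 [(rh33d3f1ba39b8bd00.shift 1 0), (rhaf9f2efc81a8312b.shift 0 4), (rhb94ea3485c38af92.shift 1 0)] (by decide +kernel))
noncomputable def rh37ef05b9917c30fc : CRef := CRef.mk (Pat.mk 0x38000000200000000000000000 0xc0000000f0000003e0000003f0000000e0000000e 8 6) 0 0 (step_sound _ 98 [(rh775ca1963e850b80.shift 0 2), (rhc98c1f4f583d33e4.shift 1 0), (rhd1d05263fabc0227.shift 0 2), (rhdceeca65bdd8095a.shift 0 2)] (by decide +kernel))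
noncomputable def rh9ad9c62864141506 : CRef := CRef.mk (Pat.mk 0x1e00000002000000000000000000000000 0x50000000700000007000000070000001e00000006000000070000000700000005 8 5) 0 0 (step_sound _ 161 [(rh3244c3cc8379b070.shift 0 4), rh539d68e90cf61ab3] (by decide +kernel))
noncomputable def rh41226fbc0b57fb87 : CRef := CRef.mk (Pat.mk 0x3800000000000000000000000000000000 0xc0000000c0000007f0000003e0000000f0000000e0000000e0000000a 8 7) 0 0 (step_sound _ 130 [(rh4c622fddc53a5f99.shift 0 4), (rh61aef1e967b8dd77.shift 1 0), (rh775ca1963e850b80.shift 0 3), (rh9e97bba44c1b13e4.shift 0 3)] (by decide +kernel))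
noncomputable def rh39400817b198d246 : CRef := CRef.mk (Pat.mk 0x1e0000000800000008 0x5000000070000000700000006000000070000001e0000000f0000000c 8 5) 0 0 (step_sound _ 33 [rhc5692e990969062c, (rheb0810cc63b001d8.shift 0 1)] (by decide +kernel))
noncomputable def rh5ad14598e2c21a97 : CRef := CRef.mk (Pat.mk 0x4000000050000000400000004 0x7a0000007e000000ef0000000400000004 8 8) 0 0 (step_sound _ 99 [(rh2f68792b6b779e96.shift 2 0), rhdf369ac86cf17040] (by decide +kernel))
noncomputable def rh14a45999957af193 : CRef := CRef.mk (Pat.mk 0x1800000014000000100000001000000000 0x4000000040000003f0000003f000000330000001a00000008 8 6) 0 0 (step_sound _ 35 [(rh4b0c5992d5644f77.shift 0 1), (rh932754581e0f4330.shift 3 0)] (by decide +kernel))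
noncomputable def rhf4e9e26b335fe316 : CRef := CRef.mk (Pat.mk 0x200000002000000020000000200000000 0x40000000700000007000000030000000600000006000000070000000300000001 8 3) 0 0 (step_sound _ 32 [rh932754581e0f4330, (rhda3b772f537e2d17.shift 0 1)] (by decide +kernel))
noncomputable def rh2d09c3908e713579 : CRef := CRef.mk (Pat.mk 0x80000000a0000000800000004 0x40000001c0000001c000000180000000c0000001f0000001c00000004 8 5) 0 0 (step_sound _ 131 [(rh79877ebd3ef475dd.shift 2 0), (rhdbb967939a65c35f.shift 0 1)] (by decide +kernel))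
noncomputable def rh4e55bb8c152eaae3 : CRef := CRef.mk (Pat.mk 0x80000000a0000000800000008 0x40000001c0000001c0000001c0000000f0000003e0000001c00000008 8 6) 0 0 (step_sound _ 131 [(rh33d3936ab5c150af.shift 0 1), (rh3ca48e2a6d60153d.shift 2 0), (rhc85cc95794737cf7.shift 2 1), (rhe01cfd8f0577defd.shift 2 1)] (by decide +kernel))
noncomputable def rh40e4aa884e5244a8 : CRef := CRef.mk (Pat.mk 0xe0000000800000008 0x1000000010000001f7000000fe000001dc00000008 8 9) 0 0 (step_sound _ 68 [(rh14f0649c351b0eb7.shift 0 1), (rh94246470f0e6fdf7.shift 1 0)] (by decide +kernel))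
noncomputable def rh816f850d877ed8a2 : CRef := CRef.mk (Pat.mk 0x5000000040000000400000000 0xa0000007e0000003e00000077000000060000000600000002 8 7) 0 0 (step_sound _ 130 [(rh20966da26a1c2ae8.shift 1 0), (rh771d065bdc85bf2d.shift 1 0), (rha011e19fdaacded3.shift 0 1), (rhc85cc95794737cf7.shift 1 1)] (by decide +kernel))
noncomputable def rhe631069a9a4fde61 : CRef := CRef.mk (Pat.mk 0x10000000100000001000000014000000100000005000000000 0x10000000140000001c000001df000000fe000000f30000005200000040 8 9) 0 0 (step_sound _ 99 [(rh3553f66ad66bb717.shift 3 1), (rhaec18d18fc2d07c9.shift 1 2), (rhb6c27a98f4d72bd8.shift 1 0), (rhc8ae77ecad49585e.shift 0 1)] (by decide +kernel))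
noncomputable def rhafe6c2722a73a1a8 : CRef := CRef.mk (Pat.mk 0x1e000000080000000800000000 0xc0000000f0000003f0000001e0000003c0000000c00000004 8 6) 0 0 (step_sound _ 68 [rh1a495691ad1342a8, (rhe25b0a99195a5d59.shift 1 2)] (by decide +kernel))
noncomputable def rhaf065901c7eb6a1f : CRef := CRef.mk (Pat.mk 0xe0000000800000008000000000000000000000000 0x6000000060000000f0000003c0000000f000000060000000600000006 8 6) 0 0 (step_sound _ 132 [rh3375b4624a8ea661, (rhb739f4f82bb681b4.shift 0 4)] (by decide +kernel))
noncomputable def rhd206a33093af970d : CRef := CRef.mk (Pat.mk 0x1c000000100000001000000000 0x2800000038000000380000003c0000001f0000007c000000780000001e0000000c 8 7) 0 0 (step_sound _ 132 [(rh1726a00b0a8befd0.shift 3 0), (rh1dffa6d8a02b5f3a.shift 3 1), (rh2fd3c82e8124b6af.shift 3 0), (rh6d0251c83a5cc406.shift 3 1), rh6e4d1fadc2cc6305, (rh771d065bdc85bf2d.shift 3 0)] (by decide +kernel))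
noncomputable def rh56e3bea49a5ffec8 : CRef := CRef.mk (Pat.mk 0x70000000400000014000000000000000000000000 0x800000008000000780000003f0000003c00000014000000380000003800000028 8 7) 0 0 (step_sound _ 163 [rh257411a10614b6c1, (rh94246470f0e6fdf7.shift 0 3), rha3cd6e417638cbd6, (rhff137c455409f0e3.shift 0 2)] (by decide +kernel))
noncomputable def rhad276b0568385096 : CRef := CRef.mk (Pat.mk 0xc0000000a000000080000002800000000 0x130000001f000000fe000001fe0000002e00000024 8 9) 0 0 (step_sound _ 34 [rh575258433db03adf, (rh932754581e0f4330.shift 2 0)] (by decide +kernel))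
noncomputable def rhebccb200f5d35391 : CRef := CRef.mk (Pat.mk 0x100000001400000010000000180000000000000000 0x140000001e0000007c000000ff0000001f0000000200000002 8 8) 0 0 (step_sound _ 99 [rh36ff6538fbd78e14, (rh5c5e593799055d58.shift 3 2)] (by decide +kernel))
noncomputable def rhf2a0137daf1cf560 : CRef := CRef.mk (Pat.mk 0x3800000014000000100000001000000000 0x200000002000000070000007f0000007c000000760000001e0000000c 8 7) 0 0 (step_sound _ 99 [(rh18965a982d73c794.shift 2 3), rh490a9b9add858d8e] (by decide +kernel))
noncomputable def rha82e37c3ad84c7d5 : CRef := CRef.mk (Pat.mk 0x38000000340000001000000018000000000000000000000000 0x60000003e000000340000003e0000001e000000070000000200000002 8 6) 0 0 (step_sound _ 194 [rh7b1a472830052447, (rhb739f4f82bb681b4.shift 1 5)] (by decide +kernel))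
noncomputable def rh37699cec2f6e4fb4 : CRef := CRef.mk (Pat.mk 0x180000000e000000080000002400000000 0x100000003000001df000000fe000001ff0000002400000020 8 9) 0 0 (step_sound _ 100 [(rh14f0649c351b0eb7.shift 0 2), (rh47c07cd0cc865f65.shift 0 2), (rh86b0b8788beef0aa.shift 1 0), (rhae24df79ba37fbee.shift 0 1), (rhd571a921aeb5e3f2.shift 0 2)] (by decide +kernel))
noncomputable def rh473f36f42608bd8d : CRef := CRef.mk (Pat.mk 0x400000005000000040000001600000000 0x1e8000000fc000001ff000000ff0000001700000010 8 9) 0 0 (step_sound _ 131 [(rh2f68792b6b779e96.shift 2 1), rh3451010e1d5b1b23] (by decide +kernel))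
noncomputable def rhc0405dd9b5849e63 : CRef := CRef.mk (Pat.mk 0x1e0000001800000008000000000000000000000000 0x70000001e0000001b0000000f000000070000000700000005 8 5) 0 0 (step_sound _ 193 [(rh3244c3cc8379b070.shift 0 5), rh49641957cbb326ff] (by decide +kernel))
noncomputable def rh712b16cb3a117b98 : CRef := CRef.mk (Pat.mk 0xf0000000000000010000000000000000000000000 0x300000003f0000003800000010000000380000003800000028 8 6) 0 0 (step_sound _ 132 [(rh96851dee118c1ba3.shift 0 4), (rh9d4a6eefee7d94bf.shift 1 0)] (by decide +kernel))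
noncomputable def rh36ba6f6dab0e2c44 : CRef := CRef.mk (Pat.mk 0xd0000000400000014000000000000000000000000 0x800000008000000780000003f0000003c00000014000000380000003800000028 8 7) 0 0 (step_sound _ 161 [rh257411a10614b6c1, (rh94246470f0e6fdf7.shift 0 3), rha3cd6e417638cbd6, (rhff137c455409f0e3.shift 0 2)] (by decide +kernel))
noncomputable def rh46cc427960239c2b : CRef := CRef.mk (Pat.mk 0x10000000080000000e000000080000002000000000 0x1800000018000000e8000000fe000001ff0000002000000020 8 9) 0 0 (step_sound _ 100 [(rh0c73e62f4278d8c1.shift 0 2), (rh2000a7958c60d188.shift 1 2), rhf817b6b59bdf06de, (rhff137c455409f0e3.shift 1 0)] (by decide +kernel))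
noncomputable def rhf3db3ae927cdf624 : CRef := CRef.mk (Pat.mk 0x8000000080000000e000000080000002000000000 0x800000008000000ef000000fe000001f80000002000000020 8 9) 0 0 (step_sound _ 100 [(rh0c8e775413ad3410.shift 0 2), rh2a535ce68d5cfc5d, (rhba04d77b039f69d9.shift 1 2), (rhff137c455409f0e3.shift 1 0)] (by decide +kernel))
noncomputable def rhabb18f4d098cb3b5 : CRef := CRef.mk (Pat.mk 0x20000001e0000000800000000000000000000000000000000 0x60000001e0000003f00000003000000070000000700000005 8 6) 0 0 (step_sound _ 132 [rhc62042521d9abd61, (rhe25b0a99195a5d59.shift 1 4)] (by decide +kernel))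
noncomputable def rh0738ca1f9fb617ba : CRef := CRef.mk (Pat.mk 0x140000001c00000010000000000000000000000000 0x18000000180000001c0000003f0000001f0000000f0000000e00000006 8 6) 0 0 (step_sound _ 99 [rh13ef087501181018, (rh1e309b005ffa1b36.shift 3 1), (rhc8c2b2987ae7c66d.shift 0 1)] (by decide +kernel))
noncomputable def rh45beb8c392291d03 : CRef := CRef.mk (Pat.mk 0xa0000000a000000080000000000000000000000000 0x30000000b0000007ef000003fe000000ff000000780000005000000050 8 11) 0 0 (step_sound _ 134 [(rh3b45b37158409020.shift 0 1), (rh54b773a31d7f998b.shift 3 0), (rha11dfd15f08f96e3.shift 4 4), (rhacf582b6743d2a8e.shift 1 3)] (by decide +kernel))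
noncomputable def rh773834d8b3b46161 : CRef := CRef.mk (Pat.mk 0x1a0000000a0000002800000000 0x400000004000000ef000000fe000001fe0000002b00000023 8 9) 0 0 (step_sound _ 98 [(rh0c8e775413ad3410.shift 0 2), rh1d3acc7ad13ec9d0, rh2a535ce68d5cfc5d, (rhc3bb0f1b2af200a9.shift 0 1), (rhff137c455409f0e3.shift 1 0)] (by decide +kernel))
noncomputable def rh65dbbe7fe75d26f5 : CRef := CRef.mk (Pat.mk 0x1000000008000000080000001800000000000000000000000000000000 0x100000001800000018000000180000000c0000001f0000007c00000010 8 7) 0 0 (step_sound _ 99 [rh4d0f0fbc7bcac2aa, (rhbaefcd01e0a8bca3.shift 3 3)] (by decide +kernel))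
noncomputable def rhcd0eae8130874362 : CRef := CRef.mk (Pat.mk 0x10000000100000005000000000000000000000000000000000 0x200000003000000030000000770000003e0000003f0000003800000028 8 7) 0 0 (step_sound _ 100 [(rh49759b6975f15643.shift 3 0), (rh5133fbe07fd94255.shift 0 2), (rh6c59ce14113da07f.shift 4 1), (rh8cdd36b03d57a2f6.shift 3 1), (rhcab3157f7bdcba3e.shift 3 1)] (by decide +kernel))
noncomputable def rh5ed69d152ecadf7b : CRef := CRef.mk (Pat.mk 0xa0000000a0000000a000000000 0xa0000000a0000001bf000000fe0000004e 8 9) 0 0 (step_sound _ 38 [(rh5fc67bac28a8b5bb.shift 5 0), rhe961aabeabc170e3] (by decide +kernel))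
noncomputable def rh6b713d40729ed4a1 : CRef := CRef.mk (Pat.mk 0xa0000000200000022000000000000000000000000 0x500000007000000e70000007e0000007300000026000000270000000700000005 8 8) 0 0 (step_sound _ 65 [(rh54d83e3d8794d2de.shift 0 2), rh8cdd36b03d57a2f6, (rha087c6594f4bfb59.shift 0 1)] (by decide +kernel))
noncomputable def rha57fcef68bd1c875 : CRef := CRef.mk (Pat.mk 0x20000000a000000020000002200000000 0x4000000e60000007e000000730000002200000022 8 8) 0 0 (step_sound _ 130 [(rh2f68792b6b779e96.shift 1 1), rhc3f5459af1e11bcb] (by decide +kernel))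
noncomputable def rha76b1ceb08e774cc : CRef := CRef.mk (Pat.mk 0x1a0000000a0000002800000000 0x5000000070000000700000006000000e70000007e0000007e0000002c00000024 8 8) 0 0 (step_sound _ 98 [rh0ef07c103931a100, (rhc3bb0f1b2af200a9.shift 0 1), (rhc5692e990969062c.shift 0 1), (rhff137c455409f0e3.shift 1 0)] (by decide +kernel))
noncomputable def rh2e231bee8e9e924b : CRef := CRef.mk (Pat.mk 0xa0000000a00000002000000020000000000000000 0x500000007000000070000007a0000001f00000006000000070000000300000003 8 7) 0 0 (step_sound _ 32 [(rh79877ebd3ef475dd.shift 0 1), rh880da9da7c4375b5] (by decide +kernel))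
noncomputable def rh3b30dc9b9c168a0a : CRef := CRef.mk (Pat.mk 0x80000000e0000000800000028000000000000000000000000 0x140000001c0000001c0000001c0000000c000000ff000000fe000001f800000028000000700000007000000050 8 9) 0 0 (step_sound _ 164 [(rh0c8e775413ad3410.shift 0 4), (rh257411a10614b6c1.shift 1 0), (rh2a535ce68d5cfc5d.shift 0 2), (rh78ab6b15defe4c66.shift 2 3), (rhb18e6c78a554867d.shift 0 5)] (by decide +kernel))
noncomputable def rhcf23f699a2a8e27b : CRef := CRef.mk (Pat.mk 0x1a0000000200000020000000000000000000000000 0xf00000007e0000006300000020000000700000007000000050 8 8) 0 0 (step_sound _ 162 [(rha3cd6e417638cbd6.shift 1 0), (rheb0810cc63b001d8.shift 0 4)] (by decide +kernel))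
noncomputable def rhecbbba3143bd9724 : CRef := CRef.mk (Pat.mk 0x6000000060000000a0000000000000000 0x10000000140000003c000000fe0000007e000000eb0000000800000008 8 8) 0 0 (step_sound _ 162 [rh2d2b5ce08866f677, (rh5c5e593799055d58.shift 1 2)] (by decide +kernel))
noncomputable def rhb7d3d7fe4e916dab : CRef := CRef.mk (Pat.mk 0xe0000000a0000002800000000 0x5000000070000000700000006000000e70000007e0000007e0000002c00000024 8 8) 0 0 (step_sound _ 100 [rh0ef07c103931a100, (rhc3bb0f1b2af200a9.shift 0 1), (rhc5692e990969062c.shift 0 1), (rhff137c455409f0e3.shift 1 0)] (by decide +kernel))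
noncomputable def rh1ddf8c79eb23a15c : CRef := CRef.mk (Pat.mk 0x1000000050000000100000001000000000 0x2f0000003e00000077000000100000003000000020 8 7) 0 0 (step_sound _ 37 [(rh55afc6a59410cf00.shift 4 0), (rh565169fdbcfbf9eb.shift 0 1)] (by decide +kernel))
noncomputable def rh445054c807bfbe21 : CRef := CRef.mk (Pat.mk 0x50000000500000005000000000 0x28000000380000003f0000003e00000077000000dc0000007800000008 8 8) 0 0 (step_sound _ 132 [(rh1726a00b0a8befd0.shift 3 0), (rh2e88faa7cc86f648.shift 2 0), (rh565169fdbcfbf9eb.shift 0 1)] (by decide +kernel))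
noncomputable def rhb26bc7984a15bb84 : CRef := CRef.mk (Pat.mk 0x50000000500000005000000000 0x280000003f0000003e00000077000000dc0000007800000020 8 8) 0 0 (step_sound _ 132 [(rh1741680720c097b4.shift 3 1), (rh210928190827b327.shift 2 0), (rh48ee6959203e42da.shift 3 0), (rh565169fdbcfbf9eb.shift 0 1)] (by decide +kernel))
noncomputable def rha056b86642bda627 : CRef := CRef.mk (Pat.mk 0xf000000020000000a00000000 0x400000004000001fc000000ff000001ce0000000a00000008 8 9) 0 0 (step_sound _ 130 [(rh69755ef358ebfd54.shift 1 1), (rh6c12a951fc218f4a.shift 0 2), (rh95a80f84f48ac358.shift 2 0)] (by decide +kernel))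
noncomputable def rh8fa42b0c52f21b74 : CRef := CRef.mk (Pat.mk 0x100000005000000050000000000000000000000000 0x2800000038000000380000003800000010000000f70000007e000000370000002000000020 8 8) 0 0 (step_sound _ 101 [(rh14e0829dc73b6804.shift 3 2), (rh5ee59631b78366af.shift 0 2), (rh70e33bfdf511e144.shift 4 0), (rhdda18f14314c6e63.shift 0 2)] (by decide +kernel))
noncomputable def rh5626b7178a8a1ec3 : CRef := CRef.mk (Pat.mk 0x1c000000060000000800000008 0xe0000000f0000003b0000001f0000000e0000000800000008 8 6) 0 0 (step_sound _ 132 [(rh04253f50b6dd0619.shift 3 0), (rh20b43b266d7c2aff.shift 0 2)] (by decide +kernel))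
noncomputable def rhf927af2b331f35d4 : CRef := CRef.mk (Pat.mk 0x2000000020000000200000002 0x400000006000000070000000300000007000000070000000700000003 8 3) 0 0 (step_sound _ 128 [rh2dded4de7467a50a, rhffd04209dc8ea796] (by decide +kernel))
noncomputable def rh436abf0ab2ecb2c0 : CRef := CRef.mk (Pat.mk 0x18000000300000002000000000 0x50000000d0000000f8000000ff0000002f00000008 8 8) 0 0 (step_sound _ 132 [(rh2145e1d24b96a57e.shift 4 1), rh70c1215e274bcde9] (by decide +kernel))
noncomputable def rh44dfc43c7323aae7 : CRef := CRef.mk (Pat.mk 0xc000000180000005000000000 0x380000003a0000007b000000ff000000df0000005400000044 8 8) 0 0 (step_sound _ 100 [rh1d68c17f6f76e498, rh2f839bb7d4855196, (rh6876f05cc9661702.shift 2 1)] (by decide +kernel))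
noncomputable def rh11aaa9d8c6ca73d9 : CRef := CRef.mk (Pat.mk 0x3000000000000000300000006000000000 0x180000007c0000001f00000070000001fe00000018 8 9) 0 0 (step_sound _ 100 [(rh2145e1d24b96a57e.shift 4 1), rh8c91c389190d4d29] (by decide +kernel))
noncomputable def rhda1647748bdb35dc : CRef := CRef.mk (Pat.mk 0xc00000000000000040000000400000000 0x7a0000003e00000077000000040000000400000004 8 7) 0 0 (step_sound _ 98 [(rh2f68792b6b779e96.shift 2 1), rhb575a9824cd1368d] (by decide +kernel))
noncomputable def rhd858e031d98dbb8d : CRef := CRef.mk (Pat.mk 0xe0000001e000000100000000000000000 0x30000000b0000000b0000000e0000001e000000170000000600000006 8 5) 0 0 (step_sound _ 195 [(rh6f1cbe15c631ee70.shift 3 2), rh822be8c6befcb82b] (by decide +kernel))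
noncomputable def rh668abf9c207ad18d : CRef := CRef.mk (Pat.mk 0x8000000180000003800000020 0xf7000000ff0000001f0000003800000028 8 8) 0 0 (step_sound _ 100 [rh14467f8282d505bd, (rh2145e1d24b96a57e.shift 4 0)] (by decide +kernel))
noncomputable def rh7974377628e60511 : CRef := CRef.mk (Pat.mk 0x8000000180000000800000008 0x200000002000000170000003f0000001f0000000c00000008 8 6) 0 0 (step_sound _ 100 [(rh2f68792b6b779e96.shift 3 0), rh43b4f7d9d8c73dfd] (by decide +kernel))
noncomputable def rhdab512a3ecf33766 : CRef := CRef.mk (Pat.mk 0x300000004000000040 0x9000000090000001df000000fe000000ff00000048 8 9) 0 0 (step_sound _ 67 [(rh36eba2a3de447758.shift 0 1), (rh87a538dae2f64ca0.shift 2 0), (rh93c574659acb2483.shift 2 0), (rhf6218b33ee453c67.shift 2 1)] (by decide +kernel))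
noncomputable def rh7d0a6ab2bfc428a0 : CRef := CRef.mk (Pat.mk 0x80000000c000000180000005000000000 0x3400000034000000ff000000ff000000db0000005200000040 8 8) 0 0 (step_sound _ 97 [rh11e87f691963957b, (rhb739f4f82bb681b4.shift 0 2)] (by decide +kernel))
noncomputable def rh392dd09d16f52bcd : CRef := CRef.mk (Pat.mk 0x100000001e000000180000000000000000 0x34000000340000001f0000001e0000001f0000000200000002 8 6) 0 0 (step_sound _ 65 [rh89996d87f6b89247, (rheb0810cc63b001d8.shift 0 2)] (by decide +kernel))
noncomputable def rh2e78ca0b9e99b3d5 : CRef := CRef.mk (Pat.mk 0x1e0000000400000000000000000000000000000000 0x700000007000000070000001e0000000700000003000000070000000700000005 8 5) 0 0 (step_sound _ 129 [rh4248338305cb82eb, (rheb0810cc63b001d8.shift 0 4)] (by decide +kernel))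
noncomputable def rh51aa54222237ba43 : CRef := CRef.mk (Pat.mk 0x1e0000001800000000000000000000000000000000 0x40000003e0000001f00000003000000070000000700000005 8 6) 0 0 (step_sound _ 129 [rh15b34523ff6a72f8, (rheb0810cc63b001d8.shift 0 4)] (by decide +kernel))
noncomputable def rh347f6dfa4995bd80 : CRef := CRef.mk (Pat.mk 0x1e0000001a000000000000000000000000 0x50000000700000007000000030000001e0000001e000000070000000700000005 8 5) 0 0 (step_sound _ 161 [(rh3244c3cc8379b070.shift 0 4), rh43c679e92ed48ac8] (by decide +kernel))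
noncomputable def rh7ae97c82d3a7ef21 : CRef := CRef.mk (Pat.mk 0x5000000000000000180000001800000000 0x3ff000001fe0000038f000000180000001800000008 8 10) 0 0 (step_sound _ 131 [(rh0d1553da6ca96a4b.shift 0 3), (rh0e2ebd05cc0aa605.shift 2 0), (rhad5ee2db9c11a5ec.shift 2 0), (rhd727bb41309b6841.shift 3 1)] (by decide +kernel))
noncomputable def rhc0788540949c7bb7 : CRef := CRef.mk (Pat.mk 0x30000000000000001800000018 0x1ff000000fe000001cf0000001800000018 8 9) 0 0 (step_sound _ 99 [rh099d444677688b93, (rh22d326bdf3fdc35e.shift 0 2), (rh697cff6cd907d6da.shift 1 2), (rhd727bb41309b6841.shift 3 0), (rhf836ef2ed0ead080.shift 0 2)] (by decide +kernel))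
noncomputable def rhb2aefed8eb377177 : CRef := CRef.mk (Pat.mk 0x30000000000000003000000034 0x1df000000fe000001de0000003400000034 8 9) 0 0 (step_sound _ 68 [(rh2145e1d24b96a57e.shift 4 0), rh5e75fb029809b1ac] (by decide +kernel))
noncomputable def rh9f0edb29735b7363 : CRef := CRef.mk (Pat.mk 0x30000000000000001000000014 0x1ef000000fe000001de0000001400000014 8 9) 0 0 (step_sound _ 68 [(rh2f68792b6b779e96.shift 4 0), rh5e75fb029809b1ac] (by decide +kernel))
noncomputable def rhc04b8302e602282f : CRef := CRef.mk (Pat.mk 0xa000000130000000600000010000000000000000000000000 0x200000003e000000330000001e00000010000000380000003800000028 8 6) 0 0 (step_sound _ 132 [(rh2fe78cc5ca4405d8.shift 0 4), rhcbd1b5215bf1b870] (by decide +kernel))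
noncomputable def rh15ab955c98bbdd8c : CRef := CRef.mk (Pat.mk 0x1000000018000000280000000000000000 0x140000001c0000001c0000000f0000007c000000180000007c0000000f0000000c 8 7) 0 0 (step_sound _ 35 [rh57e9280fc8464d3c, (rh71222050f2c63a3a.shift 3 0)] (by decide +kernel))
noncomputable def rh86c13d386e83e68b : CRef := CRef.mk (Pat.mk 0x100000001000000018 0x280000003f0000007e0000007e0000001800000018 8 7) 0 0 (step_sound _ 100 [(rh1741680720c097b4.shift 3 0), rh79965f1c9ad9336a, (rh9a369cb82ea472da.shift 3 0), (rhe62cab2ff5ad6fe2.shift 3 0)] (by decide +kernel))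
noncomputable def rh3a363c183e8c9a5a : CRef := CRef.mk (Pat.mk 0xe000000080000000800000000 0x4000000040000000f0000003e0000007f0000000b00000003 8 7) 0 0 (step_sound _ 100 [(rh3947d1dfff0afc6c.shift 0 2), (rh42d32bf970c9c157.shift 0 2), (rh47c07cd0cc865f65.shift 0 2), rhe606281d1dd3918a] (by decide +kernel))
noncomputable def rhb8a92a1e93f112f4 : CRef := CRef.mk (Pat.mk 0x3000000000000000380000000000000000 0x140000001c000001ff000000fe000001cf000000380000001f00000004 8 9) 0 0 (step_sound _ 131 [(rh0e2ea7bdec6e4998.shift 0 3), (rh201974044d7d82f8.shift 2 1), (rh24374e67fef9a685.shift 2 1), rh2af8dabd69baa977, (rhb5bfe58352afe42b.shift 0 1), (rhe8acf97c41299ae7.shift 0 1)] (by decide +kernel))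
noncomputable def rhd489f5ee3fe2e79a : CRef := CRef.mk (Pat.mk 0x70000000000000006000000000 0xcf0000007e000000ce0000006000000020 8 8) 0 0 (step_sound _ 99 [rh086be0b50f52c83d, (rh592c7139d2c44767.shift 1 2), (rh7eaf814fd0a6a93e.shift 3 0)] (by decide +kernel))
noncomputable def rh2684cab9281b3e6a : CRef := CRef.mk (Pat.mk 0x100000003c00000000 0x60000000e0000000f0000001e0000007c0000000e 8 7) 0 0 (step_sound _ 66 [(rh3244c3cc8379b070.shift 1 1), rhbe7b39cdc8b0e114] (by decide +kernel))
noncomputable def rhf4af149282bff475 : CRef := CRef.mk (Pat.mk 0xc000000180000001000000000 0x300000003c000000ff000000ff0000001f0000001300000002 8 8) 0 0 (step_sound _ 131 [(rh2145e1d24b96a57e.shift 3 1), rhefff89cc57c18275] (by decide +kernel))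
noncomputable def rh8570b2ca089e7980 : CRef := CRef.mk (Pat.mk 0x1800000038000000200000000000000000 0x3c0000003f0000003800000038000000380000001800000010 8 6) 0 0 (step_sound _ 164 [(rh2145e1d24b96a57e.shift 4 2), rhed30f7be3e6fadeb] (by decide +kernel))
noncomputable def rh5e8244a6088f18ed : CRef := CRef.mk (Pat.mk 0x80000007800000020000000000000000000000000 0x180000001800000018000000780000003c0000001f0000001c0000001c 8 7) 0 0 (step_sound _ 99 [rhe54392b04addbc3b, (rheb0810cc63b001d8.shift 2 3)] (by decide +kernel))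
noncomputable def rh179f9bd917010755 : CRef := CRef.mk (Pat.mk 0x80000003a000000320000000000000000 0x500000017000000170000001f0000003b0000003b0000001b00000019 8 6) 0 0 (step_sound _ 36 [rh5d1061c7fc39a560, (rh7b1f1fb55310c477.shift 3 0)] (by decide +kernel))
noncomputable def rh9eae011e45f7aefe : CRef := CRef.mk (Pat.mk 0x1800000078000000200000000000000000 0x3c0000003f00000038000000780000003c0000001000000010 8 7) 0 0 (step_sound _ 164 [rh0abe565c5c618a9f, (rh2145e1d24b96a57e.shift 4 2)] (by decide +kernel))
noncomputable def rh8895ad51455b84b3 : CRef := CRef.mk (Pat.mk 0x1000000070000001400000000000000000 0x28000000380000023800000238000007b7000003fe0000017c0000010000000100 8 11) 0 0 (step_sound _ 103 [(rh11606b78da0fc79b.shift 0 2), (rh1b1d9d37dc492e4a.shift 4 2), (rh790acd67f4fffd04.shift 4 3), (rhc95ed67c46d1fb6c.shift 3 2), (rhececc2ee7da1d4c6.shift 4 0)] (by decide +kernel))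
noncomputable def rh8d3110c424aed2bd : CRef := CRef.mk (Pat.mk 0x1000000070000000400000000000000000 0x80000003f0000007e0000007e0000001c0000001c 8 7) 0 0 (step_sound _ 99 [(rh0de499e0455c9c14.shift 1 2), (rh476af4e76dfe292e.shift 0 2), (rhab6f55bc99585f19.shift 0 2), (rhba8cb7e2a8842091.shift 2 0)] (by decide +kernel))
noncomputable def rhaf49ec60455eae35 : CRef := CRef.mk (Pat.mk 0xc000000180000000800000000 0x100000007c0000007f0000007c0000001c0000001c0000001800000010 8 7) 0 0 (step_sound _ 131 [(rh1d5410a14414e7d3.shift 0 1), (rh796a9789bfc927af.shift 2 0), (rhc85cc95794737cf7.shift 2 1), (rhd4b4beefcd67f51e.shift 3 0)] (by decide +kernel))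
noncomputable def rhe823ea448f375f5e : CRef := CRef.mk (Pat.mk 0x1000000010000000300000005000000000000000000000000000000000 0x100000001000000030000000770000003e0000003f0000003800000020 8 7) 0 0 (step_sound _ 100 [(rh165a86214c6ca369.shift 0 2), (rh8a1bd34420cccc7f.shift 3 0), (rh8cdd36b03d57a2f6.shift 3 1), (rh96f119fce01cb5f6.shift 3 1), (rhd29a1fb688eae70f.shift 4 2)] (by decide +kernel))
noncomputable def rhc8ed0cd2fc307f2a : CRef := CRef.mk (Pat.mk 0x1000000110000001700000014000000000000000000000000 0x80000003e0000003b000000330000003700000015000000380000003800000028 8 6) 0 0 (step_sound _ 68 [(rh6c59ce14113da07f.shift 4 0), (rh8cdd36b03d57a2f6.shift 3 0), (rhcab3157f7bdcba3e.shift 3 0), (rhd81d6c23917c75fe.shift 0 2)] (by decide +kernel))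
noncomputable def rh933090e6461351af : CRef := CRef.mk (Pat.mk 0x200000022000000060000002200000000 0x3d0000003f00000076000000260000002600000004 8 7) 0 0 (step_sound _ 130 [(rh2f68792b6b779e96.shift 1 1), rhbac16b6dad4cbcf5] (by decide +kernel))
noncomputable def rh09291b12208037b0 : CRef := CRef.mk (Pat.mk 0x1000000070000000400000000000000000 0x10000000180000001f0000007e0000007f0000003c0000003c 8 7) 0 0 (step_sound _ 99 [(rh0de499e0455c9c14.shift 1 2), (rh31edea79c38d604a.shift 2 0), (rh36eba2a3de447758.shift 0 2), (rhba8cb7e2a8842091.shift 2 0), (rhcfde16a7ff36af03.shift 2 0)] (by decide +kernel))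
noncomputable def rh32993b5462c825ca : CRef := CRef.mk (Pat.mk 0xc0000003800000020000000000000000000000000 0x140000001c0000001c0000001c0000000f000000380000003e0000001f0000001c0000001c 8 6) 0 0 (step_sound _ 161 [rh6660819361b8cbea, (rhb739f4f82bb681b4.shift 0 4)] (by decide +kernel))
noncomputable def rhfc1f38e77c497e2e : CRef := CRef.mk (Pat.mk 0x8000000380000002800000000 0x140000001c0000001c0000001f0000007c00000018000000380000003e00000014 8 7) 0 0 (step_sound _ 131 [(rhbfd19230331e0b2a.shift 0 1), (rhc85cc95794737cf7.shift 2 1), (rhf3afdd1b4b9b596e.shift 3 1), (rhfb9fb48a5e63ed80.shift 2 1), (rhfbf2eae4035425b6.shift 1 0)] (by decide +kernel))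
noncomputable def rh3c37fa2aa19fc550 : CRef := CRef.mk (Pat.mk 0x80000003800000028000000000000000000000000 0x140000001c0000001c0000001f0000007c0000001800000038000000280000001c0000001c00000014 8 7) 0 0 (step_sound _ 195 [(rh49759b6975f15643.shift 2 0), (rh7534b993f7f2407f.shift 2 0), (rh8c1d47d14292b804.shift 2 1), (rhbfd19230331e0b2a.shift 0 3), (rhc85cc95794737cf7.shift 2 3)] (by decide +kernel))
noncomputable def rh909031182cd44872 : CRef := CRef.mk (Pat.mk 0x8000000380000002800000000 0x140000001c0000001c0000001f0000007c000000180000003c0000002f00000004 8 7) 0 0 (step_sound _ 131 [rh322e79f034282812, (rhbfd19230331e0b2a.shift 0 1)] (by decide +kernel))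
noncomputable def rhf471b4a136020f9b : CRef := CRef.mk (Pat.mk 0x180000000e000000180000000000000000 0x500000017000000370000001f000000fe0000001f0000000600000006 8 8) 0 0 (step_sound _ 100 [rh1773693aa87f208b, (rh44dd78dd79fc4e0b.shift 0 1), (rh98bfe017ab5fead7.shift 0 2), rhafa5a7051d37b143, (rhc6956c01bebae6c8.shift 0 2)] (by decide +kernel))
noncomputable def rh354a387836d831b8 : CRef := CRef.mk (Pat.mk 0x1c000000300000002000000000 0xc0000001c0000001c0000001c0000007c0000002f0000000c 8 7) 0 0 (step_sound _ 67 [rhc227a3a65e78cda7, (rhf48373e13d2bc128.shift 2 2)] (by decide +kernel))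
noncomputable def rh9a4b8b182c28c4b6 : CRef := CRef.mk (Pat.mk 0x1800000030000000200000000000000000 0x7c0000007c000000fc000000f80000007f0000002f0000000c00000004 8 8) 0 0 (step_sound _ 99 [(rh1431e9557db421e0.shift 2 1), rh8fe7b1f9655e5dfd, (rhf4c6ac7062ef7056.shift 2 2)] (by decide +kernel))
noncomputable def rh6f3ce31807fd067a : CRef := CRef.mk (Pat.mk 0xc0000001800000000 0x400000004000000370000003f0000003b00000002 8 6) 0 0 (step_sound _ 65 [(rhb739f4f82bb681b4.shift 0 1), rhd8692b3b1222004d] (by decide +kernel))
noncomputable def rh7b4f405d3949d94c : CRef := CRef.mk (Pat.mk 0x100000003800000020000000000000000000000000 0x140000003c0000007c000001ef0000007e000000780000003f0000001c0000001800000018 8 9) 0 0 (step_sound _ 163 [(rh645d098bb1fb7a2a.shift 0 1), (rh801704ac2108f0da.shift 1 0), (rhe2b63c00a3d7bb73.shift 1 4)] (by decide +kernel))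
noncomputable def rh2d6cd15875c439c6 : CRef := CRef.mk (Pat.mk 0x3800000020000000000000000000000000 0xc0000000c0000000f0000003e0000003f0000000e0000000e0000000a 8 6) 0 0 (step_sound _ 130 [(rh0de499e0455c9c14.shift 0 3), (rh61aef1e967b8dd77.shift 1 0), (rhd1d05263fabc0227.shift 0 3)] (by decide +kernel))
noncomputable def rh322433eebc9e4e19 : CRef := CRef.mk (Pat.mk 0x100000007000000140000000000000000000000000 0x20000000200000007b7000003fe0000017c0000013e0000013800000038 8 11) 0 0 (step_sound _ 135 [(rh11606b78da0fc79b.shift 0 3), (rh790acd67f4fffd04.shift 4 4), (rh9f254fcbdfeefb81.shift 1 0), (rhececc2ee7da1d4c6.shift 4 1)] (by decide +kernel))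
noncomputable def rh5eace4025614a95f : CRef := CRef.mk (Pat.mk 0x600000014000000100000000000000000 0x4000000040000000e0000003f0000001b0000000f0000000f 8 6) 0 0 (step_sound _ 99 [rh2708953ad7f3ec2f, (rhf48373e13d2bc128.shift 1 3)] (by decide +kernel))
noncomputable def rh1f42274b5947a674 : CRef := CRef.mk (Pat.mk 0x400000004000000140000001400000000 0x1c0000003c0000000f0000001f0000001c0000000c 8 6) 0 0 (step_sound _ 35 [(rh55afc6a59410cf00.shift 2 0), rh97fd6cb0f7facd4b] (by decide +kernel))
noncomputable def rhda361581fd12353e : CRef := CRef.mk (Pat.mk 0x1000000010000000100000001000000000 0x2f0000007e0000003f000000180000001800000008 8 7) 0 0 (step_sound _ 131 [(rh50fbb5868c909700.shift 3 1), rh664b5337f2a646aa] (by decide +kernel))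
noncomputable def rh4b9f4b08d218d72f : CRef := CRef.mk (Pat.mk 0x100000001000000050000000000000000000000000 0x80000001800000018000000770000003e0000003f00000028 8 7) 0 0 (step_sound _ 68 [(rh8ff3dde5b1c639e0.shift 3 0), (rhc4526fc8abf298b6.shift 3 0), (rhd92f1551f0fdfa3f.shift 0 1)] (by decide +kernel))
noncomputable def rh0527d1845a70a1e7 : CRef := CRef.mk (Pat.mk 0x10000000100000005000000000000000000000000000000000 0x1800000018000000380000003000000030000000770000003e0000003f0000003800000028 8 7) 0 0 (step_sound _ 100 [(rh15f443a9a462a99b.shift 2 2), (rh165a86214c6ca369.shift 0 2), (rh49759b6975f15643.shift 3 0), (rh8cdd36b03d57a2f6.shift 3 1), (rhcab3157f7bdcba3e.shift 3 1), (rhd5f6183f8813d5c9.shift 3 2)] (by decide +kernel))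
noncomputable def rh69eb17a882fdcb14 : CRef := CRef.mk (Pat.mk 0x10000000500000005000000000 0x28000000380000003800000010000000ff0000007e00000027 8 8) 0 0 (step_sound _ 132 [(rh210928190827b327.shift 2 0), rhb7df8ae3bf861082, (rhc85cc95794737cf7.shift 3 1)] (by decide +kernel))
noncomputable def rh974f4e57f0f80455 : CRef := CRef.mk (Pat.mk 0x100000005000000050000000000000000000000000 0x2000000030000000f80000007f0000003e0000003f00000028 8 8) 0 0 (step_sound _ 68 [(rh00c809e161b34002.shift 1 1), (rh165a86214c6ca369.shift 0 1), (rh8cdd36b03d57a2f6.shift 3 0)] (by decide +kernel))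
noncomputable def rh9a45fdf01c5c42e4 : CRef := CRef.mk (Pat.mk 0x40000001c0000001800000000 0xa0000000e0000000e000000040000003f0000001f00000002 8 6) 0 0 (step_sound _ 65 [rh73b053102c085a2b, (rhb739f4f82bb681b4.shift 0 1)] (by decide +kernel))
noncomputable def rh5e8ced243ac9081d : CRef := CRef.mk (Pat.mk 0x200000002000000020000000000000000000000000000000000000000 0x1000000030000000300000003000000030000000700000007000000070000000700000001 8 3) 0 0 (step_sound _ 129 [rh605ebd1d430ac774, (rh771d065bdc85bf2d.shift 0 3), (rh8ff3dde5b1c639e0.shift 0 2)] (by decide +kernel))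
noncomputable def rh8ac1f82ba1832396 : CRef := CRef.mk (Pat.mk 0x4000000040000001400000010 0x80000000e0000000e0000002e0000003c0000003e0000003e0000003700000012 8 6) 0 0 (step_sound _ 130 [(rh1726a00b0a8befd0.shift 1 0), rh2afa1d0fbf3c7ea2, (rh8529fe9f47ce3d5b.shift 1 1), (rhb7ee8905496f843d.shift 1 0), (rhfe0d5bcb446c4590.shift 1 0)] (by decide +kernel))
noncomputable def rh6f98d11fdf64c635 : CRef := CRef.mk (Pat.mk 0x200000002000000020000000200000000000000000000000000000000 0x40000000700000007000000030000000200000002000000070000000700000005 8 3) 0 0 (step_sound _ 226 [(rh2f68792b6b779e96.shift 1 4), rh610000747ee1c669] (by decide +kernel))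
noncomputable def rh591759c9b8953fa7 : CRef := CRef.mk (Pat.mk 0x800000008000000280000002000000000 0x180000001f000000ff000001ee0000003c0000001c 8 9) 0 0 (step_sound _ 35 [(rh65a643973921d367.shift 2 0), (rh8335cee50bf8d60c.shift 1 0), rhf5924acdbae8c415] (by decide +kernel))
noncomputable def rh80f64ce87fab52ae : CRef := CRef.mk (Pat.mk 0x1800000008000000080000002800000028 0x8000000480000007c0000006f0000007c0000006c00000028 8 7) 0 0 (step_sound _ 98 [rh3f4b6143bffe42f2, (rh50fbb5868c909700.shift 2 0)] (by decide +kernel))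
noncomputable def rh712fbcd1f72b0c82 : CRef := CRef.mk (Pat.mk 0x2000000020000000a00000008000000000000000000000000 0x4000000060000003f0000003a0000000f000000070000000700000005 8 6) 0 0 (step_sound _ 97 [rh49759b6975f15643, (rh6c59ce14113da07f.shift 1 1), (rhc72e96788d84d26a.shift 0 2), (rhe8768a83bdb59c61.shift 0 2)] (by decide +kernel))
noncomputable def rh15026cad7476510a : CRef := CRef.mk (Pat.mk 0x400000004000000040000001400000010 0x7a0000003f0000003c000000140000001600000012 8 7) 0 0 (step_sound _ 131 [(rh2f68792b6b779e96.shift 2 1), rhd2d8243099941405] (by decide +kernel))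
noncomputable def rh5f5158835e4197ab : CRef := CRef.mk (Pat.mk 0x70000000300000000000000010 0x18f000001fe000000770000001000000010 8 9) 0 0 (step_sound _ 103 [rh08df39bbe0538737, (rh18965a982d73c794.shift 4 2)] (by decide +kernel))
noncomputable def rh558c4cf43e0a5015 : CRef := CRef.mk (Pat.mk 0x4000000020000000200000002000000020000000a0000002000000000 0x4000000060000000200000002000000e60000007f0000007b0000002000000020 8 8) 0 0 (step_sound _ 98 [rh449c60416d0f2b7a, (rh47ab86d89ce68610.shift 1 3)] (by decide +kernel))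
noncomputable def rhecade70a1460bc24 : CRef := CRef.mk (Pat.mk 0x10000000100000003800000018000000000000000000000000 0x8000000180000003f0000003f0000001e000000060000000600000006 8 6) 0 0 (step_sound _ 98 [(rh53b3c253cb0c65f4.shift 1 3), rhc290ede2c9503189] (by decide +kernel))
noncomputable def rh4ab5a43568bfd7da : CRef := CRef.mk (Pat.mk 0x3000000020000000300000003000000000 0xf0000003e00000077000000770000003e0000000f 8 7) 0 0 (step_sound _ 35 [rhb12ffaec36122c99, rhb6cb688e1e09da79] (by decide +kernel))
noncomputable def rhf06770119560d50d : CRef := CRef.mk (Pat.mk 0x20000000200000003000000030000000000000000000000000 0x1f0000003e0000007f0000003e0000003e0000000e0000000c00000004 8 7) 0 0 (step_sound _ 131 [(rh34517e326ddb5b25.shift 1 3), (rh3fb59ec2dd6e2e4f.shift 0 3), (rhb1f6541fba5daf75.shift 1 0)] (by decide +kernel))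
noncomputable def rhbee1115a2a7909d2 : CRef := CRef.mk (Pat.mk 0x1800000010000000180000005800000000 0x70000001f0000001e000000fc000000de00000004 8 8) 0 0 (step_sound _ 69 [rh09cd2fa25ab4ab59, (rh474e234485f2465c.shift 2 1), (rhbca71ab025ef4262.shift 3 1)] (by decide +kernel))
noncomputable def rha50fe5a30aaaf252 : CRef := CRef.mk (Pat.mk 0x18000000100000003800000018000000000000000000000000 0x40000001e000000770000003f0000001f000000070000000600000002 8 7) 0 0 (step_sound _ 130 [(rh1c6f081f11d77085.shift 1 3), (rh34517e326ddb5b25.shift 0 3), (rh55c4ed4acec0f063.shift 0 3), rhb1f6541fba5daf75] (by decide +kernel))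
noncomputable def rh67e3c3b088b822c2 : CRef := CRef.mk (Pat.mk 0x1000000018000000580000000000000000 0x600000006000000ff000000ff000000df0000000400000004 8 8) 0 0 (step_sound _ 101 [(rh02575fc56458b534.shift 0 2), rh53ab9c44e5523f4f, (rhbca71ab025ef4262.shift 3 2)] (by decide +kernel))
noncomputable def rheeb1038eb8dbc387 : CRef := CRef.mk (Pat.mk 0x4000000080000000e00000020000000200000000000000000 0x4000000044000000ff0000007e00000063000000270000000700000005 8 8) 0 0 (step_sound _ 132 [(rh00b22401a0bf2d5e.shift 1 3), (rh20aaab6250709fa0.shift 1 3), rh2ec804fbe0df033a, (rhc1c8ef3b77490bf7.shift 2 2), (rhe9e45df45a37d678.shift 0 3)] (by decide +kernel))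
noncomputable def rhec299a55e8ce0ab8 : CRef := CRef.mk (Pat.mk 0x200000003800000000000000000000000000000000 0xc0000000c0000003f0000003e0000000f0000000e0000000e0000000a 8 6) 0 0 (step_sound _ 130 [(rh21d582c147e7e118.shift 0 3), (rh61aef1e967b8dd77.shift 1 0), (rh7fb660bc21ce4329.shift 0 4)] (by decide +kernel))
noncomputable def rhbc185c60b0dca6ab : CRef := CRef.mk (Pat.mk 0x180000001e00000000 0x50000000700000007000000030000001f0000001e00000007 8 5) 0 0 (step_sound _ 65 [(rh3244c3cc8379b070.shift 0 1), rh908ce0d6a2da594d] (by decide +kernel))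
noncomputable def rh60bb53f896360232 : CRef := CRef.mk (Pat.mk 0x8000000080000002800000020 0x140000001c0000001c0000001c0000001f000000fc0000002c0000002c00000028 8 8) 0 0 (step_sound _ 131 [(rh1741680720c097b4.shift 2 1), (rh187733abe5006915.shift 2 0), (rh57eb4a4f7b6bad04.shift 2 0), rh581dd12d323cf751] (by decide +kernel))
noncomputable def rh399f60bc6312554f : CRef := CRef.mk (Pat.mk 0x1000000010000000100000001000000000 0x2f0000003e0000007f0000001c0000001800000008 8 7) 0 0 (step_sound _ 133 [(rh2f68792b6b779e96.shift 4 1), rh5e3032c9de3478a4] (by decide +kernel))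
noncomputable def rh779ca6c5eda4a6ff : CRef := CRef.mk (Pat.mk 0xc00000008000000080000002800000020 0x130000003f000000ff0000002c0000002c00000024 8 8) 0 0 (step_sound _ 132 [(rh2f68792b6b779e96.shift 3 1), rh4d377ad1bcf5ba9b] (by decide +kernel))
noncomputable def rhd29dd2709753ee1f : CRef := CRef.mk (Pat.mk 0x20000000a0000000a0000000800000000 0x100000001c0000001c000000fe0000007e000000fe0000007b0000000c00000004 8 8) 0 0 (step_sound _ 131 [rh2f17d0bd74f94d49, (rh8e77ed8198b1a0fa.shift 2 1), (rha011e19fdaacded3.shift 1 1), (rhafab112a4c4dda0f.shift 1 1)] (by decide +kernel))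
noncomputable def rh9d0593bf2488d441 : CRef := CRef.mk (Pat.mk 0x800000028000000280000002000000000 0x400000007000000070000003f7000001fe000003f8000001ec0000003000000010 8 10) 0 0 (step_sound _ 133 [(rh2f17d0bd74f94d49.shift 2 0), (rh31f96e4badbdfa7c.shift 0 1), (rh65ea2becd35674d0.shift 2 1), (rh8e77ed8198b1a0fa.shift 4 1), (rha011e19fdaacded3.shift 3 1), (rhc85cc95794737cf7.shift 4 1)] (by decide +kernel))
noncomputable def rhb7d8c50f7d3d9c23 : CRef := CRef.mk (Pat.mk 0x20000000a0000000a00000008 0x100000001c0000001c0000001e0000001f0000003b0000001a00000008 8 6) 0 0 (step_sound _ 99 [(rh8e77ed8198b1a0fa.shift 2 0), (rhafab112a4c4dda0f.shift 1 0), rhf7f93c5bcb3c6a1c] (by decide +kernel))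
noncomputable def rhe4491ce1f3cd9c14 : CRef := CRef.mk (Pat.mk 0x8000000280000002000000020 0x400000007000000070000000770000007e000000ef0000006000000020 8 8) 0 0 (step_sound _ 101 [rh47cc8c896ef8b20e, (rh7182140bdec2c358.shift 2 0), (rh8e77ed8198b1a0fa.shift 4 0), (rhf7f93c5bcb3c6a1c.shift 2 0)] (by decide +kernel))
noncomputable def rh16d1ebaf76a73864 : CRef := CRef.mk (Pat.mk 0x1c00000000000000080000000c00000000 0xe30000007e000000e70000001f0000000f00000001 8 8) 0 0 (step_sound _ 133 [(rha93a5dd541ab8209.shift 2 3), rhcc315457aa11eb51] (by decide +kernel))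
noncomputable def rhbbc3e8b6b90029f1 : CRef := CRef.mk (Pat.mk 0x100000001000000018000000480000004000000000 0x8000000080000000c0000003e000000f8000001fe000000df0000007400000010 8 9) 0 0 (step_sound _ 133 [(rh0bb882ba86b2372d.shift 1 3), (rh574fdbf07bdd18b9.shift 1 3), rh5bdb82c5aff3e1e9, (rhf44f800d734a38f4.shift 2 1)] (by decide +kernel))
noncomputable def rh4f9a4fe1de940a49 : CRef := CRef.mk (Pat.mk 0x1000000018000000480000004800000000 0x1000000090000000f000000078000000cf0000007800000020 8 8) 0 0 (step_sound _ 164 [(rh5c5e593799055d58.shift 3 2), rhc0aa9d6f922fdfb9] (by decide +kernel))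
noncomputable def rh860933cd98ede05f : CRef := CRef.mk (Pat.mk 0x1000000010000000380000000800000000 0xc0000000c000000ff000000ff0000003c0000001f00000014 8 8) 0 0 (step_sound _ 34 [(rh1ed7a3503fa50fc8.shift 0 1), rha4a49a5b3e61c223, (rheea1a90336e79c71.shift 0 1)] (by decide +kernel))
noncomputable def rh59645b74a41ef591 : CRef := CRef.mk (Pat.mk 0x1800000018000000180000000800000000 0x40000003f0000001f0000001b0000000f00000006 8 6) 0 0 (step_sound _ 130 [(rh50fbb5868c909700.shift 2 1), rhb82863bbe502095d] (by decide +kernel))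
noncomputable def rhf68e5e357595b6d2 : CRef := CRef.mk (Pat.mk 0x800000018000000180000000800000000 0x40000000f0000003f0000001b0000000f00000006 8 6) 0 0 (step_sound _ 130 [(rh50fbb5868c909700.shift 2 1), rhc3af0662083a35cb] (by decide +kernel))
noncomputable def rha1a13764281c12ff : CRef := CRef.mk (Pat.mk 0x180000001e0000000000000000000000000000000000000000 0x500000007000000070000001f0000001e0000000300000007000000070000000700000005 8 5) 0 0 (step_sound _ 193 [(rh3244c3cc8379b070.shift 0 5), rh81970e97986de7e3] (by decide +kernel))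
noncomputable def rhfa7f4caacd828db5 : CRef := CRef.mk (Pat.mk 0x30000000200000003800000010 0x10000000100000001f0000003e0000006f0000003800000038 8 7) 0 0 (step_sound _ 132 [rh1a9d4b22bf65da91, (rh7b1f1fb55310c477.shift 4 0)] (by decide +kernel))
noncomputable def rhc05cbb9d794246f0 : CRef := CRef.mk (Pat.mk 0x1000000018000000080000000800000000 0xc0000000c0000000f0000001f0000001f0000001e0000001c00000014 8 5) 0 0 (step_sound _ 131 [rh1dcfdd430eac7808, (rhcbaa34959f85e2ef.shift 2 0), (rhea90e7358341a1a4.shift 2 0)] (by decide +kernel))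
noncomputable def rh5f121c888c1a9091 : CRef := CRef.mk (Pat.mk 0x10000000180000000c000000180000000000000000 0x200000006000000370000001f0000001f0000001f0000003200000032 8 6) 0 0 (step_sound _ 97 [(rhb739f4f82bb681b4.shift 0 2), rhfe32ef2431ddd872] (by decide +kernel))
noncomputable def rh000251f6fc426eac : CRef := CRef.mk (Pat.mk 0x10000000100000001800000048 0xc0000001e000000f7000000ff000000df 8 8) 0 0 (step_sound _ 37 [rh02575fc56458b534, rh3976b3e712357808, (rh474e234485f2465c.shift 2 0), rh74d28e14039479b5] (by decide +kernel))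
noncomputable def rhcffeea202677a0f5 : CRef := CRef.mk (Pat.mk 0x8000000180000000c00000024 0x400000004000000060000000f0000001f000000ff0000006c 8 8) 0 0 (step_sound _ 33 [rh3ccd95a742957c8d, (rh53b3c253cb0c65f4.shift 0 1)] (by decide +kernel))
noncomputable def rh920e8dab75d0ee93 : CRef := CRef.mk (Pat.mk 0x380000000c000000200000002000000000 0x8000000080000003c000001fc0000006f0000003e00000017 8 9) 0 0 (step_sound _ 101 [(rh083d55aa7a465bcb.shift 1 0), (rh12863910bbd550ea.shift 1 0), (rh55aed1471ae72712.shift 2 2), (rhc21a95c499b3efdb.shift 2 3), rhfb7138ddc37afe6e] (by decide +kernel))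
noncomputable def rhed59f5a76731c3f9 : CRef := CRef.mk (Pat.mk 0x80000001e0000000000000020000000000000000000000000 0xc0000000f0000001e000000070000003f0000000f0000000700000005 8 6) 0 0 (step_sound _ 193 [(rh3244c3cc8379b070.shift 0 5), rh3dca10f68e32356c] (by decide +kernel))
noncomputable def rh69e791dc58880d5d : CRef := CRef.mk (Pat.mk 0x180000001e00000000 0x1a0000003e000000f30000001f0000001e0000000c 8 8) 0 0 (step_sound _ 65 [(rh3244c3cc8379b070.shift 0 1), rh3c680b2677ad07cc] (by decide +kernel))
noncomputable def rh95ec417bb34bd550 : CRef := CRef.mk (Pat.mk 0x8000000080000002c000000060000001000000010 0x5600000076000000fe000000fc0000006f000000660000007200000010 8 8) 0 0 (step_sound _ 133 [(rh738eaa4bd2350cbd.shift 1 0), (rhbd2f970efb06b840.shift 2 0), (rhe33d9496e10d8eb0.shift 0 3), (rhfd05fbbb8e83e61b.shift 2 0)] (by decide +kernel))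
noncomputable def rh2d3f5067290163e3 : CRef := CRef.mk (Pat.mk 0x80000002c00000006000000100000001400000000 0x5000000070000000f00000007c0000006f00000066000000720000001e00000006 8 8) 0 0 (step_sound _ 165 [(rha5cd6bb0e1be770f.shift 1 0), (rhbd2f970efb06b840.shift 2 1), (rhe33d9496e10d8eb0.shift 0 4)] (by decide +kernel))
noncomputable def rh79e0e6618d0e65cf : CRef := CRef.mk (Pat.mk 0x2000000020000000b0000000800000008 0x100000001c0000001c0000001e0000001e0000001b0000001a00000008 8 5) 0 0 (step_sound _ 99 [rh1df1df71a80a171b, (rh251342cf42d7e049.shift 1 0), (rh8e77ed8198b1a0fa.shift 2 0)] (by decide +kernel))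
noncomputable def rh010195deefe38b7c : CRef := CRef.mk (Pat.mk 0x180000001e00000000000000040000000000000000 0x100000001b0000001e0000000b0000001f0000000f00000001 8 5) 0 0 (step_sound _ 97 [rh2ca527717a38ccc0, (rheb0810cc63b001d8.shift 0 3)] (by decide +kernel))
noncomputable def rh4e9398ae38feac53 : CRef := CRef.mk (Pat.mk 0x1c00000038000000000000000000000000 0x2000000034000000760000003c0000003f0000001f0000000800000008 8 7) 0 0 (step_sound _ 67 [(rh40241bd608e5be1a.shift 2 0), (rha444659785782dfe.shift 0 2), (rhea7a1800d6f053bd.shift 3 0)] (by decide +kernel))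
noncomputable def rh40f6748db6af0fea : CRef := CRef.mk (Pat.mk 0x80000000b000000000 0x18e000000fe0000007f 8 9) 0 0 (step_sound _ 38 [(rh33e738c4ed385b9f.shift 4 1), rhd12d038eeccacdc7] (by decide +kernel))
noncomputable def rhc307bcce9aa7b8d1 : CRef := CRef.mk (Pat.mk 0x14000000060000001000000010 0x20000000380000003800000038000000370000003e0000003000000010 8 6) 0 0 (step_sound _ 68 [(rh8e77ed8198b1a0fa.shift 3 0), (rhddcd04bb31546311.shift 1 0), (rhf516302f831125d8.shift 0 1)] (by decide +kernel))
noncomputable def rh83b6dcb419e3df1b : CRef := CRef.mk (Pat.mk 0x80000000c0000000400000010 0x1f0000001f0000007c0000000f0000001c00000010 8 7) 0 0 (step_sound _ 131 [(rh5c5e593799055d58.shift 2 1), rhc84db1eb99a0ec99] (by decide +kernel))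
noncomputable def rh993da8c1347d6a9b : CRef := CRef.mk (Pat.mk 0x30000000100000004000000140 0x8000000080000019f000001fe000003ff000001d000000150 8 10) 0 0 (step_sound _ 102 [(rh1a73e645d9e9563b.shift 3 0), rh58588a0851aa0563, (rh8f6ac4756b9a6be8.shift 4 0), (rhccfa7b3c02894528.shift 3 0)] (by decide +kernel))
noncomputable def rh2856cfcf5dab9158 : CRef := CRef.mk (Pat.mk 0x400000006000000020000000800000028 0x400000004000000ff0000007e000000fa0000003800000028 8 8) 0 0 (step_sound _ 99 [(rh2613c889e411427e.shift 2 0), rhd505a797ae3fbd7b] (by decide +kernel))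
noncomputable def rh5e4b3e890689c21a : CRef := CRef.mk (Pat.mk 0x20000000e00000003000000010 0x18000000180000007f000000fe000001f700000030 8 9) 0 0 (step_sound _ 68 [(rh32a8050024678535.shift 1 0), (rhbdb8dfd08861fbf7.shift 3 0), (rhf93e26a977e90a26.shift 0 1)] (by decide +kernel))
noncomputable def rh1388b97d1c1553cf : CRef := CRef.mk (Pat.mk 0x70000000100000004000000040 0x1ce000001fe000003b7000000c000000040 8 10) 0 0 (step_sound _ 103 [(rh9c9de8a82d5e4ca8.shift 4 0), (rhba7200611f75b287.shift 0 2), (rhf3baec4a0a3dd35e.shift 4 2)] (by decide +kernel))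
noncomputable def rh2448ef5e6439e2bb : CRef := CRef.mk (Pat.mk 0x4000000060000000200000008000000080 0x1000000010000003ff000001fe0000036f000001a8000000a0 8 10) 0 0 (step_sound _ 37 [rh131db79810bf719a, (rh71222050f2c63a3a.shift 5 0)] (by decide +kernel))
noncomputable def rhcb84a3348035e235 : CRef := CRef.mk (Pat.mk 0x6000000020000000800000008 0x20000000700000007000000370000003e0000003e0000001a0000000a 8 6) 0 0 (step_sound _ 130 [(rh4821dcf828b9d7bf.shift 1 0), rhe228f3a2fcca18cc, (rhfd7355c70a96284b.shift 1 0)] (by decide +kernel))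
noncomputable def rhfb6f1d15f03e8fd0 : CRef := CRef.mk (Pat.mk 0x6000000020000000800000028 0x400000004000000ff0000007e000000fb0000003a0000002a 8 8) 0 0 (step_sound _ 130 [(rh4821dcf828b9d7bf.shift 1 0), rh671f95d70ac3c7e5, rhe6a3ea5f82b1a46e] (by decide +kernel))
noncomputable def rhef0cebf72bace38a : CRef := CRef.mk (Pat.mk 0x20000000f000000010000000400000004 0xfe0000007f000000eb0000000c00000004 8 8) 0 0 (step_sound _ 131 [(rh33e738c4ed385b9f.shift 0 3), rhad644a1d3193cb38] (by decide +kernel))
noncomputable def rhafba9015ee0cfd41 : CRef := CRef.mk (Pat.mk 0x40000000e0000000200000000000000000 0x1000000010000000ff000000fe0000006f0000002000000020 8 8) 0 0 (step_sound _ 37 [(rh71222050f2c63a3a.shift 5 0), (rhc696611cf5943b88.shift 0 1)] (by decide +kernel))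
noncomputable def rhd98bcd4b20b7b0f5 : CRef := CRef.mk (Pat.mk 0x1800000018000000200000000000000000 0x1c0000001c0000001f0000001f0000007f000001e80000000800000008 8 9) 0 0 (step_sound _ 101 [(rh6cd1dd557c78c9a4.shift 0 2), rh732ebb461c8de17d, (rh8ee80cc30e93a344.shift 2 2)] (by decide +kernel))
noncomputable def rh5569f0f477aca761 : CRef := CRef.mk (Pat.mk 0x180000001e00000000 0x500000007000000070000000f0000001b0000001e00000007 8 5) 0 0 (step_sound _ 1 [rh55a2c8edecde0f89, rheb0810cc63b001d8] (by decide +kernel))
noncomputable def rhfa849d7771498671 : CRef := CRef.mk (Pat.mk 0x20000000300000003000000050 0x180000007f0000003e0000007f000000de 8 8) 0 0 (step_sound _ 66 [(rh53fa3ef75dc95ef7.shift 1 0), (rhb63f16694a63b337.shift 0 1), (rhc924e5f7a4031fcc.shift 2 1), (rhcd6baf37b3e5de21.shift 1 1)] (by decide +kernel))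
noncomputable def rh35dbd4f825a319a9 : CRef := CRef.mk (Pat.mk 0x1800000018000000200000002000000000 0x1c0000005c0000005f000000df000000f80000006c0000002800000008 8 8) 0 0 (step_sound _ 101 [(rh581496e46a110a3e.shift 2 1), rh732ebb461c8de17d, (rh79b3c29022acbdf3.shift 2 3), (rhf60085a7356fb2fe.shift 2 1)] (by decide +kernel))
noncomputable def rhb67f7cc981e3af6a : CRef := CRef.mk (Pat.mk 0x18000000180000001e0000002000000020 0x20000000e0000000fc000000df0000005e0000006000000020 8 8) 0 0 (step_sound _ 97 [(rh3244c3cc8379b070.shift 0 2), (rh35d58b67bc9dbbdc.shift 1 0)] (by decide +kernel))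
noncomputable def rhf6422fd86d08c8bb : CRef := CRef.mk (Pat.mk 0x180000000c0000002000000000 0x200000006000000070000001f000000ff0000006700000002 8 8) 0 0 (step_sound _ 65 [(rh53b3c253cb0c65f4.shift 0 2), rhbe9281ed9d334d6d] (by decide +kernel))
noncomputable def rh46efc3b74c9daebc : CRef := CRef.mk (Pat.mk 0x40000000e00000002000000020 0x100000001000001cff00000ffe00001c6f00000020 8 13) 0 0 (step_sound _ 72 [rhc696611cf5943b88, (rhe3060b190bc0bc78.shift 4 2), (rhe4909b58bb712816.shift 5 1)] (by decide +kernel))
noncomputable def rhe4eddecde82d1f93 : CRef := CRef.mk (Pat.mk 0x1e00000016000000100000001000000000 0x600000006000000030000001e0000001e000000330000001e0000000a 8 6) 0 0 (step_sound _ 161 [(rh3244c3cc8379b070.shift 0 4), rh41471af5a49de9fe] (by decide +kernel))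
noncomputable def rh3f27aa802b6b1070 : CRef := CRef.mk (Pat.mk 0x10000000100000003000000000 0x80000003800000038000000380000007c0000001f000000380000003000000010 8 7) 0 0 (step_sound _ 132 [rh2b856cb44e4e309f, (rh5bd4bc0c2c48140c.shift 3 1), (rh73f605273a09a9d0.shift 4 1), (rh91282f98d4e8ad3c.shift 3 1)] (by decide +kernel))
noncomputable def rhcf655f4067115cd0 : CRef := CRef.mk (Pat.mk 0x20000000700000001000000000 0x1c0000001e000000ff0000007e0000001f00000008 8 8) 0 0 (step_sound _ 67 [(rh31a483d007a1a37a.shift 1 0), (rhb12ffaec36122c99.shift 0 1), (rhec46bd5500c722c9.shift 2 2)] (by decide +kernel))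
noncomputable def rhc006266e508039a3 : CRef := CRef.mk (Pat.mk 0x1000000018000000080000000800000000 0x140000001c0000001c000000ef000000ff0000001f0000001c0000000c00000004 8 8) 0 0 (step_sound _ 131 [(rh0b88b3654eeeb39b.shift 0 1), (rh30c061e58ebf1ac8.shift 2 0), (rh771d065bdc85bf2d.shift 2 0), (rhc3b618ba71007413.shift 0 2)] (by decide +kernel))
noncomputable def rh737ed092db23254c : CRef := CRef.mk (Pat.mk 0x180000000e000000000000000000000000 0x700000007000000070000001f000000fe000000070000000600000006 8 8) 0 0 (step_sound _ 100 [rh2395824d1086e2bc, (rh331d4a807f97bfca.shift 0 2), rh5cb8cb0fc0ea277d, rh6076add87d5fdaa7, (rhb447f348b8f2aaa5.shift 0 2)] (by decide +kernel))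
noncomputable def rh5ca059cf244e96d1 : CRef := CRef.mk (Pat.mk 0x800000028000000880000000800000000 0x390000001fc000001ef000000880000008800000008 8 10) 0 0 (step_sound _ 132 [(rh2f68792b6b779e96.shift 3 1), rhd4543eeb66087ac5] (by decide +kernel))
noncomputable def rhf38a54cc01ceb3c7 : CRef := CRef.mk (Pat.mk 0x40000000400000004000000040000001400000010 0xa0000000e0000000e00000004000000040000000c0000003c0000001f0000001600000014 8 6) 0 0 (step_sound _ 65 [rh1daa79b2ca5afe65, (rh932754581e0f4330.shift 1 1)] (by decide +kernel))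
noncomputable def rh76263023c6c08955 : CRef := CRef.mk (Pat.mk 0x3000000010000000000000007800000000 0xf40000003e0000000e0000007e00000007 8 8) 0 0 (step_sound _ 66 [(rh3f8766e6ecb455ce.shift 2 1), rhec0fd8e37c7f1e0b] (by decide +kernel))
noncomputable def rh79f8fda1f5994ae2 : CRef := CRef.mk (Pat.mk 0x3c00000028000000200000002000000000 0x40000003e000000380000006f0000003e0000001f 8 7) 0 0 (step_sound _ 100 [rh7ca27706802ae01c, (rhb739f4f82bb681b4.shift 1 3)] (by decide +kernel))
noncomputable def rha91db8985ead26dc : CRef := CRef.mk (Pat.mk 0x3000000010000000400000004000000000 0x2800000028000001ff000000fe000001d7000000d80000007800000028 8 9) 0 0 (step_sound _ 131 [rh146897a2df8f93ff, (rh60cc2984a877d824.shift 0 1), (rhcee9bfd85c34df6d.shift 3 1), (rhd0869283ba518929.shift 2 1), (rhffa3a2cae67230e7.shift 2 1)] (by decide +kernel))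
noncomputable def rh3a1f9ba1417df5c5 : CRef := CRef.mk (Pat.mk 0x1e000000000000000000000000 0x50000000700000007000000370000001e000000070000000600000006 8 6) 0 0 (step_sound _ 132 [rh1773693aa87f208b, (rh33e738c4ed385b9f.shift 1 3)] (by decide +kernel))
noncomputable def rh5c6eabefe98288b9 : CRef := CRef.mk (Pat.mk 0x1e00000008 0x380000003c0000003f0000001e00000038 8 6) 0 0 (step_sound _ 68 [(rh33e738c4ed385b9f.shift 1 1), rh6603468c6c90590f] (by decide +kernel))
noncomputable def rh2217c9001e3e4980 : CRef := CRef.mk (Pat.mk 0x20000000000000003800000010000000400000004000000000 0x28000000380000003c000000ff0000007e0000001f0000003800000030000000d80000007800000028 8 8) 0 0 (step_sound _ 196 [(rh115831bebd212858.shift 3 3), (rh2d55c6a7f1c1aeb9.shift 1 2), (rh6af8e9878b75b2ef.shift 0 3), (rh9206e1b8c410c918.shift 3 0), (rh929182e999a000c0.shift 0 1), (rhd02f31f03d8cd0fa.shift 3 3)] (by decide +kernel))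
noncomputable def rh113448db0ebf54de : CRef := CRef.mk (Pat.mk 0x1e000000080000000000000000 0x4000000040000000f0000001e0000003b0000000f0000000f 8 6) 0 0 (step_sound _ 68 [rh25f25c73d947b25d, (rhe25b0a99195a5d59.shift 1 2)] (by decide +kernel))
noncomputable def rh6ea767f849b8e422 : CRef := CRef.mk (Pat.mk 0x400000004000000040000001000000010000000000000000000000000 0xc0000000c0000000e0000000600000006000000360000001e0000000f0000000e0000000a 8 6) 0 0 (step_sound _ 130 [(rh20966da26a1c2ae8.shift 1 3), (rh8303e25b77b8b7bf.shift 1 2), rhb5834c364ee7f1ed, (rhf389780122f41e70.shift 1 2)] (by decide +kernel))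
noncomputable def rh20aeed275d8f6531 : CRef := CRef.mk (Pat.mk 0x80000000400000004000000040000001000000010000000000000000000000000 0x80000000e0000000600000006000000340000001e0000000f0000000e0000000a 8 6) 0 0 (step_sound _ 130 [rhb5834c364ee7f1ed, (rhbaefcd01e0a8bca3.shift 2 4)] (by decide +kernel))
noncomputable def rhcf0084c2c97d938a : CRef := CRef.mk (Pat.mk 0x10000000500000004000000040 0xa0000000e7000003fe000003ff0000004000000040 8 10) 0 0 (step_sound _ 102 [(rh0363d47a46978688.shift 3 0), (rh1741680720c097b4.shift 5 0), (rh65ea2becd35674d0.shift 3 0), (rh6cd1461cb7dadbe4.shift 3 0), rh86776561faeee048] (by decide +kernel))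
noncomputable def rh75e333353f8ccb89 : CRef := CRef.mk (Pat.mk 0x180000000c000000020000000a000000180000000c 0x50000000f0000001b0000000f000000020000000f000000790000000c 8 7) 0 0 (step_sound _ 37 [(rh18965a982d73c794.shift 2 0), (rhb32d4e18bcf58864.shift 0 1)] (by decide +kernel))
noncomputable def rhf271a1f1bf9d1e78 : CRef := CRef.mk (Pat.mk 0x800000028000000200000002000000000 0x5c000000780000007c0000003f000000660000002400000004 8 7) 0 0 (step_sound _ 98 [(rh06af26bb22b80e31.shift 0 1), (rh45a6c9f32f66a586.shift 1 1), (rhefadd466d496907b.shift 1 0)] (by decide +kernel))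
noncomputable def rh72bb9518f297dbf7 : CRef := CRef.mk (Pat.mk 0x50000000c000000040000001400000000 0x2000000028000001ef000000fc000001fc0000001400000010 8 9) 0 0 (step_sound _ 131 [rh0148121832c40153, (rh2f68792b6b779e96.shift 2 1)] (by decide +kernel))
noncomputable def rhc4c331b0d28e6c28 : CRef := CRef.mk (Pat.mk 0x80000002800000020000000a0 0x400000007000000070000003f7000001fe000001ef000000e0000000a0 8 10) 0 0 (step_sound _ 101 [rh47cc8c896ef8b20e, (rhc34e1f1d94555df0.shift 2 0), (rhc85cc95794737cf7.shift 4 0), (rhf8aa6e00902d9ee7.shift 4 0)] (by decide +kernel))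
noncomputable def rh0bcf6c7f90e77424 : CRef := CRef.mk (Pat.mk 0x200000001400000016000000100000001000000000 0x80000003800000038000000140000001e000000330000001e0000000a 8 6) 0 0 (step_sound _ 164 [rh1fc9eec48d36a747, (rh2f68792b6b779e96.shift 4 2)] (by decide +kernel))
noncomputable def rh923214a82886950a : CRef := CRef.mk (Pat.mk 0x18000000580000000000000000 0x6000000070000001f0000007f0000000700000006 8 7) 0 0 (step_sound _ 98 [rh10661bc2ae381af4, (rh2fe78cc5ca4405d8.shift 2 2)] (by decide +kernel))
noncomputable def rhb120ad985bd59d38 : CRef := CRef.mk (Pat.mk 0xc00000005000000058000000480000000800000000 0x2800000078000000ef0000005f0000005f0000005e0000000c00000004 8 8) 0 0 (step_sound _ 131 [rh1dcfdd430eac7808, (rh4723afaf4d1af126.shift 3 2)] (by decide +kernel))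
noncomputable def rhc98e06705c5c990e : CRef := CRef.mk (Pat.mk 0x1400000016000000100000001200000000 0x300000003000000030000001600000016000000370000001e0000000c 8 6) 0 0 (step_sound _ 35 [(rh932754581e0f4330.shift 3 0), rhe154f3ac482a1ed9] (by decide +kernel))
noncomputable def rh6949440d344f884c : CRef := CRef.mk (Pat.mk 0x40000000e000000020 0x7000000078000001de000000fe0000003f 8 9) 0 0 (step_sound _ 102 [rh3d4a60679b162094, (rh5c5e593799055d58.shift 5 0)] (by decide +kernel))
noncomputable def rh28dcd531888dbf67 : CRef := CRef.mk (Pat.mk 0x100000001400000014000000100000001000000000 0x30000000380000001c0000007f000000f70000001800000008 8 8) 0 0 (step_sound _ 131 [(rh50fbb5868c909700.shift 3 1), rha5d38f9a98799ae9] (by decide +kernel))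
noncomputable def rhb09f96361caf72b5 : CRef := CRef.mk (Pat.mk 0x1000000008000000080000000a000000080000000800000000 0x40000001c0000001c000000080000000c0000001f000000780000000c00000004 8 7) 0 0 (step_sound _ 195 [(rh2f68792b6b779e96.shift 3 3), rh30ad95eb8e381685] (by decide +kernel))
noncomputable def rh0cfbd20b906c70c6 : CRef := CRef.mk (Pat.mk 0x3c00000028000000200000002000000000 0x60000003c000000280000006f0000003e00000017 8 7) 0 0 (step_sound _ 162 [(rh3244c3cc8379b070.shift 1 4), rh604213686e5ca165] (by decide +kernel))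
noncomputable def rh5506f995a9bf9dda : CRef := CRef.mk (Pat.mk 0x280000002800000020000000a000000000 0x3af000001fe000001e7000000b000000090 8 10) 0 0 (step_sound _ 36 [(rh932754581e0f4330.shift 4 0), rhd90f8139b586504a] (by decide +kernel))
noncomputable def rh34b2de25f71a03cf : CRef := CRef.mk (Pat.mk 0x40000000280000002800000020000000200000000000000000 0x140000007c000000640000003c000000780000006f0000003e0000001f00000014 8 7) 0 0 (step_sound _ 162 [(rh14c650b81439982e.shift 2 3), (rh9a4d62eca34e8710.shift 2 4), (rha6816dee951f7ee6.shift 2 4), rhb61b0cfc7aa28d63] (by decide +kernel))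
noncomputable def rh4b7c6726086d5ca6 : CRef := CRef.mk (Pat.mk 0xe00000002000000000 0x280000003800000038000001df000000fe0000007f00000020 8 9) 0 0 (step_sound _ 68 [(rh4c622fddc53a5f99.shift 2 2), (rh68a65d64d78befc1.shift 0 1), (rh7654d7b92c96fe12.shift 2 1), (rh93eb07b717545299.shift 3 0), (rh977c32a871ba3673.shift 0 1), (rhd1ff8027c4c86c76.shift 1 1)] (by decide +kernel))
noncomputable def rhb852e0292eb0aa89 : CRef := CRef.mk (Pat.mk 0x38000000080000002000000020 0x3e7000001ff000003d80000006000000020 8 10) 0 0 (step_sound _ 102 [(rh1fbc9fee05401eba.shift 3 0), rh6bede0152d0c3b2d, (rhf2b3bcf1454375d8.shift 3 2), (rhf733c2a41d57dd22.shift 0 2)] (by decide +kernel))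
noncomputable def rh2e049e68370d5ecb : CRef := CRef.mk (Pat.mk 0x28000000080000002000000020 0x40000000700000007000000077000000ff0000007f000001e700000020 8 9) 0 0 (step_sound _ 69 [rh47cc8c896ef8b20e, rhbff1c37a6b1c783f, (rhc85cc95794737cf7.shift 4 0), (rhf8aa6e00902d9ee7.shift 4 0)] (by decide +kernel))
noncomputable def rha191243300fee798 : CRef := CRef.mk (Pat.mk 0x3000000010000000100000001000000000 0xce000000ff0000003e000000180000001800000008 8 8) 0 0 (step_sound _ 131 [(rh50fbb5868c909700.shift 3 1), rh8a0c9226b01bcc4b] (by decide +kernel))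
noncomputable def rhc94b560032274623 : CRef := CRef.mk (Pat.mk 0x40000001c000000100000000000000000 0x1c0000003c000000370000001f0000001c0000000800000008 8 6) 0 0 (step_sound _ 67 [rh0693a0ad7c8af654, (rh5872c8a4baa85d64.shift 0 2), (rh5d54cb79a67f97ab.shift 2 0)] (by decide +kernel))
noncomputable def rh686c14efb7fb0622 : CRef := CRef.mk (Pat.mk 0x8000000080000000800000038 0x140000001c0000001c00000018000000780000001f0000000f00000078 8 7) 0 0 (step_sound _ 34 [rhb04a223b5b480d63, (rhf48373e13d2bc128.shift 2 0)] (by decide +kernel))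
noncomputable def rh26d640b9e76f0bda : CRef := CRef.mk (Pat.mk 0xc000000080000000c0000002800000020 0xf0000000ff0000007f0000002c0000002800000020 8 8) 0 0 (step_sound _ 132 [(rh2f68792b6b779e96.shift 3 1), rh4e3d858bcc92b057] (by decide +kernel))
noncomputable def rh80acceff05e916c8 : CRef := CRef.mk (Pat.mk 0x1000000018000000180000004000000040 0x6000000060000007f000000ff000000de0000004000000040 8 8) 0 0 (step_sound _ 101 [(rh2612b4f73ba7c3b3.shift 2 2), (rh6e36e895ce1a35fe.shift 3 0), (rhd149b1ca8d686de3.shift 0 2)] (by decide +kernel))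
noncomputable def rhc92dc4e50cacb73c : CRef := CRef.mk (Pat.mk 0x100000003800000018 0x1c0000001e000000770000003f0000001e 8 7) 0 0 (step_sound _ 2 [(rh53b3c253cb0c65f4.shift 1 0), rh94c22ac998723213] (by decide +kernel))
noncomputable def rh0db9d2b49c9c45ce : CRef := CRef.mk (Pat.mk 0x300000002000000020000000a000000080 0x8000000080000000c000000ff000001fe000001bf000000a0000000a0 8 9) 0 0 (step_sound _ 100 [(rh7b1f1fb55310c477.shift 4 0), rh81f70310891ad40b] (by decide +kernel))
noncomputable def rhd59fa6ecbd15dc7c : CRef := CRef.mk (Pat.mk 0x20000000200000002000000020 0x8000000080000005f000000fe0000007f0000003000000020 8 8) 0 0 (step_sound _ 100 [(rh50fbb5868c909700.shift 4 0), rh6e0ed5368abae388] (by decide +kernel))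
noncomputable def rh66fa3b253aebd09f : CRef := CRef.mk (Pat.mk 0x7000000000000000a0000002c0000000000000000 0x380000007f000000f80000007e0000002c0000002000000020 8 8) 0 0 (step_sound _ 163 [(rh6a78fa75f0f8d5b0.shift 0 2), (rh88f6fb53112a4e1d.shift 0 2), rhb6bc6a1b5e02e711, (rhe84bfd2bc1159083.shift 0 2)] (by decide +kernel))
noncomputable def rh7838ab7b7f8155fa : CRef := CRef.mk (Pat.mk 0x100000001000000050000000000000000000000000 0x80000001800000018000000770000003e0000003f00000028 8 7) 0 0 (step_sound _ 68 [(rh333ab359bc9d6b4c.shift 0 1), (rh8cdd36b03d57a2f6.shift 3 0), (rh8ff3dde5b1c639e0.shift 3 0), (rhc4526fc8abf298b6.shift 3 0)] (by decide +kernel))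
noncomputable def rh938d876a2805eb64 : CRef := CRef.mk (Pat.mk 0x2000000028000000280000002000000000 0x5000000070000001ef000001fe0000003000000010 8 9) 0 0 (step_sound _ 36 [(rh932754581e0f4330.shift 4 0), (rhc6e8aef153ac6024.shift 0 1)] (by decide +kernel))
noncomputable def rh25fb15bfdc1dd94c : CRef := CRef.mk (Pat.mk 0x8000000020000000a0000000800000000 0x100000001c0000001c0000001c0000001f0000007b0000007e0000000c00000004 8 7) 0 0 (step_sound _ 99 [(rh018f2ebb4d91ad9d.shift 0 1), rh417b883f66a983e4, (rhc85cc95794737cf7.shift 2 1), (rhf8aa6e00902d9ee7.shift 2 1)] (by decide +kernel))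
noncomputable def rh71044a4132a088e9 : CRef := CRef.mk (Pat.mk 0x100000000400000014000000100000000000000000 0x280000003c0000003e000000760000001e0000001b0000000a00000002 8 7) 0 0 (step_sound _ 132 [(rh018f2ebb4d91ad9d.shift 1 2), rh794e4f32b610cd92, (rhc85cc95794737cf7.shift 3 2)] (by decide +kernel))
noncomputable def rh22cef076f14e700f : CRef := CRef.mk (Pat.mk 0x400000001000000050000000400000000000000000 0x5000000050000003df000003fe0000006f0000002800000008 8 10) 0 0 (step_sound _ 101 [(rh634dd84b0dfe0b3b.shift 3 1), (rh8e34d4b3514b14da.shift 0 1), (rha9fbfd4bb8cf890b.shift 1 3), (rhb951d5ce9350f387.shift 2 0)] (by decide +kernel))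
noncomputable def rh96f2cb9a4c92e014 : CRef := CRef.mk (Pat.mk 0x8000000020000000a0000000800000000 0x100000001c0000001c0000001f0000001f0000007a0000001f0000000c00000004 8 7) 0 0 (step_sound _ 99 [rh200df86862075f45, rhb7a13aec94a9d108, (rhc85cc95794737cf7.shift 2 1), (rhf8aa6e00902d9ee7.shift 2 1)] (by decide +kernel))
noncomputable def rh2bca94733de15aea : CRef := CRef.mk (Pat.mk 0x1a000000020000000200000000 0x1000000070000000700000007000000030000001f000000030000000300000001 8 5) 0 0 (step_sound _ 129 [(rh01e48cd9f335aa73.shift 0 2), rh193da7fc9e1674f1, (rh5e05da03898e7023.shift 0 1), (rhe36b351fe63a9d07.shift 0 1)] (by decide +kernel))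
noncomputable def rhc66b6dc71e48d893 : CRef := CRef.mk (Pat.mk 0x1a000000020000000200000000 0x10000000700000007000000070000000f0000001b000000030000000300000001 8 5) 0 0 (step_sound _ 129 [rh193da7fc9e1674f1, rh55528658b277a62a, rh968ba7b0df7e4096, (rhe36b351fe63a9d07.shift 0 1), rhf502d5eed419924f] (by decide +kernel))
noncomputable def rh58134bea842019b2 : CRef := CRef.mk (Pat.mk 0x1000000050000000100000001000000000 0x2f0000003e00000077000000100000001800000008 8 7) 0 0 (step_sound _ 35 [(rh3fe25ec969704845.shift 0 1), (rh932754581e0f4330.shift 3 0)] (by decide +kernel))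
noncomputable def rh9a5171792c361ce2 : CRef := CRef.mk (Pat.mk 0x1a000000020000000200000000 0x10000000700000007000000070000001f0000003b000000030000000300000001 8 6) 0 0 (step_sound _ 129 [rh193da7fc9e1674f1, (rh88ceeeeb0cade4fa.shift 0 1), rh968ba7b0df7e4096, (rhe36b351fe63a9d07.shift 0 1), rhf502d5eed419924f] (by decide +kernel))
noncomputable def rh3bed766471413634 : CRef := CRef.mk (Pat.mk 0x200000000c0000002800000000 0x140000001c0000001c0000007c0000000f0000007800000010 8 7) 0 0 (step_sound _ 36 [rha047bd2e9b79bb5d, (rhf48373e13d2bc128.shift 2 1)] (by decide +kernel))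
noncomputable def rh2ee3e6d8c4f3b0c8 : CRef := CRef.mk (Pat.mk 0x10000000180000001000000000 0x8000000380000003c0000007f0000003e000000180000001800000008 8 7) 0 0 (step_sound _ 132 [(rh03dfdf12d5937476.shift 3 0), (rh1741680720c097b4.shift 3 1), rh6ce07b0bc5d1170f, (rh976a48eb1c80a12f.shift 3 1)] (by decide +kernel))
noncomputable def rhfef4a4e13204809b : CRef := CRef.mk (Pat.mk 0x10000000060000000e00000010000000000000000000000000 0x70000003f0000003f000000060000000f0000001a0000000f0000000f00000005 8 6) 0 0 (step_sound _ 99 [rh47bfa6ae0878606f, (rhb739f4f82bb681b4.shift 0 3)] (by decide +kernel))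
noncomputable def rh24e5847dff4bca69 : CRef := CRef.mk (Pat.mk 0x8000000020000000a0000000800000000 0x100000001c0000001c0000001c0000001f0000007b0000001f0000000c00000004 8 7) 0 0 (step_sound _ 99 [(rh018f2ebb4d91ad9d.shift 0 1), rh200df86862075f45, (rhc85cc95794737cf7.shift 2 1), (rhf8aa6e00902d9ee7.shift 2 1)] (by decide +kernel))
noncomputable def rh1ef01c036bca8289 : CRef := CRef.mk (Pat.mk 0x2000000020000000200000002 0x50000000700000007000000070000000700000003000000030000000300000002 8 3) 0 0 (step_sound _ 129 [(rh1741680720c097b4.shift 0 1), rh3ca48e2a6d60153d, rh9894146c1beb233a, (rhe01cfd8f0577defd.shift 0 1)] (by decide +kernel))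
noncomputable def rhf7b439ef283c3027 : CRef := CRef.mk (Pat.mk 0x1e0000000000000000 0x50000000700000007000000030000003e0000000700000004 8 6) 0 0 (step_sound _ 33 [rh6a3796e3b60ea782, (rheb0810cc63b001d8.shift 0 1)] (by decide +kernel))
noncomputable def rha3b21793194f019d : CRef := CRef.mk (Pat.mk 0x18000000380000002000000000 0xc0000001c0000001c0000001e0000003c0000002f0000000c 8 6) 0 0 (step_sound _ 132 [(rh2145e1d24b96a57e.shift 4 1), rh8871afab693366f8] (by decide +kernel))
noncomputable def rhbe8aa00efa9770a9 : CRef := CRef.mk (Pat.mk 0x80000000a000000080000000800000000 0xe40000007f000000ff000000080000000c00000004 8 8) 0 0 (step_sound _ 130 [(rh50fbb5868c909700.shift 2 1), rh72a6967bcb3e8856] (by decide +kernel))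
noncomputable def rhc77685af98fea08e : CRef := CRef.mk (Pat.mk 0x180000001e00000000 0x50000000700000007000000030000001f0000003e00000004 8 6) 0 0 (step_sound _ 65 [(rh3244c3cc8379b070.shift 0 1), rh77f6f461db03cd5a] (by decide +kernel))
noncomputable def rh6470ab33a31c4326 : CRef := CRef.mk (Pat.mk 0xe0000000100000010000000000000000000000000 0x300000003e0000003300000010000000380000003800000028 8 6) 0 0 (step_sound _ 164 [(rh80fcd6d0a18cb2dd.shift 0 4), (rhb94ea3485c38af92.shift 1 0)] (by decide +kernel))
noncomputable def rh22be26741370e848 : CRef := CRef.mk (Pat.mk 0x1e00000018000000180000000000000000 0x10000000700000007000000070000001e0000001f0000001f0000000700000005 8 5) 0 0 (step_sound _ 97 [rh25ecea5b84de649c, (rheb0810cc63b001d8.shift 0 3)] (by decide +kernel))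
noncomputable def rh749ef735eba9e657 : CRef := CRef.mk (Pat.mk 0x1e000000000000004000000000 0x1ce000000fe000000c70000004000000040 8 9) 0 0 (step_sound _ 65 [(rh069f83e72ce850d0.shift 1 0), (rheb0810cc63b001d8.shift 0 2)] (by decide +kernel))
noncomputable def rhdd628b13307f0925 : CRef := CRef.mk (Pat.mk 0x180000001c000000100000001000000000 0x2000000070000001f0000007c0000001e0000001f0000000e 8 7) 0 0 (step_sound _ 35 [rh49b08549d36d71b6, (rh932754581e0f4330.shift 3 0)] (by decide +kernel))
noncomputable def rh140cb16e14e72fc5 : CRef := CRef.mk (Pat.mk 0x1a0000001e000000000000000000000000 0x50000000700000007000000070000001e0000001e000000070000000200000002 8 5) 0 0 (step_sound _ 65 [rh48a7371ed7f6afc4, (rheb0810cc63b001d8.shift 0 2)] (by decide +kernel))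
noncomputable def rh5fde13324c5270da : CRef := CRef.mk (Pat.mk 0x80000001c00000018000000100000000000000000 0x80000003f0000001f0000001f0000000700000003 8 6) 0 0 (step_sound _ 129 [rh07d2b32b8eb46caa, (rhb739f4f82bb681b4.shift 0 3)] (by decide +kernel))
noncomputable def rhbf20632202867af8 : CRef := CRef.mk (Pat.mk 0x80000001c00000018000000100000000000000000 0x140000001c0000001f0000001c0000001f0000000f00000008 8 5) 0 0 (step_sound _ 128 [rh0fa8fe7e80538fc5, (rhab22b5b56e7b3243.shift 0 3)] (by decide +kernel))
noncomputable def rhed2e1dee54d283ad : CRef := CRef.mk (Pat.mk 0x80000001e00000018000000100000000000000000 0x140000001c0000007e0000001b0000001f0000000e00000008 8 7) 0 0 (step_sound _ 97 [rhd39dfbb42336d5c1, (rheb0810cc63b001d8.shift 0 3)] (by decide +kernel))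
noncomputable def rh598cc44037a19265 : CRef := CRef.mk (Pat.mk 0x4000000180000001c00000000000000000000000000000000 0x40000001f0000001f00000003000000070000000700000005 8 5) 0 0 (step_sound _ 129 [(rh53b3c253cb0c65f4.shift 0 4), rh5c8f5b6734dfd8f9] (by decide +kernel))
noncomputable def rh2e8ece5aa59f47b9 : CRef := CRef.mk (Pat.mk 0x2000000070000000400000004000000000 0xc8000000c8000000dc0000007f000000fe000000770000007000000020 8 8) 0 0 (step_sound _ 99 [(rh1616d58fa9580b5a.shift 2 0), (rh36eba2a3de447758.shift 0 2), (rh6765e7960b108c8d.shift 2 2), (rhb103f40a53fe1424.shift 0 2)] (by decide +kernel))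
noncomputable def rh72a7e19f9f28c199 : CRef := CRef.mk (Pat.mk 0x20000001e00000010000000000000000000000000 0x600000006000000060000001e0000001f000000070000000700000003 8 5) 0 0 (step_sound _ 97 [rh972bb7eab3cd4172, (rheb0810cc63b001d8.shift 0 3)] (by decide +kernel))
noncomputable def rh253c7727954085aa : CRef := CRef.mk (Pat.mk 0x60000000e000000000000000000000000 0x30000000300000003000000060000003e000000070000000600000006 8 6) 0 0 (step_sound _ 100 [rh822be8c6befcb82b, (rhf48373e13d2bc128.shift 1 3)] (by decide +kernel))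
noncomputable def rhc905a6efe7814404 : CRef := CRef.mk (Pat.mk 0x2000000038000000200000002000000000 0x100000003000000078000001ff0000003c00000018 8 9) 0 0 (step_sound _ 132 [rh08382f5750e772fb, (rh50fbb5868c909700.shift 4 1)] (by decide +kernel))
noncomputable def rh63a53ebf8b7ac563 : CRef := CRef.mk (Pat.mk 0x680000000800000018000000000000000000000000 0x40000007c0000000f0000001e0000001f0000001e00000014 8 7) 0 0 (step_sound _ 130 [rh016b7fb4adeb2c74, (rhb2a0b9ccfb5cecd5.shift 2 4)] (by decide +kernel))
noncomputable def rhb5577d872f03595b : CRef := CRef.mk (Pat.mk 0x200000001a0000001000000016000000100000001000000000 0x500000027000000f70000001b0000001300000037000000370000001f0000000c 8 8) 0 0 (step_sound _ 196 [(rh2f68792b6b779e96.shift 4 3), rh460ef8a16a630ac7] (by decide +kernel))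
noncomputable def rh91ef0c7a9be97580 : CRef := CRef.mk (Pat.mk 0x7800000008000000000000000000000000 0xc0000000c0000000f000000fc000000180000001c0000000c0000000c 8 8) 0 0 (step_sound _ 100 [(rh18965a982d73c794.shift 3 3), rh3e6284beeee901f4] (by decide +kernel))
noncomputable def rh89a4727f6810ed6b : CRef := CRef.mk (Pat.mk 0x3c000000100000001000000000 0x1800000018000000180000007c0000003e0000001f0000000c 8 7) 0 0 (step_sound _ 66 [(rheb0810cc63b001d8.shift 1 2), rhebb92fbad159623f] (by decide +kernel))
noncomputable def rh80ee52c885d69500 : CRef := CRef.mk (Pat.mk 0x1e00000012000000000000000000000000 0x300000003000000030000003e0000001e000000070000000700000007 8 6) 0 0 (step_sound _ 98 [(rh18965a982d73c794.shift 1 3), rhbbae0dfe893739e6] (by decide +kernel))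
noncomputable def rh4dfc96cabeb02c4b : CRef := CRef.mk (Pat.mk 0x200000003800000018000000000000000000000000 0x2c0000002c0000002f0000003c000000180000001c0000000c0000000c 8 6) 0 0 (step_sound _ 197 [rh3e6284beeee901f4, (rh5c5e593799055d58.shift 4 3)] (by decide +kernel))
noncomputable def rh03bbcb54bbef2748 : CRef := CRef.mk (Pat.mk 0x40000000e0000001a0000000c00000000 0x38000000780000006c0000007e0000001b0000000c00000004 8 7) 0 0 (step_sound _ 100 [(rh0934ff8de95614fb.shift 2 0), (rheb0810cc63b001d8.shift 0 2)] (by decide +kernel))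
noncomputable def rh797c456460fcf5fb : CRef := CRef.mk (Pat.mk 0x5000000040000000400000000 0xa0000007e0000003e00000077000000060000000600000002 8 7) 0 0 (step_sound _ 130 [(rh1741680720c097b4.shift 1 1), (rh20966da26a1c2ae8.shift 1 0), (rh4d2a054ed6195303.shift 0 1), (rh771d065bdc85bf2d.shift 1 0)] (by decide +kernel))
noncomputable def rhdf88e7aa7acafcdf : CRef := CRef.mk (Pat.mk 0x18000000140000001000000058000000000000000000000000 0x1e0000000f8000000f6000000ff0000005e000000e0000000e0000000a0 8 9) 0 0 (step_sound _ 197 [(rh2f68792b6b779e96.shift 4 3), rha83d79144127ede0] (by decide +kernel))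
noncomputable def rh2f6ceafd79e3080f : CRef := CRef.mk (Pat.mk 0xe0000000400000014000000000000000000000000 0x2000000330000003e0000003700000014000000380000003800000028 8 6) 0 0 (step_sound _ 164 [(rhaf9f2efc81a8312b.shift 0 4), (rhb94ea3485c38af92.shift 1 0), (rhe4f9133a81c1dbc5.shift 0 3)] (by decide +kernel))
noncomputable def rh1719ab664bba2b6b : CRef := CRef.mk (Pat.mk 0x380000002000000020 0x10000000700000007000000070000000770000003e0000003700000020 8 7) 0 0 (step_sound _ 66 [(rh2c9cc6ea898ce072.shift 1 0), (rh775ca1963e850b80.shift 0 1), (rhdceeca65bdd8095a.shift 0 1), (rhf1199fca3802452f.shift 2 0)] (by decide +kernel))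
noncomputable def rh8b9a943c3a976d77 : CRef := CRef.mk (Pat.mk 0x5000000040000000400000000 0xa0000007e0000003e00000077000000060000000600000002 8 7) 0 0 (step_sound _ 130 [(rh1741680720c097b4.shift 1 1), (rh20966da26a1c2ae8.shift 1 0), (rh61c2555c8e5826c3.shift 0 1), (rh771d065bdc85bf2d.shift 1 0)] (by decide +kernel))
noncomputable def rhe9122a9cf4b5d1f2 : CRef := CRef.mk (Pat.mk 0x1000000010000000100000001000000000 0x2c000000ff0000003e0000001e0000007800000028 8 8) 0 0 (step_sound _ 99 [(rhc9613fc5bab58382.shift 1 1), rhd54f51bffaf9c7cd, (rhd8406b09026060f8.shift 2 1)] (by decide +kernel))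
noncomputable def rhbd07a21262597418 : CRef := CRef.mk (Pat.mk 0x1800000010000000100000001000000000 0x27000000fe000000ff000000100000003800000028 8 8) 0 0 (step_sound _ 133 [(rh2f68792b6b779e96.shift 4 1), rhc935d6bf8d4554ca] (by decide +kernel))
noncomputable def rhb44e3c49199259fd : CRef := CRef.mk (Pat.mk 0x1000000010000000100000001000000000 0x28000000780000001e0000003e000000ff0000002c 8 8) 0 0 (step_sound _ 131 [(rh50fbb5868c909700.shift 3 1), rhf8585ff23c89dd9d] (by decide +kernel))
noncomputable def rhb220754ea8dc3fc1 : CRef := CRef.mk (Pat.mk 0x40000000400000004000000040000000000000000 0x4000000060000000e0000003e0000000f000000060000000400000004 8 6) 0 0 (step_sound _ 161 [(rh50fbb5868c909700.shift 1 2), rh8c10fbbf228246de] (by decide +kernel))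
noncomputable def rh00bcd0ccee83f75d : CRef := CRef.mk (Pat.mk 0x200000002000000020000000200000000 0x10000000700000007000000070000000300000007000000070000000200000002 8 3) 0 0 (step_sound _ 161 [rh0105b2139521f473, (rh3ca48e2a6d60153d.shift 0 1), (rhc85cc95794737cf7.shift 0 2), (rhefb655bc9dc4b926.shift 0 2)] (by decide +kernel))
noncomputable def rh909f5f45f67d0800 : CRef := CRef.mk (Pat.mk 0x1800000008000000280000000800000000 0x4000000040000000fe0000007c0000002f0000007800000038 8 8) 0 0 (step_sound _ 100 [(rh71222050f2c63a3a.shift 3 0), rhfc1c3ad1943f4ce4] (by decide +kernel))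
noncomputable def rhaf6204c18993da91 : CRef := CRef.mk (Pat.mk 0x80000000800000028000000000000000000000000 0xf40000007f0000007f000000280000002c0000000c00000004 8 8) 0 0 (step_sound _ 67 [(rh230196991b533796.shift 0 2), (rhc4526fc8abf298b6.shift 2 0), (rhcab3157f7bdcba3e.shift 2 0), (rhe1bcd80b5c7d4f4c.shift 1 1)] (by decide +kernel))
noncomputable def rhbbca3631809929ae : CRef := CRef.mk (Pat.mk 0x3800000010000000100000001800000000 0x70000003e000000770000001e0000003e00000020 8 7) 0 0 (step_sound _ 37 [(rh28b8ebab497582c2.shift 0 1), (rh55afc6a59410cf00.shift 4 0)] (by decide +kernel))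
noncomputable def rhd140198a1e07e6e1 : CRef := CRef.mk (Pat.mk 0x80000002800000008000000040000000000000000 0x40000001c0000001c000000380000002c0000002f0000007f0000003c0000001000000010 8 7) 0 0 (step_sound _ 68 [(rh2977b00063528966.shift 3 0), (rh2f6cd3183cec8379.shift 2 2), (rh91282f98d4e8ad3c.shift 2 2), rha481642b2d2b8cd9, (rhe08572ddd8f22032.shift 0 1)] (by decide +kernel))
noncomputable def rhff2baf6a39e36bbe : CRef := CRef.mk (Pat.mk 0x200000002000000020000000000000000 0x1000000070000000700000007000000070000000300000003000000070000000600000006 8 3) 0 0 (step_sound _ 161 [rh8ff3dde5b1c639e0, (rh916fd83c93fa81d6.shift 0 2), (rhc85cc95794737cf7.shift 0 2), (rhe0bb19a74dac0e8f.shift 0 1), rhf517b930ee0bd92d] (by decide +kernel))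
noncomputable def rh00491062ae4d4dbe : CRef := CRef.mk (Pat.mk 0xc00000008000000280000001c 0xf30000007e0000006f0000002f0000003f 8 8) 0 0 (step_sound _ 100 [(rh2f68792b6b779e96.shift 3 0), rh8effc0bc40fc9a1f] (by decide +kernel))
noncomputable def rh23178b7cc2693d64 : CRef := CRef.mk (Pat.mk 0x2000000020000000200000002 0x400000007000000070000000700000006000000070000000700000002 8 3) 0 0 (step_sound _ 129 [(rh44f453b84f013105.shift 1 0), rhbdb34f420224b15e, (rhc85cc95794737cf7.shift 0 1), (rhd9c1e4fd1769baf3.shift 0 1)] (by decide +kernel))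
noncomputable def rhf727dafe1d21a96a : CRef := CRef.mk (Pat.mk 0x1c00000008000000080000000c00000000 0xe30000007e000000ef0000001f0000000f00000001 8 8) 0 0 (step_sound _ 133 [(rha93a5dd541ab8209.shift 2 3), (rhaf9f2efc81a8312b.shift 1 3), rhcc315457aa11eb51] (by decide +kernel))
noncomputable def rh880c79128ec0fcff : CRef := CRef.mk (Pat.mk 0x2000000020000000200000002 0x500000007000000070000000600000007000000070000000700000003 8 3) 0 0 (step_sound _ 129 [rh1726a00b0a8befd0, rh18657af0f84e8ce8, rh20966da26a1c2ae8, (rh44f453b84f013105.shift 1 0), rh48b6caf271765322, (rhefb655bc9dc4b926.shift 0 1)] (by decide +kernel))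
noncomputable def rh7338b82a9f3f05a7 : CRef := CRef.mk (Pat.mk 0x2000000020000000200000002 0x500000007000000070000000300000007000000070000000700000003 8 3) 0 0 (step_sound _ 129 [rh1726a00b0a8befd0, rh3ca48e2a6d60153d, rh46ee9589056da47f, rh968ba7b0df7e4096, (rhd9c1e4fd1769baf3.shift 0 1)] (by decide +kernel))
noncomputable def rhb0ae520633f95e85 : CRef := CRef.mk (Pat.mk 0x2000000020000000200000002 0x100000007000000070000000700000003000000070000000700000002 8 3) 0 0 (step_sound _ 129 [rh3ca48e2a6d60153d, (rhc85cc95794737cf7.shift 0 1), (rhefb655bc9dc4b926.shift 0 1), rhf04ce9dde6ca99d0] (by decide +kernel))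
noncomputable def rh4e6c3aa15f584c5d : CRef := CRef.mk (Pat.mk 0x1000000010000000500000007c00000000 0xa0000000f0000000f8000000500000007e000000c7 8 8) 0 0 (step_sound _ 1 [rh1a003d2d6ee8bdf3, (rh80fcd6d0a18cb2dd.shift 1 0)] (by decide +kernel))
noncomputable def rh100456712886256d : CRef := CRef.mk (Pat.mk 0x2000000020000000a0000000f00000000 0x740000003e0000000f0000000a0000001f00000038 8 7) 0 0 (step_sound _ 4 [rh81929ebdcd88ced8, rh96851dee118c1ba3] (by decide +kernel))
noncomputable def rh59a980260ce8f69e : CRef := CRef.mk (Pat.mk 0x800000008000000280000000000000000 0x4000000fc0000007f0000007f0000002f0000003c00000014 8 8) 0 0 (step_sound _ 35 [(rh230196991b533796.shift 0 1), rh641b5241be04eec6, (rh771d065bdc85bf2d.shift 2 0)] (by decide +kernel))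
noncomputable def rhf51bb9e5ac73673b : CRef := CRef.mk (Pat.mk 0x8000000080000002800000000 0x1000000014000001fc000000ff000000fc0000002800000028 8 9) 0 0 (step_sound _ 132 [rh22d86f446f3de558, (rh43e04de95ca7b50e.shift 1 0), (rh5890386c1f942fa1.shift 3 1), (rh87d5e4118780fa3b.shift 3 0)] (by decide +kernel))
noncomputable def rh3ef9add1921aa745 : CRef := CRef.mk (Pat.mk 0x80000000800000008000000000000000000000000 0x140000001c0000001c0000000c0000001f0000007c0000000f0000000c0000000400000004 8 7) 0 0 (step_sound _ 132 [rh33285f5cb23dfeae, rh38c8ae4c14db107e, (rh751ea8b7d9ae00ec.shift 2 1), (rh8d78c49dee8c0e0c.shift 0 2), (rhbfb35f0d4f251661.shift 0 2), (rhf04156ac2116da42.shift 0 2)] (by decide +kernel))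
noncomputable def rh4e1664d2192b23aa : CRef := CRef.mk (Pat.mk 0x1c00000008000000280000000c00000000 0xe30000007e0000006f0000002f0000003f00000010 8 8) 0 0 (step_sound _ 36 [(rh55afc6a59410cf00.shift 3 0), (rh8effc0bc40fc9a1f.shift 0 1)] (by decide +kernel))
noncomputable def rh0e5d4c0fb0f5e081 : CRef := CRef.mk (Pat.mk 0x400000006000000020000000800000000 0x4000000040000003c0000007f0000007b0000000800000008 8 7) 0 0 (step_sound _ 162 [(rh5c5e593799055d58.shift 1 2), rhe41b82ee4046c96f] (by decide +kernel))
noncomputable def rh61d09aeeef5258b1 : CRef := CRef.mk (Pat.mk 0xc00000008000000280000001c00000000 0x530000007f0000007c0000002f0000007c00000060 8 7) 0 0 (step_sound _ 132 [(rh2f68792b6b779e96.shift 3 1), rh539f21f05a725cb0] (by decide +kernel))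
noncomputable def rh9fa5ffde405df940 : CRef := CRef.mk (Pat.mk 0xc00000008000000280000001c00000000 0x10000002f0000007f0000002f0000007e000000e3 8 8) 0 0 (step_sound _ 65 [(rh508d31626b5d2be8.shift 0 1), (rh54c49bb299227e8d.shift 0 1), rh6d975e8071206a4e, rhb8de812ad63e724c] (by decide +kernel))
noncomputable def rhda1f1b1a92b9da8d : CRef := CRef.mk (Pat.mk 0x800000008000000080000000000000000 0x140000001c0000001c0000001c0000003c0000000f0000000c0000000c0000000800000008 8 6) 0 0 (step_sound _ 163 [(rh1bdeccdac6a19781.shift 2 0), (rh5ee4dc8825dcefa0.shift 0 1), (rh8303e25b77b8b7bf.shift 2 0), (rhc85cc95794737cf7.shift 2 2), (rhf515f701b82bbaa6.shift 2 2)] (by decide +kernel))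
noncomputable def rh64fbb3f02bfa0964 : CRef := CRef.mk (Pat.mk 0x300000002000000020000000a0 0x3c7000001fe000003fc000000a0000000a0 8 10) 0 0 (step_sound _ 99 [(rh385a6fcc245c4e4f.shift 3 0), (rhb2afcb5db661472f.shift 0 2), (rhf5dc3031944634e1.shift 2 0)] (by decide +kernel))
noncomputable def rh8c6542221b0cffe4 : CRef := CRef.mk (Pat.mk 0x1e0000001a0000000800000000 0x150000001f0000001f0000000b0000001e0000001e0000000f00000004 8 5) 0 0 (step_sound _ 129 [(rh3244c3cc8379b070.shift 0 3), rhe070bfb7116d4f71] (by decide +kernel))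
noncomputable def rha908b852050d0c33 : CRef := CRef.mk (Pat.mk 0x80000000800000028000000000000000000000000 0xf40000007f0000007f00000028000000380000001800000010 8 8) 0 0 (step_sound _ 67 [(rh230196991b533796.shift 0 2), (rh8ff3dde5b1c639e0.shift 2 0), (rhc9de03f9731897d4.shift 3 0)] (by decide +kernel))
noncomputable def rh703f725ce197dbba : CRef := CRef.mk (Pat.mk 0x400000004000000040000001400000000 0x8000000fc0000007f0000007e0000001400000014 8 8) 0 0 (step_sound _ 131 [(rh2f68792b6b779e96.shift 2 1), rh43e04de95ca7b50e] (by decide +kernel))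
noncomputable def rh5c55772eba0aa2ba : CRef := CRef.mk (Pat.mk 0x3000000010000000100000005000000000 0x1cf000000fe000000f7000000500000005800000008 8 9) 0 0 (step_sound _ 131 [rh095d11db37e360fb, (rh50fbb5868c909700.shift 3 1)] (by decide +kernel))
noncomputable def rhf5f38b09cf03797e : CRef := CRef.mk (Pat.mk 0x400000003e00000020000000080000000c00000000 0x4000000040000000c30000007e000000230000001f0000000f00000001 8 8) 0 0 (step_sound _ 134 [(rh33e738c4ed385b9f.shift 3 4), rha61ea2035407f682] (by decide +kernel))
noncomputable def rhb6779b1ef703c5d9 : CRef := CRef.mk (Pat.mk 0x800000008000000080000000800000000 0xf40000007f000000ff000000080000001800000010 8 8) 0 0 (step_sound _ 130 [(rh50fbb5868c909700.shift 2 1), rh804b910d693ffeca] (by decide +kernel))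
noncomputable def rh6e5dc1df13655dbf : CRef := CRef.mk (Pat.mk 0x2000000040000000500000005000000000 0x270000007e000000f70000005000000050 8 8) 0 0 (step_sound _ 101 [(rh7b1f1fb55310c477.shift 5 0), rha43e05e5af517eab] (by decide +kernel))
noncomputable def rh3561d14314f27a7f : CRef := CRef.mk (Pat.mk 0x80000000a0000000a0000000800000000 0x40000000e0000000e0000000a0000000b0000001f00000017 8 5) 0 0 (step_sound _ 162 [rh0b6b924d1ee61398, (rhffd04209dc8ea796.shift 2 1)] (by decide +kernel))
noncomputable def rh3a45e8bf546107b3 : CRef := CRef.mk (Pat.mk 0x1000000014000000140000001000000000 0x20000000300000003400000014000000160000003e0000002f 8 6) 0 0 (step_sound _ 165 [rh1a45afd4bdbd59be, (rhbaefcd01e0a8bca3.shift 4 1)] (by decide +kernel))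
noncomputable def rhb585390fef5fea3f : CRef := CRef.mk (Pat.mk 0x8000000080000000a0000000a00000000000000000 0x140000001c0000001c0000000c0000000c0000001ee000000fe000000bf0000002000000020 8 9) 0 0 (step_sound _ 102 [(rh583ebdaf0a266cbf.shift 5 0), (rh812dac314b763352.shift 0 2)] (by decide +kernel))
noncomputable def rh72d5fd66b30b856f : CRef := CRef.mk (Pat.mk 0x80000000800000008000000080000000a000000020 0x800000008000000080000001ce000000fe0000003f 8 9) 0 0 (step_sound _ 38 [(rh79877ebd3ef475dd.shift 6 1), rh812dac314b763352] (by decide +kernel))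
noncomputable def rh1620575d6b220873 : CRef := CRef.mk (Pat.mk 0x8000000080000000a0000000a0 0x140000001c0000001c000000180000007c0000001fe000000fe000000bf 8 11) 0 0 (step_sound _ 38 [rh812dac314b763352, (rh9db89375629314b2.shift 4 0)] (by decide +kernel))
noncomputable def rh145fd0e0c3c30b9b : CRef := CRef.mk (Pat.mk 0x80000000a0000000a0 0x1000000010000001f8e00000ffe00000ebf 8 13) 0 0 (step_sound _ 38 [(rh2820ca9a6c4f41b4.shift 2 0), rh812dac314b763352, (rh908224c331c3ade2.shift 4 0), (rha11dfd15f08f96e3.shift 4 1)] (by decide +kernel))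
noncomputable def rh81f62f5d83c811c6 : CRef := CRef.mk (Pat.mk 0x1000000010000000100000001c000000040000000000000000 0x10000000140000001c0000001f0000001f000000070000000600000004 8 5) 0 0 (step_sound _ 131 [(rh5c5e593799055d58.shift 3 3), rh8258c5243468dac5] (by decide +kernel))
noncomputable def rhc8d6a9190a731122 : CRef := CRef.mk (Pat.mk 0x20000000200000002800000028 0x10000000700000007000000060000000300000007c0000002f 8 7) 0 0 (step_sound _ 134 [rh28774e2ed1db6703, (rhbaefcd01e0a8bca3.shift 5 0)] (by decide +kernel))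
noncomputable def rh10b6e5e97767c20b : CRef := CRef.mk (Pat.mk 0x80000000a000000020 0xffe000007fe00000e3f 8 12) 0 0 (step_sound _ 38 [(rh09e3b3c49517183d.shift 4 0), (rh2820ca9a6c4f41b4.shift 2 0), rh812dac314b763352, (rhff7d63dcb3cf9f74.shift 4 1)] (by decide +kernel))
noncomputable def rha24db61a32825c6c : CRef := CRef.mk (Pat.mk 0x200000002000000038000000280000000000000000 0x6000000060000000700000003f0000007c000000280000000800000008 8 7) 0 0 (step_sound _ 198 [rh38067e6b6ce141b5, (rhbaefcd01e0a8bca3.shift 5 2)] (by decide +kernel))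
noncomputable def rh046e4bc34261e00b : CRef := CRef.mk (Pat.mk 0x200000002800000028 0x4000000040000007e7000003fe000003af 8 11) 0 0 (step_sound _ 36 [rh2820ca9a6c4f41b4, (rh908224c331c3ade2.shift 2 0), (rha11dfd15f08f96e3.shift 2 1), rhb12ffaec36122c99] (by decide +kernel))
noncomputable def rh9e9838869082ab5a : CRef := CRef.mk (Pat.mk 0xc000000080000000a0000000a00000000000000000000000000000000 0x2000000020000000700000007e0000007f0000001e0000000a00000002000000070000000700000005 8 7) 0 0 (step_sound _ 228 [(rh2f68792b6b779e96.shift 3 4), rhc67c1d8c90c417d2] (by decide +kernel))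
noncomputable def rh026480372d4e8590 : CRef := CRef.mk (Pat.mk 0x8000000080000000a0000000a0000000000000000 0x140000001c0000001c0000000c0000000c000000ff0000007e000000eb0000000200000002 8 8) 0 0 (step_sound _ 98 [(rh09e3b3c49517183d.shift 0 2), (rh583ebdaf0a266cbf.shift 1 0), (rhcbcee4cac050a0d6.shift 0 2)] (by decide +kernel))
noncomputable def rhfe3366495e9ffdf4 : CRef := CRef.mk (Pat.mk 0x8000000080000000a0000000a 0x140000001c0000001c000000180000007c000001ff000000fe000000eb 8 9) 0 0 (step_sound _ 34 [rh09e3b3c49517183d, rh908224c331c3ade2, rh9db89375629314b2] (by decide +kernel))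
noncomputable def rh64b1be81531a57d3 : CRef := CRef.mk (Pat.mk 0x5800000010000000100000001000000000 0x3000000030000007f0000001f000000170000001400000010 8 7) 0 0 (step_sound _ 99 [(rh7b1f1fb55310c477.shift 3 0), (rhc00e3709da7a0ee4.shift 0 1)] (by decide +kernel))
noncomputable def rh04e65bbbd8253d93 : CRef := CRef.mk (Pat.mk 0x4000000050000000100000001000000000 0x20000000370000007e000000ff0000001e0000001800000008 8 8) 0 0 (step_sound _ 132 [(rh20966da26a1c2ae8.shift 3 0), (rh6afaa25bbddb952d.shift 0 1), (rhac09afe906154c2a.shift 1 0)] (by decide +kernel))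
noncomputable def rhe1031a9364470a9c : CRef := CRef.mk (Pat.mk 0x20000000a0000000a0000000a 0x1000000170000001f0000001e0000001a0000001a0000000a 8 5) 0 0 (step_sound _ 130 [(rhbaefcd01e0a8bca3.shift 1 0), rhf87bb549df8daa76] (by decide +kernel))
noncomputable def rh386a126d77437283 : CRef := CRef.mk (Pat.mk 0x1800000018000000100000001800000000 0x140000001f000000180000001f0000003f00000024 8 6) 0 0 (step_sound _ 67 [(rh5c5e593799055d58.shift 3 1), rhf2c48e0b4e983efd] (by decide +kernel))
noncomputable def rhb1362713869e4c29 : CRef := CRef.mk (Pat.mk 0x100000001400000014000000000000000000000000 0x200000003400000034000000160000003e0000003f00000028 8 6) 0 0 (step_sound _ 68 [(rh6c59ce14113da07f.shift 4 0), (rh8cdd36b03d57a2f6.shift 3 0), (rhb1e5de4461a46b0c.shift 0 1), (rhcab3157f7bdcba3e.shift 3 0)] (by decide +kernel))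
noncomputable def rh23b0710d39eabaa6 : CRef := CRef.mk (Pat.mk 0x1000000050000000100000001000000000 0x5000000050000000f7000000fe000001ef 8 9) 0 0 (step_sound _ 37 [(rh55afc6a59410cf00.shift 4 0), rhbdc6cf54b62ab269] (by decide +kernel))
noncomputable def rh4e533ecc461baf4c : CRef := CRef.mk (Pat.mk 0x1000000050000000100000001000000000 0x5000000050000000f7000000fe000001ef 8 9) 0 0 (step_sound _ 35 [(rh932754581e0f4330.shift 3 0), rhc6d41d49bc867876] (by decide +kernel))
noncomputable def rh84cefe9a12341663 : CRef := CRef.mk (Pat.mk 0x20000000200000002000000020000000000000000000000000000000000000000 0x20000000300000003000000030000000700000007000000070000000700000005 8 3) 0 0 (step_sound _ 129 [(rh6eff4158bb400f47.shift 0 2), (rh7928877f9bf74a91.shift 0 3), (rhe84e00c98653ad0c.shift 0 1), rhffc127fdad508eca] (by decide +kernel))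
noncomputable def rhc1bc272fe0800917 : CRef := CRef.mk (Pat.mk 0x20000000300000002000000020000000200000000000000000000000000000000 0x4000000060000000300000007000000060000000600000002000000070000000700000005 8 3) 0 0 (step_sound _ 258 [(rh2f68792b6b779e96.shift 1 5), rhc594cc7cce017515] (by decide +kernel))
noncomputable def rhcedf8ffb71b001a3 : CRef := CRef.mk (Pat.mk 0x8000000020000000a0000000600000000 0xa0000000a000000eb0000007e000000fc 8 8) 0 0 (step_sound _ 2 [(rh2145e1d24b96a57e.shift 1 0), rh2ffbad66362bf448] (by decide +kernel))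
noncomputable def rh4d4f211850216aef : CRef := CRef.mk (Pat.mk 0x400000001000000050000000300000000000000000 0x500000005000000057000000fe000001ef00000080 8 9) 0 0 (step_sound _ 70 [(rh1064b6e54f4078e6.shift 0 1), (rh3674cf208d5ab260.shift 4 1), (rh383598045977c91e.shift 2 1), (rh80d5a76dceac5bf5.shift 3 0)] (by decide +kernel))
noncomputable def rh6542d51f474da422 : CRef := CRef.mk (Pat.mk 0x40000000100000005000000070000000000000000000000000 0x40000000500000005f0000007e000000ef0000002800000020 8 8) 0 0 (step_sound _ 69 [rh13dcb419a0b3210d, (rhee230b994cc8b773.shift 5 2)] (by decide +kernel))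
noncomputable def rhae6fe62e351c2b9e : CRef := CRef.mk (Pat.mk 0x5000000010000000180000001c00000004 0x270000007e000000ff000000180000001c00000004 8 8) 0 0 (step_sound _ 133 [(rh2f68792b6b779e96.shift 4 1), rh4d8855e9b75aeeea] (by decide +kernel))
noncomputable def rhc3483395a5ab4625 : CRef := CRef.mk (Pat.mk 0x4000000010000000100000003c0000000000000000 0x30000000780000003e0000001e0000007f0000000400000004 8 7) 0 0 (step_sound _ 98 [(rh3244c3cc8379b070.shift 1 2), rhdcd02f3945d78570] (by decide +kernel))
noncomputable def rhb1810a69c36c5fc3 : CRef := CRef.mk (Pat.mk 0x80000000a0000000a000000000 0x4000000040000000c0000007ce000007fe000000bf00000080 8 11) 0 0 (step_sound _ 70 [(rh2820ca9a6c4f41b4.shift 2 1), (rh812dac314b763352.shift 0 1), (rha11dfd15f08f96e3.shift 4 2), (rhc9f53a4486069ec7.shift 4 0)] (by decide +kernel))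
noncomputable def rh35cc5a92726a4f59 : CRef := CRef.mk (Pat.mk 0x200000002000000028000000280000002000000000 0x400000006000000060000000200000007c0000002f0000007800000050 8 7) 0 0 (step_sound _ 198 [rh862b36e76af9d541, (rhbaefcd01e0a8bca3.shift 5 2)] (by decide +kernel))
noncomputable def rh74c528fa9eb44c36 : CRef := CRef.mk (Pat.mk 0x70000000100000005000000000 0x2000000020000000770000007e000000d70000005000000040 8 8) 0 0 (step_sound _ 133 [rh4e7e77cf47fd17c1, (rh95a80f84f48ac358.shift 5 0), (rhbfb5770941270498.shift 4 1)] (by decide +kernel))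
noncomputable def rh6ace141cc0a78dea : CRef := CRef.mk (Pat.mk 0x1e000000020000000a0000000000000000 0x1f0000003a0000000b0000001f0000001f 8 6) 0 0 (step_sound _ 100 [(rhe25b0a99195a5d59.shift 1 3), rhe440f16f623b3a36] (by decide +kernel))
noncomputable def rha428a30a5177aeb0 : CRef := CRef.mk (Pat.mk 0x160000001e00000000 0x1a0000001a0000003b0000001e0000001f00000030 8 6) 0 0 (step_sound _ 67 [rhcdda4b197feddfc7, (rheb0810cc63b001d8.shift 0 1)] (by decide +kernel))
noncomputable def rh277384a7f4a13b01 : CRef := CRef.mk (Pat.mk 0x1000000070000000100000005000000000 0x20000000770000007e000000d70000005000000040 8 8) 0 0 (step_sound _ 133 [(rh2f68792b6b779e96.shift 4 1), rh4e7e77cf47fd17c1] (by decide +kernel))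
noncomputable def rh07c634dd1b7a5168 : CRef := CRef.mk (Pat.mk 0x8000000020000000a0000000200000004 0xa0000000a000000eb0000007e000000fc 8 8) 0 0 (step_sound _ 34 [(rh2145e1d24b96a57e.shift 1 0), rh2ffbad66362bf448] (by decide +kernel))
noncomputable def rh8e6c767406b57c2c : CRef := CRef.mk (Pat.mk 0x80000002800000038000000100000000000000000 0x800000028000000ff000000ff000000e400000040 8 8) 0 0 (step_sound _ 67 [(rh157b220518f94713.shift 2 1), (rh69012675dfdb1a5b.shift 1 2), (rh81ff32de2979b8ba.shift 0 1), (rhf57052375c38e6f0.shift 2 0)] (by decide +kernel))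
noncomputable def rh9c3a4cc13b20a0de : CRef := CRef.mk (Pat.mk 0x40000000100000005000000030000000200000000000000000 0x40000000500000005f0000007e000000ef0000002800000020 8 8) 0 0 (step_sound _ 102 [rh13dcb419a0b3210d, (rhee230b994cc8b773.shift 5 2)] (by decide +kernel))
noncomputable def rha5711fb274b57f20 : CRef := CRef.mk (Pat.mk 0x1000000010000000100000003000000000 0x1000000010000007be000003fe000007cf 8 11) 0 0 (step_sound _ 35 [(rh932754581e0f4330.shift 3 0), rhdeb294b8773e6217] (by decide +kernel))
noncomputable def rh3e369f0a7fbda958 : CRef := CRef.mk (Pat.mk 0xa0000000a000000080 0x1000000010000001fbf00000ffe00000e8e 8 13) 0 0 (step_sound _ 38 [(rha11dfd15f08f96e3.shift 4 1), (rha9fbfd4bb8cf890b.shift 2 1), (rhdc5b620c3d0e408c.shift 4 0), rhe961aabeabc170e3] (by decide +kernel))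
noncomputable def rh27cc462555bb888a : CRef := CRef.mk (Pat.mk 0x4000000020000000a0000000a00000008 0x1000000170000001f0000001a0000001b0000000f00000008 8 5) 0 0 (step_sound _ 129 [(rh2f68792b6b779e96.shift 1 1), rhbbb314024c840ffd] (by decide +kernel))
noncomputable def rh8b4b780c77908410 : CRef := CRef.mk (Pat.mk 0x100000001000000000000000380000000000000000 0x100000003e0000001e000000ef0000007e0000001f00000008 8 8) 0 0 (step_sound _ 66 [(rh3b00e9e9432b8f40.shift 1 1), (rh592c7139d2c44767.shift 0 1), (rhbf18564f4153aed4.shift 1 0), (rhd4d93b7cc877a47b.shift 1 1)] (by decide +kernel))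
noncomputable def rh8c5613dbdb09f44b : CRef := CRef.mk (Pat.mk 0x20000000000000004000000078000000480000000000000000 0x100000007c0000001f0000004c00000078000000780000007c00000074 8 7) 0 0 (step_sound _ 131 [(rh3244c3cc8379b070.shift 2 3), rhc6ecd736b0441ddb] (by decide +kernel))
noncomputable def rheb55b086bf8c1a06 : CRef := CRef.mk (Pat.mk 0x800000008000000000000001e000000020000000000000000 0x80000000e000000370000001e0000003e0000000700000007 8 6) 0 0 (step_sound _ 129 [(rh3244c3cc8379b070.shift 0 3), rh67ad09856ded9a8b] (by decide +kernel))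
noncomputable def rh99c2a1845fc58480 : CRef := CRef.mk (Pat.mk 0x200000002000000060000000300000000000000000000000000000000 0x100000003000000070000001e0000000300000002000000070000000700000005 8 5) 0 0 (step_sound _ 163 [(rh18965a982d73c794.shift 0 4), rh8cfb1a99ecfeaa6e] (by decide +kernel))
noncomputable def rh19f46f25215a3856 : CRef := CRef.mk (Pat.mk 0x80000000200000002000000020000000000000000000000000000000000000000 0x40000001f0000000700000003000000030000000300000007000000070000000700000005 8 5) 0 0 (step_sound _ 129 [(rh20966da26a1c2ae8.shift 0 3), (rh5185aff44ac7341e.shift 0 4), rh8e7afb4ce2ebf224, (rhc4526fc8abf298b6.shift 0 2)] (by decide +kernel))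
noncomputable def rh0ffd28eb6491ba0c : CRef := CRef.mk (Pat.mk 0x20000000200000002000000000000000180000000000000000 0x200000002000000020000001e7000000fe000001ff00000040 8 9) 0 0 (step_sound _ 69 [(rh072ce4b569e16e7a.shift 4 1), (rh09916dc7d08ceeae.shift 2 1), (rh1199a7e8b12afa67.shift 1 1), (rh7f652c889515e47f.shift 0 1), (rhaf116c0614ce4772.shift 1 1), (rhb079c41d94df98a4.shift 2 0)] (by decide +kernel))
noncomputable def rh20e1e6a40e3c7911 : CRef := CRef.mk (Pat.mk 0x200000002800000008 0x3fc000001fc0000038f 8 10) 0 0 (step_sound _ 36 [(rh09e3b3c49517183d.shift 2 0), rh2820ca9a6c4f41b4, (rhff7d63dcb3cf9f74.shift 2 1)] (by decide +kernel))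
noncomputable def rh6061cbec65e34029 : CRef := CRef.mk (Pat.mk 0xc00000005000000040000000400000000 0x10000000700000007c0000007f000000640000006400000004 8 7) 0 0 (step_sound _ 99 [(rh71222050f2c63a3a.shift 2 0), (rhfea4b5d4977b5fa6.shift 0 1)] (by decide +kernel))
noncomputable def rh98b1f5f521715fac : CRef := CRef.mk (Pat.mk 0x80000000a0000000a0000000800000000 0x4000000ee0000007e000000eb0000000800000008 8 8) 0 0 (step_sound _ 130 [rh34a93c151b4b4607, (rh50fbb5868c909700.shift 2 1)] (by decide +kernel))
noncomputable def rh4eb66164c1e2113b : CRef := CRef.mk (Pat.mk 0x1000000008000000080000000a0000000a0000000800000000 0x40000001c0000001c000000080000000c0000001e0000000b0000001e00000014 8 5) 0 0 (step_sound _ 195 [(rh2f68792b6b779e96.shift 3 3), rhd0143aa5dbe454f2] (by decide +kernel))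
noncomputable def rh065d6b3912c9f62f : CRef := CRef.mk (Pat.mk 0x400000008000000080000000a0000000a0000000800000000 0x100000001c0000001c00000008000000180000001e0000000b0000001e00000014 8 5) 0 0 (step_sound _ 195 [rh35eb7b22430ef97e, (rh50fbb5868c909700.shift 2 3)] (by decide +kernel))
noncomputable def rh61495391eabd3e60 : CRef := CRef.mk (Pat.mk 0x4000000040000000c000000050000000000000000 0x400000014000000740000007c0000007f0000006000000060 8 7) 0 0 (step_sound _ 67 [(rh2145e1d24b96a57e.shift 2 2), rhfea4b5d4977b5fa6] (by decide +kernel))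
noncomputable def rh159fb53796176f35 : CRef := CRef.mk (Pat.mk 0xa0000000a0000000800000000 0x400000004000000f70000007e000000eb0000000a0000000a 8 8) 0 0 (step_sound _ 98 [(rh09e3b3c49517183d.shift 0 2), rh5bc090164f229948, (rh6f071b2982a02fe4.shift 1 0)] (by decide +kernel))
noncomputable def rhe89febb3a3618c4c : CRef := CRef.mk (Pat.mk 0x180000000c00000002000000020000000800000018 0x50000000f0000007b0000000f00000002000000030000000f00000019 8 7) 0 0 (step_sound _ 129 [(rh53b3c253cb0c65f4.shift 0 4), rhe411305559c6292c] (by decide +kernel))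
noncomputable def rhd2300a7a3115fedf : CRef := CRef.mk (Pat.mk 0x400000008000000080000001a00000002000000000000000000000000 0x100000001d0000001f0000000b0000000b0000001e00000003000000030000000100000001 8 5) 0 0 (step_sound _ 161 [(rh01e48cd9f335aa73.shift 0 3), (rh41337900a1779cda.shift 0 2), rh5c8c873042790be0] (by decide +kernel))
noncomputable def rhc8e16585d962bb95 : CRef := CRef.mk (Pat.mk 0x30000000500000003000000018 0xf0000007e000000de000000340000001e 8 8) 0 0 (step_sound _ 99 [(rh50fbb5868c909700.shift 3 0), rh85b3b73f596abc44] (by decide +kernel))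
noncomputable def rh9062f1b4a383590b : CRef := CRef.mk (Pat.mk 0x800000028000000280000000800000000 0xf0000000780000002f0000007c0000003e00000010 8 8) 0 0 (step_sound _ 68 [(rh1409e9f995b4c970.shift 1 0), (rha9fbfd4bb8cf890b.shift 0 2), (rhf0ba6d9011d881e7.shift 1 0)] (by decide +kernel))
noncomputable def rhe8a07b1ebe306a89 : CRef := CRef.mk (Pat.mk 0x20000000a0000000a00000002000000020000000100000000 0x3c0000001e0000000b0000000e0000000e000000060000000300000003 8 6) 0 0 (step_sound _ 33 [rh87a2596b5d3912bb, rh932754581e0f4330] (by decide +kernel))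
noncomputable def rh0a7bbcc1ebd1be36 : CRef := CRef.mk (Pat.mk 0x400000004000000040000000400000000 0x80000000c0000000c0000003f0000003f0000003a 8 6) 0 0 (step_sound _ 33 [rh1f0e294022ec1749, (rh932754581e0f4330.shift 1 0)] (by decide +kernel))
noncomputable def rhb5fd2a4531caccf4 : CRef := CRef.mk (Pat.mk 0xa0000000a000000080000000800000000 0x50000000700000007000000130000001e0000000b0000000f0000001900000010 8 5) 0 0 (step_sound _ 132 [(rh2f68792b6b779e96.shift 3 1), rhc88bbec83666372d] (by decide +kernel))
noncomputable def rhe70ade46415e09f3 : CRef := CRef.mk (Pat.mk 0x4000000040000001400000010000000100000001800000000 0xa0000000e0000000e00000004000000040000001600000016000000170000003e00000027 8 6) 0 0 (step_sound _ 226 [(rh1741680720c097b4.shift 1 4), rh24b0c8d93e572669] (by decide +kernel))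
noncomputable def rhdf8786e7b34ab0f4 : CRef := CRef.mk (Pat.mk 0x20000000a0000000a000000080000000800000000 0x500000007000000170000001a0000001a0000000b0000000f0000001900000010 8 5) 0 0 (step_sound _ 164 [rh1bb85fba5246ed3f, (rhbaefcd01e0a8bca3.shift 3 1)] (by decide +kernel))
noncomputable def rhd3a7265ec4e0e1e7 : CRef := CRef.mk (Pat.mk 0x20000000a0000000a000000080000000800000000 0x1000000130000001f0000001a0000000b0000000f0000001900000010 8 5) 0 0 (step_sound _ 164 [rha6feae150252ebbf, (rhbaefcd01e0a8bca3.shift 3 1)] (by decide +kernel))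
noncomputable def rh3d9d4ed01537b472 : CRef := CRef.mk (Pat.mk 0x100000005000000050000000400000004000000020000000000000000 0x20000000f0000000f0000000d0000000500000004000000040000000e0000000e00000008 8 4) 0 0 (step_sound _ 66 [rh4b72b10192f8e2d6, (rh932754581e0f4330.shift 1 1)] (by decide +kernel))
noncomputable def rh816f9fad0c9e8472 : CRef := CRef.mk (Pat.mk 0x20000000a0000000a0000000800000008000000040000000000000000 0x1000000130000001f0000001a0000000b0000000b0000000b0000001f0000001d00000010 8 5) 0 0 (step_sound _ 129 [rh722520fd85d64154, (rh93606bc2a0cc4aff.shift 0 3)] (by decide +kernel))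
noncomputable def rhf10668951ae0184a : CRef := CRef.mk (Pat.mk 0x20000000a0000000a0000000800000008000000040000000000000000 0x1d0000001f0000001a0000000b0000000b0000000b0000001f0000001d00000010 8 5) 0 0 (step_sound _ 129 [rh722520fd85d64154, (rhdc0d6a1e31bca9d6.shift 0 4)] (by decide +kernel))
noncomputable def rh24b8dfc83bedcbb9 : CRef := CRef.mk (Pat.mk 0x4000000020000000a0000000a00000008 0x1000000170000001f0000003a0000001e0000000b00000008 8 6) 0 0 (step_sound _ 129 [(rh2f68792b6b779e96.shift 1 1), rhc0548a6d3f57214b] (by decide +kernel))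
noncomputable def rh61d390d61f622432 : CRef := CRef.mk (Pat.mk 0x20000000a0000000a00000008 0x100000001c0000001c0000001c000000ff0000007e000000eb00000008 8 8) 0 0 (step_sound _ 99 [rh061d0e5123c81c7b, (rh1741680720c097b4.shift 2 0), rh39bac26a3afdee51, (rh50118a2af38f8326.shift 0 1)] (by decide +kernel))
noncomputable def rh44879776c2c6e341 : CRef := CRef.mk (Pat.mk 0x2000000020000000a0000000a000000080 0x150000001f7000001be000001e7000000a0000000a0 8 9) 0 0 (step_sound _ 132 [(rh50fbb5868c909700.shift 4 1), rh607fd3a059dabcfa] (by decide +kernel))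
noncomputable def rh17ab612a29fb130b : CRef := CRef.mk (Pat.mk 0x6000000020000000a0000000b00000008 0x730000003e0000007b0000001e0000000b00000008 8 7) 0 0 (step_sound _ 68 [rh234ffb82d1d5ba32, (rhb2a0b9ccfb5cecd5.shift 0 1)] (by decide +kernel))
noncomputable def rh48d12b16a7263a32 : CRef := CRef.mk (Pat.mk 0x1000000020000000a0000000a000000080000000800000000 0x40000001f0000001f0000001a0000000a0000000a000000180000001800000010 8 5) 0 0 (step_sound _ 193 [(rh50fbb5868c909700.shift 0 3), rhe8dd5b18280e9d90] (by decide +kernel))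
noncomputable def rhf696348383652baf : CRef := CRef.mk (Pat.mk 0x20000000a0000000a0000000000000000 0x500000007000000070000003e0000000a0000001b0000001f0000003d 8 6) 0 0 (step_sound _ 161 [(rh1741680720c097b4.shift 0 2), rh363aecca38732be8, (rh9ad50898512442c9.shift 0 1)] (by decide +kernel))
noncomputable def rhaf8c746725f0cb26 : CRef := CRef.mk (Pat.mk 0x30000000a0000000a0000000a000000000000000000000000 0x130000001e0000000a0000000b0000001b0000001f00000014 8 5) 0 0 (step_sound _ 64 [rh783787acb01f866b, (rh79877ebd3ef475dd.shift 0 2)] (by decide +kernel))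
noncomputable def rhd86de760b9387923 : CRef := CRef.mk (Pat.mk 0x30000000a0000000a0000000a0000000000000000 0x140000001e0000001b0000000a0000000a0000001f0000001300000001 8 5) 0 0 (step_sound _ 32 [(rh79877ebd3ef475dd.shift 0 1), rhb51a75106cefb72a] (by decide +kernel))
noncomputable def rh101fc1717377c25b : CRef := CRef.mk (Pat.mk 0x400000004000000140000001c00000000 0xa0000001f0000003c000000140000003e00000072 8 7) 0 0 (step_sound _ 33 [rh01e80c9d3d7bd2e9, (rh932754581e0f4330.shift 1 0)] (by decide +kernel))
noncomputable def rhbd728c65a80743f0 : CRef := CRef.mk (Pat.mk 0x2000000020000000a0000000a00000000000000000000000000000000 0x40000001e0000003f0000001a0000000a0000001f0000007d0000001c0000001400000014 8 7) 0 0 (step_sound _ 258 [(rhbaefcd01e0a8bca3.shift 1 4), rhffa37fad5ee06a89] (by decide +kernel))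
noncomputable def rh22509315904f76d0 : CRef := CRef.mk (Pat.mk 0x280000002800000028000000000000000000000000 0x28000000280000007c000001ff0000007c00000050 8 9) 0 0 (step_sound _ 69 [(rh8cdd36b03d57a2f6.shift 4 0), rh9068a4ce54bd881f, (rhc486ae0fcc44be52.shift 2 1)] (by decide +kernel))
noncomputable def rh2ac7190ebb3b9c2e : CRef := CRef.mk (Pat.mk 0x100000001000000010000000580000000000000000 0x1000000014000000170000001f0000007f0000000300000003 8 7) 0 0 (step_sound _ 99 [(rh5c5e593799055d58.shift 3 2), rh92a4df4963de3427] (by decide +kernel))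
noncomputable def rh53475b098407fd19 : CRef := CRef.mk (Pat.mk 0x20000000a0000000a00000000000000000000000000000000 0x500000007000000070000000a0000000a0000001f0000001f0000003d0000000400000004 8 6) 0 0 (step_sound _ 225 [(rh1741680720c097b4.shift 0 4), (rh363aecca38732be8.shift 0 2), (rh605ef5a5ae48f4b0.shift 1 0)] (by decide +kernel))
noncomputable def rhae61b4a80123261b : CRef := CRef.mk (Pat.mk 0x20000000a0000000a0000000000000000 0x50000000700000007000000070000000a0000000b0000001b0000001f0000003d 8 6) 0 0 (step_sound _ 161 [(rh1741680720c097b4.shift 0 2), (rh193da7fc9e1674f1.shift 0 1), (rh20966da26a1c2ae8.shift 0 1), rh363aecca38732be8, (rh771d065bdc85bf2d.shift 0 1)] (by decide +kernel))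
noncomputable def rh3fa61604c77d8256 : CRef := CRef.mk (Pat.mk 0x20000000a0000000a000000080000001000000000 0x500000007000000070000000b0000000a0000000b0000001f0000003300000001 8 6) 0 0 (step_sound _ 68 [(rh2145e1d24b96a57e.shift 3 1), rhbea8fa60c8478ac3] (by decide +kernel))
noncomputable def rhdb70ec344973fff1 : CRef := CRef.mk (Pat.mk 0x14000000140000001000000000 0x80000002a0000003e000001ff000000fc000001d70000003e00000006 8 9) 0 0 (step_sound _ 99 [(rh09e3b3c49517183d.shift 1 2), (rh0aefef67a4f5e36d.shift 1 1), rh78ca88bbe8b82146, rhb1cb9ef765eda7cc] (by decide +kernel))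
noncomputable def rh82dd7d03c92971c1 : CRef := CRef.mk (Pat.mk 0x20000000a0000001a00000002 0x1000000070000001f0000000e0000000b0000001e00000032 8 6) 0 0 (step_sound _ 34 [(rh3244c3cc8379b070.shift 0 1), rhe20dae37a7d35570] (by decide +kernel))
noncomputable def rh3ff525876cc87449 : CRef := CRef.mk (Pat.mk 0x300000006000000020000000a0000001a00000002000000000000000000000000 0x30000001e0000000a0000000a0000001a00000013000000170000001f00000004 8 5) 0 0 (step_sound _ 227 [rhace61e953d1da71a, (rhf48373e13d2bc128.shift 0 7)] (by decide +kernel))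
noncomputable def rhcc321364c9282ea5 : CRef := CRef.mk (Pat.mk 0x580000001800000000000000000000000000000000 0x8000000780000001f00000030000000380000003800000028 8 7) 0 0 (step_sound _ 130 [rh0f2f5a94e5b54817, (rh361cc68994bd8a63.shift 2 4)] (by decide +kernel))
noncomputable def rh6fdd923b7d7b501e : CRef := CRef.mk (Pat.mk 0x800000028000000280000000800000000 0x30000000780000002f0000007c0000001e00000010 8 7) 0 0 (step_sound _ 68 [(rh1409e9f995b4c970.shift 1 0), (rha9fbfd4bb8cf890b.shift 0 2), rhdc0fae2126abe0b5] (by decide +kernel))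
noncomputable def rhd0e10b4e356a2922 : CRef := CRef.mk (Pat.mk 0x2000000020000000a000000020000000200000000000000000000000000000000 0x2000000030000003f000000060000000700000003000000070000000700000005 8 6) 0 0 (step_sound _ 97 [rh5260ceaa01eafaa9, (rh7928877f9bf74a91.shift 0 2), (rha57f73c097f86f2b.shift 0 2), rhd2b043a5d883d101] (by decide +kernel))
noncomputable def rh38259dad984bddbd : CRef := CRef.mk (Pat.mk 0x100000005000000050000000000000000000000000 0x100000005f000001fe000001ff000001b8000000a8 8 9) 0 0 (step_sound _ 101 [rh07693351fde3b739, (rh3f01d519c89dae69.shift 2 0), (rha9fbfd4bb8cf890b.shift 1 3), (rhe8ea5f2a637fddf3.shift 3 1)] (by decide +kernel))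
noncomputable def rh4d626123b2e99a15 : CRef := CRef.mk (Pat.mk 0x20000000a0000000a0000000000000010000000100000000000000000 0x4000000060000000b0000001e0000001b0000003f0000003f0000000700000001 8 6) 0 0 (step_sound _ 164 [rh0c2f4b02e0e0aed2, (rh2613c889e411427e.shift 3 2)] (by decide +kernel))
noncomputable def rh86d8ff41a45f031c : CRef := CRef.mk (Pat.mk 0x1e0000001e000000000000000000000000 0x1e0000001e0000003b0000001f0000001f 8 6) 0 0 (step_sound _ 65 [rh41eabee7f4bf7591, (rheb0810cc63b001d8.shift 0 2)] (by decide +kernel))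
noncomputable def rhda1f519ec6e6d4d6 : CRef := CRef.mk (Pat.mk 0x60000001e000000000000000000000000 0x360000001e0000003f0000000f00000007 8 6) 0 0 (step_sound _ 132 [(rh33e738c4ed385b9f.shift 1 3), rh6fb4c1ed0bc7fafa] (by decide +kernel))
noncomputable def rhf842068f6e58ff86 : CRef := CRef.mk (Pat.mk 0x100000002000000020000000a0000000a00000002000000010000001000000000 0x10000000300000002000000020000000a0000000e0000001e0000001b0000001f00000014 8 5) 0 0 (step_sound _ 257 [(rh50fbb5868c909700.shift 0 5), rh92905a14a5924c32] (by decide +kernel))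
noncomputable def rh1e63c8bf9f0b850e : CRef := CRef.mk (Pat.mk 0x100000002000000020000000a0000000a00000000000000100000001000000000 0x4000000070000000700000002000000020000000a0000001a0000001f0000001f0000003f00000005 8 6) 0 0 (step_sound _ 97 [(rh0a5277e23879c9de.shift 0 1), rh1659a3368b863534, (rh3da9c40ca9e6de97.shift 0 1), (rh59dfbba68678bb8f.shift 0 1), (rh8cdd36b03d57a2f6.shift 0 1), rhef3ba3c62dc7a15c] (by decide +kernel))
noncomputable def rh3f2a5be9bec61bba : CRef := CRef.mk (Pat.mk 0x1000000010000000000000002000000020 0x1000000038000001ff000000fe000001ff 8 9) 0 0 (step_sound _ 36 [rhd01ee1ae2d45971d, (rhff0f29cb645b05f7.shift 4 0)] (by decide +kernel))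
noncomputable def rh36ba5bf4f64a45f2 : CRef := CRef.mk (Pat.mk 0x20000000a0000001a000000000000001000000010 0x2000000020000006b0000007e0000006c0000003c00000014 8 7) 0 0 (step_sound _ 98 [(rh3244c3cc8379b070.shift 0 3), (rh6cacf9973f44fd0a.shift 1 0)] (by decide +kernel))
noncomputable def rh842d5d10a16ac888 : CRef := CRef.mk (Pat.mk 0x1400000014000000100000001000000000 0x20000000200000006000000260000003c00000016000000370000001e0000000b 8 6) 0 0 (step_sound _ 133 [(rh2f68792b6b779e96.shift 4 1), rh7b8563c70e04f408] (by decide +kernel))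
noncomputable def rha12cb9a6a490391a : CRef := CRef.mk (Pat.mk 0x100000001400000014000000100000001000000000 0x2000000020000000f0000001e0000003400000016000000370000001e0000000b 8 6) 0 0 (step_sound _ 163 [rh09ed511f34c217be, (rh50fbb5868c909700.shift 3 2)] (by decide +kernel))
noncomputable def rh919441945b1ab801 : CRef := CRef.mk (Pat.mk 0x80000002800000028000000000000000000000000 0x20000000280000002f0000007e000000fe0000005400000054 8 8) 0 0 (step_sound _ 100 [(rh53a9eca71b4a4b8f.shift 2 0), (rh91883fc11fdbd862.shift 1 0), (rha9fbfd4bb8cf890b.shift 0 3)] (by decide +kernel))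
noncomputable def rhe61a28b10c93962f : CRef := CRef.mk (Pat.mk 0x2000000030000000a0000000a00000002000000000000000000000000 0x140000001e0000001b0000001a0000000b0000001e0000003c0000001000000010 8 6) 0 0 (step_sound _ 226 [(rh2f68792b6b779e96.shift 1 4), rhc556797fa8fb9818] (by decide +kernel))
noncomputable def rhecd62797750141f6 : CRef := CRef.mk (Pat.mk 0x70000000400000000000000000 0x140000001c0000001c0000001f0000007e0000007f0000001c0000001c 8 7) 0 0 (step_sound _ 99 [(rh0de499e0455c9c14.shift 1 2), (rh36eba2a3de447758.shift 0 2), (rhc98c1f4f583d33e4.shift 2 0), (rhd006db0d9f9b2ec7.shift 2 0), (rhd1d05263fabc0227.shift 1 2)] (by decide +kernel))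
noncomputable def rhc27be619e28bd394 : CRef := CRef.mk (Pat.mk 0x1000000050000000100000001000000000 0x5000000050000000f7000000fe000001ef 8 9) 0 0 (step_sound _ 35 [(rh932754581e0f4330.shift 3 0), rhf341e6e58aa99e84] (by decide +kernel))
noncomputable def rhe18c383aded3573c : CRef := CRef.mk (Pat.mk 0x20000001e00000000000000000000000000000000 0x50000000700000007000000060000001e00000007000000070000000700000005 8 5) 0 0 (step_sound _ 97 [rhce1a07ba380b9e1c, (rheb0810cc63b001d8.shift 0 3)] (by decide +kernel))
noncomputable def rh25b7be8e06c400e6 : CRef := CRef.mk (Pat.mk 0x180000001a0000001a000000300000000000000000 0x11000000170000003f0000001b0000001b000000f70000000700000005 8 8) 0 0 (step_sound _ 228 [rhb2b3bc57f88669aa, (rhee230b994cc8b773.shift 3 3)] (by decide +kernel))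
noncomputable def rheac00100e35d8266 : CRef := CRef.mk (Pat.mk 0x200000002000000020000000200000000 0x50000000700000007000000020000000200000003000000070000000700000004 8 3) 0 0 (step_sound _ 34 [(rh55afc6a59410cf00.shift 1 0), (rh7814e101873e2401.shift 0 1)] (by decide +kernel))
noncomputable def rh6746ddf1a36b89eb : CRef := CRef.mk (Pat.mk 0x2c0000001c000000180000000000000000 0x20000000200000002c0000007f0000001b0000000f0000000e 8 7) 0 0 (step_sound _ 35 [(rh7b1f1fb55310c477.shift 2 0), rh88951a4da7bb05fe] (by decide +kernel))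
noncomputable def rh905938542dfca92c : CRef := CRef.mk (Pat.mk 0x1c00000018000000000000000000000000 0x600000006000000070000001f0000001f000000070000000700000005 8 5) 0 0 (step_sound _ 129 [rh84efdb14278181c3, (rhb739f4f82bb681b4.shift 0 3)] (by decide +kernel))
noncomputable def rh0a49a342f988dc02 : CRef := CRef.mk (Pat.mk 0x6000000170000000400000000 0xa0000000e0000000e000000140000001e000000170000003e00000008 8 6) 0 0 (step_sound _ 100 [(rh361cc68994bd8a63.shift 0 2), rhafaca9a1819cc53b] (by decide +kernel))
noncomputable def rh05ae901ca813c312 : CRef := CRef.mk (Pat.mk 0x8000000280000001800000018000000000000000000000000 0x200000007c0000002f000001fe000000f8000001ec0000004800000040 8 9) 0 0 (step_sound _ 101 [(rh28ede77979bfd713.shift 2 0), (rh4a0cb3a9508b05dd.shift 2 2), (rh802cdfb13477c77f.shift 0 1)] (by decide +kernel))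
noncomputable def rhcd34ef2683b4bb6b : CRef := CRef.mk (Pat.mk 0x100000001800000018000000180000000000000000 0x340000001f000000ff0000007f0000000600000006 8 8) 0 0 (step_sound _ 101 [(rh2612b4f73ba7c3b3.shift 2 2), rh51de2d9833731a7e, (rhb762f327c85d41a0.shift 2 2)] (by decide +kernel))
noncomputable def rh68b3da46267c20a3 : CRef := CRef.mk (Pat.mk 0x140000000c0000000c0000000000000000 0x1000000012000000170000007f0000003f0000003400000004 8 7) 0 0 (step_sound _ 100 [(rh2612b4f73ba7c3b3.shift 1 2), rh6c5ef952db83b9bb, (rhb762f327c85d41a0.shift 1 2)] (by decide +kernel))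
noncomputable def rhec9a991f32d89675 : CRef := CRef.mk (Pat.mk 0x10000000140000003c00000000 0x1c0000001f0000007c0000001c0000007c00000004 8 7) 0 0 (step_sound _ 67 [rha734fb3532ac168f, (rhf48373e13d2bc128.shift 2 1)] (by decide +kernel))
noncomputable def rh6192025c8f82f342 : CRef := CRef.mk (Pat.mk 0x10000000180000001c0000000800000000 0xc0000000e0000001f0000001b0000007f0000000c00000004 8 7) 0 0 (step_sound _ 131 [(rh37d9ceebb86d75d1.shift 2 1), rh4b28d8e46a8dd5fc, (rh7b9fbdf6d2d059e4.shift 2 1)] (by decide +kernel))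
noncomputable def rhca7188c4a37f7a77 : CRef := CRef.mk (Pat.mk 0x80000000a0000001e00000012000000000000000000000000 0x60000000e0000000e0000001e00000016000000170000001700000003 8 5) 0 0 (step_sound _ 68 [rh6b53c99d0f9dc858, (rh7b1f1fb55310c477.shift 3 1)] (by decide +kernel))
noncomputable def rh448a76a2cc2faf17 : CRef := CRef.mk (Pat.mk 0x38000000040000000000000000 0xe0000000e0000000e0000000f0000007c0000000c0000000c0000000c 8 7) 0 0 (step_sound _ 130 [(rh4df35fbc131eb4ae.shift 0 3), (rh5d4f5d0600b1b55f.shift 1 0), (rhc88a7f9d3265eec9.shift 1 1), (rhe9d682012dbceb06.shift 2 2)] (by decide +kernel))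
noncomputable def rh576b091afd4e4699 : CRef := CRef.mk (Pat.mk 0x10000000100000001e000000000000000000000000 0xc0000000f0000001f0000001c0000001f0000000c0000000c00000004 8 5) 0 0 (step_sound _ 131 [(rh53b3c253cb0c65f4.shift 0 3), rh7e1aa4108f9642d0] (by decide +kernel))
noncomputable def rh5e64d88246caed71 : CRef := CRef.mk (Pat.mk 0x6000000040000000080000003800000004 0x70000007e000000ef000000080000003c00000006 8 8) 0 0 (step_sound _ 34 [rhbd30fffb93947b5d, (rheb0810cc63b001d8.shift 1 0)] (by decide +kernel))
noncomputable def rh31fc74b4b475ce31 : CRef := CRef.mk (Pat.mk 0x800000008000000080000000e00000000 0x50000000f0000001f0000000b0000001e00000013 8 5) 0 0 (step_sound _ 36 [rh20cd015da527ac81, (rh55afc6a59410cf00.shift 3 0)] (by decide +kernel))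
noncomputable def rhbc480da883e5c456 : CRef := CRef.mk (Pat.mk 0x20000000200000003c000000000000000000000000 0x24000000240000002e0000003f0000001f0000000800000008 8 6) 0 0 (step_sound _ 68 [(rh5c5e593799055d58.shift 4 2), rh6b238bd284d6063c] (by decide +kernel))
noncomputable def rh892dc9d699cbde68 : CRef := CRef.mk (Pat.mk 0x20000000000000003c000000140000000000000000 0x1c0000007c0000000f0000003c0000001c0000001f0000001e 8 7) 0 0 (step_sound _ 131 [(rh4821dcf828b9d7bf.shift 2 0), (rhadf429772c25fde0.shift 2 0), (rhb2c2c1a50ada0724.shift 1 1), rhc369afff83cd5edc, (rhd3776d0743605ca1.shift 0 1)] (by decide +kernel))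
noncomputable def rhdd6bd1e3d6c59b64 : CRef := CRef.mk (Pat.mk 0x8000000080000000f0000000000000000000000000 0x9000000090000000bf000000fe000000770000006000000060 8 8) 0 0 (step_sound _ 99 [(rh04797e9e06425c4e.shift 0 2), (rh6cdf0ce7194f9719.shift 2 0), (rhc7e126711c4875af.shift 0 2), (rhd5eb272e07a4e288.shift 2 3)] (by decide +kernel))
noncomputable def rha1679523e36f1f45 : CRef := CRef.mk (Pat.mk 0x8000000080000000f8000000000000000000000000 0xa0000000a0000000b7000000fe000000780000005000000050 8 8) 0 0 (step_sound _ 70 [(rh5c5e593799055d58.shift 6 2), rh657c6254087e5e89] (by decide +kernel))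
noncomputable def rh8b1f70e0578abaaa : CRef := CRef.mk (Pat.mk 0x100000001000000010000000000000000000000000 0x180000001800000018000000380000003f0000003c00000028 8 6) 0 0 (step_sound _ 68 [(rh8cdd36b03d57a2f6.shift 3 0), (rh8ff3dde5b1c639e0.shift 3 0), (rha1fbfdb48b318f22.shift 0 1), (rhc9ac229b3c77cd55.shift 3 1)] (by decide +kernel))
noncomputable def rhcfd1fcf13019b5f0 : CRef := CRef.mk (Pat.mk 0x3000000018000000280000000000000000 0x4000000040000000ec000000f8000000380000002f0000003c0000001c 8 8) 0 0 (step_sound _ 134 [(rh18965a982d73c794.shift 3 3), rh84e949c13db5466f] (by decide +kernel))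
noncomputable def rh101f68e389b596f3 : CRef := CRef.mk (Pat.mk 0x200000003800000050000000100000000000000000 0x1000000030000000780000005e000000fc000000ef0000000c 8 8) 0 0 (step_sound _ 99 [rh30f8ed8165fc88d4, (rh4dc133ee0ba1420a.shift 1 3), rh853776de505393b7] (by decide +kernel))
noncomputable def rha9263568bdb3b91b : CRef := CRef.mk (Pat.mk 0xc000000020000000a0000000000000000 0x400000004000000060000007e0000007e0000000b0000000a00000002 8 7) 0 0 (step_sound _ 162 [rhb637dd29b22214d1, (rhd918c3fd221dc9f8.shift 1 1), (rhe5ac811fba7144a3.shift 0 1)] (by decide +kernel))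
noncomputable def rh0d2b840b5ef62173 : CRef := CRef.mk (Pat.mk 0x100000001e000000100000000000000000 0x3000000038000000380000001f0000001e000000180000003000000030 8 6) 0 0 (step_sound _ 129 [(rh000f0aac0862950e.shift 1 0), (rh3244c3cc8379b070.shift 0 3)] (by decide +kernel))
noncomputable def rh5cc0decffb3a6887 : CRef := CRef.mk (Pat.mk 0x380000001c00000014 0x1ff000000fc000001f8000000380000003c00000014 8 9) 0 0 (step_sound _ 131 [(rhee230b994cc8b773.shift 2 0), rhf81377684843aa23] (by decide +kernel))
noncomputable def rh569774833124f14a : CRef := CRef.mk (Pat.mk 0x80000000a000000020 0x1f8e00000ffe00000e3f 8 13) 0 0 (step_sound _ 38 [(rh2820ca9a6c4f41b4.shift 2 0), rh812dac314b763352, (rha11dfd15f08f96e3.shift 4 1), (rhc71651cfcc703c30.shift 4 0)] (by decide +kernel))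
noncomputable def rhb919c3d6057db261 : CRef := CRef.mk (Pat.mk 0x1c000000060000000a0000000000000000 0x200000012000000330000001e0000003e0000000b0000001f0000001b 8 6) 0 0 (step_sound _ 33 [(rh71222050f2c63a3a.shift 1 0), rh95efd1cf0c5746a1] (by decide +kernel))
noncomputable def rh1c890ee3650d9f1b : CRef := CRef.mk (Pat.mk 0x600000003800000050000000100000000000000000 0x1000000070000000f80000005e000000fc000000ef0000000c 8 8) 0 0 (step_sound _ 99 [(rh4dc133ee0ba1420a.shift 1 3), rh853776de505393b7, (rhaf11573d62e172ac.shift 3 1)] (by decide +kernel))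
noncomputable def rhf233a9b9ef128e12 : CRef := CRef.mk (Pat.mk 0x4000000040000000400000004 0x1000000010000000fa0000007f000000fe0000000c00000004 8 8) 0 0 (step_sound _ 97 [rh32fbb0eb1e2a5a95, (rh50fbb5868c909700.shift 1 0)] (by decide +kernel))
noncomputable def rh0744da9a1063acfe : CRef := CRef.mk (Pat.mk 0x100000007000000000000000000000000 0x140000001c0000001c0000003f0000001f0000003c0000000c0000000c 8 6) 0 0 (step_sound _ 99 [(rh2aac33c566332a8c.shift 0 2), (rh790acd67f4fffd04.shift 0 3), rhbc61463a522fcd04] (by decide +kernel))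
noncomputable def rh60225b6de958a843 : CRef := CRef.mk (Pat.mk 0x80000000800000008000000080000000a00000002 0x80000000800000008000001fc000000fe000000e3 8 9) 0 0 (step_sound _ 34 [(rh79877ebd3ef475dd.shift 2 1), rhc71651cfcc703c30] (by decide +kernel))
noncomputable def rhf20a2a3deda29f8f : CRef := CRef.mk (Pat.mk 0x1000000008000000080000000e000000020000000000000000 0x18000000180000000f0000003e0000000e000000030000000300000003 8 6) 0 0 (step_sound _ 195 [(rh2f68792b6b779e96.shift 3 3), rhd7d75b5967375383] (by decide +kernel))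
noncomputable def rh4acdb1b9e0831e18 : CRef := CRef.mk (Pat.mk 0x20000000a000000020000000a000000020000000000000000 0x3d0000001f0000001a0000000a0000000a000000060000000600000004 8 6) 0 0 (step_sound _ 34 [rhb37d10878ef9fdff, (rhd3458b32566d63f7.shift 1 1)] (by decide +kernel))
noncomputable def rhca372d628e9408e6 : CRef := CRef.mk (Pat.mk 0x280000000800000008000000000000000000000000 0x140000001c0000001c000001cc000000f8000001df0000000c0000001c0000001c00000010 8 9) 0 0 (step_sound _ 195 [(rh0fd870c734e6c513.shift 2 2), (rh1726a00b0a8befd0.shift 2 2), (rh1d8c01cc4bee9202.shift 0 2), (rh886f06451707b754.shift 2 3), (rha935f04428b9b3d7.shift 2 0)] (by decide +kernel))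
noncomputable def rh535a4b914bcace7f : CRef := CRef.mk (Pat.mk 0x50000000100000001000000000 0x280000003f0000003e00000077000000180000001800000008 8 7) 0 0 (step_sound _ 132 [(rh0fd870c734e6c513.shift 3 0), (rh1741680720c097b4.shift 3 1), (rh3b734c5288922837.shift 3 0), (rh565169fdbcfbf9eb.shift 0 1)] (by decide +kernel))
noncomputable def rh6ab4eba411743c7b : CRef := CRef.mk (Pat.mk 0x1000000010000000100000001000000000 0x1000000010000003be000001fe000001ef 8 10) 0 0 (step_sound _ 35 [rh6a20d286960c1d2e, (rh932754581e0f4330.shift 3 0)] (by decide +kernel))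
noncomputable def rh7a09db8548eeddc2 : CRef := CRef.mk (Pat.mk 0x30000000080000002800000008000000000000000000000000 0x20000003a0000007e0000002f0000007e0000006c0000000400000004 8 7) 0 0 (step_sound _ 66 [(rh544d3caba1e1e2bb.shift 2 0), (rh599ad1a27924c7d1.shift 2 1), (rheb86abade925f4f9.shift 0 2)] (by decide +kernel))
noncomputable def rh2ac39a49fe6475ca : CRef := CRef.mk (Pat.mk 0x1800000018000000180000000000000000 0x6000000070000001f0000003f0000007f0000000700000004 8 7) 0 0 (step_sound _ 98 [rh08b442d520f588b0, (rh3c3e23a02e82b2ed.shift 0 2), (rh8e517fa6b945e71e.shift 0 1), rhcaeac74e46d2a375, (rhf56e6bc5d2f7fe77.shift 0 2)] (by decide +kernel))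
noncomputable def rh61e375759c4dd139 : CRef := CRef.mk (Pat.mk 0x200000002000000060000000100000000000000000000000000000000 0x10000000300000007000000060000000300000003000000070000000700000005 8 3) 0 0 (step_sound _ 129 [rh8cfb1a99ecfeaa6e, (rh932754581e0f4330.shift 0 3)] (by decide +kernel))
noncomputable def rhf190ca19591f9a36 : CRef := CRef.mk (Pat.mk 0x2000000020000000000000006000000000000000000000000000000000 0x7c0000003c0000003f0000007e000000ff000000380000003800000028 8 8) 0 0 (step_sound _ 132 [(rh6c53fa638f474bdf.shift 1 3), (rh7b072b6bc015633a.shift 1 0), (rh81a4bd9cd463d933.shift 0 2), (rhbf726fa7097229f2.shift 4 3)] (by decide +kernel))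
noncomputable def rhc015b38fa2840fae : CRef := CRef.mk (Pat.mk 0x80000000000000007000000040000000000000000 0x2800000028000000780000003f0000003e0000001400000014 8 7) 0 0 (step_sound _ 99 [(rh02ef15e22aa7db92.shift 2 0), (rh3fc3a7fb6866dcd4.shift 0 2), (rh5ebae181afaa248a.shift 0 2), rhf64e3cdee122ddfe] (by decide +kernel))
noncomputable def rh475a7000295d3586 : CRef := CRef.mk (Pat.mk 0x400000000000000038000000200000000000000000 0x4400000044000000ce0000007e000000370000000200000002 8 8) 0 0 (step_sound _ 102 [(rh5ebae181afaa248a.shift 3 2), rh9807e2531bf250a4] (by decide +kernel))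
noncomputable def rh1dd2f696837e3c63 : CRef := CRef.mk (Pat.mk 0x400000004000000000000000e00000000 0xa0000000e0000000e000000040000000400000006000000770000003e00000070 8 7) 0 0 (step_sound _ 36 [(rh3fc3a7fb6866dcd4.shift 1 0), (rh9e1996f91404ff23.shift 0 1)] (by decide +kernel))
noncomputable def rh05716328bcef2eda : CRef := CRef.mk (Pat.mk 0x10000000500000000000000030000000000000000000000000 0x5000000050000007d7000003fe000007ff000000a0000000a0 8 11) 0 0 (step_sound _ 99 [(rh61a0202de37988d6.shift 0 2), (rh6af0d2fe1336a515.shift 2 2), (rh6c53fa638f474bdf.shift 0 2), (rhbf726fa7097229f2.shift 3 2), (rhda6b3a426e23c4f9.shift 1 0)] (by decide +kernel))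
noncomputable def rh1fcb48d0a7215b0a : CRef := CRef.mk (Pat.mk 0x2000000020000000200000003000000000 0x2000000020000003fc000001fe000003c7 8 10) 0 0 (step_sound _ 38 [rh0f02edc349a8fd7d, (rh55afc6a59410cf00.shift 5 0)] (by decide +kernel))
noncomputable def rh45ae090f27ec4e0a : CRef := CRef.mk (Pat.mk 0x400000004000000040000000400000000 0x80000000c0000000c0000003f0000003f0000003a 8 6) 0 0 (step_sound _ 131 [(rh2f68792b6b779e96.shift 2 1), rh311b656578419992] (by decide +kernel))
noncomputable def rhb752505ce93c5e7d : CRef := CRef.mk (Pat.mk 0x80000000800000008000000080000000000000000 0x80000001c0000007e0000007f0000000c0000000c00000008 8 7) 0 0 (step_sound _ 66 [rh6c438e0caa8f5cea, (rh932754581e0f4330.shift 2 1)] (by decide +kernel))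
noncomputable def rh209830dfb45987f1 : CRef := CRef.mk (Pat.mk 0x800000000000000060000000c00000000000000000000000000000000 0x80000000c0000003e0000003f00000033000000070000000700000005 8 6) 0 0 (step_sound _ 132 [rhc327fd764d7dbb61, (rhf48373e13d2bc128.shift 1 4)] (by decide +kernel))
noncomputable def rh8c59c9ff7411e9ca : CRef := CRef.mk (Pat.mk 0x10000000000000000e00000018000000000000000000000000 0x1000000010000000330000003e0000001f000000070000000600000006 8 6) 0 0 (step_sound _ 132 [rh0c1247d2085639c7, (rh5ebae181afaa248a.shift 1 3)] (by decide +kernel))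
noncomputable def rhb21c060961e3c792 : CRef := CRef.mk (Pat.mk 0x800000002000000020000000200000000000000000000000000000000 0x740000003e00000077000000020000000200000007000000070000000700000005 8 7) 0 0 (step_sound _ 97 [(rhb51701da8fb469a0.shift 0 3), rhbaa2aa7a431bd100] (by decide +kernel))
noncomputable def rh2b5eeb633cc721d9 : CRef := CRef.mk (Pat.mk 0x800000008000000080000000800000000 0x8000000080000007f000000ff000000f4 8 8) 0 0 (step_sound _ 34 [rh8973603b931eab33, (rh932754581e0f4330.shift 2 0)] (by decide +kernel))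
noncomputable def rhf58170592c9731f0 : CRef := CRef.mk (Pat.mk 0x1800000018000000100000000000000000 0x1e000000ff000000ff0000000600000006 8 8) 0 0 (step_sound _ 101 [(rh79b3c29022acbdf3.shift 2 3), (rh810fa74b1681ba9e.shift 0 2), rhf132787c7cf85609] (by decide +kernel))
noncomputable def rh95b7e77470206b69 : CRef := CRef.mk (Pat.mk 0x40000000c0000000a0000000200000000 0xe4000000fe000001fb0000000200000002 8 9) 0 0 (step_sound _ 97 [(rh71222050f2c63a3a.shift 1 0), (rhc16212a59b74b245.shift 0 2)] (by decide +kernel))
noncomputable def rhb95a39b787e73e76 : CRef := CRef.mk (Pat.mk 0x2000000040000000100000001000000000 0x200000003800000038000001ff000003fe000003f7000003980000001800000018 8 10) 0 0 (step_sound _ 100 [(rh69b437885e194d7f.shift 3 0), (rh72ba651d9167611a.shift 0 1), (rhb7f088ebf5701d6e.shift 3 0), rhdeae53ad6bad283f] (by decide +kernel))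
noncomputable def rhf20b387dc6227e96 : CRef := CRef.mk (Pat.mk 0x6000000080000000a0000000a00000000 0x10000000f8000000ff000001fe0000000b0000000a00000002 8 9) 0 0 (step_sound _ 131 [(rh3ac383cd49d84f0e.shift 1 1), (rh44f2ec19b3452892.shift 0 1), (rh8ee80cc30e93a344.shift 0 3), rhdf1883e877820e72] (by decide +kernel))
noncomputable def rha578cc43a6fbb4ca : CRef := CRef.mk (Pat.mk 0xc000000100000001400000014 0x20000001f3000001fe000003f40000001400000014 8 10) 0 0 (step_sound _ 100 [(rh3ac383cd49d84f0e.shift 2 0), (rh44f2ec19b3452892.shift 1 0), rh6289f4ac4c624f40, (rh8ee80cc30e93a344.shift 1 2)] (by decide +kernel))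
noncomputable def rhfe1e47ed4d5b3fd8 : CRef := CRef.mk (Pat.mk 0x4000000080000000800000008 0x140000001c0000001c0000001c0000001f0000007c0000001800000008 8 7) 0 0 (step_sound _ 99 [(rh50fbb5868c909700.shift 2 0), rh51c02b70e3a8b8ce] (by decide +kernel))
noncomputable def rh4f8d498fddd05aa9 : CRef := CRef.mk (Pat.mk 0x1e0000000000000000 0x2800000038000000380000003f0000001e0000003800000018 8 6) 0 0 (step_sound _ 36 [rhdc33f0ce705a398b, (rhe25b0a99195a5d59.shift 1 1)] (by decide +kernel))
noncomputable def rh9b29d20d31abe80a : CRef := CRef.mk (Pat.mk 0x700000004000000000000000400000000 0x1c0000001c0000007c0000007f000000fc0000001c0000000400000004 8 8) 0 0 (step_sound _ 131 [(rh04b5a123ea5003fa.shift 0 3), (rh1c87c72915d1cd71.shift 1 1), (rh3fc3a7fb6866dcd4.shift 0 3), (rh63bb75a038171f49.shift 0 1), rhb4e0cb6c5e508224] (by decide +kernel))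
noncomputable def rhc3766c9fc34e3648 : CRef := CRef.mk (Pat.mk 0x40000000e00000008 0x3400000034000000ff000000fe000001f8 8 9) 0 0 (step_sound _ 98 [(rh2145e1d24b96a57e.shift 2 0), rh62d0b7e6eaa0d5fe] (by decide +kernel))
noncomputable def rh5cdcb5e9bcf1448e : CRef := CRef.mk (Pat.mk 0x18000000100000000400000014 0x1ff000000ff000001d40000001400000014 8 9) 0 0 (step_sound _ 98 [rh5c8f0f3c33484b2e, rhb3c9533f45f83bb3, rhb739122db6586aba, (rhc0495a3e94452ac3.shift 2 0)] (by decide +kernel))
noncomputable def rh3558deb219ab9504 : CRef := CRef.mk (Pat.mk 0x60000000400000001000000050 0x670000007e000000d70000005000000050 8 8) 0 0 (step_sound _ 133 [rh4ff48f80bb566260, (rh9e07f76261b05888.shift 5 0)] (by decide +kernel))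
noncomputable def rh07a92d1d27d8d30e : CRef := CRef.mk (Pat.mk 0xa000000020000000a000000020000000000000000 0x1000000010000000300000001e0000001f0000000a0000000b0000000300000001 8 6) 0 0 (step_sound _ 32 [(rh79877ebd3ef475dd.shift 0 1), rhf9579f65cc312aa8] (by decide +kernel))
noncomputable def rha4dc5b779161f430 : CRef := CRef.mk (Pat.mk 0xa000000020000000a000000020000000000000000 0x1000000010000000300000001e0000001f0000000a0000000e0000000600000004 8 6) 0 0 (step_sound _ 34 [(rhd3458b32566d63f7.shift 1 1), rhd6b377c49c03cc07] (by decide +kernel))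
noncomputable def rh0287ecaf9d16a783 : CRef := CRef.mk (Pat.mk 0x2000000020000000a000000020000000800000000 0x40000001600000016000000320000001e0000001f0000000800000008 8 6) 0 0 (step_sound _ 194 [rha996f40faaa47d07, (rhbaefcd01e0a8bca3.shift 1 2)] (by decide +kernel))
noncomputable def rhdc62e3f2cb59168e : CRef := CRef.mk (Pat.mk 0x20000000a000000020000000a000000030000000400000000 0x3d0000001f0000001a0000000a0000000a000000030000001e00000004 8 6) 0 0 (step_sound _ 33 [(rh55afc6a59410cf00.shift 1 0), (rhf5711e6cda93f8dd.shift 0 1)] (by decide +kernel))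
noncomputable def rh8dbf0dd41004c2ab : CRef := CRef.mk (Pat.mk 0x1e0000000200000000000000000000000000000000 0x10000000700000007000000370000001e0000003600000003000000070000000700000004 8 6) 0 0 (step_sound _ 193 [(rh3244c3cc8379b070.shift 0 5), rhfb26ac7b7317c22a] (by decide +kernel))
noncomputable def rh1552c8f69bd3f898 : CRef := CRef.mk (Pat.mk 0x1e00000002000000000000000000000000 0x4000000070000000700000007000000370000001e00000002000000070000000700000005 8 6) 0 0 (step_sound _ 161 [(rh3244c3cc8379b070.shift 0 4), rh77b326eeb7ddea82] (by decide +kernel))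
noncomputable def rhc2fd94868e3c6b1c : CRef := CRef.mk (Pat.mk 0x5800000008000000000000000000000000 0x30000000b0000007f0000001f000000370000001400000010 8 7) 0 0 (step_sound _ 98 [(rh361cc68994bd8a63.shift 2 3), rh5a981efdd1c06ef5] (by decide +kernel))
noncomputable def rh8fc26a479e7bdb9b : CRef := CRef.mk (Pat.mk 0x600000003000000000000000000000000000000000 0x40000001c0000001c0000005c0000007f0000007c0000007e0000003e0000003c00000018 8 7) 0 0 (step_sound _ 131 [(rh53b3c253cb0c65f4.shift 2 4), rh766f9586f57a1a1b] (by decide +kernel))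
noncomputable def rh554ae65e0771a29d : CRef := CRef.mk (Pat.mk 0xc0000000400000000000000000000000000000000 0xa0000000e0000000e0000000e0000000f0000003e0000003e0000000e0000000a 8 6) 0 0 (step_sound _ 98 [(rh15590a39afd9a120.shift 1 0), (rh28025ef24e5874a5.shift 0 2), (rh92b03e8c4eb7c7b3.shift 1 0), (rhf849c8472bff4b9d.shift 1 0)] (by decide +kernel))
noncomputable def rh07573a7ae4c5d78d : CRef := CRef.mk (Pat.mk 0x16000000020000000000000000 0x50000000700000007000000370000001e000000070000000600000006 8 6) 0 0 (step_sound _ 99 [rh5dc82c1d190162a9, (rheb0810cc63b001d8.shift 0 2)] (by decide +kernel))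
noncomputable def rh70dc3b864be67fb8 : CRef := CRef.mk (Pat.mk 0x2c000000000000000000000000 0xc0000000f0000003e0000007f0000000e0000000e 8 7) 0 0 (step_sound _ 100 [(rh008b05f4778dc30d.shift 0 2), (rh0d378fd9e8917c5a.shift 0 2), (rh6e14a657e8a9ad94.shift 1 0), (rh775ca1963e850b80.shift 0 2)] (by decide +kernel))
noncomputable def rh08e81bf9a3a3eadb : CRef := CRef.mk (Pat.mk 0xf0000000000000000000000000000000000000000 0x140000001c0000001c000000180000000f0000001c0000001c0000001c0000001c00000004 8 5) 0 0 (step_sound _ 131 [rh3d55c962efc97033, (rhe25b0a99195a5d59.shift 0 4)] (by decide +kernel))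
noncomputable def rh4d75d6c45626d783 : CRef := CRef.mk (Pat.mk 0x780000000800000000000000000000000000000000 0x100000001c0000001c0000001c000000d80000007c000000f80000001f0000001c0000001c00000014 8 8) 0 0 (step_sound _ 198 [(rh33e738c4ed385b9f.shift 3 5), rh462949f01729691b] (by decide +kernel))
noncomputable def rh38109f157fa9043f : CRef := CRef.mk (Pat.mk 0x180000000c000000000000000000000000 0x30000000b0000001f0000003f000000370000001400000010 8 6) 0 0 (step_sound _ 97 [(rh53b3c253cb0c65f4.shift 0 3), rha88a0bea46b2bd39] (by decide +kernel))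
noncomputable def rh166517108d68a8bd : CRef := CRef.mk (Pat.mk 0x58000000080000000800000000 0x100000001c0000001c0000001c0000005800000058000001f8000000ff000001f4 8 9) 0 0 (step_sound _ 131 [(rh12461e137161f2e1.shift 2 0), (rh7893e6c45bc3445b.shift 2 0), (rh8a6cff9a235067f2.shift 2 0), rha29ee7a1ca98d49b, rhb20dd801f506db0f, (rhc34dec65db64a3cb.shift 2 0)] (by decide +kernel))
noncomputable def rh4272b644dcd5aa54 : CRef := CRef.mk (Pat.mk 0xc000000180000000000000000 0x300000003c0000003f0000001f0000001f0000001b0000001b 8 6) 0 0 (step_sound _ 97 [(rhb739f4f82bb681b4.shift 0 2), rhf16dd60258258ea0] (by decide +kernel))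
noncomputable def rh1fec140cfbc87e7c : CRef := CRef.mk (Pat.mk 0xc00000018000000000000000000000000 0x30000000380000003f0000001f0000001f0000003b0000003a00000012 8 6) 0 0 (step_sound _ 129 [rh7e01063a2c3d9f95, (rhb739f4f82bb681b4.shift 0 3)] (by decide +kernel))
noncomputable def rh5a56954dd378e9e0 : CRef := CRef.mk (Pat.mk 0x40000002c0000000800000000000000000000000000000000 0x280000002c0000002f0000007c0000003f0000003f0000001400000004 8 7) 0 0 (step_sound _ 99 [(rh7b1f1fb55310c477.shift 2 2), rhe46518009099d575] (by decide +kernel))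
noncomputable def rh5ff3746593ce7bfb : CRef := CRef.mk (Pat.mk 0x40000002c00000008000000000000000000000000 0x7c0000007c0000006c0000003f0000007c000000760000007600000056 8 7) 0 0 (step_sound _ 194 [(rh2145e1d24b96a57e.shift 2 3), rh54b98e1e5f485867] (by decide +kernel))
noncomputable def rh386fe6f4e3d02a1f : CRef := CRef.mk (Pat.mk 0x800000018000000100000000000000000 0x3000000030000000340000001f0000001f000000f80000003e0000003e 8 8) 0 0 (step_sound _ 36 [rh2095657b577cfaf2, (rh7b1f1fb55310c477.shift 3 0)] (by decide +kernel))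
noncomputable def rhf2754d885c60c2a8 : CRef := CRef.mk (Pat.mk 0x1e0000001000000000000000000000000000000000 0x280000003800000038000000330000001e0000001800000038000000380000003800000008 8 6) 0 0 (step_sound _ 193 [(rh3244c3cc8379b070.shift 0 5), (rh3d55c962efc97033.shift 1 0)] (by decide +kernel))
noncomputable def rh7542810034a8c730 : CRef := CRef.mk (Pat.mk 0x600000003000000000000000000000000000000000 0x780000007c0000007c000000fc0000003e0000003f0000001c00000008 8 8) 0 0 (step_sound _ 131 [rh0413e58b4da5c19c, (rh53b3c253cb0c65f4.shift 2 4)] (by decide +kernel))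
noncomputable def rh3fc1cead129f33f2 : CRef := CRef.mk (Pat.mk 0x180000000c000000000000000000000000 0x3000000030000001f0000003f0000007f0000003400000030 8 7) 0 0 (step_sound _ 97 [(rh53b3c253cb0c65f4.shift 0 3), rhf9608739eff42b06] (by decide +kernel))
noncomputable def rha4b47c08dfafa4c0 : CRef := CRef.mk (Pat.mk 0xc0000000400000000000000000000000000000000 0x40000000e0000000e0000000e0000000e0000000f0000003e0000003e0000000e0000000a 8 6) 0 0 (step_sound _ 98 [(rh15590a39afd9a120.shift 1 0), (rh3820f35d5e705bec.shift 2 0), (rh52a02e7b1b221c52.shift 0 2), (rh947561ae8c5c3f87.shift 1 1), (rhfa50cc73c689e7d7.shift 1 0)] (by decide +kernel))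
noncomputable def rh4c8c688b28bbd5c9 : CRef := CRef.mk (Pat.mk 0x58000000480000000000000000000000000000000000000000 0x80000000b8000000f8000001d000000078000000d8000000fe000000ff000000fc000000f4000000a0 8 9) 0 0 (step_sound _ 131 [(rh15590a39afd9a120.shift 2 1), (rh6c806305b257ce29.shift 3 0), (rhee62d8c8b1e195e1.shift 0 1), (rhffb8e5993241bf15.shift 2 1)] (by decide +kernel))
noncomputable def rhe662c5a109152f47 : CRef := CRef.mk (Pat.mk 0xb00000009000000000000000000000000000000000 0x140000001c0000001c8000001af000000fe000000f7000001fe000001de0000010e0000000a 8 9) 0 0 (step_sound _ 163 [(rh13b7180d7541d2c3.shift 3 1), rh9253f1abbc890a40, (rhc29273f1bf96f971.shift 3 4), (rhcc517403f4f0e756.shift 0 2)] (by decide +kernel))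
noncomputable def rh257b7246c4570a29 : CRef := CRef.mk (Pat.mk 0x5800000048000000000000000000000000 0x10000000500000005c000000f8000000fc000000ff0000003e 8 8) 0 0 (step_sound _ 100 [rh9a47e5b5e1031eef, (rh9bb455da33111465.shift 2 0), (rhfd0f316c42bbba52.shift 2 3)] (by decide +kernel))
noncomputable def rhfd18628fa736ba2b : CRef := CRef.mk (Pat.mk 0xb0000000800000000000000000000000000000000 0x140000001c0000001c000000180000000f0000001c0000001c0000001c0000001c00000004 8 5) 0 0 (step_sound _ 162 [rh3d55c962efc97033, (rhe25b0a99195a5d59.shift 0 4)] (by decide +kernel))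
noncomputable def rhb494292580f1abd0 : CRef := CRef.mk (Pat.mk 0x1800000018000000000000000000000000 0x10000000140000001f000000ff0000007c0000003800000038 8 8) 0 0 (step_sound _ 67 [(rh55a3d2c159efd38c.shift 1 0), rhafa555fa2a1048b6, (rhea7a1800d6f053bd.shift 3 0)] (by decide +kernel))
noncomputable def rhc47488317cbcdc32 : CRef := CRef.mk (Pat.mk 0x1800000018000000000000000000000000 0x1400000014000000170000001f0000007f000000fb0000003b00000018 8 8) 0 0 (step_sound _ 130 [(rh6292bd8784ece55f.shift 1 3), (rha3972226d6d63d35.shift 2 0), (rhe2a30d43cffd6462.shift 0 1)] (by decide +kernel))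
noncomputable def rh7e34f96bddd5e911 : CRef := CRef.mk (Pat.mk 0x180000001800000000000000000000000000000000 0x100000005000000170000001f000000ff0000001f0000000f0000000f00000005 8 8) 0 0 (step_sound _ 99 [rhdd7055cbc7689a59, (rhea7a1800d6f053bd.shift 3 1)] (by decide +kernel))
noncomputable def rhe26e2ac687952f5f : CRef := CRef.mk (Pat.mk 0x5800000018000000000000000000000000 0x540000005f000000ff000000ef0000002c0000002c 8 8) 0 0 (step_sound _ 101 [rh6b84bc6e7c4d9b45, (rh70c6b6c826784699.shift 2 0), (rh79b3c29022acbdf3.shift 2 3)] (by decide +kernel))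
noncomputable def rhd226601aa5b2d41c : CRef := CRef.mk (Pat.mk 0x5800000018000000000000000000000000 0x1000000010000000100000005c000000f8000001ff000000fe000001ff 8 9) 0 0 (step_sound _ 164 [(rh1e309b005ffa1b36.shift 3 1), (rh70cfad7a15d735cc.shift 2 2), rhbfb5ae93cd8efb34] (by decide +kernel))
noncomputable def rh5fe87a4e490df4de : CRef := CRef.mk (Pat.mk 0x5800000018000000000000000000000000 0x600000006000000460000005e000000ff000000ff0000002c0000002c 8 8) 0 0 (step_sound _ 101 [(rh70c6b6c826784699.shift 2 0), (rh79b3c29022acbdf3.shift 2 3), rha432b88664897657] (by decide +kernel))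
noncomputable def rhbbcda363c6029991 : CRef := CRef.mk (Pat.mk 0x580000001800000000000000000000000000000000 0x100000005000000058000000ff000001ff000000ff0000007c00000024 8 9) 0 0 (step_sound _ 99 [(rh560c420e5d44cfab.shift 0 1), rh9cc1ebe6adba144f, (rhea7a1800d6f053bd.shift 3 1)] (by decide +kernel))
noncomputable def rh67c733abba0446c3 : CRef := CRef.mk (Pat.mk 0x3000000030000000000000000000000000 0x60000002e0000003e0000003e000001ff000000fe000001ff 8 9) 0 0 (step_sound _ 36 [rh1f9e8110a3d5ce35, (rh2c7fc7a7cc8a47be.shift 4 0), (rh5dc3aa472b02d75a.shift 2 0), (rh861c0accd35fad1b.shift 2 0)] (by decide +kernel))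
noncomputable def rh9dcb954df7023698 : CRef := CRef.mk (Pat.mk 0x5800000018000000000000000000000000 0x10000000500000005f000000ff000000f60000002000000020 8 8) 0 0 (step_sound _ 101 [rh487b1afaa0f1e283, (rh70c6b6c826784699.shift 2 0), (rh79b3c29022acbdf3.shift 2 3)] (by decide +kernel))
noncomputable def rh5901ace7067b7767 : CRef := CRef.mk (Pat.mk 0x300000006000000000000000000000000000000000 0x1c0000001f0000007c0000007f0000001c0000001c0000001c00000014 8 7) 0 0 (step_sound _ 163 [rh963e954187d4de2e, (rhb739f4f82bb681b4.shift 2 4)] (by decide +kernel))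
noncomputable def rha12f5c06c8588dea : CRef := CRef.mk (Pat.mk 0x10000000b000000000 0x3f000000fe000001ce 8 9) 0 0 (step_sound _ 38 [(rh3244c3cc8379b070.shift 3 1), rh819b9a4a15380371] (by decide +kernel))
noncomputable def rh096bcb781aae0385 : CRef := CRef.mk (Pat.mk 0x4000000040000000c00000000 0xa0000003e0000003f0000003f0000000c0000000e00000002 8 6) 0 0 (step_sound _ 130 [(rh3949a9a3df047322.shift 0 1), (rh4b783bb445d2d96a.shift 1 0), (rh762a1aeaf83c662a.shift 1 0), (rhbdecaeed4a59cb58.shift 1 0), (rhd0d01d2b9e5cc624.shift 1 0)] (by decide +kernel))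
noncomputable def rh98c672f14914ab51 : CRef := CRef.mk (Pat.mk 0x4000000040000002c00000000000000000000000000000000000000000000000000000000 0x40000000700000007c0000006c0000003f000001f8000001fe000001fc00000070000000700000007000000050 8 9) 0 0 (step_sound _ 197 [(rh013aed1a046daf0b.shift 0 3), (rh24c9ad7c5863ef66.shift 1 4), (rh3e18215144d4435e.shift 1 0), (rh6421c88b2ab4acb3.shift 2 4), (rh8060fc09b96a427d.shift 1 2)] (by decide +kernel))
noncomputable def rh3f5051c866d70e9e : CRef := CRef.mk (Pat.mk 0xa00000018000000000000000000000000 0x3800000038000000380000001f0000001f000000300000003000000030 8 6) 0 0 (step_sound _ 97 [rh8d14e2ae3be6c2bd, rhadfc8943d65ac1e6, rhc23f6eb63da853fe, (rhd8be3b7ca6adb62f.shift 0 3)] (by decide +kernel))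
noncomputable def rh1ad0c9217ad39fe2 : CRef := CRef.mk (Pat.mk 0x28000001600000000000000000 0x1000000050000003ff000001fe000003ff0000017f0000016c0000004c0000000c 8 10) 0 0 (step_sound _ 165 [(rh2f3de69418e6adca.shift 2 1), rh47d06f803397c215, (rh7fee6b6a9101034e.shift 2 1), rh992ad8ac5bfb98fe, (rhc304f60073899960.shift 2 1), (rhd40dcb56c55f03d0.shift 2 1), (rhfc47edda64480bc1.shift 4 1)] (by decide +kernel))
noncomputable def rh907de7166cb50b3c : CRef := CRef.mk (Pat.mk 0x2800000060000000000000000000000000 0x140000005c0000007c000000fc000001ff0000007c00000070000000d0000000d0000000c0 8 9) 0 0 (step_sound _ 132 [rh1bec56d117fd4aa6, (rhb739f4f82bb681b4.shift 2 3)] (by decide +kernel))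
noncomputable def rh3e4648ee4798bd6e : CRef := CRef.mk (Pat.mk 0x280000006000000000000000000000000000000000 0x1c0000001f0000007c0000007f0000001c0000001c0000001c00000014 8 7) 0 0 (step_sound _ 164 [rh963e954187d4de2e, (rhb739f4f82bb681b4.shift 2 4)] (by decide +kernel))
noncomputable def rh6f06e49d27a9508b : CRef := CRef.mk (Pat.mk 0x280000006000000000000000000000000000000000 0x540000007c0000007f0000007c0000006f0000007c000000de000000fc0000005c00000014 8 8) 0 0 (step_sound _ 131 [rh0871c99603043602, (rh17347e41b7f37c7f.shift 1 0), (rh8d14e2ae3be6c2bd.shift 2 1), (rh8d42293ee24181ff.shift 1 3), (rhae94b112a1ecd8a9.shift 0 1)] (by decide +kernel))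
noncomputable def rhb9e4789fd6e7fc4e : CRef := CRef.mk (Pat.mk 0x50000000c000000000000000000000000000000000 0x2000000038000001f8000001fe000001fe000000f7000000fe000001bf000001f8000001b800000038 8 9) 0 0 (step_sound _ 132 [(rh09c0c59504450ae9.shift 0 1), (rh17347e41b7f37c7f.shift 2 0), rh2cee4750d21868a9, (rh3c14758db1b2e75f.shift 3 1), (rh40e0c8b0874e2bff.shift 0 1), (rh672e5ec084d1aedf.shift 2 0), (rh809a1253f2420189.shift 1 1), (rhc23f6eb63da853fe.shift 3 1)] (by decide +kernel))
noncomputable def rh71f8adc749c8cd21 : CRef := CRef.mk (Pat.mk 0x280000006000000000000000000000000000000000 0x40000001c0000001c0000003c0000003f0000007c0000001c0000001c0000001c00000014 8 7) 0 0 (step_sound _ 162 [rhbcdfe97cbbee9280, (rhc10214bf3fe8094a.shift 2 4)] (by decide +kernel))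
noncomputable def rh98ca3cd0fdf52f9d : CRef := CRef.mk (Pat.mk 0x1800000018000000000000000000000000 0xc0000001c0000001f0000001f000000780000001e0000001800000018 8 7) 0 0 (step_sound _ 67 [(rh55a3d2c159efd38c.shift 1 0), (rhc8e6e99051961d3c.shift 0 1), (rhea7a1800d6f053bd.shift 3 0)] (by decide +kernel))
noncomputable def rhaa9178296703da32 : CRef := CRef.mk (Pat.mk 0xc0000000c000000000000000000000000 0xe0000000e0000000e0000000f0000007c0000001c0000001c 8 7) 0 0 (step_sound _ 67 [(rh3cb04db3dd2b6a55.shift 2 0), (rh929e5eb1290a5668.shift 1 0), rh9f65e75e8fb3d228] (by decide +kernel))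
noncomputable def rhf8133b70cf79fd8a : CRef := CRef.mk (Pat.mk 0xc0000000c000000000000000000000000 0x80000000e0000000f0000007c0000007e0000001c0000001c 8 7) 0 0 (step_sound _ 66 [rh55a3d2c159efd38c, (rhea7a1800d6f053bd.shift 2 0), (rheb9ec557e6a20437.shift 1 0)] (by decide +kernel))
noncomputable def rh7ab6f95944031941 : CRef := CRef.mk (Pat.mk 0xc0000000c000000000000000000000000 0x4000000060000000f0000007e0000007f0000007c0000001c 8 7) 0 0 (step_sound _ 67 [rh1525fb0628cce104, (rh3cb04db3dd2b6a55.shift 2 0), rh3f9c63b3d912531e] (by decide +kernel))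
noncomputable def rh3a53344aa48bddf8 : CRef := CRef.mk (Pat.mk 0x580000001800000000000000000000000000000000 0x1c0000003c0000005f000000580000005e000000f8000000700000002000000020 8 8) 0 0 (step_sound _ 195 [(rh28152048bc8b598f.shift 0 3), (rh3d2451c52b67fe55.shift 1 0), (rh55a1f6c57a317ce6.shift 3 2)] (by decide +kernel))
noncomputable def rh04c6af5a918d0242 : CRef := CRef.mk (Pat.mk 0x3000000030000000000000000000000000 0xff0000007e0000003f0000003e000000fe000000560000001600000010 8 8) 0 0 (step_sound _ 131 [(rh6292bd8784ece55f.shift 2 3), rhe19a836095b72aa7, (rhe2a30d43cffd6462.shift 1 1)] (by decide +kernel))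
noncomputable def rh0b3c3590f2057748 : CRef := CRef.mk (Pat.mk 0x1800000018000000000000000000000000 0x180000001800000018000000180000003c0000001f0000001c0000001c 8 6) 0 0 (step_sound _ 67 [(rh41f2c6fd1ed0512a.shift 0 1), rhe0a52f06a00dcf6c, (rhea7a1800d6f053bd.shift 3 0)] (by decide +kernel))
noncomputable def rh5dfb3791815b6bea : CRef := CRef.mk (Pat.mk 0x1800000018000000000000000000000000 0x180000001800000018000000180000003c0000001f0000007c0000007c 8 7) 0 0 (step_sound _ 67 [(rh41f2c6fd1ed0512a.shift 0 1), rh560c420e5d44cfab, (rhea7a1800d6f053bd.shift 3 0)] (by decide +kernel))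
noncomputable def rhd96e477cd7f06adf : CRef := CRef.mk (Pat.mk 0x600000006000000000000000000000000 0x400000006000000070000003e0000003f0000003f0000000f 8 6) 0 0 (step_sound _ 65 [rh45ebb5574bfcf660, (rhea7a1800d6f053bd.shift 1 0), rheb9ec557e6a20437] (by decide +kernel))
noncomputable def rh6f5d4b636400e4f3 : CRef := CRef.mk (Pat.mk 0x2c0000000c00000000000000000000000000000000 0x80000000c0000002c0000002c0000002f0000007c0000003f0000001c00000010 8 7) 0 0 (step_sound _ 99 [(rh36a6df2b3dd177a0.shift 0 1), (rh3cb04db3dd2b6a55.shift 2 1), rhaacbc26ca10d836c] (by decide +kernel))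
noncomputable def rh509015da7b49d54c : CRef := CRef.mk (Pat.mk 0x3000000010000000100000000000000000 0x280000003c000000ff0000007e0000003f0000003f000001ff000001f60000006600000060 8 9) 0 0 (step_sound _ 131 [(rh12b4fe866d47fa27.shift 0 1), (rh5d3fa09e2e98c6ef.shift 0 1), (rha7bd6ce1e976fe89.shift 0 1), (rhc31d2aa80b4d98ff.shift 1 0), (rhd02cbfb217ca1151.shift 0 1)] (by decide +kernel))
noncomputable def rh095c9ad63039ff52 : CRef := CRef.mk (Pat.mk 0x18000000080000000800000000 0x100000001c0000001c0000001f0000001f0000001e0000001f0000001c00000004 8 5) 0 0 (step_sound _ 131 [(rh11c66812f801e06e.shift 2 0), (rh762a1aeaf83c662a.shift 2 0), (rh7893e6c45bc3445b.shift 2 0), (rh796994ed9655fcac.shift 0 1), (rhdc06da1b963e9d53.shift 2 0), rheb86adf23b0f4f57, (rhecbdadbfef2034a9.shift 2 0)] (by decide +kernel))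
noncomputable def rhb06d029395a2d4d3 : CRef := CRef.mk (Pat.mk 0x18000000080000000800000000 0x100000001c0000001c0000001f0000001f0000001e0000001f0000000c00000004 8 5) 0 0 (step_sound _ 131 [(rh11c66812f801e06e.shift 2 0), rh64026281cb8af316, (rh762a1aeaf83c662a.shift 2 0), (rh7893e6c45bc3445b.shift 2 0), (rh796994ed9655fcac.shift 0 1), (rh8c5d8550c48c21f3.shift 2 0), (rhdc06da1b963e9d53.shift 2 0)] (by decide +kernel))
noncomputable def rhc4138b9119888c61 : CRef := CRef.mk (Pat.mk 0x600000002000000020000000000000000 0x40000000700000007000000030000000600000006000000070000000700000005 8 3) 0 0 (step_sound _ 161 [rh59280170108ae34f, rh66849a444b1d37bd, rh8cdd36b03d57a2f6, (rhd7cb8ed87e2022d8.shift 0 1)] (by decide +kernel))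
noncomputable def rh58f73dfb164eff92 : CRef := CRef.mk (Pat.mk 0x8000000180000000800000000 0x8000000180000001c0000001c0000001c0000001c000000ff00000074 8 8) 0 0 (step_sound _ 131 [(rhb15baf0c4e174b18.shift 2 0), rhcc245062980faa6d, (rhd4b4beefcd67f51e.shift 3 0)] (by decide +kernel))
noncomputable def rh128f612df318097e : CRef := CRef.mk (Pat.mk 0x200000006000000020000000000000000 0x70000000700000007000000070000000700000007000000030000000300000001 8 3) 0 0 (step_sound _ 161 [rh0c9ee98506dd5425, rh367118e0bf0473e0, rh6aa5625770489e83, rha016bb014f29ae56, rhb106de594f87c71e, (rhb15baf0c4e174b18.shift 0 1), (rhc4055b4872d6fb38.shift 0 1)] (by decide +kernel))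
noncomputable def rhf78f1f5ea867cdea : CRef := CRef.mk (Pat.mk 0x1000000030000000100000000000000000 0x8000000280000006e0000003e0000003e0000003e000000ff000000ee 8 8) 0 0 (step_sound _ 131 [(rh095df066704a2793.shift 2 0), (rh3b3c5f0896cd3517.shift 1 1), (rh50ff9beafed219d9.shift 1 0), (rh915d16b10f803709.shift 1 1), rhed03b5fb8ef3e670, (rhfa07de3497b06ba3.shift 1 0)] (by decide +kernel))
noncomputable def rh5666aa245e46f96d : CRef := CRef.mk (Pat.mk 0x58000000080000000800000000 0x40000001c0000001c0000005c00000058000001f8000000ff000001f4 8 9) 0 0 (step_sound _ 131 [(rh12461e137161f2e1.shift 2 0), (rh3a5b5c8a4729cf85.shift 2 0), (rh762a1aeaf83c662a.shift 2 0), rha193d2bc4aa4e82d, (rhc17b7d8fab3dfe57.shift 2 0), (rhd7cb8ed87e2022d8.shift 2 0)] (by decide +kernel))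
noncomputable def rh53e79ab146da0068 : CRef := CRef.mk (Pat.mk 0x2c0000000c000000000000000000000000 0x60000002f0000007f000000fc0000007f000000ff 8 8) 0 0 (step_sound _ 35 [rh7a5c5391dd170b5d, rha84c0eec207934c7, (rhdd1b84382d19bcbb.shift 2 0)] (by decide +kernel))
noncomputable def rhd1e9d0e555d20b83 : CRef := CRef.mk (Pat.mk 0x1800000018000000000000000000000000 0xc0000000c0000000c0000001c0000001f000000ff000000fc0000000c 8 8) 0 0 (step_sound _ 163 [(rh1ca57632399d2034.shift 2 1), rh1d6e62e92ca8bc21, (rh55a1f6c57a317ce6.shift 3 1)] (by decide +kernel))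
noncomputable def rh69099aa93e4d91c0 : CRef := CRef.mk (Pat.mk 0x1800000018000000000000000000000000 0x80000000800000018000000ff000000ff0000003e0000003e 8 8) 0 0 (step_sound _ 68 [rh0229a69b6ace6f6b, (rh3cb04db3dd2b6a55.shift 3 0), (rha0ffb5052e03d4a9.shift 1 0)] (by decide +kernel))
noncomputable def rhcdec31b70c0cc2ad : CRef := CRef.mk (Pat.mk 0x18000000180000000000000000 0xe0000000e0000000f0000001f0000003f0000003700000016 8 6) 0 0 (step_sound _ 131 [(rh55a1f6c57a317ce6.shift 3 0), (rh7e4f53079f8f5038.shift 0 1), rhad5b886cef6414f4] (by decide +kernel))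
noncomputable def rhc76dcc51cecc8451 : CRef := CRef.mk (Pat.mk 0x1800000018000000000000000000000000 0x10000000140000001f000000ff0000007c0000003c0000003c 8 8) 0 0 (step_sound _ 67 [(rh1d2317d9f1994660.shift 1 0), rhafa555fa2a1048b6, (rhea7a1800d6f053bd.shift 3 0)] (by decide +kernel))
noncomputable def rh5e8c20006d6f8863 : CRef := CRef.mk (Pat.mk 0x18000000080000000800000000 0xc0000001c0000001f0000001f0000001c0000000e0000007c00000014 8 7) 0 0 (step_sound _ 131 [rh0339d4d9000d3804, (rh55a026e6f690bbaf.shift 2 0), (rh762a1aeaf83c662a.shift 2 0), (rh91429c40af715d36.shift 2 0), (rhaba26d7b21102469.shift 2 0), (rhbbd854dc2b305b83.shift 2 0), (rhc17b7d8fab3dfe57.shift 2 0)] (by decide +kernel))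
noncomputable def rh2e269c541c7494b8 : CRef := CRef.mk (Pat.mk 0x1800000018000000000000000000000000 0x50000001d0000003f0000001f0000001f0000003f000000170000001700000005 8 6) 0 0 (step_sound _ 163 [(rh55a1f6c57a317ce6.shift 3 1), (rh7e4f53079f8f5038.shift 0 2), rhd652f3dcd67a598f] (by decide +kernel))
noncomputable def rhb761bd0c3098f57e : CRef := CRef.mk (Pat.mk 0x5800000018000000000000000000000000 0x20000001ff000001fe000003df0000005c000000f8000000700000003e00000038 8 10) 0 0 (step_sound _ 195 [(rh50f4b13c656de75b.shift 1 0), (rha5df79ab17c4ded6.shift 0 2), (rhda6cc5da102e1723.shift 3 2)] (by decide +kernel))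
noncomputable def rh3648b491b08017ae : CRef := CRef.mk (Pat.mk 0x2c0000000c00000000000000000000000000000000 0x40000002c0000002c0000003f000000780000003f0000001c00000010 8 7) 0 0 (step_sound _ 99 [(rh36a6df2b3dd177a0.shift 0 1), (rh3cb04db3dd2b6a55.shift 2 1), rh69214e42b9588364] (by decide +kernel))
noncomputable def rh4069f3985c24eef3 : CRef := CRef.mk (Pat.mk 0x580000001800000000000000000000000000000000 0x5000000170000003f0000005f0000005f0000005f000000f70000007f0000003d00000020 8 8) 0 0 (step_sound _ 129 [(rh275818b0b64b9ee8.shift 0 1), (rh65e8d289571528ea.shift 0 1), (rh77b284f264cca119.shift 1 0), (rhfb48a445bef9445e.shift 0 2)] (by decide +kernel))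
noncomputable def rh39308ac34155494c : CRef := CRef.mk (Pat.mk 0x1800000018000000000000000000000000 0x1a0000001a0000001f0000001f000000ff000000f40000003400000020 8 8) 0 0 (step_sound _ 163 [(rh55a1f6c57a317ce6.shift 3 1), rha7e1eae3051dcbd6, (rhbb7eb1bc9161fca5.shift 0 2)] (by decide +kernel))
noncomputable def rh58b46811ec0a3793 : CRef := CRef.mk (Pat.mk 0x2c000000000000000000000000 0x2c0000006f0000003e0000007f0000001e0000001e 8 7) 0 0 (step_sound _ 100 [(rh008b05f4778dc30d.shift 0 2), (rh6e14a657e8a9ad94.shift 1 0), (rh76ec80d0911a63d7.shift 1 0), (rh775ca1963e850b80.shift 0 2)] (by decide +kernel))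
noncomputable def rh05e229fb8c7b3287 : CRef := CRef.mk (Pat.mk 0x16000000020000000000000000 0x50000000700000007000000070000001e000000370000000600000006 8 6) 0 0 (step_sound _ 99 [rhc1d5a8115d40e00b, (rheb0810cc63b001d8.shift 0 2)] (by decide +kernel))
noncomputable def rh16bb22dc85b26489 : CRef := CRef.mk (Pat.mk 0x1e00000002000000000000000000000000 0x4000000070000000700000007000000070000001e00000032000000070000000700000005 8 6) 0 0 (step_sound _ 161 [(rh3244c3cc8379b070.shift 0 4), rh5b2431ecaa34bdb7] (by decide +kernel))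
noncomputable def rhba5b8e7e3f9c7339 : CRef := CRef.mk (Pat.mk 0x180000000c000000000000000000000000 0x30000001b0000001f0000001f0000003f0000003c0000003c 8 6) 0 0 (step_sound _ 97 [rh4c891b8b51270e40, (rh53b3c253cb0c65f4.shift 0 3)] (by decide +kernel))
noncomputable def rha4938008c37fc360 : CRef := CRef.mk (Pat.mk 0x6000000030000000000000000000000000 0x40000000c0000001c0000007f0000007c0000001f0000001c0000001c 8 7) 0 0 (step_sound _ 99 [(rh53b3c253cb0c65f4.shift 2 3), rh5873adf55a8721f4] (by decide +kernel))
noncomputable def rhaae62e2e4be94518 : CRef := CRef.mk (Pat.mk 0x20000001600000002000000000000000000000000 0x400000006000000070000001e00000036000000070000000700000005 8 6) 0 0 (step_sound _ 131 [rh0df15f115d7321d7, (rh3244c3cc8379b070.shift 0 4)] (by decide +kernel))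
noncomputable def rhf1d4a61aaded1469 : CRef := CRef.mk (Pat.mk 0x20000000600000002000000000000000000000000 0x10000000700000007000000060000000600000006000000070000000700000005 8 3) 0 0 (step_sound _ 65 [(rh3a5b5c8a4729cf85.shift 0 1), rh8cdd36b03d57a2f6, (rha707fb719e87fe6e.shift 1 1)] (by decide +kernel))
noncomputable def rh3beaf7cc43a1a946 : CRef := CRef.mk (Pat.mk 0x180000000800000008000000000000000000000000 0x18000000180000003e0000007f0000007c00000014 8 7) 0 0 (step_sound _ 67 [(rh5699b5a6d867db4b.shift 0 1), (rh8aec56c4ee12918c.shift 2 0), (rh8c3839f9b9075f23.shift 3 0), (rh8cdd36b03d57a2f6.shift 2 0)] (by decide +kernel))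
noncomputable def rhaa24114d385d3be2 : CRef := CRef.mk (Pat.mk 0x1600000002000000000000000000000000 0x400000006000000070000001e00000007000000070000000700000005 8 5) 0 0 (step_sound _ 131 [rhdb433150ac3724ff, (rheb0810cc63b001d8.shift 0 3)] (by decide +kernel))
noncomputable def rhbe33e976bbb40535 : CRef := CRef.mk (Pat.mk 0x2c000000000000000000000000 0x60000000e0000007f0000003e0000000f0000000c00000004 8 7) 0 0 (step_sound _ 100 [(rh61325f73ebf98108.shift 0 3), (rh681e735b6bb0309e.shift 1 0), (rh7654d7b92c96fe12.shift 0 2), (rh775ca1963e850b80.shift 0 2)] (by decide +kernel))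
noncomputable def rh04206c67f8af9c59 : CRef := CRef.mk (Pat.mk 0xf00000000000000000000000000000000 0x40000001c0000001c0000001c0000001c0000000f000000180000001c0000001c00000014 8 5) 0 0 (step_sound _ 163 [(rh33e738c4ed385b9f.shift 0 4), rh5dd640d223b2d1be] (by decide +kernel))
noncomputable def rhf251b012618ad97d : CRef := CRef.mk (Pat.mk 0x8000000780000000000000000000000000000000000000000 0x4000000040000001c0000001f000000f80000007c000000d80000001c0000001c0000001c00000010 8 8) 0 0 (step_sound _ 134 [rh835d39aa2151bdc8, (rhe25b0a99195a5d59.shift 3 4)] (by decide +kernel))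
noncomputable def rh3f4867ae71c64de1 : CRef := CRef.mk (Pat.mk 0xc000000180000000000000000 0x300000003c0000003f0000001f0000001f0000001b0000001b 8 6) 0 0 (step_sound _ 97 [rh70686b4d10e1445f, (rhb739f4f82bb681b4.shift 0 2)] (by decide +kernel))
noncomputable def rhec018cfad5a36532 : CRef := CRef.mk (Pat.mk 0x10000000f00000000000000000000000000000000 0x40000001c0000001c0000001c0000001f0000000f000000180000001c0000001c00000014 8 5) 0 0 (step_sound _ 163 [(rh33e738c4ed385b9f.shift 0 4), rh824161701068d17b] (by decide +kernel))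
noncomputable def rh83931ad380f61409 : CRef := CRef.mk (Pat.mk 0x800000058000000000000000000000000 0x14000000770000003f0000007f0000000b0000000b00000002 8 7) 0 0 (step_sound _ 130 [(rh2fe78cc5ca4405d8.shift 2 3), rh86e6ad5598f63c8a] (by decide +kernel))
noncomputable def rhb9ebb603dfc5b03c : CRef := CRef.mk (Pat.mk 0x1800000018000000000000000000000000 0xc0000000c0000001e000000ff0000001f000000180000001800000008 8 8) 0 0 (step_sound _ 163 [(rh28da1cdd2b6848e5.shift 0 1), (rh55a1f6c57a317ce6.shift 3 1), (rhf7c77fe48087fd5b.shift 2 0)] (by decide +kernel))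
noncomputable def rhabc6cf3e6ed9bec1 : CRef := CRef.mk (Pat.mk 0x600000006000000000000000000000000 0x70000000f0000003f0000003e00000007000000060000000600000002 8 6) 0 0 (step_sound _ 161 [(rh55a1f6c57a317ce6.shift 1 1), (rha832569f8360a8fa.shift 0 1), rhf7c77fe48087fd5b] (by decide +kernel))
noncomputable def rhd71da80ad057ce5e : CRef := CRef.mk (Pat.mk 0xc0000002c000000000000000000000000 0x100000001c0000003e0000007c0000002f0000002c0000002c0000000c00000008 8 7) 0 0 (step_sound _ 163 [(rh1e309b005ffa1b36.shift 2 1), (rh7db208d87386469c.shift 1 2), rhffb604b8162c4d79] (by decide +kernel))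
noncomputable def rhf426b4f96f491dc8 : CRef := CRef.mk (Pat.mk 0x18000000180000000000000000 0x2000000020000000f7000000ff0000001f0000001000000010 8 8) 0 0 (step_sound _ 101 [(rh30b1045e318f0560.shift 0 2), rh385a11d9ae8280af, (rh4dc133ee0ba1420a.shift 1 2)] (by decide +kernel))
noncomputable def rhfc132c52f922a5c6 : CRef := CRef.mk (Pat.mk 0x80000000800000018000000000000000000000000 0x100000003c0000007c0000001f0000007800000018000000080000000800000008 8 7) 0 0 (step_sound _ 195 [(rha3efcb708b50b020.shift 1 2), (rha4c38b8a0f311ac4.shift 0 2), (rhc4055b4872d6fb38.shift 2 2), (rhdbc400e79194dff9.shift 2 3), (rhdfd10cc9da38ede8.shift 2 0)] (by decide +kernel))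
noncomputable def rhffa68e21b6281672 : CRef := CRef.mk (Pat.mk 0x4000000040000002c0000000000000000000000000000000000000000 0x3a0000003f0000007c0000003e0000000c0000000e0000000e0000000e00000008 8 7) 0 0 (step_sound _ 130 [(rh1bd0c14c4de1ef4d.shift 0 3), (rh62065880ba4433e2.shift 1 1), (rhb7c789d99587c37b.shift 1 3), (rhc4717b05cfd3ae1f.shift 1 0), (rhca18712e5e5c7b8f.shift 2 2)] (by decide +kernel))
noncomputable def rh9c5ed4ec8cb3ce3f : CRef := CRef.mk (Pat.mk 0x180000000c000000000000000000000000 0x320000003b0000001f0000001f0000003f0000003c00000038 8 6) 0 0 (step_sound _ 97 [(rh53b3c253cb0c65f4.shift 0 3), rha28de4a5e06cd236] (by decide +kernel))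
noncomputable def rhaa7b0e2fecc15611 : CRef := CRef.mk (Pat.mk 0x80000000c00000004000000000000000000000000 0x1f0000001f0000007c0000000f0000000c000000180000001800000018 8 7) 0 0 (step_sound _ 195 [(rh5c5e593799055d58.shift 2 3), rhc1260dfaefed4b09] (by decide +kernel))
noncomputable def rhcd676e56189b7dff : CRef := CRef.mk (Pat.mk 0x80000002c0000000400000000000000000000000000000000 0x4600000056000000760000007c0000003f0000006c0000007e0000007e0000004800000008 8 7) 0 0 (step_sound _ 98 [rh5bbcbc09c1673f4c, (rh71222050f2c63a3a.shift 2 2)] (by decide +kernel))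
noncomputable def rhb03f00f2b7829a82 : CRef := CRef.mk (Pat.mk 0x80000000c000000040000000000000000 0x600000006000000160000003c0000000f0000000f0000003e0000003e 8 6) 0 0 (step_sound _ 34 [(rh71222050f2c63a3a.shift 2 0), rh937dae9b5787cef6] (by decide +kernel))
noncomputable def rh27f3d43238c7ed62 : CRef := CRef.mk (Pat.mk 0x1e000000020000000000000000 0x4000000070000000700000007000000070000001e000000360000000700000007 8 6) 0 0 (step_sound _ 129 [rh0e73dd20fcbb3de4, (rh3244c3cc8379b070.shift 0 3)] (by decide +kernel))
noncomputable def rh0ce91fbe9723a33d : CRef := CRef.mk (Pat.mk 0x20000001e00000000000000000000000000000000 0x400000006000000060000001e00000037000000070000000700000005 8 6) 0 0 (step_sound _ 97 [rh0df15f115d7321d7, (rheb0810cc63b001d8.shift 0 3)] (by decide +kernel))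
noncomputable def rhd78a6aefcc224a5e : CRef := CRef.mk (Pat.mk 0x1800000030000000000000000000000000 0xc0000001c0000001c0000003e0000003f0000003e0000003c00000008 8 6) 0 0 (step_sound _ 130 [rh28aae5a51a9520ec, (rhb739f4f82bb681b4.shift 1 3)] (by decide +kernel))
noncomputable def rh36ee99f6b7e1afde : CRef := CRef.mk (Pat.mk 0x20000001e0000000000000000000000000000000000000000 0x50000000700000007000000020000001e0000003700000007000000070000000700000004 8 6) 0 0 (step_sound _ 129 [rhd3c7050886528739, (rheb0810cc63b001d8.shift 0 4)] (by decide +kernel))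
noncomputable def rhfd6550e99bcd2fdb : CRef := CRef.mk (Pat.mk 0xc00000018000000000000000000000000 0x6000000770000003f0000001f000000070000000700000002 8 7) 0 0 (step_sound _ 129 [(rhb739f4f82bb681b4.shift 0 3), rhc2bc69758e491b10] (by decide +kernel))
noncomputable def rh109132c4aafef14d : CRef := CRef.mk (Pat.mk 0x800000058000000080000000000000000 0x1800000018000000380000007f0000001f0000001800000018 8 7) 0 0 (step_sound _ 66 [(rh361cc68994bd8a63.shift 2 2), rhe92e0927fe7da6f9] (by decide +kernel))
noncomputable def rh42ad8271e667fdf6 : CRef := CRef.mk (Pat.mk 0x80000005800000008000000000000000000000000 0x1000000018000000780000001f0000007c0000001c00000004 8 7) 0 0 (step_sound _ 98 [(rh361cc68994bd8a63.shift 2 3), rh62cd66cf8e06b8ac] (by decide +kernel))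
noncomputable def rhec22f610c656d10b : CRef := CRef.mk (Pat.mk 0x20000000600000002000000000000000000000000 0x60000000600000006000000070000003f0000000f00000005 8 6) 0 0 (step_sound _ 65 [(rh7bf180edc4e0c81f.shift 0 1), rh8cdd36b03d57a2f6, (rha707fb719e87fe6e.shift 1 1)] (by decide +kernel))
noncomputable def rhdd25b0de2ead1688 : CRef := CRef.mk (Pat.mk 0x40000000c000000000000000000000000 0x80000000e0000003e0000003e0000000f0000000e0000000e0000000e0000000e 8 6) 0 0 (step_sound _ 162 [(rh046c5eb18e55a239.shift 2 0), (rh3e9d1c7de4d29b0f.shift 1 0), (rh70e33bfdf511e144.shift 2 0), rhb6962de7f6357b3f] (by decide +kernel))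
noncomputable def rhc4f74b3b1aeda056 : CRef := CRef.mk (Pat.mk 0x10000000f000000000 0x1f7000000fe0000018e 8 9) 0 0 (step_sound _ 7 [rh3a8a7f7df86d50d1, (rhe25b0a99195a5d59.shift 4 0)] (by decide +kernel))
noncomputable def rh438d66953d021795 : CRef := CRef.mk (Pat.mk 0x300000006000000000000000000000000000000000 0x380000003e000000fe0000007c0000007f0000005c0000004c0000004c00000004 8 8) 0 0 (step_sound _ 163 [rh88799141b845498b, (rhb739f4f82bb681b4.shift 2 4)] (by decide +kernel))
noncomputable def rh959298dfadb95e2b : CRef := CRef.mk (Pat.mk 0x90000000b000000000 0x1f7000000fe0000018e 8 9) 0 0 (step_sound _ 38 [(rh33e738c4ed385b9f.shift 4 1), rhac125f1a2852a9ed] (by decide +kernel))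
noncomputable def rhd4bec86f2d0215b5 : CRef := CRef.mk (Pat.mk 0x240000002c000000000000000000000000 0x500000007a0000007e000000ff0000007f0000006c0000003e000000ea0000007c0000005c 8 8) 0 0 (step_sound _ 162 [(rh046c5eb18e55a239.shift 2 0), (rh4101b74537c0c53c.shift 1 2), (rh787857ca97c4f2d8.shift 0 2), (rhbe80dc133771a3b9.shift 2 0)] (by decide +kernel))
noncomputable def rh57460537d30c2329 : CRef := CRef.mk (Pat.mk 0x4800000018000000000000000000000000 0x3e0000007f000000fe000000f80000001c000000100000001000000010 8 8) 0 0 (step_sound _ 132 [(rh476eccabcfbdd1bd.shift 2 1), (rhd11dc6dd83191698.shift 2 3), rhe4fc9966a5b877eb] (by decide +kernel))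
noncomputable def rh619ec56ec121a2b5 : CRef := CRef.mk (Pat.mk 0x90000000b00000000000000000000000000000000 0x40000001c0000001c0000001c0000001f0000000f000000180000001c0000001c00000014 8 5) 0 0 (step_sound _ 130 [(rh33e738c4ed385b9f.shift 0 4), rh824161701068d17b] (by decide +kernel))
noncomputable def rhd9db7e2e5c399b3e : CRef := CRef.mk (Pat.mk 0x1800000018000000000000000000000000 0x180000003b0000007b0000007f0000001f000000170000001400000010 8 7) 0 0 (step_sound _ 98 [(rhab2ad169e49f9c5e.shift 0 3), (rhbb7213d4724395ac.shift 0 1), (rhbcf1e4333962f677.shift 1 0)] (by decide +kernel))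
noncomputable def rhad46165246fe75d2 : CRef := CRef.mk (Pat.mk 0x1800000018000000000000000000000000 0x50000001d0000003f0000001f000000ff0000001f000000170000001700000005 8 8) 0 0 (step_sound _ 163 [(rh55a1f6c57a317ce6.shift 3 1), rhd287d3262d5aeccd, (rhe2d7daae1577d340.shift 0 2)] (by decide +kernel))
noncomputable def rh840ac6684babdd65 : CRef := CRef.mk (Pat.mk 0x1800000018000000000000000000000000 0xc0000000c000000ef000000ff0000001f000000060000000600000006 8 8) 0 0 (step_sound _ 133 [rh1c2c9f5ca79fcc31, (rh30b1045e318f0560.shift 0 3), (rh4dc133ee0ba1420a.shift 1 3)] (by decide +kernel))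
noncomputable def rh20e60b0ac999feb9 : CRef := CRef.mk (Pat.mk 0x1800000058000000000000000000000000 0x1ff000000fe000001ff000000f80000005e000000100000003800000038 8 9) 0 0 (step_sound _ 68 [(rh3cb04db3dd2b6a55.shift 3 0), (rh8d7882870c6327ed.shift 1 0), (rhd96d814e5f0a3cba.shift 0 2)] (by decide +kernel))
noncomputable def rheedc363f92adfe33 : CRef := CRef.mk (Pat.mk 0x1800000018000000000000000000000000 0xc0000000c000000ff000000ff0000001e000000060000000600000006 8 8) 0 0 (step_sound _ 133 [(rh30b1045e318f0560.shift 0 3), (rh4dc133ee0ba1420a.shift 1 3), rhc192ad8c02b3afda] (by decide +kernel))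
noncomputable def rhc24dee264f7b2077 : CRef := CRef.mk (Pat.mk 0x18000000580000000000000000 0x7c000000ff000000ff000000ff000000580000005000000010 8 8) 0 0 (step_sound _ 131 [(rh55a1f6c57a317ce6.shift 3 0), (rh6538a682f5a23107.shift 0 2), rh9b56a7d913ff6566] (by decide +kernel))
noncomputable def rh16dd470c7d26d1d9 : CRef := CRef.mk (Pat.mk 0x30000000300000000000000000 0x1ff000000fe000001ff0000003e0000003e0000002e00000006 8 9) 0 0 (step_sound _ 164 [(rh60950afcf52113df.shift 2 1), (rha8dc5b7fb8620646.shift 2 1), (rhda6cc5da102e1723.shift 4 1), rhde168714eb3e63b8] (by decide +kernel))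
noncomputable def rhae60b1d4f7734855 : CRef := CRef.mk (Pat.mk 0x18000000180000000000000000 0x28000000280000007c000000ff0000001f0000001400000010 8 8) 0 0 (step_sound _ 131 [(rh55a1f6c57a317ce6.shift 3 0), rhcc117b6a7ab1b78f, (rhe2d7daae1577d340.shift 0 1)] (by decide +kernel))
noncomputable def rh40bc99be7b80d88f : CRef := CRef.mk (Pat.mk 0x180000000c000000000000000000000000 0x32000000370000001f0000001f0000003f0000003e0000003a 8 6) 0 0 (step_sound _ 97 [(rh53b3c253cb0c65f4.shift 0 3), rhe2c82c225a81e40a] (by decide +kernel))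
noncomputable def rh9c37f73482095829 : CRef := CRef.mk (Pat.mk 0xb000000010000000100000000000000000 0x140000001c0000001c0000001c0000007f0000007f8000007ee000000fe000001b7000001d0000001c000000140 8 11) 0 0 (step_sound _ 167 [(rh312d01ca4cb393cf.shift 0 3), (rh43b632ddd08f442e.shift 3 1), (rh6485b2e55ba9765a.shift 3 0), (rh7f40149e5f5f9d85.shift 4 1), (rhdf5dc8d25bb14dae.shift 3 1)] (by decide +kernel))
noncomputable def rhd1027e972ec428a4 : CRef := CRef.mk (Pat.mk 0x180000000a000000000000000000000000 0x3000000030000000300000001f0000001f000000380000003800000038 8 6) 0 0 (step_sound _ 129 [rh1d3ad7d03a0b2d39, rh458e8a02054bfba8, (rh5a6ec0cd30a4a862.shift 0 1), (rhda02c4ce0b224328.shift 0 3)] (by decide +kernel))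
noncomputable def rha95aefcac29e56e4 : CRef := CRef.mk (Pat.mk 0x300000001400000000000000000000000000000000 0xa0000000e0000000e0000003e0000001f0000003e0000000e0000000e00000002 8 6) 0 0 (step_sound _ 129 [(rh1c62b6193297d9e3.shift 1 4), rh8c3f72a8762b083f] (by decide +kernel))
noncomputable def rhcecb8856e3b8045e : CRef := CRef.mk (Pat.mk 0x160000000280000000000000000000000000000000000000000 0x4c0000016c0000017e000003ff000001fe000003ff0000005400000010 8 10) 0 0 (step_sound _ 101 [rh31e572803fcd7b47, (rh577f8466712c7604.shift 1 1), (rh6144f90175f939ff.shift 5 1), (rhb6f6cd8dc083632c.shift 4 1), (rhfae2d0771380d1f3.shift 4 1)] (by decide +kernel))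
noncomputable def rh3a1713428e23caed : CRef := CRef.mk (Pat.mk 0x60000000280000000000000000000000000000000000000000 0xc0000000c0000000d0000000700000007c000001ff000000fc0000007c0000005c00000014 8 9) 0 0 (step_sound _ 164 [rh32202d7597e21e7f, (rh53b3c253cb0c65f4.shift 2 5)] (by decide +kernel))
noncomputable def rh788f8a6474d605c7 : CRef := CRef.mk (Pat.mk 0x6000000028000000000000000000000000 0x40000000c0000001c0000007f0000007c0000001f0000001c0000001c 8 7) 0 0 (step_sound _ 100 [(rh53b3c253cb0c65f4.shift 2 3), rh5873adf55a8721f4] (by decide +kernel))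
noncomputable def rh340cdd35d07bf769 : CRef := CRef.mk (Pat.mk 0x300000001400000000000000000000000000000000 0x80000002a0000007e0000006f0000003e000000370000003e0000003f0000003e0000002a 8 7) 0 0 (step_sound _ 162 [(rh5a6ec0cd30a4a862.shift 1 2), rh64d884d79074c724, (rh92b77a19ac7edef6.shift 0 1), (rha40f8f78fb75e358.shift 0 4), rhb43b949359068807] (by decide +kernel))
noncomputable def rhd32056078138ea84 : CRef := CRef.mk (Pat.mk 0xc0000000500000000000000000000000000000000000000000 0x38000001b8000001f8000001bf000000fe000000f7000001fe000001fe000001f80000003800000028 8 9) 0 0 (step_sound _ 196 [(rh24aa77844cfb6ef9.shift 1 0), (rh458e8a02054bfba8.shift 3 2), (rh519946d9da06d75b.shift 3 3), (rh62945dbf321cafab.shift 3 2), (rh6f57a60ded81698f.shift 0 3), (rh92b77a19ac7edef6.shift 2 2), (rhc432085876c2a708.shift 0 2), (rhe743a5324cad0c40.shift 2 1)] (by decide +kernel))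
noncomputable def rh74472983d29753b1 : CRef := CRef.mk (Pat.mk 0x300000001400000000000000000000000000000000 0xa0000000e0000000e0000003e0000003f0000001e0000000e0000000e00000002 8 6) 0 0 (step_sound _ 129 [(rh1c62b6193297d9e3.shift 1 4), rh8a16a62594fd5cc0] (by decide +kernel))
noncomputable def rh8176ff43d4cde5a9 : CRef := CRef.mk (Pat.mk 0x1800000018000000000000000000000000 0x8000000180000001c000000f80000001f0000001f0000001c0000000c 8 8) 0 0 (step_sound _ 163 [(rh55a1f6c57a317ce6.shift 3 1), rhc491596abc3e9509, (rhe2d7daae1577d340.shift 0 2)] (by decide +kernel))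
noncomputable def rh7a1721f11527e455 : CRef := CRef.mk (Pat.mk 0x1800000018000000000000000000000000 0x3800000078000000fe0000003e0000001f0000001c0000001800000018 8 8) 0 0 (step_sound _ 164 [(rh1e309b005ffa1b36.shift 3 1), (rhda73b6b2287c2f9f.shift 0 2), (rhf762cbba6fa7cf86.shift 1 0)] (by decide +kernel))
noncomputable def rhde228040c608cec9 : CRef := CRef.mk (Pat.mk 0x18000000180000000000000000 0x1800000038000000fc000000f80000001f0000001c00000010 8 8) 0 0 (step_sound _ 131 [(rh55a1f6c57a317ce6.shift 3 0), (rha832569f8360a8fa.shift 2 0), (rhe2d7daae1577d340.shift 0 1)] (by decide +kernel))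
noncomputable def rh6295dc376f634546 : CRef := CRef.mk (Pat.mk 0x18000000180000000000000000 0x38000000780000007e000000ff0000001f0000000c0000000c 8 8) 0 0 (step_sound _ 132 [(rh1e309b005ffa1b36.shift 3 0), (rhda73b6b2287c2f9f.shift 0 1), rheacf3f10d376cc8b] (by decide +kernel))
noncomputable def rha9e06645388a9678 : CRef := CRef.mk (Pat.mk 0xc0000002c000000000000000000000000 0x1000000010000000380000007c0000002f0000002c0000002e0000007e0000001e 8 7) 0 0 (step_sound _ 66 [(rh45ebb5574bfcf660.shift 1 0), rh4f8e1e9192e1a110, (rhea7a1800d6f053bd.shift 2 0)] (by decide +kernel))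
noncomputable def rhe0e8df73786c7b9d : CRef := CRef.mk (Pat.mk 0x3000000030000000000000000000000000 0x6000000ce000000fe0000003e0000003f000000fe000001ff 8 9) 0 0 (step_sound _ 99 [rh8883949c8064ab5b, (rhab2ad169e49f9c5e.shift 1 3), (rhbb7213d4724395ac.shift 1 1)] (by decide +kernel))
noncomputable def rhc5f983176ab93ac0 : CRef := CRef.mk (Pat.mk 0x4000000040000000c000000000000000000000000 0xa0000000e0000000e0000000f0000003c0000000c0000000e000000060000000600000006 8 6) 0 0 (step_sound _ 194 [(rh367118e0bf0473e0.shift 1 1), (rh482b9df9feb8e193.shift 0 2), (rh788924cf265c037a.shift 1 1), (rh8b0094ba8f23dc34.shift 1 0), (rh8eb288e2ea66037a.shift 1 1), (rhb78fb23ed87922d5.shift 1 1), (rhd0d01d2b9e5cc624.shift 1 2)] (by decide +kernel))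
noncomputable def rh2c7521332d6d2f66 : CRef := CRef.mk (Pat.mk 0x1000000010000000300000000000000000000000000000000000000000 0x66000000f60000007f0000003f0000003f0000007e000001ff0000003c00000028 8 9) 0 0 (step_sound _ 163 [rh0ce47ac4758ed52c, (rh6e23a448f7c77090.shift 0 2), (rhdd99997e845451cb.shift 0 3), (rhe5b02b5252f38894.shift 0 2), (rhef81ec4f7e7c38d9.shift 1 3)] (by decide +kernel))
noncomputable def rh5f4db23054eb9a1b : CRef := CRef.mk (Pat.mk 0x80000000800000018000000000000000000000000 0x1c0000001c0000001c0000000c0000001c0000001c0000001c0000000f0000000c00000008 8 5) 0 0 (step_sound _ 195 [rh36e0b3802883f1b2, (rh6aa5625770489e83.shift 2 1), (rh788924cf265c037a.shift 2 1), (rhb8a2c2ce27e98cda.shift 2 2), (rhdfd10cc9da38ede8.shift 2 0)] (by decide +kernel))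
noncomputable def rh7d3c6c814e4951e1 : CRef := CRef.mk (Pat.mk 0x80000000800000018000000000000000000000000 0x40000001c0000001f0000001e0000001f0000001f0000001c 8 5) 0 0 (step_sound _ 67 [(rh6ed5e6501b92e21f.shift 2 0), (rh8cdd36b03d57a2f6.shift 2 0), (rheacedd262407fad2.shift 2 0), (rhee75f39e3d4ee43a.shift 0 1)] (by decide +kernel))
noncomputable def rh91a6cdea14523a80 : CRef := CRef.mk (Pat.mk 0x80000000800000018000000000000000000000000 0x40000000c0000000f0000001e0000001f0000001f00000014 8 5) 0 0 (step_sound _ 67 [(rh46baee19951a66e7.shift 2 0), (rh6aa5625770489e83.shift 2 0), (rh8cdd36b03d57a2f6.shift 2 0), (rhee75f39e3d4ee43a.shift 0 1)] (by decide +kernel))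
noncomputable def rh4ba548eb7578cc5b : CRef := CRef.mk (Pat.mk 0x800000008000000180000000000000000 0x3400000034000000ff000000ff0000001f0000001c00000014 8 8) 0 0 (step_sound _ 100 [rh28da1cdd2b6848e5, rh6d3fb1240dc3afce, rh878184729b42f65e, (rha832569f8360a8fa.shift 2 0), (rhbffe6d86810c2f26.shift 1 0)] (by decide +kernel))
noncomputable def rh22a85b61a9a45e43 : CRef := CRef.mk (Pat.mk 0x80000000800000018000000000000000000000000 0x170000003f0000003f0000001c0000000c0000000c0000000c 8 6) 0 0 (step_sound _ 67 [(rh0211ef4fb87ca7dd.shift 0 1), (rh6aa5625770489e83.shift 2 0), (rh6ed5e6501b92e21f.shift 2 0), (rheacedd262407fad2.shift 2 0)] (by decide +kernel))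
noncomputable def rh2b61af74be10487f : CRef := CRef.mk (Pat.mk 0x40000000c000000000000000000000000 0xa0000003e0000003e0000000f0000000c0000000e0000000e0000000e 8 6) 0 0 (step_sound _ 162 [(rh046c5eb18e55a239.shift 2 0), (rh70e33bfdf511e144.shift 2 0), (rha887bdf71aec8413.shift 1 0), rhb6962de7f6357b3f] (by decide +kernel))
noncomputable def rhe821647f32202a30 : CRef := CRef.mk (Pat.mk 0x80000001800000008000000000000000000000000 0x74000000ff0000001f000000180000001c0000001c00000004 8 8) 0 0 (step_sound _ 67 [(rh6aa5625770489e83.shift 2 0), (rh7e9e852849652949.shift 0 1), (rha707fb719e87fe6e.shift 3 1)] (by decide +kernel))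
noncomputable def rh7aaeb23f48ae8834 : CRef := CRef.mk (Pat.mk 0x80000001800000008000000000000000000000000 0x740000007f0000001f0000001f0000001f000000370000001400000004 8 7) 0 0 (step_sound _ 98 [(rh695dc2d0b8bced4e.shift 0 1), (rh70ea185f46510c82.shift 0 1), (rhf2d48adcfe2d3357.shift 1 2), (rhfafeb437ceb8396d.shift 2 0)] (by decide +kernel))
noncomputable def rh2d60d6764bc5aa32 : CRef := CRef.mk (Pat.mk 0x4000000040000002c000000000000000000000000 0xfa0000007f000000fc0000002c0000002e0000000e0000000e 8 8) 0 0 (step_sound _ 66 [(rh8cdd36b03d57a2f6.shift 1 0), (rhca18712e5e5c7b8f.shift 2 0), (rhdd66d31c22a5ec33.shift 0 1), (rheacedd262407fad2.shift 1 0)] (by decide +kernel))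
noncomputable def rh725d9248e0da2006 : CRef := CRef.mk (Pat.mk 0xc0000000c000000000000000000000000 0x160000003e0000003e0000003f0000000e000000060000000e0000000e 8 6) 0 0 (step_sound _ 66 [(rhd0ea105707b7bda9.shift 0 1), (rhea7a1800d6f053bd.shift 2 0), (rhfaa5ddb4cc1d0f4a.shift 1 0)] (by decide +kernel))
noncomputable def rh2878b83328414a3e : CRef := CRef.mk (Pat.mk 0x18000000580000000000000000 0x1fe000000ff000001fb0000007f0000005f0000000f00000004 8 9) 0 0 (step_sound _ 66 [(rh51a4c7217f5de878.shift 1 1), (rhab2ad169e49f9c5e.shift 0 2), rhbb7213d4724395ac] (by decide +kernel))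
noncomputable def rh9b431c841895222c : CRef := CRef.mk (Pat.mk 0xc0000000c000000000000000000000000 0x60000000e0000000f0000003c0000000e000000060000000e0000000e 8 6) 0 0 (step_sound _ 66 [(rh59834db082677d75.shift 0 1), (rhd4f86ac92e73840e.shift 1 0), (rhea7a1800d6f053bd.shift 2 0)] (by decide +kernel))
noncomputable def rh80b42489b3cc6e23 : CRef := CRef.mk (Pat.mk 0x1800000018000000000000000000000000 0xc000000fc000000ff0000001f0000001c0000000c0000001c0000001c 8 8) 0 0 (step_sound _ 67 [(rh7cd579e87cc5ae23.shift 0 1), (rhea7a1800d6f053bd.shift 3 0), (rhfaa5ddb4cc1d0f4a.shift 2 0)] (by decide +kernel))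
noncomputable def rh20c4d5647f81ede9 : CRef := CRef.mk (Pat.mk 0x18000000180000000000000000 0x3e0000003e000000ff000000ff000000180000000800000008 8 8) 0 0 (step_sound _ 132 [(rh0a034e1b30c2546f.shift 1 2), (rh1e309b005ffa1b36.shift 3 0), rhecb820c0a5ea90f6] (by decide +kernel))
noncomputable def rha5e9c85684b60621 : CRef := CRef.mk (Pat.mk 0x1800000018000000000000000000000000 0x50000007d0000007f0000001f000000ff0000001f000000170000001700000005 8 8) 0 0 (step_sound _ 163 [(rh55a1f6c57a317ce6.shift 3 1), (rh6538a682f5a23107.shift 0 3), rhd287d3262d5aeccd] (by decide +kernel))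
noncomputable def rhd60f4d9526791357 : CRef := CRef.mk (Pat.mk 0x80000000800000018000000000000000000000000 0x140000003c0000000f0000001e0000001f0000001f00000014 8 6) 0 0 (step_sound _ 67 [(rh46baee19951a66e7.shift 2 0), (rh6aa5625770489e83.shift 2 0), (rh8cdd36b03d57a2f6.shift 2 0), (rha93fc486b259121b.shift 0 1)] (by decide +kernel))
noncomputable def rh0192cc3fe8b6da8b : CRef := CRef.mk (Pat.mk 0x180000001800000000000000000000000000000000 0x7000000170000003f0000001f0000001f0000003f0000001f00000005 8 6) 0 0 (step_sound _ 99 [rh7dbcc74ef8a1cc2f, (rhea7a1800d6f053bd.shift 3 1)] (by decide +kernel))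
noncomputable def rhef89634dbb27a386 : CRef := CRef.mk (Pat.mk 0x30000000b000000000000000000000000000000000 0x7000000078000001e0000001f0000000be000007bf000003fe000003ff00000040 8 11) 0 0 (step_sound _ 68 [rh0ad32c85a0f637e8, (rh2c7fc7a7cc8a47be.shift 4 1), (rh764330b8fc8b2f51.shift 3 2)] (by decide +kernel))
noncomputable def rh8c25750e01576cd8 : CRef := CRef.mk (Pat.mk 0x180000001800000000000000000000000000000000 0x390000003f000000f70000001f0000001f0000001f0000003f0000001f00000005 8 8) 0 0 (step_sound _ 161 [(rh7d14bdd45bfca3c1.shift 0 2), (rh9b7caa8798118208.shift 0 2), rhb54574eab3165886, (rhf9286bb3fd2afa18.shift 1 1)] (by decide +kernel))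
noncomputable def rhb025ac5c0d40399c : CRef := CRef.mk (Pat.mk 0x1800000018000000000000000000000000 0x3400000074000000ff0000001f0000001f0000001a0000001a 8 8) 0 0 (step_sound _ 67 [rh5553668a3d77c7db, rhbc28541ddf05f887, (rhea7a1800d6f053bd.shift 3 0)] (by decide +kernel))
noncomputable def rh7a53587baba15601 : CRef := CRef.mk (Pat.mk 0x2c000000000000000000000000 0x60000000e0000007f0000003e0000006f0000000c00000004 8 7) 0 0 (step_sound _ 100 [(rh5df07c322c81d0ac.shift 1 0), (rh775ca1963e850b80.shift 0 2), (rha5346060b12b3a35.shift 0 2), (rhc37ac25399000c0e.shift 0 2), (rhd75855c0840bf9dc.shift 0 2)] (by decide +kernel))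
noncomputable def rhe322b3bbe53c223b : CRef := CRef.mk (Pat.mk 0x1e000000000000000000000000 0x280000003800000038000000380000001e0000003b0000001800000008 8 6) 0 0 (step_sound _ 132 [(rh33e738c4ed385b9f.shift 1 3), rh3e8313526cad7bd5] (by decide +kernel))
noncomputable def rh8f6d760f4a63adbc : CRef := CRef.mk (Pat.mk 0x1e0000001000000000 0x28000000380000003c0000003f0000001e0000001800000008 8 6) 0 0 (step_sound _ 100 [(rh33e738c4ed385b9f.shift 1 2), rhcf85bf14b0081173] (by decide +kernel))
noncomputable def rha4ffb49505ad40b4 : CRef := CRef.mk (Pat.mk 0xf00000000000000000000000000000000 0x40000001c0000001c0000001c0000001c0000000f000000180000001c0000001c00000014 8 5) 0 0 (step_sound _ 99 [rh6f17e5a4cc637f63, (rhe25b0a99195a5d59.shift 0 3)] (by decide +kernel))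
noncomputable def rhaf063fca9845c52e : CRef := CRef.mk (Pat.mk 0x1e00000000000000000000000000000000 0x200000002000000070000001e0000003f000000070000000700000002 8 6) 0 0 (step_sound _ 97 [rh5591619a4e3c8ee8, (rheb0810cc63b001d8.shift 0 3)] (by decide +kernel))
noncomputable def rh12c08b8385183947 : CRef := CRef.mk (Pat.mk 0x80000007800000000000000000000000000000000 0x18000000d8000000780000003c0000001f0000001c00000014 8 8) 0 0 (step_sound _ 99 [rh0146d3c7254963b0, (rheb0810cc63b001d8.shift 2 3)] (by decide +kernel))
noncomputable def rh0b914b50194df212 : CRef := CRef.mk (Pat.mk 0x780000000000000000 0x1c0000001f0000003c000000780000001c00000018 8 7) 0 0 (step_sound _ 99 [rh17803e7ca2204fe4, (rh3244c3cc8379b070.shift 2 2)] (by decide +kernel))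
noncomputable def rh2b3e8199b120e08a : CRef := CRef.mk (Pat.mk 0x1e000000000000000000000000 0x200000007000000070000003f0000001e000000070000000200000002 8 6) 0 0 (step_sound _ 65 [rh4ef555e3378cd09c, (rheb0810cc63b001d8.shift 0 2)] (by decide +kernel))
noncomputable def rhad2c260c7e36163f : CRef := CRef.mk (Pat.mk 0x1e0000000200000000000000000000000000000000 0x50000000700000007000000330000001e0000000600000007000000070000000700000004 8 6) 0 0 (step_sound _ 193 [rh084a1a7cc4919751, (rh3244c3cc8379b070.shift 0 5)] (by decide +kernel))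
noncomputable def rh9453a9fdfc60f89f : CRef := CRef.mk (Pat.mk 0x100000001e0000000000000000 0x28000000380000003c0000001f0000001e0000003800000008 8 6) 0 0 (step_sound _ 36 [rhcf85bf14b0081173, (rhe25b0a99195a5d59.shift 1 1)] (by decide +kernel))
noncomputable def rh5587b60ea1c439e7 : CRef := CRef.mk (Pat.mk 0x780000000800000000000000000000000000000000 0x7000000070000000f000000078000000f80000003e0000007f0000003c00000014 8 8) 0 0 (step_sound _ 134 [rh42dc64155cb27fae, (rhe25b0a99195a5d59.shift 3 4)] (by decide +kernel))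
noncomputable def rh1511672dc338ba45 : CRef := CRef.mk (Pat.mk 0x1e00000000000000000000000000000000 0x200000002000000070000001e0000003f000000070000000700000002 8 6) 0 0 (step_sound _ 161 [(rh3244c3cc8379b070.shift 0 4), rh50bcdaea9466e34c] (by decide +kernel))
noncomputable def rh34d46472f1641c8f : CRef := CRef.mk (Pat.mk 0x20000001e00000000000000000000000000000000 0x4000000070000000700000003000000360000001e00000007000000070000000700000001 8 6) 0 0 (step_sound _ 97 [rhe0b18cec0c73e504, (rheb0810cc63b001d8.shift 0 3)] (by decide +kernel))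
noncomputable def rhdcd1773ca7defe75 : CRef := CRef.mk (Pat.mk 0x1e0000000200000000000000000000000000000000 0x10000000700000007000000070000001e0000003600000003000000070000000700000004 8 6) 0 0 (step_sound _ 193 [(rh3244c3cc8379b070.shift 0 5), rhef7f68f85270b7e2] (by decide +kernel))
noncomputable def rh2dd25b972eef097e : CRef := CRef.mk (Pat.mk 0x1e00000000000000000000000000000000 0x280000003800000038000000380000001e0000003f000000380000003000000010 8 6) 0 0 (step_sound _ 100 [rh247b1b312968654e, (rhe25b0a99195a5d59.shift 1 3)] (by decide +kernel))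
noncomputable def rha6097c7f177d2098 : CRef := CRef.mk (Pat.mk 0x1e00000000000000000000000000000000 0x1000000010000000380000001e0000003f000000380000003800000010 8 6) 0 0 (step_sound _ 164 [(rh33e738c4ed385b9f.shift 1 4), rh8d51102f15eddff6] (by decide +kernel))
noncomputable def rhd3d65a60c5c6751e : CRef := CRef.mk (Pat.mk 0x100000001e00000000000000000000000000000000 0x80000003800000038000000300000001b0000001e00000038000000380000003800000020 8 6) 0 0 (step_sound _ 100 [rhdc4b40baf083de44, (rhe25b0a99195a5d59.shift 1 3)] (by decide +kernel))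
noncomputable def rh48ea642629d3c921 : CRef := CRef.mk (Pat.mk 0x1e000000000000000000000000 0x1000000038000000380000003f0000001e000000380000001000000010 8 6) 0 0 (step_sound _ 68 [rh18320a8915d8245b, (rhe25b0a99195a5d59.shift 1 2)] (by decide +kernel))
noncomputable def rh6f308d939775ae78 : CRef := CRef.mk (Pat.mk 0x1e0000001000000000000000000000000000000000 0x200000003800000038000000380000001e0000001b00000030000000380000003800000008 8 6) 0 0 (step_sound _ 196 [(rh33e738c4ed385b9f.shift 1 5), rhc2dfb3e8136fee69] (by decide +kernel))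
noncomputable def rhd71de1677a98348e : CRef := CRef.mk (Pat.mk 0x1e00000010000000000000000000000000 0x8000000380000003800000038000000380000001e00000013000000380000003800000028 8 6) 0 0 (step_sound _ 164 [(rh33e738c4ed385b9f.shift 1 4), rh7a938961673de768] (by decide +kernel))
noncomputable def rhce8a49e699a9ed81 : CRef := CRef.mk (Pat.mk 0x200000007000000040000000000000000 0xc0000000c0000000c0000001e00000007000000070000003e0000000e 8 6) 0 0 (step_sound _ 34 [(rh7b1f1fb55310c477.shift 1 0), rh95e7ec0557ce3673] (by decide +kernel))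
noncomputable def rhdeffba9fbfb4f563 : CRef := CRef.mk (Pat.mk 0x100000001e0000000000000000000000000000000000000000 0x280000003800000038000000130000001e0000003800000038000000380000003800000008 8 6) 0 0 (step_sound _ 132 [rhac4c5099c437bc6d, (rhe25b0a99195a5d59.shift 1 4)] (by decide +kernel))
noncomputable def rh2e95b87086deea8e : CRef := CRef.mk (Pat.mk 0xc0000000e0000000000000000 0x1c0000003e0000000f0000003c0000000e0000000600000006 8 6) 0 0 (step_sound _ 100 [(rh18965a982d73c794.shift 1 2), rhc4530bfdcf454122] (by decide +kernel))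
noncomputable def rha741c27102132109 : CRef := CRef.mk (Pat.mk 0x180000001c000000000000000000000000 0xc0000000c0000000f0000007c0000001c0000000c0000000c0000000c 8 7) 0 0 (step_sound _ 133 [(rh18965a982d73c794.shift 2 3), rh1fdcf3d004703f52] (by decide +kernel))
noncomputable def rh56fe24bf8a80f34a : CRef := CRef.mk (Pat.mk 0x180000001c0000000000000000 0x2000000020000000770000007f0000001c0000001000000010 8 7) 0 0 (step_sound _ 101 [(rh18965a982d73c794.shift 2 2), rh3d515351684ebc3b] (by decide +kernel))
noncomputable def rh1770bf77f009faff : CRef := CRef.mk (Pat.mk 0xc0000000e000000000000000000000000 0x40000001c0000003c0000000f0000000e0000000e0000000e00000006 8 6) 0 0 (step_sound _ 162 [(rh37d9ceebb86d75d1.shift 1 2), (rh55a1f6c57a317ce6.shift 2 1), rhfb254c3f0f0d6721] (by decide +kernel))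
noncomputable def rh6d704e339a22fe57 : CRef := CRef.mk (Pat.mk 0xc0000000e000000000000000000000000 0x180000003a0000003f0000000e0000000c0000000e0000000e 8 6) 0 0 (step_sound _ 132 [(rh18965a982d73c794.shift 1 3), rh6b2ddea21bacc1ad] (by decide +kernel))
noncomputable def rh3c7b710fb0407322 : CRef := CRef.mk (Pat.mk 0x80000000c000000080000000000000000 0x180000001c0000003c0000000f0000000c0000000e0000001e0000001e 8 6) 0 0 (step_sound _ 130 [(rh3cb04db3dd2b6a55.shift 2 0), rhb9dbd94779f879ce, (rhed2a7436b1d2577f.shift 2 0)] (by decide +kernel))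
noncomputable def rh12436a2b1a460115 : CRef := CRef.mk (Pat.mk 0x1e0000001000000000000000000000000000000000 0x280000003800000038000000330000001e0000001800000038000000380000003800000008 8 6) 0 0 (step_sound _ 196 [(rh33e738c4ed385b9f.shift 1 5), rhac4c5099c437bc6d] (by decide +kernel))
noncomputable def rhfe3ac238c42784e1 : CRef := CRef.mk (Pat.mk 0x1e0000000000000000000000000000000000000000 0x50000000700000007000000030000001e0000000700000007000000070000000700000004 8 5) 0 0 (step_sound _ 129 [rh10ac217c01e7b836, (rheb0810cc63b001d8.shift 0 4)] (by decide +kernel))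
noncomputable def rh204bea2678204acf : CRef := CRef.mk (Pat.mk 0x100000001e00000000000000000000000000000000 0x8000000380000003800000038000000180000001e00000033000000380000003800000028 8 6) 0 0 (step_sound _ 100 [rh7a938961673de768, (rhe25b0a99195a5d59.shift 1 3)] (by decide +kernel))
noncomputable def rhfd23d4143c6f4688 : CRef := CRef.mk (Pat.mk 0x100000001e00000000000000000000000000000000 0x40000000700000007000000070000001f0000001e00000003000000070000000700000005 8 5) 0 0 (step_sound _ 161 [(rh3244c3cc8379b070.shift 0 4), rhcf6cc60a4df9bd1b] (by decide +kernel))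
noncomputable def rh30666edebafe3b6c : CRef := CRef.mk (Pat.mk 0x20000001e00000000000000000000000000000000 0x4000000070000000700000007000000060000001e00000033000000070000000700000005 8 6) 0 0 (step_sound _ 97 [rh3900e52f8448d18b, (rheb0810cc63b001d8.shift 0 3)] (by decide +kernel))
noncomputable def rh97d6e99cc9b93513 : CRef := CRef.mk (Pat.mk 0x1c00000018000000000000000000000000 0xe0000000f0000001c0000007f0000007f0000001800000018 8 7) 0 0 (step_sound _ 101 [rh39ab4e3343a25598, (rhf48373e13d2bc128.shift 2 3)] (by decide +kernel))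
noncomputable def rhe66b6c6dd58ea2d9 : CRef := CRef.mk (Pat.mk 0x1c00000018000000000000000000000000 0xc0000001c0000007c000001f8000000ff000001fe 8 9) 0 0 (step_sound _ 101 [rh516ec97ce4272871, (rhf48373e13d2bc128.shift 2 3)] (by decide +kernel))
noncomputable def rhc6cb7d23c205f9db : CRef := CRef.mk (Pat.mk 0xe0000000c000000000000000000000000 0x4000000060000000e0000003c0000000f0000007e0000001c 8 7) 0 0 (step_sound _ 100 [rh34a60603075bb545, (rhf48373e13d2bc128.shift 1 3)] (by decide +kernel))
noncomputable def rh4b4d1a859fd220dd : CRef := CRef.mk (Pat.mk 0x1c00000018000000000000000000000000 0xc0000000c0000000c0000001c0000007c0000000f0000001c0000001c 8 7) 0 0 (step_sound _ 101 [rh3641cba41fec1efc, (rhf48373e13d2bc128.shift 2 3)] (by decide +kernel))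
noncomputable def rh4d522a9e1f27d1dc : CRef := CRef.mk (Pat.mk 0x1c00000018000000000000000000000000 0x40000001c0000007f0000007f0000000e0000000e 8 7) 0 0 (step_sound _ 101 [rh4ffde9ebfa0cf529, (rhf48373e13d2bc128.shift 2 3)] (by decide +kernel))
noncomputable def rhbf01f149cb72854f : CRef := CRef.mk (Pat.mk 0x1c00000018000000000000000000000000 0x80000000c0000000c0000001c0000001c0000001f0000001f0000000c 8 5) 0 0 (step_sound _ 163 [(rh16eec8cad0f85bb2.shift 2 0), (rh55a1f6c57a317ce6.shift 3 1), rhdc6714be957238db] (by decide +kernel))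
noncomputable def rh0739a96975f79f1b : CRef := CRef.mk (Pat.mk 0x1c0000001000000010000000000000000000000000 0x40000001c000000180000003c000000ff0000003c00000028 8 8) 0 0 (step_sound _ 68 [(rh1f3a6ba70a310ab1.shift 3 0), (rh5997ccb989bf048f.shift 0 1), (rh8cdd36b03d57a2f6.shift 3 0), (rha613ffd40b6c9d24.shift 3 0)] (by decide +kernel))
noncomputable def rhce24e3f84e12a467 : CRef := CRef.mk (Pat.mk 0x380000002000000020000000000000000000000000 0x80000000e0000001e0000001e0000001e0000003c0000003f0000007e0000001e0000001e00000014 8 7) 0 0 (step_sound _ 130 [(rhba8680e1a24db430.shift 1 1), (rhcea5a3bedae87f2e.shift 1 1), rhcfb35c6e1c6a2224, (rhe1c32197ffb40f8f.shift 0 4)] (by decide +kernel))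
noncomputable def rh1e243571c691fb37 : CRef := CRef.mk (Pat.mk 0x1e00000000000000000000000000000000 0x400000006000000070000001e00000007000000070000000700000005 8 5) 0 0 (step_sound _ 97 [rhdb433150ac3724ff, (rheb0810cc63b001d8.shift 0 3)] (by decide +kernel))
noncomputable def rhac838ad27ba6c3b0 : CRef := CRef.mk (Pat.mk 0x180000001c0000000000000000 0x18000000180000007f0000007f0000001c0000000f0000000e 8 7) 0 0 (step_sound _ 101 [rh02ab523d701d946f, (rh18965a982d73c794.shift 2 2)] (by decide +kernel))
noncomputable def rhb8ffb2dad1913763 : CRef := CRef.mk (Pat.mk 0xc0000000e00000000 0xff0000007f000000fc0000003e0000000e00000006 8 8) 0 0 (step_sound _ 68 [(rh18965a982d73c794.shift 1 1), rh9d7ad819415181de] (by decide +kernel))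
noncomputable def rh0ada30e93805f842 : CRef := CRef.mk (Pat.mk 0x180000001c000000000000000000000000 0xc0000001f0000001f0000001c0000001c0000000c0000001c0000001c 8 5) 0 0 (step_sound _ 67 [(rh686b95f3dcc0a409.shift 2 0), (rh8e923fbd1c5ac157.shift 0 1), (rhea7a1800d6f053bd.shift 3 0)] (by decide +kernel))
noncomputable def rhc503f10c4173a0f1 : CRef := CRef.mk (Pat.mk 0x180000001c0000000000000000 0x60000000e0000007f0000007f0000001c0000000400000004 8 7) 0 0 (step_sound _ 101 [(rh18965a982d73c794.shift 2 2), rh26c0a77fbc4a27a4] (by decide +kernel))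
noncomputable def rhe84c6fde8b846d56 : CRef := CRef.mk (Pat.mk 0x8000000080000000e00000000 0x100000001c0000001c0000001e0000003f0000003f0000000c0000000e00000002 8 6) 0 0 (step_sound _ 131 [rh1cee59bcf1412330, (rh26dad12c7805091f.shift 2 1), (rh9a369cb82ea472da.shift 2 1), (rhc85cc95794737cf7.shift 2 1), rhe0b077d6405bd16f] (by decide +kernel))
noncomputable def rhd7a1a25a25990b3b : CRef := CRef.mk (Pat.mk 0x2000000020000000380000000000000000000000000000000000000000 0x140000001e0000001e0000007e0000003f0000003c0000001e0000001e0000001e0000000e00000008 8 7) 0 0 (step_sound _ 194 [(rh40811da85268475d.shift 0 5), (rh494f78b5277e74f9.shift 1 2), (rh4f0287253522beef.shift 1 0), (rh78717a21f7505fa2.shift 0 2)] (by decide +kernel))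
noncomputable def rhec8d195effea7f0d : CRef := CRef.mk (Pat.mk 0x700000006000000000000000000000000 0x30000000f0000001f000000070000001e000000060000000600000002 8 5) 0 0 (step_sound _ 65 [rh40241bd608e5be1a, (rhe30a75a8ad7ac1c8.shift 0 1), (rhea7a1800d6f053bd.shift 1 0)] (by decide +kernel))
noncomputable def rh29fc9ea30124871d : CRef := CRef.mk (Pat.mk 0x38000000300000000000000000 0x1ff000000fe000001ff00000038000000f80000005000000010 8 9) 0 0 (step_sound _ 70 [rh179e353ffe4c3109, (rhf48373e13d2bc128.shift 3 2)] (by decide +kernel))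
noncomputable def rh6bbd541a79db896c : CRef := CRef.mk (Pat.mk 0xe0000000c000000000000000000000000 0x1c0000003c0000000e0000003c000000380000001f0000001c 8 6) 0 0 (step_sound _ 100 [rh7504938ef9e8ff83, (rhf48373e13d2bc128.shift 1 3)] (by decide +kernel))
noncomputable def rh7aae16cefa26c8cc : CRef := CRef.mk (Pat.mk 0x1c00000010000000000000000000000000 0xc0000003c0000007c0000001c0000003f0000001f0000001c00000008 8 7) 0 0 (step_sound _ 163 [rh25c3edeeccd88835, (rh5d54cb79a67f97ab.shift 3 1), (rh5ed5c7a3ad4353c1.shift 0 1), (rha40d42a2e34c408d.shift 3 1)] (by decide +kernel))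
noncomputable def rh55e7dc9742a11ce5 : CRef := CRef.mk (Pat.mk 0x1c0000001800000000000000000000000000000000 0x1800000018000000180000001c0000007c0000000f0000001c0000001c00000004 8 7) 0 0 (step_sound _ 133 [rh988a26b090d270a7, (rhf48373e13d2bc128.shift 2 4)] (by decide +kernel))
noncomputable def rhc7c05f7cd110c8c2 : CRef := CRef.mk (Pat.mk 0x700000006000000000000000000000000 0xc0000000e0000001e00000007000000060000000e0000000e0000000e 8 5) 0 0 (step_sound _ 66 [(rh2149af5e97ee4028.shift 0 1), (rh3cb04db3dd2b6a55.shift 1 0), (rh71a49414e3d4afee.shift 1 0)] (by decide +kernel))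
noncomputable def rh15917b3baf9dd848 : CRef := CRef.mk (Pat.mk 0x80000001c00000010000000000000000000000000 0x1c0000003e0000007f0000001c00000078000000280000000800000008 8 7) 0 0 (step_sound _ 195 [(rh2145e1d24b96a57e.shift 3 3), rh3c690349ae80fe37] (by decide +kernel))
noncomputable def rh0e405c9938d744c1 : CRef := CRef.mk (Pat.mk 0x40000000e000000080000000000000000 0x1800000018000000180000003c0000000e000000380000001f0000001c 8 6) 0 0 (step_sound _ 35 [(rh7b1f1fb55310c477.shift 2 0), rhde23771369361fb8] (by decide +kernel))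
noncomputable def rh313c2e48ab729282 : CRef := CRef.mk (Pat.mk 0x80000001c0000001000000000 0x1c0000001e0000007c0000001c0000007f00000067 8 7) 0 0 (step_sound _ 131 [(rh2145e1d24b96a57e.shift 3 1), rheade208bcb38adda] (by decide +kernel))
noncomputable def rhc35031d65dd5c8fe : CRef := CRef.mk (Pat.mk 0x1c00000010000000100000000000000000 0x1c0000001c000000360000007f0000001e00000008 8 7) 0 0 (step_sound _ 36 [rh4d14d1147a355f35, (rh50fbb5868c909700.shift 3 1)] (by decide +kernel))
noncomputable def rh2add4bebdded4732 : CRef := CRef.mk (Pat.mk 0x300000002000000020000000000000000000000000000000000000000 0x10000000300000006000000060000000600000007000000070000000700000004 8 3) 0 0 (step_sound _ 129 [(rh50fbb5868c909700.shift 0 4), rhcbc4ce7e87f8da4f] (by decide +kernel))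
noncomputable def rh237e208af50e2838 : CRef := CRef.mk (Pat.mk 0xe00000028000000000000000000000000 0x140000001c0000005c000000fc0000007f000000ff0000006e00000078000000f00000007000000050 8 8) 0 0 (step_sound _ 163 [(rh28bfb080bbcf0c5b.shift 1 0), (rh3f6151f079472441.shift 1 0), (rh6b7fca735142933a.shift 2 2), (rhf0fc6f1b221f30e1.shift 0 3)] (by decide +kernel))
noncomputable def rhd628108ad01f312a : CRef := CRef.mk (Pat.mk 0x7000000140000000000000000000000000 0x2800000038000007ff000003fe000007ff000001700000017e0000003c0000003800000030 8 11) 0 0 (step_sound _ 197 [(rh1e9736407406b8d1.shift 1 2), rh34879d5b5c2c3a68, (rh46b64634d1ad3f1c.shift 1 2), (rh8a7cfc4def78df05.shift 1 0), (rh980f03751d75f82c.shift 2 3), (rhc609daf111b01177.shift 2 0), (rhcd796ea92ed297d3.shift 4 0)] (by decide +kernel))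
noncomputable def rha5a2443c4c95ccf7 : CRef := CRef.mk (Pat.mk 0x1c0000001000000010000000000000000000000000 0x140000001c000000ff000000ff0000001f0000001e00000004 8 8) 0 0 (step_sound _ 131 [(rh153412c56eab4e09.shift 0 1), rh773b81dbf2b21f1b, (rhaa8706992b193d6e.shift 0 1), (rhb17e54761414237f.shift 2 1)] (by decide +kernel))
noncomputable def rh8d14fe2788d66671 : CRef := CRef.mk (Pat.mk 0x1c0000001000000010000000000000000000000000 0x140000001c0000003c0000001f000000380000003800000028 8 6) 0 0 (step_sound _ 68 [(rh1f3a6ba70a310ab1.shift 3 0), (rh8cdd36b03d57a2f6.shift 3 0), (rha613ffd40b6c9d24.shift 3 0), (rhba18e5b832923b55.shift 0 1)] (by decide +kernel))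
noncomputable def rh5c5347bb6241b82c : CRef := CRef.mk (Pat.mk 0x3000000020000000200000000000000000000000000000000 0x100000007000000070000001e00000003000000070000000700000006000000070000000700000005 8 5) 0 0 (step_sound _ 225 [(rh1728b446c037fdbd.shift 0 4), (rh8ff71bc284510f75.shift 0 2), (rhced6d86d2069808b.shift 1 3), rhda052f5e4a1a82dc, (rhdeff9f7901b67b7d.shift 0 3)] (by decide +kernel))
noncomputable def rhf9e0177ec18f0ebb : CRef := CRef.mk (Pat.mk 0xe000000080000000800000000 0x40000001c0000001c000000180000000e0000007f000000ff000000f4 8 8) 0 0 (step_sound _ 131 [(rh03e3279400e9ede1.shift 2 0), (rh12461e137161f2e1.shift 2 0), rhcbce6c4a87ce2afc, (rhdeff9f7901b67b7d.shift 2 0)] (by decide +kernel))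
noncomputable def rhfe60654109e242d0 : CRef := CRef.mk (Pat.mk 0x1c00000010000000100000000000000000000000000000000000000000 0x40000001c000000380000003c000000ff0000003c000000380000003800000020 8 8) 0 0 (step_sound _ 132 [(rh1f3a6ba70a310ab1.shift 3 2), (rh5997ccb989bf048f.shift 0 3), (rh8cdd36b03d57a2f6.shift 3 2), (rha613ffd40b6c9d24.shift 3 2), (rhcbc4ce7e87f8da4f.shift 3 0)] (by decide +kernel))
noncomputable def rh7d133a25bb586bc7 : CRef := CRef.mk (Pat.mk 0x1c00000010000000100000000000000000000000000000000000000000 0x140000001c000001f6000001ff000001fe000000f8000000780000007800000020 8 9) 0 0 (step_sound _ 132 [(rh26a46130e897c10b.shift 2 1), (rh4d14d1147a355f35.shift 0 3), (rh8cdd36b03d57a2f6.shift 3 2), (rhcbc4ce7e87f8da4f.shift 3 0)] (by decide +kernel))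
noncomputable def rhd8cfb8052df601c6 : CRef := CRef.mk (Pat.mk 0x7000000040000000400000000 0xc0000000e0000000e0000001e000000070000000c0000000e0000000a 8 5) 0 0 (step_sound _ 130 [(rh12461e137161f2e1.shift 1 0), rh63dbcfae63aa4130, rh7e08579078404617, (rhaded98ef7fb5094f.shift 1 0), rhb444e71ef922ad5e, (rhd7cb8ed87e2022d8.shift 1 0)] (by decide +kernel))
noncomputable def rhe51495b897d5e363 : CRef := CRef.mk (Pat.mk 0x1c00000010000000000000000000000000 0x1c0000003c0000007c0000001c0000007f000000ff0000003c0000003c 8 8) 0 0 (step_sound _ 99 [(rh4f100b2046dafeeb.shift 2 0), rh4f5df7961f37c748, rh523aac8d369e36da, rhd9294ea8499c96b5, (rhec62997ff840da06.shift 2 0)] (by decide +kernel))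
noncomputable def rha2688da6cc112085 : CRef := CRef.mk (Pat.mk 0x1c00000000000000000000000000000000 0x340000003e0000003f0000001e0000003f0000003f0000003f00000005 8 6) 0 0 (step_sound _ 129 [(rh3fa30c482a54b896.shift 0 1), (rhd6db1120eeedebe2.shift 0 1), rhe108b6074a952d08] (by decide +kernel))
noncomputable def rhca88f12153a2670e : CRef := CRef.mk (Pat.mk 0x28000000200000000000000000 0x20000006e0000007e0000007e000000ff0000003e000001ff000000fc0000006c 8 9) 0 0 (step_sound _ 100 [rh7472882c232e68b6, (rh8bc3327fa6faac05.shift 3 0), (rhc21a95c499b3efdb.shift 2 2)] (by decide +kernel))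
noncomputable def rhdb7a06e6536c2019 : CRef := CRef.mk (Pat.mk 0x280000002000000000000000000000000000000000 0x40000002c0000006f0000003f0000007f0000007e0000003e0000001e00000014 8 7) 0 0 (step_sound _ 162 [rh84ef0c07c339b0fd, (rh8c2bcbc84662fd1d.shift 0 2), (rhb04145dc3da226a5.shift 1 2), (rhb34a67f8847d128f.shift 0 4), (rhbf5d9e90d56c2a5f.shift 0 4), (rheb38467d669bf196.shift 1 2)] (by decide +kernel))
noncomputable def rha8072279884bb30a : CRef := CRef.mk (Pat.mk 0x280000002000000000000000000000000000000000 0x20000000e0000005e0000007e000000ff0000003e000001ff000000ec0000007c0000007000000050 8 9) 0 0 (step_sound _ 164 [(rh5a751a1e6d9b8c5b.shift 2 0), (rh7472882c232e68b6.shift 0 2), (rhc21a95c499b3efdb.shift 2 4)] (by decide +kernel))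
noncomputable def rhb0a3b6aaa703cafc : CRef := CRef.mk (Pat.mk 0x280000002000000000000000000000000000000000 0x20000000e0000005e0000007e000000ff0000003e000000ef0000007c000003fc0000007000000050 8 10) 0 0 (step_sound _ 164 [(rh3918eeb6c53434d8.shift 0 4), (rh7472882c232e68b6.shift 0 2), (rh855eb102cd8b6316.shift 2 0)] (by decide +kernel))
noncomputable def rh4f2232cebb2cd2ba : CRef := CRef.mk (Pat.mk 0x280000002000000000000000000000000000000000 0x140000001c0000003c0000007f0000003f0000007f0000001f0000001e0000001c00000014 8 7) 0 0 (step_sound _ 162 [(rh8c2bcbc84662fd1d.shift 0 2), rha710556b0eb1c31e, (rhb04145dc3da226a5.shift 1 2), (rhb34a67f8847d128f.shift 0 4), (rhbf5d9e90d56c2a5f.shift 0 4), (rheb38467d669bf196.shift 1 2)] (by decide +kernel))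
noncomputable def rha14d7918d94a12a9 : CRef := CRef.mk (Pat.mk 0x140000001000000000000000000000000000000000 0x28000000380000007e000000fe0000001f0000001800000038000000380000003800000008 8 8) 0 0 (step_sound _ 196 [(rh14332322a797c1bd.shift 0 3), (rh5c84380a1a981cd8.shift 1 1), (rh7f0d646bedd75431.shift 1 1), (rh7f9fbe0f9ddf70a7.shift 1 0), (rha58607731c8b4809.shift 3 1), (rhdae0f9eaff3e1309.shift 1 1), (rhf3464aed381aaf11.shift 0 2), (rhff363d8c8c4d7478.shift 3 1)] (by decide +kernel))
noncomputable def rh8a8fe157ae315812 : CRef := CRef.mk (Pat.mk 0x50000000400000000000000000000000000000000000000000 0x8000000380000003c0000003e0000007f000001ff000003fe0000007c0000007c0000003800000020 8 10) 0 0 (step_sound _ 164 [(rh61059692574bb803.shift 1 0), (rh6c7343313a6621b0.shift 1 2), (rh7ff2fcb04e113733.shift 1 2), (rh8115e28e85126967.shift 1 2), (rhc78f887c66795e5a.shift 1 3), (rhcc740d453bafdd8f.shift 2 1), (rhd75e5f3a38258c04.shift 1 0), (rhdd65185d0f7d0f34.shift 1 0), (rhe1bead3c6a8aa02a.shift 0 2)] (by decide +kernel))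
noncomputable def rhb4ff42fbee9f541c : CRef := CRef.mk (Pat.mk 0x140000001000000000000000000000000000000000 0x2800000038000000780000001c000000fc000000ff0000007e0000003f00000028 8 8) 0 0 (step_sound _ 100 [(rh00f4d712d88729c0.shift 3 1), (rh4692eec48c60ad82.shift 3 0), rh65f26d0c8df040dd, (rh937d595a607cbdda.shift 2 2), (rh9865b7dd8cc00fe1.shift 3 0), (rhb5af6b450c9c531c.shift 3 1), (rhda8c66aa781fe452.shift 1 2), (rhf418d59029d720e2.shift 2 2)] (by decide +kernel))
noncomputable def rh5546b64289021f48 : CRef := CRef.mk (Pat.mk 0xa0000000800000000000000000000000000000000000000000 0x5000000170000001f0000003fc000003fc000000bf000007fe00000ffe000003f8000001f0000001f000000040 8 12) 0 0 (step_sound _ 165 [(rh1cbeb98d022c59ac.shift 2 2), (rh26788f4d5e86a140.shift 2 2), (rh36b2afc14b11904f.shift 2 2), (rh5fc189ca6e8e0fa4.shift 2 0), (rh6915951241de8e98.shift 1 2), (rh6efb738a61011c43.shift 2 1), (rh8443d3fc8028cd5d.shift 2 2), (rha9176e8bd3bf4bff.shift 2 1), (rhc51a013d4f425f25.shift 2 0), rhdf7a3a044de904fe, (rhfa47ea0bb77adff7.shift 2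 1)] (by decide +kernel))
noncomputable def rh4e2eab4568b9d577 : CRef := CRef.mk (Pat.mk 0x280000002000000000000000000000000000000000 0x20000000e0000000e0000002e0000006f0000003f0000007f0000007e0000003e0000001e00000014 8 7) 0 0 (step_sound _ 162 [(rh17ef84de4fc1bdd3.shift 0 2), (rh1976e6a21e904e01.shift 1 2), rh84ef0c07c339b0fd, (rhb04145dc3da226a5.shift 1 2), (rhb34a67f8847d128f.shift 0 4), (rhbf5d9e90d56c2a5f.shift 0 4)] (by decide +kernel))
noncomputable def rhe22395576487a73f : CRef := CRef.mk (Pat.mk 0x280000002000000000000000000000000000000000 0x20000001e0000001e0000001e0000007f0000003f0000007f0000001f0000001c0000001c00000014 8 7) 0 0 (step_sound _ 162 [(rh1976e6a21e904e01.shift 1 2), (rh9ff396067a2e3425.shift 0 2), rha710556b0eb1c31e, (rhb34a67f8847d128f.shift 0 4), (rhbf5d9e90d56c2a5f.shift 0 4), (rhdfa77469688d663b.shift 0 4)] (by decide +kernel))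
noncomputable def rh2f9f241e2eb4a7a6 : CRef := CRef.mk (Pat.mk 0x1400000010000000000000000000000000 0x28000000380000003e000000fe0000001f00000018000000380000003800000028 8 8) 0 0 (step_sound _ 164 [(rh131b19269d79d13d.shift 1 0), (rh300a67a763d4303b.shift 1 2), (rh785804701e263c00.shift 0 2), (rhaef13a1c72d4db39.shift 3 1), (rhf237fec569adc1e2.shift 3 1), (rhf3464aed381aaf11.shift 0 1), (rhff363d8c8c4d7478.shift 3 0)] (by decide +kernel))
noncomputable def rh3dd0c723d627c84d : CRef := CRef.mk (Pat.mk 0xa0000000800000000000000000000000000000000 0x140000001e0000001f0000007e0000000e0000007e0000001f0000001e0000001c00000014 8 7) 0 0 (step_sound _ 195 [(rh16588281c517ea5f.shift 0 1), (rh4dc2891f3a21ef79.shift 2 0), (rh7fb85e918b0a04ef.shift 2 1), (rh9935e6d90e5bde1c.shift 0 3), (rhaef13a1c72d4db39.shift 2 2), (rhc5c5b88722b9bb4a.shift 2 2), (rhd091826498b1b626.shift 2 2), (rheac7100a97901a45.shift 2 2)] (by decide +kernel))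
noncomputable def rh6c4232c6c2162052 : CRef := CRef.mk (Pat.mk 0xa0000000800000000000000000000000000000000000000000 0x5000000170000001f0000003fc000003fc000000bf000007fe00000ffe000003f8000001f0000001f000000040 8 12) 0 0 (step_sound _ 165 [(rh1cbeb98d022c59ac.shift 2 2), (rh26788f4d5e86a140.shift 2 2), (rh36b2afc14b11904f.shift 2 2), (rh5fc189ca6e8e0fa4.shift 2 0), (rh6915951241de8e98.shift 1 2), (rh6efb738a61011c43.shift 2 1), (rha9176e8bd3bf4bff.shift 2 1), (rhc51a013d4f425f25.shift 2 0), rhdf7a3a044de904fe, (rhe5482cf45c42b97f.shift 2 2), (rhfa47ea0bb77adff7.shift 2 1)] (by decide +kernel))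
noncomputable def rh0af3191fa0aee58e : CRef := CRef.mk (Pat.mk 0x20000000280000000000000000000000000000000000000000 0x68000000fc000001fe0000003e000000ff0000007e0000003e0000002e0000000a 8 9) 0 0 (step_sound _ 164 [rh06c8b22768957189, (rh0f0f3fa9f3928457.shift 3 1), (rh46f4e32c661b103a.shift 0 4), (rhff7d63dcb3cf9f74.shift 2 5)] (by decide +kernel))
noncomputable def rhf4afdd6aba63911b : CRef := CRef.mk (Pat.mk 0x20000000280000000000000000000000000000000000000000 0x140000001c0000007e0000007e0000007f0000003f0000006f0000006e0000004e0000004e0000000a 8 7) 0 0 (step_sound _ 162 [(rh03573b59c4586240.shift 2 1), (rh170eaefe6fff8440.shift 0 2), (rh61e2fa0cb06aec6a.shift 1 0), rh8b0956576f208237, (rhe7a687206514a34a.shift 0 4)] (by decide +kernel))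
noncomputable def rh2e5d0d5cf17ca182 : CRef := CRef.mk (Pat.mk 0x20000000280000000000000000000000000000000000000000 0x500000007000000078000001ec000001fe0000003e000000ff0000007e0000005e0000000e0000000a 8 9) 0 0 (step_sound _ 164 [rh06c8b22768957189, (rh46f4e32c661b103a.shift 0 4), (rh48fca6bb3b33c1ca.shift 3 2), (rhff7d63dcb3cf9f74.shift 2 5)] (by decide +kernel))
end Crest.Agent.S0047.Helper85.Cert
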