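import Crest.Agent.Lib.S0047.Helper85CertPL6F0
import Crest.Agent.Lib.S0047.Helper85CertPL6F1
import Crest.Agent.Lib.S0047.Helper85CertPL6F2
import Crest.Agent.Lib.S0047.Helper85CertPL6F3
import Crest.Agent.Lib.S0047.Helper85CertPL6F4
import Crest.Agent.Lib.S0047.Helper85CertPL6F5
import Crest.Agent.Lib.S0047.Helper85CertPL6F6
import Crest.Agent.Lib.S0047.Helper85CertPL6F7
import Crest.Agent.Lib.S0047.Helper85CertPL6F8
import Crest.Agent.Lib.S0047.Helper85CertPL6F9
import Crest.Agent.Lib.S0047.Helper85CertPL6F10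
import Crest.Agent.Lib.S0047.Helper85CertPL6F11
import Crest.Agent.Lib.S0047.Helper85CertPL6F12
set_option autoImplicit false
set_option linter.all false
set_option Elab.async false
namespace Crest.Agent.S0047.Helper85.Cert
open Crest.Agent.S0047.Helper85

noncomputable def rh425a13e1173506fb : CRef := CRef.mk (Pat.mk 0x180000000e0000000000000000 0x7000000370000001f000000fe000000e700000006 7 8) 0 0 (step_sound _ 68 [rh21460d2d48a35cb8, (rh2cd5e3ff422d0616.shift 0 1), rh3f38de6b95fe6c30, rh5e2fdb8ed724854f, (rhb447f348b8f2aaa5.shift 0 1)] (by decide +kernel))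
noncomputable def rh4daee3fc6eef3b92 : CRef := CRef.mk (Pat.mk 0x300000001c000000100000000000000000 0x80000000f0000003f0000003c000000f60000003e0000001c 7 8) 0 0 (step_sound _ 131 [(rhd8ce378acc034838.shift 1 0), (rhf5fb62b175efbf45.shift 0 1), (rhfc7c29d8e65d775f.shift 3 1)] (by decide +kernel))
noncomputable def rhc297f03dfbd12c9f : CRef := CRef.mk (Pat.mk 0x180000000e000000080000000000000000 0x30000000300000001f0000001e0000007f0000003000000030 7 7) 0 0 (step_sound _ 68 [(rh5759d9c1c0335006.shift 0 2), (rh89ade209b3e28f13.shift 1 2), (rhae2edff970a530ce.shift 1 2), rhd2aafc2140594e43] (by decide +kernel))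
noncomputable def rhec7ad518217d8e47 : CRef := CRef.mk (Pat.mk 0x80000001e000000000000000000000000 0x20000000b0000003e000000370000001400000014 7 6) 0 0 (step_sound _ 68 [rhda60dd016dfe52e1, (rhe25b0a99195a5d59.shift 1 2)] (by decide +kernel))
noncomputable def rh1ed2095bc7c461f8 : CRef := CRef.mk (Pat.mk 0x70000000180000000000000000 0x2800000068000000ec0000007f000000f8000000e000000060 7 8) 0 0 (step_sound _ 99 [(rh01231226a6a701a7.shift 0 2), (rh014abbda9a411227.shift 2 0), (rh09fb2f953a1dfd6f.shift 3 0), (rh52b4b7b516a7d39e.shift 2 1), (rhb32eb569dfc388a6.shift 2 0)] (by decide +kernel))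
noncomputable def rh2c059e45ffa15cab : CRef := CRef.mk (Pat.mk 0x300000001c000000100000000000000000 0xc0000000c0000000f0000003f0000007c000000180000003000000030 7 7) 0 0 (step_sound _ 131 [(rh10d1778eab3cd4c6.shift 1 2), rh5ec40acab9b24577, (rhfc7c29d8e65d775f.shift 3 1)] (by decide +kernel))
noncomputable def rhff42dcdc0970b402 : CRef := CRef.mk (Pat.mk 0x180000000e000000080000000000000000 0x14000000140000001f0000007e0000007f0000003200000030 7 7) 0 0 (step_sound _ 100 [(rh21460d2d48a35cb8.shift 0 1), (rh7c06ca21cbea9275.shift 1 2), rhc62656d98e2efc3b] (by decide +kernel))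
noncomputable def rh576262974fcf62ec : CRef := CRef.mk (Pat.mk 0xe00000007000000000000000000000000 0xc0000000c0000000c0000000e0000003f0000001e0000000e00000004 7 6) 0 0 (step_sound _ 162 [(rh3fede6a98356affb.shift 1 2), (rh503dd4575245365b.shift 1 2), rh65beea4cc676f87a] (by decide +kernel))
noncomputable def rhddc97c03fa63e686 : CRef := CRef.mk (Pat.mk 0xc0000000e000000000000000000000000 0xa0000000f0000007e000000070000000600000006 7 7) 0 0 (step_sound _ 100 [rhc0bb59e91cc0d6b2, (rhe3060b190bc0bc78.shift 0 3), (rhf10fa853c2693a25.shift 0 2)] (by decide +kernel))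
noncomputable def rh47bc5cc95658036e : CRef := CRef.mk (Pat.mk 0x40000001e000000000000000000000000 0x70000001f0000003f0000000300000003 7 6) 0 0 (step_sound _ 129 [(rh3244c3cc8379b070.shift 0 3), rhcefe4dc19b1b5531] (by decide +kernel))
noncomputable def rh7cca796d15a13461 : CRef := CRef.mk (Pat.mk 0xc0000000e000000080000000000000000 0x80000000c0000000e0000001b0000001f0000001e 7 5) 0 0 (step_sound _ 35 [(rh7b1f1fb55310c477.shift 2 0), rh9d823d66b12f6a23] (by decide +kernel))
noncomputable def rh39e0994130fb05b7 : CRef := CRef.mk (Pat.mk 0xc000000060000000000000000 0x10000000300000003f0000003f0000000800000008 7 6) 0 0 (step_sound _ 100 [(rh18965a982d73c794.shift 1 2), rh8f7ac7d0891efd66] (by decide +kernel))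
noncomputable def rh7ec7bc643b172875 : CRef := CRef.mk (Pat.mk 0x20000000e000000060000000000000000 0x8000000080000003a0000003f000000360000001400000004 7 6) 0 0 (step_sound _ 34 [(rh3c004dd0a2e87afb.shift 0 1), (rh7b1f1fb55310c477.shift 1 0)] (by decide +kernel))
noncomputable def rh3fcd99c472a334c6 : CRef := CRef.mk (Pat.mk 0x8000000000000001800000018 0xc0000000c000000e7000000ff0000001f 7 8) 0 0 (step_sound _ 37 [rh1696c55e2becd961, (rh2612b4f73ba7c3b3.shift 2 0), rh30b1045e318f0560] (by decide +kernel))
noncomputable def rh9d056153551b976f : CRef := CRef.mk (Pat.mk 0x180000001c000000000000000000000000 0xc0000000c0000000f0000007c0000001c0000000c0000000c0000000c 7 7) 0 0 (step_sound _ 133 [(rh18965a982d73c794.shift 2 3), rh5940222dbe6c7d96] (by decide +kernel))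
noncomputable def rheb3329c30661558b : CRef := CRef.mk (Pat.mk 0x80000001800000018000000100000000000000000 0x40000000c0000001c0000001f0000003f0000000f0000000c 7 6) 0 0 (step_sound _ 98 [rhe3e6050a7f9169c4, (rhf56e6bc5d2f7fe77.shift 0 2)] (by decide +kernel))
noncomputable def rh8c0ad0c66ea1bb38 : CRef := CRef.mk (Pat.mk 0x80000001800000018000000000000000000000000 0x2000000024000000ef000000fc000000d80000004c0000000c0000000c 7 8) 0 0 (step_sound _ 133 [rh05732d937c59a6d1, (rh3c004dd0a2e87afb.shift 2 2), (rhb762f327c85d41a0.shift 2 3)] (by decide +kernel))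
noncomputable def rh682ade760733a6f8 : CRef := CRef.mk (Pat.mk 0x1800000018000000000000000000000000 0x2000000024000000e7000000ff000000df000000580000001800000010 7 8) 0 0 (step_sound _ 133 [rh0867506460b10cfb, (rh1d5609feff06cf69.shift 2 2), (rh4dc133ee0ba1420a.shift 1 3)] (by decide +kernel))
noncomputable def rh0cb2d4cad10f99be : CRef := CRef.mk (Pat.mk 0x2800000038000000000000000000000000 0x4000000040000001e0000003f0000003e000000680000002800000020 7 7) 0 0 (step_sound _ 130 [(rh94708ebd8055582e.shift 1 0), (rhc02b3aee7ab87ee1.shift 0 3), (rhdbcea10a0fbe5ba6.shift 0 3)] (by decide +kernel))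
noncomputable def rh5c0c350034c81fe1 : CRef := CRef.mk (Pat.mk 0x40000001c000000000000000000000000 0xa0000000e0000000e0000000e0000000e0000001c0000001f0000000e0000000a 7 5) 0 0 (step_sound _ 162 [rh040ab19acf1ad50d, (rhf64821747b7b1be1.shift 2 2), (rhfa0a017db2605800.shift 1 0)] (by decide +kernel))
noncomputable def rh8c38f01c237e5759 : CRef := CRef.mk (Pat.mk 0x5000000070000000200000000000000000 0x57000001fe0000007f0000003f00000028 7 9) 0 0 (step_sound _ 99 [rh35bfc9cd57e21426, (rh81fc6b770b9d26d2.shift 1 0), rh96cc97d975a43214, (rhb4f5b1f88c9a7c13.shift 1 2), rhceb53dfa4785286a, (rhf0a88059f68a2c1c.shift 1 0)] (by decide +kernel))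
noncomputable def rhcb5333b321e8d881 : CRef := CRef.mk (Pat.mk 0x140000001c0000000800000000 0xe0000000f0000001c0000001c0000001f00000016 7 5) 0 0 (step_sound _ 130 [(rh2145e1d24b96a57e.shift 2 1), rhb9226156048f6dd3] (by decide +kernel))
noncomputable def rh6c9f14dcfaa95209 : CRef := CRef.mk (Pat.mk 0x140000001c00000010000000000000000000000000 0x4000000040000000c0000001c0000001f0000001a000000380000003800000028 7 6) 0 0 (step_sound _ 68 [(rh003e4cdb6e6acc31.shift 0 1), (rh8cdd36b03d57a2f6.shift 3 0), (rhe286c75f2739cce2.shift 3 1)] (by decide +kernel))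
noncomputable def rh95d52529526d9362 : CRef := CRef.mk (Pat.mk 0xa0000000e00000008000000000000000000000000 0x60000000e0000000e0000003c0000001f0000001e00000014 7 6) 0 0 (step_sound _ 67 [(rh8cdd36b03d57a2f6.shift 2 0), (rhe286c75f2739cce2.shift 2 1), (rhf2596af7180515ce.shift 0 1)] (by decide +kernel))
noncomputable def rh2db347626dabd8fb : CRef := CRef.mk (Pat.mk 0x220000003800000000 0x3b000001fe000001cf 7 9) 0 0 (step_sound _ 34 [rh00b511fddce6f168, rhcb8383f82aaf08ab, (rhd0c0061ffd79e485.shift 1 0), (rhfcf1119458f22b28.shift 0 1)] (by decide +kernel))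
noncomputable def rh4d64d8174b81bca9 : CRef := CRef.mk (Pat.mk 0x20000000380000000000000000 0x18000000180000003f000000fe0000006e0000002c 7 8) 0 0 (step_sound _ 99 [rh5091e8ef766e6e0b, (rh6a407878b8f12b5d.shift 1 0), (rha7edc60fc34bffff.shift 1 2), (rha9fbfd4bb8cf890b.shift 0 2), (rhc285527e08d8cdd3.shift 2 0)] (by decide +kernel))
noncomputable def rh2885fe34da96c517 : CRef := CRef.mk (Pat.mk 0x1e000000100000000000000000 0x200000006000000070000001e0000001f0000000700000007 7 5) 0 0 (step_sound _ 65 [rh4326da0e9adbe4a8, (rheb0810cc63b001d8.shift 0 2)] (by decide +kernel))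
noncomputable def rhd7e0f41747552dd7 : CRef := CRef.mk (Pat.mk 0x280000007800000000000000000000000000000000 0x1c0000001e00000038000000780000003c0000001f0000001c00000008 7 7) 0 0 (step_sound _ 99 [rhcbf7170559ff2e99, (rheb0810cc63b001d8.shift 2 3)] (by decide +kernel))
noncomputable def rhc1efa01094375ded : CRef := CRef.mk (Pat.mk 0xc0000000c000000080000000000000000 0x1000000030000000700000007f0000007c000000780000007000000020 7 7) 0 0 (step_sound _ 132 [(rh03765aa183ffec27.shift 1 2), (rh20ea90a00c7f3cf8.shift 1 1), (rh3c004dd0a2e87afb.shift 1 2), rh912fdcc0a898d787, (rhc425d59bca762a77.shift 1 1), (rhd8d8768d4411e5df.shift 2 1)] (by decide +kernel))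
noncomputable def rh7d0a31c96b118879 : CRef := CRef.mk (Pat.mk 0x1800000018000000000000000000000000 0x1c0000003c0000000f0000001c000000780000001e0000001c00000008 7 7) 0 0 (step_sound _ 163 [(rh28152048bc8b598f.shift 0 2), (rh55a1f6c57a317ce6.shift 3 1), (rhdff11192f1b2345e.shift 1 0)] (by decide +kernel))
noncomputable def rh3a81693bb28b3fe0 : CRef := CRef.mk (Pat.mk 0x80000001800000018000000000000000000000000 0x2000000024000000ef000000fc000000380000001c0000001c0000000c 7 8) 0 0 (step_sound _ 68 [rh5f25d710af2de1ad, (rh7b1f1fb55310c477.shift 3 1)] (by decide +kernel))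
noncomputable def rh9df87456f67e84e5 : CRef := CRef.mk (Pat.mk 0x3000000070000000000000000 0xc0000001c0000001f0000001f0000001c0000000c 7 5) 0 0 (step_sound _ 67 [rh9bb3a7f7ff3c303e, (rhf48373e13d2bc128.shift 0 2)] (by decide +kernel))
noncomputable def rh8d31eee43eaf43f5 : CRef := CRef.mk (Pat.mk 0xe0000001c000000000000000000000000 0x14000000770000007e0000001c000000180000001800000018 7 7) 0 0 (step_sound _ 67 [(rh3cb04db3dd2b6a55.shift 2 0), (rh438ef3803f1c81a0.shift 0 2), (rh69c9ccc816eba836.shift 2 0)] (by decide +kernel))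
noncomputable def rh458da186430c632b : CRef := CRef.mk (Pat.mk 0x18000000180000000000000000 0x400000004000000ef000000ff0000007b0000000a00000008 7 8) 0 0 (step_sound _ 98 [(rh6292bd8784ece55f.shift 1 2), (rh9b115110c04596c4.shift 1 0), (rhdc692b1e23a4285d.shift 0 1)] (by decide +kernel))
noncomputable def rhe735d1e6e68d8d79 : CRef := CRef.mk (Pat.mk 0x1800000018000000000000000000000000 0x400000024000000e7000000ff000000fb0000001a0000001800000008 7 8) 0 0 (step_sound _ 130 [(rh0947905ceda197d2.shift 2 0), (rh6292bd8784ece55f.shift 1 3), (rhdc692b1e23a4285d.shift 0 2)] (by decide +kernel))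
noncomputable def rh063984de564f46f2 : CRef := CRef.mk (Pat.mk 0x7000000030000000000000000 0xc0000001c0000001f0000001f0000001c0000000c 7 5) 0 0 (step_sound _ 99 [rh09fb2f953a1dfd6f, (rh18965a982d73c794.shift 0 2)] (by decide +kernel))
noncomputable def rh6cf8318ada960bd2 : CRef := CRef.mk (Pat.mk 0x1800000018000000000000000000000000 0x1c0000003c0000000f00000018000000780000001e0000001c0000001c 7 7) 0 0 (step_sound _ 163 [(rh1cf393a818e1cca8.shift 0 2), (rh3e595262c1b737ad.shift 3 2), (rha7360cc2d941309a.shift 1 0)] (by decide +kernel))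
noncomputable def rh8fe15d633217c1c4 : CRef := CRef.mk (Pat.mk 0x18000000180000000000000000 0x4000000240000006f0000003f000000780000001800000018 7 7) 0 0 (step_sound _ 98 [(rh6292bd8784ece55f.shift 1 2), rh9843a4c0a37ed17f, (rhaa0a2c2063f95363.shift 1 0)] (by decide +kernel))
noncomputable def rhb6483549f3fa1813 : CRef := CRef.mk (Pat.mk 0x180000001e000000000000000000000000 0x20000000300000001f0000001e000000380000001800000018 7 6) 0 0 (step_sound _ 68 [rh69ddb689a2d405ae, (rhe25b0a99195a5d59.shift 1 2)] (by decide +kernel))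
noncomputable def rh3d8f0513cff12700 : CRef := CRef.mk (Pat.mk 0x1e00000018 0x1c0000003c000000370000003e00000018 7 6) 0 0 (step_sound _ 68 [(rh33e738c4ed385b9f.shift 1 1), rh7deddedfb8754589] (by decide +kernel))
noncomputable def rhe4fa57a573f8c1de : CRef := CRef.mk (Pat.mk 0x7800000020 0x1c0000001c0000001f0000003c000000f80000002c 7 8) 0 0 (step_sound _ 67 [(rh3244c3cc8379b070.shift 2 1), rhd78dfc6313ffeaad] (by decide +kernel))
noncomputable def rh31d0924caf06b0f6 : CRef := CRef.mk (Pat.mk 0x60000001c000000080000000000000000 0x140000003e000000360000001f000000380000000800000008 7 6) 0 0 (step_sound _ 35 [(rh15b1d8741adae73d.shift 0 1), (rh7b1f1fb55310c477.shift 2 0)] (by decide +kernel))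
noncomputable def rhc6b0e933cbd408b6 : CRef := CRef.mk (Pat.mk 0x60000001c00000008 0x1c0000003c0000003e0000001f00000038 7 6) 0 0 (step_sound _ 98 [(rh2145e1d24b96a57e.shift 2 0), rh62f7858f5b2ab497] (by decide +kernel))
noncomputable def rh03b04d899cf466ea : CRef := CRef.mk (Pat.mk 0x1e0000001800000000 0x1e0000003e0000000f0000003e0000001c00000014 7 6) 0 0 (step_sound _ 97 [(rh3244c3cc8379b070.shift 0 2), (rhf4c5c814fdb5e540.shift 1 0)] (by decide +kernel))
noncomputable def rh0c9745a831a786cb : CRef := CRef.mk (Pat.mk 0x1800000070000000000000000000000000 0x60000000e0000000f80000007f000000ec0000006800000028 7 8) 0 0 (step_sound _ 99 [(rh06ee2d6eaeff1488.shift 2 1), (rh510d215f94bf1ad4.shift 2 1), (rh9bb3a7f7ff3c303e.shift 3 1), (rhf459621b93742302.shift 2 0), rhfdc19dc23230dc43] (by decide +kernel))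
noncomputable def rh2603e457ac100aed : CRef := CRef.mk (Pat.mk 0x1c000000300000000000000000 0x8000000380000007c0000007c000000fe0000003c0000003f0000006f0000006c 7 8) 0 0 (step_sound _ 132 [(rh1165db1bbd06e8d5.shift 3 1), rh2ac7abdaafc63216, (rh352b82230f693c0c.shift 1 0), (rhea6bef6447d37a6a.shift 3 1)] (by decide +kernel))
noncomputable def rh921503df541657e3 : CRef := CRef.mk (Pat.mk 0x8000000000000000e0000001800000000 0x170000001f0000003a0000000e0000001c00000014 7 6) 0 0 (step_sound _ 99 [(rh55afc6a59410cf00.shift 3 0), rhbcc9f1b782288df3] (by decide +kernel))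
noncomputable def rh47df6a03b0cdaa03 : CRef := CRef.mk (Pat.mk 0x8000000000000000e0000001800000000 0x1e0000001e000000f70000007e0000001c00000004 7 8) 0 0 (step_sound _ 68 [(rh4d8d614e03a7f6ad.shift 1 1), rh5ec954083c4d5411, (rhdce80c6eb7d59202.shift 0 1)] (by decide +kernel))
noncomputable def rh08cf1dc1ec600a7e : CRef := CRef.mk (Pat.mk 0x60000001c0000000000000000 0x1c0000003c0000003e0000001e0000003b0000001a 7 6) 0 0 (step_sound _ 65 [rh031a926e4a883687, (rh9bb3a7f7ff3c303e.shift 1 0)] (by decide +kernel))
noncomputable def rhcabe1c9d11ad64a4 : CRef := CRef.mk (Pat.mk 0xf0000000000000000 0x4000000040000003f0000003f0000000300000002 7 6) 0 0 (step_sound _ 100 [(rh428265de8cd3cd2d.shift 0 2), rhe313f71a3fc362f5] (by decide +kernel))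
noncomputable def rhfcb3bbbfd6e690db : CRef := CRef.mk (Pat.mk 0x20000000e00000008 0x140000003c0000003f0000003e00000008 7 6) 0 0 (step_sound _ 36 [(rh3244c3cc8379b070.shift 0 1), (rhbe589b6cf9f57e82.shift 1 0)] (by decide +kernel))
noncomputable def rh9c0133e50d8100ea : CRef := CRef.mk (Pat.mk 0x4000000040000001c0000000000000000 0xa0000000f0000003c0000003c0000000f0000000e 7 6) 0 0 (step_sound _ 34 [(rh157b220518f94713.shift 1 0), rhf061e61953401a2f, rhfbf2eae4035425b6] (by decide +kernel))
noncomputable def rhab232e3015c66f2f : CRef := CRef.mk (Pat.mk 0x800000038000000200000000000000000 0x40000001c0000003c0000003f0000001f000000380000003e0000001c00000010 7 6) 0 0 (step_sound _ 163 [(rh067a64cbf1611a87.shift 0 2), (rh70e33bfdf511e144.shift 3 0), (rhbd0ae4c28dad89a6.shift 0 2), (rhd9053a3100b6d7aa.shift 0 1), (rhf3afdd1b4b9b596e.shift 3 2)] (by decide +kernel))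
noncomputable def rhc21c3c599d692292 : CRef := CRef.mk (Pat.mk 0x4000000060000001c00000000 0x20000002e0000002e0000003f0000003f0000001e0000001c00000010 7 6) 0 0 (step_sound _ 100 [(rh76224409dcc75616.shift 0 1), rhbc99f7951ec5843a, (rhc23ae72b71b0f773.shift 1 0), (rhce47b66c6431922c.shift 0 1)] (by decide +kernel))
noncomputable def rhc8538951ddce3fec : CRef := CRef.mk (Pat.mk 0x60000001c000000000000000000000000 0x80000001c0000003c0000001f0000001c000000180000001800000008 7 6) 0 0 (step_sound _ 131 [(rhb739f4f82bb681b4.shift 0 3), (rhc3b76a815d0c931a.shift 1 0)] (by decide +kernel))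
noncomputable def rhd2491faf486785ec : CRef := CRef.mk (Pat.mk 0x60000000c0000000000000000 0x400000004000000070000003f0000003b00000002 7 6) 0 0 (step_sound _ 68 [rh568f4272dc12cd1b, (rhf48373e13d2bc128.shift 1 2)] (by decide +kernel))
noncomputable def rh680eac0fbe5a2298 : CRef := CRef.mk (Pat.mk 0xe0000000c00000000 0x1c0000003c0000007f0000000f0000000c00000008 7 7) 0 0 (step_sound _ 99 [rh043bc1678f619ec5, rh317638de84cab6e9, rh6609c8b2261018fb, (rhff7d63dcb3cf9f74.shift 0 2)] (by decide +kernel))
noncomputable def rh2a9847e303a07bc8 : CRef := CRef.mk (Pat.mk 0x20000001c0000000000000000 0x8000000080000003b0000001f0000003300000010 7 6) 0 0 (step_sound _ 65 [rh06ee2d6eaeff1488, (rh3244c3cc8379b070.shift 0 2)] (by decide +kernel))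
noncomputable def rhe471aded800711ca : CRef := CRef.mk (Pat.mk 0x1800000018000000000000000800000000 0x40000000df000000ff000000e70000002c0000002c 7 8) 0 0 (step_sound _ 101 [rh57aaaf0352f46bc0, (rh79b3c29022acbdf3.shift 2 3), (rhef3032495df9d34e.shift 2 0)] (by decide +kernel))
noncomputable def rh3160965f777d4302 : CRef := CRef.mk (Pat.mk 0x1000000018000000180000000800000000 0xc0000000f0000003f0000001f0000001c0000000c00000004 7 6) 0 0 (step_sound _ 98 [(rh34517e326ddb5b25.shift 0 2), rhf72c82775eeff0a4] (by decide +kernel))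
noncomputable def rhcead0e8c07db753c : CRef := CRef.mk (Pat.mk 0x1800000018000000000000000000000000 0xc0000001c0000001c000000180000007c0000000f0000000c0000000c 7 7) 0 0 (step_sound _ 67 [(rh84d1c02a8954c6a8.shift 3 1), (rh8a1ee47490e51e8b.shift 0 1), (rh9954101f0efffb9e.shift 2 0)] (by decide +kernel))
noncomputable def rh8d3115d645de002c : CRef := CRef.mk (Pat.mk 0x1800000018000000000000000000000000 0x800000048000000df000000ff000000e70000002400000020 7 8) 0 0 (step_sound _ 101 [(rh53daa803953ee8cc.shift 0 1), (rhe2b63c00a3d7bb73.shift 1 3), (rhf04b1c50f528f108.shift 2 0)] (by decide +kernel))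
noncomputable def rhe07a8016389733a9 : CRef := CRef.mk (Pat.mk 0x2000000020000000e0000000400000000 0x80000000b0000007e0000003f0000007400000010 7 7) 0 0 (step_sound _ 100 [rh72d04f14cf3dc58a, (rha0d2d254997cad6c.shift 1 1), (rhb46d57dcd4b22d89.shift 0 2), (rhb8022f71dc28021b.shift 0 2)] (by decide +kernel))
noncomputable def rh9b113864bf66b7e5 : CRef := CRef.mk (Pat.mk 0x8000000080000003800000010000000000000000000000000 0x340000007c0000007f0000003c00000018000000080000000800000008 7 7) 0 0 (step_sound _ 162 [(rh642e5326ec9c2607.shift 2 0), (rhc02b3aee7ab87ee1.shift 0 4), (rhdbcea10a0fbe5ba6.shift 0 4)] (by decide +kernel))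
noncomputable def rha796b599eb6e0759 : CRef := CRef.mk (Pat.mk 0x380000001c000000000000000000000000 0x14000000370000003f0000001c0000000c0000000c0000000c 7 6) 0 0 (step_sound _ 67 [(rhdaa2181e4ab8a5f9.shift 0 2), (rhea7a1800d6f053bd.shift 3 0), rhfb36e87b6ce297a7] (by decide +kernel))
noncomputable def rhb7195d76ec998de3 : CRef := CRef.mk (Pat.mk 0x8000000380000001000000000 0x28000000680000007f0000003e0000001600000004 7 7) 0 0 (step_sound _ 131 [(rh2145e1d24b96a57e.shift 3 1), rh89ae2f860d1ba99c] (by decide +kernel))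
noncomputable def rheaf1d6ae2b007f53 : CRef := CRef.mk (Pat.mk 0x1e0000000a00000000 0x14000000340000003f0000001f0000000a00000002 7 6) 0 0 (step_sound _ 100 [(rh33e738c4ed385b9f.shift 1 2), rh82c7579ea989f300] (by decide +kernel))
noncomputable def rh1378fe0ba956ca78 : CRef := CRef.mk (Pat.mk 0x1c0000000e000000000000000000000000 0x60000000e0000000f0000001c0000000e000000060000000600000006 7 5) 0 0 (step_sound _ 66 [(rh9954101f0efffb9e.shift 1 0), (rhea7a1800d6f053bd.shift 2 0), (rhf767d9e31ae4b6bf.shift 0 2)] (by decide +kernel))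
noncomputable def rh8446618da59e3717 : CRef := CRef.mk (Pat.mk 0x3c000000140000000000000000 0xc0000000c0000000e0000003c0000001c0000000f0000000a 7 6) 0 0 (step_sound _ 130 [(rh3244c3cc8379b070.shift 1 3), rhdeb2d76227ba59ec] (by decide +kernel))
noncomputable def rha1951fc7b056a798 : CRef := CRef.mk (Pat.mk 0x1e00000010 0x3800000038000000f80000003c0000001f00000010 7 8) 0 0 (step_sound _ 68 [(rh33e738c4ed385b9f.shift 1 1), rhb93170b57c0a7296] (by decide +kernel))
noncomputable def rh58cc253a25d6f07d : CRef := CRef.mk (Pat.mk 0xf000000040000000000000000 0x40000003f0000003f0000001c0000000800000008 7 6) 0 0 (step_sound _ 67 [rh719edbdf4d1c438d, (rhe25b0a99195a5d59.shift 0 2)] (by decide +kernel))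
noncomputable def rhe39023751549729f : CRef := CRef.mk (Pat.mk 0xe00000001 0xe70000007e000000e3 7 8) 0 0 (step_sound _ 36 [rh394e80a462af5b2f, rh80fcd6d0a18cb2dd] (by decide +kernel))
noncomputable def rhd03c8103a01c6c0d : CRef := CRef.mk (Pat.mk 0x400000004000000060000000600000000 0x80000000c0000000c0000003e0000003f00000038 7 6) 0 0 (step_sound _ 35 [(rh55afc6a59410cf00.shift 2 0), rhdbbd848b9b9e5162] (by decide +kernel))
noncomputable def rh5868370a28924f20 : CRef := CRef.mk (Pat.mk 0x80000000c0000000c000000000000000000000000 0x2000000070000000780000007c0000007f000000700000003000000010 7 7) 0 0 (step_sound _ 100 [(rh182ca0c96ca2f548.shift 2 1), (rh7821546e503e2fbd.shift 1 1), (rh9cbc3a89b3f04b3e.shift 1 1), (rhb6da716d0b08a401.shift 0 1), (rhe1820f7555843259.shift 1 0), (rhf04b1c50f528f108.shift 1 0)] (by decide +kernel))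
noncomputable def rh286cc68a5fbe430a : CRef := CRef.mk (Pat.mk 0xc0000000c000000000000000000000000 0x60000000e0000000f0000003c0000000e000000060000000600000006 7 6) 0 0 (step_sound _ 66 [(rh7069d2c85215ff3f.shift 0 1), (rh9954101f0efffb9e.shift 1 0), (rhea7a1800d6f053bd.shift 2 0)] (by decide +kernel))
noncomputable def rh64ea5a0420802fb2 : CRef := CRef.mk (Pat.mk 0xe000000070000000000000000 0xc0000000c0000000c0000000e0000003f0000003b0000000a 7 6) 0 0 (step_sound _ 130 [(rh503dd4575245365b.shift 1 1), rh585b4491d33f8d69, (rh8ddec07355289b6c.shift 1 1)] (by decide +kernel))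
noncomputable def rh81d5ea09ab30a22c : CRef := CRef.mk (Pat.mk 0x1800000018000000000000000000000000 0xc0000001c0000001c000000180000007c0000000f0000000c0000000c 7 7) 0 0 (step_sound _ 67 [(rh8a1ee47490e51e8b.shift 0 1), (rh9954101f0efffb9e.shift 2 0), (rhea7a1800d6f053bd.shift 3 0)] (by decide +kernel))
noncomputable def rhb0c6f616d8e16b4f : CRef := CRef.mk (Pat.mk 0x180000001c000000000000000000000000 0x1c0000003c0000000f00000018000000fc000000ee0000000400000004 7 8) 0 0 (step_sound _ 163 [(rh1cf393a818e1cca8.shift 0 2), (rh37d9ceebb86d75d1.shift 2 2), (rhc0582aba1fbfe08b.shift 1 0)] (by decide +kernel))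
noncomputable def rh1615bc3a884beb0e : CRef := CRef.mk (Pat.mk 0xc0000000c000000000000000000000000 0xe0000000e0000000f0000003c0000007c000000060000000600000006 7 7) 0 0 (step_sound _ 66 [(rh9954101f0efffb9e.shift 1 0), (rhc6963da140b63c19.shift 0 2), (rhea7a1800d6f053bd.shift 2 0)] (by decide +kernel))
noncomputable def rh7f771485e576b666 : CRef := CRef.mk (Pat.mk 0x1800000018000000000000000000000000 0x8000000180000001a000000fb000000ff000000e70000002400000004 7 8) 0 0 (step_sound _ 98 [rh6ea323944a4cae5f, (rhb85dbb7162922801.shift 2 1), (rhf9d36e158778ce35.shift 1 3)] (by decide +kernel))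
noncomputable def rha72b23ab3700b1b9 : CRef := CRef.mk (Pat.mk 0x1800000018000000000000000000000000 0x1800000018000000780000007f0000006f0000002400000004 7 7) 0 0 (step_sound _ 98 [rh91663d743c309e73, (rhbeaa18741c03b4ee.shift 1 1), (rhf9d36e158778ce35.shift 1 3)] (by decide +kernel))
noncomputable def rhc81c3583b478ec95 : CRef := CRef.mk (Pat.mk 0x1e0000001800000000 0x18000000380000003f0000003e0000001800000010 7 6) 0 0 (step_sound _ 100 [(rh33e738c4ed385b9f.shift 1 2), rhce88d00dd59a0d34] (by decide +kernel))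
noncomputable def rh18a1ce357562db7e : CRef := CRef.mk (Pat.mk 0x100000000e00000018000000000000000000000000 0x18000000180000003b0000001e00000018000000300000003000000030 7 6) 0 0 (step_sound _ 132 [(rh33e738c4ed385b9f.shift 1 4), rhe4502994a7c11bd0] (by decide +kernel))
noncomputable def rh20ec858911c66f98 : CRef := CRef.mk (Pat.mk 0x100000000e000000180000000000000000 0x140000003c0000003c0000001f0000003e0000001f0000003400000010 7 6) 0 0 (step_sound _ 131 [(rh0fa4a62bba50784f.shift 2 1), (rh33c7d67c45e8c923.shift 0 1), (rh7e653527db30a532.shift 2 1), rhefd9126b38e83aaf, (rhf64821747b7b1be1.shift 3 1)] (by decide +kernel))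
noncomputable def rh98d5a1a31fe2b343 : CRef := CRef.mk (Pat.mk 0x100000000e000000180000000000000000 0x1800000018000000380000001e0000001f0000003000000020 7 6) 0 0 (step_sound _ 100 [(rh33e738c4ed385b9f.shift 1 3), rhb110169d172fb1cb] (by decide +kernel))
noncomputable def rh9e6a3afb60ac808f : CRef := CRef.mk (Pat.mk 0x8000000080000000e000000000000000000000000 0x40000000e0000003f0000003e000000370000001600000004 7 6) 0 0 (step_sound _ 100 [rh22f53ba2f05af569, (rh625dde73e665edc8.shift 1 1), (rhdeae4272edb7b3d2.shift 0 1)] (by decide +kernel))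
noncomputable def rha6595ea38ae90af7 : CRef := CRef.mk (Pat.mk 0x400000004000000070000000000000000000000000 0x10000000d00000007f000001ff0000003f0000000800000008 7 9) 0 0 (step_sound _ 99 [(rh21d582c147e7e118.shift 1 2), (rh3e06362985c4d61e.shift 2 0), (rh5e434997c9d61ee8.shift 2 3), (rhaeebc73f5a9c796a.shift 2 2), (rhe697280370e33871.shift 0 2)] (by decide +kernel))
noncomputable def rh3b1265350d0df04d : CRef := CRef.mk (Pat.mk 0x8000000180000000c0000000000000000 0x40000000c0000001f000000780000001c0000001800000018 7 7) 0 0 (step_sound _ 101 [(rh18965a982d73c794.shift 2 2), rh58918e02b60cf959] (by decide +kernel))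
noncomputable def rha190f9f47afbf588 : CRef := CRef.mk (Pat.mk 0x8000000180000000e0000000000000000 0xc0000000c0000000c0000001f0000003e0000003a00000010 7 6) 0 0 (step_sound _ 68 [(rh130b7e7bbbad324f.shift 0 1), (rh78974448101547fe.shift 1 0), (rhba04d77b039f69d9.shift 1 1)] (by decide +kernel))
noncomputable def rhffa89b17638e6537 : CRef := CRef.mk (Pat.mk 0x4000000060000001c0000000000000000 0x20000000e0000000e0000000c0000000e0000003e0000001f0000003300000012 7 6) 0 0 (step_sound _ 194 [(rh4c81f8d2b0e78ae8.shift 1 2), rhb6d71c5fe463f9eb, (rhd4a5ae313722113d.shift 1 2)] (by decide +kernel))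
noncomputable def rh76c8aa930691778b : CRef := CRef.mk (Pat.mk 0x1e00000000 0xe70000007e000000e3 7 8) 0 0 (step_sound _ 1 [rh394e80a462af5b2f, rheb0810cc63b001d8] (by decide +kernel))
noncomputable def rhc2150c3ba6f1ef65 : CRef := CRef.mk (Pat.mk 0x10000000100000001c0000000000000000 0x1000000017000000ff0000007c00000028 7 8) 0 0 (step_sound _ 36 [(rh548ca695070b4cbb.shift 2 0), (rhbdde238153e38af9.shift 1 0), rhd3969ba2fee7b94e] (by decide +kernel))
noncomputable def rhff2feacb250fd5b8 : CRef := CRef.mk (Pat.mk 0x100000001000000038000000000000000000000000 0x100000001f000000ff0000000f0000000c0000000c 7 8) 0 0 (step_sound _ 131 [rhb2f025f893351004, (rhe2b63c00a3d7bb73.shift 1 3), (rhf32f861d69cb038f.shift 2 1)] (by decide +kernel))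
noncomputable def rh29bb5f7888f15536 : CRef := CRef.mk (Pat.mk 0x80000000c0000001c00000000 0x1c0000001e000000780000000f0000001c00000008 7 7) 0 0 (step_sound _ 65 [(rh99eb17d4950ad3d0.shift 1 0), (rhb739f4f82bb681b4.shift 0 1)] (by decide +kernel))
noncomputable def rh29d3d06f341f5e3c : CRef := CRef.mk (Pat.mk 0x4000000060000000e00000000 0xe0000000f0000003c000000060000003e00000004 7 6) 0 0 (step_sound _ 130 [rh290000dba8ae2fed, (rh5c5e593799055d58.shift 1 1)] (by decide +kernel))
noncomputable def rh26a9070bccc1ef24 : CRef := CRef.mk (Pat.mk 0xc000000080000000800000000 0x1c0000007c0000001f000000180000001800000018 7 7) 0 0 (step_sound _ 131 [rh8620e06bbd6f00e0, (rhd172f5ec7811b7c8.shift 1 0), (rhe286c75f2739cce2.shift 2 0)] (by decide +kernel))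
noncomputable def rh2636e543b9443f52 : CRef := CRef.mk (Pat.mk 0xc00000008000000080000000400000000 0x180000001f0000001b000000380000001f0000001c 7 6) 0 0 (step_sound _ 35 [rh2c06bd179751020c, (rh932754581e0f4330.shift 2 0)] (by decide +kernel))
noncomputable def rh544adc915ce4e2b5 : CRef := CRef.mk (Pat.mk 0xc000000080000000800000000 0x100000001c0000003c0000001f0000007c0000001e00000014 7 7) 0 0 (step_sound _ 68 [(rh30b88fd994765492.shift 1 0), rh5493ec200a1c795d, (rh75ea294132184f25.shift 1 2)] (by decide +kernel))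
noncomputable def rh47549b073e35a8c4 : CRef := CRef.mk (Pat.mk 0x20000000200000002000000000000000000000000 0x100000007000000070000000300000003000000070000000700000005 7 3) 0 0 (step_sound _ 65 [(rh1b44d8179e582ada.shift 0 1), rh46baee19951a66e7, rh6aa5625770489e83, rh8cdd36b03d57a2f6] (by decide +kernel))
noncomputable def rh7b5638b5f7c5db50 : CRef := CRef.mk (Pat.mk 0x800000008000000080000000800000000 0x40000000c0000000c0000003e0000007f00000017 7 7) 0 0 (step_sound _ 34 [rh72f7cad78ec6b2fa, (rh932754581e0f4330.shift 2 0)] (by decide +kernel))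
noncomputable def rhb83e383ceeba9cfb : CRef := CRef.mk (Pat.mk 0x20000000200000002000000000000000000000000 0x400000007000000070000000300000003000000070000000700000005 7 3) 0 0 (step_sound _ 65 [rh46baee19951a66e7, rh6aa5625770489e83, rh8cdd36b03d57a2f6, (rhf4c23d23830775ba.shift 0 1)] (by decide +kernel))
noncomputable def rh892039d39122903c : CRef := CRef.mk (Pat.mk 0x8000000080000000800000008000000000000000000000000 0x80000000800000018000000180000001c0000001f0000000c00000008 7 5) 0 0 (step_sound _ 66 [(rh79877ebd3ef475dd.shift 2 2), rh855706c439125f47] (by decide +kernel))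
noncomputable def rh9fa2c6c64d9fb98a : CRef := CRef.mk (Pat.mk 0x800000008000000080000000800000000 0x170000003f0000003f0000000c0000000c00000004 7 6) 0 0 (step_sound _ 34 [(rh123fa2d62c07e763.shift 0 1), (rh932754581e0f4330.shift 2 0)] (by decide +kernel))
noncomputable def rhc2eee776d4f816e7 : CRef := CRef.mk (Pat.mk 0x800000008000000080000000800000000 0x170000003f0000003f0000000c0000000c00000004 7 6) 0 0 (step_sound _ 130 [rh2f5945d59b5e0032, (rh50fbb5868c909700.shift 2 1)] (by decide +kernel))
noncomputable def rh39cfed7698312e8c : CRef := CRef.mk (Pat.mk 0x200000002000000020000000200000000 0x100000007000000070000000600000006000000060000000700000001 7 3) 0 0 (step_sound _ 0 [(rh688d41eb32e437d3.shift 0 1), rh79877ebd3ef475dd] (by decide +kernel))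
noncomputable def rhec40b8c1d5165ff5 : CRef := CRef.mk (Pat.mk 0x400000004000000040000000400000000 0x3a0000003f0000003f0000000c0000000c00000008 7 6) 0 0 (step_sound _ 129 [(rh50fbb5868c909700.shift 1 1), rhb6d11eef82c88515] (by decide +kernel))
noncomputable def rh858ffa6f0bbd09f4 : CRef := CRef.mk (Pat.mk 0x600000006000000000000000000000000 0x2000000060000000600000006000000070000003f0000003f0000000e 7 6) 0 0 (step_sound _ 65 [rh7a5331775de4f99e, (rhcf348ab2146e05eb.shift 0 1), (rhea7a1800d6f053bd.shift 1 0)] (by decide +kernel))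
noncomputable def rhc8c3248fa63b18e3 : CRef := CRef.mk (Pat.mk 0x1800000018000000000000000000000000 0x1c0000003c0000001f00000078000000180000001c0000001c00000018 7 7) 0 0 (step_sound _ 163 [(rh28152048bc8b598f.shift 0 2), (rh55a1f6c57a317ce6.shift 3 1), rha93b6ae25da248d1] (by decide +kernel))
noncomputable def rh3fb2f85182f61511 : CRef := CRef.mk (Pat.mk 0xc0000000c000000000000000000000000 0x2f0000007f0000007f000000700000001000000010 7 7) 0 0 (step_sound _ 100 [(rh79b3c29022acbdf3.shift 1 3), rha1f50326e07ff5f4, (rhef3032495df9d34e.shift 1 0)] (by decide +kernel))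
noncomputable def rhca09bc9db67e80a3 : CRef := CRef.mk (Pat.mk 0x1800000018000000000000000000000000 0x400000046000000fe000000ff000000f80000002800000020 7 8) 0 0 (step_sound _ 101 [(rh249208cc34e75ef4.shift 0 1), (rh79b3c29022acbdf3.shift 2 3), (rhef3032495df9d34e.shift 2 0)] (by decide +kernel))
noncomputable def rh1399ee796b421d76 : CRef := CRef.mk (Pat.mk 0x1800000018000000000000000000000000 0xc0000000c0000000f0000007c000000180000001c0000001c0000001c 7 7) 0 0 (step_sound _ 163 [(rh55a1f6c57a317ce6.shift 3 1), rhb6ddb87b359715fb, (rhdb891aab85de5d49.shift 2 0)] (by decide +kernel))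
noncomputable def rhad09b9e5003ce808 : CRef := CRef.mk (Pat.mk 0xc0000000c000000000000000000000000 0xc0000000c0000000c0000000c0000001f0000007c0000001f0000001f 7 7) 0 0 (step_sound _ 67 [rh1864e4c677b30864, (rh3cb04db3dd2b6a55.shift 2 0), (rhddec1f996c39dd6f.shift 0 1)] (by decide +kernel))
noncomputable def rh3efd53e2f74950e6 : CRef := CRef.mk (Pat.mk 0xc0000000c000000000000000000000000 0xe0000000e0000000e0000000e0000007c0000001f0000001f 7 7) 0 0 (step_sound _ 67 [rh1864e4c677b30864, (rh3cb04db3dd2b6a55.shift 2 0), (rh929e5eb1290a5668.shift 1 0)] (by decide +kernel))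
noncomputable def rh12899a4ee16b2dea : CRef := CRef.mk (Pat.mk 0xc0000000c000000000000000000000000 0x80000000e0000000f0000003c0000001c0000003c0000001f0000001f 7 6) 0 0 (step_sound _ 67 [rh1864e4c677b30864, (rh3cb04db3dd2b6a55.shift 2 0), (rha3da2f03e612bf8b.shift 0 1)] (by decide +kernel))
noncomputable def rh606f78f59525ca0d : CRef := CRef.mk (Pat.mk 0x18000000180000000000000000 0x4000000040000000f000000ff000000fb0000000a0000000a 7 8) 0 0 (step_sound _ 98 [(rh31dab4217e92ec8e.shift 1 0), (rh6292bd8784ece55f.shift 1 2), rh7160d4f3bced5753] (by decide +kernel))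
noncomputable def rhd197270e2e4bcb88 : CRef := CRef.mk (Pat.mk 0x1800000018000000000000000000000000 0xc0000000f000000ff0000001f000000780000003e0000003e 7 8) 0 0 (step_sound _ 68 [(rh1864e4c677b30864.shift 1 0), (rh3cb04db3dd2b6a55.shift 3 0), (rhe71dc05b945402dd.shift 0 1)] (by decide +kernel))
noncomputable def rh50590d2ed67f73ea : CRef := CRef.mk (Pat.mk 0x1000000018000000080000000000000000 0x800000018000000780000003f000000ff0000007c 7 8) 0 0 (step_sound _ 35 [(rh71222050f2c63a3a.shift 3 0), rhc9e879b5f9ae7269] (by decide +kernel))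
noncomputable def rhdc6520f3d12a8c4c : CRef := CRef.mk (Pat.mk 0x80000000c00000004000000000000000000000000 0xe0000000f0000003c0000000e0000007c000000180000001800000018 7 7) 0 0 (step_sound _ 195 [(rh5c5e593799055d58.shift 2 3), rh6a0ade40003b9405] (by decide +kernel))
noncomputable def rha32eb95f4828039a : CRef := CRef.mk (Pat.mk 0x1800000018000000000000000000000000 0xc0000000c0000000c00000018000000380000001f0000001c0000001c 7 6) 0 0 (step_sound _ 163 [(rh55a1f6c57a317ce6.shift 3 1), rh672cd594dd27fa33, (rhdb891aab85de5d49.shift 2 0)] (by decide +kernel))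
noncomputable def rhf5f6bb6746256c6e : CRef := CRef.mk (Pat.mk 0x1800000018000000000000000000000000 0x80000000a000000fb000000ff0000000f0000000400000004 7 8) 0 0 (step_sound _ 98 [(rh9d1e47b8a12f627d.shift 1 0), rh9ecea4e1d309003f, (rhab2ad169e49f9c5e.shift 0 3)] (by decide +kernel))
noncomputable def rh177959107ed8d627 : CRef := CRef.mk (Pat.mk 0x1800000018000000000000000000000000 0x4000000170000003f0000007f0000000f0000000e0000000c 7 7) 0 0 (step_sound _ 130 [(rh6292bd8784ece55f.shift 1 3), rh65dbe3484f248fde, (rh7160d4f3bced5753.shift 0 1)] (by decide +kernel))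
noncomputable def rh785b58d4e847f2a9 : CRef := CRef.mk (Pat.mk 0x1800000018000000000000000000000000 0xf0000007f0000007f000000070000000400000004 7 7) 0 0 (step_sound _ 98 [rh17d56540389a38a4, rh9ecea4e1d309003f, (rhab2ad169e49f9c5e.shift 0 3)] (by decide +kernel))
noncomputable def rh499b99ac08f3c70e : CRef := CRef.mk (Pat.mk 0x200000003800000000 0x3f000001fe000001ce 7 9) 0 0 (step_sound _ 38 [(rh2bac60f600d85b1b.shift 1 0), (rh3947d1dfff0afc6c.shift 2 0), rh3f9ef063c03c3f0a, (rh775ca1963e850b80.shift 1 0)] (by decide +kernel))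
noncomputable def rh4492cdfc7f324339 : CRef := CRef.mk (Pat.mk 0x80000000c000000040000000000000000 0x400000006000000060000000e0000000c0000000f0000003e0000003e 7 6) 0 0 (step_sound _ 34 [(rh71222050f2c63a3a.shift 2 0), rhc6bca9405e72211a] (by decide +kernel))
noncomputable def rha35a92c94b0d3aff : CRef := CRef.mk (Pat.mk 0x80000000c000000040000000000000000 0x60000000f0000003c000000070000003e0000000e 7 6) 0 0 (step_sound _ 34 [rh0748c8e7645c4e78, (rh71222050f2c63a3a.shift 2 0)] (by decide +kernel))
noncomputable def rhfa9c628b2fb82901 : CRef := CRef.mk (Pat.mk 0x100000001800000008000000000000000000000000 0x180000001800000018000000f8000000ff000000370000003000000030 7 8) 0 0 (step_sound _ 196 [(rh5c5e593799055d58.shift 3 3), rh90ee209c00c31493] (by decide +kernel))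
noncomputable def rhfe6ad516e4d95126 : CRef := CRef.mk (Pat.mk 0x2000000030000000100000000000000000 0x2800000028000001ef000000fe000001df0000001000000010 7 9) 0 0 (step_sound _ 36 [(rh71222050f2c63a3a.shift 4 0), (rhcf19e0749e6a8585.shift 0 1)] (by decide +kernel))
noncomputable def rh54f062b3e0185579 : CRef := CRef.mk (Pat.mk 0x200000003000000010000000000000000000000000 0xc000001ef000000fe000001ff0000001f0000001c00000008 7 9) 0 0 (step_sound _ 68 [rh02a640ff32b26b82, (rh71222050f2c63a3a.shift 4 1)] (by decide +kernel))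
noncomputable def rha605ac48f1bcb3d2 : CRef := CRef.mk (Pat.mk 0x1000000018000000080000000000000000 0x1000000010000000770000007e000001ff0000002000000020 7 9) 0 0 (step_sound _ 164 [rh464db189ed94774f, (rh5c5e593799055d58.shift 3 2)] (by decide +kernel))
noncomputable def rhd08c5fcbd5b3590f : CRef := CRef.mk (Pat.mk 0x2000000030000000000000000000000000 0x20000001ff000000fe000001ef0000004000000040 7 9) 0 0 (step_sound _ 99 [(rh76e32e5024c227a5.shift 2 0), (rh7f0f728c796044ac.shift 0 2), (rh978f72a8ac70948c.shift 0 2), (rha11dfd15f08f96e3.shift 2 3), (rhb12ffaec36122c99.shift 0 2)] (by decide +kernel))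
noncomputable def rh6fc3e9801e685b7a : CRef := CRef.mk (Pat.mk 0x2000000030000000000000000000000000 0x80000001c000001ff000000fe000001ff0000001800000018 7 9) 0 0 (step_sound _ 99 [(rh75c81dc2037d8937.shift 2 0), (rha11dfd15f08f96e3.shift 2 3), (rhb12ffaec36122c99.shift 0 2), (rhb95719bdc646429a.shift 0 2)] (by decide +kernel))
noncomputable def rh21babca8153a8018 : CRef := CRef.mk (Pat.mk 0x1800000018000000000000000000000000 0x80000001800000018000000180000003c0000001f0000001c0000001c 7 6) 0 0 (step_sound _ 67 [(rh22563e4f9a5bf7bd.shift 0 1), (rh27a30a4fe5de8833.shift 2 0), (rhea7a1800d6f053bd.shift 3 0)] (by decide +kernel))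
noncomputable def rhda993f03cc0b5512 : CRef := CRef.mk (Pat.mk 0xc0000000c000000000000000000000000 0x1c0000001e000000780000001f0000000c0000000c0000000c0000000c 7 7) 0 0 (step_sound _ 163 [(rh1e309b005ffa1b36.shift 2 1), (rh7db208d87386469c.shift 1 2), rhb3bfb89eeaf21570] (by decide +kernel))
noncomputable def rh1de1a6b9108c5c34 : CRef := CRef.mk (Pat.mk 0x1800000018000000000000000000000000 0x100000001800000038000000780000003e0000003f0000003c00000038 7 7) 0 0 (step_sound _ 68 [(rh3cb04db3dd2b6a55.shift 3 0), (rh8d7882870c6327ed.shift 1 0), (rha11839e2b4e5df62.shift 0 1)] (by decide +kernel))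
noncomputable def rhbde8530c94cb7633 : CRef := CRef.mk (Pat.mk 0x18000000180000000000000000 0x2000000060000000f0000000ff000000ff0000003000000030 7 8) 0 0 (step_sound _ 101 [(rh4dc133ee0ba1420a.shift 1 2), rh4f3fe1ff9b1f183d, (rhc425d59bca762a77.shift 2 0)] (by decide +kernel))
noncomputable def rhd9919bda39e00047 : CRef := CRef.mk (Pat.mk 0xc0000000c000000000000000000000000 0x1c0000001e0000007c0000000f0000000c0000001c0000001c00000018 7 7) 0 0 (step_sound _ 163 [(rh1e309b005ffa1b36.shift 2 1), rh65f49a8049171eba, (rh7db208d87386469c.shift 1 2)] (by decide +kernel))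
noncomputable def rh73657480cd7a52e9 : CRef := CRef.mk (Pat.mk 0x1800000018000000000000000000000000 0x30000000b0000007f000000ff0000000f0000000400000004 7 8) 0 0 (step_sound _ 98 [(rh4cf81dc990ea4481.shift 1 0), (rhab2ad169e49f9c5e.shift 0 3), (rhbb7213d4724395ac.shift 0 1)] (by decide +kernel))
noncomputable def rhbefa4a088ac11d88 : CRef := CRef.mk (Pat.mk 0x1800000018000000000000000000000000 0x80000001800000018000000180000003c0000001f0000007c0000007c 7 7) 0 0 (step_sound _ 67 [(rh22563e4f9a5bf7bd.shift 0 1), (rh362104532586ff12.shift 1 0), (rhea7a1800d6f053bd.shift 3 0)] (by decide +kernel))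
noncomputable def rh881ff1487bb4e198 : CRef := CRef.mk (Pat.mk 0x18000000180000000000000000 0x2000000020000000f0000000ff000000df0000005000000050 7 8) 0 0 (step_sound _ 101 [(rh25b58045fb790919.shift 2 0), (rh4dc133ee0ba1420a.shift 1 2), rh4f3fe1ff9b1f183d] (by decide +kernel))
noncomputable def rh4dea29c6c0e40855 : CRef := CRef.mk (Pat.mk 0x800000018000000100000000000000000 0x10000000180000001e000000fc000000ff0000003e 7 8) 0 0 (step_sound _ 36 [rh45fbce2672bd03a0, (rh7b1f1fb55310c477.shift 3 0)] (by decide +kernel))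
noncomputable def rhe25a51bdbca2db1e : CRef := CRef.mk (Pat.mk 0x1800000018000000000000000000000000 0x1000000050000000df000000ff000000f00000002000000020 7 8) 0 0 (step_sound _ 101 [(rh79b3c29022acbdf3.shift 2 3), rh89165b0126d9b1a9, (rhef3032495df9d34e.shift 2 0)] (by decide +kernel))
noncomputable def rhe7a73ca671e67728 : CRef := CRef.mk (Pat.mk 0xc0000000c000000000000000000000000 0x10000000740000007e0000007f000000380000003800000018 7 7) 0 0 (step_sound _ 132 [(rh25b58045fb790919.shift 1 1), (rh4dc133ee0ba1420a.shift 0 3), rhbea6b5b7cae5efe0] (by decide +kernel))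
noncomputable def rhc37c3370f0e8b601 : CRef := CRef.mk (Pat.mk 0xc0000000c000000000000000000000000 0x1800000018000000780000007f0000007f000000740000001000000010 7 7) 0 0 (step_sound _ 100 [(rh79b3c29022acbdf3.shift 1 3), (rh9720fe0d7b9416ac.shift 0 2), (rhef3032495df9d34e.shift 1 0)] (by decide +kernel))
noncomputable def rhef7add6065e4ef34 : CRef := CRef.mk (Pat.mk 0x8000000380000000000000000 0x60000000600000007e0000003e0000007700000010 7 7) 0 0 (step_sound _ 66 [(rh008b05f4778dc30d.shift 0 1), (rh51f916e38f2d6d96.shift 1 0), (rh7654d7b92c96fe12.shift 0 1)] (by decide +kernel))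
noncomputable def rh80d709a6472d0308 : CRef := CRef.mk (Pat.mk 0x40000000c000000080000000000000000 0x800000018000000180000001c0000000c0000003c0000001f0000001f 7 6) 0 0 (step_sound _ 35 [(rh7b1f1fb55310c477.shift 2 0), rhf4eacbbf2f0b2063] (by decide +kernel))
noncomputable def rh742a91c63cf6d6ec : CRef := CRef.mk (Pat.mk 0x80000001800000010000000000000000000000000 0x38000000780000001e000000380000001f0000000c0000000c0000000c 7 7) 0 0 (step_sound _ 195 [rh00606316ba7886d1, (rh2145e1d24b96a57e.shift 3 3)] (by decide +kernel))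
noncomputable def rh413a3adcca3dd536 : CRef := CRef.mk (Pat.mk 0x40000000c000000080000000000000000 0x180000003c0000000f000000380000001f0000001c 7 6) 0 0 (step_sound _ 35 [(rh7b1f1fb55310c477.shift 2 0), rhf9b7f71f4cce87e9] (by decide +kernel))
noncomputable def rh6d5f30f8c2206034 : CRef := CRef.mk (Pat.mk 0x80000001800000010000000000000000000000000 0x1800000018000000180000001f000000ff000000ec0000000c00000008 7 8) 0 0 (step_sound _ 195 [(rh2145e1d24b96a57e.shift 3 3), rh659ec6c97db75505] (by decide +kernel))
noncomputable def rh900c75c2557f3883 : CRef := CRef.mk (Pat.mk 0xe00000000000000000000000000000000 0x40000001c0000001c000000780000001f0000007c0000001c0000001c0000001c 7 7) 0 0 (step_sound _ 100 [(rh0d3c8bf4bf97ae4a.shift 1 3), (rh2e55065c211d34ed.shift 0 1), rh310bd5988ea417c6, (rh6aa0ed61cce1493b.shift 0 3)] (by decide +kernel))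
noncomputable def rhdc468552333fe454 : CRef := CRef.mk (Pat.mk 0x800000018000000000000000000000000 0x48000001ff000000ff000001ef0000002400000024 7 9) 0 0 (step_sound _ 101 [rh3977fc30f71f0541, (rh5a51951da8feb64f.shift 1 0), (rh5d54a69ee789ff61.shift 2 0), (rh9c94213f6896c74a.shift 2 2), (rha9fbfd4bb8cf890b.shift 0 3)] (by decide +kernel))
noncomputable def rhd4d70ebe85a309dd : CRef := CRef.mk (Pat.mk 0x80000001800000000000000000000000000000000 0x1800000038000000780000003e000000ff0000003c0000003c00000008 7 8) 0 0 (step_sound _ 100 [(rh5d54cb79a67f97ab.shift 3 1), (rh8891da6c8c714577.shift 1 1), rh98c6b1e8b37e025c, (rha40d42a2e34c408d.shift 3 1)] (by decide +kernel))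
noncomputable def rh61e0c9708cd05881 : CRef := CRef.mk (Pat.mk 0x1800000018000000000000000000000000 0x800000038000000780000003e0000001f0000001c0000001800000018 7 7) 0 0 (step_sound _ 163 [(rh24dd712f686ee4c5.shift 1 0), (rh55a1f6c57a317ce6.shift 3 1), (rhe2d7daae1577d340.shift 0 2)] (by decide +kernel))
noncomputable def rhe34b4fec69541348 : CRef := CRef.mk (Pat.mk 0x1800000018000000000000000000000000 0x38000000380000003800000038000000380000001f0000001c00000010 7 6) 0 0 (step_sound _ 164 [(rh1e309b005ffa1b36.shift 3 1), (rhafa7fde1e959f301.shift 3 2), rhd46c20a0d7607015] (by decide +kernel))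
noncomputable def rh02799b0b39616890 : CRef := CRef.mk (Pat.mk 0x18000000180000000000000000 0x20000000f0000000ff000000fe000000d0000000d0 7 8) 0 0 (step_sound _ 101 [(rh18a8efa221e72e64.shift 3 0), (rh4dc133ee0ba1420a.shift 1 2), rhb0851615ad6dcedf] (by decide +kernel))
noncomputable def rhadf9d06b3e65f11b : CRef := CRef.mk (Pat.mk 0x1800000018000000000000000000000000 0x180000001800000018000000180000007c0000001f000000fc00000038 7 8) 0 0 (step_sound _ 67 [(rh7a5331775de4f99e.shift 2 0), (rhe23694c5b7a04d19.shift 0 1), (rhea7a1800d6f053bd.shift 3 0)] (by decide +kernel))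
noncomputable def rh430caf1169e49a4a : CRef := CRef.mk (Pat.mk 0xc0000000c000000000000000000000000 0x60000001e0000003e0000000f0000000c0000000e0000000e0000000e 7 6) 0 0 (step_sound _ 162 [rh24dd712f686ee4c5, (rh55a1f6c57a317ce6.shift 2 1), (rhdb891aab85de5d49.shift 1 0)] (by decide +kernel))
noncomputable def rhe8f0041462f61c84 : CRef := CRef.mk (Pat.mk 0xc0000000c0000000000000000 0x10000000700000007f0000007f0000006f00000068 7 7) 0 0 (step_sound _ 100 [(rh18a8efa221e72e64.shift 2 0), (rh4dc133ee0ba1420a.shift 0 2), rhb7ca39f10b86efa8] (by decide +kernel))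
noncomputable def rhfab5bc4cad1de95f : CRef := CRef.mk (Pat.mk 0xc0000000c0000000000000000 0x1f0000001f0000003c0000000f0000000e0000000e0000000e 7 6) 0 0 (step_sound _ 131 [rh0078175002d664d8, (rh1e309b005ffa1b36.shift 2 0), (rh9dbc063ae34b2487.shift 0 2)] (by decide +kernel))
noncomputable def rh2dbee604c3b71074 : CRef := CRef.mk (Pat.mk 0x1800000018000000000000000000000000 0x3e0000003e0000007800000038000000380000001f0000001c00000010 7 7) 0 0 (step_sound _ 164 [(rh1e309b005ffa1b36.shift 3 1), (rh9dbc063ae34b2487.shift 1 3), rhd46c20a0d7607015] (by decide +kernel))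
noncomputable def rh0f81b1982c21de41 : CRef := CRef.mk (Pat.mk 0x1800000018000000000000000000000000 0x20000000f8000000ff000000fe000000c6000000c400000004 7 8) 0 0 (step_sound _ 133 [(rh18a8efa221e72e64.shift 3 1), (rh4dc133ee0ba1420a.shift 1 3), rh9cb016ed34e5654e] (by decide +kernel))
noncomputable def rhd4a76df8c3cc910d : CRef := CRef.mk (Pat.mk 0x800000018000000100000000000000000 0x100000003000000030000000780000001e000000380000001f0000001c 7 7) 0 0 (step_sound _ 36 [(rh7b1f1fb55310c477.shift 3 0), rhcdf71513fa30196c] (by decide +kernel))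
noncomputable def rhb8feeb20f7208ff3 : CRef := CRef.mk (Pat.mk 0x3800000020 0x1de000001fe0000003f 7 9) 0 0 (step_sound _ 38 [(rh25d7d8ad62f7a756.shift 1 0), (rh74f48645dd37c94b.shift 1 0), (rh98608c6afefa0c7d.shift 2 0), rheaad777ed634577b] (by decide +kernel))
noncomputable def rhd471274a517cd5c7 : CRef := CRef.mk (Pat.mk 0x80000001800000010000000000000000000000000 0xc0000000c0000000f0000007c0000001f0000000c0000000c0000000c 7 7) 0 0 (step_sound _ 195 [(rh2145e1d24b96a57e.shift 3 3), rh48b9297c75f49b50] (by decide +kernel))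
noncomputable def rhc760aa80072c6510 : CRef := CRef.mk (Pat.mk 0x40000000c000000080000000000000000 0x8000000180000001a0000003f0000003f0000000c0000000c0000000c 7 6) 0 0 (step_sound _ 35 [(rh7b1f1fb55310c477.shift 2 0), rhd13609607007aab4] (by decide +kernel))
noncomputable def rh182ef5825b9546c8 : CRef := CRef.mk (Pat.mk 0x40000000c00000008000000000000000000000000 0x3e0000003e0000000f0000000c0000000e000000060000000600000004 7 6) 0 0 (step_sound _ 194 [(rh2145e1d24b96a57e.shift 2 3), rhc4d4fcb7b793553e] (by decide +kernel))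
noncomputable def rh6739aeac42353334 : CRef := CRef.mk (Pat.mk 0x80000001800000010000000000000000000000000 0x1c0000003c0000000f000000380000001f0000000c0000000c0000000c 7 6) 0 0 (step_sound _ 195 [(rh2145e1d24b96a57e.shift 3 3), rh6972103228592245] (by decide +kernel))
noncomputable def rh8712f76b142ceecf : CRef := CRef.mk (Pat.mk 0x800000018000000100000000000000000 0x100000003000000037000000ff000000f8000000380000001f0000001c 7 8) 0 0 (step_sound _ 36 [(rh7b1f1fb55310c477.shift 3 0), rhe03df35440e91a03] (by decide +kernel))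
noncomputable def rh7c16553a3429fe56 : CRef := CRef.mk (Pat.mk 0x1000000030000000200000000000000000 0x1000000010000001df000000fe000001ef0000002800000028 7 9) 0 0 (step_sound _ 164 [rh162f6ec05c42aa92, (rh2145e1d24b96a57e.shift 4 2)] (by decide +kernel))
noncomputable def rh73ef42d688851094 : CRef := CRef.mk (Pat.mk 0x1000000030000000200000000000000000 0x1c0000001e000001fc000000ff000001ee0000000c00000008 7 9) 0 0 (step_sound _ 164 [(rh2145e1d24b96a57e.shift 4 2), rh718765fe07dab20f] (by decide +kernel))
noncomputable def rha1a55c7e5e492f91 : CRef := CRef.mk (Pat.mk 0x800000018000000100000000000000000 0x2000000020000001ff000001fe000001f70000001000000010 7 9) 0 0 (step_sound _ 36 [(rh48f72191ffe27300.shift 0 1), (rh7b1f1fb55310c477.shift 3 0)] (by decide +kernel))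
noncomputable def rhdd5d92296b6c13a7 : CRef := CRef.mk (Pat.mk 0xe000000080000000000000000 0x12000000f30000007e0000007f0000000c0000000c 7 8) 0 0 (step_sound _ 100 [(rh0ef9a4f0d7e60b8c.shift 0 2), rh0fa6f3f2f0117080, (rh3b00e9e9432b8f40.shift 0 2), rhafa5a7051d37b143] (by decide +kernel))
noncomputable def rh8b0c77621d4beec6 : CRef := CRef.mk (Pat.mk 0x3000000020000000000000000000000000 0x28000001fe000003fe000001ff0000001c0000001800000008 7 10) 0 0 (step_sound _ 131 [(rh17a918246ca7f37d.shift 2 0), (rh8ee80cc30e93a344.shift 2 3), (rhc21a95c499b3efdb.shift 2 3), (rhc664e3e0e60ed083.shift 0 1)] (by decide +kernel))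
noncomputable def rhd99601bbe8cc3aaf : CRef := CRef.mk (Pat.mk 0x80000000c00000004000000000000000000000000 0x1f0000003f0000007f0000000c0000000c000000080000000800000008 7 7) 0 0 (step_sound _ 195 [rh1c17992af819f510, (rh5c5e593799055d58.shift 2 3)] (by decide +kernel))
noncomputable def rh3a4ec7efce4674ee : CRef := CRef.mk (Pat.mk 0x18000000180000000000000000 0x4000000040000000f000000ff0000007f0000000b0000000b 7 8) 0 0 (step_sound _ 98 [(rh6292bd8784ece55f.shift 1 2), (rh9e7379f8f7f006ad.shift 1 0), rhcd4d16d28964fbaf] (by decide +kernel))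
noncomputable def rh7bdb1a17aa432e53 : CRef := CRef.mk (Pat.mk 0xc0000000c000000000000000000000000 0x80000000e0000000f0000003e0000007c0000001c0000001c00000018 7 7) 0 0 (step_sound _ 163 [(rh1e309b005ffa1b36.shift 2 1), (rh70cfad7a15d735cc.shift 1 2), rhabe4a5ccd5bbec52] (by decide +kernel))
noncomputable def rh5d4c29fe1fb8ea3e : CRef := CRef.mk (Pat.mk 0x18000000180000000000000000 0x4000000070000007f0000007f0000007b0000000b 7 7) 0 0 (step_sound _ 98 [rh1e588bbbccff7270, (rh6292bd8784ece55f.shift 1 2), rhcd4d16d28964fbaf] (by decide +kernel))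
noncomputable def rhc3f7de8cdfb2194f : CRef := CRef.mk (Pat.mk 0x1800000018000000000000000000000000 0x40000001f000000ff0000007f000000630000002300000020 7 8) 0 0 (step_sound _ 130 [(rh6292bd8784ece55f.shift 1 3), (rh6fd2858134f5a55b.shift 1 0), (rhcd4d16d28964fbaf.shift 0 1)] (by decide +kernel))
noncomputable def rh19a9d95d0c3a392f : CRef := CRef.mk (Pat.mk 0xc0000000c000000000000000000000000 0xc0000000c0000000c0000000c0000001f000000780000001f0000001c 7 7) 0 0 (step_sound _ 67 [rh36a6df2b3dd177a0, (rh3cb04db3dd2b6a55.shift 2 0), (rh9ba8fa0b2676098c.shift 0 1)] (by decide +kernel))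
noncomputable def rh6af53a4f50837c22 : CRef := CRef.mk (Pat.mk 0x1800000018000000000000000000000000 0x7c0000007c0000001f0000007c00000018000000180000001800000008 7 7) 0 0 (step_sound _ 163 [(rh495a39b8a06d7922.shift 1 3), (rh55a1f6c57a317ce6.shift 3 1), rh6380f61474201577] (by decide +kernel))
noncomputable def rh054990ed3ebcd18b : CRef := CRef.mk (Pat.mk 0x80000000c00000004000000000000000000000000 0x1f0000001f0000007c0000000c0000000c000000180000001800000018 7 7) 0 0 (step_sound _ 195 [(rh5c5e593799055d58.shift 2 3), rhf94ac10d451abddb] (by decide +kernel))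
noncomputable def rhecfde732c3f3df9a : CRef := CRef.mk (Pat.mk 0x80000000c000000040000000000000000 0x60000000f0000003c0000000e0000007c0000001c 7 7) 0 0 (step_sound _ 34 [rh6eb1b48612f3dd37, (rh71222050f2c63a3a.shift 2 0)] (by decide +kernel))
noncomputable def rh99d3a80c31018c8e : CRef := CRef.mk (Pat.mk 0x38000000080000000000000000 0x10000000770000003e0000007f0000006000000060 7 7) 0 0 (step_sound _ 98 [(rh008b05f4778dc30d.shift 0 2), (rh61325f73ebf98108.shift 0 3), (rhecb27748c4bb9fb8.shift 1 0)] (by decide +kernel))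
noncomputable def rh7afedbd9cc31b29a : CRef := CRef.mk (Pat.mk 0x80000000c00000004000000000000000000000000 0x1f0000001f0000003c0000000c0000001c000000180000001800000008 7 6) 0 0 (step_sound _ 195 [rh3a095bb8a3397ceb, (rh5c5e593799055d58.shift 2 3)] (by decide +kernel))
noncomputable def rh5ca6ecddee9ced1f : CRef := CRef.mk (Pat.mk 0x400000006000000020000000000000000 0xe0000000f0000003c000000070000003e0000000c00000008 7 6) 0 0 (step_sound _ 162 [(rh5c5e593799055d58.shift 1 2), rhc4360f3981b11db9] (by decide +kernel))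
noncomputable def rha1c879f115e8acec : CRef := CRef.mk (Pat.mk 0x1000000018000000080000000000000000 0x80000000c000000ec000000ff0000001f000000180000001800000018 7 8) 0 0 (step_sound _ 35 [(rh71222050f2c63a3a.shift 3 0), rhe58b45e33cc47ff1] (by decide +kernel))
noncomputable def rh9511c68a55398926 : CRef := CRef.mk (Pat.mk 0xe00000000000000000000000000000000 0x140000001c0000001c0000007c0000001f000000780000001c0000001c00000004 7 7) 0 0 (step_sound _ 164 [(rh6ebfbe2a71d1c76c.shift 0 3), (rh834ef1c974e4840e.shift 0 1), (rh90fcc1b0fe0017ad.shift 0 4), (rhba3fefaa894766da.shift 1 4), rhdd03524a82bd8092] (by decide +kernel))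
noncomputable def rh21ae82fde230719c : CRef := CRef.mk (Pat.mk 0x38000000080000000000000000 0x4000000240000006f0000003e0000007f0000001800000018 7 7) 0 0 (step_sound _ 98 [(rh008b05f4778dc30d.shift 0 2), (rh76ec80d0911a63d7.shift 1 0), rh7cf90120673b877a, (rha5346060b12b3a35.shift 0 2), (rhf9f4e13edfe56641.shift 1 0)] (by decide +kernel))
noncomputable def rhc698aa87b1b20c96 : CRef := CRef.mk (Pat.mk 0xc000000040000000000000000 0x1c0000001e0000003f0000003f0000007c0000001c0000001c 7 7) 0 0 (step_sound _ 131 [rh2c719962dfef2f7d, (rhcd20ef83f10dbe28.shift 1 0), (rhcf80391c5046a495.shift 2 0), (rhf9366b6a121593ef.shift 2 0)] (by decide +kernel))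
noncomputable def rhc360e68027cae609 : CRef := CRef.mk (Pat.mk 0x800000008000000080000000800000000 0x1000000018000000180000003e0000007f00000074 7 7) 0 0 (step_sound _ 36 [(rh55afc6a59410cf00.shift 3 0), rhb5aaf7648e45b521] (by decide +kernel))
noncomputable def rh9550f605666aa59d : CRef := CRef.mk (Pat.mk 0x400000004000000040000000400000000 0x3a0000003f0000003f0000000c0000000c00000008 7 6) 0 0 (step_sound _ 131 [(rh2f68792b6b779e96.shift 2 1), rha71f23a3a0eed07d] (by decide +kernel))
noncomputable def rhd509ea0efde25c12 : CRef := CRef.mk (Pat.mk 0x80000000e000000000000000000000000 0x3000000030000000300000007f0000003e0000007b0000001800000018 7 7) 0 0 (step_sound _ 100 [(rh3947d1dfff0afc6c.shift 0 2), (rh3fc3a7fb6866dcd4.shift 1 2), (rh83f678d626105e3c.shift 1 0), (rh98608c6afefa0c7d.shift 0 2)] (by decide +kernel))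
noncomputable def rh91d909479d323325 : CRef := CRef.mk (Pat.mk 0x180000000c000000000000000000000000 0x3000000032000000330000001f000000ff000000fc0000001c00000018 7 8) 0 0 (step_sound _ 97 [rh1be06df7c2be3227, (rh53b3c253cb0c65f4.shift 0 3)] (by decide +kernel))
noncomputable def rhe70f406259fc698c : CRef := CRef.mk (Pat.mk 0x180000000c000000000000000000000000 0x3000000030000001f000000ff000000e70000000400000004 7 8) 0 0 (step_sound _ 97 [(rh53b3c253cb0c65f4.shift 0 3), rhd03be2e0d7fdcda5] (by decide +kernel))
noncomputable def rh6d13b845bb473147 : CRef := CRef.mk (Pat.mk 0xc000000060000000000000000 0xa0000003b0000003e0000003e0000003400000034 7 6) 0 0 (step_sound _ 100 [(rh18965a982d73c794.shift 1 2), rhb586887773b4122e] (by decide +kernel))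
noncomputable def rhbf0d375c1378f733 : CRef := CRef.mk (Pat.mk 0x180000000c000000000000000000000000 0x3000000030000000300000001c000000ff0000003f0000001800000018 7 8) 0 0 (step_sound _ 97 [(rh53b3c253cb0c65f4.shift 0 3), rhd6a8478a18f2fc46] (by decide +kernel))
noncomputable def rh058c3a17340e6705 : CRef := CRef.mk (Pat.mk 0x80000000e000000000000000000000000 0x10000003700000037000000370000003f0000001e0000003f0000001e0000001e 7 6) 0 0 (step_sound _ 100 [(rh83f678d626105e3c.shift 1 0), (rh8dd8478f41507cb4.shift 0 1), rhf3c6f9e7d3c2063d] (by decide +kernel))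
noncomputable def rhc84dabfa681df6d7 : CRef := CRef.mk (Pat.mk 0x3800000000000000000000000000000000 0x40000000c0000000c0000000f0000007c0000001f0000001c0000001c0000001c 7 7) 0 0 (step_sound _ 98 [(rh4c5c51b0ae60cece.shift 0 3), rh9701a83bdb521326, (rhbf283d9b2c2ae744.shift 1 1), (rhe1c32197ffb40f8f.shift 0 3)] (by decide +kernel))
noncomputable def rh65dea568c3f759ce : CRef := CRef.mk (Pat.mk 0x80000000e000000000000000000000000 0x10000000700000007000000070000001f000000fe0000007f0000000600000006 7 8) 0 0 (step_sound _ 100 [rh2395824d1086e2bc, (rh3947d1dfff0afc6c.shift 0 2), (rhbbf0bb7147ad1dea.shift 0 2), (rhc6ebdb02f2c2b584.shift 0 2), rhf3c6f9e7d3c2063d] (by decide +kernel))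
noncomputable def rh612ae084217ba7de : CRef := CRef.mk (Pat.mk 0x80000001c000000000000000000000000 0x600000006000000060000000f0000007c0000000f0000000e0000000e 7 7) 0 0 (step_sound _ 130 [(rh79b3c29022acbdf3.shift 1 3), (rh89fb70457614ea40.shift 1 0), rh8dd8cffe5ff2f8c9] (by decide +kernel))
noncomputable def rh388ecb69a3dbdc27 : CRef := CRef.mk (Pat.mk 0x80000001c000000000000000000000000 0x10000003700000037000000370000003f0000001e0000003f0000001e0000001e 7 6) 0 0 (step_sound _ 97 [(rh83f678d626105e3c.shift 1 0), (rh8dd8478f41507cb4.shift 0 1), rhf3c6f9e7d3c2063d] (by decide +kernel))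
noncomputable def rh35fb777b72cb1290 : CRef := CRef.mk (Pat.mk 0x180000000c000000000000000000000000 0x3000000030000000340000001f0000003f0000003b0000001a0000001a 7 6) 0 0 (step_sound _ 97 [(rh53b3c253cb0c65f4.shift 0 3), rh59f71b98d5d8889a] (by decide +kernel))
noncomputable def rha3d0117e9c704af3 : CRef := CRef.mk (Pat.mk 0x18000000180000000000000000 0xc0000002c000000ef000000ff000000df0000005400000040 7 8) 0 0 (step_sound _ 101 [(rh25b58045fb790919.shift 2 0), (rh4dc133ee0ba1420a.shift 1 2), (rh566e1f306155a94a.shift 0 1)] (by decide +kernel))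
noncomputable def rh9cbbc9e9dd7fb73e : CRef := CRef.mk (Pat.mk 0x1800000018000000000000000000000000 0xc0000000c0000001c0000001f000000ff000000ff0000003e 7 8) 0 0 (step_sound _ 68 [(rh1864e4c677b30864.shift 1 0), (rh3cb04db3dd2b6a55.shift 3 0), rh6d9eec8f2c084cae] (by decide +kernel))
noncomputable def rh56051609838fea1e : CRef := CRef.mk (Pat.mk 0x18000000180000000000000000 0x24000000e7000000ff000000df0000004800000048 7 8) 0 0 (step_sound _ 101 [(rh25b58045fb790919.shift 2 0), (rh4dc133ee0ba1420a.shift 1 2), rh5b7bf26d9fd76ab6] (by decide +kernel))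
noncomputable def rh49d8fb85db3f4fea : CRef := CRef.mk (Pat.mk 0x1800000018000000000000000000000000 0x80000000800000008000000380000001f0000003f0000001c0000001c 7 6) 0 0 (step_sound _ 163 [(rh55a1f6c57a317ce6.shift 3 1), rh819a15737217fd29, (rhe2d7daae1577d340.shift 0 2)] (by decide +kernel))
noncomputable def rh9b2f8a02e2369ee0 : CRef := CRef.mk (Pat.mk 0x80000000e000000000000000000000000 0x3000000030000000320000007b0000003e0000007f0000001c0000001c 7 7) 0 0 (step_sound _ 100 [(rh1e25ec49c59043e4.shift 1 0), rh2395824d1086e2bc, (rh3fc3a7fb6866dcd4.shift 1 2)] (by decide +kernel))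
noncomputable def rh99e30f08ef483997 : CRef := CRef.mk (Pat.mk 0x40000000e000000000000000000000000 0x30000000300000003000000770000003e000000770000000600000006 7 7) 0 0 (step_sound _ 100 [(rh07fc106a6edf0c0a.shift 0 2), (rhe3060b190bc0bc78.shift 0 3), rheb402496499938bd] (by decide +kernel))
noncomputable def rh15e3ab52ac8f1377 : CRef := CRef.mk (Pat.mk 0x1000000038000000000000000000000000 0x20000000e0000000e0000000e0000001f0000003e0000007f0000002c0000002c 7 7) 0 0 (step_sound _ 98 [(rh008b05f4778dc30d.shift 0 2), rh15b6c72b5f9b306f, (rh775ca1963e850b80.shift 0 2), (rhf3c6f9e7d3c2063d.shift 1 0)] (by decide +kernel))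
noncomputable def rh57f5093e3e790409 : CRef := CRef.mk (Pat.mk 0x1800000018000000000000000000000000 0x80000000800000018000000780000003f000000ff0000007c 7 8) 0 0 (step_sound _ 67 [(rh0bb3bf9cae16a8bf.shift 1 0), (rh362104532586ff12.shift 1 0), rh4c2bc612e97d8900, rh6dd7e3afac906266, (rh7a5331775de4f99e.shift 2 0), rhd59edc4b19329902] (by decide +kernel))
noncomputable def rheac930b2be83dec3 : CRef := CRef.mk (Pat.mk 0x18000000180000000000000000 0x24000000e7000000ff000000fb0000001200000012 7 8) 0 0 (step_sound _ 98 [(rh5edefdc92a35b1de.shift 1 0), (rh6292bd8784ece55f.shift 1 2), rh7160d4f3bced5753] (by decide +kernel))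
noncomputable def rh0a8fe03ce9883a1b : CRef := CRef.mk (Pat.mk 0xc00000018000000000000000000000000 0x40000000f000000ff0000001f000000330000001300000010 7 8) 0 0 (step_sound _ 129 [rh34eb42c026c91694, (rhb739f4f82bb681b4.shift 0 3)] (by decide +kernel))
noncomputable def rhb40f35ca611cd8af : CRef := CRef.mk (Pat.mk 0x60000000c000000000000000000000000 0x30000000340000003e0000003e0000003b0000000a00000002 7 6) 0 0 (step_sound _ 100 [rhc7e18f4e0f4cac45, (rhf48373e13d2bc128.shift 1 3)] (by decide +kernel))
noncomputable def rh18987dd28c605d33 : CRef := CRef.mk (Pat.mk 0xc00000018000000000000000000000000 0x18000000180000003f000000ff0000001c000000300000003000000030 7 8) 0 0 (step_sound _ 129 [rh592a723f16b36aba, (rhb739f4f82bb681b4.shift 0 3)] (by decide +kernel))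
noncomputable def rh100c21cf956c47d3 : CRef := CRef.mk (Pat.mk 0xe0000000800000000000000000000000000000000 0x1c0000001e0000003f0000001e0000003f00000037000000370000003700000005 7 6) 0 0 (step_sound _ 164 [(rh0db230562ebffc87.shift 1 1), (rhcbc656813b97618d.shift 0 1), rhfd51c958ce1d79dd] (by decide +kernel))
noncomputable def rh1682159b27512b24 : CRef := CRef.mk (Pat.mk 0xe0000000800000000000000000000000000000000 0x400000006000000f70000007e0000000f00000007000000070000000700000005 7 8) 0 0 (step_sound _ 164 [(rh059edb3c29340fb2.shift 0 4), (rh3b00e9e9432b8f40.shift 0 4), (rh98608c6afefa0c7d.shift 0 4), (rhb18e6c78a554867d.shift 0 5), rhfd51c958ce1d79dd] (by decide +kernel))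
noncomputable def rh66f385bc2a369c03 : CRef := CRef.mk (Pat.mk 0x1c00000008000000000000000000000000 0x60000000e0000000f0000007e0000007f000000060000000600000006 7 7) 0 0 (step_sound _ 98 [(rh4dc133ee0ba1420a.shift 0 3), rh6c22c534ca255086, (rhbba720cee4fbc066.shift 0 3)] (by decide +kernel))
noncomputable def rh8d51fb48110c5289 : CRef := CRef.mk (Pat.mk 0xe00000004000000000000000000000000 0x600000006000000770000003e00000037000000030000000300000003 7 7) 0 0 (step_sound _ 132 [rh60f087c0d2371dd9, (rhaf9f2efc81a8312b.shift 0 3), (rhb9b9ce08a9b9cf77.shift 0 3)] (by decide +kernel))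
noncomputable def rha0f785cd7650b1d1 : CRef := CRef.mk (Pat.mk 0x1c0000000800000000000000000000000000000000 0x1c0000001e0000003f0000001e0000003f00000037000000370000003700000005 7 6) 0 0 (step_sound _ 161 [(rh0db230562ebffc87.shift 1 1), (rhcbc656813b97618d.shift 0 1), rhfd51c958ce1d79dd] (by decide +kernel))
noncomputable def rh883baae6abb936ac : CRef := CRef.mk (Pat.mk 0xc00000018000000000000000000000000 0x180000001800000078000000ff0000001f000000300000003000000030 7 8) 0 0 (step_sound _ 129 [(rhb739f4f82bb681b4.shift 0 3), rhd02df93cce4e9d29] (by decide +kernel))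
noncomputable def rh3d59964ec2252de4 : CRef := CRef.mk (Pat.mk 0x1800000018000000000000000000000000 0x1c0000001c0000005f000000df000000ff000000ee0000002800000020 7 8) 0 0 (step_sound _ 101 [(rh79b3c29022acbdf3.shift 2 3), (rhb934803adb845c12.shift 0 1), (rhef3032495df9d34e.shift 2 0)] (by decide +kernel))
noncomputable def rha8aa9c84d32ce3bd : CRef := CRef.mk (Pat.mk 0x1800000018000000000000000000000000 0x1c0000001c0000003f0000001f00000078000000080000001c0000001c 7 7) 0 0 (step_sound _ 67 [(rh1d2317d9f1994660.shift 1 0), (rh9f9c8337caa41017.shift 0 2), (rhea7a1800d6f053bd.shift 3 0)] (by decide +kernel))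
noncomputable def rh5ac60326fc23fdac : CRef := CRef.mk (Pat.mk 0x1800000018000000000000000000000000 0x54000000df000000ff000000ef0000002c0000002c 7 8) 0 0 (step_sound _ 101 [(rh79b3c29022acbdf3.shift 2 3), rha612bd60300eb0ed, (rhef3032495df9d34e.shift 2 0)] (by decide +kernel))
noncomputable def rh0f5b6530bd2cee15 : CRef := CRef.mk (Pat.mk 0x1800000018000000000000000000000000 0x1c0000001c0000003f0000001f000000380000000e0000007c0000001c 7 7) 0 0 (step_sound _ 67 [(rh0bb3bf9cae16a8bf.shift 1 0), (rh9f9c8337caa41017.shift 0 2), (rhea7a1800d6f053bd.shift 3 0)] (by decide +kernel))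
noncomputable def rha4bbd166fec1ea26 : CRef := CRef.mk (Pat.mk 0x18000000180000000000000000 0x3e000000ff000000ff0000001f0000001c0000000c0000000c 7 8) 0 0 (step_sound _ 132 [(rh1e309b005ffa1b36.shift 3 0), rh67dc99454506f989, (rh9dbc063ae34b2487.shift 1 2)] (by decide +kernel))
noncomputable def rh4fa6153b1f60b675 : CRef := CRef.mk (Pat.mk 0x1800000018000000000000000000000000 0x48000000df000000ff000000e70000002400000024 7 8) 0 0 (step_sound _ 101 [rh513c0b2cf11728aa, (rh79b3c29022acbdf3.shift 2 3), (rhef3032495df9d34e.shift 2 0)] (by decide +kernel))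
noncomputable def rh3f561905aec1fbaa : CRef := CRef.mk (Pat.mk 0xe00000008000000000000000000000000 0x18000000180000007f0000003e0000007b000000300000003000000030 7 7) 0 0 (step_sound _ 132 [(rh07fc106a6edf0c0a.shift 0 3), (rh0db230562ebffc87.shift 1 0), (rh98608c6afefa0c7d.shift 0 3), (rhb9b9ce08a9b9cf77.shift 0 3), (rhc6ebdb02f2c2b584.shift 0 3)] (by decide +kernel))
noncomputable def rh1bc3e70345f23783 : CRef := CRef.mk (Pat.mk 0x3800000010000000000000000000000000 0x4000000140000003e0000007f0000001e0000000c0000000c0000000c 7 7) 0 0 (step_sound _ 99 [(rh4dc133ee0ba1420a.shift 1 3), rh6ac94f79c0722fba] (by decide +kernel))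
noncomputable def rh1deaebc0809fdab1 : CRef := CRef.mk (Pat.mk 0x1c00000008000000000000000000000000 0xc0000001c0000007f0000007e0000006c000000260000002600000006 7 7) 0 0 (step_sound _ 133 [(rh756cd74797621855.shift 1 1), (rhc0cddc5e68bb8db9.shift 1 0), (rhd75855c0840bf9dc.shift 0 3)] (by decide +kernel))
noncomputable def rhf57078b8ab5b4dcd : CRef := CRef.mk (Pat.mk 0x1800000018000000000000000000000000 0x40000000c0000000f0000000f8000000ff000000e00000006000000060 7 8) 0 0 (step_sound _ 101 [(rh08505b7dd780d725.shift 2 1), (rh182ca0c96ca2f548.shift 3 1), (rh3b1dba3afbb30e85.shift 2 0), (rh4892d36a38b44d97.shift 1 0), (rh48dcc808214cd2bf.shift 0 2), (rhef3032495df9d34e.shift 2 0)] (by decide +kernel))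
noncomputable def rh641f14e3495854c6 : CRef := CRef.mk (Pat.mk 0x1800000018000000000000000000000000 0x1c0000001c0000001f00000078000000180000000e0000007c0000001c 7 7) 0 0 (step_sound _ 67 [(rh0bb3bf9cae16a8bf.shift 1 0), (rhc7acfcf8b3093ca8.shift 0 1), (rhea7a1800d6f053bd.shift 3 0)] (by decide +kernel))
noncomputable def rh1f1c8009683573e6 : CRef := CRef.mk (Pat.mk 0x1800000018000000000000000000000000 0x12000000fb000000ff000000e70000002400000024 7 8) 0 0 (step_sound _ 98 [(rh6f09c2b37e32926c.shift 1 0), rh9ecea4e1d309003f, (rhab2ad169e49f9c5e.shift 0 3)] (by decide +kernel))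
noncomputable def rhe27533d77a4f1edc : CRef := CRef.mk (Pat.mk 0x200000002000000000000000000000000000000000 0x5000000070000001fe000000fc000001fe000000fe000003ff0000007000000050 7 10) 0 0 (step_sound _ 101 [(rh020140c103c93fec.shift 4 0), (rh3e53d14085adc43a.shift 4 1), rhadc945aa9d81f4dc, (rhcad4637037ab22d5.shift 1 0), (rhd62be3748eb48185.shift 4 0), (rhfc60e486baaa63e2.shift 4 1)] (by decide +kernel))
end Crest.Agent.S0047.Helper85.Cert
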