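import Crest.Agent.Lib.S0047.Helper85CertPL7F0
import Crest.Agent.Lib.S0047.Helper85CertPL7F1
import Crest.Agent.Lib.S0047.Helper85CertPL7F2
import Crest.Agent.Lib.S0047.Helper85CertPL7F3
import Crest.Agent.Lib.S0047.Helper85CertPL7F4
import Crest.Agent.Lib.S0047.Helper85CertPL7F5
import Crest.Agent.Lib.S0047.Helper85CertPL7F6
import Crest.Agent.Lib.S0047.Helper85CertPL7F7
import Crest.Agent.Lib.S0047.Helper85CertPL7F8
import Crest.Agent.Lib.S0047.Helper85CertPL7F9
import Crest.Agent.Lib.S0047.Helper85CertPL7F10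
import Crest.Agent.Lib.S0047.Helper85CertPL7F11
set_option autoImplicit false
set_option linter.all false
set_option Elab.async false
namespace Crest.Agent.S0047.Helper85.Cert
open Crest.Agent.S0047.Helper85

noncomputable def rhe2455003c5268390 : CRef := CRef.mk (Pat.mk 0x20000000280000000000000000000000000000000000000000 0x140000001c0000001c0000001f0000007e0000003f0000007f0000001e0000001e0000001e0000000a 8 7) 0 0 (step_sound _ 162 [rh2a9689cda85ecf11, (rh2f68fb68062f97ae.shift 1 4), (rh3a566e2c1ba9c096.shift 0 1), (rh61e2fa0cb06aec6a.shift 1 0), (rhd19bdf9ae8463a32.shift 0 4), (rhe7a687206514a34a.shift 0 4)] (by decide +kernel))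
noncomputable def rh05fb1482e3039245 : CRef := CRef.mk (Pat.mk 0x20000000280000000000000000000000000000000000000000 0x5000000070000001f80000007c000001ef0000003e000000ff0000007e0000005e0000000e0000000a 8 9) 0 0 (step_sound _ 164 [rh0e2996ede2d76017, (rh46f4e32c661b103a.shift 0 4), (rhb12ffaec36122c99.shift 0 4), (rhf311290e68606e04.shift 2 2)] (by decide +kernel))
noncomputable def rh56343c7a1c75fd27 : CRef := CRef.mk (Pat.mk 0x80000000a00000000000000000000000000000000 0x40000001c0000001c0000001c0000000c0000000f0000007f0000007f0000001c00000014 8 7) 0 0 (step_sound _ 99 [rh59f8fc47d75cf663, (rh7cde007d2907bcbe.shift 0 2), (rh7fb85e918b0a04ef.shift 2 0), (rhbf0a7229057d5595.shift 0 1), (rhdc70b51116888437.shift 0 1), (rhf237fec569adc1e2.shift 2 1), (rhff3384473648fcb0.shift 2 0), (rhff363d8c8c4d7478.shift 2 0)] (by decide +kernel))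
noncomputable def rhf1bdb0fbbbb4d984 : CRef := CRef.mk (Pat.mk 0x400000005000000000000000000000000000000000 0x20000000380000003800000078000007fe000007ff0000077f0000003e0000003c0000003c0000002c 8 11) 0 0 (step_sound _ 164 [(rh35c58704c7e3f344.shift 1 1), (rh4e9d818454e572c5.shift 1 2), (rh5fc433df4edd2d99.shift 2 1), (rh94990d2df97199fe.shift 1 2), (rh9da3b226075103c0.shift 1 0), (rha679fa2e1ea1dc01.shift 1 1), rha9053045bcb0d4af, (rhc815848d08250cb6.shift 1 1), (rhce009b2ae93ee86a.shift 1 1)] (by decide +kernel))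
noncomputable def rh5467fd3a1df04c06 : CRef := CRef.mk (Pat.mk 0x1000000014000000000000000000000000 0x280000003f0000007e000000ff000000fc0000001c000000780000003800000028 8 8) 0 0 (step_sound _ 164 [(rh05c31f1ad2fe6ae8.shift 0 2), (rh1359922a99d3d421.shift 3 1), (rh60e1ba3013200bc1.shift 3 0), (rh7863e25d1d742d32.shift 3 1), (rha499c577ca6dfa75.shift 3 0), (rhc60bbf045c33e4fa.shift 3 0), (rhf68ab2d0afb6ed29.shift 1 0)] (by decide +kernel))
noncomputable def rhda7b07327bb42f4f : CRef := CRef.mk (Pat.mk 0x80000000a00000000000000000000000000000000000000000 0x40000001f0000001f0000001f8000007fe000007fe00000ebf000003f8000003fc000001f00000017000000040 8 12) 0 0 (step_sound _ 197 [(rh10bfcc9782bcb713.shift 1 3), (rh1342f0cb15232885.shift 2 3), (rh1c9f098aba83c7eb.shift 2 2), (rh2e17d79e2ccdc6a1.shift 2 1), (rh3ba193a4622988fb.shift 2 2), (rh4674a8a2865c7925.shift 2 0), (rh56b912d448a732f3.shift 2 2), (rh7e9b475ca71f914a.shift 2 3), (rhbdf1032edc5ac5b4.shift 0 2), (rhedf565ae2b1b66bf.shift 2 1), (rhf58ba91ec5c4105d.shift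 3 1)] (by decide +kernel))
noncomputable def rh6d29d47f260277fa : CRef := CRef.mk (Pat.mk 0x280000002000000000000000000000000000000000 0x20000000e0000005e0000007e000000ff0000003e000000ef000000fc000001fc0000007000000050 8 9) 0 0 (step_sound _ 164 [(rh3918eeb6c53434d8.shift 0 4), (rh7472882c232e68b6.shift 0 2), (rhb316d1e645542005.shift 2 0)] (by decide +kernel))
noncomputable def rh6c88353a7944dd14 : CRef := CRef.mk (Pat.mk 0x140000001000000000000000000000000000000000 0x28000000380000003e000000fe0000001f0000001800000038000000380000003800000008 8 8) 0 0 (step_sound _ 196 [(rh131b19269d79d13d.shift 1 1), (rh35130dd27eedee58.shift 1 0), rh6dda7093be021bad, (rh785804701e263c00.shift 0 3), (rhaef13a1c72d4db39.shift 3 2), (rhf237fec569adc1e2.shift 3 2), (rhf3464aed381aaf11.shift 0 2), (rhff363d8c8c4d7478.shift 3 1)] (by decide +kernel))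
noncomputable def rhce02c8b5da0d702b : CRef := CRef.mk (Pat.mk 0x50000000400000000000000000000000000000000000000000 0x8000000380000003c0000003e0000077f000007ff000007fe0000007c0000007c0000003800000020 8 11) 0 0 (step_sound _ 164 [(rh1d9c64df42580f2e.shift 1 2), (rh491fe0e8c7f7f231.shift 1 0), (rh61059692574bb803.shift 1 0), (rh6c6cc136f2e509e9.shift 1 1), (rh7ff2fcb04e113733.shift 1 2), (rh8115e28e85126967.shift 1 2), (rhc78f887c66795e5a.shift 1 3), (rhcc740d453bafdd8f.shift 2 1), (rhe1bead3c6a8aa02a.shift 0 2)] (by decide +kernel))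
noncomputable def rh5ed9a78d6699216d : CRef := CRef.mk (Pat.mk 0x280000002000000000000000000000000000000000 0x40000002c0000006f0000003f0000007f0000007e0000003e0000001e00000014 8 7) 0 0 (step_sound _ 162 [(rh24c9ad7c5863ef66.shift 1 2), rh84ef0c07c339b0fd, (rh8fa31fd8c01ab202.shift 0 2), (rhb34a67f8847d128f.shift 0 4), (rhbf5d9e90d56c2a5f.shift 0 4), (rheb38467d669bf196.shift 1 2)] (by decide +kernel))
noncomputable def rhf53f448cff72fcb3 : CRef := CRef.mk (Pat.mk 0x280000002000000000000000000000000000000000 0x20000006e0000007e0000007e000000ff0000003e000001ff000000ec0000007c0000007000000050 8 9) 0 0 (step_sound _ 164 [(rh7472882c232e68b6.shift 0 2), (rha3284c07ebabee21.shift 2 0), (rhc21a95c499b3efdb.shift 2 4)] (by decide +kernel))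
noncomputable def rhc3a6bff20a4c4c20 : CRef := CRef.mk (Pat.mk 0x280000002000000000000000000000000000000000 0x140000001c0000003c0000007f0000003f0000007f0000001f0000001e0000001c00000014 8 7) 0 0 (step_sound _ 162 [(rh24c9ad7c5863ef66.shift 1 2), (rh8fa31fd8c01ab202.shift 0 2), rha710556b0eb1c31e, (rhb34a67f8847d128f.shift 0 4), (rhbf5d9e90d56c2a5f.shift 0 4), (rheb38467d669bf196.shift 1 2)] (by decide +kernel))
noncomputable def rhed0c3749fa666c00 : CRef := CRef.mk (Pat.mk 0x140000001000000000000000000000000000000000 0x28000000380000007e0000007e0000001f0000001800000038000000380000003800000008 8 7) 0 0 (step_sound _ 196 [(rh466e2b87c134c915.shift 1 0), (rh5c84380a1a981cd8.shift 1 1), (rh7a4d44fd0cea7a8a.shift 1 0), (rh966f922b624c48a4.shift 0 3), (rha58607731c8b4809.shift 3 1), (rhb2fca82b1e8fae95.shift 3 0), (rhdae0f9eaff3e1309.shift 1 1), (rhf3464aed381aaf11.shift 0 2)] (by decide +kernel))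
noncomputable def rh278ec6bd314028ad : CRef := CRef.mk (Pat.mk 0x50000000400000000000000000000000000000000000000000 0x8000000380000003c0000003e0000077f000007ff000007fe0000007c0000007c0000003800000020 8 11) 0 0 (step_sound _ 164 [(rh381608151d5e97bd.shift 1 2), (rh51eebb07da32d522.shift 1 0), (rh5fe94d816f8ade8b.shift 1 2), (rh708ff60e711c67c6.shift 1 0), (rh8115e28e85126967.shift 1 2), (rh905eb58c02103b93.shift 1 1), (rhc78f887c66795e5a.shift 1 3), (rhcc740d453bafdd8f.shift 2 1), (rhe1bead3c6a8aa02a.shift 0 2)] (by decide +kernel))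
noncomputable def rh72837bc0fcdbf887 : CRef := CRef.mk (Pat.mk 0xa0000000800000000000000000000000000000000000000000 0x5000000170000001f0000003fc000003fc000000bf000007fe00000ffe000003f8000001f0000001f000000040 8 12) 0 0 (step_sound _ 165 [(rh1cbeb98d022c59ac.shift 2 2), (rh206f38c0cccf65ba.shift 2 2), (rh26788f4d5e86a140.shift 2 2), (rh331fb2d47c2721b8.shift 2 2), (rh5fc189ca6e8e0fa4.shift 2 0), (rh98699bb73ae4b2e7.shift 2 1), (rha9176e8bd3bf4bff.shift 2 1), (rhc51a013d4f425f25.shift 2 0), rhdf7a3a044de904fe, (rhfa47ea0bb77adff7.shift 2 1)] (by decide +kernel))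
noncomputable def rh9497f7754cd83a32 : CRef := CRef.mk (Pat.mk 0xa0000000800000000000000000000000000000000000000000 0x1000000070000000780000007c000000ff000003fe000007fe000000f8000000f80000007000000040 8 11) 0 0 (step_sound _ 165 [(rh3579cd232612f972.shift 2 2), (rh7e86f1f2ccc618cb.shift 2 2), (rhc63af5372ac2eef8.shift 2 0), (rhc78f887c66795e5a.shift 2 3), (rhca4d6c593215322c.shift 1 2), (rhcc740d453bafdd8f.shift 3 1), rhd0cdf94c38de9c09, (rhdd65185d0f7d0f34.shift 2 0)] (by decide +kernel))
noncomputable def rh0d01e4f505f3c336 : CRef := CRef.mk (Pat.mk 0xa0000000800000000000000000000000000000000000000000 0x5000000170000001f0000003fc000003fc000000bf000003fe000007fe000003f8000001f0000001f000000040 8 11) 0 0 (step_sound _ 165 [(rh36b2afc14b11904f.shift 2 2), (rh6efb738a61011c43.shift 2 1), (rh81669ca85f0db997.shift 2 1), (rha9176e8bd3bf4bff.shift 2 1), (rhb14e74a010f67f0b.shift 2 2), rhd0cdf94c38de9c09, (rhddd48617d817fc5f.shift 2 0), (rhe45744a3cf90c8ff.shift 2 0), (rhfa47ea0bb77adff7.shift 2 1)] (by decide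 +kernel))
noncomputable def rhce55ce02af2e7af1 : CRef := CRef.mk (Pat.mk 0x20000000280000000000000000000000000000000000000000 0x140000001c0000007e0000007e0000007f0000003f0000006f0000002e0000000e0000000e0000000a 8 7) 0 0 (step_sound _ 162 [(rh170eaefe6fff8440.shift 0 2), (rh4acbe7133cd1d231.shift 0 4), (rh61e2fa0cb06aec6a.shift 1 0), rh8b0956576f208237, (rhe7a687206514a34a.shift 0 4)] (by decide +kernel))
noncomputable def rhd1a818adc17ba5c5 : CRef := CRef.mk (Pat.mk 0x80000000a00000000000000000000000000000000 0x40000001c0000001c0000001c0000000c0000000f0000003f0000003f0000001c00000014 8 6) 0 0 (step_sound _ 99 [rh1de33672d038dff1, (rh7cde007d2907bcbe.shift 0 2), (rhbf0a7229057d5595.shift 0 1), (rhdc70b51116888437.shift 0 1), (rheac7100a97901a45.shift 2 1), (rhf237fec569adc1e2.shift 2 1), (rhff3384473648fcb0.shift 2 0)] (by decide +kernel))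
noncomputable def rhcac3ecce95fdc5c1 : CRef := CRef.mk (Pat.mk 0x400000005000000000000000000000000000000000 0x20000000380000003800000078000007fe000007ff0000077f0000003e0000003c0000003c0000002c 8 11) 0 0 (step_sound _ 164 [(rh15ada884f00148c0.shift 1 2), (rh26018f6d53b1e13e.shift 1 1), (rh35c58704c7e3f344.shift 1 1), (rh4e9d818454e572c5.shift 1 2), (rh5024a5ef63d82900.shift 1 0), (rh5fc433df4edd2d99.shift 2 1), rha9053045bcb0d4af, (rhc1a7ff724dedc865.shift 1 1), (rhc815848d08250cb6.shift 1 1)] (by decide +kernel))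
noncomputable def rhe247cb2b33b1c23a : CRef := CRef.mk (Pat.mk 0x80000000a00000000000000000000000000000000000000000 0x40000001f0000001f0000001f8000007fe000007fe00000ebf000003f8000003fc000001f00000017000000040 8 12) 0 0 (step_sound _ 197 [(rh1342f0cb15232885.shift 2 3), (rh16010ae752ca89fa.shift 2 1), (rh1c9f098aba83c7eb.shift 2 2), (rh3ba193a4622988fb.shift 2 2), (rh4674a8a2865c7925.shift 2 0), (rh56b912d448a732f3.shift 2 2), (rh7e9b475ca71f914a.shift 2 3), (rh8c3e2f5034e49617.shift 3 1), (rhbdf1032edc5ac5b4.shift 0 2), (rhc41299aecd9dc9b7.shift 3 1)] (by decide +kernel))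
noncomputable def rha32831eeb434b217 : CRef := CRef.mk (Pat.mk 0x20000000280000000000000000000000000000000000000000 0x68000000fc000001fe0000003e000000ff0000007e0000003e0000002e0000000a 8 9) 0 0 (step_sound _ 164 [(rh0f0f3fa9f3928457.shift 3 1), (rh46f4e32c661b103a.shift 0 4), rha776f61147d129ad, (rhff7d63dcb3cf9f74.shift 2 5)] (by decide +kernel))
noncomputable def rhfdc15c51c02fb1f1 : CRef := CRef.mk (Pat.mk 0x20000000280000000000000000000000000000000000000000 0x140000001c0000007e0000007e0000007f0000003f0000006f0000002e0000000e0000000e0000000a 8 7) 0 0 (step_sound _ 162 [rh038efa54883c0dc8, (rh170eaefe6fff8440.shift 0 2), (rh30c017f1ffbb3c60.shift 1 0), (rh4acbe7133cd1d231.shift 0 4), (rhe7a687206514a34a.shift 0 4)] (by decide +kernel))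
noncomputable def rh64c3618d3921622f : CRef := CRef.mk (Pat.mk 0x20000000280000000000000000000000000000000000000000 0x500000007000000078000001ec000001fe0000003e000000ff0000007e0000005e0000000e0000000a 8 9) 0 0 (step_sound _ 164 [(rh46f4e32c661b103a.shift 0 4), (rh48fca6bb3b33c1ca.shift 3 2), rha776f61147d129ad, (rhff7d63dcb3cf9f74.shift 2 5)] (by decide +kernel))
noncomputable def rhf2f0f9b3533de8b2 : CRef := CRef.mk (Pat.mk 0x20000000280000000000000000000000000000000000000000 0x140000001c0000001c0000001f0000007e0000003f0000007f0000001e0000001e0000001e0000000a 8 7) 0 0 (step_sound _ 162 [(rh2f68fb68062f97ae.shift 1 4), (rh30c017f1ffbb3c60.shift 1 0), (rh3a566e2c1ba9c096.shift 0 1), rh4d3383f81f8fc093, (rhd19bdf9ae8463a32.shift 0 4), (rhe7a687206514a34a.shift 0 4)] (by decide +kernel))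
noncomputable def rhbf32b2fd5f15dabb : CRef := CRef.mk (Pat.mk 0x20000000280000000000000000000000000000000000000000 0x5000000070000001f80000007c000001ef0000003e000000ff0000007e0000005e0000000e0000000a 8 9) 0 0 (step_sound _ 164 [(rh46f4e32c661b103a.shift 0 4), rha594bb166c0e9f07, (rhb12ffaec36122c99.shift 0 4), (rhf311290e68606e04.shift 2 2)] (by decide +kernel))
noncomputable def rha5c80eae429bf9ca : CRef := CRef.mk (Pat.mk 0x80000000a00000000000000000000000000000000 0x40000001c0000001c0000001c0000000c0000000f0000003f0000003f0000001c00000014 8 6) 0 0 (step_sound _ 99 [rh1de33672d038dff1, (rh7cde007d2907bcbe.shift 0 2), (rh9c611607b5bbe761.shift 0 1), (rhdc70b51116888437.shift 0 1), (rheac7100a97901a45.shift 2 1), (rhf237fec569adc1e2.shift 2 1), (rhff3384473648fcb0.shift 2 0)] (by decide +kernel))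
noncomputable def rh0e01c77f9dc8cdd7 : CRef := CRef.mk (Pat.mk 0x80000000a00000000000000000000000000000000000000000 0x40000001f0000001f0000001f8000007fe000007fe00000ebf000003f8000003fc000001f00000017000000040 8 12) 0 0 (step_sound _ 197 [(rh10bfcc9782bcb713.shift 1 3), (rh1342f0cb15232885.shift 2 3), (rh16010ae752ca89fa.shift 2 1), (rh1c9f098aba83c7eb.shift 2 2), (rh3126c48f3ad854ad.shift 2 1), (rh3ba193a4622988fb.shift 2 2), (rh4674a8a2865c7925.shift 2 0), (rh56b912d448a732f3.shift 2 2), (rh7e9b475ca71f914a.shift 2 3), (rhbdf1032edc5ac5b4.shift 0 2), (rhf58ba91ec5c4105d.shift 3 1)] (by decide +kernel))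
noncomputable def rhc0b890567136afe3 : CRef := CRef.mk (Pat.mk 0x28000000200000000000000000 0x20000006e0000007e0000007e000000ff0000003e000001ff000000fc0000006c 8 9) 0 0 (step_sound _ 100 [(rh3918eeb6c53434d8.shift 0 2), (rh8bc3327fa6faac05.shift 3 0), rha2bb9f3a1012dac9, (rhc21a95c499b3efdb.shift 2 2)] (by decide +kernel))
noncomputable def rhb5d14440a39258ac : CRef := CRef.mk (Pat.mk 0x280000002000000000000000000000000000000000 0x20000000e0000005e0000007e000000ff0000003e000001ff000000ec0000007c0000007000000050 8 9) 0 0 (step_sound _ 164 [(rh3918eeb6c53434d8.shift 0 4), (rh5a751a1e6d9b8c5b.shift 2 0), (rha2bb9f3a1012dac9.shift 0 2), (rhc21a95c499b3efdb.shift 2 4)] (by decide +kernel))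
noncomputable def rh183ac62944043210 : CRef := CRef.mk (Pat.mk 0x280000002000000000000000000000000000000000 0x20000000e0000005e0000007e000000ff0000003e000001ef000000fe0000007c0000007000000050 8 9) 0 0 (step_sound _ 164 [(rh3560e6006ecf6db1.shift 2 0), (rh3918eeb6c53434d8.shift 0 4), (rh7472882c232e68b6.shift 0 2), (rhe0773df4219cf24e.shift 1 0)] (by decide +kernel))
noncomputable def rh460794c3a9116c97 : CRef := CRef.mk (Pat.mk 0xa0000000800000000000000000000000000000000 0x140000001e0000001f0000007e0000000e0000007e0000007e0000001c0000001c00000014 8 7) 0 0 (step_sound _ 195 [(rh4dc2891f3a21ef79.shift 2 0), (rh9935e6d90e5bde1c.shift 0 3), (rhaef13a1c72d4db39.shift 2 2), (rhc5c5b88722b9bb4a.shift 2 2), (rhd091826498b1b626.shift 2 2), (rhd30abbb3f01d7a99.shift 1 1), (rheac7100a97901a45.shift 2 2)] (by decide +kernel))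
noncomputable def rh799753c9da228e69 : CRef := CRef.mk (Pat.mk 0xa0000000800000000000000000000000000000000000000000 0x5000000170000001f0000003fc000003fc000000bf000007fe00000ffe000003f8000001f0000001f000000040 8 12) 0 0 (step_sound _ 165 [(rh1cbeb98d022c59ac.shift 2 2), (rh26788f4d5e86a140.shift 2 2), (rh36b2afc14b11904f.shift 2 2), (rh4d1bc2efa5fb9a7a.shift 2 1), (rh5fc189ca6e8e0fa4.shift 2 0), (rh6915951241de8e98.shift 1 2), (rha9176e8bd3bf4bff.shift 2 1), (rhbf318c5e32be550e.shift 2 2), (rhc51a013d4f425f25.shift 2 0), rhdf7a3a044de904fe, (rhfa47ea0bb77adff7.shift 2 1)] (by decide +kernel))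
noncomputable def rh17fa998e4328ea68 : CRef := CRef.mk (Pat.mk 0x280000002000000000000000000000000000000000 0x40000002c0000006f0000003f0000007f0000007e0000003e0000001e00000014 8 7) 0 0 (step_sound _ 162 [rh5b0c5ae25331cf2e, (rh8c2bcbc84662fd1d.shift 0 2), (rhb04145dc3da226a5.shift 1 2), (rhb34a67f8847d128f.shift 0 4), (rhbf5d9e90d56c2a5f.shift 0 4), (rheb38467d669bf196.shift 1 2)] (by decide +kernel))
noncomputable def rhabcf52d40f3638bb : CRef := CRef.mk (Pat.mk 0x280000002000000000000000000000000000000000 0x140000001c0000003c0000007f0000003f0000007f0000001f0000001e0000001c00000014 8 7) 0 0 (step_sound _ 162 [rh4c8db98b1685600d, (rh8c2bcbc84662fd1d.shift 0 2), (rhb04145dc3da226a5.shift 1 2), (rhb34a67f8847d128f.shift 0 4), (rhbf5d9e90d56c2a5f.shift 0 4), (rheb38467d669bf196.shift 1 2)] (by decide +kernel))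
noncomputable def rh794a6660a3bcbdb9 : CRef := CRef.mk (Pat.mk 0x140000001000000000000000000000000000000000 0x28000000380000003e000000fe0000001f0000001800000038000000380000003800000008 8 8) 0 0 (step_sound _ 196 [(rh5c84380a1a981cd8.shift 1 1), (rh785804701e263c00.shift 0 3), (rh7f0d646bedd75431.shift 1 1), (rh7f9fbe0f9ddf70a7.shift 1 0), (rha58607731c8b4809.shift 3 1), (rhdae0f9eaff3e1309.shift 1 1), (rhf3464aed381aaf11.shift 0 2), (rhff363d8c8c4d7478.shift 3 1)] (by decide +kernel))
noncomputable def rh3914c89f74481266 : CRef := CRef.mk (Pat.mk 0x50000000400000000000000000000000000000000000000000 0x8000000380000003c0000003e0000077f000007ff000007fe0000007c0000007c0000003800000020 8 11) 0 0 (step_sound _ 164 [(rh00a4e6953a30e0fa.shift 1 2), (rh1885265dbb76d73c.shift 0 2), (rh58839649edc53370.shift 1 2), (rh61059692574bb803.shift 1 0), (rh6a99014ce63c1bed.shift 1 2), (rh9657c4e9de9e592c.shift 1 0), (rhadd90ec1b7e4b9a1.shift 2 1), (rhc78f887c66795e5a.shift 1 3), (rhd75e5f3a38258c04.shift 1 0)] (by decide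 +kernel))
noncomputable def rh9b1718a855905da2 : CRef := CRef.mk (Pat.mk 0xa0000000800000000000000000000000000000000000000000 0x7000000170000001f0000001fc000003f0000000bf000007fe00000ffe000003f8000001f0000001f000000040 8 12) 0 0 (step_sound _ 165 [(rh11ca0a5835e50783.shift 2 2), (rh1c699aaa396cbe17.shift 2 2), (rh26788f4d5e86a140.shift 2 2), (rh5fc189ca6e8e0fa4.shift 2 0), (rh6876e890232a4cab.shift 2 1), (rh6915951241de8e98.shift 1 2), (rh6ff752692192a7b0.shift 2 1), (rha9176e8bd3bf4bff.shift 2 1), (rhb40025c0a0622650.shift 2 1), (rhc51a013d4f425f25.shift 2 0), rhdf7a3a044de904fe] (by decide +kernel))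
noncomputable def rhce15de0f6fc60ac7 : CRef := CRef.mk (Pat.mk 0x2800000020000000000000000000000000 0x180000003c0000007f0000003e000001ff000001fe0000007e0000006a 8 9) 0 0 (step_sound _ 132 [rh1943ed916905c68b, (rh808c9d01e7718c12.shift 1 0), (rhc21a95c499b3efdb.shift 2 3)] (by decide +kernel))
noncomputable def rhc1883fe439a40edf : CRef := CRef.mk (Pat.mk 0x28000000200000000000000000000000000000000000000000 0x780000007c0000007f0000003e000001ff000001fe0000006e0000007a0000007000000050 8 9) 0 0 (step_sound _ 196 [(rh1943ed916905c68b.shift 0 2), (rh6753d1cb8251e19a.shift 2 0), (rhc21a95c499b3efdb.shift 2 5)] (by decide +kernel))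
noncomputable def rh374108c9fba16242 : CRef := CRef.mk (Pat.mk 0x280000002000000000000000000000000000000000 0x740000007c000000fc0000007c0000003f000001fc0000006c0000007c0000007000000010 8 9) 0 0 (step_sound _ 197 [(rh26eaf0739caf63fd.shift 0 1), (rh47293bc0e5753fa8.shift 0 2), (rh475f9c2c1aba2bb1.shift 2 0), (rhc20b0fbc16c13cc1.shift 2 2), (rhc9a9bfc18426107e.shift 2 1), (rhd091826498b1b626.shift 4 2)] (by decide +kernel))
noncomputable def rhd00bc875a3f8c11b : CRef := CRef.mk (Pat.mk 0x280000002000000000000000000000000000000000 0x580000007c0000007f0000003e000001ef000000fe000003ff0000007e00000050 8 10) 0 0 (step_sound _ 164 [(rh1943ed916905c68b.shift 0 1), (rh3918eeb6c53434d8.shift 0 4), rh3f4bf75ecd224552, (rhded5813b939f1319.shift 0 4)] (by decide +kernel))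
noncomputable def rhbb080eba889fe4a6 : CRef := CRef.mk (Pat.mk 0x50000000400000000000000000000000000000000000000000 0x8000000380000003c0000003e0000077f000007ff000007fe0000007c0000007c0000003800000020 8 11) 0 0 (step_sound _ 164 [(rh00a4e6953a30e0fa.shift 1 2), (rh1885265dbb76d73c.shift 0 2), (rh58839649edc53370.shift 1 2), (rh6045821871482010.shift 2 0), (rh61059692574bb803.shift 1 0), (rh6a99014ce63c1bed.shift 1 2), (rh9657c4e9de9e592c.shift 1 0), (rhc78f887c66795e5a.shift 1 3), (rhd75e5f3a38258c04.shift 1 0)] (by decide +kernel))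
noncomputable def rh07553a4b284b79b6 : CRef := CRef.mk (Pat.mk 0x280000002000000000000000000000000000000000 0x700000007c0000007e0000007f0000003e0000003000000070000000700000007000000010 8 7) 0 0 (step_sound _ 197 [(rh0f523df9583efd76.shift 0 3), (rh131b19269d79d13d.shift 2 1), (rh475f9c2c1aba2bb1.shift 2 0), (rh62a5264c40f98dc4.shift 4 1), (rh7288561654f7bdf6.shift 2 0), (rhf3464aed381aaf11.shift 1 2), (rhfc3b104d482890f4.shift 4 1)] (by decide +kernel))
noncomputable def rh8f11d54f9ff5b53a : CRef := CRef.mk (Pat.mk 0x140000001000000000000000000000000000000000 0x100000003800000038000000380000001c000000fc000000ff0000007e0000003f00000028 8 8) 0 0 (step_sound _ 100 [(rh26ebbfb0cc6b103d.shift 3 1), (rh4692eec48c60ad82.shift 3 0), rh65f26d0c8df040dd, (rh899ccf8276af9d97.shift 3 1), (rh9865b7dd8cc00fe1.shift 3 0), (rhac14b6688e321b96.shift 3 1), (rhdd46b5f0ec7c0c52.shift 2 2), (rhe3fd27eeaee630c5.shift 3 1), (rhf6cc02344f68e7ab.shift 3 1)] (by decide +kernel))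
noncomputable def rh6ad2f743b5367586 : CRef := CRef.mk (Pat.mk 0xa0000000800000000000000000000000000000000000000000 0x5000000170000001f0000003fc000001fc000000bf000007fe00000ffe000003fc000001f0000001f000000040 8 12) 0 0 (step_sound _ 165 [(rh11ca0a5835e50783.shift 2 2), (rh26788f4d5e86a140.shift 2 2), (rh5fc189ca6e8e0fa4.shift 2 0), (rh6915951241de8e98.shift 1 2), (rh6efb738a61011c43.shift 2 1), (rh6ff752692192a7b0.shift 2 1), (rha9176e8bd3bf4bff.shift 2 1), (rhbd96504c5ebda190.shift 2 0), (rhc4dd8f9c326352dc.shift 2 2), (rhc51a013d4f425f25.shift 2 0), rhdf7a3a044de904fe] (by decide +kernel))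
noncomputable def rh5e68014f7b14be65 : CRef := CRef.mk (Pat.mk 0x2000000028000000000000000000000000 0xa0000007e000000fe000001ff0000003e0000007f0000003c0000003c 8 9) 0 0 (step_sound _ 100 [rh7442f19178168c4a, (rh8a4f0c66cbe6111f.shift 1 0), (rhff7d63dcb3cf9f74.shift 2 3)] (by decide +kernel))
noncomputable def rh85c61610de0e8dfb : CRef := CRef.mk (Pat.mk 0x2000000028000000000000000000000000 0x50000000700000007a0000006e000001fe000001ff0000003e0000007f0000007c0000007c 8 9) 0 0 (step_sound _ 100 [rh7442f19178168c4a, (rha5d0bef1ab6512e7.shift 2 0), (rhff7d63dcb3cf9f74.shift 2 3)] (by decide +kernel))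
noncomputable def rhe298992b6c8bae46 : CRef := CRef.mk (Pat.mk 0x2000000028000000000000000000000000 0x140000001e0000007e0000007e0000007f0000003f0000006f0000002e0000000c 8 7) 0 0 (step_sound _ 98 [rh170eaefe6fff8440, (rh4acbe7133cd1d231.shift 0 2), (rhe7a687206514a34a.shift 0 2), (rhf23afd36518b851a.shift 1 0), rhf5e66af53bdc2c6b] (by decide +kernel))
noncomputable def rhd77c2d7e8e80da50 : CRef := CRef.mk (Pat.mk 0x200000002800000000000000000000000000000000 0x1000000070000000740000006c000001fc0000003f0000007c0000007c0000007c00000054 8 9) 0 0 (step_sound _ 101 [(rh300a67a763d4303b.shift 2 2), (rh6647737950e70d20.shift 4 0), rh897d82a5901fb2a2, (rhc517be391ab17685.shift 1 1), rhd4b39f26cd68f88a] (by decide +kernel))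
noncomputable def rh15c8e4fad36f2726 : CRef := CRef.mk (Pat.mk 0x200000002800000000000000000000000000000000 0x140000001e0000001e0000001f0000007e0000003f0000007f0000001c0000001c00000014 8 7) 0 0 (step_sound _ 130 [(rh2f68fb68062f97ae.shift 1 3), rh3a566e2c1ba9c096, (rh86ac9ffe48a676c5.shift 0 1), (rhd19bdf9ae8463a32.shift 0 3), (rhe7a687206514a34a.shift 0 3), (rhf23afd36518b851a.shift 1 1)] (by decide +kernel))
noncomputable def rh6f16a83cc614c31e : CRef := CRef.mk (Pat.mk 0x2000000028000000000000000000000000 0x500000007a000003ff000000fe000001ef0000003e0000007f0000007c0000005c 8 10) 0 0 (step_sound _ 100 [rh2a3e67fe5f7a8c01, (rh46f4e32c661b103a.shift 0 2), rh7442f19178168c4a, (rhb12ffaec36122c99.shift 0 2)] (by decide +kernel))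
noncomputable def rh0620ed0beb664516 : CRef := CRef.mk (Pat.mk 0x200000002800000000000000000000000000000000 0x10000000700000007000000070000000300000003e000000780000007e0000007f00000050 8 7) 0 0 (step_sound _ 101 [rh04f7ded0fefc3563, (rh10c7cc436d962ab8.shift 4 1), (rh13dc8681036f6cec.shift 2 1), (rh3c4c314c6e13bd78.shift 4 0), (rh4b32f70f066e2c2c.shift 4 1), (rh515ccbe73c543f8d.shift 2 2), (rhc517be391ab17685.shift 1 1), (rhfe0f7a41f89f765a.shift 1 1)] (by decide +kernel))
noncomputable def rh2ddd81af501565c4 : CRef := CRef.mk (Pat.mk 0x1000000014000000000000000000000000 0x280000003f0000007e000000ff000000fe0000001c000000380000003800000028 8 8) 0 0 (step_sound _ 164 [(rh05c31f1ad2fe6ae8.shift 0 2), (rh1359922a99d3d421.shift 3 1), (rh38b09ef385272d31.shift 3 0), (rh659eb6aa1e5d49ed.shift 3 0), (rh7863e25d1d742d32.shift 3 1), (rh8b37cb65627f8d57.shift 3 0), (rhca4d5fc3d95c8c8e.shift 3 0), (rhd602531bc21af256.shift 1 0)] (by decide +kernel))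
noncomputable def rhf81707b4094cbfd3 : CRef := CRef.mk (Pat.mk 0x80000000a00000000000000000000000000000000000000000 0x40000001f0000001f0000001fc000007fe000007fe00000ebf000001f8000003fc000001f00000017000000040 8 12) 0 0 (step_sound _ 197 [(rh10bfcc9782bcb713.shift 1 3), (rh16010ae752ca89fa.shift 2 1), (rh1c9f098aba83c7eb.shift 2 2), (rh3ba193a4622988fb.shift 2 2), (rh56b912d448a732f3.shift 2 2), (rh5859e92ffea2de2c.shift 2 1), (rh68b99a8a14a634e3.shift 2 1), (rh7e9b475ca71f914a.shift 2 3), (rha9d599297f41c94c.shift 2 2), (rhbdf1032edc5ac5b4.shift 0 2), (rhdaea7481c182fe38.shift 2 0)] (by decide +kernel))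
noncomputable def rh761cf4ce2245405e : CRef := CRef.mk (Pat.mk 0x80000000a00000000000000000000000000000000 0x40000001c0000001c0000001c0000000c0000000f0000007f0000001f0000001c00000014 8 7) 0 0 (step_sound _ 99 [rh1c033f79a264d6b2, (rh7cde007d2907bcbe.shift 0 2), (rh9c611607b5bbe761.shift 0 1), (rhdc70b51116888437.shift 0 1), (rheac7100a97901a45.shift 2 1), (rhf237fec569adc1e2.shift 2 1), (rhff3384473648fcb0.shift 2 0)] (by decide +kernel))
noncomputable def rhe422b27de20ff3bf : CRef := CRef.mk (Pat.mk 0x400000005000000000000000000000000000000000 0x20000000380000003800000078000007fe000007ff0000077f0000003e0000003c0000003c0000002c 8 11) 0 0 (step_sound _ 164 [(rh35c58704c7e3f344.shift 1 1), (rh48e89ce31b39c8c3.shift 1 1), (rh4e9d818454e572c5.shift 1 2), (rh5fc433df4edd2d99.shift 2 1), (rh94990d2df97199fe.shift 1 2), (rh9da3b226075103c0.shift 1 0), rha9053045bcb0d4af, (rhbed05b9d2036dda1.shift 1 1), (rhc815848d08250cb6.shift 1 1)] (by decide +kernel))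
noncomputable def rh32a977fed49c0735 : CRef := CRef.mk (Pat.mk 0x80000000a00000000000000000000000000000000000000000 0x40000001f0000001f0000003f8000007fe000007fe00000ebf000003f0000001fc000001f00000017000000070 8 12) 0 0 (step_sound _ 197 [(rh10bfcc9782bcb713.shift 1 3), (rh16010ae752ca89fa.shift 2 1), (rh1c9f098aba83c7eb.shift 2 2), (rh3ba193a4622988fb.shift 2 2), (rh404fe2afd43e0e99.shift 2 1), (rh5478ffebc6a68727.shift 2 2), (rh7e9b475ca71f914a.shift 2 3), (rh9a695cd9e03e4f2c.shift 2 0), (rh9d0ae57aae036793.shift 0 2), (rha9d599297f41c94c.shift 2 2), (rhab47c762cf8d2ac1.shift 3 1)] (by decide +kernel))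
noncomputable def rh7c8ff4c7c383c4cf : CRef := CRef.mk (Pat.mk 0x28000000200000000000000000000000000000000000000000 0x20000000e0000005e0000007e000000ff0000003e000001ff000000ec0000007c000000700000007000000070 8 9) 0 0 (step_sound _ 196 [(rh14c37aae52e6973f.shift 2 0), (rh7472882c232e68b6.shift 0 3), (rhc21a95c499b3efdb.shift 2 5)] (by decide +kernel))
noncomputable def rh5563f4715f527796 : CRef := CRef.mk (Pat.mk 0x50000000400000000000000000000000000000000000000000 0x380000003c0000003e0000077f000007ff000007fe000000fc000000fc0000007800000020 8 11) 0 0 (step_sound _ 164 [(rh5fe94d816f8ade8b.shift 1 2), (rh61059692574bb803.shift 1 0), (rh7ff2fcb04e113733.shift 1 2), (rh8115e28e85126967.shift 1 2), (rhabf2654f302590d0.shift 1 1), (rhc78f887c66795e5a.shift 1 3), (rhe1bead3c6a8aa02a.shift 0 2), (rhe54fdcebcdc07f48.shift 1 0), (rhf796f23d57c39ac7.shift 2 1)] (by decide +kernel))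
noncomputable def rh0fb16c8f3bb870a5 : CRef := CRef.mk (Pat.mk 0xa0000000800000000000000000000000000000000 0x140000001e0000001f0000007e0000000e0000007e0000007e0000001c0000001c00000014 8 7) 0 0 (step_sound _ 195 [(rh539ce969cf073af4.shift 2 0), (rh9935e6d90e5bde1c.shift 0 3), (rhaef13a1c72d4db39.shift 2 2), (rhc5c5b88722b9bb4a.shift 2 2), (rhd091826498b1b626.shift 2 2), (rhd30abbb3f01d7a99.shift 1 1), (rheac7100a97901a45.shift 2 2)] (by decide +kernel))
noncomputable def rhc73b146d81172a80 : CRef := CRef.mk (Pat.mk 0xa0000000800000000000000000000000000000000000000000 0x5000000170000001f0000003fc000003fc000000bf000007fe00000ffe000001f8000001f0000001f000000040 8 12) 0 0 (step_sound _ 165 [(rh012a9907b01ec64c.shift 2 2), (rh1cbeb98d022c59ac.shift 2 2), (rh26788f4d5e86a140.shift 2 2), (rh36b2afc14b11904f.shift 2 2), (rh4d1bc2efa5fb9a7a.shift 2 1), (rh5fc189ca6e8e0fa4.shift 2 0), (rh6915951241de8e98.shift 1 2), (rh91540058ec6eb5c7.shift 2 1), (rhbbdc3017ce56141f.shift 2 1), (rhc51a013d4f425f25.shift 2 0), rhdf7a3a044de904fe]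 (by decide +kernel))
noncomputable def rh99591b92a14a7a53 : CRef := CRef.mk (Pat.mk 0x28000000200000000000000000 0x380000007c000000ff0000003e000001ff000000fe0000006e 8 9) 0 0 (step_sound _ 100 [(rh3918eeb6c53434d8.shift 0 2), rh3ee8aebf0424abab, (rhc21a95c499b3efdb.shift 2 2), (rhe6a81feb013da0e6.shift 3 0)] (by decide +kernel))
noncomputable def rh25642818773794d8 : CRef := CRef.mk (Pat.mk 0x280000002000000000000000000000000000000000 0x140000001c0000003c0000007f0000003f0000007f0000001f0000001e0000001c00000014 8 7) 0 0 (step_sound _ 162 [(rh8c2bcbc84662fd1d.shift 0 2), (rhb04145dc3da226a5.shift 1 2), rhb2cf4c008032f1ac, (rhb34a67f8847d128f.shift 0 4), (rhbf5d9e90d56c2a5f.shift 0 4), (rheb38467d669bf196.shift 1 2)] (by decide +kernel))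
noncomputable def rhc6ce3796c38f7aa5 : CRef := CRef.mk (Pat.mk 0x50000000400000000000000000000000000000000000000000 0x8000000380000003c0000003e0000077f000007ff000007fe0000007c0000007c0000003800000020 8 11) 0 0 (step_sound _ 164 [(rh1d9c64df42580f2e.shift 1 2), (rh491fe0e8c7f7f231.shift 1 0), (rh61059692574bb803.shift 1 0), (rh6c6cc136f2e509e9.shift 1 1), (rh7ff2fcb04e113733.shift 1 2), (rh8115e28e85126967.shift 1 2), (rh915ca10bbbb8551d.shift 2 1), (rhc78f887c66795e5a.shift 1 3), (rhe1bead3c6a8aa02a.shift 0 2)] (by decide +kernel))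
noncomputable def rhba1d4bc84a18ebd7 : CRef := CRef.mk (Pat.mk 0x140000001000000000000000000000000000000000 0x8000000380000007e000000fe0000001f0000001800000038000000380000003800000008 8 8) 0 0 (step_sound _ 196 [(rh009c9b15fa4b9024.shift 0 3), (rh32ad54c58f7d3594.shift 1 0), (rh5c84380a1a981cd8.shift 1 1), (rh626ee3212f808fc7.shift 1 0), (rha58607731c8b4809.shift 3 1), (rhdae0f9eaff3e1309.shift 1 1), (rhf6b2c04c066fb67a.shift 1 0), (rhff363d8c8c4d7478.shift 3 1)] (by decide +kernel))
noncomputable def rh99acd7873b43df2d : CRef := CRef.mk (Pat.mk 0xa0000000800000000000000000000000000000000000000000 0x500000007000000170000003fc000003fc000000bf000007fe00000ffe000003f8000001f0000001f000000040 8 12) 0 0 (step_sound _ 165 [(rh1cbeb98d022c59ac.shift 2 2), (rh26788f4d5e86a140.shift 2 2), (rh36b2afc14b11904f.shift 2 2), (rh5fc189ca6e8e0fa4.shift 2 0), (rh6915951241de8e98.shift 1 2), (rh6efb738a61011c43.shift 2 1), (rh91edc51702eae57d.shift 2 2), (rh9f944bd2965c9943.shift 2 1), (rhb40025c0a0622650.shift 2 1), (rhc51a013d4f425f25.shift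 2 0), rhdf7a3a044de904fe] (by decide +kernel))
noncomputable def rh2d691ab8f8ceddb4 : CRef := CRef.mk (Pat.mk 0x1e00000000000000000000000000000000 0x8000000180000003b0000001e00000038000000380000003800000028 8 6) 0 0 (step_sound _ 164 [(rh33e738c4ed385b9f.shift 1 4), rhf04e9d39f9bfb88b] (by decide +kernel))
noncomputable def rhe0619f5fa1f9aed9 : CRef := CRef.mk (Pat.mk 0x1e00000000000000000000000000000000 0x8000000380000001e0000003f0000003c0000003800000028 8 6) 0 0 (step_sound _ 100 [rh14bd0aceb59108a4, (rhe25b0a99195a5d59.shift 1 3)] (by decide +kernel))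
noncomputable def rhd1cf39858fe3af7b : CRef := CRef.mk (Pat.mk 0x1e000000000000000000000000 0x120000003b0000003f0000001e0000003c0000001c00000010 8 6) 0 0 (step_sound _ 68 [(rhe25b0a99195a5d59.shift 1 2), rhebedb64fb62a6b73] (by decide +kernel))
noncomputable def rh6cb5b1f5357060f4 : CRef := CRef.mk (Pat.mk 0x1800000008000000000000000000000000 0x80000003c000000fc000000ff0000001f000000fc000000f80000003800000010 8 8) 0 0 (step_sound _ 164 [(rh2b67c1a1a0e1efba.shift 2 0), (rh4e1c882d71feba6f.shift 0 1), (rhcf80391c5046a495.shift 3 1), (rhf91b1398c815afd2.shift 3 1), (rhf9366b6a121593ef.shift 3 1)] (by decide +kernel))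
noncomputable def rh8cdffccdf52edd4a : CRef := CRef.mk (Pat.mk 0x1800000008000000000000000000000000 0x80000003800000038000000380000001c000000fe000000ff0000007c00000010 8 8) 0 0 (step_sound _ 164 [(rh1d7ab9899aa9d0bf.shift 0 1), (rh2b67c1a1a0e1efba.shift 2 0), (rhcf80391c5046a495.shift 3 1), (rhf91b1398c815afd2.shift 3 1), (rhf9366b6a121593ef.shift 3 1)] (by decide +kernel))
noncomputable def rhc4882303b48a7840 : CRef := CRef.mk (Pat.mk 0x18000000080000000000000000 0xc0000003e000000fe000000ff0000001f000000fc0000002c0000000c 8 8) 0 0 (step_sound _ 132 [rh7d723ac1a3ee2535, (rhc151eef0a59574d4.shift 1 1), (rhcf80391c5046a495.shift 3 0), (rhf91b1398c815afd2.shift 3 0), (rhf9366b6a121593ef.shift 3 0)] (by decide +kernel))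
noncomputable def rh7bcc05569e3e38c1 : CRef := CRef.mk (Pat.mk 0x580000000800000000000000000000000000000000 0xf4000000ff0000005f000001ff000000ff000001fc0000001c00000014 8 9) 0 0 (step_sound _ 99 [(rhc63fa028d761844f.shift 0 2), (rhe3458ab40071103b.shift 3 2), (rhf849c8472bff4b9d.shift 2 0), (rhfa50cc73c689e7d7.shift 2 0)] (by decide +kernel))
noncomputable def rha29f458662cad2e8 : CRef := CRef.mk (Pat.mk 0x580000000800000000000000000000000000000000 0x40000000c0000005c0000005c000001ff000000ff000001fc0000001c00000014 8 9) 0 0 (step_sound _ 99 [(rh15590a39afd9a120.shift 2 0), (rhead9f51983546adf.shift 0 2), (rhf849c8472bff4b9d.shift 2 0), (rhffb8e5993241bf15.shift 2 0)] (by decide +kernel))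
noncomputable def rh04f5aa63926d81f5 : CRef := CRef.mk (Pat.mk 0x1800000008000000000000000000000000 0x30000000fc000000ff0000001f000000f80000003f0000001c00000010 8 8) 0 0 (step_sound _ 164 [(rh0e4de6d41b84ddc2.shift 0 1), (rh2b67c1a1a0e1efba.shift 2 0), (rhcf80391c5046a495.shift 3 1), (rhf91b1398c815afd2.shift 3 1), (rhf9366b6a121593ef.shift 3 1)] (by decide +kernel))
noncomputable def rhaf9aaf542ec8939a : CRef := CRef.mk (Pat.mk 0x5800000008000000000000000000000000 0x3e0000003e000000f70000005f000000ff000001ff0000003f0000003e 8 9) 0 0 (step_sound _ 100 [rh0f9c9a617a2afb2d, (rh1d5d962df521aa98.shift 2 0), rh6dcf874ae63bf743, rhb159070662f3df95, (rhc5b8a4fd40c8b18f.shift 2 0), rhdf5750bf31eb091d] (by decide +kernel))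
noncomputable def rhcdbaa1f624fb0f1f : CRef := CRef.mk (Pat.mk 0x180000000800000000000000000000000000000000 0x14000000fc000000ff0000001f0000000c0000001c0000001c0000001c00000014 8 8) 0 0 (step_sound _ 99 [(rh020140c103c93fec.shift 2 0), (rh42581c5f9dc20701.shift 0 2), (rh947561ae8c5c3f87.shift 2 1), (rhb8c18aeece372d98.shift 2 0), (rhf849c8472bff4b9d.shift 2 0), (rhffb8e5993241bf15.shift 2 0)] (by decide +kernel))
noncomputable def rhdb931ac79e2298a5 : CRef := CRef.mk (Pat.mk 0x5800000008000000000000000000000000 0x140000001c0000003c0000004f0000005f000001ff000000ff000001fc0000001c 8 9) 0 0 (step_sound _ 163 [rh0d790ee08af088b3, (rh5326b160420f0573.shift 2 0), (rh5672f6936a3d36d4.shift 0 1), rh627d570d541a9d97, (rh6bf66c1a8fb23f9f.shift 2 1), (rhc6883ffbcf192217.shift 0 2), (rhdb9dc36888886841.shift 0 2), (rhff363d8c8c4d7478.shift 2 0)] (by decide +kernel))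
noncomputable def rhe361a7b98a0e0809 : CRef := CRef.mk (Pat.mk 0x580000000800000000000000000000000000000000 0x380000003b0000007f0000005f000000ff000001f7000000360000003600000020 8 9) 0 0 (step_sound _ 132 [(rh1643904ba7964336.shift 1 0), (rh57b34b9423012fc8.shift 1 1), (rh685cec34c7450d5f.shift 0 1), (rh8e683bd0fb707dca.shift 0 1), (rha41d429ce4a0acfc.shift 2 1), (rhdf5750bf31eb091d.shift 0 1)] (by decide +kernel))
noncomputable def rh625471d836e77ca0 : CRef := CRef.mk (Pat.mk 0x1e00000000000000000000000000000000 0x8000000180000003b0000001e00000038000000380000003800000028 8 6) 0 0 (step_sound _ 100 [rh2d8504601de16c77, (rhe25b0a99195a5d59.shift 1 3)] (by decide +kernel))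
noncomputable def rh099035937be8edce : CRef := CRef.mk (Pat.mk 0xc0000000400000000000000000000000000000000 0x20000003e0000003e0000000f0000000e0000000e0000000e0000000e0000000a 8 6) 0 0 (step_sound _ 98 [(rhde285f1994ae98b9.shift 0 2), (rhe3458ab40071103b.shift 2 2), (rhf849c8472bff4b9d.shift 1 0), (rhfa50cc73c689e7d7.shift 1 0)] (by decide +kernel))
noncomputable def rhab958c43f51102c8 : CRef := CRef.mk (Pat.mk 0x1800000008000000000000000000000000 0x80000003c0000007c0000007c0000001f000000fc000000f80000003800000010 8 8) 0 0 (step_sound _ 164 [(rh2b67c1a1a0e1efba.shift 2 0), (rhcf80391c5046a495.shift 3 1), (rhdae06fde5e723b01.shift 0 1), (rhf91b1398c815afd2.shift 3 1), (rhf9366b6a121593ef.shift 3 1)] (by decide +kernel))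
noncomputable def rh860c12e43b88747d : CRef := CRef.mk (Pat.mk 0x580000000800000000000000000000000000000000 0x3000000030000000f80000005e000000ff000000fe000001ff0000001400000014 8 9) 0 0 (step_sound _ 196 [(rh2b67c1a1a0e1efba.shift 2 1), rh3285e3c7f0fbb095, (rhcf80391c5046a495.shift 3 2), (rhf91b1398c815afd2.shift 3 2), (rhf9366b6a121593ef.shift 3 2)] (by decide +kernel))
noncomputable def rh14f774fae695f490 : CRef := CRef.mk (Pat.mk 0x3000000010000000000000000000000000 0x100000007c0000007e000000fe0000003e000001ff0000005e0000001c00000004 8 9) 0 0 (step_sound _ 165 [rh6161726c86cb180a, (rhc151eef0a59574d4.shift 2 2), (rhcf80391c5046a495.shift 4 1), (rhf91b1398c815afd2.shift 4 1), (rhf9366b6a121593ef.shift 4 1)] (by decide +kernel))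
noncomputable def rh30de1fef1b2f4bc2 : CRef := CRef.mk (Pat.mk 0x580000000800000000000000000000000000000000 0x1000000034000000fc0000005e000000df000000fe000001ff0000001c00000014 8 9) 0 0 (step_sound _ 99 [rhc46b24a82493f781, (rhe3458ab40071103b.shift 3 2), (rhf849c8472bff4b9d.shift 2 0), (rhfa50cc73c689e7d7.shift 2 0)] (by decide +kernel))
noncomputable def rhb770c6fea70dc274 : CRef := CRef.mk (Pat.mk 0x1800000008000000000000000000000000 0x80000003c0000007c000000ff0000001f000000f80000003f0000001c00000010 8 8) 0 0 (step_sound _ 164 [(rh2b67c1a1a0e1efba.shift 2 0), (rh8f3287dda5d0a8a8.shift 0 1), (rhcf80391c5046a495.shift 3 1), (rhf91b1398c815afd2.shift 3 1), (rhf9366b6a121593ef.shift 3 1)] (by decide +kernel))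
noncomputable def rh4c6a9fd8f10832d0 : CRef := CRef.mk (Pat.mk 0x180000000800000000000000000000000000000000 0x140000001e0000003f0000001f0000000e0000007c0000001c0000001c00000014 8 7) 0 0 (step_sound _ 99 [(rh020140c103c93fec.shift 2 0), (rh109059d5f9c130dd.shift 0 2), (rh947561ae8c5c3f87.shift 2 1), (rhb8c18aeece372d98.shift 2 0), (rhf849c8472bff4b9d.shift 2 0), (rhffb8e5993241bf15.shift 2 0)] (by decide +kernel))
noncomputable def rhd9365101e31fb89b : CRef := CRef.mk (Pat.mk 0x1e00000000000000000000000000000000 0x100000001f0000001f0000003c000000f80000003800000018 8 8) 0 0 (step_sound _ 100 [rh1d5fdee702f63a75, (rhe25b0a99195a5d59.shift 1 3)] (by decide +kernel))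
noncomputable def rh0981b8ba934ea09e : CRef := CRef.mk (Pat.mk 0x580000000000000000000000000000000000000000 0x10000000380000007f0000007e000000fc0000005c0000005c0000001c00000014 8 8) 0 0 (step_sound _ 165 [(rh2ba551de881ca4cd.shift 1 4), (rh3a4c2fa90903ce01.shift 2 2), (rh815aadcb229aa79f.shift 0 4), (rhc771cebdf788c766.shift 2 0)] (by decide +kernel))
noncomputable def rha0b223f75e655682 : CRef := CRef.mk (Pat.mk 0xf0000000000000000000000000 0x5000000050000000fe000000fe000001b7000000a0000000a0 8 9) 0 0 (step_sound _ 71 [rh309f1329b531e49b, (rhe25b0a99195a5d59.shift 4 2)] (by decide +kernel))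
noncomputable def rhe7a917bc81751aab : CRef := CRef.mk (Pat.mk 0xf0000000000000000000000000 0x4000000040000000e7000000fe000001bf0000008000000080 8 9) 0 0 (step_sound _ 71 [rh8a5dc7734b674e42, (rhe25b0a99195a5d59.shift 4 2)] (by decide +kernel))
noncomputable def rhe75bad2115358ade : CRef := CRef.mk (Pat.mk 0x1e0000000000000000000000000000000000000000 0x50000000700000007000000030000001e0000003f00000007000000070000000700000004 8 6) 0 0 (step_sound _ 193 [(rh3244c3cc8379b070.shift 0 5), rh77b91b76f7d32985] (by decide +kernel))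
noncomputable def rha1c345ccdc6e43e7 : CRef := CRef.mk (Pat.mk 0x1e0000000000000000000000000000000000000000 0x40000001c0000001c0000001e0000003f0000003f0000003f0000001f00000005 8 6) 0 0 (step_sound _ 129 [rh23852c8aeb7a4884, (rheb0810cc63b001d8.shift 0 4)] (by decide +kernel))
noncomputable def rh8e226990f41c2b8b : CRef := CRef.mk (Pat.mk 0xf000000000 0xe7000000fe000001c7 8 9) 0 0 (step_sound _ 7 [rh524ce8eb90f433da, (rhe25b0a99195a5d59.shift 4 0)] (by decide +kernel))
noncomputable def rh222437426eac50e7 : CRef := CRef.mk (Pat.mk 0x1e0000000000000000000000000000000000000000 0xa0000000a0000001f0000001e0000003e000000fc000000fe0000003800000028 8 8) 0 0 (step_sound _ 132 [rhd63ec354cac642dd, (rhe25b0a99195a5d59.shift 1 4)] (by decide +kernel))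
noncomputable def rh82d55c655b5bb88a : CRef := CRef.mk (Pat.mk 0xf000000000 0xfc000000fe00000077 8 8) 0 0 (step_sound _ 67 [(rh3f8766e6ecb455ce.shift 3 1), rhf04c12b35017bcec] (by decide +kernel))
noncomputable def rh54807c1f2ce61255 : CRef := CRef.mk (Pat.mk 0x1e00000000000000000000000000000000 0x4000000070000000700000007000000070000001e00000033000000070000000700000005 8 6) 0 0 (step_sound _ 97 [rh0a139082289b9951, (rheb0810cc63b001d8.shift 0 3)] (by decide +kernel))
noncomputable def rh8a8fd2d787bee71a : CRef := CRef.mk (Pat.mk 0x16000000020000000000000000 0x20000000b0000000f0000001f0000001e0000003f0000001200000012 8 6) 0 0 (step_sound _ 99 [rhc525c7133ef95ec4, (rheb0810cc63b001d8.shift 0 2)] (by decide +kernel))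
noncomputable def rh381ed0e90c9fcfcf : CRef := CRef.mk (Pat.mk 0x1600000002000000000000000000000000 0xa0000000a0000001f0000001e0000003f0000003f0000001700000012 8 6) 0 0 (step_sound _ 131 [rhb3bf1b0da86d5490, (rheb0810cc63b001d8.shift 0 3)] (by decide +kernel))
noncomputable def rh8b1334d97495445e : CRef := CRef.mk (Pat.mk 0x1600000002000000000000000000000000 0x4000000070000000700000007000000070000001e00000033000000070000000700000005 8 6) 0 0 (step_sound _ 131 [rh0a139082289b9951, (rheb0810cc63b001d8.shift 0 3)] (by decide +kernel))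
noncomputable def rh51810c863b56635c : CRef := CRef.mk (Pat.mk 0x160000000200000000000000000000000000000000 0x50000000700000007000000030000001e0000003f00000007000000070000000700000004 8 6) 0 0 (step_sound _ 163 [rh9b348384fe8e0252, (rheb0810cc63b001d8.shift 0 4)] (by decide +kernel))
noncomputable def rh0aceda9de19faf60 : CRef := CRef.mk (Pat.mk 0x1600000002000000000000000000000000 0xe0000000e0000001f0000001e0000003f0000003c0000001c00000018 8 6) 0 0 (step_sound _ 131 [rh62a72fd8b0f354d4, (rheb0810cc63b001d8.shift 0 3)] (by decide +kernel))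
noncomputable def rh61ebb077456cf6ef : CRef := CRef.mk (Pat.mk 0x5800000008000000000000000000000000 0x3000000030000000320000007b0000003f0000007f0000001c0000001c 8 7) 0 0 (step_sound _ 98 [(rh361cc68994bd8a63.shift 2 3), rhba6263367bbeede4] (by decide +kernel))
noncomputable def rh8fe9791f8a64546a : CRef := CRef.mk (Pat.mk 0x5800000008000000000000000000000000 0x140000001c0000003c0000001f00000078000000180000001c0000001c0000001c 8 7) 0 0 (step_sound _ 163 [(rh4d6a2612ebfeb13d.shift 2 0), (rh5326b160420f0573.shift 2 0), (rhdf2327c61a1fee6c.shift 0 2), (rhf330b95805dc6d21.shift 2 1)] (by decide +kernel))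
noncomputable def rh16d72ec685797d2b : CRef := CRef.mk (Pat.mk 0x1e0000000000000000000000000000000000000000 0x40000001c0000001c0000001e0000003f0000003f0000003f0000001f00000005 8 6) 0 0 (step_sound _ 132 [rh94ccf46acaf78b76, (rhe25b0a99195a5d59.shift 1 4)] (by decide +kernel))
noncomputable def rheb42bc5c4734443c : CRef := CRef.mk (Pat.mk 0x38000000000000000000000000 0xa0000000e0000000e0000007f0000003e0000006f0000000c0000000c 8 7) 0 0 (step_sound _ 98 [(rh2cc7d62e70c02209.shift 0 2), (rhc37ac25399000c0e.shift 0 2), (rhd006db0d9f9b2ec7.shift 1 0), (rhd75855c0840bf9dc.shift 0 2)] (by decide +kernel))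
noncomputable def rhff23b07f61b88c28 : CRef := CRef.mk (Pat.mk 0x1800000008000000000000000000000000 0x80000003c0000007c0000007c0000001f000000fc000000f80000003800000010 8 8) 0 0 (step_sound _ 164 [(rh2b67c1a1a0e1efba.shift 2 0), (rhcf80391c5046a495.shift 3 1), (rhf477a6ada83e4caf.shift 0 1), (rhf91b1398c815afd2.shift 3 1), (rhf9366b6a121593ef.shift 3 1)] (by decide +kernel))
noncomputable def rhc9cd7c4debe22673 : CRef := CRef.mk (Pat.mk 0x1800000008000000000000000000000000 0x1800000038000000780000001f000000ff000001ff0000003e0000003e 8 9) 0 0 (step_sound _ 100 [rh4add7137d8b1711a, (rha41d429ce4a0acfc.shift 2 0), (rhb7dd6a92319221c6.shift 1 0), rhdd2314dd178bca80, (rhf167e9f78adeab0a.shift 1 0), rhf88592f6bfce44e9] (by decide +kernel))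
noncomputable def rh8449baef85bb144a : CRef := CRef.mk (Pat.mk 0x5800000008000000000000000000000000 0x3c0000007e0000007f0000005f000000ff000000ff0000002c00000020 8 8) 0 0 (step_sound _ 164 [rh0542ec94efc2edf8, (rh3dec19aca33a5759.shift 1 2), (rhf91b1398c815afd2.shift 3 1), (rhf9366b6a121593ef.shift 3 1)] (by decide +kernel))
noncomputable def rh910da9ac61ced992 : CRef := CRef.mk (Pat.mk 0x300000001000000000000000000000000000000000 0x380000003e0000007f0000003e0000007f0000001e0000003c0000003c00000028 8 7) 0 0 (step_sound _ 100 [(rh0f5b52d4c767672f.shift 3 0), (rh5b4bdcaa085f109f.shift 0 1), (rhe3458ab40071103b.shift 4 2), (rhf849c8472bff4b9d.shift 3 0)] (by decide +kernel))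
noncomputable def rh742081d69b281d06 : CRef := CRef.mk (Pat.mk 0xc0000000400000000000000000000000000000000 0x40000000e0000003e0000003e0000000f0000000c0000000e0000000e0000000e0000000a 8 6) 0 0 (step_sound _ 98 [(rh89757a3902916916.shift 0 2), (rhe3458ab40071103b.shift 2 2), (rhfa50cc73c689e7d7.shift 1 0), (rhffb8e5993241bf15.shift 1 0)] (by decide +kernel))
noncomputable def rh6e8fdc60dd88f593 : CRef := CRef.mk (Pat.mk 0x5800000008000000000000000000000000 0x3600000036000000770000005f000000ff000001ff0000003f0000003e 8 9) 0 0 (step_sound _ 100 [rh0f9c9a617a2afb2d, (rh1d5d962df521aa98.shift 2 0), rh6dcf874ae63bf743, rhb159070662f3df95, (rhdb70e0edf4b7e7f8.shift 2 0), rhdf5750bf31eb091d] (by decide +kernel))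
noncomputable def rh69109ec7d2e7c34b : CRef := CRef.mk (Pat.mk 0x3c000000000000000000000000 0x4000000040000000e0000003f0000003f0000000800000008 8 6) 0 0 (step_sound _ 65 [rh01fb0fc1b6a5c2af, (rh80fcd6d0a18cb2dd.shift 1 2)] (by decide +kernel))
noncomputable def rh109390ad9621a737 : CRef := CRef.mk (Pat.mk 0x78000000000000000000000000 0xe70000007e0000007c0000002000000020 8 8) 0 0 (step_sound _ 66 [(rh80fcd6d0a18cb2dd.shift 2 2), rh944e0f84545fef3d] (by decide +kernel))
noncomputable def rh411c2ef75942b27e : CRef := CRef.mk (Pat.mk 0xf0000000000000000000000000 0xa0000000a0000001b7000000fe000000ff0000005000000050 8 9) 0 0 (step_sound _ 135 [rh15fb32295bc8f5c6, (rh33e738c4ed385b9f.shift 4 3)] (by decide +kernel))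
noncomputable def rha9e52ce667426466 : CRef := CRef.mk (Pat.mk 0xf0000000000000000000000000 0x8000000080000001bf000000fe000000e70000004000000040 8 9) 0 0 (step_sound _ 135 [(rh33e738c4ed385b9f.shift 4 3), rhf735874bf21816e6] (by decide +kernel))
noncomputable def rhf8e170477bbe038d : CRef := CRef.mk (Pat.mk 0x1e00000000000000000000000000000000 0x40000000700000007000000070000003f0000001e00000003000000070000000700000005 8 6) 0 0 (step_sound _ 164 [(rh33e738c4ed385b9f.shift 1 4), rh5d131ef80042436e] (by decide +kernel))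
noncomputable def rh3055900a7dba823a : CRef := CRef.mk (Pat.mk 0x780000000000000000000000000000000000000000 0x5000000050000000f8000000780000007c0000003f0000007f0000001c00000014 8 8) 0 0 (step_sound _ 131 [rhd6beaedf50a9b3d5, (rheb0810cc63b001d8.shift 2 4)] (by decide +kernel))
noncomputable def rh822486abf6086842 : CRef := CRef.mk (Pat.mk 0xf000000000 0x77000000fe000000fc 8 8) 0 0 (step_sound _ 3 [(rh80fcd6d0a18cb2dd.shift 3 0), rhe2198c1fd24dd5d5] (by decide +kernel))
noncomputable def rh578b1e3d9e228717 : CRef := CRef.mk (Pat.mk 0x1e000000000000000000000000 0x50000001f0000003f0000003f0000003f0000001e0000001c0000001c0000001c 8 6) 0 0 (step_sound _ 132 [(rh33e738c4ed385b9f.shift 1 3), rh63967d7bd5c523dc] (by decide +kernel))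
noncomputable def rh8dfb49bb07e94bc8 : CRef := CRef.mk (Pat.mk 0x1e0000000000000000000000000000000000000000 0x50000000700000007000000330000001e0000000700000007000000070000000700000004 8 6) 0 0 (step_sound _ 193 [(rh3244c3cc8379b070.shift 0 5), rha1d861cf7a7b3ec4] (by decide +kernel))
noncomputable def rhb91ebc34bf30d78e : CRef := CRef.mk (Pat.mk 0x16000000020000000000000000 0x200000007000000070000003f0000001e000000070000000200000002 8 6) 0 0 (step_sound _ 99 [rh4ef555e3378cd09c, (rheb0810cc63b001d8.shift 0 2)] (by decide +kernel))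
noncomputable def rhfc1dbcf9d7adcdd0 : CRef := CRef.mk (Pat.mk 0x1600000002000000000000000000000000 0x10000000120000003f0000001e0000001f0000000f0000000f00000002 8 6) 0 0 (step_sound _ 131 [rhe2f02497c3dd9817, (rheb0810cc63b001d8.shift 0 3)] (by decide +kernel))
noncomputable def rhf45ef8844ebe45fd : CRef := CRef.mk (Pat.mk 0x1600000002000000000000000000000000 0x40000000700000007000000070000003f0000001e00000003000000070000000700000005 8 6) 0 0 (step_sound _ 131 [rhc5637b87b7f1de9f, (rheb0810cc63b001d8.shift 0 3)] (by decide +kernel))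
noncomputable def rh16920a0fc3ec95bd : CRef := CRef.mk (Pat.mk 0x160000000200000000 0x5000000070000000f0000003f0000001e0000000700000004 8 6) 0 0 (step_sound _ 67 [rhd21b5eccbdfda07a, (rheb0810cc63b001d8.shift 0 1)] (by decide +kernel))
noncomputable def rh5ec7195b8b0b0e33 : CRef := CRef.mk (Pat.mk 0x160000000200000000000000000000000000000000 0x50000000700000007000000330000001e0000000700000007000000070000000700000004 8 6) 0 0 (step_sound _ 163 [rhb8fa1a388efc3bbe, (rheb0810cc63b001d8.shift 0 4)] (by decide +kernel))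
noncomputable def rh12b86f344212f1e9 : CRef := CRef.mk (Pat.mk 0x5800000008000000000000000000000000 0x140000001c0000003e0000007f00000078000000180000001c0000001c00000014 8 7) 0 0 (step_sound _ 163 [(rh01393017d91aa7cb.shift 1 2), (rh51b07f96c4d4c204.shift 2 0), (rhdb9dc36888886841.shift 0 2), (rhdf2327c61a1fee6c.shift 0 2), (rhee37466eb1fe89bb.shift 2 0), (rhf330b95805dc6d21.shift 2 1)] (by decide +kernel))
noncomputable def rh3af97ae9a1b73f0f : CRef := CRef.mk (Pat.mk 0x3800000000000000000000000000000000 0x80000000c0000000f0000003e0000007f0000000e0000000e0000000a 8 7) 0 0 (step_sound _ 130 [(rh2ba551de881ca4cd.shift 0 3), (rh2cc7d62e70c02209.shift 0 3), (rh8195a2d7794c7cd2.shift 0 3), (rhe070dc77ed12a8dc.shift 1 0)] (by decide +kernel))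
noncomputable def rh82ac93212b09d07d : CRef := CRef.mk (Pat.mk 0x40000000c00000000000000000000000000000000 0x1c0000003c0000003f0000000f0000003e0000003e0000001e00000006 8 6) 0 0 (step_sound _ 99 [(rh5d54cb79a67f97ab.shift 2 1), (rh7e1098702e50f2b0.shift 2 1), (rha09a4bdf51bd196d.shift 0 1), (rha40d42a2e34c408d.shift 2 1), rhd7e0ffc919cbf3e3] (by decide +kernel))
noncomputable def rh80fe2cb8de56a2cd : CRef := CRef.mk (Pat.mk 0x800000018000000000000000000000000 0x3e0000003e000000ff000000ff0000001f000000780000003800000038 8 8) 0 0 (step_sound _ 132 [(rh03f852291cd24f8c.shift 1 1), (rh11b19ff4feb6e009.shift 0 1), (rhadc61cfcc7429541.shift 1 0), (rhb4e75717befb2447.shift 0 1), (rhc880b74d04bc5a1e.shift 0 1), (rhe8891aabb16e2b7c.shift 1 0)] (by decide +kernel))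
noncomputable def rh7212074bd2a4ca91 : CRef := CRef.mk (Pat.mk 0x100000003000000000000000000000000000000000 0x1c0000005e000000fe0000003e000000ff0000007e0000007c00000010 8 8) 0 0 (step_sound _ 101 [rh0986a8db4a7b96cc, (rh5d54cb79a67f97ab.shift 4 1), (rh7e1098702e50f2b0.shift 4 1), (rha40d42a2e34c408d.shift 4 1), (rhb49e674217b4cca3.shift 2 1)] (by decide +kernel))
noncomputable def rh180ec102881c913b : CRef := CRef.mk (Pat.mk 0x800000058000000000000000000000000 0x140000001c0000007c0000007f000001ff0000005c0000005c0000000c0000000c 8 9) 0 0 (step_sound _ 163 [rh1b790f999d554695, (rh2b775b10f113273e.shift 2 0), rh2f52dd10ed0f5e8f, (rh81b70e6efbd764d4.shift 2 0), (rhbf8c5c56221397de.shift 2 2), (rhfcaeb045b834dc3c.shift 2 2)] (by decide +kernel))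
noncomputable def rh0bb8a5766cefa8f5 : CRef := CRef.mk (Pat.mk 0x40000000c000000000000000000000000 0xa0000000e0000000e0000000e0000000c0000000f0000003e0000003e0000000e 8 6) 0 0 (step_sound _ 162 [(rh046c5eb18e55a239.shift 2 0), (rh3e53d14085adc43a.shift 1 1), rha29638c88f89397e] (by decide +kernel))
noncomputable def rh4315ce1fc5ff56e2 : CRef := CRef.mk (Pat.mk 0x800000058000000000000000000000000 0x3e0000003f000000ff000000ff0000005f000000770000007600000036 8 8) 0 0 (step_sound _ 132 [rh130dd4e443c97e8c, (rh15028c999a56c13a.shift 0 1), (rh36080cabe8296630.shift 0 1), (rh50397eaf15e17c6a.shift 1 0), (rh6d17955b68f97f96.shift 1 0), (rhe22700c4502bc317.shift 0 1)] (by decide +kernel))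
noncomputable def rh3f1a3c49b38a9ae3 : CRef := CRef.mk (Pat.mk 0x800000018000000000000000000000000 0x140000001c0000001c0000003c0000000f0000001e0000007f0000001e00000014 8 7) 0 0 (step_sound _ 163 [rh27a4e9c7fc52e34b, (rh3e53d14085adc43a.shift 2 1), (rh70e33bfdf511e144.shift 3 0), (rhfcaeb045b834dc3c.shift 2 2)] (by decide +kernel))
noncomputable def rh25c9d418ec896a2d : CRef := CRef.mk (Pat.mk 0x80000005800000000000000000000000000000000 0x80000001c0000007c000000ff000001ff0000005f0000004f0000001c0000001c00000014 8 9) 0 0 (step_sound _ 99 [(rh16cb91c014a02b46.shift 0 2), (rh2eff739f764ba3f2.shift 2 0), (rh4433d9e97bd63e9f.shift 0 1), (rh627406c287e3ae74.shift 0 1), (rh6beee22691896d95.shift 2 1), rh92f1b8c52ff18c77, (rhd33666284aa5c7c2.shift 2 0)] (by decide +kernel))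
noncomputable def rhb2cd943323d923c0 : CRef := CRef.mk (Pat.mk 0x800000058000000000000000000000000 0x3000000036000000f7000000ff0000005f0000007f0000007f0000003a 8 8) 0 0 (step_sound _ 132 [(rh03f852291cd24f8c.shift 1 1), (rh15028c999a56c13a.shift 0 1), (rh2913f65f8e032e38.shift 0 1), rh94478234dbc3634b, (rhadc61cfcc7429541.shift 1 0), (rhe8891aabb16e2b7c.shift 1 0)] (by decide +kernel))
noncomputable def rh0a301e9cd1a23dbb : CRef := CRef.mk (Pat.mk 0x1e0000000000000000 0x38000000380000003f0000001e0000003800000018 8 6) 0 0 (step_sound _ 100 [(rh33e738c4ed385b9f.shift 1 2), rh3e0a326481932a17] (by decide +kernel))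
noncomputable def rhd1449abf98167e73 : CRef := CRef.mk (Pat.mk 0x1e000000000000000000000000 0x280000003800000038000000380000001e0000003b0000001800000018 8 6) 0 0 (step_sound _ 65 [(rhbc61463a522fcd04.shift 1 0), (rheb0810cc63b001d8.shift 0 2)] (by decide +kernel))
noncomputable def rhc6229acb339d6d73 : CRef := CRef.mk (Pat.mk 0x1e000000000000000000000000 0x280000003800000038000000380000001e0000003b0000001800000018 8 6) 0 0 (step_sound _ 132 [(rh33e738c4ed385b9f.shift 1 3), rhbcffd485dd3f3d2c] (by decide +kernel))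
noncomputable def rh9e885f2cbc8f155b : CRef := CRef.mk (Pat.mk 0x200000006000000000000000000000000 0x500000007000000070000000700000007000000070000003f0000001f00000007 8 6) 0 0 (step_sound _ 161 [(rh046c5eb18e55a239.shift 1 0), (rh3e53d14085adc43a.shift 0 1), rha61fddb0fd33ff11] (by decide +kernel))
noncomputable def rh3bd1c0eec99a46a8 : CRef := CRef.mk (Pat.mk 0x40000000c00000000000000000000000000000000 0xc0000001c0000003e0000000f0000007e0000003e0000001e00000006 8 7) 0 0 (step_sound _ 99 [rh1a52b66950ef1ff9, (rh5d54cb79a67f97ab.shift 2 1), (rh7e1098702e50f2b0.shift 2 1), (rha09a4bdf51bd196d.shift 0 1), (rha40d42a2e34c408d.shift 2 1)] (by decide +kernel))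
noncomputable def rhc64bb0e616068413 : CRef := CRef.mk (Pat.mk 0x800000018000000000000000000000000 0x1400000014000001ff0000007e0000007f0000001e000000f80000003800000038 8 9) 0 0 (step_sound _ 68 [(rh5d54cb79a67f97ab.shift 3 0), (rh7e1098702e50f2b0.shift 3 0), (rha09a4bdf51bd196d.shift 1 0), (rha40d42a2e34c408d.shift 3 0), (rhdde51d0473269a65.shift 0 1)] (by decide +kernel))
noncomputable def rhf92efb797fd84fd7 : CRef := CRef.mk (Pat.mk 0x100000003000000000000000000000000000000000 0x1c0000005e000000fe0000003e000001ff0000007e0000007c00000010 8 9) 0 0 (step_sound _ 101 [rh234adedb3e18a3e2, (rh5d54cb79a67f97ab.shift 4 1), (rh7e1098702e50f2b0.shift 4 1), (rha40d42a2e34c408d.shift 4 1), (rhb49e674217b4cca3.shift 2 1)] (by decide +kernel))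
noncomputable def rh13388bc621af972b : CRef := CRef.mk (Pat.mk 0x800000018000000000000000000000000 0x140000001c000001ff0000007e0000001f0000001e000000fc0000003400000010 8 9) 0 0 (step_sound _ 163 [(rh046c5eb18e55a239.shift 3 0), (rh3e53d14085adc43a.shift 2 1), rha4051de4208beec7] (by decide +kernel))
noncomputable def rhed7f3bf16f114d61 : CRef := CRef.mk (Pat.mk 0x800000058000000000000000000000000 0x140000001c0000007c0000007f000001ff0000005c0000005c0000000c0000000c 8 9) 0 0 (step_sound _ 163 [(rh2b775b10f113273e.shift 2 0), rh4b18ca06d4c86404, (rh68f3c48b2ba28fe0.shift 2 0), (rh81b70e6efbd764d4.shift 2 0), (rhbf8c5c56221397de.shift 2 2), (rhfcaeb045b834dc3c.shift 2 2)] (by decide +kernel))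
noncomputable def rh6d53874c42932884 : CRef := CRef.mk (Pat.mk 0x80000001800000000000000000000000000000000 0x1c0000003e000000780000001f000000ff0000007c0000003c00000008 8 8) 0 0 (step_sound _ 100 [(rh5d54cb79a67f97ab.shift 3 1), (rh7e1098702e50f2b0.shift 3 1), (rha09a4bdf51bd196d.shift 1 1), (rha40d42a2e34c408d.shift 3 1), rhe5e4a1ef9e2e3b9c] (by decide +kernel))
noncomputable def rhd5a1b63e8a499fa3 : CRef := CRef.mk (Pat.mk 0x40000000c000000000000000000000000 0x20000000e0000001e0000003f0000003f0000000c0000000e0000000e0000000e 8 6) 0 0 (step_sound _ 162 [(rh046c5eb18e55a239.shift 2 0), (rh68f3c48b2ba28fe0.shift 1 0), rh6a4f66854d91c743, (rh70e33bfdf511e144.shift 2 0)] (by decide +kernel))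
noncomputable def rhab875bc0f4c2c3af : CRef := CRef.mk (Pat.mk 0x800000058000000000000000000000000 0x3e0000003f000000ff000000ff0000005f000000770000007e0000003e 8 8) 0 0 (step_sound _ 132 [rh11a54f0a51251379, (rh15028c999a56c13a.shift 0 1), (rh36080cabe8296630.shift 0 1), (rh6d17955b68f97f96.shift 1 0), (rhe22700c4502bc317.shift 0 1), (rhe65ee1882c1b034c.shift 1 0)] (by decide +kernel))
noncomputable def rhd483be439a20514d : CRef := CRef.mk (Pat.mk 0x800000018000000000000000000000000 0x140000001c0000001c0000003c0000000f0000001e0000007f0000001e00000014 8 7) 0 0 (step_sound _ 163 [(rh3e53d14085adc43a.shift 2 1), rh623eed5b02fe709b, (rh70e33bfdf511e144.shift 3 0), (rhfcaeb045b834dc3c.shift 2 2)] (by decide +kernel))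
noncomputable def rhf1eed8a020b15f06 : CRef := CRef.mk (Pat.mk 0x80000005800000000000000000000000000000000 0xc0000001c0000007c000000ff000001ff0000005f0000004f0000001c0000001c00000014 8 9) 0 0 (step_sound _ 99 [(rh055e90c2e2032778.shift 0 2), rh2f62bc4062df9e0e, (rh627406c287e3ae74.shift 0 1), (rh6beee22691896d95.shift 2 1), (rhd73f8d8555bd7ce9.shift 2 0), (rhff363d8c8c4d7478.shift 2 0)] (by decide +kernel))
noncomputable def rha7da768226e428b3 : CRef := CRef.mk (Pat.mk 0x800000058000000000000000000000000 0x3000000036000000f7000000ff0000005f000000ff0000007f0000003a 8 8) 0 0 (step_sound _ 132 [(rh03f852291cd24f8c.shift 1 1), (rh15028c999a56c13a.shift 0 1), (rh2913f65f8e032e38.shift 0 1), rh94478234dbc3634b, (rhadc61cfcc7429541.shift 1 0), (rhdb70e0edf4b7e7f8.shift 2 0)] (by decide +kernel))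
noncomputable def rh63c1dce38216ec14 : CRef := CRef.mk (Pat.mk 0x1e000000000000000000000000 0x2800000038000000380000003b0000001e0000003b0000001800000018 8 6) 0 0 (step_sound _ 68 [rh4a663b99766d5413, (rhe25b0a99195a5d59.shift 1 2)] (by decide +kernel))
noncomputable def rh9747093d0ffde9de : CRef := CRef.mk (Pat.mk 0x1e00000000000000000000000000000000 0x100000003c0000001e0000003f0000003b0000001a00000012 8 6) 0 0 (step_sound _ 164 [(rh33e738c4ed385b9f.shift 1 4), rhe2a77636904457d8] (by decide +kernel))
noncomputable def rh0da96baa24f52abf : CRef := CRef.mk (Pat.mk 0x1800000008000000000000000000000000 0x30000000fc000000ff0000001f000000fc000000f80000003800000010 8 8) 0 0 (step_sound _ 164 [(rh007ce8f541a4dd92.shift 0 1), (rh2b67c1a1a0e1efba.shift 2 0), (rhcf80391c5046a495.shift 3 1), (rhf91b1398c815afd2.shift 3 1), (rhf9366b6a121593ef.shift 3 1)] (by decide +kernel))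
noncomputable def rh62f42ef7e9fd53e7 : CRef := CRef.mk (Pat.mk 0x18000000080000000000000000 0x80000003e000000fe000000ff0000001f000000fc0000002c0000000c 8 8) 0 0 (step_sound _ 132 [rh5028a1f3310dfb11, (rhc151eef0a59574d4.shift 1 1), (rhcf80391c5046a495.shift 3 0), (rhf91b1398c815afd2.shift 3 0), (rhf9366b6a121593ef.shift 3 0)] (by decide +kernel))
noncomputable def rh1f849700e38cfaa5 : CRef := CRef.mk (Pat.mk 0x580000000800000000000000000000000000000000 0xf4000000ff0000005f000001ff000000ff0000007c0000001c00000014 8 9) 0 0 (step_sound _ 99 [(rhc5a3b87376ff53b3.shift 0 2), (rhe3458ab40071103b.shift 3 2), (rhf849c8472bff4b9d.shift 2 0), (rhfa50cc73c689e7d7.shift 2 0)] (by decide +kernel))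
noncomputable def rha4c4f7687dc1ba6b : CRef := CRef.mk (Pat.mk 0x580000000800000000000000000000000000000000 0x40000000c0000005c0000005c000001ff000000ff0000007c0000001c00000014 8 9) 0 0 (step_sound _ 99 [(rh15590a39afd9a120.shift 2 0), (rh6dd6ee82a1d8c522.shift 0 2), (rhf849c8472bff4b9d.shift 2 0), (rhffb8e5993241bf15.shift 2 0)] (by decide +kernel))
noncomputable def rh292c31211ef96a2f : CRef := CRef.mk (Pat.mk 0x5800000008000000000000000000000000 0x3e0000003e000000f70000005f000000ff000001ff0000003f0000003e 8 9) 0 0 (step_sound _ 100 [rh0f9c9a617a2afb2d, (rh1d5d962df521aa98.shift 2 0), rh6dcf874ae63bf743, rh8a403707f609d8c7, rhb159070662f3df95, (rhc5b8a4fd40c8b18f.shift 2 0), rhdf5750bf31eb091d] (by decide +kernel))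
noncomputable def rh112c0560d81112f8 : CRef := CRef.mk (Pat.mk 0x5800000008000000000000000000000000 0x140000001c0000003c0000004f0000005f000001ff000000ff0000007c00000014 8 9) 0 0 (step_sound _ 163 [(rh38836b7b2bcf4f54.shift 2 1), (rh5672f6936a3d36d4.shift 0 1), (rh7507812dfac03689.shift 0 1), rh7f6ec28e1f3ea7e6, (rhd959aeac7c058a92.shift 0 2), (rhdb9dc36888886841.shift 0 2), rhdbb28fbfc4b9b5d3] (by decide +kernel))
noncomputable def rhef0a71a161bd4a4a : CRef := CRef.mk (Pat.mk 0x580000000800000000000000000000000000000000 0x1ff000000fe000001ff0000005f000000ff000001f7000000340000003400000020 8 9) 0 0 (step_sound _ 132 [(rh1643904ba7964336.shift 1 0), (rh57b34b9423012fc8.shift 1 1), (rh715ad61761becf64.shift 0 3), (rha41d429ce4a0acfc.shift 2 1), (rhdf5750bf31eb091d.shift 0 1), (rhf698a147e259505b.shift 0 1)] (by decide +kernel))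
noncomputable def rh9c5d06712aca829e : CRef := CRef.mk (Pat.mk 0x20000000280000000000000000000000000000000000000000 0x140000001c0000007e0000007e0000007f0000003f0000006f0000002e0000000e0000000e0000000a 8 7) 0 0 (step_sound _ 162 [rh038efa54883c0dc8, (rh30c017f1ffbb3c60.shift 1 0), (rh379e745e30a7f260.shift 0 2), (rh4acbe7133cd1d231.shift 0 4), (rhe7a687206514a34a.shift 0 4)] (by decide +kernel))
noncomputable def rh9963b1346f6c91c7 : CRef := CRef.mk (Pat.mk 0x100000001400000000000000000000000000000000 0x8000000380000003800000038000000180000001f0000007e0000007e0000003800000008 8 7) 0 0 (step_sound _ 100 [rh1a279faa03b67c61, (rh7cde007d2907bcbe.shift 1 2), (rh932ed3080ba5cb22.shift 1 0), (rhbf0a7229057d5595.shift 1 1), (rhdc70b51116888437.shift 1 1), (rheac7100a97901a45.shift 3 1), (rhf237fec569adc1e2.shift 3 1)] (by decide +kernel))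
noncomputable def rh941b2e94fe6848e5 : CRef := CRef.mk (Pat.mk 0x80000000a00000000000000000000000000000000000000000 0x40000001f0000001f0000003f8000007fe000007fe00000ebf000003f8000003fc000001700000007000000050 8 12) 0 0 (step_sound _ 197 [(rh10bfcc9782bcb713.shift 1 3), (rh1342f0cb15232885.shift 2 3), (rh1c9f098aba83c7eb.shift 2 2), (rh280d15f5df78147f.shift 3 1), (rh3126c48f3ad854ad.shift 2 1), (rh3ba193a4622988fb.shift 2 2), (rh4674a8a2865c7925.shift 2 0), (rh7e56f3f05580d684.shift 2 0), (rh7e9b475ca71f914a.shift 2 3), (rhbdf1032edc5ac5b4.shift 0 2), (rhd4a5f7f33efb992d.shift 2 2)] (by decide +kernel))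
noncomputable def rha5d293c6b281decf : CRef := CRef.mk (Pat.mk 0x80000000a00000000000000000000000000000000 0x140000001c0000001c0000000c0000000f0000007f0000003f0000001c00000014 8 7) 0 0 (step_sound _ 99 [rh1de33672d038dff1, (rh7cde007d2907bcbe.shift 0 2), rhc9a9bfc18426107e, (rheac7100a97901a45.shift 2 1), (rhf237fec569adc1e2.shift 2 1), (rhff3384473648fcb0.shift 2 0)] (by decide +kernel))
noncomputable def rh9b51e05054024c5e : CRef := CRef.mk (Pat.mk 0x140000001000000000000000000000000000000000 0x28000000380000007e000000fe0000001f0000001800000038000000380000003800000008 8 8) 0 0 (step_sound _ 196 [(rh14332322a797c1bd.shift 0 3), (rh4d8c043749cf697f.shift 1 1), (rh53d70c8544cf9153.shift 1 1), (rh76e45ac15fc95d39.shift 1 0), (rh7f0d646bedd75431.shift 1 1), (rha58607731c8b4809.shift 3 1), (rhf3464aed381aaf11.shift 0 2), (rhff363d8c8c4d7478.shift 3 1)] (by decide +kernel))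
noncomputable def rh49fc82a24ba3ead4 : CRef := CRef.mk (Pat.mk 0x50000000400000000000000000000000000000000000000000 0x8000000380000003c0000003e0000077f000007ff000007fe0000007c0000007c0000003800000020 8 11) 0 0 (step_sound _ 164 [(rh00a4e6953a30e0fa.shift 1 2), (rh1885265dbb76d73c.shift 0 2), (rh2a8d528ed475ffda.shift 1 2), (rh2d7b7ddcb20f8fc6.shift 1 0), (rh51eebb07da32d522.shift 1 0), (rh6438e926a9981e2b.shift 1 2), (rh905eb58c02103b93.shift 1 1), (rhc78f887c66795e5a.shift 1 3), (rhcc740d453bafdd8f.shift 2 1)] (by decide +kernel))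
noncomputable def rhfd5037d1fe94b36c : CRef := CRef.mk (Pat.mk 0xa0000000800000000000000000000000000000000000000000 0x5000000170000001f0000003fc000003fc000000bf000007fe00000ffe000003f8000001f0000001f000000040 8 12) 0 0 (step_sound _ 165 [(rh1cbeb98d022c59ac.shift 2 2), (rh26788f4d5e86a140.shift 2 2), (rh5fc189ca6e8e0fa4.shift 2 0), (rh75c68eed389f042d.shift 2 1), (rha9176e8bd3bf4bff.shift 2 1), (rhbf9edb573ca9b7ac.shift 2 2), (rhc51a013d4f425f25.shift 2 0), rhdf7a3a044de904fe, (rhed94232d981d2b57.shift 2 2), (rhfa47ea0bb77adff7.shift 2 1)] (by decide +kernel))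
noncomputable def rhf3b6af47d3a4e626 : CRef := CRef.mk (Pat.mk 0x28000000200000000000000000 0x140000005c000000fe000001ff0000003f0000007f0000007e0000004e 8 9) 0 0 (step_sound _ 98 [rh7d0995abbcba8894, rhb2047b9a78bf873c, (rhb34a67f8847d128f.shift 0 2), (rhbf5d9e90d56c2a5f.shift 0 2), (rhdfa77469688d663b.shift 0 2), (rheb38467d669bf196.shift 1 0)] (by decide +kernel))
noncomputable def rhe418b4b649ce5646 : CRef := CRef.mk (Pat.mk 0x280000002000000000000000000000000000000000 0x20000000e0000001e0000007e000000ff0000003e000001ff000000ec0000007c0000007000000050 8 9) 0 0 (step_sound _ 164 [(rh4b32808387a988e1.shift 0 2), (rhc21a95c499b3efdb.shift 2 4), (rhe3520b23e2026664.shift 2 0)] (by decide +kernel))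
noncomputable def rha4d46d534e893dcd : CRef := CRef.mk (Pat.mk 0x280000002000000000000000000000000000000000 0x20000000e0000005e0000007e000000ff0000003e000000ef0000007c000003fc0000007000000050 8 10) 0 0 (step_sound _ 164 [(rh3918eeb6c53434d8.shift 0 4), (rh4b32808387a988e1.shift 0 2), (rh9a33336f7a00767c.shift 2 0)] (by decide +kernel))
noncomputable def rh26edf287419c3dff : CRef := CRef.mk (Pat.mk 0x280000002000000000000000000000000000000000 0x140000001c0000003c0000007f0000003f0000007f0000001f0000001e0000001c00000014 8 7) 0 0 (step_sound _ 162 [rh231e3fe9f311afaf, (rh24c9ad7c5863ef66.shift 1 2), (rh8fa31fd8c01ab202.shift 0 2), (rhb34a67f8847d128f.shift 0 4), (rhbf5d9e90d56c2a5f.shift 0 4), (rheb38467d669bf196.shift 1 2)] (by decide +kernel))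
noncomputable def rh57c4e50764fc165b : CRef := CRef.mk (Pat.mk 0x50000000400000000000000000000000000000000000000000 0x8000000380000003c0000003e0000077f000003ff000007fe0000007c0000007c0000003800000020 8 11) 0 0 (step_sound _ 164 [(rh00a4e6953a30e0fa.shift 1 2), (rh16fb5d56bd5c2716.shift 1 2), (rh1885265dbb76d73c.shift 0 2), (rh3bc26c7725fb7aa0.shift 1 0), (rh6045821871482010.shift 2 0), (rh61059692574bb803.shift 1 0), (rh6a99014ce63c1bed.shift 1 2), (rh6c6cc136f2e509e9.shift 1 1), (rhc78f887c66795e5a.shift 1 3)] (by decide +kernel))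
noncomputable def rhb7d9a07cd47a8710 : CRef := CRef.mk (Pat.mk 0x280000002000000000000000000000000000000000 0x40000001c0000005c000003fe000001fe000003bf0000003c0000007c0000007c0000007000000030 8 10) 0 0 (step_sound _ 197 [(rh1b343b36dc5592e6.shift 0 1), (rh4112640c38004557.shift 1 0), (rh4a6d6d9140a7d56f.shift 1 0), (rh53d70c8544cf9153.shift 2 1), (rh62a5264c40f98dc4.shift 4 1), (rh76e45ac15fc95d39.shift 2 0), (rhfc3b104d482890f4.shift 4 1)] (by decide +kernel))
noncomputable def rh6f51ad8b13739e34 : CRef := CRef.mk (Pat.mk 0x140000001000000000000000000000000000000000 0x2800000038000000780000001c000000fc000000ff0000007e0000003f00000028 8 8) 0 0 (step_sound _ 100 [(rh26ebbfb0cc6b103d.shift 3 1), (rh39939ea8d5227802.shift 2 2), (rh4692eec48c60ad82.shift 3 0), rh65f26d0c8df040dd, (rh69431d8b438d8b66.shift 2 2), (rh899ccf8276af9d97.shift 3 1), (rh9865b7dd8cc00fe1.shift 3 0), (rha0bcbbefeb3f9e14.shift 1 2)] (by decide +kernel))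
noncomputable def rh53754becb1aae9a9 : CRef := CRef.mk (Pat.mk 0xa0000000800000000000000000000000000000000000000000 0x500000007000000170000003fc000003fc000000bf000007fe00000ffe000003fc000001f0000001f000000040 8 12) 0 0 (step_sound _ 165 [(rh1cbeb98d022c59ac.shift 2 2), (rh26788f4d5e86a140.shift 2 2), (rh5fc189ca6e8e0fa4.shift 2 0), (rh6915951241de8e98.shift 1 2), (rh850c5186da8edeab.shift 2 2), (rhb227d26e07c6f501.shift 2 1), (rhbd96504c5ebda190.shift 2 0), (rhc51a013d4f425f25.shift 2 0), rhdf7a3a044de904fe, (rhe10008d61be02637.shift 2 2), (rhec02915e8e3688b0.shift 2 1)] (by decide +kernel))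
noncomputable def rh8f935cf4d49a9dbc : CRef := CRef.mk (Pat.mk 0x1e000000000000000000000000 0xe0000000f0000003f0000001e0000003e0000001e0000001c 8 6) 0 0 (step_sound _ 129 [(rh3244c3cc8379b070.shift 0 3), rh446c1dc68e212cca] (by decide +kernel))
noncomputable def rh5a3dee260aa2921d : CRef := CRef.mk (Pat.mk 0x1e000000000000000000000000 0x500000007000000070000000f0000003f0000001e000000330000001200000012 8 6) 0 0 (step_sound _ 65 [rh296796b5b4874f47, (rheb0810cc63b001d8.shift 0 2)] (by decide +kernel))
noncomputable def rh78b5bd58a950a8f1 : CRef := CRef.mk (Pat.mk 0x16000000020000000000000000 0x500000007000000070000000f0000003f0000001e000000330000001200000012 8 6) 0 0 (step_sound _ 99 [rh296796b5b4874f47, (rheb0810cc63b001d8.shift 0 2)] (by decide +kernel))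
noncomputable def rh1adce417a0c35e3f : CRef := CRef.mk (Pat.mk 0x1600000002000000000000000000000000 0x8000000380000001e0000003f0000003c0000003800000028 8 6) 0 0 (step_sound _ 131 [(rhc4e11d5537fda232.shift 1 0), (rheb0810cc63b001d8.shift 0 3)] (by decide +kernel))
noncomputable def rh08ce4b220451231b : CRef := CRef.mk (Pat.mk 0x1600000002000000000000000000000000 0x70000000f0000003f0000001e0000003e000000370000003700000007 8 6) 0 0 (step_sound _ 161 [rh4d6a2612ebfeb13d, rh5326b160420f0573, (rhc5785e6b6dd8649d.shift 0 1), (rhf330b95805dc6d21.shift 0 1)] (by decide +kernel))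
noncomputable def rh5241040e39720537 : CRef := CRef.mk (Pat.mk 0x180000000800000000000000000000000000000000 0x40000003c0000007c0000001e0000003c0000001f0000001c0000001c00000014 8 7) 0 0 (step_sound _ 99 [(rhe1ce516d7de4557d.shift 0 2), (rhe3458ab40071103b.shift 3 2), (rhf849c8472bff4b9d.shift 2 0), (rhfa50cc73c689e7d7.shift 2 0)] (by decide +kernel))
noncomputable def rh171712c64367aa82 : CRef := CRef.mk (Pat.mk 0x1800000008000000000000000000000000 0x80000003c0000003c0000007c0000001f000000fc000000f80000003800000010 8 8) 0 0 (step_sound _ 164 [(rh2b67c1a1a0e1efba.shift 2 0), (rh2e863169bdc8e1cd.shift 0 1), (rhcf80391c5046a495.shift 3 1), (rhf91b1398c815afd2.shift 3 1), (rhf9366b6a121593ef.shift 3 1)] (by decide +kernel))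
noncomputable def rhcdc41731546c3c0d : CRef := CRef.mk (Pat.mk 0x3000000010000000000000000000000000 0x100000007c0000007e000000fe0000003e000001ff0000005e0000001c00000004 8 9) 0 0 (step_sound _ 165 [rh58d9e2e63adce0d0, (rhc151eef0a59574d4.shift 2 2), (rhcf80391c5046a495.shift 4 1), (rhf91b1398c815afd2.shift 4 1), (rhf9366b6a121593ef.shift 4 1)] (by decide +kernel))
noncomputable def rh7016b92003f22ccb : CRef := CRef.mk (Pat.mk 0x180000000800000000000000000000000000000000 0x40000000c0000001c0000001c000000ff000000ff000001fc0000001c00000014 8 9) 0 0 (step_sound _ 99 [(rh15590a39afd9a120.shift 2 0), (rh73c54976ba37b838.shift 0 2), (rhf849c8472bff4b9d.shift 2 0), (rhffb8e5993241bf15.shift 2 0)] (by decide +kernel))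
noncomputable def rh57dd592a6a1d8539 : CRef := CRef.mk (Pat.mk 0x1800000008000000000000000000000000 0x80000003c0000003c000000ff0000001f000000f80000003f0000001c00000010 8 8) 0 0 (step_sound _ 164 [(rh22db77ba3a939b2b.shift 0 1), (rh2b67c1a1a0e1efba.shift 2 0), (rhcf80391c5046a495.shift 3 1), (rhf91b1398c815afd2.shift 3 1), (rhf9366b6a121593ef.shift 3 1)] (by decide +kernel))
noncomputable def rhb3bcefb7d37f4de7 : CRef := CRef.mk (Pat.mk 0x5800000008000000000000000000000000 0x3e0000003e000000f70000005f000000ff000000ff0000007f0000007e 8 8) 0 0 (step_sound _ 100 [rh0f9c9a617a2afb2d, (rh1d5d962df521aa98.shift 2 0), rh5baa954db3a1e158, rh6dcf874ae63bf743, rh8a2a33460f6b7ee2, rhb159070662f3df95, (rhc5b8a4fd40c8b18f.shift 2 0)] (by decide +kernel))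
noncomputable def rhe8372e76c1f2f09d : CRef := CRef.mk (Pat.mk 0x1800000008000000000000000000000000 0x140000001c0000003c0000000f0000001f000000ff000000ff000001fc0000001c 8 9) 0 0 (step_sound _ 163 [rh118972e39e31dba2, (rh5326b160420f0573.shift 2 0), (rh5672f6936a3d36d4.shift 0 1), rh627d570d541a9d97, (rh6bf66c1a8fb23f9f.shift 2 1), (rhc6883ffbcf192217.shift 0 2), (rhdb9dc36888886841.shift 0 2), (rhff363d8c8c4d7478.shift 2 0)] (by decide +kernel))
noncomputable def rhf757ff2a58a04081 : CRef := CRef.mk (Pat.mk 0x580000000800000000000000000000000000000000 0x3a0000003f0000007f0000005f000000ff000000f7000000370000003600000020 8 8) 0 0 (step_sound _ 132 [(rh124dedbe502a5859.shift 0 1), (rh1643904ba7964336.shift 1 0), (rh384e6e933685ceb9.shift 0 1), (rh57b34b9423012fc8.shift 1 1), (rh8a2a33460f6b7ee2.shift 0 1), (rh8e683bd0fb707dca.shift 0 1)] (by decide +kernel))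
noncomputable def rh650b36881c7c95fb : CRef := CRef.mk (Pat.mk 0x1e000000000000000000000000 0x50000000700000007000000070000001e000000370000000600000006 8 6) 0 0 (step_sound _ 65 [rh7dfa3c9bd19b63f5, (rheb0810cc63b001d8.shift 0 2)] (by decide +kernel))
noncomputable def rh0a120c13085430e5 : CRef := CRef.mk (Pat.mk 0x1e0000000000000000000000000000000000000000 0x40000000e0000000f0000001f0000003c0000001f0000001e0000001c00000004 8 6) 0 0 (step_sound _ 132 [rh6239d0f22c3e84a0, (rhe25b0a99195a5d59.shift 1 4)] (by decide +kernel))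
noncomputable def rhca81a2be8881beab : CRef := CRef.mk (Pat.mk 0x1e0000000000000000000000000000000000000000 0x40000000c0000000c0000001f0000003e0000001f0000001e0000001c00000004 8 6) 0 0 (step_sound _ 132 [rhb6c2111a2c2ceec4, (rhe25b0a99195a5d59.shift 1 4)] (by decide +kernel))
noncomputable def rh05e6adf69b0b2d56 : CRef := CRef.mk (Pat.mk 0x20000001600000000000000000 0x10000000140000003e000000fc000001ff0000002c0000002c 8 9) 0 0 (step_sound _ 100 [(rh2fe78cc5ca4405d8.shift 4 2), rh66e36dcc5aa101e4] (by decide +kernel))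
noncomputable def rh9fee24e32c05d9d4 : CRef := CRef.mk (Pat.mk 0x8000000580000000000000000 0x14000000370000003f0000007b0000000a0000000a 8 7) 0 0 (step_sound _ 98 [(rh2fe78cc5ca4405d8.shift 2 2), rh917966df707fac2e] (by decide +kernel))
noncomputable def rhdafefc8fc1469402 : CRef := CRef.mk (Pat.mk 0x80000005800000000000000000000000000000000 0x100000001c0000001c0000007c0000000f0000007c000000180000001c0000001c00000004 8 7) 0 0 (step_sound _ 162 [(rh2fe78cc5ca4405d8.shift 2 4), rh494289d9b5511a5f] (by decide +kernel))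
noncomputable def rhc0a38065e8cf206d : CRef := CRef.mk (Pat.mk 0x800000058000000000000000000000000 0x6000000770000003f0000007f000000070000000700000002 8 7) 0 0 (step_sound _ 130 [(rh2fe78cc5ca4405d8.shift 2 3), rh3d9203a2b73357f0] (by decide +kernel))
noncomputable def rh8d04047934eb4dea : CRef := CRef.mk (Pat.mk 0x80000005800000000000000000000000000000000 0x140000001c0000001c000000180000007c000000df0000003c0000001c00000014 8 8) 0 0 (step_sound _ 99 [(rh4d6a2612ebfeb13d.shift 2 0), (rh58aa26c47e50de25.shift 2 0), (rh755c413ec79f71a0.shift 2 1), (rhd8e928d17c966d76.shift 0 1), (rhf4509072160dced0.shift 2 1)] (by decide +kernel))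
noncomputable def rh27030b6d9eddb3b8 : CRef := CRef.mk (Pat.mk 0x1e0000000000000000000000000000000000000000 0x50000000700000007000000030000001e0000003f00000007000000070000000700000004 8 6) 0 0 (step_sound _ 132 [(rhe25b0a99195a5d59.shift 1 4), rhf38a12412b3be0e5] (by decide +kernel))
noncomputable def rhf4dd4de109330334 : CRef := CRef.mk (Pat.mk 0x5800000008000000000000000000000000 0xa0000000f0000007f0000003f0000000f0000000400000004 8 7) 0 0 (step_sound _ 98 [(rh361cc68994bd8a63.shift 2 3), rhd76ed83b3d4e3a65] (by decide +kernel))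
noncomputable def rh3db42460990513b7 : CRef := CRef.mk (Pat.mk 0x58000000080000000000000000 0x13000000330000007f0000003f0000007f0000000c 8 7) 0 0 (step_sound _ 66 [(rh361cc68994bd8a63.shift 2 2), rhc4cf73953f73f251] (by decide +kernel))
noncomputable def rh48c0bb17b6d64256 : CRef := CRef.mk (Pat.mk 0x180000000800000000000000000000000000000000 0x40000001e0000003f0000001f0000001e0000007c0000001c0000001c00000014 8 7) 0 0 (step_sound _ 99 [(rh4c2fd5016a7e3b42.shift 0 2), (rhe3458ab40071103b.shift 3 2), (rhfa50cc73c689e7d7.shift 2 0), (rhffb8e5993241bf15.shift 2 0)] (by decide +kernel))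
noncomputable def rh498d14379c12cab7 : CRef := CRef.mk (Pat.mk 0x5800000008000000000000000000000000 0xa0000007b0000003f000000370000001400000014 8 7) 0 0 (step_sound _ 98 [(rh361cc68994bd8a63.shift 2 3), rh90bcc6760930a3fb] (by decide +kernel))
noncomputable def rh9d2d07b15e6ca90f : CRef := CRef.mk (Pat.mk 0x58000000080000000000000000 0x3000000030000007f000000ff0000007700000004 8 8) 0 0 (step_sound _ 66 [(rh361cc68994bd8a63.shift 2 2), rhc83128254ddfd9e4] (by decide +kernel))
noncomputable def rhabc6eb8211cfeaa7 : CRef := CRef.mk (Pat.mk 0x580000000800000000000000000000000000000000 0x40000001c0000001c000000180000007c0000000f0000007c0000001c0000001c00000014 8 7) 0 0 (step_sound _ 130 [rh250908a81daa4c4d, (rh361cc68994bd8a63.shift 2 4)] (by decide +kernel))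
noncomputable def rh8c7f760c3bfe7c4a : CRef := CRef.mk (Pat.mk 0x5800000008000000000000000000000000 0x3000000038000000380000005f000000ff000001ff0000003e0000003e 8 9) 0 0 (step_sound _ 100 [rh407fb390d8316269, rh4add7137d8b1711a, (rh837bdd8cab609910.shift 2 0), rh846855b873f756b3, (rha41d429ce4a0acfc.shift 2 0), rhf88592f6bfce44e9] (by decide +kernel))
noncomputable def rh0816d1cd767905a7 : CRef := CRef.mk (Pat.mk 0xb00000001000000000000000000000000000000000 0x600000006000000070000000f8000003f0000001fc000001ff0000006000000020 8 10) 0 0 (step_sound _ 197 [(rh2b67c1a1a0e1efba.shift 3 1), rha52718c23213821f, (rhcf80391c5046a495.shift 4 2), (rhf91b1398c815afd2.shift 4 2), (rhf9366b6a121593ef.shift 4 2)] (by decide +kernel))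
noncomputable def rhf57d7c86e6b73f0d : CRef := CRef.mk (Pat.mk 0x20000001600000000000000000000000000000000 0x600000006000000070000001f0000003e0000000f0000000f00000008 8 6) 0 0 (step_sound _ 131 [(rh3244c3cc8379b070.shift 0 4), rh60bc373eea59e557] (by decide +kernel))
noncomputable def rhcf85d7bc11ebe144 : CRef := CRef.mk (Pat.mk 0x800000058000000000000000000000000 0x7f0000003f0000007f000000330000003200000012 8 7) 0 0 (step_sound _ 130 [(rh2fe78cc5ca4405d8.shift 2 3), rhf973300909b0ce45] (by decide +kernel))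
noncomputable def rh2e6c91c1166792ee : CRef := CRef.mk (Pat.mk 0x8000000180000000000000000000000000000000000000000 0x100000003c0000007c0000001f000000380000001c000000f80000003c0000001c0000001c00000010 8 8) 0 0 (step_sound _ 227 [(rh046c5eb18e55a239.shift 3 2), rh1e7f7d8e841ca67a, (rh70e33bfdf511e144.shift 3 2), (rhce72af5422c4ce22.shift 0 2)] (by decide +kernel))
noncomputable def rh9ce530ec817edad8 : CRef := CRef.mk (Pat.mk 0x1e00000000000000000000000000000000 0x4000000070000000700000007000000070000001e00000033000000070000000700000005 8 6) 0 0 (step_sound _ 161 [(rh3244c3cc8379b070.shift 0 4), rhe7c6e6acf8f7d4f0] (by decide +kernel))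
noncomputable def rh22f23d05c207caad : CRef := CRef.mk (Pat.mk 0x16000000020000000000000000 0x50000000700000007000000070000001e000000370000000600000006 8 6) 0 0 (step_sound _ 99 [rh7dfa3c9bd19b63f5, (rheb0810cc63b001d8.shift 0 2)] (by decide +kernel))
noncomputable def rh2fea5b90f6ebff44 : CRef := CRef.mk (Pat.mk 0x1600000002000000000000000000000000 0x50000000700000007000000070000001e0000003f000000070000000300000002 8 6) 0 0 (step_sound _ 131 [rh1d21668db6b85e69, (rheb0810cc63b001d8.shift 0 3)] (by decide +kernel))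
noncomputable def rh2b7ef1a9dc0c22bb : CRef := CRef.mk (Pat.mk 0x160000000200000000000000000000000000000000 0x600000006000000070000001e0000003f00000003000000070000000700000004 8 6) 0 0 (step_sound _ 163 [rh50b35a063d3e4009, (rheb0810cc63b001d8.shift 0 4)] (by decide +kernel))
noncomputable def rh819ad4a7a3e7805b : CRef := CRef.mk (Pat.mk 0x5800000008000000000000000000000000 0x3000000030000000320000007b0000003f0000007f0000001c0000001c 8 7) 0 0 (step_sound _ 98 [(rh361cc68994bd8a63.shift 2 3), rh8aa78e5346b92a2d] (by decide +kernel))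
noncomputable def rh4e6319c9b903438d : CRef := CRef.mk (Pat.mk 0x5c000000000000000000000000 0x10000000370000007f000000fc0000000800000008 8 8) 0 0 (step_sound _ 101 [rh41d03488327ecc9e, (rh4ad5fc38f1b69f65.shift 2 2), (rhab0e37b52f061b7c.shift 0 2)] (by decide +kernel))
noncomputable def rh2caff7e113dca1e8 : CRef := CRef.mk (Pat.mk 0x3800000000000000000000000000000000 0x80000000c0000000f0000003e0000007f0000000e0000000e0000000a 8 7) 0 0 (step_sound _ 130 [(rh2ba551de881ca4cd.shift 0 3), (rh2cc7d62e70c02209.shift 0 3), (rh8195a2d7794c7cd2.shift 0 3), (rh9b91a443800bef49.shift 1 0)] (by decide +kernel))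
noncomputable def rh79575dfea8db82d7 : CRef := CRef.mk (Pat.mk 0x3800000000000000000000000000000000 0x80000000c0000007f0000003e0000006f0000000e0000000e0000000a 8 7) 0 0 (step_sound _ 130 [(rh2cc7d62e70c02209.shift 0 3), (rh9b91a443800bef49.shift 1 0), (rhc37ac25399000c0e.shift 0 3), (rhd75855c0840bf9dc.shift 0 3)] (by decide +kernel))
noncomputable def rh348e0f836710745c : CRef := CRef.mk (Pat.mk 0x1800000008000000000000000000000000 0x80000003c0000007c0000003f0000001f000000fc000000f80000003800000010 8 8) 0 0 (step_sound _ 164 [(rh2b67c1a1a0e1efba.shift 2 0), (rh8a9bda0e087af765.shift 0 1), (rhcf80391c5046a495.shift 3 1), (rhf91b1398c815afd2.shift 3 1), (rhf9366b6a121593ef.shift 3 1)] (by decide +kernel))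
noncomputable def rh8b5b6b130aca844f : CRef := CRef.mk (Pat.mk 0x1800000008000000000000000000000000 0x3800000038000000380000001f000000ff000000ff0000003c0000003c 8 8) 0 0 (step_sound _ 100 [rh407fb390d8316269, rh4530fce5c078217f, rh9adc501cfba80486, (rhdb70e0edf4b7e7f8.shift 2 0)] (by decide +kernel))
noncomputable def rh8fae134ab3d77cf3 : CRef := CRef.mk (Pat.mk 0x1800000008000000000000000000000000 0x3c0000003c0000003f0000001f000000ff000000ff0000002c00000020 8 8) 0 0 (step_sound _ 164 [(rh4533680960cdc42a.shift 2 2), rha85cf548288a3dcc, (rhcf80391c5046a495.shift 3 1), (rhf91b1398c815afd2.shift 3 1), (rhf9366b6a121593ef.shift 3 1)] (by decide +kernel))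
noncomputable def rh0dad2529a08152dd : CRef := CRef.mk (Pat.mk 0x300000001000000000000000000000000000000000 0x10000000380000003e0000007f0000003e0000007f0000001e0000003c0000003c00000028 8 7) 0 0 (step_sound _ 100 [(rh0f5b52d4c767672f.shift 3 0), (rhe3458ab40071103b.shift 4 2), (rhe81905e6b7767ee1.shift 0 1), (rhffb8e5993241bf15.shift 3 0)] (by decide +kernel))
noncomputable def rh7a5f4f99b7c752d9 : CRef := CRef.mk (Pat.mk 0x180000000800000000000000000000000000000000 0x80000001c0000007c0000003f0000001f000000180000001c0000001c0000001c00000014 8 7) 0 0 (step_sound _ 99 [(rha7c9f08374789184.shift 0 2), (rhe3458ab40071103b.shift 3 2), (rhfa50cc73c689e7d7.shift 2 0), (rhffb8e5993241bf15.shift 2 0)] (by decide +kernel))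
noncomputable def rh54aea630326aca67 : CRef := CRef.mk (Pat.mk 0x5800000008000000000000000000000000 0x3600000036000000370000005f000000ff000001ff0000003f0000003e 8 9) 0 0 (step_sound _ 100 [rh0f9c9a617a2afb2d, (rh1d5d962df521aa98.shift 2 0), rh846855b873f756b3, rhb159070662f3df95, (rhdb70e0edf4b7e7f8.shift 2 0)] (by decide +kernel))
noncomputable def rh1a9102b703cfcf46 : CRef := CRef.mk (Pat.mk 0xb00000001000000000000000000000000000000000 0xfc000000fe0000007f000000be000001fe000003ee0000006c0000006c00000040 8 10) 0 0 (step_sound _ 133 [(rh124dedbe502a5859.shift 1 1), (rh1643904ba7964336.shift 2 0), (rh3b562db9e76375ee.shift 0 1), (rh4530fce5c078217f.shift 1 1), (rh846855b873f756b3.shift 1 1), (rha41d429ce4a0acfc.shift 3 1), (rhe0a0c817989e51b3.shift 1 2)] (by decide +kernel))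
noncomputable def rh9ac2a42af8d44412 : CRef := CRef.mk (Pat.mk 0x1e00000000000000000000000000000000 0x400000006000000370000001e00000007000000070000000700000005 8 6) 0 0 (step_sound _ 97 [rh6a7520239ebbd0e5, (rheb0810cc63b001d8.shift 0 3)] (by decide +kernel))
noncomputable def rh7bbefec245183748 : CRef := CRef.mk (Pat.mk 0x1e000000000000000000000000 0xc0000000e0000001f0000003e0000001f0000000c0000000c0000000c 8 6) 0 0 (step_sound _ 132 [(rh33e738c4ed385b9f.shift 1 3), rh4dd3b1039110e370] (by decide +kernel))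
noncomputable def rh94a24476e0c607d9 : CRef := CRef.mk (Pat.mk 0x1e00000000000000000000000000000000 0x4000000070000000700000007000000070000001e00000003000000070000000700000005 8 5) 0 0 (step_sound _ 97 [rh803f6faf0339294a, (rheb0810cc63b001d8.shift 0 3)] (by decide +kernel))
noncomputable def rhd54935fd2345ad07 : CRef := CRef.mk (Pat.mk 0xb000000010000000000000000000000000 0x1600000016000000fe0000007e0000001f0000000a00000008 8 8) 0 0 (step_sound _ 99 [(rh361cc68994bd8a63.shift 3 3), rh9317dc683b8407cd] (by decide +kernel))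
noncomputable def rh60baaad8ce9d3cb2 : CRef := CRef.mk (Pat.mk 0x58000000080000000000000000 0x3000000030000007f0000003f0000007700000004 8 7) 0 0 (step_sound _ 66 [(rh361cc68994bd8a63.shift 2 2), rh58c7c419dfb396d0] (by decide +kernel))
noncomputable def rh3427c72fd233e588 : CRef := CRef.mk (Pat.mk 0xc0000000400000000000000000000000000000000 0x20000000e0000000e0000000e0000000e0000000f0000003e0000003e0000000e0000000a 8 6) 0 0 (step_sound _ 98 [(rh15590a39afd9a120.shift 1 0), (rhe1a3e820b9828b5e.shift 1 1), (rhe3458ab40071103b.shift 2 2), (rhfa50cc73c689e7d7.shift 1 0), (rhfa64c92ee3abc16b.shift 0 2)] (by decide +kernel))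
noncomputable def rh661f17429395f2ba : CRef := CRef.mk (Pat.mk 0x58000000080000000000000000 0x30000000300000007f0000003f0000007f00000008 8 7) 0 0 (step_sound _ 66 [(rh361cc68994bd8a63.shift 2 2), rh9cca8e9d37b4985b] (by decide +kernel))
noncomputable def rh17fc46094ca729c8 : CRef := CRef.mk (Pat.mk 0x180000000800000000000000000000000000000000 0x100000001c0000001c0000003c000000780000001e000000380000001f0000001c0000001c00000014 8 7) 0 0 (step_sound _ 99 [(rh15590a39afd9a120.shift 2 0), (rhb44fbf6bd2c6418e.shift 2 0), (rhe1a3e820b9828b5e.shift 2 1), (rhe3458ab40071103b.shift 3 2), (rhf243d45a832acee7.shift 0 2)] (by decide +kernel))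
noncomputable def rhc1731d5b51ca92ae : CRef := CRef.mk (Pat.mk 0x800000058000000000000000000000000 0x180000001c0000003f0000003f0000007b000000320000003200000030 8 7) 0 0 (step_sound _ 130 [(rh2fe78cc5ca4405d8.shift 2 3), rhed6fe8c1783ccf2c] (by decide +kernel))
noncomputable def rh6b2e8ab894a12c2a : CRef := CRef.mk (Pat.mk 0x800000058000000000000000000000000 0x3e0000003e000000ff000000ff0000005f000000180000001800000018 8 8) 0 0 (step_sound _ 132 [(rh03f852291cd24f8c.shift 1 1), (rh11b19ff4feb6e009.shift 0 1), (rh7ac1b2b2096c8b5c.shift 0 1), (rh866b880cdbdd4437.shift 1 1), (rhaf3ab3d0b86eda09.shift 1 0), rhd4a3481ed938a12a] (by decide +kernel))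
noncomputable def rhf56f1d86758257f3 : CRef := CRef.mk (Pat.mk 0x10000000b0000000000000000000000000 0x2000000060000001ff000001fc000001f0000000fc000000700000007000000070 8 9) 0 0 (step_sound _ 69 [(rh40d6a995e29b4463.shift 0 1), (rh5d54cb79a67f97ab.shift 4 0), (rh7e1098702e50f2b0.shift 4 0), (rha09a4bdf51bd196d.shift 2 0), (rha40d42a2e34c408d.shift 4 0)] (by decide +kernel))
noncomputable def rh3f54b50bbf13c3fd : CRef := CRef.mk (Pat.mk 0x1e0000000000000000000000000000000000000000 0x50000000700000007000000330000001e0000000700000007000000070000000700000004 8 6) 0 0 (step_sound _ 129 [rhb8fa1a388efc3bbe, (rheb0810cc63b001d8.shift 0 4)] (by decide +kernel))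
noncomputable def rh64b9d09abf174972 : CRef := CRef.mk (Pat.mk 0x20000001600000000000000000000000000000000 0x400000006000000370000001e00000007000000070000000700000005 8 6) 0 0 (step_sound _ 131 [(rh3244c3cc8379b070.shift 0 4), rhe25ca482e7261b17] (by decide +kernel))
noncomputable def rh0729085bcd876d1f : CRef := CRef.mk (Pat.mk 0x20000001600000000000000000000000000000000 0x1000000070000003f0000001e00000007000000070000000700000005 8 6) 0 0 (step_sound _ 131 [(rh3244c3cc8379b070.shift 0 4), rhb7e007c97b3de055] (by decide +kernel))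
noncomputable def rh806709cd17c32070 : CRef := CRef.mk (Pat.mk 0x200000016000000000000000000000000 0x40000000700000007000000030000003f0000001e000000070000000600000006 8 6) 0 0 (step_sound _ 99 [rh02cf43fda2636ddc, (rh3244c3cc8379b070.shift 0 3)] (by decide +kernel))
noncomputable def rhf6b287e1b5fd5d23 : CRef := CRef.mk (Pat.mk 0x2000000160000000000000000000000000000000000000000 0x50000000700000007000000330000001e0000000700000007000000070000000700000004 8 6) 0 0 (step_sound _ 163 [(rh3244c3cc8379b070.shift 0 5), rha1d861cf7a7b3ec4] (by decide +kernel))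
noncomputable def rhcaa3ce58339a1c4f : CRef := CRef.mk (Pat.mk 0x80000005800000000000000000000000000000000 0x1c0000001e00000078000000780000001f0000007c0000001c00000014 8 7) 0 0 (step_sound _ 99 [(rh01393017d91aa7cb.shift 1 2), (rh01533231c0db6873.shift 0 2), (rh2eff739f764ba3f2.shift 2 0), (rh5f4fb9541f0899b7.shift 2 1), rheba08b23a6f0383e, (rhf542bc25b6b1d6f9.shift 2 0)] (by decide +kernel))
noncomputable def rh1cd8f644cd6b8d77 : CRef := CRef.mk (Pat.mk 0x170000000000000000000000000 0x80000007f000001fe000000df0000001000000010 8 9) 0 0 (step_sound _ 99 [(rh1aa5cd349b17e81b.shift 0 2), (rh2cc7d62e70c02209.shift 1 2), (rhafa5a7051d37b143.shift 2 0), (rhd4f5a6d414edb96b.shift 1 2), (rhe6dc3580dec276dd.shift 1 2), (rhed14e3bf40a8a7c8.shift 0 2)] (by decide +kernel))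
noncomputable def rh5ee5f38b5301a128 : CRef := CRef.mk (Pat.mk 0x5c000000000000000000000000 0x8000000fc0000007f000000370000001000000010 8 8) 0 0 (step_sound _ 101 [(rh9890f9d77740bbed.shift 2 3), rhf4a2bc4af1af10af, (rhf74337aca719633a.shift 0 2)] (by decide +kernel))
noncomputable def rhf375edc52532fe2c : CRef := CRef.mk (Pat.mk 0x38000000000000000000000000 0xa0000000e0000000e0000007f0000003e0000006f0000000c0000000c 8 7) 0 0 (step_sound _ 98 [(rh2cc7d62e70c02209.shift 0 2), (rh6784e451df3862cc.shift 1 0), (rhc37ac25399000c0e.shift 0 2), (rhd75855c0840bf9dc.shift 0 2)] (by decide +kernel))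
noncomputable def rh15a144f8077b3b15 : CRef := CRef.mk (Pat.mk 0x38000000000000000000000000 0xa0000000e0000000e0000006f0000003e0000007f0000000c0000000c 8 7) 0 0 (step_sound _ 98 [(rh2ba551de881ca4cd.shift 0 2), (rh2cc7d62e70c02209.shift 0 2), (rh6784e451df3862cc.shift 1 0), (rh8195a2d7794c7cd2.shift 0 2)] (by decide +kernel))
noncomputable def rhe78e2b262b3d94e3 : CRef := CRef.mk (Pat.mk 0x80000001800000000000000000000000000000000 0x38000000780000007e0000001f0000003f0000007c0000003c0000000c 8 7) 0 0 (step_sound _ 100 [rh309732febee49bf2, (rh5d54cb79a67f97ab.shift 3 1), (rh7e1098702e50f2b0.shift 3 1), (rha09a4bdf51bd196d.shift 1 1), (rha40d42a2e34c408d.shift 3 1)] (by decide +kernel))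
noncomputable def rhcdb7381eef773478 : CRef := CRef.mk (Pat.mk 0x800000058000000000000000000000000 0x3e0000003e000000ff000000ff0000005f000000380000003800000038 8 8) 0 0 (step_sound _ 132 [(rh03f852291cd24f8c.shift 1 1), (rh11b19ff4feb6e009.shift 0 1), (rh68cf099a547325bd.shift 1 0), (rh7ac1b2b2096c8b5c.shift 0 1), rhd4a3481ed938a12a, (rhff270b7eb791c09b.shift 1 0)] (by decide +kernel))
noncomputable def rhbca4be5d9cd5863d : CRef := CRef.mk (Pat.mk 0x1000000030000000000000000000000000 0x180000001c0000001e000000ff0000003e0000007f0000003e0000003c 8 8) 0 0 (step_sound _ 164 [(rh046c5eb18e55a239.shift 4 0), (rh25c610fc230ca45b.shift 1 1), (rh70e33bfdf511e144.shift 4 0), rh9c159de2ed2acbcb] (by decide +kernel))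
noncomputable def rha9e921353206d1aa : CRef := CRef.mk (Pat.mk 0x800000018000000000000000000000000 0x140000001c000000fc000000ff000001ff0000001c0000001c0000000c0000000c 8 9) 0 0 (step_sound _ 163 [rh1b790f999d554695, (rh2b775b10f113273e.shift 2 0), (rh81b70e6efbd764d4.shift 2 0), rhbb07334d551a3f39, (rhbf8c5c56221397de.shift 2 2), (rhfcaeb045b834dc3c.shift 2 2)] (by decide +kernel))
noncomputable def rh16312b1d1645ba8e : CRef := CRef.mk (Pat.mk 0x800000018000000000000000000000000 0x140000001c0000001c0000001c000000180000001f0000003f0000007c0000001c 8 7) 0 0 (step_sound _ 163 [(rh046c5eb18e55a239.shift 3 0), (rh3e53d14085adc43a.shift 2 1), rh8fe779bd07b3ae26] (by decide +kernel))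
noncomputable def rha9e4b856e5c01a50 : CRef := CRef.mk (Pat.mk 0x800000058000000000000000000000000 0x7e0000007f000000ff000000ff0000005f000000370000003600000036 8 8) 0 0 (step_sound _ 132 [rh130dd4e443c97e8c, (rh36080cabe8296630.shift 0 1), (rh7ac1b2b2096c8b5c.shift 0 1), (rhc346f6166b499d11.shift 1 0), (rheaa765c778ec1ec5.shift 1 0), (rhfe11d53f31f0a535.shift 0 1)] (by decide +kernel))
noncomputable def rh188a87735955f112 : CRef := CRef.mk (Pat.mk 0x80000001800000000000000000000000000000000 0xc0000001c000000fc000000ff000001ff0000001f0000000f0000001c0000001c00000014 8 9) 0 0 (step_sound _ 99 [(rh2eff739f764ba3f2.shift 2 0), (rh627406c287e3ae74.shift 0 1), (rh9083ace6d24f7329.shift 0 2), rh92f1b8c52ff18c77, rh9b28660900673019, (rhd561be1bbbb08ec2.shift 2 0), (rhf3670f9792a5f0a6.shift 2 0)] (by decide +kernel))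
noncomputable def rh5cfaf251062717a3 : CRef := CRef.mk (Pat.mk 0x800000018000000000000000000000000 0x140000001c0000001c0000003c0000000f0000001f0000003f0000001e00000014 8 6) 0 0 (step_sound _ 163 [rh351c7c952dd54abf, (rh3e53d14085adc43a.shift 2 1), (rh70e33bfdf511e144.shift 3 0), (rhfcaeb045b834dc3c.shift 2 2)] (by decide +kernel))
noncomputable def rh0dfd3c9f9de2c92d : CRef := CRef.mk (Pat.mk 0x10000000b000000000000000000000000000000000 0x6c0000006c000001ee000001fe000000be0000007f000000fe000000fc00000008 8 9) 0 0 (step_sound _ 165 [(rh03f852291cd24f8c.shift 2 2), (rh0e95b5b949fac611.shift 0 1), (rh6a56bcc9771b46fc.shift 1 1), (rh6b196f1c110ee57b.shift 1 0), (rh7ac1b2b2096c8b5c.shift 1 2), (rhadc61cfcc7429541.shift 2 1), (rhbe9230fccb3b396f.shift 1 2)] (by decide +kernel))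
noncomputable def rh71f3475996f22689 : CRef := CRef.mk (Pat.mk 0x2c000000000000000000000000 0x60000000e0000007f0000003e0000000f0000000c00000004 8 7) 0 0 (step_sound _ 100 [(rh2cc7d62e70c02209.shift 0 2), (rh61325f73ebf98108.shift 0 3), (rh681e735b6bb0309e.shift 1 0), (rh7654d7b92c96fe12.shift 0 2)] (by decide +kernel))
noncomputable def rhba498bbda112d0e0 : CRef := CRef.mk (Pat.mk 0x1e00000000000000000000000000000000 0x1c0000001c0000003e0000001e0000003f0000000f0000000e00000006 8 6) 0 0 (step_sound _ 97 [rhc30d1df183a2bf3e, (rheb0810cc63b001d8.shift 0 3)] (by decide +kernel))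
noncomputable def rh0f99185f2a41923a : CRef := CRef.mk (Pat.mk 0x2000000160000000000000000000000000000000000000000 0x200000012000000330000001e0000003f0000000f0000000f0000000700000005 8 6) 0 0 (step_sound _ 163 [(rh3244c3cc8379b070.shift 0 5), rh4eec9fcfa5b6666f] (by decide +kernel))
noncomputable def rh85c95a9fd62466b2 : CRef := CRef.mk (Pat.mk 0x2000000160000000000000000 0x380000003c0000003f0000001e0000003800000008 8 6) 0 0 (step_sound _ 67 [(rh3244c3cc8379b070.shift 0 2), (rhaef750f02437a11c.shift 1 0)] (by decide +kernel))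
noncomputable def rhd00276a9c3d83249 : CRef := CRef.mk (Pat.mk 0x80000005800000000000000000000000000000000 0x1c0000005e000000f800000078000000ff0000003c0000003c00000014 8 8) 0 0 (step_sound _ 99 [(rh01393017d91aa7cb.shift 1 2), (rh01533231c0db6873.shift 0 2), (rh2eff739f764ba3f2.shift 2 0), (rh5f4fb9541f0899b7.shift 2 1), (rh92bbf8ef0d3a3f8e.shift 2 1)] (by decide +kernel))
noncomputable def rh7786380084e24498 : CRef := CRef.mk (Pat.mk 0x1e0000000000000000 0x380000003c0000003f0000001e0000003800000008 8 6) 0 0 (step_sound _ 100 [(rh33e738c4ed385b9f.shift 1 2), rhd202a21c8ead8532] (by decide +kernel))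
noncomputable def rh46969be4c1193782 : CRef := CRef.mk (Pat.mk 0x40000000c000000000000000000000000 0xa0000000e0000000e0000000f0000003c0000000e0000007e0000001e0000000e 8 7) 0 0 (step_sound _ 162 [(rh046c5eb18e55a239.shift 2 0), (rh3e53d14085adc43a.shift 1 1), rhc53f6191834a68a2] (by decide +kernel))
noncomputable def rh0aed6362b19df932 : CRef := CRef.mk (Pat.mk 0x80000001800000000000000000000000000000000 0x38000000780000007e0000001f000000ff0000003c0000003c0000000c 8 8) 0 0 (step_sound _ 100 [(rh5d54cb79a67f97ab.shift 3 1), rh63a370b317c6eef5, (rh7e1098702e50f2b0.shift 3 1), (rha09a4bdf51bd196d.shift 1 1), (rha40d42a2e34c408d.shift 3 1)] (by decide +kernel))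
noncomputable def rh14c78ad192d200d4 : CRef := CRef.mk (Pat.mk 0x800000018000000000000000000000000 0x1400000014000001ff000000fe000000ff0000001e000000f80000003800000038 8 9) 0 0 (step_sound _ 68 [(rh5d54cb79a67f97ab.shift 3 0), (rh7e1098702e50f2b0.shift 3 0), (rha09a4bdf51bd196d.shift 1 0), (rha40d42a2e34c408d.shift 3 0), (rhb88cfac1aa1f24f1.shift 0 1)] (by decide +kernel))
noncomputable def rh9d529f931cdd0b7a : CRef := CRef.mk (Pat.mk 0x800000018000000000000000000000000 0x140000001c000001ff000000fe000000ff0000001e000000fc0000003400000010 8 9) 0 0 (step_sound _ 163 [(rh046c5eb18e55a239.shift 3 0), rh2a266492d5739042, (rh3e53d14085adc43a.shift 2 1)] (by decide +kernel))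
noncomputable def rh9c0d066b5a4960d3 : CRef := CRef.mk (Pat.mk 0x800000018000000000000000000000000 0x140000001c000000fc000000ff000001ff0000001c0000001c0000000c0000000c 8 9) 0 0 (step_sound _ 163 [rh1b790f999d554695, (rh7baecf5dc59b5e65.shift 2 0), rhbb07334d551a3f39, (rhbf8c5c56221397de.shift 2 2), (rhfc567835fa4f6359.shift 2 0), (rhfcaeb045b834dc3c.shift 2 2)] (by decide +kernel))
noncomputable def rh2d100bdaddcfe56a : CRef := CRef.mk (Pat.mk 0x80000001800000000000000000000000000000000 0x1c0000003e000000780000001f000000ff0000003c0000003c00000008 8 8) 0 0 (step_sound _ 100 [(rh5d54cb79a67f97ab.shift 3 1), (rh7e1098702e50f2b0.shift 3 1), (rha09a4bdf51bd196d.shift 1 1), (rha40d42a2e34c408d.shift 3 1), rhe6b0a3f9bb451f1c] (by decide +kernel))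
noncomputable def rhe9450d72c6cb3337 : CRef := CRef.mk (Pat.mk 0x800000058000000000000000000000000 0x7e0000007f000000ff000000ff0000005f000000770000003e0000003e 8 8) 0 0 (step_sound _ 132 [rh130dd4e443c97e8c, (rh36080cabe8296630.shift 0 1), (rh6d17955b68f97f96.shift 1 0), (rhe22700c4502bc317.shift 0 1), (rhe65ee1882c1b034c.shift 1 0), (rhfc19f6a9256a705c.shift 0 1), (rhfe11d53f31f0a535.shift 0 1)] (by decide +kernel))
noncomputable def rhf0aedc17e319d692 : CRef := CRef.mk (Pat.mk 0x800000018000000000000000000000000 0x140000001c0000001c0000003c0000000f0000001e0000007f0000001e00000014 8 7) 0 0 (step_sound _ 163 [rh0c30d5127f5de3cf, (rh3e53d14085adc43a.shift 2 1), (rh70e33bfdf511e144.shift 3 0), (rhfcaeb045b834dc3c.shift 2 2)] (by decide +kernel))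
noncomputable def rhcd44122fb01a5032 : CRef := CRef.mk (Pat.mk 0x80000001800000000000000000000000000000000 0xc0000001c000000fc000000ff000001ff0000001f0000000f0000001c0000001c00000014 8 9) 0 0 (step_sound _ 99 [rh1b28da7dafe06dd2, (rh2eff739f764ba3f2.shift 2 0), (rh627406c287e3ae74.shift 0 1), (rh9083ace6d24f7329.shift 0 2), rh92f1b8c52ff18c77, (rhd561be1bbbb08ec2.shift 2 0), (rhf3670f9792a5f0a6.shift 2 0)] (by decide +kernel))
noncomputable def rh20704de0b924940e : CRef := CRef.mk (Pat.mk 0x800000058000000000000000000000000 0x3000000037000000f7000000ff0000005f000000ff0000003f0000003a 8 8) 0 0 (step_sound _ 132 [rh94478234dbc3634b, (rhadc61cfcc7429541.shift 1 0), (rhdad49e6784f7d3ae.shift 0 1), (rhdb70e0edf4b7e7f8.shift 2 0), (rhfaefea0eff220f7d.shift 0 1), (rhfc19f6a9256a705c.shift 0 1)] (by decide +kernel))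
noncomputable def rh222810b20d491de6 : CRef := CRef.mk (Pat.mk 0x200000002800000000000000000000000000000000 0x460000007e0000007f0000003f000000ff000001fe0000005c00000014 8 9) 0 0 (step_sound _ 130 [rh373faaedbcdc0c90, (rh4acbe7133cd1d231.shift 0 3), (rh5bc5f4ab1822bc0a.shift 0 3), (rhc147063861b4d4c8.shift 1 1), (rhe7a687206514a34a.shift 0 3), (rhf4d9a404b9d94320.shift 0 1)] (by decide +kernel))
noncomputable def rh444af100240a2940 : CRef := CRef.mk (Pat.mk 0x2000000028000000000000000000000000 0x140000001c0000007e0000007e0000007f0000003f0000006f0000002e0000000c 8 7) 0 0 (step_sound _ 98 [rh1477e3d1e55059fc, rh379e745e30a7f260, (rh4acbe7133cd1d231.shift 0 2), (rh5bc5f4ab1822bc0a.shift 0 2), (rhc147063861b4d4c8.shift 1 0), (rhe7a687206514a34a.shift 0 2)] (by decide +kernel))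
noncomputable def rhcd72d994b90d26f3 : CRef := CRef.mk (Pat.mk 0x2000000028000000000000000000000000 0x50000000700000007e000001ee000001fe0000003e000000ff0000007c00000054 8 9) 0 0 (step_sound _ 100 [(rh46f4e32c661b103a.shift 0 2), (rh6d379898c1d16ab4.shift 3 0), rheaea8e64852193b7, (rhff7d63dcb3cf9f74.shift 2 3)] (by decide +kernel))
noncomputable def rhe9fab39a9db25901 : CRef := CRef.mk (Pat.mk 0x20000000280000000000000000000000000000000000000000 0x5000000070000001f80000007c000001ef0000003e000000ff0000007e0000005e0000000e0000000a 8 9) 0 0 (step_sound _ 164 [(rh46f4e32c661b103a.shift 0 4), rha594bb166c0e9f07, (rhb12ffaec36122c99.shift 0 4), (rhdad9fe5310dde6bc.shift 2 2)] (by decide +kernel))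
noncomputable def rh3d748cdd6d2ae761 : CRef := CRef.mk (Pat.mk 0x200000002800000000000000000000000000000000 0x140000001c0000001e0000001f0000007e0000003f0000007f0000001c0000001c00000014 8 7) 0 0 (step_sound _ 130 [(rh2f68fb68062f97ae.shift 1 3), rh3a566e2c1ba9c096, (rh4b4620cc4f3ef357.shift 0 1), (rhc147063861b4d4c8.shift 1 1), (rhd19bdf9ae8463a32.shift 0 3), (rhe7a687206514a34a.shift 0 3)] (by decide +kernel))
noncomputable def rh001f26a8c3c019cf : CRef := CRef.mk (Pat.mk 0x400000005000000000000000000000000000000000 0x20000000380000003800000078000007fe000007ff0000077f0000003e0000003c0000003c0000002c 8 11) 0 0 (step_sound _ 164 [(rh35c58704c7e3f344.shift 1 1), (rh4e9d818454e572c5.shift 1 2), (rh584aa89aaab06458.shift 2 1), (rh94990d2df97199fe.shift 1 2), (rha679fa2e1ea1dc01.shift 1 1), (rhc2567e18b4f12e26.shift 1 0), (rhc815848d08250cb6.shift 1 1), (rhce009b2ae93ee86a.shift 1 1), rhd3686a75573b2118] (by decide +kernel))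
noncomputable def rh26426791c93343bc : CRef := CRef.mk (Pat.mk 0x20000000280000000000000000000000000000000000000000 0x3000000070000000740000007c0000003c000003bf000001fe000003fe0000005c0000001c00000014 8 10) 0 0 (step_sound _ 133 [(rh0ba63e0eb1c45b4f.shift 2 2), (rh10c7cc436d962ab8.shift 4 2), (rh3cab9f0bd4d5068b.shift 2 2), (rh4b32f70f066e2c2c.shift 4 2), (rh6446c0b4359eb53c.shift 2 3), (rh94c8daa7091fdc62.shift 2 2), rhb4ee2bb3f1097f7a] (by decide +kernel))
noncomputable def rh178debfed6b0e0c0 : CRef := CRef.mk (Pat.mk 0x1000000014000000000000000000000000 0x280000003f0000007e000000ff000000fc0000001c000000780000003800000028 8 8) 0 0 (step_sound _ 164 [(rh05c31f1ad2fe6ae8.shift 0 2), (rh0b259e32c8942468.shift 1 0), (rh1359922a99d3d421.shift 3 1), (rh38b09ef385272d31.shift 3 0), (rh659eb6aa1e5d49ed.shift 3 0), (rh7863e25d1d742d32.shift 3 1), (rh8b37cb65627f8d57.shift 3 0)] (by decide +kernel))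
noncomputable def rh4d4d423c21325403 : CRef := CRef.mk (Pat.mk 0x80000000a00000000000000000000000000000000000000000 0x40000001f0000001f0000001fc000007fe000007fe00000ebf000003f8000003fc000001700000007000000040 8 12) 0 0 (step_sound _ 197 [(rh10bfcc9782bcb713.shift 1 3), (rh1342f0cb15232885.shift 2 3), (rh1c9f098aba83c7eb.shift 2 2), (rh310949c2165f1151.shift 2 2), (rh3ba193a4622988fb.shift 2 2), (rh7e9b475ca71f914a.shift 2 3), (rh8a04753ead624146.shift 2 1), (rhba75869e61b2b2da.shift 2 1), (rhbdf1032edc5ac5b4.shift 0 2), (rhdeda3a71a319ce9c.shift 2 0), (rhf27a15c6b58f46e5.shift 2 1)] (by decide +kernel))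
noncomputable def rh920b1bf4312e2355 : CRef := CRef.mk (Pat.mk 0x20000000280000000000000000000000000000000000000000 0x68000000fc000001fe0000003e000000ff0000007e0000003e0000000e0000000a 8 9) 0 0 (step_sound _ 164 [(rh46f4e32c661b103a.shift 0 4), (rh5949d64ea9495be4.shift 3 2), rha776f61147d129ad, (rhff7d63dcb3cf9f74.shift 2 5)] (by decide +kernel))
noncomputable def rh060308794567e175 : CRef := CRef.mk (Pat.mk 0x80000000a00000000000000000000000000000000000000000 0x40000001f0000001f0000001f8000007fe000007fe00000ebf000003f8000003fc000001f00000017000000040 8 12) 0 0 (step_sound _ 197 [(rh0f47e97d266d48b8.shift 3 1), (rh1342f0cb15232885.shift 2 3), (rh16010ae752ca89fa.shift 2 1), (rh1c9f098aba83c7eb.shift 2 2), (rh3ba193a4622988fb.shift 2 2), (rh56b912d448a732f3.shift 2 2), (rh6f6db5e7e31b8104.shift 2 0), (rh7e9b475ca71f914a.shift 2 3), (rhbdf1032edc5ac5b4.shift 0 2), (rhc41299aecd9dc9b7.shift 3 1)] (by decide +kernel))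
noncomputable def rhd7911e3005f7f375 : CRef := CRef.mk (Pat.mk 0x280000002000000000000000000000000000000000 0x20000000e0000000e0000002e0000006f0000003f0000007f0000007e0000003e0000001e00000014 8 7) 0 0 (step_sound _ 162 [(rh17ef84de4fc1bdd3.shift 0 2), (rh1976e6a21e904e01.shift 1 2), rh9ca230f0ab55acf5, (rhb04145dc3da226a5.shift 1 2), (rhb34a67f8847d128f.shift 0 4), (rhbf5d9e90d56c2a5f.shift 0 4)] (by decide +kernel))
noncomputable def rh3579050c30e7d845 : CRef := CRef.mk (Pat.mk 0x280000002000000000000000000000000000000000 0x20000001e0000001e0000001e0000007f0000003f0000007f0000001f0000001c0000001c00000014 8 7) 0 0 (step_sound _ 162 [(rh1976e6a21e904e01.shift 1 2), (rh9ff396067a2e3425.shift 0 2), rhafa0fb22fedd584d, (rhb34a67f8847d128f.shift 0 4), (rhbf5d9e90d56c2a5f.shift 0 4), (rhdfa77469688d663b.shift 0 4)] (by decide +kernel))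
noncomputable def rh5d2dc7394b84c1cd : CRef := CRef.mk (Pat.mk 0x50000000400000000000000000000000000000000000000000 0x8000000380000003c0000003e0000077f000007ff000007fe0000007c0000007c0000003800000020 8 11) 0 0 (step_sound _ 164 [(rh00a4e6953a30e0fa.shift 1 2), (rh1885265dbb76d73c.shift 0 2), (rh1a90a1b694b36429.shift 1 0), (rh51eebb07da32d522.shift 1 0), (rh58839649edc53370.shift 1 2), (rh6438e926a9981e2b.shift 1 2), (rh915ca10bbbb8551d.shift 2 1), (rhc63af5372ac2eef8.shift 1 0), (rhc78f887c66795e5a.shift 1 3)] (by decide +kernel))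
noncomputable def rh4deda1a32aaf23f6 : CRef := CRef.mk (Pat.mk 0xa0000000800000000000000000000000000000000 0x140000001e0000001f0000007e0000000e0000007e0000001f0000001e0000001c00000014 8 7) 0 0 (step_sound _ 195 [(rh16588281c517ea5f.shift 0 1), (rh539ce969cf073af4.shift 2 0), (rh7fb85e918b0a04ef.shift 2 1), (rh9935e6d90e5bde1c.shift 0 3), (rhaef13a1c72d4db39.shift 2 2), (rhc5c5b88722b9bb4a.shift 2 2), (rhd091826498b1b626.shift 2 2), (rheac7100a97901a45.shift 2 2)] (by decide +kernel))
noncomputable def rh07143cf590880394 : CRef := CRef.mk (Pat.mk 0xa0000000800000000000000000000000000000000000000000 0x5000000170000001f0000003fc000003fc000000bf000003fe000007fe000003f8000001700000017000000040 8 11) 0 0 (step_sound _ 165 [(rh26788f4d5e86a140.shift 2 2), (rh36b2afc14b11904f.shift 2 2), (rh420fe037e2254944.shift 2 2), (rh4d1bc2efa5fb9a7a.shift 2 1), (rh6915951241de8e98.shift 1 2), (rha0edce5c3f87a048.shift 2 1), (rha9176e8bd3bf4bff.shift 2 1), (rhbf318c5e32be550e.shift 2 2), (rhdc55e488f332d65d.shift 2 1), rhdf7a3a044de904fe]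 (by decide +kernel))
noncomputable def rh2bbb7014b634da8c : CRef := CRef.mk (Pat.mk 0x280000002000000000000000000000000000000000 0x140000001c0000003c0000007f0000003f0000007f0000001f0000001e0000001c00000014 8 7) 0 0 (step_sound _ 162 [(rh8c2bcbc84662fd1d.shift 0 2), rh9a081b46c270d756, (rhb04145dc3da226a5.shift 1 2), (rhb34a67f8847d128f.shift 0 4), (rhbf5d9e90d56c2a5f.shift 0 4), (rheb38467d669bf196.shift 1 2)] (by decide +kernel))
noncomputable def rhd11a8886dd19dbd3 : CRef := CRef.mk (Pat.mk 0x50000000400000000000000000000000000000000000000000 0x8000000380000003c0000003e0000077f000003ff000007fe0000007c0000007c0000003800000020 8 11) 0 0 (step_sound _ 164 [(rh2d3bd21e3bafbde1.shift 1 2), (rh489701bdeea9bb0d.shift 1 2), (rh61059692574bb803.shift 1 0), (rh66f996d1a385b416.shift 1 0), (rh6c6cc136f2e509e9.shift 1 1), (rh7ff2fcb04e113733.shift 1 2), (rh868ae550f97da378.shift 0 2), (rhadd90ec1b7e4b9a1.shift 2 1), (rhc78f887c66795e5a.shift 1 3)] (by decide +kernel))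
noncomputable def rha76a85dade40c96c : CRef := CRef.mk (Pat.mk 0xa0000000800000000000000000000000000000000000000000 0x1000000170000001f0000003f8000003fc000000bf000007fe00000ffe000003f8000001f0000001f000000040 8 12) 0 0 (step_sound _ 165 [(rh1cbeb98d022c59ac.shift 2 2), (rh26788f4d5e86a140.shift 2 2), (rh5fc189ca6e8e0fa4.shift 2 0), (rh6915951241de8e98.shift 1 2), (rh8443d3fc8028cd5d.shift 2 2), (rha47a423e24a662de.shift 2 2), (rha9176e8bd3bf4bff.shift 2 1), (rhada081175e35b8e4.shift 2 1), (rhc51a013d4f425f25.shift 2 0), rhdf7a3a044de904fe, (rhfa47ea0bb77adff7.shift 2 1)] (by decide +kernel))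
noncomputable def rh8d7029784a4e69d4 : CRef := CRef.mk (Pat.mk 0x280000002000000000000000000000000000000000 0x20000000e0000000e0000002e0000006f0000003f0000007f0000007e0000003e0000001e00000014 8 7) 0 0 (step_sound _ 162 [(rh17ef84de4fc1bdd3.shift 0 2), (rh1976e6a21e904e01.shift 1 2), rh5b0c5ae25331cf2e, (rhb04145dc3da226a5.shift 1 2), (rhb34a67f8847d128f.shift 0 4), (rhbf5d9e90d56c2a5f.shift 0 4)] (by decide +kernel))
noncomputable def rh2801d6b4553d65d0 : CRef := CRef.mk (Pat.mk 0x280000002000000000000000000000000000000000 0x20000000e0000005e0000007e000000ff0000003e000000ef0000007c000003fc0000007000000050 8 10) 0 0 (step_sound _ 164 [(rh3918eeb6c53434d8.shift 0 4), (rh7472882c232e68b6.shift 0 2), (rh9b66fad95599b659.shift 2 0)] (by decide +kernel))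
noncomputable def rh312984e7563e4edf : CRef := CRef.mk (Pat.mk 0x28000000200000000000000000000000000000000000000000 0x740000007c0000007f0000003f0000007f0000001f0000001c0000001c0000001c00000010 8 7) 0 0 (step_sound _ 194 [(rh1582a2c6d4305bf2.shift 1 3), rh7f997b98ec8f7dc8, (rhb04145dc3da226a5.shift 1 3), (rhb34a67f8847d128f.shift 0 5), (rhbf5d9e90d56c2a5f.shift 0 5), (rhcb1f19fd607d9b3b.shift 0 3)] (by decide +kernel))
noncomputable def rh7cf5dd353b1b00de : CRef := CRef.mk (Pat.mk 0x500000004000000000000000000000000000000000 0x8000000380000003c0000003e0000077f000003ff000007ff000001fc000000fc00000038 8 11) 0 0 (step_sound _ 132 [(rh489701bdeea9bb0d.shift 1 1), (rh6c5b56bd1b55ed3e.shift 0 1), (rh8285ac142ddcf53a.shift 2 0), (rh8ce9ba267679b9a2.shift 0 1), (rhb6d28de64cab2679.shift 1 1), (rhc376d3f6984b4729.shift 1 0), (rhc78f887c66795e5a.shift 1 2), (rhdfc82522c8f2fa17.shift 1 0)] (by decide +kernel))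
noncomputable def rheee96fe57e149f51 : CRef := CRef.mk (Pat.mk 0x140000001000000000000000000000000000000000 0x20000000380000007e000000fe0000001f0000001800000038000000380000003800000008 8 8) 0 0 (step_sound _ 196 [(rh4bc7847ad16a9a6c.shift 1 0), (rh540efb366f923a10.shift 1 1), (rh57e444a246b909b0.shift 1 0), (rh7e9adb9811e1d021.shift 0 3), (rha58607731c8b4809.shift 3 1), (rhff363d8c8c4d7478.shift 3 1)] (by decide +kernel))
noncomputable def rhd8d6a3868002609f : CRef := CRef.mk (Pat.mk 0xa0000000800000000000000000000000000000000000000000 0x1000000170000003f8000003fc000000bf000007fe00000ffe000003fe000001f0000001f000000040 8 12) 0 0 (step_sound _ 165 [(rh133b0c48bfa5dfcd.shift 2 1), (rh26788f4d5e86a140.shift 2 2), (rh5fc189ca6e8e0fa4.shift 2 0), (rh6915951241de8e98.shift 1 2), (rh8ce9ba267679b9a2.shift 1 2), (rhb40025c0a0622650.shift 2 1), (rhbc1cf032344468bb.shift 2 1), (rhc51a013d4f425f25.shift 2 0), (rhcc3c8986ff8f2848.shift 2 2), (rhd3e3b1e532bd1145.shift 1 1), rhdf7a3a044de904fe, (rhf7809d5b4078cbb5.shift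 2 1)] (by decide +kernel))
noncomputable def rh64eb35b959cf32a5 : CRef := CRef.mk (Pat.mk 0x1e00000000000000000000000000000000 0x8000000380000001e0000003f0000003c0000003800000028 8 6) 0 0 (step_sound _ 164 [(rh33e738c4ed385b9f.shift 1 4), rh4e76119a0f90b270] (by decide +kernel))
noncomputable def rh77f80e7b870274ce : CRef := CRef.mk (Pat.mk 0x1e00000000000000000000000000000000 0x20000000380000003f0000001e00000038000000380000003800000028 8 6) 0 0 (step_sound _ 164 [(rh33e738c4ed385b9f.shift 1 4), rh97f84726613d6bd0] (by decide +kernel))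
noncomputable def rh72b45db31775347b : CRef := CRef.mk (Pat.mk 0x18000000080000000000000000 0x8000000080000001c000000fe000000ff0000001f000000fc000000f800000038 8 8) 0 0 (step_sound _ 132 [rh007ce8f541a4dd92, (rhb83903df68f64be5.shift 1 1), (rhcf80391c5046a495.shift 3 0), (rhf91b1398c815afd2.shift 3 0), (rhf9366b6a121593ef.shift 3 0)] (by decide +kernel))
noncomputable def rh49b57ddc3f095216 : CRef := CRef.mk (Pat.mk 0x18000000080000000000000000 0x80000001c0000003e000000780000001e000000fe000000ff0000007c 8 8) 0 0 (step_sound _ 132 [rh1d7ab9899aa9d0bf, (rhcea81e62409682fe.shift 1 0), (rhcf80391c5046a495.shift 3 0), (rhf91b1398c815afd2.shift 3 0), (rhf9366b6a121593ef.shift 3 0)] (by decide +kernel))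
noncomputable def rh0e26c913af5a411e : CRef := CRef.mk (Pat.mk 0x18000000080000000000000000 0x8000000080000001c000000fe000000ff0000001f000000fc0000002c0000000c 8 8) 0 0 (step_sound _ 132 [rh5028a1f3310dfb11, (rhb83903df68f64be5.shift 1 1), (rhcf80391c5046a495.shift 3 0), (rhf91b1398c815afd2.shift 3 0), (rhf9366b6a121593ef.shift 3 0)] (by decide +kernel))
noncomputable def rh3464ecff4a0b25ef : CRef := CRef.mk (Pat.mk 0x58000000080000000000000000 0x40000001c000000fc000000ff0000005f000001ff000000ff000001f4 8 9) 0 0 (step_sound _ 131 [rh052fd0a29d70a53b, (rh6bf66c1a8fb23f9f.shift 2 0), (rh6fff746d444c4500.shift 0 1), rha3c6d66dc4ea5856, (rhb0a86dd39b2e7e82.shift 2 0), (rhdb9dc36888886841.shift 0 1)] (by decide +kernel))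
noncomputable def rh7b4337875938f615 : CRef := CRef.mk (Pat.mk 0x180000000800000000000000000000000000000000 0x80000001c000000fc000000ff0000001f000000180000001c0000001c0000001c00000014 8 8) 0 0 (step_sound _ 99 [(rh63c30510f8bda0bd.shift 0 2), (rhe3458ab40071103b.shift 3 2), (rhfa50cc73c689e7d7.shift 2 0), (rhffb8e5993241bf15.shift 2 0)] (by decide +kernel))
noncomputable def rh9aeff74a1c2d5c66 : CRef := CRef.mk (Pat.mk 0x5800000008000000000000000000000000 0x1600000016000000570000005f000000ff000001ff000000ff0000003e 8 9) 0 0 (step_sound _ 100 [rh0f9c9a617a2afb2d, (rh1d5d962df521aa98.shift 2 0), rhb159070662f3df95, rhbbd6d51c8a25a031, rhd2cb70fd6423faa2, rhdf5750bf31eb091d] (by decide +kernel))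
noncomputable def rh64d7af9b6be58e2a : CRef := CRef.mk (Pat.mk 0x5800000008000000000000000000000000 0x140000001c0000003c0000004f0000005f000001ff000000ff000001fc0000001c 8 9) 0 0 (step_sound _ 163 [rh0d790ee08af088b3, (rh5326b160420f0573.shift 2 0), rh627d570d541a9d97, (rh6bf66c1a8fb23f9f.shift 2 1), rhb57550b05b3bb00e, (rhc6883ffbcf192217.shift 0 2), (rhdb9dc36888886841.shift 0 2), (rhff363d8c8c4d7478.shift 2 0)] (by decide +kernel))
noncomputable def rh30fc9921ce5b6c23 : CRef := CRef.mk (Pat.mk 0xb00000001000000000000000000000000000000000 0x3c0000007e000000ff000000be000001fe000003ee0000007c0000007c00000040 8 10) 0 0 (step_sound _ 133 [(rh124dedbe502a5859.shift 1 1), (rh1643904ba7964336.shift 2 0), (rh8e683bd0fb707dca.shift 1 1), (rha41d429ce4a0acfc.shift 3 1), (rhc0436283112e2546.shift 2 1), (rhd08f5fc1c890a33d.shift 0 1), (rhdf5750bf31eb091d.shift 1 1)] (by decide +kernel))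
noncomputable def rhf7acf1b6caf8cf04 : CRef := CRef.mk (Pat.mk 0x1e000000000000000000000000 0x80000003800000038000000300000003f0000001e000000380000001800000018 8 6) 0 0 (step_sound _ 132 [(rh33e738c4ed385b9f.shift 1 3), rh77cc63cbc6b47681] (by decide +kernel))
noncomputable def rh6bcccd416ed8ea8e : CRef := CRef.mk (Pat.mk 0x38000000000000000000000000 0x30000000700000003e0000007f0000007000000070 8 7) 0 0 (step_sound _ 98 [(rh7654d7b92c96fe12.shift 0 2), (rh8195a2d7794c7cd2.shift 0 2), (rhf459621b93742302.shift 1 0), (rhf6234c0fb4a945c7.shift 1 0)] (by decide +kernel))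
noncomputable def rhd36d5537292d4aa7 : CRef := CRef.mk (Pat.mk 0x38000000000000000000000000 0x40000000700000007000000030000000770000003e000000700000003000000030 8 7) 0 0 (step_sound _ 98 [(rh2ba551de881ca4cd.shift 0 2), (rh61325f73ebf98108.shift 0 3), (rhc0a291daad77d9bb.shift 1 0), (rhf459621b93742302.shift 1 0)] (by decide +kernel))
noncomputable def rh920dbecabbaf3ef0 : CRef := CRef.mk (Pat.mk 0x1700000000000000000000000000000000000000000 0x20000000780000007c0000017e00000170000003ff000003fe000003ff000000f8000000f8 8 10) 0 0 (step_sound _ 101 [(rh03ae4a0feef9ef00.shift 2 1), (rh46a4d06ff216e102.shift 2 1), (rh57000847f552c14d.shift 1 0), (rh5895c063dc793910.shift 2 1), rh8186804aad147256, (rh8a4232e60fe23855.shift 4 0), (rh8f59ad0a949b6215.shift 1 0), (rhbdeb335c4adc04ae.shift 1 0), (rhbfb2d03f82d52912.shift 2 0), (rheb5938650e5e6c94.shift 2 1), (rhf0bf6bb85c295503.shift 1 0)] (by decide +kernel))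
noncomputable def rh01b512450216e75b : CRef := CRef.mk (Pat.mk 0x1e0000000000000000000000000000000000000000 0x1800000018000000380000001e0000003f00000030000000380000003800000008 8 6) 0 0 (step_sound _ 129 [(rhe2967b0de452663a.shift 1 0), (rheb0810cc63b001d8.shift 0 4)] (by decide +kernel))
noncomputable def rhb48176701a15526e : CRef := CRef.mk (Pat.mk 0x1e0000000000000000000000000000000000000000 0x1800000018000000380000001e0000003f00000030000000380000003800000008 8 6) 0 0 (step_sound _ 132 [rh38f9fead370d8199, (rhe25b0a99195a5d59.shift 1 4)] (by decide +kernel))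
noncomputable def rh9f5baa311565437e : CRef := CRef.mk (Pat.mk 0x380000000000000000000000000000000000000000 0x1000000030000000700000003e0000007700000030000000700000007000000050 8 7) 0 0 (step_sound _ 162 [(rh07d26ee7e473bdcd.shift 1 0), (rh7654d7b92c96fe12.shift 0 4), (rh8195a2d7794c7cd2.shift 0 4), (rhf459621b93742302.shift 1 2)] (by decide +kernel))
noncomputable def rh45e491d361a701a1 : CRef := CRef.mk (Pat.mk 0x38000000000000000000000000 0x60000000700000007f0000003e000000700000003000000030 8 7) 0 0 (step_sound _ 98 [(rh2ba551de881ca4cd.shift 0 2), (rh61325f73ebf98108.shift 0 3), (rhcf1cdc5714ee04b2.shift 1 0), (rhf459621b93742302.shift 1 0)] (by decide +kernel))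
noncomputable def rh466a7bdce49160ef : CRef := CRef.mk (Pat.mk 0x1700000000000000000000000000000000000000000 0xf8000000f8000003ff000001fe000003ff000001700000017c0000007c000000780000003000000010 8 10) 0 0 (step_sound _ 229 [(rh0a2435bd8fcf76b8.shift 1 4), (rh26f81f7111dea5f8.shift 2 2), (rh3504c30bae3234a0.shift 2 2), rh5068a88c319a09a9, (rh5931c2af4591d378.shift 4 1), (rh59a403933b3ddca7.shift 2 1), (rh6d0d6938614c637f.shift 2 2), (rh940b7b6dae7b247c.shift 3 2), (rhaa043f8c3cb9aa0d.shift 1 2), (rhe3967c310d4a6a7b.shift 2 2)] (by decide +kernel))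
noncomputable def rh17ac6a27be26787e : CRef := CRef.mk (Pat.mk 0x800000018000000000000000000000000 0x1c0000007c0000007c0000001f0000001c0000001c0000001800000018 8 7) 0 0 (step_sound _ 163 [(rh046c5eb18e55a239.shift 3 0), (rh70e33bfdf511e144.shift 3 0), (rh88cfda4d56a335b9.shift 2 2), rhed20782681f31130] (by decide +kernel))
noncomputable def rh211ae9974b67fb02 : CRef := CRef.mk (Pat.mk 0x8000000180000000000000000000000000000000000000000 0x1800000038000000780000001f000000ff000000fe0000001c0000000c00000008 8 8) 0 0 (step_sound _ 132 [(rh1caa57c2ae0a5062.shift 1 0), (rh5d54cb79a67f97ab.shift 3 2), (rh7e1098702e50f2b0.shift 3 2), (rha40d42a2e34c408d.shift 3 2), (rhe385978c74d55a89.shift 0 1)] (by decide +kernel))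
noncomputable def rh265d90f55a52fe9e : CRef := CRef.mk (Pat.mk 0x80000001800000000000000000000000000000000 0x7c0000007c0000007e0000001e000000f80000003f0000001c0000000c 8 8) 0 0 (step_sound _ 100 [(rh224ff5984720dd01.shift 1 0), rh30ae9d68a04031e8, (rh5d54cb79a67f97ab.shift 3 1), (rh7e1098702e50f2b0.shift 3 1), (rha40d42a2e34c408d.shift 3 1)] (by decide +kernel))
noncomputable def rh196daaa454ca28ea : CRef := CRef.mk (Pat.mk 0x8000000180000000000000000000000000000000000000000 0xc0000002c0000007c0000001f000000ff000000ff0000001c0000000c00000008 8 8) 0 0 (step_sound _ 132 [(rh1caa57c2ae0a5062.shift 1 0), (rh5d54cb79a67f97ab.shift 3 2), (rh7e1098702e50f2b0.shift 3 2), (rh898136f825975b5e.shift 0 1), (rha40d42a2e34c408d.shift 3 2)] (by decide +kernel))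
noncomputable def rhd44ecd828cce7981 : CRef := CRef.mk (Pat.mk 0x80000005800000000000000000000000000000000 0x740000007f000001ff0000005f000000ff000000ff000001dc00000014 8 9) 0 0 (step_sound _ 99 [(rh1c26a7054dfeca18.shift 2 0), (rh5bf81029d00aad4a.shift 0 2), (rh6beee22691896d95.shift 2 1), (rhb8d2236ec74c0423.shift 2 0), (rhd33666284aa5c7c2.shift 2 0), rhf832d97cb051cea3] (by decide +kernel))
noncomputable def rh830d1784c2b1e9e4 : CRef := CRef.mk (Pat.mk 0x800000018000000000000000000000000 0x140000001c0000001c0000001c000000180000001f000000ff000000fc0000001c 8 8) 0 0 (step_sound _ 163 [(rh046c5eb18e55a239.shift 3 0), (rh3e53d14085adc43a.shift 2 1), rh6f76b1492727862d] (by decide +kernel))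
noncomputable def rh37109b5c4e021565 : CRef := CRef.mk (Pat.mk 0x800000058000000000000000000000000 0x3e0000007f000000ff000000ff0000005f000000570000005600000016 8 8) 0 0 (step_sound _ 132 [rh11a54f0a51251379, (rh15028c999a56c13a.shift 0 1), (rh36080cabe8296630.shift 0 1), (rh6d17955b68f97f96.shift 1 0), (rh7deda32317b894cc.shift 0 1), rhdeb8d3a5a0d67e09] (by decide +kernel))
noncomputable def rh594ab2131e14322c : CRef := CRef.mk (Pat.mk 0x800000018000000000000000000000000 0x140000001c0000001c0000003c0000000f0000001f000000ff000000fc00000014 8 8) 0 0 (step_sound _ 163 [(rh3e53d14085adc43a.shift 2 1), (rh70e33bfdf511e144.shift 3 0), rhb86aa67ff090ccf5, (rhfcaeb045b834dc3c.shift 2 2)] (by decide +kernel))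
noncomputable def rhb20d93bb7b61ffcf : CRef := CRef.mk (Pat.mk 0x80000005800000000000000000000000000000000 0x80000001c0000007c000000ff000001ff0000005f0000004f0000001c0000001c00000014 8 9) 0 0 (step_sound _ 99 [(rh16cb91c014a02b46.shift 0 2), (rh2eff739f764ba3f2.shift 2 0), (rh4433d9e97bd63e9f.shift 0 1), (rh582702acabec4d54.shift 0 1), (rh6beee22691896d95.shift 2 1), rh92f1b8c52ff18c77, (rhd33666284aa5c7c2.shift 2 0)] (by decide +kernel))
noncomputable def rh6264763b47fa2313 : CRef := CRef.mk (Pat.mk 0x10000000b0000000000000000000000000 0x7c0000007c000001ee000001fe000000be000001ff000000fe0000003c 8 9) 0 0 (step_sound _ 133 [(rh03f852291cd24f8c.shift 2 1), (rh15028c999a56c13a.shift 1 1), (rh2913f65f8e032e38.shift 1 1), (rh6a56bcc9771b46fc.shift 1 0), (rhadc61cfcc7429541.shift 2 0), (rhb78eee6dc686c806.shift 3 0), rhbbe21d25a5ed0a1a] (by decide +kernel))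
noncomputable def rhdb45a5fbddba3a1d : CRef := CRef.mk (Pat.mk 0x20000000280000000000000000000000000000000000000000 0x100000001c0000001c0000001c0000001f0000007e0000003f0000007f0000001e0000001e0000000e0000000a 8 7) 0 0 (step_sound _ 162 [(rh2ec784cc0874aec2.shift 0 2), (rh2f68fb68062f97ae.shift 1 4), (rh30c017f1ffbb3c60.shift 1 0), rh4d3383f81f8fc093, (rhd19bdf9ae8463a32.shift 0 4), (rhe7a687206514a34a.shift 0 4)] (by decide +kernel))
noncomputable def rh5eb4e5400dfc69a5 : CRef := CRef.mk (Pat.mk 0x400000005000000000000000000000000000000000 0x38000000f8000001f8000007fe000003ff0000077f0000003e0000003c0000003c00000004 8 11) 0 0 (step_sound _ 164 [rh4cf533533e6263e1, (rh7ac7f6b0d27adfa7.shift 2 1), (rh7b7e7a784199761b.shift 1 1), (rh87381d811f2b472e.shift 1 1), (rh8e58e2a07ac23d3c.shift 1 2), (rh94990d2df97199fe.shift 1 2), (rhc815848d08250cb6.shift 1 1), (rhd9bf4cba85dbdae6.shift 1 1), (rhfd4da42d00b0b227.shift 1 1)] (by decide +kernel))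
noncomputable def rh99eee94e2a187053 : CRef := CRef.mk (Pat.mk 0x100000001400000000000000000000000000000000 0x8000000380000003800000038000000180000001f000000fe0000007e0000003800000020 8 8) 0 0 (step_sound _ 100 [(rh7cde007d2907bcbe.shift 1 2), (rhc9a9bfc18426107e.shift 1 0), rhe303bc12e8227416, (rhe594ffdc6378d8a4.shift 1 1), (rheac7100a97901a45.shift 3 1), (rhf237fec569adc1e2.shift 3 1)] (by decide +kernel))
noncomputable def rh782bed750f50552b : CRef := CRef.mk (Pat.mk 0x80000000a000000000000000000000000000000000 0x40000001f0000001f0000001fe000007fe000007fe00000ebf000003f8000003fc0000017000000010 8 12) 0 0 (step_sound _ 165 [(rh01c408a926be9c16.shift 1 1), (rh10bfcc9782bcb713.shift 1 2), (rh19d73b500922ee06.shift 2 0), (rh1c9f098aba83c7eb.shift 2 1), (rh3ba193a4622988fb.shift 2 1), (rh6432c394b30701bd.shift 3 0), (rh7e9b475ca71f914a.shift 2 2), (rh93f6627d7769c0f4.shift 2 1), (rh9d0ae57aae036793.shift 0 1), (rhca057d62bd152e82.shift 2 1), (rhe8df4606a83b970c.shift 2 1)] (by decide +kernel))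
noncomputable def rh3036dcb736b58116 : CRef := CRef.mk (Pat.mk 0x400000005000000000000000000000000000000000 0x20000000380000003800000078000007fe000007ff0000077f0000003e0000003c0000003c0000002c 8 11) 0 0 (step_sound _ 164 [(rh35c58704c7e3f344.shift 1 1), (rh48e89ce31b39c8c3.shift 1 1), (rh4e9d818454e572c5.shift 1 2), (rh584aa89aaab06458.shift 2 1), (rh94990d2df97199fe.shift 1 2), (rh9da3b226075103c0.shift 1 0), rha9053045bcb0d4af, (rhbed05b9d2036dda1.shift 1 1), (rhc815848d08250cb6.shift 1 1)] (by decide +kernel))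
noncomputable def rh44e227bcd93deb0a : CRef := CRef.mk (Pat.mk 0x80000000a00000000000000000000000000000000000000000 0x40000001f0000001f0000001f8000007fe000007fe00000ebf000003f8000003f8000001f00000017000000010 8 12) 0 0 (step_sound _ 197 [(rh10bfcc9782bcb713.shift 1 3), (rh1342f0cb15232885.shift 2 3), (rh16010ae752ca89fa.shift 2 1), (rh1c9f098aba83c7eb.shift 2 2), (rh22b4591c0a4da09a.shift 2 2), (rh24669036c01597e0.shift 3 1), (rh3ba193a4622988fb.shift 2 2), (rh5d50916b924e3cd5.shift 2 1), (rh7e9b475ca71f914a.shift 2 3), (rh9d0ae57aae036793.shift 0 2), (rhb1277502d7c7ed16.shift 2 0)] (by decide +kernel))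
noncomputable def rh87b390558e035054 : CRef := CRef.mk (Pat.mk 0x280000002000000000000000000000000000000000 0x20000001e0000001e0000001e0000007f0000003f0000007f0000001f0000001c0000001c00000014 8 7) 0 0 (step_sound _ 162 [(rh1976e6a21e904e01.shift 1 2), (rh9ff396067a2e3425.shift 0 2), (rhb34a67f8847d128f.shift 0 4), (rhbf5d9e90d56c2a5f.shift 0 4), rhd924bd7f2a1c106e, (rhdfa77469688d663b.shift 0 4)] (by decide +kernel))
noncomputable def rh5246a30d9370c9ca : CRef := CRef.mk (Pat.mk 0x500000004000000000000000000000000000000000 0x380000003c0000003e0000077f000007ff000007fe000001fc000000fc00000038 8 11) 0 0 (step_sound _ 132 [(rh1d9c64df42580f2e.shift 1 1), (rh6fc705e461879596.shift 1 0), (rh7bb0fac04a8e5cce.shift 1 1), (rh8115e28e85126967.shift 1 1), (rhc78f887c66795e5a.shift 1 2), (rhe1bead3c6a8aa02a.shift 0 1), (rhe488398b094e95c8.shift 1 1), (rhf796f23d57c39ac7.shift 2 0)] (by decide +kernel))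
noncomputable def rhd721fa001247feec : CRef := CRef.mk (Pat.mk 0x280000002000000000000000000000000000000000 0x140000005c0000007c000000ff000000ff0000002f000000fe000001ff000000fe0000005c00000054 8 9) 0 0 (step_sound _ 131 [rh0a61631f36a028e4, (rh26788f4d5e86a140.shift 0 1), (rh36b2afc14b11904f.shift 0 1), (rh7bb0fac04a8e5cce.shift 0 1), rh96a710af26690d6a, rh994c9af0e7568e60, (rha3ae8e4751befc16.shift 0 1), rhab945b88f6983fcd, rhd2e124f5b96cae3d, (rhe5482cf45c42b97f.shift 0 1)] (by decide +kernel))
noncomputable def rh9336291fd1ba9155 : CRef := CRef.mk (Pat.mk 0x280000002000000000000000000000000000000000 0x60000000780000007c000000ff0000003e000001ff000000fe0000006e0000000e0000000a 8 9) 0 0 (step_sound _ 164 [rh2561a17dd43beb7c, (rh8bc3327fa6faac05.shift 3 2), (rhc21a95c499b3efdb.shift 2 4)] (by decide +kernel))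
noncomputable def rhe59db682f1f968f8 : CRef := CRef.mk (Pat.mk 0x280000002000000000000000000000000000000000 0x40000002c0000006f0000003f0000007f0000007e0000003e0000001e00000014 8 7) 0 0 (step_sound _ 162 [(rh324215630cdd7969.shift 0 2), rh772451f577c2b3fb, (rhb04145dc3da226a5.shift 1 2), (rhb34a67f8847d128f.shift 0 4), (rhbf5d9e90d56c2a5f.shift 0 4), (rhbfc653101c0a5384.shift 1 2)] (by decide +kernel))
noncomputable def rh0d6b12483ca693fa : CRef := CRef.mk (Pat.mk 0x280000002000000000000000000000000000000000 0x580000007c000000ff0000003e000001ff000000ee0000007e0000007e0000005a 8 9) 0 0 (step_sound _ 164 [rh2561a17dd43beb7c, (rh5a751a1e6d9b8c5b.shift 2 0), (rhc21a95c499b3efdb.shift 2 4)] (by decide +kernel))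
noncomputable def rh4ea7b08086b5c0e1 : CRef := CRef.mk (Pat.mk 0x280000002000000000000000000000000000000000 0x580000007c000000ff0000003e000000ef0000007e000003fe0000007e0000005a 8 10) 0 0 (step_sound _ 164 [rh2561a17dd43beb7c, (rh3918eeb6c53434d8.shift 0 4), (rh855eb102cd8b6316.shift 2 0)] (by decide +kernel))
noncomputable def rhbf740c61d3f1af12 : CRef := CRef.mk (Pat.mk 0x280000002000000000000000000000000000000000 0x140000001c0000003c0000007f0000003f0000007f0000001f0000001e0000001c00000014 8 7) 0 0 (step_sound _ 162 [(rh324215630cdd7969.shift 0 2), (rhb04145dc3da226a5.shift 1 2), (rhb34a67f8847d128f.shift 0 4), (rhbf5d9e90d56c2a5f.shift 0 4), (rhbfc653101c0a5384.shift 1 2), rhe49479676b895ce1] (by decide +kernel))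
noncomputable def rh80f0c5c50e8d5f6e : CRef := CRef.mk (Pat.mk 0x140000001000000000000000000000000000000000 0x28000000380000007e000000fe0000001f0000001800000038000000380000003800000008 8 8) 0 0 (step_sound _ 196 [(rh131b19269d79d13d.shift 1 1), (rh14332322a797c1bd.shift 0 3), (rh35130dd27eedee58.shift 1 0), rh6dda7093be021bad, (rhaef13a1c72d4db39.shift 3 2), (rhf3464aed381aaf11.shift 0 2), (rhff363d8c8c4d7478.shift 3 1)] (by decide +kernel))
noncomputable def rh90049ff9cde2803f : CRef := CRef.mk (Pat.mk 0x50000000400000000000000000000000000000000000000000 0x8000000380000003c0000003e0000077f000003ff000007ff0000007c0000007c0000003800000020 8 11) 0 0 (step_sound _ 164 [(rh00a4e6953a30e0fa.shift 1 2), (rh16fb5d56bd5c2716.shift 1 2), (rh1885265dbb76d73c.shift 0 2), (rh3bc26c7725fb7aa0.shift 1 0), (rh6c6cc136f2e509e9.shift 1 1), (rhadd90ec1b7e4b9a1.shift 2 1), (rhc78f887c66795e5a.shift 1 3), (rhf0764f7b1cf8648d.shift 0 2)] (by decide +kernel))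
noncomputable def rh5ffd125d360878fb : CRef := CRef.mk (Pat.mk 0xa0000000800000000000000000000000000000000 0x140000001e0000001f0000007e0000000e0000007e0000001f0000001e0000001c00000014 8 7) 0 0 (step_sound _ 195 [(rh16588281c517ea5f.shift 0 1), (rh4dc2891f3a21ef79.shift 2 0), (rh7fb85e918b0a04ef.shift 2 1), (rh9935e6d90e5bde1c.shift 0 3), (rhaef13a1c72d4db39.shift 2 2), (rhc5c5b88722b9bb4a.shift 2 2), (rhd091826498b1b626.shift 2 2)] (by decide +kernel))
noncomputable def rh892c60f63ec9fff4 : CRef := CRef.mk (Pat.mk 0xa0000000800000000000000000000000000000000000000000 0x150000001f0000003f8000003fc000000bf000007fe00000ffe000003f8000001f0000001f000000040 8 12) 0 0 (step_sound _ 165 [(rh1cbeb98d022c59ac.shift 2 2), (rh26788f4d5e86a140.shift 2 2), (rh5fc189ca6e8e0fa4.shift 2 0), (rh6915951241de8e98.shift 1 2), (rh8443d3fc8028cd5d.shift 2 2), (rha59f96ee0c0fef5c.shift 2 1), (rha9176e8bd3bf4bff.shift 2 1), (rhada081175e35b8e4.shift 2 1), (rhc51a013d4f425f25.shift 2 0), rhdf7a3a044de904fe, (rhf0764f7b1cf8648d.shift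 1 2), (rhfa47ea0bb77adff7.shift 2 1)] (by decide +kernel))
noncomputable def rh83e7bef257d4699f : CRef := CRef.mk (Pat.mk 0x28000000200000000000000000 0x300000007c000000ff0000003e000001ff000000fe0000007e 8 9) 0 0 (step_sound _ 100 [(rh3918eeb6c53434d8.shift 0 2), rh3ee8aebf0424abab, (rh88c1097e3dbb1bde.shift 3 0), (rhc21a95c499b3efdb.shift 2 2)] (by decide +kernel))
noncomputable def rh40cf94cfe6938c7e : CRef := CRef.mk (Pat.mk 0x28000000200000000000000000000000000000000000000000 0x700000007c000000ff0000003e000001ff0000007e0000006e000000700000007000000050 8 9) 0 0 (step_sound _ 196 [(rh17099cb433208f0e.shift 3 0), (rh3918eeb6c53434d8.shift 0 5), (rh3ee8aebf0424abab.shift 0 3), (rhc21a95c499b3efdb.shift 2 5)] (by decide +kernel))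
noncomputable def rhff741d363d2957d2 : CRef := CRef.mk (Pat.mk 0x280000002000000000000000000000000000000000 0x40000002c0000006f0000003f0000007f0000007e0000003e0000001e00000014 8 7) 0 0 (step_sound _ 162 [rh886216c36adf9506, (rh8c2bcbc84662fd1d.shift 0 2), (rhb04145dc3da226a5.shift 1 2), (rhb34a67f8847d128f.shift 0 4), (rhbf5d9e90d56c2a5f.shift 0 4), (rheb38467d669bf196.shift 1 2)] (by decide +kernel))
noncomputable def rh2b4d592fb4571a68 : CRef := CRef.mk (Pat.mk 0x280000002000000000000000000000000000000000 0x500000007c000000ff0000003e000001ff000000ee0000007e0000007000000050 8 9) 0 0 (step_sound _ 164 [(rh152f160265326a5b.shift 2 0), (rh3918eeb6c53434d8.shift 0 4), (rh3ee8aebf0424abab.shift 0 2), (rhc21a95c499b3efdb.shift 2 4)] (by decide +kernel))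
noncomputable def rh22ec1d3e2ee4e71c : CRef := CRef.mk (Pat.mk 0x280000002000000000000000000000000000000000 0x100000007000000070000000fe000000ff0000003e000000e70000007c000003f00000007000000050 8 10) 0 0 (step_sound _ 164 [(rh3918eeb6c53434d8.shift 0 4), (rh92a2326ee77790d5.shift 0 1), (rh9b66fad95599b659.shift 2 0)] (by decide +kernel))
noncomputable def rha60869fd754661f0 : CRef := CRef.mk (Pat.mk 0x280000002000000000000000000000000000000000 0x10000000140000003c0000007f0000003f0000007f0000001f0000001e0000001c00000014 8 7) 0 0 (step_sound _ 162 [(rh8c2bcbc84662fd1d.shift 0 2), (rhb04145dc3da226a5.shift 1 2), (rhb34a67f8847d128f.shift 0 4), rhb990883b07627d19, (rhbf5d9e90d56c2a5f.shift 0 4), (rheb38467d669bf196.shift 1 2)] (by decide +kernel))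
noncomputable def rha13442418db6e2bc : CRef := CRef.mk (Pat.mk 0x140000001000000000000000000000000000000000 0x2800000038000000fc000000fe0000001f0000001800000038000000380000003800000008 8 8) 0 0 (step_sound _ 196 [(rh11e3abf1a551dd49.shift 0 3), (rh131b19269d79d13d.shift 1 1), (rh35130dd27eedee58.shift 1 0), rh6dda7093be021bad, (rhaef13a1c72d4db39.shift 3 2), (rhf3464aed381aaf11.shift 0 2), (rhff363d8c8c4d7478.shift 3 1)] (by decide +kernel))
noncomputable def rh99d7c846aa83a939 : CRef := CRef.mk (Pat.mk 0x500000004000000000000000000000000000000000 0x280000003c0000003e0000077f000003ff000007ff000001fc000000fc00000038 8 11) 0 0 (step_sound _ 132 [(rh12bb0f3f0459638c.shift 1 1), (rh24f1059334497f00.shift 1 1), rh2637b26db8d99300, (rh46f361defa87074f.shift 0 1), (rh68925d118bd867a6.shift 0 1), (rh7c3147606e292a12.shift 1 0), (rhc78f887c66795e5a.shift 1 2), (rhe7d3c2efb5ca0c24.shift 2 0)] (by decide +kernel))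
noncomputable def rhc5900089fa5de4c5 : CRef := CRef.mk (Pat.mk 0xa0000000800000000000000000000000000000000 0x140000001c0000007e0000007f0000000e0000007e0000001f0000001e0000001c00000014 8 7) 0 0 (step_sound _ 195 [(rh16588281c517ea5f.shift 0 1), (rh4dc2891f3a21ef79.shift 2 0), (rh7fb85e918b0a04ef.shift 2 1), (rh9d1a9d0b9f6d308c.shift 0 3), (rhaef13a1c72d4db39.shift 2 2), (rhc5c5b88722b9bb4a.shift 2 2), (rhd091826498b1b626.shift 2 2)] (by decide +kernel))
noncomputable def rh459cf7f9fddd359e : CRef := CRef.mk (Pat.mk 0xa0000000800000000000000000000000000000000000000000 0x140000001d0000003f8000001fc000000bf000007fe00000ffe000003f8000001f0000001f000000040 8 12) 0 0 (step_sound _ 165 [(rh1cbeb98d022c59ac.shift 2 2), (rh26788f4d5e86a140.shift 2 2), (rh5fc189ca6e8e0fa4.shift 2 0), (rh68925d118bd867a6.shift 1 2), (rh6915951241de8e98.shift 1 2), (rh83b3dfe1fc5a9bb4.shift 2 1), (rh8ad68f3832b4679a.shift 2 1), (rh9873656fd63afd7d.shift 2 1), (rha9176e8bd3bf4bff.shift 2 1), (rhc51a013d4f425f25.shift 2 0), rhdf7a3a044de904fe,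 (rhe6129f34a3cf383c.shift 2 1)] (by decide +kernel))
noncomputable def rh696d4a839c70968b : CRef := CRef.mk (Pat.mk 0x1600000004000000000000000000000000 0x200000012000000370000001e0000003f0000000f0000000e00000002 8 6) 0 0 (step_sound _ 131 [(rh44cb360f95bc185f.shift 0 1), (rhb9dd680bb9375a9f.shift 0 1), rhf4f1a03a19e2b36a] (by decide +kernel))
noncomputable def rh9bc04572187f3d26 : CRef := CRef.mk (Pat.mk 0x2c000000080000000000000000 0x34000000340000007f0000003e000000780000002800000008 8 7) 0 0 (step_sound _ 100 [(rh0d378fd9e8917c5a.shift 0 2), (rh44cb360f95bc185f.shift 1 0), (rh61325f73ebf98108.shift 0 3), (rhca6596562b0ddccc.shift 1 1)] (by decide +kernel))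
noncomputable def rh92e9255e4f35144f : CRef := CRef.mk (Pat.mk 0x2c00000008000000000000000000000000 0x20000000780000003e0000007f000000160000001400000004 8 7) 0 0 (step_sound _ 132 [(rh008b05f4778dc30d.shift 0 3), (rh7654d7b92c96fe12.shift 0 3), (rhf459621b93742302.shift 1 1), (rhf4f1a03a19e2b36a.shift 1 0)] (by decide +kernel))
noncomputable def rh60ce05e571cda9fb : CRef := CRef.mk (Pat.mk 0xc0000000800000000000000000000000000000000 0x140000003c0000000f0000007e0000007f0000001f0000001c00000014 8 7) 0 0 (step_sound _ 99 [(rh27b44a0202980be0.shift 2 1), (rh37202afd7792e215.shift 0 2), (rh43d8dfd721575dfb.shift 2 0), (rh7b24c4ccc068b0b2.shift 2 2), (rhf770a1ddfcf5c7ee.shift 2 0)] (by decide +kernel))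
noncomputable def rhac77d30938c0ae2d : CRef := CRef.mk (Pat.mk 0x300000002000000000000000000000000000000000 0x1c0000005e000000fe0000003e000001ff0000007e000000fc0000001800000010 8 9) 0 0 (step_sound _ 196 [(rh234adedb3e18a3e2.shift 0 1), (rh571ace313951d339.shift 1 0), (rh5d54cb79a67f97ab.shift 4 2), (rh7e1098702e50f2b0.shift 4 2), (rha40d42a2e34c408d.shift 4 2)] (by decide +kernel))
noncomputable def rh9db91f3cd8f2fc13 : CRef := CRef.mk (Pat.mk 0x100000001000000010000000000000000000000000 0x280000003800000018000000ff0000007e0000003f00000028 8 8) 0 0 (step_sound _ 68 [(rh134ee81b617cfeb2.shift 0 1), (rh46baee19951a66e7.shift 3 0), (rh6aa5625770489e83.shift 3 0), (rh8cdd36b03d57a2f6.shift 3 0)] (by decide +kernel))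
noncomputable def rhbb395e5519ebd7e8 : CRef := CRef.mk (Pat.mk 0x50000000100000001000000000 0x2f0000003e0000007f000001fc000000fe000001ee 8 9) 0 0 (step_sound _ 132 [(rh57351527dddcec7c.shift 2 0), (rh77d1822807ac3f6c.shift 1 0), (rhd79fbfddc2878951.shift 0 1)] (by decide +kernel))
noncomputable def rhcc451419551223b1 : CRef := CRef.mk (Pat.mk 0x380000000800000000000000000000000000000000 0x30000000340000003e00000038000000ff000000f8000000f80000001000000010 8 8) 0 0 (step_sound _ 196 [rh12d363ba0c3f5049, (rh49e8f417b3c56c2d.shift 1 1), (rhcf80391c5046a495.shift 3 2), (rhf91b1398c815afd2.shift 3 2), (rhf9366b6a121593ef.shift 3 2)] (by decide +kernel))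
noncomputable def rh81aca4846109d13b : CRef := CRef.mk (Pat.mk 0x280000000800000000000000000000000000000000 0x34000000340000007f0000003e000000ff000000fc000000380000003000000010 8 8) 0 0 (step_sound _ 164 [rh0f8fba845047ee5b, (rh272e8f3b1172ba75.shift 0 2), (rh459a6b84e414d24b.shift 0 2), (rh4c34a26b98f01443.shift 0 2), (rh683f71ba10e07e25.shift 0 2), (rh8f06a1b86fe42394.shift 0 1)] (by decide +kernel))
noncomputable def rh964a0bf51fae5b7c : CRef := CRef.mk (Pat.mk 0x1600000004000000000000000000000000 0xa0000000a0000003f0000001e0000003f000000370000003700000002 8 6) 0 0 (step_sound _ 131 [(rh44cb360f95bc185f.shift 0 1), (rha595058d4de5ec91.shift 0 1), (rhb9dd680bb9375a9f.shift 0 1), rhd1a4e8157d0a435e] (by decide +kernel))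
noncomputable def rhf4728c43996b4eaf : CRef := CRef.mk (Pat.mk 0x2c000000080000000000000000 0x3000000030000000780000003e0000007f0000006800000068 8 7) 0 0 (step_sound _ 100 [(rh008b05f4778dc30d.shift 0 2), (rh7654d7b92c96fe12.shift 0 2), (rha595058d4de5ec91.shift 1 0), (rhca6596562b0ddccc.shift 1 1)] (by decide +kernel))
noncomputable def rh3fabeaa97f96fb20 : CRef := CRef.mk (Pat.mk 0x600000004000000000000000000000000000000000 0x1800000038000000bc000001fc0000007f000003fe0000007c000000780000002000000020 8 10) 0 0 (step_sound _ 197 [(rh234adedb3e18a3e2.shift 1 1), (rh5d54cb79a67f97ab.shift 5 2), (rh7e1098702e50f2b0.shift 5 2), (rha40d42a2e34c408d.shift 5 2), rhfc205fc8170e6228] (by decide +kernel))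
noncomputable def rh31118e68824aa60b : CRef := CRef.mk (Pat.mk 0x2800000018000000000000000000000000 0x600000006000000070000003f0000007f0000007f0000000c0000000c 8 7) 0 0 (step_sound _ 130 [(rh062109d6dc26638f.shift 0 3), (rh4ca5dae25f5c14ff.shift 0 3), rhc5c170169d953832, (rhdeca8db941583de2.shift 0 3)] (by decide +kernel))
noncomputable def rh05d6588fbcbbbad3 : CRef := CRef.mk (Pat.mk 0x2800000018000000000000000000000000 0x3400000034000000770000003f0000007f0000006e0000002000000020 8 7) 0 0 (step_sound _ 130 [(rh062109d6dc26638f.shift 0 3), (rh10e2d404f2deb740.shift 1 0), (rh4ca5dae25f5c14ff.shift 0 3), (rhdeca8db941583de2.shift 0 3)] (by decide +kernel))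
noncomputable def rh52ed54337dee9cc5 : CRef := CRef.mk (Pat.mk 0x28000000180000000000000000000000000000000000000000 0x500000007000000070000000f0000003be000001f8000003fe0000007f0000007c0000007c00000010 8 10) 0 0 (step_sound _ 165 [(rh1561ff1fafeb7917.shift 2 4), (rh35a02af777b98683.shift 2 2), (rh9d0ff6c6d69426f9.shift 1 0), (rhcb854f95686603ab.shift 2 4), (rhd654cb65e194d998.shift 0 1)] (by decide +kernel))
noncomputable def rh6a0ba826d6e7da1f : CRef := CRef.mk (Pat.mk 0x2800000018000000000000000000000000 0x2400000034000000770000003f0000001f0000007c0000003f0000001c 8 7) 0 0 (step_sound _ 132 [(rh016c66bfcb5f9060.shift 0 2), (rh385a11d9ae8280af.shift 0 1), rh681ad950b14c1996, (rh6b2ddea21bacc1ad.shift 1 0), (rh6debbd67fcc4bc13.shift 0 2)] (by decide +kernel))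
noncomputable def rhbd30336e6bf49a57 : CRef := CRef.mk (Pat.mk 0x500000003000000000000000000000000000000000 0x600000006000000070000003fe000007ff000007fe000000fc000000c0 8 11) 0 0 (step_sound _ 101 [(rh02b731bdc2aefb53.shift 2 1), (rh2a628f1a7b7d6f4f.shift 2 1), (rh2b550066a205caeb.shift 3 1), (rh72dbfb9d9865884f.shift 1 1), (rh8d7b357814410767.shift 2 0), rh9200fdf67bba82b2, (rhf92e6375442a4d99.shift 1 1)] (by decide +kernel))
noncomputable def rh4cca85d976d18300 : CRef := CRef.mk (Pat.mk 0x280000001800000000000000000000000000000000 0x600000026000000260000002f000000fe000001ff0000005e0000001c00000018 8 9) 0 0 (step_sound _ 133 [(rh1561ff1fafeb7917.shift 2 3), (rh7b10c0af464d9dc7.shift 1 0), (rh97214bfcb5dbe51f.shift 0 1), (rha9fbfd4bb8cf890b.shift 0 4)] (by decide +kernel))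
noncomputable def rh1918a75a6c101a55 : CRef := CRef.mk (Pat.mk 0x180000001000000000000000000000000000000000 0xc0000002c0000007c0000001f000000ff000000fe0000001c0000000800000008 8 8) 0 0 (step_sound _ 195 [(rh1caa57c2ae0a5062.shift 1 0), (rh5d54cb79a67f97ab.shift 3 2), (rh7e1098702e50f2b0.shift 3 2), (rh906d32ecab872ec6.shift 0 1), (rha40d42a2e34c408d.shift 3 2)] (by decide +kernel))
noncomputable def rheb73068cb4f7e05d : CRef := CRef.mk (Pat.mk 0x38000000080000000000000000 0x3000000030000000780000003e0000007f0000006800000068 8 7) 0 0 (step_sound _ 98 [(rh008b05f4778dc30d.shift 0 2), (rh7654d7b92c96fe12.shift 0 2), (rha595058d4de5ec91.shift 1 0), (rhca6596562b0ddccc.shift 1 1)] (by decide +kernel))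
noncomputable def rh47903c212ebb7323 : CRef := CRef.mk (Pat.mk 0x700000001000000000000000000000000000000000 0x2000000030000000780000007e000000ff0000007f0000003c0000002c 8 8) 0 0 (step_sound _ 131 [(rh1ed7a3503fa50fc8.shift 1 4), rh63522e64674be7ba, (rheea1a90336e79c71.shift 1 4)] (by decide +kernel))
noncomputable def rh2d9b3d78d8b733d3 : CRef := CRef.mk (Pat.mk 0x700000001000000000000000000000000000000000 0x200000002000000070000000780000003e000000ff000001ff0000003c0000002c 8 9) 0 0 (step_sound _ 131 [(rh1ed7a3503fa50fc8.shift 1 4), rhe161d102518b4317, (rheea1a90336e79c71.shift 1 4)] (by decide +kernel))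
noncomputable def rhd4c93112531f89c0 : CRef := CRef.mk (Pat.mk 0xe000000020000000000000000000000000 0x80000001ae000000fe000001ff000000580000005000000010 8 9) 0 0 (step_sound _ 132 [(rh008b05f4778dc30d.shift 2 3), (rhb8b76b8b96ca9182.shift 0 3), (rhd1ff8027c4c86c76.shift 1 3), (rhf459621b93742302.shift 3 1), (rhf4f1a03a19e2b36a.shift 3 0)] (by decide +kernel))
noncomputable def rh1bdbb0686b51e16d : CRef := CRef.mk (Pat.mk 0x1c00000004000000000000000000000000 0x18000000380000007c0000001f0000007c0000007e0000007f00000008 8 7) 0 0 (step_sound _ 163 [(rh06bb36b31580343a.shift 2 0), (rh0eb89799d256b9ac.shift 0 1), (rhcf80391c5046a495.shift 2 1), (rhf91b1398c815afd2.shift 2 1), (rhf9366b6a121593ef.shift 2 1)] (by decide +kernel))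
noncomputable def rhf3de0f8577f51fc8 : CRef := CRef.mk (Pat.mk 0xe000000020000000000000000000000000 0x40000001ce000000fe000001bf000001e0000001c000000140 8 9) 0 0 (step_sound _ 132 [(rh555a6907687f0b18.shift 0 3), (rh7654d7b92c96fe12.shift 2 3), (rh915ed5a0c8f96413.shift 1 3), (rhf36da63b9610a669.shift 3 0), (rhfbd20930092ba885.shift 0 3)] (by decide +kernel))
noncomputable def rhe10ee85a55f1233f : CRef := CRef.mk (Pat.mk 0x3800000008000000000000000000000000 0x3000000070000000f800000038000000fe000000ff0000007c0000003c 8 8) 0 0 (step_sound _ 100 [(rh1ea0510054b9b15f.shift 1 0), rh32e0c5013174dfc2, (rh6542b084897c4505.shift 1 0), (rha2311a6be005ff22.shift 1 0), (rhea9ee3526ae0193b.shift 3 0)] (by decide +kernel))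
noncomputable def rh348eaa13ea41279c : CRef := CRef.mk (Pat.mk 0x16000000040000000000000000000000000 0x10000000380000003e0000007c000001ff0000007c000003f8000001f000000030 8 10) 0 0 (step_sound _ 165 [(rh00ebb3abae576886.shift 0 2), (rh53432a2a5e976fd5.shift 4 0), (rh5d54cb79a67f97ab.shift 5 1), (rh7e1098702e50f2b0.shift 5 1), (rha40d42a2e34c408d.shift 5 1)] (by decide +kernel))
noncomputable def rh013a113442af0c85 : CRef := CRef.mk (Pat.mk 0xb000000020000000000000000000000000 0x80000001ae000000fe000001ff000000580000005000000010 8 9) 0 0 (step_sound _ 134 [(rh008b05f4778dc30d.shift 2 3), (rhb8b76b8b96ca9182.shift 0 3), (rhd1ff8027c4c86c76.shift 1 3), (rhf459621b93742302.shift 3 1), (rhf4f1a03a19e2b36a.shift 3 0)] (by decide +kernel))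
noncomputable def rh903bf7084befb8ef : CRef := CRef.mk (Pat.mk 0x180000001000000000000000000000000000000000 0x80000000c0000001c0000001c000000fe0000003f0000007e0000003c00000028 8 8) 0 0 (step_sound _ 100 [rh0f961032252b1a3b, (rh27b44a0202980be0.shift 3 1), (rh43d8dfd721575dfb.shift 3 0), (rh7b24c4ccc068b0b2.shift 3 2), (rhf770a1ddfcf5c7ee.shift 3 0)] (by decide +kernel))
noncomputable def rh9af760ad06f2da17 : CRef := CRef.mk (Pat.mk 0xa0000000200000002000000000 0x5e0000007c000000ee000001f7000001fe000003de 8 10) 0 0 (step_sound _ 133 [rhc1443224ab7fa6a7, (rhd79fbfddc2878951.shift 1 1)] (by decide +kernel))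
noncomputable def rhadc4164ca9283403 : CRef := CRef.mk (Pat.mk 0x2800000018000000000000000000000000 0x30000000300000007f0000003f0000007f000000f60000003400000014 8 8) 0 0 (step_sound _ 132 [(rh385a11d9ae8280af.shift 0 1), (rh4ddf85b4f6108e96.shift 0 1), (rh6f46d316b473222c.shift 1 0), rhd7560456dfee123f] (by decide +kernel))
noncomputable def rhedb78307e903d308 : CRef := CRef.mk (Pat.mk 0xa00000006000000000000000000000000 0x1c0000003e0000000f0000003e0000007f0000001c00000014 8 7) 0 0 (step_sound _ 99 [(rh1561ff1fafeb7917.shift 0 2), (rh241e7883f47b5c3b.shift 1 0), rh24e72371d7873615, rh35a02af777b98683] (by decide +kernel))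
noncomputable def rh73cc3e94d31fe288 : CRef := CRef.mk (Pat.mk 0x500000003000000000000000000000000000000000 0x600000007000000070000001fe000001ff000000ec000000e8000000c0 8 9) 0 0 (step_sound _ 101 [(rh2710cddd0fa8457d.shift 2 1), (rh2a628f1a7b7d6f4f.shift 2 1), (rh5b53faf3b8d954fc.shift 4 1), (rh7e1098702e50f2b0.shift 4 1), rh8b0872e13daf8ec5] (by decide +kernel))
noncomputable def rh8f2bcf21904858b9 : CRef := CRef.mk (Pat.mk 0x2800000018000000000000000000000000 0x34000000340000007f0000003f0000001f000000f80000003000000010 8 8) 0 0 (step_sound _ 132 [(rh016c66bfcb5f9060.shift 0 2), (rh1ea0510054b9b15f.shift 1 0), (rh385a11d9ae8280af.shift 0 1), (rh6debbd67fcc4bc13.shift 0 2), (rhb076bbcad8e6d3e0.shift 1 0)] (by decide +kernel))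
noncomputable def rhd3aa14531690da02 : CRef := CRef.mk (Pat.mk 0xa0000000200000002000000000 0x5e0000007c000000fe0000007f000001fe0000005e 8 9) 0 0 (step_sound _ 133 [(rhc02c7a552f72c70a.shift 1 0), (rhd79fbfddc2878951.shift 1 1), rhfc79dce06a9b7aa5] (by decide +kernel))
noncomputable def rh8f3de337f71da4b3 : CRef := CRef.mk (Pat.mk 0x4000000040000000400000000000000000000000000000000 0x20000000e0000000f0000003c00000006000000060000000e0000000e0000000a 8 6) 0 0 (step_sound _ 98 [(rh1bd0c14c4de1ef4d.shift 0 2), (rh367118e0bf0473e0.shift 1 1), (rh565a0c22519f57e9.shift 1 2), (rh86e638ba34821015.shift 1 0)] (by decide +kernel))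
noncomputable def rh1dd2291884dc9013 : CRef := CRef.mk (Pat.mk 0x100000001000000010000000000000000000000000 0x200000003000000030000000ff0000007e0000003f00000028 8 8) 0 0 (step_sound _ 68 [(rh134ee81b617cfeb2.shift 0 1), (rh367118e0bf0473e0.shift 3 0), (rh8cdd36b03d57a2f6.shift 3 0), (rhc9de03f9731897d4.shift 4 0)] (by decide +kernel))
noncomputable def rhf85115f65cb09f04 : CRef := CRef.mk (Pat.mk 0x50000000100000001000000000 0x2f0000007e00000077000000f7000000fe000001ef 8 9) 0 0 (step_sound _ 132 [rh92509baf4470c460, (rhd79fbfddc2878951.shift 0 1)] (by decide +kernel))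
noncomputable def rhf138ccc3806f9ded : CRef := CRef.mk (Pat.mk 0xa0000000200000002000000000 0x5e0000007c000000fe000003bf000001fe000003de 8 10) 0 0 (step_sound _ 133 [(rh1733d245970f127f.shift 1 0), (rh57351527dddcec7c.shift 3 0), (rhd79fbfddc2878951.shift 1 1), rhfc79dce06a9b7aa5] (by decide +kernel))
noncomputable def rh8d54ec1cfcc24b51 : CRef := CRef.mk (Pat.mk 0x2800000028000000000000000000000000 0x5000000070000000700000007f0000003f00000078000000f00000007000000010 8 8) 0 0 (step_sound _ 130 [(rha6816dee951f7ee6.shift 2 3), rhbc6140a21f6fab88, (rhd647e6575f4c1322.shift 0 1), (rhdfa77469688d663b.shift 0 3)] (by decide +kernel))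
noncomputable def rh7072b4710987917d : CRef := CRef.mk (Pat.mk 0xa0000000a00000000000000000 0x40000001e000000fe000001ff0000000800000008 8 9) 0 0 (step_sound _ 100 [rh0f68022c60d3760c, (rh1f7cdca6e3e06448.shift 2 2), (rh8c25cb665ab79ec0.shift 2 2), (rha6816dee951f7ee6.shift 4 2)] (by decide +kernel))
noncomputable def rh601f0dda13dc27a4 : CRef := CRef.mk (Pat.mk 0x280000002800000000000000000000000000000000 0x100000007000000070000000f0000000ff0000003e0000003f000000f6000000760000007400000050 8 8) 0 0 (step_sound _ 164 [(rh8113ccfebe444b58.shift 0 1), (rh86aea082dee6b5f4.shift 0 2), (rhbd0cd2ba6f2bc3e8.shift 1 0), (rhdea2cac5ff2bf9f2.shift 0 1), (rhf2f30bfa961f7edf.shift 0 1), (rhfdc5e746546054c3.shift 1 2)] (by decide +kernel))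
noncomputable def rhb8a2aa3d4947b1d4 : CRef := CRef.mk (Pat.mk 0x28000000280000000000000000000000000000000000000000 0x5000000070000000780000002f0000007e000001f700000074000000740000007000000010 8 9) 0 0 (step_sound _ 164 [(rh26e1017678d9da1f.shift 0 2), (rh2c4f5e160006cee5.shift 2 0), (rh35a02af777b98683.shift 2 2), (rha9fbfd4bb8cf890b.shift 0 5)] (by decide +kernel))
noncomputable def rhc39d7d536fab1ee3 : CRef := CRef.mk (Pat.mk 0x28000000200000000000000000000000000000000000000000 0x50000000700000007f0000003e00000067000001f00000007c000000700000007000000060 8 9) 0 0 (step_sound _ 133 [(rh0ef4ba986dad5397.shift 2 0), (rh3b5089e08368d24e.shift 4 2), (rha638cc41e9cfa6a0.shift 0 1), (rhb000990208e68ab7.shift 4 2), (rhc19fbcd7aebbd384.shift 2 3), (rhf938f68fcb666a39.shift 0 3)] (by decide +kernel))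
noncomputable def rhbe7bd575912b4e94 : CRef := CRef.mk (Pat.mk 0x280000002800000000000000000000000000000000 0x500000007000000078000000380000007e000001f70000007e0000007f00000050 8 9) 0 0 (step_sound _ 101 [(rh26ebbfb0cc6b103d.shift 4 1), (rh3b5089e08368d24e.shift 4 1), (rh4b32f70f066e2c2c.shift 4 1), (rh6d4ce7fcb84711d8.shift 4 1), rh8b4691f289e71946, (rhae424091135ed880.shift 2 2), (rhca4d5fc3d95c8c8e.shift 4 0)] (by decide +kernel))
noncomputable def rhc05bf655c88730bb : CRef := CRef.mk (Pat.mk 0x14000000040000000400000000000000000000000000000000 0x200000016000000160000003e0000007f0000003c0000000e0000000e0000000e 8 7) 0 0 (step_sound _ 98 [(rh46baee19951a66e7.shift 1 1), (rh47992774edf9829f.shift 1 0), (rh526c91fe3260523b.shift 0 2), (rh8065c10b3cae6218.shift 1 2), (rhf736735ac758911f.shift 1 0)] (by decide +kernel))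
noncomputable def rh359bf635abe15a8c : CRef := CRef.mk (Pat.mk 0x50000000100000001000000000000000000000000000000000 0x80000005800000058000000ff000000fe000001df000000380000003800000038 8 9) 0 0 (step_sound _ 100 [(rh47992774edf9829f.shift 3 0), (rh565a0c22519f57e9.shift 3 2), rh5d32573ec8688b6b, (rh6aa5625770489e83.shift 3 1), (rhdb18d9da0cc94d72.shift 3 0)] (by decide +kernel))
noncomputable def rh3d3a1d071d4421d8 : CRef := CRef.mk (Pat.mk 0x50000000100000000000000000000000000000000000000000 0x680000007c00000070000003fe000001fe000003ff000000780000007800000038 8 10) 0 0 (step_sound _ 132 [(rh1801abd637e96d5d.shift 3 0), (rh3811bfa0fded520c.shift 1 2), (rh659eb6aa1e5d49ed.shift 3 1), (rh7eff9cacc70a21ff.shift 1 1), (rh895960a8d60b102d.shift 3 1), (rhccb618cc8d511397.shift 0 1), (rhdddd600131b6e356.shift 3 1), (rhf93db1b14aa15dd2.shift 0 1), (rhfb24f9e5e729af53.shift 3 1)] (by decide +kernel))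
noncomputable def rh7bc99153e8ec0ad7 : CRef := CRef.mk (Pat.mk 0x80000002c000000000000000000000000 0x400000004000000160000007f0000003f000000780000002000000020 8 7) 0 0 (step_sound _ 100 [(rh0d378fd9e8917c5a.shift 0 2), (rh6887ef21f67dd26a.shift 1 0), (rh83b77233ec8e4077.shift 1 0), (rh915c3ff3d4fe3a39.shift 0 3)] (by decide +kernel))
noncomputable def rhb55ceab1c27dc614 : CRef := CRef.mk (Pat.mk 0x400000016000000000000000000000000 0x2000000060000000f0000003f0000001e000000370000001200000012 8 6) 0 0 (step_sound _ 99 [rh3423e5ac208fb65b, rh4f129d8f37c2c70a, rh83b77233ec8e4077] (by decide +kernel))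
noncomputable def rhad036160db3ebff4 : CRef := CRef.mk (Pat.mk 0x1000000058000000000000000000000000 0x1000000030000000f70000007e000000ff0000004800000048 8 8) 0 0 (step_sound _ 101 [(rh008b05f4778dc30d.shift 1 2), (rh1efbca428b37b99e.shift 1 2), (rh3423e5ac208fb65b.shift 2 0), (rh6887ef21f67dd26a.shift 2 0), (rh915ed5a0c8f96413.shift 0 2)] (by decide +kernel))
noncomputable def rhe2d2d390575b322c : CRef := CRef.mk (Pat.mk 0x1000000058000000000000000000000000 0x8000000080000002c000000ff0000007e000000f70000004000000040 8 8) 0 0 (step_sound _ 101 [(rh0d378fd9e8917c5a.shift 1 2), (rh6887ef21f67dd26a.shift 2 0), (rh83b77233ec8e4077.shift 2 0), (rh915c3ff3d4fe3a39.shift 1 3), (rh915ed5a0c8f96413.shift 0 2)] (by decide +kernel))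
noncomputable def rh51b8332fb237602e : CRef := CRef.mk (Pat.mk 0x200000003000000000000000000000000000000000 0x1000000010000000fc0000007e000001fe0000003e000001ff0000005e0000001c00000004 8 9) 0 0 (step_sound _ 100 [(rh226e81f754f5378b.shift 2 2), rh9b05d9bf3ec9e1b6, (rhcf80391c5046a495.shift 4 1), (rhf91b1398c815afd2.shift 4 1), (rhf9366b6a121593ef.shift 4 1)] (by decide +kernel))
noncomputable def rh3764879d5697f374 : CRef := CRef.mk (Pat.mk 0x40000000400000014000000000000000000000000 0xa0000000e0000000e0000000c0000003e0000001f0000003a0000001000000010 8 6) 0 0 (step_sound _ 194 [(rh3d0ad82b26bacea7.shift 1 2), (rh565a0c22519f57e9.shift 1 2), (rh8dd0e254f9bfc580.shift 1 2), rhe983c116fe846f00] (by decide +kernel))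
noncomputable def rhdb1441f8b7f37133 : CRef := CRef.mk (Pat.mk 0x1000000010000000500000000000000000 0x1ee000000fe000001fc0000007f0000003e0000002f 8 9) 0 0 (step_sound _ 36 [(rh096fda122e8b7980.shift 1 0), (rh30e4349c55bdf5bf.shift 2 0), rh6645e1d3d4c8366a] (by decide +kernel))
noncomputable def rh59e12a6e0cb71d24 : CRef := CRef.mk (Pat.mk 0x800000038000000000000000000000000 0x10000000f8000000f8000000ff000000380000003e0000003400000030 8 8) 0 0 (step_sound _ 68 [(rh5d54cb79a67f97ab.shift 3 0), (rh7e1098702e50f2b0.shift 3 0), (rha40d42a2e34c408d.shift 3 0), (rhab78bc6faeb006a4.shift 1 0), (rhe7e550e202c3f22c.shift 0 1)] (by decide +kernel))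
noncomputable def rh1d8e86b0dc188a13 : CRef := CRef.mk (Pat.mk 0x800000028000000000000000000000000 0x1000000038000000fc000000ff0000003f0000007f0000003400000034 8 8) 0 0 (step_sound _ 100 [rh127a674e8bcac718, rh96c9605bfd1cf4ad, rhb0cd22231846ef9d, rhb7de6afa18ba6179, rhd708c00b074787bf, rhff20f507afa0fde7] (by decide +kernel))
noncomputable def rh4853547ea6465a8e : CRef := CRef.mk (Pat.mk 0x400000016000000000000000000000000 0x34000000340000003f0000001e0000003f0000000a0000000a 8 6) 0 0 (step_sound _ 99 [rh3423e5ac208fb65b, rh4f129d8f37c2c70a, rhafc64a6eba5b76a6, (rhfaa91f16d327399b.shift 0 1)] (by decide +kernel))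
noncomputable def rh65827c3d61a0be59 : CRef := CRef.mk (Pat.mk 0x80000002c000000000000000000000000 0x60000000680000007f0000003f000000780000001000000010 8 7) 0 0 (step_sound _ 100 [(rh0d378fd9e8917c5a.shift 0 2), (rh915c3ff3d4fe3a39.shift 0 3), (rhafc64a6eba5b76a6.shift 1 0), (rhce71534e51e0a15e.shift 1 0)] (by decide +kernel))
noncomputable def rh1926745e5ba18039 : CRef := CRef.mk (Pat.mk 0x400000006000000000000000000000000000000000 0x2000000020000000780000007c000003fe0000007f000003fe000001be0000003800000018 8 10) 0 0 (step_sound _ 101 [rh983b270f2e5c0471, (rh9b05d9bf3ec9e1b6.shift 1 0), (rhcf80391c5046a495.shift 5 1), (rhf91b1398c815afd2.shift 5 1), (rhf9366b6a121593ef.shift 5 1)] (by decide +kernel))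
noncomputable def rh0d6606c4e5474c89 : CRef := CRef.mk (Pat.mk 0x1800000028000000000000000000000000 0xc0000002c0000006e0000007f0000003f000000170000001600000006 8 7) 0 0 (step_sound _ 98 [(rh69012675dfdb1a5b.shift 0 3), (rh896ba8a508f21a23.shift 0 2), (rh8fd151825fce3b5f.shift 1 0), (rhd69c262cd33b94b3.shift 0 3)] (by decide +kernel))
noncomputable def rh81abfd1299e141a9 : CRef := CRef.mk (Pat.mk 0xc00000014000000000000000000000000 0x1c0000001c0000003f0000007f0000001e000000fa0000003800000038 8 8) 0 0 (step_sound _ 99 [(rh1e8aceccf05fd0a3.shift 0 1), (rh3696e38db30e93b0.shift 0 1), rh818cf6d35ead7245, rh866dfb9901a347f6, (rhb47e7bfae4246df6.shift 1 0), (rhcceac2e4923fd02e.shift 0 1)] (by decide +kernel))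
noncomputable def rh9b98e7d5f8eb1e3e : CRef := CRef.mk (Pat.mk 0x1800000028000000000000000000000000 0x20000000680000007e0000003f000000770000003400000034 8 7) 0 0 (step_sound _ 98 [(rh6b9ceb06d65958ae.shift 0 2), (rhd69c262cd33b94b3.shift 0 3), (rhd822b69cda30ff4d.shift 1 0)] (by decide +kernel))
noncomputable def rhbdb6a3d53f6c1fa1 : CRef := CRef.mk (Pat.mk 0x180000002800000000000000000000000000000000 0xc0000001c0000007e000001fc000000f80000003f000000f0000000700000007000000050 8 9) 0 0 (step_sound _ 165 [(rh49a4f1244eb2d771.shift 1 2), (rh5024bbfb5139b661.shift 2 4), (rh85fa18306827cc86.shift 1 0), (rhf0f55c4504412200.shift 0 4)] (by decide +kernel))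
noncomputable def rhfffd28bc49c40a43 : CRef := CRef.mk (Pat.mk 0x1800000028000000000000000000000000 0x1c0000003f0000007c0000001f0000003f000000f70000003400000024 8 8) 0 0 (step_sound _ 100 [rh3719d517a2319662, rh487b1afaa0f1e283, (rha7a2a12fbbec831f.shift 0 1), (rhd118b43a97c4b0ee.shift 2 0), rhff00a37c088eb8b8] (by decide +kernel))
noncomputable def rh22e20fe361bd5e9b : CRef := CRef.mk (Pat.mk 0x3000000050000000000000000000000000 0xc0000000fc000007fc000003fc000003fe00000777000000600000006000000020 8 11) 0 0 (step_sound _ 165 [(rh03e1d4b712fd50ef.shift 4 1), (rh3571af835b2814dd.shift 2 0), (rh7b9ba237ef132e66.shift 2 2), (rh8f89355ed158827f.shift 0 1), (rhc7ebbc98bd951b1f.shift 2 2), (rhe5fcce3cb634e854.shift 2 2)] (by decide +kernel))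
noncomputable def rhca589f3d96e4d365 : CRef := CRef.mk (Pat.mk 0x1800000028000000000000000000000000 0x180000001c0000005e000001ff000000fe0000002f000000260000002600000006 8 9) 0 0 (step_sound _ 133 [(rh2820ca9a6c4f41b4.shift 0 3), (rh5024bbfb5139b661.shift 2 3), (rh5ef5dd2a4b4ff75a.shift 1 1), rhde3d86acacc5937f] (by decide +kernel))
noncomputable def rhc2b702e6222ee91d : CRef := CRef.mk (Pat.mk 0x80000002c000000000000000000000000 0x400000004000000360000007f0000003f000000780000003000000030 8 7) 0 0 (step_sound _ 100 [(rh0d378fd9e8917c5a.shift 0 2), (rh83b77233ec8e4077.shift 1 0), (rh915c3ff3d4fe3a39.shift 0 3), (rhce71534e51e0a15e.shift 1 0)] (by decide +kernel))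
noncomputable def rh3a6b004bc3d20880 : CRef := CRef.mk (Pat.mk 0x1000000058000000000000000000000000 0x1000000030000000f70000007e000000df0000004800000048 8 8) 0 0 (step_sound _ 101 [(rh1efbca428b37b99e.shift 1 2), (rh3423e5ac208fb65b.shift 2 0), (rh6887ef21f67dd26a.shift 2 0), (rh915ed5a0c8f96413.shift 0 2)] (by decide +kernel))
noncomputable def rh643e106a54a1d7d3 : CRef := CRef.mk (Pat.mk 0x20000000b0000000000000000000000000 0x100000001000000058000001ff000000fe000001ae0000008000000080 8 9) 0 0 (step_sound _ 102 [(rh11856ad1c0e9370c.shift 0 2), (rh6887ef21f67dd26a.shift 3 0), (rh7930b6a6b862f234.shift 2 2), (rh83b77233ec8e4077.shift 3 0), (rh915c3ff3d4fe3a39.shift 2 3), (rh915ed5a0c8f96413.shift 1 2), (rha5dd842502aeeece.shift 1 2)] (by decide +kernel))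
noncomputable def rhfcc67872bb516e6e : CRef := CRef.mk (Pat.mk 0x1000000018000000000000000000000000 0x8000000080000001c000000fe000000ff0000001f000000fc0000002c0000000c 8 8) 0 0 (step_sound _ 67 [rh41b192d2cddcaa3d, (rh72f2402630164bfa.shift 1 1), (rhcf80391c5046a495.shift 3 0), (rhf91b1398c815afd2.shift 3 0), (rhf9366b6a121593ef.shift 3 0)] (by decide +kernel))
noncomputable def rh15f6ff81633c8a6a : CRef := CRef.mk (Pat.mk 0x800000038000000000000000000000000 0x60000000680000007f0000003f000000780000001000000010 8 7) 0 0 (step_sound _ 98 [(rh0d378fd9e8917c5a.shift 0 2), (rh915c3ff3d4fe3a39.shift 0 3), (rhafc64a6eba5b76a6.shift 1 0), (rhce71534e51e0a15e.shift 1 0)] (by decide +kernel))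
noncomputable def rhf176bfecd5166f67 : CRef := CRef.mk (Pat.mk 0x1000000070000000000000000000000000 0x2c0000003c000000fe000000ff0000003e00000078000000700000002000000020 8 8) 0 0 (step_sound _ 131 [rhbc9f96c978c2ed1e, (rhc02b3aee7ab87ee1.shift 1 3), (rhdbcea10a0fbe5ba6.shift 1 3)] (by decide +kernel))
noncomputable def rhb24a70eb9bcb1bed : CRef := CRef.mk (Pat.mk 0x20000000e0000000000000000000000000 0x100000001000000058000001ff000000fe000001ae0000008000000080 8 9) 0 0 (step_sound _ 100 [(rh11856ad1c0e9370c.shift 0 2), (rh6887ef21f67dd26a.shift 3 0), (rh7930b6a6b862f234.shift 2 2), (rh83b77233ec8e4077.shift 3 0), (rh915c3ff3d4fe3a39.shift 2 3), (rh915ed5a0c8f96413.shift 1 2), (rha5dd842502aeeece.shift 1 2)] (by decide +kernel))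
noncomputable def rh4fdf47ed0596de2d : CRef := CRef.mk (Pat.mk 0x40000001c00000000000000000000000000000000 0x7f0000007e0000007c0000001f0000007c000000f80000003800000010 8 8) 0 0 (step_sound _ 99 [(rh5574f7d634810163.shift 1 0), (rh5d54cb79a67f97ab.shift 2 1), (rh7e1098702e50f2b0.shift 2 1), (rha40d42a2e34c408d.shift 2 1), (rhbecc930aaefc1898.shift 0 1)] (by decide +kernel))
noncomputable def rh3777366ede71c423 : CRef := CRef.mk (Pat.mk 0x20000000e0000000000000000000000000 0x140000001c0000001e0000001bf000000fe000001ce0000004000000040 8 9) 0 0 (step_sound _ 100 [(rh0d378fd9e8917c5a.shift 2 2), (rh117049730fed26d6.shift 3 1), (rhb6b5dce703948200.shift 0 2), (rhce71534e51e0a15e.shift 3 0)] (by decide +kernel))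
noncomputable def rh46db43e5c8e2c573 : CRef := CRef.mk (Pat.mk 0x40000001c000000000000000000000000 0x1a0000003e0000007f0000007f0000001c0000007c0000003800000018 8 7) 0 0 (step_sound _ 131 [(rh1e8aceccf05fd0a3.shift 0 1), rh84d70f6b23496c8e, (rh8a2ada455b20909e.shift 2 0), (rhaaceec274018b92f.shift 0 2), (rhd5a17d7cbadf310d.shift 0 1)] (by decide +kernel))
noncomputable def rhaff4b69f7e86b09b : CRef := CRef.mk (Pat.mk 0x1000000058000000000000000000000000 0x380000003c0000007e000000ff0000007e000000d80000004800000040 8 8) 0 0 (step_sound _ 131 [(rh5cd9ecfe847bcb8d.shift 0 1), (rh65fdd5d301123354.shift 2 2), (rh9386baf0036394d7.shift 1 1), (rh95749abb2ba157db.shift 2 0), (rhf63a9381a062aa76.shift 1 1)] (by decide +kernel))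
noncomputable def rh18181647066d557d : CRef := CRef.mk (Pat.mk 0x400000016000000000000000000000000 0xc0000003e0000001f000000370000001200000012 8 6) 0 0 (step_sound _ 65 [rh3b0a6875af7e446e, rhbeef3e757a98e5b2, (rhf91b1398c815afd2.shift 1 0)] (by decide +kernel))
noncomputable def rhaeff40cd27228177 : CRef := CRef.mk (Pat.mk 0x400000016000000000000000000000000000000000 0x20000001f0000001f80000007c000001ff0000007c0000003e0000003800000018 8 9) 0 0 (step_sound _ 101 [rhc46754ffe80b815d, (rhcf80391c5046a495.shift 5 1), (rhea96d934e3c63fe3.shift 2 0), (rhf91b1398c815afd2.shift 5 1), (rhf9366b6a121593ef.shift 5 1)] (by decide +kernel))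
noncomputable def rh08c78ec8899e8d23 : CRef := CRef.mk (Pat.mk 0x80000000c000000000000000000000000 0x80000000c0000001c0000003f0000001f0000007f0000000e0000000e0000000600000004 8 7) 0 0 (step_sound _ 163 [rh0d3132b86a4e5931, (rh281c6819542c66e6.shift 2 0), (rh3f918cbd909d8f78.shift 2 2), (rhfafeb437ceb8396d.shift 2 0)] (by decide +kernel))
noncomputable def rhb650a6f642b586f0 : CRef := CRef.mk (Pat.mk 0x2000000020000000a00000000000000000 0x3de000001fe000001f7000000ee0000007c0000005e 8 10) 0 0 (step_sound _ 37 [(rh2a3a518e610e8959.shift 0 1), (rh6645e1d3d4c8366a.shift 1 0)] (by decide +kernel))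
noncomputable def rha4bed2385005dec8 : CRef := CRef.mk (Pat.mk 0x1800000028000000000000000000000000 0x70000000f0000001ff000000fe0000003f000000f00000007000000050 8 9) 0 0 (step_sound _ 133 [(rh139d35cb438f71ba.shift 1 1), rh25fdc84232a736a7, (rh2820ca9a6c4f41b4.shift 0 3), (rh5024bbfb5139b661.shift 2 3)] (by decide +kernel))
noncomputable def rh313eeb5840a35090 : CRef := CRef.mk (Pat.mk 0x1800000028000000000000000000000000 0x1400000034000000f60000007f0000003f0000007f0000003000000030 8 8) 0 0 (step_sound _ 100 [(rh3bf29d2c93feba29.shift 0 2), rh487b1afaa0f1e283, (rha1ec1e04b20633f4.shift 1 0), rhfc1d0640e296a349] (by decide +kernel))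
noncomputable def rh85826a67a0a859a1 : CRef := CRef.mk (Pat.mk 0x18000000280000000000000000 0x1000000070000001fc000000f80000003f000000f800000070 8 9) 0 0 (step_sound _ 101 [(rh5024bbfb5139b661.shift 2 2), (rhcf7882da598491fa.shift 3 0), (rhf0f55c4504412200.shift 0 2)] (by decide +kernel))
noncomputable def rh79db181e8115e6bf : CRef := CRef.mk (Pat.mk 0x30000000500000000000000000 0xc0000000e8000000ec000001fc000001fe000000770000007000000060 8 9) 0 0 (step_sound _ 133 [(rh03e1d4b712fd50ef.shift 4 0), (rh0fe93088afca2cc9.shift 4 1), rh16bf4dbd8b672bab, (rh239f1e3e7b41cb1c.shift 3 0), (rh9cdee070315fb032.shift 4 1)] (by decide +kernel))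
noncomputable def rh674671c745f6d752 : CRef := CRef.mk (Pat.mk 0x1800000028000000000000000000000000 0x1000000030000000f80000001f0000003f000000ff0000003400000034 8 8) 0 0 (step_sound _ 100 [rh3719d517a2319662, rh487b1afaa0f1e283, (rh72d8e3fe84bad08b.shift 2 0), (rh84d70f6b23496c8e.shift 1 0), rhff00a37c088eb8b8] (by decide +kernel))
noncomputable def rh61d35e9480549919 : CRef := CRef.mk (Pat.mk 0x10000000100000005000000000 0x280000003800000038000000100000003e0000007e0000002f 8 7) 0 0 (step_sound _ 132 [rh36befdb1d2c23ed2, (rh3d0ad82b26bacea7.shift 3 0), (rh565a0c22519f57e9.shift 3 0), (rh8dd0e254f9bfc580.shift 3 0)] (by decide +kernel))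
noncomputable def rhe454a39aced27b6e : CRef := CRef.mk (Pat.mk 0x2000000020000000a00000000000000000 0x5e000001fe0000007f000000fe0000007c0000005e 8 9) 0 0 (step_sound _ 37 [(rh399b0d48fb03fea8.shift 1 0), (rh6645e1d3d4c8366a.shift 1 0), rhafdabb4306d8dda9] (by decide +kernel))
noncomputable def rhb6280ae161a906a5 : CRef := CRef.mk (Pat.mk 0x40000000400000014000000000000000000000000 0xa0000000e0000000e0000000c0000003c0000001f0000003a0000001000000010 8 6) 0 0 (step_sound _ 194 [(rh2f7ea2d2c6b43cfc.shift 1 2), (rh3d0ad82b26bacea7.shift 1 2), (rh8dd0e254f9bfc580.shift 1 2), (rha06c4909f1a0e49c.shift 1 2), rhe983c116fe846f00] (by decide +kernel))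
noncomputable def rh6e7ab7c998b1d3da : CRef := CRef.mk (Pat.mk 0x1000000010000000500000000000000000 0x1ef000000fe000000f7000000770000007e0000002f 8 9) 0 0 (step_sound _ 36 [rh6645e1d3d4c8366a, (rhd3f60ff18eecd4be.shift 0 1)] (by decide +kernel))
noncomputable def rh3bc53ae617ae8e9a : CRef := CRef.mk (Pat.mk 0x10000000100000001000000000 0x280000003f0000007e000000ff000000180000003800000028 8 8) 0 0 (step_sound _ 132 [(rh3d0ad82b26bacea7.shift 3 0), (rh4b37fbd05f0588b2.shift 3 0), (rh565a0c22519f57e9.shift 3 0), rh90a09a990676ce1f] (by decide +kernel))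
noncomputable def rh5a97f1384f32b307 : CRef := CRef.mk (Pat.mk 0x2000000020000000a00000000000000000 0x3de000001fe000003bf000000fe0000007c0000005e 8 10) 0 0 (step_sound _ 37 [(rh30e4349c55bdf5bf.shift 3 0), (rh6645e1d3d4c8366a.shift 1 0), rhafdabb4306d8dda9] (by decide +kernel))
noncomputable def rhd5ee74e0938d3fde : CRef := CRef.mk (Pat.mk 0x280000002800000000000000000000000000000000 0x1000000050000000f0000000780000003f0000007f000000700000007000000070 8 8) 0 0 (step_sound _ 130 [rh9b207605d5d7c3c6, (rh9e1801e106c63471.shift 0 3), (rh9f2591205204f08d.shift 2 4), rhe8d5572deeb41bf2] (by decide +kernel))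
noncomputable def rh9273edae038bea41 : CRef := CRef.mk (Pat.mk 0xa0000000a0000000000000000000000000 0x4000001fe000000fe0000007f0000000800000008 8 9) 0 0 (step_sound _ 100 [(rh5bc5f4ab1822bc0a.shift 2 2), rh905ac8e07265c391, (rh9f2591205204f08d.shift 4 3), (rhe33d9496e10d8eb0.shift 2 3)] (by decide +kernel))
noncomputable def rha6ce179bc9834ce3 : CRef := CRef.mk (Pat.mk 0x28000000280000000000000000000000000000000000000000 0x7400000076000000760000003f0000003e000001ff000001f0000000700000007000000010 8 9) 0 0 (step_sound _ 164 [(rh104b1e5f7313c97e.shift 1 2), (rh2434fd72cefd9847.shift 2 0), (rh729f46b9b92d76f4.shift 0 4), (rha451615da1d24421.shift 0 3), (rhe59a204cea0ca29b.shift 0 4)] (by decide +kernel))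
noncomputable def rh35993f7f768eb7e8 : CRef := CRef.mk (Pat.mk 0x2000000028000000000000000000000000 0x6000000070000000700000007c000001f0000000670000003e0000007f0000007000000050 8 9) 0 0 (step_sound _ 165 [(rh1170c7f33da010e0.shift 2 0), (rh6ef302a8a40e0b1e.shift 0 2), (rh80ac5a18e8fb3d26.shift 4 0), (rh9c4d95fcf114adc7.shift 2 0), (rhd8b25551300d05b1.shift 4 0), rhfaa4db2eee242398] (by decide +kernel))
noncomputable def rh6e1ad4be6c61bc56 : CRef := CRef.mk (Pat.mk 0x2800000028000000000000000000000000 0x10000000700000007400000074000001f70000007e0000002f000000780000007000000050 8 9) 0 0 (step_sound _ 132 [(rh2820ca9a6c4f41b4.shift 0 3), (rh7638832f7526c2cc.shift 0 2), (rhcee84aaad3643060.shift 2 0), (rhd8b43b15431aaa50.shift 2 1)] (by decide +kernel))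
noncomputable def rhbca98d8efc8fda3f : CRef := CRef.mk (Pat.mk 0x2800000028000000000000000000000000 0x4000000070000000700000007f0000007e000001f70000007e00000038000000780000007000000050 8 9) 0 0 (step_sound _ 165 [(rh5086909958562c32.shift 1 1), (rh52635ea33a90ca33.shift 2 0), (rh7860950824bc31e8.shift 4 0), (rh798a3b3ae98a685a.shift 2 0), (rh80ac5a18e8fb3d26.shift 4 0), (rha0c04f64c10774cf.shift 0 2), (rha5e5e9eb67f5ba08.shift 2 0), (rhca4d5fc3d95c8c8e.shift 4 0)] (by decide +kernel))
noncomputable def rhcaf0e07865c76d36 : CRef := CRef.mk (Pat.mk 0x800000008000000080000000000000000 0x10000000fc0000007f000000ff0000000e0000007c00000014 8 8) 0 0 (step_sound _ 35 [(rh1904b52b42aee148.shift 1 0), (rh20966da26a1c2ae8.shift 2 0), rh5a950d9262eabb10] (by decide +kernel))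
noncomputable def rh415a5e16501e523c : CRef := CRef.mk (Pat.mk 0x800000008000000080000000000000000 0x4000000ff0000007f000000ff0000000e0000007c00000014 8 8) 0 0 (step_sound _ 35 [(rh1904b52b42aee148.shift 1 0), rh5a950d9262eabb10, rha7b5d918d368f955, (rhaba26d7b21102469.shift 2 0)] (by decide +kernel))
noncomputable def rha2ca8b2703f3fee4 : CRef := CRef.mk (Pat.mk 0x800000008000000280000000000000000 0x1c0000001c0000001c000000380000007f0000007e0000002c0000002c00000004 8 7) 0 0 (step_sound _ 163 [(rh1726a00b0a8befd0.shift 2 1), (rh367118e0bf0473e0.shift 2 0), (rh549543a9bb5252b4.shift 2 1), (rha115f1711c7e99d7.shift 0 1)] (by decide +kernel))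
noncomputable def rha93bb3e4f7e745e5 : CRef := CRef.mk (Pat.mk 0x1000000010000000500000000000000000 0x380000003800000038000001df000001fe000003ff000000580000005800000008 8 10) 0 0 (step_sound _ 164 [(rh1726a00b0a8befd0.shift 3 1), (rh6aa5625770489e83.shift 3 0), rhd253fa4f3bbddd6a, (rhfb657409fbb16679.shift 3 1)] (by decide +kernel))
noncomputable def rh3ddf405ee848cccf : CRef := CRef.mk (Pat.mk 0x10000000500000000000000000 0x380000003800000078000003ff000001fe000003fe000000700000007c00000068 8 10) 0 0 (step_sound _ 132 [(rh114fd1206a1f3a67.shift 3 0), (rh41d6fb04e8cf6974.shift 2 1), (rh5bdfaadaf543e34d.shift 2 0), (rh8ab806722c24385b.shift 3 0), (rh9698b946874389a0.shift 1 0), (rhc29d5cdd4e72f10a.shift 0 1), rhc74d5f1299f84efb, (rhe55e145b9960d59f.shift 1 0)] (by decide +kernel))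
noncomputable def rh4ea2a79128071069 : CRef := CRef.mk (Pat.mk 0x200000002800000000000000000000000000000000 0x7e000000fe000001fe0000003e000000ff0000007c0000003400000020 8 9) 0 0 (step_sound _ 132 [(rh46f4e32c661b103a.shift 0 3), (rhc86694162d40300f.shift 3 0), (rheaea8e64852193b7.shift 0 1), (rhff7d63dcb3cf9f74.shift 2 4)] (by decide +kernel))
noncomputable def rh28758355864339a4 : CRef := CRef.mk (Pat.mk 0x2000000028000000000000000000000000 0x500000007000000070000000660000007e000001fe0000003e000000ff0000007c00000074 8 9) 0 0 (step_sound _ 100 [(rh46f4e32c661b103a.shift 0 2), (rhc31eb97999c10057.shift 3 0), rheaea8e64852193b7, (rhff7d63dcb3cf9f74.shift 2 3)] (by decide +kernel))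
noncomputable def rh57dc41c47975b2af : CRef := CRef.mk (Pat.mk 0x2000000028000000000000000000000000 0x140000001c0000007e0000007e0000007f0000003f0000006f0000002e00000004 8 7) 0 0 (step_sound _ 98 [rh1477e3d1e55059fc, rh219249ddfdd934fa, (rh4acbe7133cd1d231.shift 0 2), (rh5bc5f4ab1822bc0a.shift 0 2), (rhc147063861b4d4c8.shift 1 0), (rhe7a687206514a34a.shift 0 2)] (by decide +kernel))
noncomputable def rh3c59114d6ef2ee04 : CRef := CRef.mk (Pat.mk 0x2000000028000000000000000000000000 0x50000000700000007e000001ee000001fe0000003e000000ff0000007c00000054 8 9) 0 0 (step_sound _ 100 [(rh46f4e32c661b103a.shift 0 2), (rh6ccba0e3e5464c57.shift 3 0), rheaea8e64852193b7, (rhff7d63dcb3cf9f74.shift 2 3)] (by decide +kernel))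
noncomputable def rh4e5a74ce893d44b8 : CRef := CRef.mk (Pat.mk 0x20000000280000000000000000000000000000000000000000 0x5000000070000001f00000007c000001e70000003e000001ff000001f0000000700000007000000010 8 9) 0 0 (step_sound _ 164 [(rh46f4e32c661b103a.shift 0 4), (rhb12ffaec36122c99.shift 0 4), (rhb152ffd047356e34.shift 2 0), (rhdfb23df28ae88b32.shift 2 2)] (by decide +kernel))
noncomputable def rh8a9ba389de770049 : CRef := CRef.mk (Pat.mk 0x200000002800000000000000000000000000000000 0x40000001c0000001e0000001f0000007e0000003f0000007f0000003c0000001400000010 8 7) 0 0 (step_sound _ 130 [(rh2f68fb68062f97ae.shift 1 3), (rh4b4620cc4f3ef357.shift 0 1), rha3bb4b3bbdfa112b, (rhc147063861b4d4c8.shift 1 1), (rhd19bdf9ae8463a32.shift 0 3), (rhe7a687206514a34a.shift 0 3)] (by decide +kernel))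
noncomputable def rhd67c7f71d6f50ace : CRef := CRef.mk (Pat.mk 0x80000000a00000000000000000000000000000000 0x140000001c0000001c0000000c000000ef0000007e000000fe0000001c00000014 8 8) 0 0 (step_sound _ 99 [(rh23307ea43d08cc2e.shift 0 2), rhc9a9bfc18426107e, (rhd30abbb3f01d7a99.shift 1 0), (rheac7100a97901a45.shift 2 1), (rhf237fec569adc1e2.shift 2 1), (rhff3384473648fcb0.shift 2 0)] (by decide +kernel))
noncomputable def rh217e8f93923112a2 : CRef := CRef.mk (Pat.mk 0x400000005000000000000000000000000000000000 0x28000000b8000001f8000007ff000003ff0000077f0000003e0000003c0000002c00000004 8 11) 0 0 (step_sound _ 164 [rh515aa29dcbaf9b2b, (rh595666a6b9f48d46.shift 1 1), (rh87381d811f2b472e.shift 1 1), (rh8e58e2a07ac23d3c.shift 1 2), (rh94990d2df97199fe.shift 1 2), (rhad94b926a06f9973.shift 0 1), (rhc815848d08250cb6.shift 1 1), (rhd278324a56904941.shift 2 1), (rhfd4da42d00b0b227.shift 1 1)] (by decide +kernel))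
noncomputable def rh9d3e7972655f3f99 : CRef := CRef.mk (Pat.mk 0x4000000050000000000000000000000000000000000000000 0xa0000000e0000000e0000000e000000770000003f0000007f0000000e0000000e0000000a 8 7) 0 0 (step_sound _ 130 [(rh539ce969cf073af4.shift 1 0), (rha6e5f6d4fdf2e456.shift 0 3), (rhaef13a1c72d4db39.shift 1 2), (rhd091826498b1b626.shift 1 2), (rhd30abbb3f01d7a99.shift 0 1), (rheac7100a97901a45.shift 1 2)] (by decide +kernel))
noncomputable def rh1f2ac81e05830491 : CRef := CRef.mk (Pat.mk 0x80000000a000000000000000000000000000000000 0x40000001f0000001f0000003f8000007fe000007fe00000ebf000003f8000007f8000001d000000140 8 12) 0 0 (step_sound _ 165 [(rh10bfcc9782bcb713.shift 1 2), (rh1342f0cb15232885.shift 2 2), (rh1c5d55ba465cb816.shift 2 0), (rh1c9f098aba83c7eb.shift 2 1), (rh3ba193a4622988fb.shift 2 1), (rh3ea7ce8a77ecdc0c.shift 1 2), (rh502b92e9422b648f.shift 2 1), (rh5478ffebc6a68727.shift 2 1), (rh7e9b475ca71f914a.shift 2 2), (rh9d0ae57aae036793.shift 0 1), (rhb6794adc229aeef3.shift 2 0), (rhe36388972d62bb5e.shift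 3 1)] (by decide +kernel))
noncomputable def rh8f0d2b56fd7dfc69 : CRef := CRef.mk (Pat.mk 0x200000002800000000000000000000000000000000 0x20000000e0000006e000000fe000001fe0000003e000000ff0000007c0000003c00000020 8 9) 0 0 (step_sound _ 132 [(rh0f0f3fa9f3928457.shift 3 0), (rh46f4e32c661b103a.shift 0 3), (rh721adbec6acdd775.shift 0 1), (rhff7d63dcb3cf9f74.shift 2 4)] (by decide +kernel))
noncomputable def rhdd100473967209c7 : CRef := CRef.mk (Pat.mk 0x2000000028000000000000000000000000 0x160000001e0000007e0000007e0000007f0000003f0000006f0000002e0000000c 8 7) 0 0 (step_sound _ 98 [(rh4acbe7133cd1d231.shift 0 2), (rh54fc84ae5f73a41a.shift 1 0), rh8deaac27d74053b9, rha38e5e14b7f9f7f2, (rhe7a687206514a34a.shift 0 2)] (by decide +kernel))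
noncomputable def rh84382fc9d2e74353 : CRef := CRef.mk (Pat.mk 0x2000000028000000000000000000000000 0x520000007e0000007e000001ee000001fe0000003e000000ff0000007c0000005c 8 9) 0 0 (step_sound _ 100 [(rh46f4e32c661b103a.shift 0 2), (rh48fca6bb3b33c1ca.shift 3 0), rh721adbec6acdd775, (rhff7d63dcb3cf9f74.shift 2 3)] (by decide +kernel))
noncomputable def rhc9113aa02b28b826 : CRef := CRef.mk (Pat.mk 0x200000002800000000000000000000000000000000 0x120000001e0000001e0000001f0000007e0000003f0000007f0000001c0000001c00000014 8 7) 0 0 (step_sound _ 130 [(rh2690220909837174.shift 0 1), (rh2f68fb68062f97ae.shift 1 3), (rh54fc84ae5f73a41a.shift 1 1), rh61ad663dd41c9f48, (rhd19bdf9ae8463a32.shift 0 3), (rhe7a687206514a34a.shift 0 3)] (by decide +kernel))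
noncomputable def rh28ae2c0a5a0dc196 : CRef := CRef.mk (Pat.mk 0x2000000028000000000000000000000000 0x520000007e000001fe0000007e000001ef0000003e000000ff0000007c0000005c 8 9) 0 0 (step_sound _ 100 [(rh46f4e32c661b103a.shift 0 2), (rhb12ffaec36122c99.shift 0 2), rhb74db94223ba86a9, (rhf311290e68606e04.shift 2 0)] (by decide +kernel))
noncomputable def rh37519ad7a5a59e11 : CRef := CRef.mk (Pat.mk 0x80000000a00000000000000000000000000000000 0x140000001c0000001c0000000c0000000f0000007f0000003f0000001c00000014 8 7) 0 0 (step_sound _ 99 [(rh7cde007d2907bcbe.shift 0 2), (rh7fb85e918b0a04ef.shift 2 0), (rh819f483d77775605.shift 0 1), rhb79b1f4d0214640a, rhc9a9bfc18426107e, (rhff3384473648fcb0.shift 2 0), (rhff363d8c8c4d7478.shift 2 0)] (by decide +kernel))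
noncomputable def rhfd0d448bf2ee456b : CRef := CRef.mk (Pat.mk 0x400000005000000000000000000000000000000000 0x20000000380000003800000078000007fe000003ff0000077f0000003e0000003c0000003c0000002c 8 11) 0 0 (step_sound _ 164 [(rh09aaff8cb69f8f68.shift 1 0), rh534a212ff1bdb729, (rh5fc433df4edd2d99.shift 2 1), (rh87381d811f2b472e.shift 1 1), (rh8e58e2a07ac23d3c.shift 1 2), (rh94990d2df97199fe.shift 1 2), (rhbed05b9d2036dda1.shift 1 1), (rhc815848d08250cb6.shift 1 1), (rhd0263be0ad4da3f8.shift 1 1)] (by decide +kernel))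
noncomputable def rh67ec137b730fb9cd : CRef := CRef.mk (Pat.mk 0x80000000a0000000000000000000000000000000000000000 0x140000001e0000001f0000007e0000000e0000007e0000001f0000001e0000001c00000014 8 7) 0 0 (step_sound _ 131 [(rh16588281c517ea5f.shift 0 1), (rh539ce969cf073af4.shift 2 0), (rh7fb85e918b0a04ef.shift 2 1), (rh9935e6d90e5bde1c.shift 0 3), (rhaef13a1c72d4db39.shift 2 2), (rhc5c5b88722b9bb4a.shift 2 2), (rhd091826498b1b626.shift 2 2)] (by decide +kernel))
noncomputable def rhf3a497ea83efede7 : CRef := CRef.mk (Pat.mk 0x80000000a000000000000000000000000000000000 0x40000001f0000001f0000001f8000007fe000007fe00000ebf000003f8000003fc000001f000000150 8 12) 0 0 (step_sound _ 165 [(rh10bfcc9782bcb713.shift 1 2), (rh1342f0cb15232885.shift 2 2), (rh1c9f098aba83c7eb.shift 2 1), (rh2e17d79e2ccdc6a1.shift 2 0), (rh3ba193a4622988fb.shift 2 1), (rh3ea7ce8a77ecdc0c.shift 1 2), (rh5478ffebc6a68727.shift 2 1), (rh7e9b475ca71f914a.shift 2 2), (rh9d0ae57aae036793.shift 0 1), (rhc41299aecd9dc9b7.shift 3 0), (rhc60d7b86a50b8ade.shift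 2 0), (rhea03e540a8b76246.shift 2 0)] (by decide +kernel))
noncomputable def rhfe38a74ccdd3a588 : CRef := CRef.mk (Pat.mk 0x28000000200000000000000000 0x20000006e0000007e0000007e000000ff0000003e000001ff000000fc0000006c 8 9) 0 0 (step_sound _ 100 [rh4b32808387a988e1, (rh8bc3327fa6faac05.shift 3 0), (rhc21a95c499b3efdb.shift 2 2)] (by decide +kernel))
noncomputable def rhdb72fea6ad674108 : CRef := CRef.mk (Pat.mk 0x280000002000000000000000000000000000000000 0x20000000e0000005e0000007e000000ff0000003e000001ff000000ec0000007c0000007000000050 8 9) 0 0 (step_sound _ 164 [(rh4b32808387a988e1.shift 0 2), (rh5a751a1e6d9b8c5b.shift 2 0), (rhc21a95c499b3efdb.shift 2 4)] (by decide +kernel))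
noncomputable def rh832769e7c8611802 : CRef := CRef.mk (Pat.mk 0x280000002000000000000000000000000000000000 0x40000002c0000006f0000003f000001ff0000007e0000003e0000001e00000014 8 9) 0 0 (step_sound _ 162 [(rh8c2bcbc84662fd1d.shift 0 2), rhaf5a4c8533e8c04b, (rhb04145dc3da226a5.shift 1 2), (rhb34a67f8847d128f.shift 0 4), (rhbf5d9e90d56c2a5f.shift 0 4), (rheb38467d669bf196.shift 1 2)] (by decide +kernel))
noncomputable def rhb1f8b440ab017715 : CRef := CRef.mk (Pat.mk 0x280000002000000000000000000000000000000000 0x20000000e0000005e0000007e000000ff0000003e000000ef0000007c000003fc0000007000000050 8 10) 0 0 (step_sound _ 164 [(rh3918eeb6c53434d8.shift 0 4), (rh4b32808387a988e1.shift 0 2), (rh855eb102cd8b6316.shift 2 0)] (by decide +kernel))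
noncomputable def rh64a8fb7c0599370c : CRef := CRef.mk (Pat.mk 0x280000002000000000000000000000000000000000 0x140000001c0000003c0000007f0000003f0000007f0000001f0000001e0000001c00000014 8 7) 0 0 (step_sound _ 162 [rh4af004043b0922d4, (rh8c2bcbc84662fd1d.shift 0 2), (rhb04145dc3da226a5.shift 1 2), (rhb34a67f8847d128f.shift 0 4), (rhbf5d9e90d56c2a5f.shift 0 4), (rheb38467d669bf196.shift 1 2)] (by decide +kernel))
noncomputable def rh223fdc3eba2b694e : CRef := CRef.mk (Pat.mk 0x140000001000000000000000000000000000000000 0x28000000380000007e000000fe0000001f0000001800000038000000380000003800000008 8 8) 0 0 (step_sound _ 196 [(rh131b19269d79d13d.shift 1 1), (rh14332322a797c1bd.shift 0 3), rh6dda7093be021bad, (rh8e05fd70436752b1.shift 1 0), (rhaef13a1c72d4db39.shift 3 2), (rhf3464aed381aaf11.shift 0 2), (rhff363d8c8c4d7478.shift 3 1)] (by decide +kernel))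
noncomputable def rhe7fe58312f691a9f : CRef := CRef.mk (Pat.mk 0x500000004000000000000000000000000000000000 0x8000000380000003c0000003e0000077f000007ff000007fe000001fc000000fc00000068 8 11) 0 0 (step_sound _ 132 [(rh1cddec9934f671d1.shift 2 0), (rh2fe66a1754c5e555.shift 0 1), (rh5047215b89873a86.shift 1 1), (rh5a405817d21dad97.shift 1 0), (rh5fe94d816f8ade8b.shift 1 1), (rh7bb0fac04a8e5cce.shift 1 1), (rhabb8c0ec33d54310.shift 1 0), (rhc78f887c66795e5a.shift 1 2)] (by decide +kernel))
noncomputable def rhc4fc8f46e1ffd487 : CRef := CRef.mk (Pat.mk 0x28000000200000000000000000000000000000000000000000 0x140000005c0000007c000000ff000000ff0000002f000001fe000003ff000000fe0000007c0000007400000010 8 10) 0 0 (step_sound _ 163 [(rh1cbeb98d022c59ac.shift 0 2), (rh21f03ab166a74c18.shift 0 2), (rh2499b4ded2bbc236.shift 0 2), (rh655ce57273a32fc5.shift 0 1), (rh6c0fb648b7f13a69.shift 0 2), (rh7bb0fac04a8e5cce.shift 0 2), (rh80a00c1935d60fb3.shift 0 1), (rh9cf08f327176ed37.shift 0 1), rhc51a013d4f425f25, (rhc57b9475255de555.shift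 0 1), rhd8af9c2aae61a196] (by decide +kernel))
noncomputable def rh3db2c3225b57cc82 : CRef := CRef.mk (Pat.mk 0x280000002000000000000000000000000000000000 0x140000001c0000003c0000007f0000003f0000007f0000001f0000001e0000001c00000014 8 7) 0 0 (step_sound _ 162 [rh02b0f92089feaa6e, (rh8c2bcbc84662fd1d.shift 0 2), (rhb04145dc3da226a5.shift 1 2), (rhb34a67f8847d128f.shift 0 4), (rhbf5d9e90d56c2a5f.shift 0 4), (rheb38467d669bf196.shift 1 2)] (by decide +kernel))
noncomputable def rh3e00082d05f7a230 : CRef := CRef.mk (Pat.mk 0x50000000400000000000000000000000000000000000000000 0x8000000380000003c0000003e0000077f000003ff000007ff0000007c0000007c0000003800000020 8 11) 0 0 (step_sound _ 164 [(rh2d3bd21e3bafbde1.shift 1 2), (rh489701bdeea9bb0d.shift 1 2), (rh5f3adf8bb6406331.shift 0 2), (rh66f996d1a385b416.shift 1 0), (rh6c5b56bd1b55ed3e.shift 0 2), (rh6c6cc136f2e509e9.shift 1 1), (rhadd90ec1b7e4b9a1.shift 2 1), (rhc78f887c66795e5a.shift 1 3)] (by decide +kernel))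
noncomputable def rh921bbaa55c5abef5 : CRef := CRef.mk (Pat.mk 0xa0000000800000000000000000000000000000000000000000 0x150000001f0000003f8000003fc000000bf000007fe00000ffe000003f8000001f0000001f000000040 8 12) 0 0 (step_sound _ 165 [(rh1cbeb98d022c59ac.shift 2 2), (rh26788f4d5e86a140.shift 2 2), (rh5f3adf8bb6406331.shift 1 2), (rh5fc189ca6e8e0fa4.shift 2 0), (rh6915951241de8e98.shift 1 2), (rh8443d3fc8028cd5d.shift 2 2), (rha9176e8bd3bf4bff.shift 2 1), (rhada081175e35b8e4.shift 2 1), (rhc51a013d4f425f25.shift 2 0), rhdf7a3a044de904fe, (rhf1c97745c297a115.shift 2 1), (rhfa47ea0bb77adff7.shift 2 1)] (by decide +kernel))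
noncomputable def rhb57c10d2ebc33500 : CRef := CRef.mk (Pat.mk 0x28000000200000000000000000 0x80000006a0000007e0000007e000000ff0000003e000001ff000000fc0000006c 8 9) 0 0 (step_sound _ 100 [rh841f05db1dfdbcf1, (rh8bc3327fa6faac05.shift 3 0), (rhc21a95c499b3efdb.shift 2 2)] (by decide +kernel))
noncomputable def rh4242a31ea51b5c71 : CRef := CRef.mk (Pat.mk 0x280000002000000000000000000000000000000000 0x40000002c0000006f0000003f0000007f0000007e0000003e0000001e00000014 8 7) 0 0 (step_sound _ 162 [(rh324215630cdd7969.shift 0 2), rh5b0c5ae25331cf2e, (rhb04145dc3da226a5.shift 1 2), (rhb34a67f8847d128f.shift 0 4), (rhbf5d9e90d56c2a5f.shift 0 4), (rhbfc653101c0a5384.shift 1 2)] (by decide +kernel))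
noncomputable def rh2abc8d390fe0e363 : CRef := CRef.mk (Pat.mk 0x280000002000000000000000000000000000000000 0x80000000a0000005e0000007e000000ff0000003e000001ff000000ec0000007c0000007000000050 8 9) 0 0 (step_sound _ 164 [(rh5a751a1e6d9b8c5b.shift 2 0), (rh841f05db1dfdbcf1.shift 0 2), (rhc21a95c499b3efdb.shift 2 4)] (by decide +kernel))
noncomputable def rhdf7a7420422954a5 : CRef := CRef.mk (Pat.mk 0x280000002000000000000000000000000000000000 0x80000000a0000005e0000007e000000ff0000003e000000ef0000007c000003fc0000007000000050 8 10) 0 0 (step_sound _ 164 [(rh3918eeb6c53434d8.shift 0 4), (rh841f05db1dfdbcf1.shift 0 2), (rh855eb102cd8b6316.shift 2 0)] (by decide +kernel))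
noncomputable def rh7c269e44c2d8f769 : CRef := CRef.mk (Pat.mk 0x280000002000000000000000000000000000000000 0x10000000140000003c0000007f0000003f0000007f0000001f0000001e0000001c00000014 8 7) 0 0 (step_sound _ 162 [rh20f35b6ea6a4298f, (rh324215630cdd7969.shift 0 2), (rhb04145dc3da226a5.shift 1 2), (rhb34a67f8847d128f.shift 0 4), (rhbf5d9e90d56c2a5f.shift 0 4), (rhbfc653101c0a5384.shift 1 2)] (by decide +kernel))
noncomputable def rhd4e093ea6d0bab11 : CRef := CRef.mk (Pat.mk 0x500000004000000000000000000000000000000000 0x380000003c0000003e0000077f000003ff000007ff000001fc000000fc00000038 8 11) 0 0 (step_sound _ 132 [(rh12bb0f3f0459638c.shift 1 1), (rh24f1059334497f00.shift 1 1), (rh68925d118bd867a6.shift 0 1), (rh9da9da8b5b193c96.shift 1 0), (rhc78f887c66795e5a.shift 1 2), (rhdfc82522c8f2fa17.shift 1 0), (rhe6e209b1afe321a5.shift 0 1), (rhf2eb882c4ca487a2.shift 2 0)] (by decide +kernel))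
noncomputable def rh1b021e9b5b22b772 : CRef := CRef.mk (Pat.mk 0xa0000000800000000000000000000000000000000000000000 0x160000001f0000003f8000003fc000000bf000007fe00000ffe000003f8000001f0000001f000000040 8 12) 0 0 (step_sound _ 165 [(rh1cbeb98d022c59ac.shift 2 2), (rh26788f4d5e86a140.shift 2 2), (rh5ef3839e65013fb8.shift 2 1), (rh5fc189ca6e8e0fa4.shift 2 0), (rh68925d118bd867a6.shift 1 2), (rh6915951241de8e98.shift 1 2), (rh6d819ccd94d3ef04.shift 2 1), (rh9f509127a9181931.shift 2 1), (rha9176e8bd3bf4bff.shift 2 1), (rhc51a013d4f425f25.shift 2 0), rhdf7a3a044de904fe, (rhe6129f34a3cf383c.shift 2 1)] (by decide +kernel))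
noncomputable def rh4c20cad5b5d1d0c8 : CRef := CRef.mk (Pat.mk 0x280000000800000000000000000000000000000000 0x180000003c0000007f0000003e0000007f0000001e0000001c0000001c00000004 8 7) 0 0 (step_sound _ 164 [rh1d75216030affd34, (rh3a73ae4925c37fa7.shift 0 2), (rh4c34a26b98f01443.shift 0 2), (rh683f71ba10e07e25.shift 0 2), (rh9d4f7a2cff497d53.shift 0 1), (rha2bd44d9859f0096.shift 0 1)] (by decide +kernel))
noncomputable def rh5977004d00f9b1e7 : CRef := CRef.mk (Pat.mk 0xa00000002000000000000000000000000000000000 0xe0000000e0000001ee000000fe000007ff000003fc000001f0000000f000000050 8 11) 0 0 (step_sound _ 166 [(rh361534054945c6f6.shift 2 0), (rh4060b11968e0578e.shift 0 1), (rh5031ea980f499d04.shift 2 2), (rh53cc5ae35d8a24ea.shift 2 0), (rh5703b668ecce2eb5.shift 2 1), rh97343dcf32d2742d, (rhd439de24dc8ffcda.shift 3 1)] (by decide +kernel))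
noncomputable def rh68b8fd9f6b74ac79 : CRef := CRef.mk (Pat.mk 0x2800000008000000000000000000000000 0x380000003c0000007f0000003e000000ff000000f80000007800000010 8 8) 0 0 (step_sound _ 132 [(rh4c34a26b98f01443.shift 0 1), (rh5031ea980f499d04.shift 0 1), (rh683f71ba10e07e25.shift 0 1), (rh86f4a48eb617ab7f.shift 0 1), (rha6efac38c4a01603.shift 0 1), (rhea2eb0d09e23fa35.shift 1 0)] (by decide +kernel))
noncomputable def rh3f6855da6b19a3c4 : CRef := CRef.mk (Pat.mk 0x500000001000000000000000000000000000000000 0x740000007c000000fe0000007f000000ff000000ff000000dc0000001c00000004 8 8) 0 0 (step_sound _ 163 [rh0574ba51949622c1, (rh37bbb7cf2f3f2825.shift 1 2), (rh4aa40160b2df696f.shift 1 2), (rh6a3a280c5693f1c2.shift 2 2), (rh73d422509517f03d.shift 1 2), (rhec0ccef5ca3b2f96.shift 1 4)] (by decide +kernel))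
noncomputable def rh8623798ac0d3ea1e : CRef := CRef.mk (Pat.mk 0xa0000000200000000000000000000000000000000000000000 0x28000000b8000001be000000fe000001ff000001fe00000078000000780000007000000050 8 9) 0 0 (step_sound _ 196 [(rh02b6df01521685ec.shift 0 2), (rh09f9de8e40ae6552.shift 1 2), (rh31cca8899ef063b9.shift 1 2), (rh4bdf9aeb41b8030b.shift 1 0), (rh8fc7992d94893e05.shift 1 2), (rhe420dc4ca297c095.shift 3 2), (rhec0ccef5ca3b2f96.shift 2 5)] (by decide +kernel))
noncomputable def rh86a6fee1321136a9 : CRef := CRef.mk (Pat.mk 0x280000000800000000000000000000000000000000 0x100000003c0000007f0000003e0000007f0000006e0000007c0000001c00000014 8 7) 0 0 (step_sound _ 164 [(rh4c34a26b98f01443.shift 0 2), (rh5031ea980f499d04.shift 0 2), (rh683f71ba10e07e25.shift 0 2), (rh86f4a48eb617ab7f.shift 0 2), rh9fb23330b09a016e, (rha6efac38c4a01603.shift 0 2)] (by decide +kernel))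
noncomputable def rh923b9bff94f7ec96 : CRef := CRef.mk (Pat.mk 0x50000000100000000000000000000000000000000000000000 0x200000003f0000003e0000007f000000f0000001fe000000fe000001f80000003800000028 8 9) 0 0 (step_sound _ 132 [(rh0bd61292fac83418.shift 3 1), (rh796a9a79e4977669.shift 1 1), (rh7b67209cb0041f6b.shift 3 0), (rh8589872b28a50fa8.shift 2 1), (rh8e5337077a9ada47.shift 0 3), (rhb20d3b5d1ec0bdc3.shift 2 1), (rhc663d8ceef41cf96.shift 3 2), (rhfb24f9e5e729af53.shift 3 1)] (by decide +kernel))
noncomputable def rh702e7abaebe8f673 : CRef := CRef.mk (Pat.mk 0x50000000100000000000000000000000000000000000000000 0xe0000000ec000003ee0000007f000001fe000003ff000000fc000000f8000000e000000020 8 10) 0 0 (step_sound _ 165 [(rh089f410775194418.shift 1 0), (rh1b87a1aa1d8b54c3.shift 1 2), (rh273fcde44da8c13c.shift 2 2), (rh2a1dbefec28db28e.shift 1 2), (rh4d8c2b31d5c851a4.shift 1 2), (rh69e82bdf5e145b01.shift 1 2), (rh7f34a9d62c5280cb.shift 1 3), (rh8982f85ff650eb48.shift 0 1), (rhbe5d3420f9ec6166.shift 2 2), (rhe588cd1f6cfcc46c.shift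 1 2)] (by decide +kernel))
noncomputable def rhe957ffd5b881e703 : CRef := CRef.mk (Pat.mk 0x50000000100000000000000000000000000000000000000000 0x200000003f0000003e0000007f0000001c000001fe000000fe000001f80000003800000028 8 9) 0 0 (step_sound _ 132 [(rh0bd61292fac83418.shift 3 1), (rh11b5dafaa3cfafa8.shift 0 3), (rh22a9aaee1e7c33d9.shift 1 1), (rh4357bc4c604fe815.shift 3 1), (rh561dacdc8712ccae.shift 2 0), (rh8481b779e7290c57.shift 3 2), (rheb5a2d728f5b890c.shift 2 0)] (by decide +kernel))
noncomputable def rh2aba276854e97333 : CRef := CRef.mk (Pat.mk 0xa00000002000000000000000000000000000000000 0x400000006000000070000000f8000000e0000007ff000003fe000007ff000003f000000050 8 11) 0 0 (step_sound _ 101 [(rh659eb6aa1e5d49ed.shift 4 0), (rh69d26eb8ce19e0b5.shift 3 1), (rh796a9a79e4977669.shift 2 0), (rh8481b779e7290c57.shift 4 1), (rh84ad519a3b49ee03.shift 0 2), (rhc55f599530a81664.shift 2 2), (rhce51cb8f01b79e53.shift 2 0), (rhfb24f9e5e729af53.shift 4 0)] (by decide +kernel))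
noncomputable def rhd3ef080046ad1551 : CRef := CRef.mk (Pat.mk 0x5000000010000000000000000000000000 0xe0000000e0000000e0000007f0000007fe000007fe0000077f000003fe000003e8000000e0000000e0 8 11) 0 0 (step_sound _ 166 [(rh12aaaf86e2bd0814.shift 1 0), (rh1390933e861a97ba.shift 1 0), (rh690eac5ddc08a8a8.shift 1 0), (rh6c465b520fe75c38.shift 1 0), (rh765fa29ecdc33dac.shift 1 0), (rh79f52159d36774b9.shift 1 0), (rh7f79e396156bc27b.shift 1 0), (rha3b9d4fed82ebe30.shift 3 1), (rhacfd9e05cd25e68c.shift 1 0), (rhd5b671c770212a76.shift 1 0), (rhe0d7c389971402d0.shift 0 2), (rhf8f37072e52a0546.shift 1 0)] (by decide +kernel))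
noncomputable def rhea63435bbd03ba8b : CRef := CRef.mk (Pat.mk 0x200000002000000000000000000000000000000000 0x4000000070000000f00000003c000001ff000003fe000001ff000003f000000050 8 10) 0 0 (step_sound _ 101 [(rh020140c103c93fec.shift 4 0), (rh15717f5b95caa406.shift 2 0), (rh4357bc4c604fe815.shift 4 0), (rh83fec12306a3cd0d.shift 2 1), (rh84ad519a3b49ee03.shift 0 2), (rh9698b946874389a0.shift 2 1), (rhca4d5fc3d95c8c8e.shift 4 0)] (by decide +kernel))
noncomputable def rh4128d03a4b1f2fa7 : CRef := CRef.mk (Pat.mk 0x3800000008000000000000000000000000 0x20000000780000003e0000007f000000160000001400000004 8 7) 0 0 (step_sound _ 130 [(rh008b05f4778dc30d.shift 0 3), (rh7654d7b92c96fe12.shift 0 3), (rhf459621b93742302.shift 1 1), (rhf4f1a03a19e2b36a.shift 1 0)] (by decide +kernel))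
noncomputable def rh523c2e8d22c830ce : CRef := CRef.mk (Pat.mk 0x7000000010000000000000000000000000 0xee0000007c0000003e0000001f0000001c0000001c 8 8) 0 0 (step_sound _ 131 [(rh61325f73ebf98108.shift 1 4), rh6a1e1fb56a3f1bfa, (rh7654d7b92c96fe12.shift 1 3), (rh775ca1963e850b80.shift 1 3)] (by decide +kernel))
noncomputable def rh50e972924f5492ef : CRef := CRef.mk (Pat.mk 0x38000000080000000000000000 0x2000000070000000700000007f0000003e000000780000002800000008 8 7) 0 0 (step_sound _ 98 [(rh0d378fd9e8917c5a.shift 0 2), (rh61325f73ebf98108.shift 0 3), (rhca6596562b0ddccc.shift 1 1), (rhd487adee7f369765.shift 1 0)] (by decide +kernel))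
noncomputable def rhe0a3287738516b56 : CRef := CRef.mk (Pat.mk 0xe00000002000000000000000000000000000000000 0x40000001c0000001c0000003e0000007fe000000fe000001bf000001fc000001700000017000000050 8 11) 0 0 (step_sound _ 101 [rh19a9589bcb36cfcc, (rh215e11e099257d75.shift 5 2), (rh56f3df5b0e558aa3.shift 0 1), (rhfa40f754f1f7b88f.shift 4 0)] (by decide +kernel))
noncomputable def rh2ba83eebef47d818 : CRef := CRef.mk (Pat.mk 0x700000001000000000000000000000000000000000 0x40000000c0000007f0000001f0000001fc000000700000007e000000fe0000003f0000002800000028 8 11) 0 0 (step_sound _ 197 [(rhad02ddee07ea1f3a.shift 2 2), (rhcf80391c5046a495.shift 4 2), rhe2049ac27d200197, (rhf91b1398c815afd2.shift 4 2), (rhf9366b6a121593ef.shift 4 2)] (by decide +kernel))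
noncomputable def rh0b81369499e77fa5 : CRef := CRef.mk (Pat.mk 0x3800000008000000000000000000000000 0xf0000003e0000007f000000060000000600000004 8 7) 0 0 (step_sound _ 130 [(rh008b05f4778dc30d.shift 0 3), (rh0d378fd9e8917c5a.shift 0 3), (rh284c3fc420c37253.shift 1 0), (rh775ca1963e850b80.shift 0 3)] (by decide +kernel))
noncomputable def rh9f7ed28478988b96 : CRef := CRef.mk (Pat.mk 0x7000000010000000000000000000000000 0xe0000007c000000fe0000001f0000001c0000001c 8 8) 0 0 (step_sound _ 131 [(rh008b05f4778dc30d.shift 1 3), (rh0d378fd9e8917c5a.shift 1 3), rh6a1e1fb56a3f1bfa, (rh775ca1963e850b80.shift 1 3)] (by decide +kernel))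
noncomputable def rh13fdf4a1f6546398 : CRef := CRef.mk (Pat.mk 0x38000000080000000000000000 0x2000000070000000700000007f0000003e000000780000001800000018 8 7) 0 0 (step_sound _ 98 [(rh0d378fd9e8917c5a.shift 0 2), (rh61325f73ebf98108.shift 0 3), (rheaf98106756a5937.shift 1 0), (rhf459621b93742302.shift 1 0)] (by decide +kernel))
noncomputable def rhd32496e5eb53168e : CRef := CRef.mk (Pat.mk 0xe000000020000000000000000000000000 0x6000000060000000e8000001ff000000fe000001be0000007c0000007400000054 8 9) 0 0 (step_sound _ 165 [(rh258a7d00948290c7.shift 0 1), (rh2889e1c2e97d05e9.shift 0 1), (rh7bd22948231330e1.shift 2 0), (rhd155de830d68f7f9.shift 4 0), (rhea669f766ec63f35.shift 2 1)] (by decide +kernel))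
noncomputable def rh402b108c5b573ccf : CRef := CRef.mk (Pat.mk 0xe00000002000000000000000000000000000000000 0x800000018000000fe0000003e0000003f8000000e0000001ff0000007e000000f70000001000000010 8 12) 0 0 (step_sound _ 198 [(rhad02ddee07ea1f3a.shift 3 2), rhbadd13bc02a4ddbd, (rhcf80391c5046a495.shift 5 2), (rhf91b1398c815afd2.shift 5 2), (rhf9366b6a121593ef.shift 5 2)] (by decide +kernel))
noncomputable def rh3d1d6e228997da36 : CRef := CRef.mk (Pat.mk 0x3800000008000000000000000000000000 0x30000000300000007f0000003e0000007f000000180000000800000008 8 7) 0 0 (step_sound _ 130 [(rh008b05f4778dc30d.shift 0 3), (rh0d378fd9e8917c5a.shift 0 3), (rh775ca1963e850b80.shift 0 3), (rhee6e97c68cd3f9ed.shift 1 0)] (by decide +kernel))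
noncomputable def rh410b6aa3fa3e1613 : CRef := CRef.mk (Pat.mk 0x38000000080000000000000000 0x10000000100000001f0000003e0000007f0000007800000028 8 7) 0 0 (step_sound _ 98 [(rh008b05f4778dc30d.shift 0 2), (rh0d378fd9e8917c5a.shift 0 2), (rh775ca1963e850b80.shift 0 2), (rhd93f286e44289db2.shift 1 0)] (by decide +kernel))
noncomputable def rh242ccd83009a356f : CRef := CRef.mk (Pat.mk 0x380000000800000000000000000000000000000000 0x18000000380000007f0000003e0000001f00000078000000380000001800000010 8 7) 0 0 (step_sound _ 162 [(rh61325f73ebf98108.shift 0 5), (rh7654d7b92c96fe12.shift 0 4), (rh775ca1963e850b80.shift 0 4), (rh7b4dd1304a9984c2.shift 1 0)] (by decide +kernel))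
noncomputable def rha97c1403423d693a : CRef := CRef.mk (Pat.mk 0x38000000080000000000000000 0x600000007000000070000000770000003e000000780000003800000038 8 7) 0 0 (step_sound _ 98 [(rh0d378fd9e8917c5a.shift 0 2), (rh46a4255504ab25bf.shift 2 0), (rh61325f73ebf98108.shift 0 3)] (by decide +kernel))
noncomputable def rh3ff447dd49a1f28b : CRef := CRef.mk (Pat.mk 0x380000000800000000000000000000000000000000 0x670000003e0000007f00000078000000780000007800000050 8 7) 0 0 (step_sound _ 162 [(rh008b05f4778dc30d.shift 0 4), (rh0d378fd9e8917c5a.shift 0 4), (rh775ca1963e850b80.shift 0 4), (rhea3e28c9728b4029.shift 1 0)] (by decide +kernel))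
noncomputable def rh16d29c832e860f40 : CRef := CRef.mk (Pat.mk 0x38000000080000000000000000 0x10000000770000003e0000006f0000007800000070 8 7) 0 0 (step_sound _ 98 [(rh61325f73ebf98108.shift 0 3), (rh7654d7b92c96fe12.shift 0 2), (rh775ca1963e850b80.shift 0 2), (rhb6e6c3d7ce0e98df.shift 1 0)] (by decide +kernel))
noncomputable def rhf09211eefcc6cfc2 : CRef := CRef.mk (Pat.mk 0xe0000000200000000000000000000000000000000 0xe0000000e0000000e0000000e0000007f0000003e0000007e0000000400000004 8 7) 0 0 (step_sound _ 194 [rh51cc93aa591ac281, (rh6820a930f98da942.shift 1 1), (rhcf80391c5046a495.shift 1 2), (rhf91b1398c815afd2.shift 1 2), (rhf9366b6a121593ef.shift 1 2)] (by decide +kernel))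
noncomputable def rhab485b598b556b6c : CRef := CRef.mk (Pat.mk 0x38000000080000000000000000 0x3000000030000000700000003e0000007f0000006800000060 8 7) 0 0 (step_sound _ 98 [(rh008b05f4778dc30d.shift 0 2), (rh7654d7b92c96fe12.shift 0 2), (rhca6596562b0ddccc.shift 1 1), (rhecb27748c4bb9fb8.shift 1 0)] (by decide +kernel))
noncomputable def rh1673ef40b9148004 : CRef := CRef.mk (Pat.mk 0x3800000008000000000000000000000000 0x10000000770000003e0000006f000000780000006800000008 8 7) 0 0 (step_sound _ 130 [(rh61325f73ebf98108.shift 0 4), (rh6d776427ccefc1b5.shift 1 0), (rh7654d7b92c96fe12.shift 0 3), (rh775ca1963e850b80.shift 0 3)] (by decide +kernel))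
noncomputable def rhecf22638e4afa74c : CRef := CRef.mk (Pat.mk 0x38000000080000000000000000 0x2000000070000000700000007f0000003e000000780000002800000020 8 7) 0 0 (step_sound _ 98 [(rh0d378fd9e8917c5a.shift 0 2), (rh36c5841889d01cb5.shift 1 0), (rh61325f73ebf98108.shift 0 3), (rhca6596562b0ddccc.shift 1 1)] (by decide +kernel))
noncomputable def rhdabbdc62783aa391 : CRef := CRef.mk (Pat.mk 0x380000000800000000000000000000000000000000 0x2000000038000000f8000000fe000000380000007f000000ff0000006f0000000400000004 8 8) 0 0 (step_sound _ 196 [rh303921e9439941c7, (rh805bbb8da001be20.shift 1 2), (rhcf80391c5046a495.shift 3 2), (rhf91b1398c815afd2.shift 3 2), (rhf9366b6a121593ef.shift 3 2)] (by decide +kernel))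
noncomputable def rh8324190c65d8f00b : CRef := CRef.mk (Pat.mk 0x8000000080000000800000000 0x100000001800000018000000180000003c000000ff00000074 8 8) 0 0 (step_sound _ 131 [(rh20966da26a1c2ae8.shift 2 0), rh5b114b8fa417e855, (rhc9ac229b3c77cd55.shift 2 0), (rhced6d86d2069808b.shift 3 0)] (by decide +kernel))
noncomputable def rh08a88e1d1aad795e : CRef := CRef.mk (Pat.mk 0x2c00000008000000000000000000000000 0xf0000003e0000007f000000060000000600000004 8 7) 0 0 (step_sound _ 132 [(rh008b05f4778dc30d.shift 0 3), (rh0d378fd9e8917c5a.shift 0 3), (rh284c3fc420c37253.shift 1 0), (rh775ca1963e850b80.shift 0 3)] (by decide +kernel))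
noncomputable def rhda3013d802316df7 : CRef := CRef.mk (Pat.mk 0x5800000010000000000000000000000000 0x140000001e0000007b0000003f000000ff0000003c0000001c 8 8) 0 0 (step_sound _ 99 [(rh5dc5071a19a64e2e.shift 2 0), rh897d573130d49112, rhba6620038af86015, rhfeb9bac6758cefcf] (by decide +kernel))
noncomputable def rhec75af9f3b2480da : CRef := CRef.mk (Pat.mk 0xb0000000200000000000000000000000000000000000000000 0x128000001b8000000fc000001bf000001f8000003fe0000007c0000007000000050 8 10) 0 0 (step_sound _ 133 [(rh0a6888916bcef86b.shift 4 1), (rh1f84fbae2d0f4961.shift 0 1), (rh43d8dfd721575dfb.shift 4 1), (rh4579af5e339100d8.shift 1 2), (rhc46b61bcbcf6c641.shift 4 0), (rhd1779d7de7f8215b.shift 4 1)] (by decide +kernel))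
noncomputable def rh5cce0cd489d69008 : CRef := CRef.mk (Pat.mk 0x2c0000000800000000000000000000000000000000 0x40000000680000006c0000003f00000078000000ff0000007e0000005c00000014 8 8) 0 0 (step_sound _ 133 [rh042a9a7c1bb155b4, (rha6816dee951f7ee6.shift 2 4), rhbddb6fc2558cd7c6, (rhfe6c995862deb440.shift 1 0)] (by decide +kernel))
noncomputable def rhe81a543cc9768dab : CRef := CRef.mk (Pat.mk 0x580000001000000000000000000000000000000000 0x50000000580000005f000000ff000000ff000000fe0000003c00000038 8 8) 0 0 (step_sound _ 133 [(rh07b5def84c16b250.shift 1 0), (rh1210ac99709a564e.shift 0 1), (rh30e0b0c18de43c65.shift 1 0), (rhdeca8db941583de2.shift 1 4)] (by decide +kernel))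
noncomputable def rh3a12b82e60044c8b : CRef := CRef.mk (Pat.mk 0x38000000080000000000000000 0x30000000780000007f0000003e0000001f0000001c00000004 8 7) 0 0 (step_sound _ 98 [(rh61325f73ebf98108.shift 0 3), (rh7654d7b92c96fe12.shift 0 2), (rh775ca1963e850b80.shift 0 2), (rhda88a5777ac16029.shift 1 0)] (by decide +kernel))
noncomputable def rh2f89a5efa375c8e2 : CRef := CRef.mk (Pat.mk 0x3800000008000000000000000000000000 0x6f0000003e0000007f000000060000000600000004 8 7) 0 0 (step_sound _ 130 [(rh008b05f4778dc30d.shift 0 3), (rh0d378fd9e8917c5a.shift 0 3), (rh775ca1963e850b80.shift 0 3), (rhf33b662065ef3739.shift 1 0)] (by decide +kernel))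
noncomputable def rh08ff18c61d0bf9d6 : CRef := CRef.mk (Pat.mk 0x700000001000000000000000000000000000000000 0x70000000f0000001f000000070000003ff000001fe000003ef000000e8000000a8 8 10) 0 0 (step_sound _ 101 [(rh04a828218ce6ec97.shift 2 1), (rh4e80284903402eeb.shift 1 0), (rh63ec9f8a1ae1318b.shift 1 1), (rh72ed21cc30cea305.shift 2 1), (rh85d74868f876c8b1.shift 2 1), rhb36df0a34c226cbc, (rhd43e79780739e433.shift 2 1), (rhdeb2767e5ceb2cac.shift 2 1), (rhfb7b23fca66a554b.shift 4 1)] (by decide +kernel))
noncomputable def rh302d1de10cce4e00 : CRef := CRef.mk (Pat.mk 0x2c000000080000000000000000 0x3000000030000000700000003e0000007f0000006800000060 8 7) 0 0 (step_sound _ 100 [(rh008b05f4778dc30d.shift 0 2), (rh7654d7b92c96fe12.shift 0 2), (rhca6596562b0ddccc.shift 1 1), (rhecb27748c4bb9fb8.shift 1 0)] (by decide +kernel))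
noncomputable def rh09340f072aa6ebdf : CRef := CRef.mk (Pat.mk 0xb0000000200000000000000000000000000000000000000000 0x10000000700000007000000060000001fe000000fe0000003f0000003000000070000000700000007000000050 8 9) 0 0 (step_sound _ 133 [(rh43d8dfd721575dfb.shift 4 1), (rh596ac6c9aacb9461.shift 1 3), (rh8ad031770ed0abdc.shift 0 1), (rha2d1bf743472775b.shift 2 1), (rhc46b61bcbcf6c641.shift 4 0)] (by decide +kernel))
noncomputable def rh02c631772c015472 : CRef := CRef.mk (Pat.mk 0x5800000010000000000000000000000000 0xee0000007c0000003e0000001f0000001c0000001c 8 8) 0 0 (step_sound _ 133 [(rh61325f73ebf98108.shift 1 4), rh6a1e1fb56a3f1bfa, (rh7654d7b92c96fe12.shift 1 3), (rh775ca1963e850b80.shift 1 3)] (by decide +kernel))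
noncomputable def rhf94bbac06358ce2f : CRef := CRef.mk (Pat.mk 0x2c0000000800000000000000000000000000000000 0x100000007000000070000000f8000001fe0000003c0000007e0000006f0000007e0000005c00000014 8 9) 0 0 (step_sound _ 133 [(rh137d293d92d9f79d.shift 2 1), (rha6816dee951f7ee6.shift 2 4), rhb132e2db8500d51c, (rhd1302f46b0fee951.shift 1 1)] (by decide +kernel))
noncomputable def rh89d355566bb15c55 : CRef := CRef.mk (Pat.mk 0x2c000000080000000000000000 0x2000000070000000700000007f0000003e000000780000002800000020 8 7) 0 0 (step_sound _ 100 [(rh0d378fd9e8917c5a.shift 0 2), (rh36c5841889d01cb5.shift 1 0), (rh61325f73ebf98108.shift 0 3), (rhca6596562b0ddccc.shift 1 1)] (by decide +kernel))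
noncomputable def rh323734745ee38bb1 : CRef := CRef.mk (Pat.mk 0x180000001000000000000000000000000000000000 0x3200000033000000ff0000001f000000ff0000001f0000001e0000001e00000004 8 8) 0 0 (step_sound _ 131 [(rh0f9c9a617a2afb2d.shift 0 1), (rh124dedbe502a5859.shift 0 1), rh440742153d39687f, (rhd5ddf0dbc2de4970.shift 1 1)] (by decide +kernel))
noncomputable def rha3b4db5d2b3c2f47 : CRef := CRef.mk (Pat.mk 0x50000000100000001000000000 0x200000003000000030000000780000003e0000007e0000002f 8 7) 0 0 (step_sound _ 132 [(rh20966da26a1c2ae8.shift 3 0), rhc02c7a552f72c70a, (rhc9ac229b3c77cd55.shift 3 0), (rhced6d86d2069808b.shift 4 0)] (by decide +kernel))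
noncomputable def rheba1f424e29f75e0 : CRef := CRef.mk (Pat.mk 0x2c000000080000000000000000 0x600000007000000070000000700000003e0000007f0000003800000038 8 7) 0 0 (step_sound _ 100 [(rh008b05f4778dc30d.shift 0 2), (rh46a4255504ab25bf.shift 2 0), (rh7654d7b92c96fe12.shift 0 2)] (by decide +kernel))
noncomputable def rh14dd4114d9473239 : CRef := CRef.mk (Pat.mk 0x5800000010000000000000000000000000 0xc0000000e0000000e0000000ec00000078000000fc000000ff000000fc0000001c 8 8) 0 0 (step_sound _ 133 [(rh46a4255504ab25bf.shift 3 1), rh6a1e1fb56a3f1bfa, (rhb6e6c3d7ce0e98df.shift 2 1), (rhecb27748c4bb9fb8.shift 2 1)] (by decide +kernel))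
noncomputable def rh8f2f27849758ba4a : CRef := CRef.mk (Pat.mk 0x2c000000080000000000000000 0x600000007000000070000000770000003e000000780000003800000038 8 7) 0 0 (step_sound _ 100 [(rh0d378fd9e8917c5a.shift 0 2), (rh46a4255504ab25bf.shift 2 0), (rh61325f73ebf98108.shift 0 3)] (by decide +kernel))
noncomputable def rh6eda46b88b77d2be : CRef := CRef.mk (Pat.mk 0x2c000000080000000000000000 0x10000000770000003e0000006f0000007800000070 8 7) 0 0 (step_sound _ 100 [(rh775ca1963e850b80.shift 0 2), (rhb6e6c3d7ce0e98df.shift 1 0), (rhc37ac25399000c0e.shift 0 2), (rhd75855c0840bf9dc.shift 0 2)] (by decide +kernel))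
noncomputable def rh99b613f04047d053 : CRef := CRef.mk (Pat.mk 0xb00000002000000000000000000000000000000000 0x14c000001cc000001de000000be000001fe000001ff000001fe000001fc00000148 8 9) 0 0 (step_sound _ 132 [(rh01443c6d037232dd.shift 1 0), (rh384e6e933685ceb9.shift 1 1), rh3a17f0d9d9700612, (rh5a44b2711b618412.shift 2 1), (rh661317f58f020ee3.shift 3 0), (rh7be0cda083db6eae.shift 1 1), (rh830a0691154c6e6d.shift 1 1), (rh8e683bd0fb707dca.shift 1 1), (rhe1a530e330168046.shift 1 1)] (by decide +kernel))
noncomputable def rh56ba25d94fbc4d95 : CRef := CRef.mk (Pat.mk 0x2800000008000000080000000000000000 0x70000000700000007f0000003e00000078000000380000002800000008 8 7) 0 0 (step_sound _ 132 [(rh195c5080acd079a7.shift 0 1), (rh215e11e099257d75.shift 3 1), (rhe3458ab40071103b.shift 3 1), (rhe43cbcc297b14ef7.shift 1 0)] (by decide +kernel))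
noncomputable def rh97d1976689957cb1 : CRef := CRef.mk (Pat.mk 0x500000001000000010000000000000000000000000 0x70000000f00000007c000003f7000001fe000001ef0000006800000068 8 10) 0 0 (step_sound _ 101 [(rh046c5eb18e55a239.shift 4 0), (rh2138857660334189.shift 1 0), (rh8120cef559799f10.shift 1 0), rha6a817c59aaa3962] (by decide +kernel))
noncomputable def rhfd930b23153e5bbe : CRef := CRef.mk (Pat.mk 0x140000000400000004000000000000000000000000 0xc0000000e0000001e000000070000000e0000000e0000000c0000000c 8 5) 0 0 (step_sound _ 66 [(rh216281f58bc5c0de.shift 0 1), (rh46baee19951a66e7.shift 1 0), (rha432391920fdb511.shift 1 0), (rhd011005e9a0294a4.shift 1 1)] (by decide +kernel))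
noncomputable def rhec2bfa8aaa828cce : CRef := CRef.mk (Pat.mk 0x500000001000000010000000000000000000000000 0x300000007800000078000003df000001ff000003ef000000a8000000a8 8 10) 0 0 (step_sound _ 101 [(rh0bf2cdab495659a1.shift 1 0), (rh1ec320c051db4640.shift 2 2), (rh3923c7a49bd50ed3.shift 3 0), rh5608798568ed0d17, (rha0f872d41c9e61b2.shift 1 0), (rha4d023c870ca24d7.shift 0 2)] (by decide +kernel))
noncomputable def rhd97608f8ce4fd29a : CRef := CRef.mk (Pat.mk 0x140000001400000000000000000000000000000000 0x280000003800000078000000fe0000001f000000fc00000078000000380000003800000028 8 8) 0 0 (step_sound _ 163 [(rh0061af87222330ae.shift 1 1), (rhc21a95c499b3efdb.shift 1 4), (rhc7a55d58f1c773b4.shift 2 0), (rhfdc5e746546054c3.shift 0 2)] (by decide +kernel))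
noncomputable def rh7f5cf245eb879232 : CRef := CRef.mk (Pat.mk 0xa0000000a0000000000000000000000000 0x1e0000003e0000000ff000000fe000003de000001d0000000d0 8 10) 0 0 (step_sound _ 102 [(rh26e1017678d9da1f.shift 2 0), (rh5443b02079fc8f87.shift 2 0), rhc0fe141caa713eab, (rhc3bcd1fb5e82f20f.shift 5 0), (rhfb551ab91d100d56.shift 2 0)] (by decide +kernel))
noncomputable def rh04f05610a0ae58b6 : CRef := CRef.mk (Pat.mk 0x280000002800000000000000000000000000000000 0x5000000078000000f8000000380000007e000001f70000007e0000007f00000050 8 9) 0 0 (step_sound _ 101 [rh1f86c6c6477d1441, (rh57e9330b46a7a59c.shift 2 1), (rh8aa47e9a3d9b0e39.shift 4 1), (rha57b3f9490d13952.shift 2 2), (rhb0824d3582ea7ca5.shift 4 0), (rhf3137a9730661f0a.shift 2 0)] (by decide +kernel))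
noncomputable def rha0e28bb1a91ff1a4 : CRef := CRef.mk (Pat.mk 0x28000000200000000000000000000000000000000000000000 0x50000000700000007f0000003e00000067000001f00000007c000000700000007000000060 8 9) 0 0 (step_sound _ 133 [(rh0ef4ba986dad5397.shift 2 0), (rh8aa47e9a3d9b0e39.shift 4 2), (rh8fa52716c0d93778.shift 2 3), (rhb944936494c53a36.shift 0 1), (rhe390a88576e84e60.shift 4 2), (rhf938f68fcb666a39.shift 0 3)] (by decide +kernel))
noncomputable def rhf8542ae283d4bc02 : CRef := CRef.mk (Pat.mk 0x50000000100000000000000000000000000000000000000000 0x20000000700000007000000070000003fe000001ff000003ff0000007f0000007800000038 8 10) 0 0 (step_sound _ 132 [(rh0cacbfcbbdcea56c.shift 1 1), (rh4ec767a20edfc219.shift 2 1), (rh55f48fe79d5529a8.shift 0 1), (rh659eb6aa1e5d49ed.shift 3 1), (rhe138abeabc6304bc.shift 0 1), (rhedc804818f0e249f.shift 1 0), (rhf6afe8228b0818f9.shift 1 3), (rhfac15a34fce763b7.shift 3 2), (rhfb24f9e5e729af53.shift 3 1)] (by decide +kernel))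
noncomputable def rhb540b7c455c50cdf : CRef := CRef.mk (Pat.mk 0x50000000100000000000000000000000000000000000000000 0x2000000030000000f80000005e000001fe000001ff000003ff0000003f0000003800000038 8 10) 0 0 (step_sound _ 132 [(rh1aad8815efd9928e.shift 2 0), (rh35d39f21c8a23d6b.shift 1 0), (rh4357bc4c604fe815.shift 3 1), (rh5ea0d7a883fff128.shift 0 1), (rh7f7266fcf99f82f8.shift 2 1), (rh87c9a6bf09d0fcd1.shift 0 1), (rha15ff80ef879e6e5.shift 1 1), (rhe7d48083c2102c0b.shift 1 1), (rhf6afe8228b0818f9.shift 1 3), (rhfac15a34fce763b7.shift 3 2)] (by decide +kernel))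
noncomputable def rh77d2b26dc9dffdec : CRef := CRef.mk (Pat.mk 0x800000038000000000000000000000000 0xc0000001e0000007f0000003f000000780000003800000030 8 7) 0 0 (step_sound _ 98 [(rh040ed1c7cbf17513.shift 1 0), (rh6c884c7d9712aaa5.shift 1 0), (rh915c3ff3d4fe3a39.shift 0 3), (rhcd32eca242b09f3d.shift 1 0)] (by decide +kernel))
noncomputable def rhf4893c6892817ae3 : CRef := CRef.mk (Pat.mk 0x1000000070000000000000000000000000 0x1c0000001c0000001f0000003e0000007c000000ee0000002000000020 8 8) 0 0 (step_sound _ 99 [(rh008b05f4778dc30d.shift 1 2), (rh6c884c7d9712aaa5.shift 2 0), (rh775ca1963e850b80.shift 1 2), (rh77ceb2310b49436d.shift 0 2)] (by decide +kernel))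
noncomputable def rh1d8005aa4456c8db : CRef := CRef.mk (Pat.mk 0x80000003800000000000000000000000000000000 0x800000008000000780000003f0000007f000000700000007000000020 8 7) 0 0 (step_sound _ 130 [(rh008b05f4778dc30d.shift 0 3), (rh1efbca428b37b99e.shift 0 3), (rh3abc55f4ed11423e.shift 1 0), (rh6c884c7d9712aaa5.shift 1 1)] (by decide +kernel))
noncomputable def rh3791200a8f29fc9a : CRef := CRef.mk (Pat.mk 0x20000000e0000000000000000000000000 0x54000000740000007c000001be000000fe000001ff000000e800000060 8 9) 0 0 (step_sound _ 69 [(rh1d7fb3adaf9b33d8.shift 2 1), rh503f2adce6a035e1, (rh5851c01211d6ad13.shift 4 0), (rh59d674cd14a69bfd.shift 2 1), (rh6c7ef1c18983697f.shift 2 0)] (by decide +kernel))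
noncomputable def rhbe2d9b265f6fd610 : CRef := CRef.mk (Pat.mk 0x20000000e00000000000000000000000000000000000000000 0x1000000010000000770000007e000001ff000000e000000ff8000007e000000fe00000018000000180 8 12) 0 0 (step_sound _ 134 [(rh4a230e63a2acaf4b.shift 0 3), (rh5d54cb79a67f97ab.shift 5 2), (rh5d95b0534bf06424.shift 3 0), (rh7e1098702e50f2b0.shift 5 2), (rha40d42a2e34c408d.shift 5 2)] (by decide +kernel))
noncomputable def rh98d8280a071eb8f0 : CRef := CRef.mk (Pat.mk 0x800000038000000000000000000000000 0x68000000780000006f0000003e000000770000001000000010 8 7) 0 0 (step_sound _ 98 [(rh008b05f4778dc30d.shift 0 2), (rh775ca1963e850b80.shift 0 2), (rh8c84bef6614c92d4.shift 1 1), (rhce71534e51e0a15e.shift 1 0)] (by decide +kernel))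
noncomputable def rh5a1d8cef2c0e6810 : CRef := CRef.mk (Pat.mk 0x80000003800000000000000000000000000000000 0x20000000780000003f0000007f000000700000007000000020 8 7) 0 0 (step_sound _ 130 [(rh008b05f4778dc30d.shift 0 3), (rh1efbca428b37b99e.shift 0 3), (rhb8ce111b886f77e9.shift 1 0), (rhce71534e51e0a15e.shift 1 1)] (by decide +kernel))
noncomputable def rh444b9e3af52a97e0 : CRef := CRef.mk (Pat.mk 0x80000003800000000000000000000000000000000 0x4000000040000002f000000ff000000ff00000038000000fe000000f80000003800000020 8 8) 0 0 (step_sound _ 100 [(rh5d54cb79a67f97ab.shift 3 1), (rh6c698f34a60f9a07.shift 1 1), (rh7e1098702e50f2b0.shift 3 1), (rha40d42a2e34c408d.shift 3 1), rhc1396d26a811e7d9] (by decide +kernel))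
noncomputable def rh468659965d035622 : CRef := CRef.mk (Pat.mk 0x800000038000000000000000000000000 0x8000000180000007f0000003e0000007f0000003000000030 8 7) 0 0 (step_sound _ 98 [(rh008b05f4778dc30d.shift 0 2), (rh19b1a3033a86968e.shift 1 0), (rh6c884c7d9712aaa5.shift 1 0), (rh775ca1963e850b80.shift 0 2)] (by decide +kernel))
noncomputable def rh2efea052cb818ec2 : CRef := CRef.mk (Pat.mk 0x800000038000000000000000000000000 0x28000000780000007f0000003f0000001f0000001000000010 8 7) 0 0 (step_sound _ 98 [(rh1efbca428b37b99e.shift 0 2), (rh775ca1963e850b80.shift 0 2), (rh915c3ff3d4fe3a39.shift 0 3), (rhe183770f0381634e.shift 1 0)] (by decide +kernel))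
noncomputable def rh252f2ea48a88b48a : CRef := CRef.mk (Pat.mk 0x800000038000000000000000000000000 0x800000038000000780000001f0000003e0000007f0000003800000038 8 7) 0 0 (step_sound _ 98 [(rh008b05f4778dc30d.shift 0 2), (rh6c884c7d9712aaa5.shift 1 0), (rh775ca1963e850b80.shift 0 2), (rh7f681f7deca11bc8.shift 1 0)] (by decide +kernel))
noncomputable def rh213a2092f0d76af8 : CRef := CRef.mk (Pat.mk 0x80000003800000000 0x400000007000000078000000780000007f0000003f00000067 8 7) 0 0 (step_sound _ 34 [rh1efbca428b37b99e, rh775ca1963e850b80, (rh915c3ff3d4fe3a39.shift 0 1), (rhad332c2375999b13.shift 1 0)] (by decide +kernel))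
noncomputable def rhde3ae3c481c4976b : CRef := CRef.mk (Pat.mk 0x800000038000000000000000000000000 0x70000000780000006f0000003e000000770000001000000010 8 7) 0 0 (step_sound _ 98 [(rh008b05f4778dc30d.shift 0 2), (rh775ca1963e850b80.shift 0 2), (rhce71534e51e0a15e.shift 1 0), (rhfc4daf8a709436c2.shift 1 1)] (by decide +kernel))
noncomputable def rha7665194c62d6b86 : CRef := CRef.mk (Pat.mk 0x800000038000000000000000000000000 0x10000001f8000000f8000001ff00000038000000380000003800000038 8 9) 0 0 (step_sound _ 68 [(rh3074190977a2f597.shift 0 1), (rh5d54cb79a67f97ab.shift 3 0), (rh7e1098702e50f2b0.shift 3 0), (rha0735ddda7880a4a.shift 3 0), (rha40d42a2e34c408d.shift 3 0)] (by decide +kernel))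
noncomputable def rhb77efa4b0d86bd93 : CRef := CRef.mk (Pat.mk 0x20000000200000002000000000000000000000000 0x50000000700000007000000060000000700000007000000070000001f0000000600000002 8 5) 0 0 (step_sound _ 193 [(rh20966da26a1c2ae8.shift 0 2), (rh4f39cd11514ea04a.shift 0 2), (rhc9de03f9731897d4.shift 1 1), rhda6a4ec03cd9473a] (by decide +kernel))
noncomputable def rh1f5e4c79f603b40d : CRef := CRef.mk (Pat.mk 0x20000000200000002000000000000000000000000 0x50000000700000007000000030000000300000007000000070000001f0000000600000002 8 5) 0 0 (step_sound _ 193 [(rh46baee19951a66e7.shift 0 1), (rh4f39cd11514ea04a.shift 0 2), (rh565a0c22519f57e9.shift 0 2), rhda6a4ec03cd9473a] (by decide +kernel))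
noncomputable def rhe8ce27c390849930 : CRef := CRef.mk (Pat.mk 0x40000000400000014000000000000000000000000 0xa0000000e0000000e0000000c0000003e0000001f0000003a0000001000000010 8 6) 0 0 (step_sound _ 194 [(rh20966da26a1c2ae8.shift 1 2), (rh3d0ad82b26bacea7.shift 1 2), (rh565a0c22519f57e9.shift 1 2), rhe983c116fe846f00] (by decide +kernel))
noncomputable def rhc3dadc5bdb204c1f : CRef := CRef.mk (Pat.mk 0x40000000400000004000000000000000000000000 0x3a0000007f0000003e0000000c0000000c0000000c00000008 8 7) 0 0 (step_sound _ 66 [(rh38f0a40d648649ba.shift 0 1), (rh46baee19951a66e7.shift 1 0), (rhc4055b4872d6fb38.shift 1 1), (rhc9de03f9731897d4.shift 2 0)] (by decide +kernel))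
noncomputable def rh0220084faf591f48 : CRef := CRef.mk (Pat.mk 0x80000002c00000000 0x400000007000000078000000780000007f0000003f00000067 8 7) 0 0 (step_sound _ 36 [rh1efbca428b37b99e, rh775ca1963e850b80, (rh915c3ff3d4fe3a39.shift 0 1), (rhad332c2375999b13.shift 1 0)] (by decide +kernel))
noncomputable def rhe1c9ee4f65a36a8c : CRef := CRef.mk (Pat.mk 0x1000000058000000000000000000000000 0x1c0000001c0000003f000000fe0000007c000000ce0000004000000040 8 8) 0 0 (step_sound _ 101 [(rh6887ef21f67dd26a.shift 2 0), (rh775ca1963e850b80.shift 1 2), (rh77ceb2310b49436d.shift 0 2), (rhc37ac25399000c0e.shift 1 2)] (by decide +kernel))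
noncomputable def rhccfc29fb2a5080d3 : CRef := CRef.mk (Pat.mk 0x20000000b0000000000000000000000000 0x1000000058000001ff000000fe000001ae000000a000000080 8 9) 0 0 (step_sound _ 102 [(rh040ed1c7cbf17513.shift 3 0), (rh11856ad1c0e9370c.shift 0 2), (rh6887ef21f67dd26a.shift 3 0), (rh915c3ff3d4fe3a39.shift 2 3), (rha5dd842502aeeece.shift 1 2)] (by decide +kernel))
noncomputable def rh31a180065014bc58 : CRef := CRef.mk (Pat.mk 0x80000002c0000000000000000 0x6000000060000007f0000003f0000006f00000008 8 7) 0 0 (step_sound _ 68 [(rh1efbca428b37b99e.shift 0 1), (rh775ca1963e850b80.shift 0 1), (rh915c3ff3d4fe3a39.shift 0 2), (rh9b4615d46c56f401.shift 1 0)] (by decide +kernel))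
noncomputable def rhf3c138439b802ef3 : CRef := CRef.mk (Pat.mk 0x10000000580000000000000000 0x40000001c0000003c0000007f000000ff0000007b0000001e00000016 8 8) 0 0 (step_sound _ 99 [(rh02ded2dc34fe4bf5.shift 0 1), rh1579802bbf06b7b6, (rh2cea682e4c1e182c.shift 2 0), rh30974f4ad437e334, rhdd1e4d629bfe4666] (by decide +kernel))
noncomputable def rh33734bfad4876688 : CRef := CRef.mk (Pat.mk 0x10000000580000000000000000 0x180000003c0000007f0000003f0000007f0000001e00000014 8 7) 0 0 (step_sound _ 99 [(rh02ded2dc34fe4bf5.shift 0 1), rh0de403ac3272aa8d, (rh11be4531241e4524.shift 0 2), rh4b43957e7b286306, (rhfa9bfe55c883e549.shift 0 1)] (by decide +kernel))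
noncomputable def rhb912fc59577c0529 : CRef := CRef.mk (Pat.mk 0x20000000b00000000000000000 0x500000007c000003fe000001fc000001bf000000fc000001b800000128 8 10) 0 0 (step_sound _ 133 [(rh77c7c74326b6f607.shift 1 1), (rh7a7e08304268422e.shift 4 1), (rh852eadb4da3f1beb.shift 4 1), rhbad407c8b75b6301, (rhc9b7a010d6829066.shift 4 1)] (by decide +kernel))
noncomputable def rhd5428ed259e379cf : CRef := CRef.mk (Pat.mk 0x80000002c00000000000000000000000000000000 0x140000005c0000007e000000ff000000780000003f0000006c000000680000004000000040 8 8) 0 0 (step_sound _ 165 [(rh1f5fbc513a7067c2.shift 1 0), (rh9f2591205204f08d.shift 2 4), (rhac2a70f2d843e1dc.shift 0 2), (rhb88097abd825bbaf.shift 0 2)] (by decide +kernel))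
noncomputable def rhcd8d8f29fa25280c : CRef := CRef.mk (Pat.mk 0x10000000580000000000000000 0x380000003c000000fe0000007f000000ff0000005f0000005800000050 8 8) 0 0 (step_sound _ 101 [(rhc2cc1256258a02f4.shift 2 0), (rhd69c262cd33b94b3.shift 1 2), rhd8f1731d149f5616, (rhe42aab49f2b1a212.shift 1 0)] (by decide +kernel))
noncomputable def rh06f49b69038b058d : CRef := CRef.mk (Pat.mk 0x80000002c00000000 0xc0000000e0000000e0000007f0000003f00000007 8 7) 0 0 (step_sound _ 36 [(rh08947af30b5bc3a8.shift 1 0), rh1efbca428b37b99e, rh775ca1963e850b80, (rh915c3ff3d4fe3a39.shift 0 1)] (by decide +kernel))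
noncomputable def rh7a6b3d6ae3aca69c : CRef := CRef.mk (Pat.mk 0x80000003800000000000000000000000000000000 0xc0000001f0000003e0000007f000000780000003800000020 8 7) 0 0 (step_sound _ 130 [(rh008b05f4778dc30d.shift 0 3), (rh28d87f6e13d3e08f.shift 1 1), (rh6c681948e6fd47d9.shift 1 0), (rh775ca1963e850b80.shift 0 3)] (by decide +kernel))
noncomputable def rh2e66ada281c2d191 : CRef := CRef.mk (Pat.mk 0x8000000380000000000000000 0x6000000060000007f0000003f0000006f00000008 8 7) 0 0 (step_sound _ 66 [(rh1efbca428b37b99e.shift 0 1), (rh775ca1963e850b80.shift 0 1), (rh915c3ff3d4fe3a39.shift 0 2), (rh9b4615d46c56f401.shift 1 0)] (by decide +kernel))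
noncomputable def rhc8178f581a843e10 : CRef := CRef.mk (Pat.mk 0x1000000070000000000000000000000000 0x68000003ef000001fe000003ff00000070000001f0000000f000000070 8 10) 0 0 (step_sound _ 165 [rh00e00ff049c5d707, (rh0891bfc509d6d99a.shift 2 0), (rh0914a34858d55481.shift 2 0), (rh1a1b474fc4519091.shift 2 0), (rh426f465845ebab81.shift 4 0), (rh6e4e1205cbf31961.shift 3 0), (rhbcf864648fea83b0.shift 2 0), (rhcb6272275cf332f5.shift 1 0), (rhf30c1e6d009e898e.shift 2 1)] (by decide +kernel))
noncomputable def rhd0588396d170d478 : CRef := CRef.mk (Pat.mk 0x20000000b00000000000000000000000000000000000000000 0x100000003000000030000000300000003f000000fe000001fe00000060000000700000007000000010 8 9) 0 0 (step_sound _ 229 [(rh19c9d21a36ae6e0a.shift 0 2), (rh7dde867c30cef780.shift 2 0), (rhb89b91c9b7605c84.shift 2 3), (rhc9b7a010d6829066.shift 4 4)] (by decide +kernel))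
noncomputable def rh2bd87d537883faf8 : CRef := CRef.mk (Pat.mk 0x1000000058000000000000000000000000 0x1c0000001c0000001f0000003e0000007c000000ee0000002000000020 8 8) 0 0 (step_sound _ 101 [(rh008b05f4778dc30d.shift 1 2), (rh6c884c7d9712aaa5.shift 2 0), (rh775ca1963e850b80.shift 1 2), (rhe6dd04769af9cee7.shift 0 2)] (by decide +kernel))
noncomputable def rh97ccb931bb982599 : CRef := CRef.mk (Pat.mk 0x80000002c0000000000000000000000000000000000000000 0x140000001c0000005c0000007e0000006f0000007e0000003c000001fe000001f8000000700000007000000010 8 9) 0 0 (step_sound _ 197 [(rh3bd5a7c225d462be.shift 2 1), (rh51428fcbc2c10aae.shift 0 3), (rh99655a712e2401c0.shift 1 0), (rh9f2591205204f08d.shift 2 5)] (by decide +kernel))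
noncomputable def rh4bb8d2ec131f398c : CRef := CRef.mk (Pat.mk 0x80000002c00000000000000000000000000000000 0x20000000780000003f0000007f000000700000007000000020 8 7) 0 0 (step_sound _ 132 [(rh008b05f4778dc30d.shift 0 3), (rh1efbca428b37b99e.shift 0 3), (rha31262a14017c993.shift 1 0), (rhce71534e51e0a15e.shift 1 1)] (by decide +kernel))
noncomputable def rhe10252a94135ee1f : CRef := CRef.mk (Pat.mk 0x1000000018000000000000000000000000 0x40000001c0000001e0000001f000000ff0000001f000000ff0000003700000032 8 8) 0 0 (step_sound _ 131 [(rh16dcf4fc0868e0d2.shift 0 1), (rh34e07e208ad604d9.shift 1 0), (rh36080cabe8296630.shift 0 1), rh3a8eac3096587f31] (by decide +kernel))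
noncomputable def rhc1a8f98a75ae1de6 : CRef := CRef.mk (Pat.mk 0x10000000100000005000000000 0x280000003800000038000000100000003e0000007e0000002f 8 7) 0 0 (step_sound _ 132 [rh36befdb1d2c23ed2, (rh3d0ad82b26bacea7.shift 3 0), (rh565a0c22519f57e9.shift 3 0), (rh73ba6c579e4b229a.shift 2 0)] (by decide +kernel))
noncomputable def rhf6262fd14491fb9c : CRef := CRef.mk (Pat.mk 0x100000001000000050000000000000000000000000 0x2f0000007e0000003e00000078000000300000003000000020 8 7) 0 0 (step_sound _ 68 [(rh399b0d48fb03fea8.shift 0 1), (rh46baee19951a66e7.shift 3 0), (rhc4055b4872d6fb38.shift 3 1), (rhc9de03f9731897d4.shift 4 0)] (by decide +kernel))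
noncomputable def rh13795e73af27e57a : CRef := CRef.mk (Pat.mk 0x80000002c00000000000000000000000000000000 0x38000000380000007f0000003f00000070000000700000007000000060 8 7) 0 0 (step_sound _ 132 [(rh6c884c7d9712aaa5.shift 1 1), (rh6ced4877f2f5d981.shift 2 0), (rh915c3ff3d4fe3a39.shift 0 4), (rhce71534e51e0a15e.shift 1 1)] (by decide +kernel))
noncomputable def rh9e0740fa94b00128 : CRef := CRef.mk (Pat.mk 0x100000005800000000000000000000000000000000 0x1c000000fc000000ff000000fc00000078000000ec000000e0000000e0000000c0 8 8) 0 0 (step_sound _ 133 [(rh08947af30b5bc3a8.shift 2 3), (rh97ce1f55c0859599.shift 2 2), (rhb5e5658b4fcb7496.shift 2 1), (rhbae46ee91f480253.shift 3 0), (rhe6dd04769af9cee7.shift 0 3)] (by decide +kernel))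
noncomputable def rh4160dbec9d4cb8bc : CRef := CRef.mk (Pat.mk 0x80000002c00000000000000000000000000000000 0x3800000038000000780000003f00000077000000700000007000000060 8 7) 0 0 (step_sound _ 132 [(rh008b05f4778dc30d.shift 0 3), (rh1efbca428b37b99e.shift 0 3), (rhbae46ee91f480253.shift 2 0)] (by decide +kernel))
noncomputable def rh46350ee979b79670 : CRef := CRef.mk (Pat.mk 0x80000002c000000000000000000000000 0x70000000780000006f0000003e000000770000001000000010 8 7) 0 0 (step_sound _ 100 [(rh008b05f4778dc30d.shift 0 2), (rh775ca1963e850b80.shift 0 2), (rh97ce1f55c0859599.shift 1 1), (rhce71534e51e0a15e.shift 1 0)] (by decide +kernel))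
noncomputable def rh7533cacb1f2f15b6 : CRef := CRef.mk (Pat.mk 0x1000000058000000000000000000000000 0xa4000000fe000000ff000000ff000000ff0000005f000000ef000000e6000000a6 8 8) 0 0 (step_sound _ 131 [(rh4aebedfe7553b12c.shift 0 1), (rh7a7fd9c300e287ce.shift 0 1), (rh7fd7bc6f1c594c06.shift 0 1), (rh990458887e325e72.shift 0 1), (rhaff591c19a62c9e4.shift 0 2), (rhe0abc98a866aab07.shift 0 1), (rhe3b505083822b510.shift 1 0), rhf11c5ba019a20808, (rhfcfd8968a26b8344.shift 1 2)] (by decide +kernel))
noncomputable def rhff77d31159887f25 : CRef := CRef.mk (Pat.mk 0x8000000080000002800000000000000000000000000000000 0x800000018000000780000003f0000007f000000700000007000000020 8 7) 0 0 (step_sound _ 132 [(rh046c5eb18e55a239.shift 3 1), rh560578794b3d1801, (rh70e33bfdf511e144.shift 3 1), (rhcb4b4445201907af.shift 1 1)] (by decide +kernel))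
noncomputable def rh8fa861f6022402a5 : CRef := CRef.mk (Pat.mk 0x40000000400000014000000000000000000000000 0xa0000000e0000000e0000000c0000003c0000001f0000003a0000001000000010 8 6) 0 0 (step_sound _ 194 [(rh12461e137161f2e1.shift 1 2), (rh3d0ad82b26bacea7.shift 1 2), (rh762a1aeaf83c662a.shift 1 2), (rhd7cb8ed87e2022d8.shift 1 2), rhe983c116fe846f00] (by decide +kernel))
noncomputable def rhfa9a0412e27e0dd4 : CRef := CRef.mk (Pat.mk 0x100000001000000050000000000000000000000000 0x2000000060000001ef000001fe000003f700000078000000f0000000f000000020 8 10) 0 0 (step_sound _ 165 [(rh3820f35d5e705bec.shift 4 0), (rh9e99fded3448d0de.shift 1 2), rhc73ba7893beaeff1, (rhe97f5be65276db9f.shift 1 1)] (by decide +kernel))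
noncomputable def rh2859732266baac61 : CRef := CRef.mk (Pat.mk 0x100000001000000050000000000000000000000000 0x20000000a8000003ef000001ff000003df00000078000000780000003000000020 8 10) 0 0 (step_sound _ 165 [(rh9e99fded3448d0de.shift 1 2), rha32843fe711a5e93, (rha7aa6775e94c5b7c.shift 3 2), (rhf3a8db67953b4e1a.shift 1 2), (rhf849c8472bff4b9d.shift 3 0)] (by decide +kernel))
noncomputable def rh35fcf9882053e3be : CRef := CRef.mk (Pat.mk 0x28000000280000000000000000 0x1000000014000001f7000001fe000003bf0000002800000028 8 10) 0 0 (step_sound _ 100 [(rh2820ca9a6c4f41b4.shift 0 2), rh8210e642264095cb, rhaeeffdd867c987a8, (rhf0f55c4504412200.shift 0 2)] (by decide +kernel))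
noncomputable def rh3cb9b7d0562bcc74 : CRef := CRef.mk (Pat.mk 0x280000002800000000000000000000000000000000 0x5000000070000000f0000001f80000003e000000ff000001f00000007000000060 8 9) 0 0 (step_sound _ 132 [(rh65131d6e02eb5ff0.shift 2 0), (rh74109dc06a003107.shift 0 3), (rhe931e1e07cc2391b.shift 3 1), (rhff7d63dcb3cf9f74.shift 2 4)] (by decide +kernel))
noncomputable def rh7d3344fcd08b9d34 : CRef := CRef.mk (Pat.mk 0x28000000280000000000000000 0x500000007000000070000000770000007e0000003f0000001800000008 8 7) 0 0 (step_sound _ 100 [(rh2820ca9a6c4f41b4.shift 0 2), rh53a18f0d52a29a7f, (rhf0f55c4504412200.shift 0 2)] (by decide +kernel))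
noncomputable def rh7ba8ceb2894b3821 : CRef := CRef.mk (Pat.mk 0x28000000280000000000000000 0x500000007000000074000000f70000003e0000003f000000f800000078 8 8) 0 0 (step_sound _ 100 [(rh64bb5d653a25cc3b.shift 3 0), rh6ac6e6a19f2df2c3, rh8210e642264095cb, rhb55ee1177cf584c3] (by decide +kernel))
noncomputable def rh66c5a24de73bd043 : CRef := CRef.mk (Pat.mk 0x2800000028000000000000000000000000 0x500000007f0000007e000001f70000007e00000038000000f80000007800000050 8 9) 0 0 (step_sound _ 165 [(rh34f01bbeada41651.shift 4 0), (rh499a0880e57a95dc.shift 1 1), (rh5e45aac5e9a4c8bd.shift 0 2), (rh60f1badc12958906.shift 4 1), (rhb87f9180ff7efcba.shift 2 1), (rheb919ed5efcf2704.shift 2 0)] (by decide +kernel))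
noncomputable def rh74b0055ba70ad0ce : CRef := CRef.mk (Pat.mk 0x2000000028000000000000000000000000 0x6000000070000000700000007c000001f0000000670000003e0000007f0000007000000050 8 9) 0 0 (step_sound _ 165 [rh076e723af570e078, (rh07bf676d08869d33.shift 0 2), (rh34f01bbeada41651.shift 4 0), (rh60c4fdb129777615.shift 2 0), (rhe59bed370765b41a.shift 2 0), (rhed8946dd5d7a7b19.shift 2 0)] (by decide +kernel))
noncomputable def rh3ee01174fe85c5b2 : CRef := CRef.mk (Pat.mk 0x20000000a0000000000000000000000000 0x7000000070000003f0000001ff000003fe000003ff000000e0000000e0000000e000000040 8 10) 0 0 (step_sound _ 165 [(rh3ff912d5eb808ee2.shift 2 0), (rh5bdfaadaf543e34d.shift 3 1), rh7ee055014f06f871, (rh8ab806722c24385b.shift 4 1), (rh9698b946874389a0.shift 2 1), (rhac65f88401e6e3bc.shift 2 2), (rhf47a1b6fc34d1bf4.shift 1 1), (rhf559503f3c1580bd.shift 3 1)] (by decide +kernel))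
noncomputable def rh73ecb949014f2fe6 : CRef := CRef.mk (Pat.mk 0x20000000a0000000000000000000000000 0x7000000070000003f0000003ff000003fe000001ff000000bc000001f00000006000000060 8 10) 0 0 (step_sound _ 165 [(rh2e7697aedfeb2c43.shift 3 2), (rh3441054ef6cfe4ad.shift 4 2), rh7ee055014f06f871, (rh821f745d796daa5a.shift 2 2), (rha1b5793c47f9bf9d.shift 2 2), (rhb85afe4b3a20cb4b.shift 2 0), (rhda5a56710e4ad36d.shift 2 1), (rhfabcd6ff1cb7e474.shift 2 2)] (by decide +kernel))
noncomputable def rh453ff43853c75f56 : CRef := CRef.mk (Pat.mk 0x800000028000000000000000000000000 0x140000001c0000001e0000001e0000007f0000003f0000007f0000003c00000038 8 7) 0 0 (step_sound _ 100 [(rh12791ad7b1c1c5f4.shift 0 1), (rh84e7108cc49da642.shift 0 1), rhb583f025587b3557, (rhd6a14935e987a52c.shift 0 1), rhe5aa3bfbd021eb5c, rhf9625f9b1479ad1a] (by decide +kernel))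
noncomputable def rh81a762db59e08fc8 : CRef := CRef.mk (Pat.mk 0x20000000a0000000000000000000000000 0x50000000f0000001f0000003f8000003ff000000fe000003ee000000e0000000e0 8 10) 0 0 (step_sound _ 102 [(rh0485f04cedf2c428.shift 2 0), (rh42160def55f5199d.shift 3 0), rh430b770ad560f4cd, (rh9c359e0212f66709.shift 2 1), (rhaa701d422bd33803.shift 3 0), (rhf91d23a16b3795bc.shift 3 0), rhfca2c8791fb29c15] (by decide +kernel))
noncomputable def rha96f9776c140c64a : CRef := CRef.mk (Pat.mk 0x1000000050000000000000000000000000 0x3c0000003c000000ff000000ff0000007f000000fe0000005c00000054 8 8) 0 0 (step_sound _ 99 [(rh3ae0e9c07d463f8e.shift 1 1), (rh54bc736b4a9ec8f1.shift 2 0), (rh5ef25620f444c0dd.shift 1 1), (rha58b9ae01800a257.shift 1 2), (rha804fbb4afab003e.shift 1 0), rhcbace447fa365f9b] (by decide +kernel))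
noncomputable def rhbfbc142f19de82d6 : CRef := CRef.mk (Pat.mk 0x1000000050000000000000000000000000 0x1c000000dc000000ff000000ff0000007f000000fe0000007c00000034 8 8) 0 0 (step_sound _ 99 [(rh5ef25620f444c0dd.shift 1 1), (rh68c11fd4947142a3.shift 2 0), (rha58b9ae01800a257.shift 1 2), (rhdd6a6b62f45deb58.shift 1 1), rhec09a27b1db5dad3, (rhf1f6a9d8d5fa6816.shift 1 0), (rhf8ac50411f5bb5c3.shift 1 1)] (by decide +kernel))
noncomputable def rhe712d9480fe66408 : CRef := CRef.mk (Pat.mk 0x800000028000000000000000000000000 0x78000000f8000000ff0000003f0000007f0000003c00000038 8 8) 0 0 (step_sound _ 100 [(rh12791ad7b1c1c5f4.shift 0 1), (rh34e624bc113404db.shift 1 0), (rh9c359e0212f66709.shift 0 1), (rhd6a14935e987a52c.shift 0 1), rhe5aa3bfbd021eb5c] (by decide +kernel))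
noncomputable def rh9f5baa96dd1d02ea : CRef := CRef.mk (Pat.mk 0x20000000a000000000000000000000000000000000 0x500000007800000078000001fe000001ff000000fe000001be000000f8000000e800000048 8 9) 0 0 (step_sound _ 132 [(rh0e4dfa2fa5feacd6.shift 2 2), (rh2ebeb9f262d124f9.shift 1 0), (rh54bc736b4a9ec8f1.shift 3 1), (rhb217e820138082af.shift 1 1), (rhb6dbbe286463bdd9.shift 1 0), (rhd28445576ba05d4c.shift 0 1), (rhf8ac50411f5bb5c3.shift 2 2), (rhf912a4171d9c0e5d.shift 1 1)] (by decide +kernel))
noncomputable def rh5e99e406715b8921 : CRef := CRef.mk (Pat.mk 0x80000002800000000000000000000000000000000 0x140000001c0000007c0000006f0000007f0000003f0000007f0000003c0000001800000008 8 7) 0 0 (step_sound _ 132 [(rh12791ad7b1c1c5f4.shift 0 2), rh328503ee13fb4de8, (rh98e95283b548cb8e.shift 0 2), (rh9c359e0212f66709.shift 0 2), (rhd6a14935e987a52c.shift 0 2), (rhe5aa3bfbd021eb5c.shift 0 1)] (by decide +kernel))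
noncomputable def rhe8b75dc292ffd60a : CRef := CRef.mk (Pat.mk 0x1000000050000000000000000000000000 0x2800000078000000fc000000fc000000f00000007f0000007e0000003f00000020 8 8) 0 0 (step_sound _ 164 [(rh2a2218c96b2db1f4.shift 3 0), rh3922697941b0113c, (rh66e50c5fa32577ac.shift 3 1), (rh6ddadbbf205209c9.shift 3 1), (rh7c4e65f468a3415f.shift 3 1), (rhf44b0085d130a797.shift 2 2), (rhfdc52892caee784c.shift 3 1)] (by decide +kernel))
noncomputable def rh2f871e50c3f35028 : CRef := CRef.mk (Pat.mk 0x100000005000000000000000000000000000000000 0x20000000e0000000f0000000f0000003ff000001ff0000007f000003ee000000ec000000e0000000a0 8 10) 0 0 (step_sound _ 165 [(rh5494ca038805c57e.shift 1 2), (rh5a4d202963fc2122.shift 1 1), (rh807482e3b9cf4f85.shift 1 2), (rh8c3833bc93d66a7d.shift 1 0), (rh947f8144029c55d5.shift 1 1), (rhab582c6ac9c4a039.shift 1 1), (rhae9c0c70a30534a3.shift 1 1), (rhd40a9cda7a3bf89a.shift 2 1), (rhd664b634efd4555c.shift 0 1)] (by decide +kernel))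
noncomputable def rh3a1e0f56550690f9 : CRef := CRef.mk (Pat.mk 0x1000000050000000000000000000000000 0x28000001f8000000fe000001fe0000001e0000007f0000003e0000003f00000020 8 9) 0 0 (step_sound _ 164 [(rh2ef2bebc9441dba0.shift 1 2), (rh37c05aa62684ff00.shift 3 1), (rh64991083a1397db0.shift 3 1), (rh8481b779e7290c57.shift 3 1), rhab9be3811f6a4adf] (by decide +kernel))
noncomputable def rhd8ede0185c581dcf : CRef := CRef.mk (Pat.mk 0x20000000a000000000000000000000000000000000 0x50000000f0000007ff000003fe000007ff000000e0000000f8000000700000006000000040 8 11) 0 0 (step_sound _ 197 [(rh489de9bb9c2055a9.shift 0 1), (rh4a51e2a3b9c47f1b.shift 2 3), (rh5bdf8bda540d30f5.shift 2 1), (rh6ddadbbf205209c9.shift 4 2), (rh74747d8f24e48bf2.shift 3 0), (rh85d75d5d41269545.shift 4 2), (rh91e89503dcfa7603.shift 4 1), (rhb86cbe24d2edcf62.shift 3 3), (rhe44d0f8c09eb554a.shift 3 1)] (by decide +kernel))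
noncomputable def rh8387ea308b11aa60 : CRef := CRef.mk (Pat.mk 0x1000000050000000000000000000000000000000000000000000000000 0xe0000000e8000001ec000003fe0000077f000007fe000007fe000007f0000000f0000000f0000000e0 8 11) 0 0 (step_sound _ 166 [(rh263e9f884e1a4682.shift 1 0), (rh31b7a9655795e477.shift 1 3), (rh748d82792aa5e202.shift 1 0), (rh8d64e37ec98e0d0c.shift 1 2), (rh985c1eacc5913640.shift 1 1), (rh9e79578b63d7bc85.shift 1 3), (rhbd482fa51f9533ca.shift 1 1), (rhcfde18714972888f.shift 3 1), (rhd87de086fea3702b.shift 1 1), (rhe13d3b341c9bc83f.shift 1 1), (rhe6719ec71a1d21af.shift 1 2), (rhef40cdc144569ebc.shift 1 3), (rhef4973ad6be4a5b5.shift 0 2)] (by decide +kernel))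
noncomputable def rhf33c9f3480066ad9 : CRef := CRef.mk (Pat.mk 0x200000002000000000000000000000000000000000 0x50000003f0000001ff000003fe000001ff0000003000000070000000700000006000000020 8 10) 0 0 (step_sound _ 197 [(rh247b58b6c14225e7.shift 4 2), (rh2a2218c96b2db1f4.shift 4 1), (rh489de9bb9c2055a9.shift 0 1), (rh4b32f70f066e2c2c.shift 4 2), (rh88bbbd9c2a157151.shift 4 0), (rh91e89503dcfa7603.shift 4 1), (rha8df7d2b06aed919.shift 4 1), (rhef019efde49c8a00.shift 4 0), (rhfabcd6ff1cb7e474.shift 2 3)] (by decide +kernel))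
noncomputable def rh8e03cbae60226b32 : CRef := CRef.mk (Pat.mk 0x20000000280000000000000000000000000000000000000000 0x68000000fc000001fe0000003e000000ff0000007e0000003e0000002a00000008 8 9) 0 0 (step_sound _ 164 [(rh0f0f3fa9f3928457.shift 3 1), (rh46f4e32c661b103a.shift 0 4), rhbf26e4e5408a7169, (rhff7d63dcb3cf9f74.shift 2 5)] (by decide +kernel))
noncomputable def rh564b787168f276c5 : CRef := CRef.mk (Pat.mk 0x20000000280000000000000000000000000000000000000000 0x140000001c0000007e0000007e0000007f0000003f0000006f0000002e0000000e0000000a00000008 8 7) 0 0 (step_sound _ 162 [(rh170eaefe6fff8440.shift 0 2), (rh4acbe7133cd1d231.shift 0 4), rh7acd50c0a297483b, (rhc1353e3029085bbe.shift 1 0), (rhe7a687206514a34a.shift 0 4)] (by decide +kernel))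
noncomputable def rh301639dcec145de3 : CRef := CRef.mk (Pat.mk 0x20000000280000000000000000000000000000000000000000 0x500000007000000078000001ec000001fe0000003e000000ff0000007e0000005e0000000a00000008 8 9) 0 0 (step_sound _ 164 [(rh46f4e32c661b103a.shift 0 4), (rh48fca6bb3b33c1ca.shift 3 2), rhbf26e4e5408a7169, (rhff7d63dcb3cf9f74.shift 2 5)] (by decide +kernel))
noncomputable def rh1b8e13ee4f7adda6 : CRef := CRef.mk (Pat.mk 0x20000000280000000000000000000000000000000000000000 0x140000001c0000001c0000001f0000007e0000003f0000007f0000003e0000001e0000001a00000008 8 7) 0 0 (step_sound _ 162 [(rh2f68fb68062f97ae.shift 1 4), (rh43bd0aea351db404.shift 0 1), (rhc1353e3029085bbe.shift 1 0), (rhd19bdf9ae8463a32.shift 0 4), (rhe7a687206514a34a.shift 0 4), rhed4660c8e7b741ee] (by decide +kernel))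
noncomputable def rh543ee582594165b6 : CRef := CRef.mk (Pat.mk 0x20000000280000000000000000000000000000000000000000 0x5000000070000001f80000007c000001ef0000003e000000ff0000007e0000005e0000000a00000008 8 9) 0 0 (step_sound _ 164 [rh17234a24fdc0f176, (rh46f4e32c661b103a.shift 0 4), (rhb12ffaec36122c99.shift 0 4), (rhf311290e68606e04.shift 2 2)] (by decide +kernel))
noncomputable def rhb583ee1a278b4c81 : CRef := CRef.mk (Pat.mk 0x80000000a00000000000000000000000000000000 0x140000001c0000001c0000000c0000000f0000007e0000007e0000001c00000014 8 7) 0 0 (step_sound _ 99 [(rh7cde007d2907bcbe.shift 0 2), (rh7fb85e918b0a04ef.shift 2 0), (rh819f483d77775605.shift 0 1), rhc9a9bfc18426107e, (rhd30abbb3f01d7a99.shift 1 0), (rhff3384473648fcb0.shift 2 0), (rhff363d8c8c4d7478.shift 2 0)] (by decide +kernel))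
noncomputable def rh7c79254fbe6b5ad4 : CRef := CRef.mk (Pat.mk 0x400000005000000000000000000000000000000000 0x38000000f8000001f8000007fe000003ff0000077f0000003e0000003c0000003c00000004 8 11) 0 0 (step_sound _ 164 [rh4cf533533e6263e1, (rh7b7e7a784199761b.shift 1 1), (rh87381d811f2b472e.shift 1 1), (rh8e58e2a07ac23d3c.shift 1 2), (rh94990d2df97199fe.shift 1 2), (rh9554b8c0f757e47e.shift 2 1), (rhc815848d08250cb6.shift 1 1), (rhd9bf4cba85dbdae6.shift 1 1), (rhfd4da42d00b0b227.shift 1 1)] (by decide +kernel))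
noncomputable def rh2f364533d7419af5 : CRef := CRef.mk (Pat.mk 0x80000000a0000000000000000000000000000000000000000 0x140000001e0000001f0000007e0000000e0000007e0000007e0000001c0000001c00000014 8 7) 0 0 (step_sound _ 131 [(rh4dc2891f3a21ef79.shift 2 0), (rh7fb85e918b0a04ef.shift 2 1), (rh9935e6d90e5bde1c.shift 0 3), (rhaef13a1c72d4db39.shift 2 2), (rhc5c5b88722b9bb4a.shift 2 2), (rhd091826498b1b626.shift 2 2), (rhd30abbb3f01d7a99.shift 1 1)] (by decide +kernel))
noncomputable def rh695dbc4764e80d34 : CRef := CRef.mk (Pat.mk 0x80000000a000000000000000000000000000000000 0x40000001f0000001f0000003f8000007fe000007fe00000ebf000003f8000003fc000001f000000160 8 12) 0 0 (step_sound _ 165 [(rh10bfcc9782bcb713.shift 1 2), (rh1342f0cb15232885.shift 2 2), (rh1c9f098aba83c7eb.shift 2 1), (rh230b5c9ef9dcdbe0.shift 2 1), (rh29e1430a7b20ae5b.shift 2 0), (rh3ba193a4622988fb.shift 2 1), (rh3ea7ce8a77ecdc0c.shift 1 2), (rh5478ffebc6a68727.shift 2 1), (rh7e9b475ca71f914a.shift 2 2), (rh9d0ae57aae036793.shift 0 1), (rhb45435185f9b6826.shift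 3 1), (rhd4681ad901f3c30b.shift 2 0)] (by decide +kernel))
noncomputable def rh5ffa60bf7e87ba7f : CRef := CRef.mk (Pat.mk 0x280000002000000000000000000000000000000000 0x40000002c0000006f0000003f0000007f0000007e000000fe0000001e00000010 8 8) 0 0 (step_sound _ 162 [rh186bdd8b4293662a, (rh8c2bcbc84662fd1d.shift 0 2), (rhb04145dc3da226a5.shift 1 2), (rhb34a67f8847d128f.shift 0 4), (rhbf5d9e90d56c2a5f.shift 0 4), (rheb38467d669bf196.shift 1 2)] (by decide +kernel))
noncomputable def rhd9859c6ecd1d80d6 : CRef := CRef.mk (Pat.mk 0x2800000020000000000000000000000000 0x140000001c0000003c0000007f0000003f0000007f0000001e0000001e00000014 8 7) 0 0 (step_sound _ 130 [rh3c7c2c3f7b43b090, (rh8c2bcbc84662fd1d.shift 0 1), (rhb04145dc3da226a5.shift 1 1), (rhb34a67f8847d128f.shift 0 3), (rhbf5d9e90d56c2a5f.shift 0 3), (rheb38467d669bf196.shift 1 1)] (by decide +kernel))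
noncomputable def rhd80fcd2e549d7eed : CRef := CRef.mk (Pat.mk 0x500000004000000000000000000000000000000000 0x28000000380000003c0000003e0000077f000007ff000007ff000001fc000000fc00000070 8 11) 0 0 (step_sound _ 132 [(rh17b6f0b6d599d8ee.shift 2 0), (rh2d926995502e63d0.shift 1 0), (rh36e769b85b203bd5.shift 0 1), rh47d20d28da346f35, (rh4e0160450ec77c7a.shift 1 1), (rh7eb05dc07ba7c3f6.shift 1 1), (rha283cdeb2c8522df.shift 0 1), (rhc78f887c66795e5a.shift 1 2), (rhf59e5697a1968455.shift 1 1)] (by decide +kernel))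
noncomputable def rhc7816ad0d28e1433 : CRef := CRef.mk (Pat.mk 0x28000000200000000000000000000000000000000000000000 0x140000005c0000007c000000ff000000ff0000002f000001fe000003ff000000fe0000007c0000007000000010 8 10) 0 0 (step_sound _ 163 [(rh1cbeb98d022c59ac.shift 0 2), (rh2499b4ded2bbc236.shift 0 2), (rh29d6610e58d09f05.shift 0 1), (rh3f95e0043ea41aeb.shift 0 2), (rh4bf783c5f891b2a0.shift 0 2), (rh6effc82ec01fbf4b.shift 0 2), (rh8bcaa4e0f1c39adf.shift 0 2), rhc51a013d4f425f25, rhd8af9c2aae61a196, (rhe595b310cd6d3403.shift 0 1), (rhf59e5697a1968455.shift 0 2)] (by decide +kernel))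
noncomputable def rhea317ef9c30120c1 : CRef := CRef.mk (Pat.mk 0x28000000200000000000000000 0x80000006e0000007e0000007e000000ff0000003e000001ff000000fc0000006c 8 9) 0 0 (step_sound _ 100 [rh3ab51e9d1a9e4d1b, (rh8bc3327fa6faac05.shift 3 0), (rhc21a95c499b3efdb.shift 2 2)] (by decide +kernel))
noncomputable def rh31f2d4bb14ef53e0 : CRef := CRef.mk (Pat.mk 0x280000002000000000000000000000000000000000 0x40000002c0000006f0000003f0000007f0000007e0000003e0000001e00000014 8 7) 0 0 (step_sound _ 162 [(rh324215630cdd7969.shift 0 2), rh84ef0c07c339b0fd, (rhb04145dc3da226a5.shift 1 2), (rhb34a67f8847d128f.shift 0 4), (rhbf5d9e90d56c2a5f.shift 0 4), (rhbfc653101c0a5384.shift 1 2)] (by decide +kernel))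
noncomputable def rh4a895fbbb9d1536d : CRef := CRef.mk (Pat.mk 0x280000002000000000000000000000000000000000 0x80000000e0000005e0000007e000000ff0000003e000001ff000000ec0000007c0000007000000050 8 9) 0 0 (step_sound _ 164 [(rh3ab51e9d1a9e4d1b.shift 0 2), (rh5a751a1e6d9b8c5b.shift 2 0), (rhc21a95c499b3efdb.shift 2 4)] (by decide +kernel))
noncomputable def rhfade2ee6a3cff707 : CRef := CRef.mk (Pat.mk 0x280000002000000000000000000000000000000000 0x80000000e0000005e0000007e000000ff0000003e000000ef0000007c000003fc0000007000000050 8 10) 0 0 (step_sound _ 164 [(rh3918eeb6c53434d8.shift 0 4), (rh3ab51e9d1a9e4d1b.shift 0 2), (rh855eb102cd8b6316.shift 2 0)] (by decide +kernel))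
noncomputable def rhb1d972b8ee4d7c0f : CRef := CRef.mk (Pat.mk 0x280000002000000000000000000000000000000000 0x140000001c0000003c0000007f0000003f0000007f0000001f0000001e0000001c00000014 8 7) 0 0 (step_sound _ 162 [(rh324215630cdd7969.shift 0 2), rha710556b0eb1c31e, (rhb04145dc3da226a5.shift 1 2), (rhb34a67f8847d128f.shift 0 4), (rhbf5d9e90d56c2a5f.shift 0 4), (rhbfc653101c0a5384.shift 1 2)] (by decide +kernel))
noncomputable def rhccfc2c154dc7c0af : CRef := CRef.mk (Pat.mk 0x50000000400000000000000000000000000000000000000000 0x8000000380000003c0000003e0000077f000007ff000007fe0000007c0000007c0000003800000020 8 11) 0 0 (step_sound _ 164 [(rh5fe94d816f8ade8b.shift 1 2), (rh61059692574bb803.shift 1 0), (rh6c6cc136f2e509e9.shift 1 1), (rh708ff60e711c67c6.shift 1 0), (rh7ff2fcb04e113733.shift 1 2), (rh8115e28e85126967.shift 1 2), (rhc78f887c66795e5a.shift 1 3), (rhcc740d453bafdd8f.shift 2 1), (rhe1bead3c6a8aa02a.shift 0 2)] (by decide +kernel))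
noncomputable def rhc0ccd28023c02f14 : CRef := CRef.mk (Pat.mk 0x280000002000000000000000000000000000000000 0x60000000780000007c000000ff0000003e000001ff000000fe0000006e0000000e0000000a 8 9) 0 0 (step_sound _ 164 [rh18a63d19cdbdd6d0, (rh8bc3327fa6faac05.shift 3 2), (rhc21a95c499b3efdb.shift 2 4)] (by decide +kernel))
noncomputable def rh173984388f34f881 : CRef := CRef.mk (Pat.mk 0x280000002000000000000000000000000000000000 0x580000007c000000ff0000003e000001ff000000ee0000007e0000007e0000005a 8 9) 0 0 (step_sound _ 164 [rh18a63d19cdbdd6d0, (rh5a751a1e6d9b8c5b.shift 2 0), (rhc21a95c499b3efdb.shift 2 4)] (by decide +kernel))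
noncomputable def rh152248adc1aee1f2 : CRef := CRef.mk (Pat.mk 0x280000002000000000000000000000000000000000 0x580000007c000000ff0000003e000000ef0000007e000003fe0000007e0000005a 8 10) 0 0 (step_sound _ 164 [rh18a63d19cdbdd6d0, (rh3918eeb6c53434d8.shift 0 4), (rh855eb102cd8b6316.shift 2 0)] (by decide +kernel))
noncomputable def rhb7a195bf4bd4f2a5 : CRef := CRef.mk (Pat.mk 0x280000002000000000000000000000000000000000 0x140000001c0000003c0000007f0000003f0000007f0000001f0000001e0000001c00000014 8 7) 0 0 (step_sound _ 162 [rh19fe93189ebac44f, (rh324215630cdd7969.shift 0 2), (rhb04145dc3da226a5.shift 1 2), (rhb34a67f8847d128f.shift 0 4), (rhbf5d9e90d56c2a5f.shift 0 4), (rhbfc653101c0a5384.shift 1 2)] (by decide +kernel))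
noncomputable def rh7bd7a68903a24f52 : CRef := CRef.mk (Pat.mk 0x28000000200000000000000000 0x380000007c000000ff0000003e000001ff000000fe0000007e 8 9) 0 0 (step_sound _ 100 [(rh3918eeb6c53434d8.shift 0 2), rh9919b8cd7bad38a7, (rhc21a95c499b3efdb.shift 2 2), (rhffbd3f12f30a7c49.shift 1 0)] (by decide +kernel))
noncomputable def rhe186e8420f093554 : CRef := CRef.mk (Pat.mk 0x28000000200000000000000000000000000000000000000000 0x700000007c000000ff0000003e000001ff0000007e0000006e000000700000007000000050 8 9) 0 0 (step_sound _ 196 [(rh17099cb433208f0e.shift 3 0), (rh3918eeb6c53434d8.shift 0 5), (rh9919b8cd7bad38a7.shift 0 3), (rhc21a95c499b3efdb.shift 2 5)] (by decide +kernel))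
noncomputable def rhabc0d77e4421cee6 : CRef := CRef.mk (Pat.mk 0x280000002000000000000000000000000000000000 0x40000002c0000006f0000003f0000007f0000007e0000003e0000001e00000014 8 7) 0 0 (step_sound _ 162 [(rh324215630cdd7969.shift 0 2), rh7fdbd3c43413629a, (rhb04145dc3da226a5.shift 1 2), (rhb34a67f8847d128f.shift 0 4), (rhbf5d9e90d56c2a5f.shift 0 4), (rhbfc653101c0a5384.shift 1 2)] (by decide +kernel))
noncomputable def rh65a20eba89e03a7f : CRef := CRef.mk (Pat.mk 0x280000002000000000000000000000000000000000 0x500000007c000000ff0000003e000001ff000000ee0000007e0000007000000050 8 9) 0 0 (step_sound _ 164 [(rh3918eeb6c53434d8.shift 0 4), (rh5a751a1e6d9b8c5b.shift 2 0), (rh9919b8cd7bad38a7.shift 0 2), (rhc21a95c499b3efdb.shift 2 4)] (by decide +kernel))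
noncomputable def rh8226bfb54ed9a97a : CRef := CRef.mk (Pat.mk 0x280000002000000000000000000000000000000000 0x100000007000000070000000f0000000ff0000003e000000e70000007c000003f00000007000000050 8 10) 0 0 (step_sound _ 164 [(rh3918eeb6c53434d8.shift 0 4), (rh855eb102cd8b6316.shift 2 0), (rhb5953f1d96725358.shift 0 1)] (by decide +kernel))
noncomputable def rhb7011cae4f96f225 : CRef := CRef.mk (Pat.mk 0x280000002000000000000000000000000000000000 0x140000001c0000003c0000007f0000003f0000007f0000001f0000001e0000001c00000014 8 7) 0 0 (step_sound _ 162 [(rh324215630cdd7969.shift 0 2), rh5b256122f354911e, (rhb04145dc3da226a5.shift 1 2), (rhb34a67f8847d128f.shift 0 4), (rhbf5d9e90d56c2a5f.shift 0 4), (rhbfc653101c0a5384.shift 1 2)] (by decide +kernel))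
noncomputable def rhf1eeb9204a1829e2 : CRef := CRef.mk (Pat.mk 0x28000000200000000000000000000000000000000000000000 0x40000001c0000001e0000001f000003bf000001ff000003ff0000003c0000003c0000001c00000010 8 10) 0 0 (step_sound _ 163 [(rh078f25913be35169.shift 0 3), (rh16fb5d56bd5c2716.shift 0 2), rh313870cd848c49cf, (rh6438e926a9981e2b.shift 0 2), (rh710b2b6fddad5f64.shift 0 2), (rh905eb58c02103b93.shift 0 1), (rhcc740d453bafdd8f.shift 1 1), rhf1844e3b49e726bc, (rhf19ff617345f34af.shift 0 2)] (by decide +kernel))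
noncomputable def rh11b6d3ec50c2ffb3 : CRef := CRef.mk (Pat.mk 0xa0000000800000000000000000000000000000000000000000 0x5000000170000001f0000003fc000003fc000000bf000007fe00000ffe000003f8000001f0000001f000000040 8 12) 0 0 (step_sound _ 165 [(rh1cbeb98d022c59ac.shift 2 2), (rh26788f4d5e86a140.shift 2 2), (rh36b2afc14b11904f.shift 2 2), (rh5fc189ca6e8e0fa4.shift 2 0), (rh8443d3fc8028cd5d.shift 2 2), (rh98699bb73ae4b2e7.shift 2 1), (rhc51a013d4f425f25.shift 2 0), (rhf611237621981fdc.shift 2 1), (rhfa47ea0bb77adff7.shift 2 1), rhfaec583036611081] (by decide +kernel))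
noncomputable def rhab4057d947f78471 : CRef := CRef.mk (Pat.mk 0x28000000200000000000000000 0x20000006e0000007e0000007c000000ff0000003e000001ff000000fc0000006c 8 9) 0 0 (step_sound _ 100 [rh5e43f217956e841a, (rh8bc3327fa6faac05.shift 3 0), (rhc21a95c499b3efdb.shift 2 2)] (by decide +kernel))
noncomputable def rh5e0d684c1682deb2 : CRef := CRef.mk (Pat.mk 0x280000002000000000000000000000000000000000 0x20000000e0000005e0000007c000000ff0000003e000001ff000000ec0000007c0000007000000050 8 9) 0 0 (step_sound _ 164 [(rh5a751a1e6d9b8c5b.shift 2 0), (rh5e43f217956e841a.shift 0 2), (rhc21a95c499b3efdb.shift 2 4)] (by decide +kernel))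
noncomputable def rh1d5871c52eff6d60 : CRef := CRef.mk (Pat.mk 0x280000002000000000000000000000000000000000 0x20000000e0000005e0000007c000000ff0000003e000000ef0000007c000003fc0000007000000050 8 10) 0 0 (step_sound _ 164 [(rh3918eeb6c53434d8.shift 0 4), (rh5e43f217956e841a.shift 0 2), (rh855eb102cd8b6316.shift 2 0)] (by decide +kernel))
noncomputable def rh263e0adb59eac83f : CRef := CRef.mk (Pat.mk 0x28000000200000000000000000000000000000000000000000 0x40000001c0000001c0000001f000003bf000001ff000003ff000000fc0000007c0000001c00000010 8 10) 0 0 (step_sound _ 163 [(rh078f25913be35169.shift 0 3), (rh16fb5d56bd5c2716.shift 0 2), (rh1a985972842acbaa.shift 0 2), (rh45e2270165e83fb7.shift 0 2), (rh7e2efd4a05436f5d.shift 0 2), (rha586574ee9cc526b.shift 0 1), (rhadd90ec1b7e4b9a1.shift 1 1), rhc4fa718a7907825b, rhf4dd5fd6f2cbe0b3] (by decide +kernel))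
noncomputable def rh28d91ccb092ba629 : CRef := CRef.mk (Pat.mk 0xa0000000800000000000000000000000000000000000000000 0x5000000170000001f0000003f0000003fc000000bf000007fe00000ffe000003f8000001f0000001f000000040 8 12) 0 0 (step_sound _ 165 [(rh2499b4ded2bbc236.shift 2 2), (rh338277d15ceab462.shift 2 2), (rh5fc189ca6e8e0fa4.shift 2 0), (rh6915951241de8e98.shift 1 2), (rh6efb738a61011c43.shift 2 1), (rh6ff752692192a7b0.shift 2 1), (rhc51a013d4f425f25.shift 2 0), (rhce29d835320f503a.shift 2 2), (rhf611237621981fdc.shift 2 1), (rhfa47ea0bb77adff7.shift 2 1), rhfaec583036611081] (by decide +kernel))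
noncomputable def rhc174d4c6aae1e40c : CRef := CRef.mk (Pat.mk 0x280000000800000000000000000000000000000000 0x7800000078000000780000003f000000ff000001ff0000007c0000007c00000008 8 9) 0 0 (step_sound _ 132 [(rh1003e9aa7723ce42.shift 1 1), (rh22d6c07807596297.shift 0 1), (rh391e4c6ecb601538.shift 0 1), (rh6751c23c85881b96.shift 1 1), (rh7cec4f928b9b9907.shift 0 1), (rh89bcb7f6f961b856.shift 0 1), (rh96c3d4984bc3aafd.shift 0 1), rh9ed86df2dcdd7f91, (rhbe92703a41fb1469.shift 1 1), (rhc1ad5cc84bbf6685.shift 0 1)] (by decide +kernel))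
noncomputable def rha4a0176613614e98 : CRef := CRef.mk (Pat.mk 0x280000000800000000000000000000000000000000 0x40000007c0000007c0000003f0000007f0000001c0000001c0000001c00000014 8 7) 0 0 (step_sound _ 99 [(rh1b79740c74061dde.shift 2 1), (rh4357bc4c604fe815.shift 2 0), (rh57adde48c826397b.shift 0 2), (rh659eb6aa1e5d49ed.shift 2 0), (rhc1f48429e2584caf.shift 2 1), rhcae2f39103884b1d] (by decide +kernel))
noncomputable def rh514bf96911bfb750 : CRef := CRef.mk (Pat.mk 0xa00000002000000000000000000000000000000000 0x100000001f0000001f4000001f7000000fe000001ff000007fe000001e80000016800000140 8 11) 0 0 (step_sound _ 164 [(rh360e6435629c8741.shift 1 1), (rh4216607590201489.shift 1 1), (rh49976df42fefd02c.shift 1 0), (rh660ab7ae3d310e74.shift 0 2), (rha4c8ea56de028406.shift 2 0), (rhb4d79bb409bf2ff0.shift 1 0), (rhb57cbe381e688c83.shift 0 2), (rhbea40210056c7c02.shift 2 4)] (by decide +kernel))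
noncomputable def rh8512529a10d7f57b : CRef := CRef.mk (Pat.mk 0xa00000002000000000000000000000000000000000 0x130000001b0000001f7000000fe000007ff000003fe000007fe0000017800000050 8 11) 0 0 (step_sound _ 164 [(rh04a656df0c23590a.shift 1 0), rh3200959f5e21e1aa, (rh52a198496a228e3d.shift 2 0), (rh8132bf205d32ea80.shift 1 0), (rhbea40210056c7c02.shift 2 4)] (by decide +kernel))
noncomputable def rha331841db558bd76 : CRef := CRef.mk (Pat.mk 0xa00000002000000000000000000000000000000000 0x150000001f0000001f4000001f7000000fe000001ff000007e8000001f8000001f000000150 8 11) 0 0 (step_sound _ 164 [(rh660ab7ae3d310e74.shift 0 2), (rh68c242fa2ac04d33.shift 2 0), (rh82b6783c209dd75e.shift 2 0), (rha6e23bde9b8be9bb.shift 3 0), (rhb57cbe381e688c83.shift 0 2), (rhbea40210056c7c02.shift 2 4), (rhc12987d3f6d676e5.shift 2 0)] (by decide +kernel))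
noncomputable def rh5e8455ec33f0944b : CRef := CRef.mk (Pat.mk 0xa00000002000000000000000000000000000000000 0xf0000000f4000001f7000000fe000001ff000007fe000001b8000000b800000008 8 11) 0 0 (step_sound _ 164 [(rh01f5e0fd856e3c17.shift 0 1), (rh5478896a79b6ce03.shift 1 1), (rh582fbabcd51a83b2.shift 1 1), (rh660ab7ae3d310e74.shift 0 2), (rh9f3970999d211aca.shift 1 0), (rha5edc3935ef030c3.shift 1 0), (rhb57cbe381e688c83.shift 0 2), (rhbea40210056c7c02.shift 2 4), (rhe677724e06eefdcd.shift 3 1)] (by decide +kernel))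
noncomputable def rh35d198abde5a47b1 : CRef := CRef.mk (Pat.mk 0xa00000002000000000000000000000000000000000 0x4000000170000001f4000001b7000000fe000007ff000003fe000007fe0000017800000050 8 11) 0 0 (step_sound _ 164 [(rh178757cac51d75cc.shift 1 0), (rh660ab7ae3d310e74.shift 0 2), (rh7382089cb8b5278f.shift 1 0), (rh8132bf205d32ea80.shift 1 0), (rh9bfaac0974244827.shift 2 0), (rhf1bd8095bad64327.shift 2 1)] (by decide +kernel))
noncomputable def rh0136e8dd0fadb881 : CRef := CRef.mk (Pat.mk 0x500000001000000000000000000000000000000000 0x8000000b8000000f8000000f8000000f80000007f000000ff000000df000000fc000000fc0000002c 8 8) 0 0 (step_sound _ 163 [(rh00e77c83a0363ee0.shift 1 0), rh178757cac51d75cc, rh5ac55288f9588f30, (rh72cac225cbea0942.shift 1 0), (rha32aeb3b4dfc84e9.shift 1 0), (rhbea40210056c7c02.shift 1 4)] (by decide +kernel))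
noncomputable def rh85b6d3c9af76fe6e : CRef := CRef.mk (Pat.mk 0x500000001000000000000000000000000000000000 0x280000003800000038000000780000003e000001ff000000fe000001f800000028 8 9) 0 0 (step_sound _ 100 [(rh1b79740c74061dde.shift 3 1), (rh22a9aaee1e7c33d9.shift 1 0), (rh4357bc4c604fe815.shift 3 0), (rh659eb6aa1e5d49ed.shift 3 0), rh779dc1295020d037, (rhc1f48429e2584caf.shift 3 1)] (by decide +kernel))
noncomputable def rh7a82c9dfe1225188 : CRef := CRef.mk (Pat.mk 0x28000000080000000000000000000000000000000000000000 0x140000007c0000007c0000003f00000038000000ff0000007f000000fc0000001c00000014 8 8) 0 0 (step_sound _ 131 [(rh1b79740c74061dde.shift 2 2), (rh3e53d14085adc43a.shift 2 2), (rh54ab468feb2f7425.shift 2 2), (rh659eb6aa1e5d49ed.shift 2 1), (rh796a9a79e4977669.shift 0 1), (rh7b67209cb0041f6b.shift 2 0), (rhd2fc96a07e033e12.shift 0 3)] (by decide +kernel))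
noncomputable def rhcac5ce7ff4aca76c : CRef := CRef.mk (Pat.mk 0x50000000100000000000000000000000000000000000000000 0x38000000380000007800000078000003de000001fe000001ff000001f8000000b800000028 8 10) 0 0 (step_sound _ 132 [(rh18b540f8ec8c057f.shift 0 1), (rh1e82760509877708.shift 3 1), (rh22a9aaee1e7c33d9.shift 1 1), (rh4357bc4c604fe815.shift 3 1), (rh4c7cde9394e08331.shift 3 1), (rha723fdf96f801998.shift 3 2), (rhb61c9867903345c1.shift 3 0), (rhc1f48429e2584caf.shift 3 2)] (by decide +kernel))
noncomputable def rh11755acac3194727 : CRef := CRef.mk (Pat.mk 0x500000001000000000000000000000000000000000 0xe0000000e0000000e80000007e000001ff000003fe000001fe000001f8000000a8 8 10) 0 0 (step_sound _ 100 [(rh22a9aaee1e7c33d9.shift 1 0), (rh796a9a79e4977669.shift 1 0), (rhb8b98f24eba59a06.shift 1 0), (rhc504ee33fc92e909.shift 1 0), (rhcae2f39103884b1d.shift 1 0), rhef2690579038f2c5] (by decide +kernel))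
noncomputable def rh9fab1fc971697bdb : CRef := CRef.mk (Pat.mk 0x200000002000000000000000000000000000000000 0x7000000070000000f00000003c000001ff000003fe000001ff000003f000000050 8 10) 0 0 (step_sound _ 101 [(rh020140c103c93fec.shift 4 0), (rh15717f5b95caa406.shift 2 0), (rh2b8f8eb3cb1e28c1.shift 2 1), (rh4357bc4c604fe815.shift 4 0), (rh453f8e1867ed3ca8.shift 0 2), (rh54ab468feb2f7425.shift 4 1), (rh821f745d796daa5a.shift 2 2), (rhca4d5fc3d95c8c8e.shift 4 0), (rhfac15a34fce763b7.shift 4 1)] (by decide +kernel))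
noncomputable def rh0d8fa00fe245bfae : CRef := CRef.mk (Pat.mk 0x280000000800000000000000000000000000000000 0x80000000c0000001c0000003c000000380000003f0000003f000000ff0000003c00000014 8 8) 0 0 (step_sound _ 99 [(rh013d483fe718db62.shift 0 2), (rh14ca8de9b6eee6bf.shift 2 1), (rh4d6d2e70adf906bc.shift 2 1), (rh659eb6aa1e5d49ed.shift 2 0), (rh7d50b34b793d747c.shift 2 1), rh7eff9cacc70a21ff, (rheeb09fa00fbc55f9.shift 2 1), (rhfb24f9e5e729af53.shift 2 0)] (by decide +kernel))
noncomputable def rhbaa9b6dbff0833f3 : CRef := CRef.mk (Pat.mk 0xa000000020000000000000000000000000 0x1c0000001c0000001d0000003f000000ffc000007f000000eff000003fe000007df000001d0000001d0 8 12) 0 0 (step_sound _ 167 [(rh055c801a09c5ec17.shift 2 0), (rh2a9809816dc05e47.shift 2 0), (rh3b0afced6a3ef3aa.shift 4 1), (rh58992c9c4da41535.shift 2 0), (rh5e164cc6a0458a73.shift 2 0), (rh83f66d0b270b867d.shift 2 0), (rh8fbb93dbeed37c6d.shift 2 0), (rhb13f3e64a062c1d0.shift 2 0), rhe5a212fa4bf45ae5] (by decide +kernel))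
noncomputable def rh73578e43f9713cfe : CRef := CRef.mk (Pat.mk 0x800000028000000000000000000000000 0x140000001c0000001c0000001c0000003f0000003f0000007c0000007c00000014 8 7) 0 0 (step_sound _ 163 [(rh3e53d14085adc43a.shift 2 1), rh4c0450ae20afe2d3, (rh92e978301f8c685a.shift 0 2), (rhbabd6c92f46a055d.shift 1 1), (rhfb24f9e5e729af53.shift 2 0), (rhfc60e486baaa63e2.shift 2 1)] (by decide +kernel))
noncomputable def rhfaff5d71f67ae795 : CRef := CRef.mk (Pat.mk 0x80000002800000000000000000000000000000000 0x80000007c0000007c000001ff000000ff0000003f000000f8000000780000007800000010 8 9) 0 0 (step_sound _ 164 [(rh178d4ea2063cd467.shift 0 2), (rh234796180f54a4c0.shift 1 1), (rh29ddee2472ae33ae.shift 0 1), rh5bd906e952f3929f, (rh6376dad103bbabce.shift 0 2), (rh7538fc2e37b15c73.shift 0 1), (rhafe1117f81b4145c.shift 1 1), (rhb568766f005f6d41.shift 1 2)] (by decide +kernel))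
noncomputable def rh9d73b853081e138a : CRef := CRef.mk (Pat.mk 0x20000000a000000000000000000000000000000000 0x15000000170000001f0000007e8000001ff000000fe000001f7000001f4000001f400000150 8 11) 0 0 (step_sound _ 132 [(rh1a649e7d11a5ba8a.shift 3 1), (rh2295e2cdca1d4299.shift 0 1), (rh4c67df4e765839b9.shift 2 0), (rh506b562c632096da.shift 3 0), (rh9ab690de20cd1ff0.shift 0 1), (rhe1f2bad0ed2c12a3.shift 2 3), (rhf8d6cc766e3f47ea.shift 2 0)] (by decide +kernel))
noncomputable def rh7dc166df6e5bbb6a : CRef := CRef.mk (Pat.mk 0x20000000a0000000000000000000000000 0x5000000070000007fe000003fe000007ff000000fe000001f70000003000000030 8 11) 0 0 (step_sound _ 100 [(rh18166cf39ca4e187.shift 2 0), rh9ab690de20cd1ff0, (rhaf2cc4d1c8dcb8df.shift 1 0), (rhce1eb30f895db395.shift 1 0), (rhe1f2bad0ed2c12a3.shift 2 2)] (by decide +kernel))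
noncomputable def rhd29d49a8aa42ae48 : CRef := CRef.mk (Pat.mk 0x20000000a000000000000000000000000000000000 0x38000001b8000007fe000001ff000000fe000001f7000000f4000000f400000040 8 11) 0 0 (step_sound _ 132 [(rh2295e2cdca1d4299.shift 0 1), (rh8373bb246132c36a.shift 1 1), (rh855f624c10f4b5bc.shift 1 1), (rh9ab690de20cd1ff0.shift 0 1), (rhe1f2bad0ed2c12a3.shift 2 3), (rhed7b95bcbd3d0d63.shift 1 1), (rhf368686386160ac7.shift 1 0), (rhff9cda29603df028.shift 2 1)] (by decide +kernel))
noncomputable def rh610bc6970e4d1f60 : CRef := CRef.mk (Pat.mk 0x20000000a000000000000000000000000000000000 0x5000000178000007fe000003fe000007ff000000fe000001b7000001f40000017400000040 8 11) 0 0 (step_sound _ 132 [(rh08affc32ed168152.shift 2 1), (rh2295e2cdca1d4299.shift 0 1), (rh3d243be3fcf1cc50.shift 1 1), (rhce1eb30f895db395.shift 1 1), (rhd74e4a519343f33f.shift 2 1), (rheac2c6221e7ac2b7.shift 1 0)] (by decide +kernel))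
noncomputable def rh7373a1bbb6584a11 : CRef := CRef.mk (Pat.mk 0x20000000a000000000000000000000000000000000 0x5000000178000001f8000001be000001ff000000fe000001f7000001f0000001f000000140 8 9) 0 0 (step_sound _ 132 [(rh3646a9c5776f00ab.shift 1 1), (rh9ab690de20cd1ff0.shift 0 1), (rhaf032692014853cb.shift 2 1), (rhb13145198ac26ecc.shift 2 0), (rhe1f2bad0ed2c12a3.shift 2 3), (rheac2c6221e7ac2b7.shift 1 0)] (by decide +kernel))
noncomputable def rhe2d5da7990fe8914 : CRef := CRef.mk (Pat.mk 0x1000000050000000000000000000000000 0x2800000078000000fe000000ff0000003e00000078000000780000003800000028 8 8) 0 0 (step_sound _ 164 [(rh3e53d14085adc43a.shift 3 1), (rha31b2d8fdbf8688e.shift 2 2), (rhbabd6c92f46a055d.shift 2 1), rhf3e0890529117c0a, (rhfb24f9e5e729af53.shift 3 0), (rhfc60e486baaa63e2.shift 3 1)] (by decide +kernel))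
noncomputable def rh95367b74ab1235bd : CRef := CRef.mk (Pat.mk 0x80000002800000000000000000000000000000000 0x140000003c0000007e0000007e000000380000003f0000007c0000007c0000001c00000010 8 7) 0 0 (step_sound _ 195 [(rh13953f598edca916.shift 2 2), (rh3e53d14085adc43a.shift 2 2), (rh7ee7f90788af69bd.shift 1 3), (rh978d00b16ef1b72b.shift 2 0), (rhdad758f4157e4eb3.shift 0 1), (rhfc60e486baaa63e2.shift 2 2)] (by decide +kernel))
noncomputable def rha5bccda3277d7fda : CRef := CRef.mk (Pat.mk 0x80000002800000000000000000000000000000000 0x14000000fc000000ff000000ff000001ef0000003c0000007c0000007c0000005c00000014 8 9) 0 0 (step_sound _ 195 [(rh085ca6bbd0160070.shift 2 2), (rh321665f757ae9faf.shift 0 3), (rh3e53d14085adc43a.shift 2 2), (rhb61c9867903345c1.shift 2 0), (rhbabd6c92f46a055d.shift 1 2), (rhd40fb17f80e5609b.shift 0 1), (rhfc60e486baaa63e2.shift 2 2)] (by decide +kernel))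
noncomputable def rh072431ce4a89c0cb : CRef := CRef.mk (Pat.mk 0x2000000020000000000000000000000000 0x50000003f0000001ff000003fe000001ff00000030000000700000007000000050 8 10) 0 0 (step_sound _ 165 [rh194d8613a4c7b839, (rh3e53d14085adc43a.shift 4 1), (rh5bc9df88a00c877f.shift 3 1), (rh659eb6aa1e5d49ed.shift 4 0), (rh91e89503dcfa7603.shift 4 0), (rhacc358522fadf1a7.shift 2 0), (rhca4d5fc3d95c8c8e.shift 4 0), (rhe93d88b63981f086.shift 2 2)] (by decide +kernel))
noncomputable def rh4f7392dff0ec0f98 : CRef := CRef.mk (Pat.mk 0x20000000a000000000000000000000000000000000 0x1d0000003f0000003fc000007fc000007fe000000ff000003d0000001c0000001c000000100 8 11) 0 0 (step_sound _ 197 [(rh45bcf8abe2866dcd.shift 2 3), (rh5b0a55cda8161855.shift 2 3), (rh92e978301f8c685a.shift 2 3), (rhb1eeb43ca2f0601d.shift 2 3), rhc71effc0010c6e63, (rhce90edf927cf084f.shift 2 3)] (by decide +kernel))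
noncomputable def rh84e1721ab818cbaf : CRef := CRef.mk (Pat.mk 0x800000028000000000000000000000000 0x140000003c0000007e0000007f0000007f000000380000003c0000001c00000014 8 7) 0 0 (step_sound _ 163 [(rh020140c103c93fec.shift 2 0), rh10713629fc253bbd, (rh115536dd7e58a5c0.shift 1 2), (rh3224ee3f059c17a0.shift 2 0), (rhe397b478535c4da6.shift 1 1), (rhfb24f9e5e729af53.shift 2 0), (rhfc60e486baaa63e2.shift 2 1)] (by decide +kernel))
noncomputable def rh62780d9acbf1d720 : CRef := CRef.mk (Pat.mk 0x20000000a0000000000000000000000000000000000000000000000000 0x1c0000001c0000003df000003fe00000eff000007f000000ffc00000ff8000001d0000001c0000001c0 8 12) 0 0 (step_sound _ 167 [(rh0d16b423b6edd5e3.shift 2 1), (rh39b6fc2582ec57d8.shift 2 2), (rh66f36c28b3c65540.shift 2 0), (rh69bba83fba69de20.shift 2 4), (rh960c273de2164f5e.shift 3 1), (rha2d307d3602ec462.shift 3 1), (rha6f8899ae713af4f.shift 2 2), (rhb8a2e7be96aaf397.shift 0 2), (rhc6d40cadfefde933.shift 3 1), (rhfd75586fc906a521.shift 2 1)] (by decide +kernel))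
noncomputable def rh4f3abe8ff15c2ab1 : CRef := CRef.mk (Pat.mk 0x20000000280000000000000000000000000000000000000000 0x68000000fc000001fe0000003e000000ff0000007c0000003e0000002e00000002 8 9) 0 0 (step_sound _ 164 [(rh0f0f3fa9f3928457.shift 3 1), (rh46f4e32c661b103a.shift 0 4), rh5242860cdd62a0b0, (rhff7d63dcb3cf9f74.shift 2 5)] (by decide +kernel))
noncomputable def rhe1457d0033cc012d : CRef := CRef.mk (Pat.mk 0x20000000280000000000000000000000000000000000000000 0x140000001e0000007e0000007e0000007f0000003f0000006f0000002c0000000e0000000e00000002 8 7) 0 0 (step_sound _ 162 [(rh4acbe7133cd1d231.shift 0 4), rh788dd03408eee7d3, (rh984aa034c141b83f.shift 1 0), (rhc05750ddbb005c8b.shift 0 2), (rhe7a687206514a34a.shift 0 4)] (by decide +kernel))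
noncomputable def rhb207b9888246e5f6 : CRef := CRef.mk (Pat.mk 0x20000000280000000000000000000000000000000000000000 0x500000007000000078000001ec000001fe0000003e000000ff0000007c0000005e0000000e00000002 8 9) 0 0 (step_sound _ 164 [(rh46f4e32c661b103a.shift 0 4), (rh48fca6bb3b33c1ca.shift 3 2), rh5242860cdd62a0b0, (rhff7d63dcb3cf9f74.shift 2 5)] (by decide +kernel))
noncomputable def rh5cf0bc61008ad89f : CRef := CRef.mk (Pat.mk 0x20000000280000000000000000000000000000000000000000 0x100000001c0000001c0000001f0000007e0000003f0000007f0000001c0000001e0000001e00000002 8 7) 0 0 (step_sound _ 162 [(rh2f68fb68062f97ae.shift 1 4), (rh984aa034c141b83f.shift 1 0), (rha180685b87c9cb3f.shift 0 1), rhd16204d93f7dfe82, (rhd19bdf9ae8463a32.shift 0 4), (rhe7a687206514a34a.shift 0 4)] (by decide +kernel))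
noncomputable def rh710d79ffbbb73106 : CRef := CRef.mk (Pat.mk 0x20000000280000000000000000000000000000000000000000 0x5000000070000001f80000007c000001ef0000003e000000ff0000007c0000005e0000000e00000002 8 9) 0 0 (step_sound _ 164 [(rh46f4e32c661b103a.shift 0 4), rh70380b75fb4ecfca, (rhb12ffaec36122c99.shift 0 4), (rhf311290e68606e04.shift 2 2)] (by decide +kernel))
noncomputable def rh7167b6dca133076a : CRef := CRef.mk (Pat.mk 0x200000002800000000000000000000000000000000 0x100000001c0000001c0000003c000003ff000001ff000003bf0000001f0000001c0000001c00000014 8 10) 0 0 (step_sound _ 163 [(rh06a79067e5b1f410.shift 0 2), (rh27e22ae938878350.shift 0 1), (rh521a75152b2332eb.shift 0 1), (rh5fc433df4edd2d99.shift 1 1), rh9e0cec1b54c9e9f8, (rhbed05b9d2036dda1.shift 0 1), (rhc815848d08250cb6.shift 0 1), rhd08cc06bff585775, (rhe17ca888d093431b.shift 0 2)] (by decide +kernel))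
noncomputable def rh4d7bce108393a154 : CRef := CRef.mk (Pat.mk 0x80000000a00000000000000000000000000000000000000000 0x40000001f0000001f0000001f8000007fe000007fe00000ebf000003f8000003f0000001f00000017000000050 8 12) 0 0 (step_sound _ 197 [(rh10bfcc9782bcb713.shift 1 3), (rh1c9f098aba83c7eb.shift 2 2), (rh3126c48f3ad854ad.shift 2 1), (rh3ba193a4622988fb.shift 2 2), (rh5478ffebc6a68727.shift 2 2), (rh77d70ebc9405aded.shift 2 0), (rh900a6dcb276d3dd4.shift 2 1), (rh9d0ae57aae036793.shift 0 2), (rha9d599297f41c94c.shift 2 2), (rhb9eea631f6904dcb.shift 2 3), (rhf58ba91ec5c4105d.shift 3 1)] (by decide +kernel))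
noncomputable def rhe5890e4c794386a8 : CRef := CRef.mk (Pat.mk 0x28000000200000000000000000 0x200000007800000078000000ff0000003e000001ff000000f800000068 8 9) 0 0 (step_sound _ 100 [(rh3918eeb6c53434d8.shift 0 2), rh7a9412a180f01820, (rhc21a95c499b3efdb.shift 2 2), (rhe6a81feb013da0e6.shift 3 0)] (by decide +kernel))
noncomputable def rha8a98201a3b48c3f : CRef := CRef.mk (Pat.mk 0x280000002000000000000000000000000000000000 0x200000007000000070000000ff0000003e000001f7000000e00000007c0000007000000050 8 9) 0 0 (step_sound _ 164 [(rh3918eeb6c53434d8.shift 0 4), (rh5a751a1e6d9b8c5b.shift 2 0), (rh7a9412a180f01820.shift 0 2), (rhc21a95c499b3efdb.shift 2 4)] (by decide +kernel))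
noncomputable def rhdd4ed642c79660dd : CRef := CRef.mk (Pat.mk 0x28000000200000000000000000000000000000000000000000 0x60000000640000006f0000003e000003ff000003fe000003fc0000007c0000007000000050 8 10) 0 0 (step_sound _ 196 [(rh3918eeb6c53434d8.shift 0 5), (rh7ee68c16c242c60d.shift 1 0), (rh87da09efeaf6b0d0.shift 0 2), (rhc21a95c499b3efdb.shift 2 5)] (by decide +kernel))
noncomputable def rh2deb422a55990dd1 : CRef := CRef.mk (Pat.mk 0x280000002000000000000000000000000000000000 0x140000007c0000007c0000007f0000003f0000007f0000001f0000001c0000001c00000014 8 7) 0 0 (step_sound _ 162 [(rh91e8a6db65b62036.shift 1 2), rha710556b0eb1c31e, (rhb34a67f8847d128f.shift 0 4), (rhbf5d9e90d56c2a5f.shift 0 4), (rhcf9b958d04f9dcda.shift 0 2), (rhdfa77469688d663b.shift 0 4)] (by decide +kernel))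
noncomputable def rh67502109c115e046 : CRef := CRef.mk (Pat.mk 0x280000002000000000000000000000000000000000 0x100000007000000070000000fe000000ff0000003e000000e70000007c000003f00000007000000050 8 10) 0 0 (step_sound _ 164 [(rh076bb668286ce600.shift 0 1), (rh3918eeb6c53434d8.shift 0 4), (rh855eb102cd8b6316.shift 2 0)] (by decide +kernel))
noncomputable def rh14aff9efdc7eb322 : CRef := CRef.mk (Pat.mk 0x140000001000000000000000000000000000000000 0x28000000380000003e000000fe0000001f0000001800000038000000380000003800000008 8 8) 0 0 (step_sound _ 196 [(rh131b19269d79d13d.shift 1 1), rh6dda7093be021bad, (rh785804701e263c00.shift 0 3), (rh8e05fd70436752b1.shift 1 0), (rhaef13a1c72d4db39.shift 3 2), (rhf237fec569adc1e2.shift 3 2), (rhf3464aed381aaf11.shift 0 2), (rhff363d8c8c4d7478.shift 3 1)] (by decide +kernel))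
noncomputable def rh957bde74089bb310 : CRef := CRef.mk (Pat.mk 0x28000000200000000000000000000000000000000000000000 0x40000001c0000001e0000001f000003bf000003ff000003ff000000fc0000007c0000003c00000010 8 10) 0 0 (step_sound _ 163 [(rh00ea1a25fbfecd4b.shift 0 2), (rh078f25913be35169.shift 0 3), (rh0e836e73650bebd9.shift 0 2), (rh1d9c64df42580f2e.shift 0 2), (rh87396ff66161cb70.shift 1 1), (rh958d68bd8814d953.shift 0 1), rhda5cb929324d3c43, rhf4dd5fd6f2cbe0b3, (rhfd9d19b9cb814a3c.shift 0 2)] (by decide +kernel))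
noncomputable def rh15207b5b697eb4a1 : CRef := CRef.mk (Pat.mk 0xa0000000800000000000000000000000000000000000000000 0x5000000170000001f0000003fc000003fc000000bf000007fe00000ffe000001f0000001f0000001f000000040 8 12) 0 0 (step_sound _ 165 [(rh1cbeb98d022c59ac.shift 2 2), (rh2499b4ded2bbc236.shift 2 2), (rh36e679179aab5660.shift 2 2), (rh75acd8d05d83f0e9.shift 2 1), rh789ff770c4dc7e00, (rh7af032f2eed3fd0a.shift 2 1), (rhc51a013d4f425f25.shift 2 0), (rhc833f7c0bbb87da1.shift 2 1), (rhc8aa62225cdb04cf.shift 1 2), (rhcc452525298bffae.shift 2 2), (rhd8af9c2aae61a196.shift 2 0)] (by decide +kernel))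
noncomputable def rhfa9c0eefa3b19d77 : CRef := CRef.mk (Pat.mk 0x28000000200000000000000000 0x60000000780000007c000000ff0000003e000001ff000000fe0000006e 8 9) 0 0 (step_sound _ 100 [(rh3918eeb6c53434d8.shift 0 2), rh3ee8aebf0424abab, (rh8bc3327fa6faac05.shift 3 0), (rhc21a95c499b3efdb.shift 2 2)] (by decide +kernel))
noncomputable def rhf5025409dd305af1 : CRef := CRef.mk (Pat.mk 0x280000002000000000000000000000000000000000 0x40000002e0000006f0000003f0000007f0000007e0000003e0000001c00000014 8 7) 0 0 (step_sound _ 162 [rh75671db664fabcaf, (rh8c2bcbc84662fd1d.shift 0 2), (rhb04145dc3da226a5.shift 1 2), (rhb34a67f8847d128f.shift 0 4), (rhbf5d9e90d56c2a5f.shift 0 4), (rheb38467d669bf196.shift 1 2)] (by decide +kernel))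
noncomputable def rhf1fab269645b1ef5 : CRef := CRef.mk (Pat.mk 0x280000002000000000000000000000000000000000 0x500000007c000000ff0000003e000001ff000000ee0000007e0000007000000050 8 9) 0 0 (step_sound _ 164 [(rh3918eeb6c53434d8.shift 0 4), (rh3ee8aebf0424abab.shift 0 2), (rh5a751a1e6d9b8c5b.shift 2 0), (rhc21a95c499b3efdb.shift 2 4)] (by decide +kernel))
noncomputable def rh4841f751bfa7f2ca : CRef := CRef.mk (Pat.mk 0x280000002000000000000000000000000000000000 0x140000001c0000003c0000007f0000003f0000007f0000001f0000001e0000001c00000014 8 7) 0 0 (step_sound _ 162 [(rh8c2bcbc84662fd1d.shift 0 2), (rhb04145dc3da226a5.shift 1 2), (rhb34a67f8847d128f.shift 0 4), (rhbf5d9e90d56c2a5f.shift 0 4), rhc715982260cbc813, (rheb38467d669bf196.shift 1 2)] (by decide +kernel))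
noncomputable def rh1864f86dfcdfc31f : CRef := CRef.mk (Pat.mk 0x28000000200000000000000000000000000000000000000000 0x40000001c0000001e0000001f000003bf000003ff000003ff0000003c0000003c0000001c00000010 8 10) 0 0 (step_sound _ 163 [rh0ad9f9998060b032, (rh2a8d528ed475ffda.shift 0 2), (rh768ecd0a64a3ff71.shift 0 2), (rh915ca10bbbb8551d.shift 1 1), (rh91c4e54d4cf070e6.shift 0 2), (rh9e0d9bd3780bdfa4.shift 0 2), (rhc78f887c66795e5a.shift 0 3), (rhf19ff617345f34af.shift 0 2), rhfa821616c624661e] (by decide +kernel))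
noncomputable def rh7d984f60a0949d34 : CRef := CRef.mk (Pat.mk 0xa0000000800000000000000000000000000000000000000000 0x5000000170000001f0000003fc000003fc000000bf000007fe00000ffe000003f8000001f0000001f000000040 8 12) 0 0 (step_sound _ 165 [(rh1cbeb98d022c59ac.shift 2 2), (rh2499b4ded2bbc236.shift 2 2), rh35934160fe339a51, (rh554a46e2b29bb3cf.shift 2 1), (rh5fc189ca6e8e0fa4.shift 2 0), (rh6cdf81a953e678ee.shift 2 1), (rhac6ee2cec61af251.shift 1 2), (rhb3eebb8e185de498.shift 2 2), (rhc51a013d4f425f25.shift 2 0), (rhcc452525298bffae.shift 2 2), (rhdc55e488f332d65d.shift 2 1)] (by decide +kernel))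
noncomputable def rh52351f161e89b2c5 : CRef := CRef.mk (Pat.mk 0x280000002000000000000000000000000000000000 0x140000001c0000003c0000007f0000003f0000007f0000001f0000001e0000001c00000014 8 7) 0 0 (step_sound _ 162 [(rh324215630cdd7969.shift 0 2), rh9a081b46c270d756, (rhb04145dc3da226a5.shift 1 2), (rhb34a67f8847d128f.shift 0 4), (rhbf5d9e90d56c2a5f.shift 0 4), (rhbfc653101c0a5384.shift 1 2)] (by decide +kernel))
noncomputable def rh366acdf446b831c2 : CRef := CRef.mk (Pat.mk 0x50000000400000000000000000000000000000000000000000 0x8000000380000003c0000003e0000077f000003ff000007fe0000007c0000007c0000003800000020 8 11) 0 0 (step_sound _ 164 [(rh00a4e6953a30e0fa.shift 1 2), (rh0d0cfb0ef79fe6f8.shift 1 1), (rh16fb5d56bd5c2716.shift 1 2), (rh1885265dbb76d73c.shift 0 2), (rh51eebb07da32d522.shift 1 0), (rh6438e926a9981e2b.shift 1 2), (rh7f3f6fa1beedd609.shift 1 0), (rhadd90ec1b7e4b9a1.shift 2 1), (rhc78f887c66795e5a.shift 1 3)] (by decide +kernel))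
noncomputable def rh20d4a4c17581422d : CRef := CRef.mk (Pat.mk 0xa0000000800000000000000000000000000000000000000000 0x5000000170000001f0000003f8000003fc000000bf000007fe00000ffe000003f8000001f0000001f000000040 8 12) 0 0 (step_sound _ 165 [(rh1cbeb98d022c59ac.shift 2 2), (rh26788f4d5e86a140.shift 2 2), (rh5fc189ca6e8e0fa4.shift 2 0), (rh8443d3fc8028cd5d.shift 2 2), (rh98699bb73ae4b2e7.shift 2 1), (rh9b99e30b52b45056.shift 2 2), (rha9176e8bd3bf4bff.shift 2 1), (rhc51a013d4f425f25.shift 2 0), rhdf7a3a044de904fe, (rhfa47ea0bb77adff7.shift 2 1)] (by decide +kernel))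
noncomputable def rhd6fe8b7488127eb2 : CRef := CRef.mk (Pat.mk 0x2800000020000000000000000000000000 0x60000000780000007c000000fe0000003e000001ff000000fe0000006e0000000a 8 9) 0 0 (step_sound _ 132 [rh433d32ef923e4926, (rh8bc3327fa6faac05.shift 3 1), (rhc21a95c499b3efdb.shift 2 3)] (by decide +kernel))
noncomputable def rh92455d1be8e5798b : CRef := CRef.mk (Pat.mk 0x280000002000000000000000000000000000000000 0xc0000002c0000006e0000003f0000007f0000007e0000003e0000001e00000014 8 7) 0 0 (step_sound _ 162 [(rh24c9ad7c5863ef66.shift 1 2), (rh264743b59a2f1472.shift 0 1), rh7fdbd3c43413629a, (rh9670ed58079006dd.shift 1 1), (rhbf5d9e90d56c2a5f.shift 0 4)] (by decide +kernel))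
noncomputable def rh0ef039dfbd1b5c1a : CRef := CRef.mk (Pat.mk 0x280000002000000000000000000000000000000000 0x580000007c000000fe0000003e000001ff000000ee0000007e0000007a00000050 8 9) 0 0 (step_sound _ 164 [(rh433d32ef923e4926.shift 0 1), (rh5a751a1e6d9b8c5b.shift 2 0), (rhc21a95c499b3efdb.shift 2 4)] (by decide +kernel))
noncomputable def rh5fac7d26f8d97ad9 : CRef := CRef.mk (Pat.mk 0x280000002000000000000000000000000000000000 0x580000007c000000fe0000003e000000ef0000007e000003fe0000007a00000050 8 10) 0 0 (step_sound _ 164 [(rh433d32ef923e4926.shift 0 1), (rh5e40dc143092a855.shift 1 1), (rh855eb102cd8b6316.shift 2 0), (rh8ffa8f5969d44369.shift 0 4)] (by decide +kernel))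
noncomputable def rhfe0d1b1e143018d4 : CRef := CRef.mk (Pat.mk 0x280000002000000000000000000000000000000000 0x140000001c0000003c0000007e0000003f0000007f0000001f0000001e0000001c00000014 8 7) 0 0 (step_sound _ 162 [(rh24c9ad7c5863ef66.shift 1 2), rh5b256122f354911e, (rha1e777d82a79b801.shift 0 2), (rhbf5d9e90d56c2a5f.shift 0 4), (rhbfc653101c0a5384.shift 1 2), (rhe47d952a79fe1744.shift 0 4)] (by decide +kernel))
noncomputable def rhef60cbaea40ae573 : CRef := CRef.mk (Pat.mk 0x500000004000000000000000000000000000000000 0x380000003c0000003c0000077e000003ff000007ff000001fc000000fc00000038 8 11) 0 0 (step_sound _ 132 [(rh07548080b60fd6f4.shift 1 0), (rh1dfcbe2aa0703fc1.shift 1 1), (rh24f1059334497f00.shift 1 1), (rh3c1edc0172ac528a.shift 0 1), (rh5bc79867a38dfaa4.shift 2 0), (rh62c782a5a557c5b5.shift 0 1), (rh6438e926a9981e2b.shift 1 1), (rhb956b7df9a362ea9.shift 1 0), (rhe3290c5bee121945.shift 1 1), (rhe32d1a17adba6fd5.shift 1 1)] (by decide +kernel))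
noncomputable def rhfd83e50bcbc66028 : CRef := CRef.mk (Pat.mk 0xa0000000800000000000000000000000000000000000000000 0x5000000170000001f0000003fc000003f8000000bf000007fe00000ffe000003f8000001f0000001f000000040 8 12) 0 0 (step_sound _ 165 [(rh0845528dc4e4fca7.shift 2 1), (rh1cbeb98d022c59ac.shift 2 2), (rh26788f4d5e86a140.shift 2 2), (rh291addcaf93fb4fe.shift 2 1), (rh5481c945a6ab2559.shift 2 2), (rh5fc189ca6e8e0fa4.shift 2 0), (rh8443d3fc8028cd5d.shift 2 2), (rhc51a013d4f425f25.shift 2 0), (rhf4d07873bb740c37.shift 3 1), rhfaec583036611081] (by decide +kernel))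
noncomputable def rh811116df4462fc36 : CRef := CRef.mk (Pat.mk 0x28000000200000000000000000000000000000000000000000 0x680000006c0000006f0000003e000001ff000001fe000003fe000000780000007000000050 8 10) 0 0 (step_sound _ 196 [(rh03c4838a6d9c67c4.shift 1 0), (rh3918eeb6c53434d8.shift 0 5), (rhc21a95c499b3efdb.shift 2 5), (rhe642b3d06082daab.shift 0 3)] (by decide +kernel))
noncomputable def rh2b057b3af4763933 : CRef := CRef.mk (Pat.mk 0x500000004000000000000000000000000000000000 0x280000003800000078000000fe0000007c000000ff0000003e0000003c0000003800000028 8 8) 0 0 (step_sound _ 163 [rh026e3cfc1692ce38, (rh24c9ad7c5863ef66.shift 2 2), (rh8fa31fd8c01ab202.shift 1 2), (rhb34a67f8847d128f.shift 1 4), (rhbf5d9e90d56c2a5f.shift 1 4), (rheb38467d669bf196.shift 2 2)] (by decide +kernel))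
noncomputable def rh5570cf9152067587 : CRef := CRef.mk (Pat.mk 0x500000004000000000000000000000000000000000 0x8000000380000003c0000003e0000077c000007ff000007ff000001fc000000f8000000f8 8 11) 0 0 (step_sound _ 132 [(rh1699cc3ba8354c25.shift 1 1), (rh4f5dc2deefe92607.shift 1 1), (rh5b0b05a45608329c.shift 2 0), rh67996cdb22901c84, (rh7c3147606e292a12.shift 1 0), (rh7d71fd2e31a8b2fc.shift 1 1), (rh8f73c7ceffb1a6b2.shift 1 1), (rha960ecb4d0a66e17.shift 1 0), (rhd752c599211c5bf2.shift 1 1), (rhe8e72254d090ece0.shift 0 1)] (by decide +kernel))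
noncomputable def rhe53fe2df443debe7 : CRef := CRef.mk (Pat.mk 0x50000000400000000000000000000000000000000000000000 0x20000000b8000000f8000001fe000001fe0000075c000003fe000007ff000001fc000000f8000000f800000020 8 11) 0 0 (step_sound _ 164 [(rh04a0f098917ba357.shift 1 1), (rh0c52c8fb14659a5a.shift 1 0), (rh1d9c2acd28094f03.shift 3 2), (rh4591e89f4f4a6de7.shift 3 0), (rh563ce91db5934cf7.shift 2 1), (rh71341b530cd6c12c.shift 2 1), (rh7d71fd2e31a8b2fc.shift 1 2), (rhbc147ef4738a703a.shift 2 1), (rhc55ced547154c08f.shift 1 2), (rhc8532bf1555faf48.shift 1 0), (rhd37e419087896edd.shift 1 1), (rhdc366f97412a5f2b.shift 1 1), (rhe8274a5d4bf568c4.shift 0 2)] (by decide +kernel))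
noncomputable def rhf1de82eb31bbdc93 : CRef := CRef.mk (Pat.mk 0x28000000200000000000000000 0x60000000780000007c000000ff0000003e000001fe000000fe0000006e 8 9) 0 0 (step_sound _ 100 [(rh8bc3327fa6faac05.shift 3 0), (rhc21a95c499b3efdb.shift 2 2), (rhded5813b939f1319.shift 0 2), rhfb19ff4061afbb83] (by decide +kernel))
noncomputable def rh8554ee8fed87d91a : CRef := CRef.mk (Pat.mk 0x280000002000000000000000000000000000000000 0x500000007c000000ff0000003e000001fe000000ee0000007e0000007000000050 8 9) 0 0 (step_sound _ 164 [(rh5a751a1e6d9b8c5b.shift 2 0), (rhc21a95c499b3efdb.shift 2 4), (rhded5813b939f1319.shift 0 4), (rhfb19ff4061afbb83.shift 0 2)] (by decide +kernel))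
noncomputable def rhe24fc141f9dfa793 : CRef := CRef.mk (Pat.mk 0x280000002000000000000000000000000000000000 0xa0000000e0000002e0000006f0000003f0000007e0000007e000000fe0000001e00000014 8 8) 0 0 (step_sound _ 162 [(rh1f2d57551c2d3284.shift 0 2), rh3a3e008f4a6fb5ae, (rh499fe0919994f2c0.shift 0 4), (rh5e8f64d724214301.shift 1 2), (rh7614bf407aa392fb.shift 1 2)] (by decide +kernel))
noncomputable def rha584b986baf101a5 : CRef := CRef.mk (Pat.mk 0x280000002000000000000000000000000000000000 0xa0000005e0000007e000000ff0000003e000000ee0000007c000003fc0000007000000050 8 10) 0 0 (step_sound _ 164 [(rh0754e82540368d41.shift 0 2), (rh63369adcb5f240fd.shift 1 2), (rh855eb102cd8b6316.shift 2 0), (rhded5813b939f1319.shift 0 4)] (by decide +kernel))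
noncomputable def rh74c68f07cc6b1b2f : CRef := CRef.mk (Pat.mk 0x280000002000000000000000000000000000000000 0x140000001c0000003c0000007f0000003f0000007e0000001f0000001e0000001c00000014 8 7) 0 0 (step_sound _ 162 [(rh499fe0919994f2c0.shift 0 4), rh60084358d6d5605b, (rh7614bf407aa392fb.shift 1 2), (rh9d1bb80afce989ed.shift 0 2), (rhdfa77469688d663b.shift 0 4), (rheb38467d669bf196.shift 1 2)] (by decide +kernel))
noncomputable def rh0005d4d601d04103 : CRef := CRef.mk (Pat.mk 0x28000000200000000000000000000000000000000000000000 0x140000001c0000001e0000001f000003bf000003fe000003ff0000003c0000003c0000001c00000010 8 10) 0 0 (step_sound _ 163 [(rh108ed2795893b07d.shift 0 1), (rh73a2d3337aa51751.shift 0 2), (rh77b49b0fa3e8f7d8.shift 1 1), (rh7c8917c6b59f4d3a.shift 0 3), (rh9327c7a63776daa8.shift 0 2), (rha2d755d6c83f88ee.shift 0 2), (rhab538c67d8cb9cb2.shift 0 2), rhbab83c010bf664fd, rhfb83f22a286079e0] (by decide +kernel))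
noncomputable def rh9ac1317ef0620676 : CRef := CRef.mk (Pat.mk 0xa0000000800000000000000000000000000000000 0x140000001e0000001f0000007e0000000e0000007e0000007e0000001c0000001c00000014 8 7) 0 0 (step_sound _ 195 [(rh4dc2891f3a21ef79.shift 2 0), (rh7fb85e918b0a04ef.shift 2 1), (rh9935e6d90e5bde1c.shift 0 3), (rhaef13a1c72d4db39.shift 2 2), (rhc5c5b88722b9bb4a.shift 2 2), (rhd091826498b1b626.shift 2 2), (rhd30abbb3f01d7a99.shift 1 1)] (by decide +kernel))
noncomputable def rhfa7936593c59c1aa : CRef := CRef.mk (Pat.mk 0x28000000200000000000000000000000000000000000000000 0x140000005c0000007c000000ff000000ff0000002f000001fe000003ff0000007f0000007c0000007c00000010 8 10) 0 0 (step_sound _ 163 [(rh1cbeb98d022c59ac.shift 0 2), (rh8443d3fc8028cd5d.shift 0 2), (rh8ac65ead0056c50a.shift 0 1), (rh8b134beef4c5856b.shift 0 1), rh931bbb5dba068dd9, (rhb27e876353bd0fff.shift 1 1), (rhb918fbe51060cc9f.shift 0 2), rhbab83c010bf664fd, (rhd6b454f644f5ed9f.shift 0 2), rhd8af9c2aae61a196] (by decide +kernel))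
noncomputable def rh75012dc938a4f204 : CRef := CRef.mk (Pat.mk 0x80000000a00000000000000000000000000000000 0x140000001c0000001c0000000c000000ef0000007f000000ff0000001c00000014 8 8) 0 0 (step_sound _ 99 [(rh7fb85e918b0a04ef.shift 2 0), (rh819f483d77775605.shift 0 1), (rha6e5f6d4fdf2e456.shift 1 2), rhb79b1f4d0214640a, rhc9a9bfc18426107e, (rhff3384473648fcb0.shift 2 0), (rhff363d8c8c4d7478.shift 2 0)] (by decide +kernel))
noncomputable def rh63a305c031d0c7b9 : CRef := CRef.mk (Pat.mk 0x400000005000000000000000000000000000000000 0x20000000380000003800000078000007fe000007ff0000077f0000003e0000003c0000003c0000002c 8 11) 0 0 (step_sound _ 164 [(rh0712a7c96034fdc3.shift 1 0), (rh15ada884f00148c0.shift 1 2), (rh28386f8bdf587ff7.shift 1 1), (rh35c58704c7e3f344.shift 1 1), (rh4e9d818454e572c5.shift 1 2), (rh5fc433df4edd2d99.shift 2 1), (rhc815848d08250cb6.shift 1 1), rhd3686a75573b2118, (rhd3d12c60ee3cc616.shift 1 1)] (by decide +kernel))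
noncomputable def rh8b22508824f990b6 : CRef := CRef.mk (Pat.mk 0x80000000a0000000000000000000000000000000000000000 0x140000001c0000001c0000003c000000ee0000007e000000ff0000001e0000001c00000014 8 8) 0 0 (step_sound _ 131 [(rh16588281c517ea5f.shift 0 1), (rh4dc2891f3a21ef79.shift 2 0), (rh7fb85e918b0a04ef.shift 2 1), (rha6e5f6d4fdf2e456.shift 1 3), (rhaef13a1c72d4db39.shift 2 2), (rhd091826498b1b626.shift 2 2)] (by decide +kernel))
noncomputable def rh500215574e8cc504 : CRef := CRef.mk (Pat.mk 0x80000000a00000000000000000000000000000000000000000 0x40000001f0000001f0000001f8000007fe000007fe00000ebf000003f8000003f8000001f00000017000000040 8 12) 0 0 (step_sound _ 197 [(rh1342f0cb15232885.shift 2 3), (rh1c9f098aba83c7eb.shift 2 2), (rh3ba193a4622988fb.shift 2 2), (rh5478ffebc6a68727.shift 2 2), (rh7e9b475ca71f914a.shift 2 3), (rh9d0ae57aae036793.shift 0 2), (rha7bd9fcbd0c7c12a.shift 3 1), (rhd086d30da0c674f9.shift 2 0), (rhf58ba91ec5c4105d.shift 3 1), (rhfb81fb0f9b1cd295.shift 2 1)] (by decide +kernel))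
noncomputable def rhc90bdd45d71d9a71 : CRef := CRef.mk (Pat.mk 0x280000002000000000000000000000000000000000 0x40000002c0000006f0000003f0000007f0000007e0000003e0000001e00000014 8 7) 0 0 (step_sound _ 162 [(rh8c2bcbc84662fd1d.shift 0 2), rh990a4274d5914eb2, (rhb04145dc3da226a5.shift 1 2), (rhb34a67f8847d128f.shift 0 4), (rhbf5d9e90d56c2a5f.shift 0 4), (rheb38467d669bf196.shift 1 2)] (by decide +kernel))
noncomputable def rh00ea15ca2b84a758 : CRef := CRef.mk (Pat.mk 0x280000002000000000000000000000000000000000 0x140000001c0000003c0000007f0000003f0000007f0000001f0000001e0000001c00000014 8 7) 0 0 (step_sound _ 162 [rh3f6c5196ffae96f6, (rh8c2bcbc84662fd1d.shift 0 2), (rhb04145dc3da226a5.shift 1 2), (rhb34a67f8847d128f.shift 0 4), (rhbf5d9e90d56c2a5f.shift 0 4), (rheb38467d669bf196.shift 1 2)] (by decide +kernel))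
noncomputable def rh8b872794f88395d7 : CRef := CRef.mk (Pat.mk 0x28000000200000000000000000000000000000000000000000 0x140000001c0000001e0000001f000003bf000003ff000003ff0000003c0000003c0000001c00000010 8 10) 0 0 (step_sound _ 163 [(rh078f25913be35169.shift 0 3), rh355399d6e0cc9d5b, (rh4e0160450ec77c7a.shift 0 2), (rh5bc79867a38dfaa4.shift 1 1), (rh6438e926a9981e2b.shift 0 2), (rh6950015d6899ebb6.shift 0 2), (rhbd84ce584114eed7.shift 0 1), (rhd37844314c862127.shift 0 2), rhf1844e3b49e726bc] (by decide +kernel))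
noncomputable def rh0e8479be80bb50fa : CRef := CRef.mk (Pat.mk 0x28000000200000000000000000000000000000000000000000 0x140000005c0000007c000000ff000000ff0000002f000001fe000003ff000000fe0000007c0000007c00000010 8 10) 0 0 (step_sound _ 163 [(rh0845528dc4e4fca7.shift 0 1), (rh1cbeb98d022c59ac.shift 0 2), (rh26788f4d5e86a140.shift 0 2), (rh291addcaf93fb4fe.shift 0 1), rh5fc189ca6e8e0fa4, (rh8443d3fc8028cd5d.shift 0 2), (rh9ea11de10c83deea.shift 0 2), rha274808852655229, rhc51a013d4f425f25, (rhf4d07873bb740c37.shift 1 1)] (by decide +kernel))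
noncomputable def rh22e826f4f17e558b : CRef := CRef.mk (Pat.mk 0x280000002000000000000000000000000000000000 0x40000002c0000006f0000003f0000007f0000007e0000003e0000001e00000014 8 7) 0 0 (step_sound _ 162 [rh31b66b2371ed312b, (rh8c2bcbc84662fd1d.shift 0 2), (rhb04145dc3da226a5.shift 1 2), (rhb34a67f8847d128f.shift 0 4), (rhbf5d9e90d56c2a5f.shift 0 4), (rheb38467d669bf196.shift 1 2)] (by decide +kernel))
noncomputable def rh89057aa56a7b293c : CRef := CRef.mk (Pat.mk 0x280000002000000000000000000000000000000000 0x140000001c0000003c0000007f0000003f0000007f0000001f0000001e0000001c00000014 8 7) 0 0 (step_sound _ 162 [(rh8c2bcbc84662fd1d.shift 0 2), (rhb04145dc3da226a5.shift 1 2), (rhb34a67f8847d128f.shift 0 4), (rhbf5d9e90d56c2a5f.shift 0 4), rhd0688ef6b42bf4d5, (rheb38467d669bf196.shift 1 2)] (by decide +kernel))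
noncomputable def rh4563e899b49e2ed1 : CRef := CRef.mk (Pat.mk 0x28000000200000000000000000000000000000000000000000 0x140000001c0000001e0000001f000003bf000003ff000003ff0000003c0000003c0000001c00000010 8 10) 0 0 (step_sound _ 163 [(rh3b72410aaa66337e.shift 0 2), (rh46cd5193d17774d9.shift 0 2), (rh5b0b05a45608329c.shift 1 1), rh6596f12ad6de87b1, rh6e4ffa221ea9cbc0, (rh716c27138ef70e00.shift 0 1), (rh90b36e62887e538d.shift 0 2), (rhba9445bf4c1a51f4.shift 0 2), (rhc5532af7a2c6bbc0.shift 0 2), (rhccf8ce4b707ff77c.shift 0 2)] (by decide +kernel))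
noncomputable def rh8b5ed5875a9dba6c : CRef := CRef.mk (Pat.mk 0x50000000400000000000000000000000000000000000000000 0x28000000b8000000f8000001fe000001fe0000005e000003fe000007ff000000fc000000f8000000f800000020 8 11) 0 0 (step_sound _ 164 [(rh1cbeb98d022c59ac.shift 1 2), (rh279a1df35cb6362c.shift 1 1), (rh5fc189ca6e8e0fa4.shift 1 0), (rh6915951241de8e98.shift 0 2), (rh71341b530cd6c12c.shift 2 1), (rh783b221277f2f9bc.shift 1 0), (rh8443d3fc8028cd5d.shift 1 2), (rh931bbb5dba068dd9.shift 1 0), (rhb5846cbba7cadfdc.shift 1 1), (rhc408e4ec58d70262.shift 1 2), (rhd6b454f644f5ed9f.shift 1 2)] (by decide +kernel))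
noncomputable def rhe7d447f8eb390b89 : CRef := CRef.mk (Pat.mk 0x28000000200000000000000000000000000000000000000000 0x140000001c0000001e0000001f000003bf000003ff000003ff0000003c0000003c0000001c00000010 8 10) 0 0 (step_sound _ 163 [(rh02d921165c511471.shift 0 2), (rh1f636bc4ee51f75d.shift 0 1), (rh2170f88bc8e815da.shift 0 2), (rh450ba9f0d169e971.shift 0 2), (rh6e3d522182b99cdd.shift 1 1), (rh7ff2fcb04e113733.shift 0 2), (rh90b36e62887e538d.shift 0 2), (rhc78f887c66795e5a.shift 0 3), rhd5f54383297c2f8b, rhf4dd5fd6f2cbe0b3] (by decide +kernel))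
noncomputable def rh8b58ea770deabe3f : CRef := CRef.mk (Pat.mk 0x50000000400000000000000000000000000000000000000000 0x28000000b8000000f8000001fe000001fe0000005f000003fe000007fe000001fc000000f8000000f800000020 8 11) 0 0 (step_sound _ 164 [(rh172314424925d372.shift 1 1), (rh1b068a310eb6d745.shift 1 1), (rh1cbeb98d022c59ac.shift 1 2), (rh2499b4ded2bbc236.shift 1 2), (rh4d99f1250513ae0e.shift 1 2), (rh5fc189ca6e8e0fa4.shift 1 0), (rh854f857a7df26147.shift 1 1), (rh896f4bb17962fcff.shift 1 0), (rhc51a013d4f425f25.shift 1 0), (rhc6bdbd2781270973.shift 0 2), (rhcc452525298bffae.shift 1 2)] (by decide +kernel))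
noncomputable def rh8a1acf56af3fbc6c : CRef := CRef.mk (Pat.mk 0x28000000200000000000000000000000000000000000000000 0x140000001c0000001e0000001f000003bf000003ff000003ff0000003c0000003c0000001c00000010 8 10) 0 0 (step_sound _ 163 [(rh5fe94d816f8ade8b.shift 0 2), rh61059692574bb803, (rh716c27138ef70e00.shift 0 1), rh8bed5b0bda327bd6, (rhc78f887c66795e5a.shift 0 3), (rhcc740d453bafdd8f.shift 1 1), (rhccf8ce4b707ff77c.shift 0 2), (rhde63b32fd2b4b1f5.shift 0 2), (rhe6cd386ad21bb130.shift 0 2)] (by decide +kernel))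
noncomputable def rhf4afc7a1228d9d33 : CRef := CRef.mk (Pat.mk 0x50000000400000000000000000000000000000000000000000 0x28000000b8000000f8000001fe000001fe0000005e000003fe000007ff000001fc000000f8000000f800000020 8 11) 0 0 (step_sound _ 164 [(rh1cbeb98d022c59ac.shift 1 2), (rh26788f4d5e86a140.shift 1 2), (rh36b2afc14b11904f.shift 1 2), (rh5d813d931c7d55dd.shift 1 0), (rh5fc189ca6e8e0fa4.shift 1 0), (rh6915951241de8e98.shift 0 2), (rh6efb738a61011c43.shift 1 1), (rh8443d3fc8028cd5d.shift 1 2), (rha9176e8bd3bf4bff.shift 1 1), (rhc51a013d4f425f25.shift 1 0), (rhfa47ea0bb77adff7.shift 1 1)] (by decide +kernel))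
noncomputable def rh509fa3e83511e65d : CRef := CRef.mk (Pat.mk 0x280000002000000000000000000000000000000000 0x40000002c0000002f0000003f0000007f0000007e0000003e0000001e00000014 8 7) 0 0 (step_sound _ 162 [(rh41496cf82c1d7a29.shift 0 2), (rh499fe0919994f2c0.shift 0 4), (rhb34a67f8847d128f.shift 0 4), (rhbf5d9e90d56c2a5f.shift 0 4), (rheb38467d669bf196.shift 1 2), rhf1c702c09ac5b322] (by decide +kernel))
noncomputable def rhcbc97125bf51d0ee : CRef := CRef.mk (Pat.mk 0x280000002000000000000000000000000000000000 0x20000000e0000005e0000007e000000ff0000003e000001ff000000ec0000007c0000007000000050 8 9) 0 0 (step_sound _ 164 [(rh7472882c232e68b6.shift 0 2), (rh91acc7eb0d0b741a.shift 2 0), (rhc21a95c499b3efdb.shift 2 4)] (by decide +kernel))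
noncomputable def rh986bec7e65271494 : CRef := CRef.mk (Pat.mk 0x280000002000000000000000000000000000000000 0x20000000e0000005e0000007e000000ff0000003e000000ef0000007c000003fc0000007000000050 8 10) 0 0 (step_sound _ 164 [(rh3918eeb6c53434d8.shift 0 4), (rh527b6cdf572bb008.shift 2 0), (rh7472882c232e68b6.shift 0 2)] (by decide +kernel))
noncomputable def rh75646f80775861e2 : CRef := CRef.mk (Pat.mk 0x280000002000000000000000000000000000000000 0x140000001c0000001c0000007f0000003f0000007f0000001f0000001e0000001c00000014 8 7) 0 0 (step_sound _ 162 [rh02ef237bace9e772, (rh41496cf82c1d7a29.shift 0 2), (rh499fe0919994f2c0.shift 0 4), (rhb34a67f8847d128f.shift 0 4), (rhbf5d9e90d56c2a5f.shift 0 4), (rheb38467d669bf196.shift 1 2)] (by decide +kernel))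
noncomputable def rh19fc397b705c05e2 : CRef := CRef.mk (Pat.mk 0x140000001000000000000000000000000000000000 0x280000003f0000007e000000ff0000001f0000001800000038000000380000003800000008 8 8) 0 0 (step_sound _ 196 [(rh131b19269d79d13d.shift 1 1), (rh35130dd27eedee58.shift 1 0), (rh62a5264c40f98dc4.shift 3 1), (rh66e50c5fa32577ac.shift 3 2), rh6dda7093be021bad, (rha5eee94acd67246e.shift 0 3), (rhf3464aed381aaf11.shift 0 2)] (by decide +kernel))
noncomputable def rh3bdda5786a67a623 : CRef := CRef.mk (Pat.mk 0xa0000000800000000000000000000000000000000000000000 0x1000000070000000780000007c00000eff00000ffe00000ffe000001f8000001f8000001f000000040 8 12) 0 0 (step_sound _ 165 [(rh50c20f9d83392933.shift 1 2), (rh61f839471526d079.shift 2 2), (rh6a4c905b435f08fe.shift 3 1), (rh6fde64ff3d3d5348.shift 2 3), (rh8818b8f9d2b43ad8.shift 2 0), (rhaad15c6a7f48cdb0.shift 2 2), (rhdfea5b6790690c57.shift 2 2), rhf8f302e932694849, (rhfd14858c2ac2e4a1.shift 2 1)] (by decide +kernel))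
noncomputable def rhf30c9609d81f1b27 : CRef := CRef.mk (Pat.mk 0xa0000000800000000000000000000000000000000 0x140000001c0000001c0000003c000000ee0000007e000000ff0000001e0000001c00000014 8 8) 0 0 (step_sound _ 195 [(rh0aca310f521f2383.shift 2 1), (rh16588281c517ea5f.shift 0 1), (rh64991083a1397db0.shift 2 2), (rh66e50c5fa32577ac.shift 2 2), (rha6e5f6d4fdf2e456.shift 1 3), (rhedded08b6191989b.shift 2 0)] (by decide +kernel))
noncomputable def rh6a09f368013f58c7 : CRef := CRef.mk (Pat.mk 0xa0000000800000000000000000000000000000000000000000 0x5000000170000001f0000003fc000003fc000000bf000003fe000007fe000003f8000001f0000001f000000040 8 11) 0 0 (step_sound _ 165 [(rh4ac1013eb24be203.shift 2 0), (rh78201ea18b160db6.shift 2 0), (rh87b19bcdd1843c42.shift 2 1), (rh886c1c3bab8b2ac4.shift 2 1), (rha30e4d022c24a8e3.shift 2 2), (rhb133e5b8df9874c0.shift 2 2), (rhb17635f86de2c90b.shift 2 2), (rhd4561a0c7aaef380.shift 2 1), rhf8f302e932694849] (by decide +kernel))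
noncomputable def rh9e00bf6ae2e0318e : CRef := CRef.mk (Pat.mk 0x20000001e0000000200000000000000000000000000000000 0x40000000e0000001e0000003a0000001f0000003f0000000700000005 8 6) 0 0 (step_sound _ 132 [rh3b8c0519b0ee0a8a, (rhe25b0a99195a5d59.shift 1 4)] (by decide +kernel))
noncomputable def rh2e535578fbd52c37 : CRef := CRef.mk (Pat.mk 0x800000000000000080000001800000000 0xf40000007f000000ff000000080000001800000010 8 8) 0 0 (step_sound _ 99 [(rh20ccc7280544702b.shift 0 1), (rh55afc6a59410cf00.shift 3 0)] (by decide +kernel))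
noncomputable def rh6cab633b8dfb8fbc : CRef := CRef.mk (Pat.mk 0x100000001e000000000000000000000008 0x380000003c0000001f0000001e000000380000000800000008 8 6) 0 0 (step_sound _ 67 [(rh6603468c6c90590f.shift 0 2), (rh9e3edb185cc347de.shift 3 0)] (by decide +kernel))
noncomputable def rhf1e75f6394ffc4d2 : CRef := CRef.mk (Pat.mk 0x1e000000000000000000000008 0x140000003c0000003f0000003e000000080000000800000008 8 6) 0 0 (step_sound _ 132 [(rh33e738c4ed385b9f.shift 1 3), rh9c72cdd1d974027a] (by decide +kernel))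
noncomputable def rh7439878cbcce00fc : CRef := CRef.mk (Pat.mk 0x1e00000018000000000000000000000000 0x40000001c0000001c0000001c0000000c0000001e0000001a0000007f0000001f0000001c 8 7) 0 0 (step_sound _ 163 [(rh14e0829dc73b6804.shift 2 2), (rh2343bb15e2283ffe.shift 2 0), (rh70e33bfdf511e144.shift 3 0), rh9cfa8f49146870a1, (rhb3e5613249985042.shift 2 0)] (by decide +kernel))
noncomputable def rh6d6c1d0fca6d3b2a : CRef := CRef.mk (Pat.mk 0x200000002000000070000000100000001000000000 0x20000000670000007e000003df000001fc000003ce 8 10) 0 0 (step_sound _ 70 [(rh08edf065357d68e5.shift 5 0), (rh57585ecc72cf7beb.shift 0 2), (rhb1f6d4afa0940b6f.shift 1 0)] (by decide +kernel))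
noncomputable def rh75017e427da24447 : CRef := CRef.mk (Pat.mk 0x2000000070000000100000000000000000 0x2000000020000000770000007e000000df0000004000000040 8 8) 0 0 (step_sound _ 165 [(rh5c5e593799055d58.shift 4 2), rhc07039d993d08761] (by decide +kernel))
noncomputable def rh5709db7dacf41e8b : CRef := CRef.mk (Pat.mk 0x40000000e0000000200000002000000000 0x20000000ef000000fe000001bf000001f0000000d0 8 9) 0 0 (step_sound _ 100 [(rh3f2abcda1abf602d.shift 3 0), (rhb12ffaec36122c99.shift 1 2), (rhc6a206db04c1b3f8.shift 1 2), (rhdda18f14314c6e63.shift 0 2)] (by decide +kernel))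
noncomputable def rh7b5b3320256174fb : CRef := CRef.mk (Pat.mk 0x40000000e000000000000000200000000 0x8000000ee0000007f000000780000001f0000001c 8 8) 0 0 (step_sound _ 100 [(rh38791ac5737ed75e.shift 1 3), (rh75c6fff53e4cbd6e.shift 1 2), rh9b36df7b69c5c19a, (rhf5fa5e48e0784de2.shift 1 2)] (by decide +kernel))
noncomputable def rh464c7dc8858f3c8e : CRef := CRef.mk (Pat.mk 0xf000000000000000400000000 0x200000002000000760000007f000000fc0000000400000004 8 8) 0 0 (step_sound _ 129 [(rh95a80f84f48ac358.shift 1 0), rhd427cfa8d94f3a51, (rhf5fa5e48e0784de2.shift 0 2)] (by decide +kernel))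
noncomputable def rhdbb70cf0ae4e227b : CRef := CRef.mk (Pat.mk 0x1800000018000000000000000000000000 0xf0000000ff0000007f000000600000002000000020 8 8) 0 0 (step_sound _ 130 [(rh3e73e7aa93286446.shift 0 3), (rhad5d8fc3675c15dd.shift 0 3), (rhc4aa9f7e8c42cbec.shift 1 0)] (by decide +kernel))
noncomputable def rhe41df38a77172e7c : CRef := CRef.mk (Pat.mk 0x80000001800000008000000000000000000000000 0x1800000018000000ff000000ff000001fc00000014 8 9) 0 0 (step_sound _ 67 [(rh301a6b3a9154ed36.shift 3 0), (rh91a545eb3be094e3.shift 2 0), (rhff5095b44545379b.shift 0 1)] (by decide +kernel))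
noncomputable def rh893c72d09e6e0a6e : CRef := CRef.mk (Pat.mk 0x40000001c00000004000000000000000000000000 0x400000004000000040000001c0000007f0000007f0000000a0000000a 8 7) 0 0 (step_sound _ 99 [(rh3af54b5f78790764.shift 0 2), (rh70e33bfdf511e144.shift 2 0), rha299441ce9c64f2a] (by decide +kernel))
noncomputable def rh324cae9c9aadbbbd : CRef := CRef.mk (Pat.mk 0xe0000000a0000000800000000 0x40000001c0000001c0000001c0000000c0000001e0000007a0000001f00000016 8 7) 0 0 (step_sound _ 68 [(rh4a0b10776449c3e9.shift 1 2), rh8061683ee4111214] (by decide +kernel))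
noncomputable def rh7d473427d6d19b3e : CRef := CRef.mk (Pat.mk 0xc0000000a0000000800000000 0x40000001c0000001c0000001c0000000c0000000c0000007b0000001f00000014 8 7) 0 0 (step_sound _ 131 [(rh20e56a1196e70fcc.shift 2 0), rh86392fcee87c0754, (rh957e3bb4c843b184.shift 1 0), (rha7bb430bc20854cc.shift 2 1), (rhe104c6c7a4780cb0.shift 2 0)] (by decide +kernel))
noncomputable def rhf7abee39bcd1851e : CRef := CRef.mk (Pat.mk 0x80000000800000008000000000000000000000000 0x80000000800000018000000ff000000ff000001f400000014 8 9) 0 0 (step_sound _ 68 [(rh2977b00063528966.shift 3 0), rh417ff65e5c01b65e, (rh47dece01c1595e79.shift 3 0), (rh5eb00552fd8084f4.shift 0 1), (rhfa80626feb4e9cb5.shift 0 1)] (by decide +kernel))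
noncomputable def rh4ec6b8f173509a40 : CRef := CRef.mk (Pat.mk 0x1a0000001200000002000000040000000000000000 0x80000001a0000001a000000120000003f0000003700000021 8 6) 0 0 (step_sound _ 65 [(rh55afc6a59410cf00.shift 1 1), rh8ea91830d7fce8b3] (by decide +kernel))
noncomputable def rh8f0cc0a9c6b71936 : CRef := CRef.mk (Pat.mk 0x380000000c00000008000000000000000000000000 0x28000000380000006f0000007e000000780000001000000010 8 7) 0 0 (step_sound _ 129 [(rh53b3c253cb0c65f4.shift 0 4), (rh59223516e0964d48.shift 1 0)] (by decide +kernel))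
noncomputable def rhb9fe5612d8746deb : CRef := CRef.mk (Pat.mk 0x1e000000020000000200000000 0xb0000001e0000003a0000001f0000003d 8 6) 0 0 (step_sound _ 129 [(rh3244c3cc8379b070.shift 0 3), rh8d3d8e4dfe20f05e] (by decide +kernel))
noncomputable def rh2583994356ee65c8 : CRef := CRef.mk (Pat.mk 0x280000000800000008000000000000000000000000 0x28000000280000002e0000007f0000003e0000001400000014 8 7) 0 0 (step_sound _ 66 [(rh0e6924d680f6455d.shift 2 0), rh2cce3e8ee52545db, (rh3743dbe66b959104.shift 2 0), (rh544d3caba1e1e2bb.shift 2 0), (rh86aa94d7c0c1e10d.shift 1 1)] (by decide +kernel))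
noncomputable def rh2fe12e7e8bc26135 : CRef := CRef.mk (Pat.mk 0x100000001c00000010000000100000001000000000 0x4000000140000001c0000007f0000007f0000001e00000016 8 7) 0 0 (step_sound _ 99 [rh6c433507c0556889, (rh7b1f1fb55310c477.shift 3 0)] (by decide +kernel))
noncomputable def rhbee30f0b8de86617 : CRef := CRef.mk (Pat.mk 0x20000001e00000002000000020000000000000000 0xe20000007e00000072000000070000000700000005 8 8) 0 0 (step_sound _ 101 [rh9165ff51158c88ee, (rh96851dee118c1ba3.shift 1 3)] (by decide +kernel))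
noncomputable def rh479db19420f479a1 : CRef := CRef.mk (Pat.mk 0x60000000e000000020000000200000000 0xe0000003e0000003a0000001f0000003d 8 6) 0 0 (step_sound _ 100 [rh8d3d8e4dfe20f05e, (rhf48373e13d2bc128.shift 1 3)] (by decide +kernel))
noncomputable def rhcc9433833233a69e : CRef := CRef.mk (Pat.mk 0x1000000130000001200000010000000000000000000000000 0x110000001300000012000001fe0000007f0000003800000008 8 9) 0 0 (step_sound _ 65 [rh30be45a8911afbb3, (rh9e07f76261b05888.shift 0 2)] (by decide +kernel))
noncomputable def rh4c7897743024df39 : CRef := CRef.mk (Pat.mk 0x100000001c000000120000001800000000000000000000000000000000 0x130000001f000000130000003e00000027000000070000000700000005 8 6) 0 0 (step_sound _ 129 [rh060777bc14f4fb77, (rh5ef1c85688574b5a.shift 0 4), (rh943d9a7a35e78c48.shift 0 3), (rhf051a7fda38e8a86.shift 0 1)] (by decide +kernel))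
noncomputable def rh3365c0d842095f81 : CRef := CRef.mk (Pat.mk 0x1e0000000200000000000000000000000000000000 0x5000000070000000700000007000000030000001e0000000600000007000000070000000700000004 8 5) 0 0 (step_sound _ 193 [(rh3244c3cc8379b070.shift 0 5), rh873cf878e6aa3ab6] (by decide +kernel))
noncomputable def rh20f45bc9c948192b : CRef := CRef.mk (Pat.mk 0x3000000038000000200000002000000000 0x30000000380000006f0000007e0000005f 8 7) 0 0 (step_sound _ 38 [(rh55afc6a59410cf00.shift 5 0), rh8c827b952c0d4b0b] (by decide +kernel))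
noncomputable def rhd155379f680e1ffc : CRef := CRef.mk (Pat.mk 0xf0000000000000000000000000 0x5000000050000000ff000000fe000000370000002000000020 8 8) 0 0 (step_sound _ 99 [(rh15b856e33c69f807.shift 0 2), (rh61325f73ebf98108.shift 1 3), rhcdddbec707d104be, (rhd5eb272e07a4e288.shift 2 3)] (by decide +kernel))
noncomputable def rh3c1473d1b40eb0b7 : CRef := CRef.mk (Pat.mk 0x20000001e0000000000000000000000000000000000000000 0x5000000070000000700000007000000020000001e0000000700000007000000070000000700000004 8 5) 0 0 (step_sound _ 129 [rh873cf878e6aa3ab6, (rheb0810cc63b001d8.shift 0 4)] (by decide +kernel))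
noncomputable def rh3abc76457ec9a59f : CRef := CRef.mk (Pat.mk 0x7000000000 0x7f000001fe000001cf 8 9) 0 0 (step_sound _ 35 [rh132224b2333f091b, (rh592c7139d2c44767.shift 1 0), (rhe401600d466b97cd.shift 2 0), (rhe98fd16c4771a217.shift 1 0), rheb2d0db55d8f8fc4] (by decide +kernel))
noncomputable def rhf396694984be8444 : CRef := CRef.mk (Pat.mk 0x60000001c0000000800000000 0x200000036000000370000003e0000001e0000007c00000034 8 7) 0 0 (step_sound _ 130 [(rh2145e1d24b96a57e.shift 2 1), rh9dd23a404ecf9495] (by decide +kernel))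
noncomputable def rh1daa1ff529c52a31 : CRef := CRef.mk (Pat.mk 0x70000000c000000040 0x2000000028000001ff000000fe0000007f000000f0000000e0000000e0 8 9) 0 0 (step_sound _ 133 [(rh92d527fd57e151ef.shift 5 0), (rhdf6eda84f2eabc48.shift 5 0), rhed2da9b5326d8f1a, (rhf4bcdf19b6922e31.shift 5 0)] (by decide +kernel))
noncomputable def rh4dea9f9d1704bcf4 : CRef := CRef.mk (Pat.mk 0x40000000c000000180000000800000000 0x380000007a0000006e000000fc0000007c0000006f00000004 8 8) 0 0 (step_sound _ 69 [rh763dd153d50a4976, (rhf48373e13d2bc128.shift 2 2)] (by decide +kernel))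
noncomputable def rhbc1b4ca391d9a697 : CRef := CRef.mk (Pat.mk 0x2000000060000000c000000040000000000000000000000000 0x540000005c000000df0000007c000001fc000000ec0000007c0000003c0000003c00000034 8 9) 0 0 (step_sound _ 163 [rh3244e7fa6c2a5de1, (rhab22b5b56e7b3243.shift 3 4)] (by decide +kernel))
noncomputable def rh977da3e008d89912 : CRef := CRef.mk (Pat.mk 0x60000001c000000000000000000000000 0x34000000340000003e0000001e0000003b0000000a0000000a 8 6) 0 0 (step_sound _ 97 [rh42c1ac5f89ec27da, (rh5a583376be361094.shift 1 0), rh9a011a4d0ec8f646] (by decide +kernel))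
noncomputable def rh6ab542677de33e67 : CRef := CRef.mk (Pat.mk 0xc000000180000000800000000 0x100000001c0000001c0000000c0000001c0000001c0000001f00000017 8 5) 0 0 (step_sound _ 131 [rh3a7d23a53e703c3c, rh8a84ef379e3325a1, (rhd4b4beefcd67f51e.shift 3 0)] (by decide +kernel))
noncomputable def rh1c660cf5eaaf5c97 : CRef := CRef.mk (Pat.mk 0x8000000180000001000000010000000000000000000000000 0x1000000010000000140000001f0000007e000000f80000003e0000000c0000000c00000008 8 8) 0 0 (step_sound _ 99 [(rh2ade4908de82b58d.shift 0 2), (rh4514ebab456fffce.shift 1 2), (rh53705506d1c69545.shift 0 1), (rhfafeb437ceb8396d.shift 3 0)] (by decide +kernel))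
noncomputable def rh0da94d5b7f13cbd0 : CRef := CRef.mk (Pat.mk 0x80000000a000000180000001000000000 0x30000000300000007f0000001e0000007f0000003000000020 8 7) 0 0 (step_sound _ 98 [rh20bf9ef469797a9d, (rh4a0b10776449c3e9.shift 1 2), (rh89ade209b3e28f13.shift 1 2)] (by decide +kernel))
noncomputable def rha2aa47e52b29efcd : CRef := CRef.mk (Pat.mk 0x200000002800000060000000400000000000000000 0x540000005c000000de0000007c0000006f0000007c000000ce0000000c00000004 8 8) 0 0 (step_sound _ 99 [(rh03e9d289b475225b.shift 1 2), (rh7174a5174d2fbf5b.shift 2 2), rhdcced80d1988b36a] (by decide +kernel))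
noncomputable def rhf542af1edd0d60e9 : CRef := CRef.mk (Pat.mk 0xc00000018000000100000001000000000 0x10000000370000001f0000001f0000003b0000003a00000022 8 6) 0 0 (step_sound _ 129 [rh74520cff175ed72a, (rhb739f4f82bb681b4.shift 0 3)] (by decide +kernel))
noncomputable def rh1eb7f0416b84daf7 : CRef := CRef.mk (Pat.mk 0x60000000c0000000800000008000000000000000000000000 0x2000000020000004a0000006e0000007e0000007c0000007f000000720000007000000050 8 7) 0 0 (step_sound _ 165 [(rh2fe78cc5ca4405d8.shift 1 5), rha06a3846533dc4f8] (by decide +kernel))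
noncomputable def rh6e18c21866452386 : CRef := CRef.mk (Pat.mk 0xe00000018000000100000000000000000 0x27000000fe0000001c000000780000003e0000003c 8 8) 0 0 (step_sound _ 36 [rh325060d05f480fa5, (rh7b1f1fb55310c477.shift 3 0)] (by decide +kernel))
noncomputable def rh0a630c5bbe42f7c8 : CRef := CRef.mk (Pat.mk 0x70000000c00000008000000000 0x38000001ff000001fe0000007f000000f0000000e0000000c000000040 8 9) 0 0 (step_sound _ 165 [(rh0588d2c7f2cab5e9.shift 5 0), (rh1308d29eac87f828.shift 0 1), (rh6eb3fda4802683f8.shift 5 1), (rhd58afbb436cf5940.shift 2 0)] (by decide +kernel))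
noncomputable def rhf7dd72d0d2b202ac : CRef := CRef.mk (Pat.mk 0x40000000c000000080000000000000000 0x1800000018000000180000000c0000000c0000007c0000001f0000001f 8 7) 0 0 (step_sound _ 35 [rh11796b378758f5d7, (rh7b1f1fb55310c477.shift 2 0)] (by decide +kernel))
noncomputable def rh22fa8f37eaae1b57 : CRef := CRef.mk (Pat.mk 0x3000000030000000200000002000000000 0xa0000003e000000fe000000370000007e0000005f 8 8) 0 0 (step_sound _ 36 [(rh932754581e0f4330.shift 4 0), rh9597856cca30cf59] (by decide +kernel))
noncomputable def rh998c077f32f9ac03 : CRef := CRef.mk (Pat.mk 0x160000001400000000000000000000000000000000 0x200000003200000036000000f60000003e000000ff0000003e0000002a 8 8) 0 0 (step_sound _ 98 [(rh01483ff9cba2f6ac.shift 1 0), rh0b9093df7348f17b, (rh56259dd1390eee46.shift 1 0), (rhd1779d7de7f8215b.shift 1 0)] (by decide +kernel))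
noncomputable def rh34afbbb3e5c609fd : CRef := CRef.mk (Pat.mk 0xc00000008000000000000000000000000 0x80000003e0000003e0000000f0000003c0000007c0000001f0000001f00000006 8 7) 0 0 (step_sound _ 162 [(rh135e2a3f8931a7f7.shift 0 1), (rh5d54cb79a67f97ab.shift 2 1), rh93451e8fad1a0716, (rha40d42a2e34c408d.shift 2 1)] (by decide +kernel))
noncomputable def rhd24d38356aff6783 : CRef := CRef.mk (Pat.mk 0xc0000003800000008000000000000000000000000 0x8000000280000002f00000038000000fe000000fe0000001400000004 8 8) 0 0 (step_sound _ 100 [rh1e7fc01b11fa115a, (rh3af54b5f78790764.shift 1 2), (rh55a1f6c57a317ce6.shift 3 1)] (by decide +kernel))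
noncomputable def rh81eefd071f705d9b : CRef := CRef.mk (Pat.mk 0x40000001c00000004000000000000000000000000 0x4000000040000000c0000001c0000000f0000003e0000003e00000006 8 6) 0 0 (step_sound _ 99 [(rh3af54b5f78790764.shift 0 2), rh3c6e90bb6f1a7825, (rh55a1f6c57a317ce6.shift 2 1)] (by decide +kernel))
noncomputable def rh0f3538984b373cb0 : CRef := CRef.mk (Pat.mk 0xc0000000c000000080000000800000000 0x2e0000007f000000780000007e000000f4 8 8) 0 0 (step_sound _ 36 [(rh55afc6a59410cf00.shift 3 0), rhf348d9a330f112cf] (by decide +kernel))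
noncomputable def rh4114dc81b1a36dd4 : CRef := CRef.mk (Pat.mk 0x200000003000000020000000200000000 0x10000000700000007000000070000000300000003000000020000000700000005 8 3) 0 0 (step_sound _ 34 [(rh55afc6a59410cf00.shift 1 0), rh81546691ea859c0f] (by decide +kernel))
noncomputable def rh5b6e2c57d3e1dcf0 : CRef := CRef.mk (Pat.mk 0x80000000c000000080000000c 0x40000001c0000001c0000001c0000000c0000001f000000780000000f 8 7) 0 0 (step_sound _ 36 [rh0dc9f470f4cb2c4a, rh0ea2b65b1d7da726, rh235fe8d40f8e6f8a, rh4818521e929a9173, rhb8aff8d33d5ccefc] (by decide +kernel))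
noncomputable def rh7f03562f1af65e63 : CRef := CRef.mk (Pat.mk 0x40000000c000000000000000000000000 0xa0000000e0000000f0000003c0000000c0000007c0000007e0000007e0000000a 8 7) 0 0 (step_sound _ 162 [(rh046c5eb18e55a239.shift 2 0), (rh166deedb23494089.shift 0 2), (rh70e33bfdf511e144.shift 2 0), (rhac5bd8b763a3a135.shift 1 0)] (by decide +kernel))
noncomputable def rha829068541a8b1b5 : CRef := CRef.mk (Pat.mk 0x2000000020000000000000006000000040 0x7800000078000000fc000001ff000001fe0000005e000000f800000068 8 9) 0 0 (step_sound _ 102 [rh2086b99d00e62215, (rh2613c889e411427e.shift 5 0)] (by decide +kernel))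
noncomputable def rha0b68b2835005351 : CRef := CRef.mk (Pat.mk 0x2000000020000000600000014000000000000000000000000 0x28000000380000007c0000003e000000770000003e000000360000003b0000003b0000002b 8 7) 0 0 (step_sound _ 132 [(rh0a5e3e09988dc601.shift 1 3), (rh665fa2b016ee28ae.shift 0 3), (rh6ed6c2aff231c8e3.shift 0 4), rhf461725c674f8df1] (by decide +kernel))
noncomputable def rhd840b3268c808548 : CRef := CRef.mk (Pat.mk 0x100000001000000030000000a0000000000000000000000000 0x2000000160000007ef000003fe000007b7000001f0000001b0000001d8000001d800000158 8 11) 0 0 (step_sound _ 197 [(rh7cbb60db1dba1b99.shift 1 0), rh7dc17494367bcccd, (rha45f50e2d37cac99.shift 3 0), (rhbdf20a751dc6bc98.shift 2 0)] (by decide +kernel))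
noncomputable def rhe52986d32a7d0cc6 : CRef := CRef.mk (Pat.mk 0x800000008000000000000001000000050 0x800000008000001ff000000ff000001d70000005400000050 8 9) 0 0 (step_sound _ 100 [(rh2613c889e411427e.shift 3 0), rh62bca00a9c13377a] (by decide +kernel))
noncomputable def rh674deef59ef671ad : CRef := CRef.mk (Pat.mk 0x1000000010000000000000003000000020 0x10000003ff000001fe000003ae0000003800000030 8 10) 0 0 (step_sound _ 101 [(rh2613c889e411427e.shift 4 0), rh7cda4d730b2aedbc] (by decide +kernel))
noncomputable def rhc18951fb2c67fd51 : CRef := CRef.mk (Pat.mk 0x10000000100000003000000080000000000000000000000000 0x144000001cc000001ee000001ff0000019f000001f800000190000001d0000001c000000140 8 9) 0 0 (step_sound _ 163 [(rh6da67fcc3650f6df.shift 0 2), (rhd9d4bae2cea7496a.shift 3 0), (rhdeca8db941583de2.shift 1 4)] (by decide +kernel))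
noncomputable def rhfb24ad5241107e41 : CRef := CRef.mk (Pat.mk 0x20000000200000006000000140000000000000000000000000 0x140000001c0000001c0000001e0000003c0000077f000003fc0000036e0000001c0000001c00000014 8 11) 0 0 (step_sound _ 163 [(rh01bc679fa2875dd7.shift 1 0), (rh174a767562f03570.shift 2 4), (rh97c2eabad57496f7.shift 0 2), (rh9ebd639649ea671c.shift 2 4), (rhb3e3c0562283e6d9.shift 3 3)] (by decide +kernel))
noncomputable def rh9a56e9c39db8add0 : CRef := CRef.mk (Pat.mk 0x1800000000000000180000005000000000 0x1ef000000fe000000d700000078000000d000000080 8 9) 0 0 (step_sound _ 133 [(rh5a4df29f20c07a62.shift 3 1), (rh7c813fcdcfe43884.shift 0 1), (rhc9ac715dc05083e4.shift 2 1), (rhcfb9bb7178138e98.shift 1 0)] (by decide +kernel))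
noncomputable def rh215f6667d0d06067 : CRef := CRef.mk (Pat.mk 0x18000000000000001000000050 0x800000008000001ff000000ff000001d70000005400000050 8 9) 0 0 (step_sound _ 131 [(rh2613c889e411427e.shift 3 0), rh62bca00a9c13377a] (by decide +kernel))
noncomputable def rhc29a11b5c5ad65c7 : CRef := CRef.mk (Pat.mk 0x18000000000000001800000050000000000000000000000000 0xa0000000e0000001f7000000fe000001d7000000f8000000d8000000e8000000e0000000a0 8 9) 0 0 (step_sound _ 134 [(rh11774a4d052305d8.shift 3 2), rh337f26368a575fbf, (rh87578392b3239c55.shift 3 2), (rhcd8fc927b72d0e58.shift 3 3), (rhd662b4025f428a16.shift 3 0), (rhef51bb93845d62d7.shift 0 3)] (by decide +kernel))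
noncomputable def rh9722fdad844455fe : CRef := CRef.mk (Pat.mk 0x300000000000000030000000a0000000000000000000000000 0x140000001d0000007ff000003fe0000078e000001f8000001b0000001c0000001c000000040 8 11) 0 0 (step_sound _ 135 [(rh385587533e47e383.shift 0 2), (rh537cdac43b7dc8de.shift 1 0), (rh640098c55d19f993.shift 1 3), (rh6595a3fc95015b7d.shift 1 0), (rhcd8fc927b72d0e58.shift 4 3), (rhde37d3546031229c.shift 0 3)] (by decide +kernel))
noncomputable def rh6edfd21d5d35aecc : CRef := CRef.mk (Pat.mk 0x1000000000000000b0000000a000000000 0x200000007c0000003f000001f8000001b000000010 8 9) 0 0 (step_sound _ 70 [rhb2d63d515dd91514, (rhe25b0a99195a5d59.shift 4 1)] (by decide +kernel))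
noncomputable def rh44963904797deafe : CRef := CRef.mk (Pat.mk 0x2000000000000001600000010000000000000000000000000 0x4000000240000003c0000003e000000370000001e00000032000000380000003800000028 8 6) 0 0 (step_sound _ 164 [(rh9765e413c7f50252.shift 1 0), (rhabf575676fe0ef70.shift 1 3), (rhc01be4cfaed91500.shift 1 0), (rhf809239f81c16171.shift 0 1)] (by decide +kernel))
noncomputable def rh83c93f212005e3e7 : CRef := CRef.mk (Pat.mk 0x1000000000000000b0000000a0000000000000000000000000 0x100000003ef000001fe000003bf000001f0000000b0000000980000009800000018 8 10) 0 0 (step_sound _ 164 [(rh6ed6c2aff231c8e3.shift 3 4), rhd0f2821057736077, (rhe60993aeadda8110.shift 3 3), (rhfb2a06b2622bed32.shift 2 0)] (by decide +kernel))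
noncomputable def rh69aa94b5142251ec : CRef := CRef.mk (Pat.mk 0x1000000000000000b0000000a0000000000000000000000000 0x140000001c0000007ef000003fe000007be000001b8000001b0000001d8000001d800000158 8 11) 0 0 (step_sound _ 197 [(rh2698f3180eef283f.shift 1 0), (rh2909ffd16df58760.shift 2 0), (rh8502a78eb5f829b0.shift 0 2), (rhd136a7f15c50c570.shift 1 2), (rhd662b4025f428a16.shift 4 0), (rhe8e1144c0cbecd55.shift 3 0)] (by decide +kernel))
noncomputable def rh3dc29776f752812a : CRef := CRef.mk (Pat.mk 0x8000000000000001800000050 0x8000001ff000000ff000001df0000005c00000058 8 9) 0 0 (step_sound _ 131 [rh3ba4367a1ff62da8, (rhff0f29cb645b05f7.shift 3 0)] (by decide +kernel))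
noncomputable def rh2269f370e0c24276 : CRef := CRef.mk (Pat.mk 0x20000000600000004000000060000000000000000000000000 0x140000001c0000001c0000007c000001fc0000074f000003fe000007bf0000003400000020 8 11) 0 0 (step_sound _ 195 [(rh174a767562f03570.shift 2 5), (rh2b33beb169794f37.shift 2 2), (rh6e479357837c9cf0.shift 2 2), (rha312b6b3bbf5f927.shift 0 1), (rhb961eddd18ed296e.shift 2 0)] (by decide +kernel))
noncomputable def rhf9a02cc772d686fa : CRef := CRef.mk (Pat.mk 0x1000000030000000200000003000000000 0x2a0000003e000000fe000000370000007e000000cf 8 8) 0 0 (step_sound _ 35 [rh33b5c332b15d1e6a, rh61a0202de37988d6, (rh6b22c4376e88d7de.shift 1 0), rh92bb9f99ea7795ba, (rhfd620908e7a13424.shift 2 0)] (by decide +kernel))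
noncomputable def rhf5a16e0b5ea0eba3 : CRef := CRef.mk (Pat.mk 0x5c0000005000000000000000000000000000000000 0x4000000056000000fc000003d8000000ff000001fe000001ff000000a8 8 10) 0 0 (step_sound _ 67 [(rh0a889718367622c9.shift 3 0), rhb102d9ad1fa3fbf6, (rhd3fb776431cb560a.shift 1 2), (rhec9ff7ec274f30f6.shift 2 0)] (by decide +kernel))
noncomputable def rh70ea3857bf8e60c1 : CRef := CRef.mk (Pat.mk 0x170000001400000000000000000000000000000000 0x2a0000003e0000003e000000350000001f000000360000003e0000003e0000002e00000002 8 6) 0 0 (step_sound _ 196 [(rh9765e413c7f50252.shift 1 1), (rhabf575676fe0ef70.shift 1 4), rhb1ea9a0a61d79395, (rhc01be4cfaed91500.shift 1 1)] (by decide +kernel))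
noncomputable def rh716c51f2e1b25a1b : CRef := CRef.mk (Pat.mk 0x2e00000028000000000000000000000000 0xa0000000a0000004b0000007e0000006c0000007f0000007e0000001c 8 7) 0 0 (step_sound _ 98 [rh07bd6a4972b1367f, (rh26cf6cd574a72447.shift 2 3), rh470b45ac8513584f] (by decide +kernel))
noncomputable def rh689cbb03adf41d83 : CRef := CRef.mk (Pat.mk 0xb0000000a0000000000000000000000000000000000000000 0x8000000180000003a000000ff000000fa000000ff000000ff0000003c0000003c00000020 8 8) 0 0 (step_sound _ 164 [rh6cf77c06bb162cf0, (rhc10214bf3fe8094a.shift 0 5)] (by decide +kernel))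
noncomputable def rhb1eb3e8fd44e09aa : CRef := CRef.mk (Pat.mk 0x170000001400000000000000000000000000000000 0x24000000750000003f00000016000000fe0000003f0000003e00000028 8 8) 0 0 (step_sound _ 100 [(rh389f35cf78a3d807.shift 0 2), rh73ebbd170551285c, (rh87f1ec783521e174.shift 3 0), (rh9c5a9349999f4e24.shift 1 1), (rhbde1eca077c906ec.shift 1 1), (rhd3393aadb0c1a36e.shift 1 0)] (by decide +kernel))
noncomputable def rhb2f5b9eeaa383c77 : CRef := CRef.mk (Pat.mk 0x17000000140000000000000000000000000000000000000000 0x200000003800000038000000380000003500000037000000f6000000ff000000ff0000003f0000003a00000038 8 8) 0 0 (step_sound _ 132 [(rh16798c471e3f26bd.shift 0 3), (rh2b9c284536203562.shift 3 1), (rh68d7af301b5c420f.shift 1 1), (rh7b39850374f0305a.shift 1 1), (rh7ce6d128c316f73c.shift 3 0), (rh7fab9090a56eef9b.shift 0 1), (rh87f1ec783521e174.shift 3 1), (rh8a5f8e7474164336.shift 1 0), (rh96d520c61f6dfce3.shift 1 1)] (by decide +kernel))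
noncomputable def rhea605459de317132 : CRef := CRef.mk (Pat.mk 0xc00000008000000000000000000000000 0x80000003e0000003e0000000f0000003f0000007c0000001f0000001f00000006 8 7) 0 0 (step_sound _ 162 [(rh5d54cb79a67f97ab.shift 2 1), rh93451e8fad1a0716, (rha40d42a2e34c408d.shift 2 1), (rhda7c03f01b48cdd5.shift 0 1)] (by decide +kernel))
noncomputable def rh1fe9da35fc35b60f : CRef := CRef.mk (Pat.mk 0xe00000018000000000000000000000000 0x50000003f0000003f0000003f0000001e0000001f0000000c0000000c0000000c 8 6) 0 0 (step_sound _ 132 [(rh1c9a2e22e7550ada.shift 0 3), (rh4b961a3659b5c1c1.shift 0 1), (rh531cacad9958d8ca.shift 0 1), (rhc0fc7017c0a08396.shift 0 1), rhdcce240040caa289] (by decide +kernel))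
noncomputable def rha904ec83935fb34c : CRef := CRef.mk (Pat.mk 0x180000003000000000000000000000000000000000 0x380000003e0000003f000000380000003800000018000000380000003800000028 8 6) 0 0 (step_sound _ 100 [(rh0a6888916bcef86b.shift 3 0), (rh1f509d65428cffbe.shift 0 2), (rh2419a197571cea63.shift 3 0), (rh668fc65514a55b16.shift 3 1)] (by decide +kernel))
noncomputable def rhb2db5b6095dd39e4 : CRef := CRef.mk (Pat.mk 0x10000000780000000000000000 0x1c0000001f0000003c00000078000000dc00000010 8 8) 0 0 (step_sound _ 35 [rh0e0d2d0fb2e385c3, (rheb0810cc63b001d8.shift 2 1)] (by decide +kernel))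
noncomputable def rhecff6547dbba9f86 : CRef := CRef.mk (Pat.mk 0x2000000060000000000000000000000000 0x20000001200000077e000003fe000007bf0000009000000090 8 11) 0 0 (step_sound _ 103 [(rh38791ac5737ed75e.shift 4 3), (rh5d54a69ee789ff61.shift 4 0), (rh7a464a5dcbccb714.shift 4 2), (rha835aaec302ef97a.shift 2 0), rhaeb28723409c7442] (by decide +kernel))
noncomputable def rh465502abdd1bfcad : CRef := CRef.mk (Pat.mk 0x28000000e00000000000000000000000000000000000000000 0x5c0000007c000000fc000000ff000000ff0000006f000000fc000001ae0000007c0000007c0000005c00000004 8 9) 0 0 (step_sound _ 163 [(rh3e52c7b52af04de3.shift 0 1), rh66b867e396e4d12d, (rh8d42293ee24181ff.shift 1 4), (rha453f3680a6be675.shift 0 2), (rhc4fa60c278940026.shift 2 1), (rhf62b97b75c6ccd33.shift 0 1)] (by decide +kernel))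
noncomputable def rhb001d8998a598776 : CRef := CRef.mk (Pat.mk 0x1800000038000000000000000000000000 0xc0000001c0000007c0000001e0000003c0000000f0000000c00000008 8 7) 0 0 (step_sound _ 130 [rh738f0f09007cd444, (rhb739f4f82bb681b4.shift 1 3)] (by decide +kernel))
noncomputable def rh1411de907014bb9c : CRef := CRef.mk (Pat.mk 0x1400000038000000000000000000000000 0x180000003c0000007f0000001c00000078000000180000001800000008 8 7) 0 0 (step_sound _ 131 [rh217faa9334d0b6b0, (rhf48373e13d2bc128.shift 2 3)] (by decide +kernel))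
noncomputable def rh10ee3147573d2bbd : CRef := CRef.mk (Pat.mk 0x28000000700000000000000000000000000000000000000000 0x5000000070000000700000007c0000002f000000780000003000000070000000700000007000000010 8 7) 0 0 (step_sound _ 194 [(rh09d4dfe75d4407d6.shift 2 5), rhc7338ec8cb852052] (by decide +kernel))
noncomputable def rh648825952dbc3a53 : CRef := CRef.mk (Pat.mk 0x1800000038000000000000000000000000 0xc0000000c0000000c0000001e0000003f0000001f0000001c00000008 8 6) 0 0 (step_sound _ 130 [rh1b9419ebff49e90d, (rhb739f4f82bb681b4.shift 1 3)] (by decide +kernel))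
noncomputable def rh39a5d4e8dc6c73ef : CRef := CRef.mk (Pat.mk 0x60000000e000000000000000000000000 0x30000000300000003000000060000003e000000070000000600000006 8 6) 0 0 (step_sound _ 100 [rh8469753b77f9ff0e, (rhf48373e13d2bc128.shift 1 3)] (by decide +kernel))
noncomputable def rhe3344bf73cfe5a94 : CRef := CRef.mk (Pat.mk 0xc0000001c000000000000000000000000 0x60000001e0000003e0000000f0000001c0000000e0000000e00000004 8 6) 0 0 (step_sound _ 129 [(rhb739f4f82bb681b4.shift 0 3), (rhfa334c3d60019a81.shift 1 0)] (by decide +kernel))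
noncomputable def rh7755f55683b457d3 : CRef := CRef.mk (Pat.mk 0x1800000038000000000000000000000000 0x180000003c0000007f0000001e00000038000000180000001800000008 8 7) 0 0 (step_sound _ 130 [rh217faa9334d0b6b0, (rhb739f4f82bb681b4.shift 1 3)] (by decide +kernel))
noncomputable def rhef68422bde02a31a : CRef := CRef.mk (Pat.mk 0x180000003800000000000000000000000000000000 0x100000003000000130000001f0000003f0000001f0000000f0000000f00000005 8 6) 0 0 (step_sound _ 161 [rh091013147247ffce, (rhab22b5b56e7b3243.shift 1 4)] (by decide +kernel))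
noncomputable def rhd7ad04b289096a31 : CRef := CRef.mk (Pat.mk 0x300000007000000000 0xff0000007e000001ff0000003c0000007e0000002e 8 9) 0 0 (step_sound _ 67 [(rhb739f4f82bb681b4.shift 2 1), rhe31492546784cea2] (by decide +kernel))
noncomputable def rh83777e1d0e5d09c1 : CRef := CRef.mk (Pat.mk 0x1800000038000000000000000000000000 0x180000001c0000001f000000180000003c0000001f000000fc0000003c 8 8) 0 0 (step_sound _ 67 [(rh1210d6649476ffbb.shift 0 1), (rh45ebb5574bfcf660.shift 2 0), (rhea7a1800d6f053bd.shift 3 0)] (by decide +kernel))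
noncomputable def rh495fe66f3a0de288 : CRef := CRef.mk (Pat.mk 0x200000007800000000 0x4000001ff000000fe000001ff0000003c000000f800000028 8 9) 0 0 (step_sound _ 67 [(rh3244c3cc8379b070.shift 2 1), rhb398d4a9db51d7fd] (by decide +kernel))
noncomputable def rhb449765217699cf5 : CRef := CRef.mk (Pat.mk 0x1000000038000000000000000000000000 0xc0000000c0000001c0000001e000000fc0000001f0000001c00000008 8 8) 0 0 (step_sound _ 131 [(rh39b36e93b258e604.shift 2 0), rh3c7bfe65ecbe61e0, (rh79b3c29022acbdf3.shift 2 3)] (by decide +kernel))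
noncomputable def rha158b5ac5902ae53 : CRef := CRef.mk (Pat.mk 0x40000001e000000000000000000000000 0x30000000300000003000000070000001e000000370000000600000006 8 6) 0 0 (step_sound _ 65 [rh89f6399705fdcd55, (rheb0810cc63b001d8.shift 0 2)] (by decide +kernel))
noncomputable def rh7e8dbb02b0a012bc : CRef := CRef.mk (Pat.mk 0x800000018000000080000000800000000 0x10000000180000007c0000006f0000007c00000074 8 7) 0 0 (step_sound _ 34 [rh3460ad882dfe5ae9, (rh932754581e0f4330.shift 2 0)] (by decide +kernel))
noncomputable def rh7eccb57319315c64 : CRef := CRef.mk (Pat.mk 0x20000001e00000000000000000000000000000000 0x4000000070000000700000007000000360000001e00000033000000070000000700000005 8 6) 0 0 (step_sound _ 97 [(rheb0810cc63b001d8.shift 0 3), rhf36a49477bee7531] (by decide +kernel))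
noncomputable def rh070ce8d84f838422 : CRef := CRef.mk (Pat.mk 0x80000000800000038000000000000000000000000 0x40000001c0000001c000000180000007c0000001f000000380000000c0000000c0000000c 8 7) 0 0 (step_sound _ 130 [(rha9dfc0f112635ff1.shift 2 0), rhb3aea7476e1326f4, (rhc02b3aee7ab87ee1.shift 0 3)] (by decide +kernel))
noncomputable def rhfd65b85264b9da11 : CRef := CRef.mk (Pat.mk 0x80000000800000018000000000000000000000000 0x140000001c0000001c0000000c0000001c0000001c000000180000000f0000000c0000000c 8 5) 0 0 (step_sound _ 67 [(rh3e42c0d76d2847dd.shift 0 1), (rh6aa5625770489e83.shift 2 0), (rh6ed5e6501b92e21f.shift 2 0), (rheacedd262407fad2.shift 2 0)] (by decide +kernel))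
noncomputable def rh771895664643b0ba : CRef := CRef.mk (Pat.mk 0x2000000020000000600000000000000000000000000000000 0x600000007000000070000000700000003000000070000000600000003000000070000000700000004 8 3) 0 0 (step_sound _ 225 [(rh4349017c02dcea3a.shift 0 4), (rh73f605273a09a9d0.shift 1 4), rhb864791e17c8ea44, (rhc85cc95794737cf7.shift 0 4)] (by decide +kernel))
noncomputable def rhffba593eb79942bb : CRef := CRef.mk (Pat.mk 0x1000000010000000100000000000000000 0x2800000028000001ff000000ff0000001f000000100000001800000008 8 9) 0 0 (step_sound _ 163 [(rh0dbc8abee7ad42d4.shift 3 1), (rh8c4308143bcb94d4.shift 0 1), (rhb84baac6207e4014.shift 3 0), (rhbab796f6dafe9186.shift 3 2), (rhbec796c3ea7a32e6.shift 2 1)] (by decide +kernel))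
noncomputable def rheeaced76841e42fd : CRef := CRef.mk (Pat.mk 0x100000001000000070000000000000000000000000 0x2f0000007e0000003f00000070000000180000001800000018 8 7) 0 0 (step_sound _ 68 [(rh68f996007113ceac.shift 0 1), (rh6aa5625770489e83.shift 3 0), (rh6ed5e6501b92e21f.shift 3 0), (rheacedd262407fad2.shift 3 0)] (by decide +kernel))
noncomputable def rh1dd6f5d487a29bc3 : CRef := CRef.mk (Pat.mk 0x4000000040000001c00000000 0xc0000000e0000001e0000003f0000003f0000000e0000001c00000010 8 6) 0 0 (step_sound _ 130 [(rh4349017c02dcea3a.shift 1 1), (rh65909b08999dc522.shift 1 1), (rh73f605273a09a9d0.shift 2 1), (rhc85cc95794737cf7.shift 1 1), rhebe14b0174d4ddf0] (by decide +kernel))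
noncomputable def rh964d92b31d4fa070 : CRef := CRef.mk (Pat.mk 0x20000000200000006000000000000000000000000 0x40000000700000007000000070000000600000006000000030000000300000003 8 3) 0 0 (step_sound _ 65 [(rh762a1aeaf83c662a.shift 0 1), rha016bb014f29ae56, (rha6f6ba4f13e6e353.shift 0 1), rheacedd262407fad2] (by decide +kernel))
noncomputable def rh1594105c69ababad : CRef := CRef.mk (Pat.mk 0x1000000078000000000000000000000000 0x7c0000007e0000007f0000003c00000078000000c80000000800000008 8 8) 0 0 (step_sound _ 131 [(rh3244c3cc8379b070.shift 2 3), rhba26a68c722b0f39] (by decide +kernel))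
noncomputable def rhecbc5c492cba3814 : CRef := CRef.mk (Pat.mk 0x20000000600000002000000000000000000000000 0x30000000300000007000000060000000600000003000000070000000700000005 8 3) 0 0 (step_sound _ 65 [rh8cdd36b03d57a2f6, (rha707fb719e87fe6e.shift 1 1), (rhbbd854dc2b305b83.shift 0 1)] (by decide +kernel))
noncomputable def rh62f0c753dbf7e6d9 : CRef := CRef.mk (Pat.mk 0x800000018000000080000000800000000 0xe0000000f0000001e0000000f0000001c00000014 8 5) 0 0 (step_sound _ 4 [rh41a0c052181679c6, (rhd3458b32566d63f7.shift 3 0)] (by decide +kernel))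
noncomputable def rh2df37068a39c730e : CRef := CRef.mk (Pat.mk 0x800000018000000080000000800000000 0x170000001f0000001f0000000e0000000c00000004 8 5) 0 0 (step_sound _ 34 [(rh5b7ec1137f8de122.shift 0 1), (rh932754581e0f4330.shift 2 0)] (by decide +kernel))
noncomputable def rh56c0836b5ffeb9e5 : CRef := CRef.mk (Pat.mk 0x1000000010000000300000001000000000 0x2c0000007f0000003e000000380000001e0000000c 8 7) 0 0 (step_sound _ 133 [(rh2f68792b6b779e96.shift 4 1), rh585ee8640da8a579] (by decide +kernel))
noncomputable def rh6de554eaecff45de : CRef := CRef.mk (Pat.mk 0x200000002000000060000000200000000 0x10000000300000007000000060000000700000007000000070000000300000001 8 3) 0 0 (step_sound _ 0 [rh79877ebd3ef475dd, (rhe0b7690de373d22b.shift 0 1)] (by decide +kernel))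
noncomputable def rhba04f2f01af6ce4d : CRef := CRef.mk (Pat.mk 0x800000008000000180000000800000000 0x40000000c0000000c0000000c0000000c0000001c0000001c0000000f00000004 8 5) 0 0 (step_sound _ 34 [(rh887cd1e5fc343463.shift 0 1), (rh932754581e0f4330.shift 2 0)] (by decide +kernel))
noncomputable def rhe06068ccb1bdfbee : CRef := CRef.mk (Pat.mk 0x8000000080000001800000000000000000000000000000000 0x10000000180000001c0000001c000000180000007c0000000f0000001c0000001c00000014 8 7) 0 0 (step_sound _ 99 [(rh49759b6975f15643.shift 2 0), (rh76952bcc3f842842.shift 0 1), (rhb0de455c382c5b1c.shift 0 2)] (by decide +kernel))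
noncomputable def rh57403fb2b9ccfbdf : CRef := CRef.mk (Pat.mk 0x80000000800000018000000080000000000000000 0x140000001c0000001c0000001800000018000000180000007c0000000f0000000800000008 8 7) 0 0 (step_sound _ 195 [(rh44f453b84f013105.shift 3 2), (rh9096905d4c6c471a.shift 0 2), rhd143594a2a1e9deb] (by decide +kernel))
noncomputable def rh6d4d206fc110a9ff : CRef := CRef.mk (Pat.mk 0x4000000040000000c000000000000000000000000 0x80000001e0000003e0000000f0000000c0000001c000000140000000400000004 8 6) 0 0 (step_sound _ 194 [(rhc4055b4872d6fb38.shift 1 2), (rhdbc400e79194dff9.shift 1 3), (rhdfd10cc9da38ede8.shift 1 0), (rhecd27622967ccfbe.shift 0 2)] (by decide +kernel))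
noncomputable def rh78b6e829124b1d4c : CRef := CRef.mk (Pat.mk 0x80000000800000018000000000000000000000000 0x140000001c0000001c0000000c0000001c000000180000007c0000000f0000000c00000008 8 7) 0 0 (step_sound _ 195 [rh23ad2b01aa9d0b39, (rh6aa5625770489e83.shift 2 1), (rh788924cf265c037a.shift 2 1), (rhbdecaeed4a59cb58.shift 2 2), (rhdfd10cc9da38ede8.shift 2 0)] (by decide +kernel))
noncomputable def rh940ae88dd0b4949f : CRef := CRef.mk (Pat.mk 0x200000002000000020000000600000000 0x10000000700000007000000070000000300000003000000060000000700000001 8 3) 0 0 (step_sound _ 0 [(rh32e597806b190493.shift 0 1), rh79877ebd3ef475dd] (by decide +kernel))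
noncomputable def rhb09e61758b193798 : CRef := CRef.mk (Pat.mk 0x400000004000000040000000c00000000 0x3a0000003f0000003f0000000c0000000e00000002 8 6) 0 0 (step_sound _ 131 [(rh2f68792b6b779e96.shift 2 1), rhcf16fe84abe1081a] (by decide +kernel))
noncomputable def rh04e24da42fb7d9be : CRef := CRef.mk (Pat.mk 0x300000002000000060000000000000000000000000 0x4000000044000000cf0000007e0000076f000003fc000003be0000001400000010 8 11) 0 0 (step_sound _ 163 [(rh3918eeb6c53434d8.shift 0 4), (rh6613bd2aa423c87a.shift 1 2), (rh9bf8acd8345925cc.shift 1 0), (rhb1688bf6da1a7843.shift 1 2), (rhfb7531a7e6d88af7.shift 1 2)] (by decide +kernel))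
noncomputable def rh671c195f1f208861 : CRef := CRef.mk (Pat.mk 0x6000000040000000c00000000000000000 0x80000000a8000001bf000001ff000000df000000f00000001000000010 8 9) 0 0 (step_sound _ 132 [(rh1731311cc9e592e3.shift 2 0), (rh3493567f5791e2c3.shift 0 3), (rh3918eeb6c53434d8.shift 1 3), rh491a292f73e47063, (rha3b0bccedf1b1428.shift 3 1)] (by decide +kernel))
noncomputable def rh760c8157162f597f : CRef := CRef.mk (Pat.mk 0x80000001800000000000000000000000000000000 0x1c0000001c0000003f0000001f0000007f0000000f0000001f0000001c00000014 8 7) 0 0 (step_sound _ 162 [(rh42a831760ec2a04b.shift 0 2), (rh4ca5dae25f5c14ff.shift 0 4), (rhdeca8db941583de2.shift 0 4), rhf65f8c52c829ee80] (by decide +kernel))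
noncomputable def rhd04acbfff7bcb286 : CRef := CRef.mk (Pat.mk 0x1e00000000 0xe0000000fe000001ff 8 9) 0 0 (step_sound _ 1 [(rh8a8bf2ba970c1fed.shift 1 0), rheb0810cc63b001d8] (by decide +kernel))
noncomputable def rh32f12ad4e4f42996 : CRef := CRef.mk (Pat.mk 0x1e00000000 0xe3000000fe000001fc 8 9) 0 0 (step_sound _ 65 [(rh3244c3cc8379b070.shift 0 1), (rhece4971220ff1aca.shift 1 0)] (by decide +kernel))
noncomputable def rh222dd9b919e13de7 : CRef := CRef.mk (Pat.mk 0x7800000008000000000000000000000000 0x100000001800000018000000f8000000380000003f0000003c00000038 8 8) 0 0 (step_sound _ 100 [(rh18965a982d73c794.shift 3 3), rh9690390cc9dde43d] (by decide +kernel))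
noncomputable def rh377ea5b46fd01117 : CRef := CRef.mk (Pat.mk 0x10000000f000000000000000000000000 0x60000001f0000001f0000000b0000001f000000060000000600000006 8 5) 0 0 (step_sound _ 129 [rh919be857e17398ca, (rhf48373e13d2bc128.shift 0 3)] (by decide +kernel))
noncomputable def rh6187d89547938ee9 : CRef := CRef.mk (Pat.mk 0x1e00000010000000000000000000000000 0x1000000010000000140000001f0000001c000000fc000000fe00000038 8 8) 0 0 (step_sound _ 99 [(rhb739f4f82bb681b4.shift 0 3), (rhff15ab1844045a1d.shift 1 0)] (by decide +kernel))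
noncomputable def rhcbcf03fd2ab3821a : CRef := CRef.mk (Pat.mk 0x3c000000000000000000000000 0x80000000c000000ff0000003f0000001000000010 8 8) 0 0 (step_sound _ 65 [rh43df32c464360783, (rh80fcd6d0a18cb2dd.shift 1 2)] (by decide +kernel))
noncomputable def rh6a8ded142a787650 : CRef := CRef.mk (Pat.mk 0x1e00000002000000000000000000000000 0x400000006000000070000001e00000036000000070000000700000005 8 6) 0 0 (step_sound _ 161 [(rh3244c3cc8379b070.shift 0 4), rh717026690ba099b0] (by decide +kernel))
noncomputable def rhb77ac882ac1516e5 : CRef := CRef.mk (Pat.mk 0xe0000000200000002000000000000000000000000 0x8000000080000000b0000001e0000003b0000001e0000003f0000003f00000029 8 6) 0 0 (step_sound _ 164 [rha98a1c6eae998531, (rheb0810cc63b001d8.shift 0 4)] (by decide +kernel))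
noncomputable def rhbdf75cd565e36664 : CRef := CRef.mk (Pat.mk 0xe0000000200000002000000000000000000000000 0xb0000001e0000003b0000001f0000003d0000003800000008 8 6) 0 0 (step_sound _ 164 [rh32dabee32b1022d2, (rheb0810cc63b001d8.shift 0 4)] (by decide +kernel))
noncomputable def rh0e2de312864a4d16 : CRef := CRef.mk (Pat.mk 0x7000000010000000100000000000000000000000000000000000000000 0xf00000001e000000ff0000007e0000003f000000380000003800000028 8 8) 0 0 (step_sound _ 195 [(rh18965a982d73c794.shift 3 6), rhade786bd48ae4abd] (by decide +kernel))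
noncomputable def rh67329824268198e5 : CRef := CRef.mk (Pat.mk 0x7000000010000000100000000000000000000000000000000000000000 0x5000000070000000df000001ff000001ff0000003e0000003c0000003c00000008 8 9) 0 0 (step_sound _ 132 [(rh6a3816f31e4e3cd6.shift 1 3), (rh8cdd36b03d57a2f6.shift 3 2), (rha9f65f8f4892c95e.shift 0 1), (rhc438206587fda57f.shift 3 0)] (by decide +kernel))
noncomputable def rhafc2abb2d191974d : CRef := CRef.mk (Pat.mk 0x380000000800000008000000000000000000000000 0x800000008000000780000000f0000003f0000003f0000001e0000000e 8 7) 0 0 (step_sound _ 130 [(rh18965a982d73c794.shift 2 4), rh8757b10afe22e324] (by decide +kernel))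
noncomputable def rh706a4cb3df15a0ed : CRef := CRef.mk (Pat.mk 0x20000000e00000002 0xe3000000fe000001fe 8 9) 0 0 (step_sound _ 36 [(rh3244c3cc8379b070.shift 0 1), (rh8a8bf2ba970c1fed.shift 1 0)] (by decide +kernel))
noncomputable def rh33bb8992f32152f0 : CRef := CRef.mk (Pat.mk 0x2000000060000000200000000000000000000000000000000 0x5000000070000000700000002000000060000000600000007000000070000000700000004 8 3) 0 0 (step_sound _ 225 [rhc4717b05cfd3ae1f, (rhc85cc95794737cf7.shift 0 4), (rhd4b4beefcd67f51e.shift 1 3)] (by decide +kernel))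
noncomputable def rhda2dc035bca2bb33 : CRef := CRef.mk (Pat.mk 0x20000000e0000000200000000000000000000000000000000 0x50000000700000007000000030000001e0000003600000007000000070000000700000004 8 6) 0 0 (step_sound _ 164 [(rh3244c3cc8379b070.shift 0 5), rhd3c7050886528739] (by decide +kernel))
noncomputable def rh7b2ef251d90cba3e : CRef := CRef.mk (Pat.mk 0x380000000800000008000000000000000000000000 0x2800000038000000ff000000ff000000f80000007800000020 8 8) 0 0 (step_sound _ 132 [(rhbd4c2f053dfeea43.shift 3 1), (rhbdce2919d7940adf.shift 1 1), (rhe3c7663fb5fefb9c.shift 1 1), rhf2d708309995f488] (by decide +kernel))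
noncomputable def rhfc3a72764098adf5 : CRef := CRef.mk (Pat.mk 0xe0000000200000002000000000000000000000000 0xa0000000e0000000f0000003e000000070000000700000005 8 6) 0 0 (step_sound _ 65 [(rh3a323a81caf0c0e3.shift 0 1), rh8aec56c4ee12918c, (rh8c3839f9b9075f23.shift 1 0), rh8cdd36b03d57a2f6] (by decide +kernel))
noncomputable def rh6df7a2065fe2584c : CRef := CRef.mk (Pat.mk 0x18000000080000000800000000000000000000000000000000 0x100000001c0000001c0000000f000000180000001c0000001c0000000c0000001c0000001c00000014 8 5) 0 0 (step_sound _ 227 [(rh2f6b95e004f68a41.shift 2 2), (rh565a0c22519f57e9.shift 2 3), rh5a3ad407acfedeb8, (rhdc06da1b963e9d53.shift 2 3), (rhec1e3f6ff489986c.shift 2 4)] (by decide +kernel))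
noncomputable def rh849bf25c21aa08d0 : CRef := CRef.mk (Pat.mk 0x70000000100000001000000000 0x2000000038000000380000001800000070000000fe000000ff0000002f 8 8) 0 0 (step_sound _ 132 [rh1fc2295accd611f4, (rh53b00e6a187e926e.shift 3 0), (rhaba26d7b21102469.shift 3 0), (rhdc06da1b963e9d53.shift 3 0), (rhe913eab949cfc300.shift 3 0)] (by decide +kernel))
noncomputable def rh778aad725eceaf11 : CRef := CRef.mk (Pat.mk 0x3800000008000000080000000000000000000000000000000000000000 0x20000000380000001c0000003c000000ff0000003c0000001c0000001c00000004 8 8) 0 0 (step_sound _ 131 [(rh8aec56c4ee12918c.shift 2 2), (rh8c3839f9b9075f23.shift 3 2), (rh8cdd36b03d57a2f6.shift 2 2), (rhc438206587fda57f.shift 2 0), (rhe5f1c3f8482b70c7.shift 0 3)] (by decide +kernel))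
noncomputable def rh329f59b083601506 : CRef := CRef.mk (Pat.mk 0x3800000008000000080000000000000000 0x800000028000000380000003e0000001f000000fc0000003c 8 8) 0 0 (step_sound _ 100 [rh1ba9fa1321cd0c19, (rh5afb804be63b2814.shift 2 0), rh682d2932cdf5d99d, rh6c980ac862afd5f5, (rh73bc18ea4d1807c3.shift 2 0), (rhbd4c2f053dfeea43.shift 3 0)] (by decide +kernel))
noncomputable def rh9687a7d9f80f098a : CRef := CRef.mk (Pat.mk 0x600000000000000000000000000000000000000000 0x38000000380000007f000001fe000003ff0000003c0000003c0000003c0000001c 8 10) 0 0 (step_sound _ 164 [(rh43e71b662c4d279d.shift 0 4), rh5a8ea9fab3add735, (rh5fcb4307eb0a356b.shift 2 4), (rh7f0f14c54a159f24.shift 0 4), (rh8f5165134153580b.shift 1 0), (rhb54390edcf8a95c3.shift 1 4), (rhbac2be4f0e360e43.shift 1 4), (rhd4be413a411cad18.shift 1 0), (rhf51788ddb0a95f0c.shift 1 4), (rhf5c6d29a6fe40cc0.shift 2 4)] (by decide +kernel))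
noncomputable def rh29717fb2f25a4ae8 : CRef := CRef.mk (Pat.mk 0x300000000000000000000000000000000000000000 0x280000003c0000003c0000003f000001ff000000fe000001ff0000007c0000007c00000028 8 9) 0 0 (step_sound _ 132 [(rh04c6542796f914f3.shift 1 1), (rh31bb456d98a5caa6.shift 1 1), (rh4e5bd462d37ecb12.shift 1 0), (rh50333a6fca407cc8.shift 1 0), (rh6417ac93089124b5.shift 1 1), (rh7c174a9e6fdf0c50.shift 1 0), (rh873fdb609183b0fa.shift 1 1), (rha9756bafc7fa4c54.shift 0 1), (rhae3f37afa25cea48.shift 0 1), (rhafeb99370194db6d.shift 0 1), (rhf3bf0cf5a2c88f83.shift 0 1)] (by decide +kernel))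
noncomputable def rh91e9311429b33ad1 : CRef := CRef.mk (Pat.mk 0x600000000000000000000000000000000000000000 0x38000000380000007f000001fe000003ff0000003c0000003c0000003c0000001c 8 10) 0 0 (step_sound _ 164 [(rh43e71b662c4d279d.shift 0 4), rh5a8ea9fab3add735, (rh5fcb4307eb0a356b.shift 2 4), (rh76d751e34ed0a008.shift 1 0), (rh7f0f14c54a159f24.shift 0 4), (rhb54390edcf8a95c3.shift 1 4), (rhbac2be4f0e360e43.shift 1 4), (rhd4be413a411cad18.shift 1 0), (rhe168c73606d5703c.shift 2 4), (rhf51788ddb0a95f0c.shift 1 4)] (by decide +kernel))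
noncomputable def rha37b97aa8a5aecd9 : CRef := CRef.mk (Pat.mk 0xc00000000000000000000000000000000000000000 0x100000007000000070000000ff000001fe000003ff00000078000000780000007800000038 8 10) 0 0 (step_sound _ 165 [(rh061431e2caa178d7.shift 2 4), (rh0974907e15f07bb7.shift 0 2), (rh19ac91294c927563.shift 2 0), (rh24874b1001b91cf3.shift 1 4), (rh356329b431825628.shift 0 2), (rh5fe18085b2704d60.shift 2 0), (rh9426821d470a135d.shift 1 4), (rh9afc1294c237a43d.shift 2 4), (rhbac2be4f0e360e43.shift 2 4), (rhc2ca75fa87128499.shift 1 4), (rhd4be413a411cad18.shift 2 0)] (by decide +kernel))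
noncomputable def rh4db0ddcc2cd35aa5 : CRef := CRef.mk (Pat.mk 0x600000000000000000000000000000000000000000 0x1c0000007c000000ff0000007f000003fe000000ff000001ff000000780000007800000008 8 10) 0 0 (step_sound _ 164 [(rh53d696369dca17e0.shift 1 2), (rh79c343fa5287595b.shift 0 2), (rh86e0ba5484e0f631.shift 1 2), (rha124190410a45f69.shift 0 2), (rha4d0430f397afbf2.shift 1 2), (rha6d8e85c45556266.shift 1 0), (rhc7d27a9c08b8203e.shift 0 2), (rhe943068a6159d7e7.shift 0 1), (rhfdc4c2f5df975593.shift 1 4)] (by decide +kernel))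
noncomputable def rh4078cc23688ff8bc : CRef := CRef.mk (Pat.mk 0x1800000018000000000000000000000000 0xc0000001c0000001f0000001f000000780000001e0000001800000008 8 7) 0 0 (step_sound _ 67 [(rh370af384ddd2082c.shift 1 0), (rhc8e6e99051961d3c.shift 0 1), (rhea7a1800d6f053bd.shift 3 0)] (by decide +kernel))
noncomputable def rh4915eee5c8e43165 : CRef := CRef.mk (Pat.mk 0x1800000018000000000000000000000000 0xe0000004f000000de000000ff000000ff0000002800000020 8 8) 0 0 (step_sound _ 101 [(rh79b3c29022acbdf3.shift 2 3), (rh99642e1388a506ef.shift 0 1), (rhef3032495df9d34e.shift 2 0)] (by decide +kernel))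
noncomputable def rhcd0bce8cfe16172a : CRef := CRef.mk (Pat.mk 0x1800000018000000000000000000000000 0x1c0000001c0000005f000000df000000ff000000ee0000002800000020 8 8) 0 0 (step_sound _ 101 [(rh4123a4df0eee3407.shift 0 1), (rh79b3c29022acbdf3.shift 2 3), (rhef3032495df9d34e.shift 2 0)] (by decide +kernel))
noncomputable def rhc8c6de1a6b38bfe2 : CRef := CRef.mk (Pat.mk 0x1800000018000000000000000000000000 0x180000001800000018000000180000007c0000000f0000001c0000001c 8 7) 0 0 (step_sound _ 67 [rh03832ef65c90988a, (rhe23694c5b7a04d19.shift 0 1), (rhea7a1800d6f053bd.shift 3 0)] (by decide +kernel))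
noncomputable def rhc6833d3a3c630fe4 : CRef := CRef.mk (Pat.mk 0x3000000010000000100000000000000000 0x280000003c000000ff0000007e0000003f0000003f000000ff000001f60000006600000020 8 9) 0 0 (step_sound _ 131 [(rh12b4fe866d47fa27.shift 0 1), (rh5d3fa09e2e98c6ef.shift 0 1), (rh6eaf48e83e2d8d2d.shift 0 1), (rha7bd6ce1e976fe89.shift 0 1), (rhed6838a9fc546401.shift 2 0)] (by decide +kernel))
noncomputable def rhe26a0cf944a9cba0 : CRef := CRef.mk (Pat.mk 0x18000000080000000800000000 0xc0000001c0000001f0000001f0000001e0000001f0000001c00000004 8 5) 0 0 (step_sound _ 131 [(rh0fd870c734e6c513.shift 2 0), (rh7893e6c45bc3445b.shift 2 0), (rh796994ed9655fcac.shift 0 1), rheb86adf23b0f4f57, (rhecbdadbfef2034a9.shift 2 0)] (by decide +kernel))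
noncomputable def rh7820999ded068a27 : CRef := CRef.mk (Pat.mk 0x18000000080000000800000000 0xc0000001c0000001f0000001f0000001e0000001f0000000c00000004 8 5) 0 0 (step_sound _ 131 [(rh0fd870c734e6c513.shift 2 0), rh64026281cb8af316, (rh7893e6c45bc3445b.shift 2 0), (rh796994ed9655fcac.shift 0 1), (rh8c5d8550c48c21f3.shift 2 0)] (by decide +kernel))
noncomputable def rha9caaee05f990922 : CRef := CRef.mk (Pat.mk 0x10000000100000001000000000 0x80000001800000018000000180000003c000000ff0000002e 8 8) 0 0 (step_sound _ 132 [(rh0fd870c734e6c513.shift 3 0), (rh29dd5384d80ecb1e.shift 3 0), (rhabedd109a9a37101.shift 3 0), rhfcb7367ea3b53ab7] (by decide +kernel))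
noncomputable def rhb1e660b69c9896bf : CRef := CRef.mk (Pat.mk 0xc00000004000000040000000000000000000000000 0x40000000e0000000f0000000f0000000f0000007df000003ff000007bf000001a8000000a8 8 11) 0 0 (step_sound _ 101 [(rh50942b64134ea264.shift 5 2), rh5342005629682516, (rh8c9519c7a9b5945d.shift 2 0), (rhde7d3bad6c48f14e.shift 5 2), (rhdeafcb75c3338aa3.shift 5 2)] (by decide +kernel))
noncomputable def rh9beb382f6e1ae931 : CRef := CRef.mk (Pat.mk 0xc0000000c000000000000000000000000 0x60000000f0000007e000000fc0000007f000000ff 8 8) 0 0 (step_sound _ 35 [rh0635872239207475, rh5d33e687d1d84743, (rhdd1b84382d19bcbb.shift 2 0)] (by decide +kernel))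
noncomputable def rh2a6c50334ab32aac : CRef := CRef.mk (Pat.mk 0x1800000018000000000000000000000000 0x80000000800000018000000ff000000ff0000003e0000003e 8 8) 0 0 (step_sound _ 68 [(rh1864e4c677b30864.shift 1 0), (rh3cb04db3dd2b6a55.shift 3 0), rh96331573c2b56f96] (by decide +kernel))
noncomputable def rh89a3c329a95d560f : CRef := CRef.mk (Pat.mk 0x1800000018000000000000000000000000 0x60000000600000046000000de000000ff000000ff0000002c0000002c 8 8) 0 0 (step_sound _ 101 [(rh79b3c29022acbdf3.shift 2 3), rha432b88664897657, (rhef3032495df9d34e.shift 2 0)] (by decide +kernel))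
noncomputable def rh20fb29457d0d3dc9 : CRef := CRef.mk (Pat.mk 0x1800000018000000000000000000000000 0x1c0000003c0000000f0000001c0000001f000000ff000000fc0000000c 8 8) 0 0 (step_sound _ 163 [rh1d6e62e92ca8bc21, (rh28152048bc8b598f.shift 0 2), (rh55a1f6c57a317ce6.shift 3 1)] (by decide +kernel))
noncomputable def rh255a6182130c5821 : CRef := CRef.mk (Pat.mk 0x1800000018000000000000000000000000 0x100000001000000018000000ff000000ff0000007c0000007c 8 8) 0 0 (step_sound _ 67 [rh560c420e5d44cfab, rhb2486157fd275639, (rhea7a1800d6f053bd.shift 3 0)] (by decide +kernel))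
noncomputable def rh26f65d3a714a8319 : CRef := CRef.mk (Pat.mk 0x3000000030000000000000000000000000 0x60000002e0000003e0000003e000000ff000000fe000000ff 8 8) 0 0 (step_sound _ 36 [(rh2c7fc7a7cc8a47be.shift 4 0), (rh5dc3aa472b02d75a.shift 2 0), rh859373829b2835c8, (rh861c0accd35fad1b.shift 2 0)] (by decide +kernel))
noncomputable def rh99f8f9c253f401b7 : CRef := CRef.mk (Pat.mk 0x18000000080000000800000000 0xc0000001c0000001f0000001f0000001c0000000e0000007c00000014 8 7) 0 0 (step_sound _ 131 [rh0339d4d9000d3804, (rh0fd870c734e6c513.shift 2 0), (rh55a026e6f690bbaf.shift 2 0), (rhbbd854dc2b305b83.shift 2 0), (rhc17b7d8fab3dfe57.shift 2 0)] (by decide +kernel))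
noncomputable def rhd441b8536cfdb1d0 : CRef := CRef.mk (Pat.mk 0x8000000180000000800000000 0x40000000c0000000c0000000c0000001e0000007f00000017 8 7) 0 0 (step_sound _ 131 [(rh0fd870c734e6c513.shift 2 0), rh2d4c6db56418c1ca, (rhd4b4beefcd67f51e.shift 3 0)] (by decide +kernel))
noncomputable def rh0158bce22b6246f6 : CRef := CRef.mk (Pat.mk 0x40000000c0000000400000000 0xa0000003e0000003e0000000f0000000c0000000e0000000a 8 6) 0 0 (step_sound _ 130 [rh0df9256ab14882c9, (rh762a1aeaf83c662a.shift 1 0), (rhd4b4beefcd67f51e.shift 2 0)] (by decide +kernel))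
noncomputable def rh33a232b191ae95b0 : CRef := CRef.mk (Pat.mk 0x8000000180000000800000000 0x8000000180000007c0000007f0000001e0000001c0000001800000010 8 7) 0 0 (step_sound _ 131 [(rh28622e1c1c9f5240.shift 0 1), (rhb7d8082d486d6fd1.shift 1 0), (rhd4b4beefcd67f51e.shift 3 0)] (by decide +kernel))
noncomputable def rhb255976656203730 : CRef := CRef.mk (Pat.mk 0x10000000300000001000000000 0x10000000380000003e0000007f0000003e000000380000001e00000008 8 7) 0 0 (step_sound _ 132 [(rh0fd870c734e6c513.shift 3 0), (rh28622e1c1c9f5240.shift 1 1), (rh580c6d6212ed1b86.shift 1 0), (rh762a1aeaf83c662a.shift 3 0), rha3f3b747b96279f4] (by decide +kernel))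
noncomputable def rh0cd62ef8c5aec2a4 : CRef := CRef.mk (Pat.mk 0x200000006000000020000000000000000000000000 0x140000005c000000dc0000007f0000007e000003fc000003dc0000005c00000014 8 10) 0 0 (step_sound _ 99 [(rh05d7af285f64bf90.shift 2 0), (rh595e4f2352bd8f21.shift 2 0), (rh8d6203d5f01bc4ba.shift 2 1), (rhbebce00a550005a3.shift 2 1), (rhd7d92add57995d04.shift 1 0), (rhedfffb7c7215a998.shift 2 0), rhf83783407c025194] (by decide +kernel))
noncomputable def rhc3c8d2f3a8875c8a : CRef := CRef.mk (Pat.mk 0x6000000020000000000000000000000000 0x24000000640000006c0000006c000001ff0000007c000001ff000001fc00000034 8 9) 0 0 (step_sound _ 100 [rh46937519e279bb59, (rh557b120f072744ca.shift 2 3), (rh69012675dfdb1a5b.shift 2 3), (rhd69c262cd33b94b3.shift 2 3), (rhe448e73cfeedb258.shift 4 0)] (by decide +kernel))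
noncomputable def rhad8e4706db7e90c0 : CRef := CRef.mk (Pat.mk 0x1800000008000000000000000000000000 0x40000000e0000001e0000001f0000007f0000001f0000003f0000001a00000012 8 7) 0 0 (step_sound _ 98 [rh3dc5ef6a931319ef, (rh416567466857d220.shift 0 1), (rh557b120f072744ca.shift 0 3), (rh69012675dfdb1a5b.shift 0 3), (rhd69c262cd33b94b3.shift 0 3)] (by decide +kernel))
noncomputable def rhb548828a5af292c5 : CRef := CRef.mk (Pat.mk 0x180000000800000000000000000000000000000000 0x40000001c0000001c0000001f0000007c0000001c000000f80000003c0000001c00000014 8 8) 0 0 (step_sound _ 99 [(rh20e5fbc1576fa10c.shift 0 2), (rhe3458ab40071103b.shift 3 2), (rhfa50cc73c689e7d7.shift 2 0), (rhffb8e5993241bf15.shift 2 0)] (by decide +kernel))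
noncomputable def rh39e217fb17d1e256 : CRef := CRef.mk (Pat.mk 0x6000000020000000000000000000000000 0x4000000040000007c0000007c000001ff0000007c0000003f0000003c00000014 8 9) 0 0 (step_sound _ 100 [rh46937519e279bb59, (rh557b120f072744ca.shift 2 3), (rh69012675dfdb1a5b.shift 2 3), (rha2b38c88b0700528.shift 2 0)] (by decide +kernel))
noncomputable def rhddbffcdfddd5a177 : CRef := CRef.mk (Pat.mk 0x6000000020000000000000000000000000 0x14000000340000007c0000006c000001ff0000007c000001ff000001fc00000034 8 9) 0 0 (step_sound _ 100 [(rh1ad6e10a44d72c90.shift 4 0), rh46937519e279bb59, (rh557b120f072744ca.shift 2 3), (rh69012675dfdb1a5b.shift 2 3), (rhd69c262cd33b94b3.shift 2 3)] (by decide +kernel))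
noncomputable def rh1da18205f97e66f1 : CRef := CRef.mk (Pat.mk 0xc0000000400000000000000000000000000000000 0x4000000060000000e0000000e0000000c0000000f0000003e0000003e0000000e0000000a 8 6) 0 0 (step_sound _ 98 [(rh15590a39afd9a120.shift 1 0), (rh98f8126573fe8bb5.shift 0 2), (rhe3458ab40071103b.shift 2 2), (rhe600e482e26d3d79.shift 1 0), (rhffb8e5993241bf15.shift 1 0)] (by decide +kernel))
noncomputable def rh8e5aad96394de3d4 : CRef := CRef.mk (Pat.mk 0xc0000000400000000000000000000000000000000 0x4000000060000000e0000000e0000000e0000000f0000003e0000003e0000000e0000000a 8 6) 0 0 (step_sound _ 98 [(rh15590a39afd9a120.shift 1 0), (rh947561ae8c5c3f87.shift 1 1), (rh98f8126573fe8bb5.shift 0 2), (rhe3458ab40071103b.shift 2 2), (rhfa50cc73c689e7d7.shift 1 0)] (by decide +kernel))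
noncomputable def rh34a9deeb03dac54e : CRef := CRef.mk (Pat.mk 0x180000000800000000000000000000000000000000 0x140000001c0000001f0000007c0000000f0000007c0000001c0000001c00000014 8 7) 0 0 (step_sound _ 130 [rh36a56128ddebb636, rh62a25d312dbae526, (rh66b9469794384386.shift 0 1), (rhd69c262cd33b94b3.shift 0 4)] (by decide +kernel))
noncomputable def rhb96ff74f629b6f91 : CRef := CRef.mk (Pat.mk 0x6000000020000000000000000000000000 0x14000000340000003c0000003c000001ff0000007c0000007f0000007c00000074 8 9) 0 0 (step_sound _ 100 [rh46937519e279bb59, (rh557b120f072744ca.shift 2 3), (rh69012675dfdb1a5b.shift 2 3), (rhce95caea34f6b8d4.shift 2 0), (rhd69c262cd33b94b3.shift 2 3)] (by decide +kernel))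
noncomputable def rh4316adb83fd8e009 : CRef := CRef.mk (Pat.mk 0x600000002000000000000000000000000000000000 0x4000000540000005c0000005e000001ff0000007f000000ff000001ff0000007c00000054 8 9) 0 0 (step_sound _ 131 [(rh0b786d94a31538a6.shift 2 4), (rh0d87bade8ff71785.shift 0 1), rh328abea4abae990e, (rha60af7b7eca27efb.shift 2 4), rheb9182f90ce68dcc, (rhedf3a755fe019897.shift 2 4)] (by decide +kernel))
noncomputable def rhd4aaba6ab9103f3a : CRef := CRef.mk (Pat.mk 0x1800000008000000000000000000000000 0x80000001c0000007d0000007f0000001f000000ff0000001f000000370000001700000005 8 8) 0 0 (step_sound _ 163 [rh50871771a03f1586, (rhc7c8b1328eb6c921.shift 0 2), (rhc822552a95a01686.shift 1 2), (rhd70b3489660c414d.shift 0 2), rhe75d8293220c92ac] (by decide +kernel))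
noncomputable def rh561ef80431b75c5a : CRef := CRef.mk (Pat.mk 0x6000000000000000000000000000000000 0x40000003c0000003c0000003c0000007f000001fe000003ff000000380000003800000028 8 10) 0 0 (step_sound _ 132 [(rh0d566b0b77d99e55.shift 1 1), (rh43e71b662c4d279d.shift 0 3), (rh5fcb4307eb0a356b.shift 2 3), (rh7f0f14c54a159f24.shift 0 3), (rh8d9a39cb975caaed.shift 1 0), (rh9c76564284975977.shift 0 1), (rhb54390edcf8a95c3.shift 1 3), (rhbac2be4f0e360e43.shift 1 3), (rhe168c73606d5703c.shift 2 3), (rhf51788ddb0a95f0c.shift 1 3)] (by decide +kernel))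
noncomputable def rha6075ef1aaeb7c07 : CRef := CRef.mk (Pat.mk 0x300000000000000000000000000000000000000000 0x280000003c0000003c0000003f000001ff000001fe000001ff0000007c0000003c00000028 8 9) 0 0 (step_sound _ 132 [(rh021514d1cdae045e.shift 1 1), (rh04c6542796f914f3.shift 1 1), (rh12ecaf8ac021f600.shift 0 1), (rh50333a6fca407cc8.shift 1 0), (rh7c174a9e6fdf0c50.shift 1 0), (rh873fdb609183b0fa.shift 1 1), (rhafeb99370194db6d.shift 0 1), (rhc69b5080e13e011d.shift 1 1), (rhdb76c884285a334a.shift 1 1), (rhf3bf0cf5a2c88f83.shift 0 1), (rhfa58273e9f0df47c.shift 0 1)] (by decide +kernel))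
noncomputable def rh341d07825db058f4 : CRef := CRef.mk (Pat.mk 0x600000000000000000000000000000000000000000 0x38000000380000007f000001fe000003ff0000003c0000003c0000003c0000001c 8 10) 0 0 (step_sound _ 164 [(rh43e71b662c4d279d.shift 0 4), rh5a8ea9fab3add735, (rh5fcb4307eb0a356b.shift 2 4), (rh7f0f14c54a159f24.shift 0 4), (rhb54390edcf8a95c3.shift 1 4), (rhbac2be4f0e360e43.shift 1 4), (rhd06a5377e7b0757a.shift 1 0), (rhd4be413a411cad18.shift 1 0), (rhe168c73606d5703c.shift 2 4), (rhf51788ddb0a95f0c.shift 1 4)] (by decide +kernel))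
noncomputable def rh91cabbea35ebf750 : CRef := CRef.mk (Pat.mk 0x600000000000000000000000000000000000000000 0x38000000380000073f000003fe000007ff000001ff0000007c0000007c0000003c 8 11) 0 0 (step_sound _ 164 [(rh46a335798a99727d.shift 1 4), (rh4cb34cfd870830d0.shift 1 2), rh8066c0e83aa7f0a3, (rh9f1f2c6242cf4dd0.shift 0 4), (rha4651459421a8b3a.shift 1 4), (rha7ddab351b460066.shift 1 4), (rhbf3c5fa939ef4b58.shift 1 0), (rhd06a5377e7b0757a.shift 1 0), (rhe5f5ad099c3e3bc3.shift 2 4)] (by decide +kernel))
noncomputable def rhdc4fb9aa7add82aa : CRef := CRef.mk (Pat.mk 0x6000000000000000000000000000000000 0x40000003c0000003c0000003c0000007f000001fe000003ff000000380000003800000028 8 10) 0 0 (step_sound _ 132 [(rh0d566b0b77d99e55.shift 1 1), (rh43e71b662c4d279d.shift 0 3), (rh5fcb4307eb0a356b.shift 2 3), (rh7f0f14c54a159f24.shift 0 3), (rhb54390edcf8a95c3.shift 1 3), (rhbac2be4f0e360e43.shift 1 3), (rhdcbc051562065deb.shift 1 0), (rhe168c73606d5703c.shift 2 3), (rhf51788ddb0a95f0c.shift 1 3)] (by decide +kernel))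
noncomputable def rhcfc66247a8329474 : CRef := CRef.mk (Pat.mk 0x300000000000000000000000000000000000000000 0x2c0000003c0000003f000001ff000001ff000001ff0000007c0000007c00000028 8 9) 0 0 (step_sound _ 132 [(rh04c6542796f914f3.shift 1 1), (rh2207113fd016e672.shift 1 0), (rh39d2766014879dba.shift 1 0), (rh39eec77277c2bed9.shift 0 1), (rh80430a02d8f148a2.shift 0 1), (rha570fd22969f7e9b.shift 1 1), (rhaa066b7fc432efd5.shift 1 0), (rhafd345013ccfb3dd.shift 0 1), (rhef652490d65c3bf6.shift 0 1)] (by decide +kernel))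
noncomputable def rh39ed9f16237b2668 : CRef := CRef.mk (Pat.mk 0x600000000000000000000000000000000000000000 0x280000003800000038000000180000007f000001fe000003ff0000003c0000003c0000003c00000014 8 10) 0 0 (step_sound _ 164 [rh042987b9485d8d4d, (rh3822c38cab36dd11.shift 1 1), (rh43e71b662c4d279d.shift 0 4), (rh5fcb4307eb0a356b.shift 2 4), (rh72cb1a6f788f4337.shift 1 0), (rh7c7d6aa199f9c04e.shift 2 4), (rh7f0f14c54a159f24.shift 0 4), (rhb54390edcf8a95c3.shift 1 4), (rhe168c73606d5703c.shift 2 4), (rhf51788ddb0a95f0c.shift 1 4)] (by decide +kernel))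
noncomputable def rh014a3ce9f1bfe302 : CRef := CRef.mk (Pat.mk 0x600000000000000000000000000000000000000000 0x40000003c0000003c0000003c0000007f000001fe000003ff00000018000000380000003800000028 8 10) 0 0 (step_sound _ 164 [(rh43e71b662c4d279d.shift 0 4), (rh5fcb4307eb0a356b.shift 2 4), (rh7c7d6aa199f9c04e.shift 2 4), (rh7f0f14c54a159f24.shift 0 4), (rh9c76564284975977.shift 0 2), (rhaf549b9e23abcd75.shift 1 2), (rhb54390edcf8a95c3.shift 1 4), (rhbac2be4f0e360e43.shift 1 4), (rhe168c73606d5703c.shift 2 4), (rhe2edf9b2f1468226.shift 1 0), (rhf51788ddb0a95f0c.shift 1 4)] (by decide +kernel))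
noncomputable def rh63c567ae02095111 : CRef := CRef.mk (Pat.mk 0x600000000000000000000000000000000000000000 0x80000003800000038000000380000007f000001fe000003ff0000003c0000001c0000001c00000014 8 10) 0 0 (step_sound _ 164 [rh042987b9485d8d4d, (rh43e71b662c4d279d.shift 0 4), (rh5fcb4307eb0a356b.shift 2 4), (rh72cb1a6f788f4337.shift 1 0), (rh77c763485aa3bb49.shift 1 1), (rh7c7d6aa199f9c04e.shift 2 4), (rh7f0f14c54a159f24.shift 0 4), (rhb54390edcf8a95c3.shift 1 4), (rhbac2be4f0e360e43.shift 1 4), (rhe168c73606d5703c.shift 2 4), (rhf51788ddb0a95f0c.shift 1 4)] (by decide +kernel))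
noncomputable def rh9e6c6cf8a817c1dc : CRef := CRef.mk (Pat.mk 0x600000000000000000000000000000000000000000 0x2800000038000000380000007f000001fe000003ff0000003c0000003c0000001c00000014 8 10) 0 0 (step_sound _ 164 [(rh2220d4d75575b2de.shift 1 1), (rh43e71b662c4d279d.shift 0 4), (rh5fcb4307eb0a356b.shift 2 4), (rh7f0f14c54a159f24.shift 0 4), (rhb54390edcf8a95c3.shift 1 4), (rhbac2be4f0e360e43.shift 1 4), (rhd4be413a411cad18.shift 1 0), (rhe168c73606d5703c.shift 2 4), (rhf51788ddb0a95f0c.shift 1 4)] (by decide +kernel))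
noncomputable def rh9e22ff90ec84213e : CRef := CRef.mk (Pat.mk 0x300000000000000000000000000000000000000000 0x200000003c0000003f000001ff000001ff000003ff0000007c0000007c00000028 8 10) 0 0 (step_sound _ 132 [(rh2cce5ce87975063a.shift 1 0), (rh3707f6ffe6f294b5.shift 1 1), (rh39eec77277c2bed9.shift 0 1), (rh569bfafa8b2638c3.shift 1 0), (rh6f6738d6f20d16bb.shift 1 0), (rha79e1ebb5f58238a.shift 0 1), (rhb53334b4ef59e844.shift 0 1), (rhbc7f84fc5b457273.shift 1 1), (rhbec745bfdbb40f4f.shift 1 1), (rhd29fe3dcd5409f20.shift 1 0)] (by decide +kernel))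
noncomputable def rh2e678656302cb861 : CRef := CRef.mk (Pat.mk 0x7000000000 0x7e000000fe000001df 8 9) 0 0 (step_sound _ 35 [(rh2cc7d62e70c02209.shift 1 0), (rh3947d1dfff0afc6c.shift 2 0), (rh8db7f7558b75b2b1.shift 2 0), rhed14e3bf40a8a7c8] (by decide +kernel))
noncomputable def rh406a1501c158396f : CRef := CRef.mk (Pat.mk 0x1c000000000000000000000000 0x8000001df000000ff000001fc0000001000000010 8 9) 0 0 (step_sound _ 101 [(rh0f31e006a2e49835.shift 2 2), (rh2ba551de881ca4cd.shift 0 2), rh579d8a7da199f92b, (rhecc53ecee741398f.shift 1 2)] (by decide +kernel))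
noncomputable def rh30fbb0fb487535bf : CRef := CRef.mk (Pat.mk 0x7000000000 0x777000003fe000003fe 8 11) 0 0 (step_sound _ 39 [(rh41472d7e9c177dac.shift 3 0), (rh59bbfab979e2383b.shift 4 0), rh70222f77ac3d1380, (rh8195a2d7794c7cd2.shift 2 0), (rhadd270ec58c4d3ab.shift 1 0)] (by decide +kernel))
noncomputable def rh70188dd07649dd61 : CRef := CRef.mk (Pat.mk 0x70000000000000000000000000 0x280000006e000001fe0000007f0000001000000010 8 9) 0 0 (step_sound _ 99 [(rh219021521bf409aa.shift 0 2), (rh2cc7d62e70c02209.shift 1 2), (rhafa5a7051d37b143.shift 2 0), (rhb2915e6db22c4661.shift 1 0), (rhe55b0dbbf3210617.shift 1 2)] (by decide +kernel))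
noncomputable def rh6f52c0c31b35ae2f : CRef := CRef.mk (Pat.mk 0x3800000000000000000000000000000000 0x40000000f0000003e0000007f0000000e0000000e00000004 8 7) 0 0 (step_sound _ 130 [(rh2ba551de881ca4cd.shift 0 3), (rh2cc7d62e70c02209.shift 0 3), (rh8195a2d7794c7cd2.shift 0 3), (rhcbe70a0c5ae6341d.shift 1 0)] (by decide +kernel))
noncomputable def rhf7f2e2d07d0fe416 : CRef := CRef.mk (Pat.mk 0x380000000000000000000000000000000000000000 0x10000000140000003f000000f8000001ff000000fc0000003c0000001c00000014 8 9) 0 0 (step_sound _ 131 [rh30df0d2f752cd34a, (rh92fd3f4a7f0db7f1.shift 2 4), (rhf0f55c4504412200.shift 0 4), rhfb7f42ddb0e765f4] (by decide +kernel))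
noncomputable def rh6ce3b0443ca07e9e : CRef := CRef.mk (Pat.mk 0x60000000200000002000000000 0x400000006000000060000003f0000003fe0000007e0000005f 8 10) 0 0 (step_sound _ 133 [(rh402d223d12d7377d.shift 4 0), (rh426f403fa814630c.shift 5 0), rh7ce181f10f94c7a4, (rhabedd109a9a37101.shift 4 0)] (by decide +kernel))
noncomputable def rh7493a5946e81cdc8 : CRef := CRef.mk (Pat.mk 0x180000000c000000000000000000000000 0x2000000020000000b0000001f000000ff000000f70000001000000010 8 8) 0 0 (step_sound _ 97 [(rh53b3c253cb0c65f4.shift 0 3), rhec03fd3ffac033d0] (by decide +kernel))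
noncomputable def rhc3e348198b42d8bc : CRef := CRef.mk (Pat.mk 0xc0000000600000000000000000000000000000000 0x8000000080000000c0000003e000000fe0000003f0000001c0000001800000008 8 8) 0 0 (step_sound _ 164 [(rh18965a982d73c794.shift 1 4), rhd60921b0f15f85f5] (by decide +kernel))
noncomputable def rh28d77a0dd292c82d : CRef := CRef.mk (Pat.mk 0x180000000c00000000000000000000000000000000 0x40000001c0000001c000000180000001c0000001f000000780000001c0000001c00000004 8 7) 0 0 (step_sound _ 129 [(rh1ccbeb51f228a2b4.shift 1 0), (rh53b3c253cb0c65f4.shift 0 4)] (by decide +kernel))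
noncomputable def rhdada2c0c28b6128e : CRef := CRef.mk (Pat.mk 0x180000000c000000000000000000000000 0x40000001c0000001c000000180000007c0000003c000000780000003f0000001c 8 7) 0 0 (step_sound _ 133 [rh04ce3f190a3b10bb, (rh18965a982d73c794.shift 2 3)] (by decide +kernel))
noncomputable def rh96bc7975ac536380 : CRef := CRef.mk (Pat.mk 0xc0000000400000000000000000000000000000000 0x80000000c0000000c0000000c0000000f0000003e0000003e0000000e0000000a 8 6) 0 0 (step_sound _ 98 [(rh56342a3a468fc3b3.shift 0 2), (rhb44fbf6bd2c6418e.shift 1 0), (rhe3458ab40071103b.shift 2 2), (rhffb8e5993241bf15.shift 1 0)] (by decide +kernel))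
noncomputable def rh894ff6a844e63b90 : CRef := CRef.mk (Pat.mk 0x180000000c000000000000000000000000 0x2000000130000001f000000ff000000ff0000003c00000038 8 8) 0 0 (step_sound _ 97 [rh132f81b39f747029, (rh53b3c253cb0c65f4.shift 0 3)] (by decide +kernel))
noncomputable def rh3a9f74b96e910be5 : CRef := CRef.mk (Pat.mk 0x300000001800000000000000000000000000000000 0x20000000f8000001f8000000fc000000ff000000fe000000a8 8 9) 0 0 (step_sound _ 100 [(rh15590a39afd9a120.shift 3 0), (rh953e410617738e80.shift 3 0), (rh9bb5c7e5c08d4582.shift 3 1), rhb32eca7dd3176170, (rhcf12b0107988b5bd.shift 3 0)] (by decide +kernel))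
noncomputable def rh9b6fff83fabad7bf : CRef := CRef.mk (Pat.mk 0x1800000018000000000000000000000000 0x10000000100000001f000000ff000000fe0000002000000020 8 8) 0 0 (step_sound _ 101 [rh487b1afaa0f1e283, (rh6e18dbbfa959deb2.shift 1 2), (rh79b3c29022acbdf3.shift 2 3)] (by decide +kernel))
noncomputable def rh0646a5919108f8b3 : CRef := CRef.mk (Pat.mk 0xe00000002000000000000000000000000000000000 0x200000002e000000fe000007ff000003fc000003f0000003f000000070 8 11) 0 0 (step_sound _ 135 [(rh370193d30872e9cc.shift 3 1), (rhc16e6632be8a1756.shift 0 4), (rhc21a95c499b3efdb.shift 4 4), (rhedd916ba74d9e899.shift 2 0)] (by decide +kernel))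
noncomputable def rhc18ea53fbd7c28c0 : CRef := CRef.mk (Pat.mk 0x6000000020000000000000000000000000 0x1000000076e000003fe000007ff000001980000009000000090 8 11) 0 0 (step_sound _ 135 [rh011c42e26800e7cc, (rh2820ca9a6c4f41b4.shift 2 3), (rhd1af12ee1a1e7b6b.shift 4 1), (rhf0f55c4504412200.shift 2 3)] (by decide +kernel))
noncomputable def rh3b8df6439b08ed7c : CRef := CRef.mk (Pat.mk 0x18000000080000000800000000 0x100000001c0000001c0000001c000000180000003c000001f8000000ff000001f4 8 9) 0 0 (step_sound _ 131 [(rh3235ed9a5627d49b.shift 2 0), (rh426f403fa814630c.shift 3 0), (rh7893e6c45bc3445b.shift 2 0), (rh7fb268fa9e89f435.shift 2 0), rhb20dd801f506db0f] (by decide +kernel))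
noncomputable def rh44039f76947ebcc9 : CRef := CRef.mk (Pat.mk 0x18000000080000000000000000000000000000000000000000 0x100000001c0000001c0000001c000000180000007c000000ef0000007e000000fc0000001c0000001c00000014 8 8) 0 0 (step_sound _ 131 [(rh525b31bdeb52ebe7.shift 0 1), (rh53c58067ff473573.shift 0 3), (rh5c13e692aae089b9.shift 2 0), (rhf5cfe77930248dc2.shift 2 0), (rhffb8e5993241bf15.shift 2 1)] (by decide +kernel))
noncomputable def rh7520844b95c2aa48 : CRef := CRef.mk (Pat.mk 0x180000000000000008000000000000000000000000 0x140000001c0000001c000000780000003f0000003f0000001c0000000c00000004 8 7) 0 0 (step_sound _ 131 [(rh15590a39afd9a120.shift 2 0), (rh162aa01abd884e4f.shift 0 2), (rh215e11e099257d75.shift 3 2), (rhe3458ab40071103b.shift 3 2)] (by decide +kernel))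
noncomputable def rh2219d0dd4e11c49a : CRef := CRef.mk (Pat.mk 0x180000000000000008000000000000000000000000 0x10000000140000001f000000780000003f0000007f0000007c0000001c00000014 8 7) 0 0 (step_sound _ 131 [(rh215e11e099257d75.shift 3 2), (rh3820f35d5e705bec.shift 3 0), (rh7a1df22be2ece635.shift 1 0), (rhe3458ab40071103b.shift 3 2), (rheb97090bf9336179.shift 0 2)] (by decide +kernel))
noncomputable def rh3cc544ad78bbf98c : CRef := CRef.mk (Pat.mk 0x180000000000000008000000000000000000000000 0x40000001c0000001c0000001f00000078000000180000001e0000007c0000001c00000014 8 7) 0 0 (step_sound _ 131 [(rh215e11e099257d75.shift 3 2), (rh3820f35d5e705bec.shift 3 0), (rh7a1df22be2ece635.shift 1 0), (rh9acfa16898b19aeb.shift 0 2), (rhe3458ab40071103b.shift 3 2)] (by decide +kernel))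
noncomputable def rh22af712fe1842032 : CRef := CRef.mk (Pat.mk 0x18000000080000000800000000 0x40000001c0000001c0000001f000000780000001f0000001c00000010 8 7) 0 0 (step_sound _ 131 [(rh29dd5384d80ecb1e.shift 2 0), rh7e173f250a3b8ec3, (rh8a6cff9a235067f2.shift 2 0), (rhdb019b0e908810fb.shift 0 1)] (by decide +kernel))
noncomputable def rhdcac1c7ef7fcb2a7 : CRef := CRef.mk (Pat.mk 0x1800000008000000080000000000000000 0x8000000080000000c000000f8000000ff000000ff000000f800000078 8 8) 0 0 (step_sound _ 100 [rh1ddc4828ce74b95c, rh2cb3f547b568697d, (rh7a5331775de4f99e.shift 2 0), rh9ad343c4d6dc7618, rh9f7d198b1d663d7d, rhd1b3384cc6fef0c7] (by decide +kernel))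
noncomputable def rhe32ea628dafb64f6 : CRef := CRef.mk (Pat.mk 0xc0000000000000004000000000000000000000000 0xa0000000e0000000e0000000c0000000f0000003e0000003e0000000e00000002 8 6) 0 0 (step_sound _ 130 [(rh00f4d712d88729c0.shift 1 1), (rh15590a39afd9a120.shift 1 0), (rh215e11e099257d75.shift 2 2), (rhb1e90dd966072bd3.shift 0 2), (rhe3458ab40071103b.shift 2 2)] (by decide +kernel))
noncomputable def rhf6825203f74441b7 : CRef := CRef.mk (Pat.mk 0x180000000000000008000000000000000000000000 0x40000001c0000001c0000001f000000780000001c000000f80000003f0000001c00000014 8 8) 0 0 (step_sound _ 131 [(rh03b31d5787aba889.shift 0 2), (rh15590a39afd9a120.shift 2 0), (rh215e11e099257d75.shift 3 2), rh608a2540e141ac1e, (rhe3458ab40071103b.shift 3 2)] (by decide +kernel))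
noncomputable def rh8a66c9bf3e153cf7 : CRef := CRef.mk (Pat.mk 0x6000000020000000200000000000000000000000000000000 0x300000003000000030000001e000000070000000700000003000000070000000700000005 8 5) 0 0 (step_sound _ 225 [(rh0fd870c734e6c513.shift 0 3), rh278648158adb4f7f, (rh2f6b95e004f68a41.shift 0 2), (rhec1e3f6ff489986c.shift 0 4)] (by decide +kernel))
noncomputable def rh94080fe4a6537ec9 : CRef := CRef.mk (Pat.mk 0x180000000000000008000000000000000000000000 0x40000001c0000001c0000001f000000780000001f0000000e0000007c0000001c00000014 8 7) 0 0 (step_sound _ 131 [(rh15590a39afd9a120.shift 2 0), (rh215e11e099257d75.shift 3 2), (rh46f6942e3817930a.shift 0 2), (rh7a1df22be2ece635.shift 1 0), (rhe3458ab40071103b.shift 3 2)] (by decide +kernel))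
noncomputable def rh44ad7e0a1b06d797 : CRef := CRef.mk (Pat.mk 0x200000002000000020000000000000000000000000 0x20000000200000003f000001fe000001fe0000005000000050 8 9) 0 0 (step_sound _ 68 [(rh3743dbe66b959104.shift 4 0), (rh544d3caba1e1e2bb.shift 4 0), rh611f8d3bdb67f5c0, (rhac4b4763407a46df.shift 2 1)] (by decide +kernel))
noncomputable def rhce83e8eb8b5b640c : CRef := CRef.mk (Pat.mk 0x18000000080000000800000000 0xc0000001c0000001c0000001f000000780000000c0000001c00000014 8 7) 0 0 (step_sound _ 131 [(rh0fd870c734e6c513.shift 2 0), (rh55a026e6f690bbaf.shift 2 0), (rhbbd854dc2b305b83.shift 2 0), (rhdb019b0e908810fb.shift 0 1)] (by decide +kernel))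
noncomputable def rha7a3353dd449afce : CRef := CRef.mk (Pat.mk 0x1800000000000000180000000000000000000000000000000000000000 0x1000000018000001ff000000fe000001ef0000007c0000003c0000001c00000014 8 9) 0 0 (step_sound _ 131 [(rh626cc564c4f98993.shift 0 2), (rh6477de21740f2b27.shift 0 3), (rh7d7eaefe27cdd7b0.shift 3 4), rha2ca7201014288bd] (by decide +kernel))
noncomputable def rh14fe1bfe879a0918 : CRef := CRef.mk (Pat.mk 0x18000000000000001800000000000000000000000000000000 0x18000001ff000000fe000001ff0000001e0000001e0000000a 8 9) 0 0 (step_sound _ 133 [(rh202515cb70658660.shift 2 1), (rh9a1e4d9e72e220ad.shift 0 3), rhabacfeab20f64ac8, (rhc228219a91822829.shift 1 3), (rhea4f72bc07c0d32a.shift 1 3)] (by decide +kernel))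
noncomputable def rhf2c2b27fc7df34d4 : CRef := CRef.mk (Pat.mk 0x180000000000000018000000000000000000000000 0x40000001d0000001f8000003f7000001fe000001ff0000007800000078 8 10) 0 0 (step_sound _ 132 [(rh281c6819542c66e6.shift 3 0), (rh28b534a87c3a90d3.shift 1 0), rhd90235492cc9b633] (by decide +kernel))
noncomputable def rhf1ac748a18bfa8d2 : CRef := CRef.mk (Pat.mk 0x1800000000000000180000000000000000000000000000000000000000 0xc0000000d000000078000001ef000000fe000001ff0000007c0000007c0000001c00000010 8 9) 0 0 (step_sound _ 195 [(rh4474a9776b6b97fe.shift 0 2), (rh7cd2707a5d73cd27.shift 0 2), (rh8da800ba2dfc5467.shift 0 3), (rhf8a5cc8781f6c852.shift 2 0), (rhffb8e5993241bf15.shift 2 2)] (by decide +kernel))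
noncomputable def rh66f92caee64592a1 : CRef := CRef.mk (Pat.mk 0x180000000000000018000000000000000000000000 0x80000000d0000000f8000001ff000000fe000001f70000006000000060 8 9) 0 0 (step_sound _ 101 [(rh437a1f3e1c139520.shift 0 2), (rh4ee27cb9760629df.shift 2 0), (rh7b3b5f331ea7dfb9.shift 2 0), (rha19a79455b550cf8.shift 2 0), (rhbae210e77abaa4ad.shift 0 2), (rhc228219a91822829.shift 1 2)] (by decide +kernel))
noncomputable def rh2c6fb08033da33a6 : CRef := CRef.mk (Pat.mk 0x300000000000000030000000000000000000000000 0x1000000010000000f0000000fe000000ff000000ef0000002800000020 8 8) 0 0 (step_sound _ 132 [(rh046c5eb18e55a239.shift 4 0), (rh1ec320c051db4640.shift 2 2), (rh8a18e17bd365f415.shift 0 1), (rhcb42a52d664e7722.shift 0 1)] (by decide +kernel))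
noncomputable def rh6d1a4543db48b2ff : CRef := CRef.mk (Pat.mk 0x3000000000000000300000000000000000 0x1800000038000000380000003e000000f0000000fe000001ff000000cf00000008 8 9) 0 0 (step_sound _ 100 [(rh24dcdf871b6533d4.shift 2 1), (rh37239252341e46cd.shift 1 1), (rh5e7bc4f3e8ef804f.shift 1 1), (rh86d13786bae4789b.shift 1 1), rhcb42a52d664e7722, (rhd7f2e624159c4fca.shift 1 1), (rhdf97703274af9506.shift 1 0)] (by decide +kernel))
noncomputable def rh1c25d78617bffbe5 : CRef := CRef.mk (Pat.mk 0x180000000000000018000000000000000000000000 0xcc000000df00000078000001ef000000fe000001f70000007400000074 8 9) 0 0 (step_sound _ 131 [(rh1ec320c051db4640.shift 1 2), rh4474a9776b6b97fe, (rh86d13786bae4789b.shift 0 2), (rhe913c7fd1e8ae049.shift 0 2), (rhf1d00897e5f3c20d.shift 0 2)] (by decide +kernel))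
noncomputable def rhcc38da417ca6994e : CRef := CRef.mk (Pat.mk 0x180000000000000018000000000000000000000000 0x90000000d0000000f8000001ff000000fe000001f70000006000000060 8 9) 0 0 (step_sound _ 101 [(rh423b4627ea62fd47.shift 2 0), (rh437a1f3e1c139520.shift 0 2), (rh4ee27cb9760629df.shift 2 0), (rh7b3b5f331ea7dfb9.shift 2 0), (rhbae210e77abaa4ad.shift 0 2), (rhc228219a91822829.shift 1 2), rhff4246cd85372db2] (by decide +kernel))
noncomputable def rh353c86b1832e6b82 : CRef := CRef.mk (Pat.mk 0x180000000000000018000000000000000000000000 0x8000000080000001800000018000003f7000001fe000001f70000002000000020 8 10) 0 0 (step_sound _ 132 [(rh74f054841498f34f.shift 1 1), (rhb1a251d9bff81766.shift 3 2), rhd90235492cc9b633] (by decide +kernel))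
noncomputable def rh7d6a465d590a4692 : CRef := CRef.mk (Pat.mk 0xc000000000000000c000000000000000000000000 0x40000001c0000001c0000001c0000000c0000001c000000380000003f0000000f0000000c0000000c 8 6) 0 0 (step_sound _ 131 [rh04f9d0d591a316cb, (rh1ae9d52bebe53159.shift 2 2), (rh281c6819542c66e6.shift 2 0), (rhb1a251d9bff81766.shift 2 2)] (by decide +kernel))
noncomputable def rh941266a0188a9cba : CRef := CRef.mk (Pat.mk 0x30000000000000003000000000000000000000000 0x100000007000000070000000700000003000000030000000200000003000000070000000700000005 8 3) 0 0 (step_sound _ 129 [(rh1ae9d52bebe53159.shift 0 2), rh281c6819542c66e6, (rhb1a251d9bff81766.shift 0 2), rhe181d564227a886f] (by decide +kernel))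
noncomputable def rhaa32a8b5e92ce90b : CRef := CRef.mk (Pat.mk 0x600000000000000060000000000000000000000000 0x20000000e0000000e0000000e00000006800000068000003de000001ff000003bf000000b0000000b0 8 10) 0 0 (step_sound _ 100 [(rh2c5d2828c3631e87.shift 1 0), (rh42fb1047679924fb.shift 3 0), (rh4dfcb8fe7303f21b.shift 2 2), rh89f8bbeb86d8b6fc, (rh9b2ce182ba2d37b2.shift 2 2), (rhb65912492ce63709.shift 3 2)] (by decide +kernel))
noncomputable def rh8666682d10d8721e : CRef := CRef.mk (Pat.mk 0x3000000000000000300000000000000000000000000000000000000000 0x8000000180000003b8000001f0000007ce000003fe000007ff000000e0000000e0000000e000000020 8 11) 0 0 (step_sound _ 166 [(rh29e7cb2914d3b0d3.shift 1 4), (rh2afcd8f669aba94b.shift 1 0), (rh4ddd26eee14d9e96.shift 0 4), (rh4efe4dcf2a5e249d.shift 2 2), (rh6cc3e842a64d7d1e.shift 3 2), (rhb1a07012234c6151.shift 1 4), (rhce62f427f4813e3a.shift 1 4), (rhea4f72bc07c0d32a.shift 2 4)] (by decide +kernel))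
noncomputable def rh9e96e88217ec0616 : CRef := CRef.mk (Pat.mk 0x1e000000000000000000000000 0x50000000700000007000000370000001e000000370000000600000006 8 6) 0 0 (step_sound _ 65 [rh4d874eea257cbec4, (rheb0810cc63b001d8.shift 0 2)] (by decide +kernel))
noncomputable def rh31cb4d3f054800db : CRef := CRef.mk (Pat.mk 0x38000000080000000000000000 0x10000000100000001f0000003f0000007f0000007800000028 8 7) 0 0 (step_sound _ 98 [(rh0a31c7f562fb8d12.shift 0 2), (rh2cc7d62e70c02209.shift 0 2), (rh774060543615f181.shift 1 0), (rh882a3e8c7bd7762b.shift 0 2)] (by decide +kernel))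
noncomputable def rh57328f872dbd2b40 : CRef := CRef.mk (Pat.mk 0x3800000008000000000000000000000000 0x40000001c0000001c000000180000003c0000003f000000780000003f0000001c 8 7) 0 0 (step_sound _ 98 [(rh1ed7a3503fa50fc8.shift 0 3), rh3cf77b1fd2df82b2, (rheea1a90336e79c71.shift 0 3)] (by decide +kernel))
noncomputable def rh16591c84a7f96040 : CRef := CRef.mk (Pat.mk 0xe000000020000000000000000000000000 0x74000001fc000001fe0000007f000000fe000003fe000003cc000000c400000084 8 10) 0 0 (step_sound _ 165 [(rh33d0eaa3a6be55c8.shift 2 0), (rh6760e0d912a23b56.shift 2 0), (rha42e9fed111729e6.shift 0 3), (rhb7a796a99591a781.shift 3 2), (rhcc48a1d48540c986.shift 3 0)] (by decide +kernel))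
noncomputable def rh7ef715bc1346fc36 : CRef := CRef.mk (Pat.mk 0x6000000000000000000000000000000000 0x2800000078000000f8000003f8000001fe0000077e000007ff000007fe000000780000006800000008 8 11) 0 0 (step_sound _ 164 [(rh189e5e49497f23a0.shift 1 0), (rh71d03b72143d465e.shift 0 1), (rh862a254dd4c0b25f.shift 2 1), (rh8f68f4b775e4dc9a.shift 1 1), (rhb10b5cd9b1017ea9.shift 1 4)] (by decide +kernel))
noncomputable def rh2aa87b9e474daad2 : CRef := CRef.mk (Pat.mk 0x6000000000000000000000000000000000 0x40000003c0000003c0000003c0000077f000003fe000007ff000000380000003800000008 8 11) 0 0 (step_sound _ 132 [(rh0d566b0b77d99e55.shift 1 1), (rh195f3e9c61b1f7f0.shift 1 0), (rh43e71b662c4d279d.shift 0 3), (rh4d36f0b567eaf4cc.shift 0 1), (rhb54390edcf8a95c3.shift 1 3), (rhbac2be4f0e360e43.shift 1 3), (rhe07fe9d4f1a0e3a5.shift 2 3), (rhe168c73606d5703c.shift 2 3), (rhf51788ddb0a95f0c.shift 1 3)] (by decide +kernel))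
noncomputable def rhc58a693bf600820a : CRef := CRef.mk (Pat.mk 0x600000000000000000000000000000000000000000 0x40000001c0000003c0000003c0000007f000001fe000003ff00000038000000380000003800000008 8 10) 0 0 (step_sound _ 164 [(rh0d566b0b77d99e55.shift 1 2), (rh43e71b662c4d279d.shift 0 4), (rh5fcb4307eb0a356b.shift 2 4), (rh76d751e34ed0a008.shift 1 0), (rh7f0f14c54a159f24.shift 0 4), (rh9c76564284975977.shift 0 2), (rhb54390edcf8a95c3.shift 1 4), (rhbac2be4f0e360e43.shift 1 4), (rhe168c73606d5703c.shift 2 4), (rhf51788ddb0a95f0c.shift 1 4)] (by decide +kernel))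
noncomputable def rh5894ba9087399099 : CRef := CRef.mk (Pat.mk 0x300000000000000000000000000000000000000000 0x380000003c0000003f000001ff000001fe000003ff0000007c0000007c00000028 8 10) 0 0 (step_sound _ 132 [(rh04c6542796f914f3.shift 1 1), (rh2ed495be23ba7219.shift 1 1), (rh3707f6ffe6f294b5.shift 1 1), (rh39eec77277c2bed9.shift 0 1), (rh5caefc9bf2d3205e.shift 1 0), (rh6e659b12590c599d.shift 1 0), (rh842febcdce799126.shift 1 1), (rh8fb84718e6110b07.shift 1 0), (rhcc851fb1b4fb27c5.shift 0 1), (rhe149ef5ee9aaa8e4.shift 0 1)] (by decide +kernel))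
end Crest.Agent.S0047.Helper85.Cert
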