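import Crest.Agent.Lib.S0047.Helper85CertPL7F0
import Crest.Agent.Lib.S0047.Helper85CertPL7F1
import Crest.Agent.Lib.S0047.Helper85CertPL7F2
import Crest.Agent.Lib.S0047.Helper85CertPL7F3
import Crest.Agent.Lib.S0047.Helper85CertPL7F4
import Crest.Agent.Lib.S0047.Helper85CertPL7F5
import Crest.Agent.Lib.S0047.Helper85CertPL7F6
import Crest.Agent.Lib.S0047.Helper85CertPL7F7
import Crest.Agent.Lib.S0047.Helper85CertPL7F8
import Crest.Agent.Lib.S0047.Helper85CertPL7F9
import Crest.Agent.Lib.S0047.Helper85CertPL7F10
import Crest.Agent.Lib.S0047.Helper85CertPL7F11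
set_option autoImplicit false
set_option linter.all false
set_option Elab.async false
namespace Crest.Agent.S0047.Helper85.Cert
open Crest.Agent.S0047.Helper85

noncomputable def rh7b9fe817e89a051b : CRef := CRef.mk (Pat.mk 0x300000000000000000000000000000000000000000 0x38000000b8000003be000001ff000003fe000003fe0000007c0000007800000028 8 10) 0 0 (step_sound _ 132 [(rh04c6542796f914f3.shift 1 1), (rh39eec77277c2bed9.shift 0 1), (rh5caefc9bf2d3205e.shift 1 0), (rh6e659b12590c599d.shift 1 0), (rh7439f1062bd342f5.shift 1 2), (rh842febcdce799126.shift 1 1), (rh8fb84718e6110b07.shift 1 0)] (by decide +kernel))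
noncomputable def rh4c6e3ebb3308692d : CRef := CRef.mk (Pat.mk 0x180000001000000000000000000000000000000000 0x800000058000001dc000001ff000003fe000001f8000003b80000003800000020 8 10) 0 0 (step_sound _ 165 [(rh11eb409c063fe7f8.shift 1 2), (rh4d6aaebcf0dacc86.shift 2 2), (rh5ab5b8d9e31c3514.shift 1 1), (rh664030e4b0cc5f3a.shift 1 0), (rha2ba7bee8f1f7e9e.shift 2 2), (rhc122a666c9e6d79b.shift 0 1), (rhca741b0f97448d29.shift 1 4)] (by decide +kernel))
noncomputable def rhcb695c53aa173f02 : CRef := CRef.mk (Pat.mk 0x300000002000000000000000000000000000000000 0x1000000018000003b8000003fe000001ff0000003e000000380000001000000010 8 10) 0 0 (step_sound _ 196 [(rh5d54cb79a67f97ab.shift 4 2), (rh7e1098702e50f2b0.shift 4 2), (rhc6bec855159067b4.shift 0 2), rhf59e94b759419496] (by decide +kernel))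
noncomputable def rh2322885c42eb44be : CRef := CRef.mk (Pat.mk 0xc00000008000000000000000000000000 0x40000000c0000006e0000006e0000007f0000007c0000007f0000001f00000014 8 7) 0 0 (step_sound _ 100 [(rh4ca5dae25f5c14ff.shift 0 3), rh507c8880432bcbd9, (rh7495f45f8a695625.shift 1 0), (rhdeca8db941583de2.shift 0 3)] (by decide +kernel))
noncomputable def rh93e0f4efe2dba385 : CRef := CRef.mk (Pat.mk 0x3000000020000000000000000000000000 0x1000000190000001b8000003fc000001ff000001ee0000006800000048 8 10) 0 0 (step_sound _ 102 [(rh4ca5dae25f5c14ff.shift 2 3), rh9d87173be1ea8897, (rhdb3556f6a799a481.shift 1 0), (rhdeca8db941583de2.shift 2 3)] (by decide +kernel))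
noncomputable def rh55518eebcd8fbe14 : CRef := CRef.mk (Pat.mk 0x1800000010000000000000000000000000 0x1c0000005c000000df000000ff000001ff0000003c0000003c 8 9) 0 0 (step_sound _ 99 [rh407fb390d8316269, rh43fae49e60f14955, (rh5dc5071a19a64e2e.shift 2 0), (rh677ec356f24f9681.shift 2 0), rhe9d08051e745f27a, rhebd3018eab7b852b] (by decide +kernel))
noncomputable def rhf515c21a6becd46f : CRef := CRef.mk (Pat.mk 0x300000002000000000000000000000000000000000 0x100000001800000098000001fc000001ff000001fc0000007c0000005c00000014 8 9) 0 0 (step_sound _ 134 [(rh1f98906a7b1d1729.shift 2 1), (rh4ca5dae25f5c14ff.shift 2 4), rhb2445508c9ddec0f, (rhdeca8db941583de2.shift 2 4)] (by decide +kernel))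
noncomputable def rhebfc44688e34d51f : CRef := CRef.mk (Pat.mk 0x1800000010000000000000000000000000 0x80000001800000018000000f8000000ff000000ff0000003c0000003c 8 8) 0 0 (step_sound _ 99 [rh407fb390d8316269, (rh5dc5071a19a64e2e.shift 2 0), rh6cc983dfd22c7a2c, rha56581e1717be79b, rhb69c52b54906aa9b, rhd1cb53a31696ec3c] (by decide +kernel))
noncomputable def rh60ef58de276ac4ff : CRef := CRef.mk (Pat.mk 0x3000000020000000000000000000000000 0x30000000b0000003b8000003fc000007fc000001df0000005800000058 8 11) 0 0 (step_sound _ 134 [(rh11eb409c063fe7f8.shift 2 1), rh1a9f253dff84e9c8, (rh56ab915e428d5c1d.shift 2 0), (rh7b5326ced2b9a42c.shift 3 0), (rhca741b0f97448d29.shift 2 3)] (by decide +kernel))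
noncomputable def rh3c181e32c2f4549d : CRef := CRef.mk (Pat.mk 0x180000001000000000000000000000000000000000 0x10000000140000003e000000ff000001fe000001ff0000007e00000078 8 9) 0 0 (step_sound _ 100 [(rh001460036b2d189f.shift 1 0), (rh29f92a53243f733a.shift 2 0), (rh2d5581c417ad61f3.shift 1 0), (rh6ae05a24e8ca30a9.shift 1 0), (rh8fb488bc171c3b6e.shift 1 0), rha893c230b19e2546, (rhba4d1f227cc2550f.shift 0 1), (rhd1d6afb0c4ae8771.shift 1 0)] (by decide +kernel))
noncomputable def rhe188b5f5d62d34da : CRef := CRef.mk (Pat.mk 0x300000002000000000000000000000000000000000 0x1000000070000000700000007800000038000000780000003f000001fe000001ff0000007c00000050 8 9) 0 0 (step_sound _ 101 [(rh0a6888916bcef86b.shift 4 0), (rh7b24c4ccc068b0b2.shift 4 2), (rhba4d1f227cc2550f.shift 1 1), rhfe9ba5314b782e72] (by decide +kernel))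
noncomputable def rh9db7dff061af908b : CRef := CRef.mk (Pat.mk 0x3000000020000000000000000000000000 0x10000000b0000003b8000003fe000007ef0000007c0000007800000060 8 11) 0 0 (step_sound _ 164 [(rh9f76c6a24cdd31a7.shift 2 0), (rha40d42a2e34c408d.shift 4 1), (rhc6bec855159067b4.shift 0 1), (rhd2fd9bc665ae157d.shift 2 1)] (by decide +kernel))
noncomputable def rhdc382644493f6211 : CRef := CRef.mk (Pat.mk 0x1800000008000000000000000000000000 0xc0000001c0000001f0000007c000000ff0000003f0000001800000018 8 8) 0 0 (step_sound _ 98 [rh516257334fc059fd, (rh557b120f072744ca.shift 0 3), (rh69012675dfdb1a5b.shift 0 3), rhc5433c3efab62c6a, (rhd69c262cd33b94b3.shift 0 3)] (by decide +kernel))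
noncomputable def rhe02f9832c7afd27b : CRef := CRef.mk (Pat.mk 0x180000000800000000000000000000000000000000 0x40000001c0000001c0000001f0000007c0000001c000000f80000003c0000001c00000014 8 8) 0 0 (step_sound _ 99 [(rh15590a39afd9a120.shift 2 0), (rh30f98a9ee57539ee.shift 0 2), (rh947561ae8c5c3f87.shift 2 1), (rhe3458ab40071103b.shift 3 2), (rhfa50cc73c689e7d7.shift 2 0)] (by decide +kernel))
noncomputable def rh61cdffdb6b66d3bf : CRef := CRef.mk (Pat.mk 0x300000001000000000000000000000000000000000 0x80000003c000000f8000000fe000000ff0000005e0000005c0000000c 8 8) 0 0 (step_sound _ 131 [(rh557b120f072744ca.shift 1 4), (rh69012675dfdb1a5b.shift 1 4), rh7a65dc44684608b1, (rh8075abcbaf066f6e.shift 2 1), (rhd69c262cd33b94b3.shift 1 4)] (by decide +kernel))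
noncomputable def rh00e9f12f2a89c7fc : CRef := CRef.mk (Pat.mk 0xc0000000400000000000000000000000000000000 0x20000000e0000000e0000000c0000000f0000003e0000003e0000000e0000000a 8 6) 0 0 (step_sound _ 98 [(rh0b955ab74314f5b6.shift 0 2), (rh15590a39afd9a120.shift 1 0), (rhd03dc3b7a42c1589.shift 1 1), (rhe3458ab40071103b.shift 2 2), (rhffb8e5993241bf15.shift 1 0)] (by decide +kernel))
noncomputable def rhac89fc32b9660ffb : CRef := CRef.mk (Pat.mk 0x300000001000000000000000000000000000000000 0x3c0000003f000000f8000000fe000000df0000007c0000007c00000010 8 8) 0 0 (step_sound _ 131 [(rh557b120f072744ca.shift 1 4), rh65544d5217dcb9fc, (rh69012675dfdb1a5b.shift 1 4), (rh8075abcbaf066f6e.shift 2 1), (rhd69c262cd33b94b3.shift 1 4)] (by decide +kernel))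
noncomputable def rhe9fabee5f68e4d73 : CRef := CRef.mk (Pat.mk 0x1800000008000000000000000000000000 0x1000000018000000180000007c000001ff0000007f0000003c0000001c 8 9) 0 0 (step_sound _ 98 [(rh557b120f072744ca.shift 0 3), (rh69012675dfdb1a5b.shift 0 3), (rh9d7ddc55f8a7b01b.shift 1 0), rhc5433c3efab62c6a, (rhd69c262cd33b94b3.shift 0 3)] (by decide +kernel))
noncomputable def rhd1e806f028ef5ff1 : CRef := CRef.mk (Pat.mk 0x1800000008000000000000000000000000 0xc0000000c0000000f0000007c000000ff0000003f0000001c0000001c 8 8) 0 0 (step_sound _ 98 [(rh557b120f072744ca.shift 0 3), (rh69012675dfdb1a5b.shift 0 3), rh910f460523b86d38, rhc5433c3efab62c6a, (rhd69c262cd33b94b3.shift 0 3)] (by decide +kernel))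
noncomputable def rh82b8eb2051b29e9f : CRef := CRef.mk (Pat.mk 0xc0000000400000000000000000000000000000000 0x20000000e0000000e0000000e0000000f0000003e0000003e0000000e0000000a 8 6) 0 0 (step_sound _ 98 [(rh0b955ab74314f5b6.shift 0 2), (rh15590a39afd9a120.shift 1 0), (rh947561ae8c5c3f87.shift 1 1), (rhe3458ab40071103b.shift 2 2), (rhfa50cc73c689e7d7.shift 1 0)] (by decide +kernel))
noncomputable def rh9934a983875052e4 : CRef := CRef.mk (Pat.mk 0x30000000100000000000000000000000000000000000000000 0x20000000280000002c000000f8000003fe000000ff000000ff0000007c0000003c00000010 8 10) 0 0 (step_sound _ 163 [(rh557b120f072744ca.shift 1 5), (rh69012675dfdb1a5b.shift 1 5), (rh931ee9681e4da7f9.shift 0 1), rhbc12f76da273f89d, (rhd69c262cd33b94b3.shift 1 5)] (by decide +kernel))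
noncomputable def rh57887e4dff33a6c3 : CRef := CRef.mk (Pat.mk 0x180000000800000000000000000000000000000000 0x140000001c0000001f0000007c0000000f0000007f0000003f0000001e0000001e 8 7) 0 0 (step_sound _ 130 [rh33ccb443b853797c, rh43ef22832a45cd42, rha1fd1918da191243, (rhd69c262cd33b94b3.shift 0 4)] (by decide +kernel))
noncomputable def rhcbe24631faa81879 : CRef := CRef.mk (Pat.mk 0x3000000010000000000000000000000000 0x1c0000003c0000003f000001f8000003fe000001ee0000006c0000006c 8 10) 0 0 (step_sound _ 99 [(rh557b120f072744ca.shift 1 3), (rh69012675dfdb1a5b.shift 1 3), rh874a5413e6185731, (rhc5433c3efab62c6a.shift 1 0), (rhd69c262cd33b94b3.shift 1 3)] (by decide +kernel))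
noncomputable def rheaff2b33516596aa : CRef := CRef.mk (Pat.mk 0x80000001800000010000000000000000000000000 0x7c0000007c0000001f0000007e000000f8000000280000000800000008 8 8) 0 0 (step_sound _ 195 [rh1df0aedb8096a4db, (rh2145e1d24b96a57e.shift 3 3)] (by decide +kernel))
noncomputable def rh95132bf40b298f0a : CRef := CRef.mk (Pat.mk 0x40000000c000000080000000000000000 0x8000000080000000a0000000f0000003f0000007e0000007c0000001c 8 7) 0 0 (step_sound _ 35 [(rh7b1f1fb55310c477.shift 2 0), rh7d66ea4a731f9a8d] (by decide +kernel))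
noncomputable def rheb4d68c42e016993 : CRef := CRef.mk (Pat.mk 0x80000001800000010000000000000000000000000 0x7c0000007c0000001f0000007c000000180000000c0000000c0000000c 8 7) 0 0 (step_sound _ 195 [(rh2145e1d24b96a57e.shift 3 3), rhc41724fdce7d0734] (by decide +kernel))
noncomputable def rh04de2b1750c28326 : CRef := CRef.mk (Pat.mk 0x40000000c000000080000000000000000 0x800000008000000080000000c0000001f0000007c0000001f0000001f 8 7) 0 0 (step_sound _ 35 [(rh7b1f1fb55310c477.shift 2 0), rhf03aacbcc3df6e4c] (by decide +kernel))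
noncomputable def rhd795438defdafdf9 : CRef := CRef.mk (Pat.mk 0x40000000c00000008000000000000000000000000 0xc0000000c0000000e0000000f0000007e000000360000000600000006 8 7) 0 0 (step_sound _ 194 [(rh2145e1d24b96a57e.shift 2 3), rh5b9a340b7623f034] (by decide +kernel))
noncomputable def rh27dc6f67468e4eaf : CRef := CRef.mk (Pat.mk 0x40000000c000000080000000000000000 0x2000000070000007f0000007e0000007f0000000e 8 7) 0 0 (step_sound _ 35 [(rh7b1f1fb55310c477.shift 2 0), rhb8707869fc91a845] (by decide +kernel))
noncomputable def rh0fbdcfd428eaf347 : CRef := CRef.mk (Pat.mk 0x1800000030000000000000000000000000 0x20000000380000003c0000001f0000003e0000003c000000f80000003800000038 8 8) 0 0 (step_sound _ 130 [rh10af8b72d1319e77, (rhb739f4f82bb681b4.shift 1 3)] (by decide +kernel))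
noncomputable def rh8079f89be9c77fe2 : CRef := CRef.mk (Pat.mk 0x1800000030000000000000000000000000 0x1c0000001c0000001f00000038000000ff000000f80000003800000038 8 8) 0 0 (step_sound _ 102 [rha96ba96cb8fa87fa, (rhf48373e13d2bc128.shift 3 3)] (by decide +kernel))
noncomputable def rh836f52b8f1358a75 : CRef := CRef.mk (Pat.mk 0x18000000300000000000000000 0x100000003c0000007e0000007f0000003e000000380000001800000018 8 7) 0 0 (step_sound _ 98 [rh53392c1fbfcf14ed, (rhb739f4f82bb681b4.shift 1 2)] (by decide +kernel))
noncomputable def rhd523dea06fae239b : CRef := CRef.mk (Pat.mk 0x1800000030000000000000000000000000 0x300000003e0000003f00000038000000f8000000780000001800000018 8 8) 0 0 (step_sound _ 102 [rhf0cd777b23c7b936, (rhf48373e13d2bc128.shift 3 3)] (by decide +kernel))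
noncomputable def rh9547fd2ca9e28cc3 : CRef := CRef.mk (Pat.mk 0x80000000800000018000000000000000000000000 0x740000007c0000001f000000780000001c0000001c0000001c 8 7) 0 0 (step_sound _ 67 [(rh275b11eb535b78f4.shift 0 1), (rh2d94e8e3c3d1054b.shift 2 0), (rh3181373a30ceb9e3.shift 2 0)] (by decide +kernel))
noncomputable def rhe3be010cd160edc6 : CRef := CRef.mk (Pat.mk 0x1000000038000000000000000000000000 0xc000001ff000000fe0000001f000000f8000000380000003800000028 8 9) 0 0 (step_sound _ 164 [rh3c179895cedc627b, (rh70e33bfdf511e144.shift 4 0), (rhde10baa3043a2b46.shift 3 2), (rhfafeb437ceb8396d.shift 3 0)] (by decide +kernel))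
noncomputable def rh07238631f60dcc65 : CRef := CRef.mk (Pat.mk 0x2000000070000000000000000000000000 0x20000000200000003e000001fe000003d70000001000000010 8 10) 0 0 (step_sound _ 165 [(rha4042802b5003ae4.shift 0 2), (rhde10baa3043a2b46.shift 4 2), (rhfafeb437ceb8396d.shift 4 0)] (by decide +kernel))
noncomputable def rh3c4402ef6120068e : CRef := CRef.mk (Pat.mk 0x20000000700000000000000000000000000000000000000000 0x500000007800000078000000fc0000003f000000f80000003000000070000000700000007000000010 8 8) 0 0 (step_sound _ 195 [rh0c995f35f4819a3c, (rh54c49bb299227e8d.shift 2 5), (rh858ed6509ac47250.shift 3 2)] (by decide +kernel))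
noncomputable def rh93a8c7dd945d5fe8 : CRef := CRef.mk (Pat.mk 0x80000001c000000000000000000000000 0x60000000f0000007e000000fc0000007f000000ff 8 8) 0 0 (step_sound _ 130 [(rh2cbb8cb7291c39af.shift 1 0), (rh79b3c29022acbdf3.shift 1 3), rh8a3527406c97f972] (by decide +kernel))
noncomputable def rh3763708573e6b6c7 : CRef := CRef.mk (Pat.mk 0xc00000018000000000000000000000000 0x100000003e0000003f0000003f0000001f0000001f000000340000003400000010 8 6) 0 0 (step_sound _ 129 [(rhb739f4f82bb681b4.shift 0 3), rhcc33a8a87e377a40] (by decide +kernel))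
noncomputable def rh6315632718c0b639 : CRef := CRef.mk (Pat.mk 0x1800000030000000000000000000000000 0x300000003c000000ff000000ff00000038000000ff000001e80000002800000028 8 9) 0 0 (step_sound _ 163 [(rh1e93858954f46045.shift 0 2), (rh36e40c206b32edcf.shift 0 2), rh4541e9a0558a07c3, (rh4a6815b72529c013.shift 0 2), rh4f9338984dbfb77e, (rhca7d0bd3243532b3.shift 0 2), rhcf541309e5408ea2, (rhde58a946bb775db3.shift 0 2), (rhe420811458f04048.shift 0 2)] (by decide +kernel))
noncomputable def rh8199a99832abe55f : CRef := CRef.mk (Pat.mk 0x200000006000000000000000000000000 0x400000007000000070000000700000006000000070000003f0000001f00000007 8 6) 0 0 (step_sound _ 161 [(rh046c5eb18e55a239.shift 1 0), (rh70e33bfdf511e144.shift 1 0), rh8f6631c2ad2d5578, rha23fd9ac9b4840bf] (by decide +kernel))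
noncomputable def rh837c2102e8e07cfb : CRef := CRef.mk (Pat.mk 0x180000003000000000000000000000000000000000 0x380000003e0000003f00000038000000f800000018000000380000003800000008 8 8) 0 0 (step_sound _ 134 [rh005b5653a8a55710, (rhf48373e13d2bc128.shift 3 4)] (by decide +kernel))
noncomputable def rh7263d044dfb722fe : CRef := CRef.mk (Pat.mk 0x20000000e00000000000000000000000000000000000000000 0x40000000500000007e000000fe000007f7000003fc000007fe0000014000000040 8 11) 0 0 (step_sound _ 164 [(rh2ba551de881ca4cd.shift 2 4), (rh49ebcbaac3a39965.shift 0 4), (rh4d47eb0ff56306d3.shift 1 0), (rhe0d088a8f306af75.shift 1 4), (rhec6516ed19ae1316.shift 0 4)] (by decide +kernel))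
noncomputable def rh3a9aee6f008db732 : CRef := CRef.mk (Pat.mk 0x180000000000000000000000000000000000000000 0x180000005c000001df000000fe000001ff0000003c0000003e0000001e00000016 8 9) 0 0 (step_sound _ 165 [(rh5fcb4307eb0a356b.shift 1 4), rhae5e765e2eaf7f3e, (rhb3da8384b9332508.shift 1 4), (rhd7becd1969f8148c.shift 2 2), (rhe7effb95670b5a62.shift 2 2), (rhe87cba6a608cedaf.shift 2 0)] (by decide +kernel))
noncomputable def rh4a90ef0b22ced8b6 : CRef := CRef.mk (Pat.mk 0x60000000000000000000000000 0x280000003c0000003c000000fc0000077f000003ff000007ff0000007800000070 8 11) 0 0 (step_sound _ 100 [(rh43e71b662c4d279d.shift 0 2), rh7740a25bbb550e94, rh7f6976bf763c244c, (rha6126cf783c5bc63.shift 1 0), (rhb54390edcf8a95c3.shift 1 2), (rhbac2be4f0e360e43.shift 1 2), (rhe07fe9d4f1a0e3a5.shift 2 2), (rhe168c73606d5703c.shift 2 2), (rhf51788ddb0a95f0c.shift 1 2)] (by decide +kernel))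
noncomputable def rhb320a7c5202ed1d6 : CRef := CRef.mk (Pat.mk 0x300000000000000000000000000000000000000000 0x3c0000003c0000003f000001ff000001fe000003ff0000007c0000007800000028 8 10) 0 0 (step_sound _ 132 [(rh04c6542796f914f3.shift 1 1), (rh2ed495be23ba7219.shift 1 1), (rh3707f6ffe6f294b5.shift 1 1), (rh39eec77277c2bed9.shift 0 1), (rh78e7c1661e657299.shift 1 0), (rh842febcdce799126.shift 1 1), (rh84e6a37261b9e662.shift 0 1), (rh9d64666e4a7f8b76.shift 1 0), (rhb7814337debcc9d4.shift 0 1), (rhcf10b1a7df5c4f6b.shift 1 0)] (by decide +kernel))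
noncomputable def rh4d141704f6e6e414 : CRef := CRef.mk (Pat.mk 0x1800000008000000000000000000000000 0x1c0000001c0000005e000000ff000000ff000001fb0000003800000038 8 9) 0 0 (step_sound _ 100 [(rh12301fadfa4405fc.shift 1 0), rh1af312b4201d65bb, (rh22eca34c2591aff0.shift 2 0), (rh3dd0248ef1cb47df.shift 1 0), (rh4ecc1d8b8edb1dd7.shift 2 0), (rh7ddae2ba6b5571fb.shift 1 0), rhaa677ed56f21422a, (rhadea29ebf617206d.shift 1 0)] (by decide +kernel))
noncomputable def rhee56aa1311863843 : CRef := CRef.mk (Pat.mk 0x1800000008000000000000000000000000 0x18000000180000003e000000ff000001ff0000003c0000003c 8 9) 0 0 (step_sound _ 100 [rh4e0a961f5fc4a7de, (rh4ecc1d8b8edb1dd7.shift 2 0), rh5aba83cab6723ce1, (rh5dc5071a19a64e2e.shift 2 0), rh85b38d21cc731962] (by decide +kernel))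
noncomputable def rh7e77c50e8e49de3f : CRef := CRef.mk (Pat.mk 0x600000002000000000000000000000000000000000 0x10000000300000007000000078000001fe000003fc000003bf0000003c0000001c00000004 8 10) 0 0 (step_sound _ 132 [(rh557b120f072744ca.shift 2 4), (rh69012675dfdb1a5b.shift 2 4), (rh86768e8bfb6df91d.shift 3 1), rh8c3e71d9c8fc35df] (by decide +kernel))
noncomputable def rh9658cc2d88757d69 : CRef := CRef.mk (Pat.mk 0xc0000000400000000000000000000000000000000 0x20000000e0000000f0000003c0000000e0000000e0000000e0000000e0000000a 8 6) 0 0 (step_sound _ 98 [(rh15590a39afd9a120.shift 1 0), (rh335e6e413d277356.shift 0 2), (rhb44fbf6bd2c6418e.shift 1 0), (rhe1a3e820b9828b5e.shift 1 1), (rhe3458ab40071103b.shift 2 2)] (by decide +kernel))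
noncomputable def rhe7b477859428b579 : CRef := CRef.mk (Pat.mk 0x300000001000000000000000000000000000000000 0x280000002c000001fc000003fe000001fe000000ff0000007c00000008 8 10) 0 0 (step_sound _ 131 [rh1edbcb7c686b021e, (rh4292f73dadef116e.shift 2 1), (rh557b120f072744ca.shift 1 4), (rh69012675dfdb1a5b.shift 1 4), (rhd69c262cd33b94b3.shift 1 4)] (by decide +kernel))
noncomputable def rh849a64abca0f9810 : CRef := CRef.mk (Pat.mk 0x300000000000000000000000000000000000000000 0x38000000bc000003bf000001fc000003fe000003fe0000007c0000007c00000028 8 10) 0 0 (step_sound _ 132 [(rh04c6542796f914f3.shift 1 1), (rh5914f84218e8c317.shift 1 2), (rh667329cb98c3be7a.shift 1 0), (rh731f6a9b27ab01c3.shift 1 0), (rh773222da3a2b04ab.shift 1 0), (rhcf96154afaddf271.shift 0 1), (rhd98bb42caf7edeac.shift 1 0), (rheeb386b7c799b626.shift 1 1)] (by decide +kernel))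
noncomputable def rh9e03079b7ebff3a1 : CRef := CRef.mk (Pat.mk 0x300000000000000000000000000000000000000000 0x140000003c000000bc000003bf000001ff000003fc00000078000000780000003800000028 8 10) 0 0 (step_sound _ 166 [(rh3832fbcbd5845ca5.shift 0 2), (rh79a2cc1a86b12993.shift 1 4), (rhb3da8384b9332508.shift 2 4), (rhd7becd1969f8148c.shift 3 2), (rhe7effb95670b5a62.shift 3 2), (rhe87cba6a608cedaf.shift 3 0)] (by decide +kernel))
noncomputable def rh563a396d353210aa : CRef := CRef.mk (Pat.mk 0x300000000000000000000000000000000000000000 0x140000001c0000001c000003bf000001fe000003ff0000001c0000001e0000000e00000002 8 10) 0 0 (step_sound _ 163 [(rh2220d4d75575b2de.shift 0 1), rhae5e765e2eaf7f3e, (rhb54390edcf8a95c3.shift 0 4), (rhbac2be4f0e360e43.shift 0 4), (rhe07fe9d4f1a0e3a5.shift 1 4), (rhe5f5ad099c3e3bc3.shift 1 4), (rhf51788ddb0a95f0c.shift 0 4)] (by decide +kernel))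
noncomputable def rhffde6419263aa4a6 : CRef := CRef.mk (Pat.mk 0x300000000000000000000000000000000000000000 0x380000003c0000003e000001ff000001ff000003ff0000007c0000007c00000028 8 10) 0 0 (step_sound _ 132 [(rh04c6542796f914f3.shift 1 1), (rh2ac0ccfcedf87db2.shift 1 1), (rh2ed6fcac61746cca.shift 0 1), (rh3707f6ffe6f294b5.shift 1 1), (rh39eec77277c2bed9.shift 0 1), (rh4433558f581caf9c.shift 1 0), (rh4e5bd462d37ecb12.shift 1 0), (rh7c174a9e6fdf0c50.shift 1 0), (rh842febcdce799126.shift 1 1), (rhc6fc55c05931c33b.shift 0 1), (rhe3fb5ede51e6eadf.shift 1 0)] (by decide +kernel))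
noncomputable def rhee482d202118908e : CRef := CRef.mk (Pat.mk 0x300000000000000000000000000000000000000000 0x3c0000003c0000003f000001fe000001ff000003ff0000007c0000007c00000028 8 10) 0 0 (step_sound _ 132 [(rh04c6542796f914f3.shift 1 1), (rh0d73f80ecc0411d1.shift 0 1), (rh15afcc600184ea0e.shift 1 0), (rh286511446b9f7fcc.shift 0 1), (rh5329d41c4a3574be.shift 1 0), (rh5bf0b068ee50e4d0.shift 1 0), (rh6e659b12590c599d.shift 1 0), (rh842febcdce799126.shift 1 1), (rh8eb89aa83df5d764.shift 0 1), (rhf1dafd151d6d65da.shift 1 1)] (by decide +kernel))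
noncomputable def rh82910e9fe14fd9c6 : CRef := CRef.mk (Pat.mk 0x300000000000000000000000000000000000000000 0x80000003c0000003c0000003f000001ff000001fe000001ff0000007c0000007c00000028 8 9) 0 0 (step_sound _ 132 [(rh2f73afb34387ad48.shift 1 1), (rh3e98a838095be717.shift 2 0), (rh4362b56e56a91cd2.shift 1 1), (rh487620146142a7e0.shift 1 0), (rh6dbe3ec4c8709b89.shift 1 1), (rh789c91e09f87bf3e.shift 0 1), (rha3d6ce20e79459ff.shift 0 1), (rha5a68b067ad9617e.shift 2 0), (rha894cf0d4689241e.shift 0 1), (rhde85c5a48776467b.shift 1 1)] (by decide +kernel))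
noncomputable def rhe1164c90c92af023 : CRef := CRef.mk (Pat.mk 0x1800000010000000100000001800000000 0x140000001e0000007f0000007f0000001f00000004 8 7) 0 0 (step_sound _ 67 [(rh5c5e593799055d58.shift 3 1), rhed1738c0bf407ab6] (by decide +kernel))
noncomputable def rh841f88a132b64fde : CRef := CRef.mk (Pat.mk 0x18000000100000001000000010 0x1e0000000fe000001ff0000001000000010 8 9) 0 0 (step_sound _ 101 [(rh2f68792b6b779e96.shift 4 0), (rh60b8349102f978fd.shift 0 2)] (by decide +kernel))
noncomputable def rhfe072f11bd9d15b7 : CRef := CRef.mk (Pat.mk 0xc00000008000000080000000800000000 0x1800000018000000180000000f0000003c0000001c0000000c00000004 8 6) 0 0 (step_sound _ 34 [(rh25fe2556d907f3fc.shift 0 1), (rh932754581e0f4330.shift 2 0)] (by decide +kernel))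
noncomputable def rh8e3264e3b80ace24 : CRef := CRef.mk (Pat.mk 0x4000000040000000c0000000800000008000000000 0x20000000600000007f000003fe000001bf000001f000000030 8 10) 0 0 (step_sound _ 101 [(rh36b8148486524bc5.shift 2 0), rh41243c64a6cce18e, (rh453bbc632987e7fd.shift 2 1), (rhae043b7040a09eba.shift 1 2), (rhb14555163fba2844.shift 3 1), (rhc92c11e8da6c894f.shift 2 2)] (by decide +kernel))
noncomputable def rh80b0929214ef9cfd : CRef := CRef.mk (Pat.mk 0x2000000060000000400000004000000000 0x10000000d00000007c000001ff000001dc000000f8000000b0 8 9) 0 0 (step_sound _ 132 [(rh0f28be65df90851c.shift 1 0), (rh3c3e23a02e82b2ed.shift 2 3), rh509bac46752ffb07, (rhb4d68dd35be2850c.shift 2 0)] (by decide +kernel))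
noncomputable def rhc03331c17e060ccc : CRef := CRef.mk (Pat.mk 0x2000000060000000400000004000000000 0x1000000098000003be000001fe000001df000000f800000010 8 10) 0 0 (step_sound _ 100 [(rh4780c93f5ffd95b3.shift 2 1), (rh5b6902ab353ae8cc.shift 3 1), (rh8a8bfa37e47410c8.shift 1 0), (rh9b7fa1ba99ec9393.shift 2 2), (rhae043b7040a09eba.shift 0 2), (rhf26d9cfe8d2d5061.shift 2 0)] (by decide +kernel))
noncomputable def rh84fbc88ff03b5e04 : CRef := CRef.mk (Pat.mk 0x20000000e0000000400000000000000000 0x8000000090000001bf000000fe0000007e0000003c00000038 8 9) 0 0 (step_sound _ 100 [(rh2efad3051cff7df1.shift 1 2), (rh592c7139d2c44767.shift 2 2), (rh606342497c588657.shift 0 2), (rh8aa80d8d90d3223c.shift 1 2), (rhde327d81777b2eac.shift 2 0), (rhe404d8e18b818631.shift 0 2)] (by decide +kernel))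
noncomputable def rh73bc9577b3348a52 : CRef := CRef.mk (Pat.mk 0x18000000100000001000000000 0x2000000020000001f7000001fe0000007f0000001000000010 8 9) 0 0 (step_sound _ 101 [(rh157331829d7e18bc.shift 1 2), (rh215e11e099257d75.shift 4 0), rh3750db7c0e07a4f5] (by decide +kernel))
noncomputable def rhad4af35b1ac5fcc5 : CRef := CRef.mk (Pat.mk 0x10000000100000001000000010 0x4000000040000002f0000007e0000007f0000001800000010 8 7) 0 0 (step_sound _ 101 [(rh2f68792b6b779e96.shift 4 0), rhecee92ee953574e6] (by decide +kernel))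
noncomputable def rhe712ec21d2a77189 : CRef := CRef.mk (Pat.mk 0x400000000000000070000000000000002000000000 0x3000000038000000f80000001f000000ff0000003f0000003800000008 8 8) 0 0 (step_sound _ 99 [(rh43dc67402634d54f.shift 2 1), (rh66ec1fca9a3a56bb.shift 2 1), (rh775ca1963e850b80.shift 1 2), (rh9f2663ce05a4b93a.shift 0 2), (rha36ed4c017c18c61.shift 2 0), (rhd52e3929053d9d5f.shift 2 2)] (by decide +kernel))
noncomputable def rhff68140e5315950a : CRef := CRef.mk (Pat.mk 0x8000000080000000e000000000000000400000000 0x1000000070000001f0000001b0000001e000000370000001400000010 8 6) 0 0 (step_sound _ 100 [(rh2ed4f3d58488162e.shift 0 1), (rhcab5f46e1c71e73f.shift 0 1), (rhd132b680030c88e0.shift 1 0)] (by decide +kernel))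
noncomputable def rh5d6a13449dbe9035 : CRef := CRef.mk (Pat.mk 0x200000002000000030000000000000001000000000 0x400000076000000fe0000007e000000cf0000005800000018 8 8) 0 0 (step_sound _ 99 [(rh1cfa3fad029706fd.shift 2 0), (rh3ecccf74f20eb0b5.shift 1 0), (rh7f0f728c796044ac.shift 0 2), (rhd7c0a18f92b59752.shift 1 2), (rhd8c24d9b70d6ce6b.shift 2 1)] (by decide +kernel))
noncomputable def rh2bd6eac68ba17878 : CRef := CRef.mk (Pat.mk 0x20000000200000002000000000000000000000000 0x70000000700000007000000030000000700000007000000060000000600000004 8 3) 0 0 (step_sound _ 66 [(rh1148744b53f3df58.shift 0 2), (rh256338352f95c8ed.shift 0 1), (rh475253e964ed1313.shift 1 0), (rh47dece01c1595e79.shift 1 0)] (by decide +kernel))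
noncomputable def rh8b6e5e033e3a35a0 : CRef := CRef.mk (Pat.mk 0x80000001800000030000000000000001000000000 0x40000006f0000003e0000003c000001ef000000fc000003fe 8 10) 0 0 (step_sound _ 69 [(rh28e51909adf227b5.shift 1 0), (rh30d92b190772321f.shift 3 0), rh52473350b44de48f, (rh699e795d43752775.shift 1 0), (rheaade619702de905.shift 0 1)] (by decide +kernel))
noncomputable def rh0673c8b0658797e4 : CRef := CRef.mk (Pat.mk 0x60000000c000000000000000400000000 0x80000000e0000003f0000003b0000001f0000001e 8 6) 0 0 (step_sound _ 100 [rh73c80fb14ae5b08e, (rhf48373e13d2bc128.shift 1 3)] (by decide +kernel))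
noncomputable def rhdf0b7b52f169e4df : CRef := CRef.mk (Pat.mk 0x8000000080000001800000010000000000000000000000000 0x60000000f0000003f0000003e000000fc000000ec0000000800000008 8 8) 0 0 (step_sound _ 101 [(rh5c5a2014709044d0.shift 1 3), (rh638cdaa8579ce494.shift 0 2), (rh7d1b346ed10efc2d.shift 2 0), (rhb0121edee88fe839.shift 1 3)] (by decide +kernel))
noncomputable def rh80ee975a6876dcd1 : CRef := CRef.mk (Pat.mk 0x180000001800000030 0xc0000000c0000000f000000ff0000001f00000032 8 8) 0 0 (step_sound _ 131 [rh0357e9820e0833ca, (rh6f1cbe15c631ee70.shift 3 0)] (by decide +kernel))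
noncomputable def rh42e4f17b18cb4726 : CRef := CRef.mk (Pat.mk 0x1000000018000000300000000000000000 0xc0000000f0000007c00000018000000f80000001e00000018 8 8) 0 0 (step_sound _ 70 [rh27f8cd96a1679a80, (rhf48373e13d2bc128.shift 3 2)] (by decide +kernel))
noncomputable def rhbd43a7e385923071 : CRef := CRef.mk (Pat.mk 0x800000008000000080000000800000000 0x170000003f0000003f0000000c0000000c00000004 8 6) 0 0 (step_sound _ 130 [(rh50fbb5868c909700.shift 2 1), rh7712cb95b37b646a] (by decide +kernel))
noncomputable def rhff96651a0dddf3cc : CRef := CRef.mk (Pat.mk 0x200000002000000020000000200000000 0x10000000700000007000000070000000300000003000000030000000300000001 8 3) 0 0 (step_sound _ 128 [rh3cc423a82972812b, (rh50fbb5868c909700.shift 0 1)] (by decide +kernel))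
noncomputable def rh151c4dd579819642 : CRef := CRef.mk (Pat.mk 0x200000002000000040000000400000000 0xe0000000e000000060000003c0000000f0000000e 8 6) 0 0 (step_sound _ 98 [(rh7b1f1fb55310c477.shift 1 0), rhf4a9075c093c8e2d] (by decide +kernel))
noncomputable def rh92a1d446486dcf81 : CRef := CRef.mk (Pat.mk 0x80000000800000008000000100000000000000000 0x18000000180000001c0000001f0000001c0000000f0000003c0000000c00000004 8 6) 0 0 (step_sound _ 196 [(rh08d50fe567eb1045.shift 3 2), (rh5890386c1f942fa1.shift 3 3), rh5e94edadc1fa8a68, (rh87d5e4118780fa3b.shift 3 2), (rhd3c9f680c49e757e.shift 0 1)] (by decide +kernel))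
noncomputable def rh89d86c6f37565103 : CRef := CRef.mk (Pat.mk 0x40000000c0000000800000008 0x1400000014000001f7000000ff000000fb0000000a 8 9) 0 0 (step_sound _ 130 [(rh2145e1d24b96a57e.shift 2 1), rhe0d170d08524f044] (by decide +kernel))
noncomputable def rhe05b02b243ece2fa : CRef := CRef.mk (Pat.mk 0x10000000300000002000000020 0x4000000040000003dc000001ff000000fe00000020 8 10) 0 0 (step_sound _ 70 [(rh9f93e2b24091a43d.shift 3 1), (rhce0f13be68529444.shift 3 0), rhf1e7ab4410a3a14b] (by decide +kernel))
noncomputable def rh8e86c51aba6dd008 : CRef := CRef.mk (Pat.mk 0x800000008000000080000001800000000000000000000000000000000 0x10000000180000000c0000001f0000007c0000000c0000001c0000001800000010 8 7) 0 0 (step_sound _ 228 [rh1ad8f861c4b90b80, (rh2f68792b6b779e96.shift 3 4)] (by decide +kernel))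
noncomputable def rh5d6f29b55455895e : CRef := CRef.mk (Pat.mk 0x800000008000000080000001800000000 0x30000000780000007e0000003f000000fc000001e4 8 9) 0 0 (step_sound _ 132 [(rh2f68792b6b779e96.shift 3 1), rhdc8cb4833d1e3355] (by decide +kernel))
noncomputable def rhe17074daefcac73d : CRef := CRef.mk (Pat.mk 0x800000008000000080000001800000000 0x30000000780000003f0000003f0000007800000028 8 7) 0 0 (step_sound _ 132 [(rh2f68792b6b779e96.shift 3 1), rhfa2f7ecb64623595] (by decide +kernel))
noncomputable def rh3a320c1ad781fc59 : CRef := CRef.mk (Pat.mk 0x800000008000000080000001800000000000000000000000000000000 0x80000001c0000001f0000003c0000000c0000001c0000001c00000014 8 6) 0 0 (step_sound _ 99 [(rh241198a22025f51f.shift 0 1), rh34b9d29c6368cccf, (rh7928877f9bf74a91.shift 2 2), (rheacedd262407fad2.shift 2 1)] (by decide +kernel))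
noncomputable def rh43e9c06ca9ffa876 : CRef := CRef.mk (Pat.mk 0x8000000080000000800000018000000000000000000000000 0x10000000180000001c0000001f000000380000000c0000000c0000000c 8 6) 0 0 (step_sound _ 196 [(rh2f68792b6b779e96.shift 3 3), rh329f740dcf93cdc4] (by decide +kernel))
noncomputable def rh746b1eaff195a96d : CRef := CRef.mk (Pat.mk 0x80000000c000000180000000000000000 0x140000001c0000001c0000001c0000003c0000000f0000000f000000180000000800000008 8 6) 0 0 (step_sound _ 97 [rh48843b05d6dc58e6, (rhb739f4f82bb681b4.shift 0 2)] (by decide +kernel))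
noncomputable def rh955a8bc71bd42a0c : CRef := CRef.mk (Pat.mk 0x80000000c000000180000000000000000 0x1c0000003c0000000f0000000c0000007c0000000e00000004 8 7) 0 0 (step_sound _ 69 [rh08557af11fd12228, (rhf48373e13d2bc128.shift 2 2)] (by decide +kernel))
noncomputable def rh4e578e53703819b3 : CRef := CRef.mk (Pat.mk 0x4000000070000000c0000000000000000000000000000000000000000 0xa0000003e000000070000000c0000000c0000000e0000000e0000000e00000008 8 6) 0 0 (step_sound _ 130 [(rh4017de503635a93b.shift 0 4), (rh9a27fa2504ea7cad.shift 1 0), (rhe286c75f2739cce2.shift 1 3)] (by decide +kernel))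
noncomputable def rh1c89e5f828034ea3 : CRef := CRef.mk (Pat.mk 0x40000000c0000001800000008000000000000000000000000 0x780000007c0000001c000000f8000000ff000000f40000003000000020 8 8) 0 0 (step_sound _ 100 [rh2a8068374453f65c, (rh4e4520b7279550b5.shift 2 2), (rhffae46864baae3f0.shift 0 2)] (by decide +kernel))
noncomputable def rhd01f443badc31089 : CRef := CRef.mk (Pat.mk 0x2000000030000000200000000000000000 0x3e0000003fe000003ff000000c0000000c0 8 10) 0 0 (step_sound _ 99 [(rh3a2e0da897283d2e.shift 0 2), (rh6211d4ef158e6d8e.shift 2 0), (rh9909eeda0ef2ed2c.shift 2 2), (rhcf86d050071af9b3.shift 2 2)] (by decide +kernel))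
noncomputable def rha15ea1106d27f115 : CRef := CRef.mk (Pat.mk 0x400000004000000040000000400000000 0x80000000c0000000c0000003f0000003f0000003a 8 6) 0 0 (step_sound _ 35 [(rh55afc6a59410cf00.shift 2 0), rhbec9ed8fc959a9cb] (by decide +kernel))
noncomputable def rhe85fce033667bfd2 : CRef := CRef.mk (Pat.mk 0x800000008000000300000001800000000 0x340000003f0000003c000000f80000001800000008 8 8) 0 0 (step_sound _ 70 [(rh18965a982d73c794.shift 3 1), rhd33b47cc35e44175] (by decide +kernel))
noncomputable def rh4f9b4ae6d8c5110f : CRef := CRef.mk (Pat.mk 0x800000008000000180000001800000000 0x140000003c0000000f0000001c0000001f00000007 8 6) 0 0 (step_sound _ 132 [(rh2f68792b6b779e96.shift 3 1), rh54cac6c08ed73a43] (by decide +kernel))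
noncomputable def rhe9d7544fcbb88957 : CRef := CRef.mk (Pat.mk 0x800000008000000100000001800000000 0x340000007c0000001f0000001c000000ff0000006f 8 8) 0 0 (step_sound _ 132 [rh4a16ff1229c9cc4b, rh7a86e6c85c7ea95b, (rhee6e41f347a62869.shift 1 0)] (by decide +kernel))
noncomputable def rhdf166a823d01d8dd : CRef := CRef.mk (Pat.mk 0x8000000080000001000000018000000000000000000000000 0x740000007c0000003f0000007c000000180000000c0000000c0000000c 8 7) 0 0 (step_sound _ 131 [(rh2d8b9f8fc7ad4c88.shift 0 3), (rh544fd3f279a4d968.shift 2 0), (rh946fbe1ddfc14810.shift 2 0), (rhb9ea9cf5d1b0852e.shift 0 2)] (by decide +kernel))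
noncomputable def rhd1aeaf4b36031a15 : CRef := CRef.mk (Pat.mk 0x400000004000000080000000c0000000000000000 0x800000018000000180000003c0000001f0000007a000000ff000000f700000010 8 8) 0 0 (step_sound _ 100 [(rh574fdbf07bdd18b9.shift 0 2), (rh79f41a525b8e75cc.shift 0 1), rhb1fec6f6b628f794] (by decide +kernel))
noncomputable def rhe8f5695e62ecfdc0 : CRef := CRef.mk (Pat.mk 0x40000000c000000040000000800000000 0x18000000180000001e0000007c0000001f0000007800000018 8 7) 0 0 (step_sound _ 67 [(rh7b1f1fb55310c477.shift 2 0), rh8cc244d50e8a28d6] (by decide +kernel))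
noncomputable def rh67161167dd78cde6 : CRef := CRef.mk (Pat.mk 0x800000008000000180000000800000000 0x140000003f0000003f000000780000000c00000004 8 7) 0 0 (step_sound _ 132 [rh16d888c90591eda5, (rh2f68792b6b779e96.shift 3 1)] (by decide +kernel))
noncomputable def rhfb764e5ce6699348 : CRef := CRef.mk (Pat.mk 0x800000008000000180000000800000000 0x40000000c0000001c000000180000007c0000001f000000780000000c00000004 8 7) 0 0 (step_sound _ 34 [(rh0ed5bc5d6f716db1.shift 0 1), (rh932754581e0f4330.shift 2 0)] (by decide +kernel))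
noncomputable def rhfde5c15cd2cdc89f : CRef := CRef.mk (Pat.mk 0x8000000080000000800000008000000000000000000000000 0x800000018000001f8000000ff000000f40000002000000020 8 9) 0 0 (step_sound _ 100 [rh235ccf783b5cc611, (rh55afc6a59410cf00.shift 3 2)] (by decide +kernel))
noncomputable def rhdd238f5873d04e78 : CRef := CRef.mk (Pat.mk 0x18000000180000001000000000 0x30000000380000007f0000001f000000380000003000000020 8 7) 0 0 (step_sound _ 131 [rh1488820752de99cd, (rh2145e1d24b96a57e.shift 3 1)] (by decide +kernel))
noncomputable def rhf8be789882400678 : CRef := CRef.mk (Pat.mk 0x800000018000000080000001000000000 0x30000000300000007f0000001f000000380000003000000030 8 7) 0 0 (step_sound _ 68 [rh1488820752de99cd, (rh7b1f1fb55310c477.shift 3 0)] (by decide +kernel))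
noncomputable def rh8f958595f2d7a157 : CRef := CRef.mk (Pat.mk 0x60000000c00000004 0x1e0000003e0000003f0000003e0000000e00000004 8 6) 0 0 (step_sound _ 98 [rh29a06f9f0cecf1d2, (rhbe5addaf45b06322.shift 1 0), (rhc85cc95794737cf7.shift 1 0), (rhf8f2dd1658083a86.shift 1 0)] (by decide +kernel))
noncomputable def rhf3169cbada5a42ca : CRef := CRef.mk (Pat.mk 0x180000000c00000010 0x200000002000000330000001f0000003f00000034 8 6) 0 0 (step_sound _ 33 [(rh53b3c253cb0c65f4.shift 0 1), rh8b6275276bdd173b] (by decide +kernel))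
noncomputable def rh44c04c1c678387d1 : CRef := CRef.mk (Pat.mk 0xe00000002 0x4000000040000007e0000007e000000e3 8 8) 0 0 (step_sound _ 36 [rheb0810cc63b001d8, (rhf7c6bdc158689e74.shift 1 0)] (by decide +kernel))
noncomputable def rhf21b1aa0648d3122 : CRef := CRef.mk (Pat.mk 0x1c00000004 0xe0000000e0000000f000001ff000001fe000001c4 8 9) 0 0 (step_sound _ 37 [(rh45f730bcf36fcf64.shift 1 0), (rh4c622fddc53a5f99.shift 0 1), (rh757e1def9d4f67d9.shift 1 0), rhf9aa6a63af17cf5b] (by decide +kernel))
noncomputable def rh31da3ea4a5e556f3 : CRef := CRef.mk (Pat.mk 0x780000001000000000 0x1c0000001f0000003c000000780000001c00000008 8 7) 0 0 (step_sound _ 99 [(rh3244c3cc8379b070.shift 2 2), rhdedea0e7ecca7876] (by decide +kernel))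
noncomputable def rh0cbd1e32b409a724 : CRef := CRef.mk (Pat.mk 0xc00000004000000080000000000000000 0xc0000001c0000003c0000003f0000000f000000080000000800000008 8 6) 0 0 (step_sound _ 99 [(rh3cb04db3dd2b6a55.shift 2 0), rh677e6fbb651585de, (rh844cc645adb6fb73.shift 0 2)] (by decide +kernel))
noncomputable def rh534457449eb2ef38 : CRef := CRef.mk (Pat.mk 0x1000000018000000300000002000000000 0xc0000000e0000001f0000001e0000007c0000006c0000000c 8 7) 0 0 (step_sound _ 98 [rh4469016d200750cd, (rhb739f4f82bb681b4.shift 1 2)] (by decide +kernel))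
noncomputable def rh7d8ed7ba51414b4c : CRef := CRef.mk (Pat.mk 0x1000000018000000300000002000000000 0x28000000ef000000ff000000380000007f000001ec0000004c 8 9) 0 0 (step_sound _ 133 [rh484dc447f88f2e02, rh5a114d3cc13d364d, (rhdbb15021fb420664.shift 2 1), (rhfbd6aff7a01bed1e.shift 3 0)] (by decide +kernel))
noncomputable def rhdd77e8c0cfd2e4ac : CRef := CRef.mk (Pat.mk 0x40000000c0000001800000008000000000000000000000000 0x80000000c0000001c0000007c0000003f000000660000002000000020 8 7) 0 0 (step_sound _ 133 [rhbd455e311445a0f3, (rhf48373e13d2bc128.shift 2 4)] (by decide +kernel))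
noncomputable def rh5fdfeb43249d7b13 : CRef := CRef.mk (Pat.mk 0x40000000e000000080000000800000000 0x30000000300000013000000370000001e0000007f0000000f00000004 8 7) 0 0 (step_sound _ 68 [rh13f168cd6ad99b8d, (rh4a0b10776449c3e9.shift 1 2), (rh89ade209b3e28f13.shift 1 2), (rhae2edff970a530ce.shift 1 2)] (by decide +kernel))
noncomputable def rhf4d88a2b5a9fa7e0 : CRef := CRef.mk (Pat.mk 0x80000001c000000100000001000000000 0x400000004000000060000000f0000003f0000001e0000007f0000000f 8 7) 0 0 (step_sound _ 130 [rh9728abd64914e3e4, rh9ea0b251011fd90d, (rhe2b63c00a3d7bb73.shift 0 3)] (by decide +kernel))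
noncomputable def rh968ca8ad360f43ad : CRef := CRef.mk (Pat.mk 0x800000008000000180000003000000000 0x600000006000000ef000000ff0000003f0000003600000006 8 8) 0 0 (step_sound _ 98 [(rh06120442e709787e.shift 0 1), (rh0800d9e20a1cd0ef.shift 0 1), (rhc44fdd3b0adb5fce.shift 0 2), (rheefdfe4489a99729.shift 1 0)] (by decide +kernel))
noncomputable def rh4c4cd986cdb9f76d : CRef := CRef.mk (Pat.mk 0x8000000080000001c0000000000000000 0x6000000060000007f0000007f0000003c0000000600000006 8 7) 0 0 (step_sound _ 98 [rh18b9378bc2cf51de, (rh3dcbad35de31d504.shift 1 0), (rhe2b63c00a3d7bb73.shift 0 2)] (by decide +kernel))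
noncomputable def rh97414a24e45b4f7f : CRef := CRef.mk (Pat.mk 0x1000000018000000300000000000000000 0x280000006f0000007f0000007e000000300000001000000010 8 7) 0 0 (step_sound _ 98 [rh80e4b49e6ee985ca, (rhb739f4f82bb681b4.shift 1 2)] (by decide +kernel))
noncomputable def rha3efefe8d404be53 : CRef := CRef.mk (Pat.mk 0x100000001000000030000000200000002000000000 0xc0000000c0000005f000000df0000007c000001ec0000007c00000008 8 9) 0 0 (step_sound _ 99 [(rh328e394105afadd4.shift 2 0), (rh3d09aface44b7580.shift 0 1), (rh6736831d1a9078ea.shift 2 0), (rh8ee80cc30e93a344.shift 2 2)] (by decide +kernel))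
noncomputable def rh6941099612365d4c : CRef := CRef.mk (Pat.mk 0x8000000100000001000000018 0x1c0000001e000000f7000000ff0000001f 8 8) 0 0 (step_sound _ 100 [(rh50fbb5868c909700.shift 3 0), rh84b79e0a4a05bcf2] (by decide +kernel))
noncomputable def rh02d9c579011e3eec : CRef := CRef.mk (Pat.mk 0x1000000030000000200000000000000000 0x1800000018000001df000000fe000001ef0000000c00000008 8 9) 0 0 (step_sound _ 164 [(rh2145e1d24b96a57e.shift 4 2), rh611a642f45404bbd] (by decide +kernel))
noncomputable def rhc8f44865133a5c5b : CRef := CRef.mk (Pat.mk 0x1000000030000000200000002000000000 0x3dc000003ff000007fe0000003c00000018 8 11) 0 0 (step_sound _ 102 [(rh3fcfaa46a26ee616.shift 3 2), rh6b49461e468e74eb, (rh9b8b2918e4c8a4da.shift 2 2), (rh9f93e2b24091a43d.shift 3 2)] (by decide +kernel))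
noncomputable def rh44010dc6b63382d3 : CRef := CRef.mk (Pat.mk 0x8000000080000000800000018000000000000000000000000 0x100000001800000018000003bf000001fe000003e40000002000000020 8 10) 0 0 (step_sound _ 98 [(rh932754581e0f4330.shift 2 2), rh9611113c96aca85d] (by decide +kernel))
noncomputable def rh6d0d82e24e879366 : CRef := CRef.mk (Pat.mk 0x200000002000000020000000200000000 0x40000000700000007000000030000000600000006000000070000000300000001 8 3) 0 0 (step_sound _ 32 [(rh3a8b0589b9272453.shift 0 1), rh932754581e0f4330] (by decide +kernel))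
noncomputable def rhc9a41bebe073f303 : CRef := CRef.mk (Pat.mk 0x8000000080000001800000010000000000000000000000000 0x740000007c0000003f0000007c00000018000000080000000800000008 8 7) 0 0 (step_sound _ 162 [(rh3c3e23a02e82b2ed.shift 0 4), (rh9c4d1961a8a2466b.shift 2 0), (rh9d05b7f9205bcf15.shift 0 2), (rhb0121edee88fe839.shift 0 4)] (by decide +kernel))
noncomputable def rh133a557e31f61050 : CRef := CRef.mk (Pat.mk 0x800000008000000180000001800000000 0x140000001c0000000f0000001e0000001f00000007 8 5) 0 0 (step_sound _ 132 [(rh2f68792b6b779e96.shift 3 1), rh5e90be94acd67228] (by decide +kernel))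
noncomputable def rh21524d30b26a2d6d : CRef := CRef.mk (Pat.mk 0x80000000800000018000000000000000000000000 0x40000000c0000001f0000007e0000001f0000001e00000018 8 7) 0 0 (step_sound _ 130 [(rh3c3e23a02e82b2ed.shift 0 3), rh4c1fe3e45df8584e, (rhc7211169a1e41db2.shift 1 1)] (by decide +kernel))
noncomputable def rha1cd5d8ce6afa02f : CRef := CRef.mk (Pat.mk 0x100000001000000030000000200000002000000000 0x1c0000001e000000fc000001ef0000007c0000000c 8 9) 0 0 (step_sound _ 99 [(rh8ee80cc30e93a344.shift 2 2), (rh9bb4f9a328384ec4.shift 1 0), (rhc4fd139bd9818e26.shift 1 0), rhd8215403ae36d74e] (by decide +kernel))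
noncomputable def rh872f17e93b91fded : CRef := CRef.mk (Pat.mk 0x80000000800000018000000000000000000000000 0x140000001f00000038000000380000003f0000003c00000010 8 6) 0 0 (step_sound _ 68 [(rh08edf065357d68e5.shift 3 0), (rh79ad7b82ec8c35e2.shift 3 0), (rhe5681d44df344598.shift 0 1)] (by decide +kernel))
noncomputable def rh593b7a50cb070e5a : CRef := CRef.mk (Pat.mk 0x40000001e000000000000000000000000 0x800000008000001cc000000fe000001fb0000001200000012 8 9) 0 0 (step_sound _ 65 [(rh75f46712f2f8a6d8.shift 1 0), (rheb0810cc63b001d8.shift 0 2)] (by decide +kernel))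
noncomputable def rh6a1a165d9500a14c : CRef := CRef.mk (Pat.mk 0x8000000080000001c000000100000000000000000 0xe0000000f0000001e000000370000001600000016 8 6) 0 0 (step_sound _ 97 [rh8d5911db86e29038, (rhe25b0a99195a5d59.shift 1 2)] (by decide +kernel))
noncomputable def rh3930ccf2bfb33cf6 : CRef := CRef.mk (Pat.mk 0x8000000080000001c0000001000000000 0x60000000f0000003f0000001e0000003700000006 8 6) 0 0 (step_sound _ 65 [rh6e7d39c7b1952ebf, (rhe25b0a99195a5d59.shift 1 1)] (by decide +kernel))
noncomputable def rh12ff5db81f415cc1 : CRef := CRef.mk (Pat.mk 0x200000006000000040000000000000000 0xe0000000e000000060000003c0000000f0000000e 8 6) 0 0 (step_sound _ 34 [(rh7b1f1fb55310c477.shift 1 0), rhf4a9075c093c8e2d] (by decide +kernel))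
noncomputable def rhbefa01955daf0702 : CRef := CRef.mk (Pat.mk 0x1800000038000000200000000000000000 0x1c0000003c0000001f0000001f00000038000000280000000800000008 8 6) 0 0 (step_sound _ 129 [rh5ce75b20d9714076, (rhab22b5b56e7b3243.shift 1 3)] (by decide +kernel))
noncomputable def rhb9850f337c05fa14 : CRef := CRef.mk (Pat.mk 0x80000001800000010000000100000000000000000 0x120000001f0000003e000000ff000000ff0000006c0000000c 8 8) 0 0 (step_sound _ 101 [(rh2d4f16b1b12ca8a2.shift 0 1), rh2e8d127313a76482, (rh4ca5dae25f5c14ff.shift 1 3)] (by decide +kernel))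
noncomputable def rh54aac62bbe930afa : CRef := CRef.mk (Pat.mk 0x2000000020000000200000002000000000000000000000000 0x200000002000000060000003e0000003f0000003d0000000800000008 8 6) 0 0 (step_sound _ 98 [rh2bc5e232118022fb, (rh55afc6a59410cf00.shift 1 2)] (by decide +kernel))
noncomputable def rhe17a738016f97b67 : CRef := CRef.mk (Pat.mk 0x8000000080000001c000000100000000000000000 0x2000000060000001f0000007f0000001f0000001f0000000a00000008 8 7) 0 0 (step_sound _ 132 [(rh1782fbcdf7f44f30.shift 0 1), rh4973760bacc2d1f7, (rhab2ad169e49f9c5e.shift 0 3)] (by decide +kernel))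
noncomputable def rh6943ad8912fcd328 : CRef := CRef.mk (Pat.mk 0x8000000080000001c000000100000000000000000 0x26000000270000007f0000007f0000003c000000ff0000002a00000008 8 8) 0 0 (step_sound _ 130 [(rh4dd4a41c83d740e1.shift 0 1), rh8ba13d5ca0079006, (rhe2b63c00a3d7bb73.shift 0 3)] (by decide +kernel))
noncomputable def rh81d21ee323a0886c : CRef := CRef.mk (Pat.mk 0x40000000c000000080000000000000000 0x180000003c0000000f0000000f0000003e0000001e 8 6) 0 0 (step_sound _ 35 [rh3799ddd7e21861f6, (rh7b1f1fb55310c477.shift 2 0)] (by decide +kernel))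
noncomputable def rh5b1d448da22c19d1 : CRef := CRef.mk (Pat.mk 0x1000000018000000300000000000000000 0xc0000000c000000ef000000ff0000001f000000300000001000000010 8 8) 0 0 (step_sound _ 131 [(rh0a444d2316a5537b.shift 1 0), (rh3cb04db3dd2b6a55.shift 3 0), (rha8b8347b395d94f1.shift 0 2)] (by decide +kernel))
noncomputable def rh1fec4a35ede9be6f : CRef := CRef.mk (Pat.mk 0x40000000c000000080000000800000000 0x18000000780000007c0000001f0000007c0000001800000010 8 7) 0 0 (step_sound _ 68 [(rha702142e0e365bd3.shift 2 0), rhd2ff1294fee72422, (rhdeca8db941583de2.shift 0 2)] (by decide +kernel))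
noncomputable def rh9aec76d17b8263ba : CRef := CRef.mk (Pat.mk 0x80000000c000000180000000000000000 0xe0000000e0000000e0000003f0000001f0000000f0000000e 8 6) 0 0 (step_sound _ 97 [(rhb739f4f82bb681b4.shift 0 2), rhf9274af25d02a6a0] (by decide +kernel))
noncomputable def rhf00a222293c22082 : CRef := CRef.mk (Pat.mk 0x80000001c000000100000001000000000 0x2000000060000000f0000003f0000001f0000003c00000008 8 6) 0 0 (step_sound _ 130 [rh83f1982326c52b53, rha1f85a5afd8d448f, (rhe2b63c00a3d7bb73.shift 0 3)] (by decide +kernel))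
noncomputable def rhb690a447915cd269 : CRef := CRef.mk (Pat.mk 0x20000000200000002000000040000000000000000 0x1000000070000001f0000000600000006000000070000000300000001 8 5) 0 0 (step_sound _ 193 [rh12bd03a29eed9879, (rhd3458b32566d63f7.shift 1 2)] (by decide +kernel))
noncomputable def rhbd229defb74cdbf0 : CRef := CRef.mk (Pat.mk 0x1000000010000000100000003800000000 0x800000018000000100000007f000001fe000001c7 8 9) 0 0 (step_sound _ 131 [(rh50fbb5868c909700.shift 3 1), rh52a2bff957a16899] (by decide +kernel))
noncomputable def rhad2c1671c58d8ea8 : CRef := CRef.mk (Pat.mk 0x200000002000000020000000200000000000000000000000000000000 0x10000000700000007000000060000000200000002000000070000000700000005 8 3) 0 0 (step_sound _ 224 [(rh50fbb5868c909700.shift 0 4), rhad170aec7bd76d6f] (by decide +kernel))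
noncomputable def rhabf3e8f0e9525159 : CRef := CRef.mk (Pat.mk 0x80000001c000000000000000000000000 0x10000000370000003f0000007f0000006b0000002a00000022 8 7) 0 0 (step_sound _ 132 [rh358c4e0499793730, (rhab2ad169e49f9c5e.shift 0 3), rhb899a09af20cf53b] (by decide +kernel))
noncomputable def rh26c5feac0dbd24c0 : CRef := CRef.mk (Pat.mk 0x40000000400000018000000000000000000000000 0x80000000c0000000f0000007f0000003f0000001e00000008 8 7) 0 0 (step_sound _ 98 [rh35c6e15755c2dbad, (rha7edc60fc34bffff.shift 0 3), (rhe8ea5f2a637fddf3.shift 1 1)] (by decide +kernel))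
noncomputable def rhb7c024c652e3fadd : CRef := CRef.mk (Pat.mk 0x800000008000000380000000800000000 0x340000003f00000038000000f80000001800000018 8 8) 0 0 (step_sound _ 36 [(rh55afc6a59410cf00.shift 3 0), rhf09e968548d6cdac] (by decide +kernel))
noncomputable def rhde4b803696cd3206 : CRef := CRef.mk (Pat.mk 0x40000000c000000180000000000000000 0x10000000370000001f0000001b0000000f0000000e 8 6) 0 0 (step_sound _ 35 [rh1271188ef2f1cb9b, (rh7b1f1fb55310c477.shift 2 0)] (by decide +kernel))
noncomputable def rhc280b75c2141659f : CRef := CRef.mk (Pat.mk 0x80000001800000030000000000000000000000000 0x800000038000000ff000000ff0000001c0000000c 8 8) 0 0 (step_sound _ 68 [rh2e8d127313a76482, (rh7b1f1fb55310c477.shift 3 1)] (by decide +kernel))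
noncomputable def rhebdec60a6c01d07a : CRef := CRef.mk (Pat.mk 0x100000003000000060000000000000000 0x60000001e0000001f000000070000001f0000000600000006 8 5) 0 0 (step_sound _ 33 [rh7b1f1fb55310c477, rha702142e0e365bd3] (by decide +kernel))
noncomputable def rh1ea8ca925ca7d312 : CRef := CRef.mk (Pat.mk 0x800000008000000300000000000000000 0x34000000760000007f0000003e000000ff000000ec00000008 8 8) 0 0 (step_sound _ 100 [(rh0e8a2f2c58a560f0.shift 0 1), (rh3c3e23a02e82b2ed.shift 1 2), (rh5c5a2014709044d0.shift 1 2), (rhb0121edee88fe839.shift 1 2), rhc156fb3ec0abed94] (by decide +kernel))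
noncomputable def rh1ccad4f208adb4f9 : CRef := CRef.mk (Pat.mk 0x2000000030000000c00000004000000000 0x800000018000000780000003e000000ff0000007800000018 8 8) 0 0 (step_sound _ 99 [(rhb103f40a53fe1424.shift 0 2), (rhbe96e73b57520a11.shift 3 0), (rhea383a553bc42003.shift 2 2)] (by decide +kernel))
noncomputable def rhfaa779ac513c4d20 : CRef := CRef.mk (Pat.mk 0x80000000c000000300000001000000000 0x770000007e0000003c0000003e000001fe0000006c 8 9) 0 0 (step_sound _ 133 [(rh07b61ab1d29c80c2.shift 0 1), (rh52b50fb830a1da33.shift 2 0), (rh5477c6f82b378030.shift 1 0), (rh8b6638b1049ebf20.shift 2 0), (rha3353cd3fe4ed8c2.shift 2 1), (rhe0a66eba9944e1a0.shift 0 1)] (by decide +kernel))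
noncomputable def rhe663b640bb2c02ec : CRef := CRef.mk (Pat.mk 0x4000000040000001800000008000000080000000000000000 0x4000000040000003c0000003f0000003f0000003000000010 8 6) 0 0 (step_sound _ 98 [rh9a748256ca6b18ca, (rhff0f29cb645b05f7.shift 2 2)] (by decide +kernel))
noncomputable def rhe34fd0eac032c40a : CRef := CRef.mk (Pat.mk 0x800000008000000300000001800000000 0x340000003f00000038000000380000001e0000000c 8 6) 0 0 (step_sound _ 34 [rh33b550daf25fb661, (rh53b3c253cb0c65f4.shift 1 1)] (by decide +kernel))
noncomputable def rh09d76f8d3c678b9e : CRef := CRef.mk (Pat.mk 0x2000000020000000c00000006000000000000000000000000 0x3c0000003e0000000e0000003f0000003e0000003b0000001300000013 8 6) 0 0 (step_sound _ 132 [(rh18965a982d73c794.shift 1 3), rhe9c1cbc9e7abcc1f] (by decide +kernel))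
noncomputable def rh3c8b6205af03a97b : CRef := CRef.mk (Pat.mk 0x800000018000000300000000000000000 0x120000001f0000001e000000360000003e0000007c 8 7) 0 0 (step_sound _ 98 [(rhb739f4f82bb681b4.shift 1 2), rhef34dd2d1df65bf9] (by decide +kernel))
noncomputable def rh7558dbd3bc61e022 : CRef := CRef.mk (Pat.mk 0x4000000040000001c00000000000000000000000000000000 0x4000000140000007e0000007f0000006a0000002000000020 8 7) 0 0 (step_sound _ 98 [(rh157b220518f94713.shift 1 2), (rhcba651e7f32fbbf2.shift 1 0), (rhfbf2eae4035425b6.shift 0 2)] (by decide +kernel))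
noncomputable def rh4e2532d8140e017a : CRef := CRef.mk (Pat.mk 0x2000000020000001c0000000000000000 0x400000006000000070000001f0000003f0000000e 8 6) 0 0 (step_sound _ 65 [rh0a9eb427d47563e4, (rh3244c3cc8379b070.shift 0 2)] (by decide +kernel))
noncomputable def rh4b3139b0888595f7 : CRef := CRef.mk (Pat.mk 0x800000008000000180000001000000000 0x8000000080000001f000000ff000000f4 8 8) 0 0 (step_sound _ 35 [(rh55afc6a59410cf00.shift 3 0), rh81ff32de2979b8ba] (by decide +kernel))
noncomputable def rh4e2f011eefb1c09b : CRef := CRef.mk (Pat.mk 0x1000000010000000380000000000000000 0xc0000000c0000001c0000001e000000ff0000000f0000000c 8 8) 0 0 (step_sound _ 99 [(rh7478433a598f2371.shift 2 0), rhd5e941dd7eda0e39, (rhe2b63c00a3d7bb73.shift 1 2)] (by decide +kernel))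
noncomputable def rh089a3baab7396595 : CRef := CRef.mk (Pat.mk 0x800000010000000100000003800000000 0x2c0000003e000000760000001e0000007e00000007 8 7) 0 0 (step_sound _ 132 [(rh50fbb5868c909700.shift 3 1), rhdb3a1bb66dd3530b] (by decide +kernel))
noncomputable def rh5fdaf7394ff9b10b : CRef := CRef.mk (Pat.mk 0x8000000100000001000000010 0x1ef000001fe000003ff0000001000000010 8 10) 0 0 (step_sound _ 100 [rh025838aa829fc9ce, (rh50fbb5868c909700.shift 3 0)] (by decide +kernel))
noncomputable def rh03bb3a68866fe3ee : CRef := CRef.mk (Pat.mk 0x1000000020000000200000007000000000 0x80000003c000000f80000003f000001fe0000000f 8 9) 0 0 (step_sound _ 35 [(rh04d7e19c993f8872.shift 2 0), (rh14754ad38483e50c.shift 2 0), rh1f9701c4cf497514, (rh592c7139d2c44767.shift 1 0), rh5b2ce1e5aa4a4edd, (rha08de9eefe64cf20.shift 2 0)] (by decide +kernel))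
noncomputable def rhcb0c936396f54c96 : CRef := CRef.mk (Pat.mk 0x100000003800000020000000200000000000000000 0x44000000de00000078000001ef0000007c000000de00000044 8 9) 0 0 (step_sound _ 99 [(rh0a7014a658746ef4.shift 2 1), (rh13ee1d640fbbcd30.shift 1 1), rh82a1d45bf4612014, (rh89536becce4a9eeb.shift 2 2)] (by decide +kernel))
noncomputable def rh9bc1196f5285bfbc : CRef := CRef.mk (Pat.mk 0x40000000e0000000000000008000000000 0x20000000300000007c000001fe0000003f000001f000000070 8 9) 0 0 (step_sound _ 68 [(rh3cc5c7fb74c49f61.shift 2 2), (rh410c9efbbf1c0bba.shift 3 0), (rh73f5f7cdf41b5bc9.shift 3 1), (rhbda9331218200c7b.shift 0 2), (rhe7a0562c2739c867.shift 3 0)] (by decide +kernel))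
noncomputable def rhccd1e26516b022be : CRef := CRef.mk (Pat.mk 0x1000000010000000300000002000000000 0x600000006c000000ff0000003e0000007f0000006e0000004c 8 8) 0 0 (step_sound _ 99 [(rh1de4b110d4b15576.shift 1 0), (rh4e264bcae71bec50.shift 1 0), (rhb0121edee88fe839.shift 1 2), rhb6a1248ee5fc2ccd, (rhe485a59421f95ab7.shift 1 2)] (by decide +kernel))
noncomputable def rh9369d5be63dd365d : CRef := CRef.mk (Pat.mk 0x80000001800000010000000100000000000000000 0x120000001f0000003e000000ff000000ff0000006c0000000c 8 8) 0 0 (step_sound _ 101 [(rh2d4f16b1b12ca8a2.shift 0 1), rh2e8d127313a76482, (rhb0121edee88fe839.shift 1 3)] (by decide +kernel))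
noncomputable def rh0f22bb96f7b9a0ec : CRef := CRef.mk (Pat.mk 0x100000001000000030000000200000000000000000 0x100000001f000000fe000001ef0000007c00000028 8 9) 0 0 (step_sound _ 37 [(rh7b1f1fb55310c477.shift 4 0), rh92fbe9ac79fa279a] (by decide +kernel))
noncomputable def rh59e1254f4556149e : CRef := CRef.mk (Pat.mk 0x100000001c000000300000000000000000 0x20000000a0000001f0000007f0000007c0000003e0000001e0000001c 8 7) 0 0 (step_sound _ 131 [(rh4401153ace7e060d.shift 0 1), (rh90cbd1ae1f4555c3.shift 1 0), (rhfc7c29d8e65d775f.shift 3 1)] (by decide +kernel))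
noncomputable def rhaca1af4563702311 : CRef := CRef.mk (Pat.mk 0x8000000080000001c0000001000000000 0x2000000220000007f0000007f0000003c0000001600000004 8 7) 0 0 (step_sound _ 98 [rh08740b4129ff786c, (rhe2b63c00a3d7bb73.shift 0 2), (rhfbc8b14d3f33a0e9.shift 1 0)] (by decide +kernel))
noncomputable def rhd0ca3d066643a1a0 : CRef := CRef.mk (Pat.mk 0x8000000080000001800000010000000000000000000000000 0x140000003c0000000f0000003f000000ff000000ec0000000c0000000c 8 8) 0 0 (step_sound _ 101 [(rh21391c4cb7e9ddef.shift 0 2), (rh5c5a2014709044d0.shift 1 3), rh6d2ddbf44a777abe] (by decide +kernel))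
noncomputable def rh66486126e5e16962 : CRef := CRef.mk (Pat.mk 0x80000000800000008000000100000000000000000 0x100000001c0000001f0000000c000000180000001c0000000c00000004 8 5) 0 0 (step_sound _ 195 [rhac2f042428a6c2ce, (rhd3458b32566d63f7.shift 3 2)] (by decide +kernel))
noncomputable def rhfec1717bb8235a65 : CRef := CRef.mk (Pat.mk 0x4000000070000000c0000000000000000000000000000000000000000 0xa0000001e000000070000000c0000000c0000000e0000000e0000000e00000008 8 5) 0 0 (step_sound _ 130 [(rh4017de503635a93b.shift 0 4), (rhe286c75f2739cce2.shift 1 3), (rhf8fd33a3a0d3b9fe.shift 1 0)] (by decide +kernel))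
noncomputable def rh1cccdeb1e9eaac85 : CRef := CRef.mk (Pat.mk 0x1000000018000000300000000000000000 0xc000000ef000000fc00000038000000fc000000f400000030 8 8) 0 0 (step_sound _ 70 [rhda5a4a334d219e18, (rhf48373e13d2bc128.shift 3 2)] (by decide +kernel))
noncomputable def rhee6e72345e41ab8c : CRef := CRef.mk (Pat.mk 0x4000000070000000800000000000000000000000000000000 0x8000000080000001a0000003e000000170000003e0000001c0000000e0000000e00000002 8 6) 0 0 (step_sound _ 130 [(rh5db70d13ae4e308f.shift 0 2), (rh89ade209b3e28f13.shift 0 4), rhd157677001490e47] (by decide +kernel))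
noncomputable def rh99717974f2d51d3b : CRef := CRef.mk (Pat.mk 0x80000000e000000100000000000000000 0x10000000380000003e0000003f0000003800000018 8 6) 0 0 (step_sound _ 100 [rh6a45ff742315e630, (rhe25b0a99195a5d59.shift 1 2)] (by decide +kernel))
noncomputable def rh5934e9b17461794a : CRef := CRef.mk (Pat.mk 0x80000000e000000100000000000000000 0x3200000032000000330000007f0000003e0000001f0000003800000038 8 7) 0 0 (step_sound _ 132 [(rh572132728df34c43.shift 1 3), (rh80f90a60d87caa0d.shift 1 3), rh8b6b3aaec20a3fac] (by decide +kernel))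
noncomputable def rh45bd458d79fa825c : CRef := CRef.mk (Pat.mk 0x180000000c000000100000000000000000 0x4000000040000001f0000003f000000330000001200000010 8 6) 0 0 (step_sound _ 97 [(rh53b3c253cb0c65f4.shift 0 3), rhf7d2683aa08f03ff] (by decide +kernel))
noncomputable def rh2afac34f2bc57593 : CRef := CRef.mk (Pat.mk 0x1000000018000000600000000000000000 0xc000000ef000000fc00000058000000fc000000f400000030 8 8) 0 0 (step_sound _ 68 [rhea080192b5fcf099, (rhf48373e13d2bc128.shift 3 2)] (by decide +kernel))
noncomputable def rh2e3eb2b697ef18ed : CRef := CRef.mk (Pat.mk 0x80000000c00000030000000000000000000000000 0x7000000070000000770000007e0000003c00000030000000700000007000000050 8 7) 0 0 (step_sound _ 165 [(rh1a18c3d1f1cc4aa8.shift 2 0), (rh5d8be0d846aef61f.shift 2 0), (rhaeb26c6fba3fc8b6.shift 2 1), rhb5d2fec111648a5c, (rhc23ae72b71b0f773.shift 2 2), (rhf3b71c8e7c3b30e3.shift 2 2), (rhfb5b2d77362e3437.shift 2 0)] (by decide +kernel))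
noncomputable def rh09ed09e23ed4bcaf : CRef := CRef.mk (Pat.mk 0x1000000030000000200000000000000000 0x1000000050000000df0000007e000001ef0000002800000028 8 9) 0 0 (step_sound _ 37 [rh6b800c3d7c4d6b80, (rh7b1f1fb55310c477.shift 4 0)] (by decide +kernel))
noncomputable def rhc1074d47bf25d4cb : CRef := CRef.mk (Pat.mk 0x100000003000000020000000200000000000000000 0x2000000064000001e4000001fe0000007c000003ef000003fc000001df000000c0 8 10) 0 0 (step_sound _ 68 [(rha0d915f450d3668c.shift 0 1), (rhc0e7191ac302aa0b.shift 1 0), (rhde0ae81b70105bed.shift 2 1)] (by decide +kernel))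
noncomputable def rh53e5d96020d57051 : CRef := CRef.mk (Pat.mk 0x3800000010 0x1c7000001fe000003f7 8 10) 0 0 (step_sound _ 34 [(rh2f678e96432344a3.shift 1 0), rh592c7139d2c44767, (rha03f6e28ea70fc7d.shift 1 0)] (by decide +kernel))
noncomputable def rh422e3d9b4dfbc8cf : CRef := CRef.mk (Pat.mk 0x1c000000080000000000000000 0x2000000020000003e0000001ff000003bf0000001000000010 8 10) 0 0 (step_sound _ 65 [(rh076be03eb7063320.shift 0 2), (rhd526f9b20c752965.shift 0 2), (rhfb55acff5199a2d7.shift 1 0)] (by decide +kernel))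
noncomputable def rh7b958daf6e45333d : CRef := CRef.mk (Pat.mk 0x800000038000000100000000000000000 0x40000000e0000003e0000007e0000000f0000000e 8 7) 0 0 (step_sound _ 98 [(rha03f6e28ea70fc7d.shift 1 2), rhde327d81777b2eac] (by decide +kernel))
noncomputable def rhbae415ca4fcd2003 : CRef := CRef.mk (Pat.mk 0xc0000000800000008000000000000000000000000 0x8000000080000001f0000003c0000007f0000001f0000000c00000008 8 7) 0 0 (step_sound _ 132 [(rh25914b2ed5d7bdbb.shift 0 2), rh59814ffb9d2ac3d4, (rhb0121edee88fe839.shift 0 4)] (by decide +kernel))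
noncomputable def rh715dbd584ddc944f : CRef := CRef.mk (Pat.mk 0x2000000030000000180000001000000000 0x14000000760000003f0000001e0000007f0000002a 8 7) 0 0 (step_sound _ 66 [(rh53b3c253cb0c65f4.shift 1 2), rhb09a23cd490667f1] (by decide +kernel))
noncomputable def rh14c3ccaf4349d61c : CRef := CRef.mk (Pat.mk 0x3000000018000000100000000000000000 0x1000000014000000360000007e0000007f0000002f00000008 8 7) 0 0 (step_sound _ 98 [rh51a88a85bb0df55e, (rh53b3c253cb0c65f4.shift 1 3)] (by decide +kernel))
noncomputable def rh6e3f5295889c1057 : CRef := CRef.mk (Pat.mk 0x10000000300000002000000020 0x4000000040000003dc000001ff000000fe00000020 8 10) 0 0 (step_sound _ 70 [(rh9f93e2b24091a43d.shift 3 1), (rhce0f13be68529444.shift 3 0), rhcf749f12c664b016] (by decide +kernel))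
noncomputable def rh230c8b5310a4a4e4 : CRef := CRef.mk (Pat.mk 0x60000000200000002000000020 0x39e000001fe000003bf0000002000000020 8 10) 0 0 (step_sound _ 100 [(rh2be62be75aad817b.shift 0 2), (rh50fbb5868c909700.shift 4 0)] (by decide +kernel))
noncomputable def rhb7352941699d5ee0 : CRef := CRef.mk (Pat.mk 0x8000000080000000800000000000000040000000000000000 0x100000001c0000001c0000000c0000001f0000003e000000780000000c0000000c00000008 8 7) 0 0 (step_sound _ 99 [(rh374dff4f3719a414.shift 2 1), rh3fb00fe29dce2e0a, (rh66ee4e4e1313f0fc.shift 2 3)] (by decide +kernel))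
noncomputable def rh23766e2783229ad2 : CRef := CRef.mk (Pat.mk 0x1000000010000000300000000000000000 0x100000077e000003ff000007ef00000008 8 11) 0 0 (step_sound _ 70 [rh1db13e0fce97aec1, (rh5a76b3fae137dffd.shift 1 1), (rha7edc60fc34bffff.shift 2 2), (rha9fbfd4bb8cf890b.shift 1 2), (rhf60aa8aede119d3b.shift 1 2)] (by decide +kernel))
noncomputable def rh426e6f580ab2500a : CRef := CRef.mk (Pat.mk 0x100000001000000010000000000000000000000000 0x80000001800000018000000ff0000007e0000003f00000028 8 8) 0 0 (step_sound _ 68 [(rh6eff4158bb400f47.shift 3 0), (rh828df41484bd4986.shift 0 1), (rh8ff3dde5b1c639e0.shift 3 0), (rhc4526fc8abf298b6.shift 3 0)] (by decide +kernel))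
noncomputable def rh91f25d99008e4fa1 : CRef := CRef.mk (Pat.mk 0x1000000010000000180000000000000008 0x40000000c0000003f0000007f0000007f0000000e0000000c 8 7) 0 0 (step_sound _ 99 [rh74c013f69a0ebecb, (rh9e3edb185cc347de.shift 3 0)] (by decide +kernel))
noncomputable def rh9d41782d0645ecb7 : CRef := CRef.mk (Pat.mk 0x400000004000000060000000200000002000000000 0x10000000f8000000df000001fe0000003e0000003800000010 8 9) 0 0 (step_sound _ 100 [(rh083622da8efc0439.shift 1 1), (rh3cefcdf4a66fcca8.shift 2 1), (rh4d63ff26ec2dbd2d.shift 0 2), (rhb935856717173846.shift 2 1), (rhf134d1950941ef63.shift 2 0), (rhfb8ad0968208cd8a.shift 1 1)] (by decide +kernel))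
noncomputable def rh9c37ed7999946d48 : CRef := CRef.mk (Pat.mk 0x200000002000000038000000000000001000000000 0xc0000000c000000fe000000fe000000f8000001cf0000003c0000001c 8 9) 0 0 (step_sound _ 131 [(rh419885b3150da26e.shift 2 0), (rh580d5cb2d59a8737.shift 2 0), (rh6ea61e6d4e068e0c.shift 1 1), (rhaa94dcb375d6f8a1.shift 1 3), rhc34fd61524b59f58] (by decide +kernel))
noncomputable def rha20d6f5a76f7eed7 : CRef := CRef.mk (Pat.mk 0x180000001000000030000000000000002000000000 0x600000006000000e7000000ff0000005f000000fe000001e40000002000000020 8 9) 0 0 (step_sound _ 131 [(rh3c3e23a02e82b2ed.shift 1 3), (rhc144d2f6d60a67ad.shift 1 0), rhe966e66cb13cc606, (rhf9b7df373f1a1179.shift 0 2)] (by decide +kernel))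
noncomputable def rh6e45aca24ecf8d46 : CRef := CRef.mk (Pat.mk 0x8000000080000000800000010 0xe0000000f0000003c0000000c0000001c0000001c 8 6) 0 0 (step_sound _ 131 [rhacc5f7c6cf37f1f9, (rhd3458b32566d63f7.shift 3 0)] (by decide +kernel))
noncomputable def rhc1129142a927c7eb : CRef := CRef.mk (Pat.mk 0x80000000800000008000000180000000000000000 0xc0000000c0000001c0000003c0000000f0000001c0000000800000008 8 6) 0 0 (step_sound _ 194 [rh0ff40cb7c9391f18, (rhffd04209dc8ea796.shift 2 2)] (by decide +kernel))
noncomputable def rh30d51118c63aed0d : CRef := CRef.mk (Pat.mk 0x300000001000000010000000000000000000000000 0x20000000300000003000000010000000f80000003e0000007f0000007f0000003000000020 8 8) 0 0 (step_sound _ 131 [(rh69012675dfdb1a5b.shift 1 4), (rh70112b376a82c20d.shift 3 1), rh7399e0de3d8155f5] (by decide +kernel))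
noncomputable def rh9025cda56dc2d3bf : CRef := CRef.mk (Pat.mk 0x1000000018000000080000000800000000 0x2c000003ff000001ff000000380000001800000010 8 10) 0 0 (step_sound _ 130 [(rhbd522e4b9c0058c4.shift 0 2), (rhdced3e9513d0c3e8.shift 1 0), (rhf8e4a327f3068606.shift 1 1)] (by decide +kernel))
noncomputable def rhadd7fae3e3d99b46 : CRef := CRef.mk (Pat.mk 0x800000008000000080000001000000000 0x40000001c0000001c000000180000000c0000000f0000001c00000010 8 5) 0 0 (step_sound _ 35 [(rh55afc6a59410cf00.shift 3 0), (rhcbb2d42cd2d2466f.shift 0 1)] (by decide +kernel))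
noncomputable def rh2ab4b7332133c977 : CRef := CRef.mk (Pat.mk 0x80000000e00000008 0x140000001c0000001c000000fc000000ff0000007f0000000e00000008 8 8) 0 0 (step_sound _ 99 [(rh1741680720c097b4.shift 2 0), (rh4e2df8342d3b8ae8.shift 2 0), (rh69f0587a21bb077f.shift 2 0), rh7165a4122bb0a920, rhaec328e291aea492, rhe0e25a4d1889284f] (by decide +kernel))
noncomputable def rhf3df20513b47f960 : CRef := CRef.mk (Pat.mk 0x2000000030000000e00000000 0x5000000070000000700000007000000070000001f0000000f0000000f00000019 8 5) 0 0 (step_sound _ 129 [rh03dfdf12d5937476, (rh06938129f11756c8.shift 0 1), rh3dbc984f6f300fe8] (by decide +kernel))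
noncomputable def rhe67bbd796f0f5dbe : CRef := CRef.mk (Pat.mk 0x8000000180000000000000010000000100000000000000000 0x2f0000007e000001e7000000f8000000fe000000f0000000b0 8 9) 0 0 (step_sound _ 165 [(rh8ba95a087086842a.shift 2 0), (rha9fbfd4bb8cf890b.shift 0 5), (rhb2217673a67d3237.shift 1 0), rhd7e9bff5f72f1f9e] (by decide +kernel))
noncomputable def rhb248d617fe44189b : CRef := CRef.mk (Pat.mk 0x1000000010000000700000000000000020000000000000000000000000 0x20000000f00000007f0000007e000000ce00000070000003e0000000a000000020 8 10) 0 0 (step_sound _ 163 [rh55621c69a0f6ca0d, (rh592c7139d2c44767.shift 1 4), (rh7aa042684d624b07.shift 1 4), (rh8fbbc2242410c3c3.shift 1 4), (rh915c3ff3d4fe3a39.shift 1 5), (rhf2530bc3d87bb878.shift 2 0)] (by decide +kernel))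
noncomputable def rhdaf3c25112c1e18a : CRef := CRef.mk (Pat.mk 0x2000000000000000e0000000000000004000000000000000000000000 0x100000001c0000001f0000000c0000001f000000780000000e0000007c0000001400000004 8 7) 0 0 (step_sound _ 131 [(rh8ee80cc30e93a344.shift 0 4), rhd19c7c41de521074] (by decide +kernel))
noncomputable def rhd1d65d1e25bda845 : CRef := CRef.mk (Pat.mk 0x380000001000000010000000100000000000000000 0x70000003e000000770000007e000000fe0000002600000006 8 8) 0 0 (step_sound _ 69 [(rh55afc6a59410cf00.shift 4 1), rh6418a290f3e4e84f] (by decide +kernel))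
noncomputable def rhac14c1acf08b72bb : CRef := CRef.mk (Pat.mk 0x100000003000000020000000000000000000000000 0x18000000180000003f0000007e0000003e000000180000001800000010 8 7) 0 0 (step_sound _ 196 [(rh2145e1d24b96a57e.shift 4 3), rh575c6d0173ec0377] (by decide +kernel))
noncomputable def rh569470dcd3b735be : CRef := CRef.mk (Pat.mk 0x40000000c000000080000000000000000 0x780000007c0000001f000000780000001800000018 8 7) 0 0 (step_sound _ 35 [(rh7b1f1fb55310c477.shift 2 0), rhe53e656a70231fd5] (by decide +kernel))
noncomputable def rh73cc11cdda12e549 : CRef := CRef.mk (Pat.mk 0x1000000018000000300000000000000000 0x80000002f0000007f0000007e000000360000001400000010 8 7) 0 0 (step_sound _ 98 [rha6fa50d2e72fdff1, (rhb739f4f82bb681b4.shift 1 2)] (by decide +kernel))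
noncomputable def rh62a510f36b3ed175 : CRef := CRef.mk (Pat.mk 0x80000001800000010000000000000000000000000 0xc0000000c0000000f0000003f0000003f0000000c0000000c0000000c 8 6) 0 0 (step_sound _ 195 [(rh2145e1d24b96a57e.shift 3 3), rh974106cfbb7293a5] (by decide +kernel))
noncomputable def rh2c1551b6c97e944e : CRef := CRef.mk (Pat.mk 0x2000000020000000200000002 0x100000007000000070000000700000003000000070000000700000002 8 3) 0 0 (step_sound _ 129 [(rh1741680720c097b4.shift 0 1), rh3ca48e2a6d60153d, rh522f51b0ff72c680, (rhefb655bc9dc4b926.shift 0 1)] (by decide +kernel))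
noncomputable def rh3690e2292bf99df5 : CRef := CRef.mk (Pat.mk 0x2000000030000000200000000000000000 0x400000004000003e7000003fe000003fe000000c8000000c0 8 10) 0 0 (step_sound _ 99 [(rh52a5fe14ac33959e.shift 1 1), (rh6211d4ef158e6d8e.shift 2 0), (rhb2afcb5db661472f.shift 0 2)] (by decide +kernel))
noncomputable def rh8918d41a56c8a83c : CRef := CRef.mk (Pat.mk 0x800000008000000100000001800000000 0x40000000c0000000f0000007f000000ff000000ec 8 8) 0 0 (step_sound _ 67 [rh6fae963f33cfdfd7, rh81ff32de2979b8ba, rhb9ea9cf5d1b0852e] (by decide +kernel))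
noncomputable def rhdc2d8bbef5e7b7e6 : CRef := CRef.mk (Pat.mk 0x100000001000000000000000380000000000000000 0x140000007c0000038f000001fc0000039e00000008 8 10) 0 0 (step_sound _ 98 [(rh03bcba7975d463cf.shift 0 1), (rh4df35fbc131eb4ae.shift 0 2), (rh5480fd5f7e2f7075.shift 2 1), (rhabaaf3cbb809331d.shift 1 0), (rhb6eda9ba6cc3e699.shift 0 1)] (by decide +kernel))
noncomputable def rhfaa2ea510eaf3238 : CRef := CRef.mk (Pat.mk 0x1800000008000000080000001800000000 0xe0000000fe000000f80000003f0000007800000028 8 8) 0 0 (step_sound _ 100 [rh4fa04767aeb01b10, (rh71222050f2c63a3a.shift 3 0)] (by decide +kernel))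
noncomputable def rh75b545c51214dec5 : CRef := CRef.mk (Pat.mk 0x1000000010000000100000003000000000 0x10000000100000007e000001ff000001cf 8 9) 0 0 (step_sound _ 35 [(rh932754581e0f4330.shift 3 0), rhdad6cbf268fb3fff] (by decide +kernel))
noncomputable def rh1bdc9beec7faf00e : CRef := CRef.mk (Pat.mk 0x200000007000000010 0x67000000fe000001df 8 9) 0 0 (step_sound _ 39 [rh6a6f1b63c454a542, (rheb0810cc63b001d8.shift 3 0)] (by decide +kernel))
noncomputable def rhc36a0cae95f9222f : CRef := CRef.mk (Pat.mk 0x80000001c000000040000000400000000 0x100000003000000078000000ff0000007c0000001e00000018 8 8) 0 0 (step_sound _ 132 [(rh940b9258bbb5d097.shift 0 2), (rh9f183f687fc04252.shift 1 0), (rhf9d36e158778ce35.shift 1 3)] (by decide +kernel))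
noncomputable def rh06d01f7ea79d1513 : CRef := CRef.mk (Pat.mk 0x1000000038000000000000000000000000 0x600000006000000060000000700000003e000000770000003000000030 8 7) 0 0 (step_sound _ 98 [(rh185f35b8bd8ec37f.shift 0 2), (rhd697570d5d0b0c7b.shift 1 0), (rhec46bd5500c722c9.shift 1 3)] (by decide +kernel))
noncomputable def rhff8d434023c7f1e6 : CRef := CRef.mk (Pat.mk 0x180000000c000000080000000000000000000000000000000000000000 0x100000001800000018000000080000001c0000000f0000003f00000038000000180000001c0000001c00000014 8 6) 0 0 (step_sound _ 193 [(rh53b3c253cb0c65f4.shift 0 6), rh5f6ec9e444f8faea] (by decide +kernel))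
noncomputable def rh33a92977d3280b15 : CRef := CRef.mk (Pat.mk 0xc000000060000000400000000000000000000000000000000 0x140000003e0000000e0000000f0000003c0000001c0000000c00000008 8 6) 0 0 (step_sound _ 196 [(rh18965a982d73c794.shift 1 5), rh2e3199ef2900ab0b] (by decide +kernel))
noncomputable def rhe2068bcf1de01501 : CRef := CRef.mk (Pat.mk 0x2000000060000000300000000000000000000000000000000 0x2000000060000001e0000000f0000001e0000000f0000000f0000000d 8 5) 0 0 (step_sound _ 163 [(rh18965a982d73c794.shift 0 4), rhb5655c1438848b2e] (by decide +kernel))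
noncomputable def rh7fb665d0f4c515f8 : CRef := CRef.mk (Pat.mk 0x180000001800000008 0x6000000060000000e0000000fe000000ff0000003f 8 8) 0 0 (step_sound _ 37 [(rh57b0112923ad7c6a.shift 2 0), (rhd9106766b9ff53c0.shift 2 0), rhf176448fed25fbe3] (by decide +kernel))
noncomputable def rh21b14bab6232c4c9 : CRef := CRef.mk (Pat.mk 0x400000004000000060000000200000000000000000 0x140000007ce000007fe00000fbf0000008000000080 8 12) 0 0 (step_sound _ 103 [(rh2820ca9a6c4f41b4.shift 2 2), (rh3054f1b57b66b1f5.shift 4 0), (rh386396f91d530b37.shift 3 0), (rh400c120bfc9c3554.shift 0 1), (rh4d2c31b3bca66155.shift 4 1), (rhbc097188b38155dd.shift 4 2)] (by decide +kernel))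
noncomputable def rhc2e08c98393e18c6 : CRef := CRef.mk (Pat.mk 0x6000000030000000000000000000000000 0x4000000040000000c0000000c0000007f000000fc0000001e0000001400000010 8 8) 0 0 (step_sound _ 99 [rh26b38d1d1c333116, (rh53b3c253cb0c65f4.shift 2 3)] (by decide +kernel))
noncomputable def rha728679ade28e0cb : CRef := CRef.mk (Pat.mk 0x2000000000000000300000001800000000 0xa0000000e0000003e0000000f8000003c7000000ff000000f800000060 8 10) 0 0 (step_sound _ 70 [rh15262f9d4ba46eac, (rh18965a982d73c794.shift 3 1)] (by decide +kernel))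
noncomputable def rh2857c550f2858267 : CRef := CRef.mk (Pat.mk 0x80000000e000000080000000000000000000000000000000000000000 0x80000000c0000000e0000003e0000000f0000001e0000001e0000001e00000014 8 6) 0 0 (step_sound _ 131 [(rh5192e84255fe3228.shift 2 2), (rh65421805b9300410.shift 0 1), (rh89cf5152879421f3.shift 2 1), (rh985335d5e81225b5.shift 2 0)] (by decide +kernel))
noncomputable def rh2cd23e5c3c6db84d : CRef := CRef.mk (Pat.mk 0x70000000180000001000000000000000000000000000000000 0x140000007c000000f8000000380000001f0000003c0000003800000020 8 8) 0 0 (step_sound _ 100 [(rh2d5442cbf338480d.shift 3 2), (rh4c177d3253eb8b52.shift 0 2), (rh89cf5152879421f3.shift 3 0)] (by decide +kernel))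
noncomputable def rh50f89a5bb02ce629 : CRef := CRef.mk (Pat.mk 0x20000000200000002000000000000000000000000 0x40000000600000006000000070000000700000003000000070000000700000007 8 3) 0 0 (step_sound _ 194 [(rh08d50fe567eb1045.shift 1 2), (rh5890386c1f942fa1.shift 1 3), rhc94dfb5f501cb051, rhec1c8b2b80cec4c0] (by decide +kernel))
noncomputable def rh8c17578c37be9755 : CRef := CRef.mk (Pat.mk 0x80000000800000008000000100000000000000000 0xc0000000c0000001f0000007c0000001c0000000c 8 7) 0 0 (step_sound _ 67 [(rh55afc6a59410cf00.shift 3 1), rhe0da7aedc625e5a9] (by decide +kernel))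
noncomputable def rh3939e07ce3446eb1 : CRef := CRef.mk (Pat.mk 0x18000000080000001800000010000000000000000000000000 0x600000007f0000007f0000003b0000001f0000000e0000000c0000000c 8 7) 0 0 (step_sound _ 162 [(rh69012675dfdb1a5b.shift 0 5), (rhd5e36f1084692cd3.shift 0 2), rhf9f81b109c697144] (by decide +kernel))
noncomputable def rh837d42d3d7ef0c95 : CRef := CRef.mk (Pat.mk 0x2000000030000000600000002 0x50000000700000007000000060000000600000007000000070000000600000002 8 3) 0 0 (step_sound _ 130 [(rh307973d42fbdffc9.shift 0 1), (rhbaefcd01e0a8bca3.shift 1 0)] (by decide +kernel))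
noncomputable def rh76ec8fb4580d5dd2 : CRef := CRef.mk (Pat.mk 0x800000008000000080000001800000000 0x8000000080000003f000000ff000000e4 8 8) 0 0 (step_sound _ 34 [(rh932754581e0f4330.shift 2 0), rh9edd61a5b7134f3d] (by decide +kernel))
noncomputable def rhcec9d796c8240797 : CRef := CRef.mk (Pat.mk 0x10000000100000001000000000000000000000000000000000 0x2f0000007e000000ff0000001000000010000000380000003800000028 8 8) 0 0 (step_sound _ 100 [(rh7b70de7728e60c8e.shift 0 3), (rh95311890f436bcdc.shift 3 0), (rhc850b49d039efae1.shift 3 0)] (by decide +kernel))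
noncomputable def rhff00f0830934413f : CRef := CRef.mk (Pat.mk 0x200000002000000020000000200000000000000000000000000000000 0x200000007000000070000000300000007000000070000000700000001 8 3) 0 0 (step_sound _ 97 [(rh6eff4158bb400f47.shift 0 1), (rh7928877f9bf74a91.shift 0 2), rh8702a07759af281c, (rhced1fa756b93455b.shift 0 1)] (by decide +kernel))
noncomputable def rhda8494804990b635 : CRef := CRef.mk (Pat.mk 0x800000008000000080000000c000000000000000000000000 0x8000000180000007f0000003f000000700000002000000020 8 7) 0 0 (step_sound _ 100 [(rh55afc6a59410cf00.shift 3 2), rh954d416ac6a52780] (by decide +kernel))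
noncomputable def rh13121495d3a4b8ff : CRef := CRef.mk (Pat.mk 0x100000001c00000010000000000000000000000000 0x10000000100000001c0000007f0000007f0000002800000020 8 7) 0 0 (step_sound _ 67 [(rh0db119afefb5ebc7.shift 3 1), rh10f99a7b3d552858, (rh5ddbeed5d869bf16.shift 3 1), (rhac4b4763407a46df.shift 1 1)] (by decide +kernel))
noncomputable def rh2f6dea88d8506723 : CRef := CRef.mk (Pat.mk 0x1000000010000000100000003000000000 0x10000000100000007f000001fe000001cf 8 9) 0 0 (step_sound _ 35 [rh52a2bff957a16899, (rh932754581e0f4330.shift 3 0)] (by decide +kernel))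
noncomputable def rh533da649b3706ede : CRef := CRef.mk (Pat.mk 0x4000000040000000c00000000000000000000000000000000 0x100000003e0000000f0000007c0000007f000000fe0000000e00000006 8 8) 0 0 (step_sound _ 99 [(rh08edf065357d68e5.shift 2 1), (rh79ad7b82ec8c35e2.shift 2 1), rh81a8a3ea82f33304] (by decide +kernel))
noncomputable def rhb74f7ec94bb1664a : CRef := CRef.mk (Pat.mk 0x80000000c000000180000000000000000 0x1c0000001c0000007c0000007c0000000f000000180000000800000008 8 7) 0 0 (step_sound _ 97 [(rh27c08d56ec779155.shift 1 0), (rhb739f4f82bb681b4.shift 0 2)] (by decide +kernel))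
noncomputable def rh688d165dc20baacd : CRef := CRef.mk (Pat.mk 0x1800000008000000080000000c00000000 0x2000000020000000640000007c0000003f0000007e0000001f00000002 8 7) 0 0 (step_sound _ 130 [(rh50fbb5868c909700.shift 2 1), rh965f39d02256f6e2] (by decide +kernel))
noncomputable def rh48777cf9cabe463f : CRef := CRef.mk (Pat.mk 0x4000000040000000f 0x1e0000007f0000003e0000001c0000000f 8 7) 0 0 (step_sound _ 35 [rh33e738c4ed385b9f, rhcbdd1f65fcfc6e31] (by decide +kernel))
noncomputable def rh51b375eb01b6691d : CRef := CRef.mk (Pat.mk 0x200000002000000030000000000000000000000000 0x20000000fe000003fe000003df000000f800000050 8 10) 0 0 (step_sound _ 68 [(rh2bad666135039ec4.shift 1 0), (rhca2bb836a417c7e4.shift 0 1), (rhf9af042da61fc652.shift 4 0)] (by decide +kernel))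
noncomputable def rha057b7e1a274feb6 : CRef := CRef.mk (Pat.mk 0x1000000030000000100000002000000020 0x3ff000001fe000003df0000006000000020 8 10) 0 0 (step_sound _ 102 [(rh746bdf53a475874c.shift 3 0), rhc1bfe9543b067f78, (rhd9106766b9ff53c0.shift 3 2)] (by decide +kernel))
noncomputable def rh5905d0c5a7853fcc : CRef := CRef.mk (Pat.mk 0x10000000100000001000000010 0x2f0000007f000000fe0000001000000010 8 8) 0 0 (step_sound _ 101 [(rh2f68792b6b779e96.shift 4 0), rh9579fbdd4fed95aa] (by decide +kernel))
noncomputable def rh17ee7bb5641ecbd8 : CRef := CRef.mk (Pat.mk 0x800000008000000000000001000000010 0x2800000028000001ff000000fe000001f60000007400000010 8 9) 0 0 (step_sound _ 100 [(rh2613c889e411427e.shift 3 0), rhef82af9599752da1] (by decide +kernel))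
noncomputable def rh892855ce0d8112b4 : CRef := CRef.mk (Pat.mk 0x60000000c000000000000000800000008 0x18000000180000007f0000007e0000003e000000330000001a0000000a 8 7) 0 0 (step_sound _ 100 [rh18e6dbd32b58cd20, (rhf48373e13d2bc128.shift 1 3)] (by decide +kernel))
noncomputable def rhf9167169cca5f6c2 : CRef := CRef.mk (Pat.mk 0x80000000800000018000000100000000000000000 0x6000000060000000f0000003f0000007f0000003f0000000e00000004 8 7) 0 0 (step_sound _ 130 [(rh3c3e23a02e82b2ed.shift 0 3), (rh6aa19bd7cc49bfe1.shift 1 0), (rh8bf5b88e2fd4a877.shift 0 1)] (by decide +kernel))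
noncomputable def rhd50cbf80abf708fe : CRef := CRef.mk (Pat.mk 0x200000000000000060000000400000004000000000 0x8000000b8000007bf000007ff000001df000000f800000038 8 11) 0 0 (step_sound _ 100 [rh1b28b11e217fcf71, (rh392a46c82338a8af.shift 3 1), (rh9ed5bb099649ffd3.shift 3 1), (rhc92c11e8da6c894f.shift 1 2), (rhe77cdbae63d92bd9.shift 2 2)] (by decide +kernel))
noncomputable def rh2f9774e1e968979d : CRef := CRef.mk (Pat.mk 0xc0000000800000008000000000000000400000000 0x200000002000000f3000000ff0000003f0000000c000000080000000c00000004 8 8) 0 0 (step_sound _ 164 [(rh157331829d7e18bc.shift 0 4), (rh2ee71eb9af75d676.shift 0 2), (rh3e5a028a89dac53b.shift 2 0)] (by decide +kernel))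
noncomputable def rhe9a589532a55a600 : CRef := CRef.mk (Pat.mk 0xc0000000800000008000000000000000400000000 0x12000000330000003f0000003f0000003f000000070000000400000004 8 6) 0 0 (step_sound _ 132 [rh43833f0bcc625770, (rh9d30289f2e9489f2.shift 0 1), (rhcf8e04ac2e2850fe.shift 0 3)] (by decide +kernel))
noncomputable def rh1134a378ad781f9a : CRef := CRef.mk (Pat.mk 0x4000000000000000e00000002000000000000000000000000 0x500000007000000030000001e00000003000000070000000700000005 8 5) 0 0 (step_sound _ 161 [rh054913cd4271e1df, (rh455743481e179fac.shift 0 2), (rhd9106766b9ff53c0.shift 0 3)] (by decide +kernel))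
noncomputable def rh3e341340f02a6686 : CRef := CRef.mk (Pat.mk 0x4000000000000000e0000000a000000000000000000000000 0x10000000700000007000000030000003e0000003e000000070000000700000007 8 6) 0 0 (step_sound _ 161 [rh054913cd4271e1df, rhb6ac7f51df1d9217, (rhe7d208b70c184706.shift 0 3)] (by decide +kernel))
noncomputable def rh54526730253c682f : CRef := CRef.mk (Pat.mk 0x8000000000000001c00000014000000000000000000000000 0xc0000000c000000040000001c0000007f0000007f0000000e0000000e 8 7) 0 0 (step_sound _ 99 [(rh2ed4ea5d5088228d.shift 0 2), (rh874a3eab24ee640d.shift 0 1), rh8a7feea2e172fa94, (rhd10c8da37127397f.shift 1 0)] (by decide +kernel))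
noncomputable def rh58d2b18183ba5155 : CRef := CRef.mk (Pat.mk 0x4000000000000000800000008000000000000000000000000 0x1c0000001e0000007f000000780000001e0000001c0000000c00000004 8 7) 0 0 (step_sound _ 163 [(rh374ae440e8011597.shift 2 0), (rh8086517763511632.shift 2 1), (rhbec796c3ea7a32e6.shift 1 2), (rhdcac8286c6816fcb.shift 0 2), (rhf4a9075c093c8e2d.shift 1 2)] (by decide +kernel))
noncomputable def rh57c9f133c3443a5e : CRef := CRef.mk (Pat.mk 0x1000000010000000200000003000000020000000000000000000000000 0x100000001c000001ef000000fc000001ef0000001c0000001c00000014 8 9) 0 0 (step_sound _ 131 [rhce0802f0a19fa004, (rhcf86d050071af9b3.shift 2 3), (rhfc4087b1b6938427.shift 2 3)] (by decide +kernel))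
noncomputable def rh87e65567662076b0 : CRef := CRef.mk (Pat.mk 0x10000000100000001000000010000000000000000000000000 0x10000000100000001f0000007f0000007f0000000e0000000400000004 8 7) 0 0 (step_sound _ 99 [(rh932754581e0f4330.shift 3 2), rhc21b047825ad623b] (by decide +kernel))
noncomputable def rh21b67c4ce2cec61b : CRef := CRef.mk (Pat.mk 0x3800000010 0x1c7000001fe000003f7 8 10) 0 0 (step_sound _ 34 [(rh2d1f2fe284a96b5d.shift 1 0), rh592c7139d2c44767, rhd0782bcc7d08fb46] (by decide +kernel))
noncomputable def rh8823b61760788f57 : CRef := CRef.mk (Pat.mk 0x1c00000002000000100000001000000000 0x4000000370000001e000000030000003f0000003f00000004 8 6) 0 0 (step_sound _ 129 [(rheb0810cc63b001d8.shift 0 3), rhf7292262bbcb8858] (by decide +kernel))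
noncomputable def rh43726b2af369debd : CRef := CRef.mk (Pat.mk 0x3c00000000 0x1dc000000fe000000e7 8 9) 0 0 (step_sound _ 1 [(rh80fcd6d0a18cb2dd.shift 1 0), rhe61ae9d83c9254c8] (by decide +kernel))
noncomputable def rh549f2e9395e6c4ca : CRef := CRef.mk (Pat.mk 0x3c000000000000000000000000 0x8000000080000003f0000003f0000000e0000000400000004 8 6) 0 0 (step_sound _ 66 [rh7cfb82cb87908dbe, (rheb0810cc63b001d8.shift 1 2)] (by decide +kernel))
noncomputable def rh5774febc9663c082 : CRef := CRef.mk (Pat.mk 0x1e00000000 0x1dc000000fe000000e7 8 9) 0 0 (step_sound _ 1 [(rh6e884208ef73b8aa.shift 1 0), rheb0810cc63b001d8] (by decide +kernel))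
noncomputable def rh0c69c576452bc4e8 : CRef := CRef.mk (Pat.mk 0x1000000018000000300000000000000000 0xc0000000c000000ef000000ff0000001f000000300000001000000010 8 8) 0 0 (step_sound _ 131 [(rh0a444d2316a5537b.shift 1 0), (rh610ef7b4c9ddf519.shift 0 2), (rhfc7c29d8e65d775f.shift 3 1)] (by decide +kernel))
noncomputable def rh6e7004bebeb95b59 : CRef := CRef.mk (Pat.mk 0x4000000060000000c0000000800000000 0x1a0000003e000000360000003f0000003c00000004 8 6) 0 0 (step_sound _ 68 [rhae03fee43939b013, (rhf48373e13d2bc128.shift 1 2)] (by decide +kernel))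
noncomputable def rhd0953c184e5f90a8 : CRef := CRef.mk (Pat.mk 0x4000000000000000e0000000800000000 0x3e0000003c00000074000000fe0000003f00000002 8 8) 0 0 (step_sound _ 68 [rh6140c0c92d5cad26, (rh67664dc1adb49e16.shift 1 1), (rhd625a5b9ef32dc90.shift 1 1)] (by decide +kernel))
noncomputable def rh8d42802c1a98842a : CRef := CRef.mk (Pat.mk 0x1000000018000000300000000000000000 0xe0000000e000000ef000000ff0000001f000000340000001400000010 8 8) 0 0 (step_sound _ 131 [(rh0a444d2316a5537b.shift 1 0), (rhd762135c016890ab.shift 0 1), (rhfc7c29d8e65d775f.shift 3 1)] (by decide +kernel))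
noncomputable def rh83eb44d79f94ce61 : CRef := CRef.mk (Pat.mk 0x80000000c0000001800000010000000000000000000000000 0x140000007c0000000f0000001f0000001f0000000e0000000c00000008 8 7) 0 0 (step_sound _ 161 [rh4f9c93f68d706483, (rhb739f4f82bb681b4.shift 0 4)] (by decide +kernel))
noncomputable def rheaae3fc3469ee246 : CRef := CRef.mk (Pat.mk 0x1000000010000000000000003800000000000000000000000000000000 0x100000001c0000000f0000007c0000000f0000001c0000001c00000014 8 7) 0 0 (step_sound _ 99 [(rh2820ca9a6c4f41b4.shift 0 3), rh87ac48798a50fab2, (rhc26fdd92192b4d67.shift 2 3)] (by decide +kernel))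
noncomputable def rh910c0c7ef57a2920 : CRef := CRef.mk (Pat.mk 0x4000000040000001c0000000800000000 0x40000000700000007a0000003e000000740000007c0000001f00000002 8 7) 0 0 (step_sound _ 34 [(rh04282a86a07cf483.shift 1 1), rhf5094ad2a427d4d3] (by decide +kernel))
noncomputable def rh8097db338449f3f9 : CRef := CRef.mk (Pat.mk 0x4000000000000000e000000080000000000000000 0x6000000770000003e0000003f0000000700000004 8 7) 0 0 (step_sound _ 100 [(rh47c07cd0cc865f65.shift 0 2), (rh6221654d33f9ba0a.shift 0 1), rh8ecaebd8af634e9f, rhafa5a7051d37b143, (rhb18e6c78a554867d.shift 0 3)] (by decide +kernel))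
noncomputable def rha13eff3ea3bfa584 : CRef := CRef.mk (Pat.mk 0x4000000000000001e00000008 0x1000000170000001f000000330000001e0000000b 8 6) 0 0 (step_sound _ 68 [(rh33e738c4ed385b9f.shift 1 1), rh6e7c90704641052a] (by decide +kernel))
noncomputable def rh69bb10e352c6943a : CRef := CRef.mk (Pat.mk 0x1000000010000000000000003800000020 0x5000000058000001ce000001fe0000003f 8 9) 0 0 (step_sound _ 38 [rh101ac83b0f51ab3b, (rheb505ef94539da28.shift 2 0), (rhed57d1a6d4db2db6.shift 3 0)] (by decide +kernel))
noncomputable def rhad75aa5f9a34cf02 : CRef := CRef.mk (Pat.mk 0x4000000040000000c000000180000000000000000 0x8000000180000003c0000003f0000001f0000001f0000003000000030 8 6) 0 0 (step_sound _ 97 [rh5cedefa7cbac11fc, (rhb739f4f82bb681b4.shift 0 2)] (by decide +kernel))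
noncomputable def rh8bc250230756df19 : CRef := CRef.mk (Pat.mk 0x800000018000000100000000000000000 0x240000007f0000003e0000001e0000007800000038 8 7) 0 0 (step_sound _ 36 [rh1397c739ded90af3, (rh7b1f1fb55310c477.shift 3 0)] (by decide +kernel))
noncomputable def rh87be90bdef511a0c : CRef := CRef.mk (Pat.mk 0x1000000010000000300000006000000000 0xc0000000c0000001f000000fe0000007c0000007c00000014 8 8) 0 0 (step_sound _ 67 [rh02aee79a4362176e, (rhb739f4f82bb681b4.shift 2 1)] (by decide +kernel))
noncomputable def rh076f5df2d0df8efc : CRef := CRef.mk (Pat.mk 0x100000003000000020000000000000000 0x1f0000001f00000007000000060000000600000006 8 5) 0 0 (step_sound _ 33 [rh7b1f1fb55310c477, rhb6d75b6192975145] (by decide +kernel))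
noncomputable def rh0801b67abda91994 : CRef := CRef.mk (Pat.mk 0x1800000018000000100000001000000000 0xe6000000ff00000038000000180000003800000028 8 8) 0 0 (step_sound _ 133 [(rh2f68792b6b779e96.shift 4 1), rh920cc34a0ff22d79] (by decide +kernel))
noncomputable def rh5f76b1d25afb5100 : CRef := CRef.mk (Pat.mk 0x1000000010000000300000002000000000 0x800000028000000ef000001fe000000ff000000700000007000000050 8 9) 0 0 (step_sound _ 131 [(rh1e22cd98e32bfbbb.shift 3 0), (rh98a9d12a5046b73d.shift 1 0), (rhc86e3ab3c2b165e9.shift 2 0), rheb0c8b237632ef9b, (rhf9a6286f1d5377a2.shift 3 1)] (by decide +kernel))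
noncomputable def rhd3e6709261a87a08 : CRef := CRef.mk (Pat.mk 0x8000000080000000800000010 0xc0000000c0000000c0000003c0000001f0000001e 8 6) 0 0 (step_sound _ 131 [rh164a29405dfe118b, (rhd3458b32566d63f7.shift 3 0)] (by decide +kernel))
noncomputable def rh21a3f79b3a2cbde0 : CRef := CRef.mk (Pat.mk 0x100000000000000008000000080000000800000000 0x1e0000001f0000003c0000000c0000000c0000000c 8 6) 0 0 (step_sound _ 131 [rhacc5f7c6cf37f1f9, (rhbaefcd01e0a8bca3.shift 3 1)] (by decide +kernel))
noncomputable def rha920629b574224b5 : CRef := CRef.mk (Pat.mk 0x400000001000000020000000200000002000000000 0x2000000068000000680000003e000000ff000000f60000003c00000038 8 8) 0 0 (step_sound _ 100 [rh089273bd4e659c11, (rh7b1f1fb55310c477.shift 4 0)] (by decide +kernel))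
noncomputable def rh39ce2b0da264c6da : CRef := CRef.mk (Pat.mk 0x30000000100000001000000000 0xc0000000c000001cf000001fe000001fe0000001800000010 8 9) 0 0 (step_sound _ 99 [(rh3c5dd69216fb25bf.shift 0 1), (rhb19ce9de7b15c857.shift 2 0), (rhf9a6286f1d5377a2.shift 3 0)] (by decide +kernel))
noncomputable def rh6913e8260b969514 : CRef := CRef.mk (Pat.mk 0x1800000010000000100000003000000000 0x400000004000000040000001e000000ff0000007e0000007800000010 8 8) 0 0 (step_sound _ 99 [(rh7b1f1fb55310c477.shift 3 0), (rhd475b04427b6407b.shift 0 1)] (by decide +kernel))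
noncomputable def rha2087d1ec9259011 : CRef := CRef.mk (Pat.mk 0x1800000008000000100000000000000000 0xc0000000c0000001e0000007f0000003f000000f00000003000000030 8 8) 0 0 (step_sound _ 100 [(rh08258b0e9e44dea9.shift 1 0), (rh21c1cd8e28d8ee64.shift 0 2), (rhfc7c29d8e65d775f.shift 3 1)] (by decide +kernel))
noncomputable def rhbfb1150452a3a47c : CRef := CRef.mk (Pat.mk 0x1800000008000000100000000000000000 0xc0000000c0000002e0000007f0000003f000000300000001000000010 8 7) 0 0 (step_sound _ 100 [(rh21c1cd8e28d8ee64.shift 0 2), (rh3cb04db3dd2b6a55.shift 3 0), (rh677e6fbb651585de.shift 1 0)] (by decide +kernel))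
noncomputable def rhe1ef515661eedfa8 : CRef := CRef.mk (Pat.mk 0x8000000080000000800000008 0xc0000001c0000007c0000001f0000000c0000000c 8 7) 0 0 (step_sound _ 100 [(rh2f68792b6b779e96.shift 3 0), rhd28935070554fe11] (by decide +kernel))
noncomputable def rh9e0e112c96ce9e76 : CRef := CRef.mk (Pat.mk 0x80000000c000000180000000000000000 0x80000001c0000003e0000007f0000000c0000007c0000000800000008 8 7) 0 0 (step_sound _ 69 [rh761c480cc30f883b, (rhf48373e13d2bc128.shift 2 2)] (by decide +kernel))
noncomputable def rhc65ea9caad335df5 : CRef := CRef.mk (Pat.mk 0x2000000030000000600000000000000000000000000000000 0x1d0000001f0000000b0000001f00000006000000070000000700000001 8 5) 0 0 (step_sound _ 131 [rhe1c99b1e51d43f05, (rhf48373e13d2bc128.shift 0 4)] (by decide +kernel))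
noncomputable def rh0a0fa3bba4ba4fe6 : CRef := CRef.mk (Pat.mk 0x1000000010000000100000003000000000 0x1ef000000fe000001df0000001e0000007800000008 8 9) 0 0 (step_sound _ 35 [(rh932754581e0f4330.shift 3 0), (rhdc57c15a6a9ee130.shift 0 1)] (by decide +kernel))
noncomputable def rhfa0ab2f6387bf6dc : CRef := CRef.mk (Pat.mk 0x8000000080000001800000018000000000000000000000000 0x80000000b0000001f0000003f000000070000000700000005 8 6) 0 0 (step_sound _ 129 [rh0f5734572d3869e8, (rh114380420d2c6317.shift 0 2), (rhcd6baf37b3e5de21.shift 0 3)] (by decide +kernel))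
noncomputable def rha8af4fe726c4a50b : CRef := CRef.mk (Pat.mk 0x800000008000000180000001800000000 0x140000003c0000000f0000001c0000001f00000007 8 6) 0 0 (step_sound _ 34 [rh5bf73b18bea853d8, (rh932754581e0f4330.shift 2 0)] (by decide +kernel))
noncomputable def rhdb724fa847a38133 : CRef := CRef.mk (Pat.mk 0x800000008000000180000001800000000 0x140000001f0000000f0000001b0000001f00000007 8 5) 0 0 (step_sound _ 34 [(rh932754581e0f4330.shift 2 0), rhe667250e2b61e92f] (by decide +kernel))
noncomputable def rh67a82b7d56c81a67 : CRef := CRef.mk (Pat.mk 0x10000000100000003000000030 0x1ef000000fe000001de0000003e00000074 8 9) 0 0 (step_sound _ 99 [(rh50fbb5868c909700.shift 3 0), rhcbd2fcbf3212ba28] (by decide +kernel))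
noncomputable def rh4cdf6f2843e8569a : CRef := CRef.mk (Pat.mk 0x800000008000000100000001000000000 0x2800000028000001ef000000fe000001f60000001400000010 8 9) 0 0 (step_sound _ 100 [(rh1f8780027c824129.shift 0 1), (rh7b1f1fb55310c477.shift 3 0)] (by decide +kernel))
noncomputable def rhc010bdd7dd48c354 : CRef := CRef.mk (Pat.mk 0x800000008000000080000000800000000 0x100000001800000018000001f8000000ff000001f4 8 9) 0 0 (step_sound _ 132 [(rh2f68792b6b779e96.shift 3 1), rhaac851d24c206b72] (by decide +kernel))
noncomputable def rh707c84df3fd912a5 : CRef := CRef.mk (Pat.mk 0x4000000040000000400000000000000000000000000000000 0x4000000040000000e0000000f0000003c0000000f0000000e0000000e00000008 8 6) 0 0 (step_sound _ 98 [(rh3ca4c10fdf355329.shift 0 2), (rh6eff4158bb400f47.shift 1 1), (rhb4d78cd0e58cc17c.shift 1 0), (rhce923e515af857c2.shift 0 1), (rhff6b27c9612d7353.shift 1 1)] (by decide +kernel))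
noncomputable def rh192aa81ae654871b : CRef := CRef.mk (Pat.mk 0x1800000000000000100000001000000000 0x180000001800000010000000ff0000007e00000027 8 8) 0 0 (step_sound _ 100 [(rh50fbb5868c909700.shift 3 1), rh5afb8476541374fe] (by decide +kernel))
noncomputable def rh81c4c4aaee75d2d0 : CRef := CRef.mk (Pat.mk 0x1800000000000000100000001000000000 0x300000003c000000f0000000ff0000007e00000037 8 8) 0 0 (step_sound _ 100 [rh5afb8476541374fe, (rh5eb116785a745a33.shift 2 0)] (by decide +kernel))
noncomputable def rh1483561803ad01b8 : CRef := CRef.mk (Pat.mk 0x80000000000000018000000100000000000000000 0x280000007c000001ef0000007e000000760000001400000010 8 9) 0 0 (step_sound _ 131 [(rh2145e1d24b96a57e.shift 3 2), rh96d52b8824ecb6b9] (by decide +kernel))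
noncomputable def rhb930493778b0c41a : CRef := CRef.mk (Pat.mk 0xc0000000c000000080000000000000000 0x700000007f0000003c000000180000001800000018 8 7) 0 0 (step_sound _ 35 [(rh7b1f1fb55310c477.shift 2 0), rhd40b56021890c9d5] (by decide +kernel))
noncomputable def rhcaa13ed2ad44917a : CRef := CRef.mk (Pat.mk 0x4000000000000000e0000000c 0x380000003c000000370000007e0000003e 8 7) 0 0 (step_sound _ 4 [rhd2beeea637afa0d1, (rhf48373e13d2bc128.shift 1 0)] (by decide +kernel))
noncomputable def rh889e4cef1f25dfc0 : CRef := CRef.mk (Pat.mk 0x10000000000000003800000020000000000000000000000000 0x40000001c0000001c0000000f000000fe0000003f0000000e0000000c00000004 8 8) 0 0 (step_sound _ 99 [(rh2820ca9a6c4f41b4.shift 0 3), (rh5c05ce7e7edd1894.shift 0 3), (rh7b944570079f6afb.shift 2 3), rhb12fba180b5315c9] (by decide +kernel))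
noncomputable def rh06e7b202d947f4d6 : CRef := CRef.mk (Pat.mk 0x8000000040000001c0000001000000000 0x20000002e0000003e000000e40000007c0000007f00000002 8 8) 0 0 (step_sound _ 38 [(rh3a2bc0e0b7e11ddd.shift 1 1), rh5c540ae62c613092, (rh7e0ee40cdcec552d.shift 1 0), (rhe28dc3223a412fc9.shift 2 1)] (by decide +kernel))
noncomputable def rhe47c8bda911c6e11 : CRef := CRef.mk (Pat.mk 0x10000000100000001000000010000000000000000000000000 0x1000000018000000ff000000fe000001ef0000000400000004 8 9) 0 0 (step_sound _ 101 [(rh55afc6a59410cf00.shift 4 2), rha68d12b0e6808cc2] (by decide +kernel))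
noncomputable def rhfce98fb461631c67 : CRef := CRef.mk (Pat.mk 0x400000004000000080000000800000008000000080000000000000000 0x4000000060000001b0000003f0000003f0000000c0000000c0000000c 8 6) 0 0 (step_sound _ 34 [rh645956359d34a754, (rh79877ebd3ef475dd.shift 2 1)] (by decide +kernel))
noncomputable def rh6dba34dd37ff2131 : CRef := CRef.mk (Pat.mk 0x2000000000000000400000004000000000000000000000000 0xe0000003e000000070000003c0000000f0000000e0000000e0000000a 8 6) 0 0 (step_sound _ 162 [(rhc05d451ce3dd5e48.shift 1 0), (rhd23cdb3fcba554f1.shift 1 1), (rhdd4a88dd80c6f4d0.shift 0 2), (rhf4a9075c093c8e2d.shift 0 2)] (by decide +kernel))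
noncomputable def rheb7691d9bbfcfdc0 : CRef := CRef.mk (Pat.mk 0x100000003000000010 0xc0000000c000003ff000001ff0000001f 8 10) 0 0 (step_sound _ 38 [(rh11a60a6b1e31dba2.shift 3 0), rh86656d8431708753, (rha7edc60fc34bffff.shift 2 1), (rhd9106766b9ff53c0.shift 3 0)] (by decide +kernel))
noncomputable def rh96dff9da4c572690 : CRef := CRef.mk (Pat.mk 0xc0000001800000000 0x10000000140000001c0000007f0000003f0000001b0000000a 8 7) 0 0 (step_sound _ 65 [rh15436e1f30a2c60a, (rhb739f4f82bb681b4.shift 0 1)] (by decide +kernel))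
noncomputable def rhe5ca894c293080b8 : CRef := CRef.mk (Pat.mk 0x60000000c000000000000000000000000 0x1a0000001e0000007f0000007e0000003f000000070000000200000002 8 7) 0 0 (step_sound _ 100 [rhca4c3b91431ceaef, (rhf48373e13d2bc128.shift 1 3)] (by decide +kernel))
noncomputable def rh65166475994cef26 : CRef := CRef.mk (Pat.mk 0xc00000018 0x30000000300000003f0000003f00000038 8 6) 0 0 (step_sound _ 33 [rha6683bd745c844c8, rhb739f4f82bb681b4] (by decide +kernel))
noncomputable def rh6b8c9a3a0dbe42f5 : CRef := CRef.mk (Pat.mk 0xc000000180000000000000000 0x30000000360000003f0000003f0000001f0000000700000007 8 6) 0 0 (step_sound _ 97 [(rhb739f4f82bb681b4.shift 0 2), rhbb6ff6f6d54a477c] (by decide +kernel))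
noncomputable def rhdb267567957c98e2 : CRef := CRef.mk (Pat.mk 0x1800000030000000000000002000000020 0x1c0000001c0000001f000000f8000000ff0000000f0000003c0000007c 8 8) 0 0 (step_sound _ 102 [rheef80713fefe56e7, (rhf48373e13d2bc128.shift 3 3)] (by decide +kernel))
noncomputable def rh9b202401cb2f5143 : CRef := CRef.mk (Pat.mk 0x800000008000000080000000c00000000000000000000000000000000 0x18000000180000001c0000001f000000180000001c0000000c00000004 8 5) 0 0 (step_sound _ 100 [(rhd3458b32566d63f7.shift 3 3), rhe1a83c105518f8f5] (by decide +kernel))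
noncomputable def rhd4d75aa1c5c58a00 : CRef := CRef.mk (Pat.mk 0x10000000100000001800000008000000000000000000000000 0x1e0000003f0000007f0000007f000000370000003600000002 8 7) 0 0 (step_sound _ 130 [(rh5dec5e73a267a1c4.shift 0 3), (rh7c54c14170542785.shift 0 1), rhd6c4fd35665948f6] (by decide +kernel))
noncomputable def rhd3ffc1b60c05cfe0 : CRef := CRef.mk (Pat.mk 0x200000002000000030000000100000000000000000 0x20000000fe000000fe000000df000000f800000050 8 8) 0 0 (step_sound _ 102 [(rh4905ac576375a3ff.shift 3 1), (rh537ce11475610c32.shift 1 0), (rh90c43e6495f14677.shift 0 1)] (by decide +kernel))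
noncomputable def rh5b6479a090f57da5 : CRef := CRef.mk (Pat.mk 0x1000000010000000200000003000000020000000000000000000000000 0x100000001c000001ef000000fe000001ff0000000e0000000c00000004 8 9) 0 0 (step_sound _ 131 [(rhcf86d050071af9b3.shift 2 3), (rhe0ae70e64d66fa49.shift 2 3), rhe1ba2f531beb13bf] (by decide +kernel))
noncomputable def rhefcd8589e41046cb : CRef := CRef.mk (Pat.mk 0x40000000400000004000000060000000000000000000000000 0x40000000600000007f000003fe0000009f0000001000000010 8 10) 0 0 (step_sound _ 103 [(rh55afc6a59410cf00.shift 6 2), rhcfe88172d56e6334] (by decide +kernel))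
noncomputable def rhb78173f7b139f031 : CRef := CRef.mk (Pat.mk 0x10000000100000001000000000000000000000000000000000 0x2f0000007e000000ff0000001000000018000000380000003800000028 8 8) 0 0 (step_sound _ 100 [(rh217db693e04106a5.shift 3 0), (rh2cd516f7d9313028.shift 0 3), (rhc850b49d039efae1.shift 3 0)] (by decide +kernel))
noncomputable def rh88e49433b6bf2ac2 : CRef := CRef.mk (Pat.mk 0x8000000080000000800000008000000000000000000000000 0x1c0000001f0000000c000000180000001c0000001c00000004 8 5) 0 0 (step_sound _ 68 [rhceb7adaa7bccad7f, (rhd3458b32566d63f7.shift 3 2)] (by decide +kernel))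
noncomputable def rhf42e54da2301d9c9 : CRef := CRef.mk (Pat.mk 0x8000000000000001800000010000000100000000000000000 0xc0000000e000000fe0000007f000000fe0000000e00000004 8 8) 0 0 (step_sound _ 99 [rh595774e9248220cc, (rh6f1cbe15c631ee70.shift 3 2)] (by decide +kernel))
noncomputable def rh506ca7837793fef4 : CRef := CRef.mk (Pat.mk 0xc00000008000000080000000800000000 0xc0000000c0000007f0000007f00000017 8 7) 0 0 (step_sound _ 34 [rh1f30d04a0d67428b, (rh932754581e0f4330.shift 2 0)] (by decide +kernel))
noncomputable def rha0e8cc203761b548 : CRef := CRef.mk (Pat.mk 0x10000000000000003800000008000000000000000000000000 0x40000001c0000003c0000000f0000003c0000000e0000001c0000001c00000014 8 6) 0 0 (step_sound _ 163 [(rh054913cd4271e1df.shift 2 0), rh0b94c84872a71742, (rh22d86f446f3de558.shift 0 2), (rh6f2bbc1c5c914e96.shift 1 2), (rh8f3c544a17d1186e.shift 2 2)] (by decide +kernel))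
noncomputable def rhfb2ba2f403f4170d : CRef := CRef.mk (Pat.mk 0x300000001000000030000000000000000000000000 0x40000000f00000003e0000007f000000f00000007000000020 8 8) 0 0 (step_sound _ 69 [(rh08edf065357d68e5.shift 4 0), (rh79ad7b82ec8c35e2.shift 4 0), (rhdb488d682bd112c8.shift 0 1)] (by decide +kernel))
noncomputable def rh1b7a19b534ac79d6 : CRef := CRef.mk (Pat.mk 0x1800000008000000180000000800000000000000000000000000000000 0x180000000f0000001c000000180000001c0000001c0000001c00000010 8 5) 0 0 (step_sound _ 99 [(rh8cdd36b03d57a2f6.shift 2 1), rh8fc16c45a09fa28e, (rh96f119fce01cb5f6.shift 2 1), (rhd29a1fb688eae70f.shift 3 2)] (by decide +kernel))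
noncomputable def rhac1dfdd7ec39434b : CRef := CRef.mk (Pat.mk 0x180000000c00000018000000000000000000000000 0x1000000050000000f0000000780000002f0000003c000000f00000005000000010 8 8) 0 0 (step_sound _ 129 [(rh1c151f90805625db.shift 1 0), (rh53b3c253cb0c65f4.shift 0 4)] (by decide +kernel))
noncomputable def rhbe6cd50dca43f167 : CRef := CRef.mk (Pat.mk 0x600000003000000060000000000000000 0x1c0000003c0000001e0000003f0000000f0000000c0000000c 8 6) 0 0 (step_sound _ 131 [rh1860f0b2744fda46, (rh18965a982d73c794.shift 0 3)] (by decide +kernel))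
noncomputable def rh1d8b71b6689807c2 : CRef := CRef.mk (Pat.mk 0x40000000400000004000000000000000000000000 0xe0000000e0000000f0000003c0000000e0000000e000000060000000600000002 8 6) 0 0 (step_sound _ 65 [(rh0e6924d680f6455d.shift 1 0), (rh3743dbe66b959104.shift 1 0), (rh544d3caba1e1e2bb.shift 1 0), (rh86df07471c1fbc22.shift 1 1), (rhc223390219a649bf.shift 0 2)] (by decide +kernel))
noncomputable def rhce6ead8f6b95c782 : CRef := CRef.mk (Pat.mk 0x800000008000000080000000c0000000000000000 0x140000001c0000001c00000008000000080000000c0000001f0000001800000010 8 5) 0 0 (step_sound _ 195 [rh6c928d5dc1cab9df, (rh79877ebd3ef475dd.shift 2 2)] (by decide +kernel))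
noncomputable def rhfc32ac65700abc92 : CRef := CRef.mk (Pat.mk 0x8000000080000000800000000000000000000000000000000 0x100000001c0000001c0000003c000000780000001e000000380000001f0000001c0000001c00000010 8 7) 0 0 (step_sound _ 132 [(rh70e33bfdf511e144.shift 3 1), (rh8d87fd7a6a470669.shift 0 1), (rhbab17018530bcbea.shift 2 0), (rhc33c42c15deeba8e.shift 2 3)] (by decide +kernel))
noncomputable def rh7b454b90c68015eb : CRef := CRef.mk (Pat.mk 0x800000008000000080000001c000000000000000000000000 0x40000000c000000180000007f0000003f000000600000002000000020 8 7) 0 0 (step_sound _ 194 [(rh50fbb5868c909700.shift 2 3), rh954d416ac6a52780] (by decide +kernel))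
noncomputable def rhf9395e73badfa545 : CRef := CRef.mk (Pat.mk 0x800000008000000080000001800000000 0x30000000780000001e0000003c000000ff00000024 8 8) 0 0 (step_sound _ 34 [rh3be65c0cd0b2e413, (rh932754581e0f4330.shift 2 0)] (by decide +kernel))
noncomputable def rh5bba2aa8209b0dac : CRef := CRef.mk (Pat.mk 0x800000008000000080000000800000000 0x40000000c0000000c0000003f0000003f00000017 8 6) 0 0 (step_sound _ 36 [(rh55afc6a59410cf00.shift 3 0), rhebb7997e8617a9b1] (by decide +kernel))
noncomputable def rhad2935f330dc4222 : CRef := CRef.mk (Pat.mk 0x30000000100000000000000000 0x8000000880000038f000001fe000003ff0000005000000050 8 10) 0 0 (step_sound _ 102 [(rh2820ca9a6c4f41b4.shift 1 2), (rh3054f1b57b66b1f5.shift 3 0), (rh325eb92a27660aca.shift 3 0), (rhb02f9c2bd63f56db.shift 3 2), rhef9f57f75da1bc24] (by decide +kernel))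
noncomputable def rh4fbe2ffbe3e7473a : CRef := CRef.mk (Pat.mk 0x8000000080000000800000008 0x200000002000000170000003f0000003f0000000c00000008 8 6) 0 0 (step_sound _ 98 [(rh50fbb5868c909700.shift 2 0), rh709c43411c5f6d85] (by decide +kernel))
noncomputable def rh65113ca1cfcb3ae9 : CRef := CRef.mk (Pat.mk 0x2000000020000000200000002 0x400000007000000070000000700000006000000070000000700000006 8 3) 0 0 (step_sound _ 129 [(rh1741680720c097b4.shift 0 1), (rh44f453b84f013105.shift 1 0), rh5abfc4c9d959be03, (rhced6d86d2069808b.shift 1 0), (rhd9c1e4fd1769baf3.shift 0 1)] (by decide +kernel))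
noncomputable def rh3051c8cf641dacf4 : CRef := CRef.mk (Pat.mk 0x200000003000000000000000300000001000000000 0x1ff000000fe0000000f000000ff000000fe0000000c 8 9) 0 0 (step_sound _ 35 [(rh421706d92baf67ae.shift 0 1), rh5b36bafb3a59e980, (rh69012675dfdb1a5b.shift 1 1)] (by decide +kernel))
noncomputable def rhcfc9b6ea87cf21f5 : CRef := CRef.mk (Pat.mk 0x180000000c000000000000000000000000 0x7000000070000001f000000ff0000007f0000003600000030 8 8) 0 0 (step_sound _ 97 [rh33483633dcf96de4, (rh53b3c253cb0c65f4.shift 0 3)] (by decide +kernel))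
noncomputable def rh11f707992f362504 : CRef := CRef.mk (Pat.mk 0x2000000020000000000000003000000018000000000000000000000000 0x7c0000003c0000000f000000ff000000f80000001c0000001800000018 8 8) 0 0 (step_sound _ 134 [(rh18965a982d73c794.shift 3 3), rh2a9b6775a40c8ac5] (by decide +kernel))
noncomputable def rh61fc00658d662274 : CRef := CRef.mk (Pat.mk 0x800000008000000000000000400000000 0x140000001c0000001c0000001f000000380000000e0000007c0000001c 8 7) 0 0 (step_sound _ 67 [rh75903d57816e834a, (rh7fa47a9cc089c0a8.shift 1 0), (rhb083f739e1ba9c59.shift 2 1), (rhb77bfac3e9efecea.shift 2 1)] (by decide +kernel))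
noncomputable def rh66545b54de5b6ba2 : CRef := CRef.mk (Pat.mk 0x10000000180000000800000008 0x4000003f7000001ff000000fe00000008 8 10) 0 0 (step_sound _ 69 [(rh35ddff02ed3698fa.shift 0 1), (rha8e118612a5545ec.shift 1 0), (rhdc1641106d7e5aa2.shift 2 1)] (by decide +kernel))
noncomputable def rhf5ea6d643b8a4297 : CRef := CRef.mk (Pat.mk 0x1c00000004000000040000000000000000 0x1000000012000000330000001f0000003f0000000c0000000400000004 8 6) 0 0 (step_sound _ 129 [(rh132883a60cd8aed8.shift 0 1), rhb9506699d9b53d6d, (rhe4f9133a81c1dbc5.shift 0 2)] (by decide +kernel))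
noncomputable def rh17dd5508533e3038 : CRef := CRef.mk (Pat.mk 0x1000000010000000180000000000000008 0x80000003e000000ff0000007e0000000e0000000c 8 8) 0 0 (step_sound _ 99 [(rh9e3edb185cc347de.shift 3 0), rhac9cca7e3697d76f] (by decide +kernel))
noncomputable def rha16c6028ebc2e207 : CRef := CRef.mk (Pat.mk 0x8000000080000000c 0x140000001c0000001c0000001f0000003f0000003f0000001c0000001c 8 6) 0 0 (step_sound _ 99 [rh26de692f03d4cb57, (rh7f298c791320b367.shift 2 0), (rh9a369cb82ea472da.shift 2 0)] (by decide +kernel))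
noncomputable def rhdb63aa454c2bde81 : CRef := CRef.mk (Pat.mk 0x18000000080000000800000008 0x2000000020000000e4000000ff0000007f0000001800000008 8 8) 0 0 (step_sound _ 98 [(rh00bb38b43a44f273.shift 0 1), (rh50fbb5868c909700.shift 2 0)] (by decide +kernel))
noncomputable def rhfd585e588476eb96 : CRef := CRef.mk (Pat.mk 0x10000000100000001000000000 0x28000000380000003800000010000000ff0000007e0000002f 8 8) 0 0 (step_sound _ 132 [(rh1741680720c097b4.shift 3 1), rh7843752f6ce36363, (rhced6d86d2069808b.shift 4 0)] (by decide +kernel))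
noncomputable def rh8fbd62e09f8d256a : CRef := CRef.mk (Pat.mk 0x300000001800000010000000000000000000000000 0x1000000010000000300000001f000000ff000000ef0000000c0000000c 8 8) 0 0 (step_sound _ 99 [(rh503dd4575245365b.shift 3 2), (rh8564be3c15eb8f39.shift 1 2), rhd9c7b3a8dfba32ff] (by decide +kernel))
noncomputable def rh0e033db10d8d0fd1 : CRef := CRef.mk (Pat.mk 0x20000000300000001000000010 0x280000007c000001ef000000fe0000001f00000010 8 9) 0 0 (step_sound _ 133 [(rh5c5e593799055d58.shift 4 1), rhce1c5639bc12096a] (by decide +kernel))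
noncomputable def rh513d40f7ad55eba6 : CRef := CRef.mk (Pat.mk 0x7000000018 0x1c0000003c000000fe0000007f00000078 8 8) 0 0 (step_sound _ 35 [(rh06d16ed1005b3fa2.shift 1 0), rh210e2d9c685c857e, (rhb09f4c5eaef57401.shift 2 0)] (by decide +kernel))
noncomputable def rh81645dc79142ef50 : CRef := CRef.mk (Pat.mk 0x6000000038000000000000001000000000 0x1800000018000000fe0000007e000000f80000000f0000003c0000001c 8 8) 0 0 (step_sound _ 131 [(rh03cfd1feceb34932.shift 2 2), rh20f6822e18784894, (rh4e9ba1e1df561d15.shift 1 0), rh6f09a5409313ec9c, (rh7a3ca66586c81554.shift 1 3), (rhd4a664a01c4589b3.shift 2 0)] (by decide +kernel))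
noncomputable def rh2f7291db46f83cc0 : CRef := CRef.mk (Pat.mk 0x80000000800000000000000040000000000000000 0x140000001c0000001c0000001f0000003c0000000c0000001c0000001c00000004 8 6) 0 0 (step_sound _ 99 [(rh067b6b76d11631bd.shift 0 1), (rh544d3caba1e1e2bb.shift 2 0), (rh9fb9dc683e09b5f3.shift 2 2)] (by decide +kernel))
noncomputable def rh4c79f501f451e457 : CRef := CRef.mk (Pat.mk 0x1000000000000000180000000800000008 0x10000000100000003000000034000001f6000001fe000003af00000008 8 10) 0 0 (step_sound _ 69 [(rh2820ca9a6c4f41b4.shift 0 1), (rhcb90f7dc76fe18cf.shift 2 1), (rhf3c34b46e125b283.shift 2 1), (rhfff8d1c8f71f1b0d.shift 1 0)] (by decide +kernel))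
noncomputable def rh0d5b008499ec8169 : CRef := CRef.mk (Pat.mk 0x180000000c000000080000000000000000 0x200000006000000070000001f0000003f0000007f0000003200000030 8 7) 0 0 (step_sound _ 97 [rh47be25f5cc7e1d20, (rh53b3c253cb0c65f4.shift 0 3)] (by decide +kernel))
noncomputable def rhdd0a63b95caefe79 : CRef := CRef.mk (Pat.mk 0x8000000000000000c000000060000000400000000 0x2800000038000000380000003a000000330000003f0000001e0000003c00000008 8 6) 0 0 (step_sound _ 100 [(rh18965a982d73c794.shift 1 2), rhf47e623f1a8c665d] (by decide +kernel))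
noncomputable def rh65a019d5030ab10f : CRef := CRef.mk (Pat.mk 0x600000002000000020000000000000000000000000 0x18000000180000003e000001fe0000007f00000070000000600000004000000040 8 9) 0 0 (step_sound _ 70 [(rh47dece01c1595e79.shift 5 0), (rh4ca5c9a31b87651c.shift 0 2)] (by decide +kernel))
noncomputable def rh7c2ae6b05fa6a484 : CRef := CRef.mk (Pat.mk 0x3800000010000000100000001000000000 0x1c7000001fe000003f7000000100000003800000028 8 10) 0 0 (step_sound _ 37 [(rh55afc6a59410cf00.shift 4 0), rheba0d62924a808f7] (by decide +kernel))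
noncomputable def rh2692a3837f6386ac : CRef := CRef.mk (Pat.mk 0x600000002000000020000000000000000000000000 0x180000001800000e3e000007fe00000e7f00000070000000600000006000000040 8 12) 0 0 (step_sound _ 70 [(rh0a9061e5893d353c.shift 2 1), (rh47dece01c1595e79.shift 5 0), (rh4ca5c9a31b87651c.shift 0 2)] (by decide +kernel))
noncomputable def rh2d7ab781e8c7e13f : CRef := CRef.mk (Pat.mk 0x100000001c000000300000000000000000 0x20000000a0000000f0000001f0000007c000000360000001e0000001c 8 7) 0 0 (step_sound _ 131 [(rh234657a777e94638.shift 1 0), (rh4401153ace7e060d.shift 0 1), (rhfc7c29d8e65d775f.shift 3 1)] (by decide +kernel))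
noncomputable def rhb200d10b16341678 : CRef := CRef.mk (Pat.mk 0x800000008000000180000001000000000 0x10000000300000007f0000003f0000007f0000007600000024 8 7) 0 0 (step_sound _ 98 [(rh0fcb228d13e9ff47.shift 1 0), (rh5c5a2014709044d0.shift 0 2), rh6d340c3f7e685c62, (rhb0121edee88fe839.shift 0 2)] (by decide +kernel))
noncomputable def rh0e7bcf99e76261c9 : CRef := CRef.mk (Pat.mk 0x100000003800000000 0x1fe000000fe000001c7 8 9) 0 0 (step_sound _ 34 [rh55c4ed4acec0f063, (rhacc14abdd2bd6787.shift 1 0), (rhc209bf20aa970129.shift 1 1)] (by decide +kernel))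
noncomputable def rhc2d3e7a3a0370601 : CRef := CRef.mk (Pat.mk 0x40000001c000000060000000000000000 0x180000007a0000001f0000001c0000001e0000003c00000018 8 7) 0 0 (step_sound _ 131 [(rh84d1c02a8954c6a8.shift 2 1), rh89125a41ca3eeff1, rhed8f205b5809efd7] (by decide +kernel))
noncomputable def rh44f8239348adaee0 : CRef := CRef.mk (Pat.mk 0x8000000180000000c00000000 0x800000038000000f80000001c0000001c0000001f00000018 8 8) 0 0 (step_sound _ 33 [(rh53b3c253cb0c65f4.shift 0 1), (rh97fe0d015ec4887a.shift 2 0)] (by decide +kernel))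
noncomputable def rhd9c788dc817ec9f7 : CRef := CRef.mk (Pat.mk 0xc000000080000000800000000 0x40000001e0000007f0000003e0000000c0000000e00000006 8 7) 0 0 (step_sound _ 130 [rhb6625b165360b1f4, (rhc89253ff58c66167.shift 2 1), (rhe072fffdd2fccf38.shift 2 1)] (by decide +kernel))
noncomputable def rhaf48ceacc378cacf : CRef := CRef.mk (Pat.mk 0x1000000030000000200000002000000000 0x10000000100000001f000000fe000001ef0000007c00000008 8 9) 0 0 (step_sound _ 164 [(rh2145e1d24b96a57e.shift 4 2), rhe2aa65f5427e7c27] (by decide +kernel))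
noncomputable def rh9dc063451b54a109 : CRef := CRef.mk (Pat.mk 0x800000018000000100000001000000000 0x60000000f000000fe000000ff0000003e0000000e 8 8) 0 0 (step_sound _ 69 [rh0f7a1ddfedddfd24, (rh4ca5dae25f5c14ff.shift 1 2), (rh75ea294132184f25.shift 2 2), (rhd58a94a69b1f54b7.shift 0 1), (rhdeca8db941583de2.shift 1 2)] (by decide +kernel))
noncomputable def rhfe28f6921fdaf2ed : CRef := CRef.mk (Pat.mk 0xe0000001800000008000000000000000000000000 0x80000000a0000000e0000001f0000003f0000003f0000001600000004 8 6) 0 0 (step_sound _ 100 [rh11b0b5f3fa3f7748, (rh3e595262c1b737ad.shift 3 2), (rh71aa001fb5ac6845.shift 0 1)] (by decide +kernel))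
noncomputable def rh621cd4e4141c3775 : CRef := CRef.mk (Pat.mk 0x2000000030000000100000001800000000 0x1f7000001fe000001d70000007c0000006c 8 9) 0 0 (step_sound _ 99 [(rh4948c8613cb96f0e.shift 2 0), rh6d6b5ee9b1027c4d, (rhb12ffaec36122c99.shift 0 2), (rhfe0cfe027ecde590.shift 2 0)] (by decide +kernel))
noncomputable def rhf117762c688f2068 : CRef := CRef.mk (Pat.mk 0x4000000060000000200000003000000000 0x2000000060000001f0000001bf000000fe000003ce 8 10) 0 0 (step_sound _ 38 [rh3423aa33d24af2a0, (rh49265eb4834c41f4.shift 2 0), (rh76c7d684ce6437a0.shift 2 0), (rhd5979d9ced4acd89.shift 3 0)] (by decide +kernel))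
noncomputable def rh97168eacc952f7f5 : CRef := CRef.mk (Pat.mk 0x20000000300000001000000018000000000000000000000000 0xe4000000fe000000df0000007f000000ef0000000e0000000e 8 8) 0 0 (step_sound _ 131 [rh10db1e4357a7df2c, (rh59b5981939706c12.shift 2 1), (rhd69c262cd33b94b3.shift 1 4)] (by decide +kernel))
noncomputable def rh5b7c6e02c3a7f353 : CRef := CRef.mk (Pat.mk 0x7000000018000000100000000000000000 0x50000000d00000007c000000f80000007f0000007f0000000c 8 8) 0 0 (step_sound _ 67 [(rh08db5d18a0a1eb20.shift 2 1), (rh1e309b005ffa1b36.shift 3 0), rhd6b185b70ae6ee48] (by decide +kernel))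
noncomputable def rh1bf9f656e14b6ce3 : CRef := CRef.mk (Pat.mk 0xc000000080000000800000000 0x40000001c0000007c0000000f000000780000001e00000014 8 7) 0 0 (step_sound _ 131 [rh1d839c911510532c, (rh7eb4a07d72ad7934.shift 2 0), (rhd8406b09026060f8.shift 1 1)] (by decide +kernel))
noncomputable def rhecb5def307cf17c4 : CRef := CRef.mk (Pat.mk 0x80000000c000000040000000400000000 0x22000000720000007f0000007f000000770000001400000010 8 7) 0 0 (step_sound _ 133 [(rh50d1f60848ee3835.shift 1 1), (rha2e1ab19779a3bb4.shift 0 1), rhaab9ea87d952b8b3, (rhcadd85ff2a73e8c7.shift 0 3), (rhe33d9496e10d8eb0.shift 0 3)] (by decide +kernel))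
noncomputable def rhe8497fdb0e55aeef : CRef := CRef.mk (Pat.mk 0x3000000010000000100000000000000000 0x80000001f000000ff000000fe000000700000003000000020 8 8) 0 0 (step_sound _ 99 [(rh69012675dfdb1a5b.shift 1 3), (rh6cf70cf3d5d85217.shift 1 0), (rhd69c262cd33b94b3.shift 1 3), (rhf205308e137e9455.shift 0 1)] (by decide +kernel))
noncomputable def rh91191d68880818c3 : CRef := CRef.mk (Pat.mk 0x1000000010000000100000003800000000 0xc0000001f0000003c000000fe0000007e00000006 8 8) 0 0 (step_sound _ 131 [rh41979a9a28edd242, (rh50fbb5868c909700.shift 3 1)] (by decide +kernel))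
noncomputable def rh7de3b48f26f4f9f8 : CRef := CRef.mk (Pat.mk 0x800000008000000080000000c00000000 0x40000000c000000080000003f000000ff000000f0 8 8) 0 0 (step_sound _ 36 [(rh55afc6a59410cf00.shift 3 0), rh7009875aac7c9e6c] (by decide +kernel))
noncomputable def rh1c48a59b93f4a55c : CRef := CRef.mk (Pat.mk 0x60000000200000002000000000 0x100000079e000003fe000007bf0000002000000020 8 11) 0 0 (step_sound _ 103 [(rh352b7f91eba0c81f.shift 4 2), rh4e3c2eb8f7c42af4, (rh9933c3eda2c2787b.shift 3 0)] (by decide +kernel))
noncomputable def rhf5109498701c34aa : CRef := CRef.mk (Pat.mk 0x7000000010000000100000000800000000 0x8000000080000000e0000007c0000001e0000007e0000000f0000000e 8 7) 0 0 (step_sound _ 131 [(rh768a472a1ebe455c.shift 2 2), (rh9033d4dd7a934d39.shift 1 0), rhc6ad7a568fc0345b] (by decide +kernel))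
noncomputable def rh5c95dcd2bb69f038 : CRef := CRef.mk (Pat.mk 0x3800000000000000000000000400000000 0xe70000007e000000e3000000070000000700000005 8 8) 0 0 (step_sound _ 130 [rh9033d4dd7a934d39, (rha93a5dd541ab8209.shift 2 3)] (by decide +kernel))
noncomputable def rh0bcf0194d76a0f4f : CRef := CRef.mk (Pat.mk 0x300000001000000010 0x2800000028000001ef000003fe000001ff00000050 8 10) 0 0 (step_sound _ 101 [(rh69755ef358ebfd54.shift 4 0), rhb81b1cbc037bc0fd, rhe29ed1fef038a271] (by decide +kernel))
noncomputable def rh9eaa695266163534 : CRef := CRef.mk (Pat.mk 0x7800000000000000000000000000000000 0x180000001c000000780000003c0000001f0000001c00000004 8 7) 0 0 (step_sound _ 99 [rh9a0c06c2d94cbbd6, (rheb0810cc63b001d8.shift 2 3)] (by decide +kernel))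
noncomputable def rhf4dfed0b149e5ed5 : CRef := CRef.mk (Pat.mk 0x300000002000000038000000000000000000000000 0xf0000007e000001ef00000038000000f80000007000000010 8 9) 0 0 (step_sound _ 68 [(rh33159ffe64f54bf5.shift 2 0), (rh42548283029e2a39.shift 4 0), (rhcef7750f37691e36.shift 0 1)] (by decide +kernel))
noncomputable def rh349d59d951c84731 : CRef := CRef.mk (Pat.mk 0xc000000180000000c000000000000000000000000 0xe7000000ff0000001f0000000f000000030000000300000001 8 8) 0 0 (step_sound _ 161 [(rhb739f4f82bb681b4.shift 0 4), rhe670f8847e2dbbd0] (by decide +kernel))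
noncomputable def rh233c03698d2d6b1a : CRef := CRef.mk (Pat.mk 0xe0000000800000004 0x50000000700000007000000e3000000fe000001ff00000004 8 9) 0 0 (step_sound _ 68 [rh9aa138e5ed752369, (rhd1304896a4e50811.shift 0 1), (rhd5dc461ce40875d5.shift 0 1), rhe476af74ce517c34] (by decide +kernel))
noncomputable def rh24b1823c5c6e2b62 : CRef := CRef.mk (Pat.mk 0x3800000020000000300000000000000000 0x140000001c0000001c0000000f000000fe0000003f0000003e0000006c00000020 8 8) 0 0 (step_sound _ 99 [(rh215beea5a13383a1.shift 0 2), (rh2820ca9a6c4f41b4.shift 0 3), (rh28952aad6c8bec1d.shift 1 0), (rh43b50e08303cc6e1.shift 0 2)] (by decide +kernel))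
noncomputable def rhabcd66ffa9eb3412 : CRef := CRef.mk (Pat.mk 0x4000000060000000200000003000000000 0x8000001cc000001fc000001ff0000003e00000007 8 9) 0 0 (step_sound _ 35 [(rh06a584151d494b50.shift 2 1), (rh6f7dfb7a4cb45f5e.shift 1 1), rha4e887c2a2a0f60b, rhb59ecd3cc99d8049, (rhff7d63dcb3cf9f74.shift 2 1)] (by decide +kernel))
noncomputable def rhc51eaa8a077bda70 : CRef := CRef.mk (Pat.mk 0xe00000002000000030000000000000000000000000 0xe000000fe000001ff0000003e000000600000002000000020 8 9) 0 0 (step_sound _ 135 [(rh6a159b1535d67e15.shift 3 3), (rha9c8bcda0e3b5267.shift 0 4), (rhde97a84e0bc1d5e9.shift 1 0), (rhdf8f7a92a2d46ec7.shift 4 3)] (by decide +kernel))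
noncomputable def rh7230a6ac4b96f2c8 : CRef := CRef.mk (Pat.mk 0x18000000080000000800000000000000000000000000000000 0x100000001c0000001c0000000c00000018000000180000000f0000003c0000001c0000001c00000014 8 6) 0 0 (step_sound _ 99 [(rh641b5241be04eec6.shift 0 2), (rh7f82aa92ca390d05.shift 2 2), (rh8aec56c4ee12918c.shift 2 1), (rh8c3839f9b9075f23.shift 3 1), (rh984bfc6de6c2c524.shift 2 0)] (by decide +kernel))
noncomputable def rha5e0c8f27ad47d64 : CRef := CRef.mk (Pat.mk 0x20000000600000004000000040 0x80000003bf000003fe000001fc00000040 8 10) 0 0 (step_sound _ 68 [(rh60ea0585b6f661ea.shift 0 1), (rhcced840e0475f351.shift 3 0), (rhf530834c0c5f3ed9.shift 1 1)] (by decide +kernel))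
noncomputable def rh5a0926fb97031008 : CRef := CRef.mk (Pat.mk 0x10000000100000001000000010 0x2f000000fe000000ff0000001000000010 8 8) 0 0 (step_sound _ 101 [(rh2f68792b6b779e96.shift 4 0), rhac381364afa4eaf7] (by decide +kernel))
noncomputable def rhfc33c4af2547b1df : CRef := CRef.mk (Pat.mk 0x80000001c000000040000000400000000 0x160000001f0000001c0000001c0000007c00000078 8 7) 0 0 (step_sound _ 130 [(rh12c0446cd554f36d.shift 2 0), (rh277b01412deaec89.shift 0 1)] (by decide +kernel))
noncomputable def rh32466312c62a30d4 : CRef := CRef.mk (Pat.mk 0x180000000800000018000000000000000000000000 0x20000000780000003f0000007f000000380000001800000010 8 7) 0 0 (step_sound _ 68 [(rh0305745b18cb1992.shift 0 1), (rh08edf065357d68e5.shift 3 0), (rh79ad7b82ec8c35e2.shift 3 0)] (by decide +kernel))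
noncomputable def rh20b28b884f3c0852 : CRef := CRef.mk (Pat.mk 0x800000018000000080000001800000000 0x40000000f000000780000003f0000003f00000004 8 7) 0 0 (step_sound _ 130 [(rh50fbb5868c909700.shift 2 1), rh5e02d5fd11d96c46] (by decide +kernel))
noncomputable def rh10f64d0ba3fb98c4 : CRef := CRef.mk (Pat.mk 0x200000003800000010000000000000000000000000 0xc0000000c0000002c000000f80000001f0000001f0000001c0000001c 8 8) 0 0 (step_sound _ 99 [rh3721570b93f317e9, (rh4dc133ee0ba1420a.shift 1 3), (rh6e7f7bd72983e3da.shift 2 1)] (by decide +kernel))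
noncomputable def rh9b2eca1298571073 : CRef := CRef.mk (Pat.mk 0x38000000080000000800000000000000000000000000000000 0x40000000c0000000c000000380000001f0000007c000000180000001c0000001c00000004 8 7) 0 0 (step_sound _ 162 [(rh517a427218e01053.shift 2 0), (rh5d8cb2e01a697dd5.shift 0 1), (rheea1a90336e79c71.shift 0 5)] (by decide +kernel))
noncomputable def rh474753b99d38b854 : CRef := CRef.mk (Pat.mk 0x200000002000000020000000100000000 0x40000000700000007000000070000000600000006000000060000000300000003 8 3) 0 0 (step_sound _ 33 [rh7cb8317354ac5955, rh932754581e0f4330] (by decide +kernel))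
noncomputable def rh283aa840d851d11c : CRef := CRef.mk (Pat.mk 0x600000002000000020000000200000000 0x40000000700000007000000030000000600000006000000030000000700000005 8 3) 0 0 (step_sound _ 32 [rh45b64204e1c06312, rh932754581e0f4330] (by decide +kernel))
noncomputable def rhfdc4582c28e8cb07 : CRef := CRef.mk (Pat.mk 0x3000000010000000100000001000000000 0x1cf000001fe000003f7000000100000001800000008 8 10) 0 0 (step_sound _ 131 [rh0ac0b92d8acbfdb2, (rh50fbb5868c909700.shift 3 1)] (by decide +kernel))
noncomputable def rhd9cb84a5a5e667bc : CRef := CRef.mk (Pat.mk 0x10000000380000000800000000 0xe0000000f0000007e0000003e0000000e00000004 8 7) 0 0 (step_sound _ 66 [rh714ccf9fbfd06030, (rhec46bd5500c722c9.shift 1 2)] (by decide +kernel))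
noncomputable def rh3ec68376994a0713 : CRef := CRef.mk (Pat.mk 0x1000000018000000300000000000000000 0x3c0000003c0000001c0000007e0000003e0000000f0000000c 8 7) 0 0 (step_sound _ 98 [(rhb739f4f82bb681b4.shift 1 2), rhbe747fad19d1d043] (by decide +kernel))
noncomputable def rh7808e99493f4ceac : CRef := CRef.mk (Pat.mk 0x80000000c000000380000000000000000 0x1c0000001c0000000c0000003c0000003f0000006700000004 8 7) 0 0 (step_sound _ 66 [(rh503dd4575245365b.shift 2 1), (rh9c40a739b57d6d20.shift 1 0), (rhac65484a4e3da203.shift 0 1)] (by decide +kernel))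
noncomputable def rhb3cc3c956260268e : CRef := CRef.mk (Pat.mk 0x800000008000000180000001000000000 0x4000000060000000f0000003f0000007f0000007700000006 8 7) 0 0 (step_sound _ 98 [(rh0fcb228d13e9ff47.shift 1 0), (rh5c5a2014709044d0.shift 0 2), rh9fca16e1f8d77448] (by decide +kernel))
noncomputable def rh4137754211e46b51 : CRef := CRef.mk (Pat.mk 0x3000000020000000200000003000000000 0xc0000000c0000000f0000003e000000ff000000fe0000003e00000008 8 8) 0 0 (step_sound _ 131 [(rh3918eeb6c53434d8.shift 0 3), (rh82794c0f35749da3.shift 1 0), (rha0ae8adeb1dbcf8d.shift 0 3), (rhdc8358f84961ee1d.shift 1 0), rhe18a977a20ab4dec] (by decide +kernel))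
noncomputable def rhfe8f802741a87f12 : CRef := CRef.mk (Pat.mk 0x20000000300000001000000010 0x800000008000007ff000003fe0000007000000010 8 11) 0 0 (step_sound _ 67 [rh394cea040348dbf3, (rh5dec5e73a267a1c4.shift 1 1), (rhbcc568571a0706ef.shift 2 0)] (by decide +kernel))
noncomputable def rh3c8c664737010812 : CRef := CRef.mk (Pat.mk 0x80000000800000008000000000000000000000000 0x100000001c0000001c00000018000000380000001f0000001c0000001c00000014 8 6) 0 0 (step_sound _ 196 [(rh08d50fe567eb1045.shift 3 2), (rh984bfc6de6c2c524.shift 2 0), (rhddab0d9223bc9aa4.shift 0 2)] (by decide +kernel))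
noncomputable def rh61b056960b1efe05 : CRef := CRef.mk (Pat.mk 0x300000002000000020000000200000000 0x10000000700000007000000060000000300000003000000030000000700000005 8 3) 0 0 (step_sound _ 32 [rh6a8985c82773645d, rh932754581e0f4330] (by decide +kernel))
noncomputable def rh03237ea8a895c768 : CRef := CRef.mk (Pat.mk 0x1800000010000000100000001800000000 0x40000001f0000003c000000fe0000007e00000026 8 8) 0 0 (step_sound _ 37 [rh41979a9a28edd242, (rh55afc6a59410cf00.shift 4 0)] (by decide +kernel))
noncomputable def rh37f934dc19dc4bdb : CRef := CRef.mk (Pat.mk 0xc00000008000000080000000800000000 0x1800000018000000180000000f0000003c0000001c0000000c00000004 8 6) 0 0 (step_sound _ 34 [(rh838c9470db8473ff.shift 0 1), (rh932754581e0f4330.shift 2 0)] (by decide +kernel))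
noncomputable def rh2cc295c8a12c5b6f : CRef := CRef.mk (Pat.mk 0x100000001000000000000000380000002000000000000000000000000000000000 0x1000000018000001cc000000fc0000003f0000001e0000001c0000001c00000004 8 9) 0 0 (step_sound _ 131 [(rh2820ca9a6c4f41b4.shift 0 4), (rh75a224c5115a1ea8.shift 2 4), rhbe5d2222cd04ee06] (by decide +kernel))
noncomputable def rhd3d7228cf4da7b9c : CRef := CRef.mk (Pat.mk 0x20000000e000000000000000400000004 0x1e0000001e0000007f0000007e0000001f000000780000000c00000004 8 7) 0 0 (step_sound _ 131 [rh236cadce3b06a040, rh5438cee5f4aea154, rh8fba37a232e728fc, (rha11dfd15f08f96e3.shift 0 3)] (by decide +kernel))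
noncomputable def rh5c2fdb56a767852e : CRef := CRef.mk (Pat.mk 0x800000038000000000000001000000010 0x3000000030000000fe000000ff0000003c000000660000003400000014 8 8) 0 0 (step_sound _ 130 [(rhc02b3aee7ab87ee1.shift 0 3), (rhd52f0ebaeda9b054.shift 1 0), (rhdbcea10a0fbe5ba6.shift 0 3)] (by decide +kernel))
noncomputable def rh3822c4a285f21ad0 : CRef := CRef.mk (Pat.mk 0x800000008000000000000001c00000010 0x7c0000002f000000640000003e00000076 8 7) 0 0 (step_sound _ 5 [rhb47d76758082e21d, (rhb739f4f82bb681b4.shift 1 0)] (by decide +kernel))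
noncomputable def rhd993116c27d296c3 : CRef := CRef.mk (Pat.mk 0x100000001000000000000000380000002000000000000000000000000000000000 0xf80000005e000001c8000000fc0000003f0000001e0000001c0000001c00000004 8 9) 0 0 (step_sound _ 131 [(rh2820ca9a6c4f41b4.shift 0 4), rhbe5d2222cd04ee06, (rhf0f55c4504412200.shift 0 4), (rhfb730ce436a68b75.shift 1 1)] (by decide +kernel))
noncomputable def rh50a90228664c4ebb : CRef := CRef.mk (Pat.mk 0x800000008000000000000001c00000010000000000000000000000000 0x7c0000002f000000e4000001fc0000007e0000000f0000000e0000000e 8 9) 0 0 (step_sound _ 133 [rh1bd1790d68ef6bbb, (rh3b00e9e9432b8f40.shift 1 3), (rh5dd25c6bd6adefc5.shift 0 3), (rh67664dc1adb49e16.shift 2 3)] (by decide +kernel))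
noncomputable def rh6f340fdb9e9ee967 : CRef := CRef.mk (Pat.mk 0x800000038000000000000001000000010 0x3000000070000000fe000000ff0000003c000000600000007000000010 8 8) 0 0 (step_sound _ 130 [(rh6e5344d55ae49924.shift 1 0), (rhc02b3aee7ab87ee1.shift 0 3), (rhd8e93bbc8568df99.shift 1 3), (rhdbcea10a0fbe5ba6.shift 0 3)] (by decide +kernel))
noncomputable def rh3af52d68c7a1fb2f : CRef := CRef.mk (Pat.mk 0x800000018000000000000001000000010 0x2000000020000001ff000000ff000001e80000007e00000030 8 9) 0 0 (step_sound _ 35 [rhe31f03bd35c95e58, (rhff0f29cb645b05f7.shift 3 0)] (by decide +kernel))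
noncomputable def rhb03f699babd0f7d9 : CRef := CRef.mk (Pat.mk 0xc000000180000000000000000 0x30000000340000007f0000003f0000001f0000000300000003 8 7) 0 0 (step_sound _ 97 [rh4762c331170f0d60, (rhb739f4f82bb681b4.shift 0 2)] (by decide +kernel))
noncomputable def rhce0e5cbde6aab179 : CRef := CRef.mk (Pat.mk 0x1800000030000000000000002000000020 0x6000000060000001fc000001f8000000ff000000c70000006000000020 8 9) 0 0 (step_sound _ 102 [rh806dab3a30497686, (rhf48373e13d2bc128.shift 3 3)] (by decide +kernel))
noncomputable def rhc92f41024017c95c : CRef := CRef.mk (Pat.mk 0x1800000008000000080000001000000010 0x40000001c0000001c000001fc000000fe0000007f000000680000007000000010 8 9) 0 0 (step_sound _ 133 [(rh2820ca9a6c4f41b4.shift 0 3), (rhd8dcdba75c0c4f5a.shift 2 2), rhe93f3722706a5a43] (by decide +kernel))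
noncomputable def rh49abdbee0daf80f5 : CRef := CRef.mk (Pat.mk 0x3000000010000000100000002000000020 0x20000000a0000003f7000001fe000001ff000000d0000000e000000020 8 10) 0 0 (step_sound _ 134 [(rh2820ca9a6c4f41b4.shift 1 3), (rh77ef2f9cb42cbe7a.shift 0 2), (rhdc1641106d7e5aa2.shift 3 3), (rhe93f3722706a5a43.shift 1 0), (rhec89969cfdaf3653.shift 3 1)] (by decide +kernel))
noncomputable def rh3143ed1a8b2502eb : CRef := CRef.mk (Pat.mk 0xc000000040000000400000000 0xa0000002a0000007f0000007f000000770000001400000010 8 7) 0 0 (step_sound _ 100 [(rh2ccbd86a7098bf36.shift 1 1), (rh707d389c7dc94d13.shift 0 1), (rhe6ccea1eb9763e90.shift 0 1), (rhec89969cfdaf3653.shift 1 0)] (by decide +kernel))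
noncomputable def rh8a6883124b2e6a32 : CRef := CRef.mk (Pat.mk 0x180000000800000008 0x40000001c0000001c000000fc000000ff0000001f0000001c00000008 8 8) 0 0 (step_sound _ 99 [(rh2d81c31c55e8d97c.shift 2 0), (rh72afbdc90680d7b8.shift 2 0), (rhabb76c5aa6247ddd.shift 1 0), (rhdc3b8c421c111ac7.shift 2 0), rhf73c75fd90e90000] (by decide +kernel))
noncomputable def rhe8f76f0514ea97b5 : CRef := CRef.mk (Pat.mk 0x18000000080000000800000000 0x400000044000001ef000000fe000000ff0000002800000020 8 9) 0 0 (step_sound _ 101 [(rh30b6f47c0ea2e55c.shift 1 1), (rh55203a72c2e59468.shift 0 1), (rhdc1641106d7e5aa2.shift 2 2), (rhec89969cfdaf3653.shift 2 0)] (by decide +kernel))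
noncomputable def rh6c4d8afbbd9f4740 : CRef := CRef.mk (Pat.mk 0x10000000300000001000000000 0x4c0000004c000007ff000003ff0000079f00000080 8 11) 0 0 (step_sound _ 70 [(rh86656d8431708753.shift 0 1), (rhae537280995106be.shift 3 0), (rhd9106766b9ff53c0.shift 3 1)] (by decide +kernel))
noncomputable def rh95b03a1c6db6ec4d : CRef := CRef.mk (Pat.mk 0x2000000060000000000000006000000040 0x40000001c0000007c000001ff0000019e000000fc000001fe 8 9) 0 0 (step_sound _ 132 [rh12deb38fa45613d9, (rh3c3e23a02e82b2ed.shift 2 3), (rh5c5a2014709044d0.shift 2 3), (rhb0121edee88fe839.shift 2 3), (rhe4854492f3a45983.shift 1 0)] (by decide +kernel))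
noncomputable def rhc7d2da80cbb0d941 : CRef := CRef.mk (Pat.mk 0x10000000100000001000000000 0x280000003f000000fe000000ff000000180000001800000008 8 8) 0 0 (step_sound _ 132 [(rh1741680720c097b4.shift 3 1), (rh20966da26a1c2ae8.shift 3 0), (rh6ab0f2d813d99d98.shift 0 1), (rh968ba7b0df7e4096.shift 3 0)] (by decide +kernel))
noncomputable def rh041e63f8383302ef : CRef := CRef.mk (Pat.mk 0x1000000010000000100000001000000000 0x2e000000ff0000003e000000180000001800000008 8 8) 0 0 (step_sound _ 133 [(rh2f68792b6b779e96.shift 4 1), rh3ec24a166c12f682] (by decide +kernel))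
noncomputable def rh6ed6c7e389d6c1a6 : CRef := CRef.mk (Pat.mk 0x1000000070000000000000002000000020 0x1c0000001c0000001f0000003f0000007e000000cf0000003c0000007c 8 8) 0 0 (step_sound _ 99 [(rh04029d7e2e3adf1c.shift 2 1), rh3d9ba2f95ee2cc85, (rhab6f55bc99585f19.shift 0 2), (rhd775095a74b3afc9.shift 0 2), (rhee7dc6826bc99ade.shift 2 0)] (by decide +kernel))
noncomputable def rha864e85261ca374c : CRef := CRef.mk (Pat.mk 0x800000018000000300000001000000000 0x40000000cc000000f8000000ff0000003e00000020 8 8) 0 0 (step_sound _ 70 [rhc1b71481957ab4a9, (rhf48373e13d2bc128.shift 3 2)] (by decide +kernel))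
noncomputable def rha4b32c6d817ebd45 : CRef := CRef.mk (Pat.mk 0x10000000300000001000000000 0x80000000cc000001cc000003ff000001ff000003df00000080 8 10) 0 0 (step_sound _ 70 [(rh86656d8431708753.shift 0 1), (rhd49fded03ddb13d0.shift 3 0), (rhd9106766b9ff53c0.shift 3 1)] (by decide +kernel))
noncomputable def rh338235dfd6485741 : CRef := CRef.mk (Pat.mk 0x1000000070000000000000002000000020 0x6000000060000001fc000001fe0000007f000000ce0000006000000020 8 9) 0 0 (step_sound _ 131 [rh1e4e66686b0e940e, (rhc02b3aee7ab87ee1.shift 1 3), (rhd8e93bbc8568df99.shift 2 3), (rhdbcea10a0fbe5ba6.shift 1 3)] (by decide +kernel))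
noncomputable def rh15e0f7e609a7c867 : CRef := CRef.mk (Pat.mk 0xc00000008000000080000000800000000 0x100000001c0000000c0000003f0000003f00000017 8 6) 0 0 (step_sound _ 132 [rh20605be9cfe324a0, (rh2f68792b6b779e96.shift 3 1)] (by decide +kernel))
noncomputable def rh6803c33daac0223c : CRef := CRef.mk (Pat.mk 0x18000000080000001800000010000000000000000000000000 0x2000000078000000ef000000ff0000007f000000070000000200000002 8 8) 0 0 (step_sound _ 99 [rh6b82ad8538a2c276, (rha71afc656c87d410.shift 1 2), (rhc3273ed437338a69.shift 0 3)] (by decide +kernel))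
noncomputable def rh679d73e8fa609910 : CRef := CRef.mk (Pat.mk 0x18000000080000001800000010000000000000000000000000 0x10000000180000000c0000001f0000003f000000070000000200000002 8 6) 0 0 (step_sound _ 99 [(rh2f68792b6b779e96.shift 3 3), rh6b82ad8538a2c276] (by decide +kernel))
noncomputable def rhfa844922a192689f : CRef := CRef.mk (Pat.mk 0x180000000800000018000000100000000000000000 0x1f0000000f8000007ef000003fe000007700000002000000020 8 11) 0 0 (step_sound _ 101 [(rh2dbd60cbcd047b5e.shift 1 1), (rh9ef41ddb03a05e59.shift 1 2), (rhe7f714d581e6ec45.shift 2 0), (rhfd99604093c09fe0.shift 0 3)] (by decide +kernel))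
noncomputable def rh7e992376561b0b7f : CRef := CRef.mk (Pat.mk 0x8000000000000000e00000008000000000000000000000000 0x1800000018000000f3000000fe0000003f000000070000000700000007 8 8) 0 0 (step_sound _ 132 [(rh3b00e9e9432b8f40.shift 0 3), (rh67664dc1adb49e16.shift 1 3), (rh92f50af3c4255d77.shift 1 3), rhb743f40c8fe1c828, (rhd383b59e8d5f375f.shift 0 3)] (by decide +kernel))
noncomputable def rh9740d8d2a54803bb : CRef := CRef.mk (Pat.mk 0xc000000180000000000000000 0x3000000038000000780000007c0000007e0000006700000004 8 7) 0 0 (step_sound _ 69 [rhd4b27a2e060d1084, (rhf48373e13d2bc128.shift 2 2)] (by decide +kernel))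
noncomputable def rhf933bd4336820af4 : CRef := CRef.mk (Pat.mk 0x3800000010000000100000001000000000 0x1c7000000fe000001fe000000100000001800000008 8 9) 0 0 (step_sound _ 35 [(rh92b409e8cd80967f.shift 0 3), (rh932754581e0f4330.shift 3 0)] (by decide +kernel))
noncomputable def rhc6aa94fd0d3095a4 : CRef := CRef.mk (Pat.mk 0x1800000000000000100000001000000000 0x37000000fe000000ff000000f00000003c00000028 8 8) 0 0 (step_sound _ 100 [(rh7133a7a78d762f91.shift 2 0), (rh9d7fb66cf8ba107b.shift 0 1), (rhbf5b792126ec9b29.shift 2 0)] (by decide +kernel))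
noncomputable def rhccc0908bea27efde : CRef := CRef.mk (Pat.mk 0x78000000000000000000000000 0x7e0000007f0000003c0000000800000008 8 7) 0 0 (step_sound _ 67 [rhc1a50caf0937aafd, (rheb0810cc63b001d8.shift 2 2)] (by decide +kernel))
noncomputable def rhd32c818bd740c96f : CRef := CRef.mk (Pat.mk 0x2000000038000000000000000000000000 0x4000003b7000001fe000001cf0000000800000008 8 10) 0 0 (step_sound _ 98 [(rh066e00cb98e43031.shift 1 2), (rh2591032a0e7f4182.shift 0 2), (rh7fb660bc21ce4329.shift 0 3), (rhe6f3c981f45ee7b2.shift 1 0)] (by decide +kernel))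
noncomputable def rh134e4ab01248583a : CRef := CRef.mk (Pat.mk 0x1000000010000000300000002000000000 0x8000000cc000000df000000fe000000fe000000f800000008 8 8) 0 0 (step_sound _ 67 [(rh018c2ec5dbebf695.shift 1 0), (rh251facab2e282844.shift 1 1), (rh3ce854f4a795c89f.shift 1 1), rh5649f6617a16d646, (rhc87489d6fc57ca7d.shift 1 0)] (by decide +kernel))
noncomputable def rh932a8065929bc8b2 : CRef := CRef.mk (Pat.mk 0x100000001000000030000000200000000000000000 0x10000001f7000003fe000000ff0000000800000008 8 10) 0 0 (step_sound _ 67 [(rh472a6edea235427c.shift 0 2), (rh7302994b41ba0e8a.shift 2 1), (rhf9daa8452e0e35af.shift 1 0)] (by decide +kernel))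
noncomputable def rhe2c4a3b5f2d73b68 : CRef := CRef.mk (Pat.mk 0x40000000e00000008000000000 0x20000000200000007f000001fe000000df00000010 8 9) 0 0 (step_sound _ 100 [(rh04be48e60875a3ef.shift 2 0), (rh1246967bcde55bf0.shift 0 1), (rh508d31626b5d2be8.shift 3 2), (rhd59313b56f2e7bb3.shift 2 1)] (by decide +kernel))
noncomputable def rhe2a48cb2e9fea7e0 : CRef := CRef.mk (Pat.mk 0x4000000040000001c000000080000000000000000 0x2200000026000000740000007e0000003f0000001200000010 8 7) 0 0 (step_sound _ 66 [(rh2945c858c56ed83d.shift 1 0), (rhf5094ad2a427d4d3.shift 0 1)] (by decide +kernel))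
noncomputable def rh86d68b6158827783 : CRef := CRef.mk (Pat.mk 0x100000001000000030000000200000000000000000 0x4000000050000001fc000003fe000000ef0000000800000008 8 10) 0 0 (step_sound _ 99 [(rh00d2c9d026faf421.shift 2 1), (rh3ce854f4a795c89f.shift 1 2), rh596def3aae05c2e3] (by decide +kernel))
noncomputable def rh362f1bfea09d2c54 : CRef := CRef.mk (Pat.mk 0x1000000018000000300000002000000000 0x20000000a0000000f0000001f0000007e000000360000003e0000001c 8 7) 0 0 (step_sound _ 98 [(rhb739f4f82bb681b4.shift 1 2), rhb7b970e73cc126a6] (by decide +kernel))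
noncomputable def rh3d2780e5b85339b4 : CRef := CRef.mk (Pat.mk 0x4000000020000000e00000000000000000000000000000000 0x500000007000000030000001e00000003000000070000000700000005 8 5) 0 0 (step_sound _ 97 [rh054913cd4271e1df, (rh455743481e179fac.shift 0 2), (rhd9106766b9ff53c0.shift 0 3)] (by decide +kernel))
noncomputable def rh1f7369f0272b079c : CRef := CRef.mk (Pat.mk 0x4000000020000000e00000008000000000000000000000000 0x6000000060000000a0000003e0000003f000000350000001400000010 8 6) 0 0 (step_sound _ 97 [(rh455743481e179fac.shift 0 2), (rh4dec404a6c0e229a.shift 1 2), (rh581410f8ae173f30.shift 0 1), rh8952cf76619397cb] (by decide +kernel))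
noncomputable def rh7b12bbb0a7c60430 : CRef := CRef.mk (Pat.mk 0x4000000020000000600000000000000000000000000000000 0x5000000070000000700000007000000030000000600000006000000070000000700000005 8 3) 0 0 (step_sound _ 193 [(rh70e33bfdf511e144.shift 1 1), rha2d608bbf475f0c5, (rhfb9fb48a5e63ed80.shift 0 3)] (by decide +kernel))
noncomputable def rha8aa4ec1597bad99 : CRef := CRef.mk (Pat.mk 0x8000000000000001c0000001000000000 0x20000000b0000003f0000003f0000003400000004 8 6) 0 0 (step_sound _ 65 [rhc56d1b6b54ae9b25, (rhe25b0a99195a5d59.shift 1 1)] (by decide +kernel))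
noncomputable def rh2e61936bb968319f : CRef := CRef.mk (Pat.mk 0x100000000000000038000000200000000000000000 0x2800000078000000ff000001fe000000380000001000000010 8 9) 0 0 (step_sound _ 131 [(rh0f70de80efcba005.shift 1 0), (rhcd9578765717ad11.shift 1 0), (rhf60aa8aede119d3b.shift 0 3)] (by decide +kernel))
noncomputable def rhe0aaafafa5b062ca : CRef := CRef.mk (Pat.mk 0x4000000000000001e0000000000000000 0xa0000000f0000003c0000003e0000000700000006 8 6) 0 0 (step_sound _ 33 [rh723c3f6ea4850bcc, (rheb0810cc63b001d8.shift 0 1)] (by decide +kernel))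
noncomputable def rh92eeac1c1b6d8178 : CRef := CRef.mk (Pat.mk 0xf00000004000000000000000000000000 0xc0000000c0000001c0000000f0000001c000000180000001800000018 8 5) 0 0 (step_sound _ 99 [rh20aa4f45d68bc15e, (rhe25b0a99195a5d59.shift 0 3)] (by decide +kernel))
noncomputable def rh12e725272b2d5031 : CRef := CRef.mk (Pat.mk 0x10000000000000003800000028000000000000000000000000 0x68000001f8000000780000003e000000380000001f0000003c0000001c 8 9) 0 0 (step_sound _ 100 [(rh70b8c21acaca4839.shift 1 2), (rh8d364617c03d6975.shift 1 1), (rhdae3b865ce07814a.shift 3 1), rhe2a72cb879063d0e] (by decide +kernel))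
noncomputable def rh01114522008b96e1 : CRef := CRef.mk (Pat.mk 0x70000000c000000000000000000000000 0xc0000000c0000001c0000000f0000001c000000180000001800000018 8 5) 0 0 (step_sound _ 131 [rh20aa4f45d68bc15e, (rhe25b0a99195a5d59.shift 0 3)] (by decide +kernel))
noncomputable def rhdd7ace337692efbe : CRef := CRef.mk (Pat.mk 0xf000000000 0x1ce000000fe0000003f 8 9) 0 0 (step_sound _ 4 [rhba7200611f75b287, (rheb0810cc63b001d8.shift 3 0)] (by decide +kernel))
noncomputable def rh8238a1529f16a1c4 : CRef := CRef.mk (Pat.mk 0x100000000000000038000000200000000000000000 0x2800000078000000ff000001fe000000380000001800000018 8 9) 0 0 (step_sound _ 131 [(rh0f70de80efcba005.shift 1 0), (rh205a4ea121b54ad2.shift 1 0), (rha9fbfd4bb8cf890b.shift 0 3), (rhf60aa8aede119d3b.shift 0 3)] (by decide +kernel))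
noncomputable def rh54628cf20d07d263 : CRef := CRef.mk (Pat.mk 0x1e0000000800000000 0x18000000380000003f0000003e0000003800000010 8 6) 0 0 (step_sound _ 36 [rh11dd4107229f0b91, (rhe25b0a99195a5d59.shift 1 1)] (by decide +kernel))
noncomputable def rh21e8ea33735ec344 : CRef := CRef.mk (Pat.mk 0x10000000000000003800000020000000000000000000000000 0x280000007c0000001e0000007e0000003f0000001e0000001c00000014 8 7) 0 0 (step_sound _ 99 [(rh2820ca9a6c4f41b4.shift 0 3), (rh9e548c521bbd9f0e.shift 1 1), (rha8f826a01436c87a.shift 1 0), (rhf0f55c4504412200.shift 0 3)] (by decide +kernel))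
noncomputable def rha53655f2a9aeda6b : CRef := CRef.mk (Pat.mk 0x4000000000000000e000000080000000000000000 0x600000007000000fe0000003f0000000700000004 8 8) 0 0 (step_sound _ 100 [(rh47c07cd0cc865f65.shift 0 2), (rh6221654d33f9ba0a.shift 0 1), (rh8bb9cbc40f723f93.shift 0 1), rh8ecaebd8af634e9f, rhafa5a7051d37b143, (rhe4374866cadc7201.shift 0 2)] (by decide +kernel))
noncomputable def rh2006f38f30e88b89 : CRef := CRef.mk (Pat.mk 0x10000000000000003800000020000000000000000000000000 0x10000001f7000000fe0000003c000000080000000800000008 8 9) 0 0 (step_sound _ 166 [(rh9d917ee4aabfaca8.shift 1 0), (rhb8022f71dc28021b.shift 2 4), (rhba3fefaa894766da.shift 3 4), (rhbfdaafe6cbbfd7f3.shift 0 3)] (by decide +kernel))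
noncomputable def rh7fb2fb7938b68b6e : CRef := CRef.mk (Pat.mk 0x4000000100000000e0000000800000000 0x1a0000003e000000370000003e0000000c00000004 8 6) 0 0 (step_sound _ 68 [rh24acf3aa0133fcb4, (rh33e738c4ed385b9f.shift 1 2)] (by decide +kernel))
noncomputable def rh79e33b540ad902dd : CRef := CRef.mk (Pat.mk 0x8000000080000001800000010000000000000000000000000 0x10000000780000001f0000007c0000001e0000000c0000000c00000008 8 7) 0 0 (step_sound _ 162 [(rh3c3e23a02e82b2ed.shift 0 4), (rh5c5a2014709044d0.shift 0 4), (rh6485c21868f35d37.shift 1 0), rha576a7c1accb8319] (by decide +kernel))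
noncomputable def rh793931f12a29055c : CRef := CRef.mk (Pat.mk 0x200000002000000060000000600000000 0xc0000003e0000003e000000070000001e0000000a 8 6) 0 0 (step_sound _ 130 [rh2c4033e26065b358, (rh2f68792b6b779e96.shift 1 1)] (by decide +kernel))
noncomputable def rh33e2077649fdf31c : CRef := CRef.mk (Pat.mk 0x800000008000000180000001000000000 0x30000000300000007f000000ff0000007c0000001600000004 8 8) 0 0 (step_sound _ 98 [(rh1de9db2225e22019.shift 1 0), (rh3c3e23a02e82b2ed.shift 0 2), (rh5c5a2014709044d0.shift 0 2), (rh807e47f5f7b468e3.shift 0 2), (rhb0121edee88fe839.shift 0 2)] (by decide +kernel))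
noncomputable def rh7450af9ddeae175a : CRef := CRef.mk (Pat.mk 0x8000000080000001800000010000000000000000000000000 0x340000007c0000007f0000007c00000018000000080000000800000008 8 7) 0 0 (step_sound _ 162 [(rh3c3e23a02e82b2ed.shift 0 4), (rh5c5a2014709044d0.shift 0 4), (rh9d05b7f9205bcf15.shift 0 2), (rhe5ddc54f1e2775a6.shift 2 0)] (by decide +kernel))
noncomputable def rhb4b48ecf6371924e : CRef := CRef.mk (Pat.mk 0x800000008000000180000001800000000 0x140000001c0000000f0000001e0000001f00000007 8 5) 0 0 (step_sound _ 132 [(rh2f68792b6b779e96.shift 3 1), rh77135f2e77e0d833] (by decide +kernel))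
noncomputable def rh11fd2bd6cbbd782c : CRef := CRef.mk (Pat.mk 0x80000000c000000180000000000000000 0x30000000320000003f000000ff0000001f0000000400000004 8 8) 0 0 (step_sound _ 97 [rha534502ef129099a, (rhb739f4f82bb681b4.shift 0 2)] (by decide +kernel))
noncomputable def rh8d53e655406dfc19 : CRef := CRef.mk (Pat.mk 0x1800000018000000000000000000000000 0x1000000010000000140000001f0000007f0000002f0000000c0000000c 8 7) 0 0 (step_sound _ 101 [(rh12e1c23a5234a3bb.shift 0 1), rha529ca0173c98fb2, (rhe2b63c00a3d7bb73.shift 1 3)] (by decide +kernel))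
noncomputable def rh7a94129a99e3445f : CRef := CRef.mk (Pat.mk 0x8000000000000001800000018000000000000000000000000 0x8000000080000001f0000007f0000000f0000003c0000001c 8 7) 0 0 (step_sound _ 101 [(rh8b752e8fba7632d2.shift 0 2), (rhe2b63c00a3d7bb73.shift 1 3), rhf241e3ecefb6261e] (by decide +kernel))
noncomputable def rh849c205fecdd7dae : CRef := CRef.mk (Pat.mk 0x8000000000000001c00000018 0x300000003c0000003f0000001f0000001b 8 6) 0 0 (step_sound _ 33 [rh8e1c3d49a7e9834c, rhb739f4f82bb681b4] (by decide +kernel))
noncomputable def rha7b261f3a207e96b : CRef := CRef.mk (Pat.mk 0x8000000000000001c0000001800000000 0x140000001c0000001c0000001c0000007f00000067 8 7) 0 0 (step_sound _ 37 [rhbef73d9a96eeba85, (rhf48373e13d2bc128.shift 2 1)] (by decide +kernel))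
noncomputable def rh77beeb56b6a10601 : CRef := CRef.mk (Pat.mk 0x2000000000000000e00000006 0x20000000380000003d0000001f0000003b0000003e0000000e 8 6) 0 0 (step_sound _ 36 [(rh18965a982d73c794.shift 1 0), rh26e4f9866d1ed189] (by decide +kernel))
noncomputable def rh6ba8cda2f50a6f28 : CRef := CRef.mk (Pat.mk 0xf00000004000000000000000000000000 0xc0000000c0000001c0000000f0000001c000000180000001800000018 8 5) 0 0 (step_sound _ 163 [(rh33e738c4ed385b9f.shift 0 4), rh902f464aaded166f] (by decide +kernel))
noncomputable def rh6c410d80a8825e39 : CRef := CRef.mk (Pat.mk 0x18000000000000001000000010 0x2000000020000001e7000000fe000001ff0000005000000010 8 9) 0 0 (step_sound _ 101 [rh2c29de3000299d8a, (rh2c7af1852f6c2bc9.shift 0 2), (rh64d22537d8f7b16a.shift 0 2), rh81a21b31fec16f39, (rhf6013bef344ae9fe.shift 2 0), (rhfb2dc840317dabeb.shift 2 0), rhfdf65b4fc421f840] (by decide +kernel))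
noncomputable def rh9d139a60d971deaa : CRef := CRef.mk (Pat.mk 0x1800000008000000180000001000000000 0x240000007c0000006f000000ff0000007e0000000c 8 8) 0 0 (step_sound _ 35 [rh58d144a9c7adb86e, rh9aab2e37f490e5ca, (rha71afc656c87d410.shift 1 0)] (by decide +kernel))
noncomputable def rh01a2947dead108ac : CRef := CRef.mk (Pat.mk 0x180000000800000018000000100000000000000000 0x700000007c000007ef000003fe000007700000002000000020 8 11) 0 0 (step_sound _ 101 [(rh24a648cde3dc9c11.shift 1 2), (rhe7f714d581e6ec45.shift 2 0), (rhfd99604093c09fe0.shift 0 3)] (by decide +kernel))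
noncomputable def rhf3a7f5f4d29d924d : CRef := CRef.mk (Pat.mk 0x180000000000000018000000100000000000000000 0x140000003e0000000f0000007f0000007f0000000c0000000c 8 7) 0 0 (step_sound _ 67 [(rh2d55c6a7f1c1aeb9.shift 0 1), (rh9e4ea844c1d58130.shift 1 1), rhfc0fd7f32780ab3b] (by decide +kernel))
noncomputable def rh4b52944a44bab4b2 : CRef := CRef.mk (Pat.mk 0x300000000000000030000000200000000000000000 0x7800000078000001cf000003fe000000ff0000000600000004 8 10) 0 0 (step_sound _ 99 [(rh32ed39b2c78966e3.shift 2 2), rh7204fdd9950b1c9f, (rh9a305988196305ca.shift 1 2), (rha0ae8adeb1dbcf8d.shift 0 2), (rhf530834c0c5f3ed9.shift 0 2)] (by decide +kernel))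
noncomputable def rh17de5e731388fba0 : CRef := CRef.mk (Pat.mk 0x180000000e000000000000000800000000 0x10000000180000001e0000007c000000ff00000074 8 8) 0 0 (step_sound _ 67 [rh182e8ade89bcf558, (rh2f68792b6b779e96.shift 3 1)] (by decide +kernel))
noncomputable def rheecc7d81f83813b9 : CRef := CRef.mk (Pat.mk 0x80000001e000000000000000000000000 0x10000000380000003e0000003f0000003800000018 8 6) 0 0 (step_sound _ 132 [(rh33e738c4ed385b9f.shift 1 3), rhf7ae7d43a9e2b9a7] (by decide +kernel))
noncomputable def rh382bda74904c87e2 : CRef := CRef.mk (Pat.mk 0x2c00000038000000000000000000000000 0x8000000080000003c0000003e0000007f0000001600000016 8 7) 0 0 (step_sound _ 68 [(rh115487d9d1ce0553.shift 1 1), (rhade0f4c81793f68e.shift 3 0), rhfa36ce61ccfd7077] (by decide +kernel))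
noncomputable def rh3f5c40b60bc5a976 : CRef := CRef.mk (Pat.mk 0x4000000070000000200000000000000000 0x47000001fe000001fe0000002000000020 8 9) 0 0 (step_sound _ 37 [(rh71222050f2c63a3a.shift 5 0), (rha6c435743b517108.shift 0 2)] (by decide +kernel))
noncomputable def rhaf51d7b42f205203 : CRef := CRef.mk (Pat.mk 0x80000000e00000000000000000000000000000000 0x3000000170000007f0000003e0000007f0000001c0000001c00000014 8 7) 0 0 (step_sound _ 101 [(rh3330f28797ac830a.shift 0 2), (rh4c7c32546f95183b.shift 0 3), (rh5dde4184b071f08d.shift 1 0), (rhc44aa952c63836fd.shift 1 3), (rhf15a2001baecf820.shift 0 2)] (by decide +kernel))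
noncomputable def rh3fc5a7160b6c2d89 : CRef := CRef.mk (Pat.mk 0x20000000e00000000000000000000000000000000 0x4000000070000000700000007000000060000003e00000073000000070000000700000005 8 7) 0 0 (step_sound _ 97 [rh19b19bf0872cfe73, (rh4ef25bfa5e10fc62.shift 0 3), rhb62cfc5072b24f56, rhd44f609cebb8ed9f] (by decide +kernel))
noncomputable def rh0de55685b0e71a1a : CRef := CRef.mk (Pat.mk 0xc00000007000000000000000000000000 0x1800000018000000180000001c0000000f0000001c0000000c0000000c 8 5) 0 0 (step_sound _ 99 [(rh33e738c4ed385b9f.shift 0 3), rh9767a395d383a9c4] (by decide +kernel))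
noncomputable def rhdb88c0293b31fc80 : CRef := CRef.mk (Pat.mk 0x180000000e000000000000000800000000 0x10000000180000001e000001f8000000ff000000f4 8 9) 0 0 (step_sound _ 67 [(rh2f68792b6b779e96.shift 3 1), rha3acb38c45faa15c] (by decide +kernel))
noncomputable def rh4e0e5ad01e134228 : CRef := CRef.mk (Pat.mk 0x80000000e0000000800000008000000000000000000000000 0x80000000e0000007e0000007f000000170000000200000002 8 7) 0 0 (step_sound _ 98 [(rh932754581e0f4330.shift 2 2), rhad0fbd181afc4652] (by decide +kernel))
noncomputable def rhd133142ba238c2ce : CRef := CRef.mk (Pat.mk 0x90000000e000000080000000000000000000000000000000000000000 0x100000003000000030000000b0000001e0000000e0000003f0000001f0000001c0000001c00000014 8 6) 0 0 (step_sound _ 225 [rh4d2b56fc02770885, (rhf48373e13d2bc128.shift 0 6)] (by decide +kernel))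
noncomputable def rh1dcdabbf416b41e2 : CRef := CRef.mk (Pat.mk 0x180000000e00000008000000000000000000000000 0x20000001b0000003e0000000f0000003e0000001f00000016 8 6) 0 0 (step_sound _ 67 [(rh8c3839f9b9075f23.shift 3 0), (rh8cdd36b03d57a2f6.shift 2 0), (rha8bc3cae4d77a08f.shift 2 0), rhd01dce0b3ec78297] (by decide +kernel))
noncomputable def rh5e7d117b595d8302 : CRef := CRef.mk (Pat.mk 0x300000001c000000100000000000000000 0xe0000002e0000006e0000003e0000007c0000001f0000000e00000008 8 7) 0 0 (step_sound _ 130 [rh171c50a84847e1d7, (rh24e72371d7873615.shift 1 0), (rh9120325f2fb8b579.shift 1 2), (rhc285527e08d8cdd3.shift 1 1)] (by decide +kernel))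
noncomputable def rh7a4aace82dd2f994 : CRef := CRef.mk (Pat.mk 0x380000000c000000000000000000000000 0x140000001c0000001c0000000f0000003c0000000c0000001e0000001e00000016 8 6) 0 0 (step_sound _ 162 [rh33ecdbcc9b68c2ae, (rh8c2877625a60f022.shift 2 0), (rha1e90cdd7a3bb451.shift 1 0), (rhd652c19df8b64ee8.shift 1 1)] (by decide +kernel))
noncomputable def rh15498457eb2ca7d3 : CRef := CRef.mk (Pat.mk 0x180000000e000000000000000000000000 0x1000000032000000330000001f0000003e0000003f0000003400000030 8 6) 0 0 (step_sound _ 100 [rh222d9114b60fb97b, (rh41d5a93e35cc8528.shift 0 1), rhcfff3ba4b432b399] (by decide +kernel))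
noncomputable def rh711e799cd7adf013 : CRef := CRef.mk (Pat.mk 0x180000000e000000000000000800000000 0x10000000180000000e0000007f000000ff000000f4 8 8) 0 0 (step_sound _ 67 [(rh2f68792b6b779e96.shift 3 1), rhdcf08f79ee8d91b4] (by decide +kernel))
noncomputable def rhc70d29ad709e8a90 : CRef := CRef.mk (Pat.mk 0x2000000020000000200000002000000000 0x2000000020000001f7000001fe000003de 8 10) 0 0 (step_sound _ 36 [rh83d410dea31f7488, (rh932754581e0f4330.shift 4 0)] (by decide +kernel))
noncomputable def rhf0c35e5082738bda : CRef := CRef.mk (Pat.mk 0x400000007000000040000000000000002000000000 0x10000000100000005f000000fe0000006f000000c8000000e0000000e0 8 8) 0 0 (step_sound _ 70 [(rh566d9d8cc71d2185.shift 2 0), (rhbcdf09e91ccb9b49.shift 0 1), (rhbd097c4034f102b6.shift 5 0)] (by decide +kernel))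
noncomputable def rh60bd4bd3abcae843 : CRef := CRef.mk (Pat.mk 0x500000007000000000000000000000000000000000 0x38000000780000003e0000007e0000007f0000003f000000380000003800000028 8 7) 0 0 (step_sound _ 163 [(rh4cb41da1383ef7a4.shift 1 0), (rh7f6da6424bbd9e12.shift 0 2), (rhd8e93bbc8568df99.shift 2 4)] (by decide +kernel))
noncomputable def rh96862ceddb852e4f : CRef := CRef.mk (Pat.mk 0x140000001c00000008000000000000000000000000 0x80000001c0000007c0000006f0000007e0000003e00000006 8 7) 0 0 (step_sound _ 67 [rh582bd4174433e769, (rh71222050f2c63a3a.shift 3 1)] (by decide +kernel))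
noncomputable def rh34555a9f7a241486 : CRef := CRef.mk (Pat.mk 0x180000001e000000000000000000000000 0x3000000030000001f0000001e000000370000001c00000018 8 6) 0 0 (step_sound _ 129 [(rh3244c3cc8379b070.shift 0 3), rh6a4e5d2a9b3156a8] (by decide +kernel))
noncomputable def rh0093c81a00fae60a : CRef := CRef.mk (Pat.mk 0x1e00000010000000000000000000000000 0x600000006000000070000001e0000001f0000000f0000000f00000003 8 5) 0 0 (step_sound _ 97 [rh0d000b6af85ea9f9, (rheb0810cc63b001d8.shift 0 3)] (by decide +kernel))
noncomputable def rh05136074d183cb2f : CRef := CRef.mk (Pat.mk 0x380000002c000000000000000000000000 0x1c0000001c0000001f0000001f000000380000002c0000007c0000003c00000014 8 7) 0 0 (step_sound _ 163 [(rh281c6819542c66e6.shift 2 0), (rh68a777751bfeafdf.shift 2 2), (rhbd8ba74c028b22c3.shift 0 1), (rhd3427edfe1bb73fe.shift 1 0)] (by decide +kernel))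
noncomputable def rh1369b354ba01a20e : CRef := CRef.mk (Pat.mk 0x1000000018000000080000000000000000 0x40000000f0000001f0000001c0000001e0000007c0000007c 8 7) 0 0 (step_sound _ 35 [(rh71222050f2c63a3a.shift 3 0), rhcf4dd2d06302bf5c] (by decide +kernel))
noncomputable def rh1323fc8df9e83662 : CRef := CRef.mk (Pat.mk 0x100000001800000008000000000000000000000000 0x3c0000003f0000001f0000001e00000078000000300000003000000010 8 7) 0 0 (step_sound _ 196 [(rh5c5e593799055d58.shift 3 3), rh7aba417c56d1e243] (by decide +kernel))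
noncomputable def rh7f83bd45b8e0f5e4 : CRef := CRef.mk (Pat.mk 0x40000000f000000000000000000000000 0x1800000018000000180000001c0000000f0000001c0000000c0000000c 8 5) 0 0 (step_sound _ 131 [(rh33e738c4ed385b9f.shift 0 3), rh9767a395d383a9c4] (by decide +kernel))
noncomputable def rh4ff3479da2578f8c : CRef := CRef.mk (Pat.mk 0x40000000f000000010000000000000000 0x2000000060000001f0000001b0000001f0000000f 8 5) 0 0 (step_sound _ 65 [rh0962550d5877d34a, (rh18965a982d73c794.shift 0 2)] (by decide +kernel))
noncomputable def rhfdedb77bdf0398a2 : CRef := CRef.mk (Pat.mk 0x20000001e0000000000000000000000000000000000000000 0x50000000700000007000000020000001e0000003700000007000000070000000700000004 8 6) 0 0 (step_sound _ 129 [rhdbf64a8fe46b01d7, (rheb0810cc63b001d8.shift 0 4)] (by decide +kernel))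
noncomputable def rh099bc6bfc60b1e3e : CRef := CRef.mk (Pat.mk 0x5000000070000000000000000000000000 0x100000001000000077000001fe000001f70000002000000020 8 9) 0 0 (step_sound _ 69 [(rh871cacb3afe83983.shift 0 2), (rhade0f4c81793f68e.shift 4 0), (rhbe707112c53dab40.shift 4 0), rhc5f13b10782deb77] (by decide +kernel))
noncomputable def rhcacbc23fd1ed408d : CRef := CRef.mk (Pat.mk 0x4000000070000000000000000000000000 0x30000000300000007f000001fe000003df0000005800000008 8 10) 0 0 (step_sound _ 132 [rh2eaa0ee299633c0f, (rh5091e8ef766e6e0b.shift 1 1), (rha9fbfd4bb8cf890b.shift 1 3), (rhc285527e08d8cdd3.shift 3 1), (rhf60aa8aede119d3b.shift 1 3)] (by decide +kernel))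
noncomputable def rhb3d3375f14b91f67 : CRef := CRef.mk (Pat.mk 0x80000000f000000020000000000000000 0x40000000c0000003f0000003e0000003e0000001e 8 6) 0 0 (step_sound _ 68 [(rh96851dee118c1ba3.shift 0 2), (rhf560f6fef98ab568.shift 1 0)] (by decide +kernel))
noncomputable def rh478b6de963302cce : CRef := CRef.mk (Pat.mk 0x80000000c00000018000000000000000000000000 0x40000000c0000000c0000001f0000003f0000001f00000002 8 6) 0 0 (step_sound _ 67 [rh5f35a4995f96f8f2, (rhe286c75f2739cce2.shift 2 1)] (by decide +kernel))
noncomputable def rhff6dbab96c968ee6 : CRef := CRef.mk (Pat.mk 0xc0000000d000000000000000000000000 0x1800000018000000180000001c0000000f0000001c0000000c0000000c 8 5) 0 0 (step_sound _ 97 [(rh33e738c4ed385b9f.shift 0 3), rh9767a395d383a9c4] (by decide +kernel))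
noncomputable def rhbf2afeb12154a83c : CRef := CRef.mk (Pat.mk 0xc0000002800000000000000000000000000000000 0x140000001c0000001c0000000f000000780000001f0000001c0000001c00000014 8 7) 0 0 (step_sound _ 132 [rh4cb41da1383ef7a4, (rhf48373e13d2bc128.shift 2 4)] (by decide +kernel))
noncomputable def rha7038a671b327ffe : CRef := CRef.mk (Pat.mk 0xa0000001a000000000000000000000000 0x3b0000003e0000003f0000003000000030 8 6) 0 0 (step_sound _ 98 [(rh3244c3cc8379b070.shift 0 3), rha5690822b64fecdf] (by decide +kernel))
noncomputable def rh142a68cbd4017e01 : CRef := CRef.mk (Pat.mk 0xa0000001a000000000000000000000000 0x2000000030000000f0000000fe0000003e0000003f0000003800000030 8 8) 0 0 (step_sound _ 132 [(rh7d5e19ec418aab0b.shift 1 1), rh9a99763de8843271, (rhefac72a482fea52e.shift 1 1)] (by decide +kernel))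
noncomputable def rh954cf2afa80b1bb8 : CRef := CRef.mk (Pat.mk 0x50000000500000000000000000 0x90000003bf000001ff000001f70000006000000060 8 10) 0 0 (step_sound _ 101 [(rh8f7af3f59561927a.shift 3 0), (rhb2afcb5db661472f.shift 1 2), rhcfe10c4f82c7a4cb, (rhe85a3cffbf7d730f.shift 3 0)] (by decide +kernel))
noncomputable def rhca81b212c60b4e05 : CRef := CRef.mk (Pat.mk 0x14000000140000000c0000000000000000 0x400000024000000740000007c0000007f0000007200000030 8 7) 0 0 (step_sound _ 99 [(rh067ee224763f21a7.shift 2 0), (rh2612b4f73ba7c3b3.shift 1 2), (rh3af54b5f78790764.shift 0 1)] (by decide +kernel))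
noncomputable def rh3c194a231f632aec : CRef := CRef.mk (Pat.mk 0x80000002800000008000000000000000000000000 0x140000001c0000001c00000008000000780000001f0000001c0000001400000004 8 7) 0 0 (step_sound _ 66 [(rh089a35bad79b642b.shift 2 1), rh169a5019b3eb8c0c, (rhb01ac4982a11ea27.shift 2 0), (rhf504f823d09b474a.shift 2 2)] (by decide +kernel))
noncomputable def rh1bf208e822811812 : CRef := CRef.mk (Pat.mk 0x50000000d000000010000000000000000 0x10000000190000001f0000001f0000003f0000000e0000000e 8 6) 0 0 (step_sound _ 97 [(rh2aac33c566332a8c.shift 0 2), rh318cdda39fd482c1, rhc64ef40263358f14] (by decide +kernel))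
noncomputable def rh80c8cdb8c28da3e6 : CRef := CRef.mk (Pat.mk 0x5000000050000000100000000800000000 0x200000007000000050000000f7000000fe000000ef 8 8) 0 0 (step_sound _ 36 [(rh932754581e0f4330.shift 3 0), rhff6ca199f4e2e378] (by decide +kernel))
noncomputable def rh236e859567235c51 : CRef := CRef.mk (Pat.mk 0xa0000000a0000000200000004000000000 0xa0000000a0000001bf000001fe000001de 8 9) 0 0 (step_sound _ 37 [(rh55afc6a59410cf00.shift 5 0), rhe7c8645ea68cdf41] (by decide +kernel))
noncomputable def rh112fc013d4c2b407 : CRef := CRef.mk (Pat.mk 0xa0000000200000002000000000000000000000000 0x50000000700000007000000070000003e0000000600000007000000070000000700000005 8 6) 0 0 (step_sound _ 162 [rh1b9022be4f7af407, (rh215e11e099257d75.shift 1 2), rh88d639010f998a60, (rhcd5c1c4621014632.shift 0 2)] (by decide +kernel))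
noncomputable def rhbce03622d6a167f6 : CRef := CRef.mk (Pat.mk 0xa0000000a000000020000000100000000 0x110000001b0000001e0000003a0000001f0000003d 8 6) 0 0 (step_sound _ 33 [rh5d424e236ff0513d, rh932754581e0f4330] (by decide +kernel))
noncomputable def rh07aaf8774b11715f : CRef := CRef.mk (Pat.mk 0xa0000000a000000020000000400000000 0x110000001b0000001e0000003a0000001f0000003d 8 6) 0 0 (step_sound _ 33 [(rh55afc6a59410cf00.shift 1 0), rhf1a82480aacfa343] (by decide +kernel))
noncomputable def rh926883c2e51ea161 : CRef := CRef.mk (Pat.mk 0x5000000050000000100000000800000000 0x80000005800000050000000f7000000fe000000ef 8 8) 0 0 (step_sound _ 36 [(rh932754581e0f4330.shift 3 0), rhb8d104735398e87c] (by decide +kernel))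
noncomputable def rh01d8cbead57d3bf9 : CRef := CRef.mk (Pat.mk 0x2800000028000000080000000800000000 0x440000006c000000780000003f0000007c00000030 8 7) 0 0 (step_sound _ 36 [(rh55afc6a59410cf00.shift 3 0), rhaa7ed05fc1fdcbbc] (by decide +kernel))
noncomputable def rh7d00c724d6d6bf5c : CRef := CRef.mk (Pat.mk 0x800000028000000080000000800000000000000000000000000000000 0x40000000c000000780000007c0000000f0000000c0000001c0000001c00000014 8 7) 0 0 (step_sound _ 226 [rh0945578f762dde21, (rh50fbb5868c909700.shift 2 4)] (by decide +kernel))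
noncomputable def rh6741e1b799f06d61 : CRef := CRef.mk (Pat.mk 0xa0000000a00000002000000010000000000000000 0xb0000003e0000003e0000001f0000001f00000016 8 6) 0 0 (step_sound _ 65 [rh664cc8a202f5562f, (rh932754581e0f4330.shift 0 1)] (by decide +kernel))
noncomputable def rh87a3edca41116c28 : CRef := CRef.mk (Pat.mk 0xe00000002000000000000000000000000 0x4000000070000000700000007000000770000003e00000002000000070000000700000005 8 7) 0 0 (step_sound _ 161 [(rh38791ac5737ed75e.shift 0 4), rh7d830273a9d6bf55, rh810d554a9f6522b9] (by decide +kernel))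
noncomputable def rh7b75df7b1b8fb155 : CRef := CRef.mk (Pat.mk 0x3c00000028000000000000000000000000 0x18000000180000003c0000002e0000007f0000003c0000001c 8 7) 0 0 (step_sound _ 98 [rh84bfcea30b515436, (rheb0810cc63b001d8.shift 1 3)] (by decide +kernel))
noncomputable def rh9fcc43ed8cfba192 : CRef := CRef.mk (Pat.mk 0x3800000008000000080000000000000000 0x40000000e0000003c0000000e0000000f0000003c0000001c 8 6) 0 0 (step_sound _ 130 [(rh132883a60cd8aed8.shift 1 1), (rhe4f9133a81c1dbc5.shift 1 2), rhf41616f20f0aa08b] (by decide +kernel))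
noncomputable def rhd79a59188b24ad76 : CRef := CRef.mk (Pat.mk 0x1e00000004000000000000000000000000 0x600000006000000070000001e00000007000000030000000300000003 8 5) 0 0 (step_sound _ 97 [rh205bbac36a8896ec, (rheb0810cc63b001d8.shift 0 3)] (by decide +kernel))
noncomputable def rh29e23b7f25e64b53 : CRef := CRef.mk (Pat.mk 0x380000002800000000000000000000000000000000 0x140000001c0000001e000000380000002f0000007f0000003c0000001c00000014 8 7) 0 0 (step_sound _ 99 [(rh1b9022be4f7af407.shift 2 0), (rh215e11e099257d75.shift 3 2), (rh233b902dac8b075a.shift 0 2), rhe7622dae63927777] (by decide +kernel))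
noncomputable def rh94faf80670e4ec6b : CRef := CRef.mk (Pat.mk 0x20000000200000002000000020000000000000000 0x10000000700000007000000060000000300000003000000070000000600000004 8 3) 0 0 (step_sound _ 34 [rh455b03958b2f8b88, (rhd3458b32566d63f7.shift 1 1)] (by decide +kernel))
noncomputable def rh63121da8fa5df783 : CRef := CRef.mk (Pat.mk 0x1400000014000000040000000400000000 0x200000016000000340000003f0000003f0000003a 8 6) 0 0 (step_sound _ 35 [(rh55afc6a59410cf00.shift 2 0), rh847171dd232656fc] (by decide +kernel))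
noncomputable def rh9e9588fdbc6bb388 : CRef := CRef.mk (Pat.mk 0x1c00000004000000000000000000000000 0x80000000e0000000e0000000e000000ef0000007c000000040000000e0000000e0000000a 8 8) 0 0 (step_sound _ 162 [(rh38791ac5737ed75e.shift 1 4), (rh5b8a3942bd89145c.shift 0 2), (rh7d830273a9d6bf55.shift 1 0), (rh810d554a9f6522b9.shift 1 0)] (by decide +kernel))
noncomputable def rh5c83d89dfc670c90 : CRef := CRef.mk (Pat.mk 0xe0000000a000000000000000000000000000000000 0x10000000300000007e000000fe000001bf00000070000000700000004000000040 8 9) 0 0 (step_sound _ 101 [(rh23d7c6f905db9208.shift 4 0), (rh48b17a255c93c121.shift 4 2), (rh56e03f4688a41d68.shift 0 4)] (by decide +kernel))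
noncomputable def rhaa52f5858920571d : CRef := CRef.mk (Pat.mk 0x100000001c000000100000001000000000 0x40000000c0000001f0000003f000000130000001a00000008 8 6) 0 0 (step_sound _ 131 [(rh50fbb5868c909700.shift 3 1), rh939740f4b4a98ce2] (by decide +kernel))
noncomputable def rh35d5f14762269421 : CRef := CRef.mk (Pat.mk 0x100000001c000000100000000000000000 0xc0000000c0000001c0000007c0000007e000000ff0000003c 8 8) 0 0 (step_sound _ 35 [(rh5ddbeed5d869bf16.shift 3 0), (rh7364613b6f69617f.shift 1 0), (rh752c9303f297f9fa.shift 3 0), rhf5c59e6cdfc59118] (by decide +kernel))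
noncomputable def rh140f36dfb41f42ac : CRef := CRef.mk (Pat.mk 0x300000001c000000100000000000000000 0x20000000600000006000000070000003f0000007c000000ff0000006a00000028 8 8) 0 0 (step_sound _ 69 [(rh4a0b10776449c3e9.shift 2 2), (rh89ade209b3e28f13.shift 2 2), rhb085f84f9b212ac2] (by decide +kernel))
noncomputable def rhe767686aaf6e887f : CRef := CRef.mk (Pat.mk 0x1c00000006000000040000000000000000 0x1000000030000000f80000001e0000001e0000003f0000003b00000032 8 8) 0 0 (step_sound _ 164 [rh445f99f2e9f20fa5, rh9ad8218cf22fd3f6, (rhff7d63dcb3cf9f74.shift 1 4)] (by decide +kernel))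
noncomputable def rh04be1018264b060e : CRef := CRef.mk (Pat.mk 0x180000000c0000000800000000000000000000000000000000 0x80000001c0000000f0000003f0000003c0000001c0000001c00000004 8 6) 0 0 (step_sound _ 161 [(rh53b3c253cb0c65f4.shift 0 5), rhf16de940824a43e1] (by decide +kernel))
noncomputable def rhda44040295eef544 : CRef := CRef.mk (Pat.mk 0x20000000000000003000000018000000000000000000000000 0x20000000e0000003e000000060000003e0000007e000000ef0000000a00000008 8 8) 0 0 (step_sound _ 98 [(rh53b3c253cb0c65f4.shift 1 3), rh5acd49298bdb5153] (by decide +kernel))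
noncomputable def rhfc4a84c79907c6de : CRef := CRef.mk (Pat.mk 0x8000000000000000c0000000600000004 0x800000028000000f80000003e000000330000003f0000001e0000003c 8 8) 0 0 (step_sound _ 68 [rh12b96e59e11ed50c, (rh18965a982d73c794.shift 1 1)] (by decide +kernel))
noncomputable def rh0e9c379274170b0a : CRef := CRef.mk (Pat.mk 0x180000000c0000000800000000 0x80000000e0000000f0000001f0000003f0000001c0000000c 8 6) 0 0 (step_sound _ 65 [rh42295f6b5812b69e, (rh53b3c253cb0c65f4.shift 0 2)] (by decide +kernel))
noncomputable def rh9115bda3dcead73e : CRef := CRef.mk (Pat.mk 0x180000001800000008000000000000000000000000 0x200000002800000028000000780000003f000000ff000000f00000002000000020 8 8) 0 0 (step_sound _ 100 [rh51a8810a16925fac, (rhc94509045ed9c4bf.shift 1 2), (rhfc7c29d8e65d775f.shift 3 2)] (by decide +kernel))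
noncomputable def rh141c526deb3f2b63 : CRef := CRef.mk (Pat.mk 0x4000000040000003c00000000 0x1c0000003c0000000f0000000c0000007c00000070 8 7) 0 0 (step_sound _ 67 [rh714884cdfbb1cb49, (rhf48373e13d2bc128.shift 2 1)] (by decide +kernel))
noncomputable def rh6fca55baf8dec1b9 : CRef := CRef.mk (Pat.mk 0x20000000300000001000000010 0x800000008000007ff000003fe0000007000000010 8 11) 0 0 (step_sound _ 67 [rh394cea040348dbf3, (rh5dec5e73a267a1c4.shift 1 1), (rhab636b484fee030d.shift 2 0)] (by decide +kernel))
noncomputable def rh76b95a79183a38a0 : CRef := CRef.mk (Pat.mk 0x1000000010000000100000001000000000 0x2f0000007e000000ff000000100000001800000008 8 8) 0 0 (step_sound _ 35 [(rh0f4f5e983b383ce5.shift 0 1), (rh932754581e0f4330.shift 3 0)] (by decide +kernel))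
noncomputable def rh21f2da79219ee583 : CRef := CRef.mk (Pat.mk 0x800000008000000080000000800000000 0x170000003f0000003f0000000c0000000c00000004 8 6) 0 0 (step_sound _ 34 [(rh932754581e0f4330.shift 2 0), (rhc5b6ec687d13b121.shift 0 1)] (by decide +kernel))
noncomputable def rhec1bd6714a9e20d4 : CRef := CRef.mk (Pat.mk 0x4000000060000001c0000000000000000 0xe0000000e0000003c0000001e0000001e0000003300000002 8 6) 0 0 (step_sound _ 65 [(rh1ae4704ae86cb9a8.shift 0 1), (rh7f68d6c7ab568b5d.shift 1 1), rh9c40a739b57d6d20] (by decide +kernel))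
noncomputable def rh896cb40d93423f88 : CRef := CRef.mk (Pat.mk 0x3000000010000000100000001000000000 0xcf0000007f0000007e000000300000003000000020 8 8) 0 0 (step_sound _ 131 [(rh50fbb5868c909700.shift 3 1), rh6fe5558351a66f97] (by decide +kernel))
noncomputable def rh4e83f95b4706ee1e : CRef := CRef.mk (Pat.mk 0x180000000800000008000000000000000000000000 0xc0000001c0000005c000000fe000000ff0000003f0000007c000000f00000001000000010 8 8) 0 0 (step_sound _ 165 [(rh2820ca9a6c4f41b4.shift 0 4), rh2d4a2ddb9bbba2eb, (rh3dc20a26c7db9d74.shift 0 3)] (by decide +kernel))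
noncomputable def rh8605076958ac1100 : CRef := CRef.mk (Pat.mk 0x180000000e000000000000000000000000 0x40000001e0000001f0000001e0000000e0000000f0000003c0000001c 8 6) 0 0 (step_sound _ 66 [rh5eb44719993f5690, (rha035d6007b337838.shift 0 1), (rhcf80391c5046a495.shift 2 0), (rhf9366b6a121593ef.shift 2 0)] (by decide +kernel))
noncomputable def rh020adc38471d18b8 : CRef := CRef.mk (Pat.mk 0x200000006000000030000000000000000 0x50000000700000007000000030000001f000000070000000600000004 8 5) 0 0 (step_sound _ 99 [(rh18965a982d73c794.shift 0 2), rhe3b82423f20d2f13] (by decide +kernel))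
noncomputable def rh5411948d142e5bcb : CRef := CRef.mk (Pat.mk 0x40000000c0000000600000000000000000000000000000000 0x2000000060000003e0000003e0000003f0000003e0000001e00000006 8 6) 0 0 (step_sound _ 98 [(rh55800e0decb9c023.shift 1 0), (rh68fe845a5c51375e.shift 1 1), (rhc7cb034da07deeb0.shift 1 0), (rhdec69e28546604d7.shift 1 0), (rhe1625fcb9764f8b8.shift 0 1)] (by decide +kernel))
noncomputable def rh77a92409ff311d11 : CRef := CRef.mk (Pat.mk 0x1000000018000000080000000000000000 0x1000000050000001f7000001fe000003ef0000002000000020 8 10) 0 0 (step_sound _ 164 [(rh5c5e593799055d58.shift 3 2), rh8e44414c6659eec0] (by decide +kernel))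
noncomputable def rh310a6e4a99d3b364 : CRef := CRef.mk (Pat.mk 0x80000000c0000000400000004 0x1000000012000000720000007f000001ff0000006600000024 8 9) 0 0 (step_sound _ 100 [(rh158065cf574453a1.shift 1 0), rh666bd3b837211b5f, (rh69012675dfdb1a5b.shift 0 2), (rhd69c262cd33b94b3.shift 0 2)] (by decide +kernel))
noncomputable def rh3b963bdce9ab2afc : CRef := CRef.mk (Pat.mk 0x300000001c000000000000000000000000 0x80000003c0000007e0000003f0000001c0000001c0000001800000018 8 7) 0 0 (step_sound _ 67 [(rha035d6007b337838.shift 1 1), (rhcf80391c5046a495.shift 3 0), rhdc93c15a941f5295, (rhf9366b6a121593ef.shift 3 0)] (by decide +kernel))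
noncomputable def rh406d9bd4a189566b : CRef := CRef.mk (Pat.mk 0x700000001800000000 0x3c0000003c000000ff0000007f000000f800000040 8 8) 0 0 (step_sound _ 67 [(rh04adde65229dd8ca.shift 0 1), (rh210e2d9c685c857e.shift 0 1), (rh27d95a0f8f38f55d.shift 2 0), (rhb09f4c5eaef57401.shift 2 1)] (by decide +kernel))
noncomputable def rh797f49eeceb0dd32 : CRef := CRef.mk (Pat.mk 0x180000000c00000000000000000000000000000000 0x140000001c0000001c000000180000001c0000000f0000003c0000001c0000001c00000004 8 6) 0 0 (step_sound _ 129 [(rh53b3c253cb0c65f4.shift 0 4), (rhfe20ea88cfb8c114.shift 1 0)] (by decide +kernel))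
noncomputable def rh98fa153ee7ece7e1 : CRef := CRef.mk (Pat.mk 0x7000000018000000000000000000000000 0x2000000070000000f00000007f000000f8000000ec0000006800000008 8 8) 0 0 (step_sound _ 131 [(rh210e2d9c685c857e.shift 0 3), (rh27d95a0f8f38f55d.shift 2 2), (rh6f3c325b04fd0145.shift 2 0), (rhb32eb569dfc388a6.shift 2 1)] (by decide +kernel))
noncomputable def rhb9dfc824f7b4b871 : CRef := CRef.mk (Pat.mk 0x100000001800000008000000080000000000000000 0x26000000770000007f0000001f0000003f0000003400000030 8 7) 0 0 (step_sound _ 98 [(rh02e7bb29240e64f1.shift 1 2), rh14e66f81e727e372, (rh69012675dfdb1a5b.shift 0 3)] (by decide +kernel))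
noncomputable def rh76ad7f57016a69b4 : CRef := CRef.mk (Pat.mk 0x10000000100000001800000008000000000000000000000000 0x280000007a000000ff0000007f0000001f000000140000001400000010 8 8) 0 0 (step_sound _ 98 [(rh0bb882ba86b2372d.shift 0 3), (rh4a719afb15445fd3.shift 1 0), (rh574fdbf07bdd18b9.shift 0 3), (rhbff111b1df1a9d7f.shift 0 1)] (by decide +kernel))
noncomputable def rh58f19ccd3c783475 : CRef := CRef.mk (Pat.mk 0x7000000010000000000000000000000000 0x8000003ff000001fe000001d7000000380000003800000028 8 10) 0 0 (step_sound _ 164 [(rh7328732d0893fed7.shift 2 0), (rha7edc60fc34bffff.shift 2 4), (rhc52e902dcecf41cf.shift 0 3), (rhc71bbfc5ad055bcb.shift 3 0)] (by decide +kernel))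
noncomputable def rh67ebaa4f47fc2e5e : CRef := CRef.mk (Pat.mk 0x1e000000040000000000000000 0x18000000180000003b0000001e0000003c0000001c00000004 8 6) 0 0 (step_sound _ 68 [rh4f872192c4b15b35, (rhe25b0a99195a5d59.shift 1 2)] (by decide +kernel))
noncomputable def rh200ad5b448d6ed65 : CRef := CRef.mk (Pat.mk 0x1000000038000000080000000000000000 0x1000000010000000370000003e000001e80000007c00000028 8 9) 0 0 (step_sound _ 164 [(rh5c5e593799055d58.shift 3 2), rh608611a1fc332205] (by decide +kernel))
noncomputable def rh93cb5c57817acffa : CRef := CRef.mk (Pat.mk 0x1000000038000000080000000000000000 0x3b7000001fe000000f80000000800000008 8 10) 0 0 (step_sound _ 35 [(rh71222050f2c63a3a.shift 3 0), (rha63a408e94886a94.shift 0 2)] (by decide +kernel))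
noncomputable def rh38bce10de678439d : CRef := CRef.mk (Pat.mk 0xf000000010 0x1ce000000fe000001b7 8 9) 0 0 (step_sound _ 71 [(rh33e738c4ed385b9f.shift 4 1), rhf47cb0538f679c0a] (by decide +kernel))
noncomputable def rh936b67b15840b19a : CRef := CRef.mk (Pat.mk 0x1000000038000000080000000000000000 0x20000000770000003e00000078000000f000000070 8 8) 0 0 (step_sound _ 98 [(rh0d378fd9e8917c5a.shift 0 2), (rh8843e60b11aa94e7.shift 2 0), (rhec46bd5500c722c9.shift 1 3)] (by decide +kernel))
noncomputable def rha602c15111dc9a57 : CRef := CRef.mk (Pat.mk 0x3800000000000000000000000000000000 0x2000000060000000f70000007e000001e0000000e0000000e0000000a0 8 9) 0 0 (step_sound _ 102 [(rh0deb2ebc850de581.shift 2 2), (rh171acb83cceabd54.shift 2 1), (rh1a34894f7da8a639.shift 0 3), (rh71efda916732b25a.shift 2 3), (rhc88dbad8567ff01b.shift 0 3), (rhce28eb4a67c2b027.shift 3 0)] (by decide +kernel))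
noncomputable def rh72e46f8efc02f4b5 : CRef := CRef.mk (Pat.mk 0x700000001000000000000000000000000 0x40000000c0000007c0000003f0000007f0000001c0000001c00000014 8 7) 0 0 (step_sound _ 131 [(rh3d54e7f933686048.shift 0 3), rh7542131adc1aa0d7, (rhd584a578337d0023.shift 0 3), (rhf3baec4a0a3dd35e.shift 0 3)] (by decide +kernel))
noncomputable def rhab8309d9bf89922a : CRef := CRef.mk (Pat.mk 0x2000000070000000100000000 0x600000006000000060000001f0000001f0000000f 8 5) 0 0 (step_sound _ 129 [rh243a59cbb24decfb, (rh5c5e593799055d58.shift 0 1)] (by decide +kernel))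
noncomputable def rh78680345a448402d : CRef := CRef.mk (Pat.mk 0x10000000100000001800000008000000000000000000000000 0x2e0000003e00000078000000f8000000ff000000370000001000000010 8 8) 0 0 (step_sound _ 100 [(rh1e87bf36e9e60a85.shift 0 2), (rh3502d92c6cce609b.shift 3 0), (rh8b7ecd037563e0e4.shift 1 2)] (by decide +kernel))
noncomputable def rhe1d08aa776749e78 : CRef := CRef.mk (Pat.mk 0x1000000018000000080000000800000000 0x2f0000007f0000001f0000007c000000fe00000034 8 8) 0 0 (step_sound _ 131 [(rh60f7890073fd1121.shift 1 0), (rh637e5e0bb409ac0c.shift 1 0), rha7b30bf38cabcb0b, rhababf7a8dad35a78] (by decide +kernel))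
noncomputable def rhf0fea40b3d6d6462 : CRef := CRef.mk (Pat.mk 0x180000000e000000000000000000000000 0xe0000000f0000001f0000003e000000770000001400000004 8 7) 0 0 (step_sound _ 66 [(rh74dc28fcd7e9fa01.shift 0 2), rh82c8e71f80e00ab1, rha38003a665d9a506, (rhf9366b6a121593ef.shift 2 0)] (by decide +kernel))
noncomputable def rh07cf783be09f9108 : CRef := CRef.mk (Pat.mk 0x40000000c0000000400000000000000000000000000000000 0x1000000014000000760000007f0000007c0000002f0000000e0000000e00000008 8 7) 0 0 (step_sound _ 164 [rh1bf2cf98d53b9c80, (rh34c6542e55ceb0b7.shift 1 2), (rh7fc59d655f11124d.shift 1 3), (rhf14f4fef408e8266.shift 1 2)] (by decide +kernel))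
noncomputable def rhb030e8b54b8c17b2 : CRef := CRef.mk (Pat.mk 0x800000008000000180000000800000000 0x340000007c0000006f0000007c0000001800000010 8 7) 0 0 (step_sound _ 36 [(rh2e096d9049cb6f5a.shift 0 1), (rh55afc6a59410cf00.shift 3 0)] (by decide +kernel))
noncomputable def rh0ccd36c4029eb4ed : CRef := CRef.mk (Pat.mk 0x2000000060000000200000000000000000000000000000000 0x5000000070000000700000002000000060000000600000007000000070000000700000004 8 3) 0 0 (step_sound _ 225 [(rh22cde4a1aed087ae.shift 1 4), rh97b8b942cbdf718d, (rhc85cc95794737cf7.shift 0 4)] (by decide +kernel))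
noncomputable def rhd8c999de8bee4c18 : CRef := CRef.mk (Pat.mk 0x20000000e000000020000000000000000 0x14000000340000003e0000003f0000000a0000000a00000002 8 6) 0 0 (step_sound _ 130 [rh25a63221d6566091, (rh725f797c954e5806.shift 0 1), (rhea7a1800d6f053bd.shift 1 0)] (by decide +kernel))
noncomputable def rhdf38bce9b59c5b39 : CRef := CRef.mk (Pat.mk 0x80000001800000008000000000000000000000000 0x140000003c0000001f00000018000000080000001c0000001c00000014 8 6) 0 0 (step_sound _ 196 [(rh22d86f446f3de558.shift 0 2), (rh5fcbac5b57173fc5.shift 3 2), rh9110d42db8602177, (rh93edfa1f77289b62.shift 3 3)] (by decide +kernel))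
noncomputable def rhe3f97884c998bb11 : CRef := CRef.mk (Pat.mk 0x20000000e000000020000000000000000 0x400000014000000360000003f0000003a0000000a0000000a 8 6) 0 0 (step_sound _ 130 [rh0a5be41cfa5d2fb3, (rh84d1c02a8954c6a8.shift 1 1), rhd750c306a3729012] (by decide +kernel))
noncomputable def rhe45feed76cc5ca95 : CRef := CRef.mk (Pat.mk 0x380000000800000000000000000000000000000000 0x140000003e000000ff000000e8000000080000001c0000001c00000014 8 8) 0 0 (step_sound _ 99 [(rh677425279ad553b7.shift 0 3), (rhfb9953e9a73eee19.shift 1 2), (rhffb8e5993241bf15.shift 2 0)] (by decide +kernel))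
noncomputable def rh8eb5711751f67440 : CRef := CRef.mk (Pat.mk 0xe000000020000000000000000 0xc0000000c0000007e0000003f0000007a0000001f0000000e 8 7) 0 0 (step_sound _ 130 [rh054eec66bdc88820, (rh4821dcf828b9d7bf.shift 1 0), rhc5866e38d6f11076] (by decide +kernel))
noncomputable def rh4b25bac5010a095b : CRef := CRef.mk (Pat.mk 0x1e00000000000000000000000000000000 0x8000000180000003b0000001e00000038000000380000003800000028 8 6) 0 0 (step_sound _ 161 [(rh3244c3cc8379b070.shift 0 4), (rh4330d3c96af905f1.shift 1 0)] (by decide +kernel))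
noncomputable def rhb4453f7eb37874fd : CRef := CRef.mk (Pat.mk 0x1c00000004000000000000000000000000 0x1a0000003a0000007f0000007e00000074000000740000007400000050 8 7) 0 0 (step_sound _ 101 [(rh6052fb40ff1ff60e.shift 1 2), (rh9fdf843c4b47d5a8.shift 0 1), (rhce28eb4a67c2b027.shift 2 0)] (by decide +kernel))
noncomputable def rh6c133646c5a9d79f : CRef := CRef.mk (Pat.mk 0x380000000c0000000000000000 0x1c0000001e0000007f0000003e0000007c0000000c0000000c 8 7) 0 0 (step_sound _ 132 [(rhbe253d1426d5780c.shift 1 0), (rhd4ce4468419f50bb.shift 0 2), (rhf9366b6a121593ef.shift 3 0)] (by decide +kernel))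
noncomputable def rh523dd6c48b9c9ba5 : CRef := CRef.mk (Pat.mk 0x180000000e00000000000000000000000000000000 0x100000001c0000001e0000001f0000001b0000001e0000000c0000001c0000001c00000010 8 5) 0 0 (step_sound _ 195 [(rh23a4b133c5feed8b.shift 2 1), (rh281c6819542c66e6.shift 2 1), (rh660ea19c86119cc0.shift 2 3), rh7d66549fade2cbf4] (by decide +kernel))
noncomputable def rhf421b995d0b831b4 : CRef := CRef.mk (Pat.mk 0x300000001c000000000000000000000000 0x3c0000007e0000003f0000001c0000001c0000001c0000001c 8 7) 0 0 (step_sound _ 67 [rh9e44abf04b96d546, (rha035d6007b337838.shift 1 1), (rhcf80391c5046a495.shift 3 0), (rhf9366b6a121593ef.shift 3 0)] (by decide +kernel))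
noncomputable def rhf7238f66a0956909 : CRef := CRef.mk (Pat.mk 0x300000001c000000000000000000000000 0xc0000007e0000003f0000001c0000007e0000007c0000003c 8 7) 0 0 (step_sound _ 67 [(rh0f2b70c50c52c45f.shift 1 0), (rh4ed0db45131425fd.shift 1 0), rh68f660fad7a8393f, (rh920295951d50fb58.shift 2 0), rh9e44abf04b96d546] (by decide +kernel))
noncomputable def rh65df0061b5740102 : CRef := CRef.mk (Pat.mk 0xc000000060000000000000000 0x8000000080000003c0000003f0000003e0000003e0000001c 8 6) 0 0 (step_sound _ 100 [(rh18965a982d73c794.shift 1 2), rh5daf4536e6bb0b7a] (by decide +kernel))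
noncomputable def rh137291279585f2d2 : CRef := CRef.mk (Pat.mk 0x300000001c000000000000000000000000 0x30000000770000003f0000001c0000007c0000003e0000001c 8 7) 0 0 (step_sound _ 67 [(rh471c9edde87ddc5c.shift 2 1), rhbba33d5aa5dc45f0, (rhcf80391c5046a495.shift 3 0), (rhf9366b6a121593ef.shift 3 0)] (by decide +kernel))
noncomputable def rhe4039fba4dd9c7ac : CRef := CRef.mk (Pat.mk 0x1c000000060000000000000000 0x80000002c0000007c0000001f0000003e0000003e0000001f 8 7) 0 0 (step_sound _ 131 [(rhadf429772c25fde0.shift 2 0), rhd9c94fdf2d4eb392, rhfb5b3e530894a2ea] (by decide +kernel))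
noncomputable def rh1afae357bb4327c3 : CRef := CRef.mk (Pat.mk 0x180000000e000000000000000000000000 0x80000001a0000001b0000003e0000003f0000007c0000003c 8 7) 0 0 (step_sound _ 66 [rh455938843a2056c4, (rhbc45defcffc6d51e.shift 0 1), (rhcf80391c5046a495.shift 2 0)] (by decide +kernel))
noncomputable def rh5750a1e47e9fc816 : CRef := CRef.mk (Pat.mk 0x80000000c000000040000000400000000 0x600000006000000060000000f0000003c000000360000003e0000001a 8 6) 0 0 (step_sound _ 130 [(rh0ef6c71ce89c1c36.shift 1 0), (rh54bb759cf5cfcc86.shift 1 0), (rhcf85c92937975d4d.shift 0 1)] (by decide +kernel))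
noncomputable def rh26605b77b2e84b60 : CRef := CRef.mk (Pat.mk 0x8000000080000000c00000004000000000000000000000000 0x60000000f0000007f0000003f0000003c000000180000001800000008 8 7) 0 0 (step_sound _ 164 [(rh314d353bdb5373f1.shift 0 2), (rh574fdbf07bdd18b9.shift 0 4), (rhcde230e1fccc7ea0.shift 1 2), rheacf91d05af57cf1] (by decide +kernel))
noncomputable def rh1abd8b7394fee212 : CRef := CRef.mk (Pat.mk 0x180000000c000000000000000000000000 0x6000000070000001f0000003f0000003f0000003600000030 8 6) 0 0 (step_sound _ 97 [rh1f9841a36e788949, (rh53b3c253cb0c65f4.shift 0 3)] (by decide +kernel))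
noncomputable def rhe3ece1b8b8149cd1 : CRef := CRef.mk (Pat.mk 0x380000000c0000000000000000 0x1c0000001e000000770000003e0000007c0000007800000038 8 7) 0 0 (step_sound _ 132 [(rhadf429772c25fde0.shift 3 0), (rhb943da9177509395.shift 1 0), (rhd4ce4468419f50bb.shift 0 2), (rhde620120ede18add.shift 1 0)] (by decide +kernel))
noncomputable def rhcc75ef3b5fcc2e97 : CRef := CRef.mk (Pat.mk 0x18000000080000000800000000000000000000000000000000 0x40000000c0000002c000000780000003f0000007f000000380000003c0000001c00000014 8 7) 0 0 (step_sound _ 162 [(rh04cc3fc4fec38a6f.shift 0 2), (rh4659c58a5fd0aa74.shift 2 0), (rh69012675dfdb1a5b.shift 0 5), (rhbd8dff2a50231c67.shift 0 1)] (by decide +kernel))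
noncomputable def rh098bc7705ecc427a : CRef := CRef.mk (Pat.mk 0x800000018000000080000000800000000 0x40000000c000000780000003f0000003f00000014 8 7) 0 0 (step_sound _ 36 [(rh55afc6a59410cf00.shift 3 0), rhf8252cba2f35f4dd] (by decide +kernel))
noncomputable def rhd186afc7bd89801d : CRef := CRef.mk (Pat.mk 0x8000000080000000800000010000000000000000000000000 0x80000000c0000003f0000003f000000170000000200000002 8 6) 0 0 (step_sound _ 99 [rh54bba4f519e9a70d, (rh55afc6a59410cf00.shift 3 2)] (by decide +kernel))
noncomputable def rh7967cbec474eb2f4 : CRef := CRef.mk (Pat.mk 0x8000000080000000800000008000000000000000000000000 0x80000000c0000003f0000003f000000170000000200000002 8 6) 0 0 (step_sound _ 100 [rh54bba4f519e9a70d, (rh55afc6a59410cf00.shift 3 2)] (by decide +kernel))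
noncomputable def rh8e21e0afc44fc961 : CRef := CRef.mk (Pat.mk 0x40000000c000000040000000400000000000000000000000000000000 0x400000006000000060000003c0000000f00000006000000060000000e0000000e0000000a 8 6) 0 0 (step_sound _ 225 [rh0d1726d07913295d, (rh50fbb5868c909700.shift 1 4)] (by decide +kernel))
noncomputable def rh0bd149663d6386ca : CRef := CRef.mk (Pat.mk 0x2000000030000000100000001000000000 0x180000007e0000003e000000f70000003e0000002c 8 8) 0 0 (step_sound _ 98 [(rh879cdb683ee6f2d5.shift 0 2), (rhdbe7989f4d16ea95.shift 1 0), (rhe988faf8dbc20dc3.shift 1 0)] (by decide +kernel))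
noncomputable def rh129050ca158fdb17 : CRef := CRef.mk (Pat.mk 0x70000000180000000000000000 0x20000000b0000001fe0000007f000000d8000000f80000007c 8 9) 0 0 (step_sound _ 133 [(rh4821dcf828b9d7bf.shift 4 0), (rh4fe45171b1186db1.shift 0 1), (rh8ba76a019a1305b6.shift 2 0), (rhd9c94fdf2d4eb392.shift 2 0)] (by decide +kernel))
noncomputable def rhf18d67c87a5f0f79 : CRef := CRef.mk (Pat.mk 0x180000000e000000000000000000000000 0x180000001e0000001f0000003e0000003c0000001f0000000e 8 6) 0 0 (step_sound _ 66 [rh2d4b1c56b67e8f65, (rh471c9edde87ddc5c.shift 1 1), (rhcf80391c5046a495.shift 2 0), (rhf9366b6a121593ef.shift 2 0)] (by decide +kernel))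
noncomputable def rh82dfa7f15a9fa1d0 : CRef := CRef.mk (Pat.mk 0x7000000018000000000000000000000000 0x50000000fe0000007f000000f80000003f0000007c0000003c 8 8) 0 0 (step_sound _ 67 [rh866e3a6a0c56f9db, (rh9247b2a6279e891f.shift 0 1), (rhadf429772c25fde0.shift 3 0)] (by decide +kernel))
noncomputable def rhebb65282a71489f3 : CRef := CRef.mk (Pat.mk 0x180000000e000000000000000000000000 0xb0000000b0000001f0000003e0000000f0000000400000004 8 6) 0 0 (step_sound _ 66 [rh0e125c315770d421, (rhcf80391c5046a495.shift 2 0), (rhf77932b370246a30.shift 0 2), (rhf9366b6a121593ef.shift 2 0)] (by decide +kernel))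
noncomputable def rh2c4015b596a6cbac : CRef := CRef.mk (Pat.mk 0x700000001800000000000000000000000000000000 0x300000003c00000078000000d8000000ff000000fc0000003c00000010 8 8) 0 0 (step_sound _ 99 [(rh281434b0fc5159ce.shift 3 0), (rh866e3a6a0c56f9db.shift 0 1), (rhcf80391c5046a495.shift 3 1), (rhf9366b6a121593ef.shift 3 1)] (by decide +kernel))
noncomputable def rha606ab2a80ffbe7a : CRef := CRef.mk (Pat.mk 0x180000000e000000000000000000000000 0x80000000800000018000000fe0000007f0000003c00000034 8 8) 0 0 (step_sound _ 66 [rh3d34c2add230be44, (rhbc45defcffc6d51e.shift 0 1), (rhcf80391c5046a495.shift 2 0)] (by decide +kernel))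
noncomputable def rh0dce48b8037d8d6e : CRef := CRef.mk (Pat.mk 0x380000000c0000000000000000 0x10000000180000007f0000003e0000007c0000006e0000002c 8 7) 0 0 (step_sound _ 132 [(rh4821dcf828b9d7bf.shift 3 0), (rh5e734b2eec7d6fdb.shift 1 0), rhd38713e57299204a] (by decide +kernel))
noncomputable def rh1170245cca44f4ba : CRef := CRef.mk (Pat.mk 0x300000001c000000000000000000000000 0x3000000038000000380000001c0000007f0000007c0000003c 8 7) 0 0 (step_sound _ 67 [(rh471c9edde87ddc5c.shift 2 1), rh6a4c3472cae795bb, (rhf9366b6a121593ef.shift 3 0)] (by decide +kernel))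
noncomputable def rh4efb5619c869dc3c : CRef := CRef.mk (Pat.mk 0x380000000c000000000000000000000000 0x40000001c0000001c000000180000003f0000003f0000001c0000007c0000007c00000018 8 7) 0 0 (step_sound _ 163 [(rh8f347337e464b17b.shift 0 2), (rhbb339bb7e4e96b38.shift 2 2), rhf4578179c48d6c0b, (rhf45e0304ed2086f1.shift 2 0)] (by decide +kernel))
noncomputable def rhe7e86280834d1120 : CRef := CRef.mk (Pat.mk 0xe00000003000000000000000000000000 0xe0000001e0000003e0000000e0000003f0000003e0000000e00000004 8 6) 0 0 (step_sound _ 162 [(rh2dfe78d72b8fda90.shift 1 1), (rh4821dcf828b9d7bf.shift 1 1), rh7ab82c722c103d37, (rhadf429772c25fde0.shift 1 1)] (by decide +kernel))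
noncomputable def rh1f85079941ff49b8 : CRef := CRef.mk (Pat.mk 0x180000000e000000000000000000000000 0x38000000380000003c0000001f000000fe0000003b0000001a0000001a 8 8) 0 0 (step_sound _ 164 [rha09390dd80d959b2, (rhb319960cb6b2757f.shift 0 2), (rhf9366b6a121593ef.shift 3 1)] (by decide +kernel))
noncomputable def rhc7ec79e13146fc20 : CRef := CRef.mk (Pat.mk 0x180000000e00000000000000000000000000000000 0x100000001800000038000000780000002e0000007f0000003c0000001c00000014 8 7) 0 0 (step_sound _ 165 [(rh18965a982d73c794.shift 2 4), rha23c1d56ac5e0447] (by decide +kernel))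
noncomputable def rh843e3750bc366e6d : CRef := CRef.mk (Pat.mk 0x180000000e000000000000000000000000 0x180000001a0000001b0000001e0000003f0000007c0000003c 8 7) 0 0 (step_sound _ 66 [rh455938843a2056c4, (rh471c9edde87ddc5c.shift 1 1), rh82c8e71f80e00ab1, (rhcf80391c5046a495.shift 2 0)] (by decide +kernel))
noncomputable def rhde29d6d5e6bd60cb : CRef := CRef.mk (Pat.mk 0x1c000000060000000000000000 0x1c0000003c0000007c0000001c0000007e0000007e0000001f 8 7) 0 0 (step_sound _ 131 [(rhadf429772c25fde0.shift 2 0), (rhbefb9cf6fcc2d4c7.shift 1 0), rhd9c94fdf2d4eb392] (by decide +kernel))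
noncomputable def rh04e9d582a75cd35c : CRef := CRef.mk (Pat.mk 0x180000000e000000000000000000000000 0x80000000a0000000f0000001f000000fe000000f70000001600000006 8 8) 0 0 (step_sound _ 163 [rh6776ca99e85b6609, (rh7853c31a844148ad.shift 0 1), (rhbb339bb7e4e96b38.shift 2 2), (rhfafeb437ceb8396d.shift 2 0)] (by decide +kernel))
noncomputable def rh14cd4cdf098be38a : CRef := CRef.mk (Pat.mk 0x200000001c000000000000000000000000 0x4000000340000003f0000003f0000000300000002 8 6) 0 0 (step_sound _ 97 [(rh428265de8cd3cd2d.shift 1 3), rhe33a4d67cca5a722] (by decide +kernel))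
noncomputable def rh631200791555ddc8 : CRef := CRef.mk (Pat.mk 0x1e00000000000000000000000000000000 0x400000006000000070000001e00000007000000070000000700000003 8 5) 0 0 (step_sound _ 161 [(rh3244c3cc8379b070.shift 0 4), rh58cbcf80f75aaf05] (by decide +kernel))
noncomputable def rh257a556c69ee4933 : CRef := CRef.mk (Pat.mk 0x78000000000000000000000000 0x180000001c000000780000003c0000001f0000001c 8 7) 0 0 (step_sound _ 131 [(rh3244c3cc8379b070.shift 2 3), rh84831ace8c53143c] (by decide +kernel))
noncomputable def rh83d232c0270e980e : CRef := CRef.mk (Pat.mk 0x180000000e000000000000000000000000 0x30000000300000001f000000fe000000ff0000003800000018 8 8) 0 0 (step_sound _ 100 [(rh883451bd3feec117.shift 0 2), rhc4606c183ebb4f58, (rhd2705a941542c9fb.shift 0 1), rhf7ae7d43a9e2b9a7] (by decide +kernel))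
noncomputable def rh2996758104b30149 : CRef := CRef.mk (Pat.mk 0x80000000e000000040000000000000000 0x2000000eb0000007e0000007f0000000400000004 8 8) 0 0 (step_sound _ 34 [(rh71222050f2c63a3a.shift 2 0), (rhab97c3067a7def42.shift 0 1)] (by decide +kernel))
noncomputable def rhdbb7dda37812eefd : CRef := CRef.mk (Pat.mk 0x100000001c000000080000000000000000 0x6e0000007f0000001c0000007f0000003e0000001c 8 7) 0 0 (step_sound _ 35 [(rh71222050f2c63a3a.shift 3 0), rh8ccb26e392843af8] (by decide +kernel))
noncomputable def rh9c82887176fc970b : CRef := CRef.mk (Pat.mk 0x80000000e000000000000000000000000 0x1c0000003e0000003f0000003e0000000f0000000e00000004 8 6) 0 0 (step_sound _ 100 [rh10542c60e0f28dcb, (rh13e3bf69a48efc05.shift 0 1), (rh21460d2d48a35cb8.shift 0 1), (rh86fee9423a6b38ba.shift 0 1), rhded2d47852c46337] (by decide +kernel))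
noncomputable def rha3f1dec29fa4309f : CRef := CRef.mk (Pat.mk 0x2000000018000000000000000000000000 0x200000002c000001ef000000fe000001fe0000005800000058 8 9) 0 0 (step_sound _ 101 [(rh10d342d0ef647a06.shift 2 0), (rh16b38e15ac3db8ca.shift 2 0), (rh27ed1f7e81235da3.shift 1 0), (rh8522c6bc3a1a8270.shift 1 2), (rhf5183d55e2daca0a.shift 1 0), (rhfd01510815188b45.shift 0 2)] (by decide +kernel))
noncomputable def rh475f49615e6043f4 : CRef := CRef.mk (Pat.mk 0x1c0000000600000000000000000000000000000000 0x140000003c0000001f0000007e0000003f0000003e0000000e0000000c 8 7) 0 0 (step_sound _ 97 [(rh4821dcf828b9d7bf.shift 1 1), (rh8e40b813915363a6.shift 0 1), (rhe15e844c686e8994.shift 1 0)] (by decide +kernel))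
noncomputable def rhe7d565546aca49c9 : CRef := CRef.mk (Pat.mk 0x300000001c000000000000000000000000 0x7000000078000001f80000003f0000007c0000003e0000003c00000028 8 9) 0 0 (step_sound _ 165 [(rh05fe168e77a4de2e.shift 1 0), rh2e44574d8e8811c2, (rhcf80391c5046a495.shift 4 1), (rhf9366b6a121593ef.shift 4 1)] (by decide +kernel))
noncomputable def rhb0c68faeb46661ee : CRef := CRef.mk (Pat.mk 0x1c00000006000000000000000000000000 0x80000001c0000003c0000001f0000007e0000000f0000000e00000006 8 7) 0 0 (step_sound _ 65 [(rh4821dcf828b9d7bf.shift 1 0), (rh847c3d2fada2b1d2.shift 0 1), rh8e40b813915363a6, (rhadf429772c25fde0.shift 1 0)] (by decide +kernel))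
noncomputable def rhec0e9af91cb0a174 : CRef := CRef.mk (Pat.mk 0x1c000000060000000000000000 0x80000000c0000003c0000001f0000003e0000003700000016 8 6) 0 0 (step_sound _ 131 [(rh4821dcf828b9d7bf.shift 2 0), rh52fb5f3b090cacd9, rh5e734b2eec7d6fdb, (rhadf429772c25fde0.shift 2 0)] (by decide +kernel))
noncomputable def rh716678df6cf9150d : CRef := CRef.mk (Pat.mk 0x180000000c0000000000000000 0x1000000014000000340000001f000000ff000000ef00000002 8 8) 0 0 (step_sound _ 65 [(rh53b3c253cb0c65f4.shift 0 2), rh76644db1fc3861be] (by decide +kernel))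
noncomputable def rh677f4258c7d04d00 : CRef := CRef.mk (Pat.mk 0x600000003000000000000000000000000 0x500000007000000070000000700000007000000070000001f0000001f00000007 8 5) 0 0 (step_sound _ 65 [rh000637b5a81e86aa, rh163a458c14ee05a0, (rh8922951154610591.shift 0 1)] (by decide +kernel))
noncomputable def rhf91f2f16f34163ef : CRef := CRef.mk (Pat.mk 0x180000000c00000000000000000000000000000000 0x140000001c0000001c000000180000001f000000780000001e0000001c00000014 8 7) 0 0 (step_sound _ 129 [(rh53b3c253cb0c65f4.shift 0 4), (rhfb150cadafbb63d9.shift 1 0)] (by decide +kernel))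
noncomputable def rh5459ad12a1a3f355 : CRef := CRef.mk (Pat.mk 0xe0000000300000000000000000000000000000000 0x200000003000000070000001f0000000f0000001f0000001e0000000e0000000600000004 8 5) 0 0 (step_sound _ 97 [(rh000637b5a81e86aa.shift 0 1), (rh73e99d91bb3b78e6.shift 0 2), rh933c6d9058c2d86b, (rhac917a7a6fd43377.shift 1 0)] (by decide +kernel))
noncomputable def rh108a675ac54b0aed : CRef := CRef.mk (Pat.mk 0x180000000c0000000000000000000000000000000000000000 0x140000001c0000001c000000180000000f0000007c0000001e0000001c0000001c00000010 8 7) 0 0 (step_sound _ 161 [(rh53b3c253cb0c65f4.shift 0 5), (rhcce1e0a6c1191cc1.shift 1 0)] (by decide +kernel))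
noncomputable def rhb6ddd8aa5c2b851b : CRef := CRef.mk (Pat.mk 0xe00000003000000000000000000000000 0xe0000000e0000000e0000000e0000003f0000003f0000001f00000004 8 6) 0 0 (step_sound _ 162 [(rh4821dcf828b9d7bf.shift 1 1), (rh6f79599a1d3d970f.shift 0 1), (rha5baf8521d23b420.shift 1 0), (rhbefb9cf6fcc2d4c7.shift 0 1)] (by decide +kernel))
noncomputable def rh522b6cae0e1292cb : CRef := CRef.mk (Pat.mk 0x70000000180000000000000000 0x280000003800000078000000f00000007f000000f8000000ec00000028 8 8) 0 0 (step_sound _ 132 [rh5efcf5e8c8ec51cb, (rh7d4be646332fc08b.shift 3 1), rh8385407bdb294e4c, (rhb622aa591eacde43.shift 3 1)] (by decide +kernel))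
noncomputable def rhbc439363394e3de6 : CRef := CRef.mk (Pat.mk 0x100000000e000000000000000000000000 0x280000003c0000003c0000001f0000003e0000003f0000001a00000018 8 6) 0 0 (step_sound _ 100 [(rh47c07cd0cc865f65.shift 0 2), (rha5d73a2884006b21.shift 1 0), (rhac3da7cf9f2c97f5.shift 0 1)] (by decide +kernel))
noncomputable def rh68022a8bcad0949e : CRef := CRef.mk (Pat.mk 0x80000000e000000000000000000000000 0x1c0000003e0000003f0000007e000000ef0000000e00000004 8 8) 0 0 (step_sound _ 100 [rh10542c60e0f28dcb, (rh13e3bf69a48efc05.shift 0 1), (rh6c1bc18f1ef72b39.shift 0 2), (rh86fee9423a6b38ba.shift 0 1), rhded2d47852c46337] (by decide +kernel))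
noncomputable def rhb93980538b69ee7b : CRef := CRef.mk (Pat.mk 0x80000000e000000000000000000000000 0x80000000e0000000f0000003e0000003f0000001f0000001e 8 6) 0 0 (step_sound _ 66 [rh2cb8437104de90cf, rh890283d8205227f4, (rhf9366b6a121593ef.shift 2 0)] (by decide +kernel))
noncomputable def rhb317c6cc5236f514 : CRef := CRef.mk (Pat.mk 0x80000000e000000000000000000000000 0xa0000000a0000007b0000003e0000007f0000001400000014 8 7) 0 0 (step_sound _ 66 [rh1365ca4e93350c1f, rh2cb8437104de90cf, (rhcf80391c5046a495.shift 2 0)] (by decide +kernel))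
noncomputable def rheed30fe6e856b39a : CRef := CRef.mk (Pat.mk 0x100000001c000000080000000000000000 0x8000000080000006c0000007c0000001c0000007f0000003e0000001c 8 7) 0 0 (step_sound _ 35 [(rh71222050f2c63a3a.shift 3 0), rhfee74c95caea002b] (by decide +kernel))
noncomputable def rhf2b14e1f1d4c3afc : CRef := CRef.mk (Pat.mk 0x700000001800000000000000000000000000000000 0x2000000030000000f80000007c000000d8000000ff000000fc0000003c00000010 8 8) 0 0 (step_sound _ 99 [(rh1db1721294d46498.shift 0 1), (rh281434b0fc5159ce.shift 3 0), (rh4821dcf828b9d7bf.shift 3 1), (rhadf429772c25fde0.shift 3 1)] (by decide +kernel))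
noncomputable def rh5c558c1ff85d792d : CRef := CRef.mk (Pat.mk 0x1c00000006000000000000000000000000 0x80000001c0000003c0000001f0000007e0000003f0000001e00000006 8 7) 0 0 (step_sound _ 65 [(rh5c3a3a0bf93f15e3.shift 0 1), rh8e40b813915363a6, (rhadf429772c25fde0.shift 1 0)] (by decide +kernel))
noncomputable def rh1369e8588af69a78 : CRef := CRef.mk (Pat.mk 0xc0000000600000000000000000000000000000000 0x80000000c0000000c0000000e0000000f0000003c0000000e0000000e0000000e0000000e00000002 8 6) 0 0 (step_sound _ 164 [(rh18965a982d73c794.shift 1 4), rh76bc1c3c7d505c7d] (by decide +kernel))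
noncomputable def rh913a27bb690b8afb : CRef := CRef.mk (Pat.mk 0x180000000c00000000000000000000000000000000 0x100000001c0000001f0000001f0000001c0000001c0000001c0000001c0000001800000008 8 5) 0 0 (step_sound _ 99 [(rh8a2c0acdca8525d6.shift 2 0), (rh9bb5c7e5c08d4582.shift 2 1), (rhae637eb12829918c.shift 0 2)] (by decide +kernel))
noncomputable def rh01283b94e84261d6 : CRef := CRef.mk (Pat.mk 0x180000000e000000000000000000000000 0x140000001c0000001e0000001f0000007a0000000e0000000e0000000c00000004 8 7) 0 0 (step_sound _ 133 [(rh18965a982d73c794.shift 2 3), rh2c4cf3237a34a5a1] (by decide +kernel))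
noncomputable def rhaf435f1addd569db : CRef := CRef.mk (Pat.mk 0x40000001c000000020000000000000000 0x4000000140000003f0000001f0000003a0000000a0000000a 8 6) 0 0 (step_sound _ 97 [(rh03f9d36a2d6e8f0b.shift 0 1), (rh2381ca26b8b38d1e.shift 0 2), rhba2ffd511ec2fd2f] (by decide +kernel))
noncomputable def rh8f1d4d8f09e94aed : CRef := CRef.mk (Pat.mk 0x78000000080000000000000000 0x140000001f0000003c00000078000000180000001800000018 8 7) 0 0 (step_sound _ 131 [rh227f4004b4f3cce2, (rh3244c3cc8379b070.shift 2 3)] (by decide +kernel))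
noncomputable def rh9616a8682abd30ae : CRef := CRef.mk (Pat.mk 0x7000000010000000000000000000000000 0x2000000070000000f00000007f000000fc0000006c0000002800000008 8 8) 0 0 (step_sound _ 131 [(rh3e1b7b343686dca1.shift 2 3), (rh814765acf06398ac.shift 2 2), (rha2f21a9ef0fe7654.shift 0 3), (rhcf6c469f5d636637.shift 2 1), (rhf4f1a03a19e2b36a.shift 2 0)] (by decide +kernel))
noncomputable def rheefade70454d5a0c : CRef := CRef.mk (Pat.mk 0x7000000018000000000000000000000000 0x1800000018000000fc0000007f000000380000000c0000000c0000000c 8 8) 0 0 (step_sound _ 131 [(rh205bbac36a8896ec.shift 2 0), (rh210e2d9c685c857e.shift 0 3)] (by decide +kernel))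
noncomputable def rhd13425c6ad1aa4d4 : CRef := CRef.mk (Pat.mk 0x1c00000006000000000000000000000000 0xe0000000f0000003f0000001f00000036000000130000000300000003 8 6) 0 0 (step_sound _ 129 [(rh1aded9edf2cf7032.shift 0 2), rh205bbac36a8896ec, (rh27d95a0f8f38f55d.shift 0 2)] (by decide +kernel))
noncomputable def rh5e29cc6fcab447e5 : CRef := CRef.mk (Pat.mk 0x38000000080000000000000000 0x14000000140000007f0000003e0000006f0000002800000008 8 7) 0 0 (step_sound _ 132 [(rh3ff37293e0b8329d.shift 0 1), (rh4821dcf828b9d7bf.shift 3 0), (rh82cc2deab149c31d.shift 1 0)] (by decide +kernel))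
noncomputable def rha7fa973ea6938e87 : CRef := CRef.mk (Pat.mk 0x80000001c000000040000000000000000 0x1c0000001e0000007c0000001c0000001f0000001b00000018 8 7) 0 0 (step_sound _ 163 [rh4f81df98a882ed31, (rh5c5e593799055d58.shift 2 2)] (by decide +kernel))
noncomputable def rhf10eac71e737f5ed : CRef := CRef.mk (Pat.mk 0x180000000e0000000000000000 0x80000003c0000003e000000ff0000001b0000001e0000001c0000000c 8 8) 0 0 (step_sound _ 132 [rh44d31e7d6516e5b1, (rhcf80391c5046a495.shift 3 0), (rhf9366b6a121593ef.shift 3 0), (rhfa942acc476010d0.shift 1 1)] (by decide +kernel))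
noncomputable def rh7268977ffa731127 : CRef := CRef.mk (Pat.mk 0x1e00000002000000000000000000000000 0x4000000070000000700000007000000070000001e00000002000000070000000700000005 8 5) 0 0 (step_sound _ 161 [(rh3244c3cc8379b070.shift 0 4), rh8ee974dbc4903f92] (by decide +kernel))
noncomputable def rh575818d82ff5d49a : CRef := CRef.mk (Pat.mk 0x380000000c000000000000000000000000 0x140000001c0000001c0000000f0000003c0000000c0000001e0000001e00000016 8 6) 0 0 (step_sound _ 162 [rh33ecdbcc9b68c2ae, (rh844f70a03cf15d8e.shift 2 0), (rha1e90cdd7a3bb451.shift 1 0), (rhd652c19df8b64ee8.shift 1 1)] (by decide +kernel))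
noncomputable def rh2347b14f736ae7a1 : CRef := CRef.mk (Pat.mk 0x180000000e000000000000000000000000 0xa0000000b0000001f000000fe000000f60000001400000004 8 8) 0 0 (step_sound _ 66 [rh0356ca351eafed18, (rh3e4ddeabd3c1d94a.shift 0 1), rhd573082e04eaa42e, (rhf9366b6a121593ef.shift 2 0)] (by decide +kernel))
noncomputable def rhc56da5d249939437 : CRef := CRef.mk (Pat.mk 0x30000000180000000000000000 0x2000000060000000e0000000ff000000f8000000e000000060 8 8) 0 0 (step_sound _ 102 [rh05c216e67a165cb2, (rh18965a982d73c794.shift 3 2)] (by decide +kernel))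
noncomputable def rh38a43623b773715c : CRef := CRef.mk (Pat.mk 0x180000000e000000000000000000000000 0x3000000032000000330000001f0000003e0000003c0000001c00000018 8 6) 0 0 (step_sound _ 100 [(rh41d5a93e35cc8528.shift 0 1), (rh9767a395d383a9c4.shift 1 0)] (by decide +kernel))
noncomputable def rhc9dc90c2c57d03cc : CRef := CRef.mk (Pat.mk 0x700000008000000000000000000000000 0x40000000c0000001c0000000f0000001c0000001c0000001c00000018 8 5) 0 0 (step_sound _ 131 [rhd26a470973d7e518, (rhe25b0a99195a5d59.shift 0 3)] (by decide +kernel))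
noncomputable def rh8862abf009d3b0b5 : CRef := CRef.mk (Pat.mk 0xe0000000100000000000000000 0x40000000f0000001fe000000fe000001f7000000f800000078 8 9) 0 0 (step_sound _ 100 [(rh1301ebdefe49082b.shift 0 2), (rh3d6489220b487b1c.shift 3 1), (rh61325f73ebf98108.shift 2 3), (rhe1a96e86e7860659.shift 3 0), (rhf459621b93742302.shift 3 0)] (by decide +kernel))
noncomputable def rhfcb4f1deab08bf00 : CRef := CRef.mk (Pat.mk 0x180000000e000000000000000000000000 0x1e0000001f0000001f0000003e0000000e0000000c00000004 8 6) 0 0 (step_sound _ 66 [(rh1623a5e1f676303d.shift 0 1), rh868c42a8cb7b319e, (rhadf429772c25fde0.shift 2 0)] (by decide +kernel))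
noncomputable def rha47566d70085529f : CRef := CRef.mk (Pat.mk 0xc00000007000000000000000000000000 0xa0000000e0000000e0000000e0000000e0000000e0000000e0000000f0000001e0000000e00000006 8 5) 0 0 (step_sound _ 162 [rh0324bce79e7043da, (rh281c6819542c66e6.shift 1 0), (rhbe1da048808aeceb.shift 1 1), (rhdad563ccd03738ac.shift 1 2)] (by decide +kernel))
noncomputable def rhdd598dffc60d9f93 : CRef := CRef.mk (Pat.mk 0x180000000e000000000000000000000000 0x600000017000000370000001f000000fe0000007e0000000e00000004 8 8) 0 0 (step_sound _ 129 [rh209e07c8fb82ee39, rh432b53c95e74f9fc, (rhac3e151480abbcfe.shift 0 1), (rhe6842b86b2cddab0.shift 0 1), rhecf3946c296fa1ea] (by decide +kernel))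
noncomputable def rh108dd95fd8fd3a92 : CRef := CRef.mk (Pat.mk 0x180000000e000000000000000000000000 0x60000001e0000001f0000001f0000000e0000003e0000000f0000000e 8 6) 0 0 (step_sound _ 66 [(rh1623a5e1f676303d.shift 0 1), (rh221f9ef2e5c13a25.shift 1 0), rhaf4612bd32c039c1, (rhcf80391c5046a495.shift 2 0)] (by decide +kernel))
noncomputable def rha9f28bb9f8276c18 : CRef := CRef.mk (Pat.mk 0x180000000e000000000000000000000000 0x300000003a0000003a0000001b000000fe0000003e0000001c0000001c 8 8) 0 0 (step_sound _ 100 [(rh9767a395d383a9c4.shift 1 0), (rhbbe16ff26f7822db.shift 1 0), rhbfb96df59b7aff3f] (by decide +kernel))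
noncomputable def rh2a7a2186b080c7c7 : CRef := CRef.mk (Pat.mk 0x10000000180000000c0000000000000000 0x20000000f0000003f0000001f0000001c0000007c0000003c 8 7) 0 0 (step_sound _ 35 [(rh71222050f2c63a3a.shift 3 0), rhab1fb5c70994706a] (by decide +kernel))
noncomputable def rh6ed2657a9c9e3d29 : CRef := CRef.mk (Pat.mk 0xc0000000600000000000000000000000000000000 0x80000000e0000001f0000003c000000160000003f0000003e0000000e0000000a 8 6) 0 0 (step_sound _ 164 [(rh18965a982d73c794.shift 1 4), rh3125c69d7cbab6e3] (by decide +kernel))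
noncomputable def rh616bfd74a8d89df2 : CRef := CRef.mk (Pat.mk 0xc000000070000000000000000000000000000000000000000 0xa0000000e0000000e0000000c0000001f0000003e0000001e0000000e0000000e00000008 8 6) 0 0 (step_sound _ 130 [(rh2222a27c490588f5.shift 1 0), (rh246a71df334bb991.shift 0 2), (rh25e194bc672c9eae.shift 0 3), rhe36b16ae9d7975b8] (by decide +kernel))
noncomputable def rh024ce6cab26049c7 : CRef := CRef.mk (Pat.mk 0x180000000600000000000000000000000000000000 0x140000001c0000003f000000780000002f0000007c000000380000001000000010 8 7) 0 0 (step_sound _ 131 [(rh53b3c253cb0c65f4.shift 0 4), rhe49e55c9d6df10c6] (by decide +kernel))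
noncomputable def rh8ec53f10ecd307da : CRef := CRef.mk (Pat.mk 0x180000000e000000000000000000000000 0xa0000000a0000001b000000fe0000007f0000001400000004 8 8) 0 0 (step_sound _ 66 [rh2cfc87a36ba8132d, (rh73c03d042751cb83.shift 0 1), (rhcf80391c5046a495.shift 2 0), rhf516498412bde7a9] (by decide +kernel))
noncomputable def rhfbf002349ee3f3c5 : CRef := CRef.mk (Pat.mk 0x180000000e000000000000000000000000 0x10000000360000001f0000007e0000007f0000003c0000003c 8 7) 0 0 (step_sound _ 67 [(rh000637b5a81e86aa.shift 2 0), rh00842f1dae8c6433, rh32da836736ef76aa] (by decide +kernel))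
noncomputable def rh130c57629873fa14 : CRef := CRef.mk (Pat.mk 0xe000000010000000000000000000000000 0x40000000c0000001de000000fe000001f7000001c0000001c000000140 8 9) 0 0 (step_sound _ 132 [(rh1301ebdefe49082b.shift 0 3), (rh61325f73ebf98108.shift 2 4), (rh7542131adc1aa0d7.shift 4 0)] (by decide +kernel))
noncomputable def rh88e9c0d9bd5fe301 : CRef := CRef.mk (Pat.mk 0x80000001c000000040000000000000000 0x1c0000001c0000001c0000001c0000007f0000007b00000018 8 7) 0 0 (step_sound _ 163 [(rh5c5e593799055d58.shift 2 2), rhedbb3a3b119293e0] (by decide +kernel))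
noncomputable def rh2e3348a9fa2eeea9 : CRef := CRef.mk (Pat.mk 0x1000000038000000080000000000000000 0x700000003e0000007f000001f800000038 8 9) 0 0 (step_sound _ 35 [rh0b32962895f3b669, (rh71222050f2c63a3a.shift 3 0)] (by decide +kernel))
noncomputable def rh20c80255b1363070 : CRef := CRef.mk (Pat.mk 0x1c000000060000000000000000 0xe0000000f0000003f0000001f0000003e0000001300000001 8 6) 0 0 (step_sound _ 97 [(rh1aded9edf2cf7032.shift 0 1), (rh27d95a0f8f38f55d.shift 0 1), rh9db668c55cc12000] (by decide +kernel))
noncomputable def rh5ab5a7806b2d8214 : CRef := CRef.mk (Pat.mk 0x380000000a0000000000000000 0x100000001c0000007f0000003e0000001b0000001800000018 8 7) 0 0 (step_sound _ 98 [(rh418af1a0bcf43106.shift 1 0), (rhdf4d0e51ca454953.shift 0 2), (rhe902c9e8f416b192.shift 0 2)] (by decide +kernel))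
noncomputable def rhb9cf01acdf2fc6ee : CRef := CRef.mk (Pat.mk 0x180000000c00000000000000000000000000000000 0x100000001c0000003e000000780000002c0000007f0000003c0000001c00000014 8 7) 0 0 (step_sound _ 165 [(rh18965a982d73c794.shift 2 4), rh27092cceeab6aa4a] (by decide +kernel))
noncomputable def rhaed4271f5b239ae4 : CRef := CRef.mk (Pat.mk 0x200000002000000030000000100000000000000000 0x1c0000003c0000007f000001fe000003df0000004000000040 8 10) 0 0 (step_sound _ 102 [rh5341914c62910efa, (rha83d0a1d851c6a27.shift 3 2), (rhbcd26d3d18f255d4.shift 0 1)] (by decide +kernel))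
noncomputable def rh2d68d7f3788dcdcc : CRef := CRef.mk (Pat.mk 0x1000000018000000080000000000000000 0x8000000380000007e0000007f0000007c00000038 8 7) 0 0 (step_sound _ 35 [(rh71222050f2c63a3a.shift 3 0), rh985e7ae96dfe8814] (by decide +kernel))
noncomputable def rh0a759fe15fb39c27 : CRef := CRef.mk (Pat.mk 0x200000002000000030000000100000000000000000 0x20000000ff000001fe000003df0000004000000040 8 10) 0 0 (step_sound _ 102 [rh5341914c62910efa, (rh9c7dca390dd89263.shift 0 1), (rha83d0a1d851c6a27.shift 3 2)] (by decide +kernel))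
noncomputable def rh44c562c2c03c2f50 : CRef := CRef.mk (Pat.mk 0x1000000010000000180000000800000000 0x2c0000002c000000fe000000ff000000fe0000006800000020 8 8) 0 0 (step_sound _ 101 [(rh0bb882ba86b2372d.shift 1 2), (rh4bdc7c9db6d453c4.shift 1 0), (rh574fdbf07bdd18b9.shift 1 2), (rhfe59c29b0560ee99.shift 0 1)] (by decide +kernel))
noncomputable def rhbdb1fed2ba50304d : CRef := CRef.mk (Pat.mk 0x10000000180000000800000008 0x800000008000000ec000000ff0000007f0000001f0000000c 8 8) 0 0 (step_sound _ 99 [rh92645babed6d6d29, rhc647a25a08ddf0ec, rhdf5114c0547288a9] (by decide +kernel))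
noncomputable def rhcbfcc7acdfb417f8 : CRef := CRef.mk (Pat.mk 0x8000000080000000c000000040000000000000000 0x1000000018000000780000007f0000007e0000007800000020 8 7) 0 0 (step_sound _ 132 [(rh20bb62adcec3c962.shift 0 1), (rh574fdbf07bdd18b9.shift 0 3), (rhc9b4c5af0f527a4a.shift 1 0)] (by decide +kernel))
noncomputable def rh86bd559f976e6f2f : CRef := CRef.mk (Pat.mk 0x100000001800000008000000000000000000000000 0xc0000000c0000002c000000f80000007e0000007f0000007c0000003800000030 8 8) 0 0 (step_sound _ 67 [(rh71222050f2c63a3a.shift 3 1), rhfcdac40907338f47] (by decide +kernel))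
noncomputable def rhc80d5aadefdd4e12 : CRef := CRef.mk (Pat.mk 0x2000000030000000100000001000000000 0x8000003ef000003fe000003ff000003f000000040 8 10) 0 0 (step_sound _ 99 [(rhb12ffaec36122c99.shift 0 2), (rhb8b276812cfecf32.shift 2 1), (rhde86ccf9a55949e7.shift 1 0)] (by decide +kernel))
noncomputable def rhaeb99cade54a12f2 : CRef := CRef.mk (Pat.mk 0x8000000080000000c00000004000000000000000000000000 0x1000000018000000fe0000007c0000007f000000780000003800000028 8 8) 0 0 (step_sound _ 132 [rh0b35676d6ad2b708, (rh64ee7c26bc833dc9.shift 1 3), (rh8ffce537828d6ba5.shift 1 0), (rha83d0a1d851c6a27.shift 1 3), (rhdc1641106d7e5aa2.shift 1 3)] (by decide +kernel))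
noncomputable def rh0cdd234185f363cb : CRef := CRef.mk (Pat.mk 0x80000001c0000000400000000 0x1c0000003c0000000f0000001f0000003f00000012 8 6) 0 0 (step_sound _ 131 [rh3370c54e2301a69c, (rh5c5e593799055d58.shift 2 1)] (by decide +kernel))
noncomputable def rhd9a0eba28babf372 : CRef := CRef.mk (Pat.mk 0x2000000030000000100000000000000000 0x8000000180000003f0000007c0000003c000000f000000070 8 8) 0 0 (step_sound _ 36 [(rh71222050f2c63a3a.shift 4 0), rhbaf84bf020444934] (by decide +kernel))
noncomputable def rh59ee469c0a329799 : CRef := CRef.mk (Pat.mk 0x8000000080000000c00000004000000000000000000000000 0x160000001f0000007b0000001f0000003c000000180000001800000008 8 7) 0 0 (step_sound _ 164 [(rh20bb62adcec3c962.shift 0 2), (rh574fdbf07bdd18b9.shift 0 4), rh8d801d05f6284c05, (rhf38cc6570e2f30a9.shift 1 0)] (by decide +kernel))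
noncomputable def rh109eb059d0e6db00 : CRef := CRef.mk (Pat.mk 0x8000000080000000c0000000400000000 0x340000007c000000ef0000007c0000007e00000018 8 8) 0 0 (step_sound _ 69 [(rh7c77f6c1b1787c43.shift 1 0), (rh823892b6ed161c2f.shift 1 1), rh837cbf422869f936] (by decide +kernel))
noncomputable def rheb390b0ad7dce599 : CRef := CRef.mk (Pat.mk 0x20000000300000001000000000 0x2c0000007c000001ef000000fe000001df00000048 8 9) 0 0 (step_sound _ 133 [rh4bc81027e105bdb0, (rh5c5e593799055d58.shift 4 1)] (by decide +kernel))
noncomputable def rhed07901cdd461418 : CRef := CRef.mk (Pat.mk 0x1000000018000000080000000800000000 0x800000008000000ec000000ff0000007f0000000f0000007c00000010 8 8) 0 0 (step_sound _ 131 [(rh92645babed6d6d29.shift 0 1), rhb3f98f056ee37bad, (rhc647a25a08ddf0ec.shift 0 1)] (by decide +kernel))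
noncomputable def rha811bde27b77a068 : CRef := CRef.mk (Pat.mk 0x200000002000000020000000200000000000000000000000000000000 0x200000007000000070000000600000007000000070000000700000004 8 3) 0 0 (step_sound _ 97 [(rh1a84ccadb9ef172a.shift 0 1), (rh6eff4158bb400f47.shift 0 1), rh77ad896f3f35871e, (rh96b9ddd2353c6a13.shift 0 2), (rhd29a1fb688eae70f.shift 1 2)] (by decide +kernel))
noncomputable def rh7270723053092f6a : CRef := CRef.mk (Pat.mk 0x10000000200000002000000020000000000000000000000000000000000000000 0x10000000300000006000000060000000600000007000000070000000700000004 8 3) 0 0 (step_sound _ 129 [rh9b73c5d7c522f441, (rhffd04209dc8ea796.shift 0 4)] (by decide +kernel))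
noncomputable def rh381c5c7bd6b0e1a3 : CRef := CRef.mk (Pat.mk 0x1000000008000000080000000800000000 0x2c0000002c0000006c0000007e0000007f0000001c0000001c00000010 8 7) 0 0 (step_sound _ 131 [rh0ac1f74d0695a4f0, (rh1c60d3459196ae8b.shift 2 0), (rh5abfc4c9d959be03.shift 2 0), (rh82fd6857f8e3b6aa.shift 1 1), (rhd28935070554fe11.shift 0 1), (rhd2b9226ccdf66de3.shift 2 1), rhf96f4c545dd205be] (by decide +kernel))
noncomputable def rhdb9de2420151a569 : CRef := CRef.mk (Pat.mk 0x8000000080000000c0000000400000000 0x160000001f0000007f0000001f0000000c00000008 8 7) 0 0 (step_sound _ 100 [(rh0bb882ba86b2372d.shift 0 2), (rh574fdbf07bdd18b9.shift 0 2), rha8c3c3974f50027b, rhb7bdfe1aec99acc3] (by decide +kernel))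
noncomputable def rh471933eaf3ce28bd : CRef := CRef.mk (Pat.mk 0x8000000080000000c000000040000000000000000 0x10000000360000001f0000007f0000001f0000007c0000007800000010 8 7) 0 0 (step_sound _ 132 [rh294e36992aa5d01e, (rh60ec4581923189d5.shift 2 0), (rh69012675dfdb1a5b.shift 0 3)] (by decide +kernel))
noncomputable def rh5d5383ee2f7c0852 : CRef := CRef.mk (Pat.mk 0x1000000010000000180000000800000000 0x800000028000000f80000001c000000ff000000ff00000034 8 8) 0 0 (step_sound _ 34 [(rh0bb882ba86b2372d.shift 0 1), (rhcc585e6df53e3afe.shift 2 0), rhd2c82e1a9c245db7] (by decide +kernel))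
noncomputable def rhcc6f61c72ef4fb62 : CRef := CRef.mk (Pat.mk 0x8000000080000000c000000040000000000000000 0x140000003c0000007f0000007c0000007e0000003800000030 8 7) 0 0 (step_sound _ 101 [(rh70257badbfe23da7.shift 1 0), (rh837cbf422869f936.shift 0 1), (rh8aeae207ef4e32d0.shift 1 2)] (by decide +kernel))
noncomputable def rh70b9ff00c5c03a78 : CRef := CRef.mk (Pat.mk 0x8000000080000000c00000004000000000000000000000000 0x170000007e0000007f0000006f0000007c000000380000001800000018 8 7) 0 0 (step_sound _ 165 [(rh1bc20cee4e54a2fa.shift 1 0), (rh47b8d163a16badd6.shift 0 2), rh7a78530de97bb7f5, (rh7e717a9e1f2b543c.shift 2 1), (rhe33d9496e10d8eb0.shift 0 4)] (by decide +kernel))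
noncomputable def rh159950b80e93c6c0 : CRef := CRef.mk (Pat.mk 0x8000000080000000c000000040000000000000000 0x10000000120000007b0000007f0000007f000000760000003000000020 8 7) 0 0 (step_sound _ 132 [(rh0bb882ba86b2372d.shift 0 3), (rh574fdbf07bdd18b9.shift 0 3), (rh722c806629deb094.shift 1 0), (rha1fd9c7bad16890f.shift 0 1)] (by decide +kernel))
noncomputable def rh6c4b97ca08b6eb6f : CRef := CRef.mk (Pat.mk 0x100000001c0000000800000000 0xe0000000f0000001e0000007c000000ee00000004 8 8) 0 0 (step_sound _ 69 [rh714ccf9fbfd06030, (rhaf9f2efc81a8312b.shift 1 1), (rhe401600d466b97cd.shift 1 1)] (by decide +kernel))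
noncomputable def rh02336259f87e9bed : CRef := CRef.mk (Pat.mk 0x8000000080000000c000000040000000000000000 0x10000000180000007c0000007f0000007e0000007800000020 8 7) 0 0 (step_sound _ 132 [(rh0bb882ba86b2372d.shift 0 3), (rhc9b4c5af0f527a4a.shift 1 0)] (by decide +kernel))
noncomputable def rh0e774b75d8bcbd7e : CRef := CRef.mk (Pat.mk 0x100000001000000018000000080000000000000000 0x2000000030000000f00000007e000001ef0000007c00000028 8 9) 0 0 (step_sound _ 35 [(rh71222050f2c63a3a.shift 3 0), rh8bcb6a1353d6c4c5] (by decide +kernel))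
noncomputable def rh5735f401346bf1d4 : CRef := CRef.mk (Pat.mk 0x1000000018000000080000000800000000 0x24000000760000007f000000ff0000007f00000002 8 8) 0 0 (step_sound _ 66 [(rh02e7bb29240e64f1.shift 1 1), rh66b2b93a374f8bc5, (rh69012675dfdb1a5b.shift 0 2)] (by decide +kernel))
noncomputable def rhab668327aef05524 : CRef := CRef.mk (Pat.mk 0x18000000080000000800000000 0x140000001c0000001f0000007c0000000f0000007c00000014 8 7) 0 0 (step_sound _ 66 [rh8bfc49d28ab751de, rhd2b56b33f7719046, (rhd69c262cd33b94b3.shift 0 2)] (by decide +kernel))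
noncomputable def rhf62c2f6e303e05a0 : CRef := CRef.mk (Pat.mk 0x180000000c00000000000000000000000000000000 0x80000000c0000001c0000001c0000001c0000000f0000007c0000001c0000001800000010 8 7) 0 0 (step_sound _ 129 [(rh53b3c253cb0c65f4.shift 0 4), (rh9a821c50e5fe696f.shift 1 0)] (by decide +kernel))
noncomputable def rh9282c57a6edc945a : CRef := CRef.mk (Pat.mk 0x7000000018000000000000000000000000 0x70000000f00000007f000001f80000007c0000007800000018 8 9) 0 0 (step_sound _ 67 [(rh8e40b813915363a6.shift 2 0), (rhadf429772c25fde0.shift 3 0), (rhe3273c0373f53314.shift 0 1)] (by decide +kernel))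
noncomputable def rh17806dbb93308749 : CRef := CRef.mk (Pat.mk 0xc0000000700000000000000000000000000000000 0x4000000060000000e0000000e0000000e000000070000003e0000000c0000000c00000008 8 6) 0 0 (step_sound _ 98 [(rh000637b5a81e86aa.shift 1 1), (rh5931989f3d0bb66a.shift 0 2), rh92c0a1899325fd43] (by decide +kernel))
noncomputable def rh29eb43ad3160eadd : CRef := CRef.mk (Pat.mk 0x380000000c0000000000000000 0xc0000000e0000007f0000003e0000001c0000001c00000008 8 7) 0 0 (step_sound _ 130 [(rh17d33168ad81fbea.shift 1 1), (rh2ca06285ff862dc8.shift 0 1), (rhd652c19df8b64ee8.shift 1 0)] (by decide +kernel))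
noncomputable def rh35aaed3151f314dc : CRef := CRef.mk (Pat.mk 0x300000001c000000000000000000000000 0x30000000770000003f0000001c0000007c0000003e0000001c 8 7) 0 0 (step_sound _ 67 [(rh471c9edde87ddc5c.shift 2 1), (rhadf429772c25fde0.shift 3 0), rhbba33d5aa5dc45f0, (rhf9366b6a121593ef.shift 3 0)] (by decide +kernel))
noncomputable def rh2407865647e5b558 : CRef := CRef.mk (Pat.mk 0x1c0000000600000000000000000000000000000000 0x1c0000003c0000001f0000007e0000003f0000003e0000000e00000004 8 7) 0 0 (step_sound _ 97 [(rh8e40b813915363a6.shift 0 1), (rhec2e0c4e6c6e23bd.shift 1 0), (rhf9366b6a121593ef.shift 1 1)] (by decide +kernel))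
noncomputable def rhecbf23b0c21a9ebe : CRef := CRef.mk (Pat.mk 0x1c000000060000000000000000000000000000000000000000 0x20000000e0000000f0000001c0000000e0000003e0000003e0000000e0000000e00000008 8 6) 0 0 (step_sound _ 130 [(rh08641332ce838532.shift 0 3), (rh10549a9b6c5b57c6.shift 1 1), (rh2222a27c490588f5.shift 1 0), (rh274a837cd7eaa569.shift 1 1), (rh2b80f04516238041.shift 1 3)] (by decide +kernel))
noncomputable def rh482fc84578fbdb52 : CRef := CRef.mk (Pat.mk 0x180000000c00000000000000000000000000000000 0x40000000c0000001c0000001f000000780000001c0000000c0000001c0000001c00000010 8 7) 0 0 (step_sound _ 165 [(rh18965a982d73c794.shift 2 4), rh90e233fae0971711] (by decide +kernel))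
noncomputable def rh7ec0f4a6b1534d0e : CRef := CRef.mk (Pat.mk 0x300000001c000000000000000000000000 0x3c0000003e0000003e0000007c0000001f0000001a00000008 8 7) 0 0 (step_sound _ 67 [(rh2ffc30c3d15f79d3.shift 0 1), (rh5a0e92a25a8b1a6e.shift 1 0), (rhcf80391c5046a495.shift 3 0)] (by decide +kernel))
noncomputable def rh68826f0cb707e6e2 : CRef := CRef.mk (Pat.mk 0x300000001c000000000000000000000000 0x1c0000007e0000003f0000001c0000007c0000003c0000001c 8 7) 0 0 (step_sound _ 67 [rh9e44abf04b96d546, (rhcf80391c5046a495.shift 3 0), (rhe5dc6eee5ec141e7.shift 1 1), (rhf9366b6a121593ef.shift 3 0)] (by decide +kernel))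
noncomputable def rh7fd2cd2288c60896 : CRef := CRef.mk (Pat.mk 0x1c0000000600000000000000000000000000000000 0x20000000e0000001f0000001c0000001e0000003c0000001f0000001e00000012 8 6) 0 0 (step_sound _ 98 [(rh274a837cd7eaa569.shift 1 0), rh4a7cc63eae8ab77e, rhc96bc0dda912bbd7, (rhe223b9f3838155d3.shift 0 1)] (by decide +kernel))
noncomputable def rhab15947bb5400c72 : CRef := CRef.mk (Pat.mk 0x180000000e000000000000000000000000 0x4000000040000001e0000001f0000007a0000000e0000000e0000000c00000004 8 7) 0 0 (step_sound _ 133 [(rh18965a982d73c794.shift 2 3), rha5827dd461b72752] (by decide +kernel))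
noncomputable def rhb6e38391a04b016a : CRef := CRef.mk (Pat.mk 0x180000000e000000000000000000000000 0x1c0000001e0000001b0000001e0000003f0000007c0000003c 8 7) 0 0 (step_sound _ 66 [rh455938843a2056c4, rh82c8e71f80e00ab1, (rhcf80391c5046a495.shift 2 0), (rhef0cb1a82558754c.shift 1 1)] (by decide +kernel))
noncomputable def rhee070b50456b6c45 : CRef := CRef.mk (Pat.mk 0x380000000c000000000000000000000000 0x40000000c0000001c0000001f000000380000003c0000007c0000003c00000014 8 7) 0 0 (step_sound _ 163 [(rh281c6819542c66e6.shift 2 0), rh84274b83844de61c, (rh98b3fb218cdc3421.shift 2 1), (rhb622aa591eacde43.shift 2 2)] (by decide +kernel))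
noncomputable def rh2ee88e8cd9e371d8 : CRef := CRef.mk (Pat.mk 0x1c00000006000000000000000000000000 0x60000001e0000003f0000001e0000003e0000003b0000001b00000003 8 6) 0 0 (step_sound _ 129 [(rh09fb2f953a1dfd6f.shift 1 1), rh205bbac36a8896ec, (rh2f3ac198cadf6271.shift 0 1)] (by decide +kernel))
noncomputable def rh75cc9f7832e14000 : CRef := CRef.mk (Pat.mk 0x200000003800000010 0x3c0000003f0000007c000000f80000001c 8 8) 0 0 (step_sound _ 101 [(rh5c5e593799055d58.shift 4 0), rh65b09d978ccdd866] (by decide +kernel))
noncomputable def rhd009d9f51dbb535d : CRef := CRef.mk (Pat.mk 0x80000000e000000040000000000000000 0x200000002000001df000000fe0000007c0000000400000004 8 9) 0 0 (step_sound _ 34 [(rh71222050f2c63a3a.shift 2 0), (rh8e8b8511c782ead1.shift 0 1)] (by decide +kernel))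
noncomputable def rh89afbfad263134df : CRef := CRef.mk (Pat.mk 0x80000000e000000040000000000000000 0x1c0000003c0000001f0000001e0000003c0000001800000010 8 6) 0 0 (step_sound _ 163 [rh0101cc08ef49d887, (rh5c5e593799055d58.shift 2 2)] (by decide +kernel))
noncomputable def rhc61dbca4f107e1d7 : CRef := CRef.mk (Pat.mk 0x80000000e000000040000000000000000 0x1d8000000fe0000007f0000003c00000014 8 9) 0 0 (step_sound _ 34 [rh07e74f214dccffed, (rh71222050f2c63a3a.shift 2 0)] (by decide +kernel))
noncomputable def rhe7f4dfafd38f3cab : CRef := CRef.mk (Pat.mk 0x100000001c0000000000000000 0xe0000000f0000001e0000007c000000ee0000000c 8 8) 0 0 (step_sound _ 69 [(rh06db8ceda6269a47.shift 1 1), rhe0a2f640c8008c73, (rhe401600d466b97cd.shift 1 1)] (by decide +kernel))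
noncomputable def rh61d0a2f344f50e6e : CRef := CRef.mk (Pat.mk 0x2000000038000000100000000000000000 0x280000007c0000002f000000f80000001c0000001000000010 8 8) 0 0 (step_sound _ 36 [(rh71222050f2c63a3a.shift 4 0), (rhc3548b6cfce92340.shift 0 1)] (by decide +kernel))
noncomputable def rh4baa1af3d34d4393 : CRef := CRef.mk (Pat.mk 0x80000000e000000040000000000000000 0x2000001db000000fe0000007f0000000400000004 8 9) 0 0 (step_sound _ 34 [(rh0a8776bb4f318c0b.shift 0 1), (rh71222050f2c63a3a.shift 2 0)] (by decide +kernel))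
noncomputable def rhbf3814bfab5cccd9 : CRef := CRef.mk (Pat.mk 0x100000001c000000080000000000000000 0xf0000001f0000001c0000007f000000fe0000003c 8 8) 0 0 (step_sound _ 35 [(rh71222050f2c63a3a.shift 3 0), rh89a944007096aad5] (by decide +kernel))
noncomputable def rh563e15be06caaa57 : CRef := CRef.mk (Pat.mk 0x80000000e0000000400000000 0x1e0000001f0000001b0000000e0000003c00000018 8 6) 0 0 (step_sound _ 131 [(rh5c5e593799055d58.shift 2 1), rh78ffcaa63a8894e2] (by decide +kernel))
noncomputable def rh2122dd954240d04b : CRef := CRef.mk (Pat.mk 0x10000000100000001c00000000 0x280000003800000010000000170000003e0000002f 8 6) 0 0 (step_sound _ 132 [(rh932754581e0f4330.shift 3 0), rhd26d8ba9dad3ed07] (by decide +kernel))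
noncomputable def rhc4aaccc35df926d5 : CRef := CRef.mk (Pat.mk 0x10000000100000001c0000000000000000 0x400000014000000170000003f0000007b0000002a 8 7) 0 0 (step_sound _ 36 [(rh548ca695070b4cbb.shift 2 0), rhad8a12d96e7d5209, (rhbdde238153e38af9.shift 1 0)] (by decide +kernel))
noncomputable def rh015f22746aba3d6e : CRef := CRef.mk (Pat.mk 0x1c0000000600000000 0x6000000070000003f0000001f0000000700000002 8 6) 0 0 (step_sound _ 65 [rh1aded9edf2cf7032, (rheb0810cc63b001d8.shift 0 1)] (by decide +kernel))
noncomputable def rh121ebe7a81d8818e : CRef := CRef.mk (Pat.mk 0x70000000180000000000000000 0x8000000ef0000007f000000d8000000f000000070 8 8) 0 0 (step_sound _ 99 [(rh38a0850c9fea941e.shift 2 0), (rh98a9a7ba7e2ca0a0.shift 2 0), (rhe6bbb42e06b99608.shift 0 2)] (by decide +kernel))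
noncomputable def rh811a7e65c159bc81 : CRef := CRef.mk (Pat.mk 0x300000001c000000000000000000000000 0x1c0000007e0000003f0000001c0000007c0000003c0000001c 8 7) 0 0 (step_sound _ 67 [rh68f660fad7a8393f, rh9e44abf04b96d546, (rhcf80391c5046a495.shift 3 0), (rhe5dc6eee5ec141e7.shift 1 1)] (by decide +kernel))
noncomputable def rhed0eb66283a075d0 : CRef := CRef.mk (Pat.mk 0x300000001c000000000000000000000000 0x30000000770000003f0000001c0000007c0000003e0000001c 8 7) 0 0 (step_sound _ 67 [(rh471c9edde87ddc5c.shift 2 1), rhbba33d5aa5dc45f0, (rhf9366b6a121593ef.shift 3 0)] (by decide +kernel))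
noncomputable def rhde8a067ee41544ba : CRef := CRef.mk (Pat.mk 0x1c00000006000000000000000000000000 0x1c0000003c0000001f0000001c0000000e0000003e0000003e00000018 8 6) 0 0 (step_sound _ 163 [(rh6aaa9c1f6c07bfa7.shift 1 1), rhb783032dd00715bc, (rhcf80391c5046a495.shift 2 1), (rhf9366b6a121593ef.shift 2 1)] (by decide +kernel))
noncomputable def rh44d93dd113bbbcd3 : CRef := CRef.mk (Pat.mk 0xe00000003000000000000000000000000 0xe0000000e0000000e0000000e0000003f0000003e0000000e00000004 8 6) 0 0 (step_sound _ 162 [(rh16089e370447ddf4.shift 1 0), (rh4821dcf828b9d7bf.shift 1 1), rh7038c2afb58d1392, (rha5baf8521d23b420.shift 1 0)] (by decide +kernel))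
noncomputable def rhc97d3e4d541f1055 : CRef := CRef.mk (Pat.mk 0x300000001c000000000000000000000000 0x1000000038000000380000007c0000007f0000003e0000001c 8 7) 0 0 (step_sound _ 67 [rh8e10899718d9b3b6, (rhadf429772c25fde0.shift 3 0), (rhbc45defcffc6d51e.shift 1 1)] (by decide +kernel))
noncomputable def rhdf6ab45dbbbd4063 : CRef := CRef.mk (Pat.mk 0xc0000000700000000000000000000000000000000 0x80000000c0000001c0000003c000000170000003e0000001e0000000800000008 8 6) 0 0 (step_sound _ 164 [(rh18965a982d73c794.shift 1 4), rh4447fb1ca9874370] (by decide +kernel))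
noncomputable def rh23f45b1c21a84f9c : CRef := CRef.mk (Pat.mk 0x180000000e000000000000000000000000 0xb0000000b0000001f0000003e0000000f0000000400000004 8 6) 0 0 (step_sound _ 66 [rh00818de152853ff8, (rhadf429772c25fde0.shift 2 0), (rheb3626e71b63a124.shift 0 2)] (by decide +kernel))
noncomputable def rhc5a34154c079eebe : CRef := CRef.mk (Pat.mk 0x180000000e000000000000000000000000 0x8000000080000001c0000003e000000370000003c0000001c 8 6) 0 0 (step_sound _ 100 [rh2a51b324027df434, rh92e53b4a0160b8ae, (rhbbe16ff26f7822db.shift 1 0)] (by decide +kernel))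
noncomputable def rh56f82a26ec4ec0f9 : CRef := CRef.mk (Pat.mk 0x180000000c0000000000000000000000000000000000000000 0x10000000340000001f0000007f0000007f0000003c0000003c0000001c00000010 8 7) 0 0 (step_sound _ 161 [(rh53b3c253cb0c65f4.shift 0 5), rhbc9efdc00ded020e] (by decide +kernel))
noncomputable def rh862137d0f82a5f73 : CRef := CRef.mk (Pat.mk 0x180000000e000000000000000000000000 0x80000000a0000001f0000003e000000770000003e0000003e 8 7) 0 0 (step_sound _ 34 [(rh00d6a6e3c7e3bb40.shift 2 0), rh2aecbe614d87fc01, rh811ba2d590d3dcf7, rhd272d48f758f3705, rhf6564cf8b9efcf20] (by decide +kernel))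
noncomputable def rh30c7490b7ddc5ed4 : CRef := CRef.mk (Pat.mk 0x300000001c000000000000000000000000 0x300000003e0000003f0000001c0000007c0000003e0000001c 8 7) 0 0 (step_sound _ 67 [(rh471c9edde87ddc5c.shift 2 1), rh68f660fad7a8393f, rh750508c7c97f3ece, (rhcf80391c5046a495.shift 3 0)] (by decide +kernel))
noncomputable def rhd801117444af86dd : CRef := CRef.mk (Pat.mk 0xc00000006000000020000000000000000 0xc0000000c0000000c0000003e0000003f0000003c00000010 8 6) 0 0 (step_sound _ 162 [(rh5c5e593799055d58.shift 1 2), rhc9b4c5af0f527a4a] (by decide +kernel))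
noncomputable def rhdddb01adeada7780 : CRef := CRef.mk (Pat.mk 0x180000000e000000000000000000000000 0x8000000180000001f000000fe0000007c0000007c0000003c 8 8) 0 0 (step_sound _ 66 [(rhcf80391c5046a495.shift 2 0), (rhf9366b6a121593ef.shift 2 0), rhfcef881c3edfe22c] (by decide +kernel))
noncomputable def rh6ab892c2c18722d3 : CRef := CRef.mk (Pat.mk 0x180000000e0000000000000000000000000000000000000000 0x120000001b0000003e0000007f0000007e0000001c0000001c00000010 8 7) 0 0 (step_sound _ 99 [(rh1007de067ed3d1a3.shift 1 2), (rh3eceba3aef67c572.shift 0 2), (rha7085a59ed136d43.shift 1 2), (rhbcdfdf09774c0ee9.shift 0 2), (rhd22919919fc506b5.shift 2 0), (rhfae2d0771380d1f3.shift 2 1)] (by decide +kernel))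
noncomputable def rhca9e0f0c173be454 : CRef := CRef.mk (Pat.mk 0xe00000003000000000000000000000000 0xe0000000e0000000e0000000e0000003f0000003e0000000e00000004 8 6) 0 0 (step_sound _ 162 [(rh16089e370447ddf4.shift 1 0), (rh4821dcf828b9d7bf.shift 1 1), rh7038c2afb58d1392, (rhadf429772c25fde0.shift 1 1)] (by decide +kernel))
noncomputable def rh60181e3a6f65a651 : CRef := CRef.mk (Pat.mk 0xc0000000700000000000000000000000000000000 0x80000000c0000000e000000060000000e0000000e000000070000003e0000000e0000000c00000008 8 6) 0 0 (step_sound _ 98 [(rh000637b5a81e86aa.shift 1 1), (rh780c1d7a9d7baf74.shift 0 2), rh92c0a1899325fd43] (by decide +kernel))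
noncomputable def rh427cdf3ed931f540 : CRef := CRef.mk (Pat.mk 0x1c0000000600000000000000000000000000000000 0xc0000000e0000001e0000007e0000003f0000003e0000000e00000004 8 7) 0 0 (step_sound _ 97 [(rh4821dcf828b9d7bf.shift 1 1), (rhadf429772c25fde0.shift 1 1), (rhe321239d3d47cfe9.shift 0 1), (rhec2e0c4e6c6e23bd.shift 1 0)] (by decide +kernel))
noncomputable def rha75f463b15c9258c : CRef := CRef.mk (Pat.mk 0x180000000e00000000000000000000000000000000 0x140000001c0000001f0000001f0000001f0000000e0000007c000000180000001800000010 8 7) 0 0 (step_sound _ 99 [(rh000637b5a81e86aa.shift 2 1), (rh3038be3d46fb53ef.shift 0 3), (rh92c0a1899325fd43.shift 1 0)] (by decide +kernel))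
noncomputable def rha350945fe4e1da8b : CRef := CRef.mk (Pat.mk 0x300000001c000000000000000000000000 0x80000003c0000003f0000003f0000001c0000001c0000001c0000000c 8 6) 0 0 (step_sound _ 67 [(rh60a6f7364c9801a6.shift 1 1), rh9fcce764bcee68fd, (rhcf80391c5046a495.shift 3 0), (rhf9366b6a121593ef.shift 3 0)] (by decide +kernel))
noncomputable def rhda87cb79d8329164 : CRef := CRef.mk (Pat.mk 0x1c00000006000000000000000000000000 0xe0000000f0000001e0000003e000000370000001600000002 8 6) 0 0 (step_sound _ 129 [(rh38a0850c9fea941e.shift 0 1), rh6f3c325b04fd0145] (by decide +kernel))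
noncomputable def rh369ae6cc96774fc6 : CRef := CRef.mk (Pat.mk 0x180000000c000000000000000000000000 0x1c0000001f0000007c000001fc0000006e0000002e00000006 8 9) 0 0 (step_sound _ 133 [(rh18965a982d73c794.shift 2 3), rh8a7066e9c0b7cbe2] (by decide +kernel))
noncomputable def rh963aad31717d5c2d : CRef := CRef.mk (Pat.mk 0x100000001c00000000000000000000000000000000 0x1000000012000000130000003f000000ff0000003c0000002c00000020 8 8) 0 0 (step_sound _ 100 [(rh64065c0577232a62.shift 0 1), (rhc21a95c499b3efdb.shift 1 3), (rhdb2e4137de40ce04.shift 2 0)] (by decide +kernel))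
noncomputable def rhd42bfa45fd9f8871 : CRef := CRef.mk (Pat.mk 0x70000000180000000000000000 0x280000003c0000003f0000003e0000007f000000f80000002c0000000c 8 8) 0 0 (step_sound _ 132 [rh3d966c484d3047ec, (rh51337167f90b2308.shift 0 1), (rh7d4be646332fc08b.shift 3 1), (rhb622aa591eacde43.shift 3 1)] (by decide +kernel))
noncomputable def rh3064605eec889717 : CRef := CRef.mk (Pat.mk 0x1c000000060000000000000000 0x40000000c0000000c0000000c0000001f0000003e0000003e0000003e 8 6) 0 0 (step_sound _ 131 [(rh4821dcf828b9d7bf.shift 2 0), (rh5c8e4628759668c4.shift 1 0), (rhadf429772c25fde0.shift 2 0), (rhdc610d332a30db87.shift 0 1)] (by decide +kernel))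
noncomputable def rh2fc23ee65143153a : CRef := CRef.mk (Pat.mk 0xc0000000600000000000000000000000000000000 0x2000000060000000e0000000f0000003c0000000e0000003e0000001e0000000e00000002 8 6) 0 0 (step_sound _ 164 [(rh18965a982d73c794.shift 1 4), rhcc3d60bd6ed9adb5] (by decide +kernel))
noncomputable def rh587ddc86cf471e87 : CRef := CRef.mk (Pat.mk 0x380000000c000000000000000000000000 0xc0000001f0000003e0000000c0000000f0000003c0000001c 8 6) 0 0 (step_sound _ 66 [(rh0f62f5195ce3f276.shift 0 1), (rh4821dcf828b9d7bf.shift 2 0), (rhadf429772c25fde0.shift 2 0), rhb5e94be89b197bb0] (by decide +kernel))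
noncomputable def rh32c7f8963e9d2692 : CRef := CRef.mk (Pat.mk 0x180000000c000000000000000000000000 0x100000003f0000001f0000001f0000003c0000001c0000001c0000001c 8 6) 0 0 (step_sound _ 66 [rh0666d2850a7e73fb, (rh4821dcf828b9d7bf.shift 2 0), rh83667ea4ad1c0fe2, (rhadf429772c25fde0.shift 2 0)] (by decide +kernel))
noncomputable def rh3ba5f8c511030d95 : CRef := CRef.mk (Pat.mk 0x380000000c000000000000000000000000 0xc0000001e0000003e0000000c0000001f0000003c0000001c 8 6) 0 0 (step_sound _ 66 [(rh4821dcf828b9d7bf.shift 2 0), (rhadf429772c25fde0.shift 2 0), rhb5e94be89b197bb0, (rhfee1f5781385f2b4.shift 1 0)] (by decide +kernel))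
noncomputable def rh672a713ea4c7afbd : CRef := CRef.mk (Pat.mk 0x2000000018000000000000000000000000 0x280000002c000001ef000000fe000001fe0000005800000058 8 9) 0 0 (step_sound _ 101 [rh0575a50b84c01a1d, (rh10d342d0ef647a06.shift 2 0), (rhf5183d55e2daca0a.shift 1 0), (rhfefd7be2d273f2ab.shift 1 0)] (by decide +kernel))
noncomputable def rh93d52fed3997956b : CRef := CRef.mk (Pat.mk 0x200000002000000030000000100000000000000000 0x20000000ff000001fe000003df0000004000000040 8 10) 0 0 (step_sound _ 102 [(rh509a299c4e5cc4d1.shift 0 1), rh5341914c62910efa, (rha83d0a1d851c6a27.shift 3 2)] (by decide +kernel))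
noncomputable def rh4427f43dd9778044 : CRef := CRef.mk (Pat.mk 0x1000000018000000080000000800000000 0x2800000028000000e8000000fc000000fe0000007f0000001e00000014 8 8) 0 0 (step_sound _ 133 [(rh69012675dfdb1a5b.shift 1 3), rh92c2927c61a9e618, (rhc2cfbb019b994f81.shift 2 0)] (by decide +kernel))
noncomputable def rhec2830af2b5a282b : CRef := CRef.mk (Pat.mk 0x100000001800000008000000080000000000000000 0x2000000028000000fc000000fe000000ff0000005e0000001400000010 8 8) 0 0 (step_sound _ 165 [(rh69012675dfdb1a5b.shift 1 4), (rh9f95a4893a59ffd8.shift 2 1), rhb99f1e5681efcd70, (rhd69c262cd33b94b3.shift 1 4)] (by decide +kernel))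
noncomputable def rh85a8ae6e10c59e94 : CRef := CRef.mk (Pat.mk 0x1000000010000000180000000800000000 0x2800000078000000fe000000fe000000df00000054 8 8) 0 0 (step_sound _ 69 [(rhbacc68d31d880dc8.shift 2 0), (rhd7e26500e493ceb7.shift 1 0), (rhf0f55c4504412200.shift 0 1)] (by decide +kernel))
noncomputable def rhdac429fc05adaa97 : CRef := CRef.mk (Pat.mk 0x8000000080000000c00000004000000000000000000000000 0x1000000018000000780000001f0000007c000000780000001800000008 8 7) 0 0 (step_sound _ 164 [(rh02f99bbc1f377c55.shift 0 2), (rh69012675dfdb1a5b.shift 0 4), (rh77d0131ad45ca620.shift 2 0)] (by decide +kernel))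
noncomputable def rh8d2d1329665a9aa8 : CRef := CRef.mk (Pat.mk 0x1000000018000000080000000800000000 0x800000008000000e8000000ff0000003e0000007f0000007e00000034 8 8) 0 0 (step_sound _ 133 [rh5279673d02bcc37a, (rh69012675dfdb1a5b.shift 1 3), rh918df42766b3dc05] (by decide +kernel))
noncomputable def rhb8a40bdc3f825411 : CRef := CRef.mk (Pat.mk 0x1000000018000000080000000000000000 0x3000000032000000370000007f0000007f0000003400000024 8 7) 0 0 (step_sound _ 164 [(rh5c5e593799055d58.shift 3 2), rhec4f657173d741e2] (by decide +kernel))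
noncomputable def rh05eeec0f68bded0f : CRef := CRef.mk (Pat.mk 0x1000000018000000080000000000000000 0x800000018000000780000007f0000007e0000003c 8 7) 0 0 (step_sound _ 35 [(rh71222050f2c63a3a.shift 3 0), rhdad3bc40bcd0860d] (by decide +kernel))
noncomputable def rhc8ccd6435a3aeca0 : CRef := CRef.mk (Pat.mk 0x1000000018000000080000000800000000 0x28000000780000007e0000001f0000007c00000074 8 7) 0 0 (step_sound _ 66 [(rh0d2f63136342bc19.shift 1 0), (rh69012675dfdb1a5b.shift 0 2), rhd3137fddc9a993b2, (rhd69c262cd33b94b3.shift 0 2)] (by decide +kernel))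
noncomputable def rh57f6f831d3d558e7 : CRef := CRef.mk (Pat.mk 0x100000001000000018000000080000000000000000 0x280000007a0000007f0000007f0000001f0000003400000014 8 7) 0 0 (step_sound _ 66 [(rh574fdbf07bdd18b9.shift 0 2), (rh5e65a053fec18036.shift 1 2), rh892659f5becdd28e, (rhf04bb0729b4ba4d3.shift 1 1)] (by decide +kernel))
noncomputable def rhfaac02220725ae5c : CRef := CRef.mk (Pat.mk 0x1000000018000000080000000800000000 0x800000008000000e8000000ff0000001f0000001f0000003c00000014 8 8) 0 0 (step_sound _ 131 [rh26a641dd1ea9a7b1, rhb7d6fdc4be980c42, (rhea90e7358341a1a4.shift 2 0)] (by decide +kernel))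
noncomputable def rh9b5ff38f80a52403 : CRef := CRef.mk (Pat.mk 0x8000000080000000c000000040000000000000000 0x140000001c0000007c0000006f0000007c0000003800000010 8 7) 0 0 (step_sound _ 132 [(rh02f99bbc1f377c55.shift 0 1), (rh0bb882ba86b2372d.shift 0 3), (rh0dab50332c25c847.shift 2 0)] (by decide +kernel))
noncomputable def rhf8899d74260e3dea : CRef := CRef.mk (Pat.mk 0x8000000080000000c000000040000000000000000 0x1000000010000000780000007e0000007f000000770000003000000020 8 7) 0 0 (step_sound _ 132 [(rh0bb882ba86b2372d.shift 0 3), (rh574fdbf07bdd18b9.shift 0 3), (rh722c806629deb094.shift 1 0), (rh82c32eec533ffa4c.shift 0 1)] (by decide +kernel))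
noncomputable def rh93d8ee2fb94a1f1d : CRef := CRef.mk (Pat.mk 0x200000003000000010000000100000000000000000 0x4000000f7000000ff000000fe000000de000000c800000008 8 8) 0 0 (step_sound _ 99 [(rh0bb882ba86b2372d.shift 1 3), (rh574fdbf07bdd18b9.shift 1 3), (rhdb3469b8f11afb62.shift 0 1), (rhdc970c24c2cebbf3.shift 1 0)] (by decide +kernel))
noncomputable def rh6f8dd8d1913837e8 : CRef := CRef.mk (Pat.mk 0x8000000080000000c0000000400000000 0x1000000018000000780000007f0000007c00000038 8 7) 0 0 (step_sound _ 35 [(rh07facce60062c694.shift 2 0), (rh36d4d92ef3dad5f8.shift 1 0), rh4983ef42b6c40cbc] (by decide +kernel))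
noncomputable def rh7b2149e9a252cc0a : CRef := CRef.mk (Pat.mk 0x180000000c000000040000000000000000 0x100000001f000000ff0000007c0000007800000038 8 8) 0 0 (step_sound _ 97 [(rh53b3c253cb0c65f4.shift 0 3), rhfcef881c3edfe22c] (by decide +kernel))
noncomputable def rhec1a4dd58e954e92 : CRef := CRef.mk (Pat.mk 0x180000000c000000040000000000000000 0x1000000010000000740000007e0000006c0000003c0000000f0000000e 8 7) 0 0 (step_sound _ 133 [rh027002b1a710d4d4, (rh18965a982d73c794.shift 2 3)] (by decide +kernel))
noncomputable def rh52acf40299bc1c73 : CRef := CRef.mk (Pat.mk 0x200000002000000030000000100000000000000000 0x60000003ef000001fe000003df000000c0000000c0 8 10) 0 0 (step_sound _ 102 [(rh21637c1612c7b4dd.shift 2 2), (rh3ae8bdbc7f9d5d54.shift 1 1), rh5341914c62910efa, (rhdb0bd6e55db160d1.shift 3 0), (rhfa35e196e150edb4.shift 3 2)] (by decide +kernel))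
noncomputable def rh4e1cd5d5b6bf705c : CRef := CRef.mk (Pat.mk 0x80000000c000000040000000400000000 0x1000000010000000700000007f0000007f000000770000003c00000018 8 7) 0 0 (step_sound _ 132 [(rha2d31f580ec9f85c.shift 1 1), (rhd69c262cd33b94b3.shift 0 3), rhd81ae23d06cb57c5, (rhe1967d8ccfa6fc8b.shift 0 2)] (by decide +kernel))
noncomputable def rh03cc456a496dd6df : CRef := CRef.mk (Pat.mk 0x2000000030000000100000001000000000 0x80000003ff000001fe000003fe000000d8000000c0 8 10) 0 0 (step_sound _ 102 [(rh2820ca9a6c4f41b4.shift 1 2), rha674d6656995e4bc, (rhf24e227cd01c04e6.shift 3 0), (rhfa35e196e150edb4.shift 3 2)] (by decide +kernel))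
noncomputable def rhd99a3831e395bf4e : CRef := CRef.mk (Pat.mk 0x1000000018000000080000000800000000 0x2000000730000007f000000ff0000007e00000024 8 8) 0 0 (step_sound _ 66 [(rh03bd3de0eda75619.shift 0 1), rh2ab219e24a8ebec3, (rh470b226807518611.shift 1 0), (rhd69c262cd33b94b3.shift 0 2)] (by decide +kernel))
noncomputable def rh7bbec066939eaf8f : CRef := CRef.mk (Pat.mk 0x2000000030000000100000001000000000 0x4000000040000001ff000001fe000003de000000f800000060 8 10) 0 0 (step_sound _ 102 [(rh3d75f1cd389178d2.shift 2 0), rh7427f958eb581c5a, (rha83d0a1d851c6a27.shift 3 2)] (by decide +kernel))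
noncomputable def rh910dd9f8158ec077 : CRef := CRef.mk (Pat.mk 0x2000000030000000100000000000000000 0x90000001fe000000ff000000fe000000e0000000e0 8 9) 0 0 (step_sound _ 67 [(rh0bb882ba86b2372d.shift 1 2), (rh574fdbf07bdd18b9.shift 1 2), rh67e1916772fdbd63, (rh9317a75fc3e7942a.shift 1 0)] (by decide +kernel))
noncomputable def rh4289ab67ac3c8979 : CRef := CRef.mk (Pat.mk 0x1000000010000000180000000800000000 0x2800000078000001ff000000fe0000001e00000014 8 9) 0 0 (step_sound _ 69 [(rh1c4cd3fac6d3efa9.shift 0 1), (rha83d0a1d851c6a27.shift 2 1), (rhd7e26500e493ceb7.shift 1 0), (rhdc1641106d7e5aa2.shift 2 1)] (by decide +kernel))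
noncomputable def rhbd0a6e817174d02d : CRef := CRef.mk (Pat.mk 0x8000000080000000c000000040000000000000000 0x140000001c0000007c0000001f0000007c0000007800000010 8 7) 0 0 (step_sound _ 132 [(rh02f99bbc1f377c55.shift 0 1), (rh60ec4581923189d5.shift 2 0), (rh69012675dfdb1a5b.shift 0 3)] (by decide +kernel))
noncomputable def rhf78eae9abedcbf63 : CRef := CRef.mk (Pat.mk 0x20000000300000001000000000 0x2000000020000003ff000001fe000001de00000040 8 10) 0 0 (step_sound _ 133 [(rh5c5e593799055d58.shift 4 1), rhe1e14525580284b1] (by decide +kernel))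
noncomputable def rh995b19933ad47966 : CRef := CRef.mk (Pat.mk 0x2000000030000000180000000000000000 0x40000000fe000000ff000000f8000000e000000060 8 8) 0 0 (step_sound _ 102 [(rh18965a982d73c794.shift 3 2), rh7e59348db523bce3] (by decide +kernel))
noncomputable def rh3f1f11c5349dc2ef : CRef := CRef.mk (Pat.mk 0x1000000018000000080000000800000000 0x3000000030000000f00000007e000001ef0000007c00000020 8 9) 0 0 (step_sound _ 164 [(rh5c5e593799055d58.shift 3 2), rh8bcb6a1353d6c4c5] (by decide +kernel))
noncomputable def rh71ae1bec08bec80e : CRef := CRef.mk (Pat.mk 0x8000000080000000c00000004000000000000000000000000 0x1000000018000000780000007f0000007c000000380000001800000008 8 7) 0 0 (step_sound _ 164 [(rh02f99bbc1f377c55.shift 0 2), (rh574fdbf07bdd18b9.shift 0 4), (rh8fc0b90cd664975c.shift 2 0)] (by decide +kernel))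
noncomputable def rhfeb559172d55c8f0 : CRef := CRef.mk (Pat.mk 0x100000001800000008000000080000000000000000 0x60000000f20000007f000000ff0000007f0000007600000034 8 8) 0 0 (step_sound _ 98 [(rh3c3167d440b48037.shift 1 0), (rh69012675dfdb1a5b.shift 0 3), rh7a71608d044bc0f3, (rhd69c262cd33b94b3.shift 0 3)] (by decide +kernel))
noncomputable def rh2ffa9545c46592e8 : CRef := CRef.mk (Pat.mk 0x400000004000000060000000200000000 0x80000000c0000000c0000003e0000003f0000001e 8 6) 0 0 (step_sound _ 34 [rh6412c58679f5f5ab, (rh932754581e0f4330.shift 1 0)] (by decide +kernel))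
noncomputable def rh0841610f92b16c99 : CRef := CRef.mk (Pat.mk 0x200000002000000020000000200000000000000000000000000000000 0x300000003000000070000000700000007000000070000000600000004 8 3) 0 0 (step_sound _ 130 [(rh55afc6a59410cf00.shift 1 3), rh682c977a281b6f1c] (by decide +kernel))
noncomputable def rhddee99063f686c30 : CRef := CRef.mk (Pat.mk 0x80000000c000000080000000000000000000000000000000000000000 0x800000008000000080000000c0000007f0000003e0000001c0000001c0000001800000010 8 7) 0 0 (step_sound _ 132 [(rh2977b00063528966.shift 3 2), (rh2ceca2a5fdd4eeb9.shift 1 3), (rhde43633b9e4abc31.shift 2 4), (rhded01fcb07852255.shift 2 0), (rhfa80626feb4e9cb5.shift 0 3)] (by decide +kernel))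
noncomputable def rh44f336f55b1192bd : CRef := CRef.mk (Pat.mk 0x180000000c00000008000000000000000000000000 0x800000028000000780000002f0000007c000000340000001000000010 8 7) 0 0 (step_sound _ 129 [(rh53b3c253cb0c65f4.shift 0 4), (rhd5c9247be1c5cabf.shift 1 0)] (by decide +kernel))
noncomputable def rhf0389e8b492e1dec : CRef := CRef.mk (Pat.mk 0x6000000030000000200000000 0x10000000700000007000000060000001f0000001b0000001f0000001d 8 5) 0 0 (step_sound _ 99 [(rh18965a982d73c794.shift 0 2), rhea0097701cf296c3] (by decide +kernel))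
noncomputable def rhe57a9b2f29b6e372 : CRef := CRef.mk (Pat.mk 0x300000001c000000000000000000000000 0x3c0000007f0000003f0000001c0000001c0000001c0000001c 8 7) 0 0 (step_sound _ 67 [rh1fd5746e30de88bb, rh9e44abf04b96d546, (rha035d6007b337838.shift 1 1), (rhcf80391c5046a495.shift 3 0)] (by decide +kernel))
noncomputable def rh6fe3c2b02582bfe7 : CRef := CRef.mk (Pat.mk 0x180000000c0000000000000000 0x1c0000003c0000006f0000007e0000007c0000001c00000010 8 7) 0 0 (step_sound _ 101 [(rh18965a982d73c794.shift 2 2), rh996febe339f0fa3b] (by decide +kernel))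
noncomputable def rhc1ee48b03669be1b : CRef := CRef.mk (Pat.mk 0x380000000c000000000000000000000000 0x60000000e0000007f0000003f0000007c0000000e0000000c0000000c 8 7) 0 0 (step_sound _ 66 [(rh554c4947818a8194.shift 1 0), (rha93a802eccd9af33.shift 0 2), (rhadf429772c25fde0.shift 2 0)] (by decide +kernel))
noncomputable def rhc5be8bac3e534d8e : CRef := CRef.mk (Pat.mk 0x8000000080000000c0000000400000000 0x6000000060000007f0000007f0000003f0000003400000010 8 7) 0 0 (step_sound _ 100 [(rh0bb882ba86b2372d.shift 0 2), rh314d353bdb5373f1, (rh574fdbf07bdd18b9.shift 0 2), (rh7055ed8aff329b8a.shift 0 2)] (by decide +kernel))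
noncomputable def rh43c6068edf48bd8b : CRef := CRef.mk (Pat.mk 0x4000000060000000200000002000000000 0x1800000038000000fe0000007e0000003f000000f800000050 8 8) 0 0 (step_sound _ 99 [(rh421638710a67a938.shift 2 1), (rh432e7a57149506a9.shift 0 2), (rh697fdbd0ba0c1e86.shift 2 0), (rh879cdb683ee6f2d5.shift 1 2), (rhe53bdab2d3047e2d.shift 2 0)] (by decide +kernel))
noncomputable def rha27e2b41b21516ec : CRef := CRef.mk (Pat.mk 0x8000000080000000c0000000400000000 0x160000001f0000007f0000000f0000003c00000018 8 7) 0 0 (step_sound _ 100 [(rh0bb882ba86b2372d.shift 0 2), rh20bb62adcec3c962, rh9a475cfe822e0d67, rhb7bdfe1aec99acc3] (by decide +kernel))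
noncomputable def rh899c8d859be94e93 : CRef := CRef.mk (Pat.mk 0x180000000c000000000000000000000000 0x380000003f0000003f0000003000000030 8 6) 0 0 (step_sound _ 97 [rh1ce2d2e1d4972c68, (rh53b3c253cb0c65f4.shift 0 3)] (by decide +kernel))
noncomputable def rh145edd3df58a3952 : CRef := CRef.mk (Pat.mk 0x180000000e0000000000000000000000000000000000000000 0x3000000030000000320000001f0000003e0000003f0000001c0000001c0000001c00000010 8 6) 0 0 (step_sound _ 99 [(rh3eceba3aef67c572.shift 0 2), (rh91eaccaaa42c15c9.shift 0 3), (rhd22919919fc506b5.shift 2 0)] (by decide +kernel))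
noncomputable def rhae47c26c536b9dcb : CRef := CRef.mk (Pat.mk 0x8000000080000000c0000000400000000 0x6000000060000007f0000007f0000003f0000003400000010 8 7) 0 0 (step_sound _ 100 [(rh0bb882ba86b2372d.shift 0 2), rh314d353bdb5373f1, (rh574fdbf07bdd18b9.shift 0 2), (rheb911036a6d23347.shift 0 2)] (by decide +kernel))
noncomputable def rhf8e6669eb6f616d9 : CRef := CRef.mk (Pat.mk 0x300000001c000000000000000000000000 0x3000000038000000380000001c0000007f0000007c0000003c 8 7) 0 0 (step_sound _ 67 [(rh471c9edde87ddc5c.shift 2 1), (rh4821dcf828b9d7bf.shift 3 0), rh6a4c3472cae795bb] (by decide +kernel))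
noncomputable def rh83711c59419208e0 : CRef := CRef.mk (Pat.mk 0xc00000006000000000000000000000000 0x40000001c0000003c0000001f0000000e0000000e0000003e0000003e00000018 8 6) 0 0 (step_sound _ 163 [(rh4821dcf828b9d7bf.shift 2 1), (rh5c8e4628759668c4.shift 1 1), rhb76e2209363600a5, (rhcf80391c5046a495.shift 2 1)] (by decide +kernel))
noncomputable def rhad1ebfe5f4ee3832 : CRef := CRef.mk (Pat.mk 0x180000000e000000000000000000000000 0x1e0000001f0000001c0000003e0000003f0000000f0000000e 8 6) 0 0 (step_sound _ 66 [rh07386f0050585a0f, (rh4821dcf828b9d7bf.shift 2 0), (rh8ff1a0e1209a98da.shift 0 1), (rhadf429772c25fde0.shift 2 0)] (by decide +kernel))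
noncomputable def rh9fdfbe3a7266276a : CRef := CRef.mk (Pat.mk 0x300000001c000000000000000000000000 0x3c0000003e000000380000007c0000001f0000007c0000003c 8 7) 0 0 (step_sound _ 67 [rh0a5d28f3e2732d34, (rh4821dcf828b9d7bf.shift 3 0), (rh8ff1a0e1209a98da.shift 1 1), (rhadf429772c25fde0.shift 3 0)] (by decide +kernel))
noncomputable def rh15dfa5752e55d7a9 : CRef := CRef.mk (Pat.mk 0xc000000070000000000000000 0x40000001e0000001e0000007e0000000e0000007f0000003c0000000c 8 7) 0 0 (step_sound _ 131 [(rh47dd4cb43e050de2.shift 1 1), rh94e5e94005692db4, (rhf9366b6a121593ef.shift 2 0)] (by decide +kernel))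
noncomputable def rhd45332dfa3754149 : CRef := CRef.mk (Pat.mk 0x180000000e000000000000000000000000 0x3000000030000000300000001c000000fe000000ff0000003800000038 8 8) 0 0 (step_sound _ 100 [rh6ae21157da276552, (rh9767a395d383a9c4.shift 1 0), (rha1eb337eeb07c2e7.shift 0 2), (rhb447f348b8f2aaa5.shift 0 2)] (by decide +kernel))
noncomputable def rh2902f46f6fd42014 : CRef := CRef.mk (Pat.mk 0x180000000c000000000000000000000000 0x160000003f0000001f0000001c0000000c0000001f0000003e0000001e 8 6) 0 0 (step_sound _ 66 [(rh4821dcf828b9d7bf.shift 2 0), rh83667ea4ad1c0fe2, (rhadf429772c25fde0.shift 2 0), rhdba1a98b7f3725c7] (by decide +kernel))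
noncomputable def rhc38323aa0a0acb71 : CRef := CRef.mk (Pat.mk 0xe000000030000000000000000 0x20000000e0000000e0000000e0000000f0000003f0000003f0000001f 8 6) 0 0 (step_sound _ 130 [(rh4821dcf828b9d7bf.shift 1 0), rh5c8e4628759668c4, (rhadf429772c25fde0.shift 1 0), rhbefb9cf6fcc2d4c7] (by decide +kernel))
noncomputable def rh4fd72d012076a978 : CRef := CRef.mk (Pat.mk 0x1c000000060000000000000000 0x1c0000001e0000001f0000001c0000007e0000007e0000001e 8 7) 0 0 (step_sound _ 131 [(rhadf429772c25fde0.shift 2 0), rhbe253d1426d5780c, (rhbefb9cf6fcc2d4c7.shift 1 0)] (by decide +kernel))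
noncomputable def rh7e465442ede9d4b6 : CRef := CRef.mk (Pat.mk 0x380000000c0000000000000000 0x1e0000001f0000007e0000003c0000006c0000002c0000000c 8 7) 0 0 (step_sound _ 132 [(rh4821dcf828b9d7bf.shift 3 0), (rhaa2bc8797b233c92.shift 1 0), (rhbe253d1426d5780c.shift 1 0), (rhc3d05991046f7c9b.shift 0 1)] (by decide +kernel))
noncomputable def rh947b7a19a918506b : CRef := CRef.mk (Pat.mk 0xc000000060000000000000000 0x1a0000003b0000003e0000003e0000003c0000001c 8 6) 0 0 (step_sound _ 100 [(rh18965a982d73c794.shift 1 2), rhea4a16972f4667c2] (by decide +kernel))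
noncomputable def rha5bbc4a458378444 : CRef := CRef.mk (Pat.mk 0xc00000006000000000000000000000000 0x12000000370000003e0000003e0000000f0000000e00000002 8 6) 0 0 (step_sound _ 132 [(rh18965a982d73c794.shift 1 3), rh88c8f7fb643127d9] (by decide +kernel))
noncomputable def rha2f44e56d226f9db : CRef := CRef.mk (Pat.mk 0x380000000c00000000000000000000000000000000 0x100000001c0000001e000000380000000f0000007f0000003c0000001c00000014 8 7) 0 0 (step_sound _ 129 [rh10d34bc59c5b77fb, (rh53b3c253cb0c65f4.shift 0 4)] (by decide +kernel))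
noncomputable def rhd33554dcb64ef952 : CRef := CRef.mk (Pat.mk 0x380000000c0000000000000000 0x1e0000001f0000007e0000003c0000006c0000002c0000000c 8 7) 0 0 (step_sound _ 132 [(rh4821dcf828b9d7bf.shift 3 0), (rh8cf7442a9334d621.shift 0 1), (rhaa2bc8797b233c92.shift 1 0), (rhbe253d1426d5780c.shift 1 0)] (by decide +kernel))
noncomputable def rhbbe10d35f728f3b1 : CRef := CRef.mk (Pat.mk 0x300000001c000000000000000000000000 0x1c0000003e000000380000001c0000007f0000007c0000003c 8 7) 0 0 (step_sound _ 67 [rh6a4c3472cae795bb, (rhadf429772c25fde0.shift 3 0), (rhc4542b26a6e488b6.shift 1 1), (rhf9366b6a121593ef.shift 3 0)] (by decide +kernel))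
noncomputable def rh2ed33e0369b30858 : CRef := CRef.mk (Pat.mk 0x1c00000006000000000000000000000000 0x600000006000000070000001e00000007000000030000000300000003 8 5) 0 0 (step_sound _ 129 [rh205bbac36a8896ec, (rheb0810cc63b001d8.shift 0 3)] (by decide +kernel))
noncomputable def rh1dc2a3f6582278a1 : CRef := CRef.mk (Pat.mk 0x80000000e0000000000000000000000000000000000000000 0x140000001c0000001c000000080000001f0000007c0000001c0000001c0000001c00000004 8 7) 0 0 (step_sound _ 131 [(rh5ff49534f4fb28a3.shift 0 2), (rhc21a95c499b3efdb.shift 0 4), (rhf26688aefb92930f.shift 2 0)] (by decide +kernel))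
noncomputable def rh7d2135775e887bfb : CRef := CRef.mk (Pat.mk 0x80000000e000000040000000000000000 0x780000003e000000770000003c0000001c 8 7) 0 0 (step_sound _ 34 [rh254138087448f163, (rh71222050f2c63a3a.shift 2 0)] (by decide +kernel))
noncomputable def rh7a2cbda83557c15f : CRef := CRef.mk (Pat.mk 0x1c000000060000000000000000 0x40000001c0000001c0000003c0000001f0000001e0000003f0000003e 8 6) 0 0 (step_sound _ 131 [(rh4821dcf828b9d7bf.shift 2 0), (rh5c8e4628759668c4.shift 1 0), rh99800bbe4e2d6478, (rhadf429772c25fde0.shift 2 0)] (by decide +kernel))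
noncomputable def rh8ad12a41ae142045 : CRef := CRef.mk (Pat.mk 0x380000000c00000000000000000000000000000000 0xc0000000f0000003f0000003c0000001f0000003c0000001c00000008 8 6) 0 0 (step_sound _ 98 [(rh4821dcf828b9d7bf.shift 2 1), (rhadf429772c25fde0.shift 2 1), rhb74acadce6161004, (rhdf1c8dd8d0773106.shift 0 1)] (by decide +kernel))
noncomputable def rh11b0c8112600f0c7 : CRef := CRef.mk (Pat.mk 0x70000000180000000000000000 0x380000003c000000fe0000007f000000180000001800000018 8 8) 0 0 (step_sound _ 133 [(rh4821dcf828b9d7bf.shift 4 0), (rhbe253d1426d5780c.shift 2 0), (rhd51f3b3caa1766a7.shift 0 2), (rhde620120ede18add.shift 2 0)] (by decide +kernel))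
noncomputable def rh00325461b4df4f85 : CRef := CRef.mk (Pat.mk 0xc000000060000000000000000 0xc0000001e0000001f0000003c0000001e0000001f0000001e 8 6) 0 0 (step_sound _ 100 [(rh18965a982d73c794.shift 1 2), rh4a2c100ec8b32ab9] (by decide +kernel))
noncomputable def rhe2393fbc6756f54d : CRef := CRef.mk (Pat.mk 0xc00000006000000000000000000000000 0x40000001c0000001e0000007c0000000f0000001e0000003f0000003f00000002 8 7) 0 0 (step_sound _ 163 [rh09bee57d7788d8da, rhc53496f4fc223c8f, (rhcf80391c5046a495.shift 2 1), (rhf9366b6a121593ef.shift 2 1)] (by decide +kernel))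
noncomputable def rh63be94165c232f51 : CRef := CRef.mk (Pat.mk 0x180000000c000000000000000000000000 0xc0000001c0000003c0000000f0000003e0000001e0000000e 8 6) 0 0 (step_sound _ 97 [(rh53b3c253cb0c65f4.shift 0 3), (rh6681683a8556a0aa.shift 1 0)] (by decide +kernel))
noncomputable def rhe055e9e301e85fef : CRef := CRef.mk (Pat.mk 0x300000001c000000000000000000000000 0x80000001c0000003f0000003f0000001c0000007f0000001e0000001c 8 7) 0 0 (step_sound _ 67 [rh27b3cd4f3b3d9d74, (rh5fcb4c80d0fc0a32.shift 0 1), (rhcf80391c5046a495.shift 3 0), (rhf9366b6a121593ef.shift 3 0)] (by decide +kernel))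
noncomputable def rhb3e1735086e04cb5 : CRef := CRef.mk (Pat.mk 0x180000000c000000000000000000000000 0x180000003a0000003f0000000f0000000c0000000c0000000c 8 6) 0 0 (step_sound _ 97 [(rh53b3c253cb0c65f4.shift 0 3), rhcd48719f2bb40b58] (by decide +kernel))
noncomputable def rh223e8fc70dd06a42 : CRef := CRef.mk (Pat.mk 0x300000001c0000000000000000 0x28000000280000007f0000007f0000001c0000001400000010 8 7) 0 0 (step_sound _ 99 [(rh18965a982d73c794.shift 2 2), rhc23a27ffbe07fa74] (by decide +kernel))
noncomputable def rhcc168055f308a0ae : CRef := CRef.mk (Pat.mk 0x300000001c000000000000000000000000 0xc0000000c0000000f0000007c0000001c0000001c0000001c0000000c 8 7) 0 0 (step_sound _ 131 [(rh18965a982d73c794.shift 2 3), rh4dc8bb497888f946] (by decide +kernel))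
noncomputable def rh9305276e8fb90ae1 : CRef := CRef.mk (Pat.mk 0x300000001c000000000000000000000000 0x80000001c0000001e0000007f0000001c0000000c0000000c0000000c 8 7) 0 0 (step_sound _ 131 [(rh18965a982d73c794.shift 2 3), rh38b0d48d56d890b5] (by decide +kernel))
noncomputable def rh2cfba121c1b4a614 : CRef := CRef.mk (Pat.mk 0x180000000c000000000000000000000000 0x40000001c0000001c0000003c0000001f000000380000000f0000003c0000001c00000004 8 6) 0 0 (step_sound _ 97 [(rh53b3c253cb0c65f4.shift 0 3), rhe075a3adf0c65c5a] (by decide +kernel))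
noncomputable def rh85cb29f64ca0eeed : CRef := CRef.mk (Pat.mk 0x180000000e000000000000000000000000 0x1c0000003e0000000f0000003c0000000e0000000e0000000e00000006 8 6) 0 0 (step_sound _ 130 [(rh18965a982d73c794.shift 1 3), rh5f0aa5ab9c693f7b] (by decide +kernel))
noncomputable def rh36cedada99df566b : CRef := CRef.mk (Pat.mk 0x80000000e0000000000000000000000000000000000000000 0x140000001c0000001c000000080000000f0000007c0000001c0000001c0000001c00000004 8 7) 0 0 (step_sound _ 131 [(rh3a8915bcf3615c60.shift 0 3), (rhc21a95c499b3efdb.shift 0 4), (rhf26688aefb92930f.shift 2 0)] (by decide +kernel))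
noncomputable def rh8b7980bb312c8f76 : CRef := CRef.mk (Pat.mk 0x80000000e000000040000000000000000 0x120000003b0000001e0000003f0000007c0000003c 8 7) 0 0 (step_sound _ 100 [rh2642de6ca2d23e3a, (rh8843e60b11aa94e7.shift 1 0)] (by decide +kernel))
noncomputable def rh47a4ae9c0118d66c : CRef := CRef.mk (Pat.mk 0xc00000006000000000000000000000000 0x180000001e0000001f0000003c0000000f0000001c0000001c00000018 8 6) 0 0 (step_sound _ 132 [rh1482ea5c9e1745f5, (rh18965a982d73c794.shift 1 3)] (by decide +kernel))
noncomputable def rh1ee6236b45a57bae : CRef := CRef.mk (Pat.mk 0x30000000180000000800000000 0x140000001e0000003e000000fc0000006f00000020 8 8) 0 0 (step_sound _ 132 [(rh5c5e593799055d58.shift 3 1), rh900a8e846858262d] (by decide +kernel))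
noncomputable def rh038c601bbba478b7 : CRef := CRef.mk (Pat.mk 0x100000001c000000000000000000000000 0x220000002a0000007f0000007f0000007c0000001e0000001c00000008 8 7) 0 0 (step_sound _ 130 [(rh24e72371d7873615.shift 1 0), (rh4f4fb62dc7999fe7.shift 1 1), (rh659706c803df13e0.shift 1 1), (rhba2270f1412c94c5.shift 0 1)] (by decide +kernel))
noncomputable def rh5676a97cea90d992 : CRef := CRef.mk (Pat.mk 0x8000000080000000e00000000 0x1e0000001f0000007e0000000f0000000e0000000a 8 7) 0 0 (step_sound _ 130 [(rh1be4edb4d2f0f437.shift 2 0), (rh24e740d338799ad7.shift 1 0), rh8a9e5c092d0b6b62, (rhbec796c3ea7a32e6.shift 1 0), rhf6b3d497f830a071] (by decide +kernel))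
noncomputable def rhd9b74441103bd9ee : CRef := CRef.mk (Pat.mk 0x40000000700000000000000000000000000000000 0xa0000000e0000000e0000000e0000000e000000070000003e0000000e0000000e0000000a 8 6) 0 0 (step_sound _ 194 [(rh2f650a3a7070ab18.shift 1 0), (rh32431e66bbf434a4.shift 1 3), rhb3317b042206c76b] (by decide +kernel))
noncomputable def rhe72a46e3e15b1b66 : CRef := CRef.mk (Pat.mk 0x100000001c000000080000000000000000 0x1c0000001c0000001c0000000f0000003c0000001c 8 6) 0 0 (step_sound _ 35 [(rh71222050f2c63a3a.shift 3 0), rh85e69defa6420190] (by decide +kernel))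
noncomputable def rh09f54805d661b3ea : CRef := CRef.mk (Pat.mk 0x1c000000060000000000000000 0x80000000c0000003c0000001f0000003e0000003700000016 8 6) 0 0 (step_sound _ 131 [rh5e734b2eec7d6fdb, rhf7bbabc7740a8b9b, (rhf9366b6a121593ef.shift 2 0)] (by decide +kernel))
noncomputable def rh0d32baf958fc84a3 : CRef := CRef.mk (Pat.mk 0x70000000180000000000000000 0x2000000038000000fe0000007f000000d80000005800000058 8 8) 0 0 (step_sound _ 133 [(rh4821dcf828b9d7bf.shift 4 0), rh830a9efea84db09b, (rhbe253d1426d5780c.shift 2 0), (rhde620120ede18add.shift 2 0)] (by decide +kernel))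
noncomputable def rh1acdca87f221cf81 : CRef := CRef.mk (Pat.mk 0x180000000c0000000000000000 0x140000001c0000003c0000000f0000007e0000007c0000000e0000000c 8 7) 0 0 (step_sound _ 101 [(rh18965a982d73c794.shift 2 2), rh42fd21723a635607] (by decide +kernel))
noncomputable def rh485d0cce34885595 : CRef := CRef.mk (Pat.mk 0x180000000c0000000000000000 0x100000001e0000001e0000007f0000007f0000007c0000000600000004 8 7) 0 0 (step_sound _ 101 [rh1204951739388ee2, (rh18965a982d73c794.shift 2 2)] (by decide +kernel))
noncomputable def rh52f1cbf6295fef0f : CRef := CRef.mk (Pat.mk 0x1c000000060000000000000000 0x1c0000003e0000001f0000001c0000007e0000007700000006 8 7) 0 0 (step_sound _ 131 [(rh2c2d69488ee7d929.shift 0 1), (rhadf429772c25fde0.shift 2 0), rhbe253d1426d5780c] (by decide +kernel))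
noncomputable def rh226a132f01051d42 : CRef := CRef.mk (Pat.mk 0x180000000c0000000400000000 0x1e0000003f0000001f0000000c0000000c00000008 8 6) 0 0 (step_sound _ 131 [(rh5c5e593799055d58.shift 2 1), rhe0248bdc5876dd86] (by decide +kernel))
noncomputable def rh11c969f7726ce595 : CRef := CRef.mk (Pat.mk 0x380000000c000000000000000000000000 0x60000001e0000007f0000003f000000fc0000006e0000002400000004 8 8) 0 0 (step_sound _ 66 [(rh3eeb377fccac4118.shift 1 0), (rha93a802eccd9af33.shift 0 2), (rhadf429772c25fde0.shift 2 0)] (by decide +kernel))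
noncomputable def rha25e80d552c3a28f : CRef := CRef.mk (Pat.mk 0x80000000e000000080000000000000000 0x40000000f0000007e0000007f0000003300000012 8 7) 0 0 (step_sound _ 100 [(rh300eedc557b86950.shift 1 2), (rhbc221e1a102c3bdc.shift 0 2), rhcf8f85867d3dcfba, (rhe401600d466b97cd.shift 0 2)] (by decide +kernel))
noncomputable def rh6b812bd853bb81dc : CRef := CRef.mk (Pat.mk 0x100000001c000000000000000000000000 0x1400000014000001df000000fe000000f80000002800000008 8 9) 0 0 (step_sound _ 67 [rh5bbb8aca7a5c4e9d, (rhcf80391c5046a495.shift 3 0), (rhd94912dfc1938072.shift 1 1), (rhf9366b6a121593ef.shift 3 0)] (by decide +kernel))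
noncomputable def rhf97246cd700d53f8 : CRef := CRef.mk (Pat.mk 0x1c000000060000000000000000 0x40000000c0000000c0000001c0000001f0000003e0000003e0000003e 8 6) 0 0 (step_sound _ 131 [rh52fb5f3b090cacd9, (rh5c8e4628759668c4.shift 1 0), (rhf9366b6a121593ef.shift 2 0)] (by decide +kernel))
noncomputable def rh0e01bea35602aed6 : CRef := CRef.mk (Pat.mk 0x380000000c0000000000000000 0x10000000100000007f0000003e0000007c0000007800000038 8 7) 0 0 (step_sound _ 132 [(rhb943da9177509395.shift 1 0), rhef250c29c5e05d99, (rhf9366b6a121593ef.shift 3 0)] (by decide +kernel))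
noncomputable def rhdc218e68203c137e : CRef := CRef.mk (Pat.mk 0x1c00000006000000000000000000000000 0x600000006000000070000001f0000007e000000070000000600000006 8 7) 0 0 (step_sound _ 65 [rh46eecb9e6a7eba46, (rh7946d3b226c7723d.shift 0 2), (rhadf429772c25fde0.shift 1 0)] (by decide +kernel))
noncomputable def rh2a76dc826943db94 : CRef := CRef.mk (Pat.mk 0x380000000c0000000000000000 0x140000001e0000001e0000007e0000003f0000007c0000001600000004 8 7) 0 0 (step_sound _ 131 [(rh3419068dc7981473.shift 1 1), (rh7d4be646332fc08b.shift 2 1), rhabbe320ac2756e78, (rhb622aa591eacde43.shift 2 1)] (by decide +kernel))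
noncomputable def rh24a265fe8cfd7f33 : CRef := CRef.mk (Pat.mk 0x30000000180000000000000000 0x2000000038000000fe000000ff000000d80000005800000018 8 8) 0 0 (step_sound _ 102 [(rh18965a982d73c794.shift 3 2), rh761c26f68a95a78b] (by decide +kernel))
noncomputable def rh971bcfa3358962d6 : CRef := CRef.mk (Pat.mk 0x1c000000060000000000000000 0x1f0000001f0000003b0000001f0000003e0000001400000014 8 6) 0 0 (step_sound _ 163 [(rh02ef15e22aa7db92.shift 2 0), rh0c7d66d9d3382aba, rh92712f7f3615815d, rhd34abd4e84e22c6c] (by decide +kernel))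
noncomputable def rhe3d576e1617e854e : CRef := CRef.mk (Pat.mk 0x10000000180000000c0000000000000000 0x2e0000007f0000001f0000001c0000001c0000001c 8 7) 0 0 (step_sound _ 35 [(rh71222050f2c63a3a.shift 3 0), rha61dc7c6fa313dbf] (by decide +kernel))
noncomputable def rhf1984b07aad849b4 : CRef := CRef.mk (Pat.mk 0x70000000180000000000000000 0x100000003000000030000000fe0000007f000000f8000000f8000000f8 8 8) 0 0 (step_sound _ 133 [(rh4fe45171b1186db1.shift 0 1), (rh5c8e4628759668c4.shift 3 0), (rhadf429772c25fde0.shift 4 0)] (by decide +kernel))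
noncomputable def rh5e49b8ac4b459398 : CRef := CRef.mk (Pat.mk 0x100000000c000000000000000000000000 0x180000001a000000ff0000007e000000770000002400000024 8 8) 0 0 (step_sound _ 100 [(rh158772c1247c7b24.shift 1 0), rhb8253cd45d3e1e3b, (rhff7d63dcb3cf9f74.shift 1 3)] (by decide +kernel))
noncomputable def rhd2134ed257ec324b : CRef := CRef.mk (Pat.mk 0x80000000e000000000000000000000000 0x800000008000000ec0000007f0000007f0000003400000014 8 8) 0 0 (step_sound _ 66 [rh2cb8437104de90cf, (rhadf429772c25fde0.shift 2 0), rhe1187278fdbf3b95, (rhf9366b6a121593ef.shift 2 0)] (by decide +kernel))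
noncomputable def rhc4882b7c40c0503f : CRef := CRef.mk (Pat.mk 0x2800000018000000000000000000000000 0x38000000780000003e00000038000000ff0000003c00000038 8 8) 0 0 (step_sound _ 68 [(rh2b427143cc278400.shift 2 0), (rh509b67a8ffe2e1ab.shift 0 1), (rh5b53faf3b8d954fc.shift 3 0), (rh5d54cb79a67f97ab.shift 3 0)] (by decide +kernel))
noncomputable def rh648238bd47afe148 : CRef := CRef.mk (Pat.mk 0x10000000500000001000000000000000000000000000000000 0x2f0000003e0000007f0000001000000038000000380000003800000028 8 7) 0 0 (step_sound _ 100 [(rh565169fdbcfbf9eb.shift 0 3), (rh6eff4158bb400f47.shift 3 1), (rhc850b49d039efae1.shift 3 0)] (by decide +kernel))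
noncomputable def rh04682368775a440c : CRef := CRef.mk (Pat.mk 0x160000000c000000000000000000000000 0x16000000370000001e0000003c0000001c0000000c00000008 8 6) 0 0 (step_sound _ 100 [rh8d6ed22a6e8d533d, (rhf48373e13d2bc128.shift 1 3)] (by decide +kernel))
noncomputable def rhe5ccac68d21bc679 : CRef := CRef.mk (Pat.mk 0x8000000180000001000000000 0x1c0000003c0000000f0000007c0000001f0000000c 8 7) 0 0 (step_sound _ 131 [rh1f092d7c790c868d, (rh2145e1d24b96a57e.shift 3 1)] (by decide +kernel))
noncomputable def rh2981bc9ad3558d81 : CRef := CRef.mk (Pat.mk 0x160000000c0000000000000000 0x1a0000001a0000003f0000001e0000003e0000003400000024 8 6) 0 0 (step_sound _ 68 [rh799d03b05b7ae504, (rhf48373e13d2bc128.shift 1 2)] (by decide +kernel))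
noncomputable def rh7f05ac08b71600c1 : CRef := CRef.mk (Pat.mk 0x280000001800000010000000000000000000000000 0x3c0000007e0000003f000000180000007c0000000c0000000c00000008 8 7) 0 0 (step_sound _ 195 [rh06cfa5263c396d51, (rh2145e1d24b96a57e.shift 3 3)] (by decide +kernel))
noncomputable def rhabb0050a5d65d384 : CRef := CRef.mk (Pat.mk 0x2800000018000000000000000000000000 0x1c0000003e00000038000000380000003f0000001f0000001c 8 6) 0 0 (step_sound _ 68 [(rh5d54cb79a67f97ab.shift 3 0), rh72dbfb9d9865884f, (rh8b5aa898b7f4cc53.shift 0 1), (rha40d42a2e34c408d.shift 3 0)] (by decide +kernel))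
noncomputable def rhce4919a4e2d76406 : CRef := CRef.mk (Pat.mk 0x80000000e0000000000000000000000000000000000000000 0x140000001c0000001c000000080000000f0000007c0000001c0000001c0000001c00000004 8 7) 0 0 (step_sound _ 131 [(rh5a8abb721f11b584.shift 0 1), (rhc21a95c499b3efdb.shift 0 4), (rhf26688aefb92930f.shift 2 0)] (by decide +kernel))
noncomputable def rh482f3562927c7ab4 : CRef := CRef.mk (Pat.mk 0xc000000060000000000000000000000000000000000000000 0x80000000e0000000f0000003c000000070000003e0000000f0000000e0000000e00000008 8 6) 0 0 (step_sound _ 196 [(rh18965a982d73c794.shift 1 5), rh48d2ad5f6222342b] (by decide +kernel))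
noncomputable def rh3584a84a5dd4e9f8 : CRef := CRef.mk (Pat.mk 0x3000000018000000080000000000000000 0x8000000080000006c0000003c000000180000001f0000003c0000001c 8 7) 0 0 (step_sound _ 35 [(rh71222050f2c63a3a.shift 3 0), rhff3e00108bcdb5e2] (by decide +kernel))
noncomputable def rh443d2a96acc3165f : CRef := CRef.mk (Pat.mk 0x180000000c00000004000000000000000000000000 0x1e0000003f0000001f0000000c0000001c000000180000001800000008 8 6) 0 0 (step_sound _ 195 [(rh5c5e593799055d58.shift 2 3), rh8f44490d404530e6] (by decide +kernel))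
noncomputable def rhe66af879820e31e7 : CRef := CRef.mk (Pat.mk 0x1000000018000000080000000800000000 0x2800000028000000e8000000fc000003fe000000ff0000005e00000014 8 10) 0 0 (step_sound _ 133 [(rh158065cf574453a1.shift 2 1), rh5813c541f4e49a2e, (rh69012675dfdb1a5b.shift 1 3), (rhd69c262cd33b94b3.shift 1 3)] (by decide +kernel))
noncomputable def rhe5788a66310ff7bd : CRef := CRef.mk (Pat.mk 0x8000000080000000c0000000400000000 0x10000000120000007b0000007f0000007f0000006f00000028 8 7) 0 0 (step_sound _ 100 [rh4cdfc88b6f5881f7, (rh58592de46ebe19b5.shift 1 0), (rh69012675dfdb1a5b.shift 0 2), (rhd69c262cd33b94b3.shift 0 2)] (by decide +kernel))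
noncomputable def rhf6948677b8a0e464 : CRef := CRef.mk (Pat.mk 0x1c00000006000000000000000000000000 0x1c0000003e0000007f0000001c0000000e0000000e0000000e00000008 8 7) 0 0 (step_sound _ 163 [rh4526f9f0eff659bf, (rhadf429772c25fde0.shift 2 1), (rhbe253d1426d5780c.shift 0 1)] (by decide +kernel))
noncomputable def rh81884cd9c7493841 : CRef := CRef.mk (Pat.mk 0x180000000c00000000000000000000000000000000 0x80000000c0000001f0000001f0000001c0000001c0000001c0000001c0000001c00000004 8 5) 0 0 (step_sound _ 195 [(rh1c48b603c21ea5b5.shift 2 0), (rhbb339bb7e4e96b38.shift 2 3), (rhe4058a5933ce4973.shift 0 1)] (by decide +kernel))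
noncomputable def rh56b140bd5645dea3 : CRef := CRef.mk (Pat.mk 0x70000000180000000000000000 0x20000000380000007c000000f70000007f000000f80000003c00000028 8 8) 0 0 (step_sound _ 132 [rh3089bacd8783e3f7, (rhbb339bb7e4e96b38.shift 3 1), (rhcc7c429341b0361b.shift 0 1)] (by decide +kernel))
noncomputable def rh0685464962ad3e5e : CRef := CRef.mk (Pat.mk 0x180000000c000000000000000000000000 0x40000000c0000000c0000001f000000780000001c0000001c0000001c00000014 8 7) 0 0 (step_sound _ 133 [(rh18965a982d73c794.shift 2 3), rh9c48700ff009002f] (by decide +kernel))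
noncomputable def rhbc5f11c6a7a00580 : CRef := CRef.mk (Pat.mk 0x180000000e000000000000000000000000 0x40000000c0000000e0000001f0000001f0000003e0000001f0000001e00000014 8 6) 0 0 (step_sound _ 163 [rh4d99b7c33447867a, (rhbb339bb7e4e96b38.shift 2 2), (rhc9b7a010d6829066.shift 2 2), (rhf2a5835e89ebf597.shift 0 1)] (by decide +kernel))
noncomputable def rh0703ee99cd677f79 : CRef := CRef.mk (Pat.mk 0x180000000c000000000000000000000000 0x16000000370000001f000000ff0000000f0000000e00000004 8 8) 0 0 (step_sound _ 97 [(rh53b3c253cb0c65f4.shift 0 3), rhaf0b28beef3aff6c] (by decide +kernel))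
noncomputable def rh92e9ceb4b3713e61 : CRef := CRef.mk (Pat.mk 0x380000000c0000000000000000 0x1c0000001e000000770000003e0000007c0000000800000008 8 7) 0 0 (step_sound _ 132 [(rh309dfb2f0d0cc90c.shift 1 0), (rhadf429772c25fde0.shift 3 0), (rhd4ce4468419f50bb.shift 0 2)] (by decide +kernel))
noncomputable def rh24099c3bcc78201b : CRef := CRef.mk (Pat.mk 0x10000000100000001800000008000000000000000000000000 0x280000003c000000f8000000fb000000ff000000170000001000000010 8 8) 0 0 (step_sound _ 100 [(rh3502d92c6cce609b.shift 3 0), (rh800b2e488550d47a.shift 0 2), (rhab3c3f3ae8c9664f.shift 2 2)] (by decide +kernel))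
noncomputable def rhe7e02ace54576beb : CRef := CRef.mk (Pat.mk 0x80000000c00000004000000000000000000000000 0x1e0000003f0000007f0000000c0000000c000000080000000800000008 8 7) 0 0 (step_sound _ 195 [(rh5c5e593799055d58.shift 2 3), rh673dc4da91ad5afe] (by decide +kernel))
noncomputable def rha538362dc4782f64 : CRef := CRef.mk (Pat.mk 0x30000000180000000000000000 0x280000003c0000003c000000fe000000ff000000f80000000c00000008 8 8) 0 0 (step_sound _ 102 [(rh18965a982d73c794.shift 3 2), rhd3d806a1bacb84ae] (by decide +kernel))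
noncomputable def rh9ca5cccfe2acd38c : CRef := CRef.mk (Pat.mk 0x180000000c000000000000000000000000 0xe0000000f0000001f0000003f000000070000000600000004 8 6) 0 0 (step_sound _ 97 [(rh53b3c253cb0c65f4.shift 0 3), rh6308f078fb84b83b] (by decide +kernel))
noncomputable def rhdce4e97f67dd8918 : CRef := CRef.mk (Pat.mk 0x380000000c000000000000000000000000 0x40000001c0000001c0000003f0000003f000000380000000c0000001c0000001c00000014 8 6) 0 0 (step_sound _ 163 [(rh2661918359e46607.shift 0 2), (rh757a29c20c8f4c26.shift 1 0), (rh8473d9dc3b1ea17f.shift 0 2), (rhb2d999c672507e3f.shift 2 2), rhfa42e0d11b309c7d] (by decide +kernel))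
noncomputable def rha43fa5d6e459e272 : CRef := CRef.mk (Pat.mk 0x300000001c000000000000000000000000 0x1c0000007e0000003f0000001c0000001f0000001e0000001c 8 7) 0 0 (step_sound _ 67 [(rh5fcb4c80d0fc0a32.shift 0 1), rh9e44abf04b96d546, (rhcf80391c5046a495.shift 3 0), (rhf9366b6a121593ef.shift 3 0)] (by decide +kernel))
noncomputable def rhd9b12d47234f1ff1 : CRef := CRef.mk (Pat.mk 0x80000000c000000040000000400000000 0x1000000010000000700000007e000001ff000000770000003c00000018 8 9) 0 0 (step_sound _ 132 [(rh158065cf574453a1.shift 1 1), (rh69012675dfdb1a5b.shift 0 3), (rhd69c262cd33b94b3.shift 0 3), rhdabd474648976ee2] (by decide +kernel))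
noncomputable def rh425ccdc644a2537d : CRef := CRef.mk (Pat.mk 0xc0000000600000000000000000000000000000000 0xa0000000f0000003f0000003e0000003c0000001f0000000e0000000a 8 6) 0 0 (step_sound _ 164 [(rh18965a982d73c794.shift 1 4), rh399d96a457967324] (by decide +kernel))
noncomputable def rh79a4cda96ce1f867 : CRef := CRef.mk (Pat.mk 0x1000000010000000180000000800000000 0xc0000004c000000fe000000ff000001fe0000002c00000020 8 9) 0 0 (step_sound _ 101 [(rh574fdbf07bdd18b9.shift 1 2), (rh8dbda0e4ff900fc5.shift 2 2), (rh8ecf8a5e2cf4fa3a.shift 1 1), rhf15c21b308596762] (by decide +kernel))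
noncomputable def rhbd04c572f21d6c62 : CRef := CRef.mk (Pat.mk 0x10000000180000000800000008 0x2000000024000007f7000003fe000007df00000048 8 11) 0 0 (step_sound _ 69 [(rh565207d3f61c5c7e.shift 2 0), rhb4b55eb1beed23a3, (rhfa35e196e150edb4.shift 2 1)] (by decide +kernel))
noncomputable def rhd94c365dd6f0b751 : CRef := CRef.mk (Pat.mk 0x8000000080000000c0000000400000000 0x160000003f0000007f0000007f0000006e00000028 8 7) 0 0 (step_sound _ 100 [rh037032041dc2ee01, (rh0bb882ba86b2372d.shift 0 2), (rh574fdbf07bdd18b9.shift 0 2), rhb7bdfe1aec99acc3] (by decide +kernel))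
noncomputable def rha5cf0f78bad0453d : CRef := CRef.mk (Pat.mk 0x8000000080000000c0000000400000000 0x6000000360000007e0000007c0000007f0000007700000030 8 7) 0 0 (step_sound _ 100 [(rh0bb882ba86b2372d.shift 0 2), (rh13f034b27efdd668.shift 1 0), (rh574fdbf07bdd18b9.shift 0 2), rh82c32eec533ffa4c] (by decide +kernel))
noncomputable def rhc7e41c1f323b1ce7 : CRef := CRef.mk (Pat.mk 0x1000000018000000080000000800000000 0x8000000780000007f0000007f0000007800000030 8 7) 0 0 (step_sound _ 66 [(rh0bb882ba86b2372d.shift 0 2), rh599f8b48cb135a15, rhbde007d47b9dc637, (rhf50a16309f00a7a9.shift 1 0)] (by decide +kernel))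
noncomputable def rh37dda300fad21352 : CRef := CRef.mk (Pat.mk 0x8000000080000000c0000000400000000 0x120000003f0000007f0000007f0000007600000030 8 7) 0 0 (step_sound _ 100 [rh037032041dc2ee01, (rh0bb882ba86b2372d.shift 0 2), rh314d353bdb5373f1, (rh574fdbf07bdd18b9.shift 0 2)] (by decide +kernel))
noncomputable def rh52e65394b4d0a0c0 : CRef := CRef.mk (Pat.mk 0x80000000c0000000400000004 0x12000000160000007f000000ff0000007e00000024 8 8) 0 0 (step_sound _ 100 [(rh69012675dfdb1a5b.shift 0 2), rhc40fd431292fd8fc, (rhd69c262cd33b94b3.shift 0 2), (rhf1d258cf78bbc7de.shift 1 0)] (by decide +kernel))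
noncomputable def rh9aed2f99b33426cf : CRef := CRef.mk (Pat.mk 0x180000000e00000000000000000000000000000000 0x4000000140000001f0000003e0000003b0000001f0000001e00000004 8 6) 0 0 (step_sound _ 67 [(rh530b5bde70a0012b.shift 0 1), (rh87ac23ce835a3079.shift 2 0), (rha9e25d71122884ad.shift 0 1)] (by decide +kernel))
noncomputable def rh1c5722a9d8481fcc : CRef := CRef.mk (Pat.mk 0x1c0000000600000000000000000000000000000000 0x20000003b0000001f0000003e0000000c0000000c0000000c00000008 8 6) 0 0 (step_sound _ 98 [(rh000637b5a81e86aa.shift 1 1), (rh0a46ea306ccc45e1.shift 0 1), (rhac917a7a6fd43377.shift 2 0), (rhdf8bd8767e62dc1a.shift 0 3)] (by decide +kernel))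
noncomputable def rh26b6951d227d0fcb : CRef := CRef.mk (Pat.mk 0xc000000040000000000000000 0x1c0000001e0000007f0000003f0000003c0000001c0000000c 8 7) 0 0 (step_sound _ 131 [(rh03ac5205eef3618c.shift 0 1), (rh4821dcf828b9d7bf.shift 2 0), rhe05013472713b83b] (by decide +kernel))
noncomputable def rhc4ca062eed4f8b28 : CRef := CRef.mk (Pat.mk 0x8000000080000000c00000004000000000000000000000000 0x170000001f0000003c0000001c0000007c000000780000001800000008 8 7) 0 0 (step_sound _ 99 [(rh3502d92c6cce609b.shift 2 0), (rh8b7ecd037563e0e4.shift 0 2), (rh8ff3dde5b1c639e0.shift 2 1), (rha068555654cd13ea.shift 2 2)] (by decide +kernel))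
noncomputable def rh69e0145b5b1c0c84 : CRef := CRef.mk (Pat.mk 0x4000000060000000200000002000000000 0x2800000038000001bc000001fe0000007e000003ff000003e0000000c0 8 10) 0 0 (step_sound _ 100 [(rh0459c7668fe40e38.shift 2 0), (rh7f0f728c796044ac.shift 1 2), (rh83b1a32b3f38ab2f.shift 4 0), (rhedb6065a2c9ab664.shift 0 2)] (by decide +kernel))
noncomputable def rh6e719ce4f6785557 : CRef := CRef.mk (Pat.mk 0x1800000008000000000000000000000000 0x2c0000006e0000007f0000007f0000003b0000001a00000010 8 7) 0 0 (step_sound _ 98 [(rh74b9253b4ff61667.shift 0 1), (rhb5fe5d40bf7848ef.shift 1 1), (rhd69c262cd33b94b3.shift 0 3), rhdbe81ec60db065ce] (by decide +kernel))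
noncomputable def rh269b24cb97f42a2e : CRef := CRef.mk (Pat.mk 0x80000000c000000040000000400000000 0x10000000160000007e000000ff000000770000003c00000018 8 8) 0 0 (step_sound _ 132 [(rh69012675dfdb1a5b.shift 0 3), (rhd69c262cd33b94b3.shift 0 3), rhdabd474648976ee2, (rhf1d258cf78bbc7de.shift 1 1)] (by decide +kernel))
noncomputable def rh439c67fbeed3cacb : CRef := CRef.mk (Pat.mk 0x10000000300000001800000000 0x3000000030000000fc000000ff000000f8000000e0 8 8) 0 0 (step_sound _ 70 [(rh18965a982d73c794.shift 3 1), rha7a55157368b049b] (by decide +kernel))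
noncomputable def rha29f6b7a7726c4e0 : CRef := CRef.mk (Pat.mk 0x40000000c000000060000000000000000 0x8000000180000003c0000003f0000003e0000000f0000000a 8 6) 0 0 (step_sound _ 100 [(rh18965a982d73c794.shift 1 2), rh8071a79bdf97deb8] (by decide +kernel))
noncomputable def rhef5a28d8e7eee73d : CRef := CRef.mk (Pat.mk 0x1000000010000000100000001800000000 0x280000003c000000f0000001f7000000fe000001e7 8 9) 0 0 (step_sound _ 37 [rh0897f4dfec14fd7e, (rh55afc6a59410cf00.shift 4 0)] (by decide +kernel))
noncomputable def rhc6ea5fc6007639dc : CRef := CRef.mk (Pat.mk 0x1000000010000000100000001800000000 0x1000000010000001ff000000fe000001e0 8 9) 0 0 (step_sound _ 37 [(rh55afc6a59410cf00.shift 4 0), rh7f00c2d477386d7f] (by decide +kernel))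
noncomputable def rh78a7b6a9bdc75138 : CRef := CRef.mk (Pat.mk 0x8000000180000000c0000000000000000 0x140000001f0000007c0000003c0000007800000030 8 7) 0 0 (step_sound _ 101 [(rh18965a982d73c794.shift 2 2), rhe8de7b6a70e130c9] (by decide +kernel))
noncomputable def rh1bd4bb1ebe50900f : CRef := CRef.mk (Pat.mk 0x8000000180000000c0000000000000000 0x170000001f0000001c0000001f0000007c00000014 8 7) 0 0 (step_sound _ 65 [(rh53b3c253cb0c65f4.shift 0 2), rhe9b95156730b7057] (by decide +kernel))
noncomputable def rh19cc2b19553767e3 : CRef := CRef.mk (Pat.mk 0x1000000010000000100000001000000000 0x2f0000007e000000ff000000100000003000000020 8 8) 0 0 (step_sound _ 37 [(rh07cd7873594df687.shift 0 1), (rh55afc6a59410cf00.shift 4 0)] (by decide +kernel))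
noncomputable def rhcd8bf3896bcaf7c2 : CRef := CRef.mk (Pat.mk 0x40000000c00000006000000000000000000000000 0xa0000000f0000003c0000003e0000003f0000003a00000010 8 6) 0 0 (step_sound _ 66 [rhca20505fdc25e5f1, (rhfa7545b194a71cfb.shift 1 1), (rhfc21d93c70905a0f.shift 0 2)] (by decide +kernel))
noncomputable def rh17bc389d5b388ca4 : CRef := CRef.mk (Pat.mk 0x10000000180000000800000000 0x140000003e000000ff000000fe0000000e00000004 8 8) 0 0 (step_sound _ 132 [rh2e5ca3666ef823a4, (rh5c5e593799055d58.shift 3 1)] (by decide +kernel))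
noncomputable def rh3556a9d63c0f34f1 : CRef := CRef.mk (Pat.mk 0x8000000080000000c0000000400000000 0x170000001f0000003f0000000e0000007c00000010 8 7) 0 0 (step_sound _ 35 [(rh36d4d92ef3dad5f8.shift 1 0), (rh5a144a39643b10b3.shift 0 1), rh8b7ecd037563e0e4] (by decide +kernel))
noncomputable def rhb8ac7650aff5edd5 : CRef := CRef.mk (Pat.mk 0x4000000060000000200000000000000000 0x30000000300000003c000001ff0000007e000000fe0000003000000030 8 9) 0 0 (step_sound _ 37 [(rh71222050f2c63a3a.shift 5 0), rh7b644d3b15bdcf48] (by decide +kernel))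
noncomputable def rhba01db7485a7000f : CRef := CRef.mk (Pat.mk 0x1000000018000000080000000800000000 0xc0000000e0000001f0000007f0000001f0000000c00000004 8 7) 0 0 (step_sound _ 66 [(rh0bb882ba86b2372d.shift 0 2), rh787a735b8475219d, (rhef1fef9b2fe09d8c.shift 1 0)] (by decide +kernel))
noncomputable def rhf27f7f9d2e45e551 : CRef := CRef.mk (Pat.mk 0x2000000030000000000000000000000000 0x280000002c000001ef000000fe000001fe0000005800000058 8 9) 0 0 (step_sound _ 99 [(rh5fe7b5a5d6c590ae.shift 1 0), (rh79dcd69039ee3f65.shift 2 0), rhd84d8aa26dfbdfdf, (rhe3afa6c0f229bb1f.shift 1 0), (rhfefd7be2d273f2ab.shift 1 0)] (by decide +kernel))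
noncomputable def rh9d1941d7e7832117 : CRef := CRef.mk (Pat.mk 0x180000000c0000000000000000 0x1000000016000000370000001f0000003f0000007f00000006 8 7) 0 0 (step_sound _ 65 [(rh53b3c253cb0c65f4.shift 0 2), rh71662b93eafd118f] (by decide +kernel))
noncomputable def rh0c88e839a269baae : CRef := CRef.mk (Pat.mk 0x8000000080000000c0000000800000000 0x170000001f0000003c0000000c0000007c00000014 8 7) 0 0 (step_sound _ 34 [rh8b7ecd037563e0e4, (rh932754581e0f4330.shift 2 0)] (by decide +kernel))
noncomputable def rh592616b467fecf3e : CRef := CRef.mk (Pat.mk 0x1000000010000000180000001000000000 0x1000000010000000f8000000ff0000002f 8 8) 0 0 (step_sound _ 35 [rh1e87bf36e9e60a85, (rh932754581e0f4330.shift 3 0)] (by decide +kernel))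
noncomputable def rha1f9145d0e016d44 : CRef := CRef.mk (Pat.mk 0x400000004000000060000000400000000 0xa0000003f0000003f0000001e0000003c00000018 8 6) 0 0 (step_sound _ 129 [rh50c915e10c13df5d, (rh50fbb5868c909700.shift 1 1)] (by decide +kernel))
noncomputable def rh3fc74652f5dccd97 : CRef := CRef.mk (Pat.mk 0x8000000080000000c0000000800000000 0x40000000c0000000c0000007c0000007e00000017 8 7) 0 0 (step_sound _ 34 [(rh932754581e0f4330.shift 2 0), rhb189e270a96d44aa] (by decide +kernel))
noncomputable def rhd3bcfdc2fde42f51 : CRef := CRef.mk (Pat.mk 0xc0000000600000000 0xb0000000b0000003f0000003f0000003600000014 8 6) 0 0 (step_sound _ 68 [(rh18965a982d73c794.shift 1 1), rhfe531b6a60571efa] (by decide +kernel))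
noncomputable def rhdc491ffbc3875d57 : CRef := CRef.mk (Pat.mk 0x2000000030000000100000000000000000 0x280000007c000000ef000000fe000000df0000004800000008 8 8) 0 0 (step_sound _ 165 [(rh5c5e593799055d58.shift 4 2), rh660231b7a982e4ed] (by decide +kernel))
noncomputable def rh95e39345e7d0e2e4 : CRef := CRef.mk (Pat.mk 0x2000000030000000100000000000000000 0x800000028000000ef000000fe000001df0000005000000050 8 9) 0 0 (step_sound _ 36 [rh395e89e11271c3f5, (rh71222050f2c63a3a.shift 4 0)] (by decide +kernel))
noncomputable def rh73464a37ca5fcab4 : CRef := CRef.mk (Pat.mk 0x10000000080000000800000000000000000000000000000000 0xc0000000c0000001c0000003c0000001f0000001c0000000c0000001c0000001c00000014 8 6) 0 0 (step_sound _ 99 [(rh22d86f446f3de558.shift 0 2), (rh2f7a4f5c7713e920.shift 2 2), (rh984bfc6de6c2c524.shift 2 0)] (by decide +kernel))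
noncomputable def rh8be7cdc10115012c : CRef := CRef.mk (Pat.mk 0x200000002000000020000000200000000000000000000000000000000 0x20000000200000007000000070000000700000007000000070000000700000001 8 3) 0 0 (step_sound _ 97 [(rh5baa46239919fe38.shift 0 1), rh8702a07759af281c, (rh96b9ddd2353c6a13.shift 0 2)] (by decide +kernel))
noncomputable def rh462ade9c18144c92 : CRef := CRef.mk (Pat.mk 0x800000004000000040000000400000000 0x1200000016000000360000003f0000003f0000003e0000000f0000000a 8 6) 0 0 (step_sound _ 130 [rh3ca4c10fdf355329, rh3d7a5ff75e0aed59, rh3d8d68a896ef6211, (rh771d065bdc85bf2d.shift 1 0), (rh82fd6857f8e3b6aa.shift 0 1), (rhf617957450b90b55.shift 1 0)] (by decide +kernel))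
noncomputable def rh66730e39e62d8baf : CRef := CRef.mk (Pat.mk 0x80000000c00000004000000040000000000000000 0x18000000780000001f0000007c0000001e0000001800000018 8 7) 0 0 (step_sound _ 99 [(rh5c5e593799055d58.shift 2 2), rhcc38d7430ab018fb] (by decide +kernel))
noncomputable def rh6fdde8689920c28f : CRef := CRef.mk (Pat.mk 0x180000000c000000040000000000000000 0x60000001f0000001e0000000f0000003c0000001800000018 8 6) 0 0 (step_sound _ 97 [(rh53b3c253cb0c65f4.shift 0 3), rhace873cb1c25afc8] (by decide +kernel))
noncomputable def rh078d02524118d041 : CRef := CRef.mk (Pat.mk 0x180000000c0000000000000000 0x10000000140000003f0000007e0000007c0000000800000008 8 7) 0 0 (step_sound _ 101 [(rh18965a982d73c794.shift 2 2), rh9ab124050bd19740] (by decide +kernel))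
noncomputable def rh1fd47671a807ffbf : CRef := CRef.mk (Pat.mk 0x1000000008000000080000000800000000 0x1c0000001f000000380000000f0000000c0000000c 8 6) 0 0 (step_sound _ 131 [(rh2f68792b6b779e96.shift 3 1), rh5e42742a7b460ece] (by decide +kernel))
noncomputable def rh4c5c32bb62ce4735 : CRef := CRef.mk (Pat.mk 0x180000000800000008000000000000000000000000 0x80000000c0000000c0000007c0000001f0000000c0000001c0000001c00000014 8 7) 0 0 (step_sound _ 130 [(rh0bb882ba86b2372d.shift 0 4), (rh3d57348c70af05c9.shift 2 0), (rh69012675dfdb1a5b.shift 0 4)] (by decide +kernel))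
noncomputable def rh1feb3425e3ebe86f : CRef := CRef.mk (Pat.mk 0x18000000080000000800000000 0xc0000000e0000001f0000007e0000001f0000000c00000004 8 7) 0 0 (step_sound _ 66 [(rh0bb882ba86b2372d.shift 0 2), rh737fea866f72dae5, rhb9e049ab1a07d346] (by decide +kernel))
noncomputable def rh5403d089d9837b82 : CRef := CRef.mk (Pat.mk 0x18000000080000000800000000000000000000000000000000 0xc0000000c0000001c0000000f0000007c0000001e0000001c0000001c00000014 8 7) 0 0 (step_sound _ 99 [(rh972861c15763573f.shift 0 3), (rhac13d16ea91712e4.shift 1 2), (rhc850b49d039efae1.shift 2 0)] (by decide +kernel))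
noncomputable def rhcf2b7fc59a7274b0 : CRef := CRef.mk (Pat.mk 0x180000000c0000000800000000 0x10000000180000001c0000000c0000001c0000001c0000000f0000003c00000014 8 6) 0 0 (step_sound _ 65 [(rh53b3c253cb0c65f4.shift 0 2), (rh780c1d7a9d7baf74.shift 1 0)] (by decide +kernel))
noncomputable def rhc83f1578097fedc8 : CRef := CRef.mk (Pat.mk 0x1000000018000000080000000800000000 0x34000000740000007f0000007f0000001b00000012 8 7) 0 0 (step_sound _ 68 [(rh5c5e593799055d58.shift 3 1), rh5dceec4340b91649] (by decide +kernel))
noncomputable def rhe02c82a31676f58e : CRef := CRef.mk (Pat.mk 0x1000000018000000080000000800000000 0x6000000770000007f0000007f0000007e00000004 8 7) 0 0 (step_sound _ 66 [(rh02e7bb29240e64f1.shift 1 1), rh2ab219e24a8ebec3, (rh69012675dfdb1a5b.shift 0 2)] (by decide +kernel))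
noncomputable def rh46e46499feef1d38 : CRef := CRef.mk (Pat.mk 0x100000001800000008000000080000000000000000 0x3000000030000000780000001f0000007f0000003000000030 8 7) 0 0 (step_sound _ 100 [(rh5c5e593799055d58.shift 3 2), rhe67cbc07c0cd0b45] (by decide +kernel))
noncomputable def rh9f8026345c21506e : CRef := CRef.mk (Pat.mk 0x100000001800000008000000080000000000000000 0x10000000100000001e000000ff000000ff0000002000000020 8 8) 0 0 (step_sound _ 100 [(rh5c5e593799055d58.shift 3 2), rhdc4499810c9d610a] (by decide +kernel))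
noncomputable def rhc65a4ce221d48a95 : CRef := CRef.mk (Pat.mk 0x1000000018000000080000000000000000 0x300000003000000078000000ff0000007c00000038 8 8) 0 0 (step_sound _ 35 [(rh71222050f2c63a3a.shift 3 0), rhacb4ee49330d58a4] (by decide +kernel))
noncomputable def rh356353bcd6652d1d : CRef := CRef.mk (Pat.mk 0x10000000180000000c000000000000000000000000 0x20000000320000001f000000ff000000370000001400000014 8 8) 0 0 (step_sound _ 97 [(rh53b3c253cb0c65f4.shift 0 3), rh7873accdc0f59dd3] (by decide +kernel))
noncomputable def rhbfce4eb8142d37fd : CRef := CRef.mk (Pat.mk 0x1000000018000000080000000800000000 0x50000000d0000000fe000000ff0000006f00000020 8 8) 0 0 (step_sound _ 68 [rh4c1a10a80534525a, (rh5c5e593799055d58.shift 3 1)] (by decide +kernel))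
noncomputable def rhb579c1f039cfe69c : CRef := CRef.mk (Pat.mk 0x60000000300000002000000000000000000000000 0x2000000060000001e0000001f0000001f0000001d0000000800000008 8 5) 0 0 (step_sound _ 163 [(rh18965a982d73c794.shift 0 4), rha76887fbddc4b9db] (by decide +kernel))
noncomputable def rh6c754b85edbe3b2b : CRef := CRef.mk (Pat.mk 0x180000000c0000000800000000 0x10000000180000001c0000000c0000001c0000001c0000001f0000007800000010 8 7) 0 0 (step_sound _ 65 [(rh53b3c253cb0c65f4.shift 0 2), (rhce4cd29d17db83b2.shift 1 0)] (by decide +kernel))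
noncomputable def rh9e40fdd1ffd772c1 : CRef := CRef.mk (Pat.mk 0x180000000c0000000800000000 0x240000007f0000007e0000007c0000001800000010 8 7) 0 0 (step_sound _ 101 [(rh18965a982d73c794.shift 2 2), rh49c7404dcb643339] (by decide +kernel))
noncomputable def rh240693694c8e4788 : CRef := CRef.mk (Pat.mk 0x180000000c0000000800000000 0x10000000180000001c0000000e0000001f0000001e0000000f0000000c00000004 8 5) 0 0 (step_sound _ 65 [(rh53b3c253cb0c65f4.shift 0 2), rh62d0fbac29e408da] (by decide +kernel))
noncomputable def rh97a1fcadaeaab608 : CRef := CRef.mk (Pat.mk 0x800000018000000080000000800000000 0x60000000f0000001e0000003f0000003f00000014 8 6) 0 0 (step_sound _ 36 [(rh55afc6a59410cf00.shift 3 0), rh85e427f8d1a50bfa] (by decide +kernel))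
noncomputable def rhbe629828effc5407 : CRef := CRef.mk (Pat.mk 0x180000000c000000080000000000000000 0x600000006000000070000001f0000007f0000003f0000003000000030 8 7) 0 0 (step_sound _ 97 [(rh53b3c253cb0c65f4.shift 0 3), rhf0185d0a2dad5c17] (by decide +kernel))
noncomputable def rh71e3d7a89b83b087 : CRef := CRef.mk (Pat.mk 0x180000000e000000000000000000000000 0x1a0000003b0000001f0000003e0000000f0000000c00000004 8 6) 0 0 (step_sound _ 66 [(rh2afe82b2819425d1.shift 0 1), rh868c42a8cb7b319e, (rhcf80391c5046a495.shift 2 0)] (by decide +kernel))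
noncomputable def rh8f550f735445b383 : CRef := CRef.mk (Pat.mk 0x380000000c000000000000000000000000 0x10000000380000007a0000003e0000007c0000001f0000003c0000001c 8 7) 0 0 (step_sound _ 66 [rh184d8b0bd6e5cc7b, (rh3fc38624435575ec.shift 2 1), (rh4821dcf828b9d7bf.shift 2 0), (rh4cdecbb466fb7d56.shift 1 1)] (by decide +kernel))
noncomputable def rhbc172ada9a302a67 : CRef := CRef.mk (Pat.mk 0x180000000c00000000000000000000000000000000 0x40000001c0000001c000000180000001c0000001f0000003c0000001c0000001c00000004 8 6) 0 0 (step_sound _ 129 [(rh53b3c253cb0c65f4.shift 0 4), (rha50a4ee5ec590ec8.shift 1 0)] (by decide +kernel))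
noncomputable def rh7b5fc4edaed11652 : CRef := CRef.mk (Pat.mk 0x180000000e000000000000000000000000 0x1a0000003b0000001f0000003e0000000f0000000c00000004 8 6) 0 0 (step_sound _ 66 [(rh2afe82b2819425d1.shift 0 1), rh868c42a8cb7b319e, (rhcf80391c5046a495.shift 2 0), (rhf9366b6a121593ef.shift 2 0)] (by decide +kernel))
noncomputable def rh3fb017cccc1c3950 : CRef := CRef.mk (Pat.mk 0x1c000000060000000000000000 0x80000000c0000003c0000001f0000003e0000003700000016 8 6) 0 0 (step_sound _ 131 [rh163fe816722403f7, rh26a664f32f8ccb01, (rh4821dcf828b9d7bf.shift 2 0), (rhadf429772c25fde0.shift 2 0)] (by decide +kernel))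
noncomputable def rh2fa2ef34c6cdbfb2 : CRef := CRef.mk (Pat.mk 0xc000000070000000000000000 0xa0000000e0000000e0000000e0000000f0000003c0000000e000000070000003e0000000c 8 6) 0 0 (step_sound _ 130 [(rh68a777751bfeafdf.shift 1 1), rh6cc3428714306da6, (rh8c41e905880bc6c1.shift 0 1), (rhdad563ccd03738ac.shift 1 1)] (by decide +kernel))
noncomputable def rhdeb635320ca36fcd : CRef := CRef.mk (Pat.mk 0x1000000018000000080000000800000000 0xe4000000ff0000001f0000007e0000007e00000034 8 8) 0 0 (step_sound _ 131 [(rh92645babed6d6d29.shift 0 1), (rhc71ed80c6d39935c.shift 1 0)] (by decide +kernel))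
noncomputable def rhbc98e4cc3bb2c148 : CRef := CRef.mk (Pat.mk 0x1000000018000000080000000000000000 0x40000001f000000380000007e0000007e0000003c 8 7) 0 0 (step_sound _ 35 [(rh71222050f2c63a3a.shift 3 0), rhf7722ae87174d7eb] (by decide +kernel))
noncomputable def rh4e79e8d95ed360f5 : CRef := CRef.mk (Pat.mk 0x180000000e00000000000000000000000000000000 0x40000001c0000001c000000380000001f0000003e000000380000001c0000001c00000014 8 6) 0 0 (step_sound _ 100 [(rh26b686789b1aea81.shift 1 1), (rh9c1b160079369c7f.shift 0 2), (rhd510939e9f1fc73b.shift 2 0)] (by decide +kernel))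
noncomputable def rh484d0f159a7bbf56 : CRef := CRef.mk (Pat.mk 0xc0000000600000000000000000000000000000000 0x20000000e0000000e0000000c0000003e0000001e0000003c0000001f0000000e00000002 8 6) 0 0 (step_sound _ 164 [(rh18965a982d73c794.shift 1 4), rhd7e640ec50127944] (by decide +kernel))
noncomputable def rh46edc1b2abc05598 : CRef := CRef.mk (Pat.mk 0x200000003000000010000000100000000000000000 0x80000002f000000ff000001fe000000fe0000006800000068 8 9) 0 0 (step_sound _ 99 [(rh03bd3de0eda75619.shift 1 2), (rh242f1dcd765435b4.shift 0 1), (rh7a71608d044bc0f3.shift 1 0), (rhd69c262cd33b94b3.shift 1 3)] (by decide +kernel))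
noncomputable def rhd69587889fcb580b : CRef := CRef.mk (Pat.mk 0x20000000200000003000000010000000000000000000000000 0x200000003e000000ff000000fe0000006e0000006800000028 8 8) 0 0 (step_sound _ 99 [(rh04f371fdcea93623.shift 0 1), (rh0bb882ba86b2372d.shift 1 3), (rh574fdbf07bdd18b9.shift 1 3), (rhf954ac957599bc3c.shift 1 0)] (by decide +kernel))
noncomputable def rh466af1d183bb470a : CRef := CRef.mk (Pat.mk 0x380000000c000000000000000000000000 0x10000000180000007a0000003e0000007c0000007f0000003c0000003c 8 7) 0 0 (step_sound _ 66 [(rh0c83b8ee2b7e3cc1.shift 1 0), rh184d8b0bd6e5cc7b, (rhadf429772c25fde0.shift 2 0)] (by decide +kernel))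
noncomputable def rh6d9043f4ff55ca05 : CRef := CRef.mk (Pat.mk 0x180000000c0000000000000000000000000000000000000000 0x140000001c0000001c000000180000000f0000007c0000001e0000001c0000001c00000010 8 7) 0 0 (step_sound _ 161 [(rh53b3c253cb0c65f4.shift 0 5), (rhbc839f7f51c01d3f.shift 1 0)] (by decide +kernel))
noncomputable def rh19cb599b90ce1883 : CRef := CRef.mk (Pat.mk 0x180000000c000000040000000000000000 0x1c0000001f000000380000007c0000007e0000007000000020 8 7) 0 0 (step_sound _ 163 [(rh5c5e593799055d58.shift 2 2), rhafefddabb1e31f29] (by decide +kernel))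
noncomputable def rhc355c9873c76a82d : CRef := CRef.mk (Pat.mk 0x80000000f00000000000000000000000000000000 0x40000001c0000001c0000001c0000000c0000000f000000180000001c0000001c00000014 8 5) 0 0 (step_sound _ 99 [(rh4f4cef4d770de26d.shift 2 0), (rhe25b0a99195a5d59.shift 0 3)] (by decide +kernel))
noncomputable def rha92fbff23deba915 : CRef := CRef.mk (Pat.mk 0x100000001e0000000000000000000000000000000000000000 0x280000003800000038000000100000001e0000003f00000038000000380000003800000028 8 6) 0 0 (step_sound _ 132 [rh4f694c363744f33f, (rhe25b0a99195a5d59.shift 1 4)] (by decide +kernel))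
noncomputable def rhc8075ff670805346 : CRef := CRef.mk (Pat.mk 0x8000000080000000c0000000400000000 0x170000001f0000007c0000007f0000000e0000000a 8 7) 0 0 (step_sound _ 100 [(rh0bb882ba86b2372d.shift 0 2), (rh574fdbf07bdd18b9.shift 0 2), rh6dbae7606a0dbc25, rhb6853d0db8918f4d] (by decide +kernel))
noncomputable def rh142b0f96d5901da7 : CRef := CRef.mk (Pat.mk 0x80000000c000000040000000400000000 0x600000016000000160000007c000001ff0000007e0000002f0000000a 8 9) 0 0 (step_sound _ 132 [(rh69012675dfdb1a5b.shift 0 3), (rhbf34592994afb4e3.shift 1 0), rhe79215ea4a5b8dfe] (by decide +kernel))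
noncomputable def rhc357d9e74c3da626 : CRef := CRef.mk (Pat.mk 0x10000000100000001c000000000000000000000000 0x12000000130000003f0000007f0000002c00000004 8 7) 0 0 (step_sound _ 68 [rh3891a187372323c2, (rhb379f99078aafa2d.shift 2 1), (rhbdde238153e38af9.shift 1 1)] (by decide +kernel))
noncomputable def rhd87897299b47a844 : CRef := CRef.mk (Pat.mk 0x380000000c00000000000000000000000000000000 0x100000001800000038000000380000007c0000007f0000003c0000001c00000014 8 7) 0 0 (step_sound _ 99 [(rh215e11e099257d75.shift 3 2), rhbfe60582104a6b25, (rhfefbd636ea9d1c61.shift 2 2), (rhffb8e5993241bf15.shift 2 0)] (by decide +kernel))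
noncomputable def rh4d1bc54d08ab24d9 : CRef := CRef.mk (Pat.mk 0x180000000e000000000000000000000000 0x8000000080000001c000000fe0000007f0000003c0000001c 8 8) 0 0 (step_sound _ 66 [rh8026147c9725cd37, (rhadf429772c25fde0.shift 2 0), (rhbc45defcffc6d51e.shift 0 1)] (by decide +kernel))
noncomputable def rhf064e65ed79612df : CRef := CRef.mk (Pat.mk 0x10000000100000001000000010 0x2f000000fe000000ff0000001000000010 8 8) 0 0 (step_sound _ 99 [(rh50fbb5868c909700.shift 3 0), rh9d7fb66cf8ba107b] (by decide +kernel))
noncomputable def rh87aacd35b4eb1be5 : CRef := CRef.mk (Pat.mk 0x8000000080000000c0000000000000000000000000000000000000000 0x170000001f0000007c0000001f0000000c0000001c0000001c0000001c00000010 8 7) 0 0 (step_sound _ 131 [(rh431719c633196326.shift 2 0), (rh538cdb49eef5a9fe.shift 2 1), (rh6311a353758d5f3a.shift 1 3), (rh84989ee61c425cd0.shift 0 3), (rhd0251d2d4cba86c7.shift 1 2), (rhda0aa4b316deaf61.shift 0 3)] (by decide +kernel))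
noncomputable def rh286e65db43c3c1e5 : CRef := CRef.mk (Pat.mk 0x1000000010000000180000000800000000 0x280000003c000000f0000000f8000000ff00000077 8 8) 0 0 (step_sound _ 36 [rh1e87bf36e9e60a85, (rh6412c58679f5f5ab.shift 2 0), (rhab3c3f3ae8c9664f.shift 2 0)] (by decide +kernel))
noncomputable def rhf814feeca4e82080 : CRef := CRef.mk (Pat.mk 0x1c00000006000000000000000000000000 0x60000001e0000003f0000001e0000003e0000003b0000001b00000003 8 6) 0 0 (step_sound _ 129 [(rh09fb2f953a1dfd6f.shift 1 1), rh205bbac36a8896ec] (by decide +kernel))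
noncomputable def rhc105c60bab72f168 : CRef := CRef.mk (Pat.mk 0x180000000e000000000000000000000000 0x8000000080000001c000000fe000000770000003c0000001c 8 8) 0 0 (step_sound _ 66 [(rh4821dcf828b9d7bf.shift 2 0), rh8026147c9725cd37, (rhbc45defcffc6d51e.shift 0 1)] (by decide +kernel))
noncomputable def rhc072126b1873a2d1 : CRef := CRef.mk (Pat.mk 0x180000000e000000000000000000000000 0x3000000030000000300000001c000000fe0000007f0000001800000018 8 8) 0 0 (step_sound _ 100 [(rh42d32bf970c9c157.shift 0 2), (rh9767a395d383a9c4.shift 1 0), (rhb447f348b8f2aaa5.shift 0 2)] (by decide +kernel))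
noncomputable def rh29f5abba2313e090 : CRef := CRef.mk (Pat.mk 0x1000000018000000080000000000000000 0xc0000000c0000000c00000018000000180000007f0000007e0000007f 8 7) 0 0 (step_sound _ 35 [(rh71222050f2c63a3a.shift 3 0), rhdebfcf9105d5e324] (by decide +kernel))
noncomputable def rh3e3903b52b4348df : CRef := CRef.mk (Pat.mk 0xc0000000600000000000000000000000000000000 0xa0000000e0000001f0000003c0000000e0000003c0000001f0000000e00000002 8 6) 0 0 (step_sound _ 164 [(rh18965a982d73c794.shift 1 4), rh27fb128d4668304a] (by decide +kernel))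
noncomputable def rhba66b5ee974253bf : CRef := CRef.mk (Pat.mk 0xc0000000700000000000000000000000000000000 0xc0000001e0000001e0000001e0000000e0000000f0000003c0000000f0000000e00000008 8 6) 0 0 (step_sound _ 99 [rh2111c3cf6b38f6c3, (rh26b686789b1aea81.shift 0 1), rh63dfa88f6e3df4a9, (rh7651f86b8442a0bf.shift 0 1), (rh8897f9bf6ab0c7e0.shift 0 1), (rhe5f121614ddc3b1d.shift 1 2)] (by decide +kernel))
noncomputable def rhcaa017727d726fd4 : CRef := CRef.mk (Pat.mk 0x8000000080000000c0000000400000000 0x6000000260000007e0000007c0000007f0000003700000012 8 7) 0 0 (step_sound _ 100 [(rh0bb882ba86b2372d.shift 0 2), rh82c32eec533ffa4c, (rhf05d36777675f166.shift 1 0)] (by decide +kernel))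
noncomputable def rh56651923c46f9b1c : CRef := CRef.mk (Pat.mk 0x180000000c000000000000000000000000 0x100000001c0000003e0000000f0000001e0000000f0000003e0000001c00000014 8 6) 0 0 (step_sound _ 97 [rh4cfa95ddc511ee9d, (rh53b3c253cb0c65f4.shift 0 3)] (by decide +kernel))
noncomputable def rh9a7f38f625d1ddff : CRef := CRef.mk (Pat.mk 0x700000001800000000000000000000000000000000 0x180000001e0000007f000000380000003e000000780000003800000010 8 7) 0 0 (step_sound _ 99 [(rh06924997dfd07e71.shift 0 1), (rh4821dcf828b9d7bf.shift 3 1), (rhadf429772c25fde0.shift 3 1), (rhb74acadce6161004.shift 1 0)] (by decide +kernel))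
noncomputable def rh32b6b48fea0525e9 : CRef := CRef.mk (Pat.mk 0x180000000c000000000000000000000000 0x60000000f0000001f0000001f000000370000001600000010 8 6) 0 0 (step_sound _ 97 [(rh53b3c253cb0c65f4.shift 0 3), rh729c905f5027b784] (by decide +kernel))
noncomputable def rhdd8460dfdfcf2a4d : CRef := CRef.mk (Pat.mk 0x300000001800000000 0x280000003c0000003c000000fe000000ff0000003800000008 8 8) 0 0 (step_sound _ 70 [(rh18965a982d73c794.shift 3 1), rh7808601201104fd5] (by decide +kernel))
noncomputable def rhdb2ca63df2dd2bf8 : CRef := CRef.mk (Pat.mk 0x300000001c000000000000000000000000 0x1c0000003e0000003f0000003c0000001f0000001a00000018 8 6) 0 0 (step_sound _ 67 [(rh5fcb4c80d0fc0a32.shift 0 1), rhaf49e24ff6984202, (rhcf80391c5046a495.shift 3 0), (rhf9366b6a121593ef.shift 3 0)] (by decide +kernel))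
noncomputable def rha8373f99d3e2bad0 : CRef := CRef.mk (Pat.mk 0x300000001c000000000000000000000000 0x8000000380000003f0000003f0000001c0000007c0000003e0000001c 8 7) 0 0 (step_sound _ 67 [rh27b3cd4f3b3d9d74, (rhef0cb1a82558754c.shift 2 1), (rhf9366b6a121593ef.shift 3 0)] (by decide +kernel))
noncomputable def rh4f819a72b2cae6f7 : CRef := CRef.mk (Pat.mk 0x180000000e000000000000000000000000 0x100000001c0000003c0000001f0000001e0000003b0000001a0000001a 8 6) 0 0 (step_sound _ 164 [rha09390dd80d959b2, (rhb5976ab7c4daa1cb.shift 0 1), (rhf9366b6a121593ef.shift 3 1)] (by decide +kernel))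
noncomputable def rh96d25d6551ccbfd7 : CRef := CRef.mk (Pat.mk 0x180000000e000000000000000000000000 0x3000000036000000370000001f0000001e0000003f0000001e00000018 8 6) 0 0 (step_sound _ 100 [rh55885bf1115ef9c4, (rh9767a395d383a9c4.shift 1 0), (rhf9971318f3fd5918.shift 0 1)] (by decide +kernel))
noncomputable def rh2acef83470825f0a : CRef := CRef.mk (Pat.mk 0xc00000006000000000000000000000000 0x40000001e0000001f0000007e0000000e0000000e0000003e0000003f00000002 8 7) 0 0 (step_sound _ 163 [(rhbce7f4da0f59b014.shift 0 2), (rhcf80391c5046a495.shift 2 1), rhdcd93c1df13b29ae, (rhf9366b6a121593ef.shift 2 1)] (by decide +kernel))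
noncomputable def rh98d3ba3d82ad04c8 : CRef := CRef.mk (Pat.mk 0x180000000c000000000000000000000000 0x40000001c0000001c0000003e0000007f0000001a0000000f0000003e0000001c00000004 8 7) 0 0 (step_sound _ 97 [rh25fb1ba137d995eb, (rh53b3c253cb0c65f4.shift 0 3)] (by decide +kernel))
noncomputable def rhca1e61e0ce0f7e0f : CRef := CRef.mk (Pat.mk 0xc00000006000000000000000000000000 0xe0000001f0000003f00000006000000060000000600000006 8 6) 0 0 (step_sound _ 132 [(rh18965a982d73c794.shift 1 3), rh1a51584417250fd3] (by decide +kernel))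
end Crest.Agent.S0047.Helper85.Cert
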