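import Crest.Agent.Lib.S0047.Helper85CertPL7F0
import Crest.Agent.Lib.S0047.Helper85CertPL7F1
import Crest.Agent.Lib.S0047.Helper85CertPL7F2
import Crest.Agent.Lib.S0047.Helper85CertPL7F3
import Crest.Agent.Lib.S0047.Helper85CertPL7F4
import Crest.Agent.Lib.S0047.Helper85CertPL7F5
import Crest.Agent.Lib.S0047.Helper85CertPL7F6
import Crest.Agent.Lib.S0047.Helper85CertPL7F7
import Crest.Agent.Lib.S0047.Helper85CertPL7F8
import Crest.Agent.Lib.S0047.Helper85CertPL7F9
import Crest.Agent.Lib.S0047.Helper85CertPL7F10
import Crest.Agent.Lib.S0047.Helper85CertPL7F11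
set_option autoImplicit false
set_option linter.all false
set_option Elab.async false
namespace Crest.Agent.S0047.Helper85.Cert
open Crest.Agent.S0047.Helper85

noncomputable def rh8d3fd859391fa0cb : CRef := CRef.mk (Pat.mk 0xc00000006000000000000000000000000 0x40000001c0000003c0000001f0000000e0000000e0000003e0000003e00000018 8 6) 0 0 (step_sound _ 163 [(rh5c8e4628759668c4.shift 1 1), (rh5dbc1278bd4ae6a3.shift 1 1), rhb76e2209363600a5, (rhcf80391c5046a495.shift 2 1)] (by decide +kernel))
noncomputable def rhf354051673f16204 : CRef := CRef.mk (Pat.mk 0x1c000000060000000000000000 0x40000001e0000001f0000007c0000001e0000000e0000003e0000003e 8 7) 0 0 (step_sound _ 131 [(rh5c8e4628759668c4.shift 1 0), (rhcf80391c5046a495.shift 2 0), (rhf83b5b142878ec5f.shift 0 1), (rhf9366b6a121593ef.shift 2 0)] (by decide +kernel))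
noncomputable def rh28fe678e5e7a8276 : CRef := CRef.mk (Pat.mk 0x700000001800000000000000000000000000000000 0x180000001e0000007f000000380000003e0000007c0000003c00000010 8 7) 0 0 (step_sound _ 99 [(rh4821dcf828b9d7bf.shift 3 1), (rh4d92821350aa61fe.shift 1 0), (rh92605c8ddba616a4.shift 0 1), (rhadf429772c25fde0.shift 3 1)] (by decide +kernel))
noncomputable def rhbe775fbcb686b3d1 : CRef := CRef.mk (Pat.mk 0x1c00000006000000000000000000000000 0x1c0000003e0000001f0000001c0000000e0000001e0000001e00000018 8 6) 0 0 (step_sound _ 163 [rh1aa2e1dd995dc71a, (rhbe253d1426d5780c.shift 0 1), (rhcf80391c5046a495.shift 2 1)] (by decide +kernel))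
noncomputable def rhdd553dd56164c1d2 : CRef := CRef.mk (Pat.mk 0x180000000c0000000800000000 0x8000000080000001e0000003f0000001f0000001c0000001c00000014 8 6) 0 0 (step_sound _ 131 [(rh03dfdf12d5937476.shift 2 0), rh7a274405f63ecd29, (rh99675969af7986fe.shift 2 0)] (by decide +kernel))
noncomputable def rhd514abc4e6852231 : CRef := CRef.mk (Pat.mk 0x380000000c0000000000000000 0x1c0000001e0000007f0000003f0000001c0000000800000008 8 7) 0 0 (step_sound _ 132 [(rh8ff6f2cfdd47b5b6.shift 0 2), (rhdc564b97248c4913.shift 1 0), (rhf9366b6a121593ef.shift 3 0)] (by decide +kernel))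
noncomputable def rh076cd4e18f7063e1 : CRef := CRef.mk (Pat.mk 0x1e00000000000000000000000000000000 0x400000006000000070000001e00000037000000070000000700000005 8 6) 0 0 (step_sound _ 100 [rhdc944936068f80b2, (rhe25b0a99195a5d59.shift 1 3)] (by decide +kernel))
noncomputable def rhcfaee032bd45abc2 : CRef := CRef.mk (Pat.mk 0x3c000000000000000000000000 0x4000000040000000e0000003f0000003f0000000800000008 8 6) 0 0 (step_sound _ 130 [rh218227814c3ae943, (rh3244c3cc8379b070.shift 1 3)] (by decide +kernel))
noncomputable def rhecfae29529c50989 : CRef := CRef.mk (Pat.mk 0x180000000c0000000000000000000000000000000000000000 0x100000001c0000001f0000007c0000000c0000000c0000000c0000001c0000001c00000010 8 7) 0 0 (step_sound _ 197 [(rh18965a982d73c794.shift 2 5), rhc7e2bcff527ed15c] (by decide +kernel))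
noncomputable def rh2a7d3258dcc64100 : CRef := CRef.mk (Pat.mk 0x40000000600000002000000020 0x100000001000000fde000007fe000007f700000020 8 12) 0 0 (step_sound _ 68 [(rh050c46a5e6da4533.shift 3 0), (rh5dec5e73a267a1c4.shift 2 1), (rhc32a57efbbba9771.shift 3 0), (rhedb6065a2c9ab664.shift 0 1)] (by decide +kernel))
noncomputable def rh8eda738686d37c4a : CRef := CRef.mk (Pat.mk 0x8000000080000000c0000000400000000 0x1000000010000000780000007f0000007f0000007600000030 8 7) 0 0 (step_sound _ 100 [(rh0bb882ba86b2372d.shift 0 2), rh263d9c2411454ebf, (rh574fdbf07bdd18b9.shift 0 2), (rhf5b4214c02755475.shift 1 0)] (by decide +kernel))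
noncomputable def rhb3ac08e3e9305a42 : CRef := CRef.mk (Pat.mk 0x4000000060000000200000002000000000 0x7fe000003fe000003f7000001e0000001c0 8 11) 0 0 (step_sound _ 100 [(rh17e953b0de9957fd.shift 0 2), (rh5dec5e73a267a1c4.shift 2 2), (rhfe5df66bea0de68c.shift 4 0)] (by decide +kernel))
noncomputable def rh009c7c6174d85a84 : CRef := CRef.mk (Pat.mk 0x40000000600000002000000020 0x100000001000000ede000007fe000007f700000020 8 12) 0 0 (step_sound _ 68 [(rh5dec5e73a267a1c4.shift 2 1), (rhc32a57efbbba9771.shift 3 0), (rhc34de81bb251fe46.shift 2 0), (rhedb6065a2c9ab664.shift 0 1)] (by decide +kernel))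
noncomputable def rh49ee9a1f2e214ee2 : CRef := CRef.mk (Pat.mk 0x1000000018000000080000000800000000 0x400000004000001d7000000fe000001fc000001fc00000020 8 9) 0 0 (step_sound _ 101 [(rh4790082c12feb919.shift 2 0), rhb0c5cdb72c58be3a, (rhdc1641106d7e5aa2.shift 2 2), (rhfa35e196e150edb4.shift 2 2)] (by decide +kernel))
noncomputable def rh9a3af0f1a28f6a4b : CRef := CRef.mk (Pat.mk 0x1000000010000000180000000800000000 0xc0000004c000000fe000000ff000001fe0000002c00000020 8 9) 0 0 (step_sound _ 101 [(rh574fdbf07bdd18b9.shift 1 2), (rh5c8d122437efeb6b.shift 2 2), (rh8ecf8a5e2cf4fa3a.shift 1 1), rhf15c21b308596762] (by decide +kernel))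
noncomputable def rh1723d13aa03e4e1b : CRef := CRef.mk (Pat.mk 0x8000000080000000c0000000400000000 0x6000000260000007e0000007c000000ff0000003600000012 8 8) 0 0 (step_sound _ 100 [rh1fe30948da2950de, (rh574fdbf07bdd18b9.shift 0 2), (rh5c8d122437efeb6b.shift 1 2), (rhf05d36777675f166.shift 1 0)] (by decide +kernel))
noncomputable def rhba3aa037b09fb017 : CRef := CRef.mk (Pat.mk 0x80000000c000000040000000400000000 0x600000016000000160000007c000001ff0000007e0000002f0000000a 8 9) 0 0 (step_sound _ 132 [(rh0bb882ba86b2372d.shift 0 3), (rh69012675dfdb1a5b.shift 0 3), (rhbf34592994afb4e3.shift 1 0), rhfada83d5c5cf0c0f] (by decide +kernel))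
noncomputable def rh0499c7cf533a1cdb : CRef := CRef.mk (Pat.mk 0x80000000c0000000400000004 0x1200000012000003fb000001ff000003ee00000024 8 10) 0 0 (step_sound _ 68 [rh52a458206ca27667, (rh565207d3f61c5c7e.shift 1 0), (rh811d38b9ed0ae7ba.shift 1 1), (rhfa35e196e150edb4.shift 1 1)] (by decide +kernel))
noncomputable def rh39103d2fc0f56627 : CRef := CRef.mk (Pat.mk 0x80000000c00000004000000000000000000000000 0x1e0000003f0000007f0000001f0000000c000000080000000800000008 8 7) 0 0 (step_sound _ 195 [(rh5c5e593799055d58.shift 2 3), rhb661e3de87537d2a] (by decide +kernel))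
noncomputable def rhb0f9d19a8b945cb7 : CRef := CRef.mk (Pat.mk 0x1000000018000000080000000800000000 0x1e0000003f0000001f0000000c0000000c00000004 8 6) 0 0 (step_sound _ 131 [(rh2f68792b6b779e96.shift 3 1), rhababf7a8dad35a78] (by decide +kernel))
noncomputable def rhb7f80460900bbacf : CRef := CRef.mk (Pat.mk 0x1000000018000000080000000800000000 0x2e0000007f0000001f0000007c000000fe00000034 8 8) 0 0 (step_sound _ 131 [(rh60f7890073fd1121.shift 1 0), (rh637e5e0bb409ac0c.shift 1 0), rhababf7a8dad35a78] (by decide +kernel))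
noncomputable def rhf56fe83f34135f1c : CRef := CRef.mk (Pat.mk 0x8000000080000000c00000004000000000000000000000000 0x170000001f0000003c0000000f0000007c000000180000000800000008 8 7) 0 0 (step_sound _ 99 [(rh3502d92c6cce609b.shift 2 0), (rh8b7ecd037563e0e4.shift 0 2), (rhfe557af9112f51d6.shift 0 2)] (by decide +kernel))
noncomputable def rh58c777596eaeba5c : CRef := CRef.mk (Pat.mk 0x2000000030000000100000000 0x60000000600000006000000070000001f0000001f 8 5) 0 0 (step_sound _ 129 [rh36663dcce525584e, (rh5c5e593799055d58.shift 0 1)] (by decide +kernel))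
noncomputable def rh6a3e9576b8a87321 : CRef := CRef.mk (Pat.mk 0x2000000030000000100000000000000000 0x280000007c000001ef0000007c000000d80000005000000010 8 9) 0 0 (step_sound _ 165 [(rh5c5e593799055d58.shift 4 2), rhb0a6695beb535281] (by decide +kernel))
noncomputable def rh57c84a5e843c3279 : CRef := CRef.mk (Pat.mk 0x80000000c0000000400000000 0x1800000018000000780000001f0000007c00000078 8 7) 0 0 (step_sound _ 131 [(rh5c5e593799055d58.shift 2 1), rhc1204605e35aeb60] (by decide +kernel))
noncomputable def rha284c5e983b245b0 : CRef := CRef.mk (Pat.mk 0x2000000030000000100000001000000000 0x800000008000001ef000003fe000001f8000000f0000000e0 8 10) 0 0 (step_sound _ 99 [(rh5dec5e73a267a1c4.shift 1 2), (rh8e0d5f4b12a2db16.shift 3 0), (rhb98e183a12ed98e4.shift 0 1)] (by decide +kernel))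
noncomputable def rhe5624cc9140f5917 : CRef := CRef.mk (Pat.mk 0x1e0000000400000000 0x1a0000001f0000003f0000001e0000003c00000018 8 6) 0 0 (step_sound _ 36 [rhcfad7210291b5ed4, (rhe25b0a99195a5d59.shift 1 1)] (by decide +kernel))
noncomputable def rhc3af7f539cc22fd4 : CRef := CRef.mk (Pat.mk 0x2000000020000000000000001000000010 0x20000000ff000000fe000001df0000005800000050 8 9) 0 0 (step_sound _ 100 [(rh04253f50b6dd0619.shift 4 0), rh981488835dfe2479] (by decide +kernel))
noncomputable def rh5be96e6a61002af0 : CRef := CRef.mk (Pat.mk 0x200000000000000030000000100000000000000000 0x280000007c000001ef0000007c000000d80000005000000010 8 9) 0 0 (step_sound _ 133 [(rh5c5e593799055d58.shift 4 2), rhb0a6695beb535281] (by decide +kernel))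
noncomputable def rhefa476339080fdff : CRef := CRef.mk (Pat.mk 0x80000000800000008000000000000000000000000 0xc0000000c0000000c0000003c0000001f0000001e00000010 8 6) 0 0 (step_sound _ 67 [(rh4ca25bbca2ab56c0.shift 0 1), (rh8ff3dde5b1c639e0.shift 2 0), (rhed79e5c5ffee0217.shift 2 1)] (by decide +kernel))
noncomputable def rh7199b08f8e774313 : CRef := CRef.mk (Pat.mk 0x80000001800000008000000000000000000000000 0x40000000f0000007c000000080000001c0000001c00000014 8 7) 0 0 (step_sound _ 162 [rhd02a63d4d43b4833, (rhd1779d7de7f8215b.shift 2 0), (rhdeca8db941583de2.shift 0 4)] (by decide +kernel))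
noncomputable def rh7c0bd48ebf0a5583 : CRef := CRef.mk (Pat.mk 0x180000000c000000000000000000000000 0x40000000e0000000f0000003e0000000f0000000e0000000c00000004 8 6) 0 0 (step_sound _ 97 [(rh53b3c253cb0c65f4.shift 0 3), rh9a785ee2444920e5] (by decide +kernel))
noncomputable def rh32957b15cc9c4047 : CRef := CRef.mk (Pat.mk 0x380000000c000000000000000000000000 0x4000000040000001e0000001f0000003a0000000f0000000e0000000c00000004 8 6) 0 0 (step_sound _ 97 [(rh53b3c253cb0c65f4.shift 0 3), rha5827dd461b72752] (by decide +kernel))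
noncomputable def rh625ad03eee6c8947 : CRef := CRef.mk (Pat.mk 0x100000001e0000000000000000 0x10000000100000001f000000fe000000ec00000008 8 8) 0 0 (step_sound _ 97 [(rh3244c3cc8379b070.shift 0 2), (rhab58dd18494729bc.shift 1 0)] (by decide +kernel))
noncomputable def rh02cfdba40da83e95 : CRef := CRef.mk (Pat.mk 0x100000001e00000000 0x1df000000fe000000e3 8 9) 0 0 (step_sound _ 65 [(rh3244c3cc8379b070.shift 0 1), rh5ae730d2a43a13b8] (by decide +kernel))
noncomputable def rh1df7b7afcc46ac45 : CRef := CRef.mk (Pat.mk 0x7000000018000000000000000000000000 0x3800000038000000ff0000007f000000d80000005f0000007c0000003c 8 8) 0 0 (step_sound _ 67 [rh289d8defc2228fdf, (rhadf429772c25fde0.shift 3 0), (rhe74030ed4f6317a8.shift 0 2)] (by decide +kernel))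
noncomputable def rh9f54117135443173 : CRef := CRef.mk (Pat.mk 0x800000070000000000000000000000000 0x180000001c000000780000003c0000001f0000001c 8 7) 0 0 (step_sound _ 99 [(rh3244c3cc8379b070.shift 2 3), rh84831ace8c53143c] (by decide +kernel))
noncomputable def rh6e42b28c092e4f24 : CRef := CRef.mk (Pat.mk 0x300000001c000000000000000000000000 0x80000001c0000007f0000003f0000001c0000007c0000002c0000000c 8 7) 0 0 (step_sound _ 67 [rh9fcce764bcee68fd, (rhcf80391c5046a495.shift 3 0), (rhe5dc6eee5ec141e7.shift 1 1), (rhf9366b6a121593ef.shift 3 0)] (by decide +kernel))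
noncomputable def rh263755ef6978fdb9 : CRef := CRef.mk (Pat.mk 0x80000001e00000000 0xe0000000f0000003b0000003e00000007 8 6) 0 0 (step_sound _ 68 [rh1f0676df8d5b5c3f, (rh33e738c4ed385b9f.shift 1 1)] (by decide +kernel))
noncomputable def rh97cd383987b9c3d0 : CRef := CRef.mk (Pat.mk 0x100000001c0000000000000000 0x220000002a0000007f0000007f000001fc000001de00000014 8 9) 0 0 (step_sound _ 98 [(rh06731a36cb45307a.shift 1 1), (rh4f4fb62dc7999fe7.shift 1 0), (rh51182d92c4df7d7f.shift 1 0), (rhb8c02536ea4cf983.shift 1 1), rhba2270f1412c94c5] (by decide +kernel))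
noncomputable def rhc617d2f6bfe1af0c : CRef := CRef.mk (Pat.mk 0x180000000e000000000000000000000000 0x3000000030000000300000001f000000fe000000ff0000003800000018 8 8) 0 0 (step_sound _ 100 [(rh883451bd3feec117.shift 0 2), (rh9767a395d383a9c4.shift 1 0), (rhd2705a941542c9fb.shift 0 1), rhf7ae7d43a9e2b9a7] (by decide +kernel))
noncomputable def rh89e70b660b9ac1d4 : CRef := CRef.mk (Pat.mk 0x80000000e000000000000000000000000 0x140000001c0000001c0000003c0000001f0000007c0000000e0000007e0000001800000010 8 7) 0 0 (step_sound _ 163 [(rh32431e66bbf434a4.shift 2 2), rh6070afbf4b80e444, (rh9fbbefae64a70ac4.shift 1 1), (rha6dfe1edc6ae80dd.shift 2 2)] (by decide +kernel))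
noncomputable def rh033b264c25b2cbc3 : CRef := CRef.mk (Pat.mk 0x180000000c000000000000000000000000 0x4000000040000000e0000001f0000007a0000000f0000003e0000001400000004 8 7) 0 0 (step_sound _ 97 [(rh53b3c253cb0c65f4.shift 0 3), rhf74b63096cf66d38] (by decide +kernel))
noncomputable def rh1394b770098d4562 : CRef := CRef.mk (Pat.mk 0x380000000c000000000000000000000000 0x160000001e0000007f0000003e0000006c0000002e0000000600000006 8 7) 0 0 (step_sound _ 66 [(rh262a1650215240c2.shift 1 0), (rh63e60926778a69c5.shift 0 2), (rhadf429772c25fde0.shift 2 0)] (by decide +kernel))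
noncomputable def rh88353a7d3b27a512 : CRef := CRef.mk (Pat.mk 0x180000000e000000000000000000000000 0xe0000000f0000001f0000003e0000003c0000001f0000000e 8 6) 0 0 (step_sound _ 66 [rh2d4b1c56b67e8f65, (rhc4542b26a6e488b6.shift 0 1), (rhcf80391c5046a495.shift 2 0), (rhf9366b6a121593ef.shift 2 0)] (by decide +kernel))
noncomputable def rhb819a126e38e445a : CRef := CRef.mk (Pat.mk 0x18000000080000000000000000 0x2c0000006e0000007f0000007f0000003b0000001a 8 7) 0 0 (step_sound _ 66 [(rh574fdbf07bdd18b9.shift 0 2), rh74b9253b4ff61667, (rhb5fe5d40bf7848ef.shift 1 0), (rhcde230e1fccc7ea0.shift 1 0)] (by decide +kernel))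
noncomputable def rhcbf7764be34a9327 : CRef := CRef.mk (Pat.mk 0x180000000e000000000000000000000000 0x40000000e0000000f0000001f0000003e0000000f0000000e0000000c 8 6) 0 0 (step_sound _ 66 [rh6a1ef8befa46c823, (rh74dc28fcd7e9fa01.shift 0 2), (rhcf80391c5046a495.shift 2 0), (rhf9366b6a121593ef.shift 2 0)] (by decide +kernel))
noncomputable def rh38774a83d7c573ef : CRef := CRef.mk (Pat.mk 0x180000000c0000000000000000 0xe0000000f0000001f0000001f0000003700000016 8 6) 0 0 (step_sound _ 65 [rh16fcad349995110b, (rh53b3c253cb0c65f4.shift 0 2)] (by decide +kernel))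
noncomputable def rh2e128c2b742fc3db : CRef := CRef.mk (Pat.mk 0x180000000c000000000000000000000000 0x1c0000003c0000000f0000007c0000001c0000001c0000001c00000014 8 7) 0 0 (step_sound _ 133 [(rh18965a982d73c794.shift 2 3), rhb2192f056e0a8d38] (by decide +kernel))
noncomputable def rha43dac9d051bb5b2 : CRef := CRef.mk (Pat.mk 0xf000000020 0x18e000000fe000001bf 8 9) 0 0 (step_sound _ 71 [(rh33e738c4ed385b9f.shift 4 1), rhb017a1319ebe3638] (by decide +kernel))
noncomputable def rhe41039e2fa909519 : CRef := CRef.mk (Pat.mk 0xe00000002000000000000000000000000 0x800000018000000380000003f0000007e000000380000003800000038 8 7) 0 0 (step_sound _ 100 [(rh0deb2ebc850de581.shift 0 2), rh52a1e0eecf416a88, (rh6aa0ed61cce1493b.shift 0 3), (rh782848cf5e4b1e5e.shift 0 3), (rhce28eb4a67c2b027.shift 1 0)] (by decide +kernel))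
noncomputable def rh76e509ccf2862035 : CRef := CRef.mk (Pat.mk 0x380000000c0000000000000000 0x3c0000007e0000006f0000003e0000007c0000001400000010 8 7) 0 0 (step_sound _ 163 [(rh4f215fb523298946.shift 0 1), (rh8bf2ac2ff18eb843.shift 1 1), (rhbb5a9587afe30530.shift 2 1), (rhf2f5353cefd64781.shift 1 0)] (by decide +kernel))
noncomputable def rh31c10953d624db26 : CRef := CRef.mk (Pat.mk 0x8000000180000001800000000 0x800000008000000080000001f000000ff000000e4 8 8) 0 0 (step_sound _ 131 [(rh2145e1d24b96a57e.shift 3 1), rh81ff32de2979b8ba] (by decide +kernel))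
noncomputable def rh53d224c9232e3f79 : CRef := CRef.mk (Pat.mk 0x200000006000000020000000000000000 0x700000007000000070000000300000007000000070000000600000006 8 3) 0 0 (step_sound _ 34 [(rh1148744b53f3df58.shift 0 1), (rh390a8df03c6c5a62.shift 1 0), (rh478c4cadbcd4e066.shift 1 0), rh791e01b195b9b9a1] (by decide +kernel))
noncomputable def rhef7d8eff51595e36 : CRef := CRef.mk (Pat.mk 0x80000001800000008000000000000000000000000 0x100000001c0000003e0000000f0000001e0000000f0000003e0000001c00000014 8 6) 0 0 (step_sound _ 98 [(rh281c6819542c66e6.shift 2 0), rh5acc0158961c530b, (rh7a7e08304268422e.shift 2 2), (rhc227dad1d7b840f5.shift 0 2)] (by decide +kernel))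
noncomputable def rh6a5858a30017413a : CRef := CRef.mk (Pat.mk 0x800000018000000080000000800000000 0x60000000f0000001c0000000f0000003c0000001c 8 6) 0 0 (step_sound _ 36 [(rh55afc6a59410cf00.shift 3 0), rh7c73cc281167db77] (by decide +kernel))
noncomputable def rhe1116e23db2992f3 : CRef := CRef.mk (Pat.mk 0x60000000200000002000000000 0x1000000010000003be000001fe000003bf0000002000000020 8 10) 0 0 (step_sound _ 100 [(rh6af61d7b93e44692.shift 0 2), (rhb1a251d9bff81766.shift 4 0)] (by decide +kernel))
noncomputable def rhe3533b853c774e11 : CRef := CRef.mk (Pat.mk 0x180000000800000008000000000000000000000000 0x100000001800000018000000080000007c0000000f0000007c0000001c0000001c00000014 8 7) 0 0 (step_sound _ 130 [(rh2a7f40578c75b1a1.shift 2 0), rhbd8dff2a50231c67, (rhd69c262cd33b94b3.shift 0 4)] (by decide +kernel))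
noncomputable def rh1f8272c5fda13dae : CRef := CRef.mk (Pat.mk 0x800000008000000080000000800000000 0x40000000c00000008000000ff0000007e000000f4 8 8) 0 0 (step_sound _ 130 [(rh50fbb5868c909700.shift 2 1), rhffcf600128b6f467] (by decide +kernel))
noncomputable def rh951db718d42a9c90 : CRef := CRef.mk (Pat.mk 0x800000008000000080000001000000000 0x40000000c00000008000000ff0000007e000000f4 8 8) 0 0 (step_sound _ 35 [rh091910a179d89c94, (rh55afc6a59410cf00.shift 3 0)] (by decide +kernel))
noncomputable def rh8b1454c4601f5f73 : CRef := CRef.mk (Pat.mk 0x300000001c000000000000000000000000 0x80000001c0000001f0000003f0000001c0000007c0000003e0000001c 8 7) 0 0 (step_sound _ 67 [rh27b3cd4f3b3d9d74, (rhc4542b26a6e488b6.shift 1 1), (rhcf80391c5046a495.shift 3 0), (rhf9366b6a121593ef.shift 3 0)] (by decide +kernel))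
noncomputable def rhc579c9c70ccb5e33 : CRef := CRef.mk (Pat.mk 0x100000001800000008000000080000000000000000 0x4000000160000007f000000ff0000007f0000003400000034 8 8) 0 0 (step_sound _ 98 [(rh564214abbb813e6c.shift 1 1), (rh69012675dfdb1a5b.shift 0 3), rh7a71608d044bc0f3, (rhd69c262cd33b94b3.shift 0 3)] (by decide +kernel))
noncomputable def rh6102227559b23512 : CRef := CRef.mk (Pat.mk 0x200000002000000030000000200000000000000000000000000000000 0x50000000700000002000000030000000300000007000000070000000700000001 8 3) 0 0 (step_sound _ 226 [rh230ebab324f46e43, (rh2f68792b6b779e96.shift 1 4)] (by decide +kernel))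
noncomputable def rh2fc971bc337245d8 : CRef := CRef.mk (Pat.mk 0x8000000100000001000000010 0x2f000000fe000000ff0000001000000010 8 8) 0 0 (step_sound _ 100 [(rh50fbb5868c909700.shift 3 0), rh9d7fb66cf8ba107b] (by decide +kernel))
noncomputable def rh9de7bee2dc247ef2 : CRef := CRef.mk (Pat.mk 0x80000000c000000000000000000000000 0x140000001c0000001c0000003c0000000f0000001f0000007c0000001800000010 8 7) 0 0 (step_sound _ 163 [(rh25664aeb9b03f551.shift 2 1), rh6c3bef0e0bea66d7, (rh976a48eb1c80a12f.shift 2 2), rhd6238cbaedc3e05a] (by decide +kernel))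
noncomputable def rh309e40d1bf39079f : CRef := CRef.mk (Pat.mk 0x400000007000000020 0x40000000400000007c000001fe000003b7 8 10) 0 0 (step_sound _ 102 [rh2e24f778bc2a4c98, (rh5c5e593799055d58.shift 5 0)] (by decide +kernel))
noncomputable def rh88f2b27cebd43441 : CRef := CRef.mk (Pat.mk 0x2000000038000000000000000000000000 0x4000000140000001e0000003f000001fe000001cf0000000800000008 8 9) 0 0 (step_sound _ 130 [(rh1713b2a8615f2751.shift 0 2), (rh2ed1606403c39bab.shift 1 2), (rh4df35fbc131eb4ae.shift 0 3), (rh64708bc94a0eca1e.shift 1 1), (rh8bb330ee5aea9f6b.shift 1 0)] (by decide +kernel))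
noncomputable def rh1b8e8101a4663efb : CRef := CRef.mk (Pat.mk 0x2000000070000000400000000000000000 0x3b7000001fe0000007c0000004000000040 8 10) 0 0 (step_sound _ 38 [(rh7b1f1fb55310c477.shift 5 0), (rh8800904fef69e412.shift 0 2)] (by decide +kernel))
noncomputable def rh2854df0c701c4e5a : CRef := CRef.mk (Pat.mk 0x40000000e000000020000000000000000 0x10000000740000003f0000007e0000000b0000000a 8 7) 0 0 (step_sound _ 33 [(rh71222050f2c63a3a.shift 1 0), rhf24e227cd01c04e6] (by decide +kernel))
noncomputable def rh58742d3a678a5da7 : CRef := CRef.mk (Pat.mk 0x80000001e000000000000000000000000 0x20000000b0000001f0000003f0000003400000014 8 6) 0 0 (step_sound _ 129 [(rh3244c3cc8379b070.shift 0 3), rh523319eb38fda7c7] (by decide +kernel))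
noncomputable def rh0c79f83acfcd8649 : CRef := CRef.mk (Pat.mk 0x40000001e000000000000000000000000 0x2000000070000001f0000003f0000000700000006 8 6) 0 0 (step_sound _ 129 [(rh3244c3cc8379b070.shift 0 3), rh8fee0b64e7d89f0e] (by decide +kernel))
noncomputable def rh7cf8029eceed031a : CRef := CRef.mk (Pat.mk 0x2000000038000000000000000000000000 0x28000000280000002f000001fe000000f80000005000000010 8 9) 0 0 (step_sound _ 68 [rh5425f6111a084d6f, (rh8bfc7a3ca5efef74.shift 1 1), (rhcf80391c5046a495.shift 4 0)] (by decide +kernel))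
noncomputable def rh2a4c55ff30945d00 : CRef := CRef.mk (Pat.mk 0x2000000038000000000000000000000000 0x280000007c0000002f000000fc0000003e0000001800000018 8 8) 0 0 (step_sound _ 68 [rh0160366176288439, rh5425f6111a084d6f, (rhcf80391c5046a495.shift 4 0)] (by decide +kernel))
noncomputable def rhda4be10066af10dd : CRef := CRef.mk (Pat.mk 0x100000001c000000000000000000000000 0x1000000014000000170000007e000000ff0000002800000008 8 8) 0 0 (step_sound _ 69 [(rh549ad317562faf6e.shift 1 1), (rh71efda916732b25a.shift 1 2), (rh94ab70594a1b78ae.shift 1 0), (rhebaa3168f6f6fdb4.shift 1 1), (rhfc49ace0fb47c1b9.shift 0 2)] (by decide +kernel))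
noncomputable def rh5f8078d122d19dab : CRef := CRef.mk (Pat.mk 0x80000000c0000001800000000000000000000000000000000 0x40000000c0000001f0000001b0000001f0000001e0000001c00000010 8 5) 0 0 (step_sound _ 161 [rhb18d48d99168c8c7, (rhb739f4f82bb681b4.shift 0 4)] (by decide +kernel))
noncomputable def rh6aad68a8ac05b310 : CRef := CRef.mk (Pat.mk 0x20000000300000002000000000000000000000000 0x1000000070000000700000007000000030000000300000002000000070000000700000005 8 3) 0 0 (step_sound _ 65 [(rh339ade4f3735795f.shift 0 1), rh6eff4158bb400f47, (rhe286c75f2739cce2.shift 0 1)] (by decide +kernel))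
noncomputable def rh9a6e518fda4c151d : CRef := CRef.mk (Pat.mk 0x8000000080000000c0000000400000000 0x160000001f0000007f0000001f0000000c00000008 8 7) 0 0 (step_sound _ 100 [(rh574fdbf07bdd18b9.shift 0 2), (rh5d9f0e491a8919cf.shift 1 0), rhb7bdfe1aec99acc3] (by decide +kernel))
noncomputable def rhc81cbee1763309ac : CRef := CRef.mk (Pat.mk 0x1000000010000000180000000800000000 0xc0000004c000000fe000000ff000000fe0000006800000020 8 8) 0 0 (step_sound _ 101 [(rh0bb882ba86b2372d.shift 1 2), (rh314d353bdb5373f1.shift 1 0), (rh574fdbf07bdd18b9.shift 1 2), rhf15c21b308596762] (by decide +kernel))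
noncomputable def rh451881a82fcc8489 : CRef := CRef.mk (Pat.mk 0x80000000c0000000400000004 0x1400000016000000760000007f000000ff0000007c00000004 8 8) 0 0 (step_sound _ 100 [(rh69012675dfdb1a5b.shift 0 2), (rh6f94fdc9b347643a.shift 1 1), rh89360365b525388b] (by decide +kernel))
noncomputable def rhfc7504c63764a183 : CRef := CRef.mk (Pat.mk 0x200000006000000020000000200000000 0x40000000700000007000000070000000600000006000000020000000700000005 8 3) 0 0 (step_sound _ 34 [rh1842828aefc4a7a0, (rh55afc6a59410cf00.shift 1 0)] (by decide +kernel))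
noncomputable def rh183dfa140b225452 : CRef := CRef.mk (Pat.mk 0x6000000020000000200000002000000000000000000000000 0x1000000030000001f000000060000000200000002000000070000000700000005 8 5) 0 0 (step_sound _ 65 [rh4a625f0523c2a0b0, (rhbaefcd01e0a8bca3.shift 1 2)] (by decide +kernel))
noncomputable def rh8cd718e893fc59d5 : CRef := CRef.mk (Pat.mk 0x1c00000018000000000000000000000000 0x1800000018000000380000001f00000018000000300000003000000030 8 6) 0 0 (step_sound _ 129 [(rh20aa4f45d68bc15e.shift 1 0), (rhb739f4f82bb681b4.shift 0 3)] (by decide +kernel))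
noncomputable def rh6e2d99e18d1e2ff1 : CRef := CRef.mk (Pat.mk 0x1e0000000400000000 0xa0000000b0000003f0000003e0000003400000010 8 6) 0 0 (step_sound _ 36 [rhaa2ec5ac59f73012, (rhe25b0a99195a5d59.shift 1 1)] (by decide +kernel))
noncomputable def rhc92ac8aee84656ab : CRef := CRef.mk (Pat.mk 0x2000000030000000100000001000000000 0x8000000d8000003ff000003fe000001f60000003c00000028 8 10) 0 0 (step_sound _ 131 [(rh4b02dbabdc5e471a.shift 1 0), (rh756042516b75a148.shift 1 1), (rh84d32dc7b6595cb0.shift 0 1), (rh8881f09ea3cdc41b.shift 2 2), (rhbd5d669524b54f35.shift 2 0), (rhf8e4a327f3068606.shift 2 1)] (by decide +kernel))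
noncomputable def rh1882c83ce575dd84 : CRef := CRef.mk (Pat.mk 0x80000000c000000000000000000000000 0x240000006e0000007f000000ff000000fb0000001a00000010 8 8) 0 0 (step_sound _ 132 [(rh69012675dfdb1a5b.shift 0 3), rha0b2e9effb01e9d5, (rhb5fe5d40bf7848ef.shift 1 1), (rhcde230e1fccc7ea0.shift 1 1)] (by decide +kernel))
noncomputable def rh29629de3cf8230ec : CRef := CRef.mk (Pat.mk 0x80000001e00000000 0x1fb000000fe000000e3 8 9) 0 0 (step_sound _ 65 [(rh3244c3cc8379b070.shift 0 1), rhbde7df1047197f39] (by decide +kernel))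
noncomputable def rhb2c3a1862d9276a4 : CRef := CRef.mk (Pat.mk 0x2000000038000000000000000000000000 0x40000001c0000001e0000003f0000007e0000000f0000000c00000008 8 7) 0 0 (step_sound _ 130 [(rh1713b2a8615f2751.shift 0 2), (rh4df35fbc131eb4ae.shift 0 3), (rh64708bc94a0eca1e.shift 1 1), (rh8207c390894fcc55.shift 1 1), (rh8bb330ee5aea9f6b.shift 1 0)] (by decide +kernel))
noncomputable def rh294539d72efcc4ea : CRef := CRef.mk (Pat.mk 0x180000000e000000000000000000000000 0x4000000140000001f0000003e0000007b0000003f0000001e 8 7) 0 0 (step_sound _ 35 [rh530b5bde70a0012b, (rh5a7dce561d0bf78d.shift 2 0), (rha7085a59ed136d43.shift 1 0), rha9e25d71122884ad] (by decide +kernel))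
noncomputable def rh35c891fdde68685c : CRef := CRef.mk (Pat.mk 0x180000000c0000000000000000 0x6000000360000007f0000007e0000007c0000007000000030 8 7) 0 0 (step_sound _ 101 [(rh18965a982d73c794.shift 2 2), rh9bb1d17be7e49ea7] (by decide +kernel))
noncomputable def rh6912df321cd2b57a : CRef := CRef.mk (Pat.mk 0x8000000180000000c000000000000000000000000 0x10000000180000001c0000000c0000001c0000001c0000000f000000180000001800000010 8 5) 0 0 (step_sound _ 97 [(rh53b3c253cb0c65f4.shift 0 3), (rhf8c6fc73fe1cb157.shift 2 0)] (by decide +kernel))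
noncomputable def rh0d0c5fe888da5ad6 : CRef := CRef.mk (Pat.mk 0x8000000080000000c0000000800000000 0x140000007e0000007e0000000f0000001800000010 8 7) 0 0 (step_sound _ 130 [(rh50fbb5868c909700.shift 2 1), rh73f0dc8443306bfe] (by decide +kernel))
noncomputable def rhdeda6dfdbc7fee2e : CRef := CRef.mk (Pat.mk 0x1800000018000000100000000000000000 0x27000000ff000000f8000000100000001000000010 8 8) 0 0 (step_sound _ 36 [(rh7b1f1fb55310c477.shift 3 0), (rhcb705c5d12ba6a2c.shift 0 1)] (by decide +kernel))
noncomputable def rh63cfbb6101e13e7c : CRef := CRef.mk (Pat.mk 0x400000006000000040000000400000000 0x3a0000003f0000003e0000000c0000000c00000008 8 6) 0 0 (step_sound _ 129 [(rh50fbb5868c909700.shift 1 1), rh7f927f72daf5c8ef] (by decide +kernel))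
noncomputable def rh87262a1499897bd6 : CRef := CRef.mk (Pat.mk 0x40000000600000004000000000000000000000000 0xa0000000e0000001f0000003c0000000e0000003c0000001f0000000e00000002 8 6) 0 0 (step_sound _ 163 [(rh74e8df641e7ac07a.shift 0 2), rha2668786ee0acef3, (rhb730ba14aa32bdb3.shift 2 2), (rheb5cf6be9daf210b.shift 0 1)] (by decide +kernel))
noncomputable def rh14555ad4858fce7e : CRef := CRef.mk (Pat.mk 0x400000004000000060000000400000000 0xe0000000f0000003c0000000e0000003c00000018 8 6) 0 0 (step_sound _ 129 [(rh50fbb5868c909700.shift 1 1), rhd84cc7a71b1748de] (by decide +kernel))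
noncomputable def rh77f6ed57757d68ca : CRef := CRef.mk (Pat.mk 0x100000001000000018000000000000000000000000 0x380000003c000000f0000000770000003e000000770000002000000020 8 8) 0 0 (step_sound _ 101 [(rh01c9931602028a53.shift 1 2), (rh70e33bfdf511e144.shift 4 0), (rhf6e466063c388db3.shift 0 1)] (by decide +kernel))
noncomputable def rhae7d7522edfd7f18 : CRef := CRef.mk (Pat.mk 0x8000000080000001c00000000 0x38000000780000001e000000780000001f00000008 8 7) 0 0 (step_sound _ 68 [(rh98fd766e6d21c0f7.shift 1 0), rh9a0b4b347940219c, (rhab2ad169e49f9c5e.shift 0 1)] (by decide +kernel))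
noncomputable def rh2ec19195c4a3998f : CRef := CRef.mk (Pat.mk 0x8000000080000001c00000000 0x1c0000003c0000000f000000780000001f00000008 8 7) 0 0 (step_sound _ 68 [rh9d304f64a005a19c, rhe7adda6d0caa3ed5, (rhf9d36e158778ce35.shift 1 1)] (by decide +kernel))
noncomputable def rh9eeceed967210fa2 : CRef := CRef.mk (Pat.mk 0x100000001000000018000000000000000000000000 0x18000000180000003e000000f70000003e000000770000003000000030 8 8) 0 0 (step_sound _ 101 [(rh6e552f69a283c24f.shift 1 0), (rh70e33bfdf511e144.shift 4 0), (rhf6e466063c388db3.shift 0 1)] (by decide +kernel))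
noncomputable def rh989244dd23f3732c : CRef := CRef.mk (Pat.mk 0x8000000180000000c000000000000000000000000 0x400000004000000060000001f0000007a0000000f0000001a0000001800000010 8 7) 0 0 (step_sound _ 133 [(rh18965a982d73c794.shift 2 3), rhf2118f267177b447] (by decide +kernel))
noncomputable def rh8e24859a7037eb94 : CRef := CRef.mk (Pat.mk 0x1000000010000000100000001000000000 0x2f0000007e000000ff000000100000003000000020 8 8) 0 0 (step_sound _ 37 [(rh55afc6a59410cf00.shift 4 0), (rh80ed50b69e2cea8d.shift 0 1)] (by decide +kernel))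
noncomputable def rh8f79ec8fcacf9ee5 : CRef := CRef.mk (Pat.mk 0x8000000080000000c0000000000000000 0x100000001c0000003c0000001f000000380000001f0000007800000010 8 7) 0 0 (step_sound _ 164 [(rh08d50fe567eb1045.shift 3 1), (rh62ccca6c7c761343.shift 0 1), rh81b46e6a5d21c8ca, (rh87d5e4118780fa3b.shift 3 1), (rh90c0c0d62ad3fbf1.shift 0 1)] (by decide +kernel))
noncomputable def rh33a80a760172f154 : CRef := CRef.mk (Pat.mk 0x80000000c000000080000000800000000 0x40000000c0000001f0000007b0000001f00000016 8 7) 0 0 (step_sound _ 130 [(rh50fbb5868c909700.shift 2 1), rhf395b60d1e53325a] (by decide +kernel))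
noncomputable def rh999a508ab356fb00 : CRef := CRef.mk (Pat.mk 0x20000000300000002000000000000000000000000 0x1000000070000000700000007000000030000000300000002000000070000000700000005 8 3) 0 0 (step_sound _ 65 [(rh339ade4f3735795f.shift 0 1), rh5192e84255fe3228, rh6eff4158bb400f47] (by decide +kernel))
noncomputable def rh3628d031a7d3a1bb : CRef := CRef.mk (Pat.mk 0x280000000c0000000000000000 0x10000000140000007f0000007f0000007c0000002800000008 8 7) 0 0 (step_sound _ 100 [(rh18965a982d73c794.shift 2 2), rh8ff31524f00fcbe5] (by decide +kernel))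
noncomputable def rh035fc791582cc7c9 : CRef := CRef.mk (Pat.mk 0x5000000018000000000000000000000000 0x1000000050000000df000000fe000000f70000002000000020 8 8) 0 0 (step_sound _ 101 [(rh834ef1c974e4840e.shift 2 0), rhc2908dff06776615, (rhca6a4af813f68cee.shift 2 3)] (by decide +kernel))
noncomputable def rh581510881ff0180c : CRef := CRef.mk (Pat.mk 0x20000000600000003000000000000000000000000 0x4000000060000001e0000001b0000001f0000000f00000005 8 5) 0 0 (step_sound _ 131 [(rh18965a982d73c794.shift 0 3), rha12d719d0e3490e9] (by decide +kernel))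
noncomputable def rh78fa9c6aa576e5e9 : CRef := CRef.mk (Pat.mk 0x8000000180000000c0000000000000000 0x1000000018000000180000003f0000003f0000001c 8 6) 0 0 (step_sound _ 65 [rh0d5b9b6264de8dbd, (rh53b3c253cb0c65f4.shift 0 2)] (by decide +kernel))
noncomputable def rhf0fa09f0ac651e57 : CRef := CRef.mk (Pat.mk 0x180000000e0000000000000000 0x80000003c0000003e000000ff0000001b0000001e0000001c0000000c 8 8) 0 0 (step_sound _ 132 [rh44d31e7d6516e5b1, (rh4821dcf828b9d7bf.shift 3 0), (rhcf80391c5046a495.shift 3 0), (rhfa942acc476010d0.shift 1 1)] (by decide +kernel))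
noncomputable def rhac03db5a5aa34237 : CRef := CRef.mk (Pat.mk 0x180000000300000000000000000000000000000000 0x80000000c0000001c0000001c000000180000001f0000007e0000001e0000001c00000014 8 7) 0 0 (step_sound _ 131 [rh01c12cc3a8a6db05, (rh1c62b6193297d9e3.shift 0 4)] (by decide +kernel))
noncomputable def rh1d4d09423bd38850 : CRef := CRef.mk (Pat.mk 0x280000000c00000000000000000000000000000000 0x140000001c0000003f000000780000002f0000007c000000380000001000000010 8 7) 0 0 (step_sound _ 164 [(rh18965a982d73c794.shift 2 4), rhd66594b3c3f7b14e] (by decide +kernel))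
noncomputable def rha0f679e0205c27fe : CRef := CRef.mk (Pat.mk 0x50000000180000000000000000 0x2800000038000000380000003c000000770000003e0000007f00000030 8 7) 0 0 (step_sound _ 132 [(rh5ab3e80ba6803e5b.shift 0 1), (rh612d9cd2ae1e9a9d.shift 1 0), (rh68a777751bfeafdf.shift 3 1), (rhf0561682bb684ebc.shift 3 1), (rhfd673660fa4abc3d.shift 0 1)] (by decide +kernel))
noncomputable def rh614d0c5dadb34355 : CRef := CRef.mk (Pat.mk 0x5000000018000000000000000000000000 0x1000000050000000d7000000ff000001ff0000002000000020 8 9) 0 0 (step_sound _ 101 [(rh545a56c0ba685948.shift 0 2), (rh834ef1c974e4840e.shift 2 0), (rhbdce4ae460fd80ce.shift 2 2), rhc2908dff06776615] (by decide +kernel))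
noncomputable def rh0889731417eff742 : CRef := CRef.mk (Pat.mk 0x200000002000000030000000100000000000000000 0x200000076f000003fe000003df0000004000000040 8 11) 0 0 (step_sound _ 102 [(rh2820ca9a6c4f41b4.shift 1 2), rh5341914c62910efa, rh5605d6b87818563f, (rh9fb657e6481dfcdc.shift 3 2)] (by decide +kernel))
noncomputable def rhf96a9a59b654dfcc : CRef := CRef.mk (Pat.mk 0x100000001800000008000000080000000000000000 0x4000000160000007f000000ff0000007f0000003400000034 8 8) 0 0 (step_sound _ 98 [(rh03bd3de0eda75619.shift 0 2), (rh564214abbb813e6c.shift 1 1), rh7a71608d044bc0f3, (rhd69c262cd33b94b3.shift 0 3)] (by decide +kernel))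
noncomputable def rhf25c5d08c7a26af8 : CRef := CRef.mk (Pat.mk 0x380000000c000000000000000000000000 0x140000001c0000001e0000001f0000003a0000000f0000000e0000000c00000004 8 6) 0 0 (step_sound _ 97 [rh2c4cf3237a34a5a1, (rh53b3c253cb0c65f4.shift 0 3)] (by decide +kernel))
noncomputable def rh74334d05f612b4c1 : CRef := CRef.mk (Pat.mk 0x1c000000060000000000000000 0x1c0000003e0000001f0000001c0000007e0000007700000006 8 7) 0 0 (step_sound _ 131 [(rhadf429772c25fde0.shift 2 0), rhbe253d1426d5780c, (rhfb8c75b59003d2e2.shift 0 1)] (by decide +kernel))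
noncomputable def rha93fc485f67f993a : CRef := CRef.mk (Pat.mk 0x180000000e0000000000000000 0x8000000080000001c0000001e0000007f0000001b0000003e0000002f0000000c 8 7) 0 0 (step_sound _ 132 [rh44d31e7d6516e5b1, (rh4821dcf828b9d7bf.shift 3 0), (rh918b0812210e34aa.shift 0 1), (rhadf429772c25fde0.shift 3 0)] (by decide +kernel))
noncomputable def rhaefc91dd8c502a76 : CRef := CRef.mk (Pat.mk 0x380000000c0000000000000000000000000000000000000000 0x140000001c0000001f000000380000000f0000007c000000180000001c0000001c00000004 8 7) 0 0 (step_sound _ 161 [rh02cc147da1ed8375, (rh53b3c253cb0c65f4.shift 0 5)] (by decide +kernel))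
noncomputable def rhcf3158974c0d1ac7 : CRef := CRef.mk (Pat.mk 0x8000000080000000c000000000000000000000000 0x140000001e000000780000000f0000007c0000001c00000004 8 7) 0 0 (step_sound _ 67 [(rh08907ceb8a14f3c9.shift 0 1), (rh1861173042f24e9a.shift 1 1), (rh82ca4d13b15beb50.shift 2 0)] (by decide +kernel))
noncomputable def rh4471871c6e3d1cbe : CRef := CRef.mk (Pat.mk 0x100000001e000000000000000000000000 0x4000000140000003f0000003f0000000b0000000a 8 6) 0 0 (step_sound _ 65 [rh4db4de1e5a808d4c, (rheb0810cc63b001d8.shift 0 2)] (by decide +kernel))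
noncomputable def rhc41da12e8dfee93c : CRef := CRef.mk (Pat.mk 0x100000001c00000000000000000000000000000000 0x1000000012000000130000003f000000ff0000003c0000002c00000020 8 8) 0 0 (step_sound _ 100 [(rh64065c0577232a62.shift 0 1), (rh8ee80cc30e93a344.shift 1 3), (rhb6e5fd90818b20b8.shift 2 0)] (by decide +kernel))
noncomputable def rhe72f90413ae7c9dd : CRef := CRef.mk (Pat.mk 0x100000001c00000010000000000000000000000000 0x1000000014000000140000003f0000001f0000000b0000000a00000002 8 6) 0 0 (step_sound _ 99 [rh0c37afd1a84882eb, (rh503dd4575245365b.shift 3 2), (rh5750f17e352cc553.shift 0 1)] (by decide +kernel))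
noncomputable def rh63f5f8382dd5a29d : CRef := CRef.mk (Pat.mk 0x2000000038000000000000000000000000 0x28000000280000002f000001fe000000f80000005000000010 8 9) 0 0 (step_sound _ 68 [rh5425f6111a084d6f, (rh7ef6da33be922608.shift 1 1), (rhcf80391c5046a495.shift 4 0)] (by decide +kernel))
noncomputable def rh0aeb73b3b7f746d9 : CRef := CRef.mk (Pat.mk 0x80000000c000000040000000400000000 0x1000000010000000700000007e000001ff000000770000003c00000018 8 9) 0 0 (step_sound _ 132 [(rh158065cf574453a1.shift 1 1), (rh574fdbf07bdd18b9.shift 0 3), (rhd69c262cd33b94b3.shift 0 3), rhdabd474648976ee2] (by decide +kernel))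
noncomputable def rha2d73de22351e153 : CRef := CRef.mk (Pat.mk 0x180000000c000000000000000000000000 0x100000001c0000001c0000000c0000001f000000780000000c0000001c0000001c00000014 8 7) 0 0 (step_sound _ 133 [(rh18965a982d73c794.shift 2 3), rhf5254fbc2231773c] (by decide +kernel))
noncomputable def rh04062858e25effcf : CRef := CRef.mk (Pat.mk 0x100000001000000018000000080000000000000000 0x10000001f0000000fe000001ef0000007c00000028 8 9) 0 0 (step_sound _ 35 [(rh71222050f2c63a3a.shift 3 0), rhbf104603d478ec75] (by decide +kernel))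
noncomputable def rh54731baf45f01efb : CRef := CRef.mk (Pat.mk 0x80000000c000000040000000400000000 0x10000000160000007c000001ff000000770000003e0000001a 8 9) 0 0 (step_sound _ 132 [(rh0bb882ba86b2372d.shift 0 3), (rh574fdbf07bdd18b9.shift 0 3), (rhbf34592994afb4e3.shift 1 0), rhdabd474648976ee2] (by decide +kernel))
noncomputable def rh4d7462d91f3de046 : CRef := CRef.mk (Pat.mk 0x1c000000040000000000000000 0x80000000a0000003b0000001f000000370000001400000004 8 6) 0 0 (step_sound _ 97 [(rh814765acf06398ac.shift 0 1), rhc901bc4bb2497753, rhe04cd7a4d02448ec] (by decide +kernel))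
noncomputable def rhd8a23c2c8d7639dd : CRef := CRef.mk (Pat.mk 0x1800000008000000080000000000000000 0x1c0000001c0000000c0000003c0000000f0000000e 8 6) 0 0 (step_sound _ 35 [(rh2f68792b6b779e96.shift 3 1), rh4346dff3d1f1dfe2] (by decide +kernel))
noncomputable def rhded4723d1e79ad9f : CRef := CRef.mk (Pat.mk 0x8000000180000000800000008 0xf4000000ff0000001f0000000800000008 8 8) 0 0 (step_sound _ 100 [(rh2f68792b6b779e96.shift 3 0), rh92645babed6d6d29] (by decide +kernel))
noncomputable def rh44d930f2a4d2886a : CRef := CRef.mk (Pat.mk 0x800000018000000080000000800000000 0x1e0000003f0000001f0000000c0000000c00000004 8 6) 0 0 (step_sound _ 132 [(rh2f68792b6b779e96.shift 3 1), rhababf7a8dad35a78] (by decide +kernel))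
noncomputable def rhfa84a0654bd30f60 : CRef := CRef.mk (Pat.mk 0x3000000006000000000000000000000000 0xa0000000e0000000e0000001e0000003e000000070000003e0000000e0000000e 8 6) 0 0 (step_sound _ 130 [rh05ac68645ac65032, (rhb2a0b9ccfb5cecd5.shift 1 3)] (by decide +kernel))
noncomputable def rh0fca759033c5d0b6 : CRef := CRef.mk (Pat.mk 0x180000000e00000000000000000000000000000000 0x100000001c0000001e000000780000000e0000007f0000003c0000001c00000014 8 7) 0 0 (step_sound _ 165 [rh10d34bc59c5b77fb, (rh18965a982d73c794.shift 2 4)] (by decide +kernel))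
noncomputable def rhbac3563897405090 : CRef := CRef.mk (Pat.mk 0xc000000050000000000000000 0xa0000002a000000ff0000007e000000770000001400000014 8 8) 0 0 (step_sound _ 100 [rh4904a019878e6edb, (rh4f8e450efc5b9f0e.shift 1 2), (rh9c0ab0af19c4d8a6.shift 0 2), (rhc935cd115de32868.shift 1 0)] (by decide +kernel))
noncomputable def rh5461c4e81d18a928 : CRef := CRef.mk (Pat.mk 0xc00000006000000020000000000000000 0x80000000c0000003c0000003f0000003e0000003b0000001800000010 8 6) 0 0 (step_sound _ 162 [(rh5c5e593799055d58.shift 1 2), rh722c806629deb094] (by decide +kernel))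
noncomputable def rhd9124a1d6ccddcd0 : CRef := CRef.mk (Pat.mk 0x1c000000060000000000000000 0x1e0000003f0000007f0000001c0000000e0000000e00000006 8 7) 0 0 (step_sound _ 131 [(rh86c33a4aa38d6fec.shift 0 1), (rhadf429772c25fde0.shift 2 0), rhbe253d1426d5780c] (by decide +kernel))
noncomputable def rh0dc66477633c86a1 : CRef := CRef.mk (Pat.mk 0x180000000c000000000000000000000000 0x1e0000003f0000001f0000003f0000000f0000000e00000004 8 6) 0 0 (step_sound _ 97 [rh40e8f236bcbe2122, (rh53b3c253cb0c65f4.shift 0 3)] (by decide +kernel))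
noncomputable def rh0169180638002a16 : CRef := CRef.mk (Pat.mk 0x800000010000000100000001000000000 0x2f0000007e0000007f000000100000001000000010 8 7) 0 0 (step_sound _ 132 [rh46de548b811aef64, (rh50fbb5868c909700.shift 3 1)] (by decide +kernel))
noncomputable def rhbd36a04da305b6d0 : CRef := CRef.mk (Pat.mk 0xc0000000600000000000000000000000000000000 0x1a0000003b0000003f0000003e0000001c0000001e0000000600000002 8 6) 0 0 (step_sound _ 164 [(rh18965a982d73c794.shift 1 4), rh5cf42e60531ffcc1] (by decide +kernel))
noncomputable def rhda7a54431dcdab9d : CRef := CRef.mk (Pat.mk 0x80000000c000000080000000000000000 0x6000000060000000e0000003c0000003f0000001f0000001f 8 6) 0 0 (step_sound _ 130 [rh2124d991693dcd25, (rh3cb04db3dd2b6a55.shift 2 0), rh85ac74c283a347ed] (by decide +kernel))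
noncomputable def rhaebbe109451149b0 : CRef := CRef.mk (Pat.mk 0x30000000180000000000000000 0x2000000038000000fe000000ff000000f8000000f000000070 8 8) 0 0 (step_sound _ 102 [(rh18965a982d73c794.shift 3 2), rhd735032a261c6c34] (by decide +kernel))
noncomputable def rh399c914e74293040 : CRef := CRef.mk (Pat.mk 0x8000000180000000c00000000 0x1c0000001e0000003f0000007f0000007c00000070 8 7) 0 0 (step_sound _ 69 [(rh18965a982d73c794.shift 2 1), rha37a6255da7ed2f1] (by decide +kernel))
noncomputable def rh05daffe037e53296 : CRef := CRef.mk (Pat.mk 0x8000000180000000c00000000 0x140000001c0000001c000000080000001f000000ff000000f0 8 8) 0 0 (step_sound _ 33 [(rh53b3c253cb0c65f4.shift 0 1), rhac04ae6e2bb89c9a] (by decide +kernel))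
noncomputable def rhb9f754b3d868d8c1 : CRef := CRef.mk (Pat.mk 0x8000000080000000c00000000000000000000000000000000 0x140000001e0000007c0000001f0000003c0000001c0000001c00000004 8 7) 0 0 (step_sound _ 164 [(rh0bb882ba86b2372d.shift 0 4), (rhbaaf30bf3e29c8c8.shift 1 0), (rhd3f1e0ec0dcd03b5.shift 0 1)] (by decide +kernel))
noncomputable def rh2c9306438e7e4315 : CRef := CRef.mk (Pat.mk 0x3000000018000000000000000000000000 0x180000007e000000ff00000018000000180000001800000018 8 8) 0 0 (step_sound _ 134 [(rh18965a982d73c794.shift 3 3), rhb398cbab44b6c053] (by decide +kernel))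
noncomputable def rh075a21aecb60622e : CRef := CRef.mk (Pat.mk 0x300000001c000000000000000000000000 0x3000000034000000760000003f0000007c0000001e0000001800000008 8 7) 0 0 (step_sound _ 165 [(rh1e54711dd4343d23.shift 1 0), (rhb0984eb17ecf1549.shift 0 1), (rhf9366b6a121593ef.shift 4 1)] (by decide +kernel))
noncomputable def rhdd165234d5fb6a7b : CRef := CRef.mk (Pat.mk 0x8000000080000000c000000040000000000000000 0x140000001c000000780000007f000000fc0000007800000010 8 8) 0 0 (step_sound _ 68 [(rh6803112df5f1595a.shift 0 1), (rh70eccdbd5a5b75ce.shift 1 0), (rh914e55efb339acca.shift 2 1), (rh9ed32b1918cf51da.shift 0 1), (rhc5721650ad5de43d.shift 0 1)] (by decide +kernel))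
noncomputable def rh118289d44f19ffe3 : CRef := CRef.mk (Pat.mk 0x4000000060000000200000002000000000 0x3f7000003fe000003bf000001e0000000c0 8 10) 0 0 (step_sound _ 100 [(rh2ea89de14a8b8f5b.shift 0 2), (rh4d63ff26ec2dbd2d.shift 0 2), (rh7ede157ccaa8567a.shift 3 0), (rha11dfd15f08f96e3.shift 3 3)] (by decide +kernel))
noncomputable def rhfe33e0bac87a5cdc : CRef := CRef.mk (Pat.mk 0x300000001c000000000000000000000000 0x3000000038000000380000001c0000007f0000007c0000003c 8 7) 0 0 (step_sound _ 67 [(rh471c9edde87ddc5c.shift 2 1), rhbe11ca1156539bc2, (rhf9366b6a121593ef.shift 3 0)] (by decide +kernel))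
noncomputable def rh89f85c2a8b471f07 : CRef := CRef.mk (Pat.mk 0x1c00000006000000000000000000000000 0x80000000e0000001f0000003c0000001f0000003e0000000f0000000a00000002 8 6) 0 0 (step_sound _ 162 [(rh281c6819542c66e6.shift 1 0), (rhbb339bb7e4e96b38.shift 1 2), (rhd1157b0445692f28.shift 0 2), (rhd95533b60fbd5411.shift 0 1)] (by decide +kernel))
noncomputable def rh216af0ac0b5f7e04 : CRef := CRef.mk (Pat.mk 0x300000001c000000000000000000000000 0x30000000370000003f0000001c0000007e0000007e0000003c 8 7) 0 0 (step_sound _ 67 [(rh471c9edde87ddc5c.shift 2 1), rh68280eabaa0fd24e, (rhf9366b6a121593ef.shift 3 0)] (by decide +kernel))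
noncomputable def rha33761987e536fae : CRef := CRef.mk (Pat.mk 0x7000000018000000000000000000000000 0x3c0000003f000000fc0000007c000000d8000000480000000800000008 8 8) 0 0 (step_sound _ 131 [(rhd50966fcee0f7551.shift 2 0), (rhe6e19389a23acb4d.shift 0 2), (rhf41a34b41b8c2138.shift 2 2)] (by decide +kernel))
noncomputable def rh45fd3095f2ddb4cf : CRef := CRef.mk (Pat.mk 0x180000000e000000000000000000000000 0x8000000080000001c0000001e0000007f0000001b0000003e0000002f0000000c00000004 8 7) 0 0 (step_sound _ 164 [(rh44d31e7d6516e5b1.shift 0 1), (rh50976aacec03a372.shift 0 2), (rh897397de187d9e47.shift 2 1), (rhadf429772c25fde0.shift 3 1), rhe3da1dd905909862] (by decide +kernel))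
noncomputable def rhc8b5fc8bafb7aab2 : CRef := CRef.mk (Pat.mk 0x80000000c000000040000000000000000 0x2000000020000007f0000003f0000007e0000000400000004 8 7) 0 0 (step_sound _ 34 [(rh71222050f2c63a3a.shift 2 0), (rh7fe7b8c1fa332b0f.shift 0 1)] (by decide +kernel))
noncomputable def rh6de9c10402cb577c : CRef := CRef.mk (Pat.mk 0x180000000e000000000000000000000000 0x22000000330000001f0000003e0000003f0000003c00000018 8 6) 0 0 (step_sound _ 100 [(rh41d5a93e35cc8528.shift 0 1), rh96be28324f4d1c3c, rhf7ae7d43a9e2b9a7] (by decide +kernel))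
noncomputable def rh64453aec77d05e67 : CRef := CRef.mk (Pat.mk 0xc0000000600000000000000000000000000000000 0x120000003b0000003f0000003e0000000c0000000e0000000e0000000a 8 6) 0 0 (step_sound _ 164 [(rh18965a982d73c794.shift 1 4), rhd07a128bf33945e5] (by decide +kernel))
noncomputable def rh104e9ac1ffcb8856 : CRef := CRef.mk (Pat.mk 0x8000000080000000c000000040000000000000000 0x140000001c0000003c0000007c0000007f0000007a00000010 8 7) 0 0 (step_sound _ 67 [(rh04aa474d63f24212.shift 0 1), (rh51499fad2812bafd.shift 2 1), (rhc7650cb9c388bfab.shift 2 0)] (by decide +kernel))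
noncomputable def rhec757957b689879c : CRef := CRef.mk (Pat.mk 0x1000000018000000080000000800000000 0xe0000000e0000000f000000ff0000001f0000000f0000003c00000014 8 8) 0 0 (step_sound _ 131 [(rh0ef6c71ce89c1c36.shift 2 0), rhccc5eb251906b4a4, rhf0d38cf1e7116183, (rhffb1f2cfe3a9c803.shift 0 1)] (by decide +kernel))
noncomputable def rh0e7134f760b1ef44 : CRef := CRef.mk (Pat.mk 0x180000000e0000000000000000 0x100000001c0000001c0000001e0000001b0000001f000000fe000000f400000014 8 8) 0 0 (step_sound _ 131 [rh5eb595c5e0afce5d, rh6a3b8c58e2bd072d, (rh7d4be646332fc08b.shift 2 1), (rha8241f37c79477a8.shift 2 1)] (by decide +kernel))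
noncomputable def rh8967441de5a72184 : CRef := CRef.mk (Pat.mk 0x180000000c0000000800000000000000000000000000000000 0xc0000000c0000001c0000000f0000003c000000180000001c0000001c00000004 8 6) 0 0 (step_sound _ 161 [(rh53b3c253cb0c65f4.shift 0 5), (rh5d7bf659158cdda0.shift 1 0)] (by decide +kernel))
noncomputable def rhc3854eccd919850d : CRef := CRef.mk (Pat.mk 0x1800000008000000080000000000000000 0x240000006e0000007e0000007f000000780000001e0000001c 8 7) 0 0 (step_sound _ 98 [(rh69012675dfdb1a5b.shift 0 3), rhb2c588398a5960e2, (rhfaaf361f0d26f9ac.shift 1 1)] (by decide +kernel))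
noncomputable def rhfe8a8bba99d929a5 : CRef := CRef.mk (Pat.mk 0x1800000008000000080000000000000000000000000000000000000000 0x40000000c0000000c00000008000000180000001c0000001f0000003c0000001c0000001c0000001c00000010 8 6) 0 0 (step_sound _ 132 [(rh553c531f34e6d4c7.shift 2 4), (rhfa80626feb4e9cb5.shift 0 3), (rhfe275ecfc2131bf8.shift 2 0)] (by decide +kernel))
noncomputable def rh6775dd19ba725050 : CRef := CRef.mk (Pat.mk 0x1800000008000000080000000800000000 0xe70000007f000000ff0000000c0000000c00000004 8 8) 0 0 (step_sound _ 130 [(rh50fbb5868c909700.shift 2 1), rhd8107e21bd409a7d] (by decide +kernel))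
noncomputable def rh474caba39a3d5209 : CRef := CRef.mk (Pat.mk 0x18000000080000000800000000 0x100000001c0000003c0000006e0000007e0000007f0000003c00000014 8 7) 0 0 (step_sound _ 66 [rh59934a8816c37478, (rh69012675dfdb1a5b.shift 0 2), (rhfaaf361f0d26f9ac.shift 1 0)] (by decide +kernel))
noncomputable def rh67c06adb721de4f4 : CRef := CRef.mk (Pat.mk 0x2000000030000000100000000000000000 0x8000000180000007e0000007e000000f70000003c00000038 8 8) 0 0 (step_sound _ 36 [(rh71222050f2c63a3a.shift 4 0), rhb87226edc8222a86] (by decide +kernel))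
noncomputable def rhd79b652c1c43e481 : CRef := CRef.mk (Pat.mk 0x180000000800000000000000000000000000000000 0x140000001c0000001f0000007c0000000f0000003c0000001c0000001c00000004 8 7) 0 0 (step_sound _ 99 [(rh5ab46171e730b5a2.shift 2 1), (rh6bc015b9268c8423.shift 0 1), rh8b1fdc3dd67e0291, (rhe48f34d6cbf6717f.shift 0 2)] (by decide +kernel))
noncomputable def rh73bc7c49ac4a0e0a : CRef := CRef.mk (Pat.mk 0x180000000800000000000000000000000000000000 0x1c0000001f0000007c0000001f0000007c0000003c0000001c00000014 8 7) 0 0 (step_sound _ 99 [(rh3820f35d5e705bec.shift 3 0), rh8b1fdc3dd67e0291, (rhb19035e1f9ce8333.shift 1 2)] (by decide +kernel))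
noncomputable def rhc8817a78c40c7818 : CRef := CRef.mk (Pat.mk 0x180000000e000000000000000000000000 0x380000007c0000003e0000001f000000fe0000001f0000000e00000004 8 8) 0 0 (step_sound _ 164 [rh86cd746f3ccf06af, rheb75ce811ca68ceb, (rhf9366b6a121593ef.shift 3 1)] (by decide +kernel))
noncomputable def rh6bf1d4adb34fa2d0 : CRef := CRef.mk (Pat.mk 0x1c00000006000000000000000000000000 0x80000000c0000003c0000001f0000003e0000003f0000001e00000006 8 6) 0 0 (step_sound _ 65 [(rh5c3a3a0bf93f15e3.shift 0 1), rhac97a649a2e97480, (rhadf429772c25fde0.shift 1 0)] (by decide +kernel))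
noncomputable def rhbd9af9085874b57c : CRef := CRef.mk (Pat.mk 0x180000000e0000000000000000 0x380000007c0000003e0000001f000000fe000000ef0000000a 8 8) 0 0 (step_sound _ 132 [(rhb66517e284c79c5a.shift 0 1), rhcfacd4d5f8263f46, (rhf9366b6a121593ef.shift 3 0)] (by decide +kernel))
noncomputable def rha332a7fb1a26bbae : CRef := CRef.mk (Pat.mk 0x180000000e000000000000000000000000 0x8000000180000001c0000003e0000003f0000007c0000003c 8 7) 0 0 (step_sound _ 66 [rh8bdfba54442a796d, (rhf9366b6a121593ef.shift 2 0)] (by decide +kernel))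
noncomputable def rh22a7472493164a0f : CRef := CRef.mk (Pat.mk 0x10000000000000001800000008000000000000000000000000 0x4000000140000001f0000007c0000001c0000001c0000001c00000014 8 7) 0 0 (step_sound _ 67 [(rh514fa720804abbca.shift 3 1), (rh7451f34b061ea69b.shift 3 2), rh8244c33d5ee49d6f] (by decide +kernel))
noncomputable def rhbd0462959a10dfa4 : CRef := CRef.mk (Pat.mk 0x4000000000000000e00000002 0xc0000000c0000000e0000003b0000001f0000000b 8 6) 0 0 (step_sound _ 36 [rha4557f3c0f9d74fd, rheb0810cc63b001d8] (by decide +kernel))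
noncomputable def rh56ee8bb5b6f6a821 : CRef := CRef.mk (Pat.mk 0x180000000e000000000000000000000000 0x1000000010000000120000001b000000fe000000ff000000fc0000003c 8 8) 0 0 (step_sound _ 100 [rh2395824d1086e2bc, rh9bea49c6d10a24b1, (rha1eb337eeb07c2e7.shift 0 2), (rhef8986517b5b0144.shift 1 0), rhf7ae7d43a9e2b9a7] (by decide +kernel))
noncomputable def rh2679bd399f9c3290 : CRef := CRef.mk (Pat.mk 0x380000000c000000000000000000000000 0x1000000050000000770000003e0000007c0000007c0000003e00000004 8 7) 0 0 (step_sound _ 164 [(rh0dd98b7190d99aa3.shift 1 0), (rh6bcc336db2d6dcd0.shift 0 1), (rhadf429772c25fde0.shift 3 1)] (by decide +kernel))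
noncomputable def rha9b3c90c600cf292 : CRef := CRef.mk (Pat.mk 0x180000000c0000000000000000000000000000000000000000 0x140000001c0000001c000000180000000f0000007c0000001e0000001c0000001c00000010 8 7) 0 0 (step_sound _ 161 [(rh0ac5657f5d5f3361.shift 1 0), (rh53b3c253cb0c65f4.shift 0 5)] (by decide +kernel))
noncomputable def rh6336956d488b8509 : CRef := CRef.mk (Pat.mk 0x1c00000006000000000000000000000000 0x1c0000003c0000001f0000001c0000007e0000007f0000001f00000002 8 7) 0 0 (step_sound _ 163 [rh167a658247bf789f, (rhadf429772c25fde0.shift 2 1), (rhfb8c75b59003d2e2.shift 0 2)] (by decide +kernel))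
noncomputable def rh64e0a4b5e3ecf0d1 : CRef := CRef.mk (Pat.mk 0x1000000018000000080000000000000000 0x1c0000001c000000180000000f0000003c0000001c 8 6) 0 0 (step_sound _ 35 [rh44b9bb02d6a6edc2, (rh71222050f2c63a3a.shift 3 0)] (by decide +kernel))
noncomputable def rh221a28ec6cc5e6e4 : CRef := CRef.mk (Pat.mk 0x4000000060000000200000002000000000 0x2000000030000001b0000001fc0000007f000001fe000000f800000050 8 9) 0 0 (step_sound _ 132 [(rh0b4eafb7a64d9358.shift 0 1), (rh4c4e3f7dc58bc977.shift 2 0), (rhbab796f6dafe9186.shift 4 1), (rhbd5d669524b54f35.shift 3 0)] (by decide +kernel))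
noncomputable def rh99c4bbea836be6b9 : CRef := CRef.mk (Pat.mk 0x40000000600000002000000000 0xe0000001e0000000ff0000007e000001fe000000c0 8 9) 0 0 (step_sound _ 134 [rh027c6d4706336d6b, (rh5c5e593799055d58.shift 5 1)] (by decide +kernel))
noncomputable def rh929ef4889dadb5dd : CRef := CRef.mk (Pat.mk 0x1c00000006000000000000000000000000 0xe0000000e0000003f0000001f00000036000000130000000300000003 8 6) 0 0 (step_sound _ 129 [rh205bbac36a8896ec, (rhf41a34b41b8c2138.shift 0 2)] (by decide +kernel))
noncomputable def rh98bee7c233643e75 : CRef := CRef.mk (Pat.mk 0x180000000e000000000000000000000000 0x100000001c0000001c0000001c0000001a0000001f000000fe000000f70000001400000004 8 8) 0 0 (step_sound _ 163 [rh597ca489cec030e6, (rh7d4be646332fc08b.shift 2 2), (rha7ef87d089a603df.shift 0 2)] (by decide +kernel))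
noncomputable def rh4c183ebc1ecce925 : CRef := CRef.mk (Pat.mk 0x3800000008000000000000000000000000 0x10000000140000003f000000ff000000e80000003c0000003c00000014 8 8) 0 0 (step_sound _ 163 [(rha9fbfd4bb8cf890b.shift 0 4), (rhbd94db5de7cdad72.shift 0 1), (rhcea87fa9fe548f5b.shift 1 0)] (by decide +kernel))
noncomputable def rh0f33315b66691ea9 : CRef := CRef.mk (Pat.mk 0x70000000100000000000000000 0x2000000020000003f0000001fe000003d70000005000000050 8 10) 0 0 (step_sound _ 133 [(rh054eec66bdc88820.shift 3 0), (rh4821dcf828b9d7bf.shift 4 0), rh73a3f46298092c24] (by decide +kernel))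
noncomputable def rh071a4f4fc4cb1f4a : CRef := CRef.mk (Pat.mk 0x700000008000000000000000000000000 0x40000000c0000001c0000000f0000001c0000001c0000001c00000018 8 5) 0 0 (step_sound _ 131 [rh752d88b2d16fd110, (rhe25b0a99195a5d59.shift 0 3)] (by decide +kernel))
noncomputable def rhfb18a167032585a6 : CRef := CRef.mk (Pat.mk 0x80000001c000000040000000000000000 0x800000008000000380000001f000000f40000003e00000014 8 8) 0 0 (step_sound _ 163 [(rh5c5e593799055d58.shift 2 2), rh856d49affef788a5] (by decide +kernel))
noncomputable def rh80a11814a1b1b4ca : CRef := CRef.mk (Pat.mk 0x1e00000000000000000000000000000000 0x8000000180000003b0000001e00000038000000380000003800000028 8 6) 0 0 (step_sound _ 161 [(rh3244c3cc8379b070.shift 0 4), (rh6b6c9b1c1e57778a.shift 1 0)] (by decide +kernel))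
noncomputable def rhab61109752296fba : CRef := CRef.mk (Pat.mk 0x180000000c00000000000000000000000000000000 0x80000000c0000001c0000001c0000001c0000000f0000007c0000001c0000001c00000014 8 7) 0 0 (step_sound _ 129 [(rh21b80af767ead175.shift 1 0), (rh53b3c253cb0c65f4.shift 0 4)] (by decide +kernel))
noncomputable def rhae3cb78a1864c66d : CRef := CRef.mk (Pat.mk 0x300000001c00000000000000000000000000000000 0x80000000c0000003f0000003f0000001c0000007e0000007e0000003c00000030 8 7) 0 0 (step_sound _ 99 [(rh2ab9305ce0914515.shift 2 1), (rh9eee07983f68aea5.shift 0 1), (rhdbb1ee969fdf7226.shift 1 1), (rhee3368b47eea1bc5.shift 1 0), (rhf3cf71cd1e9b7c59.shift 0 1)] (by decide +kernel))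
noncomputable def rh7cd7388517474627 : CRef := CRef.mk (Pat.mk 0x380000000c0000000000000000000000000000000000000000 0x10000000140000007e0000003e0000007c0000007f0000003e0000001c0000001c00000004 8 7) 0 0 (step_sound _ 131 [(rh3716db9506abdadf.shift 1 4), rh52c0ce10d174b2a4, (rh9bb5c7e5c08d4582.shift 2 2)] (by decide +kernel))
noncomputable def rhee75360ec27f9fa3 : CRef := CRef.mk (Pat.mk 0x300000001c000000000000000000000000 0x30000000370000003f0000001c0000007e0000007e0000003c 8 7) 0 0 (step_sound _ 67 [(rh471c9edde87ddc5c.shift 2 1), rh68280eabaa0fd24e, (rhcf80391c5046a495.shift 3 0), (rhf9366b6a121593ef.shift 3 0)] (by decide +kernel))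
noncomputable def rh05a5c2ed428c4210 : CRef := CRef.mk (Pat.mk 0x1000000018000000080000000800000000 0x40000000e000000ff0000007f000000ec0000000c00000004 8 8) 0 0 (step_sound _ 98 [rh08c4bb78e411a62a, (rh9c520d880c3489fb.shift 1 1), (rha11dfd15f08f96e3.shift 1 3)] (by decide +kernel))
noncomputable def rh00e3cc047375e4b0 : CRef := CRef.mk (Pat.mk 0x180000000e000000000000000000000000 0x6000000070000001f0000003e0000003f0000003e00000038 8 6) 0 0 (step_sound _ 100 [(rh21460d2d48a35cb8.shift 0 1), rh26fd18283c6b3d6e, (rh41d5a93e35cc8528.shift 0 1), rhed9575cdee0ab1ad] (by decide +kernel))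
noncomputable def rhd94714a32d6be49e : CRef := CRef.mk (Pat.mk 0x380000000c000000000000000000000000 0x1c0000005e000000770000003e0000007c0000007c0000003e00000004 8 7) 0 0 (step_sound _ 164 [(rh0dd98b7190d99aa3.shift 1 0), (rhadf429772c25fde0.shift 3 1), (rhd4ce4468419f50bb.shift 0 3)] (by decide +kernel))
noncomputable def rhcb72378dabec4451 : CRef := CRef.mk (Pat.mk 0x1000000010000000180000000800000000 0xc0000001e00000078000000f8000000ff00000037 8 8) 0 0 (step_sound _ 36 [rh1e87bf36e9e60a85, (rha10abbb88ab9db0f.shift 1 0)] (by decide +kernel))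
noncomputable def rha78cf5fb4780603b : CRef := CRef.mk (Pat.mk 0x300000001c000000000000000000000000 0x80000001c0000001f0000003f0000001c0000007f0000003c0000001c 8 7) 0 0 (step_sound _ 67 [rh483d319ad71564f4, (rha8bff60f31fbc983.shift 1 1), (rhcf80391c5046a495.shift 3 0), (rhf9366b6a121593ef.shift 3 0)] (by decide +kernel))
noncomputable def rha02aaa66d466c680 : CRef := CRef.mk (Pat.mk 0x2000000030000000100000000000000000 0x800000008000001ff000000fc000001d60000001400000010 8 9) 0 0 (step_sound _ 36 [(rh71222050f2c63a3a.shift 4 0), (rh7229709bff0f3745.shift 0 1)] (by decide +kernel))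
noncomputable def rh30f011467d01e67a : CRef := CRef.mk (Pat.mk 0x1000000018000000080000000800000000 0x80000002800000028000000fc000000fe000000ff0000005e00000014 8 8) 0 0 (step_sound _ 133 [(rh214295733620b071.shift 1 0), (rh273718e6d97e37b4.shift 2 0), rh5813c541f4e49a2e, (rhe1967d8ccfa6fc8b.shift 1 2)] (by decide +kernel))
noncomputable def rh58c985762dc344d1 : CRef := CRef.mk (Pat.mk 0x200000002000000030000000100000000000000000 0x5000000074000000f6000000ff000001fe0000002e00000008 8 9) 0 0 (step_sound _ 67 [(rh0bb882ba86b2372d.shift 1 2), (rh3c4e69acd17b4cef.shift 2 1), (rh574fdbf07bdd18b9.shift 1 2), rhcf6c6fa3e4f2c980] (by decide +kernel))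
noncomputable def rhbd6913b25d1ce1a4 : CRef := CRef.mk (Pat.mk 0x1000000010000000180000000800000000 0x28000000780000007e000000f8000000ff000000f7 8 8) 0 0 (step_sound _ 36 [(rh51499fad2812bafd.shift 3 0), (rh5ee4dc8825dcefa0.shift 1 0), rhd709786844eae870] (by decide +kernel))
noncomputable def rh5bfb3373dc8b77cb : CRef := CRef.mk (Pat.mk 0x1000000018000000080000000800000000 0x28000000fc000000f80000007f0000007f00000034 8 8) 0 0 (step_sound _ 131 [rh7bd50060a0df592c, (rh85480f11efc1e555.shift 1 0), (rhd802bb8339359eae.shift 1 0), rhf0d38cf1e7116183, rhfb1e9fe27ba300db] (by decide +kernel))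
noncomputable def rheb1b065f824f3bb8 : CRef := CRef.mk (Pat.mk 0x1000000018000000080000000800000000 0x28000000780000007e0000001f0000007c00000034 8 7) 0 0 (step_sound _ 66 [(rh56df0ae5f48ae23a.shift 1 0), (rhd69c262cd33b94b3.shift 0 2), rhd7c343fb0024c57f] (by decide +kernel))
noncomputable def rh18f2ebd2ae68766f : CRef := CRef.mk (Pat.mk 0x40000000400000006000000020000000000000000000000000 0xa0000001e8000000fc000001ff0000007c000000d0000000d0000000c0 8 9) 0 0 (step_sound _ 100 [(rh0bb882ba86b2372d.shift 2 3), (rh790ab20d45abd33b.shift 3 0), (rhc880c7606cf6db50.shift 0 1)] (by decide +kernel))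
noncomputable def rh7302505379098ca4 : CRef := CRef.mk (Pat.mk 0x400000004000000060000000200000000000000000 0x40000007f7000003fe000003be0000008000000080 8 11) 0 0 (step_sound _ 100 [(rh4d63ff26ec2dbd2d.shift 0 2), (rh9910b3ec8a2a755a.shift 0 2), (rhe9d077fa1d4252e0.shift 4 0)] (by decide +kernel))
noncomputable def rh88fc1fb9044a4e9b : CRef := CRef.mk (Pat.mk 0x1000000018000000080000000000000000 0x7f7000003ff000007ff0000006000000060 8 11) 0 0 (step_sound _ 101 [(rh09cd08bf7d5fae33.shift 2 2), (rh2820ca9a6c4f41b4.shift 0 2), (rhc9a8ca1528939fa3.shift 0 2), (rhda0ce9ab8226a251.shift 1 0)] (by decide +kernel))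
noncomputable def rhebb265931f1b602c : CRef := CRef.mk (Pat.mk 0x100000001800000008000000080000000000000000 0x120000007f000000ff0000007f0000003400000034 8 8) 0 0 (step_sound _ 98 [rh554802701947872f, (rh69012675dfdb1a5b.shift 0 3), (rhad05480513a9d9bf.shift 1 1), (rhd69c262cd33b94b3.shift 0 3)] (by decide +kernel))
noncomputable def rh8d37d9c243f876fc : CRef := CRef.mk (Pat.mk 0x10000000180000000800000000 0x38000000780000001e0000003c000000ff00000024 8 8) 0 0 (step_sound _ 132 [rh11c3bac0793673cb, (rh5c5e593799055d58.shift 3 1)] (by decide +kernel))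
noncomputable def rh1383514d5f68fc40 : CRef := CRef.mk (Pat.mk 0x100000001000000018000000080000000000000000 0x10000000370000007e000001ef0000007c00000028 8 9) 0 0 (step_sound _ 35 [rh4f125cf0346b0cbc, (rh71222050f2c63a3a.shift 3 0)] (by decide +kernel))
noncomputable def rh680841fb2ea52e8f : CRef := CRef.mk (Pat.mk 0x8000000080000000c0000000400000000 0x1000000018000000780000007f0000007e00000038 8 7) 0 0 (step_sound _ 35 [rh4983ef42b6c40cbc, (rh6412c58679f5f5ab.shift 1 0), rhfe557af9112f51d6] (by decide +kernel))
noncomputable def rhbaa8ac48754834e8 : CRef := CRef.mk (Pat.mk 0x1000000018000000080000000800000000 0x1000000010000001f0000000fe000001ef0000007c00000020 8 9) 0 0 (step_sound _ 164 [rh573cc4e777f44507, (rh5c5e593799055d58.shift 3 2)] (by decide +kernel))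
noncomputable def rhdf78b57f2d206388 : CRef := CRef.mk (Pat.mk 0x1000000018000000080000000000000000 0x80000000800000028000000780000001e0000007f0000007e0000003c 8 7) 0 0 (step_sound _ 35 [(rh71222050f2c63a3a.shift 3 0), rhd963f431d55c8f5b] (by decide +kernel))
noncomputable def rh96d31e31819c4875 : CRef := CRef.mk (Pat.mk 0x800000008000000080000000000000000 0x180000001c0000001c0000001c0000003c0000001f000000180000001800000018 8 6) 0 0 (step_sound _ 163 [(rh1741680720c097b4.shift 2 2), rh5964b1ea7df24c82, (rhcdd409e2ecaf57f2.shift 2 1)] (by decide +kernel))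
noncomputable def rhb32fd37f8e525c28 : CRef := CRef.mk (Pat.mk 0x2000000020000000200000003000000000 0x2000000020000003bf000001fe000003ce 8 10) 0 0 (step_sound _ 38 [(rh55afc6a59410cf00.shift 5 0), rh9db0ba38977d8728] (by decide +kernel))
noncomputable def rhc8467d85f1d6d55d : CRef := CRef.mk (Pat.mk 0x1000000010000000180000001000000000 0x800000018000000180000007c000000ff0000000f 8 8) 0 0 (step_sound _ 35 [rh278b1ec4435e0565, (rh932754581e0f4330.shift 3 0)] (by decide +kernel))
noncomputable def rh75cc629df98441b1 : CRef := CRef.mk (Pat.mk 0x8000000080000000c00000000000000000000000000000000 0x140000003c0000007f0000003f0000000f0000001e0000001800000018 8 7) 0 0 (step_sound _ 99 [(rh2ad4304994e985b6.shift 0 2), (rh55facfd444fa8e3f.shift 2 0), (rhb09150e634b21e64.shift 0 2), (rhc4055b4872d6fb38.shift 2 2)] (by decide +kernel))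
noncomputable def rh2c0c758b54558f4f : CRef := CRef.mk (Pat.mk 0x8000000080000000c000000000000000000000000 0x10000000180000007c0000003f000000780000003800000018 8 7) 0 0 (step_sound _ 132 [(rh0bb882ba86b2372d.shift 0 3), (rha1ac771c65ae9cf8.shift 0 1), (rhb0d5b60318582aab.shift 2 0)] (by decide +kernel))
noncomputable def rhb6eaac655924f2f0 : CRef := CRef.mk (Pat.mk 0x10000000100000001800000008000000000000000000000000 0x280000003800000038000000f8000000ff000000770000003000000010 8 8) 0 0 (step_sound _ 100 [(rh1e87bf36e9e60a85.shift 0 2), (rh6412c58679f5f5ab.shift 2 2), (rh8ff3dde5b1c639e0.shift 3 1), (rhaab185a4d64a9d50.shift 3 0)] (by decide +kernel))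
noncomputable def rha5603f428b0fa72c : CRef := CRef.mk (Pat.mk 0x8000000080000000c00000000000000000000000000000000 0x10000000180000007c0000003f000000780000003c0000001c00000004 8 7) 0 0 (step_sound _ 164 [(rh0bb882ba86b2372d.shift 0 4), (rha1ac771c65ae9cf8.shift 0 2), (rha556b77db2fab812.shift 2 0)] (by decide +kernel))
noncomputable def rhfabc58a7007e3cc3 : CRef := CRef.mk (Pat.mk 0x20000000600000003000000000000000000000000 0x4000000060000001e0000001b0000001f0000000f00000005 8 5) 0 0 (step_sound _ 131 [(rh18965a982d73c794.shift 0 3), rhe6fecc60aee2cf4d] (by decide +kernel))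
noncomputable def rh98a07c6869d8ba9a : CRef := CRef.mk (Pat.mk 0x1000000030000000180000000000000000 0x2000000060000000f0000000ff000000f80000006c00000028 8 8) 0 0 (step_sound _ 102 [(rh18965a982d73c794.shift 3 2), rh8385407bdb294e4c] (by decide +kernel))
noncomputable def rh0a31bb855c45a2d2 : CRef := CRef.mk (Pat.mk 0x1000000010000000180000000800000000 0x2000000030000000f0000000fe000000ff00000037 8 8) 0 0 (step_sound _ 36 [rh1e87bf36e9e60a85, (rh4983ef42b6c40cbc.shift 1 0), (rhfe557af9112f51d6.shift 1 0)] (by decide +kernel))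
noncomputable def rhe8433327cad6df9d : CRef := CRef.mk (Pat.mk 0x100000001000000018000000000000000000000000 0x1000000010000003f7000001fe000001e70000002000000020 8 10) 0 0 (step_sound _ 101 [(rh046c5eb18e55a239.shift 4 0), (rh9d07d121614e7677.shift 0 2), (rhd5979d9ced4acd89.shift 2 2)] (by decide +kernel))
noncomputable def rhda137cce265b4db8 : CRef := CRef.mk (Pat.mk 0x1000000010000000180000000800000000 0x4000000050000001f7000001fe000003ef00000020 8 10) 0 0 (step_sound _ 69 [(rh0c36da4c80860e4c.shift 2 0), rh0e6a43b21753fb92, (rh785a7352656edb05.shift 0 1), (rhbc097188b38155dd.shift 2 1), rhc83b743fb6d2ae41] (by decide +kernel))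
noncomputable def rh4f851ffacf16f80e : CRef := CRef.mk (Pat.mk 0x20000000200000002000000010000000000000000 0x7000000070000000700000003000000030000000700000006000000070000000500000004 8 3) 0 0 (step_sound _ 66 [(rh2818863d77d69ed0.shift 0 1), (rh47dece01c1595e79.shift 1 0), (rhf69daba3559c65f1.shift 0 2)] (by decide +kernel))
noncomputable def rhb4035a90ff1f2e01 : CRef := CRef.mk (Pat.mk 0x80000000800000008000000040000000000000000 0x1c0000003c0000000f0000001c0000001c00000018 8 6) 0 0 (step_sound _ 67 [(rh932754581e0f4330.shift 2 1), rha9036ee088616a5e] (by decide +kernel))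
noncomputable def rha92c1028e06d8416 : CRef := CRef.mk (Pat.mk 0x1000000018000000080000000800000000 0xc0000000c0000002c000000fc000000fc0000003f0000001f00000014 8 8) 0 0 (step_sound _ 131 [rh1a7ba950a8b51630, rh7bd50060a0df592c, (rhcbaa34959f85e2ef.shift 2 0)] (by decide +kernel))
noncomputable def rha5a96ab64d0c9139 : CRef := CRef.mk (Pat.mk 0x8000000080000000c00000004000000000000000000000000 0x170000001f0000007e0000001f0000000e000000080000000800000008 8 7) 0 0 (step_sound _ 164 [(rh0bb882ba86b2372d.shift 0 4), rh1340b6264a5f6712, (rh4d09c900b3d61f5e.shift 0 2), (rha29e72151be084f7.shift 0 2)] (by decide +kernel))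
noncomputable def rheb526220df426aaa : CRef := CRef.mk (Pat.mk 0x1000000018000000080000000000000000 0x1000000010000001f0000001fe000003ff0000002000000020 8 10) 0 0 (step_sound _ 164 [rh04bee01757c4b4c3, (rh5c5e593799055d58.shift 3 2)] (by decide +kernel))
noncomputable def rh6e37f4bd4e1433d2 : CRef := CRef.mk (Pat.mk 0x1000000018000000080000000800000000 0x28000000780000007e0000001f0000007c00000034 8 7) 0 0 (step_sound _ 66 [(rh56df0ae5f48ae23a.shift 1 0), rhd3137fddc9a993b2, (rhd69c262cd33b94b3.shift 0 2)] (by decide +kernel))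
noncomputable def rh841ef84fc8611fdb : CRef := CRef.mk (Pat.mk 0x1000000018000000080000000800000000 0xc0000007c0000007f000000ff000000ef00000026 8 8) 0 0 (step_sound _ 66 [(rh574fdbf07bdd18b9.shift 0 2), (rh7cff82c873654082.shift 1 0), rhaa040c9fe85fd8e3, (rhd69c262cd33b94b3.shift 0 2)] (by decide +kernel))
noncomputable def rh258e9454a3a34b87 : CRef := CRef.mk (Pat.mk 0x100000001800000008000000080000000000000000 0x100000007f000000ff0000007f0000003000000030 8 8) 0 0 (step_sound _ 98 [(rh69012675dfdb1a5b.shift 0 3), rh939f6f9fa9274505, (rhad05480513a9d9bf.shift 1 1), (rhd69c262cd33b94b3.shift 0 3)] (by decide +kernel))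
noncomputable def rhec37a18e14e3c004 : CRef := CRef.mk (Pat.mk 0x100000001800000008000000080000000000000000 0x64000000740000007f0000007f0000007f0000003600000034 8 7) 0 0 (step_sound _ 98 [(rh69012675dfdb1a5b.shift 0 3), rh7287a049b905c9c9, (rhf01886473a442435.shift 1 0)] (by decide +kernel))
noncomputable def rhf78b8db3680a0c46 : CRef := CRef.mk (Pat.mk 0x1000000010000000080000000000000000 0xc0000003c0000007e000000fc0000001e0000007f0000003c0000001c 8 8) 0 0 (step_sound _ 99 [(rh2fb041970a6592d5.shift 1 1), (rhcf80391c5046a495.shift 3 0), rhe034c8d933eadf47, (rhf9366b6a121593ef.shift 3 0)] (by decide +kernel))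
noncomputable def rh133df594d06516bf : CRef := CRef.mk (Pat.mk 0x80000000800000008000000040000000000000000 0x1c0000001c0000001c0000001c0000001f0000007c000000780000001e0000001800000010 8 7) 0 0 (step_sound _ 68 [(rh47dece01c1595e79.shift 3 0), (rhd59bef5b2ab250af.shift 1 1), (rhf4f4081064ad3b21.shift 0 1), (rhf69daba3559c65f1.shift 2 2)] (by decide +kernel))
noncomputable def rha5a7b16c420e91b3 : CRef := CRef.mk (Pat.mk 0x800000008000000080000000800000000 0x740000007f0000003e000000180000001800000010 8 7) 0 0 (step_sound _ 132 [(rh2f68792b6b779e96.shift 3 1), rh9cdf2e2a7450ff69] (by decide +kernel))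
noncomputable def rh38db12143cef5452 : CRef := CRef.mk (Pat.mk 0x100000001800000008000000080000000000000000 0x80000000c0000004c0000007c0000007e0000006f0000007c0000003600000004 8 7) 0 0 (step_sound _ 98 [(rh3025cef6e824cbb8.shift 0 1), (rh377e5a41b6fcf68b.shift 0 1), (rhd69c262cd33b94b3.shift 0 3), (rhf01886473a442435.shift 1 0)] (by decide +kernel))
noncomputable def rh77a3c19565c82b09 : CRef := CRef.mk (Pat.mk 0x2000000030000000100000000000000000 0x8000003ee000001fe000003bf0000001000000010 8 10) 0 0 (step_sound _ 36 [(rh71222050f2c63a3a.shift 4 0), (rhd4e28ba8ce08da27.shift 0 1)] (by decide +kernel))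
noncomputable def rh15b2851ea4a8e088 : CRef := CRef.mk (Pat.mk 0x8000000080000000c0000000400000000 0x160000003f0000007f0000007f0000000e0000000a 8 7) 0 0 (step_sound _ 100 [(rh0bb882ba86b2372d.shift 0 2), rh4d09c900b3d61f5e, rhe4125d94f0529155, rhf7d28b1a344e486d] (by decide +kernel))
noncomputable def rh328a8a70e52ed906 : CRef := CRef.mk (Pat.mk 0x20000000300000001000000000 0x2800000068000001fe000000fe000000df00000044 8 9) 0 0 (step_sound _ 133 [(rh5c5e593799055d58.shift 4 1), rh6440d2c715d71d3b] (by decide +kernel))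
noncomputable def rh5bc97682f9aecd01 : CRef := CRef.mk (Pat.mk 0x1000000018000000080000000000000000 0x44000001d7000000fe000000ff0000002c00000028 8 9) 0 0 (step_sound _ 35 [rh086c5d84f5b83a03, (rh71222050f2c63a3a.shift 3 0)] (by decide +kernel))
noncomputable def rhfd0acefdd1427dcc : CRef := CRef.mk (Pat.mk 0x20000000200000003000000010000000000000000000000000 0x50000000f00000003e000000ff000000fe0000006e0000004800000008 8 8) 0 0 (step_sound _ 99 [(rh0bb882ba86b2372d.shift 1 3), (rha6c2952ed2dd76c1.shift 1 0), (rhb5fa98fd1a320a81.shift 0 1)] (by decide +kernel))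
noncomputable def rh14f52a6eedc54838 : CRef := CRef.mk (Pat.mk 0x100000001000000018000000080000000000000000 0x4000000050000001f7000001fe000003ef0000002000000020 8 10) 0 0 (step_sound _ 101 [(rh0c36da4c80860e4c.shift 2 1), (rh0e6a43b21753fb92.shift 0 1), (rh785a7352656edb05.shift 0 2), (rhbc097188b38155dd.shift 2 2), rhe2ad5468805b2f6a] (by decide +kernel))
noncomputable def rhebe4fba17030c01a : CRef := CRef.mk (Pat.mk 0x100000001800000008000000080000000000000000 0x6000000770000007f0000003f0000003f0000003400000034 8 7) 0 0 (step_sound _ 98 [(rh02e7bb29240e64f1.shift 1 2), rh344d0d3228acd93c, rhbbdbc974dff2350f, (rhd69c262cd33b94b3.shift 0 3)] (by decide +kernel))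
noncomputable def rh3bba0975853e579f : CRef := CRef.mk (Pat.mk 0x800000008000000080000000c00000000 0x40000000c0000000c0000007f0000007e00000013 8 7) 0 0 (step_sound _ 36 [rh49451842a531dc59, (rh55afc6a59410cf00.shift 3 0)] (by decide +kernel))
noncomputable def rhd02640f2711470cb : CRef := CRef.mk (Pat.mk 0x100000001800000008000000080000000000000000 0x80000000800000028000000fc000000fe0000007f0000003e0000001400000010 8 8) 0 0 (step_sound _ 165 [(rh114c90780e071e76.shift 0 1), (rh69012675dfdb1a5b.shift 1 4), (rhec679f37a5fa74e8.shift 1 0)] (by decide +kernel))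
noncomputable def rhf1eb2463b00b4658 : CRef := CRef.mk (Pat.mk 0x80000000c00000004000000040000000000000000 0x600000006000000160000007c0000007f0000003e0000000f0000000a00000008 8 7) 0 0 (step_sound _ 164 [rh318112755f3009fa, (rh69012675dfdb1a5b.shift 0 4), (rhfada83d5c5cf0c0f.shift 0 1)] (by decide +kernel))
noncomputable def rhffc82b67260b9e53 : CRef := CRef.mk (Pat.mk 0x1000000018000000080000000800000000 0x40000006e0000003f0000001f0000007f0000001e00000014 8 7) 0 0 (step_sound _ 130 [(rh32e53161baf71854.shift 0 1), (rhbab796f6dafe9186.shift 2 1), (rhbd5d669524b54f35.shift 1 0), rhc60761005a73e50c] (by decide +kernel))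
noncomputable def rh10ed9f9472ecbbf4 : CRef := CRef.mk (Pat.mk 0x1000000018000000080000000800000000 0xe0000003f0000007f0000000f0000000c00000004 8 7) 0 0 (step_sound _ 131 [rh7efff25179d37ffa, rhababf7a8dad35a78, (rhcf85c92937975d4d.shift 1 1)] (by decide +kernel))
noncomputable def rhcf259a3b70a2e4e7 : CRef := CRef.mk (Pat.mk 0x100000001800000008000000080000000000000000 0x24000000760000007f0000001f0000003f0000003200000030 8 7) 0 0 (step_sound _ 98 [(rh02e7bb29240e64f1.shift 1 2), (rh69012675dfdb1a5b.shift 0 3), rh7287a049b905c9c9] (by decide +kernel))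
noncomputable def rhf616c77757f6558e : CRef := CRef.mk (Pat.mk 0x10000000180000000c00000000 0xc0000000e0000007f0000007e0000007c00000004 8 7) 0 0 (step_sound _ 69 [(rh18965a982d73c794.shift 2 1), rh4428ad6269385625] (by decide +kernel))
noncomputable def rhca2df7841487111d : CRef := CRef.mk (Pat.mk 0x1000000018000000080000000000000000 0x1000000014000001f6000000fc000001ef0000002800000028 8 9) 0 0 (step_sound _ 164 [(rh5c5e593799055d58.shift 3 2), rh88379ad8e84ed341] (by decide +kernel))
noncomputable def rh7495f5d7b99c33fc : CRef := CRef.mk (Pat.mk 0x10000000180000000800000008 0x4000003f7000001fe000000fe00000008 8 10) 0 0 (step_sound _ 69 [(rh09cd08bf7d5fae33.shift 2 1), (rha8e118612a5545ec.shift 1 0), (rhf3b169b5e429ebc6.shift 0 1)] (by decide +kernel))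
noncomputable def rh0bea8e0e9a380a81 : CRef := CRef.mk (Pat.mk 0x8000000080000000c0000000400000000 0x160000003f0000007f0000007f0000000e0000000a 8 7) 0 0 (step_sound _ 100 [(rh69012675dfdb1a5b.shift 0 2), rhe4125d94f0529155, rhf7d28b1a344e486d] (by decide +kernel))
noncomputable def rh0cfb2bcb0a640487 : CRef := CRef.mk (Pat.mk 0x7000000018000000000000000000000000 0x2000000030000000fe0000007f000000d8000000f80000007c00000008 8 8) 0 0 (step_sound _ 165 [(rh167a658247bf789f.shift 2 0), (rh4821dcf828b9d7bf.shift 4 1), (rh4fe45171b1186db1.shift 0 2), (rh8ba76a019a1305b6.shift 2 1)] (by decide +kernel))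
noncomputable def rh23b990995ecf68d2 : CRef := CRef.mk (Pat.mk 0x180000000e000000000000000000000000 0x3800000038000000380000001f0000003e000000380000001800000018 8 6) 0 0 (step_sound _ 164 [(rh143f2c5525f25a9c.shift 0 2), rh1af2eed4e0065b29, (rhf9366b6a121593ef.shift 3 1)] (by decide +kernel))
noncomputable def rh6af125a668b713fe : CRef := CRef.mk (Pat.mk 0x180000000c00000000000000000000000000000000 0x140000001c0000001c000000180000001c0000000f0000003c0000001c0000001c00000004 8 6) 0 0 (step_sound _ 129 [(rh4aa83904ca7ff69b.shift 1 0), (rh53b3c253cb0c65f4.shift 0 4)] (by decide +kernel))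
noncomputable def rhf260dec03cac3420 : CRef := CRef.mk (Pat.mk 0x1c00000006000000000000000000000000 0x80000000c0000003c0000001f0000003e0000003e0000001f00000002 8 6) 0 0 (step_sound _ 163 [rh167a658247bf789f, (rhadf429772c25fde0.shift 2 1), (rhfb5b3e530894a2ea.shift 0 1)] (by decide +kernel))
noncomputable def rh8ac4da218982de06 : CRef := CRef.mk (Pat.mk 0x180000000c000000000000000000000000 0x40000000e0000001f0000001f000000ff0000000c0000000c0000000c 8 8) 0 0 (step_sound _ 97 [(rh53b3c253cb0c65f4.shift 0 3), rh9f3ead97a6b5af8d] (by decide +kernel))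
noncomputable def rh8b3689d609092403 : CRef := CRef.mk (Pat.mk 0x180000000e00000000000000000000000000000000 0xe0000001f0000001f000000fe0000007c0000001c0000001c00000018 8 8) 0 0 (step_sound _ 98 [rh3612ac50eb6261a3, (rhf5056ebb9239c149.shift 0 1), (rhf9366b6a121593ef.shift 2 1)] (by decide +kernel))
noncomputable def rh1770bf92608f5049 : CRef := CRef.mk (Pat.mk 0x180000000e0000000000000000000000000000000000000000 0x600000036000000370000001f000000fe0000007c0000000c0000001c0000001c00000010 8 8) 0 0 (step_sound _ 131 [(rh2222a27c490588f5.shift 2 0), (rh5f411d50a039df15.shift 0 4), (rh9108ddb537b30afc.shift 0 2), (rh953e410617738e80.shift 2 1)] (by decide +kernel))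
noncomputable def rh1d1459e3ddd886e5 : CRef := CRef.mk (Pat.mk 0x1000000010000000180000000800000000 0x2c0000007e0000007e000000f8000000ff00000074 8 8) 0 0 (step_sound _ 36 [rh3ff576ab9a9b8a15, (rh6412c58679f5f5ab.shift 2 0), (rhf8475ef88dfca71e.shift 1 0)] (by decide +kernel))
noncomputable def rh6816fb81c12fb95c : CRef := CRef.mk (Pat.mk 0x100000001800000008000000080000000000000000 0x80000000c0000000c0000003c000000780000007f0000007c0000003600000004 8 7) 0 0 (step_sound _ 98 [(rh69012675dfdb1a5b.shift 0 3), (rh9eca7c729f870719.shift 1 0), (rhc318c35efd8bee0f.shift 0 1)] (by decide +kernel))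
noncomputable def rha14dd116e552264d : CRef := CRef.mk (Pat.mk 0x80000001c0000000400000000 0x800000008000001df000000ff000000f400000010 8 9) 0 0 (step_sound _ 131 [(rh5c5e593799055d58.shift 2 1), rhfb0070adaf771ad8] (by decide +kernel))
noncomputable def rhc0cf9b53896fc39b : CRef := CRef.mk (Pat.mk 0x10000000380000000800000000 0x1c0000001e0000007e0000007f0000003800000010 8 7) 0 0 (step_sound _ 132 [(rh5c5e593799055d58.shift 3 1), rhc2a8f5dfd2e8870f] (by decide +kernel))
noncomputable def rhbae1684660e1cf84 : CRef := CRef.mk (Pat.mk 0x380000000800000000 0x3c0000003c000000ff000000fc000000d800000058 8 8) 0 0 (step_sound _ 99 [(rh8cda118e73192ffa.shift 2 1), (rh8cdf945262f9c911.shift 2 0), rh9c6973f47fb25921] (by decide +kernel))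
noncomputable def rh709cb826d1fec7db : CRef := CRef.mk (Pat.mk 0x1c000000040000000000000000 0x800000028000000f80000007f000000fc0000001600000014 8 8) 0 0 (step_sound _ 131 [rh62e931f8ec45c70a, (rhadf429772c25fde0.shift 2 0), (rhc443e772b4c18304.shift 1 0)] (by decide +kernel))
noncomputable def rh05b8532f36ce0907 : CRef := CRef.mk (Pat.mk 0x70000000100000000000000000 0x2800000028000000fe0000007e000000f70000005000000010 8 8) 0 0 (step_sound _ 133 [(rh22f465ef593e9a48.shift 1 0), (rhadf429772c25fde0.shift 4 0), (rhe288f728cf3077fd.shift 0 1)] (by decide +kernel))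
noncomputable def rh45058c318ab1c93b : CRef := CRef.mk (Pat.mk 0x180000000c000000000000000000000000 0x140000001c0000003c0000000f0000007c0000000c0000001c0000001c00000014 8 7) 0 0 (step_sound _ 133 [rh12feeec4d1c78f66, (rh18965a982d73c794.shift 2 3)] (by decide +kernel))
noncomputable def rhd16d608df2aeaa62 : CRef := CRef.mk (Pat.mk 0x300000000c000000000000000000000000 0x4000000040000000e0000001f0000007a0000000f0000003e0000001400000004 8 7) 0 0 (step_sound _ 131 [(rh18965a982d73c794.shift 2 3), rh400efd3fc92329a7] (by decide +kernel))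
noncomputable def rhf0de7ca61fa69600 : CRef := CRef.mk (Pat.mk 0x300000000800000000 0x100000001000000070000000fe0000007f00000020 8 8) 0 0 (step_sound _ 34 [(rh3f3022fe0d91ad44.shift 1 0), (rh7401e8cf466f4e5b.shift 0 1), (rhaff4d66ab2235e4f.shift 2 1), (rhfe7c844806756e31.shift 1 1)] (by decide +kernel))
noncomputable def rh8e939982bd8565eb : CRef := CRef.mk (Pat.mk 0x80000001c0000000400000000 0xe0000000f0000003f0000001f0000003c00000018 8 6) 0 0 (step_sound _ 131 [(rh5c5e593799055d58.shift 2 1), rhace7d257f7cc22ea] (by decide +kernel))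
noncomputable def rha7f6f8d2a8f50249 : CRef := CRef.mk (Pat.mk 0xf000000000 0xe7000000fe000001c7 8 9) 0 0 (step_sound _ 7 [rhcd7d2b841f4b65a7, (rhe25b0a99195a5d59.shift 4 0)] (by decide +kernel))
noncomputable def rh0760b3fc8a661d7d : CRef := CRef.mk (Pat.mk 0x1c00000004000000000000000000000000 0x80000001c0000003c0000001f0000003f0000001f0000000e00000002 8 6) 0 0 (step_sound _ 129 [(rh27d95a0f8f38f55d.shift 0 2), (rh4600baaf8ed39491.shift 0 1), (rh4e9101e89b88eb2f.shift 0 2), (rhcf6c469f5d636637.shift 0 1), rhf4f1a03a19e2b36a] (by decide +kernel))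
noncomputable def rh2bce802820f335c5 : CRef := CRef.mk (Pat.mk 0x7000000010000000000000000000000000 0x2000000070000000f70000007f000000ff0000006c0000002800000008 8 8) 0 0 (step_sound _ 131 [(rh4e9101e89b88eb2f.shift 2 2), (rh551b573f8a641130.shift 0 3), (rha2f21a9ef0fe7654.shift 0 3), (rhcf6c469f5d636637.shift 2 1), (rhf459621b93742302.shift 2 1), (rhf4f1a03a19e2b36a.shift 2 0)] (by decide +kernel))
noncomputable def rh6e9901d18437ed64 : CRef := CRef.mk (Pat.mk 0x380000000c000000000000000000000000 0xc0000000c0000000f0000003e0000007c000000060000000600000006 8 7) 0 0 (step_sound _ 130 [(rh205bbac36a8896ec.shift 1 0), (rh2456963ff1f7bf23.shift 0 3), (rhe15dbef4916f64a8.shift 1 1)] (by decide +kernel))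
noncomputable def rh569def456e9fea77 : CRef := CRef.mk (Pat.mk 0x1c00000006000000000000000000000000 0xe0000000f0000003f0000001f00000036000000130000000300000003 8 6) 0 0 (step_sound _ 129 [(rh1aded9edf2cf7032.shift 0 2), rh205bbac36a8896ec, (rhf41a34b41b8c2138.shift 0 2)] (by decide +kernel))
noncomputable def rh399c68fab305541f : CRef := CRef.mk (Pat.mk 0x70000000100000000000000000 0x2800000028000000fe0000007e000000f70000005000000010 8 8) 0 0 (step_sound _ 133 [(rh1f2d77c949494229.shift 0 1), (rh82cc2deab149c31d.shift 2 0), (rhadf429772c25fde0.shift 4 0)] (by decide +kernel))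
noncomputable def rhcf106aebdbc42022 : CRef := CRef.mk (Pat.mk 0x70000000100000000000000000 0x2000000028000000fe0000007e000000df0000005000000010 8 8) 0 0 (step_sound _ 133 [(rh1f2d77c949494229.shift 0 1), (rh4821dcf828b9d7bf.shift 4 0), (rhc2680b32c4ede2b7.shift 2 0)] (by decide +kernel))
noncomputable def rh2549c32e4b9e1f42 : CRef := CRef.mk (Pat.mk 0x80000001c0000000400000000 0x1c0000001c0000001f0000001c0000007f0000003b 8 7) 0 0 (step_sound _ 131 [(rh5c5e593799055d58.shift 2 1), rha935311441d156b7] (by decide +kernel))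
noncomputable def rh71c4e644d4aceb59 : CRef := CRef.mk (Pat.mk 0x80000001c000000040000000000000000 0x600000006000000060000000f0000001c0000003f0000000f0000000e 8 6) 0 0 (step_sound _ 34 [(rh71222050f2c63a3a.shift 2 0), rh821aebd50f7b9a42] (by decide +kernel))
noncomputable def rh883e2980a8b66908 : CRef := CRef.mk (Pat.mk 0x180000000e000000000000000000000000 0x140000001c0000001e0000001f0000007a0000000e0000000e0000000c00000004 8 7) 0 0 (step_sound _ 133 [(rh18965a982d73c794.shift 2 3), rh340d9967e9596d98] (by decide +kernel))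
noncomputable def rh103ab8fd9f25fd14 : CRef := CRef.mk (Pat.mk 0x180000000e0000000000000000 0x8000000080000001c0000001e0000007f0000001b0000003e0000002f0000000c 8 7) 0 0 (step_sound _ 132 [(rh4821dcf828b9d7bf.shift 3 0), (rh918b0812210e34aa.shift 0 1), rh9568a40364e9a09a, (rhadf429772c25fde0.shift 3 0)] (by decide +kernel))
noncomputable def rh36ad3bc394d4f9ef : CRef := CRef.mk (Pat.mk 0x1c000000060000000000000000 0x1e0000001f0000003f0000001c0000007e0000007700000006 8 7) 0 0 (step_sound _ 131 [(rh68633b6071a8b2e4.shift 0 1), (rhadf429772c25fde0.shift 2 0), rhbe253d1426d5780c] (by decide +kernel))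
noncomputable def rh98e3e23fa4dc3226 : CRef := CRef.mk (Pat.mk 0x10000000380000000800000000 0x5000000050000001f7000001fe000003e800000020 8 10) 0 0 (step_sound _ 132 [rh0e6a43b21753fb92, (rh5c5e593799055d58.shift 3 1)] (by decide +kernel))
noncomputable def rh2b0d8c49fa1868d4 : CRef := CRef.mk (Pat.mk 0x70000000100000000000000000 0x2000000028000000fe0000007e000000df0000005000000010 8 8) 0 0 (step_sound _ 133 [(rh4821dcf828b9d7bf.shift 4 0), (rhc2680b32c4ede2b7.shift 2 0), (rhf3119acce0bf1071.shift 0 1)] (by decide +kernel))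
noncomputable def rh18459727192135aa : CRef := CRef.mk (Pat.mk 0xe0000000200000000 0x8000000080000003f0000003f0000003300000010 8 6) 0 0 (step_sound _ 68 [rh80b2ce5fa05a7dfc, (rheb0810cc63b001d8.shift 0 1)] (by decide +kernel))
noncomputable def rhb929528e0f5ea0a8 : CRef := CRef.mk (Pat.mk 0x180000000e000000000000000000000000 0xb0000000b0000001f000000fe0000000f0000000400000004 8 8) 0 0 (step_sound _ 66 [(rh20eb43bc20454f5e.shift 0 2), rh846b171e1ea44eb6, (rhadf429772c25fde0.shift 2 0)] (by decide +kernel))
noncomputable def rh51a19ddb7470fe83 : CRef := CRef.mk (Pat.mk 0x180000000e00000000000000000000000000000000 0x10000000370000001f0000007e0000007f0000003c0000003c00000004 8 7) 0 0 (step_sound _ 99 [(rh15590a39afd9a120.shift 2 0), (rh3195818a4dedfd5b.shift 0 1), (rh953e410617738e80.shift 2 0), (rhdbab522d5da2281b.shift 0 1)] (by decide +kernel))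
noncomputable def rhdc28e5b35a57b79e : CRef := CRef.mk (Pat.mk 0x180000000e000000000000000000000000 0x1a0000001a0000001b000000fe0000007f0000001c00000004 8 8) 0 0 (step_sound _ 66 [rh2cfc87a36ba8132d, (rh471c9edde87ddc5c.shift 1 1), (rhcf80391c5046a495.shift 2 0), rhf516498412bde7a9] (by decide +kernel))
noncomputable def rh3f8207a1e84f8984 : CRef := CRef.mk (Pat.mk 0x300000001c0000000000000000 0x6000000070000000700000003f0000007c0000007000000030 8 7) 0 0 (step_sound _ 133 [(rh262452ce8c1f8def.shift 1 1), rhb647a734cd696499, (rhf9366b6a121593ef.shift 4 0)] (by decide +kernel))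
noncomputable def rh4be538f110f025d4 : CRef := CRef.mk (Pat.mk 0x180000000e000000000000000000000000 0xa0000000a0000001f000000fe000000f70000003e0000003e 8 8) 0 0 (step_sound _ 34 [(rh00d6a6e3c7e3bb40.shift 2 0), rh2aecbe614d87fc01, rh3ed52b80ebd9a237, rh8b6cc02b2bac433f, rhe26a032c48286cb0] (by decide +kernel))
noncomputable def rh750c3480f061c361 : CRef := CRef.mk (Pat.mk 0x300000001c000000000000000000000000 0x300000007e0000003f0000001c0000007c0000003e0000001c 8 7) 0 0 (step_sound _ 67 [rh38353064eb08e5cb, (rh471c9edde87ddc5c.shift 2 1), (rhf9366b6a121593ef.shift 3 0)] (by decide +kernel))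
noncomputable def rhfb569ab2681674c1 : CRef := CRef.mk (Pat.mk 0x180000000e00000000000000000000000000000000 0x100000003c0000001f0000007e0000007f000000380000003800000010 8 7) 0 0 (step_sound _ 99 [(rh000637b5a81e86aa.shift 2 1), (rh3195818a4dedfd5b.shift 0 1), (rhdfc9ab5f307912cb.shift 1 0)] (by decide +kernel))
noncomputable def rh123e51219d7f7d8f : CRef := CRef.mk (Pat.mk 0x180000000e000000000000000000000000 0x10000000380000003e0000003f0000003800000018 8 6) 0 0 (step_sound _ 100 [(rh33e738c4ed385b9f.shift 1 3), rhf7ae7d43a9e2b9a7] (by decide +kernel))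
noncomputable def rh4c96199ade3ccb1f : CRef := CRef.mk (Pat.mk 0xc000000070000000000000000000000000000000000000000 0x80000000c0000001c0000003c000000170000003e0000001e0000000e0000000e00000002 8 6) 0 0 (step_sound _ 196 [(rh18965a982d73c794.shift 1 5), rh4843937c35648619] (by decide +kernel))
noncomputable def rhfd18efd5ca09cbdb : CRef := CRef.mk (Pat.mk 0x180000000e000000000000000000000000 0x800000018000000180000003e0000003f0000003c0000001c 8 6) 0 0 (step_sound _ 100 [rh9cf1eae2eabf38ec, (rhbbe16ff26f7822db.shift 1 0), rhf7ae7d43a9e2b9a7] (by decide +kernel))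
noncomputable def rh074d71c818862774 : CRef := CRef.mk (Pat.mk 0x1c00000006000000000000000000000000 0xc0000001c0000001c0000001c0000007e0000003f0000001f0000000a 8 7) 0 0 (step_sound _ 163 [rh167a658247bf789f, rh739a6241251e8702, (rhadf429772c25fde0.shift 2 1)] (by decide +kernel))
noncomputable def rh6eb57d755f0b9d44 : CRef := CRef.mk (Pat.mk 0x70000000100000000000000000 0x2000000028000000fe0000007e000000df0000005000000010 8 8) 0 0 (step_sound _ 133 [(rh4821dcf828b9d7bf.shift 4 0), (rhc2680b32c4ede2b7.shift 2 0), (rhe288f728cf3077fd.shift 0 1)] (by decide +kernel))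
noncomputable def rhe4c60c51ea0d2a5a : CRef := CRef.mk (Pat.mk 0xf000000020000000000000000 0xc0000000c0000001c0000000f0000001e0000003e0000001c 8 6) 0 0 (step_sound _ 67 [rh4808c64a618b436c, (rhe25b0a99195a5d59.shift 0 2)] (by decide +kernel))
noncomputable def rh6f3af326e283fc0c : CRef := CRef.mk (Pat.mk 0x1c00000006000000000000000000000000 0x2000000060000000e0000001e0000003e0000003e0000003f0000000e 8 6) 0 0 (step_sound _ 66 [(rh0b3b83c1f889e91d.shift 1 1), (rh9bb5c7e5c08d4582.shift 1 0), rhfae63af10f2f2e34] (by decide +kernel))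
noncomputable def rh9d4518297b4f98ca : CRef := CRef.mk (Pat.mk 0x18000000080000000000000000 0x1c0000001e0000007f0000007f0000007b0000003a 8 7) 0 0 (step_sound _ 66 [(rh08dc24c4b35e4d46.shift 1 0), (rh0bb882ba86b2372d.shift 0 2), (rh69012675dfdb1a5b.shift 0 2), rh74b9253b4ff61667] (by decide +kernel))
noncomputable def rh05c84a11045f632a : CRef := CRef.mk (Pat.mk 0x300000001c000000000000000000000000 0x200000007c0000003f0000003f0000001c0000007f0000001e0000001c 8 7) 0 0 (step_sound _ 67 [rh9eee07983f68aea5, (rhbfa839c5927cd3d1.shift 0 1), (rhf9366b6a121593ef.shift 3 0)] (by decide +kernel))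
noncomputable def rhb84788f4f233571f : CRef := CRef.mk (Pat.mk 0x7000000018000000000000000000000000 0x8000000180000003e00000078000000180000001f0000007c0000003c 8 7) 0 0 (step_sound _ 67 [(rh4821dcf828b9d7bf.shift 3 0), rh50dd5e58f1cd6424, (rhadf429772c25fde0.shift 3 0), (rhb1bde2fedbcf7a62.shift 1 1)] (by decide +kernel))
noncomputable def rh016aa5f06141568a : CRef := CRef.mk (Pat.mk 0x300000001c000000000000000000000000 0x3c0000003e0000003e0000007c0000001f0000001a00000008 8 7) 0 0 (step_sound _ 67 [(rh2ffc30c3d15f79d3.shift 0 1), (rh40867c009ec4d469.shift 1 0), (rhf9366b6a121593ef.shift 3 0)] (by decide +kernel))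
noncomputable def rh5af5c4a535cd9049 : CRef := CRef.mk (Pat.mk 0x1c00000006000000000000000000000000 0x80000000c0000000c0000000c0000001f0000003e0000003e0000003e0000000a 8 6) 0 0 (step_sound _ 162 [(rh60a72be31cced53c.shift 1 0), (rhbb339bb7e4e96b38.shift 1 2), (rhcd00790315484dbb.shift 0 2), (rhcd32f2ed6c1181e7.shift 1 2)] (by decide +kernel))
noncomputable def rh628fefbbe566ac73 : CRef := CRef.mk (Pat.mk 0x380000000c000000000000000000000000 0x40000000c0000001c0000001f000000380000001c0000007c0000007c00000014 8 7) 0 0 (step_sound _ 163 [(rh107535a86ee6c95d.shift 2 0), (rh4fa02edefd3dd027.shift 0 1), (rhbb339bb7e4e96b38.shift 2 2)] (by decide +kernel))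
noncomputable def rhe3334944bc026fbc : CRef := CRef.mk (Pat.mk 0x300000001c00000000000000000000000000000000 0x1c0000001f0000003f0000001c0000007f0000003c0000003c00000010 8 7) 0 0 (step_sound _ 99 [(rhcf80391c5046a495.shift 3 1), (rhde7194d2a48d97b6.shift 1 0), (rhe614f5555dfb0362.shift 0 1), (rhf9366b6a121593ef.shift 3 1)] (by decide +kernel))
noncomputable def rh5802ee4bb8e5d024 : CRef := CRef.mk (Pat.mk 0x1000000018000000080000000800000000 0x8000000080000000f0000001f0000001c0000007f0000007e00000034 8 7) 0 0 (step_sound _ 131 [(rh1f8790d8851d9374.shift 2 0), rh53d9354c306d773e, (rh85480f11efc1e555.shift 1 0), (rhd802bb8339359eae.shift 1 0)] (by decide +kernel))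
noncomputable def rhb79593cf1bb4f52e : CRef := CRef.mk (Pat.mk 0x70000000180000000000000000 0x200000003c0000003f0000003e0000007f000000f80000002c0000000c 8 8) 0 0 (step_sound _ 132 [(rh7a7e08304268422e.shift 3 1), (rhbb339bb7e4e96b38.shift 3 1), (rhcd32f2ed6c1181e7.shift 3 1), (rhf2779613ed230f5f.shift 0 1), rhf8784390e1d25ab4] (by decide +kernel))
noncomputable def rh78570540ea94dfd3 : CRef := CRef.mk (Pat.mk 0x18000000080000000000000000 0xc0000003c0000007c0000001f0000003c000000f80000003e0000001c 8 8) 0 0 (step_sound _ 132 [(rhadf429772c25fde0.shift 3 0), (rhdb26dfe50eb4e6f1.shift 1 1), rhe68757c0c03a7c92, (rhf9366b6a121593ef.shift 3 0)] (by decide +kernel))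
noncomputable def rh93522aa02102e786 : CRef := CRef.mk (Pat.mk 0x8000000080000000c00000004000000000000000000000000 0x170000001f0000007c0000001f0000000c000000080000000800000008 8 7) 0 0 (step_sound _ 164 [rh1340b6264a5f6712, (rh574fdbf07bdd18b9.shift 0 4), (rha29e72151be084f7.shift 0 2)] (by decide +kernel))
noncomputable def rhcf999fb1fbbf5349 : CRef := CRef.mk (Pat.mk 0x1000000018000000080000000800000000 0x28000000780000007e0000001f0000007c00000034 8 7) 0 0 (step_sound _ 66 [rh2a61bf30458103a1, (rh56df0ae5f48ae23a.shift 1 0), (rhd69c262cd33b94b3.shift 0 2)] (by decide +kernel))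
noncomputable def rh5b0904626909bb95 : CRef := CRef.mk (Pat.mk 0x8000000080000000c00000004000000000000000000000000 0x170000001f0000007c0000001f0000000c000000080000000800000008 8 7) 0 0 (step_sound _ 164 [(rh0bb882ba86b2372d.shift 0 4), rh1340b6264a5f6712, (rh574fdbf07bdd18b9.shift 0 4), (rha29e72151be084f7.shift 0 2)] (by decide +kernel))
noncomputable def rh8128df0d70bc15fe : CRef := CRef.mk (Pat.mk 0x100000001800000008000000080000000000000000 0xa0000007b0000007f0000007f0000006f0000002400000004 8 7) 0 0 (step_sound _ 98 [rh344d0d3228acd93c, (rh574fdbf07bdd18b9.shift 0 3), (rh7cff82c873654082.shift 1 1), (rhd69c262cd33b94b3.shift 0 3)] (by decide +kernel))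
noncomputable def rh1287c850604c28f1 : CRef := CRef.mk (Pat.mk 0x10000000100000001800000008000000000000000000000000 0x80000001800000018000000fc000000ff000000370000003000000030 8 8) 0 0 (step_sound _ 100 [(rh36d4d92ef3dad5f8.shift 2 2), (rhd709786844eae870.shift 0 2), (rhdd11e03a2f8b13b6.shift 3 0)] (by decide +kernel))
noncomputable def rh406233a16079752d : CRef := CRef.mk (Pat.mk 0x100000001800000008000000080000000000000000 0x80000000800000008000000180000007c0000007f0000007c0000003600000004 8 7) 0 0 (step_sound _ 98 [(rh46fb05831a1b239b.shift 1 0), (rh69012675dfdb1a5b.shift 0 3), (rhd28f66e86fda7dee.shift 0 1), (rhd69c262cd33b94b3.shift 0 3)] (by decide +kernel))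
noncomputable def rh5bbf011a3a468285 : CRef := CRef.mk (Pat.mk 0x1000000018000000080000000800000000 0xc0000000c0000002c000000780000001f0000007f000000fe00000034 8 8) 0 0 (step_sound _ 131 [(rh0ef6c71ce89c1c36.shift 2 0), rh6145e2b9d0c1aad7, (rh85480f11efc1e555.shift 1 0)] (by decide +kernel))
noncomputable def rh9b510577c553ce31 : CRef := CRef.mk (Pat.mk 0x100000001000000018000000080000000000000000 0x10000001f0000000fe000001ef0000007c00000028 8 9) 0 0 (step_sound _ 35 [rh573cc4e777f44507, (rh71222050f2c63a3a.shift 3 0)] (by decide +kernel))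
noncomputable def rh50b011823d41630c : CRef := CRef.mk (Pat.mk 0x40000000600000002000000000 0x4000000040000007ef000003fe000003be00000080 8 11) 0 0 (step_sound _ 134 [(rh5c5e593799055d58.shift 5 1), rh643842241549f6ce] (by decide +kernel))
noncomputable def rh34f9467cb6c85a3b : CRef := CRef.mk (Pat.mk 0x2000000030000000100000001000000000 0x3f7000001fe000003df000000f000000060 8 10) 0 0 (step_sound _ 102 [(rh2820ca9a6c4f41b4.shift 1 2), rh7427f958eb581c5a, (rhfa35e196e150edb4.shift 3 2), (rhfc4a6c9741c3b285.shift 0 2)] (by decide +kernel))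
noncomputable def rh1679a34c73a06ebf : CRef := CRef.mk (Pat.mk 0x1000000018000000080000000800000000 0xf0000001f0000007c0000000f0000000c00000004 8 7) 0 0 (step_sound _ 131 [rh7efff25179d37ffa, (rhcf85c92937975d4d.shift 1 1), rhe23dc28a598900d7] (by decide +kernel))
noncomputable def rh0ecec64930248e2a : CRef := CRef.mk (Pat.mk 0x10000000180000000800000000 0x3c0000003e000000f80000007c0000001f00000014 8 8) 0 0 (step_sound _ 132 [(rh5c5e593799055d58.shift 3 1), rhbd6ec33cd75005ad] (by decide +kernel))
noncomputable def rha49876448236d2cd : CRef := CRef.mk (Pat.mk 0x8000000080000000c0000000400000000 0x160000003f0000007f0000007c0000007c00000078 8 7) 0 0 (step_sound _ 35 [(rh1bd0c14c4de1ef4d.shift 1 0), (rh51499fad2812bafd.shift 2 0), rh5ee4dc8825dcefa0, (rh6a80830a961e29a0.shift 2 0), rhf8475ef88dfca71e] (by decide +kernel))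
noncomputable def rhbeb7a49731325e1e : CRef := CRef.mk (Pat.mk 0x100000001800000008000000080000000000000000 0x4000000160000007c000000ff0000007f0000003000000030 8 8) 0 0 (step_sound _ 98 [(rh69012675dfdb1a5b.shift 0 3), (rhbba2a7979e807562.shift 1 1), (rhd69c262cd33b94b3.shift 0 3), rhfe80705680bf5d22] (by decide +kernel))
noncomputable def rh1d40d3144405ec83 : CRef := CRef.mk (Pat.mk 0x80000000c000000040000000000000000 0x1c0000003c0000000f0000007e0000007e0000001800000010 8 7) 0 0 (step_sound _ 163 [rh115477d207dc3b32, (rh5c5e593799055d58.shift 2 2)] (by decide +kernel))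
noncomputable def rh3866d612ba924ddc : CRef := CRef.mk (Pat.mk 0x1000000010000000180000000800000000 0x60000000600000007e000000fe000000fc000000ef00000064 8 8) 0 0 (step_sound _ 101 [(rh537c3d64fb6d9a96.shift 1 2), rh9e34b7797516451e, (rhd25ccdd47059fa78.shift 2 1), (rhe4125d94f0529155.shift 1 0)] (by decide +kernel))
noncomputable def rh50205963067f2935 : CRef := CRef.mk (Pat.mk 0x1000000018000000080000000000000000 0x1000000014000001f6000000fc000001ef0000002800000028 8 9) 0 0 (step_sound _ 35 [rh396e52b7ee61c4e0, (rh71222050f2c63a3a.shift 3 0)] (by decide +kernel))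
noncomputable def rha622ea91adea8d90 : CRef := CRef.mk (Pat.mk 0x40000000400000006000000020000000000000000 0xa0000001f0000007c0000007e000000ff0000001c0000001c 8 8) 0 0 (step_sound _ 100 [rh09eda300e93b3f13, rh594609ce2b798654, rh70257badbfe23da7, (rh7ac97608c09a050b.shift 0 2), (rhff31253ebd355126.shift 0 1)] (by decide +kernel))
noncomputable def rhc01f1059e94f1f10 : CRef := CRef.mk (Pat.mk 0x80000000800000008000000040000000000000000 0x140000001c0000001c0000003e0000007f0000001b00000010 8 7) 0 0 (step_sound _ 67 [(rh00c644645561e9be.shift 2 1), (rh2c6da238d0858eea.shift 0 1), (rhc9de03f9731897d4.shift 3 0)] (by decide +kernel))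
noncomputable def rha010982fc45f72f4 : CRef := CRef.mk (Pat.mk 0x1000000018000000080000000800000000 0x28000000380000007c0000007f0000007c00000036 8 7) 0 0 (step_sound _ 66 [(rh5083e271c0a93e58.shift 1 0), rhd3137fddc9a993b2, (rhd69c262cd33b94b3.shift 0 2)] (by decide +kernel))
noncomputable def rhd245274575b526fb : CRef := CRef.mk (Pat.mk 0x1000000018000000080000000000000000 0xc0000001e0000007c0000000f0000003c0000001c 8 7) 0 0 (step_sound _ 35 [(rh71222050f2c63a3a.shift 3 0), rhb85240bc46497d23] (by decide +kernel))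
noncomputable def rhc431fceb4c0acbf7 : CRef := CRef.mk (Pat.mk 0x80000000c000000060000000000000000 0x3000000230000007f0000003e0000007e0000003000000030 8 7) 0 0 (step_sound _ 100 [(rh18965a982d73c794.shift 1 2), rhcfa7c310b58e3424] (by decide +kernel))
noncomputable def rh1b0def43ddad5009 : CRef := CRef.mk (Pat.mk 0x1000000018000000080000000800000000 0xc0000002c0000003c0000007c0000007f0000007c00000036 8 7) 0 0 (step_sound _ 66 [(rh0bb882ba86b2372d.shift 0 2), (rh5083e271c0a93e58.shift 1 0), rh8dcdda43426723b6] (by decide +kernel))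
noncomputable def rh90937bb857bca92a : CRef := CRef.mk (Pat.mk 0x8000000080000000c0000000400000000 0x30000000300000003f0000007f0000007e0000007600000032 8 7) 0 0 (step_sound _ 100 [(rh537c3d64fb6d9a96.shift 0 2), (rh9b4a4457494256d0.shift 1 0), (rhac7e54e5b91a5d02.shift 1 0), (rhd25ccdd47059fa78.shift 1 1), rhe4125d94f0529155] (by decide +kernel))
noncomputable def rh157bd81da3b8d9af : CRef := CRef.mk (Pat.mk 0x2000000020000000100000001000000000 0x280000007c000001ef000000fc000000dc0000005000000010 8 9) 0 0 (step_sound _ 100 [(rh1117f199fc4bc252.shift 0 1), (rh71222050f2c63a3a.shift 4 0)] (by decide +kernel))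
noncomputable def rh18818eb6a5788289 : CRef := CRef.mk (Pat.mk 0x1000000018000000080000000800000000 0x8000000080000006f0000007f0000001f0000003c0000001c00000014 8 7) 0 0 (step_sound _ 98 [rh08c4bb78e411a62a, rh1d6478cafaa34461, rh4e144d9db702aa94, (rh5dec5e73a267a1c4.shift 0 2)] (by decide +kernel))
noncomputable def rhcc0c2ae0d3b24cf0 : CRef := CRef.mk (Pat.mk 0x1000000018000000080000000800000000 0x40000007f7000003ff000007fc0000007800000070 8 11) 0 0 (step_sound _ 101 [(rh09cd08bf7d5fae33.shift 2 2), (rh0d53ff10fbe74866.shift 2 2), rh5e98a4288c4ec5c8, (rhc9a8ca1528939fa3.shift 0 2), (rhc9e4cc1d7b554c71.shift 2 0)] (by decide +kernel))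
noncomputable def rh68cb1a0deaa5c18d : CRef := CRef.mk (Pat.mk 0x180000000c000000040000000000000000 0x2000000130000001f0000003f0000003c0000007800000038 8 7) 0 0 (step_sound _ 97 [rh4218efa1311bc211, (rh53b3c253cb0c65f4.shift 0 3)] (by decide +kernel))
noncomputable def rh22a2cfe39f5d8e58 : CRef := CRef.mk (Pat.mk 0x30000000180000000000000000 0x280000006f000000ff000000f8000000d000000050 8 8) 0 0 (step_sound _ 102 [(rh18965a982d73c794.shift 3 2), rhe8513358f1270d46] (by decide +kernel))
noncomputable def rhc419c259d066d8e4 : CRef := CRef.mk (Pat.mk 0x10000000180000000800000008 0x200000002000000170000003f0000001f0000000c00000008 8 6) 0 0 (step_sound _ 99 [(rh2f68792b6b779e96.shift 3 0), rhffb1f2cfe3a9c803] (by decide +kernel))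
noncomputable def rhc03f2e2d797254a7 : CRef := CRef.mk (Pat.mk 0x2000000030000000100000000000000000 0x280000007c000001ef000000fc000000dc0000005000000010 8 9) 0 0 (step_sound _ 165 [(rh5c5e593799055d58.shift 4 2), rh65268f14fd188cfa] (by decide +kernel))
noncomputable def rh02edf5a70b2cf94a : CRef := CRef.mk (Pat.mk 0x80000000c0000000400000000 0x80000003f0000007f0000007f0000003700000012 8 7) 0 0 (step_sound _ 131 [(rh5c5e593799055d58.shift 2 1), rhe4ce490a4a2f11c8] (by decide +kernel))
noncomputable def rheb0dd631882cba3b : CRef := CRef.mk (Pat.mk 0x1000000018000000080000000800000000 0x28000000fc000000fe0000003f0000001f00000014 8 8) 0 0 (step_sound _ 131 [(rh60f7890073fd1121.shift 1 0), rh7bd50060a0df592c, rh7efff25179d37ffa] (by decide +kernel))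
noncomputable def rhd1ee866c3f687ff7 : CRef := CRef.mk (Pat.mk 0x200000002000000030000000100000000000000000 0x1000000050000000f4000001fe000000ff0000007e0000002e00000008 8 9) 0 0 (step_sound _ 67 [(rh0babe0a26b150f36.shift 2 1), (rh0bb882ba86b2372d.shift 1 2), (rh574fdbf07bdd18b9.shift 1 2), rhcf6c6fa3e4f2c980] (by decide +kernel))
noncomputable def rh1fd4ecd415105b04 : CRef := CRef.mk (Pat.mk 0x300000001c000000000000000000000000 0x3000000070000000700000003f0000007c0000003e0000003800000008 8 7) 0 0 (step_sound _ 165 [(rh1fb8561bef7ed0cf.shift 1 0), (rh5fd16c744f5779d9.shift 0 2), (rhcf80391c5046a495.shift 4 1), (rhf9366b6a121593ef.shift 4 1)] (by decide +kernel))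
noncomputable def rhb0d7af6f78ea1b59 : CRef := CRef.mk (Pat.mk 0x180000000e000000000000000000000000 0x80000003c0000007e0000001f0000001b0000003e0000001f0000000c00000004 8 7) 0 0 (step_sound _ 164 [(rh44d31e7d6516e5b1.shift 0 1), (rhcf80391c5046a495.shift 3 1), rheb75ce811ca68ceb, (rhf9366b6a121593ef.shift 3 1)] (by decide +kernel))
noncomputable def rh3c9620ebf55034ad : CRef := CRef.mk (Pat.mk 0x8000000080000000c0000000400000000 0x120000003f0000007f0000007f0000006700000020 8 7) 0 0 (step_sound _ 100 [(rh0bb882ba86b2372d.shift 0 2), (rh574fdbf07bdd18b9.shift 0 2), rh699811eb130bf8fd, (rh9baf157b2323d5ca.shift 0 1)] (by decide +kernel))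
noncomputable def rh91c6c70284c0993d : CRef := CRef.mk (Pat.mk 0x1000000018000000080000000800000000 0x40000000c000000ff0000007f0000000f0000001c00000014 8 8) 0 0 (step_sound _ 131 [rh7efff25179d37ffa, rhccc5eb251906b4a4, (rhcf85c92937975d4d.shift 1 1)] (by decide +kernel))
noncomputable def rh5a7dd799270a0a36 : CRef := CRef.mk (Pat.mk 0x8000000080000000c00000004000000000000000000000000 0x160000003f0000007f0000007f0000000e0000000a0000000800000008 8 7) 0 0 (step_sound _ 164 [(rh0bb882ba86b2372d.shift 0 4), (rh4d09c900b3d61f5e.shift 0 2), rh5684f24bf38b12d7, (rhe4125d94f0529155.shift 0 2)] (by decide +kernel))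
noncomputable def rh0c81991b90f6c4a9 : CRef := CRef.mk (Pat.mk 0x180000000e00000000000000000000000000000000 0x600000016000000370000001f000000fe0000001f0000007e0000001c00000004 8 8) 0 0 (step_sound _ 99 [(rh52223a67bafc1671.shift 0 1), (rh719fb4967bdabf59.shift 0 1), (rh76c429ccda6eea3e.shift 0 1), (rh953e410617738e80.shift 2 0)] (by decide +kernel))
noncomputable def rh832764a61e433510 : CRef := CRef.mk (Pat.mk 0x10000000100000001800000008000000000000000000000000 0x280000003c000000f8000000f8000000ff000000170000001000000010 8 8) 0 0 (step_sound _ 100 [(rh3502d92c6cce609b.shift 3 0), (rhab3c3f3ae8c9664f.shift 2 2), (rhd709786844eae870.shift 0 2)] (by decide +kernel))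
noncomputable def rh00dfeba44d986030 : CRef := CRef.mk (Pat.mk 0x1000000010000000180000000800000000 0x200000006e0000003e000000ff0000001e0000001f00000016 8 8) 0 0 (step_sound _ 101 [(rh0bb882ba86b2372d.shift 1 2), (rh4d09c900b3d61f5e.shift 1 0), rh9ab46ee039f10502, (rha29e72151be084f7.shift 1 0)] (by decide +kernel))
noncomputable def rhc4dc93e36b06de5b : CRef := CRef.mk (Pat.mk 0x7000000080000000000000000 0x4000000040000003e0000007f000000fc0000000800000008 8 8) 0 0 (step_sound _ 99 [rh07e834ce12720428, (rhe25b0a99195a5d59.shift 0 2)] (by decide +kernel))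
noncomputable def rha96bc186f256422b : CRef := CRef.mk (Pat.mk 0x1c00000006000000000000000000000000 0x6000000170000003f0000001f0000003e0000000b0000000b00000003 8 6) 0 0 (step_sound _ 129 [(rh1aded9edf2cf7032.shift 0 2), rh205bbac36a8896ec, (rhb32eb569dfc388a6.shift 0 1)] (by decide +kernel))
noncomputable def rh3d8dd27a202ca64c : CRef := CRef.mk (Pat.mk 0x180000000300000000000000000000000000000000 0x500000007000000070000000f0000001f0000000300000007000000070000000700000002 8 5) 0 0 (step_sound _ 161 [rh8389e7a5d20945bd, (rhb2a0b9ccfb5cecd5.shift 0 4)] (by decide +kernel))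
noncomputable def rh03a74f500ba60daa : CRef := CRef.mk (Pat.mk 0x1c000000040000000000000000 0x1200000016000000770000007e000000fc0000002c0000000c 8 8) 0 0 (step_sound _ 69 [rh37cee14fac1be201, (rh3fe65c94f3192074.shift 1 1), (rh6aa0ed61cce1493b.shift 1 2), (rh9ad0c60d8ec2f607.shift 1 0)] (by decide +kernel))
noncomputable def rhcb7db7b1179d1664 : CRef := CRef.mk (Pat.mk 0x8000000080000000c00000004000000000000000000000000 0x160000001f0000007f0000001f0000000c000000080000000800000008 8 7) 0 0 (step_sound _ 164 [rh5684f24bf38b12d7, (rh574fdbf07bdd18b9.shift 0 4), (rha29e72151be084f7.shift 0 2)] (by decide +kernel))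
noncomputable def rhb5b75d3a8410cb25 : CRef := CRef.mk (Pat.mk 0x4000000060000000200000000000000000 0x1000000018000003df000001fe000003be0000003800000030 8 10) 0 0 (step_sound _ 37 [rh056f6a77d245f08e, (rh71222050f2c63a3a.shift 5 0)] (by decide +kernel))
noncomputable def rhb853514444ada1da : CRef := CRef.mk (Pat.mk 0x1000000010000000180000000800000000 0x200000006e0000007e000000ff000000fe0000000f00000006 8 8) 0 0 (step_sound _ 101 [(rh574fdbf07bdd18b9.shift 1 2), rh9ab46ee039f10502, (rhe4125d94f0529155.shift 1 0)] (by decide +kernel))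
noncomputable def rhf9c78a489fce0136 : CRef := CRef.mk (Pat.mk 0x8000000080000000c00000004000000000000000000000000 0x160000001f0000007f0000001f0000000c000000080000000800000008 8 7) 0 0 (step_sound _ 164 [(rh0bb882ba86b2372d.shift 0 4), rh5684f24bf38b12d7, (rh574fdbf07bdd18b9.shift 0 4), (rha29e72151be084f7.shift 0 2)] (by decide +kernel))
noncomputable def rh34cf5cf651117d0b : CRef := CRef.mk (Pat.mk 0x1000000018000000080000000000000000 0x80000000c0000000c0000001e0000007c0000001f0000007800000018 8 7) 0 0 (step_sound _ 35 [(rh71222050f2c63a3a.shift 3 0), rhee0a0e466811a257] (by decide +kernel))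
noncomputable def rh1b05cfbcafe4c85f : CRef := CRef.mk (Pat.mk 0x1000000018000000080000000000000000 0x1000000010000001f7000001fe000003ef0000002000000020 8 10) 0 0 (step_sound _ 164 [(rh5c5e593799055d58.shift 3 2), rh61a104e0aa5a07da] (by decide +kernel))
noncomputable def rh73aebad379ce9208 : CRef := CRef.mk (Pat.mk 0x4000000060000000200000002000000000 0x800000018000000bc000001fc0000007f000000fe000003e8000000c0 8 10) 0 0 (step_sound _ 132 [(rh0b4eafb7a64d9358.shift 0 1), (rh17277fc4d1f25542.shift 2 0), (rhbab796f6dafe9186.shift 4 1), (rhbf8d76b193b163fc.shift 2 1), (rhf0e8c09acf153684.shift 4 0)] (by decide +kernel))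
noncomputable def rh5434a41c995b04ce : CRef := CRef.mk (Pat.mk 0x2000000020000000200000003000000000 0x100000003000000020000001fe000000fe00000047 8 9) 0 0 (step_sound _ 38 [(rh55afc6a59410cf00.shift 5 0), rhaad5b7ed757e6970] (by decide +kernel))
noncomputable def rhc7d41790a3af8645 : CRef := CRef.mk (Pat.mk 0x1000000018000000080000000000000000 0x8000000780000007f000000ff0000007300000070 8 8) 0 0 (step_sound _ 66 [(rh69012675dfdb1a5b.shift 0 2), (rhc8b6fc5f57303414.shift 1 0), rhcb1cb93b58f98487, (rhd69c262cd33b94b3.shift 0 2)] (by decide +kernel))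
noncomputable def rh34ccd735c0bf592f : CRef := CRef.mk (Pat.mk 0x1000000018000000080000000800000000 0xc0000001e0000007f000000ff0000007b00000012 8 8) 0 0 (step_sound _ 66 [(rh2b7823df3149c00f.shift 1 1), (rh69012675dfdb1a5b.shift 0 2), rha0508b5dcd575fdc] (by decide +kernel))
noncomputable def rh56f50d95189695aa : CRef := CRef.mk (Pat.mk 0x1000000018000000080000000800000000 0x2000000060000002f0000007f0000001f0000003f000000fa00000030 8 8) 0 0 (step_sound _ 130 [rh17277fc4d1f25542, (rh32e53161baf71854.shift 0 1), (rhbab796f6dafe9186.shift 2 1), (rhbf8d76b193b163fc.shift 0 1), (rhf0e8c09acf153684.shift 2 0)] (by decide +kernel))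
noncomputable def rh5fdb2a0ea6e5e022 : CRef := CRef.mk (Pat.mk 0x2000000030000000100000000000000000 0x8000003fc000001fe000001df0000001000000010 8 10) 0 0 (step_sound _ 36 [(rh217cd79b7ec509df.shift 0 1), (rh71222050f2c63a3a.shift 4 0)] (by decide +kernel))
noncomputable def rhac82565d98237146 : CRef := CRef.mk (Pat.mk 0x80000000c000000040000000400000000 0x60000000600000006000000ff0000007c0000000f0000003c00000018 8 8) 0 0 (step_sound _ 100 [(rh09cd08bf7d5fae33.shift 1 2), rh91eeee0c6086def1, (rha83d0a1d851c6a27.shift 1 2), (rhe5ae0309d945d138.shift 1 0)] (by decide +kernel))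
noncomputable def rhb124aa9d0e7d5bf8 : CRef := CRef.mk (Pat.mk 0x1000000018000000080000000000000000 0x1000000050000001f7000001fe000003ef0000002000000020 8 10) 0 0 (step_sound _ 164 [(rh5c5e593799055d58.shift 3 2), rhfaabfad553013758] (by decide +kernel))
noncomputable def rh23086ec37c8e4638 : CRef := CRef.mk (Pat.mk 0x4000000040000000600000002000000000 0x40000001fc000003fe000003bf00000080 8 10) 0 0 (step_sound _ 68 [(rh42c149c634520fed.shift 3 0), (rh7f0f728c796044ac.shift 1 1), (rh8b1bec4ccb517949.shift 0 1)] (by decide +kernel))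
noncomputable def rh1ca334a5cc47a8e8 : CRef := CRef.mk (Pat.mk 0x100000001800000008000000080000000000000000 0xa0000007b0000007f0000007f0000006f0000002400000004 8 7) 0 0 (step_sound _ 98 [rh344d0d3228acd93c, (rh69012675dfdb1a5b.shift 0 3), (rh7cff82c873654082.shift 1 1), (rhd69c262cd33b94b3.shift 0 3)] (by decide +kernel))
noncomputable def rhab20f536b4a0748a : CRef := CRef.mk (Pat.mk 0x2000000030000000100000000000000000 0x800000008000001ef000001fe000003bf0000001000000010 8 10) 0 0 (step_sound _ 36 [(rh71222050f2c63a3a.shift 4 0), (rha860b026dec1b9df.shift 0 1)] (by decide +kernel))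
noncomputable def rh941d803075ecec8f : CRef := CRef.mk (Pat.mk 0x1000000010000000180000000800000000 0x200000006e0000007e000000ff000000fe0000000f00000006 8 8) 0 0 (step_sound _ 101 [(rh0bb882ba86b2372d.shift 1 2), (rh574fdbf07bdd18b9.shift 1 2), rh9ab46ee039f10502, (rhe4125d94f0529155.shift 1 0)] (by decide +kernel))
noncomputable def rhb2dc7ec77f1062f8 : CRef := CRef.mk (Pat.mk 0x80000000c0000000400000004 0x400000016000000160000007f000000ff0000007c00000024 8 8) 0 0 (step_sound _ 100 [rh4a17aea50fd31fac, (rh69012675dfdb1a5b.shift 0 2), (rhd69c262cd33b94b3.shift 0 2), (rhd6bfcdeee5465575.shift 1 0)] (by decide +kernel))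
noncomputable def rh35460702eb384bb3 : CRef := CRef.mk (Pat.mk 0x1000000018000000080000000800000000 0xc0000000c000001df000000fc000000fe0000001c00000004 8 9) 0 0 (step_sound _ 130 [(rh0b744d3af5b77181.shift 0 1), (rh1ba14daf07ce2b1d.shift 1 0), (rh20e4074bfd832bf6.shift 1 1), (rhbab796f6dafe9186.shift 2 1)] (by decide +kernel))
noncomputable def rha155c44d4c8233ee : CRef := CRef.mk (Pat.mk 0x1000000010000000080000000800000000 0x1400000014000001f7000000fe000001ef0000002800000028 8 9) 0 0 (step_sound _ 99 [(rh71222050f2c63a3a.shift 3 0), rhcedc8aad700c2ac5] (by decide +kernel))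
noncomputable def rh421e5b1058c0dae9 : CRef := CRef.mk (Pat.mk 0x4000000060000000200000002000000000 0x8000000380000003c000000fc0000007f000000fe0000007800000010 8 8) 0 0 (step_sound _ 132 [(rh0b4eafb7a64d9358.shift 0 1), (rh81462b1ea3a55cc1.shift 2 0), (rhbab796f6dafe9186.shift 4 1), (rhbf8d76b193b163fc.shift 2 1), (rhc0eb78c4fca2b39e.shift 4 0)] (by decide +kernel))
noncomputable def rhe5183191ee29866e : CRef := CRef.mk (Pat.mk 0x1000000018000000080000000800000000 0x28000000780000007f000000ff0000007f00000064 8 8) 0 0 (step_sound _ 66 [(rh03bd3de0eda75619.shift 0 1), rh95c4239cb4cbb9c3, (rhc8b6fc5f57303414.shift 1 0), (rhd69c262cd33b94b3.shift 0 2)] (by decide +kernel))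
noncomputable def rh87733bea4192fc9a : CRef := CRef.mk (Pat.mk 0x2000000030000000100000000000000000 0x800000008000001fe000000fe000001f70000001400000010 8 9) 0 0 (step_sound _ 36 [(rh71222050f2c63a3a.shift 4 0), (rhf9aa246c61d6016c.shift 0 1)] (by decide +kernel))
noncomputable def rh42eaa007e5697603 : CRef := CRef.mk (Pat.mk 0x10000000180000000800000008 0x4000007f7000003ff000007bf00000008 8 11) 0 0 (step_sound _ 69 [(rh09cd08bf7d5fae33.shift 2 1), (rh2820ca9a6c4f41b4.shift 0 1), (rha8e118612a5545ec.shift 1 0), (rhc9a8ca1528939fa3.shift 0 1)] (by decide +kernel))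
noncomputable def rh9629f59bcc078ca3 : CRef := CRef.mk (Pat.mk 0x1000000018000000080000000800000000 0x20000000e0000000f0000003f0000001f0000003f0000001e00000004 8 6) 0 0 (step_sound _ 130 [(rh32e53161baf71854.shift 0 1), rh81462b1ea3a55cc1, (rhbab796f6dafe9186.shift 2 1), (rhbf8d76b193b163fc.shift 0 1), (rhc0eb78c4fca2b39e.shift 2 0)] (by decide +kernel))
noncomputable def rhd723a5b5fae87d6b : CRef := CRef.mk (Pat.mk 0x10000000180000000c000000000000000000000000 0x2000000330000001f0000003f000000370000000400000004 8 6) 0 0 (step_sound _ 97 [rh4c628074cec8bd92, (rh53b3c253cb0c65f4.shift 0 3)] (by decide +kernel))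
noncomputable def rhbe05e2ade33f67e4 : CRef := CRef.mk (Pat.mk 0x1000000018000000080000000000000000 0x1000000050000001f7000001fe000003ef0000002000000020 8 10) 0 0 (step_sound _ 164 [(rh5c5e593799055d58.shift 3 2), rhfb007e3f459d4b69] (by decide +kernel))
noncomputable def rhd056b75375ab404e : CRef := CRef.mk (Pat.mk 0x1000000018000000080000000800000000 0x80000000c0000000e0000007f0000007f0000000f0000000c00000004 8 7) 0 0 (step_sound _ 66 [(rh02e7bb29240e64f1.shift 1 1), rh432a840c6d1c0b86, rha28030fabcd97406, (rhd69c262cd33b94b3.shift 0 2)] (by decide +kernel))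
noncomputable def rhea10e2d69cbc59fe : CRef := CRef.mk (Pat.mk 0x1000000010000000180000000800000000 0x2c0000003e000000f70000007f000000ff00000017 8 8) 0 0 (step_sound _ 34 [(rh0bb882ba86b2372d.shift 0 1), (rh574fdbf07bdd18b9.shift 0 1), (rh86ef706515da645c.shift 0 1), rh9a86666dab1f3596] (by decide +kernel))
noncomputable def rh30f3d598437f3498 : CRef := CRef.mk (Pat.mk 0x200000002000000030000000100000000 0x4000000060000000e0000001f0000001f0000001d 8 5) 0 0 (step_sound _ 33 [rh51499fad2812bafd, rh932754581e0f4330] (by decide +kernel))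
noncomputable def rh12cc78143c57ee11 : CRef := CRef.mk (Pat.mk 0x8000000080000000c0000000400000000 0x160000003f0000007f0000007f0000003e00000012 8 7) 0 0 (step_sound _ 100 [(rh69012675dfdb1a5b.shift 0 2), rhd0585a0d6feeea96, rhe4125d94f0529155] (by decide +kernel))
noncomputable def rh79d0591df011972c : CRef := CRef.mk (Pat.mk 0x1000000018000000080000000000000000 0x1400000014000001f7000000fe000001ef0000002800000028 8 9) 0 0 (step_sound _ 164 [(rh5c5e593799055d58.shift 3 2), rhc887f793973af3a9] (by decide +kernel))
noncomputable def rh3bc101fa75a9794d : CRef := CRef.mk (Pat.mk 0x10000000180000000800000008 0x4000007f7000003ff000007fe00000008 8 11) 0 0 (step_sound _ 69 [rh7c6366ac92b8e4f2, (rhc9a8ca1528939fa3.shift 0 1), (rhfa35e196e150edb4.shift 2 1)] (by decide +kernel))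
noncomputable def rhcb721b1dcc44ed91 : CRef := CRef.mk (Pat.mk 0x1000000018000000080000000800000000 0x6e0000003f0000001f0000001e0000007c00000034 8 7) 0 0 (step_sound _ 131 [rhababf7a8dad35a78, rhb66705d64f15472d, (rhd802bb8339359eae.shift 1 0)] (by decide +kernel))
noncomputable def rh81f8eb057a77300b : CRef := CRef.mk (Pat.mk 0x80000000c00000004000000000000000000000000 0x1c0000001e000000780000001f0000003c000000180000001800000008 8 7) 0 0 (step_sound _ 195 [(rh5c5e593799055d58.shift 2 3), rhc9f137fbb5fd104e] (by decide +kernel))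
noncomputable def rh63024f05ed23ad7b : CRef := CRef.mk (Pat.mk 0x1000000010000000180000000800000000 0xe0000007e000000fe000000fe0000006f00000026 8 8) 0 0 (step_sound _ 101 [(rh0bb882ba86b2372d.shift 1 2), (rh574fdbf07bdd18b9.shift 1 2), rh63023de05423a585, (rhe4125d94f0529155.shift 1 0)] (by decide +kernel))
noncomputable def rh77813712618d889b : CRef := CRef.mk (Pat.mk 0x1000000018000000080000000000000000 0x2000000024000001f6000000fe000001ef0000007c00000028 8 9) 0 0 (step_sound _ 35 [rh64202f03be42a920, (rh71222050f2c63a3a.shift 3 0)] (by decide +kernel))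
noncomputable def rhbde3c19b71498a92 : CRef := CRef.mk (Pat.mk 0x300000001c00000000000000000000000000000000 0x1000000038000000380000001c0000007f0000007c0000003c00000030 8 7) 0 0 (step_sound _ 99 [(rh3539ae87e4f84ea5.shift 2 0), (rhbe11ca1156539bc2.shift 0 1), (rhcf80391c5046a495.shift 3 1), (rhf9366b6a121593ef.shift 3 1)] (by decide +kernel))
noncomputable def rhc8377d54b9bf6449 : CRef := CRef.mk (Pat.mk 0x1c0000000600000000000000000000000000000000 0x40000003c0000001f0000003e0000003f0000003e0000001e00000004 8 6) 0 0 (step_sound _ 97 [(rh4821dcf828b9d7bf.shift 1 1), (rh7549d13633cdb3d5.shift 1 0), (rh9a08ae3175085b85.shift 0 1)] (by decide +kernel))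
noncomputable def rhc7d0cce82f7f1bc3 : CRef := CRef.mk (Pat.mk 0x7000000018000000000000000000000000 0x8000000180000003e00000078000000180000001f0000007c0000003c 8 7) 0 0 (step_sound _ 67 [(rh4821dcf828b9d7bf.shift 3 0), rh50dd5e58f1cd6424, (rhb1bde2fedbcf7a62.shift 1 1), (rhcf80391c5046a495.shift 3 0)] (by decide +kernel))
noncomputable def rhc128e7b7cfeefcac : CRef := CRef.mk (Pat.mk 0x300000001c00000000000000000000000000000000 0x10000000770000003f0000001c0000007c0000003e0000003c00000030 8 7) 0 0 (step_sound _ 99 [(rh3539ae87e4f84ea5.shift 2 0), (rhac615fa351d87bb7.shift 0 1), (rhcf80391c5046a495.shift 3 1), (rhf9366b6a121593ef.shift 3 1)] (by decide +kernel))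
noncomputable def rh22f5ab9ed1986d61 : CRef := CRef.mk (Pat.mk 0x70000000180000000000000000000000000000000000000000 0x50000000f70000007f000000f80000003e00000078000000380000001000000010 8 8) 0 0 (step_sound _ 131 [(rh4eb392a2af1cff2e.shift 0 3), (rh96aa665431d394bf.shift 1 0), (rhcf80391c5046a495.shift 3 2), (rhf9366b6a121593ef.shift 3 2)] (by decide +kernel))
noncomputable def rh10d480ddd27d4efd : CRef := CRef.mk (Pat.mk 0x180000000c000000000000000000000000 0xa0000000f0000001f000000ff0000000f0000000400000004 8 8) 0 0 (step_sound _ 97 [rh3639a19857f7b434, (rh53b3c253cb0c65f4.shift 0 3)] (by decide +kernel))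
noncomputable def rhff7471dbc248c7ae : CRef := CRef.mk (Pat.mk 0x300000001c000000000000000000000000 0x1c0000001f0000003f0000001c0000007f0000003c0000001c 8 7) 0 0 (step_sound _ 67 [rh1fd5746e30de88bb, (rha8bff60f31fbc983.shift 1 1), (rhcf80391c5046a495.shift 3 0), rhe614f5555dfb0362] (by decide +kernel))
noncomputable def rh35042224bd380a26 : CRef := CRef.mk (Pat.mk 0x1c00000006000000000000000000000000 0x600000016000000370000001f0000007e0000000f0000000e00000006 8 7) 0 0 (step_sound _ 65 [(rhadf429772c25fde0.shift 1 0), rhc4f3153855fc691b, (rhfb5646a750ef7102.shift 0 2)] (by decide +kernel))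
noncomputable def rh6878a3f2f7e0a193 : CRef := CRef.mk (Pat.mk 0x180000000e00000000000000000000000000000000 0xe0000001f0000001b0000003e0000003f0000007c0000003c00000018 8 7) 0 0 (step_sound _ 98 [(rh2cfc87a36ba8132d.shift 0 1), rh3612ac50eb6261a3, (rh8bdfba54442a796d.shift 0 1), (rhcf80391c5046a495.shift 2 1)] (by decide +kernel))
noncomputable def rh16d95ced518846cf : CRef := CRef.mk (Pat.mk 0x380000000c000000000000000000000000 0x40000000c0000000c0000001f000000380000007c0000007c0000007c00000014 8 7) 0 0 (step_sound _ 163 [(rh5840dbfc019b4d17.shift 0 2), (rhb8d06e03f7d7568d.shift 1 0), (rhbb339bb7e4e96b38.shift 2 2)] (by decide +kernel))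
noncomputable def rh7db9ee17ee9efc15 : CRef := CRef.mk (Pat.mk 0x1800000008000000080000000800000000 0xc0000001c0000000f0000003c0000000f0000000e 8 6) 0 0 (step_sound _ 34 [(rh932754581e0f4330.shift 2 0), rhac71ed280767259b] (by decide +kernel))
noncomputable def rh96a81414d4111f6f : CRef := CRef.mk (Pat.mk 0x180000000a000000000000000000000000 0x4000000040000000e0000001f0000007a0000000f0000003e0000001400000004 8 7) 0 0 (step_sound _ 98 [(rh53b3c253cb0c65f4.shift 0 3), rhf74b63096cf66d38] (by decide +kernel))
noncomputable def rh581b892268b337d1 : CRef := CRef.mk (Pat.mk 0x30000000140000000000000000 0x800000008000001ff000001fe000001d60000001400000010 8 9) 0 0 (step_sound _ 99 [(rh038dfaa267a09217.shift 2 0), (rh6de99f19c3fecfbb.shift 1 2), (rh73f5f7cdf41b5bc9.shift 1 1), (rha0f541aa9ffae9a1.shift 0 2)] (by decide +kernel))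
noncomputable def rh9dab2eea143f77ee : CRef := CRef.mk (Pat.mk 0x3800000010 0x1c7000001fe000003f7 8 10) 0 0 (step_sound _ 38 [(rh3fc3a7fb6866dcd4.shift 3 0), (rh429d551bffc08aea.shift 1 0), rhbb13f9e1d387f64a, rhc919c9aa5f7ef713, (rhda98f5cded33c272.shift 3 0)] (by decide +kernel))
noncomputable def rh7633ba16f0e7cc9d : CRef := CRef.mk (Pat.mk 0x180000000e000000000000000000000000 0x300000003800000038000000180000003e0000003f0000001c0000001c 8 6) 0 0 (step_sound _ 100 [(rh9767a395d383a9c4.shift 1 0), rh9cf1eae2eabf38ec, (rhbbe16ff26f7822db.shift 1 0)] (by decide +kernel))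
noncomputable def rh96dd5f71b5f9b5db : CRef := CRef.mk (Pat.mk 0x7000000018000000000000000000000000 0x50000000f70000007f000000f80000007c0000003e0000001c 8 8) 0 0 (step_sound _ 67 [(rh1344d15e9401b7c6.shift 1 0), (rhadf429772c25fde0.shift 3 0), (rhd3a11e86c76a2ee1.shift 0 1)] (by decide +kernel))
noncomputable def rh9cd3ca1a0987dcbb : CRef := CRef.mk (Pat.mk 0x180000000e000000000000000000000000 0x8000000080000003c0000003e000000fb0000001f000000fe0000001f0000000c00000004 8 8) 0 0 (step_sound _ 164 [rh37fdbdc939d46278, (rh4dce7be789ef6789.shift 1 2), (rhf9366b6a121593ef.shift 3 1)] (by decide +kernel))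
noncomputable def rhd5ce5fbc0207d366 : CRef := CRef.mk (Pat.mk 0x70000000180000000000000000000000000000000000000000 0x50000000f70000007f000000f80000003e00000078000000380000001000000010 8 8) 0 0 (step_sound _ 131 [(rh96aa665431d394bf.shift 1 0), (rhadf429772c25fde0.shift 3 2), (rhd3a11e86c76a2ee1.shift 0 3)] (by decide +kernel))
noncomputable def rhe5a9461f11686095 : CRef := CRef.mk (Pat.mk 0x380000000c0000000000000000000000000000000000000000 0x40000001c0000001c000000380000003c0000006c0000007f0000003c0000001c0000001c00000010 8 7) 0 0 (step_sound _ 131 [(rh215e11e099257d75.shift 3 3), (rh2222a27c490588f5.shift 2 0), (rh300f12f0621e1693.shift 2 3), (rhe468b539e57393e3.shift 0 1), (rhffb8e5993241bf15.shift 2 1)] (by decide +kernel))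
noncomputable def rhf5c9283a6d39c6b3 : CRef := CRef.mk (Pat.mk 0x180000000e000000000000000000000000 0xb0000000b0000001f000000fe0000000f0000000400000004 8 8) 0 0 (step_sound _ 66 [(rh20eb43bc20454f5e.shift 0 2), rh846b171e1ea44eb6, (rhcf80391c5046a495.shift 2 0)] (by decide +kernel))
noncomputable def rh71aff9f657148679 : CRef := CRef.mk (Pat.mk 0x1c000000060000000000000000 0x1e0000001f0000003c0000001f0000007e0000007700000016 8 7) 0 0 (step_sound _ 131 [rh05e9292915f096d9, (rh4821dcf828b9d7bf.shift 2 0), (rh68633b6071a8b2e4.shift 0 1), (rhadf429772c25fde0.shift 2 0)] (by decide +kernel))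
noncomputable def rhd55fc21d801ab046 : CRef := CRef.mk (Pat.mk 0x1000000018000000080000000800000000 0x670000003f0000001f0000007e0000007e00000034 8 7) 0 0 (step_sound _ 131 [rh0668c447fd80549a, rh5d7d6753024c095a, (rhc71ed80c6d39935c.shift 1 0)] (by decide +kernel))
noncomputable def rh2425647de17d7261 : CRef := CRef.mk (Pat.mk 0x30000000180000000000000000 0x2000000060000000e0000000ff000000f8000000e0000000e0 8 8) 0 0 (step_sound _ 102 [(rh18965a982d73c794.shift 3 2), rhf903cfbe2ae6324f] (by decide +kernel))
noncomputable def rh03b471bcb461a7d2 : CRef := CRef.mk (Pat.mk 0x1000000018000000080000000000000000 0x2000000064000001f7000000fe000001ef0000007c00000028 8 9) 0 0 (step_sound _ 35 [(rh71222050f2c63a3a.shift 3 0), rhe764b0c1e2948a61] (by decide +kernel))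
noncomputable def rh3bbd3764a97116d1 : CRef := CRef.mk (Pat.mk 0x2000000030000000100000000000000000 0x6000000060000003ee000001fe000001ff000000c000000040 8 10) 0 0 (step_sound _ 165 [(rh5c5e593799055d58.shift 4 2), rhd8a170b7722c006d] (by decide +kernel))
noncomputable def rh25b5eff627b8366c : CRef := CRef.mk (Pat.mk 0x180000000e0000000000000000000000000000000000000000 0x3000000030000000320000001b0000003e0000007f0000003e0000001c0000000c00000008 8 7) 0 0 (step_sound _ 132 [(rh0d3c8bf4bf97ae4a.shift 1 4), (rh83624c6844f4c7cd.shift 0 2), (rh8897f9bf6ab0c7e0.shift 1 2), (rhc84e4a8f5ddf6846.shift 0 2), (rhdd142847729b9cbe.shift 1 0)] (by decide +kernel))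
noncomputable def rhf96aeadb8ff5931b : CRef := CRef.mk (Pat.mk 0x70000000180000000000000000 0x2000000060000000e00000007f000000f8000000f000000070 8 8) 0 0 (step_sound _ 99 [(rh014abbda9a411227.shift 2 0), (rh1e440bda37bed406.shift 3 0), (rh210e2d9c685c857e.shift 0 2), (rhb32eb569dfc388a6.shift 2 0), (rhf41a34b41b8c2138.shift 2 1)] (by decide +kernel))
noncomputable def rhc5997b8545309636 : CRef := CRef.mk (Pat.mk 0x80000000c000000040000000000000000 0x20000000f0000003c0000003f0000003f0000001e 8 6) 0 0 (step_sound _ 34 [rh508f4a06d731284b, (rh71222050f2c63a3a.shift 2 0)] (by decide +kernel))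
noncomputable def rh3f74e77d6c9ef85d : CRef := CRef.mk (Pat.mk 0x40000000600000002000000000000000000000000 0xc0000000c0000007f0000003e0000003f0000003c0000000c00000004 8 7) 0 0 (step_sound _ 194 [(rh5c5e593799055d58.shift 1 3), rhe66651f920b66bb6] (by decide +kernel))
noncomputable def rh9ccfe3644c60ed0c : CRef := CRef.mk (Pat.mk 0x70000000180000000000000000 0x2000000020000000f00000007f000000f8000000f000000070 8 8) 0 0 (step_sound _ 133 [rh1a43c11981063e2c, (rh4821dcf828b9d7bf.shift 4 0), (rhadf429772c25fde0.shift 4 0), (rhf7bbabc7740a8b9b.shift 2 0)] (by decide +kernel))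
noncomputable def rh1124927df5c6d267 : CRef := CRef.mk (Pat.mk 0x100000001800000008000000080000000000000000 0x4000000160000007c000000ff0000007f0000003000000030 8 8) 0 0 (step_sound _ 98 [rh151b1c4aa50ee52c, (rh62fd28a3ef651296.shift 1 1), (rh69012675dfdb1a5b.shift 0 3), (rhd69c262cd33b94b3.shift 0 3)] (by decide +kernel))
noncomputable def rh107e93477fb656a6 : CRef := CRef.mk (Pat.mk 0x200000002000000030000000100000000000000000 0x20000003be000001fe000003ff0000004000000040 8 10) 0 0 (step_sound _ 70 [(rh2e023310a2058b9e.shift 0 2), (rh6300883d1f687102.shift 3 0), (rh6803112df5f1595a.shift 2 1)] (by decide +kernel))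
noncomputable def rhea6fa8cf38d884c7 : CRef := CRef.mk (Pat.mk 0x1c000000060000000000000000 0x80000000c0000003c0000001f0000003e0000003f0000001e 8 6) 0 0 (step_sound _ 131 [(rh4821dcf828b9d7bf.shift 2 0), rh75187499c9a8fecd, rhf7bbabc7740a8b9b] (by decide +kernel))
noncomputable def rhcaa484381ba2f067 : CRef := CRef.mk (Pat.mk 0x1000000010000000080000000800000000 0xc0000000c0000000c0000003f0000003f0000000f0000000c0000000c 8 6) 0 0 (step_sound _ 99 [(rh71222050f2c63a3a.shift 3 0), rhc3ba318c15d4ecd6] (by decide +kernel))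
noncomputable def rhea847ab707a5355b : CRef := CRef.mk (Pat.mk 0x40000000600000002000000020 0x5000000050000003de000000fe000001b7000000a0 8 10) 0 0 (step_sound _ 134 [(rh5c5e593799055d58.shift 5 1), rhbba85fce00fead87] (by decide +kernel))
noncomputable def rhc31ae7bdd35a1bb8 : CRef := CRef.mk (Pat.mk 0x2000000020000000200000001 0x600000006000000070000000300000003000000060000000700000007 8 3) 0 0 (step_sound _ 129 [rh79877ebd3ef475dd, rhcdd409e2ecaf57f2] (by decide +kernel))
noncomputable def rh5a69c8914f0b82dc : CRef := CRef.mk (Pat.mk 0x1000000010000000100000001800000000 0x80000001800000010000003be000001fe000001e7 8 10) 0 0 (step_sound _ 37 [(rh55afc6a59410cf00.shift 4 0), rh6640dbc8e041fb4b] (by decide +kernel))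
noncomputable def rh947229a28e85990d : CRef := CRef.mk (Pat.mk 0x8000000080000000c0000000800000000 0x160000001f0000001b0000000f0000000c0000000c 8 5) 0 0 (step_sound _ 34 [rh176317ba8f337ab9, (rh932754581e0f4330.shift 2 0)] (by decide +kernel))
noncomputable def rhbe6a67993f248dac : CRef := CRef.mk (Pat.mk 0x10000000100000001800000000000000000000000000000000 0xc0000002f0000007f0000003e0000007c0000001e0000003c0000003000000030 8 7) 0 0 (step_sound _ 195 [(rh1fc516d65a4528a1.shift 1 2), (rh75bcc01263973aae.shift 3 2), (rha4d944eaa6a17943.shift 0 2), (rhca339080eda3c67c.shift 3 0), (rhed310c43d1bb1612.shift 0 2)] (by decide +kernel))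
noncomputable def rh8887a3b8205280f6 : CRef := CRef.mk (Pat.mk 0x100000001000000018000000080000000000000000 0x80000001800000018000000f8000000ff0000003700000020 8 8) 0 0 (step_sound _ 68 [(rh04aa474d63f24212.shift 1 1), (rh1e87bf36e9e60a85.shift 0 1), (rh8ff3dde5b1c639e0.shift 3 0)] (by decide +kernel))
noncomputable def rh0053ea9a2c9f98c9 : CRef := CRef.mk (Pat.mk 0x400000004000000060000000400000000 0x80000000c0000000c0000003e0000003f0000001e 8 6) 0 0 (step_sound _ 33 [rh6412c58679f5f5ab, (rh932754581e0f4330.shift 1 0)] (by decide +kernel))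
noncomputable def rh0ec941de9ee2c368 : CRef := CRef.mk (Pat.mk 0x10000000100000001c00000000000000000000000000000000 0x10000000140000003f0000007f0000002b0000000200000002 8 7) 0 0 (step_sound _ 100 [(rhb379f99078aafa2d.shift 2 2), (rhbdde238153e38af9.shift 1 2), rhd486ef9d1dca17f5] (by decide +kernel))
noncomputable def rh68ff5b358e9c25f0 : CRef := CRef.mk (Pat.mk 0x8000000080000000e0000000000000000 0x160000001f0000001b0000001e0000007c0000001c 8 7) 0 0 (step_sound _ 35 [rh4ce7c12453a88dbb, (rhb379f99078aafa2d.shift 1 0), (rhd9397e4126e81439.shift 1 0)] (by decide +kernel))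
noncomputable def rh4df8d16fe7d42cce : CRef := CRef.mk (Pat.mk 0x8000000080000000c0000000400000000 0x140000001c0000001c0000007f0000007f0000003a 8 7) 0 0 (step_sound _ 35 [rh04aa474d63f24212, (rh6412c58679f5f5ab.shift 1 0), rhfe557af9112f51d6] (by decide +kernel))
noncomputable def rh122d3bd0f32004a1 : CRef := CRef.mk (Pat.mk 0x100000001c0000000800000000 0x1e0000001f0000007e0000003c0000006e00000024 8 7) 0 0 (step_sound _ 69 [(rh5fdd1da96b57d205.shift 1 0), rh714ccf9fbfd06030, (rhec695e9f7cccd400.shift 2 0)] (by decide +kernel))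
noncomputable def rh68682f1a3dc26b66 : CRef := CRef.mk (Pat.mk 0x8000000100000001000000010 0x2f0000007f000000fe0000001000000010 8 8) 0 0 (step_sound _ 100 [rh2b0b9d34f8b1586c, (rh50fbb5868c909700.shift 3 0)] (by decide +kernel))
noncomputable def rha9c9240b2c92ec66 : CRef := CRef.mk (Pat.mk 0x8000000080000000e000000000000000000000000 0x70000000f0000001b0000003e0000003f0000001000000010 8 6) 0 0 (step_sound _ 100 [(rh680f10aa1d5dec58.shift 0 2), (rhc7b95363f9049b11.shift 1 0)] (by decide +kernel))
noncomputable def rh20495c39bc614158 : CRef := CRef.mk (Pat.mk 0x1000000010000000180000000800000000 0x1000000010000000f8000000ff0000002f 8 8) 0 0 (step_sound _ 36 [rh1e87bf36e9e60a85, (rh932754581e0f4330.shift 3 0)] (by decide +kernel))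
noncomputable def rh8bcfdfe4426674ab : CRef := CRef.mk (Pat.mk 0x1000000018000000080000000000000000 0x1800000058000001d8000000fe000001ff0000003400000020 8 9) 0 0 (step_sound _ 164 [rh54daf9279bf26ee9, (rh5c5e593799055d58.shift 3 2)] (by decide +kernel))
noncomputable def rhcda306fc7d6fac97 : CRef := CRef.mk (Pat.mk 0x100000001800000008000000080000000000000000 0x8000000180000007c000000ff0000007f0000003400000030 8 8) 0 0 (step_sound _ 98 [rh151b1c4aa50ee52c, (rh3f468690718d5840.shift 2 1), (rh69012675dfdb1a5b.shift 0 3), (rhd69c262cd33b94b3.shift 0 3)] (by decide +kernel))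
noncomputable def rh0723a97f373ad3eb : CRef := CRef.mk (Pat.mk 0x80000000c000000060000000000000000 0x10000000380000003f0000003e0000003800000018 8 6) 0 0 (step_sound _ 100 [(rh18965a982d73c794.shift 1 2), rh2fc31838fe1bf4b1] (by decide +kernel))
noncomputable def rh2e1d503f94105a48 : CRef := CRef.mk (Pat.mk 0x10000000180000000c000000000000000000000000 0x20000000320000001f000000ff000000370000001400000014 8 8) 0 0 (step_sound _ 97 [rh28875cc2bd935a87, (rh53b3c253cb0c65f4.shift 0 3)] (by decide +kernel))
noncomputable def rh3a104d81cb66ad5a : CRef := CRef.mk (Pat.mk 0x100000001000000018000000080000000000000000 0x10000000700000007e000001ef0000007c00000028 8 9) 0 0 (step_sound _ 35 [rh46850812027a99b6, (rh71222050f2c63a3a.shift 3 0)] (by decide +kernel))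
noncomputable def rh91af0be30cbe12a0 : CRef := CRef.mk (Pat.mk 0x8000000080000000c0000000400000000 0x6000000260000007e0000007c0000007f0000003700000012 8 7) 0 0 (step_sound _ 100 [(rh0bb882ba86b2372d.shift 0 2), (rh129ec83db759a7cd.shift 1 0), rh82c32eec533ffa4c] (by decide +kernel))
noncomputable def rheb401f6f12f2978e : CRef := CRef.mk (Pat.mk 0x80000000800000008000000080000000000000000 0xc0000000c0000003f0000003f0000001700000002 8 6) 0 0 (step_sound _ 68 [rh36ba920a3f273cb5, (rh55afc6a59410cf00.shift 3 1)] (by decide +kernel))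
noncomputable def rh0d69838d1abc92dd : CRef := CRef.mk (Pat.mk 0x80000000800000008000000080000000000000000 0xc0000000c0000001f0000007c0000001c0000000c 8 7) 0 0 (step_sound _ 68 [(rh55afc6a59410cf00.shift 3 1), rhf6fe23f146634e34] (by decide +kernel))
noncomputable def rh00e7ef0bd5843001 : CRef := CRef.mk (Pat.mk 0xc00000004000000040000000400000000 0x600000006000000060000003c0000000f0000000e0000000c00000008 8 6) 0 0 (step_sound _ 35 [(rh55afc6a59410cf00.shift 2 0), (rhc787086e896c8526.shift 0 1)] (by decide +kernel))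
noncomputable def rh0ca46578f66eeedd : CRef := CRef.mk (Pat.mk 0x8000000080000000c0000000400000000 0x170000001f0000007c0000001f0000000c00000008 8 7) 0 0 (step_sound _ 100 [(rh0bb882ba86b2372d.shift 0 2), (rh574fdbf07bdd18b9.shift 0 2), rh6dbae7606a0dbc25, (rhf03d2d27d34cf817.shift 1 0)] (by decide +kernel))
noncomputable def rhbd4352fb152fe48b : CRef := CRef.mk (Pat.mk 0x2000000020000000300000001000000000 0x1000000030000003b7000001fe000003fe00000068 8 10) 0 0 (step_sound _ 38 [(rh65df55926aa97bb2.shift 0 1), (rh6803112df5f1595a.shift 2 0), (rhc04c29a1ef993d51.shift 2 0)] (by decide +kernel))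
noncomputable def rh99f82da62e21a94c : CRef := CRef.mk (Pat.mk 0x8000000080000000c000000040000000000000000 0x140000001c000000fc0000007c0000007f0000007a00000018 8 8) 0 0 (step_sound _ 100 [(rh04048a4a2acf2c94.shift 1 2), (rh12ec631357c56e90.shift 2 0), (rh6476892f2a819723.shift 1 2), rh7ac67e1112f9e713, (rhc8a05dafab239644.shift 1 0)] (by decide +kernel))
noncomputable def rhf8e49ea538088b3d : CRef := CRef.mk (Pat.mk 0x80000000c0000000400000000 0x1e0000001f0000007c0000000f0000003c00000018 8 7) 0 0 (step_sound _ 131 [(rh5c5e593799055d58.shift 2 1), rh8a36d843c4264c53] (by decide +kernel))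
noncomputable def rhbbf27135c8f1befc : CRef := CRef.mk (Pat.mk 0x200000006000000020000000200000000 0x6000000060000001e0000001b0000001f0000000d 8 5) 0 0 (step_sound _ 130 [(rh2f68792b6b779e96.shift 1 1), rh54bb759cf5cfcc86] (by decide +kernel))
noncomputable def rhc6e5a41255a38fc6 : CRef := CRef.mk (Pat.mk 0x300000001c000000000000000000000000 0x3000000038000000380000001c0000007f0000007c0000003c 8 7) 0 0 (step_sound _ 67 [(rh471c9edde87ddc5c.shift 2 1), (rhadf429772c25fde0.shift 3 0), rhbe11ca1156539bc2, (rhf9366b6a121593ef.shift 3 0)] (by decide +kernel))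
noncomputable def rhaa3f2e429df1c9c3 : CRef := CRef.mk (Pat.mk 0x1c000000060000000000000000 0x40000001c0000003c0000007f0000001f0000000e0000003e0000001e 8 7) 0 0 (step_sound _ 131 [rh4c95c4e1c378899e, (rh7ef8598c7d96e528.shift 0 1), (rhcf80391c5046a495.shift 2 0), (rhf9366b6a121593ef.shift 2 0)] (by decide +kernel))
noncomputable def rh0adc8d31cb0d3766 : CRef := CRef.mk (Pat.mk 0x60000000300000000000000000000000000000000 0x100000007000000070000000600000007000000070000001f0000001f0000000700000001 8 5) 0 0 (step_sound _ 193 [(rh107535a86ee6c95d.shift 0 1), rh84c8dec750734c5e, (rhcd32f2ed6c1181e7.shift 0 3)] (by decide +kernel))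
noncomputable def rhd00dcc73a8c77d31 : CRef := CRef.mk (Pat.mk 0x300000001c000000000000000000000000 0x30000000770000003f0000001c0000007c0000003e0000001c 8 7) 0 0 (step_sound _ 67 [(rh471c9edde87ddc5c.shift 2 1), rhac615fa351d87bb7, (rhf9366b6a121593ef.shift 3 0)] (by decide +kernel))
noncomputable def rh53be0b116de6e943 : CRef := CRef.mk (Pat.mk 0x300000001c000000000000000000000000 0x200000007e0000007e0000003e0000001c0000001f0000007e00000038 8 7) 0 0 (step_sound _ 67 [(rhbf4e49ce8b00a95d.shift 0 1), (rhc39bc7fa4019280c.shift 1 0), (rhcf80391c5046a495.shift 3 0)] (by decide +kernel))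
noncomputable def rh90b6f09d5827dd1f : CRef := CRef.mk (Pat.mk 0x700000001800000000 0x380000007e000000fe0000007f0000003800000008 8 8) 0 0 (step_sound _ 132 [(rh4129b19bd98e8ac0.shift 0 1), (rh7d7f93600d13c548.shift 3 0), (rh96ec1bca076b7a2f.shift 1 0)] (by decide +kernel))
noncomputable def rhf7c453b392519aab : CRef := CRef.mk (Pat.mk 0x180000000e000000000000000000000000 0xe0000000f0000001b0000001e0000003f0000003c0000003c 8 6) 0 0 (step_sound _ 100 [rhe7f9916bbd0e34a8, (rhea719cc8bd0bdd28.shift 1 1), rhed9575cdee0ab1ad] (by decide +kernel))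
noncomputable def rh63453d7b735f736f : CRef := CRef.mk (Pat.mk 0x180000000c000000000000000000000000 0x1c0000003c0000000f0000007c0000001c0000001c0000001c00000014 8 7) 0 0 (step_sound _ 133 [(rh18965a982d73c794.shift 2 3), rh3a12c235d5099f2e] (by decide +kernel))
noncomputable def rh8450a7b7c6245839 : CRef := CRef.mk (Pat.mk 0x380000000c0000000000000000 0x1c0000001e0000007f0000003f0000001c0000000800000008 8 7) 0 0 (step_sound _ 132 [(rhc286ecb5364d4c3b.shift 0 2), (rhcf80391c5046a495.shift 3 0), (rhdc564b97248c4913.shift 1 0)] (by decide +kernel))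
noncomputable def rh25ee6338d76829c9 : CRef := CRef.mk (Pat.mk 0x180000000c000000000000000000000000 0x100000001c0000001c0000001e0000007f0000001a0000000f0000003e0000001c00000004 8 7) 0 0 (step_sound _ 97 [(rh53b3c253cb0c65f4.shift 0 3), rhe4be8ed0f5d4291d] (by decide +kernel))
noncomputable def rhd496dc11c5e1191b : CRef := CRef.mk (Pat.mk 0x380000000c000000000000000000000000 0x40000000c0000001c0000001f000000380000001c0000007c0000007c00000014 8 7) 0 0 (step_sound _ 163 [(rh107535a86ee6c95d.shift 2 0), (rh5840dbfc019b4d17.shift 0 2), (rhbb339bb7e4e96b38.shift 2 2)] (by decide +kernel))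
noncomputable def rh26ad5c7f5ca77550 : CRef := CRef.mk (Pat.mk 0x180000000c000000000000000000000000 0xf0000000f0000001f0000001f000000370000001600000004 8 6) 0 0 (step_sound _ 97 [(rh53b3c253cb0c65f4.shift 0 3), rh858dcc4b1097d470] (by decide +kernel))
noncomputable def rhf6646ae3a2ccf630 : CRef := CRef.mk (Pat.mk 0x180000000e000000000000000000000000 0xb0000001b0000001f0000001e0000003f0000003c0000003c 8 6) 0 0 (step_sound _ 100 [rh2f5fbde97bdb3989, rh53b041f69f7eea98, (rhea719cc8bd0bdd28.shift 1 1)] (by decide +kernel))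
noncomputable def rh877b6170862c2813 : CRef := CRef.mk (Pat.mk 0x300000001c000000000000000000000000 0x3000000038000000380000003c0000007f0000007c0000003c 8 7) 0 0 (step_sound _ 67 [(rh471c9edde87ddc5c.shift 2 1), (rh4821dcf828b9d7bf.shift 3 0), rha4a079841e6c65bd, (rhcf80391c5046a495.shift 3 0)] (by decide +kernel))
noncomputable def rh01c0a5fba9cc3114 : CRef := CRef.mk (Pat.mk 0x300000001c000000000000000000000000 0x3c0000003f0000003f0000003c0000001c0000001c0000000c 8 6) 0 0 (step_sound _ 67 [(rh1623a5e1f676303d.shift 1 1), (rhcf80391c5046a495.shift 3 0), rhe97ad3a65f8d696b, (rhf9366b6a121593ef.shift 3 0)] (by decide +kernel))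
noncomputable def rh859d9c61c7511ae0 : CRef := CRef.mk (Pat.mk 0x180000000e000000000000000000000000 0x26000000370000001f0000001e0000003f0000003e00000038 8 6) 0 0 (step_sound _ 100 [rh53b041f69f7eea98, rh55885bf1115ef9c4, (rhf9971318f3fd5918.shift 0 1)] (by decide +kernel))
noncomputable def rh7d93e400863b6e53 : CRef := CRef.mk (Pat.mk 0x10000000180000000c0000000000000000 0x20000000f0000003f0000001f0000000c0000000c0000000c 8 6) 0 0 (step_sound _ 35 [rh44330bf4da733da2, (rh71222050f2c63a3a.shift 3 0)] (by decide +kernel))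
noncomputable def rhc6ebfe8338652514 : CRef := CRef.mk (Pat.mk 0x1c000000060000000000000000 0x1e0000001f0000007f0000001c0000000e0000000e00000006 8 7) 0 0 (step_sound _ 131 [(rh609d025e8d744275.shift 0 1), rhbe253d1426d5780c, (rhcf80391c5046a495.shift 2 0)] (by decide +kernel))
noncomputable def rhdf487e2b2c626c23 : CRef := CRef.mk (Pat.mk 0x300000001800000000 0x8000000380000003c0000003c000000fe000000ff0000003800000008 8 8) 0 0 (step_sound _ 70 [(rh18965a982d73c794.shift 3 1), rh8a8e0e06d898519b] (by decide +kernel))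
noncomputable def rh65829efd131c58b6 : CRef := CRef.mk (Pat.mk 0x10000000180000000c0000000000000000 0x20000000f0000003f0000001f0000001c0000001c00000018 8 6) 0 0 (step_sound _ 35 [rh3636dc568163658d, (rh71222050f2c63a3a.shift 3 0)] (by decide +kernel))
noncomputable def rh70c0254fa924b082 : CRef := CRef.mk (Pat.mk 0x1e00000000000000000000000000000000 0x400000006000000070000001e00000037000000070000000700000005 8 6) 0 0 (step_sound _ 161 [(rh3244c3cc8379b070.shift 0 4), rhd73959ca568f3f6d] (by decide +kernel))
noncomputable def rhb5327506c9733867 : CRef := CRef.mk (Pat.mk 0x3c000000000000000000000000 0xc0000000e0000003c0000003e0000000f0000000e 8 6) 0 0 (step_sound _ 130 [(rh3244c3cc8379b070.shift 1 3), rhc80fd9aa23ee1964] (by decide +kernel))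
noncomputable def rh29ea58d77672456f : CRef := CRef.mk (Pat.mk 0xf000000000 0x6e000000fe000000ff 8 8) 0 0 (step_sound _ 35 [(rh185f35b8bd8ec37f.shift 1 0), (rh592c7139d2c44767.shift 1 0), rh6fe6141069a793fd, (rhab0e37b52f061b7c.shift 1 0), (rheae1728ff4a56756.shift 2 0)] (by decide +kernel))
noncomputable def rhc56ba1ec5edd27c4 : CRef := CRef.mk (Pat.mk 0x20000000300000001000000010 0x800000008000001ef000001fe000003b800000010 8 10) 0 0 (step_sound _ 67 [(rh4aab53836e1644fe.shift 0 1), (rh6f182aac140d9cd6.shift 2 0), (rha11dfd15f08f96e3.shift 2 2), rhb98e183a12ed98e4] (by decide +kernel))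
noncomputable def rh7708a7c8e70fbb78 : CRef := CRef.mk (Pat.mk 0x80000000c0000000400000000 0x80000003f0000007f0000007f0000003600000012 8 7) 0 0 (step_sound _ 131 [rh2c9071903ac0906f, (rh5c5e593799055d58.shift 2 1)] (by decide +kernel))
noncomputable def rhf4a8da3dd96bb447 : CRef := CRef.mk (Pat.mk 0x1000000018000000080000000800000000 0xf0000001f0000007c0000006c0000007c00000034 8 7) 0 0 (step_sound _ 131 [rh07cbab85cc35a077, (rh54bb759cf5cfcc86.shift 2 0), (rhcf85c92937975d4d.shift 1 1)] (by decide +kernel))
noncomputable def rh220b1b3b51fee473 : CRef := CRef.mk (Pat.mk 0x40000000600000002000000020 0x5000000050000003de000001fe000003b7000000a0 8 10) 0 0 (step_sound _ 134 [(rh5c5e593799055d58.shift 5 1), rh7196e52f2f2bd4d8] (by decide +kernel))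
noncomputable def rhcf4f2fa7dca0f64d : CRef := CRef.mk (Pat.mk 0x400000004000000060000000200000000000000000 0x1000000050000003de000001fe000003b7000000a000000020 8 10) 0 0 (step_sound _ 37 [(rh71222050f2c63a3a.shift 5 0), (rh7196e52f2f2bd4d8.shift 0 1)] (by decide +kernel))
noncomputable def rh9e03641446ea1658 : CRef := CRef.mk (Pat.mk 0x80000000c000000040000000400000000 0x600000016000000160000007f0000007f000000f60000003e0000001a 8 8) 0 0 (step_sound _ 100 [rh0767fe0d07756232, rh2a6fb553eaf318f4, (rha83d0a1d851c6a27.shift 1 2)] (by decide +kernel))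
noncomputable def rhe9163ca4fa3581d6 : CRef := CRef.mk (Pat.mk 0x1c000000060000000000000000 0x80000000c0000003c0000001f0000003e0000003700000016 8 6) 0 0 (step_sound _ 131 [(rh4821dcf828b9d7bf.shift 2 0), rh52fb5f3b090cacd9, rha82bddc61fcff78d, (rhadf429772c25fde0.shift 2 0)] (by decide +kernel))
noncomputable def rhfb1802c0c7bfef5d : CRef := CRef.mk (Pat.mk 0x180000000e0000000000000000 0x1c0000001e0000007c0000001f000000fe000000ef0000000a 8 8) 0 0 (step_sound _ 132 [(rh5e9affd554cd4bb8.shift 0 1), rhcfacd4d5f8263f46, (rhf9366b6a121593ef.shift 3 0)] (by decide +kernel))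
noncomputable def rhc4b4f96cb89b9fcf : CRef := CRef.mk (Pat.mk 0x180000000e000000000000000000000000 0xe0000000f0000001f000000fe0000000f0000000400000004 8 8) 0 0 (step_sound _ 66 [rh40867c009ec4d469, (rh73ff39c154f59627.shift 0 2), (rhcf80391c5046a495.shift 2 0)] (by decide +kernel))
noncomputable def rh5e4297076f859b03 : CRef := CRef.mk (Pat.mk 0x300000001c000000000000000000000000 0x200000007c0000003f0000003f0000003c0000001c0000001c0000001c 8 7) 0 0 (step_sound _ 67 [rh28487a905e8f2ce8, (rh62189ef7289d3757.shift 1 1), (rhcf80391c5046a495.shift 3 0), (rhf9366b6a121593ef.shift 3 0)] (by decide +kernel))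
noncomputable def rh114e8146fbc1c830 : CRef := CRef.mk (Pat.mk 0x180000000c000000000000000000000000 0x100000001c0000001c0000003e0000007f0000003a0000000f0000000e0000000c00000004 8 7) 0 0 (step_sound _ 97 [(rh53b3c253cb0c65f4.shift 0 3), rh89525bcf77b7b7ff] (by decide +kernel))
noncomputable def rh66d5cf1289b16ad0 : CRef := CRef.mk (Pat.mk 0x4000000030000000000000000000000000 0x1000000058000007ff000003fe000003af000000a800000080 8 11) 0 0 (step_sound _ 102 [(rh654f35bb9bd7d6e6.shift 1 1), (rh72a5f40885bc9860.shift 3 0), (rha11dfd15f08f96e3.shift 3 3), (rhf7943763ae823400.shift 0 2)] (by decide +kernel))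
noncomputable def rhd2ca79c76f68b457 : CRef := CRef.mk (Pat.mk 0x380000000c000000000000000000000000 0x4000000040000001e0000001f0000003a0000000f0000000e0000000c00000004 8 6) 0 0 (step_sound _ 97 [rh1635cb746a5511ee, (rh53b3c253cb0c65f4.shift 0 3)] (by decide +kernel))
noncomputable def rheab0cdeefd88ebfd : CRef := CRef.mk (Pat.mk 0x1c000000060000000000000000 0x1e0000003e0000001f0000001c0000007e0000007700000006 8 7) 0 0 (step_sound _ 131 [rh2443a1aa287935fc, (rhadf429772c25fde0.shift 2 0), (rhfb8c75b59003d2e2.shift 0 1)] (by decide +kernel))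
noncomputable def rh830476f8919f4a8e : CRef := CRef.mk (Pat.mk 0x100000001e00000000 0x1db000000fe000000e7 8 9) 0 0 (step_sound _ 1 [rh2b5bda15cfbc378d, rheb0810cc63b001d8] (by decide +kernel))
noncomputable def rh27209e25bb9fb3a2 : CRef := CRef.mk (Pat.mk 0x1c000000060000000000000000 0x8000000080000003c0000001f0000003e0000003400000034 8 6) 0 0 (step_sound _ 131 [(rh4821dcf828b9d7bf.shift 2 0), rh52fb5f3b090cacd9, rh663f62b7bf336556, (rhadf429772c25fde0.shift 2 0)] (by decide +kernel))
noncomputable def rhf6c2921c9b3ec59a : CRef := CRef.mk (Pat.mk 0x300000001800000000 0x8000000380000003c0000003c000000fe000000ff000000f800000008 8 8) 0 0 (step_sound _ 70 [(rh18965a982d73c794.shift 3 1), rhfdad9b2b58c9f8bc] (by decide +kernel))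
noncomputable def rhf929f33d1bf153df : CRef := CRef.mk (Pat.mk 0x180000000e000000000000000000000000 0x100000003e0000001f0000001f0000000e0000000f0000003e0000001c 8 6) 0 0 (step_sound _ 66 [(rh62189ef7289d3757.shift 0 1), rhc39bc7fa4019280c, (rhcf80391c5046a495.shift 2 0), (rhf9366b6a121593ef.shift 2 0)] (by decide +kernel))
noncomputable def rhae9cbcd1aee3031b : CRef := CRef.mk (Pat.mk 0x300000000c000000000000000000000000 0x4000000040000000c0000007f0000007e0000000c0000000e0000000600000006 8 7) 0 0 (step_sound _ 131 [(rh18965a982d73c794.shift 2 3), rhbce99d3835ed2996] (by decide +kernel))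
noncomputable def rhe6fee544f2ee197b : CRef := CRef.mk (Pat.mk 0x180000000e0000000000000000000000000000000000000000 0x140000001c0000001f000000780000000e0000007c000000180000001c0000001c00000004 8 7) 0 0 (step_sound _ 197 [rh02cc147da1ed8375, (rh18965a982d73c794.shift 2 5)] (by decide +kernel))
noncomputable def rhca817d2917150f13 : CRef := CRef.mk (Pat.mk 0x80000000e000000000000000000000000 0x800000008000000ef000000ff000000fc0000001000000010 8 8) 0 0 (step_sound _ 100 [(rh394e80a462af5b2f.shift 0 2), (rh61032f941ec0abe6.shift 0 2), (rh84970c2ccb9fe470.shift 1 0)] (by decide +kernel))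
noncomputable def rhcc59e65468ed313a : CRef := CRef.mk (Pat.mk 0x180000000e000000000000000000000000 0x10000000180000001c0000003c0000001f000000fe0000007f0000000a00000008 8 8) 0 0 (step_sound _ 67 [(rh215e11e099257d75.shift 3 1), (rh9306fd4a655f8fd3.shift 1 0), (rhbb09337fdcb38f76.shift 1 0), (rhf06a7ead064c156d.shift 0 1)] (by decide +kernel))
noncomputable def rh91c6cd7c78565687 : CRef := CRef.mk (Pat.mk 0x180000000e00000000000000000000000000000000 0x1000000010000000380000001f0000007e0000007f000000380000003000000010 8 7) 0 0 (step_sound _ 99 [(rh215e11e099257d75.shift 3 2), (rh3195818a4dedfd5b.shift 0 1), (rhdfc9ab5f307912cb.shift 1 0)] (by decide +kernel))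
noncomputable def rhd2dc02e1937931c4 : CRef := CRef.mk (Pat.mk 0x180000000e00000000000000000000000000000000 0x10000000180000001c0000003c0000001f000000fe000000ef0000001a0000001800000010 8 8) 0 0 (step_sound _ 99 [(rh000637b5a81e86aa.shift 2 1), (rh215e11e099257d75.shift 3 2), (rh58e39a94896f0dbe.shift 2 0), (rh80604a0556f3bec6.shift 0 2)] (by decide +kernel))
noncomputable def rh8f1004fa8f8d71bb : CRef := CRef.mk (Pat.mk 0x180000000e000000000000000000000000 0x10000000340000001f0000007e0000007f0000003800000038 8 7) 0 0 (step_sound _ 67 [(rh000637b5a81e86aa.shift 2 0), rh0fc4ecf5a4447b63, rh3195818a4dedfd5b, rhf530243a96cb6547] (by decide +kernel))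
noncomputable def rhfa1c505adef5823c : CRef := CRef.mk (Pat.mk 0x180000000e000000000000000000000000 0xe0000000f0000001b000000fe000000f70000001000000010 8 8) 0 0 (step_sound _ 100 [(rh1f0676df8d5b5c3f.shift 0 2), (rha1eb337eeb07c2e7.shift 0 2), (rhbbe16ff26f7822db.shift 1 0)] (by decide +kernel))
noncomputable def rhcd8ce59515d2e9d8 : CRef := CRef.mk (Pat.mk 0x180000000c00000000000000000000000000000000 0x140000001c0000001c0000001c0000000f0000007c000000180000001800000010 8 7) 0 0 (step_sound _ 129 [(rh177a5f0331989354.shift 1 0), (rh53b3c253cb0c65f4.shift 0 4)] (by decide +kernel))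
noncomputable def rh64803747bd0423bc : CRef := CRef.mk (Pat.mk 0x40000000c000000040000000000000000 0x20000000e0000000e0000000e0000000f0000003e0000000c0000000c0000000400000004 8 6) 0 0 (step_sound _ 161 [(rha0a3d5adb505bc93.shift 1 2), (rhbec796c3ea7a32e6.shift 0 1), (rhedb11bef59254b8a.shift 1 0)] (by decide +kernel))
noncomputable def rhad21f95955b23e4d : CRef := CRef.mk (Pat.mk 0x8000000180000000c000000000000000000000000 0x2000000170000003f0000001f0000000c000000180000001800000010 8 6) 0 0 (step_sound _ 67 [(rh8ff3dde5b1c639e0.shift 2 0), (rha707fb719e87fe6e.shift 3 1), (rhde5a89fad2dc3bfa.shift 0 2)] (by decide +kernel))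
noncomputable def rh89f0f262e7eeea98 : CRef := CRef.mk (Pat.mk 0x1c00000006000000000000000000000000 0xe0000000f0000003f0000001c0000007e0000003f0000001c00000008 8 7) 0 0 (step_sound _ 163 [(rh1c31f1c2944b3cd9.shift 0 1), (rh4821dcf828b9d7bf.shift 2 1), (rhadf429772c25fde0.shift 2 1), rhb47c86856ccf886c] (by decide +kernel))
noncomputable def rhf152e86047bf058a : CRef := CRef.mk (Pat.mk 0x1c00000006000000000000000000000000 0x6000000070000001f0000007e000000070000000700000003 8 7) 0 0 (step_sound _ 65 [(rhadf429772c25fde0.shift 1 0), (rhdcbb959daa841346.shift 0 1), rhf9f7f6c98cb1f657] (by decide +kernel))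
noncomputable def rha00af5ff4cb1e986 : CRef := CRef.mk (Pat.mk 0x180000000e00000000000000000000000000000000 0x120000001e0000003e0000000f0000001f0000001e0000000e0000001c0000001c00000014 8 6) 0 0 (step_sound _ 195 [rh493695efe72e2459, (rh7d4be646332fc08b.shift 2 3), (rha597e8c3554e2333.shift 0 3)] (by decide +kernel))
noncomputable def rhee9f30caec2dd239 : CRef := CRef.mk (Pat.mk 0x180000000e000000000000000000000000 0x120000001e0000003e0000000f0000001e0000000e0000003e0000001c00000014 8 6) 0 0 (step_sound _ 163 [rh056c6700516b2824, (rh281c6819542c66e6.shift 2 0), (rh452f7c8038745489.shift 0 2), (rh7d4be646332fc08b.shift 2 2)] (by decide +kernel))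
noncomputable def rh975983a83bbe8e4b : CRef := CRef.mk (Pat.mk 0x180000000c000000000000000000000000 0x40000000c0000000c0000000f0000007c0000001c0000001c0000001c00000014 8 7) 0 0 (step_sound _ 133 [(rh18965a982d73c794.shift 2 3), rhd564112509a2a7eb] (by decide +kernel))
noncomputable def rh7810a63a5144866a : CRef := CRef.mk (Pat.mk 0x1c000000060000000000000000 0x80000001e0000003e000000370000001f0000003e0000000a00000008 8 6) 0 0 (step_sound _ 162 [(rh50bf2dc507802e74.shift 1 1), rh757fbf401f24c2d9, (rh8bf2ac2ff18eb843.shift 0 1)] (by decide +kernel))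
noncomputable def rh27c62a455107843f : CRef := CRef.mk (Pat.mk 0x180000000c000000000000000000000000 0x10000000180000001c0000000e0000001f0000003f000000370000001600000004 8 6) 0 0 (step_sound _ 97 [(rh53b3c253cb0c65f4.shift 0 3), rhf06c64092928fbe1] (by decide +kernel))
noncomputable def rhee0596fff4351edd : CRef := CRef.mk (Pat.mk 0x6000000030000000200000000000000000000000000000000 0x100000003000000030000001e000000070000000700000006000000070000000300000001 8 5) 0 0 (step_sound _ 195 [(rh18965a982d73c794.shift 0 5), rhfad1edce08e596b3] (by decide +kernel))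
noncomputable def rhab633b4e292f671e : CRef := CRef.mk (Pat.mk 0x200000006000000020000000000000000 0x700000007000000070000000300000007000000070000000600000006 8 3) 0 0 (step_sound _ 34 [(rh1148744b53f3df58.shift 0 1), rh256338352f95c8ed, (rh478c4cadbcd4e066.shift 1 0)] (by decide +kernel))
noncomputable def rh45c20753d9c7fead : CRef := CRef.mk (Pat.mk 0x8000000180000000c000000000000000000000000 0x200000002000000060000000f0000001e0000000f0000003c0000001c00000010 8 6) 0 0 (step_sound _ 97 [rh056c6700516b2824, (rh53b3c253cb0c65f4.shift 0 3)] (by decide +kernel))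
noncomputable def rh73fdbac7bf8ef5f3 : CRef := CRef.mk (Pat.mk 0x8000000180000000c00000000 0x140000001c0000003c0000000f0000001c0000000f0000000a 8 6) 0 0 (step_sound _ 33 [rh3299c889e8aa3768, (rh53b3c253cb0c65f4.shift 0 1)] (by decide +kernel))
noncomputable def rhe0f25018abaf04cb : CRef := CRef.mk (Pat.mk 0x180000000800000008000000000000000000000000 0x80000000c0000000e0000007c0000000f0000007c000000180000001800000010 8 7) 0 0 (step_sound _ 130 [rh31a713248702cbb2, (rh80e996897988855e.shift 0 1), (rhbe2843e3274e0f80.shift 1 1), (rhd69c262cd33b94b3.shift 0 4)] (by decide +kernel))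
noncomputable def rhe02b9053ecef7cc8 : CRef := CRef.mk (Pat.mk 0x1c000000080000000000000000 0x28000000ec000000ff000001f80000001800000018 8 9) 0 0 (step_sound _ 101 [(rh429d551bffc08aea.shift 0 2), (rh5339cdb064de282f.shift 1 0), (rh9c7c9e73025ee718.shift 2 0), (rha93a5dd541ab8209.shift 2 2), (rhf459621b93742302.shift 1 0)] (by decide +kernel))
noncomputable def rh7e5f673c32c8396b : CRef := CRef.mk (Pat.mk 0x38000000100000000000000000 0x800000008000001df000001f8000003b00000001000000010 8 10) 0 0 (step_sound _ 131 [(rha40d42a2e34c408d.shift 3 0), (rhbbc4c307c52bfca7.shift 2 0), (rhf60aa8aede119d3b.shift 0 3)] (by decide +kernel))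
noncomputable def rh111b5f898a7da0c7 : CRef := CRef.mk (Pat.mk 0x800000038000000100000000000000000 0xf0000003e000000770000001e0000001c 8 7) 0 0 (step_sound _ 36 [rh1a4d222b6893c032, (rh7b1f1fb55310c477.shift 3 0)] (by decide +kernel))
noncomputable def rh9494f41c02e9b471 : CRef := CRef.mk (Pat.mk 0x1e00000008 0xe3000000fe000001fb 8 9) 0 0 (step_sound _ 65 [(rh3244c3cc8379b070.shift 0 1), rhd7bed748e2a9270d] (by decide +kernel))
noncomputable def rhbae963b381f4bb6d : CRef := CRef.mk (Pat.mk 0x300000001c000000000000000000000000 0x80000001c0000001f0000003f0000001c0000007f0000003c0000001c 8 7) 0 0 (step_sound _ 67 [rh41c131769f5fa357, (rh775ea4c85963d2a1.shift 1 1), (rhcf80391c5046a495.shift 3 0), (rhf9366b6a121593ef.shift 3 0)] (by decide +kernel))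
noncomputable def rh2f6bfea3ce35db94 : CRef := CRef.mk (Pat.mk 0x380000000c0000000000000000 0x100000001c0000003c0000006f0000003e0000007c0000001c00000010 8 7) 0 0 (step_sound _ 163 [(rh436e25d36bb08933.shift 0 1), (rh50bf2dc507802e74.shift 2 1), (rh757fbf401f24c2d9.shift 1 0)] (by decide +kernel))
noncomputable def rh036a754f870a4090 : CRef := CRef.mk (Pat.mk 0x80000000c000000000000000000000000 0x60000001e0000003e0000000f0000003e0000007c0000001f0000000e 8 7) 0 0 (step_sound _ 66 [(rh2288baf270c8f823.shift 1 1), (rh4821dcf828b9d7bf.shift 2 0), rhd02616632219be49, (rhdb26dfe50eb4e6f1.shift 0 1)] (by decide +kernel))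
noncomputable def rhb1a6ac36c3256da2 : CRef := CRef.mk (Pat.mk 0x1000000018000000080000000000000000 0xc0000000c0000000c000000180000007c0000007f0000007e0000003c 8 7) 0 0 (step_sound _ 35 [rh589b8b4e0d54ce1f, (rh71222050f2c63a3a.shift 3 0)] (by decide +kernel))
noncomputable def rh71c8507f95e236f3 : CRef := CRef.mk (Pat.mk 0x200000002000000030000000200000000000000000000000000000000 0x50000000700000002000000030000000300000007000000070000000700000001 8 3) 0 0 (step_sound _ 224 [(rh50fbb5868c909700.shift 0 4), rh630b54bcf47f620f] (by decide +kernel))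
noncomputable def rh93e86cbc3f876809 : CRef := CRef.mk (Pat.mk 0x20000000200000003000000000 0x200000002000000020000003bf000001fe000003cf 8 10) 0 0 (step_sound _ 38 [(rh506caafe38f6a489.shift 1 0), rhc65ab04eb23a35b0, (rhd5979d9ced4acd89.shift 3 0), rhf780b73e35343b1d, (rhff930fec52d89715.shift 2 0)] (by decide +kernel))
noncomputable def rh2264d61affec2538 : CRef := CRef.mk (Pat.mk 0x8000000080000000c000000040000000000000000 0x340000007c0000006f0000007c0000007e0000003800000010 8 7) 0 0 (step_sound _ 101 [(rh20d1754cef81b2ab.shift 1 1), (rh520c76509f7824b1.shift 1 0), (rh837cbf422869f936.shift 0 1), (rh8aeae207ef4e32d0.shift 1 2)] (by decide +kernel))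
noncomputable def rh6c80169e899d1093 : CRef := CRef.mk (Pat.mk 0x80000000c000000040000000400000000 0x40000000400000006000000ef0000007c0000007e0000000e0000000a 8 8) 0 0 (step_sound _ 100 [(rh0b95bf1a3f23dfad.shift 1 0), (rha83d0a1d851c6a27.shift 1 2), (rhdc1641106d7e5aa2.shift 1 2), rhe561745b02a087ad] (by decide +kernel))
noncomputable def rh3fdc0c58dc95d510 : CRef := CRef.mk (Pat.mk 0x1000000018000000080000000800000000 0xc0000000c0000000f0000001f0000001f0000001e0000007c00000034 8 7) 0 0 (step_sound _ 131 [rh0668c447fd80549a, rh07cbab85cc35a077, (rhcbaa34959f85e2ef.shift 2 0), (rhd802bb8339359eae.shift 1 0)] (by decide +kernel))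
noncomputable def rhd0f1f2f012ea106a : CRef := CRef.mk (Pat.mk 0x400000007000000020 0x40000000400000007c000001fe000003b7 8 10) 0 0 (step_sound _ 102 [(rh5c5e593799055d58.shift 5 0), rh8b8dea7946c897aa] (by decide +kernel))
noncomputable def rhba5e2ccc539513f1 : CRef := CRef.mk (Pat.mk 0x100000001c0000000000000000 0xe0000000f000001de000000fc000001ee0000000c 8 9) 0 0 (step_sound _ 69 [(rh06db8ceda6269a47.shift 1 1), (rh45f730bcf36fcf64.shift 1 1), rhe0a2f640c8008c73] (by decide +kernel))
noncomputable def rh15ed0031272ca767 : CRef := CRef.mk (Pat.mk 0x40000000f00000000000000000 0x400000004000000067000003fe000001bf00000020 8 10) 0 0 (step_sound _ 39 [rh68202550eea7a13c, (rhe25b0a99195a5d59.shift 4 1)] (by decide +kernel))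
noncomputable def rhe493faf8ab2a6783 : CRef := CRef.mk (Pat.mk 0x2000000070000000400000000000000000 0x3b7000001fe0000007c0000004000000040 8 10) 0 0 (step_sound _ 38 [(rh7b1f1fb55310c477.shift 5 0), (rh9e94ac1520534691.shift 0 2)] (by decide +kernel))
noncomputable def rh64654d9e9ee49587 : CRef := CRef.mk (Pat.mk 0x40000000e000000020000000000000000 0x10000000740000003f0000007e0000000b0000000a 8 7) 0 0 (step_sound _ 33 [rh099f4a268c70810d, (rh71222050f2c63a3a.shift 1 0)] (by decide +kernel))
noncomputable def rh5768a6622566c834 : CRef := CRef.mk (Pat.mk 0x40000001e000000000000000000000000 0x2000000070000001e0000003f0000000700000007 8 6) 0 0 (step_sound _ 129 [(rh3244c3cc8379b070.shift 0 3), rhd76a433642d10763] (by decide +kernel))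
noncomputable def rhd7de8e91b8b20177 : CRef := CRef.mk (Pat.mk 0x100000001c000000100000000000000000 0x1400000014000000170000003f0000001b0000000a00000008 8 6) 0 0 (step_sound _ 67 [rh076e3e02a23fd831, (rh4e7d8cbf979f5637.shift 0 1), (rh503dd4575245365b.shift 3 1)] (by decide +kernel))
noncomputable def rh70b28bfcda7eaad1 : CRef := CRef.mk (Pat.mk 0x2000000038000000100000000000000000 0x280000007c0000002f000000f80000001c0000001000000010 8 8) 0 0 (step_sound _ 36 [(rh71222050f2c63a3a.shift 4 0), (rhf17634ba1739e322.shift 0 1)] (by decide +kernel))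
noncomputable def rha16b82eed199cfa5 : CRef := CRef.mk (Pat.mk 0x100000001e0000000000000000000000000000000000000000 0x280000003800000038000000100000001e0000003f00000038000000380000003800000008 8 6) 0 0 (step_sound _ 132 [rh1a4ff47909186d8f, (rhe25b0a99195a5d59.shift 1 4)] (by decide +kernel))
noncomputable def rhf9a9db4bba2b321c : CRef := CRef.mk (Pat.mk 0x2000000038000000000000000000000000 0x38000000380000002f000001fe000001f80000005000000010 8 9) 0 0 (step_sound _ 69 [(rh0a1263634bfccf2c.shift 3 1), (rh637bfed63dddfed8.shift 1 0), (rh8ee80cc30e93a344.shift 2 2), (rh9909eeda0ef2ed2c.shift 2 2), (rhf530834c0c5f3ed9.shift 0 2)] (by decide +kernel))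
noncomputable def rhd595a2d54ecffa85 : CRef := CRef.mk (Pat.mk 0x80000000c00000008000000000000000000000000 0x40000001c0000001c000000180000000c0000001f00000078000000100000001000000010 8 7) 0 0 (step_sound _ 100 [(rh046c5eb18e55a239.shift 3 0), (rh5c5a2014709044d0.shift 0 3), (rh649176ddbf239ef2.shift 0 2)] (by decide +kernel))
noncomputable def rhf79b86530721eba6 : CRef := CRef.mk (Pat.mk 0x80000000c00000018000000000000000000000000 0x40000000c0000000f0000001b0000001f0000001e00000014 8 5) 0 0 (step_sound _ 129 [rh8fcd6cb0b6d991cd, (rhb739f4f82bb681b4.shift 0 3)] (by decide +kernel))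
noncomputable def rha744b3eabd236a36 : CRef := CRef.mk (Pat.mk 0x200000003000000020000000200000000 0x10000000700000007000000070000000300000003000000020000000700000005 8 3) 0 0 (step_sound _ 34 [(rh55afc6a59410cf00.shift 1 0), rhf5032180d3474d6f] (by decide +kernel))
noncomputable def rh992ae30883f1b01a : CRef := CRef.mk (Pat.mk 0x1000000018000000080000000800000000 0x80000000c0000000c0000001e0000007c0000000f0000007c00000014 8 7) 0 0 (step_sound _ 66 [rh28e9fe23c942a918, (rhd69c262cd33b94b3.shift 0 2), (rhef1fef9b2fe09d8c.shift 1 0)] (by decide +kernel))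
noncomputable def rh094ad13c0bcbbe2d : CRef := CRef.mk (Pat.mk 0x80000000c000000040000000000000000 0x1c0000003c0000006f0000007e0000007e0000001800000010 8 7) 0 0 (step_sound _ 163 [(rh5c5e593799055d58.shift 2 2), rh99dd020f90b8989f] (by decide +kernel))
noncomputable def rh943279044f9b413f : CRef := CRef.mk (Pat.mk 0x200000000000000030000000100000000000000000 0x8000000380000003f000000fc000000f00000003c00000038 8 8) 0 0 (step_sound _ 36 [(rh02b61373514f8551.shift 1 1), (rh514fa720804abbca.shift 4 0), rh8d57020fa52e81cf] (by decide +kernel))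
noncomputable def rhe87125d2f409926d : CRef := CRef.mk (Pat.mk 0x10000000000000001800000008000000000000000000000000 0x1c0000001c0000000f0000007c000000180000001c0000001c00000014 8 7) 0 0 (step_sound _ 163 [(rh054bbed33affbcb7.shift 0 2), (rh4dec404a6c0e229a.shift 3 2), rhb1c92aa958bdca99] (by decide +kernel))
noncomputable def rhd3974cc43eec5d11 : CRef := CRef.mk (Pat.mk 0xc000000040000000000000000 0x1c0000003e0000000f0000003e0000007c0000001f0000000e 8 7) 0 0 (step_sound _ 131 [rh91317bda041b6848, (rhcf80391c5046a495.shift 2 0), (rhdb26dfe50eb4e6f1.shift 0 1), rhe190574dc8ba41f9] (by decide +kernel))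
noncomputable def rh743653161a136e34 : CRef := CRef.mk (Pat.mk 0x20000000300000001000000000 0x280000006c000001fe000000fe000001d700000044 8 9) 0 0 (step_sound _ 133 [rh4299a1ae06ea8622, (rh5c5e593799055d58.shift 4 1)] (by decide +kernel))
noncomputable def rhadb149cf443540db : CRef := CRef.mk (Pat.mk 0x80000000c0000000400000004 0x400000016000000160000007f000000ff0000007c00000024 8 8) 0 0 (step_sound _ 100 [(rh69012675dfdb1a5b.shift 0 2), rhcebec6bccaa76acc, (rhd69c262cd33b94b3.shift 0 2), (rhd6bfcdeee5465575.shift 1 0)] (by decide +kernel))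
noncomputable def rhe94c1eb9b099fd2a : CRef := CRef.mk (Pat.mk 0x6000000020000000600000000 0x40000000700000007000000070000000600000006000000020000000700000005 8 3) 0 0 (step_sound _ 129 [(rh55afc6a59410cf00.shift 1 0), rha4b3f62107f61bee] (by decide +kernel))
noncomputable def rhd86b9598a6b845e2 : CRef := CRef.mk (Pat.mk 0x1800000008000000080000000000000000000000000000000000000000 0x800000018000000180000007f0000007e0000003c0000001c0000001c00000010 8 7) 0 0 (step_sound _ 132 [(rh2977b00063528966.shift 3 2), (rh47dece01c1595e79.shift 3 2), (rh9180b0ab9f393d06.shift 0 3), (rhbc3cf88a7322bd1d.shift 1 3), (rhfe275ecfc2131bf8.shift 2 0)] (by decide +kernel))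
noncomputable def rh8bfd196e626071b8 : CRef := CRef.mk (Pat.mk 0x1000000018000000080000000800000000 0x40000000e0000003f0000001f0000007b0000001f00000016 8 7) 0 0 (step_sound _ 97 [(rhc4d4ffb49875abab.shift 0 2), (rhd401c565a266de7d.shift 0 1), rhdbe7989f4d16ea95, rhe988faf8dbc20dc3] (by decide +kernel))
noncomputable def rh0901b48bfceb997d : CRef := CRef.mk (Pat.mk 0x1000000038000000080000000000000000 0x3b7000001fe000000f80000000800000008 8 10) 0 0 (step_sound _ 35 [(rh71222050f2c63a3a.shift 3 0), (rhf3b169b5e429ebc6.shift 0 2)] (by decide +kernel))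
noncomputable def rhbd6210879e94c0f2 : CRef := CRef.mk (Pat.mk 0x2000000070000000100000000000000000 0x40000000e70000007e000000f7000001e0000000e0 8 9) 0 0 (step_sound _ 99 [(rh708c3bc8fe2f3084.shift 0 2), (rh8843e60b11aa94e7.shift 3 0), (rhec46bd5500c722c9.shift 2 3)] (by decide +kernel))
noncomputable def rhb30b2a807bdeb40b : CRef := CRef.mk (Pat.mk 0xf00000000000000000000000000000000 0x40000000c0000001c0000000f0000001c0000001c0000001c00000018 8 5) 0 0 (step_sound _ 99 [rh752d88b2d16fd110, (rhe25b0a99195a5d59.shift 0 3)] (by decide +kernel))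
noncomputable def rhf715fbd00cc3291e : CRef := CRef.mk (Pat.mk 0x2000000020000000300000001000000000 0x80000006c000000ff000000fe000001d700000044 8 9) 0 0 (step_sound _ 67 [(rh7f0f728c796044ac.shift 0 1), (rha2aa9fd3a860e7eb.shift 2 0), (rhb935856717173846.shift 1 0), rhf71b3d29722e37b4] (by decide +kernel))
noncomputable def rh230e5e04a83f2d00 : CRef := CRef.mk (Pat.mk 0x20000000300000001000000000 0x280000006c000000fe000000fe000001d700000044 8 9) 0 0 (step_sound _ 133 [(rh5c5e593799055d58.shift 4 1), rhd2494b0b9db83763] (by decide +kernel))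
noncomputable def rhc1b77af88d1fefaf : CRef := CRef.mk (Pat.mk 0x70000000180000000000000000 0x2000000020000000f00000007f000000f8000000f000000070 8 8) 0 0 (step_sound _ 133 [rh1a43c11981063e2c, (rh4821dcf828b9d7bf.shift 4 0), (rhf7bbabc7740a8b9b.shift 2 0)] (by decide +kernel))
noncomputable def rhd914e7c06242cee2 : CRef := CRef.mk (Pat.mk 0x1c000000060000000000000000 0xf0000000f0000003f0000001e000000360000003c0000001c 8 6) 0 0 (step_sound _ 97 [(rh16f3a86122ae1d00.shift 1 0), (rhb09f4c5eaef57401.shift 0 2), (rhbdb8dfd08861fbf7.shift 0 1)] (by decide +kernel))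
noncomputable def rhacc0f22f4769cae9 : CRef := CRef.mk (Pat.mk 0xc0000000700000000000000000000000000000000 0x80000000e0000000e0000000e0000000e0000000f0000003c0000000c0000000c00000008 8 6) 0 0 (step_sound _ 99 [(rh26b686789b1aea81.shift 0 1), (rh7651f86b8442a0bf.shift 0 1), (rhc5bf660232356ab8.shift 1 0)] (by decide +kernel))
noncomputable def rh987fc1c47fd0144e : CRef := CRef.mk (Pat.mk 0x2000000038000000000000000000000000 0x40000000c0000000e0000003f0000007e0000000f0000000c00000008 8 7) 0 0 (step_sound _ 130 [(rh0518ac1a8090b45c.shift 1 1), (rh15b4c7f64ffd8e41.shift 1 3), (rh1713b2a8615f2751.shift 0 2), (rh8bb330ee5aea9f6b.shift 1 0), (rh8c12fdbbddc1e7ab.shift 0 3)] (by decide +kernel))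
noncomputable def rh452803bcec2d6df0 : CRef := CRef.mk (Pat.mk 0x180000000e000000000000000000000000 0x3000000034000000340000001f0000003e0000003b0000001a00000018 8 6) 0 0 (step_sound _ 100 [(rh21460d2d48a35cb8.shift 0 1), (rh9767a395d383a9c4.shift 1 0)] (by decide +kernel))
noncomputable def rh1de8f71965aa1ce3 : CRef := CRef.mk (Pat.mk 0x70000000180000000000000000 0x3c0000003c000000ef0000007f000000f8000000c0000000c0 8 8) 0 0 (step_sound _ 99 [(rh04adde65229dd8ca.shift 0 2), (rh2dbf8571854d46df.shift 2 0), (rhbfaaaf04b5af1259.shift 2 2), (rhf41a34b41b8c2138.shift 2 1)] (by decide +kernel))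
noncomputable def rh1a2de2c054e157ba : CRef := CRef.mk (Pat.mk 0x8000000180000000c000000000000000000000000 0x10000000180000001c0000000c0000001c0000001c0000000f000000180000001800000010 8 5) 0 0 (step_sound _ 97 [(rh53b3c253cb0c65f4.shift 0 3), (rhd4e4239b693efc2b.shift 2 0)] (by decide +kernel))
noncomputable def rh0a24f345b48152a3 : CRef := CRef.mk (Pat.mk 0x200000002000000020000000300000000000000000000000000000000 0x50000000700000003000000030000000300000006000000070000000700000001 8 3) 0 0 (step_sound _ 224 [rh453decb7e69ad812, (rh50fbb5868c909700.shift 0 4)] (by decide +kernel))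
noncomputable def rh4b9b9c6351300e6f : CRef := CRef.mk (Pat.mk 0x8000000080000000c0000000800000000 0x140000001c0000001c00000018000000380000003f0000000f0000001800000010 8 6) 0 0 (step_sound _ 36 [(rh55afc6a59410cf00.shift 3 0), (rhd7e8972d53277b8e.shift 0 1)] (by decide +kernel))
noncomputable def rhf0b8c0601120d1bb : CRef := CRef.mk (Pat.mk 0x200000002000000020000000300000000000000000000000000000000 0x50000000700000006000000030000000300000006000000070000000700000001 8 3) 0 0 (step_sound _ 226 [(rh2f68792b6b779e96.shift 1 4), rh5f052059c91142c4] (by decide +kernel))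
noncomputable def rh836ccfc13695a6ef : CRef := CRef.mk (Pat.mk 0x10000000100000001000000010 0x2f0000007f000000fe0000001000000010 8 8) 0 0 (step_sound _ 99 [rh2b0b9d34f8b1586c, (rh50fbb5868c909700.shift 3 0)] (by decide +kernel))
noncomputable def rhb30193f849c2dfda : CRef := CRef.mk (Pat.mk 0x70000000180000000000000000 0x2000000020000000f00000007f000000f8000000f000000070 8 8) 0 0 (step_sound _ 133 [rh1a43c11981063e2c, (rhf7bbabc7740a8b9b.shift 2 0), (rhf9366b6a121593ef.shift 4 0)] (by decide +kernel))
noncomputable def rha51549b811bbc1b7 : CRef := CRef.mk (Pat.mk 0x700000001800000000 0x3c0000003c000000ff0000007f000000f800000040 8 8) 0 0 (step_sound _ 67 [(rh04adde65229dd8ca.shift 0 1), (rhb09f4c5eaef57401.shift 2 1), (rhbfaaaf04b5af1259.shift 2 1), (rhf41a34b41b8c2138.shift 2 0)] (by decide +kernel))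
noncomputable def rh62e8aa95d64159e3 : CRef := CRef.mk (Pat.mk 0x1c00000006000000000000000000000000 0x1c0000001e0000001f0000001c0000007e0000007c0000001c00000008 8 7) 0 0 (step_sound _ 163 [(rh00ed64a1a01bd805.shift 2 0), (rh1c31f1c2944b3cd9.shift 0 1), (rh4821dcf828b9d7bf.shift 2 1), (rhadf429772c25fde0.shift 2 1)] (by decide +kernel))
noncomputable def rhbede89ab38c78f2a : CRef := CRef.mk (Pat.mk 0x10000000180000000c0000000000000000 0x20000000f0000003f0000001f0000001c0000007800000038 8 7) 0 0 (step_sound _ 35 [rh15a4be4a710bcca1, (rh71222050f2c63a3a.shift 3 0)] (by decide +kernel))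
noncomputable def rhda11cce8881fd0a0 : CRef := CRef.mk (Pat.mk 0x8000000080000001c00000000 0x1c0000003c0000000f0000007b0000001f0000000a 8 7) 0 0 (step_sound _ 68 [rh40fd6c3ceb56e61a, rh7594fdfa726df714, (rhf9d36e158778ce35.shift 1 1)] (by decide +kernel))
noncomputable def rha43c3540a29ab277 : CRef := CRef.mk (Pat.mk 0x8000000080000001c00000000 0xc0000000c0000001f0000007b0000001f0000000a 8 7) 0 0 (step_sound _ 68 [rh7594fdfa726df714, rh8c32cdf3ee44b1a1, (rhf9d36e158778ce35.shift 1 1)] (by decide +kernel))
noncomputable def rh8615e8b891cbfa46 : CRef := CRef.mk (Pat.mk 0x1000000010000000100000001800000000 0x280000003e00000070000001f7000000fe000001e7 8 9) 0 0 (step_sound _ 37 [rh4b1316525187878a, (rh55afc6a59410cf00.shift 4 0)] (by decide +kernel))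
noncomputable def rh111e7ec3e479211d : CRef := CRef.mk (Pat.mk 0x100000001000000018000000000000000000000000 0x300000003000000030000003f7000001fe000001f70000002000000020 8 10) 0 0 (step_sound _ 101 [(rh70e33bfdf511e144.shift 4 0), (rh9c0f1bef6b2efe94.shift 0 2), (rhf6e466063c388db3.shift 0 1)] (by decide +kernel))
noncomputable def rhc9a78bb6551551f4 : CRef := CRef.mk (Pat.mk 0x1c000000060000000000000000 0x1c0000001e0000001f0000001c0000007e0000007c0000001c 8 7) 0 0 (step_sound _ 131 [rh1c31f1c2944b3cd9, (rh4821dcf828b9d7bf.shift 2 0), (rh5c33ed7e4df20a9f.shift 2 0), (rhadf429772c25fde0.shift 2 0)] (by decide +kernel))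
noncomputable def rhe80a56346b0cd4f7 : CRef := CRef.mk (Pat.mk 0x180000000c000000000000000000000000 0x100000001c0000001c0000003c0000001f000000780000000c0000001c0000001c00000014 8 7) 0 0 (step_sound _ 133 [(rh18965a982d73c794.shift 2 3), rh850259c361326300] (by decide +kernel))
noncomputable def rhc6cfcc7b78feec74 : CRef := CRef.mk (Pat.mk 0x180000000e0000000000000000 0x8000000080000003c0000003e000000ff0000001b0000001e0000001c0000001c 8 8) 0 0 (step_sound _ 132 [(rh4821dcf828b9d7bf.shift 3 0), (rh4dce7be789ef6789.shift 1 1), rh5da57d16592afb2a, (rhcf80391c5046a495.shift 3 0)] (by decide +kernel))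
noncomputable def rh817efa323d68cd7e : CRef := CRef.mk (Pat.mk 0x2000000020000000000000001000000010 0x2000000060000003ee000001ff000003fe 8 10) 0 0 (step_sound _ 37 [(rh3c88ce959c0e423f.shift 4 0), rha5487be4a2ccd8d6] (by decide +kernel))
noncomputable def rhfe167a277f8bdfaa : CRef := CRef.mk (Pat.mk 0x1000000018000000080000000800000000 0x1000000010000000700000007e000001ef0000007c00000020 8 9) 0 0 (step_sound _ 164 [rh46850812027a99b6, (rh5c5e593799055d58.shift 3 2)] (by decide +kernel))
noncomputable def rh692e1d2726fec94b : CRef := CRef.mk (Pat.mk 0x80000000c0000000000000004 0x1c0000001e0000007c000000380000001f0000007c00000014 8 7) 0 0 (step_sound _ 131 [(rh615a42bddefc9f31.shift 2 0), rh7847051ba627ac19, (rh9b3949a83a0523a7.shift 0 1), (rhb4397cc7a5079d54.shift 0 1)] (by decide +kernel))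
noncomputable def rh08fc8fa7484fd9da : CRef := CRef.mk (Pat.mk 0x1000000018000000080000000000000000 0x1000000010000003b7000001fe000001ef0000002000000020 8 10) 0 0 (step_sound _ 164 [(rh5c5e593799055d58.shift 3 2), rh6f15fd584bebb806] (by decide +kernel))
noncomputable def rh91db624a4ad7dbbd : CRef := CRef.mk (Pat.mk 0x1000000018000000080000000800000000 0x6000000370000007f0000007f0000007e00000004 8 7) 0 0 (step_sound _ 66 [rh2ab219e24a8ebec3, (rh69012675dfdb1a5b.shift 0 2), (rh6d814c1196ca315c.shift 1 1), (rhd69c262cd33b94b3.shift 0 2)] (by decide +kernel))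
noncomputable def rhee44225003cdb108 : CRef := CRef.mk (Pat.mk 0x380000000c000000000000000000000000 0x140000001c0000001e0000001f0000003a0000000f0000000e0000000c00000004 8 6) 0 0 (step_sound _ 97 [rh340d9967e9596d98, (rh53b3c253cb0c65f4.shift 0 3)] (by decide +kernel))
noncomputable def rh7a1ed6490a517c2f : CRef := CRef.mk (Pat.mk 0x180000000300000000000000000000000000000000 0x40000000c0000001f000000780000001f0000007e0000001e0000001c00000014 8 7) 0 0 (step_sound _ 131 [(rh1c62b6193297d9e3.shift 0 4), rhefd57977d06f6ed5] (by decide +kernel))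
noncomputable def rhc143e249d45cfa01 : CRef := CRef.mk (Pat.mk 0x5000000018000000000000000000000000 0x1000000050000000d7000000ff000001ff0000002000000020 8 9) 0 0 (step_sound _ 101 [(rh545a56c0ba685948.shift 0 2), rh73194b99b8772a3d, (rh834ef1c974e4840e.shift 2 0), (rhbdce4ae460fd80ce.shift 2 2)] (by decide +kernel))
noncomputable def rh6de9a4dd94107699 : CRef := CRef.mk (Pat.mk 0x8000000080000000c000000000000000000000000 0x140000001e000000780000000f0000003c0000001c00000004 8 7) 0 0 (step_sound _ 67 [(rh08907ceb8a14f3c9.shift 0 1), (rh0b0198cd56a23f60.shift 0 1), (rh367118e0bf0473e0.shift 2 0)] (by decide +kernel))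
noncomputable def rhca8f72d4d04ce306 : CRef := CRef.mk (Pat.mk 0x340000000600000000000000000000000000000000 0x8000000180000003e000000f40000003e0000003e0000003f0000003800000028 8 8) 0 0 (step_sound _ 132 [rh1b8b435fbaa3aeb6, (rh1c62b6193297d9e3.shift 1 4)] (by decide +kernel))
noncomputable def rhf136cdba786798e9 : CRef := CRef.mk (Pat.mk 0x280000000c00000000000000000000000000000000 0x100000001c0000001f000000780000000f0000007c0000001c0000001c00000014 8 7) 0 0 (step_sound _ 164 [(rh18965a982d73c794.shift 2 4), rh983bed0cf18ddd2e] (by decide +kernel))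
noncomputable def rh28ff416f1350d2b6 : CRef := CRef.mk (Pat.mk 0x5000000018000000000000000000000000 0x1000000050000000d7000000fe000000ff0000002800000028 8 8) 0 0 (step_sound _ 101 [(rh34038d6801c5aac0.shift 2 0), rh73194b99b8772a3d, (rh834ef1c974e4840e.shift 2 0), (rhe96eadab5b74afd7.shift 2 1)] (by decide +kernel))
noncomputable def rh5b8ac91578eb4ccf : CRef := CRef.mk (Pat.mk 0x180000000e000000000000000000000000 0x4000000040000001e0000001f0000007a0000000e0000001e0000001c00000014 8 7) 0 0 (step_sound _ 133 [(rh18965a982d73c794.shift 2 3), rh5c081832b9b7d6a2] (by decide +kernel))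
noncomputable def rhf58fa67567586aa1 : CRef := CRef.mk (Pat.mk 0x38000000080000000000000000 0x400000014000000ff0000007c000000e80000000800000008 8 8) 0 0 (step_sound _ 130 [(rh15b4c7f64ffd8e41.shift 1 3), (rh7fa7c94c40b8ffa1.shift 1 0), (rh8c12fdbbddc1e7ab.shift 0 3), (rhabcfbb5502de12b0.shift 1 0), (rhda789f95f34c7cae.shift 2 0)] (by decide +kernel))
noncomputable def rh243084eca8855adb : CRef := CRef.mk (Pat.mk 0x180000000c0000000000000000000000000000000000000000 0x140000001c0000001c000000180000000f0000007c0000001e0000001c0000001c00000010 8 7) 0 0 (step_sound _ 161 [(rh53b3c253cb0c65f4.shift 0 5), (rhd242fd0a9ac0765c.shift 1 0)] (by decide +kernel))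
noncomputable def rhacdf878639fa4daa : CRef := CRef.mk (Pat.mk 0x1c0000000600000000000000000000000000000000 0xa0000000e0000003e0000001f000000360000003f0000003f0000000f00000004 8 6) 0 0 (step_sound _ 97 [(rh281434b0fc5159ce.shift 1 0), (rh480e77c03f3567f1.shift 0 1), (rh4821dcf828b9d7bf.shift 1 1), (rhadf429772c25fde0.shift 1 1)] (by decide +kernel))
noncomputable def rhf152117fefcb63ef : CRef := CRef.mk (Pat.mk 0x180000000300000000000000000000000000000000 0x400000006000000070000000f0000001f0000000300000007000000070000000700000001 8 5) 0 0 (step_sound _ 161 [rh362fdf9e3aa89a8f, (rhb2a0b9ccfb5cecd5.shift 0 4)] (by decide +kernel))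
noncomputable def rhf3547186ae33317a : CRef := CRef.mk (Pat.mk 0x180000000a000000000000000000000000 0x4000000040000000e0000001f0000007a0000000f0000003e0000001c00000014 8 7) 0 0 (step_sound _ 98 [(rh53b3c253cb0c65f4.shift 0 3), rhb8871b2d579c5c5a] (by decide +kernel))
noncomputable def rh7aecc4ca9032e6db : CRef := CRef.mk (Pat.mk 0xc0000000700000000000000000000000000000000 0x80000000c0000001c0000003c000000170000003e0000001e0000000e0000000a 8 6) 0 0 (step_sound _ 164 [rh11707f63d5fe6caa, (rh18965a982d73c794.shift 1 4)] (by decide +kernel))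
noncomputable def rhc433f5171edf55a1 : CRef := CRef.mk (Pat.mk 0x380000000c0000000000000000000000000000000000000000 0x180000007a0000003e0000006c0000007f0000007c0000001c0000000800000008 8 7) 0 0 (step_sound _ 130 [(rh281434b0fc5159ce.shift 2 1), rh96aa665431d394bf, (rh9a31fbe43d419ad3.shift 1 2), (rhcf80391c5046a495.shift 2 2)] (by decide +kernel))
noncomputable def rhc96e1d7b6c75e2e4 : CRef := CRef.mk (Pat.mk 0x20000000000000003000000010 0x20000001ff000000fe000001ff0000007800000050 8 9) 0 0 (step_sound _ 133 [(rh3c88ce959c0e423f.shift 4 0), rhfcf4504fadac2281] (by decide +kernel))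
noncomputable def rh06672a3fca225e6f : CRef := CRef.mk (Pat.mk 0x1000000000000000180000000800000000000000000000000000000000 0x4000000140000001f0000007c0000000c0000001c0000001c0000001c00000010 8 7) 0 0 (step_sound _ 99 [(rh02b61373514f8551.shift 0 3), (rh42a7bbf213dec003.shift 3 2), (rh6e8f5cdd81ae725e.shift 2 0), (rh8244c33d5ee49d6f.shift 0 1)] (by decide +kernel))
noncomputable def rh8f199c21ca5afe1c : CRef := CRef.mk (Pat.mk 0x10000000000000001800000008000000000000000000000000 0x40000001c0000003c0000000f0000007c0000000c0000001c0000001c0000001c 8 7) 0 0 (step_sound _ 163 [(rh22d86f446f3de558.shift 0 2), (rh8f3c544a17d1186e.shift 2 2), rhb1c92aa958bdca99, (rhec1c8b2b80cec4c0.shift 2 0)] (by decide +kernel))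
noncomputable def rh3dc4909d73747b18 : CRef := CRef.mk (Pat.mk 0x18000000080000000800000000 0x1c0000001e000000780000000f0000003c00000014 8 7) 0 0 (step_sound _ 131 [(rh1b866c4ae8b50bb9.shift 1 1), rh9c061216ec097908, rhc994cb3f8c6ded4d] (by decide +kernel))
noncomputable def rhe6f4d6fca8ddbfc7 : CRef := CRef.mk (Pat.mk 0x8000000180000000800000008 0x200000002000000170000003f0000001f0000000c00000008 8 6) 0 0 (step_sound _ 100 [(rh2f68792b6b779e96.shift 3 0), rhffb1f2cfe3a9c803] (by decide +kernel))
noncomputable def rhdf49da5925d635d4 : CRef := CRef.mk (Pat.mk 0x380000000c0000000000000000000000000000000000000000 0x10000000180000007a0000003e0000007c0000007f0000003c0000001c0000000800000008 8 7) 0 0 (step_sound _ 130 [(rh5c3a3a0bf93f15e3.shift 1 3), rh96aa665431d394bf, (rhadf429772c25fde0.shift 2 2)] (by decide +kernel))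
noncomputable def rhe5f091bebf5fc18e : CRef := CRef.mk (Pat.mk 0x40000000c000000040000000000000000 0x180000003c0000007f0000007f0000003c0000001f0000000e 8 7) 0 0 (step_sound _ 131 [rh7b42cdbb1c30cdfc, (rhb91dab44853f3721.shift 0 1), (rhea7a1800d6f053bd.shift 2 0)] (by decide +kernel))
noncomputable def rhc04c0fe44b0615fe : CRef := CRef.mk (Pat.mk 0x800000018000000080000000000000000 0x80000000c0000000f000000fc0000007c0000001e00000014 8 8) 0 0 (step_sound _ 101 [(rh58d6dde16d9abde5.shift 2 1), rh6eff6381b40eba89, (rha9fbfd4bb8cf890b.shift 0 3)] (by decide +kernel))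
noncomputable def rhacdb575f9f99ec72 : CRef := CRef.mk (Pat.mk 0x40000000c000000040000000000000000 0xe0000001f0000003c0000007f0000007e0000001a00000018 8 7) 0 0 (step_sound _ 67 [(rh3e595262c1b737ad.shift 2 1), rh5bde0ea50657f0d8, (rh9cd9e1ed5ccfd29d.shift 0 1)] (by decide +kernel))
noncomputable def rhd0e2d37131b64316 : CRef := CRef.mk (Pat.mk 0x40000000c000000040000000000000000 0x180000003a0000007f0000007f0000003c0000001c00000004 8 7) 0 0 (step_sound _ 131 [rh370af384ddd2082c, (rhb91dab44853f3721.shift 0 1), (rhea7a1800d6f053bd.shift 2 0)] (by decide +kernel))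
noncomputable def rhb33b18e4851ac824 : CRef := CRef.mk (Pat.mk 0x80000000c000000040000000400000000 0x60000000600000006000000ef0000007c0000007f0000003e0000001a 8 8) 0 0 (step_sound _ 100 [(rh09cd08bf7d5fae33.shift 1 2), (rh0fc4ef5edb74741b.shift 1 0), rh91eeee0c6086def1, (rha83d0a1d851c6a27.shift 1 2)] (by decide +kernel))
noncomputable def rhfc75424ba1bbf075 : CRef := CRef.mk (Pat.mk 0x200000002000000038000000000000000000000000 0x80000007c0000003f000000fe000001df0000001000000010 8 9) 0 0 (step_sound _ 68 [(rh044d90f9dd03ae61.shift 0 2), rh40e8d97210755283, (rhf9af042da61fc652.shift 4 0)] (by decide +kernel))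
noncomputable def rhb511e7778bb3ffba : CRef := CRef.mk (Pat.mk 0x200000007000000000 0x3bf000001fe0000038e 8 10) 0 0 (step_sound _ 39 [rh72acf8cf40560157, (rha93a5dd541ab8209.shift 4 0), (rhe3060b190bc0bc78.shift 3 1)] (by decide +kernel))
noncomputable def rhc931f01983b76fa0 : CRef := CRef.mk (Pat.mk 0x60000000400000004000000000 0x18000000380000003f000001fe000003ff0000007c00000018 8 10) 0 0 (step_sound _ 100 [rh5784bbf082fedb9d, (rh7b5e351a00899657.shift 3 0), (rh9909eeda0ef2ed2c.shift 3 2), (rhe77cdbae63d92bd9.shift 2 2), (rhf530834c0c5f3ed9.shift 1 2)] (by decide +kernel))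
noncomputable def rhde36f736955bfece : CRef := CRef.mk (Pat.mk 0xc0000000800000008000000000000000000000000 0x120000001b0000003f0000007f0000001f0000000c0000000400000004 8 7) 0 0 (step_sound _ 132 [rh417e259dd27a81a4, (rh75ea294132184f25.shift 1 4), (rh8ad87e8fbd1d4ddd.shift 0 2)] (by decide +kernel))
noncomputable def rhbef776ce40c58a3d : CRef := CRef.mk (Pat.mk 0x60000000c0000000400000000000000000000000000000000 0xc0000000c0000000c000000060000003f0000003e0000000c0000000c0000000c00000008 8 6) 0 0 (step_sound _ 164 [rh406e987b9eed47d8, (rhf48373e13d2bc128.shift 1 5)] (by decide +kernel))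
noncomputable def rh61f1e0e0359381e9 : CRef := CRef.mk (Pat.mk 0x8000000080000000c000000000000000000000000 0x60000000e0000000c0000003e0000007f0000001e00000004 8 7) 0 0 (step_sound _ 66 [(rh42548283029e2a39.shift 2 0), (rh53b1fd27501c6216.shift 0 1), (rhf9af042da61fc652.shift 2 0)] (by decide +kernel))
noncomputable def rh3891e389fc048370 : CRef := CRef.mk (Pat.mk 0x40000000400000004000000000000000000000000 0xa0000000e0000000e0000000e0000000c0000003f0000003f0000001e00000008 8 6) 0 0 (step_sound _ 99 [(rh046c5eb18e55a239.shift 2 0), (rha9e26ca927c0a31a.shift 1 1), rhcce657bfeb8fc5ab] (by decide +kernel))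
noncomputable def rhf1f44301771609fc : CRef := CRef.mk (Pat.mk 0x800000008000000080000000800000000 0x14000000ff000001ff000000080000000c00000004 8 9) 0 0 (step_sound _ 132 [rh1596f2b062ffc2ae, (rh2f68792b6b779e96.shift 3 1)] (by decide +kernel))
noncomputable def rh9c2352eba4c3cda2 : CRef := CRef.mk (Pat.mk 0x10000000100000001000000000 0x28000000380000003800000010000000ff000000fe0000002f 8 8) 0 0 (step_sound _ 132 [rh5f87faa23d848e4b, (rh771d065bdc85bf2d.shift 3 0), (rhefb41fb43257ec4b.shift 3 0)] (by decide +kernel))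
noncomputable def rhf186cc1d2a99a369 : CRef := CRef.mk (Pat.mk 0x1000000010000000100000001800000000 0x80000001800000010000003f7000001fe000001e7 8 10) 0 0 (step_sound _ 37 [(rh55afc6a59410cf00.shift 4 0), rhbb9f278bb216f6e7] (by decide +kernel))
noncomputable def rh6cec14dc2b526e0d : CRef := CRef.mk (Pat.mk 0x100000001000000030000000200000000000000000 0x10000001f8000003fe000001ef0000000800000008 8 10) 0 0 (step_sound _ 99 [(rh3ce854f4a795c89f.shift 1 2), rh596def3aae05c2e3, (rh889954256a85855a.shift 2 0)] (by decide +kernel))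
noncomputable def rhb20705096d82156e : CRef := CRef.mk (Pat.mk 0x100000001000000030000000000000000000000000 0x1000000010000001ff000000fe000001d80000000800000008 8 9) 0 0 (step_sound _ 99 [(rh281c6819542c66e6.shift 3 0), (rhc747c4fc571f2653.shift 0 2)] (by decide +kernel))
noncomputable def rhc33231a265c86952 : CRef := CRef.mk (Pat.mk 0xc00000008000000080000000800000000 0x140000001c0000001c000000180000001f00000038000000180000001c00000004 8 6) 0 0 (step_sound _ 34 [(rh932754581e0f4330.shift 2 0), (rhaf7a8335625653b6.shift 0 1)] (by decide +kernel))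
noncomputable def rh56c4a45e2e5556ac : CRef := CRef.mk (Pat.mk 0x100000001000000070000000000000000000000000 0x4000000050000003f7000003fe000000e70000002000000020 8 10) 0 0 (step_sound _ 69 [(rh08edf065357d68e5.shift 4 0), (rha047d6d673670cc3.shift 2 0), (rhc291dddd0ea7d802.shift 0 2)] (by decide +kernel))
noncomputable def rh9e328aefb9c457de : CRef := CRef.mk (Pat.mk 0x80000000c0000001800000000 0x100000001c0000001c0000001f0000003c0000000f0000001800000008 8 6) 0 0 (step_sound _ 65 [rh875f8049255cb008, (rhb739f4f82bb681b4.shift 0 1)] (by decide +kernel))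
noncomputable def rh639a28b59b04da23 : CRef := CRef.mk (Pat.mk 0x1000000018000000300000000000000000 0x100000003c0000003f00000038000000f8000000fe0000001400000010 8 8) 0 0 (step_sound _ 70 [rhee55f5c27b907a0f, (rhf48373e13d2bc128.shift 3 2)] (by decide +kernel))
noncomputable def rhedfbb4e0f3becc4b : CRef := CRef.mk (Pat.mk 0x1000000010000000100000000000000000 0x280000003800000038000000ff000000fe0000003f 8 8) 0 0 (step_sound _ 36 [(rh32e32f03ae89b559.shift 3 0), rh5f87faa23d848e4b] (by decide +kernel))
noncomputable def rheda6bafe4648bf92 : CRef := CRef.mk (Pat.mk 0x2000000020000000200000003000000000 0x100000003000000030000003bf000001fe000003ce 8 10) 0 0 (step_sound _ 38 [(rh55afc6a59410cf00.shift 5 0), rh6a276baf6ccb66e1] (by decide +kernel))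
noncomputable def rha9a74f2ac3140ae3 : CRef := CRef.mk (Pat.mk 0x3000000010000000100000001000000000 0x100000003000000030000001f7000000fe000001ef 8 9) 0 0 (step_sound _ 37 [(rh55afc6a59410cf00.shift 4 0), rh6b1137e0fae23a77] (by decide +kernel))
noncomputable def rh003aa94bd57bacf6 : CRef := CRef.mk (Pat.mk 0x20000000200000002000000000000000000000000 0x50000000700000007000000070000000600000006000000070000000700000003 8 3) 0 0 (step_sound _ 193 [(rh1741680720c097b4.shift 0 3), (rh6c59ce14113da07f.shift 1 1), rhf736735ac758911f] (by decide +kernel))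
noncomputable def rhfd8aed70af99ce4a : CRef := CRef.mk (Pat.mk 0x80000000c00000018000000000000000000000000000000000000000000000000 0x100000007c0000000f0000001c0000001f0000000c0000000c0000001c0000001c00000014 8 7) 0 0 (step_sound _ 163 [(rh01483ff9cba2f6ac.shift 2 2), (rh44db0baa0f9a2c41.shift 2 0), (rh639615dfde8c4828.shift 2 1), (rh7659edba4a5eb835.shift 0 4), (rhfdc8874b163d2128.shift 0 4)] (by decide +kernel))
noncomputable def rh6f8401fea56767d3 : CRef := CRef.mk (Pat.mk 0x10000000180000003000000000000000000000000000000000 0x1800000018000000ff0000003e000000180000001800000008 8 8) 0 0 (step_sound _ 134 [rh583bcf04cff517f4, (rhf48373e13d2bc128.shift 3 4)] (by decide +kernel))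
noncomputable def rhf5c60b64983fa902 : CRef := CRef.mk (Pat.mk 0x2000000020000000e0000000000000000 0x60000000e0000000f0000003e0000003e0000003b00000011 8 6) 0 0 (step_sound _ 162 [rha4afc01f335296bf, (rhaace14975fb582e7.shift 1 1), rhb24fe1cfb6959dd0] (by decide +kernel))
noncomputable def rhaa769dd8cbe89d09 : CRef := CRef.mk (Pat.mk 0x8000000080000003800000000000000000000000000000000 0x40000001c0000001c000000180000007c0000001f000000380000000c0000001c0000001c00000014 8 7) 0 0 (step_sound _ 162 [(rh778f996946c1c11c.shift 2 0), (rhc02b3aee7ab87ee1.shift 0 4), (rheb0eb4c450b4628c.shift 0 1)] (by decide +kernel))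
noncomputable def rh6c55544d757b1ec3 : CRef := CRef.mk (Pat.mk 0x400000004000000040000000000000000 0x20000000e0000000e0000000e0000000f0000003c0000001c 8 6) 0 0 (step_sound _ 34 [(rh00c644645561e9be.shift 1 0), (rh5abfc4c9d959be03.shift 1 0), rh76abe62c19da8615] (by decide +kernel))
noncomputable def rh382523b0216d2832 : CRef := CRef.mk (Pat.mk 0x10000000100000003000000000000000000000000000000000 0x8000000380000007f0000003e0000007e0000003e0000003800000010 8 7) 0 0 (step_sound _ 101 [(rh08edf065357d68e5.shift 4 1), (rh79ad7b82ec8c35e2.shift 4 1), rhb72e738e0e67743b] (by decide +kernel))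
noncomputable def rh8514d96f2f693de0 : CRef := CRef.mk (Pat.mk 0x100000003800000000 0x80000000e0000000e0000007f0000003e0000000f 8 7) 0 0 (step_sound _ 34 [(rh11c91ffc637554bc.shift 1 0), rh592c7139d2c44767, (rhec46bd5500c722c9.shift 1 1)] (by decide +kernel))
noncomputable def rhf7fb70c9e7faca1a : CRef := CRef.mk (Pat.mk 0x8000000080000001c00000000 0xc0000000c0000001f0000007f0000001f0000000a 8 7) 0 0 (step_sound _ 68 [(rh7e485bd99f3b6b9d.shift 1 0), rh8b72e36695780984, (rhf9d36e158778ce35.shift 1 1)] (by decide +kernel))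
noncomputable def rhe67ada7b2e0d19a2 : CRef := CRef.mk (Pat.mk 0x8000000080000000800000008 0x180000001c0000001f0000007c0000001800000018 8 7) 0 0 (step_sound _ 98 [(rh50fbb5868c909700.shift 2 0), rh82fc52c02a55c550] (by decide +kernel))
noncomputable def rh032dd7543939bb6e : CRef := CRef.mk (Pat.mk 0x40000000400000004000000000000000000000000 0xc0000000c0000000c0000000f0000003e0000001e00000002 8 6) 0 0 (step_sound _ 66 [(rh15017db131dc8e04.shift 0 1), (rhc4ec57a3756c3a6c.shift 1 1), (rhcab3157f7bdcba3e.shift 1 0)] (by decide +kernel))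
noncomputable def rhefe9178fd58c5174 : CRef := CRef.mk (Pat.mk 0x1000000010000000100000001000000000 0x800000018000000180000003e000000ff0000002e 8 8) 0 0 (step_sound _ 131 [rh03141d78168828d0, (rh50fbb5868c909700.shift 3 1)] (by decide +kernel))
noncomputable def rhaf66f99b1f832bd2 : CRef := CRef.mk (Pat.mk 0x40000000600000002000000020 0x50000000f8000000df000001fe0000003e00000028 8 9) 0 0 (step_sound _ 134 [(rh5c5e593799055d58.shift 5 1), rh8b8544a2bc29784c] (by decide +kernel))
noncomputable def rh391e3510889ef10f : CRef := CRef.mk (Pat.mk 0x200000003000000010000000100000000000000000 0x80000006c000000ff000001fe0000001e0000000c00000008 8 9) 0 0 (step_sound _ 99 [(rh2cb1e906d6a40fc8.shift 0 2), (rh69012675dfdb1a5b.shift 1 3), (rhd69c262cd33b94b3.shift 1 3), (rhe9604ec4c751e1ec.shift 1 0)] (by decide +kernel))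
noncomputable def rh77d69e8a032ded71 : CRef := CRef.mk (Pat.mk 0x1800000010000000100000001000000000 0x270000007f000000fe000000100000001800000008 8 8) 0 0 (step_sound _ 133 [rh023198f23cdae2e4, (rh2f68792b6b779e96.shift 4 1)] (by decide +kernel))
noncomputable def rha08eae271ab7141d : CRef := CRef.mk (Pat.mk 0x1800000010000000100000001000000000 0x140000001e0000007f000000ff0000001e00000008 8 8) 0 0 (step_sound _ 35 [(rh932754581e0f4330.shift 3 0), (rhb8e09dd6da2853a6.shift 0 1)] (by decide +kernel))
noncomputable def rh214c3e2edaf822e6 : CRef := CRef.mk (Pat.mk 0x60000000400000004000000040 0x10000000100000009f000001fe000001ff0000006000000040 8 9) 0 0 (step_sound _ 103 [(rh2f68792b6b779e96.shift 6 0), (rh7690ae2f9623f137.shift 0 1)] (by decide +kernel))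
noncomputable def rhf6191dbfa0fac0b8 : CRef := CRef.mk (Pat.mk 0x2000000060000000400000004000000000 0x20000000a0000001bf000001fe000001de0000005000000010 8 9) 0 0 (step_sound _ 165 [(rh2145e1d24b96a57e.shift 5 2), rh7a86267e401813d2] (by decide +kernel))
noncomputable def rh543621ab84729abb : CRef := CRef.mk (Pat.mk 0x2000000020000000600000002000000000 0x5e000000fe0000003f000001f00000006000000040 8 9) 0 0 (step_sound _ 38 [(rh20d0c6ab813c6d71.shift 0 1), (rh55afc6a59410cf00.shift 5 0)] (by decide +kernel))
noncomputable def rh2b38f537d015ac94 : CRef := CRef.mk (Pat.mk 0x200000002000000060000000200000000000000000000000000000000 0x50000000700000002000000060000000600000007000000070000000700000004 8 3) 0 0 (step_sound _ 224 [(rh50fbb5868c909700.shift 0 4), rh6a40c9ee6bc10322] (by decide +kernel))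
noncomputable def rh80de1d607ddeb133 : CRef := CRef.mk (Pat.mk 0x800000008000000180000000800000000000000000000000000000000 0x10000000180000000f0000007c000000180000001c0000001c0000001c00000010 8 7) 0 0 (step_sound _ 228 [rh03d28ada00f151fa, (rh2f68792b6b779e96.shift 3 4)] (by decide +kernel))
noncomputable def rh1d56faa248be04d4 : CRef := CRef.mk (Pat.mk 0x800000008000000080000000800000000 0x8000000080000000c0000000f0000003c0000001c0000000c0000000c 8 6) 0 0 (step_sound _ 130 [(rh50fbb5868c909700.shift 2 1), rhc1001722e7af2b19] (by decide +kernel))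
noncomputable def rh4284ad60c3617061 : CRef := CRef.mk (Pat.mk 0x400000004000000080000000800000000000000000000000000000000 0x40000001c0000001800000018000000ff0000007f000000fc00000014 8 8) 0 0 (step_sound _ 99 [rh1ed4af354330e1a1, (rhcfdf45280693d3da.shift 2 3)] (by decide +kernel))
noncomputable def rhf3b08d736b146a94 : CRef := CRef.mk (Pat.mk 0x8000000080000001800000000 0x100000001c0000001c00000008000000ff0000007e000000e4 8 8) 0 0 (step_sound _ 131 [(rha1447db93ca109b8.shift 3 1), rha9fbd962400a8b87, (rhb7ee8905496f843d.shift 2 0)] (by decide +kernel))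
noncomputable def rhb8ce4b127cf21144 : CRef := CRef.mk (Pat.mk 0x2000000020000000200000002000000000 0x5f000000fe000001fc000000300000007000000050 8 9) 0 0 (step_sound _ 132 [rh10528b5419128bf2, (rh50fbb5868c909700.shift 4 1)] (by decide +kernel))
noncomputable def rhd213b1bff5d2596b : CRef := CRef.mk (Pat.mk 0x30000000100000001000000010 0x4000000040000000f0000007f0000007e0000001800000010 8 7) 0 0 (step_sound _ 99 [(rh049ad5bbac32cf6a.shift 0 1), (rh50fbb5868c909700.shift 3 0)] (by decide +kernel))
noncomputable def rhac2dc2547304c7ac : CRef := CRef.mk (Pat.mk 0x80000000800000018000000100000000000000000 0x2000000028000003ef000001fe000001f60000005400000010 8 10) 0 0 (step_sound _ 36 [(rh6c1a9934388d2c85.shift 0 1), (rh7b1f1fb55310c477.shift 3 0)] (by decide +kernel))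
noncomputable def rh4306681cdf2cfd50 : CRef := CRef.mk (Pat.mk 0x800000008000000180000001000000000 0x40000003f000000ff0000007f0000007600000026 8 8) 0 0 (step_sound _ 98 [rh05b817cff3cabe52, (rh0fcb228d13e9ff47.shift 1 0), (rh5c5a2014709044d0.shift 0 2)] (by decide +kernel))
noncomputable def rh49d3dba7f8539240 : CRef := CRef.mk (Pat.mk 0x1000000018000000300000000000000000 0xc0000000c000000ef0000007f0000001f000000320000001000000010 8 8) 0 0 (step_sound _ 131 [(rh2ea805e6ad9a2539.shift 1 0), (rh643f6145890e754e.shift 0 2), (rhfc7c29d8e65d775f.shift 3 1)] (by decide +kernel))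
noncomputable def rhb8720713ac656219 : CRef := CRef.mk (Pat.mk 0x1000000018000000300000000000000000 0x1c0000003f0000007f000000f8000000f80000001800000018 8 8) 0 0 (step_sound _ 70 [rhe368b1c4c03f88bb, (rhf48373e13d2bc128.shift 3 2)] (by decide +kernel))
noncomputable def rh76acb813c1b1652b : CRef := CRef.mk (Pat.mk 0x800000008000000180000001000000000 0x10000000340000003f0000003f0000007f0000007600000026 8 7) 0 0 (step_sound _ 98 [(rh0fcb228d13e9ff47.shift 1 0), (rh5c5a2014709044d0.shift 0 2), (rhb0121edee88fe839.shift 0 2), rhfca93dc87e9faade] (by decide +kernel))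
noncomputable def rhb29e4a2e7af50590 : CRef := CRef.mk (Pat.mk 0x200000002000000060000000000000000000000000 0xe8000001e80000007f000000fc000001fc000000380000001000000010 8 9) 0 0 (step_sound _ 100 [(rh23ad0677d2df0492.shift 2 2), (rh3f11d2416f2bb08d.shift 0 1), (rhfafeb437ceb8396d.shift 4 0)] (by decide +kernel))
noncomputable def rh19b8f2dc6d7b979f : CRef := CRef.mk (Pat.mk 0x80000000c000000180000000000000000 0x10000000300000003f0000003f0000001f0000003000000030 8 6) 0 0 (step_sound _ 97 [rh9b57225dd2574556, (rhb739f4f82bb681b4.shift 0 2)] (by decide +kernel))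
noncomputable def rh4ee6478dacec3f2e : CRef := CRef.mk (Pat.mk 0x100000001800000030000000000000000000000000 0xc0000002f0000007c000000f8000000fc000000e40000006000000060 8 8) 0 0 (step_sound _ 102 [rhc2319c9ab2862bab, (rhf48373e13d2bc128.shift 3 3)] (by decide +kernel))
noncomputable def rhc12ab0240efcdb0b : CRef := CRef.mk (Pat.mk 0xc000000060000000400000000 0xa0000000e0000001e0000003c0000000f0000000e0000003c00000018 8 6) 0 0 (step_sound _ 130 [(rh01d6b9aa1023c96e.shift 1 0), (rh024e513121fe1b70.shift 1 0), (rh42ab489a1be3958e.shift 1 1), rh4a41830b2a89421b, (rh586b343be2471f50.shift 1 1), (rh94a24b8486b76775.shift 1 0)] (by decide +kernel))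
noncomputable def rhb2b4f6b2f26a9e5f : CRef := CRef.mk (Pat.mk 0x800000008000000180000001000000000 0x4000000040000003f000000ff0000007f0000007600000024 8 8) 0 0 (step_sound _ 98 [(rh0fcb228d13e9ff47.shift 1 0), rh46193601e2093483, (rh5c5a2014709044d0.shift 0 2)] (by decide +kernel))
noncomputable def rhadfef7546daeceb4 : CRef := CRef.mk (Pat.mk 0x20000000200000006000000000000000000000000 0x700000007000000070000000300000007000000770000003e000000730000000300000003 8 7) 0 0 (step_sound _ 99 [rh28c63e442326602c, (rh4c91f9b2307560f9.shift 0 2), rh52b294630ce33c5c, (rhae8d21abc86b555a.shift 0 2)] (by decide +kernel))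
noncomputable def rhc90ee1345b4b913d : CRef := CRef.mk (Pat.mk 0x8000000180000000c0000000000000000 0x140000001c0000001c0000001c0000001f00000038000000180000000f0000000800000008 8 6) 0 0 (step_sound _ 65 [(rh53b3c253cb0c65f4.shift 0 2), rh92c9e652875067f7] (by decide +kernel))
noncomputable def rh37aed40a00b16916 : CRef := CRef.mk (Pat.mk 0xc00000018000000080000000000000000000000000000000000000000 0xc00000078000000ff0000007e0000007c0000003c0000001c00000014 8 8) 0 0 (step_sound _ 131 [(rh8b5336af2c62a15c.shift 1 0), (rh8cdd36b03d57a2f6.shift 2 2), (rha52e1acf7ed5511e.shift 2 1), rhe121a6d40ce340d7, (rhec4347339887de98.shift 2 1), (rhf47e25ff2314b9e0.shift 1 2)] (by decide +kernel))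
noncomputable def rh37bb83c160b29f0c : CRef := CRef.mk (Pat.mk 0xc00000018000000080000000000000000 0x10000000300000001f000000180000001e0000007c0000007c 8 7) 0 0 (step_sound _ 129 [(rhb739f4f82bb681b4.shift 0 3), (rhdd463482a04e439c.shift 1 0)] (by decide +kernel))
noncomputable def rh9aa290eda1492731 : CRef := CRef.mk (Pat.mk 0x60000000400000004000000000 0x30000000b0000003bf000001fe000003fe000000f800000010 8 10) 0 0 (step_sound _ 133 [(rh00d804076c6183a8.shift 1 0), (rh411967cdb6c81fad.shift 0 1), (rhe072fffdd2fccf38.shift 5 1)] (by decide +kernel))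
noncomputable def rhee9567550f95b15b : CRef := CRef.mk (Pat.mk 0x800000008000000080000000800000000 0x170000007f0000003f0000000c0000000c00000004 8 7) 0 0 (step_sound _ 34 [(rh932754581e0f4330.shift 2 0), (rh9a6cd3b5bd4fe9ca.shift 0 1)] (by decide +kernel))
noncomputable def rha931a1fabf10436a : CRef := CRef.mk (Pat.mk 0x800000008000000180000001000000000 0x14000000340000003f0000003f0000007f0000007600000024 8 7) 0 0 (step_sound _ 98 [(rh0fcb228d13e9ff47.shift 1 0), (rh5c5a2014709044d0.shift 0 2), (rhb0121edee88fe839.shift 0 2), rhcfe1fcff7a9e86cd] (by decide +kernel))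
noncomputable def rhd13c086d39a79c83 : CRef := CRef.mk (Pat.mk 0x80000000c00000018000000000000000000000000 0x7000000070000007f0000003f0000001f000000070000000600000006 8 7) 0 0 (step_sound _ 129 [rh3a0845b4c1c12838, (rhb739f4f82bb681b4.shift 0 3)] (by decide +kernel))
noncomputable def rh0839e5b8a73c45f7 : CRef := CRef.mk (Pat.mk 0x800000008000000180000000800000000 0x140000001c0000001c0000000c0000000c0000001c000000780000000f00000004 8 7) 0 0 (step_sound _ 34 [(rh932754581e0f4330.shift 2 0), (rh9b6f21ca23e57ced.shift 0 1)] (by decide +kernel))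
noncomputable def rh0965fd42f7304e72 : CRef := CRef.mk (Pat.mk 0x100000001000000030000000200000000000000000 0x100000001c000000fc000001ef0000007c00000028 8 9) 0 0 (step_sound _ 37 [rh57cbdc3a68ef5999, (rh7b1f1fb55310c477.shift 4 0)] (by decide +kernel))
noncomputable def rhaf99fef13b78b542 : CRef := CRef.mk (Pat.mk 0x100000001000000030000000200000000000000000 0xfe0000007e000000ff000000ee0000000c00000004 8 8) 0 0 (step_sound _ 131 [(rh0a18e9416056afba.shift 2 2), (rh0fcb228d13e9ff47.shift 2 1), (rh5c5a2014709044d0.shift 1 3), rhee3390fd0e127982] (by decide +kernel))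
noncomputable def rhdd4a5b8e7522437c : CRef := CRef.mk (Pat.mk 0x80000000c000000180000000000000000 0x38000000380000003f0000003f0000001b0000000f0000000e 8 6) 0 0 (step_sound _ 97 [rh8e33f84ff272a42c, (rhb739f4f82bb681b4.shift 0 2)] (by decide +kernel))
noncomputable def rh1e31cc1a20b95230 : CRef := CRef.mk (Pat.mk 0x1000000030000000200000002000000000 0x48000000df000000fe000000fe0000003e0000001c 8 8) 0 0 (step_sound _ 99 [(rh60df3aa63ffcb532.shift 0 2), (rh92331ada1c24c73c.shift 2 1), (rhb2afcb5db661472f.shift 0 2), (rhd0ed36d5bf947d99.shift 2 0), (rhf73729f581db6eae.shift 1 0)] (by decide +kernel))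
noncomputable def rhd269f218f6f38e49 : CRef := CRef.mk (Pat.mk 0x1800000010000000100000000000000000 0x2000000020000000770000007e0000003f000000780000001e0000001c 8 7) 0 0 (step_sound _ 133 [(rh435fb3ef4ac648b4.shift 3 0), (rh60eba7ef1362f746.shift 1 0), (rhfbae6d3f764903d9.shift 0 2)] (by decide +kernel))
noncomputable def rh77c3d0428458bb7e : CRef := CRef.mk (Pat.mk 0x8000000080000000800000008000000000000000000000000 0x80000000c0000003f0000003f000000170000000200000002 8 6) 0 0 (step_sound _ 98 [(rh932754581e0f4330.shift 2 2), rhb0e32d90d20aa3ea] (by decide +kernel))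
noncomputable def rhd95b3820939716df : CRef := CRef.mk (Pat.mk 0x3000000020000000200000002000000000 0x40000000c0000000f000000fe000001ff000000ff0000003e0000001e 8 9) 0 0 (step_sound _ 36 [rh3bb80d4a0dc8e78e, (rh932754581e0f4330.shift 4 0)] (by decide +kernel))
noncomputable def rh39b19d82547f1312 : CRef := CRef.mk (Pat.mk 0xc00000008000000080000000000000000 0x10000000370000007f0000007e0000007f0000002600000006 8 7) 0 0 (step_sound _ 100 [(rh4ca5dae25f5c14ff.shift 0 3), (rh75ea294132184f25.shift 1 3), rhc0e23293d36925e1, (rhdeca8db941583de2.shift 0 3), (rhe34c9152f85a46d6.shift 0 2)] (by decide +kernel))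
noncomputable def rhfedf23ddc071349f : CRef := CRef.mk (Pat.mk 0xc000000080000000800000000 0x40000000c0000001c000000380000001f0000007c0000001f0000000c 8 7) 0 0 (step_sound _ 68 [(rh4ca5dae25f5c14ff.shift 0 2), rh76b52f66b91f35b7, rhb6df19a606f92e8e] (by decide +kernel))
noncomputable def rh87650b9084aba30a : CRef := CRef.mk (Pat.mk 0x800000038000000000000000000000000 0x2000000060000003f8000003fe000007e70000006000000020 8 11) 0 0 (step_sound _ 70 [(rh0deb2ebc850de581.shift 2 1), (rh6206ba156ec41d05.shift 2 0), (rh988050a6fa3e9d04.shift 0 2), (rhc8145a8bb7299d28.shift 3 2)] (by decide +kernel))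
noncomputable def rh33ed3ccb2b6332e3 : CRef := CRef.mk (Pat.mk 0x100000001000000030000000000000000000000000 0x58000000d8000001fc000001ff0000007c00000028 8 9) 0 0 (step_sound _ 69 [rh569dac1dcc1620b3, (rh62dd3fa8f62f153f.shift 2 0), (rh79ad7b82ec8c35e2.shift 4 0)] (by decide +kernel))
noncomputable def rh2b95545d416a6e42 : CRef := CRef.mk (Pat.mk 0x3000000060000000200000000000000000000000000000000 0x4000000060000000600000006000000070000001f0000000600000003000000070000000600000004 8 5) 0 0 (step_sound _ 163 [rh2247f936db343a6f, (rhf48373e13d2bc128.shift 0 5)] (by decide +kernel))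
noncomputable def rhf58d27940e49078d : CRef := CRef.mk (Pat.mk 0x60000000c0000000400000000 0x40000000c0000000e0000000f0000003e0000007c0000007c00000018 8 7) 0 0 (step_sound _ 69 [(rh2fe78cc5ca4405d8.shift 1 2), rh86643f62ad1f66ab] (by decide +kernel))
noncomputable def rh3b351cca2bf20922 : CRef := CRef.mk (Pat.mk 0xc0000000800000008000000000000000000000000 0x40000000c0000001c000000380000007f0000007e0000007f000000180000001800000010 8 7) 0 0 (step_sound _ 132 [rh338f6b4d2d052dbf, (rh4c3cb02adb85fa7f.shift 1 1), (rh6e2edfaf702f3752.shift 1 2), (rh75ea294132184f25.shift 1 4), (rh76b52f66b91f35b7.shift 0 2)] (by decide +kernel))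
noncomputable def rh9590c301cfde3716 : CRef := CRef.mk (Pat.mk 0x4000000040000000c0000000800000000 0x1a0000007e0000007e0000007c000000ef00000006 8 8) 0 0 (step_sound _ 68 [rh72f51092d690e9f9, (rh9f93e2b24091a43d.shift 1 1), rha94a2d0eb98e7cd7, (rhae8d21abc86b555a.shift 1 1)] (by decide +kernel))
noncomputable def rh78338646d438d761 : CRef := CRef.mk (Pat.mk 0x200000002000000020000000200000000000000000000000000000000 0x40000000600000006000000060000000600000007000000070000000700000004 8 3) 0 0 (step_sound _ 130 [(rh55afc6a59410cf00.shift 1 3), rhd46a4724c955c894] (by decide +kernel))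
noncomputable def rhe7daf1cf5d4bea89 : CRef := CRef.mk (Pat.mk 0x4000000040000000c000000000000000000000000 0x180000003e000000ff0000007f000000730000003200000010 8 8) 0 0 (step_sound _ 100 [(rh11aa9ac9edf0878a.shift 0 1), (rh231b7a982d94f95a.shift 0 1), (rh38791ac5737ed75e.shift 1 3), (rh89aca29fd3fad272.shift 1 3), (rhbf0d0487774a0f3e.shift 1 2), (rhc8efd40ac9a212e9.shift 1 0)] (by decide +kernel))
noncomputable def rh98c7eebe1fd21d69 : CRef := CRef.mk (Pat.mk 0x100000001000000030000000000000000000000000 0x50000003fc000001fc000003ef0000007c00000028 8 10) 0 0 (step_sound _ 69 [(rh08edf065357d68e5.shift 4 0), rh569dac1dcc1620b3, (rhddc9260be37904f8.shift 1 1)] (by decide +kernel))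
noncomputable def rh99d5daf4db7598aa : CRef := CRef.mk (Pat.mk 0x8000000080000000800000000 0x14000000fc000000ff0000003f0000000c0000000c00000004 8 8) 0 0 (step_sound _ 131 [(rh160e8f77b783df1b.shift 0 1), (rh1741680720c097b4.shift 2 1), (rh20966da26a1c2ae8.shift 2 0), (rh771d065bdc85bf2d.shift 2 0)] (by decide +kernel))
noncomputable def rhd0fbf2513dc21a1f : CRef := CRef.mk (Pat.mk 0x1000000030000000200000002000000000 0x1800000058000001df000000ff000001ef0000002400000004 8 9) 0 0 (step_sound _ 164 [(rh2145e1d24b96a57e.shift 4 2), rh8061912efa1cc4ed] (by decide +kernel))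
noncomputable def rh795b0462526c157a : CRef := CRef.mk (Pat.mk 0x40000000c00000008000000080000000000000000 0x180000007e000000ff0000007e000001f80000003000000020 8 9) 0 0 (step_sound _ 100 [(rh1cdb478920a28255.shift 1 0), (rhb0121edee88fe839.shift 0 3), (rhcf8e04ac2e2850fe.shift 0 2), (rhd2ff1294fee72422.shift 0 1)] (by decide +kernel))
noncomputable def rh41256aa81c5ffef8 : CRef := CRef.mk (Pat.mk 0x800000008000000080000000000000010 0xc0000000c0000000c0000003c0000001f0000001e 8 6) 0 0 (step_sound _ 35 [rh164a29405dfe118b, (rhd3458b32566d63f7.shift 3 0)] (by decide +kernel))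
noncomputable def rh7e013a5cc35b1afd : CRef := CRef.mk (Pat.mk 0x800000008000000080000000800000000 0x8000000180000001c0000001f0000003c000000180000000800000008 8 6) 0 0 (step_sound _ 130 [(rh50fbb5868c909700.shift 2 1), rh581c3a3ec9811590] (by decide +kernel))
noncomputable def rhed38ec936e964386 : CRef := CRef.mk (Pat.mk 0x2000000020000000400000004000000000 0x80000003bf000001fe000003de0000004000000040 8 10) 0 0 (step_sound _ 102 [(rh6c235502c1411927.shift 0 1), (rh7b1f1fb55310c477.shift 5 0)] (by decide +kernel))
noncomputable def rha94436dd89e933f6 : CRef := CRef.mk (Pat.mk 0x1000000010000000000000002000000020 0x40000003fe000001fe000001e7000000e0000000a0 8 10) 0 0 (step_sound _ 101 [(rh2613c889e411427e.shift 4 0), rhca590abd482844fb] (by decide +kernel))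
noncomputable def rh3c1a3012cef12841 : CRef := CRef.mk (Pat.mk 0x30000000200000000000000000 0x4800000048000007ce000003fe000003f70000002400000020 8 11) 0 0 (step_sound _ 99 [(rh546cc221d30afdfb.shift 2 0), (rh7705883c133055fd.shift 0 1), (rh9909eeda0ef2ed2c.shift 2 2), (rha0ae8adeb1dbcf8d.shift 0 2), (rhc8ae77ecad49585e.shift 1 1)] (by decide +kernel))
noncomputable def rh19bdd16ee48ae96c : CRef := CRef.mk (Pat.mk 0x1000000010000000100000001000000000 0x4000000040000000e000000fe000000ff0000001f0000001000000010 8 8) 0 0 (step_sound _ 131 [rh226e22fa8eac3d89, (rh50fbb5868c909700.shift 3 1)] (by decide +kernel))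
noncomputable def rhf618531dddc81bf4 : CRef := CRef.mk (Pat.mk 0x200000002000000020000000400000000 0x10000000700000007000000070000000300000003000000030000000600000006 8 3) 0 0 (step_sound _ 33 [(rh55afc6a59410cf00.shift 1 0), rh7ebd44472092bf6d] (by decide +kernel))
noncomputable def rhd368e384c46c6053 : CRef := CRef.mk (Pat.mk 0x800000008000000080000001800000000 0x1000000078000000ff000000ef0000007800000028 8 8) 0 0 (step_sound _ 132 [(rh2f68792b6b779e96.shift 3 1), rhbdb4f5aabd64b15f] (by decide +kernel))
noncomputable def rh72e8aed936c15ce6 : CRef := CRef.mk (Pat.mk 0x800000018000000100000001000000000 0x300000003000000037000001ff000000f8000001f00000003c00000028 8 9) 0 0 (step_sound _ 102 [(rh3bd258f1c2af4fbd.shift 2 2), (rh91964a127ffb2d17.shift 2 2), (rhd348c377c41f799a.shift 2 0), (rhed7d64f62fc15503.shift 2 0), rhf714be123b65041a] (by decide +kernel))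
noncomputable def rh6950f38ee2df7a2a : CRef := CRef.mk (Pat.mk 0x800000008000000180000000000000010 0x10000000300000003f0000007f0000007e0000007000000030 8 7) 0 0 (step_sound _ 100 [(rh9e07f76261b05888.shift 3 0), rhbd5516641c6da0b1] (by decide +kernel))
noncomputable def rh5474108017af46b7 : CRef := CRef.mk (Pat.mk 0x8000000080000001800000000 0x100000001800000018000000180000007f0000007e00000064 8 7) 0 0 (step_sound _ 131 [rh01b78e5ef59799ae, (rha1447db93ca109b8.shift 3 1), (rhbec9ed8fc959a9cb.shift 1 0)] (by decide +kernel))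
noncomputable def rhdc18b834683d9cb4 : CRef := CRef.mk (Pat.mk 0xc00000018000000000000000000000000 0x30000000360000003f0000003f0000001f000000070000000700000002 8 6) 0 0 (step_sound _ 129 [(rhb739f4f82bb681b4.shift 0 3), rhbd3b2856b33d3f67] (by decide +kernel))
noncomputable def rha5581da10004229e : CRef := CRef.mk (Pat.mk 0x100000001000000030000000200000000000000000 0x10000001dc000000fc000001ef0000007c00000028 8 9) 0 0 (step_sound _ 37 [(rh7b1f1fb55310c477.shift 4 0), rhd1012d47107b42eb] (by decide +kernel))
noncomputable def rh9dc268fa6d9f61e2 : CRef := CRef.mk (Pat.mk 0x80000000800000018000000000000000000000000 0x10000000180000001800000018000001ff000000ff000001ef0000000c0000000c 8 9) 0 0 (step_sound _ 66 [(rh0e6924d680f6455d.shift 2 0), rh0fc8d2ec1286751c, (rh6991fbce18ede5df.shift 0 2)] (by decide +kernel))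
noncomputable def rh295c6e6b24d93973 : CRef := CRef.mk (Pat.mk 0x400000000000000070000000000000000000000000 0x1000000038000000f80000001f000000ff0000003f0000001800000018 8 8) 0 0 (step_sound _ 99 [(rh775ca1963e850b80.shift 1 2), (rh7f44b27153327405.shift 2 0), (rhac344d7ef79b8ac0.shift 2 1), (rhe697280370e33871.shift 0 2), (rhe6f3c981f45ee7b2.shift 2 0)] (by decide +kernel))
noncomputable def rh7ff383492da16b34 : CRef := CRef.mk (Pat.mk 0x8000000080000000c00000000000000000000000000000000 0x40000001c0000001c0000001f0000007c0000001f000000080000000c0000000c00000004 8 7) 0 0 (step_sound _ 164 [(rh574fdbf07bdd18b9.shift 0 4), (rh9f0f972b3c6a7c5a.shift 0 3), rhdfc7bcae9eddbb7b] (by decide +kernel))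
noncomputable def rh08162f55a4704327 : CRef := CRef.mk (Pat.mk 0x20000000000000004000000040000000400000000 0xe0000000e0000000c0000000f0000003c0000001c 8 6) 0 0 (step_sound _ 130 [rh76abe62c19da8615, (rhffd04209dc8ea796.shift 1 1)] (by decide +kernel))
noncomputable def rh47d43dd029008dab : CRef := CRef.mk (Pat.mk 0x10000000000000002000000020000000200000000000000000000000000000000 0x5000000070000000600000007000000070000000700000006000000070000000700000001 8 3) 0 0 (step_sound _ 98 [(rh47dece01c1595e79.shift 1 1), (rh7849060c200f5180.shift 0 3), rh9b8025488f982887] (by decide +kernel))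
noncomputable def rh35005f8f599cd382 : CRef := CRef.mk (Pat.mk 0x100000000000000030000000200000002000000000 0x40000001c0000005c000000cf0000007e000000fe0000002600000004 8 8) 0 0 (step_sound _ 99 [rh38e7f19f3b3e3503, (rh9ed5bb099649ffd3.shift 2 1), (rhb2afcb5db661472f.shift 0 2), (rhc0278892119021a0.shift 2 1)] (by decide +kernel))
noncomputable def rh329d2d06385faf4f : CRef := CRef.mk (Pat.mk 0x18000000300000001000000000000000000000000000000000 0x18000000ff000000fe0000003e000000380000003800000008 8 8) 0 0 (step_sound _ 166 [rh791cad744141fa73, (rhf48373e13d2bc128.shift 3 5)] (by decide +kernel))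
noncomputable def rh5133a47a4fc1600c : CRef := CRef.mk (Pat.mk 0x80000001800000010000000100000000000000000 0x200000006e0000003e000000ff000000ff0000000c0000000c 8 8) 0 0 (step_sound _ 101 [(rh5f9f4f3eaef07814.shift 1 1), (rh75ea294132184f25.shift 2 3), rh9b1e47dceb3e4903, (rhdeca8db941583de2.shift 1 3)] (by decide +kernel))
noncomputable def rh48c4b9009e33f8bb : CRef := CRef.mk (Pat.mk 0x80000000800000018000000100000000000000000 0x2000000068000001ef000000fe000001f60000003400000030 8 9) 0 0 (step_sound _ 36 [rh5cb3ae0b3a3b9228, (rh7b1f1fb55310c477.shift 3 0)] (by decide +kernel))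
noncomputable def rh2032abb13fd86be8 : CRef := CRef.mk (Pat.mk 0x80000000c000000180000000000000000 0x800000018000000ff000000ff0000001b0000000f0000000e 8 8) 0 0 (step_sound _ 97 [(rhb739f4f82bb681b4.shift 0 2), rhd73663a4a09f4452] (by decide +kernel))
noncomputable def rhac69da4249766354 : CRef := CRef.mk (Pat.mk 0xc0000000800000008000000000000000000000000 0x20000001b0000003f0000007f0000001f0000000c0000000c00000004 8 7) 0 0 (step_sound _ 132 [rh417e259dd27a81a4, (rh4ca5dae25f5c14ff.shift 0 4), (rhf7343edccf421b8f.shift 0 1)] (by decide +kernel))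
noncomputable def rh7be2fe6c6edeff15 : CRef := CRef.mk (Pat.mk 0xc00000018000000080000000000000000 0x180000001c0000007f0000003f0000007800000038 8 7) 0 0 (step_sound _ 101 [rh6ef2d1b733104897, (rhf48373e13d2bc128.shift 2 3)] (by decide +kernel))
noncomputable def rh0896d56a65394e8a : CRef := CRef.mk (Pat.mk 0x4000000040000000c000000080000000000000000 0x14000000160000007f0000007f0000006600000022 8 7) 0 0 (step_sound _ 68 [(rh3c3e23a02e82b2ed.shift 0 2), (rh4df689ae6850e166.shift 1 0), (rh5c5a2014709044d0.shift 0 2), rh66c2d2b9858ee976, (rhb0121edee88fe839.shift 0 2)] (by decide +kernel))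
noncomputable def rh0edf07c401e4bff3 : CRef := CRef.mk (Pat.mk 0x1000000018000000300000000000000000 0x180000003c000000760000007e0000003f0000001f00000018 8 7) 0 0 (step_sound _ 98 [rh36ef92f0778bfdee, (rhb739f4f82bb681b4.shift 1 2)] (by decide +kernel))
noncomputable def rh14c69622e774a07a : CRef := CRef.mk (Pat.mk 0xe00000000000000000000000000000000 0x800000018000000780000003e0000007f000000380000003800000028 8 7) 0 0 (step_sound _ 132 [(rh06db8ceda6269a47.shift 0 3), (rh3b00e9e9432b8f40.shift 0 3), (rh3fc3a7fb6866dcd4.shift 1 3), (rh7542131adc1aa0d7.shift 1 0)] (by decide +kernel))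
noncomputable def rh7ba1ffcc7cef7f93 : CRef := CRef.mk (Pat.mk 0x1800000008000000180000000000000000 0x40000000c0000000c0000000f0000007c0000001f000000780000000800000008 8 7) 0 0 (step_sound _ 98 [(rh306a42e42f9fab94.shift 0 2), (rhf838ddcb6dc5cb64.shift 0 1), rhf9c71aacbfd11bdb] (by decide +kernel))
noncomputable def rhcce22454bd854f5c : CRef := CRef.mk (Pat.mk 0x1800000008000000180000000000000000 0x4000000160000007e0000007f000000780000002000000020 8 7) 0 0 (step_sound _ 98 [(rh306a42e42f9fab94.shift 0 2), (rh5b631fe2a31cefeb.shift 1 0), (rhd69c262cd33b94b3.shift 0 3)] (by decide +kernel))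
noncomputable def rh61b7eaf2672382de : CRef := CRef.mk (Pat.mk 0x8000000180000000c0000000000000000 0x100000007f0000007f0000007c0000006000000060 8 7) 0 0 (step_sound _ 101 [(rh18965a982d73c794.shift 2 2), rh7076b752f6b31556] (by decide +kernel))
noncomputable def rh35d70094fbeb909d : CRef := CRef.mk (Pat.mk 0x10000000300000001800000000 0x6000000060000007e0000003f000001fe000001ce 8 9) 0 0 (step_sound _ 34 [(rh53b3c253cb0c65f4.shift 1 1), rhe28acd267afcb80c] (by decide +kernel))
noncomputable def rhd7745cf96ab7e68b : CRef := CRef.mk (Pat.mk 0x8000000080000000c00000000000000000000000000000000 0x180000001c0000001f0000007c0000001f000000080000000c0000000c00000004 8 7) 0 0 (step_sound _ 164 [(rh2381fb964bdc202d.shift 0 2), (rh574fdbf07bdd18b9.shift 0 4), rhdfc7bcae9eddbb7b] (by decide +kernel))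
noncomputable def rh04ae2acb71f5685e : CRef := CRef.mk (Pat.mk 0x80000000800000018000000100000000000000000 0x200000007c000001ef000000fe000001f00000001000000010 8 9) 0 0 (step_sound _ 36 [(rh7b1f1fb55310c477.shift 3 0), (rhd82074e6a33c7816.shift 0 1)] (by decide +kernel))
noncomputable def rh8fcc3d9a26c46f3c : CRef := CRef.mk (Pat.mk 0x800000008000000180000001000000000 0x340000007c000001ff000000ff000000f300000002 8 9) 0 0 (step_sound _ 66 [(rh3ce854f4a795c89f.shift 0 1), rh9a7b7d54bf92be23, (rhbdf31c357499da4e.shift 1 1), rhc8ae77ecad49585e] (by decide +kernel))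
noncomputable def rh39e640c1ce1835f4 : CRef := CRef.mk (Pat.mk 0x800000008000000380000000000000000 0x10000000180000001c0000007c0000007f0000003c0000002800000008 8 7) 0 0 (step_sound _ 98 [(rh3afd7ee550f71b46.shift 2 1), rh3ec0635caa1baa76, (rhd8e93bbc8568df99.shift 1 2)] (by decide +kernel))
noncomputable def rhaff3fab7b62e8808 : CRef := CRef.mk (Pat.mk 0x2000000020000000e000000000000000000000000 0x60000000e0000001f0000007e0000003f0000003a0000001800000008 8 7) 0 0 (step_sound _ 194 [rh2cc9c0da37f3da48, (rhaace14975fb582e7.shift 1 2), (rhb24fe1cfb6959dd0.shift 0 1)] (by decide +kernel))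
noncomputable def rh240747c8de30dbea : CRef := CRef.mk (Pat.mk 0x300000001000000010000000000000000000000000 0x80000003c000000f0000000ff000000fe0000003f00000020 8 8) 0 0 (step_sound _ 68 [(rh099a4ec72b73d1a6.shift 2 1), (rh111949cbede04bd3.shift 0 1), (rh8c3839f9b9075f23.shift 4 0)] (by decide +kernel))
noncomputable def rh8cca21028ba591bf : CRef := CRef.mk (Pat.mk 0x100000001000000030000000000000000000000000 0x1000000010000003f7000001fe000001df0000000800000008 8 10) 0 0 (step_sound _ 99 [(rh281c6819542c66e6.shift 3 0), (rhfb4d857494a237da.shift 0 2)] (by decide +kernel))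
noncomputable def rh23930f95c062681e : CRef := CRef.mk (Pat.mk 0x80000000c00000018000000000000000000000000000000000000000000000000 0x40000000c0000000f0000001e0000001f0000000e0000000c0000001c0000001c00000014 8 5) 0 0 (step_sound _ 163 [(rh44db0baa0f9a2c41.shift 2 0), (rh556fa2732e961166.shift 0 4), (rhe286c75f2739cce2.shift 2 4)] (by decide +kernel))
noncomputable def rh2921af60a7d9c012 : CRef := CRef.mk (Pat.mk 0x40000000c000000080000000800000000 0x180000001a0000001f0000007c000000fe0000001f00000006 8 8) 0 0 (step_sound _ 100 [(rh3b547a4b031b108a.shift 1 2), (rh95596462eae157ed.shift 1 1), rhaf28026d88225b9c, (rhbc4686197fbb01d0.shift 1 0)] (by decide +kernel))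
noncomputable def rhc12eea3329738904 : CRef := CRef.mk (Pat.mk 0xc00000006000000040000000000000000 0x2000000170000003e000000360000003c0000000c0000000c 8 6) 0 0 (step_sound _ 132 [(rh18965a982d73c794.shift 1 3), rhbefa1f29380f2fd4] (by decide +kernel))
noncomputable def rh7b51cad72331c837 : CRef := CRef.mk (Pat.mk 0xc000000040000000400000000 0x60000000e0000000e000001df000000fc000000ef0000003c00000018 8 9) 0 0 (step_sound _ 131 [(rh69755ef358ebfd54.shift 2 1), rha77b798e55a5f7bb, (rhbfb5770941270498.shift 2 1)] (by decide +kernel))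
noncomputable def rh0716af5a17ff0fb0 : CRef := CRef.mk (Pat.mk 0x1000000010000000100000001000000000 0x200000003000000010000003f7000001fe000001ef 8 10) 0 0 (step_sound _ 35 [(rh932754581e0f4330.shift 3 0), rhea33a791b46a631d] (by decide +kernel))
noncomputable def rhe9b748694220e21f : CRef := CRef.mk (Pat.mk 0x400000008000000080000000800000000 0x1000000018000000180000001c0000001f0000003c000000180000001c00000004 8 6) 0 0 (step_sound _ 131 [(rh50fbb5868c909700.shift 2 1), rh7427973844ea407d] (by decide +kernel))
noncomputable def rha30f6c8037cf9622 : CRef := CRef.mk (Pat.mk 0x200000002000000060000000400000000000000000 0x280000003f000001fe000000df000000f800000050 8 9) 0 0 (step_sound _ 38 [(rh7b1f1fb55310c477.shift 5 0), rhd88fd96bf3a646a9] (by decide +kernel))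
noncomputable def rhfea1d0560376fafd : CRef := CRef.mk (Pat.mk 0x800000008000000180000001000000000 0x6000000060000000e0000001f0000007f0000003f0000000e 8 7) 0 0 (step_sound _ 98 [rh6b6f1f9b8caeb2f6, (rh75ea294132184f25.shift 1 2), (rhec7286d79d970a12.shift 1 0)] (by decide +kernel))
noncomputable def rh9644cc72e3167030 : CRef := CRef.mk (Pat.mk 0x8000000080000001800000000000000000000000000000000 0xc0000000f0000007c0000007f0000001c0000001c00000008 8 7) 0 0 (step_sound _ 99 [(rh80650b8e93363f1e.shift 0 2), (rhab6ffbdaef6e235a.shift 1 2), (rhc01a38579542ac25.shift 0 1), (rhd1cd2c50783232ae.shift 2 0)] (by decide +kernel))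
noncomputable def rh94ca1203b22f7657 : CRef := CRef.mk (Pat.mk 0x4000000040000000c000000000000000000000000 0x80000000c0000000c0000000e0000000f0000003e000000070000000600000004 8 6) 0 0 (step_sound _ 195 [(rh08d50fe567eb1045.shift 2 2), (rh4ff5d29d53f444f4.shift 1 2), rh5b884e02cc7e2faf] (by decide +kernel))
noncomputable def rh2e024836a920abf0 : CRef := CRef.mk (Pat.mk 0x10000000100000001000000010 0x4000000040000002f0000007f0000003e0000001800000010 8 7) 0 0 (step_sound _ 99 [(rh50fbb5868c909700.shift 3 0), rh81704fc5f23c6115] (by decide +kernel))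
noncomputable def rh691d8a09c8de9c17 : CRef := CRef.mk (Pat.mk 0x800000008000000080000000800000000 0x80000000800000018000000380000001f0000001c0000001800000018 8 6) 0 0 (step_sound _ 36 [(rh55afc6a59410cf00.shift 3 0), rh7d84574a082a395d] (by decide +kernel))
noncomputable def rh16245648d48e9586 : CRef := CRef.mk (Pat.mk 0x1000000030000000000000002000000020 0x80000000c000000fe000000ff000000de0000007000000020 8 8) 0 0 (step_sound _ 68 [rh2505a2abd3e2b4e3, (rhbe0e43a3bc50a43f.shift 4 0)] (by decide +kernel))
noncomputable def rh88f03c8283e447ad : CRef := CRef.mk (Pat.mk 0x8000000080000000800000000 0x140000001f0000003f0000003f0000000c0000000c00000004 8 6) 0 0 (step_sound _ 131 [(rh1741680720c097b4.shift 2 1), (rh20966da26a1c2ae8.shift 2 0), rh6af612a4d2df2512, (rh771d065bdc85bf2d.shift 2 0)] (by decide +kernel))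
noncomputable def rh490f9f3ff8617557 : CRef := CRef.mk (Pat.mk 0x1000000030000000000000002000000020 0x8000000190000001ff000001fe000000ce0000006800000028 8 9) 0 0 (step_sound _ 102 [rh69a65af9994df1aa, (rha7edc60fc34bffff.shift 2 3), (rhbac37b2dca3add66.shift 3 0), (rhcb80f6b135386bca.shift 2 0), (rhf60aa8aede119d3b.shift 1 3)] (by decide +kernel))
noncomputable def rhebc69df00e5e7f2e : CRef := CRef.mk (Pat.mk 0x200000002000000020000000200000000 0x50000000700000007000000020000000200000006000000070000000700000001 8 3) 0 0 (step_sound _ 32 [(rh7150b666d0193d36.shift 0 1), rh932754581e0f4330] (by decide +kernel))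
noncomputable def rhc7d2b12e41c631a1 : CRef := CRef.mk (Pat.mk 0x800000008000000080000000800000000 0x100000001800000018000001df000000ff000000f4 8 9) 0 0 (step_sound _ 36 [(rh55afc6a59410cf00.shift 3 0), rha61a6e1c32afbe8a] (by decide +kernel))
noncomputable def rhdb84d2a04259ef25 : CRef := CRef.mk (Pat.mk 0x4000000040000000c0000000800000000000000000 0xa0000001e00000007f000003fe000001ff0000007000000020 8 10) 0 0 (step_sound _ 100 [(rh16b1e2f54ae75e88.shift 0 2), (rh8a7929dfa7e4fcc9.shift 3 1), (rh93b7dbe93fe3f811.shift 3 0), (rhceced5fee2f0d3c6.shift 3 1), (rhe547c613c3850225.shift 3 1)] (by decide +kernel))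
noncomputable def rhccb771d83f719cdb : CRef := CRef.mk (Pat.mk 0xc00000008000000080000000000000000000000000000000000000000 0x1c0000001c0000003f0000003f0000001f0000001c0000001c00000014 8 6) 0 0 (step_sound _ 131 [(rh20605be9cfe324a0.shift 0 3), (rh6eff4158bb400f47.shift 2 2), (rhad170aec7bd76d6f.shift 2 0)] (by decide +kernel))
noncomputable def rhdbc68fc070f55976 : CRef := CRef.mk (Pat.mk 0x200000000000000060000000400000000000000000 0xb0000000b00000019f000003fe000000ff0000004c00000048 8 10) 0 0 (step_sound _ 100 [rh44fa075451721cfa, (rh799bcd04cdf8ef40.shift 2 1), (rha0ae8adeb1dbcf8d.shift 1 2), (rhc59ba9a1f24cb412.shift 0 2), (rhd07a9d0a5f6f57e4.shift 3 0), (rhf73729f581db6eae.shift 2 0)] (by decide +kernel))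
noncomputable def rh7e84937fe1a1aed0 : CRef := CRef.mk (Pat.mk 0xc0000000800000008000000000000000000000000 0x40000000c0000001c000000380000001f0000007c000000fe000000fe0000000400000004 8 8) 0 0 (step_sound _ 132 [(rh75ea294132184f25.shift 1 4), (rh76b52f66b91f35b7.shift 0 2), (rhc567fbe07c121a9d.shift 1 0)] (by decide +kernel))
noncomputable def rhf8db5888bcb64fa6 : CRef := CRef.mk (Pat.mk 0x400000002000000020000000200000000000000000000000000000000 0x60000000600000003000000030000000300000007000000070000000700000001 8 3) 0 0 (step_sound _ 225 [(rh2f68792b6b779e96.shift 1 4), rh7f6413caf818781b] (by decide +kernel))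
noncomputable def rh3bd67179baa79094 : CRef := CRef.mk (Pat.mk 0x60000000c00000004000000000000000000000000 0x1c0000001c0000001e0000003e0000001f0000007c0000001c00000004 8 7) 0 0 (step_sound _ 132 [rh1aae463c0f027cdf, (rhf48373e13d2bc128.shift 1 4)] (by decide +kernel))
noncomputable def rh215290cdbd1c0f65 : CRef := CRef.mk (Pat.mk 0x1000000010000000100000001000000000 0x2f0000007e000000ff000000100000001800000008 8 8) 0 0 (step_sound _ 131 [(rh50fbb5868c909700.shift 3 1), rhf603d2215944b818] (by decide +kernel))
noncomputable def rhda02fee1bf772b50 : CRef := CRef.mk (Pat.mk 0x100000001000000030000000000000000000000000 0x50000001f8000000fe000001ef0000007c00000028 8 9) 0 0 (step_sound _ 69 [(rh08edf065357d68e5.shift 4 0), rh3df1300477dfdfa2, rh569dac1dcc1620b3] (by decide +kernel))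
noncomputable def rhc7a05d29b250e1f5 : CRef := CRef.mk (Pat.mk 0x1000000030000000200000002000000000 0x10000000100000001f000000fe000001ef0000007c00000008 8 9) 0 0 (step_sound _ 164 [(rh2145e1d24b96a57e.shift 4 2), rhaed90a5ffb367bd2] (by decide +kernel))
noncomputable def rh5fbe8c85f64e55a2 : CRef := CRef.mk (Pat.mk 0x1000000030000000200000002000000000 0x2e000001fe000000ff000001ee0000007c0000005c 8 9) 0 0 (step_sound _ 131 [(rh0a18e9416056afba.shift 2 2), (rh42fe842a1215a058.shift 1 0), rh9a4f660178e19811, (rhb0121edee88fe839.shift 1 3), (rhcf8065e90798a8d1.shift 1 0)] (by decide +kernel))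
noncomputable def rh8667590e1d07e993 : CRef := CRef.mk (Pat.mk 0x60000000c00000004000000000000000000000000 0x400000004000000060000003c0000007f0000007f0000000200000002 8 7) 0 0 (step_sound _ 132 [rhbbea8936d488b36a, (rhf48373e13d2bc128.shift 1 4)] (by decide +kernel))
noncomputable def rhcb0cd31fbab6e283 : CRef := CRef.mk (Pat.mk 0xc00000018000000080000000000000000 0x2000000020000001b0000003f0000001f0000000c0000000c0000000c 8 6) 0 0 (step_sound _ 129 [(rhb739f4f82bb681b4.shift 0 3), rhbef49aa9bef89bea] (by decide +kernel))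
noncomputable def rh9b0328f66cb29082 : CRef := CRef.mk (Pat.mk 0x2000000020000000380000000000000000 0xc0000006e0000003f0000003e0000000f0000000c 8 7) 0 0 (step_sound _ 66 [(rh2591032a0e7f4182.shift 0 1), (rh775ca1963e850b80.shift 0 1), (rh7fb660bc21ce4329.shift 0 2), (rhb318c6dd51a333f6.shift 1 0)] (by decide +kernel))
noncomputable def rhcfe562306908bb0c : CRef := CRef.mk (Pat.mk 0x8000000080000000e00000000000000000000000000000000 0xa000000ff0000007e000000e7000000070000000700000005 8 8) 0 0 (step_sound _ 132 [(rh27ce058b59d72f64.shift 0 3), (rh45f730bcf36fcf64.shift 0 3), rh5c44751cac04307e] (by decide +kernel))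
noncomputable def rh9e0bb501f66d6bab : CRef := CRef.mk (Pat.mk 0x40000000c0000000600000000 0x1c0000007c0000001f0000003c0000000e0000000c 8 7) 0 0 (step_sound _ 68 [(rh18965a982d73c794.shift 1 1), rh36bf0c4b0383640d] (by decide +kernel))
noncomputable def rha041e9dd9a052ae2 : CRef := CRef.mk (Pat.mk 0x8000000080000000c0000000000000000 0x100000001c0000001c0000000c0000001f0000007f0000003f0000001b00000002 8 7) 0 0 (step_sound _ 100 [(rh0bb882ba86b2372d.shift 0 2), rh36de6e892d292102, (rh43e55c63d6e688f3.shift 0 1)] (by decide +kernel))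
noncomputable def rhdd607ffafb6e6ad7 : CRef := CRef.mk (Pat.mk 0xc00000018000000080000000000000000 0x18000000180000001c0000007f0000003f0000001800000008 8 7) 0 0 (step_sound _ 101 [rh0778b4755056d669, (rhf48373e13d2bc128.shift 2 3)] (by decide +kernel))
noncomputable def rhf572b0fd5157a6c0 : CRef := CRef.mk (Pat.mk 0x200000003000000020000000200000000 0x10000000700000007000000070000000300000003000000020000000700000005 8 3) 0 0 (step_sound _ 34 [rh0cbd384b4d417b56, (rh55afc6a59410cf00.shift 1 0)] (by decide +kernel))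
noncomputable def rhfb06a1b6eb669354 : CRef := CRef.mk (Pat.mk 0xc00000008000000080000000000000000 0x1000000018000000180000000c0000001f0000007c0000001c0000000c 8 7) 0 0 (step_sound _ 163 [(rh20966da26a1c2ae8.shift 2 1), rh7915d2cf3222415c, (rhced6d86d2069808b.shift 3 1)] (by decide +kernel))
noncomputable def rh30f8efb0aadee7cf : CRef := CRef.mk (Pat.mk 0x800000004000000040000000400000000 0x1c0000003c0000000f0000000e0000007c00000018 8 7) 0 0 (step_sound _ 130 [(rh2f68792b6b779e96.shift 2 1), rh595c05e439928412] (by decide +kernel))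
noncomputable def rhe8118a66783dd4c3 : CRef := CRef.mk (Pat.mk 0x3000000010000000100000001000000000 0xf0000007e0000001e000000fc0000003e0000000f 8 8) 0 0 (step_sound _ 131 [(rh50fbb5868c909700.shift 3 1), rh92b1d70824afaf0c] (by decide +kernel))
noncomputable def rh4b10ccfbfa128bfe : CRef := CRef.mk (Pat.mk 0x1000000018000000080000000800000000 0x26000000370000003f000000ff000000ff00000024 8 8) 0 0 (step_sound _ 66 [rh23b6f2b60a2fd9b7, rh650ec8fab7d97243, (rhebdf5ac9e90a55a4.shift 0 1), (rhf96e0540a04717ba.shift 0 1)] (by decide +kernel))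
noncomputable def rh4280077b5cdd730b : CRef := CRef.mk (Pat.mk 0x800000008000000080000001800000000 0x140000003f0000007f0000003f000000f800000020 8 8) 0 0 (step_sound _ 132 [rh0429b4a798ca25be, (rh2f68792b6b779e96.shift 3 1)] (by decide +kernel))
noncomputable def rhaaaa91cc90b4de99 : CRef := CRef.mk (Pat.mk 0x800000008000000000000001000000000 0x100000001c0000001c0000001c0000003c0000000f0000001c0000001800000018 8 6) 0 0 (step_sound _ 67 [(rh9d6e7ce2d66f53f9.shift 2 0), (rha3c0629b1c215306.shift 2 1), rha896d6370d3166dd, (rhd39e60d0e07cf1e2.shift 3 0)] (by decide +kernel))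
noncomputable def rh9bc44b33899390fa : CRef := CRef.mk (Pat.mk 0x800000018000000000000001000000000 0x1000000030000001ff000000ff000000e70000007000000070 8 9) 0 0 (step_sound _ 101 [rh30c446805a4b5200, (rh38791ac5737ed75e.shift 2 3), (rh40af6b645047cd55.shift 2 0), rh8b7c418d67462b0c, (rha7edc60fc34bffff.shift 1 3)] (by decide +kernel))
noncomputable def rhb8837029077832b9 : CRef := CRef.mk (Pat.mk 0x8000000000000001000000010000000000000000000000000 0x80000000c0000001c0000001f0000007c0000001e0000001c0000001c0000000c 8 7) 0 0 (step_sound _ 163 [(rh4d760d0d70847451.shift 3 2), (rh74a43b9a483760f6.shift 3 1), rh92f48c6441d1cfca, (rhb6c5498b65cea07a.shift 3 2)] (by decide +kernel))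
noncomputable def rha50c39c46651b86b : CRef := CRef.mk (Pat.mk 0x800000008000000080000000000000000000000000000000000000000 0x180000007c000000ff0000007f000000fc0000001c0000001c00000004 8 8) 0 0 (step_sound _ 131 [(rh01adbe7485cd5318.shift 2 0), (rh6eff4158bb400f47.shift 2 2), (rh8d8bfe45b7d5275a.shift 2 1), (rh90a315350f5b6a97.shift 2 1), (rha93e9a4013aee350.shift 0 2), (rhe446f80dbedb1d47.shift 0 3)] (by decide +kernel))
noncomputable def rh782ae15da9a298b1 : CRef := CRef.mk (Pat.mk 0x1000000010000000300000002000000000 0x200000003000000037000003fe000007ff00000058 8 11) 0 0 (step_sound _ 35 [(rh7302994b41ba0e8a.shift 2 0), (rh76391dbba7eb5586.shift 2 0), (rhc7b433a2f902820f.shift 0 1)] (by decide +kernel))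
noncomputable def rh615271bd5ebb334c : CRef := CRef.mk (Pat.mk 0x10000000100000003000000020000000000000000000000000 0x4000000040000000c000000ef000000fc0000003e000000fc00000074000000100000001000000010 8 8) 0 0 (step_sound _ 163 [(rh5c5a2014709044d0.shift 1 4), (rhc6448efa7e68cded.shift 3 0), (rhd8d94239e1cff449.shift 0 2)] (by decide +kernel))
noncomputable def rh53c3fb305efcdd5a : CRef := CRef.mk (Pat.mk 0x8000000080000001800000010000000000000000000000000 0x140000001c0000001c0000001f0000003f0000006e0000000800000008 8 7) 0 0 (step_sound _ 99 [(rh544fd3f279a4d968.shift 2 0), (rhb5432da3ba4f8d3f.shift 0 2), (rhc204e9a9c0b5d4f0.shift 0 2)] (by decide +kernel))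
noncomputable def rh1def2ae41bfda68e : CRef := CRef.mk (Pat.mk 0x2000000020000000000000006000000040 0x1ff000001fc000001fe0000005e000000f8000003d0 8 10) 0 0 (step_sound _ 102 [rh239040a51b3b8c81, (rh2613c889e411427e.shift 5 0)] (by decide +kernel))
noncomputable def rh9688a99f52fe2c53 : CRef := CRef.mk (Pat.mk 0x4000000000000000c00000018000000000000000000000000 0xc0000000f000000ff0000001f000000370000001700000005 8 8) 0 0 (step_sound _ 129 [(rhb739f4f82bb681b4.shift 0 3), rhfc1a85f7e7233e10] (by decide +kernel))
noncomputable def rh8ab4056739c1f433 : CRef := CRef.mk (Pat.mk 0x100000000000000030000000600000000000000000 0x10000000140000001c0000007c0000002f000000fc0000007c000000dc00000050 8 8) 0 0 (step_sound _ 99 [(rhb739f4f82bb681b4.shift 2 2), rhe16a30a243f74fe0] (by decide +kernel))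
noncomputable def rhcee75444bd75fa7e : CRef := CRef.mk (Pat.mk 0x200000002000000060000000000000000000000000 0x2000000030000003bf000001fe000003be0000001800000018 8 10) 0 0 (step_sound _ 100 [(rh281c6819542c66e6.shift 4 0), rhf8b3c28fba479658] (by decide +kernel))
noncomputable def rhbb31f729868e6d36 : CRef := CRef.mk (Pat.mk 0x80000000000000018000000100000001000000000 0xc0000000e0000007e000000ff000000f800000008 8 8) 0 0 (step_sound _ 67 [(rh6f1cbe15c631ee70.shift 3 1), rhe33b7674ca8bb6b5] (by decide +kernel))
noncomputable def rh7b712e79f4da140c : CRef := CRef.mk (Pat.mk 0x1000000070000000000000000000000000 0x5000000050000003d7000003fe000007700000002000000020 8 11) 0 0 (step_sound _ 69 [(rh5d54cb79a67f97ab.shift 4 0), (rh5dbb6833632f66b1.shift 3 0), (rhcf56966b824d1c9a.shift 0 2)] (by decide +kernel))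
noncomputable def rhaa645fc71576e509 : CRef := CRef.mk (Pat.mk 0x80000003800000000000000000000000000000000 0x8000000280000007f0000003e00000070000000700000007000000040 8 7) 0 0 (step_sound _ 130 [(rh4c622fddc53a5f99.shift 0 4), (rh58f17fde6a07f1e6.shift 2 0), (rh9c548838e8725ba1.shift 0 3)] (by decide +kernel))
noncomputable def rh465275a6070469c6 : CRef := CRef.mk (Pat.mk 0x1000000030000000200000000000000000 0x1000000010000001df000000ff000001ef0000000800000008 8 9) 0 0 (step_sound _ 164 [(rh2145e1d24b96a57e.shift 4 2), rh2e6867f189b05df4] (by decide +kernel))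
noncomputable def rh36eaef138a1aff90 : CRef := CRef.mk (Pat.mk 0x800000018000000100000000000000000 0x20000000200000007f0000003f000000f70000001000000010 8 8) 0 0 (step_sound _ 36 [(rh5b112448f4a6fa90.shift 0 1), (rh7b1f1fb55310c477.shift 3 0)] (by decide +kernel))
noncomputable def rh9f4707c211ca8a4f : CRef := CRef.mk (Pat.mk 0x4000000040000000c000000000000000000000000 0x14000000370000003f0000003f0000000a0000000a 8 6) 0 0 (step_sound _ 65 [rh00319bb531489f5f, (rh3743dbe66b959104.shift 1 0), (rh56f806fcc2d8ae5d.shift 0 1), rhd628dd9207afe4d3] (by decide +kernel))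
noncomputable def rh35cfcb4ec55253be : CRef := CRef.mk (Pat.mk 0x800000038000000000000000000000000 0x200000007f0000003f0000007f0000001600000016 8 7) 0 0 (step_sound _ 98 [(rh1efbca428b37b99e.shift 0 2), (rh4c622fddc53a5f99.shift 0 3), (rh592c7139d2c44767.shift 0 2), (rhf01d2e9891c4849a.shift 1 0)] (by decide +kernel))
noncomputable def rh2e885cc5044a4ca9 : CRef := CRef.mk (Pat.mk 0x800000008000000180000000000000000000000000000000000000000 0x80000001c0000001f000000ff000000fc0000001c0000001c00000004 8 8) 0 0 (step_sound _ 131 [(rh0b7b56b1d93191f8.shift 2 1), (rh2422930f8725375a.shift 2 0), (rh718d78634d13fd4e.shift 2 1), (rhb72c6d3b8f00eaae.shift 2 1), (rhc0f7b17634ab4e3c.shift 1 1), (rhee29a10c36f9d394.shift 0 3)] (by decide +kernel))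
noncomputable def rhcc99ed0ef450dc41 : CRef := CRef.mk (Pat.mk 0x200000000000000050000000c00000000000000000 0x10000000380000007c0000001f00000078000000f80000007800000038 8 8) 0 0 (step_sound _ 99 [rh1026fa85fc3f8ea4, (rhc10214bf3fe8094a.shift 3 2)] (by decide +kernel))
noncomputable def rh28773619bb70491a : CRef := CRef.mk (Pat.mk 0x8000000080000001800000000000000000000000000000000 0x80000001c0000007c0000001f0000001c0000001c0000000c 8 7) 0 0 (step_sound _ 68 [(rh3b5346b2e316d790.shift 3 1), (rh5278689ccab1c3c2.shift 3 1), (rhc140869848ea0f2e.shift 3 2), rhc7141a29bc12a821] (by decide +kernel))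
noncomputable def rhd2448908dd08bb16 : CRef := CRef.mk (Pat.mk 0x8000000080000001800000010000000000000000000000000 0x80000000c0000001f0000003f000000170000000200000002 8 6) 0 0 (step_sound _ 99 [(rh55afc6a59410cf00.shift 3 2), rh6b82ad8538a2c276] (by decide +kernel))
noncomputable def rh346f960ad62a92e5 : CRef := CRef.mk (Pat.mk 0x100000001000000030000000200000000000000000 0x100000001f000000fe000001ef0000007c00000028 8 9) 0 0 (step_sound _ 37 [(rh7b1f1fb55310c477.shift 4 0), rhe2aa65f5427e7c27] (by decide +kernel))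
noncomputable def rh69f8c8c91f9032ff : CRef := CRef.mk (Pat.mk 0x100000000000000038000000200000000000000000 0x140000001c0000001e0000007c0000000f000000f8000001fe0000001e00000010 8 9) 0 0 (step_sound _ 131 [(rh0fe7e174ea960d02.shift 2 2), (rh4c83580aecf1eec2.shift 1 0), (rh4d00743bb6e10c80.shift 0 2), (rh588ec470b64abbdd.shift 0 2), rh6aad8efe44967d91, (rhbf8fc0c2e4fed52e.shift 2 2)] (by decide +kernel))
noncomputable def rh1b2587197ee1d082 : CRef := CRef.mk (Pat.mk 0x1000000010000000100000001000000000 0x1000000010000000fe000000ff000001ef 8 9) 0 0 (step_sound _ 37 [(rh55afc6a59410cf00.shift 4 0), rhc5bfdb9b38b73f3b] (by decide +kernel))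
noncomputable def rhbd290cf49750310c : CRef := CRef.mk (Pat.mk 0x1000000010000000100000001800000000 0x2f0000003e000000770000007e0000007e00000020 8 7) 0 0 (step_sound _ 37 [(rh3e776fef2d24483e.shift 0 1), (rh55afc6a59410cf00.shift 4 0)] (by decide +kernel))
noncomputable def rh6b2ba9771364dbf4 : CRef := CRef.mk (Pat.mk 0x200000002000000030000000100000000000000000 0xc0000006c000003fe000003ff0000077c0000006000000060 8 11) 0 0 (step_sound _ 102 [(rh04048a4a2acf2c94.shift 3 2), (rh866dcd755eb90056.shift 1 0), (rha6a5beff7d3537f9.shift 0 2)] (by decide +kernel))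
noncomputable def rhdc69421fe49aeebf : CRef := CRef.mk (Pat.mk 0x1000000010000000100000001800000000 0x200000003000000010000003f7000001fe000001e7 8 10) 0 0 (step_sound _ 37 [(rh55afc6a59410cf00.shift 4 0), rheb52051c824f964a] (by decide +kernel))
noncomputable def rh6eb2b7b830d91df2 : CRef := CRef.mk (Pat.mk 0x80000000800000018000000000000000000000000 0xa0000003f0000007f000000ff0000001400000014 8 8) 0 0 (step_sound _ 68 [(rh08edf065357d68e5.shift 3 0), (rh79ad7b82ec8c35e2.shift 3 0), rh86cd1596da2310b0] (by decide +kernel))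
noncomputable def rh6c40cd049e1091d9 : CRef := CRef.mk (Pat.mk 0x2000000020000000e000000000 0x200000002000000020000001bf000000fe0000001e 8 9) 0 0 (step_sound _ 36 [(rh1ae4704ae86cb9a8.shift 3 0), (rh7611810a80cf91bc.shift 3 0), rh9af26147252904aa] (by decide +kernel))
noncomputable def rh80d83773471f08c9 : CRef := CRef.mk (Pat.mk 0x800000008000000080000001800000000 0x1000000038000000ff000000ee0000007800000028 8 8) 0 0 (step_sound _ 132 [rh22d0ad1b59516f5a, (rh2f68792b6b779e96.shift 3 1)] (by decide +kernel))
noncomputable def rhaa37a763b4c5c821 : CRef := CRef.mk (Pat.mk 0x4000000040000000c00000008000000000000000000000000 0x80000000c0000000e0000007c0000007f000000160000000600000006 8 7) 0 0 (step_sound _ 98 [(rh946fbe1ddfc14810.shift 1 0), (rha71afc656c87d410.shift 0 2), (rhfdca940af1ced708.shift 1 2)] (by decide +kernel))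
noncomputable def rhc493c2a03b994eb5 : CRef := CRef.mk (Pat.mk 0x8000000180000000c0000000000000000 0x80000001c0000001f000000380000007f0000006c0000007800000038 8 7) 0 0 (step_sound _ 101 [(rh18965a982d73c794.shift 2 2), rh65e16616467d1374] (by decide +kernel))
noncomputable def rheecc32375b2ae117 : CRef := CRef.mk (Pat.mk 0x800000008000000080000001800000000 0x140000001c00000008000000ff0000007f000000e4 8 8) 0 0 (step_sound _ 34 [rh21fc965379b4f2cc, (rh932754581e0f4330.shift 2 0)] (by decide +kernel))
noncomputable def rh25037f2f5b264b32 : CRef := CRef.mk (Pat.mk 0x100000001000000010000000000000000000000000 0x200000003000000030000000ff000000fe0000003f00000028 8 8) 0 0 (step_sound _ 68 [(rh5f87faa23d848e4b.shift 0 1), (rh6c59ce14113da07f.shift 4 0), (rha78b327dad5d6a04.shift 3 0), (rhceaabac02e703afb.shift 3 0)] (by decide +kernel))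
noncomputable def rh687be875f88b055b : CRef := CRef.mk (Pat.mk 0x80000000800000008000000000000000000000000 0x140000001c0000001c00000018000000180000001f0000003c0000001c00000014 8 6) 0 0 (step_sound _ 68 [(rh1148744b53f3df58.shift 2 2), (rh47dece01c1595e79.shift 3 0), (rha96043d67b77a772.shift 2 0), (rhda6ee1387a9cdc07.shift 0 1)] (by decide +kernel))
noncomputable def rh55e787fc0ac03745 : CRef := CRef.mk (Pat.mk 0x60000000400000004000000000 0x1800000098000001bf000001fe000003ff0000007c00000018 8 10) 0 0 (step_sound _ 100 [rh5784bbf082fedb9d, (rh80b150511593bc79.shift 3 1), (rh9ed5bb099649ffd3.shift 3 1), (rhf530834c0c5f3ed9.shift 1 2)] (by decide +kernel))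
noncomputable def rhbe3317df5c2b2322 : CRef := CRef.mk (Pat.mk 0x180000003000000010000000000000000000000000 0x8000000380000003800000030000000f8000000ff0000001f000000300000003000000020 8 8) 0 0 (step_sound _ 134 [rh4dbe8dca4d7b8293, (rhf48373e13d2bc128.shift 3 4)] (by decide +kernel))
noncomputable def rhb87f6d5cb2464eb5 : CRef := CRef.mk (Pat.mk 0xc00000018000000080000000000000000 0x200000012000000330000003f0000001f0000000c0000000800000008 8 6) 0 0 (step_sound _ 129 [rh2df96fe548c2b191, (rhb739f4f82bb681b4.shift 0 3)] (by decide +kernel))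
noncomputable def rhf07ee12e22f9e9f6 : CRef := CRef.mk (Pat.mk 0x8000000080000000800000000000000000000000000000000 0x140000001c0000001c0000001e0000000f0000003c0000000e0000007c0000001c0000001c0000001c 8 7) 0 0 (step_sound _ 130 [rh1ab438bcf7c50453, (rh1bd7e1c2bd3b77e0.shift 2 0), (rh281c6819542c66e6.shift 2 1), (rha6dfe1edc6ae80dd.shift 2 3)] (by decide +kernel))
noncomputable def rhe8a3db3485bfaeae : CRef := CRef.mk (Pat.mk 0x2000000020000000200000003000000000 0x100000003000000030000003bf000001fe000003ce 8 10) 0 0 (step_sound _ 38 [(rh55afc6a59410cf00.shift 5 0), rhe585778bea45e17f] (by decide +kernel))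
noncomputable def rh51b32eca3c08415c : CRef := CRef.mk (Pat.mk 0x10000000300000002000000020 0x4000000040000000df000001fe000003fe00000020 8 10) 0 0 (step_sound _ 67 [(rh92331ada1c24c73c.shift 2 0), (rh9909eeda0ef2ed2c.shift 2 1), (rha520a17171764d94.shift 0 1), (rhb2afcb5db661472f.shift 0 1)] (by decide +kernel))
noncomputable def rhfb3744468e6c363e : CRef := CRef.mk (Pat.mk 0x1800000008000000080000000800000000 0x4000000ff000001ff000000080000001c00000014 8 9) 0 0 (step_sound _ 130 [(rh50fbb5868c909700.shift 2 1), rhae42ae739f9e45b7] (by decide +kernel))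
noncomputable def rha91c78ed50c36e63 : CRef := CRef.mk (Pat.mk 0x40000000600000002000000020 0x4000000050000000df000001fe000000fe00000020 8 9) 0 0 (step_sound _ 68 [(rh69755ef358ebfd54.shift 5 0), rhc5b015f0d632f969, (rhdfe11bb8ddcdb02a.shift 3 0)] (by decide +kernel))
noncomputable def rh5858edbfbdff1a38 : CRef := CRef.mk (Pat.mk 0x600000004000000040000000400000000 0x180000003f0000003f0000003c0000000f0000000a 8 6) 0 0 (step_sound _ 131 [(rh2f68792b6b779e96.shift 2 1), rhbab48393f5783145] (by decide +kernel))
noncomputable def rh117ea79e969d9bea : CRef := CRef.mk (Pat.mk 0x80000001800000010000000100000000000000000 0x200000006e000000fe000000ff000000f70000006000000020 8 8) 0 0 (step_sound _ 101 [(rh92011a909a77227f.shift 1 2), (rhb0121edee88fe839.shift 1 3), (rhdeca8db941583de2.shift 1 3), rheb55d8302aa4edd1] (by decide +kernel))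
noncomputable def rhaf196020357023cc : CRef := CRef.mk (Pat.mk 0xc00000008000000080000000800000000 0x700000003f0000007f0000003f0000007800000030 8 7) 0 0 (step_sound _ 132 [(rh2f68792b6b779e96.shift 3 1), rh731c4e474dda640d] (by decide +kernel))
noncomputable def rh15e6f60c30fe7370 : CRef := CRef.mk (Pat.mk 0x30000000200000002000000000 0x1000000058000000df000001fe000001ff0000007c00000008 8 9) 0 0 (step_sound _ 132 [rh79ab908b549378a3, (rhe072fffdd2fccf38.shift 4 1), (rhe07d512a95ead504.shift 1 1)] (by decide +kernel))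
noncomputable def rh1c78cafbad4362d5 : CRef := CRef.mk (Pat.mk 0x2000000000000000e000000000000000000000000 0x80000000c0000001f000000f8000000ff000000fc0000001800000018 8 8) 0 0 (step_sound _ 100 [(rh3fc3a7fb6866dcd4.shift 1 2), rh58c784e03144af51, rh7c1e3d95322a5e50, (rh89319c83de708f3e.shift 0 2)] (by decide +kernel))
noncomputable def rh344845370a0dc0fe : CRef := CRef.mk (Pat.mk 0x1000000010000000100000003000000000 0x1000000010000001ff000000fe0000000f 8 9) 0 0 (step_sound _ 35 [(rh932754581e0f4330.shift 3 0), rhb2f906ecb337670e] (by decide +kernel))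
noncomputable def rhea68146b2a9f7185 : CRef := CRef.mk (Pat.mk 0x800000008000000080000000800000000 0x40000000c0000000c0000003f0000003f00000017 8 6) 0 0 (step_sound _ 130 [rh20605be9cfe324a0, (rh50fbb5868c909700.shift 2 1)] (by decide +kernel))
noncomputable def rh1f8998098dc88236 : CRef := CRef.mk (Pat.mk 0x1000000018000000080000000800000000 0x1000000014000003b7000001fe000001ef0000002800000020 8 10) 0 0 (step_sound _ 164 [rh1b773c52993499ac, (rh5c5e593799055d58.shift 3 2)] (by decide +kernel))
noncomputable def rhbc0e3a9e61c17477 : CRef := CRef.mk (Pat.mk 0x1000000018000000080000000800000000 0x24000003b6000001ff000001ff000000fc00000060 8 10) 0 0 (step_sound _ 101 [(rh2820ca9a6c4f41b4.shift 0 2), (rha39f578da233ec70.shift 2 0), rhb0dee21a81b17dad, (rhf0f55c4504412200.shift 0 2)] (by decide +kernel))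
noncomputable def rh8cc2d46503f25dce : CRef := CRef.mk (Pat.mk 0x600000004000000040 0xa0000001f0000007bf000001fe000001fe00000040 8 11) 0 0 (step_sound _ 101 [rh411967cdb6c81fad, (rh7688a83383d57cbe.shift 2 0), (rhe072fffdd2fccf38.shift 5 0)] (by decide +kernel))
noncomputable def rh4154a2b40981453b : CRef := CRef.mk (Pat.mk 0x200000002000000030000000000000000000000000 0x64000003fe000001fe000003df0000004800000008 8 10) 0 0 (step_sound _ 99 [(rh3a1b0ae2f346386f.shift 2 1), (rh7f0f728c796044ac.shift 0 2), (rha11dfd15f08f96e3.shift 2 3), rhf8af848e37709e2b] (by decide +kernel))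
noncomputable def rh56a89fcaa9ae1490 : CRef := CRef.mk (Pat.mk 0x40000000c000000060000000000000000 0x1c0000003c0000001f0000003c0000001e0000003c00000018 8 6) 0 0 (step_sound _ 100 [(rh18965a982d73c794.shift 1 2), rhad67c61b5385aebf] (by decide +kernel))
noncomputable def rhca11c2711b6f5df9 : CRef := CRef.mk (Pat.mk 0x8000000180000000c000000000000000000000000 0x8000000080000000c0000001f0000003f000000330000001200000002 8 6) 0 0 (step_sound _ 97 [rh00744065de4bdb3a, (rh53b3c253cb0c65f4.shift 0 3)] (by decide +kernel))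
noncomputable def rh0e4d89d28eeb7c50 : CRef := CRef.mk (Pat.mk 0x60000000400000004000000000 0x20000000a0000003bf000001fe000003fe0000005000000010 8 10) 0 0 (step_sound _ 133 [(rh26e51adf79a465a5.shift 1 0), (rh411967cdb6c81fad.shift 0 1), (rhe072fffdd2fccf38.shift 5 1)] (by decide +kernel))
noncomputable def rhf6baa05a1226f084 : CRef := CRef.mk (Pat.mk 0xc0000000800000008000000000000000000000000 0x120000003b0000003f0000007f0000000f0000000c0000000400000004 8 7) 0 0 (step_sound _ 132 [rh1efd476b5857a05d, (rh4ca5dae25f5c14ff.shift 0 4), (rh71095cda9916d029.shift 0 2), (rhb0121edee88fe839.shift 0 4)] (by decide +kernel))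
noncomputable def rhef1bef7c417d7c65 : CRef := CRef.mk (Pat.mk 0x30000000200000002000000000 0x1000000050000001df000000fe000001ff0000002800000008 8 9) 0 0 (step_sound _ 132 [rh26e51adf79a465a5, (rhe072fffdd2fccf38.shift 4 1), (rhf895c61953946184.shift 0 1)] (by decide +kernel))
noncomputable def rh35dd3ad27294975f : CRef := CRef.mk (Pat.mk 0xc000000080000000800000000 0x1800000038000000780000003f0000007c0000001800000018 8 7) 0 0 (step_sound _ 68 [rh2efbb3071513816e, (rhdeca8db941583de2.shift 0 2), (rhe6eef7b19b204d59.shift 2 0)] (by decide +kernel))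
noncomputable def rh60a65f0bd697216b : CRef := CRef.mk (Pat.mk 0x1000000010000000100000001000000000 0x200000003000000010000000ff000000fe0000002f 8 8) 0 0 (step_sound _ 133 [(rh2f68792b6b779e96.shift 4 1), rh5f87faa23d848e4b] (by decide +kernel))
noncomputable def rh50f506bd5ed6af24 : CRef := CRef.mk (Pat.mk 0xc00000018000000080000000000000000 0x10000000100000003c0000007f0000007e0000000e00000006 8 7) 0 0 (step_sound _ 101 [rh3cbd0d81a98ca9ae, (rhf48373e13d2bc128.shift 2 3)] (by decide +kernel))
noncomputable def rh3d273072abc3755a : CRef := CRef.mk (Pat.mk 0x40000000c00000008000000080000000000000000 0x12000000370000003f0000007f0000007f0000000600000006 8 7) 0 0 (step_sound _ 100 [(rh4ca5dae25f5c14ff.shift 0 3), rhcaa29ff67245d675, (rhd802f06a30b14661.shift 0 1), (rhdeca8db941583de2.shift 0 3)] (by decide +kernel))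
noncomputable def rh5258bac2d5ef03a5 : CRef := CRef.mk (Pat.mk 0x200000002000000030000000000000000000000000 0x2000000030000003bf000001fe000003ee0000004800000048 8 10) 0 0 (step_sound _ 102 [(rh70e33bfdf511e144.shift 5 0), rhdd939797ea5b23fb] (by decide +kernel))
noncomputable def rh934072b1b4ffbdde : CRef := CRef.mk (Pat.mk 0x80000000800000008000000080000000000000000 0xc0000000c0000003f0000003f0000001700000002 8 6) 0 0 (step_sound _ 66 [rh3217779c56a41372, (rh932754581e0f4330.shift 2 1)] (by decide +kernel))
noncomputable def rhb2a2b18d4f413774 : CRef := CRef.mk (Pat.mk 0x800000008000000080000000800000000000000000000000000000000 0x100000001c0000000f0000007c0000001f0000000c0000001c0000001c00000014 8 7) 0 0 (step_sound _ 228 [rh0fe7f0071d9bb8a7, (rh2f68792b6b779e96.shift 3 4)] (by decide +kernel))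
noncomputable def rh92cef2931c8684ee : CRef := CRef.mk (Pat.mk 0x8000000080000000800000008000000000000000000000000 0x100000001c0000000f0000000c0000000c0000001c0000001c00000010 8 5) 0 0 (step_sound _ 196 [(rh2f68792b6b779e96.shift 3 3), rhadb1d8d747083c2d] (by decide +kernel))
noncomputable def rh21c083c93d35d8c8 : CRef := CRef.mk (Pat.mk 0x200000002000000020000000200000000000000000000000000000000 0x40000000700000003000000070000000600000006000000070000000700000005 8 3) 0 0 (step_sound _ 226 [(rh2f68792b6b779e96.shift 1 4), rhd4c3ab5efcd8aa8a] (by decide +kernel))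
noncomputable def rh428bb786410034d0 : CRef := CRef.mk (Pat.mk 0x8000000080000000800000008000000000000000000000000 0x100000001c0000000f0000000c000000180000001c0000001c00000004 8 5) 0 0 (step_sound _ 196 [rh20e1b6e80a121d79, (rh2f68792b6b779e96.shift 3 3)] (by decide +kernel))
noncomputable def rh5bdab5668613fef7 : CRef := CRef.mk (Pat.mk 0x100000001000000010000000000000000000000000 0x28000000780000001e000000ff000000fe0000003f00000020 8 8) 0 0 (step_sound _ 68 [(rh5ee4dc8825dcefa0.shift 1 1), (rh5f87faa23d848e4b.shift 0 1), (rh8ff3dde5b1c639e0.shift 3 0)] (by decide +kernel))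
noncomputable def rh78e3c2c544856f7f : CRef := CRef.mk (Pat.mk 0x1800000010000000300000000000000000 0x1e70000007e000000df000000fc0000003e0000001c 8 9) 0 0 (step_sound _ 133 [(rh29673a7392c1d075.shift 1 0), (rh400931a79e74b624.shift 0 1), (rh6ae1d99a9b0058f4.shift 2 1)] (by decide +kernel))
noncomputable def rh60ae197a4baa0d0d : CRef := CRef.mk (Pat.mk 0x1800000010000000300000000000000000 0xc0000000c000000ef0000007f0000001f000000fe000000ec00000008 8 8) 0 0 (step_sound _ 99 [(rh3c3e23a02e82b2ed.shift 1 2), (rh643f6145890e754e.shift 0 2), (rh7cd7e6eff52d7363.shift 2 0)] (by decide +kernel))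
noncomputable def rhb421dd584eb141a0 : CRef := CRef.mk (Pat.mk 0x10000000100000001800000000 0x28000000380000003800000010000003f7000001fe000001e7 8 10) 0 0 (step_sound _ 37 [(rh14e0829dc73b6804.shift 3 0), rh98b527125c8808b3, (rhdf67aca28ea80e36.shift 2 0), rhfb4d857494a237da] (by decide +kernel))
noncomputable def rh8f79e853c636224a : CRef := CRef.mk (Pat.mk 0x100000001000000018000000080000000000000000 0x12000000730000007f0000007f0000003700000024 8 7) 0 0 (step_sound _ 66 [(rh0bb882ba86b2372d.shift 0 2), (rh574fdbf07bdd18b9.shift 0 2), rh94a38316694329a3, (rhacb3d3504478a8ae.shift 1 0)] (by decide +kernel))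
noncomputable def rh53fd06f719bb0f9a : CRef := CRef.mk (Pat.mk 0x80000000800000008000000000000000000000000 0x100000003c0000007f0000003e0000007800000018000000180000001800000010 8 7) 0 0 (step_sound _ 164 [(rh215e11e099257d75.shift 3 2), (rh3ac89f80640fbc5e.shift 1 0), (rh75d258ab2216cd27.shift 0 2), (rhb730ba14aa32bdb3.shift 3 2)] (by decide +kernel))
noncomputable def rhed8adf82b3781fe2 : CRef := CRef.mk (Pat.mk 0x1800000010000000100000001000000000 0x1e7000001ff0000007f000000100000001800000008 8 9) 0 0 (step_sound _ 133 [rh2885d9c2850555e5, (rh2f68792b6b779e96.shift 4 1)] (by decide +kernel))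
noncomputable def rh2127df7544d31839 : CRef := CRef.mk (Pat.mk 0x4000000040000000400000000000000000000000000000000 0x200000006000000060000000e0000003c0000000f0000000e0000000e0000000e00000002 8 6) 0 0 (step_sound _ 225 [(rh114f4abf4ea101c9.shift 1 3), (rh87919bd563354cbc.shift 0 3), (rha00bbb379b675104.shift 1 0)] (by decide +kernel))
noncomputable def rh73d9ed1b16d1e1c9 : CRef := CRef.mk (Pat.mk 0x3000000010000000100000001000000000 0x180000000f00000007e000000f7000000fe000001ef 8 9) 0 0 (step_sound _ 37 [(rh55afc6a59410cf00.shift 4 0), rhb8ba44ed13f16098] (by decide +kernel))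
noncomputable def rhd51929b940965c16 : CRef := CRef.mk (Pat.mk 0x1000000010000000100000001000000000 0x2f0000007e000000ff000000100000001800000008 8 8) 0 0 (step_sound _ 3 [(rh2cd516f7d9313028.shift 0 1), (rh79877ebd3ef475dd.shift 3 0)] (by decide +kernel))
noncomputable def rh9b619a4ee2fb33a9 : CRef := CRef.mk (Pat.mk 0x1000000008000000080000000800000000 0x140000001c0000001c0000001c0000003c0000000f0000000c0000001c00000010 8 6) 0 0 (step_sound _ 131 [(rh2f68792b6b779e96.shift 3 1), rhd4f01f1840b9fd5d] (by decide +kernel))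
noncomputable def rhd65830c2b1b88648 : CRef := CRef.mk (Pat.mk 0x180000001000000018000000000000000000000000 0x20000000780000001e0000007c0000001f0000001c00000008 8 7) 0 0 (step_sound _ 67 [(rh42548283029e2a39.shift 3 0), (rhd16d3951fa160465.shift 0 1), (rhf9af042da61fc652.shift 3 0)] (by decide +kernel))
noncomputable def rhb41dd6e6f208933d : CRef := CRef.mk (Pat.mk 0x300000002000000030000000000000000000000000000000000000000 0x50000000700000002000000030000000300000007000000070000000700000001 8 3) 0 0 (step_sound _ 129 [(rh50fbb5868c909700.shift 0 4), rh630b54bcf47f620f] (by decide +kernel))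
noncomputable def rhfd169ff154cc0e79 : CRef := CRef.mk (Pat.mk 0x1800000010000000180000000000000000 0xc0000000c0000007c0000001f0000007f0000000f0000000c 8 7) 0 0 (step_sound _ 99 [(rh87961b2a8ca8a677.shift 2 0), rha6f802784adb25e2, (rhc7469040363f06d7.shift 0 1)] (by decide +kernel))
noncomputable def rh20ea680d4ccea101 : CRef := CRef.mk (Pat.mk 0x18000000100000001800000000 0x80000003c0000007f0000007e0000001f0000001f00000004 8 7) 0 0 (step_sound _ 131 [rhc28be39963a1e256, (rhc89253ff58c66167.shift 3 1), (rhe072fffdd2fccf38.shift 3 1)] (by decide +kernel))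
noncomputable def rh6663e5236fa75b9d : CRef := CRef.mk (Pat.mk 0x300000002000000020000000200000000 0x10000000700000007000000060000000300000003000000060000000700000005 8 3) 0 0 (step_sound _ 34 [(rh55afc6a59410cf00.shift 1 0), rh90572456781cef89] (by decide +kernel))
noncomputable def rh28d4e3a40640b4f5 : CRef := CRef.mk (Pat.mk 0x3000000010000000100000001000000000 0xf0000007f000000fe000000100000001800000008 8 8) 0 0 (step_sound _ 131 [rh023198f23cdae2e4, (rh50fbb5868c909700.shift 3 1)] (by decide +kernel))
noncomputable def rhe1e81142e9274754 : CRef := CRef.mk (Pat.mk 0x300000001000000010 0x1000000038000001f8000001ff0000007c0000003800000010 8 9) 0 0 (step_sound _ 101 [(rh69755ef358ebfd54.shift 4 0), (rhbfb5770941270498.shift 4 0), rhc65239bc18f7d457] (by decide +kernel))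
noncomputable def rhc53f5bb509a00219 : CRef := CRef.mk (Pat.mk 0x180000000e000000000000000000000000 0x30000000300000003000000018000000fe000000ff0000003c0000001c 8 8) 0 0 (step_sound _ 100 [rh2d80582177806d31, (rh9767a395d383a9c4.shift 1 0), (rha1eb337eeb07c2e7.shift 0 2), rhf7ae7d43a9e2b9a7] (by decide +kernel))
noncomputable def rhdc08e0bf03510f64 : CRef := CRef.mk (Pat.mk 0x1c00000006000000000000000000000000 0x80000000a0000000b0000001f0000003e000000370000001600000016 8 6) 0 0 (step_sound _ 129 [rh3099bac5ce91b370, (rh38a0850c9fea941e.shift 0 1), rh95e960a96072856f] (by decide +kernel))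
noncomputable def rh5567f9cbab1846c3 : CRef := CRef.mk (Pat.mk 0x180000000e00000000000000000000000000000000 0x6000000170000001f000000fe0000000f0000001e0000001c00000018 8 8) 0 0 (step_sound _ 67 [(rh5a7dce561d0bf78d.shift 2 1), (rh9b688ef6647088e0.shift 2 0), (rhd8e24bad4c6be263.shift 0 1)] (by decide +kernel))
noncomputable def rh9133d37e34d6b86b : CRef := CRef.mk (Pat.mk 0x7000000018000000000000000000000000 0x28000000280000006f0000007f000000380000001f0000007c0000003c 8 7) 0 0 (step_sound _ 131 [(rh15a2b73944acc7e4.shift 0 3), (rh38a0850c9fea941e.shift 2 1), (rh4436203d7d59d0ac.shift 0 1), rhf9a9d5225eff8455] (by decide +kernel))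
noncomputable def rh164ea6f45c28ffbe : CRef := CRef.mk (Pat.mk 0x180000000e000000000000000000000000 0x2000000170000001f0000003e0000007c000000fe0000007c 8 8) 0 0 (step_sound _ 35 [(rh1e8bb100e8c0148d.shift 1 0), (rh5a7dce561d0bf78d.shift 2 0), rh788a6df470748423] (by decide +kernel))
noncomputable def rha26f04ea69a36ef5 : CRef := CRef.mk (Pat.mk 0x700000001800000000000000000000000000000000 0x20000000280000006e0000007f000000f8000000f8000000fe000000be00000020 8 8) 0 0 (step_sound _ 163 [(rh15a2b73944acc7e4.shift 0 4), (rh38a0850c9fea941e.shift 2 2), (rh3989a3ade8bd45e1.shift 1 0)] (by decide +kernel))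
noncomputable def rh105afbb9577e454e : CRef := CRef.mk (Pat.mk 0x180000000e00000000000000000000000000000000 0x6000000170000001f000000fe000000ef0000001e0000001800000018 8 8) 0 0 (step_sound _ 67 [(rh5a7dce561d0bf78d.shift 2 1), (rh9b688ef6647088e0.shift 2 0), (rhdda39c9944a3cc78.shift 0 2)] (by decide +kernel))
noncomputable def rh20a5e704ff8d5016 : CRef := CRef.mk (Pat.mk 0xc00000006000000000000000000000000 0x20000001b0000003f0000003e000000370000001700000017 8 6) 0 0 (step_sound _ 132 [(rh18965a982d73c794.shift 1 3), rhf40eef5954dae213] (by decide +kernel))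
noncomputable def rh88b08e87f5d90bc1 : CRef := CRef.mk (Pat.mk 0x180000000e00000000000000000000000000000000 0x30000000340000001f0000001e0000007f0000007e0000003c00000014 8 7) 0 0 (step_sound _ 99 [(rh000637b5a81e86aa.shift 2 1), (rha189188113024157.shift 0 1), (rhc53fd4282e2fbb17.shift 1 0)] (by decide +kernel))
noncomputable def rh4bbd34bc4328234e : CRef := CRef.mk (Pat.mk 0x1c00000006000000000000000000000000 0x180000001a0000001b0000001e0000007e0000003f0000003f00000022 8 7) 0 0 (step_sound _ 163 [(rh296053b8693ce0b6.shift 0 1), (rh2aceddd737edafec.shift 1 2), (rh7ee3ff31de662cc9.shift 1 1), (rhcf80391c5046a495.shift 2 1), rhee424b515bf5a9e3] (by decide +kernel))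
noncomputable def rhe427a74efb961c4c : CRef := CRef.mk (Pat.mk 0x10000000380000000000000000 0x60000000e0000000f0000001f0000003f0000007f00000004 8 7) 0 0 (step_sound _ 66 [(rh19502d533fc90228.shift 0 1), (rh3a835c9c24581dd0.shift 0 1), (rh592c7139d2c44767.shift 0 1), rhb69c4430f7f403e3] (by decide +kernel))
noncomputable def rh56a193b8fd5b2f63 : CRef := CRef.mk (Pat.mk 0x80000000e0000000000000000 0x7000000070000001f0000003e0000007700000006 8 7) 0 0 (step_sound _ 68 [(rh06db8ceda6269a47.shift 0 1), (rhe401600d466b97cd.shift 0 1), rhf116b490e5c05dd4] (by decide +kernel))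
noncomputable def rh9d477ee6df2c192a : CRef := CRef.mk (Pat.mk 0x80000001e000000000000000000000000 0x40000000700000007000000070000003f0000001e000000030000000200000002 8 6) 0 0 (step_sound _ 132 [rh0fa9af57968547e3, (rh33e738c4ed385b9f.shift 1 3)] (by decide +kernel))
noncomputable def rh4f4f01c8581cad5f : CRef := CRef.mk (Pat.mk 0x1800000018000000000000000000000000 0xc0000000c0000002f000000ff0000001f000000100000001000000010 8 8) 0 0 (step_sound _ 133 [(rh0c561658b8646091.shift 2 1), rh1d840f8ef5a62766, (rh4dc133ee0ba1420a.shift 1 3)] (by decide +kernel))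
noncomputable def rh4dd9164e056e5600 : CRef := CRef.mk (Pat.mk 0x1800000018000000100000000000000000 0xc0000000c0000001c0000001f0000003f0000000f0000000c 8 6) 0 0 (step_sound _ 163 [(rh2145e1d24b96a57e.shift 3 2), rhd986777a1ee95960] (by decide +kernel))
noncomputable def rh05906928704ce572 : CRef := CRef.mk (Pat.mk 0x180000001c000000000000000000000000 0x1c0000003c0000000f0000007c0000001c0000000c0000000c0000000c 8 7) 0 0 (step_sound _ 133 [rh0b7e02bba377f955, (rh18965a982d73c794.shift 2 3)] (by decide +kernel))
noncomputable def rhbc93124e31d97c82 : CRef := CRef.mk (Pat.mk 0x1c0000000c00000000000000000000000000000000 0x1000000010000000300000007e0000006c0000007c0000007f0000005f00000010 8 7) 0 0 (step_sound _ 165 [(rh18965a982d73c794.shift 2 4), rh3989a3ade8bd45e1] (by decide +kernel))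
noncomputable def rh5f8af7c27e64d65d : CRef := CRef.mk (Pat.mk 0x1800000018000000000000000000000000 0x1c0000003c0000000f000000f80000001f0000001f0000001c0000001c 8 8) 0 0 (step_sound _ 163 [(rh55a1f6c57a317ce6.shift 3 1), (rh84713c4bf66e2b3e.shift 0 2), rhc60eca57951bafb8] (by decide +kernel))
noncomputable def rh25cfa361f72d2f20 : CRef := CRef.mk (Pat.mk 0x80000000c0000001000000010000000000000000000000000 0x40000000c0000001f0000007c0000001f0000000f0000000c00000008 8 7) 0 0 (step_sound _ 131 [(rh75ea294132184f25.shift 1 4), (rhec7286d79d970a12.shift 1 2), rhfd7d76e977ce17a5] (by decide +kernel))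
noncomputable def rh269b11d089b61e64 : CRef := CRef.mk (Pat.mk 0x80000000c000000100000000000000000 0x4000000040000000f0000007f0000007f0000000f0000000e 8 7) 0 0 (step_sound _ 67 [(rh482f7830235ced74.shift 1 0), rh51ec5f3b0444fa3d, (rh5c5a2014709044d0.shift 0 2), (rh75ea294132184f25.shift 1 2), (rhb94ea1dd7c577fd4.shift 1 0)] (by decide +kernel))
noncomputable def rh57ceeaafbbbcec43 : CRef := CRef.mk (Pat.mk 0x80000000c00000018000000000000000000000000 0x80000001f0000001f000000ff000000fc0000001c 8 8) 0 0 (step_sound _ 129 [rh18cb095d4bda4e1c, (rhb739f4f82bb681b4.shift 0 3)] (by decide +kernel))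
noncomputable def rh7c38f39af91613a6 : CRef := CRef.mk (Pat.mk 0x1000000038000000200000000000000000 0x1de000001fe000003b70000002000000020 8 10) 0 0 (step_sound _ 37 [(rh7b1f1fb55310c477.shift 4 0), (rhe63fc523e81da4c0.shift 0 2)] (by decide +kernel))
noncomputable def rh11a231e315a35f46 : CRef := CRef.mk (Pat.mk 0x80000000e000000100000000000000000 0x400000006000000ef000000fe0000001f0000003e00000016 8 8) 0 0 (step_sound _ 100 [(rh21460d2d48a35cb8.shift 0 1), rh2395824d1086e2bc, rh4e5d4d88c821e3b0, (rh75380d6b53574693.shift 0 2), rhb130e3e21fd3a3c0] (by decide +kernel))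
noncomputable def rhedcf64db457a7434 : CRef := CRef.mk (Pat.mk 0x1000000018000000200000002000000000 0xc0000001e00000078000001ff000000fe000001df 8 9) 0 0 (step_sound _ 35 [(rh53bded4f17d7c42d.shift 1 0), (rh69e34d8d2adf91b6.shift 2 0), (rh953e4076a99828a5.shift 1 0), rh9a675c44c5cdd8e2, rh9cd180fc23032efa, (rhaad436eb1f8a8666.shift 1 0), (rhac30b87d02dfbc4b.shift 2 0), (rhcebb9c2b96ff6c9a.shift 1 0)] (by decide +kernel))
noncomputable def rh3a6fde6f22b6e6e6 : CRef := CRef.mk (Pat.mk 0x100000001800000020000000000000000000000000 0x8000000180000001e000000ff000000ff0000003c00000028 8 8) 0 0 (step_sound _ 100 [(rh3c3e23a02e82b2ed.shift 1 3), rh8075efc01572ae5f, (rhc7211169a1e41db2.shift 2 1), (rhdeef127948b9fe58.shift 2 1), (rhf399eabed2f06c38.shift 1 0)] (by decide +kernel))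
noncomputable def rh0d5deb26b7c87526 : CRef := CRef.mk (Pat.mk 0x1000000018000000200000000000000000 0x800000048000001df000000fe000001ef0000007c00000028 8 9) 0 0 (step_sound _ 101 [(rh193de8196b00d2cf.shift 2 0), rh847ab133cf1d2e54, (rh8ee80cc30e93a344.shift 2 2), (rh93d4cd91ae17be28.shift 1 2), (rhc92c11e8da6c894f.shift 0 2)] (by decide +kernel))
noncomputable def rhc20ad01fa265397e : CRef := CRef.mk (Pat.mk 0x80000000c00000010000000000000000000000000 0x40000000c0000001f0000007e0000001f0000001e00000014 8 7) 0 0 (step_sound _ 99 [(rh75ea294132184f25.shift 1 3), (rhc7211169a1e41db2.shift 1 1), rhf399eabed2f06c38] (by decide +kernel))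
noncomputable def rh8ce832b25e12a302 : CRef := CRef.mk (Pat.mk 0x80000000e000000080000000000000000000000000000000000000000 0x80000001e000000ff0000007e000000fc0000001c0000001800000010 8 8) 0 0 (step_sound _ 131 [(rh43a98e0770cf8cc0.shift 1 2), (rh6204bdc625d23ae7.shift 0 3), (rh89cf5152879421f3.shift 2 1), (rh8cdd36b03d57a2f6.shift 2 2), (rhf2bb4379030fb37d.shift 2 0)] (by decide +kernel))
noncomputable def rh5b925b56610e0cc9 : CRef := CRef.mk (Pat.mk 0x1800000038000000000000000000000000 0x800000018000000f80000003c0000001f0000001c 8 8) 0 0 (step_sound _ 102 [rh057c4fb73ca17b64, (rhf48373e13d2bc128.shift 3 3)] (by decide +kernel))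
noncomputable def rh7eedfae0d2035a10 : CRef := CRef.mk (Pat.mk 0x1800000038000000000000000000000000 0x8000000080000001e000000380000007f000000fe0000007c 8 8) 0 0 (step_sound _ 130 [rh3a7a0ecd7dad0703, (rhb739f4f82bb681b4.shift 1 3)] (by decide +kernel))
noncomputable def rhfd73b35d48f9bbe6 : CRef := CRef.mk (Pat.mk 0xc0000000c000000080000000000000000 0x4000000060000000f0000007c0000007f0000000600000006 8 7) 0 0 (step_sound _ 162 [(rh2145e1d24b96a57e.shift 2 2), rhffa1f0872b700131] (by decide +kernel))
noncomputable def rhd786018ca774079a : CRef := CRef.mk (Pat.mk 0x60000000e000000000000000000000000 0x10000000360000003e0000003f0000000b0000000b 8 6) 0 0 (step_sound _ 100 [rh9e263a37ff4f4c4d, (rhf48373e13d2bc128.shift 1 3)] (by decide +kernel))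
noncomputable def rh13ff95f09f178bb6 : CRef := CRef.mk (Pat.mk 0x1800000018000000000000000000000000 0xc0000000f0000007c000000180000007e0000007e0000003c 8 7) 0 0 (step_sound _ 68 [(rh3cb04db3dd2b6a55.shift 3 0), rh4d903ee13bce1e8f, (rhf351c68a885f5397.shift 1 0)] (by decide +kernel))
noncomputable def rh293ce6877fb351b2 : CRef := CRef.mk (Pat.mk 0x3800000018000000000000000000000000 0x20000000670000003f000000780000001e0000007800000038 8 7) 0 0 (step_sound _ 68 [(rh77425f36ef096239.shift 1 0), (rh8cb8ab6bfb93f3cd.shift 0 2), (rhb0c1e7919d9be92d.shift 3 0)] (by decide +kernel))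
noncomputable def rh2ce69c8ad081e07c : CRef := CRef.mk (Pat.mk 0xe00000006000000000000000000000000 0x800000008000000080000003e0000003e000000370000001600000006 8 6) 0 0 (step_sound _ 132 [(rh18965a982d73c794.shift 1 3), rh3099bac5ce91b370] (by decide +kernel))
noncomputable def rh185f04d81d61f122 : CRef := CRef.mk (Pat.mk 0xc0000000c000000000000000000000000 0x600000006000000060000007c0000007c0000000f0000000e0000000e 8 7) 0 0 (step_sound _ 133 [rh0124767038b48ee1, (rh261ac0702d026a41.shift 1 1), (rh562d6ffa289cf5f6.shift 2 3)] (by decide +kernel))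
noncomputable def rh3c161ca06d70eba3 : CRef := CRef.mk (Pat.mk 0x180000000c000000000000000000000000 0x4000000140000001f0000003f0000007f0000003a00000038 8 7) 0 0 (step_sound _ 97 [rh3dffab7cddf4e11d, (rh53b3c253cb0c65f4.shift 0 3)] (by decide +kernel))
noncomputable def rha0aeb751c2a665e2 : CRef := CRef.mk (Pat.mk 0xe000000180000000000000000 0x180000003a0000003f0000003e0000001f0000003400000024 8 6) 0 0 (step_sound _ 100 [(rh11dd4107229f0b91.shift 0 1), rh32af6e600e16eab8, rh4135b07e79a30064] (by decide +kernel))
noncomputable def rhd94b23737262b7b9 : CRef := CRef.mk (Pat.mk 0x180000007000000000000000000000000000000000 0x18000000180000007c000000f80000007f000000e8000000e0000000e0000000a0 8 8) 0 0 (step_sound _ 131 [(rh5dffc5561274dae0.shift 2 1), (rh8c3d2bb5df9480cb.shift 3 0), (rhc02275ce183c9512.shift 2 1), (rhcf270c8e24e69b57.shift 2 3), (rhe74f96057964b96f.shift 0 3)] (by decide +kernel))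
noncomputable def rhcc2ab252af78a429 : CRef := CRef.mk (Pat.mk 0x60000001c00000000000000000000000000000000 0x1c0000001c0000003e0000001e0000003b0000003a0000003800000028 8 6) 0 0 (step_sound _ 129 [(rh031a926e4a883687.shift 0 2), rh567cde191f685200, (rh8c3d2bb5df9480cb.shift 1 0)] (by decide +kernel))
noncomputable def rh5ea5c109d510c216 : CRef := CRef.mk (Pat.mk 0xe00000018000000000000000000000000 0x140000001c0000001c0000003c0000003e0000001f000000330000003200000030 8 6) 0 0 (step_sound _ 195 [(rhc531e8994caba2c3.shift 2 2), (rhcea46497ce748772.shift 0 1), rhdee1442ac9f48e6b] (by decide +kernel))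
noncomputable def rh52900672f4885679 : CRef := CRef.mk (Pat.mk 0x38000000600000000000000000 0x50000000f8000000f8000000ff000000780000007e000000dc000000d0 8 8) 0 0 (step_sound _ 133 [(rh14e0829dc73b6804.shift 4 1), (rh1effa0580f529e7c.shift 2 0), rh99f1e932c1bbb552] (by decide +kernel))
noncomputable def rh0190390f0364d325 : CRef := CRef.mk (Pat.mk 0xe00000018000000000000000000000000 0x18000000180000003f000000fe0000001c000000300000003000000030 8 8) 0 0 (step_sound _ 132 [(rh20aa4f45d68bc15e.shift 1 0), (rh412d230494194d0a.shift 0 3)] (by decide +kernel))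
noncomputable def rha7b1da87362785da : CRef := CRef.mk (Pat.mk 0x1c00000002000000000000000000000000 0x80000000e0000000f0000003e000000060000000e0000000e0000000e 8 6) 0 0 (step_sound _ 98 [(rh18965a982d73c794.shift 1 3), rh18e980b7f617775f] (by decide +kernel))
noncomputable def rha1ddadb9e3c2bfb6 : CRef := CRef.mk (Pat.mk 0x38000000200000000000000000 0x18000000180000007f0000007e0000002e0000000c00000008 8 7) 0 0 (step_sound _ 98 [(rh0f4cd55865daa4bc.shift 1 0), (rh43dc67402634d54f.shift 1 1), (rh4c622fddc53a5f99.shift 0 3)] (by decide +kernel))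
noncomputable def rh51800c37e2c6dd50 : CRef := CRef.mk (Pat.mk 0x1e0000000800000000 0x160000003e0000003f0000001e0000000f00000006 8 6) 0 0 (step_sound _ 33 [rh57547026bf9f4538, (rheb0810cc63b001d8.shift 0 1)] (by decide +kernel))
noncomputable def rh9d123016fe351213 : CRef := CRef.mk (Pat.mk 0x3c00000010000000000000000000000000 0x2000000028000000780000007c0000003e0000000f0000000c00000008 8 7) 0 0 (step_sound _ 98 [rh83a608250b3a1341, (rheb0810cc63b001d8.shift 1 3)] (by decide +kernel))
noncomputable def rh0544761372803696 : CRef := CRef.mk (Pat.mk 0x3c0000000800000000 0xe0000000f0000003e0000003c0000000e00000004 8 6) 0 0 (step_sound _ 34 [rh183b5591c86df4fb, (rheb0810cc63b001d8.shift 1 1)] (by decide +kernel))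
noncomputable def rhcabda6eb937717b5 : CRef := CRef.mk (Pat.mk 0x1c0000000a00000000 0x1c0000003c0000000f0000003e0000000e00000006 8 6) 0 0 (step_sound _ 98 [rh0c414efef45aaa33, (rh3e3a0e4b62353dd3.shift 1 0), (rh7b030ba967bf927e.shift 1 1), (rhff55d690c1ed3860.shift 0 1)] (by decide +kernel))
noncomputable def rhca5b227f24626cc1 : CRef := CRef.mk (Pat.mk 0x700000006000000000000000000000000 0x600000006000000070000001f0000003c0000000f0000000e 8 6) 0 0 (step_sound _ 99 [rhb46272eeb54a1564, (rhf48373e13d2bc128.shift 0 3)] (by decide +kernel))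
noncomputable def rh0b537d8cb0fe3a34 : CRef := CRef.mk (Pat.mk 0x40000001c0000000800000000 0x3c0000003e000000370000001e0000007b00000032 8 7) 0 0 (step_sound _ 130 [(rh2145e1d24b96a57e.shift 2 1), rh697fe60cbc26859b] (by decide +kernel))
noncomputable def rh9891e13949dfd44e : CRef := CRef.mk (Pat.mk 0x20000000e000000040000000000000000 0xa0000000a000001de000000ff000001fc0000001000000010 8 9) 0 0 (step_sound _ 161 [(rh2145e1d24b96a57e.shift 1 2), rh565d58fcef5823bc] (by decide +kernel))
noncomputable def rh19bdbbbe5db0166f : CRef := CRef.mk (Pat.mk 0xe000000080000000000000000 0x40000000600000007000000fe0000007f0000000700000006 8 8) 0 0 (step_sound _ 68 [(rh4a0b10776449c3e9.shift 1 2), (rh89ade209b3e28f13.shift 1 2), (rhae2edff970a530ce.shift 1 2), rhcf1a8be4715cee57] (by decide +kernel))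
noncomputable def rhb4c69a01bf6eb2d8 : CRef := CRef.mk (Pat.mk 0xe00000018000000000000000000000000 0x180000001a0000003b0000003e0000001f000000340000003400000030 8 6) 0 0 (step_sound _ 132 [(rh20aa4f45d68bc15e.shift 1 0), (rh32af6e600e16eab8.shift 0 1)] (by decide +kernel))
noncomputable def rhbb9b146381838eb2 : CRef := CRef.mk (Pat.mk 0x18000000700000000000000000000000000000000000000000 0x300000007000000070000000f80000007f000003ec000000f8000003f0000000e000000020 8 10) 0 0 (step_sound _ 134 [(rh056e22229039a847.shift 0 4), (rh9d530f553b1279df.shift 2 1), (rhabf429c344baf3e3.shift 2 2), (rhc050ba39eecbb0fd.shift 2 3), (rhd9b5ed542b27a9df.shift 3 0)] (by decide +kernel))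
noncomputable def rhf1dcb0862000c712 : CRef := CRef.mk (Pat.mk 0x1800000018000000080000000000000000 0x1c0000001c0000005f000000df000000fc000000e80000002000000020 8 8) 0 0 (step_sound _ 101 [(rh351882b69f82cf2d.shift 0 2), (rh763800cfad64fd66.shift 2 0), (rhe2b63c00a3d7bb73.shift 1 3)] (by decide +kernel))
noncomputable def rh1f1bc8a28608af43 : CRef := CRef.mk (Pat.mk 0x100000001800000018000000000000000000000000 0x100000001f000000ff000000ef0000000c0000000c 8 8) 0 0 (step_sound _ 35 [rh21f864b61c2f0a16, (rh9e3edb185cc347de.shift 3 1)] (by decide +kernel))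
noncomputable def rh419596884cfad63a : CRef := CRef.mk (Pat.mk 0x18000000180000000000000000 0x3c0000007e0000007e000000180000007c0000000f0000000c 8 7) 0 0 (step_sound _ 132 [(rh503dd4575245365b.shift 3 1), rhadab841c0e82eed8, (rhb54a06ec479fcef8.shift 1 2)] (by decide +kernel))
noncomputable def rh68c3f3cea96f2850 : CRef := CRef.mk (Pat.mk 0x18000000180000000800000000 0xc0000001f0000003f0000001f0000001c0000000c00000004 8 6) 0 0 (step_sound _ 132 [rh0b2e6be991f8d9c6, (rh5c5e593799055d58.shift 3 1)] (by decide +kernel))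
noncomputable def rh6c5752e04e1accae : CRef := CRef.mk (Pat.mk 0x1800000018000000000000000000000000 0x1c0000001c0000001f0000001f000000f80000000f0000003c0000001c 8 8) 0 0 (step_sound _ 67 [rh72b06522cc100222, (rh84d1c02a8954c6a8.shift 3 1), (rha2c5146fa7ebf90c.shift 0 2)] (by decide +kernel))
noncomputable def rh5b6f59ac5a6b9c78 : CRef := CRef.mk (Pat.mk 0x1c000000100000000000000000 0x8000000080000003c0000003f000000370000000400000004 8 6) 0 0 (step_sound _ 97 [rh0f4cd55865daa4bc, (rhe25b0a99195a5d59.shift 1 2)] (by decide +kernel))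
noncomputable def rhf1f9c17aaf8a6884 : CRef := CRef.mk (Pat.mk 0x38000000100000000000000000 0xc0000000c0000000f0000007c0000001e0000000c00000008 8 7) 0 0 (step_sound _ 66 [(rh076be03eb7063320.shift 1 2), rh368d5ccc8ae674c1, (rh72297cd55a503360.shift 1 2), (rh73f5f7cdf41b5bc9.shift 1 1)] (by decide +kernel))
noncomputable def rhcfbabc456dc8155c : CRef := CRef.mk (Pat.mk 0xf000000020 0x4000000040000000e7000000fe000001be 8 9) 0 0 (step_sound _ 7 [rhbd805a5534622eb6, (rhe25b0a99195a5d59.shift 4 0)] (by decide +kernel))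
noncomputable def rha959354a207ce83c : CRef := CRef.mk (Pat.mk 0x380000001000000000 0x28000000680000007f0000007e0000001700000004 8 7) 0 0 (step_sound _ 98 [(rh07907c05da2b5ffa.shift 1 0), (rh15b4c7f64ffd8e41.shift 1 2), (rh8b282e61cb6df183.shift 0 1), (rh8c12fdbbddc1e7ab.shift 0 2), (rh92c22b27b7f4eaac.shift 1 0)] (by decide +kernel))
noncomputable def rh2c11f6dacef44778 : CRef := CRef.mk (Pat.mk 0x60000000e00000000 0x600000006000000070000003e0000003f0000000a 8 6) 0 0 (step_sound _ 36 [rhcf270c8e24e69b57, (rhf48373e13d2bc128.shift 1 1)] (by decide +kernel))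
noncomputable def rh653a5a1b6d46e760 : CRef := CRef.mk (Pat.mk 0x30000000700000000000000000000000000000000 0xe0000001f0000001f0000001c0000001c0000001c00000014 8 5) 0 0 (step_sound _ 131 [rh8c3d2bb5df9480cb, (rhf48373e13d2bc128.shift 0 4)] (by decide +kernel))
noncomputable def rh4c15d144922a0c53 : CRef := CRef.mk (Pat.mk 0xc0000001c000000000000000000000000 0xc0000000c0000002e0000007c0000001f000000300000001000000010 8 7) 0 0 (step_sound _ 132 [(rh2e8f173bf2dbea56.shift 1 0), (rha8bcb4927b3d3cd5.shift 0 1), (rhf9d36e158778ce35.shift 1 3)] (by decide +kernel))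
noncomputable def rh8498fdabe7ceb408 : CRef := CRef.mk (Pat.mk 0xe0000001800000000 0x18000000380000003f0000003e0000003800000010 8 6) 0 0 (step_sound _ 68 [rh11dd4107229f0b91, (rhe25b0a99195a5d59.shift 1 1)] (by decide +kernel))
noncomputable def rhcc044f9873f9ea6a : CRef := CRef.mk (Pat.mk 0x1000000018000000300000000000000000 0x80000000f0000007f0000007e000000360000001e0000001c 8 7) 0 0 (step_sound _ 98 [(rhb739f4f82bb681b4.shift 1 2), rhee9281b3cff49349] (by decide +kernel))
noncomputable def rh5919e748360bd3cf : CRef := CRef.mk (Pat.mk 0x80000000c000000180000000000000000 0x1800000018000000ff000000ff000000180000000800000008 8 8) 0 0 (step_sound _ 97 [rh3bc6049692250614, (rhb739f4f82bb681b4.shift 0 2)] (by decide +kernel))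
noncomputable def rh7382bcf3a493b666 : CRef := CRef.mk (Pat.mk 0x800000008000000180000000000000000 0x1c0000003c0000000f000000780000001c0000001c 8 7) 0 0 (step_sound _ 35 [rh427db29ed3838f59, (rhd4b4beefcd67f51e.shift 3 0)] (by decide +kernel))
noncomputable def rh7226b905a9ce90dd : CRef := CRef.mk (Pat.mk 0x8000000080000003800000000 0x1c0000001e00000078000000380000003f00000027 8 7) 0 0 (step_sound _ 34 [(rh1ae4704ae86cb9a8.shift 1 0), rh1efbca428b37b99e, rhee3dc871f54edfde] (by decide +kernel))
noncomputable def rhfa8e94424ccffe52 : CRef := CRef.mk (Pat.mk 0x1800000010000000300000000000000000 0x200000002000000037000000ff000000fe000000780000001000000010 8 8) 0 0 (step_sound _ 133 [(rh17df396e5dfb45c3.shift 0 2), (rh215e11e099257d75.shift 4 1), (rh435fb3ef4ac648b4.shift 3 0)] (by decide +kernel))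
noncomputable def rhde137c82765a9dfa : CRef := CRef.mk (Pat.mk 0x2000000020000000600000000000000000000000000000000 0x10000000300000003000000060000000600000007000000070000000700000004 8 3) 0 0 (step_sound _ 225 [(rh55afc6a59410cf00.shift 1 3), rhb864791e17c8ea44] (by decide +kernel))
noncomputable def rhf20fe48e614cbb07 : CRef := CRef.mk (Pat.mk 0x200000002000000020000000200000000000000000000000000000000 0x40000000700000007000000030000000200000002000000070000000700000005 8 3) 0 0 (step_sound _ 226 [(rh2f68792b6b779e96.shift 1 4), rhdfdec3abc73f8c21] (by decide +kernel))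
noncomputable def rh31c72eb7a4215c81 : CRef := CRef.mk (Pat.mk 0x40000000400000004000000060000000000000000 0xc0000000c0000000e0000000f0000003c0000000e0000000400000004 8 6) 0 0 (step_sound _ 195 [rh152ac9e1681f6f1f, (rhbaefcd01e0a8bca3.shift 2 2)] (by decide +kernel))
noncomputable def rh5d72200df14134d4 : CRef := CRef.mk (Pat.mk 0x80000000800000008000000040000000000000000 0x100000001c0000001c0000000f0000003c0000001c00000008 8 6) 0 0 (step_sound _ 67 [rh15e36513d8f37690, (rh932754581e0f4330.shift 2 1)] (by decide +kernel))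
noncomputable def rh96efd60ea8018344 : CRef := CRef.mk (Pat.mk 0x20000000200000002000000000000000000000000 0x400000007000000070000000700000006000000060000000600000006000000060000000600000004 8 3) 0 0 (step_sound _ 193 [(rh37d2ff33d1233819.shift 1 0), (rh6c59ce14113da07f.shift 1 1), (rha087c6594f4bfb59.shift 0 2), (rhced6d86d2069808b.shift 1 2), (rhee0d91cf1fe02b2a.shift 0 3)] (by decide +kernel))
noncomputable def rh9a8da976d7c183f9 : CRef := CRef.mk (Pat.mk 0x8000000080000000c00000008 0x2000000170000007e0000007f0000000c00000008 8 7) 0 0 (step_sound _ 98 [(rh50fbb5868c909700.shift 2 0), rh7921d04ac80a576d] (by decide +kernel))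
noncomputable def rhbab069099745da53 : CRef := CRef.mk (Pat.mk 0x100000001000000008000000080000000000000000 0x1000000014000001f6000000fc000001ef0000002800000028 8 9) 0 0 (step_sound _ 100 [(rh5c5e593799055d58.shift 3 2), rh88379ad8e84ed341] (by decide +kernel))
noncomputable def rh77ec1c8f72d561e2 : CRef := CRef.mk (Pat.mk 0x40000000c00000006000000000000000000000000 0x80000000a0000003f0000003f0000003e0000003c0000001c00000018 8 6) 0 0 (step_sound _ 132 [(rh18965a982d73c794.shift 1 3), rhb9851ce295bb49f3] (by decide +kernel))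
noncomputable def rh6f556a9d258d2ef4 : CRef := CRef.mk (Pat.mk 0x100000001000000018000000080000000000000000 0x50000001d7000000fe000001ff0000007000000020 8 9) 0 0 (step_sound _ 101 [rh3a847d797f4c2715, (rha9a2a0ffcd796dd3.shift 2 0), (rhc8a05dafab239644.shift 2 0), (rhc9e4cc1d7b554c71.shift 2 0), (rhdc1641106d7e5aa2.shift 2 2)] (by decide +kernel))
noncomputable def rhfe6d1b5dda5f3614 : CRef := CRef.mk (Pat.mk 0x2000000020000000200000001 0x40000000700000007000000070000000600000006000000060000000300000001 8 3) 0 0 (step_sound _ 129 [rh79877ebd3ef475dd, (rhee0d91cf1fe02b2a.shift 0 1)] (by decide +kernel))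
noncomputable def rhfa19824103984e6d : CRef := CRef.mk (Pat.mk 0x100000001000000010000000180000000000000000 0x200000003000000030000003f7000001fe000001e700000040 8 10) 0 0 (step_sound _ 69 [(rh55afc6a59410cf00.shift 4 1), rh91cb8abe732b2594] (by decide +kernel))
noncomputable def rh0fd58fddcf5c4abe : CRef := CRef.mk (Pat.mk 0x1000000010000000100000001800000000 0x1000000010000001fe000000fe000001e7 8 9) 0 0 (step_sound _ 37 [rh4775f7f2a12b7585, (rh55afc6a59410cf00.shift 4 0)] (by decide +kernel))
noncomputable def rhef7121e6f76d4d9b : CRef := CRef.mk (Pat.mk 0x1000000010000000180000001000000000 0x800000018000000380000007f0000007f0000000e 8 7) 0 0 (step_sound _ 35 [rh50ae34eb259fa093, (rh932754581e0f4330.shift 3 0)] (by decide +kernel))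
noncomputable def rh9a07fabe4e103bc4 : CRef := CRef.mk (Pat.mk 0x8000000080000000c00000008 0x140000003f0000007f0000001f00000008 8 7) 0 0 (step_sound _ 98 [(rh50fbb5868c909700.shift 2 0), rhfcf23f3259bf237f] (by decide +kernel))
noncomputable def rhf31f6c48349bf3e2 : CRef := CRef.mk (Pat.mk 0x4000000140000000600000000000000000000000000000000 0xa0000000f0000001c000000360000003e0000003e0000000e0000000c 8 6) 0 0 (step_sound _ 98 [(rh5e93b8f47958f24c.shift 0 2), (rh6c59ce14113da07f.shift 2 1), (rh8cdd36b03d57a2f6.shift 1 1), (rh97592df7d5ebadcd.shift 1 0), (rhc6a797aab18c7913.shift 1 2)] (by decide +kernel))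
noncomputable def rhfd70a5fba487736e : CRef := CRef.mk (Pat.mk 0x1000000010000000180000000800000000 0x280000003c000000f8000000f8000000ff00000077 8 8) 0 0 (step_sound _ 36 [(rh04aa474d63f24212.shift 1 0), (rh1bd0c14c4de1ef4d.shift 2 0), rh1e87bf36e9e60a85, (rh6412c58679f5f5ab.shift 2 0)] (by decide +kernel))
noncomputable def rha5549d95109852ba : CRef := CRef.mk (Pat.mk 0x8000000080000000c00000000000000000000000000000000 0x140000001e0000007f0000003f0000003b0000001e0000001c00000004 8 7) 0 0 (step_sound _ 164 [(rh0bb882ba86b2372d.shift 0 4), (rh1aa43eac5796afc1.shift 0 2), (rh662fb43306e0eaf8.shift 1 0)] (by decide +kernel))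
noncomputable def rh27a1a8d50a30a521 : CRef := CRef.mk (Pat.mk 0x8000000180000000c000000000000000000000000 0x10000000100000007f0000007f0000007c000000760000003600000030 8 7) 0 0 (step_sound _ 133 [(rh18965a982d73c794.shift 2 3), rh5609134fb0483e1c] (by decide +kernel))
noncomputable def rh8caffbd5b632cd00 : CRef := CRef.mk (Pat.mk 0x1000000018000000080000000000000000 0x24000001f6000000fe000001ef0000007c00000068 8 9) 0 0 (step_sound _ 35 [rh36e620be7f641696, (rh71222050f2c63a3a.shift 3 0)] (by decide +kernel))
noncomputable def rh5f9a93944b61b580 : CRef := CRef.mk (Pat.mk 0x4000000040000000600000002000000000 0x40000003f7000003fe000003be00000080 8 10) 0 0 (step_sound _ 68 [(rh39a59a3d6cd6f06a.shift 0 1), (rh42c149c634520fed.shift 3 0), (rha11dfd15f08f96e3.shift 3 2), (rhff7d63dcb3cf9f74.shift 3 2)] (by decide +kernel))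
noncomputable def rh999675b4114ee612 : CRef := CRef.mk (Pat.mk 0x200000002000000020000000300000000 0x600000006000000060000003e0000003f0000000e 8 6) 0 0 (step_sound _ 34 [rh4efedb8ee3578e2d, (rh55afc6a59410cf00.shift 1 0)] (by decide +kernel))
noncomputable def rhdcfe6579d87ef2f9 : CRef := CRef.mk (Pat.mk 0x100000001000000018000000000000000000000000 0x1000000010000003f7000001fe000001f70000002000000020 8 10) 0 0 (step_sound _ 101 [(rh70e33bfdf511e144.shift 4 0), (rh9d07d121614e7677.shift 0 2)] (by decide +kernel))
noncomputable def rh428700a31b36c588 : CRef := CRef.mk (Pat.mk 0x80000000800000004000000000000000000000000 0x140000001c0000001c00000018000000780000001f0000003c0000001c00000010 8 7) 0 0 (step_sound _ 99 [rh154fceed9981c1e0, (rh23aad281f166fc15.shift 1 2), (rh328e0484b9031ea7.shift 1 1), (rh6c03a9ef5fb89cef.shift 2 2)] (by decide +kernel))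
noncomputable def rh76afb5562a81f06c : CRef := CRef.mk (Pat.mk 0x1000000010000000100000001800000000 0x2800000038000000180000007f0000007e00000026 8 7) 0 0 (step_sound _ 37 [(rh55afc6a59410cf00.shift 4 0), rhb06041e9c5ed8b89] (by decide +kernel))
noncomputable def rh5518da451fe03a08 : CRef := CRef.mk (Pat.mk 0x800000008000000080000000c00000000 0x40000000c0000001f0000007f0000001f0000000a 8 7) 0 0 (step_sound _ 130 [(rh50fbb5868c909700.shift 2 1), rh9ac1e713266ebfdb] (by decide +kernel))
noncomputable def rh2cf4337662ce4229 : CRef := CRef.mk (Pat.mk 0x80000000800000004000000000000000000000000 0x140000001c0000001c0000001c000000780000001f0000003c0000001c00000010 8 7) 0 0 (step_sound _ 99 [rh154fceed9981c1e0, (rh328e0484b9031ea7.shift 1 1), (rh6c03a9ef5fb89cef.shift 2 2), (rhbf000823819f4c0d.shift 2 1)] (by decide +kernel))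
noncomputable def rhcf280099010fac39 : CRef := CRef.mk (Pat.mk 0x1000000018000000080000000000000000 0x1000000010000001f7000000fe000001ef0000002000000020 8 9) 0 0 (step_sound _ 164 [(rh5c5e593799055d58.shift 3 2), rh710df1ab1265f71b] (by decide +kernel))
noncomputable def rh05c6e52cb1c7256a : CRef := CRef.mk (Pat.mk 0x1000000018000000080000000800000000 0x28000000fc000001fe000000ef0000007c00000074 8 9) 0 0 (step_sound _ 133 [(rh2106745107ba3877.shift 1 0), rh4a1ca1950814f521, (rh69012675dfdb1a5b.shift 1 3), (rhd69c262cd33b94b3.shift 1 3)] (by decide +kernel))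
noncomputable def rh062a21be4eebf336 : CRef := CRef.mk (Pat.mk 0x1000000018000000080000000000000000 0x1c0000001c0000007c0000000f0000000c0000000c 8 7) 0 0 (step_sound _ 35 [(rh71222050f2c63a3a.shift 3 0), rhde57bc117639fd18] (by decide +kernel))
noncomputable def rh97848e939a7fa8db : CRef := CRef.mk (Pat.mk 0x2000000030000000100000001000000000 0x180000001800000058000001f8000001ff000000fe0000003c00000028 8 9) 0 0 (step_sound _ 99 [(rh5dec5e73a267a1c4.shift 1 2), (rh8b1418178e24a6e7.shift 1 0), (rha11dfd15f08f96e3.shift 2 3), rhbba20d836cb32786] (by decide +kernel))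
noncomputable def rh3a22c3df8b81ab69 : CRef := CRef.mk (Pat.mk 0x1000000010000000180000000800000000 0x2c0000003e000000fc0000001e0000001f00000012 8 8) 0 0 (step_sound _ 101 [(rh0bb882ba86b2372d.shift 1 2), (rh4d09c900b3d61f5e.shift 1 0), rh68d5266fa8e6f369, (rha8c3c3974f50027b.shift 1 0)] (by decide +kernel))
noncomputable def rh5ab5abd478e2ef5f : CRef := CRef.mk (Pat.mk 0x1000000018000000080000000800000000 0x80000000c0000000c0000001c0000007c0000001f0000007c00000074 8 7) 0 0 (step_sound _ 66 [(rh69012675dfdb1a5b.shift 0 2), rhca67061d93778944, (rhf01e9ef3b7e9583c.shift 2 0)] (by decide +kernel))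
noncomputable def rh37d08dc270f914cd : CRef := CRef.mk (Pat.mk 0x80000000800000004000000000000000000000000 0x140000001c0000001f000000380000007c0000001f0000003c0000001c00000010 8 7) 0 0 (step_sound _ 99 [rh154fceed9981c1e0, (rh671d29fe00096fb4.shift 0 2), (rhee179f52d21ca1dd.shift 2 2)] (by decide +kernel))
noncomputable def rhc75b0732c84ff08c : CRef := CRef.mk (Pat.mk 0x400000004000000040000000400000000 0x7a0000007e000000ef000000040000000400000004 8 8) 0 0 (step_sound _ 131 [(rh2f68792b6b779e96.shift 2 1), rh8ad0dba9b1643004] (by decide +kernel))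
noncomputable def rh98b33b038c403c93 : CRef := CRef.mk (Pat.mk 0x1000000010000000180000000000000000 0x2800000078000000fe0000007e0000001f0000001c 8 8) 0 0 (step_sound _ 36 [(rh2ad4304994e985b6.shift 1 0), rh520a12e6c4a32389, (rh5ee4dc8825dcefa0.shift 1 0), (rhe9722138ff9c2614.shift 1 0)] (by decide +kernel))
noncomputable def rhf3b516d50f167149 : CRef := CRef.mk (Pat.mk 0x100000003000000018000000000000000000000000 0xc0000000c000000fc000000ff000000f8000000e00000006000000060 8 8) 0 0 (step_sound _ 134 [(rh18965a982d73c794.shift 3 3), rhea774e22133b45b2] (by decide +kernel))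
noncomputable def rh7d96e679f34befbe : CRef := CRef.mk (Pat.mk 0x1000000018000000080000000800000000 0x1000000010000001f0000000fe000001ef0000007c00000020 8 9) 0 0 (step_sound _ 164 [(rh5c5e593799055d58.shift 3 2), rh9ff4ae179b7cc8c4] (by decide +kernel))
noncomputable def rhdeee2e6ce0b0e37f : CRef := CRef.mk (Pat.mk 0x1000000018000000080000000800000000 0x80000000c0000000c0000003c0000007c0000006f0000007c00000034 8 7) 0 0 (step_sound _ 66 [(rh17b9f8808b5cd482.shift 2 0), rh28e9fe23c942a918, rh3025cef6e824cbb8, (rhd69c262cd33b94b3.shift 0 2)] (by decide +kernel))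
noncomputable def rh8dc22b2d43c4b91d : CRef := CRef.mk (Pat.mk 0x8000000080000000c00000008000000000000000000000000 0x10000000180000000c0000003f0000001f000000170000000200000002 8 6) 0 0 (step_sound _ 98 [(rh932754581e0f4330.shift 2 2), rhbdea224b79f319d8] (by decide +kernel))
noncomputable def rh3494f2f80e71dc79 : CRef := CRef.mk (Pat.mk 0x1000000018000000080000000800000000 0x80000000a0000002a000000ff0000003f0000007f0000003e00000034 8 8) 0 0 (step_sound _ 98 [rh1f2f75b9bb3e36d2, (rha11dfd15f08f96e3.shift 1 3), rhea7b480a7b06e535] (by decide +kernel))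
noncomputable def rh37dd707aa716e928 : CRef := CRef.mk (Pat.mk 0x2000000030000000100000001000000000 0x180000001800000058000000f70000007e000000ff0000007c00000028 8 8) 0 0 (step_sound _ 99 [(rh5dec5e73a267a1c4.shift 1 2), (rh7f0f728c796044ac.shift 0 2), (rh8b1418178e24a6e7.shift 1 0), rh8fe99ce312604477] (by decide +kernel))
noncomputable def rhf4c5563327d46062 : CRef := CRef.mk (Pat.mk 0x1000000018000000080000000800000000 0x2000000020000000f0000003f0000007f0000000f0000000c00000004 8 7) 0 0 (step_sound _ 131 [rh7efff25179d37ffa, (rhcf85c92937975d4d.shift 1 1), (rhffb1f2cfe3a9c803.shift 0 1)] (by decide +kernel))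
noncomputable def rhb19df9cb4cba100e : CRef := CRef.mk (Pat.mk 0x2000000030000000100000000000000000 0x800000008000003ee000001fe000001ff0000001000000010 8 10) 0 0 (step_sound _ 36 [(rh71222050f2c63a3a.shift 4 0), (rhe8154e2f3643f8cb.shift 0 1)] (by decide +kernel))
noncomputable def rh6f73a6047ec14f23 : CRef := CRef.mk (Pat.mk 0x80000000c000000040000000400000000 0x6000000ef0000007c0000003e0000000f0000000a 8 8) 0 0 (step_sound _ 100 [rh04d9d60f04554b8a, rh6b331630ad304f77, (rhbc3a283c92990595.shift 1 2), (rhdc1641106d7e5aa2.shift 1 2)] (by decide +kernel))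
noncomputable def rh6420f7ced926d9cb : CRef := CRef.mk (Pat.mk 0x20000000300000001800000000 0x1c0000001e000000fc000000ff000000f800000008 8 8) 0 0 (step_sound _ 70 [(rh18965a982d73c794.shift 3 1), rhcf3477a269724c32] (by decide +kernel))
noncomputable def rh0cddef9ee1cb0510 : CRef := CRef.mk (Pat.mk 0x1000000018000000080000000800000000 0xa0000000a0000002f0000007f0000001f0000003c0000001c00000014 8 7) 0 0 (step_sound _ 98 [(rh1adc568348349b2f.shift 0 1), (rh5dec5e73a267a1c4.shift 0 2), rheed6bc73fabfea56, rhfac64882f8263252] (by decide +kernel))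
noncomputable def rha643e1e6e5f2e950 : CRef := CRef.mk (Pat.mk 0x1000000018000000080000000000000000 0x1000000014000001f7000000fe000001ef0000002800000028 8 9) 0 0 (step_sound _ 164 [rh40ae978c6deadec8, (rh5c5e593799055d58.shift 3 2)] (by decide +kernel))
noncomputable def rhbd015a01d7723d92 : CRef := CRef.mk (Pat.mk 0x1000000018000000080000000800000000 0x60000000f0000003f0000007f0000000f0000000c00000004 8 7) 0 0 (step_sound _ 66 [(rhd69c262cd33b94b3.shift 0 2), rheebbe9cf7107d80d, (rhef1fef9b2fe09d8c.shift 1 0)] (by decide +kernel))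
noncomputable def rhc533730e36272ef6 : CRef := CRef.mk (Pat.mk 0x1000000010000000180000000800000000 0xe0000003e000000ff000000fe0000000f00000006 8 8) 0 0 (step_sound _ 101 [rh09bb80eea5cd7b1b, (rh0bb882ba86b2372d.shift 1 2), (rh574fdbf07bdd18b9.shift 1 2), rhae8e8cecac20fb9e] (by decide +kernel))
noncomputable def rhf6d0dc91d9d2cd29 : CRef := CRef.mk (Pat.mk 0x8000000180000000c00000000000000000000000000000000 0x160000001f0000001b0000001f0000001c0000001c0000001800000018 8 5) 0 0 (step_sound _ 129 [(rh53b3c253cb0c65f4.shift 0 4), rhc2d8007580f6ebdf] (by decide +kernel))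
noncomputable def rh97254faed1157909 : CRef := CRef.mk (Pat.mk 0x8000000080000000c000000000000000000000000 0x140000001c0000001c0000001f000000780000001f000000080000000800000008 8 7) 0 0 (step_sound _ 132 [(rh574fdbf07bdd18b9.shift 0 3), (rhaba50f5f0dc791b7.shift 0 2), rhbd3c97c9c3e224b9] (by decide +kernel))
noncomputable def rh119cfe45decc468f : CRef := CRef.mk (Pat.mk 0x8000000080000000c0000000000000000 0x160000001f0000007e0000001f0000000c0000000c 8 7) 0 0 (step_sound _ 100 [(rh00bf03c298320d59.shift 1 0), (rh0bb882ba86b2372d.shift 0 2), rh30524ef390eb060a, (rh574fdbf07bdd18b9.shift 0 2)] (by decide +kernel))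
noncomputable def rh329f69f0defaa58a : CRef := CRef.mk (Pat.mk 0x1c000000060000000000000000 0x1e0000001f0000007f0000001c0000000e0000000e00000006 8 7) 0 0 (step_sound _ 131 [(rhadf429772c25fde0.shift 2 0), (rhaeccb00c108eb3a5.shift 0 1), rhbe253d1426d5780c] (by decide +kernel))
noncomputable def rhfc46b479041ce0b6 : CRef := CRef.mk (Pat.mk 0x180000000e000000000000000000000000 0xa0000000f0000001f000000fe0000007c0000001400000004 8 8) 0 0 (step_sound _ 66 [rh603840ea6bc76243, (rhcf80391c5046a495.shift 2 0), (rhf2946fb63d238d89.shift 0 1)] (by decide +kernel))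
noncomputable def rhfd3b0c7acb4c3da1 : CRef := CRef.mk (Pat.mk 0x1c000000060000000000000000 0x1e0000001f0000003f0000001c0000007e0000007700000006 8 7) 0 0 (step_sound _ 131 [(rhadf429772c25fde0.shift 2 0), (rhb735eabf0fdddb4f.shift 0 1), rhbe253d1426d5780c] (by decide +kernel))
noncomputable def rhd5ad80df2e685219 : CRef := CRef.mk (Pat.mk 0x300000001c000000000000000000000000 0x2c0000007e0000007f0000003f0000001c0000001f0000000e0000000c 8 7) 0 0 (step_sound _ 67 [rh17d4d6abcdf5f71d, (rhc3c1b8028b47d062.shift 0 1), (rhcf80391c5046a495.shift 3 0), (rhf9366b6a121593ef.shift 3 0)] (by decide +kernel))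
noncomputable def rh24d0829e714ac454 : CRef := CRef.mk (Pat.mk 0x380000000c000000000000000000000000 0x40000001c0000003e0000006f0000003e0000007c000000160000001600000006 8 7) 0 0 (step_sound _ 195 [(rh1507673aaa3ee9f0.shift 2 2), (rh757fbf401f24c2d9.shift 1 1), (rhde5d299241f8fc78.shift 1 0), (rhf8c0f5c84126ea71.shift 0 2)] (by decide +kernel))
noncomputable def rh4b5f47663c251117 : CRef := CRef.mk (Pat.mk 0x300000001c000000000000000000000000 0x380000003c000000fe0000003f0000007c0000005e0000001800000008 8 8) 0 0 (step_sound _ 165 [rh2f4234d5106b2c3c, (rh427ea880d2d8aa38.shift 1 2), (rhf9366b6a121593ef.shift 4 1)] (by decide +kernel))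
noncomputable def rh3a4f0393967410cd : CRef := CRef.mk (Pat.mk 0x60000000380000000000000000 0xc0000000f0000000fe0000007f000003f8000001ec00000068 8 10) 0 0 (step_sound _ 134 [rh80fe703a1afc3ef6, (rhbc1a9e3f9f592954.shift 2 0), (rhf9366b6a121593ef.shift 5 0)] (by decide +kernel))
noncomputable def rhfbaa94218b087b89 : CRef := CRef.mk (Pat.mk 0x180000000c000000000000000000000000 0x140000001c0000001e0000007f0000001a0000000f0000003e0000001c00000004 8 7) 0 0 (step_sound _ 97 [rh52834166ddb9d13a, (rh53b3c253cb0c65f4.shift 0 3)] (by decide +kernel))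
end Crest.Agent.S0047.Helper85.Cert
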