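import Crest.Agent.Lib.S0047.Helper85CertPL7F0
import Crest.Agent.Lib.S0047.Helper85CertPL7F1
import Crest.Agent.Lib.S0047.Helper85CertPL7F2
import Crest.Agent.Lib.S0047.Helper85CertPL7F3
import Crest.Agent.Lib.S0047.Helper85CertPL7F4
import Crest.Agent.Lib.S0047.Helper85CertPL7F5
import Crest.Agent.Lib.S0047.Helper85CertPL7F6
import Crest.Agent.Lib.S0047.Helper85CertPL7F7
import Crest.Agent.Lib.S0047.Helper85CertPL7F8
import Crest.Agent.Lib.S0047.Helper85CertPL7F9
import Crest.Agent.Lib.S0047.Helper85CertPL7F10
import Crest.Agent.Lib.S0047.Helper85CertPL7F11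
set_option autoImplicit false
set_option linter.all false
set_option Elab.async false
namespace Crest.Agent.S0047.Helper85.Cert
open Crest.Agent.S0047.Helper85

noncomputable def rh2e2429fe8d16ba5f : CRef := CRef.mk (Pat.mk 0x1c000000060000000000000000 0x1e0000001f0000003f0000001c0000007e0000007700000006 8 7) 0 0 (step_sound _ 131 [(rh4821dcf828b9d7bf.shift 2 0), (rhadf429772c25fde0.shift 2 0), (rhb735eabf0fdddb4f.shift 0 1), rhbe253d1426d5780c] (by decide +kernel))
noncomputable def rhf23af1b0a9b7574a : CRef := CRef.mk (Pat.mk 0x300000001c000000000000000000000000 0x1c0000001c0000003e0000007c0000006f0000003c0000003c 8 7) 0 0 (step_sound _ 35 [(rh00d6a6e3c7e3bb40.shift 3 0), (rh5ca4d6a5ab2c72f2.shift 1 0), rhf4ff20018be44b95, (rhf6564cf8b9efcf20.shift 1 0)] (by decide +kernel))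
noncomputable def rh0b02c0a80e793625 : CRef := CRef.mk (Pat.mk 0x380000000c000000000000000000000000 0x1c0000001e0000007c0000003f0000007c0000007e0000000e00000004 8 7) 0 0 (step_sound _ 163 [(rh281c6819542c66e6.shift 2 0), (rh483f1b12827519b0.shift 0 2), (rh8746a184b143207a.shift 0 1)] (by decide +kernel))
noncomputable def rh26d923583339e5e7 : CRef := CRef.mk (Pat.mk 0x70000000180000000000000000 0x8000000380000003800000070000000f70000007f000000f80000007c00000028 8 8) 0 0 (step_sound _ 132 [rh806999bca8c417cb, (rhb2d999c672507e3f.shift 3 1), (rhcd32f2ed6c1181e7.shift 3 1), (rhd310ed859de71a1d.shift 2 1)] (by decide +kernel))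
noncomputable def rh60a7f8654fd0a2d1 : CRef := CRef.mk (Pat.mk 0x380000000c00000000000000000000000000000000 0x1c0000003c0000000f0000003e0000007c0000001e0000001c0000001800000008 8 7) 0 0 (step_sound _ 195 [(rh5cccfffbf6e50c0f.shift 0 3), (rh8a617a51db180536.shift 0 3), (rhcd32f2ed6c1181e7.shift 2 3), (rhd6530801147192fd.shift 1 0)] (by decide +kernel))
noncomputable def rhdf50a46af6161dca : CRef := CRef.mk (Pat.mk 0x180000000c00000000 0x40000001c0000001e0000001e0000007f0000007f0000007c00000004 8 7) 0 0 (step_sound _ 69 [(rh18965a982d73c794.shift 2 1), rh29cad576b481bdfd] (by decide +kernel))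
noncomputable def rhe4b89c7af62676ee : CRef := CRef.mk (Pat.mk 0x1c00000006000000000000000000000000 0xe0000000e0000003f0000001f00000006000000070000000700000003 8 6) 0 0 (step_sound _ 129 [rh205bbac36a8896ec, (rh206d61528605a692.shift 0 1), (rh38a0850c9fea941e.shift 0 1)] (by decide +kernel))
noncomputable def rhc3f10d7e4070e48a : CRef := CRef.mk (Pat.mk 0x8000000180000000c000000000000000000000000 0x160000003f0000001f0000000c0000001c0000001c00000010 8 6) 0 0 (step_sound _ 67 [(rh211ee5040a2c84df.shift 0 1), (rh44e05cc68d72e3a4.shift 2 0), (rha707fb719e87fe6e.shift 3 1)] (by decide +kernel))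
noncomputable def rh0ee73126037644c5 : CRef := CRef.mk (Pat.mk 0x180000000c0000000000000000 0x40000001c0000001c0000001c0000003f0000007f0000007c0000000c00000008 8 7) 0 0 (step_sound _ 101 [(rh18965a982d73c794.shift 2 2), rhd349b83eb7292102] (by decide +kernel))
noncomputable def rh42f84f51dc54ec89 : CRef := CRef.mk (Pat.mk 0x180000000c00000000000000000000000000000000 0x100000001c0000001e000000780000000f0000007c0000001c0000001c00000014 8 7) 0 0 (step_sound _ 129 [(rh10c5c87afc2de391.shift 1 0), (rh53b3c253cb0c65f4.shift 0 4)] (by decide +kernel))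
noncomputable def rhdb0aa7c884ea1ab5 : CRef := CRef.mk (Pat.mk 0x180000000c0000000000000000000000000000000000000000 0xc0000001f0000007c0000000c0000000c0000000c0000001c0000001c00000010 8 7) 0 0 (step_sound _ 197 [(rh18965a982d73c794.shift 2 5), rhd13bef020f4b9915] (by decide +kernel))
noncomputable def rhdf2c28ef9950eae2 : CRef := CRef.mk (Pat.mk 0x100000000e0000000000000000 0x38000000380000001f0000003e0000007f00000018 8 7) 0 0 (step_sound _ 68 [(rh06db8ceda6269a47.shift 0 1), rh3e0a326481932a17, (rh5f7b3bfbaf903d4f.shift 0 1)] (by decide +kernel))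
noncomputable def rhdfce143c063d3ea7 : CRef := CRef.mk (Pat.mk 0x180000000e00000000000000000000000000000000 0x100000001c0000001c0000000e0000001f0000001e0000000e0000007c000000180000001800000010 8 7) 0 0 (step_sound _ 99 [(rh000637b5a81e86aa.shift 2 1), (rh3f069944e50c0cbf.shift 1 0), (rh679f8e4f917fabdd.shift 0 2)] (by decide +kernel))
noncomputable def rh7f2fdf70e71acd18 : CRef := CRef.mk (Pat.mk 0x1c00000006000000000000000000000000 0x6000000060000000f0000001f0000003e0000003e0000001c00000018 8 6) 0 0 (step_sound _ 162 [(rh022821774a7636d3.shift 1 0), (rhcd32f2ed6c1181e7.shift 1 2), rheb93c92740c49ccb] (by decide +kernel))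
noncomputable def rh691da253a7402ec8 : CRef := CRef.mk (Pat.mk 0x1c000000060000000000000000 0x1e0000001f0000007f0000001c0000000e0000000e0000000c 8 7) 0 0 (step_sound _ 131 [(rh4821dcf828b9d7bf.shift 2 0), rh8989e259dcfcecc2, (rhadf429772c25fde0.shift 2 0), (rhaeccb00c108eb3a5.shift 0 1)] (by decide +kernel))
noncomputable def rhaf79d87c23aa0075 : CRef := CRef.mk (Pat.mk 0x180000000e0000000000000000000000000000000000000000 0x1c0000001c0000001f0000001f0000001f0000001e0000001c000000180000001c0000000c00000004 8 5) 0 0 (step_sound _ 131 [(rh000637b5a81e86aa.shift 2 2), (rh112ce36214cd269d.shift 2 0), (rh7ef6d2a804ad4342.shift 0 3)] (by decide +kernel))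
noncomputable def rhd883b4eff9a749a9 : CRef := CRef.mk (Pat.mk 0x180000000e000000000000000000000000 0x200000016000000370000001f000000fe0000007f0000007a00000018 8 8) 0 0 (step_sound _ 67 [(rh000637b5a81e86aa.shift 2 0), rh53fe569e573a274d, (rhbb09337fdcb38f76.shift 1 0), (rhd18b1fdd2bf4a298.shift 0 1)] (by decide +kernel))
noncomputable def rhb4dc6d1f7f8dd9cb : CRef := CRef.mk (Pat.mk 0x1c00000006000000000000000000000000 0x80000001a0000003b0000001f0000003e0000000f0000000c00000004 8 6) 0 0 (step_sound _ 66 [(rh000637b5a81e86aa.shift 1 0), (rh7198c35631d94523.shift 0 1), (rhb730ba14aa32bdb3.shift 2 1)] (by decide +kernel))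
noncomputable def rhbf11ad7c05f2a9d4 : CRef := CRef.mk (Pat.mk 0x1c00000006000000000000000000000000 0x1c0000001e0000007f0000001c0000007e0000007c0000001c00000008 8 7) 0 0 (step_sound _ 163 [(rh215571d996889550.shift 0 1), (rh4821dcf828b9d7bf.shift 2 1), (rh6e6312382c15512c.shift 1 0), (rha5baf8521d23b420.shift 2 0)] (by decide +kernel))
noncomputable def rha53b4479dfe206a7 : CRef := CRef.mk (Pat.mk 0x180000000e0000000000000000 0x300000003c0000003c0000001f000000fe0000007b0000001a 8 8) 0 0 (step_sound _ 132 [rh2281b9e5b05d47a6, rhbc1a9e3f9f592954, (rhf9366b6a121593ef.shift 3 0)] (by decide +kernel))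
noncomputable def rh6508e2c70977cc70 : CRef := CRef.mk (Pat.mk 0x1c000000060000000000000000 0x40000001e0000001f0000003f0000001c0000007e0000007700000004 8 7) 0 0 (step_sound _ 131 [(rh4821dcf828b9d7bf.shift 2 0), rh854957573d0342b1, (rhb735eabf0fdddb4f.shift 0 1), (rhcf80391c5046a495.shift 2 0)] (by decide +kernel))
noncomputable def rhc346ca966a41ac3e : CRef := CRef.mk (Pat.mk 0x180000000e0000000000000000 0x80000001c0000001f0000003f0000001f0000003e0000002f0000000a 8 6) 0 0 (step_sound _ 132 [rhbd24b98d40af60af, rhd4806d82162f2761, (rhf9366b6a121593ef.shift 3 0)] (by decide +kernel))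
noncomputable def rhfa22f9d37c8a6d56 : CRef := CRef.mk (Pat.mk 0x1c000000060000000000000000 0xe0000000f0000003f0000001f000000060000000600000004 8 6) 0 0 (step_sound _ 97 [(rh1aded9edf2cf7032.shift 0 1), rh206d61528605a692, rh38a0850c9fea941e] (by decide +kernel))
noncomputable def rh0ceedd01d6066974 : CRef := CRef.mk (Pat.mk 0x180000000e000000000000000000000000 0x120000001e0000003e0000000f0000001e0000000e0000007e0000001800000010 8 7) 0 0 (step_sound _ 163 [(rh5cccfffbf6e50c0f.shift 0 2), rh6a47cdba2b377be8, (rh76032400c82475e9.shift 0 2), (rh7a7e08304268422e.shift 2 2)] (by decide +kernel))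
noncomputable def rh196091e548e840f2 : CRef := CRef.mk (Pat.mk 0x380000000c000000000000000000000000 0x1c0000003c0000000f0000003f0000007c0000007c0000003800000030 8 7) 0 0 (step_sound _ 163 [(rh5cccfffbf6e50c0f.shift 0 2), rh8ad58e4830a5af4f, (rhcd32f2ed6c1181e7.shift 2 2)] (by decide +kernel))
noncomputable def rh67d377f312b870c0 : CRef := CRef.mk (Pat.mk 0x180000000c0000000000000000000000000000000000000000 0x140000001c0000001c000000180000000f0000007c000000180000001c0000001c00000004 8 7) 0 0 (step_sound _ 161 [(rh53b3c253cb0c65f4.shift 0 5), (rhfba2e5dc3588605a.shift 1 0)] (by decide +kernel))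
noncomputable def rh30dd8fbcef1f7c4c : CRef := CRef.mk (Pat.mk 0xe000000030000000000000000000000000000000000000000 0x700000007000000070000000e0000000f0000001f0000000e000000070000000300000001 8 5) 0 0 (step_sound _ 129 [(rh215e11e099257d75.shift 1 3), (rh4fc2d8e521c3bd53.shift 0 3), rh8ab8c3b1dfb87d77, (rhb730ba14aa32bdb3.shift 1 3)] (by decide +kernel))
noncomputable def rh171527978d830a20 : CRef := CRef.mk (Pat.mk 0x380000000c000000000000000000000000 0x40000001c0000001e0000001e0000007f0000003f0000007c000000740000003000000030 8 7) 0 0 (step_sound _ 163 [(rhb2d999c672507e3f.shift 2 2), rhb77aff98ba940b5a, (rhcd32f2ed6c1181e7.shift 2 2)] (by decide +kernel))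
noncomputable def rh56d642958c983090 : CRef := CRef.mk (Pat.mk 0x180000000c0000000000000000 0x10000000180000001c0000000c0000001f0000003f0000003700000012 8 6) 0 0 (step_sound _ 65 [(rh53b3c253cb0c65f4.shift 0 2), rh63ebd70aa2d21d60] (by decide +kernel))
noncomputable def rh6418ff69e128d49f : CRef := CRef.mk (Pat.mk 0x1c00000006000000000000000000000000 0xa0000000e0000001e0000003e0000001f0000003e0000003f0000001c00000004 8 6) 0 0 (step_sound _ 66 [(rh215e11e099257d75.shift 2 1), rh9836c024ac3cbedb, (rhc2e74f46d40f24ab.shift 1 1)] (by decide +kernel))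
noncomputable def rh9ae7ce441a383001 : CRef := CRef.mk (Pat.mk 0x70000000180000000000000000000000000000000000000000 0x8000000380000003800000030000000ff0000007f00000078000000f800000070000000380000001800000008 8 8) 0 0 (step_sound _ 228 [(rh1679cccaa3d4ebe3.shift 0 2), (rhcd32f2ed6c1181e7.shift 3 4), (rheb31752aef35e3d3.shift 3 0)] (by decide +kernel))
noncomputable def rh5acd827c14c9e224 : CRef := CRef.mk (Pat.mk 0x70000000180000000000000000000000000000000000000000 0x20000000380000003c000000f70000007f00000078000000f800000070000000380000001800000008 8 8) 0 0 (step_sound _ 228 [(rh24b495f5624e440c.shift 0 4), (rhcd32f2ed6c1181e7.shift 3 4), (rheb31752aef35e3d3.shift 3 0)] (by decide +kernel))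
noncomputable def rh0ee7936b0cc327df : CRef := CRef.mk (Pat.mk 0x300000001800000000 0x1c0000001c000000fe000000ff0000007800000028 8 8) 0 0 (step_sound _ 70 [(rh18965a982d73c794.shift 3 1), rh3317842dbf93ac21] (by decide +kernel))
noncomputable def rh7998faab90295511 : CRef := CRef.mk (Pat.mk 0x1c00000006000000000000000000000000 0x1e0000001f0000003f0000001c0000007e0000007f0000001c00000008 8 7) 0 0 (step_sound _ 163 [(rh4821dcf828b9d7bf.shift 2 1), (rh756b229a02b37c88.shift 0 1), (rha5baf8521d23b420.shift 2 0), (rhb735eabf0fdddb4f.shift 0 2)] (by decide +kernel))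
noncomputable def rh3361bc9a2eace581 : CRef := CRef.mk (Pat.mk 0x180000000c0000000800000000 0xe0000001f0000003f0000001f0000001c0000001c00000010 8 6) 0 0 (step_sound _ 131 [(rh5abfc4c9d959be03.shift 2 0), (rhbb339bb7e4e96b38.shift 2 1), (rhde5a89fad2dc3bfa.shift 0 1)] (by decide +kernel))
noncomputable def rh9afc378c5309a9ff : CRef := CRef.mk (Pat.mk 0x100000001c0000000000000000 0x2800000038000000380000001000000017000000ff000000fc00000028 8 8) 0 0 (step_sound _ 132 [(rh32431e66bbf434a4.shift 3 1), rh8a521bccc06c533e, (rhd661abf8252fdf90.shift 1 0), rhef209412714860a0] (by decide +kernel))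
noncomputable def rhb0da38cac4fca944 : CRef := CRef.mk (Pat.mk 0x80000000e000000000000000000000000 0x140000001c0000001c0000001c000000380000003e0000003f0000001400000004 8 6) 0 0 (step_sound _ 163 [(rh32431e66bbf434a4.shift 2 2), (rh3322b3af2ef2f62f.shift 1 1), rh5a968ae521234cd9] (by decide +kernel))
noncomputable def rh7867e231ab392173 : CRef := CRef.mk (Pat.mk 0x380000000c0000000000000000000000000000000000000000 0x10000000140000001e000000380000000f0000007c000000180000001c0000001c00000004 8 7) 0 0 (step_sound _ 161 [(rh0eb4af2c02bb0b33.shift 1 0), (rh53b3c253cb0c65f4.shift 0 5)] (by decide +kernel))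
noncomputable def rh054ed873e1c3db8f : CRef := CRef.mk (Pat.mk 0x70000000180000000000000000 0x380000003c000000fe0000007f000000d8000000f000000070 8 8) 0 0 (step_sound _ 133 [(rh41a6a629ed68db5c.shift 2 0), (rh4821dcf828b9d7bf.shift 4 0), (rhd51f3b3caa1766a7.shift 0 2)] (by decide +kernel))
noncomputable def rh4f1684d9e3dbee38 : CRef := CRef.mk (Pat.mk 0x180000000e00000000000000000000000000000000 0x80000000c0000001f0000001f0000001f0000000e0000007c000000180000001800000010 8 7) 0 0 (step_sound _ 99 [(rh000637b5a81e86aa.shift 2 1), (rh3f069944e50c0cbf.shift 1 0), (rh7be56a6200482899.shift 0 2)] (by decide +kernel))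
noncomputable def rh45960694febdb9b8 : CRef := CRef.mk (Pat.mk 0xc000000060000000000000000 0x8000000080000003f0000003f000000070000000400000004 8 6) 0 0 (step_sound _ 100 [(rh18965a982d73c794.shift 1 2), rh57d7be9962961da5] (by decide +kernel))
noncomputable def rh181f6fea8d0159b4 : CRef := CRef.mk (Pat.mk 0x20000000300000001000000010 0x8000000080000076f000003fe000001ff00000010 8 11) 0 0 (step_sound _ 67 [rh17cc9de06e10e505, (rh5dec5e73a267a1c4.shift 1 1), (rhb12ffaec36122c99.shift 0 1), (rhc5700c7af871fcc0.shift 2 0)] (by decide +kernel))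
noncomputable def rhccca5c35f148c981 : CRef := CRef.mk (Pat.mk 0x8000000080000000c0000000400000000 0x140000001c0000001c0000007e0000007f0000003a 8 7) 0 0 (step_sound _ 35 [rh04aa474d63f24212, (rh6412c58679f5f5ab.shift 1 0), (rh9688f1ad5c9f5013.shift 1 0)] (by decide +kernel))
noncomputable def rh9f84a80646631bd0 : CRef := CRef.mk (Pat.mk 0x100000001800000008000000080000000000000000 0x700000007e000000ff0000007f0000003000000030 8 8) 0 0 (step_sound _ 98 [(rh0bb882ba86b2372d.shift 0 3), rh151b1c4aa50ee52c, (rh878dc6d02bbc5ae1.shift 1 1), rh9a748256ca6b18ca] (by decide +kernel))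
noncomputable def rh4667e711860e7283 : CRef := CRef.mk (Pat.mk 0x80000000c0000000400000000 0x1e0000003f0000003f0000000f0000003c00000010 8 6) 0 0 (step_sound _ 131 [rh19d1ceefbb82180f, (rh5c5e593799055d58.shift 2 1)] (by decide +kernel))
noncomputable def rhdef1d6e3b57748d2 : CRef := CRef.mk (Pat.mk 0x1000000018000000080000000800000000 0xec000000ff0000007f0000000f0000000c00000004 8 8) 0 0 (step_sound _ 131 [rh7efff25179d37ffa, (rh92645babed6d6d29.shift 0 1), (rhcf85c92937975d4d.shift 1 1)] (by decide +kernel))
noncomputable def rh427ab52cc3fa83e6 : CRef := CRef.mk (Pat.mk 0x8000000080000000c0000000400000000 0x6000000160000007e0000007c0000007f0000007700000032 8 7) 0 0 (step_sound _ 100 [(rh06e1ce0a4f66cb8c.shift 1 0), (rh0bb882ba86b2372d.shift 0 2), rh82c32eec533ffa4c] (by decide +kernel))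
noncomputable def rh5b6bc401ba7a5d61 : CRef := CRef.mk (Pat.mk 0x2000000030000000100000001000000000 0x40000000c0000001f7000001fe000003fe000000f800000060 8 10) 0 0 (step_sound _ 102 [rh01d1663f36a1afd5, (rh04048a4a2acf2c94.shift 3 2), (rh2820ca9a6c4f41b4.shift 1 2), (rh3c0612130f5b9ee6.shift 2 0)] (by decide +kernel))
noncomputable def rh7eec423674b95298 : CRef := CRef.mk (Pat.mk 0x180000000c0000000800000000 0x1c0000003c0000001f0000001f0000003b00000012 8 6) 0 0 (step_sound _ 65 [(rh53b3c253cb0c65f4.shift 0 2), rhba38e277003d3d30] (by decide +kernel))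
noncomputable def rhb9fb3b586288ba32 : CRef := CRef.mk (Pat.mk 0x30000000180000001000000000 0x8000000ef000000ff000000f8000000f000000060 8 8) 0 0 (step_sound _ 102 [(rh18965a982d73c794.shift 3 2), rhebef158356850d2b] (by decide +kernel))
noncomputable def rh1040b46e59f3d807 : CRef := CRef.mk (Pat.mk 0x100000000800000008000000000000000000000000 0x1c0000001f0000007e000000780000001f0000003c0000001c00000014 8 7) 0 0 (step_sound _ 163 [(rh274a837cd7eaa569.shift 2 0), (rh3820f35d5e705bec.shift 3 0), (rh3dafd5a7733ff616.shift 0 2), (rh93132d5d08907e33.shift 1 0), (rhd6080db46f223ae4.shift 0 1)] (by decide +kernel))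
noncomputable def rh8b65982d411924df : CRef := CRef.mk (Pat.mk 0x180000000c0000000800000000 0xc0000001e0000001f0000001f0000001f0000000c00000004 8 5) 0 0 (step_sound _ 65 [rh4ea98ba0f1316f3e, (rh53b3c253cb0c65f4.shift 0 2)] (by decide +kernel))
noncomputable def rhb2c94df29f612faf : CRef := CRef.mk (Pat.mk 0x3000000010000000100000000000000000 0x38f000001ff000003fe000000100000001000000010 8 10) 0 0 (step_sound _ 134 [(rh2820ca9a6c4f41b4.shift 1 3), rhc76cff7a47b8d53e, (rhc7b627fc1fce0ce6.shift 2 1), (rhdc1641106d7e5aa2.shift 3 3)] (by decide +kernel))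
noncomputable def rh17a501b38e7ecd48 : CRef := CRef.mk (Pat.mk 0x6000000020000000200000002000000000 0x39e000001fe000003bf000000300000003000000010 8 10) 0 0 (step_sound _ 132 [(rh50fbb5868c909700.shift 4 1), rh992a279d675249dc] (by decide +kernel))
noncomputable def rhff71abaeb6008588 : CRef := CRef.mk (Pat.mk 0x800000008000000080000000800000000 0x40000000c00000008000000ff0000007e000000f4 8 8) 0 0 (step_sound _ 130 [(rh50fbb5868c909700.shift 2 1), rhe881977283b50b1c] (by decide +kernel))
noncomputable def rhb5df26e0716d136a : CRef := CRef.mk (Pat.mk 0x180000000c000000080000000000000000 0x1f0000007f0000007f0000003000000030 8 7) 0 0 (step_sound _ 97 [(rh53b3c253cb0c65f4.shift 0 3), rhb1d0d0f71bd156d3] (by decide +kernel))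
noncomputable def rh0e2c86270dc05f81 : CRef := CRef.mk (Pat.mk 0x30000000180000001000000000 0x48000000cf000000ff000000f80000003c00000020 8 8) 0 0 (step_sound _ 102 [(rh18965a982d73c794.shift 3 2), rh19915eed2189e7f2] (by decide +kernel))
noncomputable def rh13c42ac8afd1152a : CRef := CRef.mk (Pat.mk 0x1000000010000000180000000800000000 0xe0000001e000001ff000001fe0000039f00000010 8 10) 0 0 (step_sound _ 69 [(rh0f3e8649d339e19a.shift 2 0), (rha83d0a1d851c6a27.shift 2 1), (rhbc097188b38155dd.shift 2 1), (rhd6bd806ba39ce876.shift 0 1)] (by decide +kernel))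
noncomputable def rh954ac968ba18bb32 : CRef := CRef.mk (Pat.mk 0x200000003000000010 0xc0000000c000003fe000003fe000007df 8 11) 0 0 (step_sound _ 38 [(rh7073cfec9de6edf1.shift 1 0), (rhbc097188b38155dd.shift 3 0), rhc84d4d4d25af9de7] (by decide +kernel))
noncomputable def rh6f575a625d968147 : CRef := CRef.mk (Pat.mk 0x8000000080000000c00000004000000000000000000000000 0x60000002f0000007e0000007c0000007e000000780000007000000040 8 7) 0 0 (step_sound _ 133 [(rh193f98fc2a701e26.shift 1 0), (rh2d6e708421c4cbcf.shift 0 2), (rh8aeae207ef4e32d0.shift 1 3)] (by decide +kernel))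
noncomputable def rhce07391567fe63c7 : CRef := CRef.mk (Pat.mk 0x100000001000000018000000080000000000000000 0x12000000330000007f0000007f0000003400000024 8 7) 0 0 (step_sound _ 66 [(rh0bb882ba86b2372d.shift 0 2), (rh574fdbf07bdd18b9.shift 0 2), rh8934dc26b9176290, (rhe08b9b2fb0ef2273.shift 1 0)] (by decide +kernel))
noncomputable def rh7b3580b00ac1d9f0 : CRef := CRef.mk (Pat.mk 0x100000001c0000000800000000 0xe0000000f000001de000000fc000001ce00000004 8 9) 0 0 (step_sound _ 69 [(rh394e80a462af5b2f.shift 1 1), rh714ccf9fbfd06030, (rhaf9f2efc81a8312b.shift 1 1)] (by decide +kernel))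
noncomputable def rhc96e7fc75dcd696b : CRef := CRef.mk (Pat.mk 0x80000000e000000040000000000000000 0x1fb000000fe0000007f0000003000000030 8 9) 0 0 (step_sound _ 100 [(rh73d387a887a1e510.shift 0 2), rha2e79f51a4df2c83, (rhaf9f2efc81a8312b.shift 0 2)] (by decide +kernel))
noncomputable def rh3b8da963ac0af599 : CRef := CRef.mk (Pat.mk 0x200000002000000030000000100000000000000000 0x5c0000007c000001ee000000ff0000007e0000002800000008 8 9) 0 0 (step_sound _ 67 [(rh0bb882ba86b2372d.shift 1 2), (rh556d3f4e81af6c72.shift 0 2), (rh574fdbf07bdd18b9.shift 1 2), (rhfe19084a9d8fc411.shift 1 0)] (by decide +kernel))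
noncomputable def rhc9cb3625ca5f3820 : CRef := CRef.mk (Pat.mk 0x18000000080000000800000000 0x1c0000001e000000780000000f0000003c00000014 8 7) 0 0 (step_sound _ 131 [rh9c061216ec097908, rhc994cb3f8c6ded4d, (rhfc21d93c70905a0f.shift 1 1)] (by decide +kernel))
noncomputable def rh6065c35a6452348e : CRef := CRef.mk (Pat.mk 0xc00000006000000040000000000000000 0x200000006000000060000000c0000003e0000003f0000003a00000010 8 6) 0 0 (step_sound _ 162 [(rh03dfdf12d5937476.shift 1 1), (rh5abfc4c9d959be03.shift 1 1), rhca20505fdc25e5f1] (by decide +kernel))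
noncomputable def rhf81e65e237512ed1 : CRef := CRef.mk (Pat.mk 0x200000002000000030000000100000000000000000 0x1c0000003c000000ee000000ff0000007e0000006800000008 8 8) 0 0 (step_sound _ 67 [(rh0bb882ba86b2372d.shift 1 2), (rh556d3f4e81af6c72.shift 0 2), (rh574fdbf07bdd18b9.shift 1 2), (rh8934dc26b9176290.shift 1 0)] (by decide +kernel))
noncomputable def rh0ca1d162cd72d7cf : CRef := CRef.mk (Pat.mk 0x40000000600000002000000020 0x1000000010000007df000003fe000003fe00000020 8 11) 0 0 (step_sound _ 68 [(rha6c435743b517108.shift 0 1), (rhb12ffaec36122c99.shift 1 1), (rhfb6a9d73b01d02e8.shift 3 0)] (by decide +kernel))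
noncomputable def rhbf5bcc34c6272d17 : CRef := CRef.mk (Pat.mk 0x2000000030000000100000000000000000 0x2000000020000003bf000001fe000003fe0000004000000040 8 10) 0 0 (step_sound _ 165 [(rh5c5e593799055d58.shift 4 2), rhe6f8715ed3b2ac19] (by decide +kernel))
noncomputable def rh19170502cc6f28cc : CRef := CRef.mk (Pat.mk 0x380000000c00000000000000000000000000000000 0x100000001800000038000000380000002f0000007c0000003c0000001c00000014 8 7) 0 0 (step_sound _ 129 [(rh53b3c253cb0c65f4.shift 0 4), (rhe42f480595bcc5b7.shift 1 0)] (by decide +kernel))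
noncomputable def rh388d734518c19634 : CRef := CRef.mk (Pat.mk 0x180000000e00000000000000000000000000000000 0x40000001c0000003c000000380000001f0000003e000000780000001e0000001c00000014 8 7) 0 0 (step_sound _ 100 [(rh2d1da28961c102c5.shift 1 0), (rh90617e255318d2b0.shift 0 1), (rh9c1b160079369c7f.shift 0 2), (rh9c1d2b0fc40551bc.shift 1 2), (rha740efe0f92742d1.shift 0 2)] (by decide +kernel))
noncomputable def rhd4596f8d9455d517 : CRef := CRef.mk (Pat.mk 0x1c000000060000000000000000 0x8000000080000003c0000001f0000003e0000003c0000001c 8 6) 0 0 (step_sound _ 131 [rh26a664f32f8ccb01, (rh4821dcf828b9d7bf.shift 2 0), rh9b169f90753df4f9] (by decide +kernel))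
noncomputable def rhf6518d10b206d2fa : CRef := CRef.mk (Pat.mk 0x80000000e000000000000000000000000 0x1c0000003c0000003f0000003e0000000f0000000e00000004 8 6) 0 0 (step_sound _ 100 [(rh13e3bf69a48efc05.shift 0 1), (rh21460d2d48a35cb8.shift 0 1), rh4e5d3c6fd6730523, (rh86fee9423a6b38ba.shift 0 1), (rhb218ed1e2f167f52.shift 0 1)] (by decide +kernel))
noncomputable def rha261e1caf97d5545 : CRef := CRef.mk (Pat.mk 0x80000001e000000000000000000000000 0x100000001f000000fe000000ec0000000800000008 8 8) 0 0 (step_sound _ 129 [(rh3244c3cc8379b070.shift 0 3), (rha54028fce028f21e.shift 1 0)] (by decide +kernel))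
noncomputable def rh04c0b376dc9175e4 : CRef := CRef.mk (Pat.mk 0x80000000e000000000000000000000000 0x8000000080000000e0000007e0000007f0000003c00000014 8 7) 0 0 (step_sound _ 66 [rh1aa4b2cdb404bb38, rhb79a3132c31dd656, (rhf9366b6a121593ef.shift 2 0)] (by decide +kernel))
noncomputable def rh4c127e35b486fd1b : CRef := CRef.mk (Pat.mk 0x180000000e000000000000000000000000 0x100000001f0000003e0000007f000000f800000038 8 8) 0 0 (step_sound _ 100 [(rh5f7b3bfbaf903d4f.shift 0 2), (rhe401600d466b97cd.shift 0 2), (rhef8986517b5b0144.shift 1 0)] (by decide +kernel))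
noncomputable def rh790076309a278fef : CRef := CRef.mk (Pat.mk 0x80000000e000000000000000000000000 0x800000008000000ec0000007e0000007f0000003c00000014 8 8) 0 0 (step_sound _ 66 [rh1aa4b2cdb404bb38, rh8da4663813f516e7, (rhf9366b6a121593ef.shift 2 0)] (by decide +kernel))
noncomputable def rhd20e06adf8e772b6 : CRef := CRef.mk (Pat.mk 0x80000000e000000040000000000000000 0x780000003e000000770000003c0000001c 8 7) 0 0 (step_sound _ 34 [(rh71222050f2c63a3a.shift 2 0), rhc7e2e831e6e7bd1e] (by decide +kernel))
noncomputable def rh0c0a1ad3811273e5 : CRef := CRef.mk (Pat.mk 0x100000001c000000080000000000000000 0x80000000800000028000000780000001c0000007f0000003e0000001c 8 7) 0 0 (step_sound _ 35 [(rh71222050f2c63a3a.shift 3 0), rhc899bd5f03945d61] (by decide +kernel))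
noncomputable def rh974f3066342929f1 : CRef := CRef.mk (Pat.mk 0x80000000e00000004000000000000000000000000 0x1c0000003c0000001f0000000e0000003e0000001a0000001800000018 8 6) 0 0 (step_sound _ 195 [(rh5c5e593799055d58.shift 2 3), rhb2642359dcb79944] (by decide +kernel))
noncomputable def rh5f134c713dffeee4 : CRef := CRef.mk (Pat.mk 0xc0000000700000000000000000000000000000000 0x80000000c0000001c0000003c000000170000003e0000001e0000000e0000000a 8 6) 0 0 (step_sound _ 164 [(rh18965a982d73c794.shift 1 4), rhe42f480595bcc5b7] (by decide +kernel))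
noncomputable def rhbb2e8b0bdfb67dd8 : CRef := CRef.mk (Pat.mk 0x380000000c0000000000000000000000000000000000000000 0x180000007a0000003e0000006c0000007f0000007c0000001c0000000800000008 8 7) 0 0 (step_sound _ 130 [rh96aa665431d394bf, (rh9fe2ebcaabf6daf0.shift 2 1), (rhcf80391c5046a495.shift 2 2), (rhf9366b6a121593ef.shift 2 2)] (by decide +kernel))
noncomputable def rh89722f58351336fd : CRef := CRef.mk (Pat.mk 0x180000000e0000000000000000 0x360000003e0000003f0000001f0000003e0000003800000018 8 6) 0 0 (step_sound _ 132 [(rh262452ce8c1f8def.shift 0 1), rh7aa845c2d540eae1, (rhf9366b6a121593ef.shift 3 0)] (by decide +kernel))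
noncomputable def rhce12a4051b579d17 : CRef := CRef.mk (Pat.mk 0x70000000180000000000000000 0x380000003c000000fe0000007f000000f8000000f000000070 8 8) 0 0 (step_sound _ 133 [(rh4821dcf828b9d7bf.shift 4 0), (rh9b169f90753df4f9.shift 2 0), (rhd51f3b3caa1766a7.shift 0 2)] (by decide +kernel))
noncomputable def rhcd65a83c53680fbc : CRef := CRef.mk (Pat.mk 0x180000000c000000000000000000000000 0x180000001a0000001b000000ff0000007f0000001c00000004 8 8) 0 0 (step_sound _ 97 [(rh53b3c253cb0c65f4.shift 0 3), rhb3081045920091d1] (by decide +kernel))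
noncomputable def rhb09a3b4fcb0966a3 : CRef := CRef.mk (Pat.mk 0x1c000000060000000000000000 0x1e0000001f0000003c0000001c0000007e0000007f0000001e 8 7) 0 0 (step_sound _ 131 [(rh4821dcf828b9d7bf.shift 2 0), (rhadf429772c25fde0.shift 2 0), (rhb735eabf0fdddb4f.shift 0 1), (rhc987ca2c141d7f36.shift 1 0)] (by decide +kernel))
noncomputable def rhea40b4e5600e53d2 : CRef := CRef.mk (Pat.mk 0x1c00000006000000000000000000000000 0x1c0000001c0000003c0000001f0000001e0000003f0000001e00000008 8 6) 0 0 (step_sound _ 163 [(rh4821dcf828b9d7bf.shift 2 1), (rh9c72ecc420beea00.shift 0 2), (rha5baf8521d23b420.shift 2 0), (rhc987ca2c141d7f36.shift 1 1)] (by decide +kernel))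
noncomputable def rhb63a6b0243d25530 : CRef := CRef.mk (Pat.mk 0x380000000c00000000000000000000000000000000 0xc0000000f0000003f0000003c0000001f0000003c0000001c00000008 8 6) 0 0 (step_sound _ 98 [(rh097199a07cf9355d.shift 0 1), (rh4821dcf828b9d7bf.shift 2 1), rh4d92821350aa61fe, (rhadf429772c25fde0.shift 2 1)] (by decide +kernel))
noncomputable def rh35696d9bd123c3f2 : CRef := CRef.mk (Pat.mk 0x1c00000006000000000000000000000000 0xe0000000f0000003f0000001c0000001e0000001e0000001e00000008 8 6) 0 0 (step_sound _ 163 [rh6afe90e367f5e049, (rhadf429772c25fde0.shift 2 1), (rhbe253d1426d5780c.shift 0 1)] (by decide +kernel))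
noncomputable def rh5288fcf3817dd988 : CRef := CRef.mk (Pat.mk 0x300000001800000000 0x280000003c0000003c000000fe000000ff0000007800000008 8 8) 0 0 (step_sound _ 70 [(rh18965a982d73c794.shift 3 1), rh383bcc50dd35300d] (by decide +kernel))
noncomputable def rh7f49d6790189f123 : CRef := CRef.mk (Pat.mk 0x80000000c0000000600000000 0x1e0000001f0000007c0000000c0000001e0000001a 8 7) 0 0 (step_sound _ 131 [rh3a25617c654e9ad4, (rh5c5e593799055d58.shift 2 1)] (by decide +kernel))
noncomputable def rhfcaef3e3c1ff4815 : CRef := CRef.mk (Pat.mk 0xc00000006000000000000000000000000 0x40000000e0000000f0000003e0000001e0000003e0000001e0000000a 8 6) 0 0 (step_sound _ 132 [(rh18965a982d73c794.shift 1 3), rha912ad3ff9809524] (by decide +kernel))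
noncomputable def rh1a9a859e62870cc0 : CRef := CRef.mk (Pat.mk 0x180000000c000000000000000000000000 0x140000001c0000001e0000007f0000001a0000000f0000003e0000001c00000014 8 7) 0 0 (step_sound _ 97 [(rh53b3c253cb0c65f4.shift 0 3), rh95f9d8d9664b3580] (by decide +kernel))
noncomputable def rhcf9eae9d3e676dc6 : CRef := CRef.mk (Pat.mk 0x100000000e000000000000000000000000 0x400000014000000160000003f0000007f0000000b0000000a 8 7) 0 0 (step_sound _ 68 [rh03f067431414b84d, rh060ebf26fa7b77f6, (rh6aa0ed61cce1493b.shift 0 2), (rh782848cf5e4b1e5e.shift 0 2), rha06a91ca4b094b6c] (by decide +kernel))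
noncomputable def rh891286f34da8a6a8 : CRef := CRef.mk (Pat.mk 0xe000000100 0x7f000000fe0000018e 8 9) 0 0 (step_sound _ 36 [(rh96851dee118c1ba3.shift 4 0), rhc6c48c550f9232f4] (by decide +kernel))
noncomputable def rh3e87be60d35c7c8d : CRef := CRef.mk (Pat.mk 0x80000000f0000000000000000000000000000000000000000 0x140000001c0000001c000000080000000f0000001c0000001c0000001c0000001c00000004 8 5) 0 0 (step_sound _ 131 [(rh2a033fa8425e5954.shift 2 0), (rhe25b0a99195a5d59.shift 0 4)] (by decide +kernel))
noncomputable def rhc682de5e498163aa : CRef := CRef.mk (Pat.mk 0x80000000c000000040000000400000000 0x400000016000000160000007e000001ff0000007e0000002f0000000a 8 9) 0 0 (step_sound _ 132 [(rh69012675dfdb1a5b.shift 0 3), rhad84efa456ee1147, (rhbf34592994afb4e3.shift 1 0)] (by decide +kernel))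
noncomputable def rh5626207874c7d417 : CRef := CRef.mk (Pat.mk 0x80000000c0000000400000000 0x1f0000001f0000007c0000003f0000000f0000000a 8 7) 0 0 (step_sound _ 131 [(rh5c5e593799055d58.shift 2 1), rh85aeb47599f37174] (by decide +kernel))
noncomputable def rh2a9c2a28b91f50c4 : CRef := CRef.mk (Pat.mk 0x1c0000000600000000000000000000000000000000 0xc0000000c0000001c0000001c0000007e0000003f0000003f0000002a00000020 8 7) 0 0 (step_sound _ 195 [rh1778dfecb45e8cef, (rh4821dcf828b9d7bf.shift 2 2), (rh6410530e1aa906fd.shift 0 1), (rhadf429772c25fde0.shift 2 2)] (by decide +kernel))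
noncomputable def rh597a8a84a7c2ef09 : CRef := CRef.mk (Pat.mk 0x180000000e000000000000000000000000 0x18000000180000001c000000fe0000007f0000003c0000001c 8 8) 0 0 (step_sound _ 66 [rh2bf5dd730bd01fd0, (rh471c9edde87ddc5c.shift 1 1), (rhf9366b6a121593ef.shift 2 0)] (by decide +kernel))
noncomputable def rh278f627e06e32a7b : CRef := CRef.mk (Pat.mk 0x180000000c00000000000000000000000000000000 0x140000001c0000001c000000180000001c0000000f0000003c0000001c0000001c0000001c 8 6) 0 0 (step_sound _ 129 [(rh53b3c253cb0c65f4.shift 0 4), (rhf9eb21108079a15b.shift 1 0)] (by decide +kernel))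
noncomputable def rh7a759994e5b2a1bb : CRef := CRef.mk (Pat.mk 0x1c0000000600000000000000000000000000000000 0x60000000e0000000e0000001c0000001c0000001e0000003e0000001f0000000e0000000a 8 6) 0 0 (step_sound _ 98 [(rh1f92911e4f033b3f.shift 1 0), (rh215e11e099257d75.shift 2 2), (rh3c4cc1fd50af56fb.shift 0 1), (rhac917a7a6fd43377.shift 2 0), (rhc05334cb2b2282f5.shift 1 2)] (by decide +kernel))
noncomputable def rhb6a65c69339e2129 : CRef := CRef.mk (Pat.mk 0x1000000018000000080000000800000000 0x1c0000001c000000780000000f0000003c00000014 8 7) 0 0 (step_sound _ 131 [(rh2f68792b6b779e96.shift 3 1), rh3b2ea219f83edefe] (by decide +kernel))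
noncomputable def rhd791e450b44aefcc : CRef := CRef.mk (Pat.mk 0x1000000018000000080000000800000000 0x8000000180000007c0000001f0000007c00000074 8 7) 0 0 (step_sound _ 66 [(rh9c9d5eacd602763e.shift 2 0), rhd3137fddc9a993b2, (rhd69c262cd33b94b3.shift 0 2)] (by decide +kernel))
noncomputable def rh5edab1448eea12fe : CRef := CRef.mk (Pat.mk 0x1000000018000000080000000000000000 0x8000000080000002c0000007c0000001e0000007f0000007e0000003c 8 7) 0 0 (step_sound _ 35 [(rh71222050f2c63a3a.shift 3 0), rhbfdce888b8542834] (by decide +kernel))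
noncomputable def rh21f7432d2b85ec96 : CRef := CRef.mk (Pat.mk 0x2000000020000000300000000000000000000000000000000 0x700000007000000070000000600000006000000070000000300000006000000070000000700000001 8 3) 0 0 (step_sound _ 225 [rh2b6f3d735bfdbe30, (rh8dc2031d32064d45.shift 0 3), (rh9a369cb82ea472da.shift 0 4), (rha843ac6af038b7c8.shift 0 3), (rhb77bfac3e9efecea.shift 0 4)] (by decide +kernel))
noncomputable def rh87e28a740a85bf4d : CRef := CRef.mk (Pat.mk 0x1000000010000000180000000800000000 0x280000003c000000f0000000f8000000ff00000037 8 8) 0 0 (step_sound _ 36 [(rh1bd0c14c4de1ef4d.shift 2 0), rh1e87bf36e9e60a85] (by decide +kernel))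
noncomputable def rh0befce310decf0a3 : CRef := CRef.mk (Pat.mk 0xc00000006000000000000000000000000 0xa0000000e0000000e0000003f0000003f0000003e0000003a0000001000000010 8 6) 0 0 (step_sound _ 132 [(rh18965a982d73c794.shift 1 3), rh1cbb520b38c3ed8a] (by decide +kernel))
noncomputable def rhdaccbfc681c8d3c3 : CRef := CRef.mk (Pat.mk 0x180000000c000000000000000000000000 0x140000001c0000001e0000007f000000780000000c0000001c0000001c00000014 8 7) 0 0 (step_sound _ 133 [(rh18965a982d73c794.shift 2 3), rhdcf447e011c02e60] (by decide +kernel))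
noncomputable def rhfc75c7da523b0322 : CRef := CRef.mk (Pat.mk 0x180000000c0000000000000000 0x180000001800000018000000ff000000ff0000001c 8 8) 0 0 (step_sound _ 65 [(rh53b3c253cb0c65f4.shift 0 2), rh5e1ef7b654ff3642] (by decide +kernel))
noncomputable def rh68978c7fdec04a0f : CRef := CRef.mk (Pat.mk 0x180000000e00000000000000000000000000000000 0x10000000100000001c000000fe000000ff000000fc0000003c00000014 8 8) 0 0 (step_sound _ 99 [(rh082e1dd03057997c.shift 0 1), (rh9bb5c7e5c08d4582.shift 2 1), (rhb4f056d5be486737.shift 0 1), (rhffb8e5993241bf15.shift 2 0)] (by decide +kernel))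
noncomputable def rh36ad411377c93d7e : CRef := CRef.mk (Pat.mk 0x100000001800000008000000080000000000000000 0x4000000140000007f000000ff0000007f0000003200000030 8 8) 0 0 (step_sound _ 98 [rh21073e81c29d5207, (rh69012675dfdb1a5b.shift 0 3), (rhd35175bd8dce5549.shift 1 1), (rhd69c262cd33b94b3.shift 0 3)] (by decide +kernel))
noncomputable def rhae07d40edd1e08c8 : CRef := CRef.mk (Pat.mk 0x100000001800000008000000000000000000000000 0x1800000018000000180000007e0000007f000000370000003000000010 8 7) 0 0 (step_sound _ 196 [(rh5c5e593799055d58.shift 3 3), rhf655a4b5a133708d] (by decide +kernel))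
noncomputable def rhf4eb9795ea80005a : CRef := CRef.mk (Pat.mk 0x180000000c000000000000000000000000 0x100000001c0000001c0000001c0000001c0000001f000000780000001800000018 8 7) 0 0 (step_sound _ 97 [(rh53b3c253cb0c65f4.shift 0 3), (rhd154e1aa6ca2bfda.shift 1 0)] (by decide +kernel))
noncomputable def rh7c2b97e7a52f6c07 : CRef := CRef.mk (Pat.mk 0x300000000c00000000000000000000000000000000 0x100000001c0000001e000000780000000f0000007c0000001c0000001c00000014 8 7) 0 0 (step_sound _ 163 [(rh18965a982d73c794.shift 2 4), rh51b1dee612845e5c] (by decide +kernel))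
noncomputable def rh63b9151adf14829e : CRef := CRef.mk (Pat.mk 0x7000000018000000000000000000000000 0x1800000018000000ff0000007f000000380000000c0000000c0000000c 8 8) 0 0 (step_sound _ 131 [(rh205bbac36a8896ec.shift 2 0), (rh210e2d9c685c857e.shift 0 3), (rha58ddf8813c4b875.shift 0 3)] (by decide +kernel))
noncomputable def rh252d2fdb00cd1157 : CRef := CRef.mk (Pat.mk 0x70000000180000000000000000 0x380000003c000000fe0000007f000000180000001000000010 8 8) 0 0 (step_sound _ 133 [(rh4821dcf828b9d7bf.shift 4 0), (rh8958290225f88f65.shift 1 0), (rhd51f3b3caa1766a7.shift 0 2)] (by decide +kernel))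
noncomputable def rh59c89379a4ba6f3b : CRef := CRef.mk (Pat.mk 0x100000001800000008000000080000000000000000 0x700000007e000000ff0000007f0000003000000030 8 8) 0 0 (step_sound _ 98 [rh151b1c4aa50ee52c, (rh69012675dfdb1a5b.shift 0 3), (rh878dc6d02bbc5ae1.shift 1 1), (rhd69c262cd33b94b3.shift 0 3)] (by decide +kernel))
noncomputable def rh93664c30083105a4 : CRef := CRef.mk (Pat.mk 0x70000000180000000000000000 0x2000000030000000fe0000007f000000d8000000f800000078 8 8) 0 0 (step_sound _ 133 [(rh0db986919a32f087.shift 3 0), rh34f47310fc4adc54, (rh4821dcf828b9d7bf.shift 4 0), (rh5540b307add15c6d.shift 2 0)] (by decide +kernel))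
noncomputable def rheeb1d6fbac75feed : CRef := CRef.mk (Pat.mk 0x180000000c000000000000000000000000 0x8000000180000001f0000007f0000007f0000003c0000001c 8 7) 0 0 (step_sound _ 97 [(rh53b3c253cb0c65f4.shift 0 3), rh882d6f14ad4f2c6b] (by decide +kernel))
noncomputable def rhda548ebf8fb911b0 : CRef := CRef.mk (Pat.mk 0x180000000c000000000000000000000000 0x100000001c0000001c0000001e0000007f000000780000000c0000001c0000001c00000014 8 7) 0 0 (step_sound _ 133 [(rh18965a982d73c794.shift 2 3), rh3c5f1a848c202261] (by decide +kernel))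
noncomputable def rh7cb426032a0108f3 : CRef := CRef.mk (Pat.mk 0x70000000180000000000000000 0x2000000038000000fe0000007f000000d80000005800000058 8 8) 0 0 (step_sound _ 133 [rh34f47310fc4adc54, (rh4821dcf828b9d7bf.shift 4 0), (rhbe253d1426d5780c.shift 2 0), (rhde620120ede18add.shift 2 0)] (by decide +kernel))
noncomputable def rh0727d404dbeabd83 : CRef := CRef.mk (Pat.mk 0x180000000e0000000000000000 0x8000000080000001c0000001f0000003f0000001b0000003e0000002f0000000c 8 6) 0 0 (step_sound _ 132 [(rh254306545f7222d6.shift 0 1), (rh4821dcf828b9d7bf.shift 3 0), (rhadf429772c25fde0.shift 3 0), rhb2be66501acb8344] (by decide +kernel))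
noncomputable def rh0f7b9fa100880a95 : CRef := CRef.mk (Pat.mk 0x1000000010000000180000000800000000 0x280000003c000000f0000000f8000000ff00000077 8 8) 0 0 (step_sound _ 36 [(rh1bd0c14c4de1ef4d.shift 2 0), rh1e87bf36e9e60a85, (rh6412c58679f5f5ab.shift 2 0)] (by decide +kernel))
noncomputable def rhc764ce90d92a24b6 : CRef := CRef.mk (Pat.mk 0x70000000180000000000000000 0x1800000038000000ff0000007f000000f8000000cc00000044 8 8) 0 0 (step_sound _ 99 [(rh014abbda9a411227.shift 2 0), (rh9db668c55cc12000.shift 2 0), (rha58ddf8813c4b875.shift 0 2)] (by decide +kernel))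
noncomputable def rh4c6cb08dfd0a538b : CRef := CRef.mk (Pat.mk 0x2000000020000000300000000000000000000000000000000 0x5000000070000000700000003000000030000000300000006000000070000000700000001 8 3) 0 0 (step_sound _ 225 [rh04c04748d8e723dd, (rh7ef5fa5c39f1c762.shift 0 4), (rh9a369cb82ea472da.shift 0 4)] (by decide +kernel))
noncomputable def rhbffd327399299953 : CRef := CRef.mk (Pat.mk 0x2000000020000000300000000000000000000000000000000 0x5000000070000000700000006000000030000000300000006000000070000000700000001 8 3) 0 0 (step_sound _ 225 [rh2b6f3d735bfdbe30, (rh7ef5fa5c39f1c762.shift 0 4), (rh9a369cb82ea472da.shift 0 4), (rhe62cab2ff5ad6fe2.shift 0 4)] (by decide +kernel))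
noncomputable def rhaf7d0dfe3cdb0aa7 : CRef := CRef.mk (Pat.mk 0x4000000080000000800000008 0x40000000c0000001c0000001c0000001f0000007c0000001800000008 8 7) 0 0 (step_sound _ 99 [rh16d8d8bf04a0c7f8, (rh50fbb5868c909700.shift 2 0)] (by decide +kernel))
noncomputable def rh4ad19324603d1823 : CRef := CRef.mk (Pat.mk 0x180000000e000000000000000000000000 0x1000000014000000340000001f000000fe0000007b0000001a00000018 8 8) 0 0 (step_sound _ 100 [(rh21460d2d48a35cb8.shift 0 1), rh629d253be493a12c, (rh76c4edc656936505.shift 1 2), rha94f6b209c37d359] (by decide +kernel))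
noncomputable def rh63d47bd98d38059d : CRef := CRef.mk (Pat.mk 0x80000000c00000008000000000000000000000000 0x40000001c0000001c000000180000000c0000001f00000078000000100000001000000010 8 7) 0 0 (step_sound _ 100 [(rh046c5eb18e55a239.shift 3 0), (rh5c5a2014709044d0.shift 0 3), (rhc1df0b8480ab9f16.shift 0 2)] (by decide +kernel))
noncomputable def rh959fd6730f8632cd : CRef := CRef.mk (Pat.mk 0x80000000c00000018000000000000000000000000 0x40000000c0000000f0000001b0000001f0000001e00000014 8 5) 0 0 (step_sound _ 129 [rha507cda12106e46e, (rhb739f4f82bb681b4.shift 0 3)] (by decide +kernel))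
noncomputable def rhfca005486fcbe545 : CRef := CRef.mk (Pat.mk 0x100000003800000000 0x3f7000001fe000001e7 8 10) 0 0 (step_sound _ 38 [rh38644ea9fd71d8f9, rh988dac8d009f9f77, (rhf5fa5e48e0784de2.shift 3 0), (rhffc534c89a09560a.shift 1 0)] (by decide +kernel))
noncomputable def rhc099844a9a2c6958 : CRef := CRef.mk (Pat.mk 0x10000000100000003800000000 0x18000000180000001e000000770000003e00000017 8 7) 0 0 (step_sound _ 34 [rh592c7139d2c44767, (rh9ddf0a4fbb1b7ba8.shift 1 0), (rhec46bd5500c722c9.shift 1 1)] (by decide +kernel))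
noncomputable def rh54247844c71c77a9 : CRef := CRef.mk (Pat.mk 0x8000000080000000c000000000000000000000000 0x40000000c0000000c0000001f000000780000001f000000380000001800000008 8 7) 0 0 (step_sound _ 132 [(rh574fdbf07bdd18b9.shift 0 3), rh74f7508ccb6f4ceb, (rhaba50f5f0dc791b7.shift 0 2)] (by decide +kernel))
noncomputable def rhbbc91edacdf47d59 : CRef := CRef.mk (Pat.mk 0x8000000180000000c0000000000000000 0x400000004000000160000001f0000007a0000000f0000000a00000008 8 7) 0 0 (step_sound _ 101 [(rh18965a982d73c794.shift 2 2), rha4227057e70dc928] (by decide +kernel))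
noncomputable def rh2a8919f5289164f4 : CRef := CRef.mk (Pat.mk 0x180000000e00000000000000000000000000000000 0x140000003c0000001f000000fe000000ef0000003e0000001c00000010 8 8) 0 0 (step_sound _ 99 [(rh3820f35d5e705bec.shift 3 0), (rh71683d90e5140b28.shift 0 1), (rhf3c40da8ec595222.shift 0 2)] (by decide +kernel))
noncomputable def rh65e6357d8d3ab570 : CRef := CRef.mk (Pat.mk 0x1c000000060000000000000000 0x80000000c0000003c0000001f0000003e0000003700000036 8 6) 0 0 (step_sound _ 131 [(rh4821dcf828b9d7bf.shift 2 0), (rhadf429772c25fde0.shift 2 0), rhe40b193aff768ad1, rhea4654ff348b86c7] (by decide +kernel))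
noncomputable def rh727c91ccc537356c : CRef := CRef.mk (Pat.mk 0x180000000e0000000000000000 0x8000000080000001c0000001f0000003c0000001f000000fe000000ef0000000a 8 8) 0 0 (step_sound _ 132 [(rh254306545f7222d6.shift 0 1), (rh2ba6aa886f259681.shift 2 0), rh9e4dce6b4d262c9f, (rhcf80391c5046a495.shift 3 0)] (by decide +kernel))
noncomputable def rhe70b52054f5470ec : CRef := CRef.mk (Pat.mk 0x380000000c000000000000000000000000 0x4000000140000001e0000007f0000003a0000000f0000001e0000001c00000014 8 7) 0 0 (step_sound _ 97 [(rh53b3c253cb0c65f4.shift 0 3), rh87c7c9b587e958ec] (by decide +kernel))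
noncomputable def rhc0ff0a976b46eeff : CRef := CRef.mk (Pat.mk 0x7000000018000000000000000000000000 0x3800000038000000ff0000007f000000180000001c0000001c0000000c 8 8) 0 0 (step_sound _ 131 [(rh205bbac36a8896ec.shift 2 0), (rh206d61528605a692.shift 2 1), (rha58ddf8813c4b875.shift 0 3)] (by decide +kernel))
noncomputable def rh0a692ad6ea08024e : CRef := CRef.mk (Pat.mk 0x38000000080000000000000000 0x140000001e0000007f0000003f000000380000000800000008 8 7) 0 0 (step_sound _ 132 [(rh188f4ce47b6e029c.shift 0 2), (rhadf429772c25fde0.shift 3 0), (rhbdaf8c74e7ba3287.shift 1 0)] (by decide +kernel))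
noncomputable def rh608891eaddccf352 : CRef := CRef.mk (Pat.mk 0x180000000e00000000000000000000000000000000 0x16000000370000001f000000fe000000ef0000001e0000001c00000010 8 8) 0 0 (step_sound _ 99 [(rh000637b5a81e86aa.shift 2 1), (rh119b8d534d66c8db.shift 0 1), (rh3820f35d5e705bec.shift 3 0), (rhd064aa33f79e8fdc.shift 0 2)] (by decide +kernel))
noncomputable def rhc095cafdb80f233d : CRef := CRef.mk (Pat.mk 0xf00000000000000000000000000000000 0x40000001c0000001c000000180000001c0000000f0000001c0000001c0000001c00000010 8 5) 0 0 (step_sound _ 163 [(rh33e738c4ed385b9f.shift 0 4), rh46de88657f082cde] (by decide +kernel))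
noncomputable def rh3658ebd6f233cdbb : CRef := CRef.mk (Pat.mk 0x1e000000020000000000000000 0x7000000070000000f0000003f0000001e000000360000001200000010 8 6) 0 0 (step_sound _ 129 [rh0f4295832fe61694, (rh3244c3cc8379b070.shift 0 3)] (by decide +kernel))
noncomputable def rh2b558a945acd328a : CRef := CRef.mk (Pat.mk 0x1c00000004000000000000000000000000 0x80000001c0000003c0000001f0000003f0000000f0000000e00000002 8 6) 0 0 (step_sound _ 129 [(rhbae14a666ac7cad9.shift 0 3), (rhcd70aab8b9e6a2a7.shift 0 1), (rhcf6c469f5d636637.shift 0 1), (rhf459621b93742302.shift 0 1), rhf4f1a03a19e2b36a] (by decide +kernel))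
noncomputable def rhac0bd488c08d002f : CRef := CRef.mk (Pat.mk 0x7000000010000000000000000000000000 0x40000000f70000007f000000ff0000002c0000002800000008 8 8) 0 0 (step_sound _ 131 [(rh3e1b7b343686dca1.shift 2 3), (rh708c3bc8fe2f3084.shift 0 3), (rhbae14a666ac7cad9.shift 2 3), (rhd050ea11a2b85eec.shift 0 3), (rhf4f1a03a19e2b36a.shift 2 0)] (by decide +kernel))
noncomputable def rhf021acb80727af01 : CRef := CRef.mk (Pat.mk 0x1c00000006000000000000000000000000 0x6000000070000003f0000001f0000003e000000030000000300000003 8 6) 0 0 (step_sound _ 129 [(rh1aded9edf2cf7032.shift 0 2), rh205bbac36a8896ec, (rhb2d1aa7b1ffc4eb6.shift 0 3)] (by decide +kernel))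
noncomputable def rhc609b3c3b9b9ce4c : CRef := CRef.mk (Pat.mk 0x200000007000000010 0x280000003c000000fc0000007e000000f7 8 8) 0 0 (step_sound _ 101 [(rh5c5e593799055d58.shift 4 0), rh882252dda195b230] (by decide +kernel))
noncomputable def rhb69cb41d41c058b4 : CRef := CRef.mk (Pat.mk 0x100000003800000008 0x1c0000001e000000770000003e0000000f 8 7) 0 0 (step_sound _ 100 [(rh5c5e593799055d58.shift 3 0), rhd5a3064d5909d330] (by decide +kernel))
noncomputable def rh479345418edacfc8 : CRef := CRef.mk (Pat.mk 0x80000001c00000004000000000000000000000000 0x1e0000001f0000007c0000001c0000000f0000000a0000000800000008 8 7) 0 0 (step_sound _ 195 [(rh5c5e593799055d58.shift 2 3), rh6d1ba46103fec950] (by decide +kernel))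
noncomputable def rha497fb8b9ab0a5cc : CRef := CRef.mk (Pat.mk 0x380000000800000000000000000000000000000000 0x10000000140000003e000000ff000001e80000001c0000001c0000001c00000014 8 9) 0 0 (step_sound _ 99 [(rh215e11e099257d75.shift 3 2), (rh677425279ad553b7.shift 0 3), (rhe90a5e266d4684db.shift 2 0), (rhf47aaf50b8322cf6.shift 1 1)] (by decide +kernel))
noncomputable def rh2ba13a1eb1ee29f3 : CRef := CRef.mk (Pat.mk 0x3c00000004000000000000000000000000 0x80000000e0000000e0000000f0000007e0000003c000000040000000e0000000e0000000a 8 7) 0 0 (step_sound _ 162 [(rh3244c3cc8379b070.shift 1 4), rhe62be27f93902e4e] (by decide +kernel))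
noncomputable def rh970a3843dff3cf6f : CRef := CRef.mk (Pat.mk 0x100000003800000008 0x1c0000001e000000770000003e0000000f 8 7) 0 0 (step_sound _ 100 [rh40fa682fe199160d, (rh5c5e593799055d58.shift 3 0)] (by decide +kernel))
noncomputable def rhd5dc3f5096207db7 : CRef := CRef.mk (Pat.mk 0x380000000c000000000000000000000000 0x100000001c0000001c0000001e0000001f0000003a0000000f0000000e0000000c00000004 8 6) 0 0 (step_sound _ 163 [(rh281c6819542c66e6.shift 2 0), (rha4227057e70dc928.shift 0 1), (rha8241f37c79477a8.shift 2 2)] (by decide +kernel))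
noncomputable def rhcac993f1ca3a509b : CRef := CRef.mk (Pat.mk 0xc000000060000000000000000000000000000000000000000 0x80000000e0000000e0000000f0000003c0000000e000000060000000e0000000e0000000e00000008 8 6) 0 0 (step_sound _ 196 [(rh18965a982d73c794.shift 1 5), rhce133c60884b3a72] (by decide +kernel))
noncomputable def rh1246224a03b8d932 : CRef := CRef.mk (Pat.mk 0x30000000080000000000000000 0x34000000340000007e000000fe000001ff0000005800000058 8 9) 0 0 (step_sound _ 99 [(rh2820ca9a6c4f41b4.shift 0 2), (rh5793da7f8056b034.shift 1 0), (rh796d3db90fc004ad.shift 2 2), rhd38d9ac458df4a80] (by decide +kernel))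
noncomputable def rhc7e1659e0c655394 : CRef := CRef.mk (Pat.mk 0x180000000e000000000000000000000000 0x100000001c0000001c0000000e0000001f0000001e0000000e0000001c0000001c00000014 8 5) 0 0 (step_sound _ 163 [rh0562de5a23f261fd, (rh281c6819542c66e6.shift 2 0), (rha8241f37c79477a8.shift 2 2), (rhf8c6fc73fe1cb157.shift 2 0)] (by decide +kernel))
noncomputable def rh35fdc7c168ce1906 : CRef := CRef.mk (Pat.mk 0x180000000c00000000000000000000000000000000 0x140000001f0000007c0000003c0000007c0000003e0000001c00000014 8 7) 0 0 (step_sound _ 99 [(rh000637b5a81e86aa.shift 2 1), (rh115c3e2f639f3b2b.shift 0 2), (rh394a63bb21caa205.shift 1 0)] (by decide +kernel))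
noncomputable def rh27b711bf6368c6fa : CRef := CRef.mk (Pat.mk 0x180000000c000000000000000000000000 0x800000018000000180000001f000000ff000000fc0000001c00000014 8 8) 0 0 (step_sound _ 97 [(rh53b3c253cb0c65f4.shift 0 3), rh7941d25e72023769] (by decide +kernel))
noncomputable def rhdc63fee20d682617 : CRef := CRef.mk (Pat.mk 0x1c00000006000000000000000000000000 0x200000002000000330000001f0000003e0000003c0000001800000018 8 6) 0 0 (step_sound _ 129 [rhb706072ef360cf39, (rhbdb8dfd08861fbf7.shift 0 2)] (by decide +kernel))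
noncomputable def rh9256531ca098c779 : CRef := CRef.mk (Pat.mk 0x180000000e000000000000000000000000 0xa0000000a0000000b0000001f000000fe000000fc0000001400000004 8 8) 0 0 (step_sound _ 163 [(rh281c6819542c66e6.shift 2 0), (rh311e90347bd2938d.shift 0 1), (rh97c2ce09bec1e547.shift 0 2), (rhbb339bb7e4e96b38.shift 2 2)] (by decide +kernel))
noncomputable def rhebd8074b8742f499 : CRef := CRef.mk (Pat.mk 0x180000000e00000000000000000000000000000000 0x100000001c0000001e0000001f0000001e0000000e0000003c0000001c0000001c00000018 8 6) 0 0 (step_sound _ 99 [(rh000637b5a81e86aa.shift 2 1), (rh982240f51b65158e.shift 1 0), (rhdbb58fe6dcb42766.shift 0 2)] (by decide +kernel))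
noncomputable def rh2a1531d2ee50ea7a : CRef := CRef.mk (Pat.mk 0x180000000e00000000000000000000000000000000 0x12000000370000001f000000fe0000007c000000fc0000003800000010 8 8) 0 0 (step_sound _ 99 [(rh000637b5a81e86aa.shift 2 1), (rh3820f35d5e705bec.shift 3 0), (rh8cd5617a04f0021c.shift 0 2), (rhb94b66119eb13f87.shift 0 1)] (by decide +kernel))
noncomputable def rh3ffe80aabd4a4874 : CRef := CRef.mk (Pat.mk 0x3000000018000000000000000000000000 0x3c0000003e0000003f0000003e000000180000001800000018 8 6) 0 0 (step_sound _ 98 [rh190ccbc6174a1adb, (rh53b3c253cb0c65f4.shift 1 3)] (by decide +kernel))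
noncomputable def rh49393b91d88d92ae : CRef := CRef.mk (Pat.mk 0xc000000070000000000000000 0x40000000e0000000e0000000e0000000e0000007f0000001e0000000c 8 7) 0 0 (step_sound _ 131 [(rh60eca2e8da09969b.shift 0 1), (rhcf80391c5046a495.shift 2 0), rheb7c464c9245b724, (rhf9366b6a121593ef.shift 2 0)] (by decide +kernel))
noncomputable def rh2f2185ca5932e4e7 : CRef := CRef.mk (Pat.mk 0x180000000c000000000000000000000000 0x1800000018000000380000001f0000003f000000380000001800000018 8 6) 0 0 (step_sound _ 97 [rh18ab41ff9e9cf61b, (rh53b3c253cb0c65f4.shift 0 3)] (by decide +kernel))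
noncomputable def rhbaaa87046b4b8846 : CRef := CRef.mk (Pat.mk 0x180000000c00000000000000000000000000000000 0x80000000c0000001e0000001f0000001e0000000f0000007c0000001c0000001800000010 8 7) 0 0 (step_sound _ 129 [(rh53b3c253cb0c65f4.shift 0 4), rh79f73cb6f2d7becf] (by decide +kernel))
noncomputable def rh2f5720dfb508d86b : CRef := CRef.mk (Pat.mk 0x180000000e00000000000000000000000000000000 0x200000012000000330000001f0000003e0000007c000000fc0000003c00000014 8 8) 0 0 (step_sound _ 100 [(rh0d3c8bf4bf97ae4a.shift 1 3), (rh469a0a5f9c8225cd.shift 1 0), (rh9c1b160079369c7f.shift 0 2), (rhd4aa107219f07aff.shift 0 3), (rhe40ba50c4a4c386b.shift 0 1)] (by decide +kernel))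
noncomputable def rh4d8f50e5cf17236a : CRef := CRef.mk (Pat.mk 0x300000001c000000000000000000000000 0x8000000380000003f0000007e000000340000003c000000780000003000000020 8 7) 0 0 (step_sound _ 164 [(rh5be180ead610399b.shift 0 1), (rh867f6cba49450cc2.shift 2 0), (rhbb339bb7e4e96b38.shift 3 2)] (by decide +kernel))
noncomputable def rhbc5a42fd130d8b18 : CRef := CRef.mk (Pat.mk 0x180000000c0000000800000000 0x20000001f0000003f0000001f0000000c0000000c00000004 8 6) 0 0 (step_sound _ 131 [(rh03dfdf12d5937476.shift 2 0), (rhde5a89fad2dc3bfa.shift 0 1)] (by decide +kernel))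
noncomputable def rh9612b06e3d725a82 : CRef := CRef.mk (Pat.mk 0x300000001c00000000000000000000000000000000 0x8000000380000003f0000007e000000360000003c00000038000000380000003800000020 8 7) 0 0 (step_sound _ 196 [(rh2f9005caceef89f3.shift 0 2), (rh77aa2ba39e3437a0.shift 1 0), (rhbb339bb7e4e96b38.shift 3 3)] (by decide +kernel))
noncomputable def rh0ec84394f4486323 : CRef := CRef.mk (Pat.mk 0x38000000080000000000000000 0x14000000140000007f0000003e0000006f0000002800000028 8 7) 0 0 (step_sound _ 132 [(rh4821dcf828b9d7bf.shift 3 0), (rhbdaf8c74e7ba3287.shift 1 0), rhc9af767b523f59b1] (by decide +kernel))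
noncomputable def rhb77726548920621f : CRef := CRef.mk (Pat.mk 0x300000000c000000000000000000000000 0x4000000040000000e0000001f0000007a0000000f0000007e0000001400000004 8 7) 0 0 (step_sound _ 131 [(rh18965a982d73c794.shift 2 3), rh8dc4679c964f42fd] (by decide +kernel))
noncomputable def rh5c4d26f03886b90d : CRef := CRef.mk (Pat.mk 0x1c000000060000000000000000 0xc0000000c0000003c0000001f0000003e0000003e0000001c 8 6) 0 0 (step_sound _ 131 [(rh4821dcf828b9d7bf.shift 2 0), (rh92469a0e2be42b47.shift 0 1), rh9b169f90753df4f9] (by decide +kernel))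
noncomputable def rh659b789b0405cd39 : CRef := CRef.mk (Pat.mk 0x1c000000060000000000000000 0x1e0000001f0000003c0000001f0000007e0000007f0000001c 8 7) 0 0 (step_sound _ 131 [(rh4821dcf828b9d7bf.shift 2 0), rh9b169f90753df4f9, (rhb735eabf0fdddb4f.shift 0 1)] (by decide +kernel))
noncomputable def rh84160caa18d776ad : CRef := CRef.mk (Pat.mk 0x70000000180000000000000000 0x280000003c0000003e000000fc0000007f000000f80000002c00000008 8 8) 0 0 (step_sound _ 132 [(rh68a777751bfeafdf.shift 3 1), rhbab7d8e7e69920b7, (rhcd32f2ed6c1181e7.shift 3 1), (rhe555d4bd8d5fba06.shift 1 1)] (by decide +kernel))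
noncomputable def rha85af438140d15d6 : CRef := CRef.mk (Pat.mk 0x180000000c0000000000000000 0x1c0000003c0000003f0000007f0000007c0000000c00000008 8 7) 0 0 (step_sound _ 101 [rh173f5190eb247b3e, (rh18965a982d73c794.shift 2 2)] (by decide +kernel))
noncomputable def rhc79f52178ef670c1 : CRef := CRef.mk (Pat.mk 0x180000000c000000000000000000000000 0x4000000040000000e0000001f0000007a0000000f0000007e0000001400000004 8 7) 0 0 (step_sound _ 97 [(rh53b3c253cb0c65f4.shift 0 3), rhc07e3bc9995bc44b] (by decide +kernel))
noncomputable def rhc2864e410573ea47 : CRef := CRef.mk (Pat.mk 0x300000001c000000000000000000000000 0x2c0000007e0000007f0000003f0000001c0000001f0000000e0000000c 8 7) 0 0 (step_sound _ 67 [rh17d4d6abcdf5f71d, (rhc3c1b8028b47d062.shift 0 1), (rhcf80391c5046a495.shift 3 0)] (by decide +kernel))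
noncomputable def rha8a5a5dab7e31fcc : CRef := CRef.mk (Pat.mk 0x80000001e0000000000000000 0x10000000100000003b000000fe0000007c00000008 8 8) 0 0 (step_sound _ 97 [(rh3244c3cc8379b070.shift 0 2), (rh3ff03111bf6f4781.shift 1 0)] (by decide +kernel))
noncomputable def rhca328f2d319ec7fd : CRef := CRef.mk (Pat.mk 0x20000000e000000020000000000000000 0x40000000700000007000000030000003e0000003e000000060000000600000006 8 6) 0 0 (step_sound _ 161 [rh197e276ad7430e67, (rh64bc0dab78a08b48.shift 0 2), (rhd4b4beefcd67f51e.shift 1 1)] (by decide +kernel))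
noncomputable def rh61c363d0e675b3a1 : CRef := CRef.mk (Pat.mk 0x300000001c00000000000000000000000000000000 0xc0000001c0000003f0000003f0000001c0000001c0000001c0000001c00000010 8 6) 0 0 (step_sound _ 99 [(rh17d4d6abcdf5f71d.shift 0 1), (rh50ac2b50bb418a55.shift 1 0), (rhcf80391c5046a495.shift 3 1), (rhf9366b6a121593ef.shift 3 1)] (by decide +kernel))
noncomputable def rhe173e287e1f5c09f : CRef := CRef.mk (Pat.mk 0x300000001c00000000000000000000000000000000 0x10000000770000003f0000001c0000007c0000003e0000001c00000010 8 7) 0 0 (step_sound _ 99 [(rh5cd6293173e0dd10.shift 2 0), (rhac615fa351d87bb7.shift 0 1), (rhcf80391c5046a495.shift 3 1), (rhf9366b6a121593ef.shift 3 1)] (by decide +kernel))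
noncomputable def rh5dce5d3386dd3f5d : CRef := CRef.mk (Pat.mk 0x70000000180000000000000000000000000000000000000000 0x50000000f70000007f000000f80000003e00000078000000380000001000000010 8 8) 0 0 (step_sound _ 131 [(rh74b9f7332e934e92.shift 0 3), (rh96aa665431d394bf.shift 1 0), (rhcf80391c5046a495.shift 3 2), (rhf9366b6a121593ef.shift 3 2)] (by decide +kernel))
noncomputable def rh882ec291dd2bfcc5 : CRef := CRef.mk (Pat.mk 0x180000000c00000000000000000000000000000000 0x40000000c0000000c0000001f000000780000001c0000000c0000001c0000001c00000010 8 7) 0 0 (step_sound _ 165 [(rh18965a982d73c794.shift 2 4), rhcb98c26545618a84] (by decide +kernel))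
noncomputable def rh808b195c6f05a13c : CRef := CRef.mk (Pat.mk 0x300000001c000000000000000000000000 0x1c0000001e0000003e0000007c0000001f0000001c0000001c 8 7) 0 0 (step_sound _ 67 [(rh4f496cf5d9e292d9.shift 1 2), rha794a1a900d37e57, (rhcf80391c5046a495.shift 3 0)] (by decide +kernel))
noncomputable def rha9a0d3d260e8190c : CRef := CRef.mk (Pat.mk 0x180000000c000000000000000000000000 0x800000008000000180000003f0000003f0000003400000034 8 6) 0 0 (step_sound _ 97 [rh41c96e6002827a83, (rh53b3c253cb0c65f4.shift 0 3)] (by decide +kernel))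
noncomputable def rh7d3f2254ae659f82 : CRef := CRef.mk (Pat.mk 0x180000000e000000000000000000000000 0x6000000070000001f0000003e0000003f0000003e00000038 8 6) 0 0 (step_sound _ 100 [(rh21460d2d48a35cb8.shift 0 1), (rh41d5a93e35cc8528.shift 0 1), rh6ae21157da276552, rhed9575cdee0ab1ad] (by decide +kernel))
noncomputable def rhc7b59412c8bc51f2 : CRef := CRef.mk (Pat.mk 0x1c000000060000000000000000000000000000000000000000 0x120000003b0000001f0000003e0000000f0000000e0000000e0000000e00000008 8 6) 0 0 (step_sound _ 130 [(rh2222a27c490588f5.shift 1 0), (rh7198c35631d94523.shift 0 3), (rh9bb5c7e5c08d4582.shift 1 2)] (by decide +kernel))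
noncomputable def rhf19a0f948decf2d7 : CRef := CRef.mk (Pat.mk 0x1e00000002000000000000000000000000 0x20000003b0000001e0000003e0000003c0000003c00000028 8 6) 0 0 (step_sound _ 161 [(rh3244c3cc8379b070.shift 0 4), (rh4f2be0098201907d.shift 1 0)] (by decide +kernel))
noncomputable def rhcedf66a5a00af1eb : CRef := CRef.mk (Pat.mk 0x1c00000004000000040000000000000000 0x1c0000001c0000000f0000000f0000003c00000018 8 6) 0 0 (step_sound _ 34 [(rh2f68792b6b779e96.shift 2 1), rh6e332a40b5bc3807] (by decide +kernel))
noncomputable def rh3f6737f1711fee08 : CRef := CRef.mk (Pat.mk 0x1c0000000400000004000000000000000000000000 0x140000001c0000000f0000000f0000003e0000001e0000000a 8 6) 0 0 (step_sound _ 66 [(rh6e332a40b5bc3807.shift 0 1), (rh8cdd36b03d57a2f6.shift 1 0), (rha8bc3cae4d77a08f.shift 1 0)] (by decide +kernel))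
noncomputable def rh99149b8fa113f17a : CRef := CRef.mk (Pat.mk 0xc000000040000000400000000 0x2000000060000000e0000000c0000003f0000003f0000007a 8 7) 0 0 (step_sound _ 130 [rh5478ed8d867427b5, (rh5abfc4c9d959be03.shift 1 0), (rh771d065bdc85bf2d.shift 1 0)] (by decide +kernel))
noncomputable def rh511f16d6a8efd815 : CRef := CRef.mk (Pat.mk 0x180000000c000000000000000000000000 0x100000001c0000001c0000000c0000001f000000780000000c0000001c0000001c00000014 8 7) 0 0 (step_sound _ 133 [(rh18965a982d73c794.shift 2 3), rh4cb1bbf913dd0201] (by decide +kernel))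
noncomputable def rhc7daa8d1f3096082 : CRef := CRef.mk (Pat.mk 0xc0000000700000000000000000000000000000000 0x80000000c0000000e000000060000000e0000000e000000070000003e0000000e0000000c00000008 8 6) 0 0 (step_sound _ 98 [(rh000637b5a81e86aa.shift 1 1), (rh3c0a4e78470073a7.shift 0 2), rh3f069944e50c0cbf] (by decide +kernel))
noncomputable def rh823b30352035020e : CRef := CRef.mk (Pat.mk 0x1800000018000000000000000000000000 0x800000028000000fc000000f80000007f0000007e0000003c 8 8) 0 0 (step_sound _ 67 [(rh44e4e1279b034b56.shift 1 0), rh61cc198c3ef38fdd, rh72b06522cc100222, (rh759e28e211287a74.shift 1 0), (rh7b42cdbb1c30cdfc.shift 1 0), (rh8ef2df872268fcd8.shift 2 0), (rh984757465dfc77d2.shift 1 0)] (by decide +kernel))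
noncomputable def rh9d50611360a342a6 : CRef := CRef.mk (Pat.mk 0xc0000000c000000080000000000000000 0x100000007c0000000c0000003c0000001f0000001f 8 7) 0 0 (step_sound _ 35 [rh15d5297dec01d07d, (rh7b1f1fb55310c477.shift 2 0)] (by decide +kernel))
noncomputable def rhcb08e8f3e7744577 : CRef := CRef.mk (Pat.mk 0xc0000000c000000000000000000000000 0x200000042000000770000007f0000007c000000740000003400000030 8 7) 0 0 (step_sound _ 100 [(rh79b3c29022acbdf3.shift 1 3), (rh92c3b01b8c0eeba7.shift 2 0), (rhfa7a3cfe5258c148.shift 0 1)] (by decide +kernel))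
noncomputable def rh9ade084dddea24e4 : CRef := CRef.mk (Pat.mk 0x300000001c000000000000000000000000 0xc0000001c0000003f0000003f0000001c0000007c0000003c0000000c 8 7) 0 0 (step_sound _ 67 [rh17d4d6abcdf5f71d, (rha83cd31d87cb1f6f.shift 2 1), (rhcf80391c5046a495.shift 3 0), (rhf9366b6a121593ef.shift 3 0)] (by decide +kernel))
noncomputable def rh8821c2bd9aef2490 : CRef := CRef.mk (Pat.mk 0x70000000180000000000000000000000000000000000000000 0xc0000001c000000ff0000007f000000380000001e00000078000000380000001000000010 8 8) 0 0 (step_sound _ 131 [(rh8b25784cbe4b9d62.shift 0 4), (rh96aa665431d394bf.shift 1 0), (rhadf429772c25fde0.shift 3 2)] (by decide +kernel))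
noncomputable def rha1c26a1eef72cd44 : CRef := CRef.mk (Pat.mk 0x100000001800000008000000080000000000000000 0x4000000740000007f0000007f0000007f0000003200000030 8 7) 0 0 (step_sound _ 98 [rh21073e81c29d5207, (rh69012675dfdb1a5b.shift 0 3), (rh878dc6d02bbc5ae1.shift 1 1), (rhd69c262cd33b94b3.shift 0 3)] (by decide +kernel))
noncomputable def rh738056410230bb09 : CRef := CRef.mk (Pat.mk 0x8000000080000000c000000040000000000000000 0x10000000180000007c0000007f0000007c0000007800000018 8 7) 0 0 (step_sound _ 132 [(rh02f99bbc1f377c55.shift 0 1), (rhd69c262cd33b94b3.shift 0 3), (rhdf39e05c8ba3c9a0.shift 2 0)] (by decide +kernel))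
noncomputable def rh8584be7a37828ff6 : CRef := CRef.mk (Pat.mk 0x100000001800000008000000080000000000000000 0x6000000770000007f0000003f0000000f0000000400000004 8 7) 0 0 (step_sound _ 98 [(rh02e7bb29240e64f1.shift 1 2), rh11dfa7a3e01fdaa8, (rh69012675dfdb1a5b.shift 0 3), (rhd69c262cd33b94b3.shift 0 3)] (by decide +kernel))
noncomputable def rhca054f508c8ed480 : CRef := CRef.mk (Pat.mk 0x2000000020000000300000001000000000 0x4c0000006c000003ff000003fe000007fc000000a0 8 11) 0 0 (step_sound _ 70 [(rh71208a7c7a79ece6.shift 0 1), (rha83d0a1d851c6a27.shift 3 1), (rhc4979968611927b3.shift 3 0)] (by decide +kernel))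
noncomputable def rh06578888b54c1cbb : CRef := CRef.mk (Pat.mk 0x1000000018000000080000000800000000 0x70000001f0000007f0000006f0000007c00000034 8 7) 0 0 (step_sound _ 131 [rh0668c447fd80549a, rh7ae5e02f808aab79, (rhcf85c92937975d4d.shift 1 1)] (by decide +kernel))
noncomputable def rhd58439520543e079 : CRef := CRef.mk (Pat.mk 0x1000000018000000080000000800000000 0xe7000000ff0000001f0000007e0000007e00000034 8 8) 0 0 (step_sound _ 131 [rh0668c447fd80549a, (rh92645babed6d6d29.shift 0 1), (rhc71ed80c6d39935c.shift 1 0)] (by decide +kernel))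
noncomputable def rhdc3e0d60bc552096 : CRef := CRef.mk (Pat.mk 0x100000001800000008000000080000000000000000 0x700000007f0000007f0000007f0000003000000030 8 7) 0 0 (step_sound _ 98 [rh04cc3fc4fec38a6f, (rh878dc6d02bbc5ae1.shift 1 1), (rhd69c262cd33b94b3.shift 0 3), rhfb57aa2230d287ad] (by decide +kernel))
noncomputable def rh31a87a1ff12dd878 : CRef := CRef.mk (Pat.mk 0x20000000300000001000000000 0x2000000020000003f7000001fe000001df00000040 8 10) 0 0 (step_sound _ 133 [rh1af79435f0b03d1e, (rh5c5e593799055d58.shift 4 1)] (by decide +kernel))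
noncomputable def rh89c3c274f5fef566 : CRef := CRef.mk (Pat.mk 0x80000000c000000040000000000000000 0x120000007f0000003e0000003c0000000f0000000e 8 7) 0 0 (step_sound _ 34 [(rh71222050f2c63a3a.shift 2 0), rhff3acc64d271735e] (by decide +kernel))
noncomputable def rha54ff5f1469b926c : CRef := CRef.mk (Pat.mk 0x8000000080000000c000000040000000000000000 0x10000000180000007c0000007f0000007c0000003800000018 8 7) 0 0 (step_sound _ 132 [(rh02f99bbc1f377c55.shift 0 1), (rh602126a74abd602f.shift 2 0), (rh69012675dfdb1a5b.shift 0 3)] (by decide +kernel))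
noncomputable def rh73507e1ce6a5cba2 : CRef := CRef.mk (Pat.mk 0x1000000010000000080000000800000000 0x1000000014000001f7000000fe000001ef0000002800000028 8 9) 0 0 (step_sound _ 99 [rh5f7f162eb605c3bb, (rh71222050f2c63a3a.shift 3 0)] (by decide +kernel))
noncomputable def rh4aa536f5db4f4e84 : CRef := CRef.mk (Pat.mk 0x4000000040000000600000002000000000000000000000000 0x80000001c0000003f0000003e0000003f0000001c0000001c00000004 8 6) 0 0 (step_sound _ 132 [(rh70257badbfe23da7.shift 0 1), (rh8aeae207ef4e32d0.shift 0 3), (rhb35240c28645ef62.shift 1 0)] (by decide +kernel))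
noncomputable def rh4e7bdb9570eba2a2 : CRef := CRef.mk (Pat.mk 0x1000000018000000080000000000000000 0x1000000010000001f0000001fc000003ff0000002000000020 8 10) 0 0 (step_sound _ 164 [rh09d90fccc1dddeae, (rh5c5e593799055d58.shift 3 2)] (by decide +kernel))
noncomputable def rh3f961069627c6025 : CRef := CRef.mk (Pat.mk 0x100000001800000008 0x600000006000001ff000001fe0000038f 8 10) 0 0 (step_sound _ 37 [rh2820ca9a6c4f41b4, (rh30e62d20ed40d720.shift 1 0), rh7073cfec9de6edf1, (rha83d0a1d851c6a27.shift 2 0)] (by decide +kernel))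
noncomputable def rhb4977aae2fd4ba1d : CRef := CRef.mk (Pat.mk 0x10000000180000000800000000 0x2600000026000001ff000000fe000001df00000040 8 9) 0 0 (step_sound _ 69 [(rh032b4c11083229d5.shift 2 0), (rh7073cfec9de6edf1.shift 0 1), (rha83d0a1d851c6a27.shift 2 1)] (by decide +kernel))
noncomputable def rh9753d1c3fd7605db : CRef := CRef.mk (Pat.mk 0x1000000018000000080000000000000000 0x1000000030000000300000007f0000007f0000003000000020 8 7) 0 0 (step_sound _ 164 [(rh5c5e593799055d58.shift 3 2), rhabd22417ebc6728d] (by decide +kernel))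
noncomputable def rh5ea132b3d9131bda : CRef := CRef.mk (Pat.mk 0x200000002000000030000000100000000000000000 0x20000001be000001fe000001ff000000e000000040 8 9) 0 0 (step_sound _ 102 [rh218478c7ebdb9423, (rha83d0a1d851c6a27.shift 3 2), (rhc8a05dafab239644.shift 3 0)] (by decide +kernel))
noncomputable def rhbf85af3acabbf3e0 : CRef := CRef.mk (Pat.mk 0x100000001000000018000000080000000000000000 0x6000000160000007f000000fe000001ef0000002000000020 8 9) 0 0 (step_sound _ 101 [(rh7073cfec9de6edf1.shift 0 2), (rha83d0a1d851c6a27.shift 2 2), (rhc32688944b7f7dbb.shift 2 0)] (by decide +kernel))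
noncomputable def rh284f21bb42c27075 : CRef := CRef.mk (Pat.mk 0x40000000600000002000000000000000000000000 0xc0000000c0000000f0000003e0000003f0000003c0000000c00000004 8 6) 0 0 (step_sound _ 194 [rh5467fdb52ec9fccd, (rh5c5e593799055d58.shift 1 3)] (by decide +kernel))
noncomputable def rh8a69ee81990625dd : CRef := CRef.mk (Pat.mk 0x1000000038000000080000000000000000 0x20000000770000003e0000007e000000f000000070 8 8) 0 0 (step_sound _ 98 [(rh41e473c33c682c1a.shift 2 0), (rh80c09f69edf603c5.shift 0 2), (rhec46bd5500c722c9.shift 1 3)] (by decide +kernel))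
noncomputable def rh81af6900ef6bfaa6 : CRef := CRef.mk (Pat.mk 0x80000000c00000004000000000000000000000000 0x18000000180000007e0000007f0000007f000000380000001800000008 8 7) 0 0 (step_sound _ 195 [(rh5c5e593799055d58.shift 2 3), rh64304299c8ec0375] (by decide +kernel))
noncomputable def rh31c4a879c19bd04c : CRef := CRef.mk (Pat.mk 0x4000000060000000200000002000000000 0x1000000190000000fe000001ff0000007e0000006000000040 8 9) 0 0 (step_sound _ 132 [(rh0a8a3382a8b650ff.shift 1 0), (rh76be1e2376d339cc.shift 0 1), (rhbab796f6dafe9186.shift 4 1), (rhf8e4a327f3068606.shift 3 1)] (by decide +kernel))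
noncomputable def rh7befa9bc3088fc99 : CRef := CRef.mk (Pat.mk 0x100000000c000000000000000000000000 0x16000000170000003f0000007f0000007e0000002c00000028 8 7) 0 0 (step_sound _ 100 [(rh4e87534b133d92ab.shift 0 1), (rhce399f4db0f11680.shift 1 0), rhfefd7be2d273f2ab] (by decide +kernel))
noncomputable def rh69d48c9fda51b0a9 : CRef := CRef.mk (Pat.mk 0x80000000e0000000000000000000000000000000000000000 0x140000001c0000001c000000080000001f0000003c0000001c0000001c0000001c00000004 8 6) 0 0 (step_sound _ 131 [(rh2a033fa8425e5954.shift 2 0), (rh5a8abb721f11b584.shift 0 1), (rh9909eeda0ef2ed2c.shift 0 4)] (by decide +kernel))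
noncomputable def rhcc357acca802016d : CRef := CRef.mk (Pat.mk 0x80000000e000000040000000000000000 0x1d8000000fe0000007f0000003c00000014 8 9) 0 0 (step_sound _ 34 [rh3cc20009bad4b8f6, (rh71222050f2c63a3a.shift 2 0)] (by decide +kernel))
noncomputable def rh74fd79af0c981a08 : CRef := CRef.mk (Pat.mk 0x180000000e000000000000000000000000 0x1c0000003c0000003f0000000e0000000f0000003c0000001c 8 6) 0 0 (step_sound _ 130 [(rh18965a982d73c794.shift 1 3), rha30ea49c5a3ef97f] (by decide +kernel))
noncomputable def rhb9ed17ccdff3e9d0 : CRef := CRef.mk (Pat.mk 0x300000001c000000000000000000000000 0x200000007e0000007e0000003f0000001c0000007f0000001e0000001c 8 7) 0 0 (step_sound _ 67 [rh12d04ed5fd4452a9, (rhc3c1b8028b47d062.shift 0 1), (rhcf80391c5046a495.shift 3 0), (rhf9366b6a121593ef.shift 3 0)] (by decide +kernel))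
noncomputable def rhced3c8b6c317fd2c : CRef := CRef.mk (Pat.mk 0x300000001c0000000000000000 0x28000000280000007f0000007f0000001c0000001400000010 8 7) 0 0 (step_sound _ 99 [(rh18965a982d73c794.shift 2 2), rhe3a17efe646c4d67] (by decide +kernel))
noncomputable def rhe71f6c493eb09867 : CRef := CRef.mk (Pat.mk 0x180000000c0000000400000000 0x1c0000001f000000380000000c0000007c00000014 8 7) 0 0 (step_sound _ 131 [(rh5c5e593799055d58.shift 2 1), rhd387986c43c61197] (by decide +kernel))
noncomputable def rheedb2b5c15b6c38d : CRef := CRef.mk (Pat.mk 0x2000000038000000100000000000000000 0x280000003f0000007c000000f8000000f00000004000000040 8 8) 0 0 (step_sound _ 165 [(rh5c5e593799055d58.shift 4 2), rhf5ff55c32eec0d06] (by decide +kernel))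
noncomputable def rh8d2ba9de3dec7504 : CRef := CRef.mk (Pat.mk 0x80000000e00000004 0xf0000000f0000001f0000003e00000077 8 7) 0 0 (step_sound _ 99 [(rh5c5e593799055d58.shift 2 0), rhd74229651812eb24] (by decide +kernel))
noncomputable def rh21b4844bd5da6de6 : CRef := CRef.mk (Pat.mk 0x100000003c000000000000000000000000 0xa0000000e0000000e0000000f0000003e0000003c000000060000000400000004 8 6) 0 0 (step_sound _ 130 [(rh3244c3cc8379b070.shift 1 3), rha39f787ec43db729] (by decide +kernel))
noncomputable def rh6855fb38cc5540f0 : CRef := CRef.mk (Pat.mk 0x80000000e000000040000000000000000 0x2000001db000000fe0000007f0000000400000004 8 9) 0 0 (step_sound _ 34 [(rh5edaef764c440052.shift 0 1), (rh71222050f2c63a3a.shift 2 0)] (by decide +kernel))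
noncomputable def rh7f4251fee00319a0 : CRef := CRef.mk (Pat.mk 0x8000000080000000c0000000400000000 0x170000001f0000007c0000003f0000001f0000001a 8 7) 0 0 (step_sound _ 35 [rh04aa474d63f24212, rh4983ef42b6c40cbc, rhb05b3e1fe4c550a7] (by decide +kernel))
noncomputable def rhd8618c4358e2ef3d : CRef := CRef.mk (Pat.mk 0x1000000018000000080000000800000000 0x8000000180000007c0000001f0000007c00000074 8 7) 0 0 (step_sound _ 66 [(rh69012675dfdb1a5b.shift 0 2), (rh9c9d5eacd602763e.shift 2 0), rhd3137fddc9a993b2, (rhd69c262cd33b94b3.shift 0 2)] (by decide +kernel))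
noncomputable def rhe5e425980db6b0c3 : CRef := CRef.mk (Pat.mk 0x8000000080000000c00000004000000000000000000000000 0x6000000170000007f0000007c0000007f0000006e0000002a0000000800000008 8 7) 0 0 (step_sound _ 164 [(rh06e1ce0a4f66cb8c.shift 1 2), (rh0bb882ba86b2372d.shift 0 4), rh1340b6264a5f6712, (rh574fdbf07bdd18b9.shift 0 4)] (by decide +kernel))
noncomputable def rh57c3f06fcc0ee596 : CRef := CRef.mk (Pat.mk 0x2000000030000000100000001000000000 0x80000001f7000001fe000001fe000000f000000060 8 9) 0 0 (step_sound _ 102 [rh01d1663f36a1afd5, (rh04048a4a2acf2c94.shift 3 2), (rh2820ca9a6c4f41b4.shift 1 2), (rhaeb58d3deea508ca.shift 3 0)] (by decide +kernel))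
noncomputable def rhacf2b900a4067360 : CRef := CRef.mk (Pat.mk 0x1000000018000000080000000800000000 0xa0000007b0000007f0000007f0000006f00000064 8 7) 0 0 (step_sound _ 66 [(rh0bb882ba86b2372d.shift 0 2), (rh574fdbf07bdd18b9.shift 0 2), rha320349a308d71cd, (rhc8b6fc5f57303414.shift 1 0)] (by decide +kernel))
noncomputable def rh2d10b9f8953effcb : CRef := CRef.mk (Pat.mk 0x1000000018000000080000000000000000 0x2000000070000001f0000000fe000001ef0000007c00000078 8 9) 0 0 (step_sound _ 35 [rh1be0fdcbf761e1ec, (rh71222050f2c63a3a.shift 3 0)] (by decide +kernel))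
noncomputable def rh0da929f32bda1bf5 : CRef := CRef.mk (Pat.mk 0x80000000e000000040000000000000000 0x100000003c000000fe0000007f0000007800000038 8 8) 0 0 (step_sound _ 100 [(rh41e473c33c682c1a.shift 1 0), (rhaf9f2efc81a8312b.shift 0 2), (rhd2fecc6c0af6720b.shift 1 2)] (by decide +kernel))
noncomputable def rhe271434c4e95cfbd : CRef := CRef.mk (Pat.mk 0x100000001000000018000000080000000000000000 0x10000001f0000000fe000001ef0000007c00000028 8 9) 0 0 (step_sound _ 35 [(rh71222050f2c63a3a.shift 3 0), rhab2d585c5387876f] (by decide +kernel))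
noncomputable def rhbcd7662f776837ff : CRef := CRef.mk (Pat.mk 0x80000000c000000040000000400000000 0x10000000160000007c000001ff000000770000003e0000001a 8 9) 0 0 (step_sound _ 132 [(rh0bb882ba86b2372d.shift 0 3), (rh574fdbf07bdd18b9.shift 0 3), rha98c2a31c0f56d9b, (rhbf34592994afb4e3.shift 1 0)] (by decide +kernel))
noncomputable def rh339c2597084ba50b : CRef := CRef.mk (Pat.mk 0x8000000080000000c00000004000000000000000000000000 0x170000001f0000007c0000001f0000000c000000080000000800000008 8 7) 0 0 (step_sound _ 164 [(rh02f8eec3bbe38b5c.shift 0 2), rh1340b6264a5f6712, (rh574fdbf07bdd18b9.shift 0 4)] (by decide +kernel))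
noncomputable def rh087e2524b2b80f50 : CRef := CRef.mk (Pat.mk 0x8000000080000000c00000004000000000000000000000000 0x140000001f000000780000001f0000003c000000180000001800000008 8 7) 0 0 (step_sound _ 164 [(rh02f99bbc1f377c55.shift 0 2), rh4943a4b36c7768fd, (rh574fdbf07bdd18b9.shift 0 4)] (by decide +kernel))
noncomputable def rhb5be537dd74ca260 : CRef := CRef.mk (Pat.mk 0x8000000080000000c00000004000000000000000000000000 0x140000001c000000fc0000007c0000007f0000007b0000001800000008 8 8) 0 0 (step_sound _ 132 [(rh04048a4a2acf2c94.shift 1 3), rh0c5a80766506bbb7, (rh6476892f2a819723.shift 1 3), (rh7ff9e584281c20db.shift 2 0), (rhc8a05dafab239644.shift 1 1)] (by decide +kernel))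
noncomputable def rh2745c79427677cee : CRef := CRef.mk (Pat.mk 0x80000000e000000040000000000000000 0x10000000380000003e0000003f0000007800000038 8 7) 0 0 (step_sound _ 100 [(rh41e473c33c682c1a.shift 1 0), (rhaf9f2efc81a8312b.shift 0 2)] (by decide +kernel))
noncomputable def rh3b8dd4c0895a4dc0 : CRef := CRef.mk (Pat.mk 0x8000000080000000c00000004000000000000000000000000 0x140000001f00000078000000ff0000003e000000180000001800000008 8 8) 0 0 (step_sound _ 164 [(rh02f99bbc1f377c55.shift 0 2), (rh04450f3814d72d18.shift 1 2), rh4943a4b36c7768fd, (rh574fdbf07bdd18b9.shift 0 4)] (by decide +kernel))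
noncomputable def rh8223fe241cad16b2 : CRef := CRef.mk (Pat.mk 0x1000000018000000080000000000000000 0x2000000060000001f0000000fe000001ff0000007c00000028 8 9) 0 0 (step_sound _ 35 [rh28cb393557aa39b6, (rh71222050f2c63a3a.shift 3 0)] (by decide +kernel))
noncomputable def rh6325f98de4c07283 : CRef := CRef.mk (Pat.mk 0x300000001c000000000000000000000000 0x200000007e0000007f0000003f0000001c0000007f0000001e0000001c 8 7) 0 0 (step_sound _ 67 [rhac615fa351d87bb7, (rhc3c1b8028b47d062.shift 0 1), (rhcf80391c5046a495.shift 3 0), (rhf9366b6a121593ef.shift 3 0)] (by decide +kernel))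
noncomputable def rh7a1e67a95839be7d : CRef := CRef.mk (Pat.mk 0x180000000c00000000000000000000000000000000 0x80000001c0000001f0000007c0000001c0000001c0000001c0000001c00000004 8 7) 0 0 (step_sound _ 165 [(rh18965a982d73c794.shift 2 4), rhaab9b0699763c76c] (by decide +kernel))
noncomputable def rh33d890337ba0c142 : CRef := CRef.mk (Pat.mk 0x7000000018000000000000000000000000 0x8000000380000003800000030000000fe0000007f00000038000000f8000000f800000038 8 8) 0 0 (step_sound _ 164 [(rh107535a86ee6c95d.shift 3 0), rhbf5968149ca838c0, (rhcd32f2ed6c1181e7.shift 3 2)] (by decide +kernel))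
noncomputable def rh55919c76cd5903d0 : CRef := CRef.mk (Pat.mk 0x2000000030000000100000000000000000 0x8000003ee000001fe000003bf0000001000000010 8 10) 0 0 (step_sound _ 36 [(rh6ab4da2e1edad5bc.shift 0 1), (rh71222050f2c63a3a.shift 4 0)] (by decide +kernel))
noncomputable def rh397974b86b5260cf : CRef := CRef.mk (Pat.mk 0x400000004000000060000000200000000000000000 0x98000000d8000001fc000001ff0000007c000000d000000010 8 9) 0 0 (step_sound _ 68 [(rh29d1e948ed6ffbf0.shift 1 2), rh688b40f5b724c52c, (rh69012675dfdb1a5b.shift 2 2)] (by decide +kernel))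
noncomputable def rh4f7e13820c3a3cbc : CRef := CRef.mk (Pat.mk 0x100000001800000008000000080000000000000000 0x24000000770000007f0000001f0000003f0000003200000030 8 7) 0 0 (step_sound _ 98 [rh58685d48ba66daf0, (rh69012675dfdb1a5b.shift 0 3), (rha87de843d45cdf12.shift 0 2)] (by decide +kernel))
noncomputable def rh911cc8ede2e6a26e : CRef := CRef.mk (Pat.mk 0x1000000018000000080000000800000000 0x8000000180000007c0000001f0000007c00000074 8 7) 0 0 (step_sound _ 66 [rh319ab92dc6f1177b, (rh60c953c938a463e9.shift 2 0), (rhd69c262cd33b94b3.shift 0 2)] (by decide +kernel))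
noncomputable def rhd4b12a508f247d55 : CRef := CRef.mk (Pat.mk 0x8000000080000000c0000000400000000 0x4000000170000001f0000007c0000001f0000000c00000008 8 7) 0 0 (step_sound _ 100 [(rh0bb882ba86b2372d.shift 0 2), (rh574fdbf07bdd18b9.shift 0 2), rh6dbae7606a0dbc25, rhcd26e4b6f232bfc1] (by decide +kernel))
noncomputable def rh1d898b64d5795187 : CRef := CRef.mk (Pat.mk 0x10000000100000001800000008000000000000000000000000 0x2c0000003f0000007f000000780000001f000000340000003000000030 8 7) 0 0 (step_sound _ 100 [(rh82c6aec0c6f8e399.shift 3 0), (rha10abbb88ab9db0f.shift 1 2), (rhbe0ce50172d083f5.shift 0 2)] (by decide +kernel))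
noncomputable def rh442c0f48bb8093ae : CRef := CRef.mk (Pat.mk 0x2000000030000000100000001000000000 0x40000000c0000001e0000007e0000003e0000001f0000007c00000028 8 7) 0 0 (step_sound _ 98 [(rh421638710a67a938.shift 1 1), (rh697fdbd0ba0c1e86.shift 1 0), (rh879cdb683ee6f2d5.shift 0 2), (rhe06a95689a702a6c.shift 1 1)] (by decide +kernel))
noncomputable def rh75e15fdb2704ef59 : CRef := CRef.mk (Pat.mk 0x8000000080000000c0000000400000000 0x160000001f0000007e0000000f0000000e00000008 8 7) 0 0 (step_sound _ 100 [(rh0bb882ba86b2372d.shift 0 2), rh4d09c900b3d61f5e, rh65354f755c89f0e1, (rhf03d2d27d34cf817.shift 1 0)] (by decide +kernel))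
noncomputable def rhd8e3d07b132af394 : CRef := CRef.mk (Pat.mk 0x180000000e000000000000000000000000 0x3000000036000000370000001f0000001e0000003f0000003e00000038 8 6) 0 0 (step_sound _ 100 [(rh9767a395d383a9c4.shift 1 0), rhed9575cdee0ab1ad, (rhf9971318f3fd5918.shift 0 1)] (by decide +kernel))
noncomputable def rhc9a993b650590e4c : CRef := CRef.mk (Pat.mk 0x70000000180000000000000000 0x380000003c000000ee0000007f000000380000001000000010 8 8) 0 0 (step_sound _ 133 [(rh17de2a2b577b904b.shift 0 2), (rh8958290225f88f65.shift 1 0), (rhcf80391c5046a495.shift 4 0)] (by decide +kernel))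
noncomputable def rhb0f2ccc87a4be861 : CRef := CRef.mk (Pat.mk 0x10000000180000000800000000 0x80000001c0000003e000000ff0000003e0000001800000010 8 8) 0 0 (step_sound _ 132 [(rh5c5e593799055d58.shift 3 1), rh85b8fba1ff373c5a] (by decide +kernel))
noncomputable def rh4c179ba93d9b6e37 : CRef := CRef.mk (Pat.mk 0x300000001c000000000000000000000000 0xc0000001c0000001f0000003f0000001c0000007c0000003c0000000c 8 7) 0 0 (step_sound _ 67 [rh17d4d6abcdf5f71d, (rhc4542b26a6e488b6.shift 1 1), (rhcf80391c5046a495.shift 3 0), (rhfff1cd42eb66e1fe.shift 2 0)] (by decide +kernel))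
noncomputable def rh4836c9c8d2f3a536 : CRef := CRef.mk (Pat.mk 0x380000000c00000000000000000000000000000000 0x40000000c0000000c0000000f0000003c0000001c0000001c0000001c0000001c00000004 8 6) 0 0 (step_sound _ 195 [(rh5151555350bd12de.shift 2 0), (rhb6ae154c262e3c9b.shift 0 1), (rhcd32f2ed6c1181e7.shift 2 3)] (by decide +kernel))
noncomputable def rh2d2c6491b71ee0c6 : CRef := CRef.mk (Pat.mk 0x40000000600000002000000020 0x5000000050000003de000001fe000003b7000000a0 8 10) 0 0 (step_sound _ 134 [(rh5c5e593799055d58.shift 5 1), rhfec59bd811f888c7] (by decide +kernel))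
noncomputable def rh5b27c2e09512d685 : CRef := CRef.mk (Pat.mk 0x800000008000000080000000c0000000000000000 0x140000001f000000380000007e0000007e0000007000000020 8 7) 0 0 (step_sound _ 68 [rh54c6e39b936ff2fb, (rh55afc6a59410cf00.shift 3 1)] (by decide +kernel))
noncomputable def rhc0b77204d0e3835d : CRef := CRef.mk (Pat.mk 0x1000000018000000080000000800000000 0xc0000000c0000000c000003fc000001ff000000fc000000fc00000074 8 10) 0 0 (step_sound _ 98 [(rha11dfd15f08f96e3.shift 1 3), rhc09ff3c233d14d93, (rhfe623a08e71bf229.shift 2 0)] (by decide +kernel))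
noncomputable def rhb90ae800a40d2762 : CRef := CRef.mk (Pat.mk 0x2000000030000000100000001000000000 0x180000001800000058000003f7000001fe000000f80000003c00000028 8 10) 0 0 (step_sound _ 99 [(rh032bd7a44c6ae170.shift 0 2), (rh5dec5e73a267a1c4.shift 1 2), (rh6528f20ab25f37be.shift 2 0), (rha11dfd15f08f96e3.shift 2 3)] (by decide +kernel))
noncomputable def rh4f82b1f71b9de512 : CRef := CRef.mk (Pat.mk 0x2000000030000000100000000000000000 0x800000008000001ef000000fe000001f80000001000000010 8 9) 0 0 (step_sound _ 36 [(rh495cbdd71b1da586.shift 0 1), (rh71222050f2c63a3a.shift 4 0)] (by decide +kernel))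
noncomputable def rhe52cdbaf62b59648 : CRef := CRef.mk (Pat.mk 0x400000007000000020000000000000000 0x80000001f0000003f0000001f0000003c0000001c 8 6) 0 0 (step_sound _ 99 [rh41e473c33c682c1a, (rha83d0a1d851c6a27.shift 0 2)] (by decide +kernel))
noncomputable def rh81a9389f1f5dc579 : CRef := CRef.mk (Pat.mk 0x400000004000000060000000200000000000000000 0x1000000050000003de000001fe000003b7000000a000000020 8 10) 0 0 (step_sound _ 37 [(rh71222050f2c63a3a.shift 5 0), (rhfec59bd811f888c7.shift 0 1)] (by decide +kernel))
noncomputable def rh0ae472aab0c06fcd : CRef := CRef.mk (Pat.mk 0x10000000180000000800000008 0x20000000600000007000000ff0000007f0000000c00000008 8 8) 0 0 (step_sound _ 66 [rh056e846e89b32726, rh1adc568348349b2f, (rh9c09d8cab65b9a93.shift 1 0), (rha11dfd15f08f96e3.shift 1 2)] (by decide +kernel))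
noncomputable def rh671862b15ef75ee6 : CRef := CRef.mk (Pat.mk 0x1000000010000000180000000800000000 0x240000003e000000ff000000fe000000cc00000040 8 8) 0 0 (step_sound _ 101 [(rh0bb882ba86b2372d.shift 1 2), (rh0f790d0ff3e8085e.shift 0 1), (rh574fdbf07bdd18b9.shift 1 2), rh6d16138496448551] (by decide +kernel))
noncomputable def rhbd6ba788bee806b0 : CRef := CRef.mk (Pat.mk 0x400000006000000020000000200000000 0x6000000060000001e0000001b0000001f0000000d 8 5) 0 0 (step_sound _ 129 [(rh2f68792b6b779e96.shift 1 1), rh54bb759cf5cfcc86] (by decide +kernel))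
noncomputable def rh17b312a09f581a0e : CRef := CRef.mk (Pat.mk 0x1c000000060000000000000000 0x1e0000001f0000003c0000001f0000007e0000007700000034 8 7) 0 0 (step_sound _ 131 [(rh4821dcf828b9d7bf.shift 2 0), (rhadf429772c25fde0.shift 2 0), (rhb735eabf0fdddb4f.shift 0 1), rhb73bb28b29792dfe] (by decide +kernel))
noncomputable def rh7134d36bd79c7be4 : CRef := CRef.mk (Pat.mk 0x180000000e0000000000000000 0x1c0000001e0000007c0000001f000000fe000000ef0000000a 8 8) 0 0 (step_sound _ 132 [(rh427ea880d2d8aa38.shift 0 1), rh9e4dce6b4d262c9f, (rhf9366b6a121593ef.shift 3 0)] (by decide +kernel))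
noncomputable def rhe8b9d79fcaff8faf : CRef := CRef.mk (Pat.mk 0x70000000100000000000000000 0x200000002000000770000003fe000003d70000005000000050 8 11) 0 0 (step_sound _ 133 [rh02dcb5a744454fc1, (rh4821dcf828b9d7bf.shift 4 0), (rha88d12cce40942f8.shift 2 0)] (by decide +kernel))
noncomputable def rhc2bf1036b5227ef6 : CRef := CRef.mk (Pat.mk 0x80000001c000000040000000000000000 0x380000001f0000003f0000003400000034 8 6) 0 0 (step_sound _ 34 [(rh71222050f2c63a3a.shift 2 0), rhda0ce9ab8226a251] (by decide +kernel))
noncomputable def rh2b11313d1181cecc : CRef := CRef.mk (Pat.mk 0x1000000010000000180000000800000000 0x80000000e0000003e000000ff000000fe0000001f00000006 8 8) 0 0 (step_sound _ 101 [rh09bb80eea5cd7b1b, (rh0bb882ba86b2372d.shift 1 2), (rh574fdbf07bdd18b9.shift 1 2), (rhfed2fc82ea227d2b.shift 0 1)] (by decide +kernel))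
noncomputable def rh723130cfc78dd78d : CRef := CRef.mk (Pat.mk 0x7000000080000000000000000 0x4000000040000003e0000007f000000fc0000000800000008 8 8) 0 0 (step_sound _ 99 [rh8a1b35540753cdcf, (rhe25b0a99195a5d59.shift 0 2)] (by decide +kernel))
noncomputable def rhed075085dc98e0bc : CRef := CRef.mk (Pat.mk 0x100000001000000018000000080000000000000000 0xc0000001e000001f7000000fe000001ef0000002000000020 8 9) 0 0 (step_sound _ 101 [rha6c38ec6d730dbf9, (rhd5a3064d5909d330.shift 0 2), (rhfa35e196e150edb4.shift 2 2)] (by decide +kernel))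
noncomputable def rh6b40f2f0c8f91763 : CRef := CRef.mk (Pat.mk 0x7000000018000000000000000000000000 0x3800000038000000ff0000007f000000d80000004c0000000c0000000c 8 8) 0 0 (step_sound _ 131 [(rh205bbac36a8896ec.shift 2 0), (rha58ddf8813c4b875.shift 0 3), (rhf41a34b41b8c2138.shift 2 2)] (by decide +kernel))
noncomputable def rha29b6c4dc0e510b1 : CRef := CRef.mk (Pat.mk 0x180000000c000000000000000000000000 0x6000000070000001f000000ff000000070000000600000004 8 8) 0 0 (step_sound _ 97 [(rh53b3c253cb0c65f4.shift 0 3), rhd8e24bad4c6be263] (by decide +kernel))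
noncomputable def rh22437f63d0b1151e : CRef := CRef.mk (Pat.mk 0x1000000010000000180000000800000000 0x2e0000003e00000078000000f8000000ff00000027 8 8) 0 0 (step_sound _ 36 [rh1e87bf36e9e60a85, (rh754ed8af3fcc8232.shift 1 1), (rh83e1b7a4b0de40d5.shift 1 0)] (by decide +kernel))
noncomputable def rhab5cef17dcc64b28 : CRef := CRef.mk (Pat.mk 0x1000000010000000180000000800000000 0x2f0000003e0000007f0000001e0000007800000020 8 7) 0 0 (step_sound _ 36 [(rh754ed8af3fcc8232.shift 1 1), (rhba06e0cd05c9942f.shift 0 1), (rhfe557af9112f51d6.shift 1 0)] (by decide +kernel))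
noncomputable def rhbc23c024a2cbbe32 : CRef := CRef.mk (Pat.mk 0x2000000030000000100000001000000000 0x140000001c0000001e000000fe0000003e0000007f0000001800000008 8 8) 0 0 (step_sound _ 99 [(rh005565697767bc1d.shift 1 0), (rh4c3d7c9c1a631d27.shift 1 0), (rh5dec5e73a267a1c4.shift 1 2), (rh7f0f728c796044ac.shift 0 2)] (by decide +kernel))
noncomputable def rh166d10523f25c18a : CRef := CRef.mk (Pat.mk 0x80000000c000000040000000400000000 0x400000006000000160000007f000000ff0000007c0000002400000020 8 8) 0 0 (step_sound _ 132 [(rh466b977a27e844ea.shift 0 1), (rh4ede29b07ec7fd7e.shift 1 0), (rh69012675dfdb1a5b.shift 0 3), (rhd69c262cd33b94b3.shift 0 3)] (by decide +kernel))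
noncomputable def rh6b6a46b759602c97 : CRef := CRef.mk (Pat.mk 0x8000000080000000c00000000 0x100000001c0000001c0000000e0000001f0000007b0000001f0000000a 8 7) 0 0 (step_sound _ 68 [(rh574fdbf07bdd18b9.shift 0 1), rha12070af9b315777, rhaba50f5f0dc791b7] (by decide +kernel))
noncomputable def rhf95a4466acfc297b : CRef := CRef.mk (Pat.mk 0x8000000180000000c00000000000000000000000000000000 0x200000002000000170000001f0000001f0000001f0000000c000000180000001800000010 8 5) 0 0 (step_sound _ 129 [rh10a1b0ae6227b6e5, (rh53b3c253cb0c65f4.shift 0 4)] (by decide +kernel))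
noncomputable def rh8ee2a6f83e328992 : CRef := CRef.mk (Pat.mk 0x200000006000000030000000000000000000000000000000000000000 0x4000000060000001e0000000f0000001f0000000e000000070000000300000001 8 5) 0 0 (step_sound _ 195 [(rh18965a982d73c794.shift 0 5), rheb31752aef35e3d3] (by decide +kernel))
noncomputable def rh262f116af076d964 : CRef := CRef.mk (Pat.mk 0x1000000018000000080000000000000000 0x40000000e0000007f0000007f0000001f0000003c00000014 8 7) 0 0 (step_sound _ 66 [(rh184c42aa2f8eb37b.shift 1 1), (rh69012675dfdb1a5b.shift 0 2), rh6dc9537a839cde77] (by decide +kernel))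
noncomputable def rh816370e7b3ab1167 : CRef := CRef.mk (Pat.mk 0x40000000c000000060000000000000000000000000000000000000000 0xa0000000f0000003c0000000e0000000e0000000c0000000e0000000600000002 8 6) 0 0 (step_sound _ 196 [(rh18965a982d73c794.shift 1 5), rh77b9dc7c4dff882c] (by decide +kernel))
noncomputable def rh07fbd21a758b89f3 : CRef := CRef.mk (Pat.mk 0x8000000180000000c0000000000000000 0x200000002000000170000001f0000001f0000000f0000000c00000008 8 5) 0 0 (step_sound _ 65 [(rh53b3c253cb0c65f4.shift 0 2), rhafc6315312d6e320] (by decide +kernel))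
noncomputable def rh662e8142c34758db : CRef := CRef.mk (Pat.mk 0x8000000180000000c0000000000000000000000000000000000000000 0x40000000f0000007c0000001c0000001c000000180000001c0000000c00000004 8 7) 0 0 (step_sound _ 197 [(rh18965a982d73c794.shift 2 5), rh7eda0b979469865e] (by decide +kernel))
noncomputable def rh76892d551264aa0e : CRef := CRef.mk (Pat.mk 0x8000000180000000c0000000000000000 0x2000000020000000b0000001f0000003f0000007c00000010 8 7) 0 0 (step_sound _ 65 [rh47dee5caf9e8183f, (rh53b3c253cb0c65f4.shift 0 2)] (by decide +kernel))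
noncomputable def rh77257104e76df6ba : CRef := CRef.mk (Pat.mk 0x80000000c0000000400000000 0xc0000000c0000003f0000007f0000000700000006 8 7) 0 0 (step_sound _ 131 [rh29cc951e16594952, (rh5c5e593799055d58.shift 2 1)] (by decide +kernel))
noncomputable def rh3f83099c846409b0 : CRef := CRef.mk (Pat.mk 0x1000000010000000180000000800000000 0x2e0000003e000000ff000000fe000000cf00000046 8 8) 0 0 (step_sound _ 101 [rh09bb80eea5cd7b1b, (rh0bb882ba86b2372d.shift 1 2), (rh574fdbf07bdd18b9.shift 1 2), rh6d16138496448551] (by decide +kernel))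
noncomputable def rhb21d25c9988ea204 : CRef := CRef.mk (Pat.mk 0x1000000010000000180000000800000000 0xc0000000c0000003c0000001f0000007c0000000f0000000c 8 7) 0 0 (step_sound _ 99 [rh3ec975a2e92421e3, (rh71222050f2c63a3a.shift 3 0)] (by decide +kernel))
noncomputable def rh8034e92d1817eaa5 : CRef := CRef.mk (Pat.mk 0x10000000180000000800000000 0x4000000140000003e000000ff000000f80000000800000008 8 8) 0 0 (step_sound _ 132 [rh0d0d7071af95395d, (rh5c5e593799055d58.shift 3 1)] (by decide +kernel))
noncomputable def rhf9f638f94104d17b : CRef := CRef.mk (Pat.mk 0x180000000c000000000000000000000000 0x100000001c0000003e0000000f0000001e0000000f0000003e0000001c00000014 8 6) 0 0 (step_sound _ 97 [(rh53b3c253cb0c65f4.shift 0 3), rhc6cd9b305a5f1b9b] (by decide +kernel))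
noncomputable def rh758b94a757721632 : CRef := CRef.mk (Pat.mk 0x180000000c000000000000000000000000 0x1c0000003c0000000f0000007c0000001c0000001c0000001c00000014 8 7) 0 0 (step_sound _ 133 [(rh18965a982d73c794.shift 2 3), rh99e844816cfd9142] (by decide +kernel))
noncomputable def rh8766ad15bf2b68ad : CRef := CRef.mk (Pat.mk 0x180000000e00000000000000000000000000000000 0x120000001e0000003e0000000f0000001e0000001e0000000e0000001c0000001c00000014 8 6) 0 0 (step_sound _ 195 [(rh57a06b43e72703e1.shift 2 3), (rh76032400c82475e9.shift 0 3), (rhcd32f2ed6c1181e7.shift 2 3), rhf77fcd6bd4ae2226] (by decide +kernel))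
noncomputable def rha1561a31a125a9fe : CRef := CRef.mk (Pat.mk 0x60000000200000000000000000 0x30000000b0000007bf000003fe0000077e0000016000000120 8 11) 0 0 (step_sound _ 103 [(rh2820ca9a6c4f41b4.shift 2 2), rh3dd8072eded6d126, (rh8a23c4b5837cd4de.shift 4 0), (rhdc1641106d7e5aa2.shift 4 2), (rhf63d9c2d45f5780e.shift 4 2)] (by decide +kernel))
noncomputable def rh12a8fe794653971a : CRef := CRef.mk (Pat.mk 0xf000000020 0x18e000000fe000001bf 8 9) 0 0 (step_sound _ 7 [rhc07133f661a1f94b, (rhe25b0a99195a5d59.shift 4 0)] (by decide +kernel))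
noncomputable def rhf3fd1237618bb361 : CRef := CRef.mk (Pat.mk 0x180000000c0000000000000000 0x10000000180000001e0000000f0000001f0000003f0000003700000016 8 6) 0 0 (step_sound _ 65 [rh08e2fb1623f9f337, (rh53b3c253cb0c65f4.shift 0 2)] (by decide +kernel))
noncomputable def rh313a8fcc04d2c040 : CRef := CRef.mk (Pat.mk 0x6000000030000000200000000000000000000000000000000 0x300000003000000030000001e000000070000000700000006000000070000000300000001 8 5) 0 0 (step_sound _ 195 [(rh18965a982d73c794.shift 0 5), rh8ab8c3b1dfb87d77] (by decide +kernel))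
noncomputable def rhb9c806a260e53e28 : CRef := CRef.mk (Pat.mk 0x18000000080000001800000000000000000000000000000000 0x100000001c0000001c0000000c0000001c0000001f0000001c000000080000001c0000001c00000014 8 5) 0 0 (step_sound _ 227 [(rh242a3e09b1b8a641.shift 0 4), (rh2f5550ea7a25712f.shift 2 2), (rh33e98d0e97205a3e.shift 2 4), (rh5bd4bc0c2c48140c.shift 2 4), (rhc3ee11b83e13621e.shift 2 0)] (by decide +kernel))
noncomputable def rh2de27bb7bba618e8 : CRef := CRef.mk (Pat.mk 0x60000000200000002000000000 0x1000000010000003be000001fe000003bf0000002000000020 8 10) 0 0 (step_sound _ 100 [(rh52ffa351c564bfa9.shift 0 2), (rhb1a251d9bff81766.shift 4 0)] (by decide +kernel))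
noncomputable def rh62115c5e5d7c49d8 : CRef := CRef.mk (Pat.mk 0x180000000c00000008000000000000000000000000 0x800000028000000780000002f0000007c000000340000001000000010 8 7) 0 0 (step_sound _ 129 [(rh53b3c253cb0c65f4.shift 0 4), (rh675c592c075aa0f4.shift 1 0)] (by decide +kernel))
noncomputable def rhb371a4282a47b4f9 : CRef := CRef.mk (Pat.mk 0x180000000c000000000000000000000000 0x100000001c0000003e0000000f0000001c0000000f0000003e0000001c00000014 8 6) 0 0 (step_sound _ 97 [(rh53b3c253cb0c65f4.shift 0 3), rh67c61522a3247eb9] (by decide +kernel))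
noncomputable def rh75118b1877231717 : CRef := CRef.mk (Pat.mk 0x200000003000000010000000100000000000000000 0x80000002e000000ff000000fe000000fe0000006400000060 8 8) 0 0 (step_sound _ 99 [(rh04cc3fc4fec38a6f.shift 1 0), (rh21073e81c29d5207.shift 1 0), (rh3d980a622102069e.shift 0 1), (rhd69c262cd33b94b3.shift 1 3)] (by decide +kernel))
noncomputable def rhb961676293c19df4 : CRef := CRef.mk (Pat.mk 0x100000001800000008000000080000000000000000 0x8000000180000007f0000007f0000007f0000003400000004 8 7) 0 0 (step_sound _ 98 [(rh69012675dfdb1a5b.shift 0 3), (rh9d80ff53a58ac190.shift 2 1), rhba4e8b59ebe09ebf, (rhd69c262cd33b94b3.shift 0 3)] (by decide +kernel))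
noncomputable def rh528a0cb8f93b0a5d : CRef := CRef.mk (Pat.mk 0x80000000c0000000000000000000000000000000000000000 0x140000001c0000001e000000780000000f0000003f0000007c0000001c0000001c0000001c00000010 8 7) 0 0 (step_sound _ 227 [(rh281c6819542c66e6.shift 2 2), rh469c2cf0b05c66cf, (rh657679cc28ef1bbf.shift 0 4), (rh6c03a9ef5fb89cef.shift 2 4), (rh7a7e08304268422e.shift 2 4)] (by decide +kernel))
noncomputable def rh2ef62a437e325a7a : CRef := CRef.mk (Pat.mk 0x800000010000000100000001800000000 0x340000003f0000007f0000001f0000003f00000014 8 7) 0 0 (step_sound _ 99 [rh77fb5f82ca6c1bef, (rh7b1f1fb55310c477.shift 3 0)] (by decide +kernel))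
noncomputable def rh2930514e9600f400 : CRef := CRef.mk (Pat.mk 0x200000002000000030000000000000000000000000 0x2000000020000003bf000001fe000003ee0000004000000040 8 10) 0 0 (step_sound _ 102 [(rh3892a2af32600897.shift 0 2), (rh70e33bfdf511e144.shift 5 0)] (by decide +kernel))
noncomputable def rhe520ed8e517074dc : CRef := CRef.mk (Pat.mk 0x10000000180000000800000000 0x3800000078000001de000000f8000000ff00000037 8 9) 0 0 (step_sound _ 132 [(rh5c5e593799055d58.shift 3 1), rheaafc7abd64c7627] (by decide +kernel))
noncomputable def rh28c1bd4aed63d1bc : CRef := CRef.mk (Pat.mk 0x1000000018000000080000000800000000 0x170000001f0000001f0000000e0000000c00000004 8 5) 0 0 (step_sound _ 131 [rh0668c447fd80549a, (rh2f68792b6b779e96.shift 3 1)] (by decide +kernel))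
noncomputable def rh8e2a06557c8b21ec : CRef := CRef.mk (Pat.mk 0x1000000018000000080000000800000000 0x80000000f0000001f0000001f0000007e0000007e00000034 8 7) 0 0 (step_sound _ 131 [rh0668c447fd80549a, rh07cbab85cc35a077, (rh85480f11efc1e555.shift 1 0), (rhad2e5f3a7ec95118.shift 2 0), (rhd802bb8339359eae.shift 1 0)] (by decide +kernel))
noncomputable def rh456bd46ee780865d : CRef := CRef.mk (Pat.mk 0x400000007000000020 0x40000000400000007c000003fe000003b7 8 10) 0 0 (step_sound _ 102 [(rh5c5e593799055d58.shift 5 0), rh8b1bec4ccb517949] (by decide +kernel))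
noncomputable def rh6ae5a4de3ca936a7 : CRef := CRef.mk (Pat.mk 0x100000001c0000000000000000 0xe0000000f000001de000000fc000001ee0000000c 8 9) 0 0 (step_sound _ 69 [(rh06db8ceda6269a47.shift 1 1), (rh394e80a462af5b2f.shift 1 1), rhe0a2f640c8008c73] (by decide +kernel))
noncomputable def rhd1e9dd252e2b6dca : CRef := CRef.mk (Pat.mk 0x2000000070000000400000000000000000 0x3bf000003fe000000770000004000000040 8 10) 0 0 (step_sound _ 38 [(rh7b1f1fb55310c477.shift 5 0), (rh7c06f18d390d5e6b.shift 0 2)] (by decide +kernel))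
noncomputable def rh29b61aa88390a269 : CRef := CRef.mk (Pat.mk 0x40000000e000000020000000000000000 0x10000000760000003f0000003a0000000f0000000e 8 7) 0 0 (step_sound _ 33 [(rh71222050f2c63a3a.shift 1 0), rha3eac3217ff7f587] (by decide +kernel))
noncomputable def rh0549ab23737c8f5b : CRef := CRef.mk (Pat.mk 0x2000000070000000100000000000000000 0x370000007e000000ff000003f000000050 8 10) 0 0 (step_sound _ 36 [rh1c78d2317758da20, (rh71222050f2c63a3a.shift 4 0)] (by decide +kernel))
noncomputable def rh45da629abd89e1ab : CRef := CRef.mk (Pat.mk 0x1000000078000000000000000000000000 0x80000001c000000780000003c0000001f0000001c 8 7) 0 0 (step_sound _ 131 [rh057c4fb73ca17b64, (rh3244c3cc8379b070.shift 2 3)] (by decide +kernel))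
noncomputable def rh2cf6baa02d8fc349 : CRef := CRef.mk (Pat.mk 0x1000000038000000000000000000000000 0x44000001d7000000fe000000ff0000006c00000028 8 9) 0 0 (step_sound _ 67 [(rh2820ca9a6c4f41b4.shift 0 2), rh80a0ebe3a8491f16, (rh96fd46f0ba354c45.shift 2 0), (rhdc1641106d7e5aa2.shift 2 2)] (by decide +kernel))
noncomputable def rhf0d3fbc52f4eed53 : CRef := CRef.mk (Pat.mk 0x10000000380000000000000000 0xe0000000f0000001f0000003e0000007f0000000c 8 7) 0 0 (step_sound _ 66 [(rh185f35b8bd8ec37f.shift 0 1), (rh9c548838e8725ba1.shift 0 1), rhe0a2f640c8008c73] (by decide +kernel))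
noncomputable def rhbb767f3223ea2dd1 : CRef := CRef.mk (Pat.mk 0x80000001c000000040000000000000000 0x20000000f0000007e000000740000001e0000001c 8 7) 0 0 (step_sound _ 34 [(rh71222050f2c63a3a.shift 2 0), rhb09cf1454b9fddbf] (by decide +kernel))
noncomputable def rh261394acaabdd456 : CRef := CRef.mk (Pat.mk 0x100000001c00000010000000000000000000000000 0x1000000014000000140000003f0000001f0000000b0000000a00000002 8 6) 0 0 (step_sound _ 99 [rh0c37afd1a84882eb, (rh1e309b005ffa1b36.shift 3 1), (rh511e836b6d308d55.shift 0 1)] (by decide +kernel))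
noncomputable def rh3336768fdb1a82e3 : CRef := CRef.mk (Pat.mk 0x100000001c000000100000000000000000 0x1400000014000000170000003f0000001b0000000a00000008 8 6) 0 0 (step_sound _ 67 [rh076e3e02a23fd831, (rh1e309b005ffa1b36.shift 3 0), (rh4e7d8cbf979f5637.shift 0 1)] (by decide +kernel))
noncomputable def rh455f7b10361fdffb : CRef := CRef.mk (Pat.mk 0x2000000038000000000000000000000000 0x28000000280000002f000001fe000003bf0000001000000010 8 10) 0 0 (step_sound _ 68 [(rhc89d602465741051.shift 0 2), rhcef3d925888649c4, (rhcf80391c5046a495.shift 4 0)] (by decide +kernel))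
noncomputable def rh02bc3e0d6c7f3f80 : CRef := CRef.mk (Pat.mk 0x1e000000000000000000000000 0x50000000700000007000000070000001e000000370000000600000004 8 6) 0 0 (step_sound _ 68 [rh93415c6a95b38377, (rhe25b0a99195a5d59.shift 1 2)] (by decide +kernel))
noncomputable def rh6e0fc4ae5b088cc2 : CRef := CRef.mk (Pat.mk 0x1000000018000000080000000000000000 0xf0000001f0000007c0000000f0000000c0000000c 8 7) 0 0 (step_sound _ 35 [(rh71222050f2c63a3a.shift 3 0), rhc5f15dff21b0f16d] (by decide +kernel))
noncomputable def rhe6ca92b8cf0f851c : CRef := CRef.mk (Pat.mk 0x1800000008000000000000000000000000 0x100000001c0000001f0000007c000000780000001e0000001c00000014 8 7) 0 0 (step_sound _ 67 [rh5616e9dc2e154ca9, (rhb730ba14aa32bdb3.shift 3 1), (rhc99a0c59c0274cca.shift 1 1)] (by decide +kernel))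
noncomputable def rhbeadfa32e2689f87 : CRef := CRef.mk (Pat.mk 0x20000000300000001000000000 0x280000007c000000fe000000fe000001d700000044 8 9) 0 0 (step_sound _ 133 [(rh5c5e593799055d58.shift 4 1), rh96051612af353f2d] (by decide +kernel))
noncomputable def rh51c030f37004a9c1 : CRef := CRef.mk (Pat.mk 0x10000000180000000800000000 0x1c0000003e000000ff0000003e0000001800000010 8 8) 0 0 (step_sound _ 132 [(rh5c5e593799055d58.shift 3 1), rh6816996fdde7f991] (by decide +kernel))
noncomputable def rh3b1b252673256000 : CRef := CRef.mk (Pat.mk 0x3000000010000000100000001000000000 0x1cf000001fe000003f7000000100000003000000020 8 10) 0 0 (step_sound _ 131 [(rh50fbb5868c909700.shift 3 1), rha9e0e5b2fedf6a75] (by decide +kernel))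
noncomputable def rhddf9d0f07d8458e3 : CRef := CRef.mk (Pat.mk 0x2000000030000000100000001000000000 0x180000007e0000003e000000f70000003e0000002c 8 8) 0 0 (step_sound _ 98 [(rh2457d9fe0bde4619.shift 1 0), (rh879cdb683ee6f2d5.shift 0 2), (rhfb82e76cea561a87.shift 1 0)] (by decide +kernel))
noncomputable def rh5b3a37c69359f40a : CRef := CRef.mk (Pat.mk 0x80000000c00000004000000000000000000000000 0x1f0000001f0000003c0000001c0000007c000000780000001800000018 8 7) 0 0 (step_sound _ 195 [(rh5c5e593799055d58.shift 2 3), rheb0d5bb2c8e57bef] (by decide +kernel))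
noncomputable def rh4d4af7a4d1ecf754 : CRef := CRef.mk (Pat.mk 0x40000000e000000020000000000000000 0x8000000ec0000007f0000007e0000003b0000001a 8 8) 0 0 (step_sound _ 33 [(rh71222050f2c63a3a.shift 1 0), rh96bc02b36bfa66ae] (by decide +kernel))
noncomputable def rhebc432cdcde2b3ee : CRef := CRef.mk (Pat.mk 0x7000000010 0x78e000003fe000007f7 8 11) 0 0 (step_sound _ 39 [rh1301ebdefe49082b, (rh3d54e7f933686048.shift 4 0), (rh3fc3a7fb6866dcd4.shift 4 0), (rhd584a578337d0023.shift 4 0), (rhf3baec4a0a3dd35e.shift 4 0)] (by decide +kernel))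
noncomputable def rhc7e428137b9465e3 : CRef := CRef.mk (Pat.mk 0x7000000010 0x7ee000007fe000007b7 8 11) 0 0 (step_sound _ 39 [(rh3d54e7f933686048.shift 4 0), rhba7200611f75b287, (rhd3285384da7c3a0d.shift 3 0), (rhd584a578337d0023.shift 4 0), (rhf3baec4a0a3dd35e.shift 4 0)] (by decide +kernel))
noncomputable def rh147182556a1f94bb : CRef := CRef.mk (Pat.mk 0xf00000001000000000000000000000000 0x40000001c0000000f0000001f0000001e0000001c00000014 8 5) 0 0 (step_sound _ 99 [rh8fa76646598c2f23, (rhe25b0a99195a5d59.shift 0 3)] (by decide +kernel))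
noncomputable def rhb56e0482b814de8c : CRef := CRef.mk (Pat.mk 0x1000000038000000080000000000000000 0x1000000030000001f7000000ff000001f80000003000000030 8 9) 0 0 (step_sound _ 164 [rh57bb17e3f4e71c73, (rh5c5e593799055d58.shift 3 2)] (by decide +kernel))
noncomputable def rh5e1e2d6dcdb504a9 : CRef := CRef.mk (Pat.mk 0x1000000038000000080000000000000000 0x3f7000001fe000000f80000000800000008 8 10) 0 0 (step_sound _ 35 [(rh49e89daa252c18f6.shift 0 2), (rh71222050f2c63a3a.shift 3 0)] (by decide +kernel))
noncomputable def rh0a2c831c184a5d52 : CRef := CRef.mk (Pat.mk 0x1c000000040000000400000000 0xa0000000f0000007e000000740000001e00000018 8 7) 0 0 (step_sound _ 130 [(rh2e8814637c3f6d46.shift 1 1), (rh307c4439f714f777.shift 1 0), (rhcf02561c3c7740f4.shift 0 1)] (by decide +kernel))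
noncomputable def rh48c90d2d40e815c9 : CRef := CRef.mk (Pat.mk 0x10000000000000001800000008000000000000000000000000 0x1c0000003c0000000f0000007c000000180000001c0000001c00000014 8 7) 0 0 (step_sound _ 163 [(rh22d86f446f3de558.shift 0 2), (rh4dec404a6c0e229a.shift 3 2), rhb1c92aa958bdca99] (by decide +kernel))
noncomputable def rhfec7aac82304c0db : CRef := CRef.mk (Pat.mk 0x1e000000000000000000000000 0x50000000700000007000000070000001e000000370000000600000004 8 6) 0 0 (step_sound _ 129 [rh13f2755a79eb1cd4, (rh3244c3cc8379b070.shift 0 3)] (by decide +kernel))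
noncomputable def rh3ae20d9d9cef5206 : CRef := CRef.mk (Pat.mk 0xc000000060000000000000000 0x8000000080000003c0000003f0000003e0000003c00000014 8 6) 0 0 (step_sound _ 100 [(rh18965a982d73c794.shift 1 2), rh664982eea08a6cf4] (by decide +kernel))
noncomputable def rh5f8bf3449e48f429 : CRef := CRef.mk (Pat.mk 0xc0000000600000000000000000000000000000000 0xa0000000e0000001f0000003c0000001e0000003c0000001e0000000e0000000a 8 6) 0 0 (step_sound _ 164 [(rh18965a982d73c794.shift 1 4), rhb035367d28da21b6] (by decide +kernel))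
noncomputable def rh97e6ccf26cba4095 : CRef := CRef.mk (Pat.mk 0xa0000000e00000000 0x1fb000000fe000000e3 8 9) 0 0 (step_sound _ 36 [rh307bb816efbd4ba7, (rh3244c3cc8379b070.shift 0 1)] (by decide +kernel))
noncomputable def rh738a231c700b3415 : CRef := CRef.mk (Pat.mk 0x180000000c00000000000000000000000000000000 0x1000000050000000f70000007e0000007c00000060000000600000004000000040 8 8) 0 0 (step_sound _ 165 [(rh18965a982d73c794.shift 2 4), rhe943b9a5e5507f81] (by decide +kernel))
noncomputable def rh02a5d9830fafa9ad : CRef := CRef.mk (Pat.mk 0x40000000600000004000000000000000000000000 0x6000000060000000e0000000e0000003c0000000f0000000e0000000e 8 6) 0 0 (step_sound _ 193 [(rh616c75d1b5542aee.shift 1 3), (rh9c8989bf8e13cb40.shift 0 1), (rhb59840d60ceae331.shift 1 0), (rhc17a6a02773cc5f6.shift 1 2)] (by decide +kernel))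
noncomputable def rh6c412e381acbe481 : CRef := CRef.mk (Pat.mk 0x180000000300000000000000000000000000000000 0x10000000140000001f000000380000001f0000007e0000001e0000001c00000014 8 7) 0 0 (step_sound _ 131 [(rh1c62b6193297d9e3.shift 0 4), rh1ef28569659301f2] (by decide +kernel))
noncomputable def rh4a6edf4abcd50aa0 : CRef := CRef.mk (Pat.mk 0x180000000c0000000000000000000000000000000000000000 0x140000001c0000001c000000180000000f0000007c0000001c0000001c0000001c00000004 8 7) 0 0 (step_sound _ 161 [(rh53b3c253cb0c65f4.shift 0 5), (rh771721dda730c85c.shift 1 0)] (by decide +kernel))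
noncomputable def rhf64d584a87793743 : CRef := CRef.mk (Pat.mk 0xa000000030000000000000000000000000 0x2000000020000000ef0000007e000001ff0000005000000040 8 9) 0 0 (step_sound _ 99 [(rh3992b8c260fffbdc.shift 1 0), (rh3d980a95bbd7ebd4.shift 3 0), (rhb12ffaec36122c99.shift 0 2)] (by decide +kernel))
noncomputable def rh0c53eed428a3dcbf : CRef := CRef.mk (Pat.mk 0x5000000018000000000000000000000000 0x1000000050000000d7000000fe000000ff0000002800000028 8 8) 0 0 (step_sound _ 101 [rh5da5bd32d63a8f85, (rh834ef1c974e4840e.shift 2 0), (rhae51237c22c10c94.shift 2 0)] (by decide +kernel))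
noncomputable def rh32bf982a9ca5b0a4 : CRef := CRef.mk (Pat.mk 0x8000000180000000c00000000000000000000000000000000 0x160000001f0000001b0000001f0000000c0000001c0000001c00000010 8 5) 0 0 (step_sound _ 129 [rh3158adcef44a580b, (rh53b3c253cb0c65f4.shift 0 4)] (by decide +kernel))
noncomputable def rhd48f7eeb32f35c31 : CRef := CRef.mk (Pat.mk 0x200000002000000000000000100000001000000000 0x2800000068000003ee000001ff000003fe00000010 8 10) 0 0 (step_sound _ 69 [(rh3c88ce959c0e423f.shift 4 1), rh7759690f192770f7] (by decide +kernel))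
noncomputable def rhc501d6f3e3da3be2 : CRef := CRef.mk (Pat.mk 0x1000000018000000000000000800000000 0x1000000014000000360000007e000001ef0000007c00000028 8 9) 0 0 (step_sound _ 67 [(rh71222050f2c63a3a.shift 3 0), rhe6ba3c56e0d42ef6] (by decide +kernel))
noncomputable def rhe44e7845e3eef174 : CRef := CRef.mk (Pat.mk 0x1000000018000000080000000000000000 0x1000000010000003b7000001fe000001ef0000002000000020 8 10) 0 0 (step_sound _ 164 [(rh5c5e593799055d58.shift 3 2), rhf9438d076a734804] (by decide +kernel))
noncomputable def rh553c78e58363607d : CRef := CRef.mk (Pat.mk 0x10000000180000000800000008 0x4000003b7000001fe000000ff00000008 8 10) 0 0 (step_sound _ 69 [(rh2820ca9a6c4f41b4.shift 0 1), (rha63a408e94886a94.shift 0 1), (rhbc1b1fea1b1c889e.shift 1 0), (rhf0f55c4504412200.shift 0 1)] (by decide +kernel))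
noncomputable def rh8bbc490fb2f91e31 : CRef := CRef.mk (Pat.mk 0xc0000000600000000000000000000000000000000 0x80000000e0000000e0000000f0000003c0000000e000000060000000e0000000e00000008 8 6) 0 0 (step_sound _ 164 [(rh18965a982d73c794.shift 1 4), rh62be759487a831b5] (by decide +kernel))
noncomputable def rha80b175d410845d9 : CRef := CRef.mk (Pat.mk 0x380000000c0000000000000000000000000000000000000000 0x100000001c0000001e000000380000000f0000007c000000180000001c0000001c00000004 8 7) 0 0 (step_sound _ 161 [(rh53b3c253cb0c65f4.shift 0 5), (rhbda618ea600fd3c0.shift 1 0)] (by decide +kernel))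
noncomputable def rh1fbfd01c923fbf1f : CRef := CRef.mk (Pat.mk 0x5000000018000000000000000000000000 0x1000000050000000d7000000ff000001ff0000002000000020 8 9) 0 0 (step_sound _ 101 [(rh545a56c0ba685948.shift 0 2), rh5da5bd32d63a8f85, (rh834ef1c974e4840e.shift 2 0), (rhbdce4ae460fd80ce.shift 2 2)] (by decide +kernel))
noncomputable def rh7c8e6beafbf8114e : CRef := CRef.mk (Pat.mk 0x80000001e000000000000000000000000 0x10000000380000001e0000003f0000003800000038 8 6) 0 0 (step_sound _ 132 [(rh33e738c4ed385b9f.shift 1 3), rh53b041f69f7eea98] (by decide +kernel))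
noncomputable def rhd91bb7dc99842b0d : CRef := CRef.mk (Pat.mk 0x40000001400000006000000000000000000000000 0xa0000000f0000001c000000360000003e0000003e0000000a 8 6) 0 0 (step_sound _ 66 [(rh5e8888c5a8b0359b.shift 0 1), (rh8cdd36b03d57a2f6.shift 1 0), (rhc6a797aab18c7913.shift 1 1)] (by decide +kernel))
noncomputable def rh02ab6acdafb65f31 : CRef := CRef.mk (Pat.mk 0x3000000006000000000000000000000000 0xa0000000e0000000e0000001e0000003e000000070000003e0000000e0000000e 8 6) 0 0 (step_sound _ 130 [(rhb2a0b9ccfb5cecd5.shift 1 3), rhc427bb6b9f118fb8] (by decide +kernel))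
noncomputable def rhe974c72cdab11fe2 : CRef := CRef.mk (Pat.mk 0x180000000e000000000000000000000000 0x4000000140000001e0000007f0000007a0000000e0000001e0000001c00000014 8 7) 0 0 (step_sound _ 133 [(rh18965a982d73c794.shift 2 3), rh87c7c9b587e958ec] (by decide +kernel))
noncomputable def rha19d65df1f3d6230 : CRef := CRef.mk (Pat.mk 0x180000000a0000000000000000 0x400000014000001ff000000fc000001ee0000000800000008 8 9) 0 0 (step_sound _ 101 [(rh4bb84bbc7733c9c6.shift 1 0), rh5f7818fae278b84d, (rhfa35e196e150edb4.shift 2 2)] (by decide +kernel))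
noncomputable def rh6deb4da6dba0a07f : CRef := CRef.mk (Pat.mk 0x180000000a0000000000000000 0x400000014000000ff0000007f000000eb0000000a00000008 8 8) 0 0 (step_sound _ 98 [rh1815fa84a9d15ea1, (rh5bffc074f65938d8.shift 1 0), (rh73f5f7cdf41b5bc9.shift 0 1)] (by decide +kernel))
noncomputable def rh77bc54badc1a5185 : CRef := CRef.mk (Pat.mk 0x180000000c0000000000000000000000000000000000000000 0x140000001c0000001c000000180000000f0000007c0000001e0000001c0000001c00000010 8 7) 0 0 (step_sound _ 161 [(rh53b3c253cb0c65f4.shift 0 5), (rhf4471cf129ec70a6.shift 1 0)] (by decide +kernel))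
noncomputable def rhc53998b84295c748 : CRef := CRef.mk (Pat.mk 0x70000000180000000000000000000000000000000000000000 0x300000003800000078000000d8000000ff000000fc0000003c0000001000000010 8 8) 0 0 (step_sound _ 131 [(rh4821dcf828b9d7bf.shift 3 2), rh7cfc9d9a72067e45, (rh9fe2ebcaabf6daf0.shift 3 1), (rhcf80391c5046a495.shift 3 2)] (by decide +kernel))
noncomputable def rh8f26fc1a2f189faa : CRef := CRef.mk (Pat.mk 0x180000000a000000000000000000000000 0x4000000040000000e0000001f0000007a0000000f0000007e0000001400000004 8 7) 0 0 (step_sound _ 98 [(rh53b3c253cb0c65f4.shift 0 3), rhc07e3bc9995bc44b] (by decide +kernel))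
noncomputable def rh6dd095e4025799a5 : CRef := CRef.mk (Pat.mk 0x180000000a0000000000000000 0x400000004000001ff000000fc000000ee0000000800000008 8 9) 0 0 (step_sound _ 101 [(rh4bb84bbc7733c9c6.shift 1 0), rh74681cc65f7f6c4d, (rh8eea156ffecb6be4.shift 2 2), (rh9c0ab0af19c4d8a6.shift 1 2)] (by decide +kernel))
noncomputable def rhbf01f2b3124a2dac : CRef := CRef.mk (Pat.mk 0x30000000140000000000000000 0x800000008000001ff000001fe000001d60000001400000010 8 9) 0 0 (step_sound _ 99 [(rh5bffc074f65938d8.shift 2 0), (rh73f5f7cdf41b5bc9.shift 1 1), (rha0f541aa9ffae9a1.shift 0 2), (rhc3a65d53ed06e166.shift 1 2)] (by decide +kernel))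
noncomputable def rhd3be3dea40426ecd : CRef := CRef.mk (Pat.mk 0x2000000020000000000000003000000010 0x2000000020000001ff0000007e000000df0000007c00000010 8 9) 0 0 (step_sound _ 100 [(rh04253f50b6dd0619.shift 4 0), rh8e8581018ee69c6b] (by decide +kernel))
noncomputable def rh192f36cdf8bf65ea : CRef := CRef.mk (Pat.mk 0x100000001000000010000000000000000000000000 0x180000001800000018000000380000003f0000003c00000020 8 6) 0 0 (step_sound _ 68 [(rh699d1752a80a3e78.shift 0 1), (rh8ff3dde5b1c639e0.shift 3 0), (rhed79e5c5ffee0217.shift 3 1)] (by decide +kernel))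
noncomputable def rh7226f38f0e9d0faa : CRef := CRef.mk (Pat.mk 0x3000000010000000100000000000000000 0x380000003800000018000000380000001f0000001c 8 6) 0 0 (step_sound _ 36 [(rh2f68792b6b779e96.shift 4 1), rhc605d52cc7daef77] (by decide +kernel))
noncomputable def rhf5601c515df07cd0 : CRef := CRef.mk (Pat.mk 0x800000018000000080000000800000000 0x1e0000001f0000001b0000000f0000000c00000004 8 5) 0 0 (step_sound _ 132 [(rh2f68792b6b779e96.shift 3 1), rh4341ad515b07a9d7] (by decide +kernel))
noncomputable def rh2ee909af85bb60f5 : CRef := CRef.mk (Pat.mk 0x180000000a00000000000000000000000000000000 0x100000001c0000001e000000780000000f0000007c0000001c0000001c00000014 8 7) 0 0 (step_sound _ 130 [(rh10c5c87afc2de391.shift 1 0), (rh53b3c253cb0c65f4.shift 0 4)] (by decide +kernel))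
noncomputable def rhbd764d46830b940e : CRef := CRef.mk (Pat.mk 0x180000000a0000000000000000 0x400000014000001ff000000fc000000ee0000000800000008 8 9) 0 0 (step_sound _ 101 [(rh4904a019878e6edb.shift 1 0), rh5f7818fae278b84d, (rh8eea156ffecb6be4.shift 2 2), (rh9c0ab0af19c4d8a6.shift 1 2)] (by decide +kernel))
noncomputable def rh01b2667fa3510c31 : CRef := CRef.mk (Pat.mk 0x200000002000000020000000300000000 0x500000007000000070000000600000006000000060000001e0000000700000002 8 5) 0 0 (step_sound _ 161 [(rh081ea8555b323c81.shift 1 0), (rh44f453b84f013105.shift 1 1), (rh9074ab79de2f1963.shift 0 1)] (by decide +kernel))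
noncomputable def rh4bc7890c73d004ac : CRef := CRef.mk (Pat.mk 0x80000000800000004000000000000000000000000 0x140000001c0000001f0000007e0000007f0000000f0000003c0000001c00000014 8 7) 0 0 (step_sound _ 99 [rh05dfe4ec6924bbe6, (rh281c6819542c66e6.shift 2 0), (rh6c03a9ef5fb89cef.shift 2 2), rhaba1c6ff33f12e07] (by decide +kernel))
noncomputable def rh4d78048a5a1b5190 : CRef := CRef.mk (Pat.mk 0x1000000018000000080000000800000000 0xe0000001f0000007f0000000f0000000c00000004 8 7) 0 0 (step_sound _ 131 [rh4341ad515b07a9d7, rh7efff25179d37ffa, (rhcf85c92937975d4d.shift 1 1)] (by decide +kernel))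
noncomputable def rhd5554c55e64988e1 : CRef := CRef.mk (Pat.mk 0x1000000018000000080000000000000000 0x1000000014000001f7000000fe000001ef0000002800000028 8 9) 0 0 (step_sound _ 35 [rh5f7f162eb605c3bb, (rh71222050f2c63a3a.shift 3 0)] (by decide +kernel))
noncomputable def rh304c8e484ff1376c : CRef := CRef.mk (Pat.mk 0x1000000010000000180000000800000000 0x280000003c000001f7000000ff000001fc00000030 8 9) 0 0 (step_sound _ 70 [(rh1f4e63d424645ac6.shift 0 1), (rh203d203518c07286.shift 0 1), (rh6609aaed429e3652.shift 2 1), (rh7d952dac3a6237ab.shift 2 1), (rhfd91c7abd0042bd7.shift 2 0)] (by decide +kernel))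
noncomputable def rh30258c882a5192cf : CRef := CRef.mk (Pat.mk 0x100000001800000008000000080000000000000000 0x20000000720000007f000000ff000000ff0000003400000004 8 8) 0 0 (step_sound _ 98 [(rh3c7359374dcfcb64.shift 1 1), rh7a775aa243d2192f, rh9a42e5a6fb69f8e9, (rhd69c262cd33b94b3.shift 0 3)] (by decide +kernel))
noncomputable def rhb85cf95f6d9d0158 : CRef := CRef.mk (Pat.mk 0x1000000018000000080000000800000000 0x2000000020000000f0000003f0000001f0000003e0000007800000030 8 7) 0 0 (step_sound _ 131 [rh803a65317ffac913, (rhd802bb8339359eae.shift 1 0), (rhffb1f2cfe3a9c803.shift 0 1)] (by decide +kernel))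
noncomputable def rh5d39ad2550ebda31 : CRef := CRef.mk (Pat.mk 0x8000000080000000c0000000000000000 0x160000001f0000007e0000001f0000000c0000000c 8 7) 0 0 (step_sound _ 100 [(rh00bf03c298320d59.shift 1 0), rh30524ef390eb060a, (rh69012675dfdb1a5b.shift 0 2)] (by decide +kernel))
noncomputable def rh8a21cf73bec683e2 : CRef := CRef.mk (Pat.mk 0x8000000080000000c000000000000000000000000 0x160000001f0000007e0000000f0000001c0000001c00000014 8 7) 0 0 (step_sound _ 132 [(rh0bb882ba86b2372d.shift 0 3), rh65e7ea0807768b12, (rha2586a81d7e42b9f.shift 1 0)] (by decide +kernel))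
noncomputable def rhb79a2b2290561fe7 : CRef := CRef.mk (Pat.mk 0x8000000080000000c0000000400000000 0x140000001e0000007c0000007c0000007f0000003b 8 7) 0 0 (step_sound _ 35 [rh04aa474d63f24212, (rh1bd0c14c4de1ef4d.shift 1 0), (rh6412c58679f5f5ab.shift 1 0), rhb189e270a96d44aa] (by decide +kernel))
noncomputable def rhb135396461c8673b : CRef := CRef.mk (Pat.mk 0x8000000080000000c00000000000000000000000000000000 0x140000001e0000007f0000003f0000003b0000001e0000001c00000004 8 7) 0 0 (step_sound _ 164 [(rh0bb882ba86b2372d.shift 0 4), (rh7fc683d4ccdb2d69.shift 0 2), (rhad1c5a3aeb7fb640.shift 1 0)] (by decide +kernel))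
noncomputable def rh27cce10220a2795e : CRef := CRef.mk (Pat.mk 0x8000000080000000c000000000000000000000000 0x140000001f000000780000001f0000003c0000001c00000014 8 7) 0 0 (step_sound _ 132 [(rh574fdbf07bdd18b9.shift 0 3), rh702ec5379705ccc9, rhe54355bc0aaf2ee4] (by decide +kernel))
noncomputable def rha76eae133ab2d15c : CRef := CRef.mk (Pat.mk 0x8000000180000000c000000000000000000000000 0x6000000060000007f0000007f0000007c000000740000003400000030 8 7) 0 0 (step_sound _ 133 [(rh18965a982d73c794.shift 2 3), rh8ad3b4a58f046194] (by decide +kernel))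
noncomputable def rh4135c882e9529957 : CRef := CRef.mk (Pat.mk 0x8000000080000000c00000000000000040000000000000000 0x1c0000007f0000003f000000380000001c0000001c00000010 8 7) 0 0 (step_sound _ 99 [(rh3fd3933371c9ec63.shift 0 2), (rh752c9303f297f9fa.shift 2 1), (rha0aa6641ab5ab565.shift 2 0)] (by decide +kernel))
noncomputable def rh3e0b4b03c72e8e85 : CRef := CRef.mk (Pat.mk 0x1000000018000000080000000800000000 0x160000003f0000003f0000000f0000000c00000004 8 6) 0 0 (step_sound _ 98 [(rh315ddbde81e573c5.shift 0 1), (rhb9ac11309c9d4685.shift 0 1), rhf134d1950941ef63] (by decide +kernel))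
noncomputable def rh94405fde615e364a : CRef := CRef.mk (Pat.mk 0x2000000030000000100000000000000000 0x180000007e0000007e000000ff000000f000000070 8 8) 0 0 (step_sound _ 36 [rh0e799e9757080220, (rh71222050f2c63a3a.shift 4 0)] (by decide +kernel))
noncomputable def rh77e93b8bac662a37 : CRef := CRef.mk (Pat.mk 0xc0000000c000000000000000000000000 0x80000000c0000000c0000000c0000001f0000007c0000001c0000001c 8 7) 0 0 (step_sound _ 67 [(rh3cb04db3dd2b6a55.shift 2 0), rh9f65e75e8fb3d228, (rhae0224c50dc4149c.shift 0 1)] (by decide +kernel))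
noncomputable def rhccf78e5d9aa6d10b : CRef := CRef.mk (Pat.mk 0x18000000180000000000000000 0x4000000040000000f000000ff000000fb0000000800000008 8 8) 0 0 (step_sound _ 98 [(rh6292bd8784ece55f.shift 1 2), rhc5aaeacd5b2e5a3b, (rhe4f1448c7d175fc1.shift 1 0)] (by decide +kernel))
noncomputable def rhdf8c995f5568b9ec : CRef := CRef.mk (Pat.mk 0x1000000018000000080000000000000000 0xc0000000c0000000c00000018000000780000003f000000ff0000003c 8 8) 0 0 (step_sound _ 35 [(rh71222050f2c63a3a.shift 3 0), rha78e3005b2c086dc] (by decide +kernel))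
noncomputable def rh2963d5d995946267 : CRef := CRef.mk (Pat.mk 0x100000001800000008000000000000000000000000 0x18000000180000003800000078000000ff000000360000003000000030 8 8) 0 0 (step_sound _ 196 [(rh5c5e593799055d58.shift 3 3), rhaddeddca0cac8d9b] (by decide +kernel))
noncomputable def rhaffe25f6820585cb : CRef := CRef.mk (Pat.mk 0x1800000018000000000000000000000000 0x1c0000001c0000001f0000007c000000180000000c0000001c0000001c 8 7) 0 0 (step_sound _ 67 [(rhac4a57e2edfb2fb3.shift 0 1), (rhd4f86ac92e73840e.shift 2 0), (rhea7a1800d6f053bd.shift 3 0)] (by decide +kernel))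
noncomputable def rh4dd8ece1a845e992 : CRef := CRef.mk (Pat.mk 0x1800000018000000000000000000000000 0x600000006000000060000003f0000007f0000000f0000000e0000000e 8 7) 0 0 (step_sound _ 130 [rh084aae5bbfedc3b4, (rh6292bd8784ece55f.shift 1 3), rh9e32231d7004bb35] (by decide +kernel))
noncomputable def rh5796260af93bf316 : CRef := CRef.mk (Pat.mk 0x1800000018000000000000000000000000 0x20000000f0000007f0000007f000000070000000600000006 8 7) 0 0 (step_sound _ 98 [rh1884b8a8ed9da8ec, (rhab2ad169e49f9c5e.shift 0 3), rhd7815e574eeb2003] (by decide +kernel))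
noncomputable def rh92c4f7a1f4a65363 : CRef := CRef.mk (Pat.mk 0x80000000c000000040000000000000000 0x600000006000000060000000f0000003c000000070000003e0000000e 8 6) 0 0 (step_sound _ 34 [(rh71222050f2c63a3a.shift 2 0), rhf38de394f0e59ead] (by decide +kernel))
noncomputable def rh33e87b1b42b8f979 : CRef := CRef.mk (Pat.mk 0x20000000300000000000000000 0xc0000000c000001ff000001fe000001df00000010 8 9) 0 0 (step_sound _ 67 [(rh3e0b38310ac09007.shift 0 2), (rh7182b246030a141c.shift 0 1), (rh7f0f728c796044ac.shift 0 1), (rhb12ffaec36122c99.shift 0 1), (rhe6722d491c27efd5.shift 2 0)] (by decide +kernel))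
noncomputable def rha3b6e9249503a30a : CRef := CRef.mk (Pat.mk 0x1000000018000000080000000000000000 0xc0000000c0000000c0000001c000000180000003c000000ff0000003c 8 8) 0 0 (step_sound _ 35 [(rh71222050f2c63a3a.shift 3 0), rhd968596fd299ac44] (by decide +kernel))
noncomputable def rh18eb1acbf9e29f41 : CRef := CRef.mk (Pat.mk 0x80000000c00000004000000000000000000000000 0xe0000000f0000003c0000000e0000007e0000001a0000001800000018 8 7) 0 0 (step_sound _ 195 [rh2f10fd47b3130ef9, (rh5c5e593799055d58.shift 2 3)] (by decide +kernel))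
noncomputable def rhf46f9cbf8f64f560 : CRef := CRef.mk (Pat.mk 0x2000000030000000100000000000000000 0x2800000028000001ef000000fe000001df0000001000000010 8 9) 0 0 (step_sound _ 36 [(rh5f9a8c2fb6eadb71.shift 0 1), (rh71222050f2c63a3a.shift 4 0)] (by decide +kernel))
noncomputable def rh83d630942b43ddcd : CRef := CRef.mk (Pat.mk 0x200000003000000010000000000000000000000000 0x400000067000000ff000000fe000000fe000003fc00000068 8 10) 0 0 (step_sound _ 68 [(rh71222050f2c63a3a.shift 4 1), rh7ceebbadeac83483] (by decide +kernel))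
noncomputable def rh887a54e0fe986f8e : CRef := CRef.mk (Pat.mk 0x100000001800000008000000000000000000000000 0x1c0000001e000000f7000000ff000000fe000000300000003000000010 8 8) 0 0 (step_sound _ 196 [(rh5c5e593799055d58.shift 3 3), rhc037919b0e9c9b7e] (by decide +kernel))
noncomputable def rhcfc1f6de357690fc : CRef := CRef.mk (Pat.mk 0x2000000030000000000000000000000000 0x20000001ff000001fe000001cf0000004000000040 8 9) 0 0 (step_sound _ 99 [(rh3e0b38310ac09007.shift 0 3), (rh7182b246030a141c.shift 0 2), (rh7f0f728c796044ac.shift 0 2), (rh9aba0cd2190bf4a2.shift 2 0), (rhb12ffaec36122c99.shift 0 2)] (by decide +kernel))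
noncomputable def rh79eb84851ab73620 : CRef := CRef.mk (Pat.mk 0x200000002000000000000000000000000000000000 0x10000000300000007000000070000001ff000001ff000000ff0000007f00000050 8 9) 0 0 (step_sound _ 101 [(rh020140c103c93fec.shift 4 0), (rh36c1eb736447b13b.shift 0 2), rh3a19160c6b0679e0, (rh7c2afc4d9bcfa653.shift 4 0), rh9b27b88f02cd4850, (rhca4d5fc3d95c8c8e.shift 4 0), (rhd62be3748eb48185.shift 4 0), (rhd7fa1d58bcc187de.shift 4 0)] (by decide +kernel))
noncomputable def rhcea54c25d017684a : CRef := CRef.mk (Pat.mk 0x8000000080000000800000008000000000000000000000000 0x80000000800000018000000180000007c0000001f0000000c00000008 8 7) 0 0 (step_sound _ 66 [(rh79877ebd3ef475dd.shift 2 2), rhbe05a8eb0f29d239] (by decide +kernel))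
noncomputable def rh955015a71c1db4b8 : CRef := CRef.mk (Pat.mk 0x20000000200000002000000020000000000000000 0x50000000700000007000000020000000200000006000000070000000700000001 8 3) 0 0 (step_sound _ 32 [(rh79877ebd3ef475dd.shift 0 1), rhba8d276688fdfe4e] (by decide +kernel))
noncomputable def rh8b94f3fb7dd5497d : CRef := CRef.mk (Pat.mk 0x200000002000000020000000200000000 0x200000003000000030000000700000007000000070000000700000006 8 3) 0 0 (step_sound _ 2 [rh2f139f176ec17088, (rhd3458b32566d63f7.shift 1 0)] (by decide +kernel))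
noncomputable def rha06b660268fc1c59 : CRef := CRef.mk (Pat.mk 0x20000000200000002000000000000000000000000 0x50000000700000007000000070000000600000006000000070000000300000003 8 3) 0 0 (step_sound _ 193 [rh42ccdbc5b0067310, (rhc17b7d8fab3dfe57.shift 0 2), (rhc4055b4872d6fb38.shift 0 2), rhec40b1b9702b09ce] (by decide +kernel))
noncomputable def rh98e17e8358eceaa2 : CRef := CRef.mk (Pat.mk 0x1000000010000000100000001000000000 0x2f0000003e0000007f0000001c0000001800000008 8 7) 0 0 (step_sound _ 131 [(rh50fbb5868c909700.shift 3 1), rha0e33e5af101b8ad] (by decide +kernel))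
noncomputable def rh3b7519bf6de9c0eb : CRef := CRef.mk (Pat.mk 0x8000000080000000800000000 0x140000001c0000001c000000180000003e0000007f00000074 8 7) 0 0 (step_sound _ 131 [(rh12461e137161f2e1.shift 2 0), (rh762a1aeaf83c662a.shift 2 0), (rh91429c40af715d36.shift 2 0), rh9ec72520c61ec0c6, (rhc17b7d8fab3dfe57.shift 2 0), (rhd7cb8ed87e2022d8.shift 2 0)] (by decide +kernel))
noncomputable def rh7c591bbbf1b6ccbd : CRef := CRef.mk (Pat.mk 0x8000000080000000800000008000000000000000000000000 0x8000000080000000c0000000c0000001f0000007c0000001800000008 8 7) 0 0 (step_sound _ 68 [rh3285e98ecd2821b2, (rhd3458b32566d63f7.shift 3 2)] (by decide +kernel))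
noncomputable def rhe780389e20a6a7ac : CRef := CRef.mk (Pat.mk 0x200000002000000020000000200000000 0x600000006000000060000000300000003000000070000000700000007 8 3) 0 0 (step_sound _ 0 [rh0197df2413bf9102, rh79877ebd3ef475dd] (by decide +kernel))
noncomputable def rh166c9205cb10df98 : CRef := CRef.mk (Pat.mk 0x20000000200000002000000000000000000000000 0x4000000070000000700000007000000070000000700000007000000030000000200000002 8 3) 0 0 (step_sound _ 193 [(rh762a1aeaf83c662a.shift 0 2), (rhc4055b4872d6fb38.shift 0 2), rhe29f0676c21f9786, (rhf4bc43673eb10f5e.shift 0 1), (rhfb812c0aa973830d.shift 0 2)] (by decide +kernel))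
noncomputable def rh4894811cc1c146d7 : CRef := CRef.mk (Pat.mk 0x20000000200000002000000000000000000000000 0x50000000700000007000000070000000300000003000000070000000600000006 8 3) 0 0 (step_sound _ 193 [rh42123b47b1238bbe, (rh762a1aeaf83c662a.shift 0 2), (rhc4055b4872d6fb38.shift 0 2), rhe29f0676c21f9786] (by decide +kernel))
noncomputable def rh6682bb1542a1e99c : CRef := CRef.mk (Pat.mk 0x800000008000000080000000800000000 0x140000001f0000007f0000007f000000fe00000030 8 8) 0 0 (step_sound _ 36 [(rh55afc6a59410cf00.shift 3 0), rh6fca6d95a5d9bba2] (by decide +kernel))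
noncomputable def rh0bfcbc591bbec471 : CRef := CRef.mk (Pat.mk 0x2000000020000000200000000000000000000000000000000 0x60000000600000007000000030000000700000007000000070000000700000005 8 3) 0 0 (step_sound _ 97 [(rh12461e137161f2e1.shift 0 2), (rh6414f710372afdc9.shift 0 1), rh832d53b0c7150d1d, (rh8cdd36b03d57a2f6.shift 0 1), rh8e3b1d976c2c4cbf, (rhf517b930ee0bd92d.shift 0 1)] (by decide +kernel))
noncomputable def rhf09f29b22888e770 : CRef := CRef.mk (Pat.mk 0x1000000010000000100000001000000000 0x2f0000007e000000ff000000100000003800000028 8 8) 0 0 (step_sound _ 37 [(rh55afc6a59410cf00.shift 4 0), rh9acf459e8e69b878] (by decide +kernel))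
noncomputable def rh0bef15f6f142381f : CRef := CRef.mk (Pat.mk 0x1000000010000000100000001000000000 0x2f0000007e000000ff000000100000003800000028 8 8) 0 0 (step_sound _ 133 [(rh2f68792b6b779e96.shift 4 1), rhb340035d8e792659] (by decide +kernel))
noncomputable def rh62632c8108f50d6d : CRef := CRef.mk (Pat.mk 0x18000000080000000800000000 0x10000000180000001c0000001c0000001c0000007c0000003f0000007800000030 8 7) 0 0 (step_sound _ 131 [rh080cfd884bd25811, (rh9137dce9dbdc3996.shift 2 0), (rhc17b7d8fab3dfe57.shift 2 0), (rhced6d86d2069808b.shift 3 0), (rhe913eab949cfc300.shift 2 0), (rhee96664009745300.shift 2 1)] (by decide +kernel))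
noncomputable def rhb42fcc0737288f79 : CRef := CRef.mk (Pat.mk 0x30000000100000001000000000 0x20000000a0000001b7000001fe000001fe000000f000000040 8 9) 0 0 (step_sound _ 133 [(rh69755ef358ebfd54.shift 4 1), (rhbfb5770941270498.shift 4 1), (rheb4949bdfa5025cf.shift 4 1), rhf4b5437ea871a846] (by decide +kernel))
noncomputable def rhdb76bd9c60b0602d : CRef := CRef.mk (Pat.mk 0x3000000010000000100000000000000000 0x280000003c000000ff0000007e0000003f0000003f000000ff000001f60000006600000020 8 9) 0 0 (step_sound _ 131 [(rh12b4fe866d47fa27.shift 0 1), (rh5d3fa09e2e98c6ef.shift 0 1), (rh6be72825b09b8fd7.shift 0 1), (rh6d51fd5a9263d7c0.shift 2 0), (rha7bd6ce1e976fe89.shift 0 1)] (by decide +kernel))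
noncomputable def rh1ffb41938490b159 : CRef := CRef.mk (Pat.mk 0x18000000080000000800000000 0x100000001c0000001c0000001c0000001f0000007c000000180000001800000010 8 7) 0 0 (step_sound _ 131 [rh11ccf8fcce206609, (rhca405e350c462817.shift 0 1), (rhced6d86d2069808b.shift 3 0), (rhcfafd520b4052cd3.shift 2 0)] (by decide +kernel))
noncomputable def rh3e96e85638f4f781 : CRef := CRef.mk (Pat.mk 0x18000000080000000800000000 0x100000001c0000001c0000001c0000001f000000ff0000006f0000007800000030 8 8) 0 0 (step_sound _ 131 [rh11ccf8fcce206609, (rhca405e350c462817.shift 0 1), (rhcfafd520b4052cd3.shift 2 0), rhf0e35144595f5182] (by decide +kernel))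
noncomputable def rhe198094e1288f217 : CRef := CRef.mk (Pat.mk 0x18000000080000000800000000 0x44000001c7000000ff000000ff0000002800000020 8 9) 0 0 (step_sound _ 101 [(rh2820ca9a6c4f41b4.shift 0 2), (rhaeb0a2adc71b136f.shift 0 1), rhd57e12767049e4f4, (rhf0f55c4504412200.shift 0 2)] (by decide +kernel))
noncomputable def rh65e23794d1f17fde : CRef := CRef.mk (Pat.mk 0x18000000080000000800000000 0x8000000180000001c0000001f0000007c0000003f0000007800000030 8 7) 0 0 (step_sound _ 131 [rh080cfd884bd25811, rh11ccf8fcce206609, (rh3225626012c49542.shift 2 0), rh74723a599927bd90, (rhca405e350c462817.shift 0 1)] (by decide +kernel))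
noncomputable def rh6d84eea8ffa7a943 : CRef := CRef.mk (Pat.mk 0x8000000080000000c00000000 0x140000001e00000078000001f8000000ff000001f4 8 9) 0 0 (step_sound _ 131 [(rh932754581e0f4330.shift 2 0), rhc685d84e368eea4c] (by decide +kernel))
noncomputable def rha8f81ac901ece14a : CRef := CRef.mk (Pat.mk 0x100000001000000018000000000000000000000000 0x30000000fe000000ff000000fe000000e6000000e400000004 8 8) 0 0 (step_sound _ 133 [(rh15787be111b1222d.shift 1 0), (rh557b120f072744ca.shift 1 3), (rh6504013834226b52.shift 0 1), (rh69012675dfdb1a5b.shift 1 3), (rhd69c262cd33b94b3.shift 1 3)] (by decide +kernel))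
noncomputable def rh0675aa76af5ba2b7 : CRef := CRef.mk (Pat.mk 0x100000001000000018000000000000000000000000 0xc0000000c000000fe000000ff000000fe0000006f0000002c00000004 8 8) 0 0 (step_sound _ 131 [(rh2a296bf8063b9b5d.shift 0 1), (rh32d5ae6be94994f8.shift 0 1), (rh80178649ea2242e9.shift 0 1), rh90be9a66cb1e69f3, (rhad4738547f4e5bdb.shift 0 1), (rhb19b42b7d6606602.shift 1 1)] (by decide +kernel))
noncomputable def rhaf0c2377ff359e94 : CRef := CRef.mk (Pat.mk 0x20000000200000002000000020000000000000000 0x10000000700000007000000060000000300000003000000070000000600000004 8 3) 0 0 (step_sound _ 34 [rhd195fcc0cc431959, (rhd3458b32566d63f7.shift 1 1)] (by decide +kernel))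
noncomputable def rh148a561aade3387e : CRef := CRef.mk (Pat.mk 0x20000000200000002000000020000000000000000 0x40000000700000007000000030000000600000006000000070000000300000001 8 3) 0 0 (step_sound _ 32 [(rh79877ebd3ef475dd.shift 0 1), rhfa65b750c7e84d73] (by decide +kernel))
noncomputable def rh5ac43b114349c8bc : CRef := CRef.mk (Pat.mk 0x1000000010000000100000001000000000 0x2f0000003e0000007f0000001c000000f800000028 8 8) 0 0 (step_sound _ 131 [rh2a190ebfed55963d, (rh50fbb5868c909700.shift 3 1)] (by decide +kernel))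
noncomputable def rh2a35df86be462918 : CRef := CRef.mk (Pat.mk 0x2000000020000000200000000000000000000000000000000 0x30000000300000007000000060000000600000007000000070000000700000005 8 3) 0 0 (step_sound _ 97 [rh165cdb78240e1819, (rh8cdd36b03d57a2f6.shift 0 1), rhb4d78cd0e58cc17c, (rhd7cb8ed87e2022d8.shift 0 2), (rhda23a105739b86cb.shift 0 1), (rhff6b27c9612d7353.shift 0 1)] (by decide +kernel))
noncomputable def rh930d12b1920f267c : CRef := CRef.mk (Pat.mk 0x800000008000000080000000800000000 0x140000001e00000078000001f8000000ff000001f4 8 9) 0 0 (step_sound _ 36 [(rh55afc6a59410cf00.shift 3 0), rh9d8e10dd64ef255f] (by decide +kernel))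
noncomputable def rh473476a0a7c5f995 : CRef := CRef.mk (Pat.mk 0x100000001c000000000000000000000000 0x60000000e0000000f000000fe0000007c0000000e0000000c0000000c 8 8) 0 0 (step_sound _ 101 [rh111a5ca7ee19df68, (rh2395824d1086e2bc.shift 1 0), (rh3b00e9e9432b8f40.shift 1 2), (rh98608c6afefa0c7d.shift 1 2), (rhb18e6c78a554867d.shift 1 3)] (by decide +kernel))
noncomputable def rhb7564fb17b98e6be : CRef := CRef.mk (Pat.mk 0x180000000c000000000000000000000000 0x3000000170000001f000000ff0000000f0000000e0000000e 8 8) 0 0 (step_sound _ 97 [rh48fcf4e84f526231, (rh53b3c253cb0c65f4.shift 0 3)] (by decide +kernel))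
noncomputable def rh27f4642f79069c08 : CRef := CRef.mk (Pat.mk 0x180000000c000000000000000000000000 0x2000000170000001f000000ff000000fc0000001c0000001c 8 8) 0 0 (step_sound _ 97 [(rh53b3c253cb0c65f4.shift 0 3), rh80dc33839571a82f] (by decide +kernel))
noncomputable def rh3d1d11234d4a70bc : CRef := CRef.mk (Pat.mk 0x180000000c000000000000000000000000 0x100000001c000000ff0000007f0000003800000038 8 8) 0 0 (step_sound _ 97 [(rh53b3c253cb0c65f4.shift 0 3), rhccff8d6cf4b8f8f8] (by decide +kernel))
noncomputable def rhb6f93bd5044b3dbf : CRef := CRef.mk (Pat.mk 0x300000001800000000000000000000000000000000 0x80000002c000000f8000000f8000000fc000000ff000000fc000000a8 8 8) 0 0 (step_sound _ 166 [(rh18965a982d73c794.shift 3 4), rh42a6be97a70f4b42] (by decide +kernel))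
noncomputable def rh2834944f5b5b921d : CRef := CRef.mk (Pat.mk 0x200000003800000000000000000000000000000000 0x40000001c0000001c0000005c000001ff000000780000007e0000003e0000003c00000018 8 9) 0 0 (step_sound _ 166 [(rh572132728df34c43.shift 3 4), rh6d3bdae500f6b39b, (rh80f90a60d87caa0d.shift 3 4), (rhafdf94f2acdc0ed4.shift 3 4)] (by decide +kernel))
noncomputable def rh92f75b7340fec3b0 : CRef := CRef.mk (Pat.mk 0x80000000e000000000000000000000000 0x100000007f0000003e0000007f0000003800000038 8 7) 0 0 (step_sound _ 100 [(rh3fc3a7fb6866dcd4.shift 1 2), (rh98608c6afefa0c7d.shift 0 2), rh99aa92e656c48a2b, (rhc6ebdb02f2c2b584.shift 0 2)] (by decide +kernel))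
noncomputable def rhc421ec5ee703980f : CRef := CRef.mk (Pat.mk 0x1000000038000000000000000000000000 0xc0000000c0000000c0000001c000000f80000001f0000001c0000001c 8 8) 0 0 (step_sound _ 131 [(rh79b3c29022acbdf3.shift 2 3), rhbe63256c9de76e79] (by decide +kernel))
noncomputable def rh67d5a0f11a5ecaac : CRef := CRef.mk (Pat.mk 0x40000000e000000000000000000000000 0xa0000000b0000007f0000007e0000003c0000001400000010 8 7) 0 0 (step_sound _ 100 [rh040ed1c7cbf17513, (rhe3060b190bc0bc78.shift 0 3), (rhfc2d07691244eb1c.shift 1 0)] (by decide +kernel))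
noncomputable def rh12e4225621695496 : CRef := CRef.mk (Pat.mk 0x40000000e00000000000000000000000000000000 0x8000000080000007c0000007e0000007f0000003e0000003a00000028 8 7) 0 0 (step_sound _ 132 [(rh07fc106a6edf0c0a.shift 0 3), rh1209e0c9a7d7f3b9, (rh91d9f1766187f438.shift 0 1), (rhdfd8cae5fc52a4c0.shift 0 1), (rhfc2d07691244eb1c.shift 1 1)] (by decide +kernel))
noncomputable def rh61351b1e195af11c : CRef := CRef.mk (Pat.mk 0x100000003800000000000000000000000000000000 0x2e0000003e00000038000001ff000000fe000001ff00000004 8 9) 0 0 (step_sound _ 67 [(rh02065935a6412323.shift 0 1), (rh05234e997bdaa865.shift 0 1), (rh0bee117fa148cec8.shift 1 1), (rh1ffb37c2dfd1c0a6.shift 0 1), (rh7bab607ba77cc521.shift 1 1), (rh8f08a52086557fc0.shift 0 1), rh93750c1aea09a73f] (by decide +kernel))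
noncomputable def rhe4244e30a5b8ec23 : CRef := CRef.mk (Pat.mk 0x40000000e000000000000000000000000 0x2000000770000003e0000007f0000000700000007 8 7) 0 0 (step_sound _ 100 [(rh07fc106a6edf0c0a.shift 0 2), rh5bf85932bb4e4f18, (rhe3060b190bc0bc78.shift 0 3)] (by decide +kernel))
noncomputable def rh464547a8f6e795ba : CRef := CRef.mk (Pat.mk 0x80000000e00000000000000000000000000000000 0x140000007f0000003e0000007b0000001f0000001e00000004 8 7) 0 0 (step_sound _ 164 [(rh572132728df34c43.shift 1 4), rh7fd53a5a59b30452, (rh80f90a60d87caa0d.shift 1 4), (rhafdf94f2acdc0ed4.shift 1 4)] (by decide +kernel))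
noncomputable def rhe040d437c78703b4 : CRef := CRef.mk (Pat.mk 0x1800000018000000000000000000000000 0x80000000c0000000c0000003c0000001f0000001f0000001f0000001c 8 6) 0 0 (step_sound _ 98 [rh32f5846af4abfdcf, (rhab2ad169e49f9c5e.shift 0 3)] (by decide +kernel))
noncomputable def rh9758b2116812bfa2 : CRef := CRef.mk (Pat.mk 0x3000000030000000000000000000000000 0x600000056000000fe0000003e000001ff000000fc000001ff 8 9) 0 0 (step_sound _ 99 [rh8bae12767d682d62, (rhab2ad169e49f9c5e.shift 1 3), (rhaf01720f2e1f09bb.shift 1 0)] (by decide +kernel))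
noncomputable def rhadb0c89fb297686b : CRef := CRef.mk (Pat.mk 0x1800000018000000000000000000000000 0x1c0000003c0000000f000000380000001f0000003f0000001c0000001c 8 6) 0 0 (step_sound _ 163 [(rh28152048bc8b598f.shift 0 2), rh5474f539ae7595c9, (rh55a1f6c57a317ce6.shift 3 1)] (by decide +kernel))
noncomputable def rh7c053e41d3387ce9 : CRef := CRef.mk (Pat.mk 0x1800000018000000000000000000000000 0xc0000000c0000002f000000ff000000df000000100000001000000010 8 8) 0 0 (step_sound _ 133 [(rh4dc133ee0ba1420a.shift 1 3), rh8085982410cfb674, (rh8df01f45f12b1b07.shift 2 1)] (by decide +kernel))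
noncomputable def rh6fad27bd7bb4698a : CRef := CRef.mk (Pat.mk 0x1800000018000000000000000000000000 0xc0000000e0000000f0000007f0000001f0000000f0000000e0000000e 8 7) 0 0 (step_sound _ 98 [rh1884b8a8ed9da8ec, rh843829df747681b1, (rhab2ad169e49f9c5e.shift 0 3)] (by decide +kernel))
noncomputable def rh2f46c813fe06b41b : CRef := CRef.mk (Pat.mk 0x180000001800000000000000000000000000000000 0x7000000070000003f0000001f0000001f0000007f0000007f00000005 8 7) 0 0 (step_sound _ 129 [rh5742cd45fbc5eac9, (rh6a816885f89d1c97.shift 0 1), (rh6d571b54e8dd9e33.shift 0 4), (rha877df957c7a9699.shift 0 1)] (by decide +kernel))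
noncomputable def rh6b89ded2eea190a1 : CRef := CRef.mk (Pat.mk 0x1800000018000000000000000000000000 0xc0000000c0000000f0000007c000000180000001c0000001c0000001c 8 7) 0 0 (step_sound _ 163 [(rh55a1f6c57a317ce6.shift 3 1), (rhdb891aab85de5d49.shift 2 0), rhf78fc298110578d8] (by decide +kernel))
noncomputable def rhaad8929a9b319b16 : CRef := CRef.mk (Pat.mk 0x100000001c000000000000000000000000 0x37000000ff0000003c0000000800000008 8 8) 0 0 (step_sound _ 97 [(rh33e738c4ed385b9f.shift 1 3), rhb032e3d88c98fd59] (by decide +kernel))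
noncomputable def rhde622a93fb1549b5 : CRef := CRef.mk (Pat.mk 0x2000000038000000000000000000000000 0x2f000001fe000000ff0000001000000010 8 9) 0 0 (step_sound _ 98 [(rh008b05f4778dc30d.shift 0 2), (rh775ca1963e850b80.shift 0 2), (rhb032e3d88c98fd59.shift 1 0), (rhc6ebdb02f2c2b584.shift 1 2)] (by decide +kernel))
noncomputable def rh51ba11d36511407e : CRef := CRef.mk (Pat.mk 0x80000000e000000000000000000000000 0x120000007b0000003e0000007f0000003c0000003c 8 7) 0 0 (step_sound _ 100 [(rh07fc106a6edf0c0a.shift 0 2), rh2395824d1086e2bc, (rh3fc3a7fb6866dcd4.shift 1 2), rh7fda3391534aa52c] (by decide +kernel))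
noncomputable def rh5fd0040cfbf72f21 : CRef := CRef.mk (Pat.mk 0x1800000018000000000000000000000000 0x1c0000003c0000000f0000001c0000007c000000fc0000007c0000002c 8 8) 0 0 (step_sound _ 163 [(rh28152048bc8b598f.shift 0 2), (rh55a1f6c57a317ce6.shift 3 1), (rhbe01cdf6e33566dd.shift 2 0)] (by decide +kernel))
noncomputable def rh9ecf4f7da75f5185 : CRef := CRef.mk (Pat.mk 0x18000000180000000000000000 0x50000001f0000003f0000000f0000001f0000003f0000003b00000013 8 6) 0 0 (step_sound _ 131 [(rh28152048bc8b598f.shift 0 1), (rh55a1f6c57a317ce6.shift 3 0), rhb88bc411763d5eca] (by decide +kernel))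
noncomputable def rh0babf50358e649f9 : CRef := CRef.mk (Pat.mk 0x1800000018000000000000000000000000 0xc0000000c0000000f0000001f0000007f0000000f0000000f0000000c 8 7) 0 0 (step_sound _ 130 [(rh5e52af8cb217ef05.shift 0 1), (rh6292bd8784ece55f.shift 1 3), rha566f9776e5ccd1e] (by decide +kernel))
noncomputable def rh47f7e6b0b85bc278 : CRef := CRef.mk (Pat.mk 0x1800000018000000000000000000000000 0xc0000000c0000000c0000001c0000001f000000ff000000fc0000000c 8 8) 0 0 (step_sound _ 163 [rh1d6e62e92ca8bc21, (rh55a1f6c57a317ce6.shift 3 1), (rhdb891aab85de5d49.shift 2 0)] (by decide +kernel))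
noncomputable def rh3c84d58188502a5c : CRef := CRef.mk (Pat.mk 0x1800000018000000000000000000000000 0x600000006000000060000001e000000ff000000ff0000007c0000007c 8 8) 0 0 (step_sound _ 101 [(rh2f148cf059aeed38.shift 1 0), (rh79b3c29022acbdf3.shift 2 3), rha432b88664897657] (by decide +kernel))
noncomputable def rhe52961a8e9e6081f : CRef := CRef.mk (Pat.mk 0x1000000018000000080000000000000000 0xc0000000c0000000c0000001e00000078000000380000001f0000001c 8 7) 0 0 (step_sound _ 35 [rh4cab8416eb765a1a, (rh71222050f2c63a3a.shift 3 0)] (by decide +kernel))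
noncomputable def rhae74207800e81c80 : CRef := CRef.mk (Pat.mk 0x10000000180000000800000000000000000000000000000000 0x2000000020000001f0000000f8000001ff000000ff000001fe000000f400000054 8 9) 0 0 (step_sound _ 165 [(rh359ce82976204a09.shift 3 1), rh54988ba77eb826a8, (rhcc3c436905d8f79e.shift 2 2), (rhf0f55c4504412200.shift 0 4)] (by decide +kernel))
noncomputable def rh69f2d3bd5b146481 : CRef := CRef.mk (Pat.mk 0x100000001800000008000000000000000000000000 0x80000002f000000ff000000fb000000ff000000f70000003400000034 8 8) 0 0 (step_sound _ 100 [rh43c0d0553c97414b, (rh782059f097e65d69.shift 1 0), (rh921e27cf06299291.shift 0 1), rhefd030c6838cbf29] (by decide +kernel))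
noncomputable def rh8dffa966c2ca2f54 : CRef := CRef.mk (Pat.mk 0xe000000080000000000000000 0x50000000700000007000001df000000fe0000007f0000000600000006 8 9) 0 0 (step_sound _ 100 [rh6c7f258014e76fe7, rhafa5a7051d37b143, (rhc31d6a3c669c26a7.shift 0 2), (rhc6ebdb02f2c2b584.shift 0 2), (rhe4374866cadc7201.shift 0 2), rhefd858cfdc5d2964] (by decide +kernel))
noncomputable def rh4e3b625ea717494a : CRef := CRef.mk (Pat.mk 0xe00000008000000000000000000000000 0x4000001df000000fe0000007f000000330000001300000010 8 9) 0 0 (step_sound _ 132 [rh95e2497d07ae4e12, (rha42db4b4bc101bc4.shift 0 1), (rhc31d6a3c669c26a7.shift 0 3), (rhc6ebdb02f2c2b584.shift 0 3), (rhe4374866cadc7201.shift 0 3), (rhefd858cfdc5d2964.shift 0 1)] (by decide +kernel))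
noncomputable def rhea313c48b0ad4b62 : CRef := CRef.mk (Pat.mk 0xe00000008000000000000000000000000 0x2000001df000000fe0000007f000000370000003600000032 8 9) 0 0 (step_sound _ 132 [(rhafa5a7051d37b143.shift 0 1), (rhc31d6a3c669c26a7.shift 0 3), rhc52cd54296eaaee3, (rhc6ebdb02f2c2b584.shift 0 3), (rhe4374866cadc7201.shift 0 3)] (by decide +kernel))
noncomputable def rhf7b141b205d22c65 : CRef := CRef.mk (Pat.mk 0xe000000080000000000000000 0x6000001df000000fe0000007f0000000700000007 8 9) 0 0 (step_sound _ 100 [rha42db4b4bc101bc4, rhafa5a7051d37b143, (rhc31d6a3c669c26a7.shift 0 2), (rhc6ebdb02f2c2b584.shift 0 2), (rhe4374866cadc7201.shift 0 2), rhefd858cfdc5d2964] (by decide +kernel))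
noncomputable def rhe36bd54e22f4ecd0 : CRef := CRef.mk (Pat.mk 0x1c000000100000000000000000 0x8000003bf000001fe000001df0000000400000004 8 10) 0 0 (step_sound _ 101 [(rh775ca1963e850b80.shift 0 2), (rh8f6ed239932f7739.shift 1 2), (rhc91adf9cd6014113.shift 1 2), (rhefd858cfdc5d2964.shift 1 0)] (by decide +kernel))
noncomputable def rhf3baf27739434b37 : CRef := CRef.mk (Pat.mk 0x3800000020000000000000000000000000 0x140000005c0000007e0000007c0000006f000000f8000001ff000000de0000005400000044 8 9) 0 0 (step_sound _ 102 [(rh4a0b10776449c3e9.shift 3 3), rh5594e1504ea82e67, (rh89ade209b3e28f13.shift 3 3)] (by decide +kernel))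
noncomputable def rhaf1cfcd16fdcef91 : CRef := CRef.mk (Pat.mk 0x3800000020000000000000000000000000 0x100000001000000f78000007f800000ffc000000df000000c8000000c8 8 12) 0 0 (step_sound _ 134 [(rh02fe001071444006.shift 3 3), (rh0d89a7aa3bfae2be.shift 2 0), rh1460d2b9f436fb4e, (rh8f6ed239932f7739.shift 2 3), (rh95e2497d07ae4e12.shift 2 0), (rhfc4d743d8bc12af8.shift 2 1)] (by decide +kernel))
noncomputable def rhcace1ab7ddf807ab : CRef := CRef.mk (Pat.mk 0x1c00000010000000000000000000000000 0x140000003c0000003f0000001f0000000f0000000e0000000e 8 6) 0 0 (step_sound _ 99 [(rh8d364617c03d6975.shift 0 1), rh9e32231d7004bb35, rhf583a26d2b61a9cd] (by decide +kernel))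
noncomputable def rha14909c81d8c0e52 : CRef := CRef.mk (Pat.mk 0x1c00000010000000000000000000000000 0x1c0000001c0000001e000000fc000000fc0000006f0000002c0000002c 8 8) 0 0 (step_sound _ 101 [(rh4a0b10776449c3e9.shift 2 3), (rh89ade209b3e28f13.shift 2 3), rha41b2e3b8c5d39fa] (by decide +kernel))
noncomputable def rh8919f87d7b099a6c : CRef := CRef.mk (Pat.mk 0x1c00000010000000000000000000000000 0x2800000038000000380000003c0000003f000003b8000001fc000001ff0000006e0000002400000004 8 10) 0 0 (step_sound _ 164 [(rh39c5608e01067eed.shift 2 2), (rh3c08da9eb16c1386.shift 1 0), (rh8e8c0c1f631f240e.shift 0 2), (rhf76814481ffe61c0.shift 2 2), (rhfedc2e8b5499f6b9.shift 2 2)] (by decide +kernel))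
noncomputable def rhd5833be5434b7b0e : CRef := CRef.mk (Pat.mk 0x2800000020000000000000000000000000 0x1c0000001f000003fe000001ff0000001c0000001c00000008 8 10) 0 0 (step_sound _ 132 [(rh040addc57a7d909b.shift 2 0), (rh241f22264ae5a213.shift 0 1), (rh8ee80cc30e93a344.shift 2 3), (rhc21a95c499b3efdb.shift 2 3)] (by decide +kernel))
noncomputable def rhb373d886f01d3e79 : CRef := CRef.mk (Pat.mk 0x16000000100000000000000000 0x3000000070000003f0000001e000000370000000600000002 8 6) 0 0 (step_sound _ 99 [rh5df07c322c81d0ac, (rhe25b0a99195a5d59.shift 1 2)] (by decide +kernel))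
noncomputable def rh2f3528b40f3a9557 : CRef := CRef.mk (Pat.mk 0x2c000000200000000000000000 0x60000002e0000007f0000003e0000003f0000001c00000014 8 7) 0 0 (step_sound _ 100 [(rh5df07c322c81d0ac.shift 1 0), (rh775ca1963e850b80.shift 0 2), (rhba50fd7aca570c30.shift 1 0)] (by decide +kernel))
noncomputable def rhe8a32e61ccf40fae : CRef := CRef.mk (Pat.mk 0x2c0000002000000000000000000000000000000000 0x100000001c0000003c0000007c0000002f0000007c0000001f0000001c0000001c00000014 8 7) 0 0 (step_sound _ 131 [(rh3186fba49ce17118.shift 0 1), rh3be75cd2ccb2b4ca, (rh8c25cb665ab79ec0.shift 0 4), rhe893e51a0a084857] (by decide +kernel))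
noncomputable def rhdd8937b2eeabab36 : CRef := CRef.mk (Pat.mk 0x38000000200000000000000000 0x64000001ff000000fe00000f7f000007f800000ff00000005000000010 8 12) 0 0 (step_sound _ 102 [(rh02fe001071444006.shift 3 2), (rh46563f8da64b084c.shift 2 1), (rh6ac630e7834375bf.shift 2 2), (rhc2469bfab31eb442.shift 2 2), (rhc91adf9cd6014113.shift 2 2), rhced6693a241950ed, (rhe4374866cadc7201.shift 2 2)] (by decide +kernel))
noncomputable def rhe6db7c8b077bf950 : CRef := CRef.mk (Pat.mk 0x8000000280000002000000000 0x70000000f00000007f000000ff000001e000000040 8 9) 0 0 (step_sound _ 68 [(rh8ee80cc30e93a344.shift 2 1), (rha9fbfd4bb8cf890b.shift 0 2), (rhe64b2b72cb72044e.shift 2 0), (rheebfe330bddc1b28.shift 0 1)] (by decide +kernel))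
noncomputable def rhcd39ed1604d05736 : CRef := CRef.mk (Pat.mk 0x8000000280000002000000000 0x70000000f00000007f000000fe000001e700000040 8 9) 0 0 (step_sound _ 68 [(rh3918eeb6c53434d8.shift 0 1), (rh8ee80cc30e93a344.shift 2 1), (rha9fbfd4bb8cf890b.shift 0 2), (rhe64b2b72cb72044e.shift 2 0)] (by decide +kernel))
noncomputable def rhcc739890c40eeec7 : CRef := CRef.mk (Pat.mk 0x1000000050000000400000000000000000 0x20000000380000003c0000007f000000ff000000ff000000ff0000005f0000001800000018 8 8) 0 0 (step_sound _ 131 [(rh126557da767e56cc.shift 1 3), rhc07922dd3a68be08, rhd1b7df15667251d3] (by decide +kernel))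
noncomputable def rh259ac3ecd3392e2f : CRef := CRef.mk (Pat.mk 0x1000000050000000400000000000000000 0x80000003c000000ff000000ff0000007f000000de0000001c0000001c 8 8) 0 0 (step_sound _ 99 [(rh4f146cf39bfe9c16.shift 2 0), rh4f9ac044c281071a, (rh85ca26a3b9b8b6cb.shift 1 2), (rhb34a67f8847d128f.shift 1 2), (rhbede0049e4a00269.shift 1 2)] (by decide +kernel))
noncomputable def rh360b07c4aecfd8d7 : CRef := CRef.mk (Pat.mk 0x80000002800000020000000000000000000000000 0x1c0000001c0000001c0000001f000000fc0000002f0000007c0000006f0000001c0000001c00000014 8 8) 0 0 (step_sound _ 195 [(rh38bd857cc2c92910.shift 2 2), (rh45eacce28c1edd08.shift 1 1), (rh66e50c5fa32577ac.shift 2 2), (rh9401f805ebdf32a4.shift 1 3), (rhdd0fa5500c60187f.shift 0 3), rhf7d0feae4fff54f9] (by decide +kernel))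
noncomputable def rh264290905a901d9a : CRef := CRef.mk (Pat.mk 0x800000028000000200000000000000000 0x1c0000001c0000005c0000007f000000fe0000007f000001f8000001ec0000004c0000000c 8 9) 0 0 (step_sound _ 102 [(rh923df335d2d135e4.shift 1 1), rh942a2d842af349d5, (rh971ac14144b5c87b.shift 2 2), (rhb2a7b2e9e3b894c6.shift 1 0), (rhdefac4dcb02ba3ae.shift 2 1), (rhe7d74c0e5d13bd40.shift 2 0)] (by decide +kernel))
noncomputable def rha73bc706a27ece73 : CRef := CRef.mk (Pat.mk 0x80000002800000020000000000000000000000000 0x100000001c0000001c0000001c00000038000000ff000001ef0000001c0000001c00000014 8 9) 0 0 (step_sound _ 132 [(rh1c8a0cdd5a617280.shift 0 3), (rh3853d8dac06a7153.shift 2 0), (rh8ee80cc30e93a344.shift 2 3)] (by decide +kernel))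
noncomputable def rh1c3ea4aa6da38e71 : CRef := CRef.mk (Pat.mk 0x20000000a000000080000000000000000000000000 0x700000007000000370000001ff000003fe000001ff000001bc000001b0000001700000007000000040 8 10) 0 0 (step_sound _ 197 [(rh38bd857cc2c92910.shift 4 2), (rh3cab7ac674d41be0.shift 2 1), (rh5b7c25578bf8ebab.shift 4 3), (rh66e50c5fa32577ac.shift 4 2), (rh6b7d4a9432f4ffc1.shift 3 3), (rh7a9eeb1ec32721a2.shift 0 2), (rhdd0fa5500c60187f.shift 2 3), (rhdd497deecc067aae.shift 2 0)] (by decide +kernel))
noncomputable def rha2a7b5e171b2626c : CRef := CRef.mk (Pat.mk 0x38000000200000000000000000 0x60000002e0000007f0000003e0000003f0000001c00000014 8 7) 0 0 (step_sound _ 98 [(rh5df07c322c81d0ac.shift 1 0), (rh775ca1963e850b80.shift 0 2), (rh8859ac061aed93d9.shift 1 0), (rhdceeca65bdd8095a.shift 0 2)] (by decide +kernel))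
noncomputable def rh8ce2545147010b72 : CRef := CRef.mk (Pat.mk 0xe000000080000000000000000 0x50000000700000007000001df000000fe000000ef0000000600000006 8 9) 0 0 (step_sound _ 100 [rh6c7f258014e76fe7, (rh8f6ed239932f7739.shift 0 2), rhafa5a7051d37b143, (rhc91adf9cd6014113.shift 0 2), rhefd858cfdc5d2964] (by decide +kernel))
noncomputable def rhf15d772f68195eaf : CRef := CRef.mk (Pat.mk 0x40000001400000010000000000000000000000000 0x1e0000001e0000001e000001fc000001ff0000006f0000002c00000024 8 9) 0 0 (step_sound _ 131 [rh36937c11ea8193b0, (rh4566aebd2d1d45df.shift 1 3), (rh91b4bdd3b8f6f8f0.shift 1 3), (rha3494eb53bee01dd.shift 1 3), (rhebe9f0dc13d89c6c.shift 1 1), rhef178723fad67842, (rhfc739efe5bf2828e.shift 1 0)] (by decide +kernel))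
noncomputable def rh4e79652e45d56b83 : CRef := CRef.mk (Pat.mk 0x80000002800000020000000000000000000000000 0x140000001c0000001c0000000c0000001c0000003c000003f8000001ff000000de0000005c00000048 8 10) 0 0 (step_sound _ 132 [(rh3ab2a7a132a1fc95.shift 0 1), (rh4566aebd2d1d45df.shift 2 3), (rha3494eb53bee01dd.shift 2 3), (rhef178723fad67842.shift 1 0), (rhfc739efe5bf2828e.shift 2 0)] (by decide +kernel))
noncomputable def rhfe279dd4c7178d62 : CRef := CRef.mk (Pat.mk 0x80000002800000020000000000000000000000000 0x140000001c0000003c0000000f0000003c000003f8000001ff000000de0000005c00000048 8 10) 0 0 (step_sound _ 132 [(rh4566aebd2d1d45df.shift 2 3), (rh6607ddfa70decb1f.shift 0 1), (rha3494eb53bee01dd.shift 2 3), (rhef178723fad67842.shift 1 0), (rhfc739efe5bf2828e.shift 2 0)] (by decide +kernel))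
noncomputable def rh592f7491de53897c : CRef := CRef.mk (Pat.mk 0x80000002800000020000000000000000000000000 0x1c0000001c0000001c0000003f000000ff0000007f000001f8000003bf0000001c0000001c00000014 8 10) 0 0 (step_sound _ 132 [(rh7765a470acfadf64.shift 0 1), (rh91b4bdd3b8f6f8f0.shift 2 3), (rha9a0d34b2af72dae.shift 0 1), rhb6e13c8af7e6c1a6] (by decide +kernel))
noncomputable def rh8cdc0a623c11ac65 : CRef := CRef.mk (Pat.mk 0x80000002800000020000000000000000000000000 0x140000001c0000001c0000001c0000007f000000fc0000002f000001f8000001fe0000005c0000001400000010 8 9) 0 0 (step_sound _ 195 [(rh036d7d26e8626ec9.shift 2 1), (rh0f3cfb62589a6fd6.shift 0 2), (rh327df372c818f0f0.shift 2 1), rh4d9785d94e9b41e0, (rh70555b89576159f5.shift 2 2), (rhdd0fa5500c60187f.shift 0 3), (rhfd8b4a7384ef7a79.shift 2 0)] (by decide +kernel))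
noncomputable def rhef85dbe3433aa2d6 : CRef := CRef.mk (Pat.mk 0x20000000a00000008000000000000000000000000 0x140000001c0000003c0000001f000000fe0000007f000000370000001300000010 8 8) 0 0 (step_sound _ 132 [(rh29ecdcaffa9abd19.shift 0 3), rh7450cea881bffed3, (rh971ac14144b5c87b.shift 0 3), (rh99bb83237d3ccd53.shift 0 2), rh9a821ead5edbe8cc, (rha2009a262f25f02e.shift 0 1), (rhe7d74c0e5d13bd40.shift 0 1)] (by decide +kernel))
noncomputable def rhfc628aceb891e67b : CRef := CRef.mk (Pat.mk 0x100000005000000040000000000000000000000000 0x28000000380000003800000030000000f7000000fe0000003f0000003800000038 8 8) 0 0 (step_sound _ 100 [(rh2759b531b6f0985d.shift 3 0), rh56d6cc6c29cd492e, (rh70ddb03f15264b0d.shift 3 0), (rh909b4dffbd113a60.shift 3 2), (rh94753fbe52244075.shift 1 0), (rhfc5ed974963ca339.shift 1 0)] (by decide +kernel))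
noncomputable def rh7468d156108e1ba6 : CRef := CRef.mk (Pat.mk 0x800000028000000200000000000000000 0x1c0000001c0000005c0000007f000000fe0000007f000001f8000001ec0000004c0000000c 8 9) 0 0 (step_sound _ 102 [(rh923df335d2d135e4.shift 1 1), (rh971ac14144b5c87b.shift 2 2), (rhb2a7b2e9e3b894c6.shift 1 0), rhc8307ff49760a494, (rhdefac4dcb02ba3ae.shift 2 1), (rhe7d74c0e5d13bd40.shift 2 0)] (by decide +kernel))
noncomputable def rhf38a606636f92432 : CRef := CRef.mk (Pat.mk 0x4000000140000001000000000 0x280000003e000000ff0000003e000001fc000001f800000028 8 9) 0 0 (step_sound _ 100 [(rh2bb65c9c1806ce16.shift 1 1), (rh497690ddab9e262e.shift 1 0), (rh4ff0b701d473b99c.shift 1 0), rh63a4e07fad9681ce, (rh7c377d2256e75779.shift 1 0), (rha5a03244e899509c.shift 1 0), (rhb5310abda5fee0fe.shift 1 0), (rhc5b4a290ad56a0b8.shift 1 0)] (by decide +kernel))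
noncomputable def rh04507cd667117b78 : CRef := CRef.mk (Pat.mk 0x8000000280000002000000000000000000000000000000000 0x140000007c0000007f0000007f00000038000000fc0000001f0000001c0000001c00000014 8 8) 0 0 (step_sound _ 131 [rh2878761e1902e012, (rh64991083a1397db0.shift 2 2), (rh66e50c5fa32577ac.shift 2 2), (rh8cbe7084457f5a82.shift 0 3), (rhb46a7b339e4b279a.shift 2 2), (rhfc5ed974963ca339.shift 0 1)] (by decide +kernel))
noncomputable def rhcb742ac32cb0fceb : CRef := CRef.mk (Pat.mk 0x80000002800000020000000000000000000000000 0x140000001c0000007c0000003c000000e8000000fc0000001f0000001c00000014 8 8) 0 0 (step_sound _ 99 [(rh64991083a1397db0.shift 2 1), (rh66e50c5fa32577ac.shift 2 1), (rh909b4dffbd113a60.shift 2 2), (rh90e4bc6f867a10c0.shift 2 0), rhaa3486953425d73e, rhbe9fb93e772e6a0b] (by decide +kernel))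
noncomputable def rh636f4f242a7e4fac : CRef := CRef.mk (Pat.mk 0x80000002800000020000000000000000000000000 0x1c0000001c0000001c0000003f000000ff0000007f000003f8000001ff0000001c0000001c00000014 8 10) 0 0 (step_sound _ 132 [(rh4566aebd2d1d45df.shift 2 3), (rh7765a470acfadf64.shift 0 1), (rha3494eb53bee01dd.shift 2 3), (rha9a0d34b2af72dae.shift 0 1), rhb6e13c8af7e6c1a6] (by decide +kernel))
noncomputable def rh81116fc3405ddf99 : CRef := CRef.mk (Pat.mk 0xa0000000a0000000000000000000000000 0x80000007bf000001fe0000030e0000010000000100 8 11) 0 0 (step_sound _ 102 [(rh5ea5b6c71c5c47fb.shift 4 0), (rh99aa0aa18f28cb63.shift 0 2), (rha11dfd15f08f96e3.shift 4 3), (rha9fbfd4bb8cf890b.shift 2 3), (rhd117684c4a851b90.shift 3 3)] (by decide +kernel))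
noncomputable def rh3e4f18fab0ec69dd : CRef := CRef.mk (Pat.mk 0xa0000000a00000000000000000000000000000000000000000 0x500000007000000070000000bf000003fe0000007e00000070000000700000007000000040 8 10) 0 0 (step_sound _ 166 [(rh1547f435eb46ea03.shift 0 2), (rh24e72371d7873615.shift 4 2), (rha9fbfd4bb8cf890b.shift 2 5), (rhd2550ef10c2ac8f0.shift 2 0)] (by decide +kernel))
noncomputable def rh86dc73e7dd008f0e : CRef := CRef.mk (Pat.mk 0x28000000280000000000000000000000000000000000000000 0x140000001c0000003c000001e8000000fc000000df0000005c0000005c0000001c00000010 8 9) 0 0 (step_sound _ 164 [(rh372a8eea94ad6b28.shift 1 2), (rh6d070143010365d5.shift 2 2), (rh7dc5059a8510f4a2.shift 1 2), (rha11dfd15f08f96e3.shift 2 5), rhd2550ef10c2ac8f0] (by decide +kernel))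
noncomputable def rhe120bcce6b11dec4 : CRef := CRef.mk (Pat.mk 0x2800000028000000000000000000000000 0x140000001c0000003e0000007f000000ec000000f8000000df0000005c00000054 8 8) 0 0 (step_sound _ 100 [(rh24e72371d7873615.shift 2 0), (rh5ea5b6c71c5c47fb.shift 2 0), (rh6d070143010365d5.shift 2 0), rhb7f406cc1dc4516f, (rhd2f6bb1288d36d0d.shift 2 0)] (by decide +kernel))
noncomputable def rh076da49eb0ea4189 : CRef := CRef.mk (Pat.mk 0x280000002800000000000000000000000000000000 0x140000001c0000007c0000007f0000007f0000006e0000002c0000001c0000001c0000001c00000004 8 7) 0 0 (step_sound _ 195 [(rh054cae44ffedf79a.shift 2 2), (rh21631644dc857a70.shift 2 0), (rh580b040c4cbecba4.shift 0 3), (rh59f9ca75b00ea64b.shift 0 1), (rh64f90866bbc57e76.shift 1 1), (rh90e4bc6f867a10c0.shift 2 1), (rhca4d5fc3d95c8c8e.shift 2 1)] (by decide +kernel))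
noncomputable def rh320c548abdc1c178 : CRef := CRef.mk (Pat.mk 0x2800000020000000000000000000000000 0x340000007f000003fe000001ff000000dc0000005c00000048 8 10) 0 0 (step_sound _ 132 [(rh4ed021796d7d1315.shift 0 1), (rh8ee80cc30e93a344.shift 2 3), (rhc21a95c499b3efdb.shift 2 3), (rhe5841e6148016832.shift 2 0)] (by decide +kernel))
noncomputable def rhe0647302ad5d3ed8 : CRef := CRef.mk (Pat.mk 0x200000002000000000000000000000000000000000 0x50000000700000007000000070000001ff000001ff000000ff0000007f00000050 8 9) 0 0 (step_sound _ 101 [(rh00acf3325d08def4.shift 4 0), (rh020140c103c93fec.shift 4 0), (rh352fe8a98d9bda86.shift 4 0), (rh3e53d14085adc43a.shift 4 1), (rh75f7c81ccb1d343f.shift 0 2), rh9b27b88f02cd4850, (rhfb24f9e5e729af53.shift 4 0), (rhfc60e486baaa63e2.shift 4 1)] (by decide +kernel))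
noncomputable def rh7d954ee69b7ed51a : CRef := CRef.mk (Pat.mk 0x1e000000000000000000000000 0x6000000070000001e0000003f0000000700000007 8 6) 0 0 (step_sound _ 65 [(rheb0810cc63b001d8.shift 0 2), rhf98c7e9725950ff1] (by decide +kernel))
noncomputable def rh56750b85c931b1d5 : CRef := CRef.mk (Pat.mk 0x100000001e00000010000000000000000000000000 0x8000000380000003800000038000000180000001e00000013000000380000003800000028 8 6) 0 0 (step_sound _ 97 [(rh192e8533435dd98d.shift 3 0), (rheb0810cc63b001d8.shift 0 3)] (by decide +kernel))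
noncomputable def rh1f88aca2eabb5c06 : CRef := CRef.mk (Pat.mk 0x1a00000006000000020000000000000000 0x80000000b0000001f0000001b0000001e000000160000001600000004 8 5) 0 0 (step_sound _ 161 [rh46baee19951a66e7, (rh86f9fc6ff91f9779.shift 0 1), (rhd4b4beefcd67f51e.shift 1 1)] (by decide +kernel))
noncomputable def rh87ffd0db4b7d68dc : CRef := CRef.mk (Pat.mk 0x68000000080000000800000000000000000000000000000000 0x800000008000000ec0000007c0000007f0000001e0000001c0000001c00000008 8 8) 0 0 (step_sound _ 164 [(rh51ff335405c97b2c.shift 2 5), (rh5a2561f3f1836de8.shift 0 1), (rh63251eccdf2370fc.shift 1 0), (rhf2f4335bff8b5899.shift 2 4)] (by decide +kernel))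
noncomputable def rhcfd8f5a400d36470 : CRef := CRef.mk (Pat.mk 0x1a000000060000000200000000000000000000000000000000 0x10000000b0000000f0000003b0000001e0000003600000013000000070000000700000004 8 6) 0 0 (step_sound _ 224 [(rh114f4abf4ea101c9.shift 0 3), (rh94fce1dbf7530cfe.shift 0 3), rhb924b9c6aabed5c6] (by decide +kernel))
noncomputable def rh59112faf7f3f01b7 : CRef := CRef.mk (Pat.mk 0x40000000c000000040000000000000000000000000000000000000000 0x20000000600000006000000060000000f0000003e00000006000000060000000e0000000e0000000a 8 6) 0 0 (step_sound _ 130 [(rhc3ee11b83e13621e.shift 1 0), (rhc4526fc8abf298b6.shift 1 2), (rhc6f6d9e755d06e6d.shift 0 2), (rhf8c58d371bad927d.shift 1 3)] (by decide +kernel))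
noncomputable def rhc39c9feb356c3dbe : CRef := CRef.mk (Pat.mk 0x1a0000000a0000000200000000000000000000000000000000 0xb0000000f0000001b0000001e0000000600000007000000070000000700000004 8 5) 0 0 (step_sound _ 97 [(rh41048afe698407dc.shift 0 3), (rh6eff4158bb400f47.shift 0 1), rha935f04428b9b3d7] (by decide +kernel))
noncomputable def rhac26b74c074df402 : CRef := CRef.mk (Pat.mk 0x68000000080000000800000000000000000000000000000000 0x240000006c0000004c000000ff0000007e0000003c0000001c00000010 8 8) 0 0 (step_sound _ 99 [(rh2177f1a07ba2ed01.shift 0 2), (rh43000f16a4e76173.shift 2 0), (rh8ff3dde5b1c639e0.shift 2 1), (rhc4526fc8abf298b6.shift 2 1)] (by decide +kernel))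
noncomputable def rheacf4bbc4b569bd4 : CRef := CRef.mk (Pat.mk 0x400000034000000040000000400000000 0x120000001e000000340000003c0000003f0000003a 8 6) 0 0 (step_sound _ 129 [rh34bd0c4556796489, (rh50fbb5868c909700.shift 1 1)] (by decide +kernel))
noncomputable def rh9ea0731981326ad3 : CRef := CRef.mk (Pat.mk 0x1a0000000200000002000000000000000000000000 0x1000000090000000f0000003b0000001f00000013000000170000000700000005 8 6) 0 0 (step_sound _ 131 [(rh60a781551e50bc18.shift 0 4), rh7f04eb2613ed8b6b, rh8b9a1830214a05d6, (rhdb11e2ee87c104a9.shift 0 3)] (by decide +kernel))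
noncomputable def rhce548eb50878c72e : CRef := CRef.mk (Pat.mk 0x80000000c000000050000000000000000 0x600000006000000060000000c0000001c0000003f0000001e0000003e 8 6) 0 0 (step_sound _ 34 [(rh71222050f2c63a3a.shift 2 0), rhcea03d4dccec7b71] (by decide +kernel))
noncomputable def rh617de121c2f863b5 : CRef := CRef.mk (Pat.mk 0x34000000140000001000000000 0x800000038000000380000003400000034000000360000003e0000002f 8 6) 0 0 (step_sound _ 132 [(rh5761823b97465660.shift 1 0), (rh5a860b5057e1e4c5.shift 3 1), rhf0a5eead15e5dd3a] (by decide +kernel))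
noncomputable def rhbe54ad6bbfa1b392 : CRef := CRef.mk (Pat.mk 0x80000001a000000120000000000000000 0x3000000030000000340000003f0000001b0000003e0000003800000038 8 6) 0 0 (step_sound _ 36 [rh495ac0e5440fb38c, (rh7b1f1fb55310c477.shift 3 0)] (by decide +kernel))
noncomputable def rh9fd46b63b13ae074 : CRef := CRef.mk (Pat.mk 0x80000001a000000020000000000000000 0x38000000780000001e0000003b000000fe0000003c00000038 8 8) 0 0 (step_sound _ 68 [rh5d47a50b2712b693, (rh5d54cb79a67f97ab.shift 3 0), (rha08e517d7cb06996.shift 1 1), (rha40d42a2e34c408d.shift 3 0)] (by decide +kernel))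
noncomputable def rh6e635cebce90425c : CRef := CRef.mk (Pat.mk 0x8000000180000000200000010 0x40000001c0000001c0000001800000018000000380000001f00000034 8 6) 0 0 (step_sound _ 35 [rh7b8c267e840efa16, (rhb4765c74a85c9509.shift 2 0), rhef8687d6ea97d648] (by decide +kernel))
noncomputable def rhce39f909a275e848 : CRef := CRef.mk (Pat.mk 0x80000001a000000020000000000000000 0x40000001c0000001e0000007c0000003b0000001f0000001c00000008 8 7) 0 0 (step_sound _ 67 [(rh0fe9fa7db1515f92.shift 2 0), (rh60a781551e50bc18.shift 0 2), (rhbfc3a0e31291ebf9.shift 0 1)] (by decide +kernel))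
noncomputable def rhfdaaefc79a82823f : CRef := CRef.mk (Pat.mk 0xc00000018000000020000000000000000 0xc0000001c0000001c0000001c0000001c000000180000000f0000000c00000008 8 5) 0 0 (step_sound _ 67 [(rh668fc65514a55b16.shift 2 0), (rh6aef10d66c20254f.shift 0 1), (rhb1a251d9bff81766.shift 2 1), (rhef8687d6ea97d648.shift 0 1)] (by decide +kernel))
noncomputable def rh86e0e67c84c5fbe3 : CRef := CRef.mk (Pat.mk 0xa0000001a000000020000000000000000 0x10000001d0000000f0000001b0000001b000000130000000300000001 8 5) 0 0 (step_sound _ 160 [(rh0dbc8abee7ad42d4.shift 0 1), rh2542f0b6d1380238, rh28f648a05c9e9249, (rh9030d61819b24aaf.shift 0 2)] (by decide +kernel))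
noncomputable def rh5a9592663f8d31f1 : CRef := CRef.mk (Pat.mk 0x680000001c000000000000000000000000 0x140000007e0000007e000000680000001f0000001f0000001c00000014 8 7) 0 0 (step_sound _ 163 [(rh281c6819542c66e6.shift 2 0), rh3f4246fcd4938ad1, (rhc66371d7479288c0.shift 1 2)] (by decide +kernel))
noncomputable def rhe55ad8582c811631 : CRef := CRef.mk (Pat.mk 0x6800000018000000000000000000000000 0x10000000740000007e0000007f000000ec000000580000001c0000001c00000014 8 8) 0 0 (step_sound _ 163 [(rh55062ee754f0a1e3.shift 0 2), (rh62b0378f92644851.shift 2 0), (rh70e33bfdf511e144.shift 3 0), (rh95e148075f17c77a.shift 1 2), (rhaabd502db063cd1a.shift 1 2), (rhadcf50baa115c334.shift 2 2)] (by decide +kernel))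
noncomputable def rh27ccae92baedae9a : CRef := CRef.mk (Pat.mk 0xd000000030000000000000000000000000 0x1000000010000000d70000007e0000007f0000002800000028 8 8) 0 0 (step_sound _ 99 [(rh3fc040e777f1679e.shift 3 3), rh6289c945a0624314] (by decide +kernel))
noncomputable def rh026fcce36d2ae2e9 : CRef := CRef.mk (Pat.mk 0x1a0000000a000000000000000000000000 0x4000000140000003f0000001f0000003b0000000f0000000b0000000300000003 8 6) 0 0 (step_sound _ 96 [(rh1c62b6193297d9e3.shift 0 3), rh4762c13f5711784f] (by decide +kernel))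
noncomputable def rh6c53af37a943a608 : CRef := CRef.mk (Pat.mk 0x1a0000000800000000000000000000000000000000 0x140000001c0000001c0000001f0000001b00000018000000180000001c0000001c00000014 8 5) 0 0 (step_sound _ 99 [(rh215e11e099257d75.shift 3 2), (rh56b05f3795e64f26.shift 2 0), (rhc6d0044c22f5f95a.shift 0 2), (rhde236ed18f998f21.shift 2 0), (rhffb8e5993241bf15.shift 2 0)] (by decide +kernel))
noncomputable def rh6cac877511e121ac : CRef := CRef.mk (Pat.mk 0x180000000800000008000000000000000000000000 0xc0000000c0000000c00000018000000180000001f0000003c0000001c00000014 8 6) 0 0 (step_sound _ 68 [(rh47dece01c1595e79.shift 3 0), (rh6f022302a8eeec88.shift 2 0), (rhf7478ef95d968f83.shift 2 1), (rhfa80626feb4e9cb5.shift 0 1)] (by decide +kernel))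
noncomputable def rh5ffedefe484cec3d : CRef := CRef.mk (Pat.mk 0x34000000140000001000000000 0x380000003e00000074000000360000003e0000002f 8 7) 0 0 (step_sound _ 132 [(rh5761823b97465660.shift 1 0), (rh5aa5e9dc84124dd6.shift 1 1), rhf0a5eead15e5dd3a] (by decide +kernel))
noncomputable def rhb337111b2045ea1b : CRef := CRef.mk (Pat.mk 0x1000000010000000d000000010 0x1ef000000fe000001be000000d000000050 8 9) 0 0 (step_sound _ 101 [rh037ade8431fcc1fd, (rh2f68792b6b779e96.shift 4 0)] (by decide +kernel))
noncomputable def rh22119c5029f24e17 : CRef := CRef.mk (Pat.mk 0x4000000040000000600000000000000000000000000000000 0xa0000000e00000006000000070000003e0000000e0000000e0000000a 8 6) 0 0 (step_sound _ 98 [(rh1861173042f24e9a.shift 0 2), (rh538cdb49eef5a9fe.shift 1 0), (rh8ff3dde5b1c639e0.shift 1 1), (rhd1fa8140a3eb151f.shift 1 1)] (by decide +kernel))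
noncomputable def rh2a461e1b2a50e350 : CRef := CRef.mk (Pat.mk 0x2000000020000000300000000000000000000000000000000 0x50000000700000007000000030000000300000006000000070000000700000005 8 3) 0 0 (step_sound _ 97 [(rh1741680720c097b4.shift 0 3), rh538cdb49eef5a9fe, rhafd44d417107dbfd] (by decide +kernel))
noncomputable def rhb9db7b57d9459026 : CRef := CRef.mk (Pat.mk 0x400000034000000040000000400000000 0xa0000000e000000340000003f0000003f0000000a 8 6) 0 0 (step_sound _ 33 [(rh932754581e0f4330.shift 1 0), rhdca175250c5f12cf] (by decide +kernel))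
noncomputable def rh8c78642fd966e7a1 : CRef := CRef.mk (Pat.mk 0x20000001a000000020000000200000000000000000000000000000000 0x20000003b0000003f0000000600000007000000070000000700000004 8 6) 0 0 (step_sound _ 97 [rh4436b3116a16cb42, (rh6eff4158bb400f47.shift 0 1), (rhc92ca060f42e631c.shift 0 1), (rhd29a1fb688eae70f.shift 1 2)] (by decide +kernel))
noncomputable def rh7e410a949fb5cf5b : CRef := CRef.mk (Pat.mk 0x200000002000000020000000200000000000000000000000000000000 0x10000000300000003000000030000000300000007000000070000000700000001 8 3) 0 0 (step_sound _ 128 [rh04c04748d8e723dd, (rh932754581e0f4330.shift 0 3)] (by decide +kernel))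
noncomputable def rhae413adbe8644014 : CRef := CRef.mk (Pat.mk 0x1000000010000000100000001000000000 0x2f0000007f0000003e000000180000001800000008 8 7) 0 0 (step_sound _ 133 [(rh2f68792b6b779e96.shift 4 1), rh415eb0ca9bdaff6e] (by decide +kernel))
noncomputable def rh353ea6d8e3873b9e : CRef := CRef.mk (Pat.mk 0x8000000680000000c0000000000000000000000000000000000000000 0x80000006c0000003f0000007c0000001c0000001c0000001800000010 8 7) 0 0 (step_sound _ 131 [(rh1861173042f24e9a.shift 1 3), (rh73ce3d40155217e4.shift 0 3), (rh95fda1105234af5f.shift 2 1), (rheb3ba5da590fe224.shift 2 0)] (by decide +kernel))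
noncomputable def rh88eb7d833d5a1fd9 : CRef := CRef.mk (Pat.mk 0x200000002000000020000000200000000000000000000000000000000 0x40000000600000003000000030000000300000007000000070000000700000001 8 3) 0 0 (step_sound _ 226 [(rh2f68792b6b779e96.shift 1 4), rh8e2320083ab6fb28] (by decide +kernel))
noncomputable def rhc0f053b52ce1f170 : CRef := CRef.mk (Pat.mk 0x1000000010000000100000001000000000 0x2f0000007f0000003e000000180000001800000008 8 7) 0 0 (step_sound _ 131 [(rh50fbb5868c909700.shift 3 1), rhe5729f0f07ef6187] (by decide +kernel))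
noncomputable def rh9ffcbf5e2fd63484 : CRef := CRef.mk (Pat.mk 0x1000000010000000d000000010 0x1ef000000fe000001be000000d000000050 8 9) 0 0 (step_sound _ 99 [rh0021c879160f6499, (rh50fbb5868c909700.shift 3 0)] (by decide +kernel))
noncomputable def rhee640f974cfa8d6c : CRef := CRef.mk (Pat.mk 0x180000000800000008000000000000000000000000 0xc0000000c0000000f00000018000000180000001c0000001c0000001c00000010 8 5) 0 0 (step_sound _ 195 [(rh8cdd36b03d57a2f6.shift 2 1), rhb8803991128d42dc, (rhec1e3f6ff489986c.shift 2 3)] (by decide +kernel))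
noncomputable def rhcb95ac54440dbbe5 : CRef := CRef.mk (Pat.mk 0x40000000c000000010000000000000000 0x1c0000003c0000000f0000001c0000007f0000001f0000001e 8 7) 0 0 (step_sound _ 67 [rh58352d64d8168fcb, (rh5d54cb79a67f97ab.shift 2 0), (rha08e517d7cb06996.shift 0 1), (rha40d42a2e34c408d.shift 2 0)] (by decide +kernel))
noncomputable def rh373bcca2f78c4e30 : CRef := CRef.mk (Pat.mk 0xa0000001a00000002000000000000000000000000 0x340000001f0000003a00000002000000070000000700000005 8 6) 0 0 (step_sound _ 162 [(rhb739f4f82bb681b4.shift 0 4), rhee3545fe19585a84] (by decide +kernel))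
noncomputable def rhe6d8f08fe1ff1956 : CRef := CRef.mk (Pat.mk 0x80000001a0000000200000000000000000000000000000000 0x140000001c0000001c0000001c0000000f0000003b0000001e0000001e0000000e0000000c00000004 8 6) 0 0 (step_sound _ 227 [(rh14e0829dc73b6804.shift 2 4), rh2fddc3e5be0cffb4, (rh39421cb5a82fefcc.shift 1 0), (rhb982148e30ea0afc.shift 0 3), (rhdeff4fe67c4bf27f.shift 2 1)] (by decide +kernel))
noncomputable def rhe9fec957bec528f2 : CRef := CRef.mk (Pat.mk 0x80000001a00000002000000000000000000000000 0x1d0000000f0000001f0000003b00000016000000170000000700000005 8 6) 0 0 (step_sound _ 161 [(rh052037c23179916b.shift 0 4), rh3824feab809a83eb, rh9b320d1cf11ff356, rha793018b3f421c45] (by decide +kernel))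
noncomputable def rh545e6547c7a84455 : CRef := CRef.mk (Pat.mk 0x4000000040000000400000000000000000000000000000000 0x20000000600000006000000060000003c0000000f0000000e0000000600000006 8 6) 0 0 (step_sound _ 98 [(rh5abfc4c9d959be03.shift 1 2), (rh7133a7a78d762f91.shift 0 2), (rhc4526fc8abf298b6.shift 1 1), (rhfc1ee0386daa921e.shift 1 0)] (by decide +kernel))
noncomputable def rh8d8d40e0858d9b17 : CRef := CRef.mk (Pat.mk 0x80000001a00000002000000000000000000000000 0x1800000018000000180000003b000000fe0000003c0000003c0000000c 8 8) 0 0 (step_sound _ 100 [rh2812d759a6b639db, (rh5d47a50b2712b693.shift 0 1), (rh5d54cb79a67f97ab.shift 3 1), (rha40d42a2e34c408d.shift 3 1)] (by decide +kernel))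
noncomputable def rh80114a7c4baccf67 : CRef := CRef.mk (Pat.mk 0x10000000140000001000000000 0x28000000380000003800000010000000360000003e0000002f 8 6) 0 0 (step_sound _ 132 [(rh1741680720c097b4.shift 3 1), rh49581607ba373f3d, (rh5761823b97465660.shift 1 0)] (by decide +kernel))
noncomputable def rhbe9da6e4914a1ce0 : CRef := CRef.mk (Pat.mk 0x80000000800000008000000100000000000000000 0xc0000000c0000001f0000007c0000001c0000000c 8 7) 0 0 (step_sound _ 67 [(rh55afc6a59410cf00.shift 3 1), rhb41af2bc9e68be99] (by decide +kernel))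
noncomputable def rh331cf710469fd4f9 : CRef := CRef.mk (Pat.mk 0x200000002000000020000000200000000000000000000000000000000 0x10000000300000003000000060000000600000007000000070000000700000004 8 3) 0 0 (step_sound _ 130 [(rh55afc6a59410cf00.shift 1 3), rhb864791e17c8ea44] (by decide +kernel))
noncomputable def rh45e580a9c783f7c0 : CRef := CRef.mk (Pat.mk 0xd0000000500000004000000000000000000000000 0x600000006000000070000000d0000000d0000000f0000001e0000000e0000000a 8 5) 0 0 (step_sound _ 67 [(rh08bd1ade47be33c9.shift 0 1), (rh47bd26f3a17bea75.shift 1 0), (rh47dece01c1595e79.shift 2 0), (rh6f022302a8eeec88.shift 1 0), (rhf7478ef95d968f83.shift 1 1)] (by decide +kernel))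
noncomputable def rh039ba0971ecf96ec : CRef := CRef.mk (Pat.mk 0x34000000140000001000000000 0x380000003e00000036000000360000003e0000002f 8 6) 0 0 (step_sound _ 132 [(rh5761823b97465660.shift 1 0), (rh6132a70967ffabf6.shift 1 1), rhf0a5eead15e5dd3a] (by decide +kernel))
noncomputable def rh0286a6c47168a9eb : CRef := CRef.mk (Pat.mk 0x600000007000000010000000000000000 0xe0000000f0000003e0000003e000000070000000d0000000c0000000c 8 6) 0 0 (step_sound _ 132 [rh0664fee0f9c11c59, (rh361cc68994bd8a63.shift 0 3)] (by decide +kernel))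
noncomputable def rh1a3ace50b41aa9b3 : CRef := CRef.mk (Pat.mk 0x80000001c00000004000000000000000000000000 0x20000000780000001f000000f60000003e0000007c00000020 8 8) 0 0 (step_sound _ 66 [(rh71222050f2c63a3a.shift 2 1), rh72f25b6b934b3bd9] (by decide +kernel))
noncomputable def rhd5c548d17edfbb92 : CRef := CRef.mk (Pat.mk 0x70000000100000000000000000 0x20000000a0000001f0000000fe000003f70000005000000050 8 10) 0 0 (step_sound _ 133 [(rh294ac3ea1568105f.shift 3 0), rh85d914f416377520, (rhadf429772c25fde0.shift 4 0)] (by decide +kernel))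
noncomputable def rh748b76919f610d30 : CRef := CRef.mk (Pat.mk 0x200000007000000010 0x2000000020000001e7000000fe000001f7 8 9) 0 0 (step_sound _ 101 [(rh5c5e593799055d58.shift 4 0), rhcd060d1ef43faa47] (by decide +kernel))
noncomputable def rhbad7d2c4967a4005 : CRef := CRef.mk (Pat.mk 0x2000000020000000e00000000000000000 0x50000000700000007000000020000001bf000000fe0000001e00000010 8 9) 0 0 (step_sound _ 68 [(rh68a777751bfeafdf.shift 4 1), (rhae036cc4ef671676.shift 3 0), (rhd5215fed8f58e94d.shift 0 1)] (by decide +kernel))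
noncomputable def rh25e6029a8e3dc7c4 : CRef := CRef.mk (Pat.mk 0x4000000040000001e000000000000000000000000 0x2800000038000000380000003c000000370000001e0000000c0000000c0000000c 8 6) 0 0 (step_sound _ 129 [(rh04409af2dc0aea39.shift 1 0), (rh3244c3cc8379b070.shift 0 3)] (by decide +kernel))
noncomputable def rhe55e1b3c02328b09 : CRef := CRef.mk (Pat.mk 0x4000000040000001c0000000800000000 0x780000007c0000001c0000001c0000001f00000016 8 7) 0 0 (step_sound _ 34 [(rhcfecd0915ef67407.shift 2 0), rhf5094ad2a427d4d3] (by decide +kernel))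
noncomputable def rh6a97c80b9665774a : CRef := CRef.mk (Pat.mk 0x40000001c000000060000000000000000 0x1c0000003c000000370000001f0000007e0000007800000008 8 7) 0 0 (step_sound _ 67 [(rh55a1f6c57a317ce6.shift 2 0), rh704f9f8febddc611, (rh928f837b5797197a.shift 0 2)] (by decide +kernel))
noncomputable def rh17e2aa9af4330d53 : CRef := CRef.mk (Pat.mk 0x40000000c000000060000000000000000000000000000000000000000 0x60000000e0000003e0000003f0000003e0000001e0000000e00000008 8 6) 0 0 (step_sound _ 130 [(rh889ca84faf480060.shift 1 0), (rha52e1acf7ed5511e.shift 1 1), (rhbd78a571ffa91fb9.shift 1 2), (rhe1625fcb9764f8b8.shift 0 2)] (by decide +kernel))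
noncomputable def rh9fe4c8578d87e066 : CRef := CRef.mk (Pat.mk 0xe0000001a000000000000000000000000 0x8000000080000001e0000001e0000003f0000001f00000017 8 6) 0 0 (step_sound _ 68 [rh4b4f49e0c8373f1a, (rh62327ae654d86216.shift 1 0), (rhc38f566cab2818e5.shift 3 0)] (by decide +kernel))
noncomputable def rheb1964e80d5a01b7 : CRef := CRef.mk (Pat.mk 0x80000000f00000000000000000000000000000000 0x140000001c0000001c0000000c0000000f0000001c0000000c0000000c00000004 8 5) 0 0 (step_sound _ 99 [(rh2b8735dad8b4064b.shift 2 0), (rhe25b0a99195a5d59.shift 0 3)] (by decide +kernel))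
noncomputable def rh5f9f0b7c1fbbef6a : CRef := CRef.mk (Pat.mk 0x1c000000040000000000000000 0x8000000280000007f0000003f000000f40000001400000014 8 8) 0 0 (step_sound _ 131 [(rh294ac3ea1568105f.shift 1 0), (rh4821dcf828b9d7bf.shift 2 0), rh6e84c20b67440bb4] (by decide +kernel))
noncomputable def rhc7f851f4b68746f3 : CRef := CRef.mk (Pat.mk 0x80000001c000000040000000000000000 0x3800000038000000f8000000f80000001f000000340000003000000030 8 8) 0 0 (step_sound _ 132 [(rh4565f7ce5ccc3278.shift 2 0), (rh881f173fe09777bb.shift 0 1), (rhab2ad169e49f9c5e.shift 0 3)] (by decide +kernel))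
noncomputable def rh604be9d25af07810 : CRef := CRef.mk (Pat.mk 0x2000000070000000180000000000000000 0xfe0000007f000000d8000000f000000070 8 8) 0 0 (step_sound _ 36 [rh68b2d4d9ec21edc3, (rh71222050f2c63a3a.shift 4 0)] (by decide +kernel))
noncomputable def rh7ca9f32377424d1d : CRef := CRef.mk (Pat.mk 0x380000000c0000000000000000000000000000000000000000 0x100000001800000038000000380000002f0000007c0000003c0000001c0000001c00000004 8 7) 0 0 (step_sound _ 161 [(rh53b3c253cb0c65f4.shift 0 5), (rhade591e9b4645119.shift 1 0)] (by decide +kernel))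
noncomputable def rh7244d581316662ed : CRef := CRef.mk (Pat.mk 0x1000000070000000200000002000000000 0x60000000600000006000000030000000f8000003bf000001fe000003df 8 10) 0 0 (step_sound _ 36 [rh2076dd2092f8b656, (rh5690a93fc254799e.shift 1 0), (rhe9707ac4319287fb.shift 4 0)] (by decide +kernel))
noncomputable def rh173c5ad28aa5c8b5 : CRef := CRef.mk (Pat.mk 0x8000000080000001c000000040000000000000000 0x140000001c0000001f0000003c0000007c0000007800000008 8 7) 0 0 (step_sound _ 130 [(rhc6999b9898b5e47d.shift 2 0), (rhe2b63c00a3d7bb73.shift 0 3)] (by decide +kernel))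
noncomputable def rh2f45a727e0c8ee61 : CRef := CRef.mk (Pat.mk 0x80000001c000000040000000400000000 0x740000007f0000003c0000001c0000001c00000018 8 7) 0 0 (step_sound _ 130 [(rhce3ef7fc368f94a2.shift 2 0), (rhe2b63c00a3d7bb73.shift 0 3)] (by decide +kernel))
noncomputable def rh218080ed8fc9d2e8 : CRef := CRef.mk (Pat.mk 0x40000001c000000060000000000000000 0x18000000780000001f0000001c0000001e0000003c0000001c 8 7) 0 0 (step_sound _ 131 [(rh84d1c02a8954c6a8.shift 2 1), rhcce8bdf75d493f1e, (rhd4aa727c776a8235.shift 1 0)] (by decide +kernel))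
noncomputable def rh3bb1fe1c755a98d3 : CRef := CRef.mk (Pat.mk 0x380000000000000000 0x1400000014000000ff0000007e000000ee00000028 8 8) 0 0 (step_sound _ 98 [(rh37e3871d9baf3220.shift 1 0), (rh4df35fbc131eb4ae.shift 0 2), (rh4f4774ab6982c560.shift 2 1), (rh8c12fdbbddc1e7ab.shift 0 2), (rhacae4c935bc52444.shift 1 0)] (by decide +kernel))
noncomputable def rh331d571a3bf33fa1 : CRef := CRef.mk (Pat.mk 0x4800000078000000000000000000000000 0x140000007c0000007f000000ff0000007800000078000000300000003000000010 8 8) 0 0 (step_sound _ 163 [(rh046c5eb18e55a239.shift 3 0), (rh1179999f0793a2a2.shift 0 1), (rh62f796724e7faac1.shift 0 2), (rhf64821747b7b1be1.shift 3 2), (rhfb9fb48a5e63ed80.shift 2 2)] (by decide +kernel))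
noncomputable def rh7d9dd9a5d30dae39 : CRef := CRef.mk (Pat.mk 0xf0000000800000000000000000000000000000000 0x140000001c0000001c000000180000000f0000000c0000001c0000001c0000001c00000004 8 5) 0 0 (step_sound _ 195 [(rh33e738c4ed385b9f.shift 0 5), (rh71adc9d976d8aff0.shift 2 0)] (by decide +kernel))
noncomputable def rh564810be50981e36 : CRef := CRef.mk (Pat.mk 0x40000001c000000080000000800000000 0x18000000780000007c0000003c0000001f0000001c00000014 8 7) 0 0 (step_sound _ 66 [(rh4dc133ee0ba1420a.shift 0 2), (rhea1eabba50b57d7f.shift 2 0)] (by decide +kernel))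
noncomputable def rhbbc46406497533b2 : CRef := CRef.mk (Pat.mk 0x1c00000070000000000000000000000000 0x28000000380000007f000000ff0000005c00000070000000700000003000000020 8 8) 0 0 (step_sound _ 164 [(rh14e0829dc73b6804.shift 3 2), (rh2ad644bf5d23d5ab.shift 0 1), (rh65b6137b613c3b3f.shift 2 0), (rh70e33bfdf511e144.shift 4 0)] (by decide +kernel))
noncomputable def rh09c692a8efdb21c3 : CRef := CRef.mk (Pat.mk 0x60000001c000000040000000000000000 0x1c0000003c0000001e0000001c0000001f0000007c00000018 8 7) 0 0 (step_sound _ 67 [rh0812c2a289e0a09c, (rh55a1f6c57a317ce6.shift 2 0), (rh8cab0de232db4b12.shift 1 1)] (by decide +kernel))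
noncomputable def rhf230164ba45f187c : CRef := CRef.mk (Pat.mk 0x60000001c000000040000000000000000 0x3e0000003e0000001e0000001c0000001f0000007800000018 8 7) 0 0 (step_sound _ 67 [rh0812c2a289e0a09c, (rh1fcbfae0bd83d262.shift 1 2), (rh55a1f6c57a317ce6.shift 2 0)] (by decide +kernel))
noncomputable def rhd4d4a0fbcdf2b009 : CRef := CRef.mk (Pat.mk 0x1c000000000000000000000000 0x20000003f0000003f0000003f0000000400000004 8 6) 0 0 (step_sound _ 97 [(rh2381ca26b8b38d1e.shift 0 2), rhc761e44cbdadbe4b, (rhd52e3929053d9d5f.shift 0 2)] (by decide +kernel))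
noncomputable def rh5533f7f43ea71324 : CRef := CRef.mk (Pat.mk 0x4000000040000000400000008000000000000000000000000 0x4000000040000007c000000ff0000007f000000760000000600000004 8 8) 0 0 (step_sound _ 131 [(rh2145e1d24b96a57e.shift 2 3), rh7d7ed1d206442880] (by decide +kernel))
noncomputable def rhc1c6985560e2236d : CRef := CRef.mk (Pat.mk 0x100000001c0000001000000000 0x20000000a0000003b0000001f0000003f0000001400000010 8 6) 0 0 (step_sound _ 99 [(rhd362a3747fc44bcb.shift 0 1), (rhfc7c29d8e65d775f.shift 3 0)] (by decide +kernel))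
noncomputable def rhb9d9c916d53cab5f : CRef := CRef.mk (Pat.mk 0x20000001e000000020000000000000000 0x4000000070000000700000007000000060000001e000000360000000600000004 8 6) 0 0 (step_sound _ 68 [(rhe25b0a99195a5d59.shift 1 2), rhe6107c9c48250bf9] (by decide +kernel))
noncomputable def rh610bd3b1174f05ee : CRef := CRef.mk (Pat.mk 0x2000000120000000e000000000000000000000000 0x90000000f0000003a0000001e0000003f0000001e0000001c 8 6) 0 0 (step_sound _ 100 [(rh33e738c4ed385b9f.shift 1 3), rhd41ec00ee16f5a4a] (by decide +kernel))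
noncomputable def rh75b8f36aa528fb98 : CRef := CRef.mk (Pat.mk 0x2000000120000000e0000000000000000000000000000000000000000 0x1000000012000000320000001e0000003f0000003c000000380000003800000028 8 6) 0 0 (step_sound _ 164 [(rh33e738c4ed385b9f.shift 1 5), rhaf3310e4b10c739b] (by decide +kernel))
noncomputable def rh8ccf4e67c7094a34 : CRef := CRef.mk (Pat.mk 0x1000000080000000700000000000000000000000000000000 0x140000001c0000001f0000001c0000000f0000001c0000001c0000001c00000010 8 5) 0 0 (step_sound _ 131 [(rh33e738c4ed385b9f.shift 0 4), rh5381369eacd58c71] (by decide +kernel))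
noncomputable def rhe7f681e7ab54817b : CRef := CRef.mk (Pat.mk 0x2000000120000000e0000000000000000000000000000000000000000 0x280000003d0000003f0000001a0000001e0000003f0000003c000000380000003800000028 8 6) 0 0 (step_sound _ 164 [(rh4133cdac37559176.shift 0 2), (rh5381369eacd58c71.shift 1 1), (rh60d58901f45aac7f.shift 0 4), rhaf3310e4b10c739b, (rhe56bb198f542678f.shift 0 4)] (by decide +kernel))
noncomputable def rhe05b249c14920ca2 : CRef := CRef.mk (Pat.mk 0x4000000240000001c0000000000000000 0x7a0000003e000000740000001c0000000f0000000a 8 7) 0 0 (step_sound _ 34 [(rh067028b21ab6791a.shift 1 0), (rhafac329c7bc87869.shift 1 0), rhfbf2eae4035425b6] (by decide +kernel))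
noncomputable def rh06ecaba67d7a2f1e : CRef := CRef.mk (Pat.mk 0x2000000120000000e00000000 0x3d0000001f0000003a0000001e0000000b 8 6) 0 0 (step_sound _ 36 [(rh33e738c4ed385b9f.shift 1 1), rhe56bb198f542678f] (by decide +kernel))
noncomputable def rha525cebd350bdcf3 : CRef := CRef.mk (Pat.mk 0x200000002000000020000000e00000000 0x340000003e0000003f0000007a0000001e0000000a 8 7) 0 0 (step_sound _ 130 [(rh2f68792b6b779e96.shift 1 1), rhaef1479805b3a8e2] (by decide +kernel))
noncomputable def rhcf5cd50faddeb81f : CRef := CRef.mk (Pat.mk 0x60000001c000000000000000000000000 0xa0000003f0000007e0000007e0000001c0000001f0000001e00000018 8 7) 0 0 (step_sound _ 67 [(rh5529ae54660529d9.shift 2 0), (rh5d54cb79a67f97ab.shift 2 0), (rh8f7fca54f783b579.shift 2 0), (rhc2a23e5e6dab8244.shift 0 1)] (by decide +kernel))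
noncomputable def rhf645a25aa2b89bbd : CRef := CRef.mk (Pat.mk 0x70000000c0000000000000000000000000000000000000000 0x80000000a0000003f0000003f000000070000000c0000000c0000000e0000000e0000000e00000008 8 6) 0 0 (step_sound _ 226 [(rh0e902d11df755a17.shift 0 4), (rh481b2be359ac66f8.shift 1 3), (rh51fd590aec06bc9d.shift 0 3), (rh70e33bfdf511e144.shift 2 2), rhb03fcaf8c86e521a] (by decide +kernel))
noncomputable def rh89fb6447caf08ad2 : CRef := CRef.mk (Pat.mk 0x80000001800000008000000000000000000000000 0x800000008000000180000003f0000003f0000001400000004 8 6) 0 0 (step_sound _ 68 [(rh2304a4d5a295908d.shift 0 1), (rh390a8df03c6c5a62.shift 3 1), (rh478c4cadbcd4e066.shift 3 1), rhe58b7c65629e8c41] (by decide +kernel))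
noncomputable def rh896e1f54a5a15eec : CRef := CRef.mk (Pat.mk 0x8000000080000001c000000100000000000000000 0x34000000fe0000007c0000001f0000001c0000000c0000000c 8 8) 0 0 (step_sound _ 132 [rh1960797d21bbc8cc, (rhded6f33cb2115a86.shift 1 0), (rhf9d36e158778ce35.shift 1 3)] (by decide +kernel))
noncomputable def rhafe1d94b8933acb7 : CRef := CRef.mk (Pat.mk 0x80000001c000000100000001000000000 0x30000000780000001f0000001c000000fc0000002c 8 8) 0 0 (step_sound _ 132 [(rh712526e472efe489.shift 2 1), rh799602d8fbd1f0c2, (rhdab32775f5c78fcf.shift 1 1)] (by decide +kernel))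
noncomputable def rha44fb8efa5b3ba37 : CRef := CRef.mk (Pat.mk 0x80000000800000008000000000000000000000000 0x800000008000000f80000007f000000ff0000001400000014 8 8) 0 0 (step_sound _ 68 [(rh2977b00063528966.shift 3 0), rh3fbb9a3b6393b6aa, (rh475253e964ed1313.shift 3 0), (rh47dece01c1595e79.shift 3 0), (rhb6e11cfc959c8a3c.shift 1 1)] (by decide +kernel))
noncomputable def rh4423f6f5613c9700 : CRef := CRef.mk (Pat.mk 0x20000001e000000020000000000000000000000000000000000000000 0x4000000070000000700000007000000060000001e0000003e0000000300000003000000070000000700000005 8 6) 0 0 (step_sound _ 164 [rh456fb08c25edc26b, (rhe25b0a99195a5d59.shift 1 5)] (by decide +kernel))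
noncomputable def rh6778353749ad7f5f : CRef := CRef.mk (Pat.mk 0x20000001e00000002000000000000000000000000 0x4000000070000000700000007000000360000001e00000002000000070000000700000005 8 6) 0 0 (step_sound _ 164 [(rh33e738c4ed385b9f.shift 1 4), rhae511df4588c50d6] (by decide +kernel))
noncomputable def rhc9a154a128845e69 : CRef := CRef.mk (Pat.mk 0xe000000120000000200000000 0x30000000340000003f0000001e0000003a0000000e00000004 8 6) 0 0 (step_sound _ 100 [(rhe25b0a99195a5d59.shift 1 2), rhed870e9f2bab57e0] (by decide +kernel))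
noncomputable def rh01162063b4db99df : CRef := CRef.mk (Pat.mk 0xe000000120000000200000000 0x2800000038000000380000003c0000003f0000001e000000320000001200000010 8 6) 0 0 (step_sound _ 100 [(rhe25b0a99195a5d59.shift 1 2), rheb946c77979c84e0] (by decide +kernel))
noncomputable def rh94b8d845f334af88 : CRef := CRef.mk (Pat.mk 0x700000008000000000000000000000000 0x100000001c0000001c0000001c0000000f0000001c0000001c0000001c00000014 8 5) 0 0 (step_sound _ 131 [rh0416139b50d85f8d, (rhe25b0a99195a5d59.shift 0 3)] (by decide +kernel))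
noncomputable def rh0464b219bc2457dd : CRef := CRef.mk (Pat.mk 0xe00000012000000020000000000000000 0x2800000038000000380000003c0000003f0000001e0000001a0000003f0000003d00000028 8 6) 0 0 (step_sound _ 132 [(rh0416139b50d85f8d.shift 1 0), (rh58cfa046bc21ec48.shift 0 1), (rheb946c77979c84e0.shift 0 1), (rhed870e9f2bab57e0.shift 0 1), (rhf8c1e55d716489bb.shift 0 1)] (by decide +kernel))
noncomputable def rh37734a49dac79145 : CRef := CRef.mk (Pat.mk 0x1c000000240000000400000000 0xa0000000f0000001c000000740000003e0000007a 8 7) 0 0 (step_sound _ 130 [(rh039efe07c35de3d4.shift 0 1), (rhac706d001bdb10d3.shift 1 0), (rhcd6a33c8e94ad3b4.shift 1 0)] (by decide +kernel))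
noncomputable def rh730cfe6aed0beeb8 : CRef := CRef.mk (Pat.mk 0xe000000120000000200000000 0x330000001e0000003a0000001f0000001d 8 6) 0 0 (step_sound _ 100 [(rhe25b0a99195a5d59.shift 1 2), rhf8c1e55d716489bb] (by decide +kernel))
noncomputable def rh86824e119c2cbd69 : CRef := CRef.mk (Pat.mk 0xe00000002000000020000000200000000 0xa0000001e0000007a0000003f0000003e00000034 8 7) 0 0 (step_sound _ 34 [(rh55afc6a59410cf00.shift 1 0), rh9983496674e77058] (by decide +kernel))
noncomputable def rhd7030cc3274a24d1 : CRef := CRef.mk (Pat.mk 0x40000000e00000003000000000000000000000000 0xe0000000e0000000e0000000e0000003f0000003d0000000c00000004 8 6) 0 0 (step_sound _ 194 [rh58315ac26307bf24, (rh5c5e593799055d58.shift 1 3)] (by decide +kernel))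
noncomputable def rh78ff555c4725d134 : CRef := CRef.mk (Pat.mk 0xe0000003800000000000000000000000000000000 0x40000001c0000001c0000001c0000000e0000000e0000003a000000ff000000fe0000003000000030 8 8) 0 0 (step_sound _ 99 [(rh094a156a280dac06.shift 0 2), (rh9dc1f021d5134051.shift 1 0), (rhb1a251d9bff81766.shift 2 2), (rhc36420913778ecd3.shift 1 2)] (by decide +kernel))
noncomputable def rh79c1a50bf88b9624 : CRef := CRef.mk (Pat.mk 0x1c000000300000000000000000000000000000000000000000 0x28000000380000007f000000ff0000001c000000300000003000000038000000380000003800000020 8 8) 0 0 (step_sound _ 228 [(rh0a1fd909c95eb75e.shift 1 4), (rh14e0829dc73b6804.shift 3 4), (rh70e33bfdf511e144.shift 4 2), (rhae923afead7067a1.shift 0 4), (rhb03fcaf8c86e521a.shift 2 0)] (by decide +kernel))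
noncomputable def rhd7b7157bfd9ba941 : CRef := CRef.mk (Pat.mk 0x70000000c000000000000000000000000 0x20000000e0000003e0000000f0000000c0000001f0000007c0000001c 8 7) 0 0 (step_sound _ 66 [(rh668fc65514a55b16.shift 1 0), rha63b6180cfd6843d, (rhb1a251d9bff81766.shift 1 1)] (by decide +kernel))
noncomputable def rh046f0af021435ef2 : CRef := CRef.mk (Pat.mk 0x20000001e00000002000000000000000000000000 0x4000000070000000700000007000000060000001e00000032000000070000000700000005 8 6) 0 0 (step_sound _ 100 [rh1c82648f3f9180fe, (rhe25b0a99195a5d59.shift 1 3)] (by decide +kernel))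
noncomputable def rhb4ab6e9f998d9e70 : CRef := CRef.mk (Pat.mk 0x20000001e00000002000000000000000000000000 0x28000000390000003f0000001f000000360000001e0000000a000000070000000700000005 8 6) 0 0 (step_sound _ 164 [(rh33e738c4ed385b9f.shift 1 4), rh59c4b101fdd8aec0] (by decide +kernel))
noncomputable def rhfcecaccfaa3a4dcd : CRef := CRef.mk (Pat.mk 0x200000001c000000000000000000000000 0x2000000330000003f0000003f0000000400000004 8 6) 0 0 (step_sound _ 97 [(rh428265de8cd3cd2d.shift 1 3), rh5d2a2d05f86d3f34] (by decide +kernel))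
noncomputable def rh96e0f0b763efda4e : CRef := CRef.mk (Pat.mk 0x700000001c0000000000000000000000000000000000000000 0x20000000380000003c000000700000001c000000ff0000007f000000380000003800000008 8 8) 0 0 (step_sound _ 132 [(rh18670ed04ae8c803.shift 0 1), (rh215e11e099257d75.shift 4 3), (rh33ac85ac131613c5.shift 2 3), (rh4f3c983e7b2d8da3.shift 3 0)] (by decide +kernel))
noncomputable def rh8927e74cd88ed922 : CRef := CRef.mk (Pat.mk 0x8000000180000000800000000 0x40000001c0000003c0000007f0000003e000000180000001800000010 8 7) 0 0 (step_sound _ 131 [(rh22cde4a1aed087ae.shift 3 1), (rh35c5f1c53251aa1b.shift 2 1), rhc32611c523f07a66, (rhd4b4beefcd67f51e.shift 3 0)] (by decide +kernel))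
noncomputable def rhe1663e8df1bc5150 : CRef := CRef.mk (Pat.mk 0x8000000080000001c0000000400000000 0x30000000f60000003f0000007f0000003f0000000c00000008 8 8) 0 0 (step_sound _ 100 [(rh8e1882cafcba546f.shift 0 1), (rhce8418f891744ae1.shift 1 0), (rhf9d36e158778ce35.shift 1 2)] (by decide +kernel))
noncomputable def rhbf49c84ebb8a1faf : CRef := CRef.mk (Pat.mk 0x380000000e0000000000000000 0x140000001c0000001e0000007f000000380000000e0000003c0000001c 8 7) 0 0 (step_sound _ 131 [(rh5840dbfc019b4d17.shift 0 1), (rh68a777751bfeafdf.shift 2 1), (rh9c15c2691ded3390.shift 1 1), (rhc1b5d17a350cbb83.shift 1 0)] (by decide +kernel))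
noncomputable def rh232868484dcebaf4 : CRef := CRef.mk (Pat.mk 0x10000000300000001c 0x2800000038000000380000003f0000007e000000fe0000003c0000001c 8 8) 0 0 (step_sound _ 100 [rh35f32ed507cf46ee, (rh61257be8a2a27e51.shift 3 0), (rhe62cab2ff5ad6fe2.shift 3 0)] (by decide +kernel))
noncomputable def rh9fb76a727a052f38 : CRef := CRef.mk (Pat.mk 0x20000001e00000000000000000000000000000000 0x4000000070000000700000007000000060000001e00000033000000070000000700000005 8 6) 0 0 (step_sound _ 97 [rhc1df3a4500ee718f, (rheb0810cc63b001d8.shift 0 3)] (by decide +kernel))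
noncomputable def rh805cb333c6b1c7ba : CRef := CRef.mk (Pat.mk 0x1e000000100000000000000000 0xe0000000e0000000f0000001f0000001e000000fc00000014 8 8) 0 0 (step_sound _ 67 [rh25e75513bc4fd8c5, (rhb739f4f82bb681b4.shift 0 2)] (by decide +kernel))
noncomputable def rh22e467db2512415c : CRef := CRef.mk (Pat.mk 0x78000000080000000000000000 0x1c0000001f0000003c00000078000000380000003f0000003c 8 7) 0 0 (step_sound _ 131 [(rh3244c3cc8379b070.shift 2 3), rh6566cc310f2880c8] (by decide +kernel))
noncomputable def rh52bdd2c35c4c50f6 : CRef := CRef.mk (Pat.mk 0x1e00000000 0x200000002000000330000003f0000003f00000004 8 6) 0 0 (step_sound _ 68 [(rh33e738c4ed385b9f.shift 1 1), rh661fe68dbe17f4b8] (by decide +kernel))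
noncomputable def rh0ea98ce24a7337c3 : CRef := CRef.mk (Pat.mk 0x80000001c0000003000000000 0x320000003a0000007f0000007f0000003c0000003400000024 8 7) 0 0 (step_sound _ 131 [(rh2145e1d24b96a57e.shift 3 1), rheebe79397c2082b4] (by decide +kernel))
noncomputable def rh6e1ceed64807e6cb : CRef := CRef.mk (Pat.mk 0x80000001c000000300000000000000000 0x140000001f0000003c000000380000003e0000003c 8 6) 0 0 (step_sound _ 36 [rh32f5bb15faf383e7, (rh7b1f1fb55310c477.shift 3 0)] (by decide +kernel))
noncomputable def rh2fa30d864e6aeed7 : CRef := CRef.mk (Pat.mk 0x2000000020000000e0000000200000000000000000000000000000000 0x3d0000001f0000003a0000001e0000003e0000001f0000003f0000003900000008 8 6) 0 0 (step_sound _ 164 [(rh0d5042701e486d8e.shift 0 4), rh3cba8956e58a8fe4, (rh529bdf5341925aff.shift 0 1), (rh57ec8334c221608b.shift 0 4)] (by decide +kernel))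
noncomputable def rhb77d359ee5ebc471 : CRef := CRef.mk (Pat.mk 0x60000001c000000000000000000000000 0x2000000370000003e0000003e0000001c0000007f0000001f0000001e 8 7) 0 0 (step_sound _ 67 [rh5d21c53ada365dda, (rh5d54cb79a67f97ab.shift 2 0), (rha40d42a2e34c408d.shift 2 0), (rhc2a23e5e6dab8244.shift 0 1)] (by decide +kernel))
noncomputable def rhae87526d12dc1f20 : CRef := CRef.mk (Pat.mk 0xe000000180000000000000000000000000000000000000000 0x1c0000003c0000000e000000780000007f0000003e0000001c0000001c00000004 8 7) 0 0 (step_sound _ 165 [rhb94ffaf7a3105590, (rhf48373e13d2bc128.shift 2 5)] (by decide +kernel))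
noncomputable def rh56b310ea13bebf11 : CRef := CRef.mk (Pat.mk 0x1e00000018000000000000000000000000 0xc0000000c0000000c0000001e0000001b0000001f0000001e0000000c 8 5) 0 0 (step_sound _ 163 [(rh3e595262c1b737ad.shift 3 2), (rhb3e5613249985042.shift 2 0), rhcef3b7d41a42b38e] (by decide +kernel))
noncomputable def rh7656d2f476883096 : CRef := CRef.mk (Pat.mk 0x1e0000000000000000 0x100000007000000070000003f0000001e0000000700000006 8 6) 0 0 (step_sound _ 97 [(rh3244c3cc8379b070.shift 0 2), rhf4037f8eb977016a] (by decide +kernel))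
noncomputable def rhfeda1832de5039c4 : CRef := CRef.mk (Pat.mk 0x2000000070000000c0000000000000000 0xe0000003f00000007000000070000000f0000000b00000003 8 6) 0 0 (step_sound _ 161 [(rh2145e1d24b96a57e.shift 1 2), rhd68aaf9d4475de1a] (by decide +kernel))
noncomputable def rha93188a35e15b974 : CRef := CRef.mk (Pat.mk 0x1000000038000000000000000000000000 0x80000001c0000001f0000001f000000780000001e0000001c0000001c 8 7) 0 0 (step_sound _ 131 [(rh2f03791456a91b2b.shift 1 0), (rhe2b63c00a3d7bb73.shift 1 3), rhe62a5c9ad4f6fb8c] (by decide +kernel))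
noncomputable def rha1d878e50ad2e7cc : CRef := CRef.mk (Pat.mk 0xc0000001c0000000000000000 0xa0000000a0000007f0000007f0000001c0000001400000004 8 7) 0 0 (step_sound _ 97 [(rhb739f4f82bb681b4.shift 0 2), rhe124a32fd0dd9e34] (by decide +kernel))
noncomputable def rh2e81436a0e0cfa3c : CRef := CRef.mk (Pat.mk 0x1000000038000000000000000000000000 0x180000001c0000001f0000001f000000780000003e0000003c0000001c 8 7) 0 0 (step_sound _ 131 [(rh9d1bdc1a1646c1c9.shift 1 0), (rhe2b63c00a3d7bb73.shift 1 3), rhe62a5c9ad4f6fb8c] (by decide +kernel))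
noncomputable def rh0710773dd8b92bcc : CRef := CRef.mk (Pat.mk 0x1000000010000000380000002000000000 0xc0000001f0000001f000000380000003800000038 8 6) 0 0 (step_sound _ 36 [(rh55afc6a59410cf00.shift 4 0), rh6858b46ac3714a48] (by decide +kernel))
noncomputable def rhb883b6cfff766cab : CRef := CRef.mk (Pat.mk 0x10000000100000003800000020000000000000000000000000 0x2c0000003f0000003f00000038000000fe000000dc0000001800000010 8 8) 0 0 (step_sound _ 99 [(rh42548283029e2a39.shift 3 1), rheebe87f7169f4165, (rhf9af042da61fc652.shift 3 1)] (by decide +kernel))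
noncomputable def rh5a28e73a7d733c36 : CRef := CRef.mk (Pat.mk 0x2000000060000000e0000000000000000 0x140000003c0000003f0000003e0000000e0000000c0000000c 8 6) 0 0 (step_sound _ 34 [(rh7b1f1fb55310c477.shift 1 0), rhfc124062c85240e3] (by decide +kernel))
noncomputable def rhf6bd4e6e1a120c4d : CRef := CRef.mk (Pat.mk 0x60000000e000000000000000000000000 0x30000003b0000003e0000001e0000003f0000001f0000001f 8 6) 0 0 (step_sound _ 66 [rh06a4692ca3bc3224, (rh3cb04db3dd2b6a55.shift 1 0), (rh3fc3c8b5ce499e13.shift 1 0)] (by decide +kernel))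
noncomputable def rh6f05c1840500be4f : CRef := CRef.mk (Pat.mk 0x80000001c000000000000000000000000 0x18000000180000007f0000007f0000003c0000001f0000001c00000008 8 7) 0 0 (step_sound _ 130 [(rh2352f5ac42a9bcc0.shift 0 2), rh9d1bdc1a1646c1c9, (rhe2b63c00a3d7bb73.shift 0 3)] (by decide +kernel))
noncomputable def rh3c314ace9e06a5c5 : CRef := CRef.mk (Pat.mk 0x1a0000000a000000000000000000000000 0x5000000070000000f0000000f0000001b0000000f0000000b0000000300000003 8 5) 0 0 (step_sound _ 96 [rh1ad04fecc383d531, (rh1c62b6193297d9e3.shift 0 3)] (by decide +kernel))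
noncomputable def rh032088bc6e5fee0f : CRef := CRef.mk (Pat.mk 0x1a0000000a0000000800000000 0x100000001c0000001c0000000f0000001a0000001b0000001f00000017 8 5) 0 0 (step_sound _ 131 [rh5761823b97465660, (rh72afbdc90680d7b8.shift 2 1), rhfe6aa8a30401d0ea] (by decide +kernel))
noncomputable def rh6fee64e4e81a8e1f : CRef := CRef.mk (Pat.mk 0x80000001a0000000200000000 0x140000001c0000001e000000780000003b0000001f0000001c 8 7) 0 0 (step_sound _ 35 [(rh60a781551e50bc18.shift 0 1), (rh85639243514ab051.shift 1 0), rhbfc3a0e31291ebf9] (by decide +kernel))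
noncomputable def rhe516ddf710b6c55a : CRef := CRef.mk (Pat.mk 0x8000000180000000a0000000000000000000000000000000000000000 0x1000000018000000180000000f0000007c000000180000001c0000001c00000004 8 7) 0 0 (step_sound _ 162 [(rh53b3c253cb0c65f4.shift 0 5), (rhc5c7e873ce3ac452.shift 1 0)] (by decide +kernel))
noncomputable def rh12db11de35d26def : CRef := CRef.mk (Pat.mk 0x8000000080000001a000000020000000000000000 0x40000001c0000001c0000001c0000001f0000001b0000000a0000000a00000008 8 5) 0 0 (step_sound _ 67 [(rh1741680720c097b4.shift 2 2), (rh35c5f1c53251aa1b.shift 2 2), rhb5dda433d625486e, (rheaf4189574da5b8b.shift 0 1)] (by decide +kernel))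
noncomputable def rhca377c41582896f5 : CRef := CRef.mk (Pat.mk 0x20000001a0000000a00000000 0x500000007000000070000003a0000001f00000033 8 6) 0 0 (step_sound _ 34 [rh457396a08945569d, (rh53b3c253cb0c65f4.shift 0 1)] (by decide +kernel))
noncomputable def rhcddfa3946ce8f377 : CRef := CRef.mk (Pat.mk 0x80000006800000028000000000000000000000000 0x140000005c0000007c0000005f0000006c000000680000002c0000002c00000004 8 7) 0 0 (step_sound _ 196 [(rh08d50fe567eb1045.shift 3 2), (rh1184750508653d07.shift 2 1), (rh1725eba4bd36066a.shift 2 0), (rh22d86f446f3de558.shift 0 2)] (by decide +kernel))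
noncomputable def rh46984e7494d297f2 : CRef := CRef.mk (Pat.mk 0x20000000200000002000000000000000000000000 0x10000000500000007000000070000000300000002000000070000000700000005 8 3) 0 0 (step_sound _ 192 [rh47759ad27e4c4731, (rhbab796f6dafe9186.shift 0 3), rhbba7d23481996066] (by decide +kernel))
noncomputable def rh6dde65a17eb5f373 : CRef := CRef.mk (Pat.mk 0x20000001a0000000a000000000000000000000000 0x20000003a0000001f0000003f0000003400000030 8 6) 0 0 (step_sound _ 98 [(rh53b3c253cb0c65f4.shift 0 3), rh705eec3590f24f25] (by decide +kernel))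
noncomputable def rh7657e5af8acea86b : CRef := CRef.mk (Pat.mk 0x200000002000000020000000200000000 0x10000000700000007000000070000000300000003000000030000000600000004 8 3) 0 0 (step_sound _ 34 [(rh55afc6a59410cf00.shift 1 0), (rhbe784867873578cb.shift 0 1)] (by decide +kernel))
noncomputable def rh5f389281de5647f1 : CRef := CRef.mk (Pat.mk 0x200000002000000020000000200000000000000000000000000000000 0x40000000600000006000000030000000300000007000000070000000700000001 8 3) 0 0 (step_sound _ 226 [(rh2f68792b6b779e96.shift 1 4), rhb0951f9de6080990] (by decide +kernel))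
noncomputable def rh7221ca97259e6855 : CRef := CRef.mk (Pat.mk 0xa0000000a00000008000000000000000000000000 0x500000007000000070000000a0000000a0000000e0000003e0000001f0000001400000004 8 6) 0 0 (step_sound _ 66 [(rh4eba2b61da141a19.shift 0 2), (rhac4b4763407a46df.shift 0 1), (rhed2df759ff6fd84a.shift 1 0)] (by decide +kernel))
noncomputable def rh07e66cb937388242 : CRef := CRef.mk (Pat.mk 0x34000000140000001000000000 0x2000000038000000380000003c00000034000000360000003e0000002f 8 6) 0 0 (step_sound _ 132 [(rh5761823b97465660.shift 1 0), (rh72afbdc90680d7b8.shift 3 1), rhf0a5eead15e5dd3a] (by decide +kernel))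
noncomputable def rh7e16d737931259cb : CRef := CRef.mk (Pat.mk 0x2000000020000001a00000002 0x4000000070000000700000007000000060000000f0000001b00000002 8 5) 0 0 (step_sound _ 129 [(rh1741680720c097b4.shift 0 1), (rh44f453b84f013105.shift 1 0), rh83bc76d6b62360b5, (rhd3ceaa5f933816f7.shift 0 1)] (by decide +kernel))
noncomputable def rhdbd3faf214b8a5ad : CRef := CRef.mk (Pat.mk 0x1a0000000800000000000000000000000000000000 0x140000001c0000001c0000001f0000003b000000180000001c0000001c0000001c00000014 8 6) 0 0 (step_sound _ 99 [(rh1a625e3c9434efee.shift 2 1), (rh215e11e099257d75.shift 3 2), (rhdfb71b54c86a9936.shift 0 2), (rhffb8e5993241bf15.shift 2 0)] (by decide +kernel))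
noncomputable def rh904edc0bea2fe90c : CRef := CRef.mk (Pat.mk 0x80000001a00000002000000000000000000000000 0x1c0000001e0000007c0000001b000000fe0000003e0000003c0000000c 8 8) 0 0 (step_sound _ 100 [(rh58352d64d8168fcb.shift 1 1), (rh5d54cb79a67f97ab.shift 3 1), rh8073cd3c40eaf5c8, (rha40d42a2e34c408d.shift 3 1)] (by decide +kernel))
noncomputable def rhec7eb28d8de2c160 : CRef := CRef.mk (Pat.mk 0x40000000c000000010000000000000000 0xe0000000f0000003c0000001c0000007f0000001f0000001e 8 7) 0 0 (step_sound _ 67 [rh27bbbe5b8e1b7e9f, (rh56a48575f33fc819.shift 0 1), (rh5d54cb79a67f97ab.shift 2 0), (rha40d42a2e34c408d.shift 2 0)] (by decide +kernel))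
noncomputable def rh3949e660f4e383c0 : CRef := CRef.mk (Pat.mk 0x80000001a000000020000000000000000 0x1c0000001e000000780000003b000000fe0000003c00000038 8 8) 0 0 (step_sound _ 68 [(rh56a48575f33fc819.shift 1 1), rh5d47a50b2712b693, (rh5d54cb79a67f97ab.shift 3 0), (rha40d42a2e34c408d.shift 3 0)] (by decide +kernel))
noncomputable def rh95014bec7e1b5e3a : CRef := CRef.mk (Pat.mk 0xa0000001a00000002000000000000000000000000 0xd0000000f0000001e0000001a000000160000001f0000001700000005 8 5) 0 0 (step_sound _ 66 [(rh2977b00063528966.shift 1 0), (rh82a1eb6dfea10329.shift 0 2), rhc924e85500f168a3] (by decide +kernel))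
noncomputable def rhb0a706a8c4b36333 : CRef := CRef.mk (Pat.mk 0x80000001a00000002000000000000000000000000 0x1c0000001e0000007c0000003b000000fe0000003c0000003c0000000c 8 8) 0 0 (step_sound _ 100 [(rh363eb4345dfae02f.shift 1 0), (rh5d47a50b2712b693.shift 0 1), (rh5d54cb79a67f97ab.shift 3 1), (rha40d42a2e34c408d.shift 3 1)] (by decide +kernel))
noncomputable def rh76bdf8a12325492b : CRef := CRef.mk (Pat.mk 0x80000001a00000002000000000000000000000000 0x4000000050000000f0000000f0000001f0000003b0000000e0000000f0000000700000005 8 6) 0 0 (step_sound _ 161 [(rh052037c23179916b.shift 0 4), rh3a0ade51cf0870bd, rhf1d1ac747eec4e14] (by decide +kernel))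
noncomputable def rhd77d65a258700acf : CRef := CRef.mk (Pat.mk 0x2800000068000000080000000000000000 0x140000001c0000003c0000007f0000003c000000ec000000780000007000000040 8 8) 0 0 (step_sound _ 163 [(rh0403288e9a410579.shift 2 0), (rh17f01ed4ed63060b.shift 2 2), (rhbe283bd58fd67095.shift 2 2), (rhc6463d74407cd4f3.shift 2 1), (rhf9bd3626f07f34c6.shift 0 2)] (by decide +kernel))
noncomputable def rhd8fe3eb986219fc8 : CRef := CRef.mk (Pat.mk 0xa0000001a00000002000000000000000000000000 0x10000000f0000001f0000000e0000001a0000001a000000170000001700000005 8 5) 0 0 (step_sound _ 194 [(rh932a75c6d278b7e1.shift 0 1), rh984bfc6de6c2c524] (by decide +kernel))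
noncomputable def rh4b51b88ee6bc6e64 : CRef := CRef.mk (Pat.mk 0x4000000040000000e00000008000000000000000000000000 0x180000003c0000003f0000001e0000003b000000320000003200000030 8 6) 0 0 (step_sound _ 97 [(rh849ac401f514375e.shift 0 3), rh8c1ee0d974c70140, (rhf9af042da61fc652.shift 1 1)] (by decide +kernel))
noncomputable def rh30305ffece0d94e4 : CRef := CRef.mk (Pat.mk 0x60000000c000000040000000000000000 0x18000000780000001e0000000c0000003e0000007f0000001e 8 7) 0 0 (step_sound _ 131 [(rh1546e2a3e653dbf8.shift 1 0), rh2f56381da8a4db48, (rh84d1c02a8954c6a8.shift 2 1)] (by decide +kernel))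
noncomputable def rh9bb43661962aaba8 : CRef := CRef.mk (Pat.mk 0x1a0000000e00000000000000000000000000000000 0x40000001c0000003c0000001e0000000e0000003f0000003e0000001e00000018 8 6) 0 0 (step_sound _ 98 [(rh4e1f59917c360f0f.shift 0 1), (rhdf0a573fd208c713.shift 1 0), (rhf9366b6a121593ef.shift 2 1)] (by decide +kernel))
noncomputable def rh1242ab3253835243 : CRef := CRef.mk (Pat.mk 0x140000001c0000000800000000 0x38000000780000001c0000001f0000007c00000034 8 7) 0 0 (step_sound _ 132 [(rh5c5e593799055d58.shift 3 1), rhf7545a1129b09f78] (by decide +kernel))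
noncomputable def rh203266b169a7de58 : CRef := CRef.mk (Pat.mk 0x700000001c0000000000000000000000000000000000000000 0x20000000280000003c000000700000001c000000ff0000007f000000380000003800000008 8 8) 0 0 (step_sound _ 132 [(rh215e11e099257d75.shift 4 3), (rh4f3c983e7b2d8da3.shift 3 0), (rh6aece017f1932e5c.shift 0 1), (rhcb4b9492ee15528f.shift 2 3)] (by decide +kernel))
noncomputable def rhf85596bda7b3c1cf : CRef := CRef.mk (Pat.mk 0x70000000000000000000000000 0x80000003e7000000fe000001e70000004000000040 8 10) 0 0 (step_sound _ 135 [(rh834ef1c974e4840e.shift 3 0), (rh8d48f12d8f37bf73.shift 0 2), (rhba3fefaa894766da.shift 4 3)] (by decide +kernel))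
noncomputable def rh0a2c0b5dd5e63b5d : CRef := CRef.mk (Pat.mk 0x20000001e00000000000000000000000000000000 0x300000003000000060000001e0000003f000000070000000700000002 8 6) 0 0 (step_sound _ 97 [rhdc8acfffae2db35e, (rheb0810cc63b001d8.shift 0 3)] (by decide +kernel))
noncomputable def rha80845b31cf07938 : CRef := CRef.mk (Pat.mk 0x20000000700000001000000000000000000000000 0x80000000e0000003e0000003f000000070000001f0000001e0000000600000006 8 6) 0 0 (step_sound _ 193 [rh48f3db1a9860b317, (rh5c5e593799055d58.shift 0 3)] (by decide +kernel))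
noncomputable def rh0de0633ca141d0f2 : CRef := CRef.mk (Pat.mk 0x1e000000100000000000000000 0x1000000014000000370000001e0000001f0000000b0000000b 8 6) 0 0 (step_sound _ 132 [(rh33e738c4ed385b9f.shift 1 3), rhf98fd72602cb2b54] (by decide +kernel))
noncomputable def rh1dc72d813c118618 : CRef := CRef.mk (Pat.mk 0x500000001e0000000000000000 0x2000000038000000f8000000d80000001e0000003b00000018 8 8) 0 0 (step_sound _ 36 [rh8279c14b6558acbb, (rhe25b0a99195a5d59.shift 1 1)] (by decide +kernel))
noncomputable def rh72f9a905bb27fee1 : CRef := CRef.mk (Pat.mk 0x700000004000000040000000000000000 0x20000000600000006000000040000000f0000003e0000000e0000000e0000000c 8 6) 0 0 (step_sound _ 99 [(rh3e7cfaf14746f6bd.shift 1 0), (rh4a0b10776449c3e9.shift 0 3), (rh89ade209b3e28f13.shift 0 3), (rhae2edff970a530ce.shift 0 3)] (by decide +kernel))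
noncomputable def rhc728a04131722001 : CRef := CRef.mk (Pat.mk 0xe000000080000000800000000 0x40000001c0000001c0000001c0000000c0000001e0000007f0000007c00000014 8 7) 0 0 (step_sound _ 131 [(rh23cdc5c2712ba3ef.shift 2 1), rh641b5241be04eec6, (rh79bf920132cab629.shift 2 1), (rhf6c40561cc9ff8b2.shift 1 0)] (by decide +kernel))
noncomputable def rh1f751c864a6327e0 : CRef := CRef.mk (Pat.mk 0x240000000e000000080000000000000000000000000 0x1e0000007e0000006e7000001fe000000ff000000580000005000000050 8 11) 0 0 (step_sound _ 198 [(rh2145e1d24b96a57e.shift 6 3), rhf4b14c7e0e4ab969] (by decide +kernel))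
noncomputable def rhc8b7a68c540f1db1 : CRef := CRef.mk (Pat.mk 0x40000000e0000000800000000000000000 0x20000000e7000001fe000000ff0000019800000090 8 9) 0 0 (step_sound _ 39 [(rh7b1f1fb55310c477.shift 6 0), rhf366684fb8023a5f] (by decide +kernel))
noncomputable def rh0ec84a1ddfb0e452 : CRef := CRef.mk (Pat.mk 0x8000000100000001000000010 0x1ef000001fe000001fe0000001000000010 8 9) 0 0 (step_sound _ 100 [(rh50fbb5868c909700.shift 3 0), rh72aec9dfd6532291] (by decide +kernel))
noncomputable def rhb755b31e5fd3fd77 : CRef := CRef.mk (Pat.mk 0x1000000020000000200000002000000000 0x4000000040000003fe000001fe000003b70000002000000020 8 10) 0 0 (step_sound _ 100 [(rh7b1f1fb55310c477.shift 4 0), (rhab88478ed988e964.shift 0 1)] (by decide +kernel))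
noncomputable def rhf6c761520e7ab6dc : CRef := CRef.mk (Pat.mk 0x6000000020000000a00000000 0x4000000040000007c0000007f0000007b0000000a00000002 8 7) 0 0 (step_sound _ 130 [(rh71222050f2c63a3a.shift 1 0), (rh879e35e4b43baa9f.shift 0 1)] (by decide +kernel))
noncomputable def rh95a0fbcf62c388a5 : CRef := CRef.mk (Pat.mk 0xc000000040000001c00000000 0x3a0000003a000000fb0000007f000000f60000001c00000008 8 8) 0 0 (step_sound _ 100 [(rh0841198d1e4533cf.shift 1 0), rh14763620fae57fb1, (rh1cdbd8356cc67782.shift 1 0), rh667ae0e57209b03e, (rh9b484a085ce2a69e.shift 1 1), (rhfa35e196e150edb4.shift 1 2)] (by decide +kernel))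
noncomputable def rh1e2c8abc72097a05 : CRef := CRef.mk (Pat.mk 0x1000000010000000700000002000000000 0x2f0000007e000000f7000000780000003c00000008 8 8) 0 0 (step_sound _ 36 [(rh9add9e8baa88cc1b.shift 0 1), (rhf5094ad2a427d4d3.shift 2 0)] (by decide +kernel))
noncomputable def rh82cf1e595af8c193 : CRef := CRef.mk (Pat.mk 0x2000000120000000e000000000000000000000000 0x40000000e0000003a0000001e0000003f0000003400000030 8 6) 0 0 (step_sound _ 100 [(rh33e738c4ed385b9f.shift 1 3), rh4133cdac37559176] (by decide +kernel))
noncomputable def rhe4af1259a2ff4bbc : CRef := CRef.mk (Pat.mk 0x1c00000070000000000000000000000000 0x2000000038000000380000007f0000007f0000001c000000700000003c0000002800000020 8 7) 0 0 (step_sound _ 164 [(rh14e0829dc73b6804.shift 3 2), (rh6d4e8a9b3c7895b0.shift 0 2), (rh70e33bfdf511e144.shift 4 0), (rhc28deca3165f2c8d.shift 3 2), (rhd0e248d72066f222.shift 2 1)] (by decide +kernel))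
noncomputable def rh337c4dc5d8eec682 : CRef := CRef.mk (Pat.mk 0x60000001c000000000000000000000000 0x80000003e0000007e0000007e0000001c0000001f0000001a00000018 8 7) 0 0 (step_sound _ 67 [(rh5529ae54660529d9.shift 2 0), (rh5d54cb79a67f97ab.shift 2 0), (rh79034c5a538d3768.shift 0 1), (rha40d42a2e34c408d.shift 2 0)] (by decide +kernel))
noncomputable def rhe241b6fc823dc9a4 : CRef := CRef.mk (Pat.mk 0x1e00000010000000000000000000000000 0x50000000700000007000000370000001e0000001f000000070000000300000002 8 6) 0 0 (step_sound _ 164 [(rh33e738c4ed385b9f.shift 1 4), rha1a5ea0ae9abe5a6] (by decide +kernel))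
noncomputable def rh917f30b2dc26870a : CRef := CRef.mk (Pat.mk 0x8000000380000000c0000000000000000 0x1000000030000000780000003f0000007c0000007800000030 8 7) 0 0 (step_sound _ 132 [rh66816760bd2cd87f, (rh84d1c02a8954c6a8.shift 3 1)] (by decide +kernel))
noncomputable def rh5c03d187bd04a7ba : CRef := CRef.mk (Pat.mk 0x1c000000140000000000000000000000000000000000000000 0x8000000380000007c0000001c000000f40000003f000000f8000000380000003800000038 8 8) 0 0 (step_sound _ 132 [(rh01ef145b8180c3b8.shift 2 3), (rh0a6888916bcef86b.shift 3 1), rh3722da43b6539cfb, (rhd01ed0cc6ce530d4.shift 2 3)] (by decide +kernel))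
noncomputable def rh1a02c109dfb229e5 : CRef := CRef.mk (Pat.mk 0x40000000e0000000a00000000 0x12000000370000003f0000003e0000001f0000000a00000002 8 6) 0 0 (step_sound _ 130 [rh093ad269d4a5e46c, (rh2145e1d24b96a57e.shift 2 1)] (by decide +kernel))
noncomputable def rhdabd7faf88880e09 : CRef := CRef.mk (Pat.mk 0x20000000100000001000000010 0x1ef000001fe000001fe0000001000000010 8 9) 0 0 (step_sound _ 100 [(rh2f68792b6b779e96.shift 4 0), rh79aba3976f9f2f53] (by decide +kernel))
noncomputable def rh1ff89deba51fc857 : CRef := CRef.mk (Pat.mk 0x600000002000000020000000000000000000000000 0x39e000001fe000003bf00000020000000300000003000000010 8 10) 0 0 (step_sound _ 164 [(rh01483ff9cba2f6ac.shift 4 0), (rh29e92ee91bcbda18.shift 0 4), (rh5a8c20ae5ea82dd8.shift 3 2), (rhb1a87e56a1e435be.shift 3 2)] (by decide +kernel))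
noncomputable def rh9fa5cf8648ced13b : CRef := CRef.mk (Pat.mk 0x40000001c0000000800000000 0x800000008000000fc0000003e000000fc0000003e0000000f00000006 8 8) 0 0 (step_sound _ 130 [(rh2145e1d24b96a57e.shift 2 1), rh6c26b27c90c2d193] (by decide +kernel))
noncomputable def rh32db1b658e2cb8f1 : CRef := CRef.mk (Pat.mk 0x2000000120000000e000000000000000000000000 0xa0000003a0000001e0000003f0000001f0000001d 8 6) 0 0 (step_sound _ 100 [rh1a675a73e6a6ad9a, (rh33e738c4ed385b9f.shift 1 3)] (by decide +kernel))
noncomputable def rhd89e687811801a5a : CRef := CRef.mk (Pat.mk 0x2000000120000000e0000000000000000000000000000000000000000 0x280000003d0000003f0000001a0000001e0000003f0000003f0000003d0000003800000028 8 6) 0 0 (step_sound _ 164 [(rh1a675a73e6a6ad9a.shift 0 2), (rh5381369eacd58c71.shift 1 1), (rh60d58901f45aac7f.shift 0 4), rhaf3310e4b10c739b, (rhe56bb198f542678f.shift 0 4)] (by decide +kernel))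
noncomputable def rha428e52c00fa2746 : CRef := CRef.mk (Pat.mk 0x2000000120000000e00000000 0x1d0000001f0000003a0000001e00000033 8 6) 0 0 (step_sound _ 36 [(rh33e738c4ed385b9f.shift 1 1), rh60d58901f45aac7f] (by decide +kernel))
noncomputable def rhcc00d4ac6d2b9fd9 : CRef := CRef.mk (Pat.mk 0x60000001c000000000000000000000000 0x20000003f0000007e0000007e0000001c0000001f0000001e00000018 8 7) 0 0 (step_sound _ 67 [(rh5d54cb79a67f97ab.shift 2 0), (rha40d42a2e34c408d.shift 2 0), (rhc2a23e5e6dab8244.shift 0 1), (rhe08e8946e9a3f593.shift 2 0)] (by decide +kernel))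
noncomputable def rhd586caa8d7cfeffd : CRef := CRef.mk (Pat.mk 0x80000001c0000000400000000 0x2c0000002c0000007e0000007c0000001f0000003400000010 8 7) 0 0 (step_sound _ 100 [(rh9bcf8aeb25b0f9f0.shift 1 0), rh9e976f464b342636, (rhf9d36e158778ce35.shift 1 2)] (by decide +kernel))
noncomputable def rh142635070170970c : CRef := CRef.mk (Pat.mk 0x8000000380000000000000000000000000000000000000000 0x140000001c0000001c00000008000000780000001f0000001c0000001c0000001c00000010 8 7) 0 0 (step_sound _ 131 [(rh19b19bf0872cfe73.shift 2 1), (rhd0c8f4fddd251223.shift 2 0), (rhf0f55c4504412200.shift 0 4)] (by decide +kernel))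
noncomputable def rh33020f8a9bdfc234 : CRef := CRef.mk (Pat.mk 0x1c000000700000000000000000000000000000000000000000 0x80000001a0000001f0000001c000000740000003e0000003f0000003a0000003800000020 8 7) 0 0 (step_sound _ 132 [(rh528921958bcedb00.shift 1 1), (rhb1a251d9bff81766.shift 3 3), (rhc31670a86dcbe4ea.shift 0 1), (rhf98fa66b1765731a.shift 3 0)] (by decide +kernel))
noncomputable def rhac6c7b40bed53710 : CRef := CRef.mk (Pat.mk 0x60000001c000000000000000000000000 0x60000000e0000000e0000001c0000007f0000001f0000001e 8 7) 0 0 (step_sound _ 67 [rh5d21c53ada365dda, (rha40d42a2e34c408d.shift 2 0), (rhc04acbc801fe9a40.shift 0 1)] (by decide +kernel))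
noncomputable def rhdcabb6991778c467 : CRef := CRef.mk (Pat.mk 0x50000001c000000000000000000000000 0x40000000c0000000f0000001c0000000f0000003e0000001c 8 6) 0 0 (step_sound _ 131 [rh9bf5e0de4ec7fa7c, (rhab22b5b56e7b3243.shift 0 3)] (by decide +kernel))
noncomputable def rh299a8c299b659b20 : CRef := CRef.mk (Pat.mk 0x28000000e000000000000000000000000000000000 0x400000007000000070000000300000007c0000003f000000e00000007c000000700000007000000050 8 8) 0 0 (step_sound _ 197 [(rh320b7f4202d931aa.shift 0 3), (rh3b4b2eeba30d8c08.shift 2 0), (rh44ef475688875815.shift 2 3), (rh70e33bfdf511e144.shift 5 1)] (by decide +kernel))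
noncomputable def rh432ef854ee24ce59 : CRef := CRef.mk (Pat.mk 0x40000001c000000080000000000000000 0x10000000780000007c0000001c0000003e0000007f0000001e 8 7) 0 0 (step_sound _ 35 [rh4a8ff15abf8e922e, (rh7b1f1fb55310c477.shift 2 0)] (by decide +kernel))
noncomputable def rha443cf1b27575836 : CRef := CRef.mk (Pat.mk 0x28000000e00000004000000000 0xb7000000fe000001ef000000e00000007800000010 8 9) 0 0 (step_sound _ 133 [(rh2145e1d24b96a57e.shift 5 1), rh60f156fcd386f9ca] (by decide +kernel))
noncomputable def rha6fcd78aa4fac3f0 : CRef := CRef.mk (Pat.mk 0xe000000280000000000000000000000000000000000000000 0x1c0000003c0000000e000000780000007f0000003e0000001c0000001c00000004 8 7) 0 0 (step_sound _ 164 [rhb94ffaf7a3105590, (rhf48373e13d2bc128.shift 2 5)] (by decide +kernel))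
noncomputable def rh924261c6fc757ac5 : CRef := CRef.mk (Pat.mk 0x38000000a20000000000000000 0x30000000700000003e000001b3000001f000000070 8 9) 0 0 (step_sound _ 98 [(rh11f61f18baece021.shift 2 0), (rh904f7fcbaab6c494.shift 0 2), (rh969f3c6b06e87f8b.shift 0 2)] (by decide +kernel))
noncomputable def rh19100921be684ebf : CRef := CRef.mk (Pat.mk 0x1c0000001100000000000000000000000000000000 0x380000007c0000001c0000001f00000078000000380000003800000020 8 7) 0 0 (step_sound _ 100 [(rh27b44a0202980be0.shift 3 1), (rh2d8f5f0e17959538.shift 2 2), (rhaac0810a30e40f0b.shift 0 2), (rhaea4904f3dc207ed.shift 2 0), (rhd1779d7de7f8215b.shift 3 0)] (by decide +kernel))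
noncomputable def rhbc65c351ee101350 : CRef := CRef.mk (Pat.mk 0x2000000038000000100000000000000000 0x8000000d8000000f8000000380000003e0000007f0000003c 8 8) 0 0 (step_sound _ 36 [(rh71222050f2c63a3a.shift 4 0), rha9c0b853e9cc566c] (by decide +kernel))
noncomputable def rhe82ac6a170091c68 : CRef := CRef.mk (Pat.mk 0x100000001c000000080000000000000000 0x760000003e000000fe0000001c0000001f0000000600000004 8 8) 0 0 (step_sound _ 164 [(rh5c5e593799055d58.shift 3 2), rh87da2e6608118482] (by decide +kernel))
noncomputable def rh89f45013278d9a57 : CRef := CRef.mk (Pat.mk 0x400000007000000020000000000000000000000000 0x1800000058000000f80000007c0000003f0000003800000018 8 8) 0 0 (step_sound _ 69 [rh46013022e692d4fd, (rh71222050f2c63a3a.shift 5 1)] (by decide +kernel))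
noncomputable def rh6bd1cd64f43b6052 : CRef := CRef.mk (Pat.mk 0x100000001c00000008000000000000000000000000 0x100000001c0000001c0000003f0000001f000000370000001200000002 8 6) 0 0 (step_sound _ 196 [rh0b688c8b01ed2e68, (rh5c5e593799055d58.shift 3 3)] (by decide +kernel))
noncomputable def rh1358a36a0be22561 : CRef := CRef.mk (Pat.mk 0x100000001c000000080000000000000000 0x3000000038000000180000001f0000007f0000003000000030 8 7) 0 0 (step_sound _ 164 [rh33ac6e059856dd63, (rh5c5e593799055d58.shift 3 2)] (by decide +kernel))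
noncomputable def rheb94ba9a52a9bcef : CRef := CRef.mk (Pat.mk 0xe000000180000000000000000000000000000000000000000 0xc0000000e0000000e0000007a0000007f0000003e0000001c0000001c00000004 8 7) 0 0 (step_sound _ 165 [rha3140d9c353dd0a4, (rhf48373e13d2bc128.shift 2 5)] (by decide +kernel))
noncomputable def rh09c9021386eaf601 : CRef := CRef.mk (Pat.mk 0xe0000001800000000000000000000000000000000 0x10000000180000001c0000000c0000001e0000001f0000001f0000001f0000001c00000008 8 5) 0 0 (step_sound _ 195 [(rh70e33bfdf511e144.shift 3 1), (rh898cfb2f5da0ae76.shift 2 2), (rhb23658ecdd7ce5df.shift 2 3), rhbe734cd964982ae5] (by decide +kernel))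
noncomputable def rh5f518925dd30f386 : CRef := CRef.mk (Pat.mk 0x1c000000120000000000000000 0xc0000000c0000003f0000001e0000003f0000001e 8 6) 0 0 (step_sound _ 66 [(rh18965a982d73c794.shift 1 2), rhdc77b89a044f466e] (by decide +kernel))
noncomputable def rhd111b82533d0e5cf : CRef := CRef.mk (Pat.mk 0x80000000f0000000000000000000000000000000000000000 0x40000001c0000001c000000180000000c0000000f0000001c0000001c0000001c0000001c00000004 8 5) 0 0 (step_sound _ 131 [(rhe25b0a99195a5d59.shift 0 4), (rhec873bc23aec3a1f.shift 2 0)] (by decide +kernel))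
noncomputable def rh76f9528848def1b2 : CRef := CRef.mk (Pat.mk 0x700000008000000000000000000000000 0x40000001c0000001c0000001c0000001c0000000f000000180000001c0000001c00000014 8 5) 0 0 (step_sound _ 131 [rh2f1d7b7a99fea5b1, (rhe25b0a99195a5d59.shift 0 3)] (by decide +kernel))
noncomputable def rhb3576623d8821f47 : CRef := CRef.mk (Pat.mk 0x20000000e0000001200000000000000000000000000000000 0x20000000a0000000a0000000e0000001e0000003f000000170000001700000005 8 6) 0 0 (step_sound _ 97 [(rh3d02c07d3f35972b.shift 0 2), (rh6eff4158bb400f47.shift 0 1), rh8a1bd34420cccc7f, (rha04bd291ccae61fa.shift 0 1), rha52e1acf7ed5511e] (by decide +kernel))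
noncomputable def rh25688e6eb96f335c : CRef := CRef.mk (Pat.mk 0x180000001e0000000000000000 0x150000003f0000001f0000001e0000000b0000000a 8 6) 0 0 (step_sound _ 97 [rh2d6cdcd890d21764, (rh3244c3cc8379b070.shift 0 2)] (by decide +kernel))
noncomputable def rhec59d5528fb4a666 : CRef := CRef.mk (Pat.mk 0xe000000080000000800000000 0x40000001c0000001c0000001c0000000c0000000e0000007a0000001f00000017 8 7) 0 0 (step_sound _ 131 [(rh27501404ec404ff4.shift 2 0), (rh3ca4c10fdf355329.shift 1 0), (rh7eb4a07d72ad7934.shift 2 0), rhb134aea1dfc73163] (by decide +kernel))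
noncomputable def rhd29d8182902c06c4 : CRef := CRef.mk (Pat.mk 0x80000001c0000001000000000 0x60000001e0000003e0000000f0000003c0000001e0000000e 8 6) 0 0 (step_sound _ 131 [(rh2145e1d24b96a57e.shift 3 1), rhc9c91c9f143e4ad4] (by decide +kernel))
noncomputable def rh1d88ef6ef01b0534 : CRef := CRef.mk (Pat.mk 0xe000000180000000000000000000000000000000000000000 0x140000001c0000001c0000001c0000003c0000003f0000000e00000018000000180000001c0000001c0000001c00000010 8 6) 0 0 (step_sound _ 227 [(rh14e0829dc73b6804.shift 2 4), (rh15a69e3799388238.shift 1 0), (rh6d543dac0772eaa1.shift 0 3), (rh70e33bfdf511e144.shift 3 2)] (by decide +kernel))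
noncomputable def rhf521b83fc1e04810 : CRef := CRef.mk (Pat.mk 0x60000000c00000004000000000000000000000000 0x400000004000000060000000f0000007e0000007f0000000e00000004 8 7) 0 0 (step_sound _ 99 [(rh3e595262c1b737ad.shift 2 2), (rh4797014897be6fd7.shift 0 1), (rh6e451cd30e20dffc.shift 1 0)] (by decide +kernel))
noncomputable def rh51f4e8213ceae501 : CRef := CRef.mk (Pat.mk 0x2000000020000000e0000000800000000000000000000000000000000 0x3d0000003f000000360000001e0000000e0000000f000000070000000700000004 8 6) 0 0 (step_sound _ 226 [rh04369763f0ff0b5c, (rh22663d5b8a87a66a.shift 1 3), (rhfdd14058eaa9f9ec.shift 1 4), (rhfe6fcc796aaa7064.shift 1 2)] (by decide +kernel))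
noncomputable def rh6f2d9b7d1387c14d : CRef := CRef.mk (Pat.mk 0x800000008000000380000000000000000000000000000000000000000 0x340000007c0000006f000000380000001c0000001c0000001c0000001c00000010 8 7) 0 0 (step_sound _ 131 [(rh245d56c915813f64.shift 0 3), (rh46baee19951a66e7.shift 2 2), (rh8435f16c73c7f2d9.shift 2 0), (rha32b39cf3f6c4389.shift 1 3)] (by decide +kernel))
noncomputable def rh46a3d2b8a9c5802a : CRef := CRef.mk (Pat.mk 0x40000001c000000000000000000000000 0x1e0000001f000000fc0000003e0000000e0000000e00000008 8 8) 0 0 (step_sound _ 67 [(rh5d54cb79a67f97ab.shift 2 0), (rh86e87edf7a950fde.shift 1 0), (rha40d42a2e34c408d.shift 2 0), (rhd6b3b360f9c2a7eb.shift 0 1)] (by decide +kernel))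
noncomputable def rhfd4798d59a0e8d51 : CRef := CRef.mk (Pat.mk 0x2000000020000001e0000000000000000000000000000000000000000 0x100000003000000020000001e0000000700000007000000070000000700000004 8 5) 0 0 (step_sound _ 129 [rh1833e792cb70f701, (rheb0810cc63b001d8.shift 0 4)] (by decide +kernel))
noncomputable def rha7b99b35de51fc0f : CRef := CRef.mk (Pat.mk 0x1000000000000000f00000000000000000000000000000000 0x140000001c0000001f0000001c0000000f0000001c0000001c0000001c00000010 8 5) 0 0 (step_sound _ 99 [rha579ffce16448a93, (rhe25b0a99195a5d59.shift 0 3)] (by decide +kernel))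
noncomputable def rhd9a0812e29dc7b13 : CRef := CRef.mk (Pat.mk 0x2000000020000001e00000000 0x1d0000001f0000003a0000001e00000033 8 6) 0 0 (step_sound _ 1 [rh0d5042701e486d8e, rheb0810cc63b001d8] (by decide +kernel))
noncomputable def rh51d63757d58839cf : CRef := CRef.mk (Pat.mk 0x60000000c0000000400000000 0x100000003e0000003f0000003e0000000c0000000c00000008 8 6) 0 0 (step_sound _ 130 [(rhc7e7e664ba2522ee.shift 0 1), (rhd4b4beefcd67f51e.shift 2 0)] (by decide +kernel))
noncomputable def rh38d1327d3ace6981 : CRef := CRef.mk (Pat.mk 0xe000000280000000000000000000000000000000000000000 0x180000001c0000001c0000003e0000000e000001fa0000007f0000001a0000001c0000001c00000004 8 9) 0 0 (step_sound _ 131 [(rh5463d1fbb39f4544.shift 2 0), (rhb1a251d9bff81766.shift 2 3), (rhc9c84c931516ccbc.shift 0 3), (rhdc4c5c2bfb1bc868.shift 2 1)] (by decide +kernel))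
noncomputable def rh6505af074ed5e1f9 : CRef := CRef.mk (Pat.mk 0x800000038000000200000000000000000 0x1c0000003f0000007f000000ff00000038000000280000002800000028 8 8) 0 0 (step_sound _ 132 [(rh6cb55be16c0fb253.shift 1 0), (rhc2c7bae8f445c890.shift 4 0), rhdbd0de1a0b5a62da] (by decide +kernel))
noncomputable def rh67ef5ee083c840f2 : CRef := CRef.mk (Pat.mk 0x20000000e00000008000000000000000000000000 0x40000000700000017000000170000003e0000001e0000000b0000000b0000000b00000001 8 6) 0 0 (step_sound _ 97 [(rh0f774b6bf7d8842a.shift 0 2), rh19b19bf0872cfe73, (rh4e79f40c72e7f94a.shift 0 1), (rha1fcfb1b30bb72ba.shift 0 2), (rhd8b43b15431aaa50.shift 0 1)] (by decide +kernel))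
noncomputable def rh33ec72d9fe59152a : CRef := CRef.mk (Pat.mk 0x2000000020000000700000004000000000 0x98000007d8000001ff000001fc000000f80000005000000010 8 11) 0 0 (step_sound _ 100 [rh77642ae559e58a6b, (rh7b9ca35b32c8cb2b.shift 3 1), (rhe2b63c00a3d7bb73.shift 2 2)] (by decide +kernel))
noncomputable def rh000318503cfd96e9 : CRef := CRef.mk (Pat.mk 0x80000001c000000100000001000000000 0x14000000360000007f0000003e0000001f000000f800000020 8 8) 0 0 (step_sound _ 132 [rh19889cc2178c742f, rh2281da455821d6c7, (rhdab32775f5c78fcf.shift 1 1)] (by decide +kernel))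
noncomputable def rhbf93d1655f0c9a70 : CRef := CRef.mk (Pat.mk 0x8000000070000000000000000000000000000000000000000 0x140000001c0000001c000000180000000f0000001c0000001c0000001c0000001c00000004 8 5) 0 0 (step_sound _ 163 [(rh33e738c4ed385b9f.shift 0 5), rhf11146e8ec20b8d1] (by decide +kernel))
noncomputable def rh362e5730358db935 : CRef := CRef.mk (Pat.mk 0x120000000e000000020000000000000000 0x500000017000000170000003f0000001e0000000e0000000a0000000a00000002 8 6) 0 0 (step_sound _ 161 [(rh1741680720c097b4.shift 0 2), (rh35c5f1c53251aa1b.shift 0 2), rh439d04a0aade1de0, (rh64bc0dab78a08b48.shift 0 2), (rha49745acc3e5a5d0.shift 0 1)] (by decide +kernel))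
noncomputable def rh5c17efda7b5d6861 : CRef := CRef.mk (Pat.mk 0x700000001c000000000000000000000000 0x8000000380000003a0000003f0000003e000000740000001c0000001f0000001a00000008 8 7) 0 0 (step_sound _ 164 [(rh281c6819542c66e6.shift 3 0), (rh4fa02edefd3dd027.shift 1 1), rh99016b3d815f421c, (rhb2d999c672507e3f.shift 3 2)] (by decide +kernel))
noncomputable def rh8c9637765ab1b949 : CRef := CRef.mk (Pat.mk 0x80000001c000000060000000000000000 0x1c0000001c0000001c0000001c0000007e0000007300000010 8 7) 0 0 (step_sound _ 163 [(rh5c5e593799055d58.shift 2 2), rh9150d9b7222a3419] (by decide +kernel))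
noncomputable def rh0517542449635797 : CRef := CRef.mk (Pat.mk 0x1c000000040000000400000000 0x8000000280000007c0000001f000000f60000003e00000038 8 8) 0 0 (step_sound _ 131 [rh9c3e9ee2c0d12509, (rhbfb5770941270498.shift 2 1)] (by decide +kernel))
noncomputable def rh1246ce46fe147f6c : CRef := CRef.mk (Pat.mk 0x2000000020000000200000001000000000 0x2000000020000003bf000001fe000003de 8 10) 0 0 (step_sound _ 37 [(rh932754581e0f4330.shift 4 0), rhe83cf3ce68f31270] (by decide +kernel))
noncomputable def rh83a7550584cadcf8 : CRef := CRef.mk (Pat.mk 0x1000000010000000100000000800000000 0x100000001000000010000000fe0000007f00000027 8 8) 0 0 (step_sound _ 37 [(rh2f6cd3183cec8379.shift 3 1), (rhabaa4b11eb552c7f.shift 1 0), (rhe08572ddd8f22032.shift 1 0), rhf9e5d059e1079594] (by decide +kernel))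
noncomputable def rh6678fb1fa504504f : CRef := CRef.mk (Pat.mk 0x8000000380000000000000000000000000000000000000000 0x140000001c0000001c00000008000000780000001f0000001c0000001c0000001c00000010 8 7) 0 0 (step_sound _ 131 [(rh19b19bf0872cfe73.shift 2 1), (rh2b23ffbaf69c75ea.shift 2 0), (rhf0f55c4504412200.shift 0 4)] (by decide +kernel))
noncomputable def rhfb4b491ed11d9cc5 : CRef := CRef.mk (Pat.mk 0xc0000003800000000000000000000000000000000 0x140000001c0000001c0000001c0000003c0000000f0000000c000000380000001f0000001c0000001c00000014 8 6) 0 0 (step_sound _ 195 [(rh14e0829dc73b6804.shift 2 3), (rh1b598c80c1ef6c46.shift 0 2), rhce533b0f49ea7588] (by decide +kernel))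
noncomputable def rh3acbd88906b33b56 : CRef := CRef.mk (Pat.mk 0x60000001c000000000000000000000000 0x16000000770000007e0000001c0000001f0000001e0000001c 8 7) 0 0 (step_sound _ 67 [rh915109ec5c4b7fee, (rha40d42a2e34c408d.shift 2 0), (rhc04acbc801fe9a40.shift 0 1)] (by decide +kernel))
noncomputable def rh2781b8f9c5383818 : CRef := CRef.mk (Pat.mk 0x4000000070000000c0000000000000000000000000000000000000000 0xa0000003e000000070000000e0000000c0000000c0000000e0000000e0000000a 8 6) 0 0 (step_sound _ 130 [(rh4017de503635a93b.shift 0 4), (rha4daae686a663794.shift 1 0), (rhe286c75f2739cce2.shift 1 3)] (by decide +kernel))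
noncomputable def rh06d29b3cd58d110b : CRef := CRef.mk (Pat.mk 0x1e0000000200000000000000000000000000000000 0x50000000700000007000000330000001e0000000600000007000000070000000700000004 8 6) 0 0 (step_sound _ 193 [(rh3244c3cc8379b070.shift 0 5), rhe202cc1a95dff203] (by decide +kernel))
noncomputable def rh1e5b644e4a2a4036 : CRef := CRef.mk (Pat.mk 0x40000000e00000006000000000000000000000000 0x180000003c0000000e0000003e0000000f0000000e0000000c 8 6) 0 0 (step_sound _ 65 [(rh71222050f2c63a3a.shift 1 1), rha9c5ebb5ab64a352] (by decide +kernel))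
noncomputable def rh4901b6d7440cf70b : CRef := CRef.mk (Pat.mk 0x700000003000000000000000000000000 0x20000000e0000001e00000007000000070000001f0000000e00000006 8 5) 0 0 (step_sound _ 161 [(rh503dd4575245365b.shift 0 2), rhf9dc4d35e6bfd15f] (by decide +kernel))
noncomputable def rha5a8efa9b36d04e8 : CRef := CRef.mk (Pat.mk 0x1c0000000e000000000000000000000000 0x8000000180000001c0000007e0000007f0000000f0000000e 8 7) 0 0 (step_sound _ 66 [rh59101b0b100fd3ce, rhe04fc0b842997c1d, (rhea7a1800d6f053bd.shift 2 0)] (by decide +kernel))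
noncomputable def rhf74f014197d18cc6 : CRef := CRef.mk (Pat.mk 0x70000000a0000000000000000 0x40000001c0000001c0000001c0000001e0000000f0000001a0000000a0000000a 8 5) 0 0 (step_sound _ 99 [rh71c8f0bd7066be12, (rhe25b0a99195a5d59.shift 0 2)] (by decide +kernel))
noncomputable def rh0404c400f39985dc : CRef := CRef.mk (Pat.mk 0x3800000058000000000000000000000000 0x30000000300000003800000078000000fc0000005f0000005c 8 8) 0 0 (step_sound _ 67 [(rha823780809c9967c.shift 2 0), (rhea7a1800d6f053bd.shift 3 0), rhf31527acfdaa8ddb] (by decide +kernel))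
noncomputable def rhbff85a5d3c686bee : CRef := CRef.mk (Pat.mk 0xe00000006000000000000000000000000 0xc0000001c0000003c0000000e0000000e0000003c0000001f0000000e 8 6) 0 0 (step_sound _ 66 [(rh3c10723ed89e9c46.shift 1 1), rh7bf9f9b2f3f08994, (rhb0c1e7919d9be92d.shift 1 0)] (by decide +kernel))
noncomputable def rh996867534b37331a : CRef := CRef.mk (Pat.mk 0x1c00000028000000000000000000000000 0x1800000018000000180000001c0000007c0000000f0000007c0000001c 8 7) 0 0 (step_sound _ 100 [rhb0475c56a4b3b474, (rhf48373e13d2bc128.shift 2 3)] (by decide +kernel))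
noncomputable def rh66d417cd590c2c01 : CRef := CRef.mk (Pat.mk 0x1e000000140000000000000000 0x80000003800000038000000380000003c0000001e000000170000001400000014 8 6) 0 0 (step_sound _ 65 [(rh71c8f0bd7066be12.shift 1 0), (rheb0810cc63b001d8.shift 0 2)] (by decide +kernel))
noncomputable def rh53a49d8436a90acd : CRef := CRef.mk (Pat.mk 0x3800000058000000000000000000000000 0x1000000030000000380000007f0000001f0000003800000018 8 7) 0 0 (step_sound _ 97 [(rh24ae073cf30720c4.shift 1 3), rhee5667e9d6873251] (by decide +kernel))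
noncomputable def rhbee6dcf564a1ab50 : CRef := CRef.mk (Pat.mk 0x1c0000000e0000000000000000 0x1c0000001c000000180000001c0000007e0000007700000014 8 7) 0 0 (step_sound _ 131 [(rh1a7df688f4a9a9da.shift 2 1), rh3a8a159dea931c6a, (rh503dd4575245365b.shift 2 1)] (by decide +kernel))
noncomputable def rh28ca7a8ff6dddf3b : CRef := CRef.mk (Pat.mk 0x20000000700000003000000000000000000000000 0xc0000001e00000007000000070000001f0000000f00000006 8 5) 0 0 (step_sound _ 64 [(rh71222050f2c63a3a.shift 0 1), rha9c4428cf2fe1716] (by decide +kernel))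
noncomputable def rh0aa18554693611e3 : CRef := CRef.mk (Pat.mk 0x1c0000000c000000000000000000000000 0x100000001c0000007f0000007f0000003800000038 8 7) 0 0 (step_sound _ 97 [(rh53b3c253cb0c65f4.shift 0 3), rh5bde2df99c251002] (by decide +kernel))
noncomputable def rh7614c74f0cfeb46e : CRef := CRef.mk (Pat.mk 0x600000016000000000000000000000000 0x60000003e0000003f0000000f00000007 8 6) 0 0 (step_sound _ 99 [rhe48bac672b5ffde1, (rhf48373e13d2bc128.shift 1 3)] (by decide +kernel))
noncomputable def rhd523c42c9e05b39d : CRef := CRef.mk (Pat.mk 0x3800000058000000000000000000000000 0x20000000200000007800000078000000fc0000007f0000005c 8 8) 0 0 (step_sound _ 101 [rh5d045dff7a05e99f, (rh85069a6d037617f9.shift 3 0), (rhe48bac672b5ffde1.shift 2 0)] (by decide +kernel))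
noncomputable def rh23b3d06c90421182 : CRef := CRef.mk (Pat.mk 0xe00000014000000000000000000000000 0x40000000c0000000e0000003f0000003b0000001f0000001c 8 6) 0 0 (step_sound _ 99 [rhef397a33dc4fa280, (rhf48373e13d2bc128.shift 1 3)] (by decide +kernel))
noncomputable def rh719ca00d0cf162c5 : CRef := CRef.mk (Pat.mk 0x1e00000014000000000000000000000000 0x200000003c0000003e0000003c0000001e000000170000003a0000003800000028 8 6) 0 0 (step_sound _ 97 [(rh5391918e3f1c2fe0.shift 1 0), (rheb0810cc63b001d8.shift 0 3)] (by decide +kernel))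
noncomputable def rhe0fad38ed49cff54 : CRef := CRef.mk (Pat.mk 0x1c00000028000000000000000000000000 0x18000000180000003c0000003f000000760000002400000024 8 7) 0 0 (step_sound _ 98 [(rh4dc133ee0ba1420a.shift 0 3), (rhac2e912d8e3160f6.shift 1 0)] (by decide +kernel))
noncomputable def rh1aafd8961bf02dd3 : CRef := CRef.mk (Pat.mk 0x80000000e000000040000000000000000 0x600000006000000160000003c0000000e0000003e0000000f0000000e 8 6) 0 0 (step_sound _ 34 [(rh71222050f2c63a3a.shift 2 0), rhb3859312932eb6d8] (by decide +kernel))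
noncomputable def rh9ff0730869ee77e8 : CRef := CRef.mk (Pat.mk 0x3800000018000000100000000000000000 0x100000001000000038000000f8000000fc000000ef0000004c 8 8) 0 0 (step_sound _ 67 [(rh84d1c02a8954c6a8.shift 3 1), rha6f802784adb25e2, (rhe59e17796a43be8e.shift 2 0)] (by decide +kernel))
noncomputable def rhd7f5ef50c8b91a54 : CRef := CRef.mk (Pat.mk 0x1c0000000c000000000000000000000000 0x1800000018000000180000001c0000000f0000003c0000001c00000018 8 6) 0 0 (step_sound _ 97 [(rh31edf42176a1e694.shift 1 0), (rh53b3c253cb0c65f4.shift 0 3)] (by decide +kernel))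
noncomputable def rhbe7a0147fb31face : CRef := CRef.mk (Pat.mk 0x20000000700000003000000000000000000000000 0x4000000060000000f0000001b0000001f0000001f00000006 8 5) 0 0 (step_sound _ 64 [rh59dbc0e12973895b, (rh71222050f2c63a3a.shift 0 1)] (by decide +kernel))
noncomputable def rha6dec7cbd82e07d9 : CRef := CRef.mk (Pat.mk 0x200000007000000020000000200000000 0x40000000700000007000000070000001e00000007000000020000000700000005 8 5) 0 0 (step_sound _ 34 [(rh55afc6a59410cf00.shift 1 0), rh816c29aa18a72e5f] (by decide +kernel))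
noncomputable def rh10aa878c8a80b2b3 : CRef := CRef.mk (Pat.mk 0xe00000014000000040000000000000000 0x340000001e000000340000003f0000003e0000002a 8 6) 0 0 (step_sound _ 132 [rh9723355a2acd073b, (rhe25b0a99195a5d59.shift 1 3)] (by decide +kernel))
noncomputable def rhdb59aa989b81f6e7 : CRef := CRef.mk (Pat.mk 0xe00000014000000000000000000000000 0x80000000c0000000e0000003e0000007f0000003e0000000e 8 7) 0 0 (step_sound _ 99 [rhdb1a2bd7edbec6c0, (rhf48373e13d2bc128.shift 1 3)] (by decide +kernel))
noncomputable def rhea1928bfc6ef875a : CRef := CRef.mk (Pat.mk 0x1c00000028000000000000000000000000 0x1c0000001e000000780000003c0000003f0000007e0000002400000020 8 7) 0 0 (step_sound _ 98 [(rh4dc133ee0ba1420a.shift 0 3), (rhc6c76aa2398fafbd.shift 1 0)] (by decide +kernel))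
noncomputable def rhc7b5285d762b4b41 : CRef := CRef.mk (Pat.mk 0x10000000180000000c000000080000000000000000 0x4000000f40000003f0000007c0000007c0000007600000024 8 8) 0 0 (step_sound _ 130 [(rh0ef477213ce910d0.shift 0 3), (rha11dfd15f08f96e3.shift 1 4), (rhba2c41bcf61cd719.shift 2 0), (rhc1bd582361d15830.shift 1 0)] (by decide +kernel))
noncomputable def rhf4277f9b7820e91a : CRef := CRef.mk (Pat.mk 0x8000000180000000c0000000000000000 0x3000000030000000f4000000ff000000f80000004c0000000800000008 8 8) 0 0 (step_sound _ 132 [(rh1eef98f3e0ecb390.shift 1 0), (rh6fbb18fdba4bb17e.shift 0 2), (rhea7a1800d6f053bd.shift 3 0)] (by decide +kernel))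
noncomputable def rh0a3321a14891e7e1 : CRef := CRef.mk (Pat.mk 0x40000000c000000060000000200000000 0x1000000018000000780000007e0000003f0000000e0000003e0000003c 8 7) 0 0 (step_sound _ 100 [(rh18965a982d73c794.shift 1 2), rh96558c9ab394122c] (by decide +kernel))
noncomputable def rh6421756fd6fcdcb6 : CRef := CRef.mk (Pat.mk 0x200000003800000010000000100000000000000000 0x100000003000000078000000de000000fc000000ef0000000c 8 8) 0 0 (step_sound _ 99 [(rh4dc133ee0ba1420a.shift 1 3), rhdc968b8aa0ebbe3b, rhf880f53fcb6638e8] (by decide +kernel))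
noncomputable def rh23dfbe441c32af81 : CRef := CRef.mk (Pat.mk 0x600000007000000010000000000000000 0xe0000000e0000003e0000003e000000070000000d0000000c0000000c 8 6) 0 0 (step_sound _ 132 [(rh361cc68994bd8a63.shift 0 3), rhfc638d4242ea75c7] (by decide +kernel))
noncomputable def rh31f44f150dd80214 : CRef := CRef.mk (Pat.mk 0x1c0000000600000002 0x800000038000000fe0000003f000000ff0000001f0000000e0000000a 8 8) 0 0 (step_sound _ 130 [rh7b5a64911e38dedb, (rhee230b994cc8b773.shift 1 0)] (by decide +kernel))
noncomputable def rhe7aa5fe83b948b4d : CRef := CRef.mk (Pat.mk 0x180000000c0000000400000000 0xf0000000f0000001e0000001f0000003700000010 8 6) 0 0 (step_sound _ 131 [rh52daaf30c52390b8, (rh5c5e593799055d58.shift 2 1)] (by decide +kernel))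
noncomputable def rha14cbef28f7fbc3d : CRef := CRef.mk (Pat.mk 0x100000001c000000080000000800000000 0xc0000002c0000007c0000003c0000001f0000007800000030 8 7) 0 0 (step_sound _ 66 [(rh4dc133ee0ba1420a.shift 0 2), (rh5d3a916cacd5d735.shift 2 0)] (by decide +kernel))
noncomputable def rh3e5039998f8d5fcd : CRef := CRef.mk (Pat.mk 0x80000000c000000040000000000000000 0x600000006000000160000003c0000000f0000003f0000003f0000001e 8 6) 0 0 (step_sound _ 34 [(rh71222050f2c63a3a.shift 2 0), rh985eeeee8e27711c] (by decide +kernel))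
noncomputable def rh9a41c4d8f125b78b : CRef := CRef.mk (Pat.mk 0x10000000180000000c000000000000000000000000 0x100000001c000000ff0000007f0000003800000030 8 8) 0 0 (step_sound _ 67 [rh19ca2a8cd3ec1ac3, (rh71222050f2c63a3a.shift 3 1)] (by decide +kernel))
noncomputable def rh55f60e4c7e7bade5 : CRef := CRef.mk (Pat.mk 0x20000000300000001800000008000000000000000000000000 0x2000000070000000df000000ff000000df0000000c0000000c 8 8) 0 0 (step_sound _ 100 [(rh71222050f2c63a3a.shift 4 2), rh92c0b38c08d071cb] (by decide +kernel))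
noncomputable def rh093f26955c594481 : CRef := CRef.mk (Pat.mk 0x3000000018000000080000000000000000 0x8000000780000001e0000000f0000003c0000001c 8 7) 0 0 (step_sound _ 98 [rh3acf965142feb7ba, (rh53b3c253cb0c65f4.shift 1 3)] (by decide +kernel))
noncomputable def rhf12e82e1e8d7b56e : CRef := CRef.mk (Pat.mk 0x10000000180000000c0000000800000000000000000000000000000000 0x60000000f40000003c000001fc0000007f00000076000000760000007200000050 8 9) 0 0 (step_sound _ 133 [(rh2e1dfc58128ae20a.shift 2 0), (rh492689c3df992981.shift 0 1), (rh57ef0faac93f99f3.shift 1 2), (rh63bf991ecdeaf67f.shift 2 2), (rh9bd51d61991a9a87.shift 1 2)] (by decide +kernel))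
noncomputable def rh8f7afe26d74474f8 : CRef := CRef.mk (Pat.mk 0x8000000180000000c0000000400000000 0x30000000f40000003f000000180000001e0000007c00000078 8 8) 0 0 (step_sound _ 132 [(rh10b8519c5e063322.shift 1 0), rh43f4b16880fa1bb8, (rhea7a1800d6f053bd.shift 3 0)] (by decide +kernel))
noncomputable def rh3c10b5e940e8285f : CRef := CRef.mk (Pat.mk 0x10000000180000000c000000080000000000000000 0x4000000f40000003f0000007c0000007e0000007600000024 8 8) 0 0 (step_sound _ 130 [(rh0ef477213ce910d0.shift 0 3), (rh5baaf42bfaca20dd.shift 1 0), (rh6f2a4e15e7da9619.shift 1 0), (rha11dfd15f08f96e3.shift 1 4)] (by decide +kernel))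
noncomputable def rh78c94d788837041e : CRef := CRef.mk (Pat.mk 0x200000003800000010000000000000000000000000 0x80000000800000028000000780000003e0000001f0000003c0000001c 8 7) 0 0 (step_sound _ 99 [(rh4dc133ee0ba1420a.shift 1 3), rhfe040f1ef1169e9c] (by decide +kernel))
noncomputable def rh0f36cf587c3d5a72 : CRef := CRef.mk (Pat.mk 0x400000004000000060000000600000000 0xa0000000f0000003c0000000e0000003e00000038 8 6) 0 0 (step_sound _ 35 [(rh55afc6a59410cf00.shift 2 0), rha72c8d850a604705] (by decide +kernel))
noncomputable def rh312fd5f39b307bc4 : CRef := CRef.mk (Pat.mk 0x200000003800000010000000100000000000000000 0x18000001f8000000780000007e0000001f0000000c0000000c 8 9) 0 0 (step_sound _ 99 [(rh4dc133ee0ba1420a.shift 1 3), rha50c650278077b73, (rhc054d09dfa39b7ac.shift 1 1)] (by decide +kernel))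
noncomputable def rhefe5216cf3d35273 : CRef := CRef.mk (Pat.mk 0x80000000e00000004000000040000000000000000 0x400000006000000160000007e0000001e0000003e0000003f0000001a00000018 8 7) 0 0 (step_sound _ 164 [(rh572132728df34c43.shift 1 4), (rhb623460bfd0a4085.shift 1 1), rhf3d22785108fe672] (by decide +kernel))
noncomputable def rh75d5fbff9db4ea9e : CRef := CRef.mk (Pat.mk 0x380000001c0000000000000000 0x3800000038000000780000003e0000001c0000001f0000000c 8 7) 0 0 (step_sound _ 132 [rh48ad74e1bdc00b08, (rh503dd4575245365b.shift 3 1), (rh892ab8a2b117741d.shift 2 1)] (by decide +kernel))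
noncomputable def rh9e2214a63ca152c7 : CRef := CRef.mk (Pat.mk 0x180000000c0000000400000004000000000000000000000000 0x1000000030000000300000003f000000fc0000007f00000037000000320000000200000002 8 8) 0 0 (step_sound _ 164 [rhcd819379b8e781d7, (rhedf43d9310a523b3.shift 1 4), (rhfcfe040e3c8f5f91.shift 1 2)] (by decide +kernel))
noncomputable def rh8d6fc335def79d7d : CRef := CRef.mk (Pat.mk 0x600000003000000010000000100000000000000000 0x100000001800000058000000780000007c000000f70000007e000000ef00000060 8 8) 0 0 (step_sound _ 131 [rh0b27aff3c29a8c94, (rh53b3c253cb0c65f4.shift 2 4)] (by decide +kernel))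
noncomputable def rh3f0978f70d48f52a : CRef := CRef.mk (Pat.mk 0x180000000e00000008000000000000000000000000 0x18000000fe0000007f0000003e0000001c00000014 8 8) 0 0 (step_sound _ 101 [(rh68691964b29f233d.shift 1 3), (rh929536e4b5549a40.shift 1 0), (rh9cd802500971df0a.shift 0 1)] (by decide +kernel))
noncomputable def rh7bd0b0f8e51c7229 : CRef := CRef.mk (Pat.mk 0x180000000e000000080000000000000000 0x14000000340000001f0000003e0000007f0000003200000010 8 7) 0 0 (step_sound _ 68 [rh56b9994ef146c5d3, (rh89ade209b3e28f13.shift 1 2), (rhae2edff970a530ce.shift 1 2), (rhe5e3498d8e2a9333.shift 0 2)] (by decide +kernel))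
noncomputable def rh3da9f8b0e4bad326 : CRef := CRef.mk (Pat.mk 0x300000001800000008000000000000000800000000 0x20000000300000001f000000ff000000f70000003c0000001c 8 8) 0 0 (step_sound _ 100 [rh016eec3ed0a5c51f, (rh16f2a238cbf3488f.shift 1 1), (rhbbc760a4fefb112d.shift 1 0), (rhc6b4e1276619034d.shift 3 0)] (by decide +kernel))
noncomputable def rh60c99365efead4c5 : CRef := CRef.mk (Pat.mk 0x3000000018000000080000000000000000 0x8000000780000001e0000000f0000003c0000001c 8 7) 0 0 (step_sound _ 98 [rh3ae431563445e18c, (rh53b3c253cb0c65f4.shift 1 3)] (by decide +kernel))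
noncomputable def rhaa3433a6e848c1d0 : CRef := CRef.mk (Pat.mk 0x300000001800000008000000000000000000000000 0x28000000780000001f000000ff000000f70000003000000030 8 8) 0 0 (step_sound _ 100 [(rh3470fcd67ff81181.shift 3 0), (rh74facbc6c4eb3ed2.shift 1 2), (rh7c597b7657ccaf3d.shift 0 2)] (by decide +kernel))
noncomputable def rh3427004e31a35b31 : CRef := CRef.mk (Pat.mk 0x40000001e000000000000000000000000 0x70000001e0000003f0000000f00000007 8 6) 0 0 (step_sound _ 129 [(rh3244c3cc8379b070.shift 0 3), rhe48bac672b5ffde1] (by decide +kernel))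
noncomputable def rhe158e5c0a9aba7f2 : CRef := CRef.mk (Pat.mk 0x180000001c000000080000000000000000 0x40000001f0000001c0000003c0000001f0000001f 8 6) 0 0 (step_sound _ 35 [(rh71222050f2c63a3a.shift 3 0), rheff7449ef4f23c1a] (by decide +kernel))
noncomputable def rhf7f7a6a2f276bb4b : CRef := CRef.mk (Pat.mk 0x400000004000000060000000600000000 0xa0000000f0000003c0000000e0000003e00000038 8 6) 0 0 (step_sound _ 129 [(rh50fbb5868c909700.shift 1 1), rhe52e21eba5e4acdb] (by decide +kernel))
noncomputable def rh89a2a1a8a4ecea16 : CRef := CRef.mk (Pat.mk 0x200000002000000030000000000000000000000000 0x28000003fe000001fe000003df0000005000000050 8 10) 0 0 (step_sound _ 68 [(rh30aa437fd9644dc5.shift 1 0), (rh4b32f5d4beafe9b0.shift 0 1), (rhf9af042da61fc652.shift 4 0)] (by decide +kernel))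
noncomputable def rh53d21df3572ee1a2 : CRef := CRef.mk (Pat.mk 0xe0000000400000000000000000 0x2000000027000001fe000001ff0000019800000010 8 9) 0 0 (step_sound _ 100 [(rh5f68fa1fd880e35d.shift 3 0), (rha03f6e28ea70fc7d.shift 3 2), (rhf3e60b56d53bd032.shift 0 2)] (by decide +kernel))
noncomputable def rh3dc1609a87989285 : CRef := CRef.mk (Pat.mk 0xe0000001c000000000000000000000000 0x4000000140000001e0000001f0000003b0000000f0000000e 8 6) 0 0 (step_sound _ 67 [(rh3cb04db3dd2b6a55.shift 2 0), rh99eb19db80a658cf, (rhb8a0a47969052ef0.shift 0 1)] (by decide +kernel))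
noncomputable def rhc491afaf6e0c9cc9 : CRef := CRef.mk (Pat.mk 0xe0000000c000000000000000000000000 0x80000001c0000003c0000000e0000003c000000380000001f0000001c 8 6) 0 0 (step_sound _ 100 [rhc231f991f0ca0d0a, (rhf48373e13d2bc128.shift 1 3)] (by decide +kernel))
noncomputable def rh154325ef3989c892 : CRef := CRef.mk (Pat.mk 0x1c000000380000000000000000 0x1c0000001c000000180000001c0000003f0000007600000014 8 7) 0 0 (step_sound _ 131 [(rh2aa2c198637b705a.shift 1 0), (rh3e595262c1b737ad.shift 3 1), (rh6d06daa84a7c7e44.shift 0 1)] (by decide +kernel))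
noncomputable def rh49fa72fbd1bb2a6a : CRef := CRef.mk (Pat.mk 0x3800000050000000000000000000000000 0x3000000038000000780000007e000000ef0000007c0000005c 8 8) 0 0 (step_sound _ 99 [rh13940216b29f4fd2, (rh4dc133ee0ba1420a.shift 1 3)] (by decide +kernel))
noncomputable def rhce0ecb1a4c8d82c5 : CRef := CRef.mk (Pat.mk 0xe000000040 0x3c7000001fe0000007f 8 10) 0 0 (step_sound _ 36 [(rh05b9ad096e06d11f.shift 2 0), (rh3b00e9e9432b8f40.shift 3 0), (rh774bf6224e57ed0b.shift 2 0), rh9fdbaef37aa8be4a, rhf3e60b56d53bd032] (by decide +kernel))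
noncomputable def rhb4cdb7cac39f339b : CRef := CRef.mk (Pat.mk 0x180000000c0000000000000000 0x4000000040000003f0000003f0000003300000002 8 6) 0 0 (step_sound _ 65 [(rh53b3c253cb0c65f4.shift 0 2), rhd3314e7359b304d7] (by decide +kernel))
noncomputable def rhac0f89f81ea53e8a : CRef := CRef.mk (Pat.mk 0x180000000c000000000000000000000000 0x40000000c0000000c0000003c0000000f0000003e0000001e00000006 8 6) 0 0 (step_sound _ 97 [(rh53b3c253cb0c65f4.shift 0 3), (rh93f3f90beb03fb07.shift 1 0)] (by decide +kernel))
noncomputable def rh411db4e3026169af : CRef := CRef.mk (Pat.mk 0x8000000180000000c00000004000000000000000000000000 0x40000000c0000001e000000fc000000ff0000007b0000003800000020 8 8) 0 0 (step_sound _ 132 [(rh20e928d584aa29ed.shift 1 0), (rh510861545d02c476.shift 0 1), (rh68c39d7d23f6cd1f.shift 1 2), (rha83d0a1d851c6a27.shift 1 3)] (by decide +kernel))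
noncomputable def rh4e348764771c40bd : CRef := CRef.mk (Pat.mk 0x600000003000000010000000100000000000000000 0x1000000070000000f0000000fe000000ff000000ef00000028 8 8) 0 0 (step_sound _ 99 [rh1428e568892da681, (rh69012675dfdb1a5b.shift 1 3), (rhb965494aaef72010.shift 2 0), (rhf861918dc08abf67.shift 1 1)] (by decide +kernel))
noncomputable def rh11f438617dba768c : CRef := CRef.mk (Pat.mk 0x18000000080000000800000000000000000000000000000000 0xc0000000c0000001c0000000f0000003c0000001c0000001c0000001c00000014 8 6) 0 0 (step_sound _ 99 [(rh972861c15763573f.shift 0 3), (rhc850b49d039efae1.shift 2 0), (rhc9ac229b3c77cd55.shift 2 2)] (by decide +kernel))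
noncomputable def rhde6471958206a304 : CRef := CRef.mk (Pat.mk 0x3000000030000000100000001000000000 0x8000000f80000003c000001df000000fe000001ef 8 9) 0 0 (step_sound _ 131 [(rh50fbb5868c909700.shift 3 1), rhb7a32037aeab14b8] (by decide +kernel))
noncomputable def rh5ee33121959b792f : CRef := CRef.mk (Pat.mk 0x8000000180000000c0000000000000000 0x3000000030000000f4000000ff000000f80000004c0000000800000008 8 8) 0 0 (step_sound _ 132 [(rh14b948cf9e1d405c.shift 1 0), (rh6fbb18fdba4bb17e.shift 0 2), (rh84d1c02a8954c6a8.shift 3 1)] (by decide +kernel))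
noncomputable def rha1d524f446bf3d24 : CRef := CRef.mk (Pat.mk 0x20000000300000002000000000000000000000000 0x50000000700000007000000030000000300000003000000070000000700000002 8 3) 0 0 (step_sound _ 65 [(rh07043daeb8425d18.shift 0 1), rhb8100e737f749136, (rhe286c75f2739cce2.shift 0 1)] (by decide +kernel))
noncomputable def rh585efad6777c01f2 : CRef := CRef.mk (Pat.mk 0x380000000000000000 0x28000000680000007e0000007e0000001700000014 8 7) 0 0 (step_sound _ 66 [(rh21460d2d48a35cb8.shift 1 0), (rh7572f94c01b289d8.shift 1 0), (rh9e97bba44c1b13e4.shift 0 1)] (by decide +kernel))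
noncomputable def rh849ffcb89a255a4b : CRef := CRef.mk (Pat.mk 0x38000000000000000000000000 0x8000000080000001e0000007e000000770000001400000010 8 7) 0 0 (step_sound _ 98 [(rh185f35b8bd8ec37f.shift 0 2), (rh21460d2d48a35cb8.shift 1 1), (rh9beee629c0314ec2.shift 1 0)] (by decide +kernel))
noncomputable def rh272ba9a3f666c7eb : CRef := CRef.mk (Pat.mk 0x60000000e0000000400000000 0xc0000000e0000000f0000003e0000000e0000003c00000018 8 6) 0 0 (step_sound _ 129 [(rh2145e1d24b96a57e.shift 1 1), rh6eb15d75c51befbe] (by decide +kernel))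
noncomputable def rhf9ef97ed53eff047 : CRef := CRef.mk (Pat.mk 0x300000007000000000000000000000000 0x60000000e0000001f00000007000000070000001e0000000e00000002 8 5) 0 0 (step_sound _ 65 [(rh25f4f09dd2fa00df.shift 0 1), rh3cb04db3dd2b6a55] (by decide +kernel))
noncomputable def rhed8c4918710f8617 : CRef := CRef.mk (Pat.mk 0xe0000001c0000000000000000 0xe0000000f0000007f0000007e0000001c0000001800000008 8 7) 0 0 (step_sound _ 130 [(rh3e595262c1b737ad.shift 2 1), (rh5de5217ca6d6b365.shift 0 1), rhca4bb1ba839f40ba] (by decide +kernel))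
noncomputable def rhe19df29417b93977 : CRef := CRef.mk (Pat.mk 0xa000000070000000000000000000000000000000000000000 0xa0000000a0000001a0000000f0000001e0000001c0000001c0000001c00000004 8 5) 0 0 (step_sound _ 163 [(rh33e738c4ed385b9f.shift 0 5), rh904e90658e562274] (by decide +kernel))
noncomputable def rh7c69b01d6b06fcc5 : CRef := CRef.mk (Pat.mk 0x60000000e000000000000000000000000 0xe0000001f0000003c0000000e0000000e0000003c0000001c0000000c 8 6) 0 0 (step_sound _ 162 [(rh571950d89739e871.shift 1 2), (rh86542c313e3c55a0.shift 0 2), (rha8a400b2e3d66a47.shift 1 0)] (by decide +kernel))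
noncomputable def rhe5ad459c9232f8c5 : CRef := CRef.mk (Pat.mk 0x140000001e0000000000000000000000000000000000000000 0x1400000014000000170000001e0000003c00000038000000380000003800000008 8 6) 0 0 (step_sound _ 193 [(rh3244c3cc8379b070.shift 0 5), (rh904e90658e562274.shift 1 0)] (by decide +kernel))
noncomputable def rh7bb6ebc239066d24 : CRef := CRef.mk (Pat.mk 0x58000000380000000000000000 0x18000000380000001f0000007f000000380000003000000010 8 7) 0 0 (step_sound _ 97 [(rhab22b5b56e7b3243.shift 1 2), rhf2a0b57fd011c6aa] (by decide +kernel))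
noncomputable def rh509bb976fc4e1e80 : CRef := CRef.mk (Pat.mk 0x3000000070000000200000000 0x60000000f0000001f00000007000000070000001e0000000c 8 5) 0 0 (step_sound _ 128 [(rh2145e1d24b96a57e.shift 0 1), rhe8a1a725a29f290f] (by decide +kernel))
noncomputable def rh25eabfb947fe471d : CRef := CRef.mk (Pat.mk 0xc0000001c00000000 0x38000000380000007f0000007f0000001c00000010 8 7) 0 0 (step_sound _ 65 [rh9c45b8e6e2c72494, (rhb739f4f82bb681b4.shift 0 1)] (by decide +kernel))
noncomputable def rhdc5853d8cf493901 : CRef := CRef.mk (Pat.mk 0x58000000380000000000000000 0x5c0000007f000000fc00000078000000780000002000000020 8 8) 0 0 (step_sound _ 101 [(rh6eb76252a9026692.shift 3 0), (rhb09f4c5eaef57401.shift 2 2), (rhb0f89923811db9e6.shift 0 1), (rhe5ad44e27e846693.shift 3 0)] (by decide +kernel))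
noncomputable def rh1c6b14e1eef5bd68 : CRef := CRef.mk (Pat.mk 0x140000001e00000000000000000000000000000000 0x28000000380000003a000000170000001e0000003c0000003e0000003c00000020 8 6) 0 0 (step_sound _ 161 [(rh3244c3cc8379b070.shift 0 4), (rha6d348d10cd69891.shift 1 0)] (by decide +kernel))
noncomputable def rhb0cac804ea819441 : CRef := CRef.mk (Pat.mk 0x280000001c000000000000000000000000 0x2000000024000000760000003f0000003c000000180000001800000018 8 7) 0 0 (step_sound _ 130 [(rh6f60eb08cd86e9ab.shift 1 0), (rhe2b63c00a3d7bb73.shift 0 3)] (by decide +kernel))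
noncomputable def rh1aa34fb511dba10b : CRef := CRef.mk (Pat.mk 0x8000000080000001c0000001000000000 0x400000036000000fe000000ff0000001c0000007800000028 8 8) 0 0 (step_sound _ 132 [(rh19bac4a17363bc82.shift 2 0), rh6bc015b9268c8423, (rhc782d825f08baf04.shift 0 1)] (by decide +kernel))
noncomputable def rhec4dedb547770e26 : CRef := CRef.mk (Pat.mk 0x4000000060000000e000000000000000000000000 0x100000003a0000003f0000003e0000000e000000040000000400000004 8 6) 0 0 (step_sound _ 66 [(rh15a1b6b82d9fd81f.shift 1 0), (rh29a06f9f0cecf1d2.shift 0 2), (rh3cb04db3dd2b6a55.shift 1 0)] (by decide +kernel))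
noncomputable def rhc8fd73be9142664f : CRef := CRef.mk (Pat.mk 0xc0000001c000000000000000000000000 0x80000001c0000003c0000000f0000001c000000780000001e0000001c 8 7) 0 0 (step_sound _ 129 [(rh2e69272ab30215dd.shift 1 0), (rhb739f4f82bb681b4.shift 0 3)] (by decide +kernel))
noncomputable def rh66adc933beb8c2a2 : CRef := CRef.mk (Pat.mk 0x3000000070000000200000000 0x60000001f0000001f0000001b0000000f0000000600000004 8 5) 0 0 (step_sound _ 128 [(rh2145e1d24b96a57e.shift 0 1), rhe2ef9a83f973e17c] (by decide +kernel))
noncomputable def rh110602f8af9497f9 : CRef := CRef.mk (Pat.mk 0x200000002000000060000000200000000000000000000000000000000 0x50000000700000002000000060000000600000007000000070000000700000004 8 3) 0 0 (step_sound _ 226 [(rh2f68792b6b779e96.shift 1 4), rh97b8b942cbdf718d] (by decide +kernel))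
noncomputable def rha71d8812cc1ad326 : CRef := CRef.mk (Pat.mk 0x4000000140000000e00000000 0xa0000003e0000003f000000340000001e00000034 8 6) 0 0 (step_sound _ 36 [(rh33e738c4ed385b9f.shift 1 1), rhce5e1d4b93f4ab89] (by decide +kernel))
noncomputable def rh2e89ac824286d8a3 : CRef := CRef.mk (Pat.mk 0x60000000e0000000400000000 0x140000003e0000003f0000003e0000000e0000000c00000008 8 6) 0 0 (step_sound _ 129 [(rh2145e1d24b96a57e.shift 1 1), rhfc124062c85240e3] (by decide +kernel))
noncomputable def rh5c7793d5897c7eb7 : CRef := CRef.mk (Pat.mk 0x200000002000000070000000400000000000000000 0x50000000f00000003e000000fe000000770000003000000030 8 8) 0 0 (step_sound _ 36 [rh6f1e6f2b5c1dbde3, (rh7c1707a2c9aabdb1.shift 2 1), (rhd5b92086fe7b06e3.shift 4 0)] (by decide +kernel))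
noncomputable def rh7f3a287f9f75f432 : CRef := CRef.mk (Pat.mk 0x2000000070000000400000004000000000 0x8000000080000005c0000007e000000fe000000770000006000000020 8 8) 0 0 (step_sound _ 99 [(rh147f02371155d142.shift 2 0), (rh5b2ce1e5aa4a4edd.shift 0 2), (rh6765e7960b108c8d.shift 2 2)] (by decide +kernel))
noncomputable def rh4a8ae7031dca9151 : CRef := CRef.mk (Pat.mk 0x70000000c000000000000000000000000 0x80000000e0000000f0000003c0000000f0000000c0000003e0000001f0000001a 8 6) 0 0 (step_sound _ 163 [rh0744605a79a74fe9, (rh284958ad31771189.shift 0 1), rh3aa3894b3bbc618b, rh63f530b3afa96b4e, rhed63137316e51d38] (by decide +kernel))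
noncomputable def rh9e4945ebb1029c37 : CRef := CRef.mk (Pat.mk 0x100000001e00000010000000000000000000000000 0x800000018000000180000001b0000001e00000018000000380000003800000028 8 6) 0 0 (step_sound _ 161 [(rh3244c3cc8379b070.shift 0 4), (rh892c135abec38fe8.shift 3 0)] (by decide +kernel))
noncomputable def rha1e2d5413beb0286 : CRef := CRef.mk (Pat.mk 0x18000000700000000000000000 0x4000000140000003c0000007f000000fe000000d8000000780000003000000030 8 8) 0 0 (step_sound _ 131 [(rh51bff67cb6c0096f.shift 0 1), (rhc2c7bae8f445c890.shift 3 0), (rhc38f566cab2818e5.shift 3 0), (rhd7cdd3b8a4749ac0.shift 3 0)] (by decide +kernel))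
noncomputable def rha7900e57fff82553 : CRef := CRef.mk (Pat.mk 0x80000003800000010000000000000000000000000 0x1000000010000001ff0000007e000001f80000007c000000180000000c0000000c0000000c 8 9) 0 0 (step_sound _ 195 [(rh2145e1d24b96a57e.shift 3 3), rh62bc1bcdf827715e] (by decide +kernel))
noncomputable def rh80b92d244c4907e1 : CRef := CRef.mk (Pat.mk 0x80000000c000000180000000000000000 0x140000001c0000001c0000001c0000003c0000003f0000000f000000180000000800000008 8 6) 0 0 (step_sound _ 97 [rh6d543dac0772eaa1, (rhb739f4f82bb681b4.shift 0 2)] (by decide +kernel))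
noncomputable def rh6f2a9c97a78bbd72 : CRef := CRef.mk (Pat.mk 0x80000000c000000180000000000000000000000000000000000000000 0x140000003c0000000f00000018000000180000001c0000001c0000001c00000010 8 6) 0 0 (step_sound _ 193 [(rh15a69e3799388238.shift 1 0), (rhb739f4f82bb681b4.shift 0 5)] (by decide +kernel))
noncomputable def rhbbdd8e53e5c39835 : CRef := CRef.mk (Pat.mk 0x6000000020000000a00000000 0x4000000040000007c0000003e0000007b0000000a0000000a 8 7) 0 0 (step_sound _ 130 [(rh71222050f2c63a3a.shift 1 0), rhfc21a22c55ae318c] (by decide +kernel))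
noncomputable def rh9d4bde602558bb05 : CRef := CRef.mk (Pat.mk 0x600000002000000060000000000000000000000000000000000000000 0x50000000700000002000000060000000600000007000000070000000700000004 8 3) 0 0 (step_sound _ 129 [(rh2f68792b6b779e96.shift 1 4), rh97b8b942cbdf718d] (by decide +kernel))
noncomputable def rh91ced0ab3692d57d : CRef := CRef.mk (Pat.mk 0x1000000020000000200000002000000000 0x20000000600000006e000000fe000000ff0000003e0000002000000020 8 8) 0 0 (step_sound _ 100 [(rh739abe12e3c641ac.shift 0 1), (rh7b1f1fb55310c477.shift 4 0)] (by decide +kernel))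
noncomputable def rhc85b8d13b2465876 : CRef := CRef.mk (Pat.mk 0x100000007000000020000000200000000 0x2000000060000001e0000001f0000000f0000001f0000001f0000001d 8 5) 0 0 (step_sound _ 130 [(rh69755ef358ebfd54.shift 1 1), rh7ab2395139442bba, (rhbfb5770941270498.shift 1 1)] (by decide +kernel))
noncomputable def rh5223208d64314000 : CRef := CRef.mk (Pat.mk 0x4000000040000001c00000008000000000000000000000000 0x600000007b0000007e000000fc0000003c0000007c000000300000003000000030 8 8) 0 0 (step_sound _ 101 [(rh6130e915067ef285.shift 0 2), (rhadab402d66e16943.shift 1 0), (rhc7ff26b93e62d7f0.shift 1 2), (rhd5041491555e8d86.shift 2 3)] (by decide +kernel))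
noncomputable def rh4f839f7e701ce77b : CRef := CRef.mk (Pat.mk 0x80000001c0000000600000000 0x3800000078000001fe0000007c0000001f0000003600000002 8 9) 0 0 (step_sound _ 100 [(rh187315b1ea1997ac.shift 0 1), (rh3f2964fc48ac5d33.shift 1 0), (rhab2ad169e49f9c5e.shift 0 2)] (by decide +kernel))
noncomputable def rh377c10af9125cde3 : CRef := CRef.mk (Pat.mk 0x200000007000000018000000000000000000000000 0x40000000f00000007f000000f80000003c0000003800000008 8 8) 0 0 (step_sound _ 68 [rh3c5fde7595549a6d, (rh71222050f2c63a3a.shift 4 1)] (by decide +kernel))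
noncomputable def rhf59475f55942f1fa : CRef := CRef.mk (Pat.mk 0xf000000000 0x1c7000000fe000000e7 8 9) 0 0 (step_sound _ 71 [(rh33e738c4ed385b9f.shift 4 1), rh8d48f12d8f37bf73] (by decide +kernel))
noncomputable def rha45781b3814b0e67 : CRef := CRef.mk (Pat.mk 0x20000000600000002000000000000000000000000 0x40000000700000007000000060000000600000006000000070000000700000005 8 3) 0 0 (step_sound _ 193 [(rh14f80659e6313cc6.shift 1 3), rha4f9b734d1cdaf61, (rhd4b4beefcd67f51e.shift 1 2)] (by decide +kernel))
noncomputable def rh17d45fb72a6d619b : CRef := CRef.mk (Pat.mk 0xe000000180000000000000000000000000000000000000000 0x140000001c0000001c0000001c0000003c0000003f0000000e000000180000001c0000001c0000001c0000001c00000010 8 6) 0 0 (step_sound _ 227 [(rh14e0829dc73b6804.shift 2 4), (rh4e61ec4e66d3e28e.shift 1 0), (rh6d543dac0772eaa1.shift 0 3), (rh70e33bfdf511e144.shift 3 2)] (by decide +kernel))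
noncomputable def rhc4be6686b5840db5 : CRef := CRef.mk (Pat.mk 0xc0000003800000000000000000000000000000000 0x140000003c000000fc0000003c000000380000001f0000001c0000001c00000010 8 8) 0 0 (step_sound _ 99 [(rh2af3dcb5c8a158ca.shift 0 2), (rh58506edde0552dba.shift 0 1), (rh7cf68dc7e62595c7.shift 2 0)] (by decide +kernel))
noncomputable def rhddc457c797739260 : CRef := CRef.mk (Pat.mk 0x1000000038000000000000000000000000 0xc0000000c0000000c0000001e0000007c0000000f0000000c0000000c 8 7) 0 0 (step_sound _ 130 [(rh508d31626b5d2be8.shift 1 3), (rh54c49bb299227e8d.shift 1 3), rhc66d3f7f6daad7ee, (rhea212a187e58a08e.shift 1 0)] (by decide +kernel))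
noncomputable def rh437dd67dee1d4c9b : CRef := CRef.mk (Pat.mk 0x20000000700000004000000000 0x18000000380000003f0000007c000000f80000005800000018 8 8) 0 0 (step_sound _ 133 [(rh2145e1d24b96a57e.shift 5 1), rhcad43349b1219da2] (by decide +kernel))
noncomputable def rha16193b540deb2bb : CRef := CRef.mk (Pat.mk 0x40000000e0000000800000000000000000 0xe7000001fe000000ff000001e0000000a0 8 9) 0 0 (step_sound _ 39 [rh24886ddfb6abbd29, (rh7b1f1fb55310c477.shift 6 0)] (by decide +kernel))
noncomputable def rh72da8922a137008a : CRef := CRef.mk (Pat.mk 0x200000006000000020000000200000000 0x40000000700000007000000070000000600000006000000020000000700000005 8 3) 0 0 (step_sound _ 34 [(rh55afc6a59410cf00.shift 1 0), rha4b3f62107f61bee] (by decide +kernel))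
noncomputable def rhffd087a338e71b4d : CRef := CRef.mk (Pat.mk 0x20000000e000000180000000000000000 0x1e0000003e0000000e0000000e0000001c0000001f0000001e 8 6) 0 0 (step_sound _ 130 [rh23b11706fd874c3e, (rhab0af5afad99f567.shift 1 1), (rhc2c7bae8f445c890.shift 2 0), (rhf95edae998cea50e.shift 1 0)] (by decide +kernel))
noncomputable def rh897526ff818b2231 : CRef := CRef.mk (Pat.mk 0x40000001e00000010000000000000000000000000 0xc0000000c0000001c0000001e0000001b0000007e0000001f00000008 8 7) 0 0 (step_sound _ 97 [rh030594766826155b, (rheb0810cc63b001d8.shift 0 3)] (by decide +kernel))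
noncomputable def rh88aea3e0cdef34ce : CRef := CRef.mk (Pat.mk 0xe000000380000000000000000000000000000000000000000 0x40000001c0000001c0000001c0000000e0000000e0000003a0000007f0000001e0000001c0000001c00000004 8 7) 0 0 (step_sound _ 131 [(rh32a427049fd021cb.shift 2 0), (rh9e479264aa357885.shift 1 2), (rhb1a251d9bff81766.shift 2 3), (rhb3a09f75f03f99bb.shift 0 1), (rhc36420913778ecd3.shift 1 3)] (by decide +kernel))
noncomputable def rhf396833d8156b764 : CRef := CRef.mk (Pat.mk 0x20000001e00000000000000000000000000000000 0x50000000700000007000000060000001e00000007000000060000000600000002 8 5) 0 0 (step_sound _ 97 [rh240d91d7c7d65ea5, (rheb0810cc63b001d8.shift 0 3)] (by decide +kernel))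
noncomputable def rhfa0b1666c7136297 : CRef := CRef.mk (Pat.mk 0x7000000000000000000000000000000000 0x2000000060000000e70000007e000000ef000000e0000000e0000000a0 8 8) 0 0 (step_sound _ 131 [(rh0a81a76d44da5068.shift 3 0), (rh4352c0334182e5e2.shift 0 3), (rh988dac8d009f9f77.shift 0 3)] (by decide +kernel))
noncomputable def rhe9a088e560a11581 : CRef := CRef.mk (Pat.mk 0xf000000000 0x6e000000fe0000007f 8 8) 0 0 (step_sound _ 35 [(rh592c7139d2c44767.shift 1 0), rh6fe6141069a793fd, (rhab0e37b52f061b7c.shift 1 0), (rheae1728ff4a56756.shift 2 0)] (by decide +kernel))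
noncomputable def rh6026caed551b3a1d : CRef := CRef.mk (Pat.mk 0xf000000000 0x7f000000fe0000006e 8 8) 0 0 (step_sound _ 35 [(rh592c7139d2c44767.shift 1 0), rh667f1caecc84c768, (rhd325fcc4a674fdfe.shift 1 0), (rhd5eb272e07a4e288.shift 2 1)] (by decide +kernel))
noncomputable def rh093d3fa3e44e72dc : CRef := CRef.mk (Pat.mk 0x80000000800000038000000000000000000000000 0x1000000050000001f40000007c0000002f00000038000000fe0000005c00000010 8 9) 0 0 (step_sound _ 164 [rh0f22f18c7ebf56de, rh450d5d668a9fa643, (rh6bc015b9268c8423.shift 0 1), (rhb2bdfbd0153d3403.shift 1 1)] (by decide +kernel))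
noncomputable def rh6196cdd17bafcd2f : CRef := CRef.mk (Pat.mk 0x4000000040000001c0000000800000000 0x180000001c0000001c0000001c0000007f00000076 8 7) 0 0 (step_sound _ 34 [(rh92ff7e6f4437a304.shift 2 0), rhf5094ad2a427d4d3] (by decide +kernel))
noncomputable def rhe4ad72d688cde446 : CRef := CRef.mk (Pat.mk 0x10000000100000001a0000000800000000 0x6800000068000003ee000001fe000001f80000009b0000001f00000014 8 10) 0 0 (step_sound _ 133 [rh242eb5ea6ef18cf9, (rha1c777c6816ac5d0.shift 1 1), (rhb730ba14aa32bdb3.shift 4 1), (rhb931946bcab59e62.shift 1 0), (rhfa2de08acc8a0a7a.shift 3 0)] (by decide +kernel))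
noncomputable def rh46b66620db6cdc3c : CRef := CRef.mk (Pat.mk 0x100000001a00000008000000000000000000000000 0x2a0000003a0000003b0000001f0000007e0000007e00000014 8 7) 0 0 (step_sound _ 67 [rh374c7a28405d898d, (rh71222050f2c63a3a.shift 3 1)] (by decide +kernel))
noncomputable def rh3ac195ac828bad98 : CRef := CRef.mk (Pat.mk 0x80000000d0000000000000000 0xc0000001c0000001f0000007c0000001f0000000c00000008 8 7) 0 0 (step_sound _ 100 [(rh24ae073cf30720c4.shift 0 2), rh8dc020cb26c17d92] (by decide +kernel))
noncomputable def rhfc2ef1fd667c61e0 : CRef := CRef.mk (Pat.mk 0x80000000d000000000 0x1c7000000fe000000e7 8 9) 0 0 (step_sound _ 37 [(rh33e738c4ed385b9f.shift 4 1), rh8d48f12d8f37bf73] (by decide +kernel))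
noncomputable def rh086894870c2c04ca : CRef := CRef.mk (Pat.mk 0x200000003c000000020000000000000000 0x40000000c0000002c0000007f0000003b0000001800000010 8 7) 0 0 (step_sound _ 97 [rh28b9e33f7d59db1b, (rheb0810cc63b001d8.shift 0 2)] (by decide +kernel))
noncomputable def rh841dc68f75491ef6 : CRef := CRef.mk (Pat.mk 0x100000001a000000000000000000000000 0x140000001c0000001e0000003f0000001f0000003e0000001e 8 6) 0 0 (step_sound _ 67 [rh725d0a595efdab2e, rh9c87301f6fce0534, (rhcf80391c5046a495.shift 3 0)] (by decide +kernel))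
noncomputable def rhc263d9bc96e401f7 : CRef := CRef.mk (Pat.mk 0x100000001a00000008000000000000000000000000 0x2e0000003e0000003b0000001f0000007e0000003c00000014 8 7) 0 0 (step_sound _ 67 [rh604990696d2bb565, (rh71222050f2c63a3a.shift 3 1)] (by decide +kernel))
noncomputable def rhc2c57e492591d511 : CRef := CRef.mk (Pat.mk 0x10000000100000001a00000008000000000000000000000000 0xc0000002e0000003e0000007e0000003b0000001f000000360000003400000034 8 7) 0 0 (step_sound _ 97 [rh1cee3ab409879a9e, (rh60a781551e50bc18.shift 0 3), (rhaa74b54f6d4da885.shift 1 0)] (by decide +kernel))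
noncomputable def rhbf52d6de069e7d8a : CRef := CRef.mk (Pat.mk 0x400000034000000000000000000000000 0x80000000c0000000c0000000e0000007f0000003c0000001800000018 8 7) 0 0 (step_sound _ 99 [(rh3244c3cc8379b070.shift 1 3), rhaa5169ff3b13091a] (by decide +kernel))
noncomputable def rh869a24b5b79d0476 : CRef := CRef.mk (Pat.mk 0x80000000a0000000a00000000000000000000000000000000 0x4000000140000001f0000003e0000000e0000000a0000000a000000070000000700000005 8 6) 0 0 (step_sound _ 226 [(rha5dc83e34999ae02.shift 0 3), rhb3e5d41b081ac37e, (rhbab796f6dafe9186.shift 2 4)] (by decide +kernel))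
noncomputable def rhb8045564a62a042e : CRef := CRef.mk (Pat.mk 0x40000000500000004000000000000000000000000 0x7a0000003e00000077000000040000000e0000000e0000000a 8 7) 0 0 (step_sound _ 66 [(rh6eff4158bb400f47.shift 1 0), (rha9871193becf60de.shift 0 2), (rhb1b6ad3b5ec8f4e1.shift 1 0)] (by decide +kernel))
noncomputable def rh9653eb48015e6b5c : CRef := CRef.mk (Pat.mk 0xa00000018000000000000000000000000 0x140000001c0000001f0000007f0000003b000000180000001c0000001c0000001c 8 7) 0 0 (step_sound _ 163 [(rh24870bcba793cecf.shift 2 0), (rh4e64b7e82c9211af.shift 2 2), (rh6e1ce98cbceb55cc.shift 0 2), (rh70e33bfdf511e144.shift 3 0), (rh880ac1947ee1c339.shift 1 2), rh8b991d03e6585095] (by decide +kernel))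
noncomputable def rh7dbcf459fda0f5f6 : CRef := CRef.mk (Pat.mk 0x3800000018000000000000000000000000 0x30000000360000003f00000078000000f80000007800000018 8 8) 0 0 (step_sound _ 130 [(rh27a0df5af4931407.shift 1 0), (rh8d364617c03d6975.shift 0 1), (rhad5d8fc3675c15dd.shift 0 3)] (by decide +kernel))
noncomputable def rhcd4c4e4a9ce50741 : CRef := CRef.mk (Pat.mk 0x100000001e000000000000000000000000 0xc0000003c000000fc0000001c0000001f000000180000001800000018 8 8) 0 0 (step_sound _ 131 [(rh53b3c253cb0c65f4.shift 0 3), (rh9949a5703d27135a.shift 2 0)] (by decide +kernel))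
noncomputable def rh4bc13bb06b3e43a2 : CRef := CRef.mk (Pat.mk 0x1a0000000a00000000000000000000000000000000 0x140000001c0000001c0000003b0000001e0000007c0000001e0000001c00000014 8 7) 0 0 (step_sound _ 130 [(rh5ec015d369888aae.shift 0 4), (rh8302d2fe2a79ca1f.shift 1 0)] (by decide +kernel))
noncomputable def rhb2ebaf265d49b318 : CRef := CRef.mk (Pat.mk 0x40000000680000002800000000000000000000000000000000 0x20000000300000003000000070000000680000006f000000fc000000fe0000001400000014 8 8) 0 0 (step_sound _ 101 [rh0b1d514b62566d1b, (rh71222050f2c63a3a.shift 5 2)] (by decide +kernel))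
noncomputable def rhf5dca689f59de5bb : CRef := CRef.mk (Pat.mk 0x3c000000000000000000000000 0x80000000c0000000c0000000e0000007f0000003c0000001800000018 8 7) 0 0 (step_sound _ 130 [(rh3244c3cc8379b070.shift 1 3), rhd1deaff4f9748d20] (by decide +kernel))
noncomputable def rh3f53283d24678c0e : CRef := CRef.mk (Pat.mk 0x180000000a000000020000000000000000 0x380000001f0000003e0000003c00000038 8 6) 0 0 (step_sound _ 98 [(rh53b3c253cb0c65f4.shift 0 3), (rhd51e82fef0636cd6.shift 1 0)] (by decide +kernel))
noncomputable def rh1ea2981be3161ee8 : CRef := CRef.mk (Pat.mk 0x1a0000000a000000000000000000000000 0xc0000003c0000003c000000380000003b0000001e0000003c0000003c00000030 8 6) 0 0 (step_sound _ 164 [rh39816bd275a8c33c, (rh4821dcf828b9d7bf.shift 3 1), (rhc8a13df176551c12.shift 0 1)] (by decide +kernel))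
noncomputable def rh644b22783f3730f8 : CRef := CRef.mk (Pat.mk 0x34000000140000001000000000 0x800000038000000380000003400000034000000360000003e0000002f 8 6) 0 0 (step_sound _ 132 [(rh5761823b97465660.shift 1 0), (rhc3a1f24d2f0571cd.shift 3 1), rhf0a5eead15e5dd3a] (by decide +kernel))
noncomputable def rh2a6d5c55b06ff51d : CRef := CRef.mk (Pat.mk 0x800000018000000020000000000000000 0x140000001c0000001e00000078000000380000001f0000003c00000018 8 7) 0 0 (step_sound _ 36 [rh2451dda11ef63e6a, (rh24a78261ca0e2445.shift 0 1), (rh95a80f84f48ac358.shift 3 0), (rhb11d41c808e1ab4d.shift 3 0), rhd24bb8905cb209e4] (by decide +kernel))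
noncomputable def rh5f1bc75ac6b16f54 : CRef := CRef.mk (Pat.mk 0x80000001a00000006000000000000000000000000 0x500000007000000070000000f0000001b00000007000000070000000300000001 8 5) 0 0 (step_sound _ 161 [(rh1e413df48b4b0465.shift 0 2), (rh53287dc308810e87.shift 0 1), rhf2eb0d5b8c248a4e, (rhfb9fb48a5e63ed80.shift 0 2)] (by decide +kernel))
noncomputable def rh64d3d6a9afd6d4cb : CRef := CRef.mk (Pat.mk 0x1a0000000a00000000000000000000000000000000 0x500000007000000070000000f0000001b0000000f00000003000000070000000700000004 8 5) 0 0 (step_sound _ 128 [(rh1c62b6193297d9e3.shift 0 4), rhabb2693bfbd5f554] (by decide +kernel))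
noncomputable def rhc0c50312a54a68ce : CRef := CRef.mk (Pat.mk 0x180000000800000000000000000000000000000000 0x100000001c0000001c0000001f0000003800000018000000180000001c0000001c00000014 8 6) 0 0 (step_sound _ 99 [(rh215e11e099257d75.shift 3 2), (rh89234a3e3cca1cf1.shift 0 2), (rhde236ed18f998f21.shift 2 0), (rhffb8e5993241bf15.shift 2 0)] (by decide +kernel))
noncomputable def rh25cad17d2b440db4 : CRef := CRef.mk (Pat.mk 0x10000000d00000001000000000000000000000000000000000 0x28000000280000007f0000007e000000df0000001000000010000000380000003800000028 8 8) 0 0 (step_sound _ 195 [(rh05b3d254a0cdb83e.shift 0 4), (rh0afe03c8f0b0ca47.shift 3 0), (rhf9a6286f1d5377a2.shift 3 3)] (by decide +kernel))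
noncomputable def rh00bfd5526b53e1b1 : CRef := CRef.mk (Pat.mk 0x20000001a0000000200000000000000000000000000000000 0x4000000070000000f0000001b0000000600000006000000070000000300000003 8 5) 0 0 (step_sound _ 97 [(rh330a005829cdd297.shift 0 3), (rhced6d86d2069808b.shift 1 2), rhfc1ee0386daa921e] (by decide +kernel))
noncomputable def rh4c23923ee79d32ac : CRef := CRef.mk (Pat.mk 0x20000001a0000000200000000 0x5000000170000001f0000001f0000001f0000003b0000000f00000005 8 6) 0 0 (step_sound _ 34 [rh07882016f9a26e35, rh14e0829dc73b6804, rha2083e399ed7e490, rha8de8032a0ea52d8] (by decide +kernel))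
noncomputable def rhfda5c04f11cd4f66 : CRef := CRef.mk (Pat.mk 0x80000001a000000020000000000000000 0x40000003c0000007c0000001e0000001c0000003b0000001e0000001800000010 8 7) 0 0 (step_sound _ 163 [(rh261acbd0633f8587.shift 0 1), (rh4e64b7e82c9211af.shift 2 2), (rh70e33bfdf511e144.shift 3 0), (rh8c513f794dbc10f1.shift 1 2), (rhae88f600f33b586c.shift 2 2)] (by decide +kernel))
noncomputable def rhd593e43e9a32512b : CRef := CRef.mk (Pat.mk 0xa0000001a00000002000000000000000000000000 0x80000000a0000001a0000003a0000001e0000003f0000001700000005 8 6) 0 0 (step_sound _ 66 [(rh2f7ef8ef5c94975a.shift 1 0), (rh5fccf04058b90444.shift 1 1), rhc924e85500f168a3] (by decide +kernel))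
noncomputable def rh0f6ae368daeb6b26 : CRef := CRef.mk (Pat.mk 0x80000001a00000002000000000000000000000000 0x50000001d0000000f0000001f0000003b0000001a0000000f0000000700000005 8 6) 0 0 (step_sound _ 161 [(rh052037c23179916b.shift 0 4), (rh36aa3fb9b3ed560b.shift 0 2), rhb8d81f30b3595329, rhbd5aca5d260ddaa9] (by decide +kernel))
noncomputable def rh8ebf7b6809b05354 : CRef := CRef.mk (Pat.mk 0x80000001a00000002000000000000000000000000 0x50000001f0000000f0000001f0000003b00000016000000070000000700000005 8 6) 0 0 (step_sound _ 161 [(rh052037c23179916b.shift 0 4), rhb8d81f30b3595329, rhf1d1ac747eec4e14] (by decide +kernel))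
noncomputable def rh1f8c7a5ce240694d : CRef := CRef.mk (Pat.mk 0x1a0000000a0000000000000000 0x80000003c0000003c0000003c0000003b0000001e0000003c0000007c 8 7) 0 0 (step_sound _ 132 [(rhabd1d2070263aa54.shift 0 1), (rhcc5228cac7d713d3.shift 1 0), (rhcf80391c5046a495.shift 3 0), (rhf9366b6a121593ef.shift 3 0)] (by decide +kernel))
noncomputable def rh228f71d241ebf3c4 : CRef := CRef.mk (Pat.mk 0x4000000040000000600000002000000000000000000000000 0x80000000c0000003e0000000f0000003e0000003c0000000c00000004 8 6) 0 0 (step_sound _ 163 [(rh3a020e182dfd1d54.shift 0 4), (rh62a4a85b7a6b35f2.shift 0 2), (rh77d0131ad45ca620.shift 1 0)] (by decide +kernel))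
noncomputable def rhbb42e32d2f99166f : CRef := CRef.mk (Pat.mk 0x3000000014000000100000000000000000 0x1000000010000000780000001e0000007c0000002f0000000c 8 7) 0 0 (step_sound _ 99 [(rh53b3c253cb0c65f4.shift 1 3), rhdd9bad683f4fb5ba] (by decide +kernel))
noncomputable def rh1983b292f70a8c6c : CRef := CRef.mk (Pat.mk 0x80000000c00000005000000040000000000000000 0x3000000030000000740000007f0000001e0000003f0000003f0000001a00000008 8 7) 0 0 (step_sound _ 132 [(rh6dbd322ad4f0e58c.shift 0 1), (rh95aae35400aa6322.shift 0 1), (rhbb229bad87965364.shift 0 3), rhdce6af0b73c865eb] (by decide +kernel))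
noncomputable def rh7615b022cfa3a38b : CRef := CRef.mk (Pat.mk 0x10000000180000000a000000080000000000000000 0x28000000f80000003c000000fb000000ff0000007700000030 8 8) 0 0 (step_sound _ 68 [(rh42a8369cffae62e9.shift 0 1), rh6c68534733f8e8ce, (rh918a873a530542eb.shift 0 1), (rhda5bb4e54d881837.shift 0 1), (rhdfa7369bd908f0c6.shift 2 1)] (by decide +kernel))
noncomputable def rh39f6ac8a4881b7dd : CRef := CRef.mk (Pat.mk 0x200000003000000018000000100000000000000000 0x1c0000003e00000078000000380000003f0000000f0000000c 8 7) 0 0 (step_sound _ 67 [(rh503dd4575245365b.shift 3 1), (rh691909fa83974041.shift 1 2), rhc35cf246905f9bc4] (by decide +kernel))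
noncomputable def rhfbda802fcbc00d3b : CRef := CRef.mk (Pat.mk 0x400000014000000060000000000000000 0x18000000180000003a0000007f0000003e000000060000000400000004 8 7) 0 0 (step_sound _ 99 [(rh18965a982d73c794.shift 1 2), rhfc6c22b2b5e617c2] (by decide +kernel))
noncomputable def rh53816620e7cb70b9 : CRef := CRef.mk (Pat.mk 0x400000014000000060000000000000000 0x180000007a0000001f0000003c0000000f0000000400000004 8 7) 0 0 (step_sound _ 99 [(rh18965a982d73c794.shift 1 2), rh542a57ea5db52376] (by decide +kernel))
noncomputable def rh4f67cf93b1438e34 : CRef := CRef.mk (Pat.mk 0x10000000500000001800000008000000000000000000000000 0x80000002c0000007e0000007e0000003c0000007f000000170000000600000006 8 7) 0 0 (step_sound _ 130 [(rh0129fa4880a22b39.shift 1 2), (rh495b4182db13668f.shift 1 2), (rhcb00ab67b46fb179.shift 2 4), rhf699be7fcc4543aa] (by decide +kernel))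
noncomputable def rh694c9440bfa0aa91 : CRef := CRef.mk (Pat.mk 0x1000000050000000180000000800000000 0x8000000ee000000ff000000df0000003c0000001f00000014 8 8) 0 0 (step_sound _ 131 [(rh281fe778948c1b23.shift 1 1), rh355cba2bf30de26b, rh642f41e878d368ad, rha680cf40afddaade] (by decide +kernel))
noncomputable def rhd43faf7d10360ec8 : CRef := CRef.mk (Pat.mk 0x200000003800000018000000000000000000000000 0x80000000800000028000000380000001f0000001f0000003c0000001c 8 6) 0 0 (step_sound _ 97 [(rh24ae073cf30720c4.shift 1 3), rh8626f1209640022f] (by decide +kernel))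
noncomputable def rh289e0af59d73a369 : CRef := CRef.mk (Pat.mk 0x80000000c00000006000000040000000000000000 0x20000000b0000001e0000003e0000003f000000fb00000013 8 8) 0 0 (step_sound _ 68 [(rh407dcf397709fcdc.shift 1 1), rh57ef0faac93f99f3, (rh7816dcb058263442.shift 0 1), rh7d8278aee352a05f, rh9bd51d61991a9a87, rhf25d5509482a8ca6] (by decide +kernel))
noncomputable def rhfc1c97ee1a398f8a : CRef := CRef.mk (Pat.mk 0x8000000080000000c00000014000000000000000000000000 0x60000000f0000003f0000001e00000037000000130000001300000003 8 6) 0 0 (step_sound _ 132 [(rh08edf065357d68e5.shift 3 1), rh239a90637d114a9b, (rhb08035540ac8c35f.shift 0 3)] (by decide +kernel))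
noncomputable def rh457c49f5d796cc5a : CRef := CRef.mk (Pat.mk 0x400000006000000020000000300000000000000000 0x80000000c0000000e0000001fe000000fe000001df00000040 8 9) 0 0 (step_sound _ 67 [(rh0903ec7bd769f09e.shift 0 1), (rh271de49530410bf6.shift 2 0), (rh414e147219b16972.shift 2 0), (rh7f0f728c796044ac.shift 0 1), (rha11dfd15f08f96e3.shift 2 2), (rhef296edb1195fb99.shift 1 1)] (by decide +kernel))
noncomputable def rhcc073bb620c59dbe : CRef := CRef.mk (Pat.mk 0x30000000100000001000000010 0x1cf000000fe000001fe0000001000000010 8 9) 0 0 (step_sound _ 99 [(rh4fd4bdae2b2dffdf.shift 0 2), (rh50fbb5868c909700.shift 3 0)] (by decide +kernel))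
noncomputable def rh97c1e083fcf24f51 : CRef := CRef.mk (Pat.mk 0x8000000080000000c000000000000000000000000 0x160000003f0000003f0000000e0000007c0000001400000004 8 7) 0 0 (step_sound _ 66 [(rh3136cff1129887b9.shift 0 1), (rh42548283029e2a39.shift 2 0), (rhf9af042da61fc652.shift 2 0)] (by decide +kernel))
noncomputable def rh7fa09285116a7587 : CRef := CRef.mk (Pat.mk 0x300000002000000030 0x600000007000000070000000ff000000fe000001f000000030 8 9) 0 0 (step_sound _ 100 [rh753a5e2040a4f9f4, (rhc89253ff58c66167.shift 4 0), (rhe072fffdd2fccf38.shift 4 0)] (by decide +kernel))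
noncomputable def rha8371be82895c910 : CRef := CRef.mk (Pat.mk 0x1c00000006000000000000000000000000 0x8000000180000001c0000000f0000003c0000001f0000000e 8 6) 0 0 (step_sound _ 99 [(rh53b3c253cb0c65f4.shift 0 3), rh5dc1c11e0a8ffc87] (by decide +kernel))
noncomputable def rh721169991aacc23c : CRef := CRef.mk (Pat.mk 0x20000000300000001800000010000000000000000000000000 0x7c0000003c0000001c000000ff0000006f0000000c00000004 8 8) 0 0 (step_sound _ 99 [(rh1e309b005ffa1b36.shift 3 1), rhb10285e0d2cc1e9a, (rhf0b261f9918088a1.shift 0 1)] (by decide +kernel))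
noncomputable def rh7191bccfe2b8c86e : CRef := CRef.mk (Pat.mk 0x20000000200000003000000018000000000000000000000000 0x40000000400000004c000000ec000000fe0000003f0000003c0000006c0000006c00000028 8 8) 0 0 (step_sound _ 131 [(rh0df0e7db506e769f.shift 0 3), (rhc34814026ee4b39a.shift 2 0), (rhf4021a473e0c5adb.shift 0 1)] (by decide +kernel))
noncomputable def rh8fde29cd8677ed61 : CRef := CRef.mk (Pat.mk 0x8000000700000001800000000 0x3e000000ff000000f80000007f0000003800000028 8 8) 0 0 (step_sound _ 132 [(rh80af398c490005df.shift 0 1), rh8b9725c831d49c4a, (rhbb5a9587afe30530.shift 3 0)] (by decide +kernel))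
noncomputable def rh7216b11a01123c74 : CRef := CRef.mk (Pat.mk 0x8000000700000001800000000 0x3c0000003f0000003c000000780000001800000008 8 7) 0 0 (step_sound _ 67 [(rh3244c3cc8379b070.shift 2 2), rhe4caea16c5401ce2] (by decide +kernel))
noncomputable def rh4d583257c409d699 : CRef := CRef.mk (Pat.mk 0x780000001800000000 0x3c0000003f0000003c000000780000001800000008 8 7) 0 0 (step_sound _ 99 [(rh3244c3cc8379b070.shift 2 2), rhe4caea16c5401ce2] (by decide +kernel))
noncomputable def rhb8a4cefd5479c0c2 : CRef := CRef.mk (Pat.mk 0x600000007000000000000000000000000 0xe0000000e0000003e0000003e000000070000000c0000000c0000000c 8 6) 0 0 (step_sound _ 132 [(rh361cc68994bd8a63.shift 0 3), (rh90ac6a253cab51f9.shift 1 0)] (by decide +kernel))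
noncomputable def rh4965d89d24be5f1f : CRef := CRef.mk (Pat.mk 0x380000001800000008000000000000000000000000 0x3800000038000000780000003e0000003c0000000f000000040000000400000004 8 7) 0 0 (step_sound _ 228 [rhb36fafa0c182feef, (rhee230b994cc8b773.shift 3 3)] (by decide +kernel))
noncomputable def rhb0dcd6cf0050e052 : CRef := CRef.mk (Pat.mk 0x80000001c0000000c00000000 0xe0000000f0000003b0000001f0000001c00000010 8 6) 0 0 (step_sound _ 131 [rh573b1f12e4770a49, (rh5c5e593799055d58.shift 2 1)] (by decide +kernel))
noncomputable def rh527171535892909f : CRef := CRef.mk (Pat.mk 0x1e0000000c00000000 0x3e0000003f0000003f0000001e0000001c00000010 8 6) 0 0 (step_sound _ 100 [(rh33e738c4ed385b9f.shift 1 2), rhbc5755074f3138bd] (by decide +kernel))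
noncomputable def rh922387a55ce9139b : CRef := CRef.mk (Pat.mk 0x80000000c0000000c00000000 0x1e0000003f0000003f0000000c0000001c00000010 8 6) 0 0 (step_sound _ 131 [(rh5c5e593799055d58.shift 2 1), rhf7854b827a1dc8a9] (by decide +kernel))
noncomputable def rhff5b049f9b68f99e : CRef := CRef.mk (Pat.mk 0x700000004000000060000000000000000 0x8000000180000000f0000001c0000000e0000003e0000003e 8 6) 0 0 (step_sound _ 131 [rh54b62b221dfeb931, (rhbbda3e5cf400e6dd.shift 0 2), (rhd4d36b4007f546b1.shift 0 1)] (by decide +kernel))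
noncomputable def rh4a523eb66313f1ef : CRef := CRef.mk (Pat.mk 0x1c0000001000000018000000000000000000000000 0x80000002a000001ef000001fc000000f60000003c0000000f0000000a00000008 8 9) 0 0 (step_sound _ 133 [(rh4a0b10776449c3e9.shift 2 4), (rh7cfe4fd9c964e024.shift 1 3), rhb3570575dd2aa9ce] (by decide +kernel))
noncomputable def rh691b09bf5b74e012 : CRef := CRef.mk (Pat.mk 0x1c00000006000000000000000000000000 0x1800000018000000180000001c0000000f0000003c0000001c00000018 8 6) 0 0 (step_sound _ 99 [(rh53b3c253cb0c65f4.shift 0 3), (rhe95391b8869714c7.shift 1 0)] (by decide +kernel))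
noncomputable def rh4e7039937c3053b6 : CRef := CRef.mk (Pat.mk 0x2000000030000000180000000000000000 0x1800000018000000780000003f0000003c000000f000000070 8 8) 0 0 (step_sound _ 36 [rh51f0a51b3153016e, (rh71222050f2c63a3a.shift 4 0)] (by decide +kernel))
noncomputable def rh77db92a34762124b : CRef := CRef.mk (Pat.mk 0x200000002000000030000000180000000000000000 0x1de000001fe000001fe0000003f0000003c0000006000000040 8 9) 0 0 (step_sound _ 99 [(rh0df0e7db506e769f.shift 0 2), (rh230033adda0ad44f.shift 1 2), (rha96af818de359c1a.shift 2 0)] (by decide +kernel))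
noncomputable def rh460c1f0e9458911d : CRef := CRef.mk (Pat.mk 0x38000000180000001000000000 0x20000000280000006e0000003f0000003c0000001f0000000f 8 7) 0 0 (step_sound _ 131 [(rh2145e1d24b96a57e.shift 3 1), rhdf8ef6da62e719d2] (by decide +kernel))
noncomputable def rha7e54b8816916ea1 : CRef := CRef.mk (Pat.mk 0x3800000018000000000000000000000000 0x200000007c000001e80000003f00000038000000100000001000000010 8 9) 0 0 (step_sound _ 68 [(rh3b7ba2e87cc0f0c8.shift 0 2), (rh3cb04db3dd2b6a55.shift 3 0), (rhb0c1e7919d9be92d.shift 3 0)] (by decide +kernel))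
noncomputable def rh04d8b7210bc3d265 : CRef := CRef.mk (Pat.mk 0x3800000018000000000000000000000000 0x200000007c000001e80000003f000000380000007e0000007e0000003c 8 9) 0 0 (step_sound _ 68 [(rh261f868a429ae0e3.shift 3 1), (rh3b7ba2e87cc0f0c8.shift 0 2), (rhf351c68a885f5397.shift 1 0)] (by decide +kernel))
noncomputable def rh681d6c45a1bb6457 : CRef := CRef.mk (Pat.mk 0x8000000080000001c000000100000000000000000 0x400000036000000fe000000ff0000001c000000780000002800000008 8 8) 0 0 (step_sound _ 164 [(rh41ea53a0d28a091a.shift 2 1), (rh59429fd67844c6ea.shift 2 1), (rh6bc015b9268c8423.shift 0 1), (rhc782d825f08baf04.shift 0 2), (rhf3de3d9cca1fbee0.shift 2 0)] (by decide +kernel))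
noncomputable def rh4922a8410443b826 : CRef := CRef.mk (Pat.mk 0x1800000018000000080000000800000000 0xa0000003f0000001f0000000f0000001c00000014 8 6) 0 0 (step_sound _ 34 [(rh932754581e0f4330.shift 2 0), rh9c791f3a801357ed] (by decide +kernel))
noncomputable def rhe98200c54791a8ef : CRef := CRef.mk (Pat.mk 0x80000000e000000040000000400000000000000000 0x50000000df000000fe0000007f000001f8000000bc00000038 8 9) 0 0 (step_sound _ 100 [(rh076be03eb7063320.shift 3 3), (rh57e0536d2963cda2.shift 2 0), rhcc2ccc862a1dafdf, (rhe391af62c2a85c90.shift 2 3)] (by decide +kernel))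
noncomputable def rhab5680824de22db3 : CRef := CRef.mk (Pat.mk 0x400000007000000020000000200000000000000000 0x2000000020000000a0000001f0000000700000007f000001fe0000005f00000008 8 9) 0 0 (step_sound _ 165 [(rh4f402ce420c5c06c.shift 4 1), rh74db35c435b67d8d, (rhea90e7358341a1a4.shift 4 1)] (by decide +kernel))
noncomputable def rhbfaf450895ab52da : CRef := CRef.mk (Pat.mk 0x80000000c00000004000000000000000000000000 0x1c0000003c0000007f0000000f0000003c000000180000001800000018 8 7) 0 0 (step_sound _ 195 [(rh5c5e593799055d58.shift 2 3), rhe7cce05abf76b853] (by decide +kernel))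
noncomputable def rh162a91d4a904755f : CRef := CRef.mk (Pat.mk 0x200000003800000010000000100000000000000000 0x80000000e0000003f0000003e0000001f0000001f0000000c0000000c 8 6) 0 0 (step_sound _ 163 [rhb6fc71fc9052310a, (rhc89253ff58c66167.shift 3 2), (rhe072fffdd2fccf38.shift 3 2)] (by decide +kernel))
noncomputable def rhf453086abd763e19 : CRef := CRef.mk (Pat.mk 0x100000001c000000080000000800000000 0x4000000670000007f0000001c0000007f0000003e00000014 8 7) 0 0 (step_sound _ 130 [(rh55b83bbf9e003f91.shift 1 0), rh895084916dd43d47, (rhe072fffdd2fccf38.shift 2 1)] (by decide +kernel))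
noncomputable def rh23cf017ae5350095 : CRef := CRef.mk (Pat.mk 0x1000000018000000080000000800000000 0x800000008000000ec000000ff0000001f0000001c0000000c00000004 8 8) 0 0 (step_sound _ 131 [(rh92645babed6d6d29.shift 0 1), (rhea90e7358341a1a4.shift 2 0)] (by decide +kernel))
noncomputable def rhb1830a4026bb2f46 : CRef := CRef.mk (Pat.mk 0x2000000020000000200000006000000000 0x2000000020000003bf000001fe0000039e 8 10) 0 0 (step_sound _ 36 [(rh932754581e0f4330.shift 4 0), rhf836332ff0b39b01] (by decide +kernel))
noncomputable def rh7c6769cfb28e3966 : CRef := CRef.mk (Pat.mk 0x8000000080000000e00000004000000000 0x30000001b8000000ff000000fe0000007f00000030 8 9) 0 0 (step_sound _ 68 [(rh2198e04b50d0665a.shift 0 1), (rh50af09bb45ac1367.shift 3 0), (rh592c7139d2c44767.shift 2 1)] (by decide +kernel))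
noncomputable def rh9dffd7f31b6012cd : CRef := CRef.mk (Pat.mk 0x8000000080000000c0000000400000000 0x6000000060000007f0000007f0000000f0000000400000004 8 7) 0 0 (step_sound _ 98 [(rh014e81f5c01389f8.shift 0 1), (rh71222050f2c63a3a.shift 2 0)] (by decide +kernel))
noncomputable def rh812217fc0ccaafa7 : CRef := CRef.mk (Pat.mk 0x4000000060000000200000000 0xe0000000f0000003c000000060000000e0000000e 8 6) 0 0 (step_sound _ 130 [(rh5c5e593799055d58.shift 1 1), rh7175a7d9b9219c3f] (by decide +kernel))
noncomputable def rh8c748e425f38599c : CRef := CRef.mk (Pat.mk 0x100000001a000000080000000000000000 0xa0000003b0000001e0000003f0000003400000014 8 6) 0 0 (step_sound _ 98 [(rh33e738c4ed385b9f.shift 1 3), rhedba6ed2305a2f72] (by decide +kernel))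
noncomputable def rhbac5b7fa9b9137f7 : CRef := CRef.mk (Pat.mk 0x100000001a0000000c0000000000000000 0x40000000c0000000c0000001f0000001b0000001c0000007c00000074 8 7) 0 0 (step_sound _ 131 [(rh2fd9b57482dec4c7.shift 2 1), rh6313ab4875a1cd7c, (rhdca8a5673be45de9.shift 0 1)] (by decide +kernel))
noncomputable def rha0a6a6f50beb526f : CRef := CRef.mk (Pat.mk 0x10000000180000000800000008 0xf4000000ff0000001f0000000800000008 8 8) 0 0 (step_sound _ 99 [(rh2f68792b6b779e96.shift 3 0), rh92645babed6d6d29] (by decide +kernel))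
noncomputable def rhda50c4b5d0c27ff9 : CRef := CRef.mk (Pat.mk 0x1000000018000000080000000800000000 0xc0000000c000000ec000000ff0000001f000000180000001800000010 8 8) 0 0 (step_sound _ 131 [(rh60f7890073fd1121.shift 1 0), (rh92645babed6d6d29.shift 0 1), (rhcbaa34959f85e2ef.shift 2 0)] (by decide +kernel))
noncomputable def rh857bde69c19d8cbc : CRef := CRef.mk (Pat.mk 0x100000001000000018000000080000000000000000 0x2c0000007f0000007e00000018000000380000003000000030 8 7) 0 0 (step_sound _ 68 [(rh3724468151636231.shift 3 0), (rh5ee4dc8825dcefa0.shift 1 1), (rha06847d8752fa06c.shift 0 1), (rhc16750d25dcb9f19.shift 4 0), (rhf7854b827a1dc8a9.shift 1 1)] (by decide +kernel))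
noncomputable def rhf2db81199509a0e6 : CRef := CRef.mk (Pat.mk 0x100000001800000018000000000000000800000000 0x2000000330000001f0000007f000000170000003c0000001c 8 7) 0 0 (step_sound _ 98 [(rh239b462325e93a81.shift 0 1), rh292cc79c26be644f, (rh584fe6ab0ae51ce0.shift 0 3), rh8b27b128bb14f1fc, rh9ecea4e1d309003f] (by decide +kernel))
noncomputable def rh79faea80ad1a7eec : CRef := CRef.mk (Pat.mk 0x1c000000180000000000000000 0x400000006000000070000001f0000001f0000000f0000000e 8 5) 0 0 (step_sound _ 97 [(rhb739f4f82bb681b4.shift 0 2), rhee820c34cf2b1a7b] (by decide +kernel))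
noncomputable def rh3b5bcacd25a71c18 : CRef := CRef.mk (Pat.mk 0x1c00000018000000000000000000000000 0x40000001c0000007f0000007f0000000e0000000e 8 7) 0 0 (step_sound _ 101 [(rhf48373e13d2bc128.shift 2 3), rhfbba608064df5186] (by decide +kernel))
noncomputable def rhe7de20f8dc61f1cc : CRef := CRef.mk (Pat.mk 0x1e000000180000000000000000 0x180000001c000000370000001e0000001f0000000300000003 8 6) 0 0 (step_sound _ 65 [rhda27cffcc9e0192c, (rheb0810cc63b001d8.shift 0 2)] (by decide +kernel))
noncomputable def rh3f4d08e8f69cf215 : CRef := CRef.mk (Pat.mk 0x700000006000000000000000000000000 0xc0000000c0000000c000000070000003e0000003e0000000e0000000e 8 6) 0 0 (step_sound _ 100 [(rh2fe78cc5ca4405d8.shift 0 3), (rh91efb9c35267ef4b.shift 1 0)] (by decide +kernel))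
noncomputable def rh72fc81ee3037778f : CRef := CRef.mk (Pat.mk 0x800000018000000080000000000000000 0x800000008000000080000001f000000ff000000f700000004 8 8) 0 0 (step_sound _ 68 [(rh3e595262c1b737ad.shift 3 1), rhc6e66f351062cf01] (by decide +kernel))
noncomputable def rh200955e2e6748358 : CRef := CRef.mk (Pat.mk 0x40000000c0000000c000000000000000000000000 0x2000000060000000f0000007c0000007f0000000e00000006 8 7) 0 0 (step_sound _ 67 [rh70ac9154cffc90f6, (rh7b1f1fb55310c477.shift 2 1)] (by decide +kernel))
noncomputable def rhd5814f3bdb22a12e : CRef := CRef.mk (Pat.mk 0x800000008000000180000001800000000 0x140000001c0000000c0000001f0000003f00000007 8 6) 0 0 (step_sound _ 132 [(rh2f68792b6b779e96.shift 3 1), rh73be9e80dc7ed493] (by decide +kernel))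
noncomputable def rh18833fd667b702f5 : CRef := CRef.mk (Pat.mk 0x800000018000000080000001000000000 0x60000000f0000001c0000000f0000003c0000001c 8 6) 0 0 (step_sound _ 35 [(rh55afc6a59410cf00.shift 3 0), rhb7cd978d7d8c77be] (by decide +kernel))
noncomputable def rh041cc05cbaf54e71 : CRef := CRef.mk (Pat.mk 0x800000018000000080000001000000000 0x40000000c0000001f0000007f0000007700000016 8 7) 0 0 (step_sound _ 68 [rh6d768593dad159bb, (rh7b1f1fb55310c477.shift 3 0)] (by decide +kernel))
noncomputable def rh508af3a280c39e9d : CRef := CRef.mk (Pat.mk 0x8000000180000000e00000000 0x30000000380000003f0000001f0000003e00000030 8 6) 0 0 (step_sound _ 36 [(rh960e5dd9f225860c.shift 0 1), (rhba04d77b039f69d9.shift 1 0)] (by decide +kernel))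
noncomputable def rhdb3434cc460aaf75 : CRef := CRef.mk (Pat.mk 0x60000000380000000800000000000000000000000000000000 0x140000003c0000007e000000380000000f0000007c0000001e0000001c00000014 8 7) 0 0 (step_sound _ 99 [(rh08641332ce838532.shift 1 2), (rh171c43904f332f7b.shift 0 2), (rhbdede0250b3f68c4.shift 1 0), (rhffb8e5993241bf15.shift 2 0)] (by decide +kernel))
noncomputable def rhe0b431dc4b59830d : CRef := CRef.mk (Pat.mk 0x20000000380000000800000000000000000000000000000000 0x140000001c0000003e000000380000001f0000003c0000001c0000001c00000004 8 6) 0 0 (step_sound _ 99 [(rh171c43904f332f7b.shift 0 2), (rhb730ba14aa32bdb3.shift 3 2), (rhf9a7b81f921d0ea9.shift 2 0)] (by decide +kernel))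
noncomputable def rhe181d91c0260100d : CRef := CRef.mk (Pat.mk 0x1a0000000e0000000000000000000000000000000000000000 0x500000007000000070000001a000000fe000000e700000007000000070000000700000004 8 8) 0 0 (step_sound _ 129 [(rh19b19bf0872cfe73.shift 0 1), (rh3617d28ab03673e9.shift 0 4), (rh3a5d2511163a2188.shift 0 3), rh4ee753fea7073185] (by decide +kernel))
noncomputable def rhb936bbc1411c8f69 : CRef := CRef.mk (Pat.mk 0x6800000038000000000000000000000000 0x7000000074000000fc0000007f0000006c000000380000001c0000001c00000014 8 8) 0 0 (step_sound _ 163 [(rh825359a88a517966.shift 2 2), (rha768b229dc254047.shift 3 0), rhea2a3bb38849eba2] (by decide +kernel))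
noncomputable def rhf102eaf5a922b5a9 : CRef := CRef.mk (Pat.mk 0x8000000180000000c 0x140000001c0000001c000000fc0000007e000000ff0000001c0000000c 8 8) 0 0 (step_sound _ 99 [(rh61257be8a2a27e51.shift 2 0), rh7eca482df1505c9e, (rh9a369cb82ea472da.shift 2 0)] (by decide +kernel))
noncomputable def rh60cfc3a44986ba15 : CRef := CRef.mk (Pat.mk 0x10000000300000001c000000000000000000000000 0xa0000002e0000006f0000007e0000003e0000001c0000000f0000000e0000000a 8 7) 0 0 (step_sound _ 162 [(rh4d77df3f69a32479.shift 1 0), (rh8affd0201b09ed09.shift 1 0), (rh9f76e925b9b6607f.shift 1 0), rhb7ab1be108d9773c, (rhc9333082ecc54f5d.shift 1 2), (rhf2190df6e018e61d.shift 1 2), (rhfa4e74cf276cb686.shift 1 1)] (by decide +kernel))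
noncomputable def rh2d13247fbe483506 : CRef := CRef.mk (Pat.mk 0x180000000c000000000000000000000000 0x3800000038000000780000001f000000fc000000f60000003e0000003c 8 8) 0 0 (step_sound _ 100 [(rh24a1517134504796.shift 1 0), (rh4ff9e934a1040195.shift 1 1), (rh6f9e648b33593206.shift 2 1), (rh83e0b68a1db901b1.shift 1 0), rha18a40d1ae2a53d2, (rhc0e7908010bed6b8.shift 1 0)] (by decide +kernel))
noncomputable def rh2d3c09d7df3cca98 : CRef := CRef.mk (Pat.mk 0x1000000018000000080000000800000000 0x60000000e0000003f0000001f0000003f0000003e00000014 8 6) 0 0 (step_sound _ 97 [(rh421638710a67a938.shift 0 1), rh697fdbd0ba0c1e86, (rhc4d4ffb49875abab.shift 0 2)] (by decide +kernel))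
noncomputable def rh07cd474e96003d82 : CRef := CRef.mk (Pat.mk 0xc00000018000000000000000000000000 0x2000000120000003b0000001f0000001f0000003c0000001800000010 8 6) 0 0 (step_sound _ 129 [rh4abe3aa932c61204, (rhb739f4f82bb681b4.shift 0 3)] (by decide +kernel))
noncomputable def rh5a2ad3526921ce6a : CRef := CRef.mk (Pat.mk 0x200000003000000060000000000000000000000000000000000000000 0xc0000001e00000007000000070000003e0000000f000000070000000700000005 8 6) 0 0 (step_sound _ 129 [rh74f705376d8bfa76, (rh839efa595751c4cf.shift 0 2), (rh89b7579bed27d4d5.shift 0 3), (rh9174eae91ea9faf8.shift 0 1), (rhbaff7ec0fcc038ba.shift 0 1)] (by decide +kernel))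
noncomputable def rh9daf3b6bc2d9e3f6 : CRef := CRef.mk (Pat.mk 0x1e0000000200000000000000000000000000000000 0x50000000700000007000000070000001e0000000600000006000000060000000600000004 8 5) 0 0 (step_sound _ 193 [(rh3244c3cc8379b070.shift 0 5), rhf7ebdfc78c74b6dc] (by decide +kernel))
noncomputable def rh103748c1b446070b : CRef := CRef.mk (Pat.mk 0x1e0000001800000000 0x1f0000001f0000003b0000001e0000001f00000004 8 6) 0 0 (step_sound _ 33 [(rheb0810cc63b001d8.shift 0 1), rhff65ed08a948668b] (by decide +kernel))
noncomputable def rhb7cffa4b410dd66d : CRef := CRef.mk (Pat.mk 0x1e0000001800000000000000000000000000000000 0x2000000030000001e0000001f0000000f000000070000000700000001 8 5) 0 0 (step_sound _ 129 [rh61aeb8abb6cefdb5, (rheb0810cc63b001d8.shift 0 4)] (by decide +kernel))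
noncomputable def rh815177df59876d24 : CRef := CRef.mk (Pat.mk 0xe00000018000000100000000000000000 0x1000000010000000330000001e0000001c0000007e0000003e00000038 8 7) 0 0 (step_sound _ 36 [(rh7b1f1fb55310c477.shift 3 0), rh9c6d48fe2e5d3985] (by decide +kernel))
noncomputable def rh3d7563c49d89fa00 : CRef := CRef.mk (Pat.mk 0xe00000018000000100000000000000000 0x1000000010000000330000001e0000001c0000007e0000003e00000038 8 7) 0 0 (step_sound _ 36 [(rh7b1f1fb55310c477.shift 3 0), rhd18c8295c78ca2ff] (by decide +kernel))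
noncomputable def rhcdc83bb2f7a78cad : CRef := CRef.mk (Pat.mk 0x38000000200000000000000000 0xc0000000f0000003e0000003f0000000e0000000e 8 6) 0 0 (step_sound _ 98 [(rh02c018c43e78007f.shift 1 0), (rh0de499e0455c9c14.shift 0 2), (rh592c7139d2c44767.shift 0 2), (rhd1d05263fabc0227.shift 0 2)] (by decide +kernel))
noncomputable def rh73f91cdd0297e709 : CRef := CRef.mk (Pat.mk 0xe00000008000000000000000000000000 0x2000000120000003b0000001e0000007f0000003c0000001800000010 8 7) 0 0 (step_sound _ 100 [(rh4a0b10776449c3e9.shift 1 3), (rh89ade209b3e28f13.shift 1 3), (rhae2edff970a530ce.shift 1 3), rhbf275735abe91ee9] (by decide +kernel))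
noncomputable def rh33adaade49cb0671 : CRef := CRef.mk (Pat.mk 0x380000006000000040000000000000000000000000 0x4000000cc000000780000007f000000ce000000fc000000dc00000004 8 8) 0 0 (step_sound _ 70 [rh09ca1bd774c90edb, (rh7b1f1fb55310c477.shift 5 1)] (by decide +kernel))
noncomputable def rh95f1e0b11dd46dd8 : CRef := CRef.mk (Pat.mk 0x1c00000030000000200000000000000000 0x30000000f00000003c0000003f000000760000001e0000001c 8 8) 0 0 (step_sound _ 164 [(rh2145e1d24b96a57e.shift 4 2), rhdc800da18f8c126b] (by decide +kernel))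
noncomputable def rhd880f976f4ae0568 : CRef := CRef.mk (Pat.mk 0x60000001c000000000000000000000000 0x400000004000000060000001f0000003f0000000f0000000f 8 6) 0 0 (step_sound _ 97 [(rh031a926e4a883687.shift 0 1), rh485b0ece04b9ee12, rhcd32eca242b09f3d] (by decide +kernel))
noncomputable def rh2f31e4292e549bf6 : CRef := CRef.mk (Pat.mk 0x1c00000030000000200000000000000000 0x40000001c0000003f000001ff0000007e0000003c 8 9) 0 0 (step_sound _ 37 [rh551f98393c1c6b4f, (rh7b1f1fb55310c477.shift 4 0)] (by decide +kernel))
noncomputable def rh3a61836f3da8470f : CRef := CRef.mk (Pat.mk 0x1c00000030000000200000000000000000 0xa0000000e0000001e000000160000003c0000003f0000007e0000000e00000006 8 7) 0 0 (step_sound _ 164 [(rh2145e1d24b96a57e.shift 4 2), rhd95821ecf6487de5] (by decide +kernel))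
noncomputable def rh27655c92b2f641a9 : CRef := CRef.mk (Pat.mk 0x80000000e00000008000000080000000000000000 0x80000000e0000007f0000007f0000001700000002 8 7) 0 0 (step_sound _ 66 [rh8f2cc22da7d0a93a, (rh932754581e0f4330.shift 2 1)] (by decide +kernel))
noncomputable def rhcaec38682c2c2c11 : CRef := CRef.mk (Pat.mk 0xe000000080000000800000000000000000000000000000000 0x10000000180000001a0000000e0000007e0000001f0000000e0000001c0000001c00000010 8 7) 0 0 (step_sound _ 164 [rh43fc124c0717bc1e, (rh5514f4a70941fca2.shift 0 1), (rh89ade209b3e28f13.shift 1 5)] (by decide +kernel))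
noncomputable def rhc348b6ae077394e8 : CRef := CRef.mk (Pat.mk 0xc00000018000000080000000000000000 0x1000000018000000180000000c0000001f0000003f0000001700000002 8 6) 0 0 (step_sound _ 163 [(rh20966da26a1c2ae8.shift 2 1), rh5f35a4995f96f8f2, (rhd4b4beefcd67f51e.shift 3 1)] (by decide +kernel))
noncomputable def rh144804072ab251fc : CRef := CRef.mk (Pat.mk 0x1c00000010000000100000001000000000 0x1c0000007f0000007f0000001600000016 8 7) 0 0 (step_sound _ 99 [(rh7b1f1fb55310c477.shift 3 0), rhc51c8a6250101af3] (by decide +kernel))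
end Crest.Agent.S0047.Helper85.Cert
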