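import Crest.Agent.Lib.S0047.Helper85CertPL7F0
import Crest.Agent.Lib.S0047.Helper85CertPL7F1
import Crest.Agent.Lib.S0047.Helper85CertPL7F2
import Crest.Agent.Lib.S0047.Helper85CertPL7F3
import Crest.Agent.Lib.S0047.Helper85CertPL7F4
import Crest.Agent.Lib.S0047.Helper85CertPL7F5
import Crest.Agent.Lib.S0047.Helper85CertPL7F6
import Crest.Agent.Lib.S0047.Helper85CertPL7F7
import Crest.Agent.Lib.S0047.Helper85CertPL7F8
import Crest.Agent.Lib.S0047.Helper85CertPL7F9
import Crest.Agent.Lib.S0047.Helper85CertPL7F10
import Crest.Agent.Lib.S0047.Helper85CertPL7F11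
set_option autoImplicit false
set_option linter.all false
set_option Elab.async false
namespace Crest.Agent.S0047.Helper85.Cert
open Crest.Agent.S0047.Helper85

noncomputable def rhedd082af6caf43cd : CRef := CRef.mk (Pat.mk 0x1400000010000000100000001000000000 0x1400000014000000fe000000ff0000002f 8 8) 0 0 (step_sound _ 35 [rh1ec38e9adab81c1e, (rh932754581e0f4330.shift 3 0)] (by decide +kernel))
noncomputable def rh899f99a8326717d2 : CRef := CRef.mk (Pat.mk 0x14000000100000001000000000000000000000000000000000 0x1400000014000000360000007f0000007e000000380000003800000038 8 7) 0 0 (step_sound _ 100 [(rh4d14d1147a355f35.shift 0 2), (rh6eff4158bb400f47.shift 3 1), (rh722849d2489740a2.shift 1 2), (rhce9a49803a550f13.shift 3 2), (rhe6c56a62fe5a862f.shift 3 0)] (by decide +kernel))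
noncomputable def rhdb896ff65da65f48 : CRef := CRef.mk (Pat.mk 0x8000000000000000e0000001800000000000000000000000000000000 0x1a0000001a000000330000001e0000001f00000007000000070000000700000004 8 6) 0 0 (step_sound _ 164 [(rh4d8d614e03a7f6ad.shift 1 4), rh60867a60f1c6866c] (by decide +kernel))
noncomputable def rhe2b9d89d3852aaea : CRef := CRef.mk (Pat.mk 0x1e00000018000000000000000000000000 0x50000000700000007000000330000001e0000001f000000070000000700000005 8 6) 0 0 (step_sound _ 97 [rh63315b12972a4ede, (rheb0810cc63b001d8.shift 0 3)] (by decide +kernel))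
noncomputable def rhaf19957fb0c2b200 : CRef := CRef.mk (Pat.mk 0x1800000070000000000000000000000000 0x380000007f000000fe0000003c0000001c 8 8) 0 0 (step_sound _ 99 [(rh485b0ece04b9ee12.shift 2 0), (rhcef93a29c93c96c9.shift 0 2), (rhe74f96057964b96f.shift 0 2)] (by decide +kernel))
noncomputable def rh3bad5e31dd21a024 : CRef := CRef.mk (Pat.mk 0x700000004000000040000000000000000 0x80000001c0000000f0000001c0000003c0000000f0000000e 8 6) 0 0 (step_sound _ 131 [rh6a8f42dbadcd6cb6, (rhbbda3e5cf400e6dd.shift 0 2), (rhd4d36b4007f546b1.shift 0 1)] (by decide +kernel))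
noncomputable def rh1e695808c0de29cd : CRef := CRef.mk (Pat.mk 0x700000004000000040000000000000000 0x80000001c0000000f0000001c0000000f0000003c0000001c 8 6) 0 0 (step_sound _ 131 [rh7ae8390b6705e42d, (rhbbda3e5cf400e6dd.shift 0 2), (rhd4d36b4007f546b1.shift 0 1)] (by decide +kernel))
noncomputable def rhb9512055687e9554 : CRef := CRef.mk (Pat.mk 0x1e00000008000000080000000000000000 0xb0000001e0000000b0000003f0000001f00000015 8 6) 0 0 (step_sound _ 97 [rhd3b9f832ff5040dc, (rheb0810cc63b001d8.shift 0 3)] (by decide +kernel))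
noncomputable def rh4718a3e42c8a0f6a : CRef := CRef.mk (Pat.mk 0x3c00000010000000100000000000000000 0x60000003c000000760000003f0000003f0000003f 8 7) 0 0 (step_sound _ 101 [rh9069deffbac58f73, (rhe25b0a99195a5d59.shift 2 3)] (by decide +kernel))
noncomputable def rh04b37f70534abf51 : CRef := CRef.mk (Pat.mk 0xe0000000800000008000000000000000000000000 0x180000007a0000001e0000007a0000001f000000160000000400000004 8 7) 0 0 (step_sound _ 132 [(rh319bf2738dd726f9.shift 1 2), (rh4a0b10776449c3e9.shift 1 4), rh9ee3cfdbff0fa69b] (by decide +kernel))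
noncomputable def rhb6ca77cf24455fa0 : CRef := CRef.mk (Pat.mk 0x14000000100000001000000000000000000000000000000000 0x1400000014000000360000007f0000007e000000380000003800000038 8 7) 0 0 (step_sound _ 100 [(rh4d14d1147a355f35.shift 0 2), (rh6eff4158bb400f47.shift 3 1), (rh722849d2489740a2.shift 1 2), (rhe6c56a62fe5a862f.shift 3 0)] (by decide +kernel))
noncomputable def rhf65010eab0c06ea5 : CRef := CRef.mk (Pat.mk 0x1000000010000000100000001800000000 0x200000003000000010000000fe0000007f00000027 8 8) 0 0 (step_sound _ 37 [(rh55afc6a59410cf00.shift 4 0), rh658e25c4698ed3f1] (by decide +kernel))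
noncomputable def rh3afabca9f0cb1007 : CRef := CRef.mk (Pat.mk 0x8000000080000000c0000000800000000 0x140000001c0000001c00000018000000180000001c0000000f0000001800000010 8 5) 0 0 (step_sound _ 163 [(rh40258e4c7a147e8b.shift 2 1), (rh44f453b84f013105.shift 3 1), (rh64a783a8a2534a41.shift 2 1), rh87650db20de562d5] (by decide +kernel))
noncomputable def rha2523e235f4a53eb : CRef := CRef.mk (Pat.mk 0x300000002000000060000000000000000000000000000000000000000 0x10000000700000007000000060000000700000007000000060000000200000002000000070000000700000005 8 3) 0 0 (step_sound _ 258 [(rh08d50fe567eb1045.shift 1 4), (rh26c63b5f0f787247.shift 0 5), rh27e36592d61cf33a] (by decide +kernel))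
noncomputable def rh440235dc15c3e41f : CRef := CRef.mk (Pat.mk 0x80000000800000008000000000000000000000000 0x10000000180000001800000018000000780000007e000000ff0000003c00000010 8 8) 0 0 (step_sound _ 100 [(rh046c5eb18e55a239.shift 3 0), (rh57188cce0ba9a8fb.shift 1 0), (rh70e33bfdf511e144.shift 3 0), (rh7ae66c9e45c17054.shift 0 1)] (by decide +kernel))
noncomputable def rh2666a6bfd5eea447 : CRef := CRef.mk (Pat.mk 0xc0000000800000008000000000000000000000000 0x100000001c0000001c0000003f0000003f0000001f00000014 8 6) 0 0 (step_sound _ 67 [(rh20605be9cfe324a0.shift 0 1), (rha613ffd40b6c9d24.shift 2 0), (rhcab3157f7bdcba3e.shift 2 0)] (by decide +kernel))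
noncomputable def rha641f60dd3477363 : CRef := CRef.mk (Pat.mk 0x400000006000000040000000600000000 0x180000003c0000000e0000003f0000003f00000018 8 6) 0 0 (step_sound _ 35 [(rh55afc6a59410cf00.shift 2 0), rh57146a0f3d650a73] (by decide +kernel))
noncomputable def rhdd3ece72c295def4 : CRef := CRef.mk (Pat.mk 0xc000000080000000800000000000000000000000000000000 0x10000000180000001c0000001c0000003c0000000f0000000c0000000800000008 8 6) 0 0 (step_sound _ 99 [(rh20966da26a1c2ae8.shift 2 2), rhba2c77db86f9ebc6, (rhd22616887d452319.shift 2 2)] (by decide +kernel))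
noncomputable def rh8085c0369c6a135e : CRef := CRef.mk (Pat.mk 0x20000000380000002000000000000000000000000000000000 0x2c000000ec000000780000003f0000007e0000007c0000005400000010 8 8) 0 0 (step_sound _ 131 [(rh312fbe62950f01fb.shift 1 0), (rh538f0df19b30d692.shift 2 1), (rhb0f1f25c3b70118a.shift 1 2), (rhf0f55c4504412200.shift 0 4), (rhfb6a81457d5304e0.shift 1 1)] (by decide +kernel))
noncomputable def rh7cb508bb11bec835 : CRef := CRef.mk (Pat.mk 0x80000000c0000000c 0x1f0000001f0000007a0000001f0000000c 8 7) 0 0 (step_sound _ 99 [(rh5c5e593799055d58.shift 2 0), rhd10436d602f5ad6b] (by decide +kernel))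
noncomputable def rhf947048397a8babf : CRef := CRef.mk (Pat.mk 0x100000001800000018000000000000000000000000 0x6000000360000003f0000001f0000000f0000000a00000002 8 6) 0 0 (step_sound _ 67 [rh2bc6a17b6154ad6a, (rh71222050f2c63a3a.shift 3 1)] (by decide +kernel))
noncomputable def rhf11b3caca35dcb8c : CRef := CRef.mk (Pat.mk 0x20000000380000000000000000000000100000000000000000 0xec000000780000001f0000001c0000001c0000001400000010 8 8) 0 0 (step_sound _ 131 [(rhb2260d6a49fb05d6.shift 2 1), (rhbfc15633efab53f2.shift 3 0), (rhf0f55c4504412200.shift 0 4), (rhf29737a8ad727ecc.shift 2 2)] (by decide +kernel))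
noncomputable def rhde7440c5fe238155 : CRef := CRef.mk (Pat.mk 0x80000000c000000180000000000000000000000000000000000000000 0x10000000780000000c0000001f0000003f0000001f0000001e0000001c00000014 8 7) 0 0 (step_sound _ 131 [(rh207e81d57334654b.shift 2 0), (rh5f35a4995f96f8f2.shift 0 2), (rh6eff4158bb400f47.shift 2 2), (rh84f80cfcf7302c80.shift 2 0), (rh89cf5152879421f3.shift 2 1), (rha4daae686a663794.shift 2 0)] (by decide +kernel))
noncomputable def rhb981e12a69039e03 : CRef := CRef.mk (Pat.mk 0x3c00000028000000000000000000000000 0xc0000006c0000003e0000002f0000007e0000007e0000001c 8 7) 0 0 (step_sound _ 165 [rh125244764469c9ee, (rh33e738c4ed385b9f.shift 2 4)] (by decide +kernel))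
noncomputable def rh0645b6630216d6c6 : CRef := CRef.mk (Pat.mk 0x180000000e00000000000000000000000000000000 0x140000003c0000003c0000003c000000180000001e000000780000001f0000001c00000010 8 7) 0 0 (step_sound _ 100 [(rh21bd420074f29ccc.shift 2 2), (rh5f66fb5b860eeed9.shift 1 2), (rh8897f9bf6ab0c7e0.shift 1 1), (rh9c1d2b0fc40551bc.shift 1 2), rhed02fdedf28f576e] (by decide +kernel))
noncomputable def rh2dfc702e322cd298 : CRef := CRef.mk (Pat.mk 0x3c00000008000000080000000000000000 0x3c0000006e0000003c0000001f0000001f 8 7) 0 0 (step_sound _ 98 [rh22cbdfaf5b0c41b4, (rheb0810cc63b001d8.shift 1 3)] (by decide +kernel))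
noncomputable def rh6aa0f6f3fbaa8e03 : CRef := CRef.mk (Pat.mk 0x8000000180000007000000000 0x1c0000007c000000ff000000ff0000007b0000007200000040 8 8) 0 0 (step_sound _ 98 [(rh01ce503243c280c1.shift 2 0), rh1db85feadd1419c7, (rh4ca5dae25f5c14ff.shift 0 2), (rh8517e4bd72fa27d4.shift 0 1)] (by decide +kernel))
noncomputable def rhcb70a6bd093e18a3 : CRef := CRef.mk (Pat.mk 0x20000001e00000000000000000000000000000000 0x4000000070000000700000007000000060000001e00000003000000070000000700000005 8 5) 0 0 (step_sound _ 97 [rh10761ce20d656f96, (rheb0810cc63b001d8.shift 0 3)] (by decide +kernel))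
noncomputable def rha6127129cbf922dc : CRef := CRef.mk (Pat.mk 0x100000001e00000000000000000000000000000000 0x200000003800000038000000180000001e0000003b000000380000003800000028 8 6) 0 0 (step_sound _ 100 [rh58545f7274ae2016, (rhe25b0a99195a5d59.shift 1 3)] (by decide +kernel))
noncomputable def rh413e109c840b3815 : CRef := CRef.mk (Pat.mk 0xf00000000000000000000000000000000 0x100000001c0000001c0000001c0000000f0000001c0000001c0000001c00000014 8 5) 0 0 (step_sound _ 163 [(rh33e738c4ed385b9f.shift 0 4), rh6f954c65f570d97d] (by decide +kernel))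
noncomputable def rhabe85ef2c0fc340b : CRef := CRef.mk (Pat.mk 0x8000000080000003800000008 0x20000000740000007f0000007f0000003800000008 8 7) 0 0 (step_sound _ 100 [(rh2f68792b6b779e96.shift 3 0), rh6ec47b24d886c9e2] (by decide +kernel))
noncomputable def rhfaf8a3b6b7b2818b : CRef := CRef.mk (Pat.mk 0x80000000c0000003800000000000000000000000000000000 0x1000000010000000180000007c0000002f00000038000000280000001c0000001c00000014 8 7) 0 0 (step_sound _ 161 [(rhb739f4f82bb681b4.shift 0 4), (rhd10d1c9d6b106139.shift 1 0)] (by decide +kernel))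
noncomputable def rh5caf3f22e0f1b1b8 : CRef := CRef.mk (Pat.mk 0x400000002000000020000000a00000000 0x4000000040000007e0000003e0000007b0000000a00000008 8 7) 0 0 (step_sound _ 162 [(rh1006c02ae4212ff0.shift 1 1), rh31cb27d05bff377f] (by decide +kernel))
noncomputable def rhd4b7ae4fb217dec3 : CRef := CRef.mk (Pat.mk 0x2000000020000000600000000000000000000000000000000 0x700000007000000070000000300000003000000070000000600000003000000070000000700000004 8 3) 0 0 (step_sound _ 225 [(rh1148744b53f3df58.shift 0 4), (rh1527d809b137dbb1.shift 0 3), (rh219b9f23527e426f.shift 0 3), rh4545818fcdb53125, (rh5bd4bc0c2c48140c.shift 0 4)] (by decide +kernel))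
noncomputable def rh0f4422bfeb8a984e : CRef := CRef.mk (Pat.mk 0x4000000060000000c000000000000000000000000 0x100000003a0000003f0000003e0000000c000000060000000600000002 8 6) 0 0 (step_sound _ 66 [(rhc7e7e664ba2522ee.shift 0 2), (rhcab3157f7bdcba3e.shift 1 0), (rhe286c75f2739cce2.shift 1 1)] (by decide +kernel))
noncomputable def rh326ac82c358d7e45 : CRef := CRef.mk (Pat.mk 0x400000004000000040000001c 0x34000000340000007f0000007f0000001c 8 7) 0 0 (step_sound _ 35 [(rh2145e1d24b96a57e.shift 2 0), rhb8c0b13fd7038773] (by decide +kernel))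
noncomputable def rh4c11b7f724948335 : CRef := CRef.mk (Pat.mk 0x8000000080000002800000000 0x1c0000001c0000001c0000007e000000ff0000006c0000002800000028 8 8) 0 0 (step_sound _ 131 [(rh219b9f23527e426f.shift 2 0), rh245d56c915813f64, (rh2888de0cabfd5f6b.shift 1 0), (rhc85cc95794737cf7.shift 2 1), (rhe9ae10b1a5d27fc3.shift 1 0)] (by decide +kernel))
noncomputable def rhde579537be256d87 : CRef := CRef.mk (Pat.mk 0x20000001e0000000200000000000000000000000000000000 0x50000000700000007000000320000001e0000003600000007000000070000000700000004 8 6) 0 0 (step_sound _ 196 [(rh33e738c4ed385b9f.shift 1 5), rh5a4f84b8b3d73765] (by decide +kernel))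
noncomputable def rh2dac9a2b349f393d : CRef := CRef.mk (Pat.mk 0x1800000070000000200000000000000000 0x1c0000003f0000007f000000380000007c000000e80000000800000008 8 8) 0 0 (step_sound _ 99 [rh2edc8189a03f679a, (rha03f6e28ea70fc7d.shift 2 2)] (by decide +kernel))
noncomputable def rh89b48399c7576386 : CRef := CRef.mk (Pat.mk 0x60000001c000000080000000000000000 0x80000000a0000000e0000001f0000007c0000001f0000001e 8 7) 0 0 (step_sound _ 35 [(rh7b1f1fb55310c477.shift 2 0), rhe04a610fe9f637eb] (by decide +kernel))
noncomputable def rh6ef6eb0e5d43ad54 : CRef := CRef.mk (Pat.mk 0x300000001c0000000000000000000000000000000000000000 0x2000000038000000380000003800000030000000300000001c0000007f0000007f000000380000003800000008 8 7) 0 0 (step_sound _ 132 [(rh05840e4517ea668f.shift 2 3), (rh18670ed04ae8c803.shift 0 1), (rh215e11e099257d75.shift 4 3), (rh4f3c983e7b2d8da3.shift 3 0)] (by decide +kernel))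
noncomputable def rh1a7ca1f2fd24d9e8 : CRef := CRef.mk (Pat.mk 0x40000000c00000006000000000000000000000000 0x80000000c0000000c0000003e0000003f0000003e00000010 8 6) 0 0 (step_sound _ 66 [(rha707fb719e87fe6e.shift 2 1), rhca20505fdc25e5f1] (by decide +kernel))
noncomputable def rh03ae42b1862fb4b8 : CRef := CRef.mk (Pat.mk 0x4000000040000000e00000002000000000000000000000000 0x3a0000003e000000360000001f0000003e0000000c0000000c0000000c 8 6) 0 0 (step_sound _ 98 [(rh36d4d92ef3dad5f8.shift 0 2), (rhdd11e03a2f8b13b6.shift 1 0), (rhe8206a95d721392b.shift 0 2)] (by decide +kernel))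
noncomputable def rh1d48cf67de8abe39 : CRef := CRef.mk (Pat.mk 0x10000000380000000800000000000000000000000000000000 0xc0000000c0000004c000000d80000007c000001f80000007e000000ff0000001000000010 8 9) 0 0 (step_sound _ 99 [(rh71222050f2c63a3a.shift 3 2), rhffdaa013da77b9ab] (by decide +kernel))
noncomputable def rhc74acf5e4597151d : CRef := CRef.mk (Pat.mk 0x1000000030000000180000000000000000000000000000000000000000 0x8000000180000003800000038000000ff0000003e000000380000003800000008 8 8) 0 0 (step_sound _ 132 [(rh7b52c4848c5e6375.shift 0 3), (rh7de9f97699eea1e4.shift 3 0), (rhafe3773349343285.shift 3 1), (rhcae287dd1526d47c.shift 3 1), (rhdec69e28546604d7.shift 3 1), (rhf4fc431c6cf8f3c7.shift 3 2)] (by decide +kernel))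
noncomputable def rh070520f24e83b492 : CRef := CRef.mk (Pat.mk 0x4000000040000000c 0xa0000003e0000003f0000003f0000000c0000000c 8 6) 0 0 (step_sound _ 98 [(rh1741680720c097b4.shift 1 0), rh3949a9a3df047322, (rh5bd4bc0c2c48140c.shift 1 0), (rh73f605273a09a9d0.shift 2 0)] (by decide +kernel))
noncomputable def rhb3b2d410932e613c : CRef := CRef.mk (Pat.mk 0x8000000380000000800000000 0x40000001c0000007c0000007c0000001f000000380000001800000010 8 7) 0 0 (step_sound _ 98 [rh5493ec200a1c795d, (rh5670a56ed1c986d1.shift 2 0), (rhc02b3aee7ab87ee1.shift 0 2)] (by decide +kernel))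
noncomputable def rhad0f350951bd5744 : CRef := CRef.mk (Pat.mk 0x8000000180000000c0000000000000000000000000000000000000000 0x40000000f000000180000007c0000007e0000007c0000003c0000001c00000014 8 7) 0 0 (step_sound _ 131 [rh3273a2aac3e47810, (rh7de9f97699eea1e4.shift 2 0), (rh8cdd36b03d57a2f6.shift 2 2), (rha52e1acf7ed5511e.shift 2 1), (rhca20505fdc25e5f1.shift 1 2), (rhcae287dd1526d47c.shift 2 1)] (by decide +kernel))
noncomputable def rh255892cc2978bd95 : CRef := CRef.mk (Pat.mk 0x8000000380000000c00000000 0x140000003c0000007c0000006f0000003c0000001c00000010 8 7) 0 0 (step_sound _ 98 [rh5493ec200a1c795d, (rh774cc5aaafb0c16f.shift 2 0), (rhdbcea10a0fbe5ba6.shift 0 2)] (by decide +kernel))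
noncomputable def rh3a2e90c351993946 : CRef := CRef.mk (Pat.mk 0x380000000800000000000000000000000000000000 0x140000001c0000001c0000000f0000007c000000180000001c0000001c0000001c00000010 8 7) 0 0 (step_sound _ 195 [(rh2b23ffbaf69c75ea.shift 2 0), (rha9fbfd4bb8cf890b.shift 0 5)] (by decide +kernel))
noncomputable def rh57d5185c70309560 : CRef := CRef.mk (Pat.mk 0x80000000c00000006000000000000000000000000 0x1e0000001f0000003c0000000c0000000e0000001a0000001800000018 8 6) 0 0 (step_sound _ 195 [(rh5c5e593799055d58.shift 2 3), rh86c5deb207e5fc66] (by decide +kernel))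
noncomputable def rhf7379330303e612d : CRef := CRef.mk (Pat.mk 0x80000000e000000020000000200000000 0x400000007000000070000000f0000000e0000001e000000360000003e0000003c 8 6) 0 0 (step_sound _ 34 [(rh444fa8da4d2a2bf8.shift 1 0), rh85714628d35c251b, (rh8eb27402c326cdee.shift 1 0), (rhd6e64bb7d1c8c62d.shift 1 0)] (by decide +kernel))
noncomputable def rh1845c585cfd436be : CRef := CRef.mk (Pat.mk 0x40000001c0000000000000000000000000000000000000000 0xa0000000e0000000e0000000e000000040000003c0000000f0000000e0000000e0000000e00000008 8 6) 0 0 (step_sound _ 226 [(rh623e2f7b8650c83f.shift 1 3), (rh70e33bfdf511e144.shift 2 2), rhd17b02394cb1aa3a, (rhfb9fb48a5e63ed80.shift 1 4)] (by decide +kernel))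
noncomputable def rhefc2930f7167aff6 : CRef := CRef.mk (Pat.mk 0x8000000380000000800000000 0x40000001c0000003c0000007c0000007f000000380000001800000010 8 7) 0 0 (step_sound _ 98 [rh5493ec200a1c795d, (rh77641f47b2a374a3.shift 2 0), (rhc02b3aee7ab87ee1.shift 0 2)] (by decide +kernel))
noncomputable def rhac78d7f3583950fb : CRef := CRef.mk (Pat.mk 0x8000000380000000c00000000000000000000000000000000 0x140000001f000000380000001c0000007c0000007c0000001c00000014 8 7) 0 0 (step_sound _ 193 [(rh075211c3608a5a57.shift 0 5), (rh0de485c32d3a2af6.shift 2 0), rh9d09afa3c53117ee] (by decide +kernel))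
noncomputable def rh20be64791ddfe8ef : CRef := CRef.mk (Pat.mk 0x200000006000000020000000200000000 0x40000000700000007000000030000000600000006000000060000000700000005 8 3) 0 0 (step_sound _ 34 [(rh55afc6a59410cf00.shift 1 0), rh8caca789e510fe4e] (by decide +kernel))
noncomputable def rh979f834cf1abb80e : CRef := CRef.mk (Pat.mk 0x20000000200000002000000020000000000000000 0x50000000700000007000000020000000200000006000000070000000700000001 8 3) 0 0 (step_sound _ 66 [(rh55afc6a59410cf00.shift 1 1), rhd01a0964abcfba9b] (by decide +kernel))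
noncomputable def rh74d827b0615116d8 : CRef := CRef.mk (Pat.mk 0x100000003000000000 0x180000001c0000001c000003ff000001fe0000038f 8 10) 0 0 (step_sound _ 38 [rh29825481e127561a, (rh9c94213f6896c74a.shift 3 0), (rha9fbfd4bb8cf890b.shift 1 1), rhc4e930da04ec408e] (by decide +kernel))
noncomputable def rh17ee4d40c3c2005b : CRef := CRef.mk (Pat.mk 0x8000000080000001800000010000000000000000000000000 0x340000007e0000007f000000180000001f0000000c0000000800000008 8 7) 0 0 (step_sound _ 99 [(rh19998c8d70ff41c8.shift 0 2), (rh305945700f20b255.shift 1 2), (rh6e0941ccd1ab3252.shift 1 3), rhcc747324ec4b3797, (rhd65b950e17d04dd6.shift 1 2)] (by decide +kernel))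
noncomputable def rh1d2c0101e9794173 : CRef := CRef.mk (Pat.mk 0x18000000100000001000000010 0x1e7000001fe000003f70000001000000010 8 10) 0 0 (step_sound _ 101 [(rh2f68792b6b779e96.shift 4 0), (rh52d79f7d14401584.shift 0 2)] (by decide +kernel))
noncomputable def rh4a276f5ba5034070 : CRef := CRef.mk (Pat.mk 0x80000000c000000080000000800000000000000000000000000000000 0x10000000780000000c0000007c0000001f0000000c0000001c0000001c00000014 8 7) 0 0 (step_sound _ 228 [(rh2f68792b6b779e96.shift 3 4), rhbd8175745d706300] (by decide +kernel))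
noncomputable def rh233e61dc7c0a9319 : CRef := CRef.mk (Pat.mk 0x200000003000000020000000200000000000000000000000000000000 0x40000001e00000003000000070000000600000006000000070000000700000005 8 5) 0 0 (step_sound _ 226 [(rh2f68792b6b779e96.shift 1 4), rh7c669aef4204a2e8] (by decide +kernel))
noncomputable def rhb3ed64a503a0ef49 : CRef := CRef.mk (Pat.mk 0x1000000030000000000000002000000020 0x6000000068000001fe000001fe000000ff000000c70000006600000024 8 9) 0 0 (step_sound _ 131 [rh253d10b60a21d570, (rh3c3e23a02e82b2ed.shift 1 3), (rh5c5a2014709044d0.shift 1 3), (rh9dfc49258ac2b722.shift 1 0)] (by decide +kernel))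
noncomputable def rh4b224b7dc904c0da : CRef := CRef.mk (Pat.mk 0x200000004000000060000000400000000 0xe0000000f0000003c0000000e0000003c00000018 8 6) 0 0 (step_sound _ 130 [(rh50fbb5868c909700.shift 1 1), rh777017bc36e309be] (by decide +kernel))
noncomputable def rh274ab1c87b8cf264 : CRef := CRef.mk (Pat.mk 0x80000000c000000080000000800000000 0x30000000780000001c000001f8000000ff000001f4 8 9) 0 0 (step_sound _ 132 [rh254bc37f6c3c2644, (rh2f68792b6b779e96.shift 3 1)] (by decide +kernel))
noncomputable def rha9ddd6cec8d23a1f : CRef := CRef.mk (Pat.mk 0x80000000800000000000000180000001000000000 0x1ef000000fe000001f700000038000000f000000060 8 9) 0 0 (step_sound _ 132 [(rh2613c889e411427e.shift 3 1), rhb0563d0efaec83fa] (by decide +kernel))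
noncomputable def rh824c5ab848df0bb2 : CRef := CRef.mk (Pat.mk 0x200000000000000060000000400000000000000000000000000000000 0xe0000000e0000000e0000003e0000003f0000000f0000000e0000000a 8 6) 0 0 (step_sound _ 98 [(rh15a7669017a630f7.shift 0 2), (rh3a1cc22ead2eadb0.shift 1 2), rh94c118babe108846] (by decide +kernel))
noncomputable def rhf92ea1fb071052c3 : CRef := CRef.mk (Pat.mk 0x200000003000000020000000200000000000000000000000000000000 0x40000001e00000007000000070000000600000006000000060000000600000004 8 5) 0 0 (step_sound _ 226 [(rh2f68792b6b779e96.shift 1 4), rhcafc93ffc83e8714] (by decide +kernel))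
noncomputable def rh981144c7762a048f : CRef := CRef.mk (Pat.mk 0x8000000000000001800000000000000000000000000000000 0x140000001c0000001c0000001c0000000c0000001c000000380000001f0000001c0000001c0000001c 8 6) 0 0 (step_sound _ 163 [rh079a5af6c0978d8a, (rh70e33bfdf511e144.shift 3 1), (rh85be7bd06c5a35e0.shift 2 3), (rhd95db1b062f8fd3b.shift 2 0)] (by decide +kernel))
noncomputable def rhc7fe684a4482ed03 : CRef := CRef.mk (Pat.mk 0x30000000100000001000000010 0xf000000fe000001ff0000001000000010 8 9) 0 0 (step_sound _ 99 [(rh18c0a67b92d2a199.shift 0 2), (rh50fbb5868c909700.shift 3 0)] (by decide +kernel))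
noncomputable def rhccf489fe6dc40616 : CRef := CRef.mk (Pat.mk 0x800000008000000080000000000000008 0xc0000001e0000003f0000003f0000003c0000001c0000000c00000008 8 6) 0 0 (step_sound _ 130 [(rh81a1e94a189106b8.shift 2 0), (rh8233e388259a3beb.shift 2 0), (rhb1a251d9bff81766.shift 2 1), (rhd7c2bda029eef8f6.shift 0 1)] (by decide +kernel))
noncomputable def rh5302e16663abe02a : CRef := CRef.mk (Pat.mk 0x800000008000000080000000800000000 0x8000000080000007f000000ff000000f4 8 8) 0 0 (step_sound _ 36 [(rh55afc6a59410cf00.shift 3 0), rhfe0bd507445a38e1] (by decide +kernel))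
noncomputable def rh923f78b431c6f871 : CRef := CRef.mk (Pat.mk 0x8000000180000001000000010 0x6800000068000001ef000000fe000001f700000030 8 9) 0 0 (step_sound _ 131 [rh1753b9b34bc089ac, (rh2145e1d24b96a57e.shift 3 1)] (by decide +kernel))
noncomputable def rh1e96d01bd0825247 : CRef := CRef.mk (Pat.mk 0xc000000180000000000000010 0x34000000340000003f0000003f0000001b0000001200000010 8 6) 0 0 (step_sound _ 97 [rh3c0a2243fdd94110, (rhb739f4f82bb681b4.shift 0 2)] (by decide +kernel))
noncomputable def rhb8334ce262edecaf : CRef := CRef.mk (Pat.mk 0x60000000c0000000000000008 0x140000003e0000003e0000003f0000003800000008 8 6) 0 0 (step_sound _ 68 [rh47d6d5a736d16709, (rhf48373e13d2bc128.shift 1 2)] (by decide +kernel))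
noncomputable def rhb3b944f4bba7f919 : CRef := CRef.mk (Pat.mk 0x800000018000000000000001000000000 0x40000000d0000001ff000000fe000001e70000003000000030 8 9) 0 0 (step_sound _ 101 [(rh233bbb1d9d2da036.shift 2 0), (rh47aee474a240d3ee.shift 2 3), (rha9fbfd4bb8cf890b.shift 0 3), rhb0941db69d69c397, (rhf020c567461b41ab.shift 2 0)] (by decide +kernel))
noncomputable def rhb0438dfcad771e2b : CRef := CRef.mk (Pat.mk 0x1800000018000000100000000000000000 0x38000000ff000000fe0000006600000024 8 8) 0 0 (step_sound _ 98 [(rh113a1773600061c3.shift 1 0), (rhab2ad169e49f9c5e.shift 0 3), (rhf56e6bc5d2f7fe77.shift 0 2)] (by decide +kernel))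
noncomputable def rh1defae62372cd258 : CRef := CRef.mk (Pat.mk 0x10000000200000003000000020000000200000000 0x40000000600000006000000070000001e00000007000000070000000600000004 8 5) 0 0 (step_sound _ 130 [(rh2f68792b6b779e96.shift 1 1), rh4b93d0909b3b61d0] (by decide +kernel))
noncomputable def rhca7026333cddc622 : CRef := CRef.mk (Pat.mk 0xc0000000800000008000000000000000000000000 0x100000001c0000001c0000003f0000003f0000001f00000014 8 6) 0 0 (step_sound _ 67 [(rh20605be9cfe324a0.shift 0 1), (rh257d7200ab2a6828.shift 2 0), (rhcab3157f7bdcba3e.shift 2 0)] (by decide +kernel))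
noncomputable def rh02648e727012dea2 : CRef := CRef.mk (Pat.mk 0x600000004000000040000000400000000 0xc0000000e0000003c0000000f0000003c0000001c 8 6) 0 0 (step_sound _ 35 [(rh55afc6a59410cf00.shift 2 0), rh738caa22c5c55d29] (by decide +kernel))
noncomputable def rhbc5b4405f2a67068 : CRef := CRef.mk (Pat.mk 0x600000000000000060000000600000000 0x80000000f0000003c0000000e0000003e0000003a 8 6) 0 0 (step_sound _ 98 [(rh932754581e0f4330.shift 1 0), rhe52e21eba5e4acdb] (by decide +kernel))
noncomputable def rha44f1184209c99a8 : CRef := CRef.mk (Pat.mk 0x200000000000000060000000400000000000000000000000000000000 0xe0000000e000000060000003e0000000f0000000e0000000e0000000a 8 6) 0 0 (step_sound _ 98 [(rh15a7669017a630f7.shift 0 2), (rh230ee59bbfb914bf.shift 1 0), (rh3a1cc22ead2eadb0.shift 1 2)] (by decide +kernel))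
noncomputable def rh642a79c6aa321b73 : CRef := CRef.mk (Pat.mk 0x10000000080000000800000018 0x3800000078000000ee000000ff00000038 8 8) 0 0 (step_sound _ 99 [(rh2f68792b6b779e96.shift 3 0), rhc11d355ecd6f77e1] (by decide +kernel))
noncomputable def rh56a2bd90bb29d120 : CRef := CRef.mk (Pat.mk 0x4000000060000000000000002000000000 0x1000000010000003df000001fe000003be0000002800000020 8 10) 0 0 (step_sound _ 69 [(rh02d8ab7abdb99fc6.shift 0 1), (rh71222050f2c63a3a.shift 5 0)] (by decide +kernel))
noncomputable def rh3bbdde589384d0fe : CRef := CRef.mk (Pat.mk 0x180000000c000000000000000c 0x3000000030000000320000001b0000003f0000003f0000000c 8 6) 0 0 (step_sound _ 132 [rh3a68bee55ecc8c64, (rh9e3edb185cc347de.shift 3 0)] (by decide +kernel))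
noncomputable def rh7a30e7ab72d4ee05 : CRef := CRef.mk (Pat.mk 0x18000000080000000000000018 0x3800000078000000ee000000ff00000038 8 8) 0 0 (step_sound _ 35 [(rh2f68792b6b779e96.shift 3 0), rhc11d355ecd6f77e1] (by decide +kernel))
noncomputable def rhbd95598c92076158 : CRef := CRef.mk (Pat.mk 0xc000000040000000000000004 0x1c0000001e000000780000000f0000003c0000001c00000004 8 7) 0 0 (step_sound _ 131 [(rh03ac5205eef3618c.shift 0 1), (rh9e3edb185cc347de.shift 2 0)] (by decide +kernel))
noncomputable def rhe4a37f04189fe19b : CRef := CRef.mk (Pat.mk 0x18000000080000000000000018 0x6e000000fc000000ff0000007c00000018 8 8) 0 0 (step_sound _ 36 [(rh0c8f4d7f3b6c6043.shift 1 0), rh7c8de4660631900d, rhc4e6acfc5cb3d284, (rhf6833c4bd292a3b4.shift 3 0)] (by decide +kernel))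
noncomputable def rhb1b58aecc9c90218 : CRef := CRef.mk (Pat.mk 0x70000000100000000000000020 0x3000000030000000fe0000007f000000de0000006800000060 8 8) 0 0 (step_sound _ 99 [(rh3ca17e4fee8565ed.shift 0 1), (rh52b4b7b516a7d39e.shift 2 1), (rh775ca1963e850b80.shift 1 2), (rh9e97bba44c1b13e4.shift 1 2), (rhfce60f3021ad51c4.shift 2 0)] (by decide +kernel))
noncomputable def rhc4bdf0b738480462 : CRef := CRef.mk (Pat.mk 0x20000000380000000000000000 0x8000000080000003f000001fe000001cf00000004 8 9) 0 0 (step_sound _ 98 [(rh1713b2a8615f2751.shift 0 1), (rh2ed1606403c39bab.shift 1 1), (rh8afb761e147011fd.shift 0 2), (rh8c12fdbbddc1e7ab.shift 0 2), (rhc3071d6824a43022.shift 1 1), (rhfde62706795aed9b.shift 1 0)] (by decide +kernel))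
noncomputable def rhf70a9a2e3cc5e59e : CRef := CRef.mk (Pat.mk 0x1000000018000000000000000800000000 0x1000000014000001f6000000fe000001ef0000002800000028 8 9) 0 0 (step_sound _ 67 [rh20c24a0eac654bef, (rh71222050f2c63a3a.shift 3 0)] (by decide +kernel))
noncomputable def rhdeb858b99b7ebe3f : CRef := CRef.mk (Pat.mk 0x1800000010000000180000000000000000 0x2000000020000000770000003e000000f700000038000000f000000070 8 8) 0 0 (step_sound _ 133 [(rh215e11e099257d75.shift 4 1), (rh3750db7c0e07a4f5.shift 0 1), (rh76149ee3548e2ac0.shift 0 2), (rhf4acbf93bc7547a5.shift 1 0), (rhffc6ca9cdf33df76.shift 0 1)] (by decide +kernel))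
noncomputable def rh2911459e9b9c63cc : CRef := CRef.mk (Pat.mk 0x30000000000000003000000000000000000000000 0x5000000070000000700000003000000030000000600000007000000070000000700000005 8 3) 0 0 (step_sound _ 129 [rh0a6888916bcef86b, (rh69a3776feaa48c5d.shift 0 2), (rhac6464bb64255311.shift 0 2), (rhb1a251d9bff81766.shift 0 2)] (by decide +kernel))
noncomputable def rh5d4c473c922c63f9 : CRef := CRef.mk (Pat.mk 0xe0000000100000008 0x280000003800000038000000300000001e0000003b00000008 8 6) 0 0 (step_sound _ 68 [(rh05a2391b3498d263.shift 1 0), (rh80fcd6d0a18cb2dd.shift 0 1)] (by decide +kernel))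
noncomputable def rhbc5ecd314dbe835e : CRef := CRef.mk (Pat.mk 0x1c00000002000000180000000000000000 0x10000000700000007000000070000001e000000070000001b0000000f00000005 8 5) 0 0 (step_sound _ 129 [rhe59b7a98c43f7d75, (rheb0810cc63b001d8.shift 0 3)] (by decide +kernel))
noncomputable def rh21f4692fef3e7280 : CRef := CRef.mk (Pat.mk 0x7000000000 0x7f000003ff0000039f 8 10) 0 0 (step_sound _ 35 [(rh592c7139d2c44767.shift 1 0), (rh875ee7c4c1e718c0.shift 0 1), rh87fa0a8b0456f79e, (rhaeebc73f5a9c796a.shift 2 0), (rhb4a103fc3fcd20de.shift 2 0)] (by decide +kernel))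
noncomputable def rh9775f2dbe4aa3f3e : CRef := CRef.mk (Pat.mk 0x1c000000000000001000000000 0x10000000fc000000ff000000e70000003000000030 8 8) 0 0 (step_sound _ 101 [(rh318eb7dcb3606068.shift 0 2), (rh7be56dea451b252f.shift 2 0), (rh9e97bba44c1b13e4.shift 0 2), (rha93a5dd541ab8209.shift 2 2)] (by decide +kernel))
noncomputable def rhe07bd1e897d5d2b9 : CRef := CRef.mk (Pat.mk 0x1e0000000000000000 0x3000000070000000f0000003f0000001e0000000700000002 8 6) 0 0 (step_sound _ 97 [(rh3244c3cc8379b070.shift 0 2), rha18de4cdd43acdf0] (by decide +kernel))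
noncomputable def rh0ca9724cea81216e : CRef := CRef.mk (Pat.mk 0xc00000018000000000000001800000000 0x30000000300000003f0000003f00000018000000100000001800000008 8 6) 0 0 (step_sound _ 129 [rh65d0e884e0bff30a, (rhb739f4f82bb681b4.shift 0 3)] (by decide +kernel))
noncomputable def rhb6e324aa74434849 : CRef := CRef.mk (Pat.mk 0x18000000300000000000000020 0xa0000000f0000000f8000000ff000000ef00000020 8 8) 0 0 (step_sound _ 70 [rh87aafd14c463e5b7, (rhf48373e13d2bc128.shift 3 2)] (by decide +kernel))
noncomputable def rh061ce3acc07d2ab1 : CRef := CRef.mk (Pat.mk 0x100000007000000000 0x7f7000003fe000007ce 8 11) 0 0 (step_sound _ 39 [(rh06d29ee78b4c6777.shift 2 0), (rh0786c19de25163c7.shift 4 0), rh3a8a7f7df86d50d1, (rh44fae8d9c1045ff0.shift 3 0), (rh9cf60041f0c0abcb.shift 4 1)] (by decide +kernel))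
noncomputable def rhb64ced11764c4f9b : CRef := CRef.mk (Pat.mk 0x1c000000100000000000000000 0x2000000028000001f80000007c0000003f0000001f0000007c0000003c 8 9) 0 0 (step_sound _ 131 [rh6681f9fd2b791c5e, (rhba50068e9a3167f6.shift 1 0), (rhc38f566cab2818e5.shift 3 0)] (by decide +kernel))
noncomputable def rhf197f7a50f780a27 : CRef := CRef.mk (Pat.mk 0x38000000080000000000000000 0xc0000000f0000003e0000007e0000006e0000000c 8 7) 0 0 (step_sound _ 98 [(rh0d378fd9e8917c5a.shift 0 2), (rh2a52dfbcf05c9c1d.shift 1 0), (rhc901bc4bb2497753.shift 1 0)] (by decide +kernel))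
noncomputable def rh49ec57afcc6059e3 : CRef := CRef.mk (Pat.mk 0xe0000001a00000000000000000000000000000000 0x180000001a0000003b0000001e0000001e0000003f0000002f0000000700000001 8 6) 0 0 (step_sound _ 164 [(rh34b1188e635efc8d.shift 1 2), (rh5fa4104cacb07f9d.shift 1 2), rh61aeb8abb6cefdb5] (by decide +kernel))
noncomputable def rhf15ad8283c8e1df8 : CRef := CRef.mk (Pat.mk 0x1c0000001400000000000000000000000000000000 0x280000003800000038000000300000001f0000001c00000078000000380000003800000008 8 7) 0 0 (step_sound _ 196 [(rh2bcb18b48062717f.shift 2 0), (rh3e09f998c8e94702.shift 0 2), (rh878c03cc42e824bf.shift 1 3), (rhc24f8d367658c081.shift 1 1), (rhfc3850163b770ae9.shift 1 2)] (by decide +kernel))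
noncomputable def rh742aee2fa6b08fb2 : CRef := CRef.mk (Pat.mk 0x3800000008000000000000000000000000 0x180000001c0000001f0000007e000000780000000c0000000c0000000c00000004 8 7) 0 0 (step_sound _ 163 [(rh19b19bf0872cfe73.shift 2 0), (rh25cfa2e3599e03d0.shift 0 1), (rhd9106766b9ff53c0.shift 2 3)] (by decide +kernel))
noncomputable def rh65e1d04421c2a490 : CRef := CRef.mk (Pat.mk 0x1c000000040000000000000000 0x80000002a0000007f0000003f000000f40000001400000014 8 8) 0 0 (step_sound _ 131 [(rh294ac3ea1568105f.shift 1 0), (rh4821dcf828b9d7bf.shift 2 0), rh6a487ccebd34fe8d] (by decide +kernel))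
noncomputable def rh66ec1a7cf0e6c629 : CRef := CRef.mk (Pat.mk 0xe000000040000000000000000000000000 0x5f000001fe000001ff000001800000008000000080 8 9) 0 0 (step_sound _ 132 [(rh430a50cdc91ff38c.shift 0 3), (rh6fe8496c91d726a0.shift 3 0), (rha03f6e28ea70fc7d.shift 3 3)] (by decide +kernel))
noncomputable def rh0f5e74ddd23738c8 : CRef := CRef.mk (Pat.mk 0xe0000001c000000000000000000000000 0x4000000040000000e0000001f0000007f0000001f0000001f 8 7) 0 0 (step_sound _ 67 [(rh3cb04db3dd2b6a55.shift 2 0), (rhb8a0a47969052ef0.shift 0 1), rhd19cf5ac549f4a83] (by decide +kernel))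
noncomputable def rh1307d5977eb60a6b : CRef := CRef.mk (Pat.mk 0x1c00000008000000000000000000000000 0x1000000038000000780000001f00000078000000380000003800000030 8 7) 0 0 (step_sound _ 100 [(rh4c4f2273129bb5c2.shift 2 0), (rh8d364617c03d6975.shift 0 1), (rhad5d8fc3675c15dd.shift 0 3)] (by decide +kernel))
noncomputable def rh4e947f9db2f9fcc4 : CRef := CRef.mk (Pat.mk 0x1c00000008000000000000000000000000 0x1000000010000000380000003f0000007f000000780000003e0000003c 8 7) 0 0 (step_sound _ 67 [(rh215e11e099257d75.shift 3 1), rh6c70cd8edd1048ed, (rh88ce1fac95468013.shift 1 0)] (by decide +kernel))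
noncomputable def rh9a078673de4b4ca9 : CRef := CRef.mk (Pat.mk 0x40000000c00000008000000080000000000000000 0x1a0000003f0000007f0000007e0000007c0000001400000010 8 7) 0 0 (step_sound _ 100 [(rh5b7ca4db1cccfee4.shift 1 0), (rh75ea294132184f25.shift 1 3), (rh92011a909a77227f.shift 0 2), (rhdeca8db941583de2.shift 0 3)] (by decide +kernel))
noncomputable def rh37092c14f25b08e2 : CRef := CRef.mk (Pat.mk 0x20000000e00000000000000040000000000000000000000000 0x140000001c0000001ff000000fe0000018e000001c0000001c0000001c000000140 8 9) 0 0 (step_sound _ 135 [(rh324a41ec6bd7e2d5.shift 6 0), (rha6e05ebcae4bd784.shift 0 4), (rhd860c1abe0894a1a.shift 4 0), (rhe6ede8d44a68661d.shift 3 2)] (by decide +kernel))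
noncomputable def rh4c3a74a63355e0d0 : CRef := CRef.mk (Pat.mk 0x80000000800000008000000000000000000000000 0x100000001800000018000000ff0000007e000000fc00000014 8 8) 0 0 (step_sound _ 67 [(rh6c59ce14113da07f.shift 3 0), (rh6eff4158bb400f47.shift 2 0), (rhcab3157f7bdcba3e.shift 2 0), (rhf3ebecfbaa6af23d.shift 0 1)] (by decide +kernel))
noncomputable def rhdbc7fcd3e84b5372 : CRef := CRef.mk (Pat.mk 0x10000000100000000000000030000000200000000000000000 0x540000005c000001cf000001fe000001fe0000002e00000004 8 9) 0 0 (step_sound _ 99 [rh186053564856558b, (rh4010787460564113.shift 2 1), (rh8d10fe49e165ceee.shift 3 1), (rh9909eeda0ef2ed2c.shift 2 2), (rhb2afcb5db661472f.shift 0 2)] (by decide +kernel))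
noncomputable def rh60066787a863c77a : CRef := CRef.mk (Pat.mk 0x800000008000000080000000000000000000000000000000000000000 0x180000007c000000ff0000007e000000fc0000001c0000001c00000004 8 8) 0 0 (step_sound _ 131 [(rh01adbe7485cd5318.shift 2 0), (rh1d31a175d6fbe48d.shift 2 1), (rh6eff4158bb400f47.shift 2 2), (rh8e2320083ab6fb28.shift 2 0), (rha93e9a4013aee350.shift 0 2), (rhf3ebecfbaa6af23d.shift 0 3)] (by decide +kernel))
noncomputable def rhae6d80b882f6d1e6 : CRef := CRef.mk (Pat.mk 0x800000008000000080000000000000000 0x140000001c0000001c0000003c0000000f0000003c0000001c0000000800000008 8 6) 0 0 (step_sound _ 163 [(rh1741680720c097b4.shift 2 2), (rh27b052a1db720fef.shift 2 2), (rh5ee4dc8825dcefa0.shift 0 1), (rh7a54cd989a06711e.shift 0 2), (rh8303e25b77b8b7bf.shift 2 0)] (by decide +kernel))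
noncomputable def rha20d9977403a32c0 : CRef := CRef.mk (Pat.mk 0x8000000080000000c00000000 0x100000001c0000001c0000000c0000003f0000003f00000013 8 6) 0 0 (step_sound _ 131 [rh06cf26177c5687fa, (rh9a369cb82ea472da.shift 2 1), (rhced6d86d2069808b.shift 3 0), (rhf3cdd189c46cffe9.shift 2 0)] (by decide +kernel))
noncomputable def rh309b34fccf54b9ad : CRef := CRef.mk (Pat.mk 0x200000006000000000000000400000004000000000 0x1f7000003fe0000079c000003d0000000f800000080 8 11) 0 0 (step_sound _ 135 [(rh05e384b6cfae8b91.shift 2 1), (rh5f6758d007239774.shift 0 1), (rh78a8697fba378c13.shift 4 0), (rh8d7fcb04c75a10fa.shift 0 1), (rhae8d21abc86b555a.shift 4 3), (rhca7a9642e2890640.shift 3 3)] (by decide +kernel))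
noncomputable def rh3dc5318d255e5c67 : CRef := CRef.mk (Pat.mk 0x800000008000000080000000800000000 0xf4000000ff0000007f000000080000000c00000004 8 8) 0 0 (step_sound _ 130 [rh2c1e347647a4d3ba, (rh50fbb5868c909700.shift 2 1)] (by decide +kernel))
noncomputable def rha3c4926d0ea64b77 : CRef := CRef.mk (Pat.mk 0x20000000600000004000000040 0x30000000b0000001bf000001fe000003ce00000048 8 10) 0 0 (step_sound _ 133 [(rh2145e1d24b96a57e.shift 5 1), rhca69a29e565b8869] (by decide +kernel))
noncomputable def rh7e5f782aaf69462a : CRef := CRef.mk (Pat.mk 0x800000008000000180000000000000010 0x30000000300000003f0000007f0000007e0000001600000014 8 7) 0 0 (step_sound _ 100 [(rh9e07f76261b05888.shift 3 0), rhdbc6496f4a07717a] (by decide +kernel))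
noncomputable def rh57b22969f1c4c483 : CRef := CRef.mk (Pat.mk 0x1000000030000000200000002000000000 0xc0000002e000000fe000000ff0000007e0000007400000050 8 8) 0 0 (step_sound _ 99 [(rh07577e08e2b20335.shift 1 0), (rh0c3a7bcf21d43ce4.shift 0 1), (rh3ce854f4a795c89f.shift 1 2)] (by decide +kernel))
noncomputable def rh267d4f454d0a8fa2 : CRef := CRef.mk (Pat.mk 0x800000018000000100000001000000000 0x160000007e000000ff0000007e0000007800000028 8 8) 0 0 (step_sound _ 101 [(rh40c51bbe02c02488.shift 1 0), (rh9f93e2b24091a43d.shift 2 2), (rha7edc60fc34bffff.shift 1 3), rhf07b9de6ee187202] (by decide +kernel))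
noncomputable def rhc80d32fec497d993 : CRef := CRef.mk (Pat.mk 0xc000000180000000000000000 0x4000000040000000f0000003f0000001f0000000f0000000a 8 6) 0 0 (step_sound _ 97 [rh20a37573e9658038, (rhb739f4f82bb681b4.shift 0 2)] (by decide +kernel))
noncomputable def rhf201c3fa62396f62 : CRef := CRef.mk (Pat.mk 0x18000000300000000000000020000000000000000000000000 0x28000000bc000000f8000000ff000003de000000f0000000e0000000e0000000a0 8 10) 0 0 (step_sound _ 166 [rhb7d9aa30228ee4c3, (rhf48373e13d2bc128.shift 3 5)] (by decide +kernel))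
noncomputable def rhbe954891e32593cc : CRef := CRef.mk (Pat.mk 0x8000000080000000000000018000000100000000000000000 0x8000000080000000c000000cc000000e6000001fe000000ff000000ee00000020 8 9) 0 0 (step_sound _ 69 [(rh3c3e23a02e82b2ed.shift 1 2), (rh5c5a2014709044d0.shift 1 2), (rh75ea294132184f25.shift 2 2), rhd9dc983537091330, (rhe80b1265aa879ad7.shift 1 2)] (by decide +kernel))
noncomputable def rh704aab2c1ac423df : CRef := CRef.mk (Pat.mk 0x80000000800000008000000000000000000000000 0x1c0000001c0000007c0000001f0000007c0000001f0000000c0000000400000004 8 7) 0 0 (step_sound _ 162 [rh4217572abca5e8b6, (rh9368f88e3bb12f68.shift 0 2), (rhf9a6286f1d5377a2.shift 2 2)] (by decide +kernel))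
noncomputable def rh02c476f52854392c : CRef := CRef.mk (Pat.mk 0x1000000030000000200000002000000000 0x400000024000000fe000000fe000000ef0000007c00000058 8 8) 0 0 (step_sound _ 99 [rh148a6667ad5dbb7e, (rh3ce854f4a795c89f.shift 1 2), (rh80c7f27eb96dfa77.shift 2 0)] (by decide +kernel))
noncomputable def rh94fbbb509efbe882 : CRef := CRef.mk (Pat.mk 0x2000000060000000400000004000000000 0x20000000200000003f000001fe000003de000000f800000010 8 10) 0 0 (step_sound _ 165 [(rh2145e1d24b96a57e.shift 5 2), rhf3c30527e4264ac3] (by decide +kernel))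
noncomputable def rh4207c341bfc07264 : CRef := CRef.mk (Pat.mk 0xc00000018000000000000001000000000 0x4000000040000001f0000003f0000001b000000f20000003c00000028 8 8) 0 0 (step_sound _ 129 [rh32e28d4259b94f6c, (rhb739f4f82bb681b4.shift 0 3)] (by decide +kernel))
noncomputable def rhb5d396ebd9494462 : CRef := CRef.mk (Pat.mk 0xc00000018000000000000001000000000 0x8000000080000007c0000007e000000770000001e0000000c 8 7) 0 0 (step_sound _ 101 [rh20812ec0c0df6de0, (rhf48373e13d2bc128.shift 2 3)] (by decide +kernel))
noncomputable def rh1b49cf5f240859b5 : CRef := CRef.mk (Pat.mk 0xc000000180000000000000000 0x500000007000000070000003f0000001f0000000700000007 8 6) 0 0 (step_sound _ 97 [rh90b0d82b05c000f8, (rhb739f4f82bb681b4.shift 0 2)] (by decide +kernel))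
noncomputable def rh0628b4214409415e : CRef := CRef.mk (Pat.mk 0x10000000100000001000000010000000000000000000000000 0x1000000030000003f7000001fe000001ef0000004000000040 8 10) 0 0 (step_sound _ 101 [(rh55afc6a59410cf00.shift 4 2), rh5e629bed98645ee0] (by decide +kernel))
noncomputable def rh5e5afe9bb6262be6 : CRef := CRef.mk (Pat.mk 0x800000008000000080000000800000000 0x40000000c0000000c0000003f0000007f00000017 8 7) 0 0 (step_sound _ 36 [rh3d4fdf1de4ce7d4b, (rh55afc6a59410cf00.shift 3 0)] (by decide +kernel))
noncomputable def rha18d0a7a03848c24 : CRef := CRef.mk (Pat.mk 0x100000000000000008000000080000000800000000 0x1c0000001c0000000c0000003c0000000f0000000e 8 6) 0 0 (step_sound _ 131 [rh9973966041d34f51, (rhbaefcd01e0a8bca3.shift 3 1)] (by decide +kernel))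
noncomputable def rh6b6aba7b667f3a30 : CRef := CRef.mk (Pat.mk 0x100000000000000018000000080000000800000000 0x30000000700000007e000000ff000000ff00000010 8 8) 0 0 (step_sound _ 68 [rh0ddaf28682a56d39, (rhee230b994cc8b773.shift 3 1)] (by decide +kernel))
noncomputable def rhb4337a23074ac302 : CRef := CRef.mk (Pat.mk 0x300000001000000010000000000000000000000000 0x3000000030000000ff000000fe0000003f00000028 8 8) 0 0 (step_sound _ 68 [(rh21574c04c88fbf88.shift 0 1), (rh8c3839f9b9075f23.shift 4 0), (rha8bc3cae4d77a08f.shift 3 0)] (by decide +kernel))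
noncomputable def rh9b52ac4fe5b68b47 : CRef := CRef.mk (Pat.mk 0x1000000018000000000000000800000008 0x60000000fe000001fe000001f00000007f0000007f 8 9) 0 0 (step_sound _ 36 [(rh3c88ce959c0e423f.shift 3 0), rha26c4a0008913eca] (by decide +kernel))
noncomputable def rh4b8dfca85d673651 : CRef := CRef.mk (Pat.mk 0x1000000018000000000000000000000000 0x2000000060000000fe000000ff000001fe000001f00000006000000020 8 9) 0 0 (step_sound _ 133 [(rh0bb882ba86b2372d.shift 1 3), (rh56963e880b9fc5a3.shift 1 0), (rh574fdbf07bdd18b9.shift 1 3), (rhd3c3a46087b5f04b.shift 0 1)] (by decide +kernel))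
noncomputable def rhfc34a5580ed8bb4f : CRef := CRef.mk (Pat.mk 0x4000000040000000400000000 0xa0000003e0000003f0000003f0000000c0000000c00000008 8 6) 0 0 (step_sound _ 130 [(rh1741680720c097b4.shift 1 1), rh29e3ae7b8b185495, (rh5abfc4c9d959be03.shift 1 0), (rhced6d86d2069808b.shift 2 0)] (by decide +kernel))
noncomputable def rh89d31a2740357fb2 : CRef := CRef.mk (Pat.mk 0x2000000030000000000000001000000010 0x20000003ff000001fe000003c80000007c000000f8 8 10) 0 0 (step_sound _ 99 [(rh3e0b38310ac09007.shift 0 3), (rha11dfd15f08f96e3.shift 2 3), rhb764fc2a32ca857c, (rhbb230affd71b6a12.shift 2 0)] (by decide +kernel))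
noncomputable def rhfd0ccaa93c80fb5f : CRef := CRef.mk (Pat.mk 0x8000000080000000c0000000400000000 0x300000003000000038000000780000003f0000007f00000078 8 7) 0 0 (step_sound _ 100 [rh20bb62adcec3c962, (rh574fdbf07bdd18b9.shift 0 2), (rh6c9ce62364cebb87.shift 1 0), rh82c32eec533ffa4c] (by decide +kernel))
noncomputable def rh3644b3642b6250d7 : CRef := CRef.mk (Pat.mk 0x1000000000000000180000000c000000000000000000000000 0x280000003c000000f0000000180000003f0000007f0000003000000030 8 8) 0 0 (step_sound _ 97 [(rh53b3c253cb0c65f4.shift 0 3), rh9848a9a9cbea51da] (by decide +kernel))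
noncomputable def rhc3a9a7f975145828 : CRef := CRef.mk (Pat.mk 0x8000000000000000c000000060000000000000000 0x1000000018000000380000003f0000007e0000007c00000008 8 7) 0 0 (step_sound _ 100 [(rh18965a982d73c794.shift 1 2), rh3c2bbf16f57bf213] (by decide +kernel))
noncomputable def rh2cf78355ed2993e9 : CRef := CRef.mk (Pat.mk 0x4000000000000000e00000002000000000 0x100000001d0000001f000000197000000fe000001fe00000020 8 9) 0 0 (step_sound _ 68 [(rh11d36b4d0f48454e.shift 3 0), (rh1942c70cd1862f9d.shift 0 1), (rh5e0bd0e5e80a22dc.shift 3 1), (rhed95296174ee961f.shift 2 1)] (by decide +kernel))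
noncomputable def rh44485c6db8be2b6c : CRef := CRef.mk (Pat.mk 0x4000000000000000e00000000000000000000000000000000 0x240000003c0000003f000000780000001f0000003c0000001c0000000c00000004 8 7) 0 0 (step_sound _ 164 [(rh03db4a31433599ab.shift 0 2), (rh834ef1c974e4840e.shift 0 1), (rhb8022f71dc28021b.shift 0 4), (rhd87a159ef0cd3497.shift 0 3), rhf594241a9646d621, (rhf96eeb78f532f077.shift 1 2)] (by decide +kernel))
noncomputable def rh9988da67207d00e9 : CRef := CRef.mk (Pat.mk 0x100000000000000008000000080000000000000000 0x100000001800000018000000180000001f0000007c0000003c00000014 8 7) 0 0 (step_sound _ 131 [(rh17d7303830c72081.shift 2 0), (rh87d5e4118780fa3b.shift 3 1), (rh9b70f74acf52addc.shift 0 1), (rhab8668a01a2dafbf.shift 1 1)] (by decide +kernel))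
noncomputable def rhccbbf1d240d4b456 : CRef := CRef.mk (Pat.mk 0x800000008000000080000000000000010 0xc0000000c0000000c0000003c0000001f0000001e 8 6) 0 0 (step_sound _ 35 [rh9973966041d34f51, (rhd3458b32566d63f7.shift 3 0)] (by decide +kernel))
noncomputable def rh71b388b242d8d8f9 : CRef := CRef.mk (Pat.mk 0x8000000080000000800000000 0x1c0000001c0000001e000000780000001f0000001c00000008 8 7) 0 0 (step_sound _ 131 [(rh1741680720c097b4.shift 2 1), (rh305945700f20b255.shift 1 0), (rh63903c93fd7baa8d.shift 1 1), (rh954185ca08f45d84.shift 0 1)] (by decide +kernel))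
noncomputable def rh0882c4ea0eba73dd : CRef := CRef.mk (Pat.mk 0x400000004000000040000000400000000 0x3a0000003f0000003f0000000c0000000c00000008 8 6) 0 0 (step_sound _ 35 [(rh3949a9a3df047322.shift 0 1), (rh55afc6a59410cf00.shift 2 0)] (by decide +kernel))
noncomputable def rh83b2042aaed44dad : CRef := CRef.mk (Pat.mk 0x800000008000000000000001000000000 0x140000001c0000001c0000003c0000000f000000380000001f0000001c 8 6) 0 0 (step_sound _ 67 [(rh8a3dccad1db54ca6.shift 2 0), rha8d0a6dcf43611fb, rhdb9fb32389dea509, (rhde061a0c3cca9b80.shift 2 1)] (by decide +kernel))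
noncomputable def rh3a78ef9d535450f1 : CRef := CRef.mk (Pat.mk 0x800000008000000080000000800000000 0xf7000000fe0000007e0000000c0000000c00000004 8 8) 0 0 (step_sound _ 132 [(rh2f68792b6b779e96.shift 3 1), rhcbe59f36b13bc4f9] (by decide +kernel))
noncomputable def rh5dc35b0fd3465ba2 : CRef := CRef.mk (Pat.mk 0x80000000800000018000000000000001000000000 0x180000007c000000ff000000f70000003000000020 8 8) 0 0 (step_sound _ 132 [(rh9e07f76261b05888.shift 3 1), rhfe1b5253aee3fece] (by decide +kernel))
noncomputable def rh1ba1a52c6e4373d2 : CRef := CRef.mk (Pat.mk 0x4000000040000000c 0xa0000000e0000000e0000003e0000003f0000003f0000000e0000000e 8 6) 0 0 (step_sound _ 98 [(rh1741680720c097b4.shift 1 0), rh3949a9a3df047322, (rh7814e101873e2401.shift 1 0)] (by decide +kernel))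
noncomputable def rh6655dfd16e3d94da : CRef := CRef.mk (Pat.mk 0x40000000400000000000000020000000000000000 0xa0000000f0000000f00000007000000060000000600000007000000070000000300000002 8 4) 0 0 (step_sound _ 97 [(rh324edfe3a3d55a46.shift 0 1), (rh53c798c09177b7db.shift 1 0), (rh6bd8f56ce05e09d3.shift 1 2), (rh81604a196d691a11.shift 1 0), (rhe83f0679b86b6627.shift 1 0)] (by decide +kernel))
noncomputable def rh1187222a685a80ea : CRef := CRef.mk (Pat.mk 0x80000000800000000000000040000000000000000 0x140000001e0000001e0000000e0000000c0000000c0000000f0000003e0000001600000004 8 6) 0 0 (step_sound _ 98 [(rh1f6cd962078857e2.shift 0 1), (rh324edfe3a3d55a46.shift 1 1), (rh53c798c09177b7db.shift 2 0), (rh6bd8f56ce05e09d3.shift 2 2), (rh81604a196d691a11.shift 2 0)] (by decide +kernel))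
noncomputable def rha63755de940dbc39 : CRef := CRef.mk (Pat.mk 0x40000000400000006000000020000000000000000000000000 0x1000000058000003df000000fe000001be000000b80000003800000018 8 10) 0 0 (step_sound _ 69 [rh2f00bd90e65313e2, (rh71222050f2c63a3a.shift 5 1)] (by decide +kernel))
noncomputable def rhe6ff3de661e6b7ad : CRef := CRef.mk (Pat.mk 0x20000000300000001000000010 0x280000007c000001ef000000fc0000001c00000010 8 9) 0 0 (step_sound _ 133 [rh460b367d8ce6d82b, (rh5c5e593799055d58.shift 4 1)] (by decide +kernel))
noncomputable def rh92c059ee1b599eba : CRef := CRef.mk (Pat.mk 0x400000004000000040000000400000000 0x3a0000003f0000003f0000000c0000000c00000008 8 6) 0 0 (step_sound _ 131 [(rh2f68792b6b779e96.shift 2 1), rh8aa4f3cbff0388a0] (by decide +kernel))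
noncomputable def rha920bb7694b4bb88 : CRef := CRef.mk (Pat.mk 0x400000004000000040000000000000002 0x1c0000003c0000000f0000000c0000000e0000000e 8 6) 0 0 (step_sound _ 34 [rh6d73dc56ab282715, (rh79877ebd3ef475dd.shift 1 0)] (by decide +kernel))
noncomputable def rh35e491fddc499c49 : CRef := CRef.mk (Pat.mk 0x200000002000000020000000200000000 0x40000000700000007000000070000000600000006000000060000000600000004 8 3) 0 0 (step_sound _ 130 [(rh2f68792b6b779e96.shift 1 1), rh3281f54abbf437c4] (by decide +kernel))
noncomputable def rh5753f2f5edd045b6 : CRef := CRef.mk (Pat.mk 0x200000003000000000000000100000001000000000 0x1fe000000fe0000002f000000ff000000fe00000004 8 9) 0 0 (step_sound _ 69 [(rh3c88ce959c0e423f.shift 4 1), rhd6525278028f077b] (by decide +kernel))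
noncomputable def rhe7f27eab3b4920ad : CRef := CRef.mk (Pat.mk 0x3000000010000000000000000000000000 0x80000001f000000ff000001fe000000fe0000003800000028 8 9) 0 0 (step_sound _ 99 [rh40f5bb43660177b9, (rh69012675dfdb1a5b.shift 1 3), (rhd69c262cd33b94b3.shift 1 3), (rhfb2a690194cafe6b.shift 1 0)] (by decide +kernel))
noncomputable def rh810cc872e7913612 : CRef := CRef.mk (Pat.mk 0x100000001000000010000000000000000000000000 0x80000001800000018000000ff000000fe0000003f00000028 8 8) 0 0 (step_sound _ 68 [(rh5f87faa23d848e4b.shift 0 1), (rh6eff4158bb400f47.shift 3 0), (rh8ff3dde5b1c639e0.shift 3 0), (rhc4526fc8abf298b6.shift 3 0)] (by decide +kernel))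
noncomputable def rh91a0b721b813a9d5 : CRef := CRef.mk (Pat.mk 0x20000000200000000000000030000000100000000000000000 0x7c000000f80000004f000001ff000003ff0000001000000010 8 10) 0 0 (step_sound _ 102 [rh06e2d7753271b4c4, (rh1b9fee28ff415ba9.shift 0 2), (rh2820ca9a6c4f41b4.shift 1 2), (rhb02f9c2bd63f56db.shift 3 2)] (by decide +kernel))
noncomputable def rh2ee6c078b145a547 : CRef := CRef.mk (Pat.mk 0x1000000010000000100000001000000000 0x2f0000007e000000ff000000100000003000000020 8 8) 0 0 (step_sound _ 131 [(rh50fbb5868c909700.shift 3 1), rhf7dc9e7b1c679ab9] (by decide +kernel))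
noncomputable def rh4f170d9d63bde4b7 : CRef := CRef.mk (Pat.mk 0x2000000030000000100000001000000000000000000000000000000000 0x180000007c000000fc0000001e0000007c0000002f0000000c0000000400000004 8 8) 0 0 (step_sound _ 163 [rh1a1224e77948752b, (rhd69c262cd33b94b3.shift 1 5), (rhef1fef9b2fe09d8c.shift 2 3)] (by decide +kernel))
noncomputable def rhfdd378db7824bcea : CRef := CRef.mk (Pat.mk 0x180000000c000000000000000400000000 0x6000000060000007e0000007f0000003c000000060000000600000002 8 7) 0 0 (step_sound _ 133 [(rh18965a982d73c794.shift 2 3), rh78d2a77f6be2dcc6] (by decide +kernel))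
noncomputable def rh1d039af9ad0d2573 : CRef := CRef.mk (Pat.mk 0x30000000180000000000000008 0x280000003800000038000000380000003f0000007e0000002e0000000c 8 7) 0 0 (step_sound _ 66 [(rh53b3c253cb0c65f4.shift 1 2), rhc6765c802a89117a] (by decide +kernel))
noncomputable def rh4ca1c89d5a72fd47 : CRef := CRef.mk (Pat.mk 0x20000000380000000000000010000000000000000000000000 0x100000003c000001fc000000f80000004f0000007c0000005f0000001c00000014 8 9) 0 0 (step_sound _ 131 [rh8c18b78dd6bcba35, (rh8eea156ffecb6be4.shift 2 4), (rha92d25a5b204b788.shift 2 2), (rhbb7c90501078650c.shift 2 1), rhcd76a36e2c7876bd] (by decide +kernel))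
noncomputable def rhfc559b900e4b909a : CRef := CRef.mk (Pat.mk 0x8000000080000000800000008000000000000000000000000 0x180000001c0000001c0000001f0000001c0000001800000008 8 5) 0 0 (step_sound _ 98 [rh3e51274fad547b14, (rh932754581e0f4330.shift 2 2)] (by decide +kernel))
noncomputable def rhc598ade8f3b6b7a0 : CRef := CRef.mk (Pat.mk 0x20000000200000002000000000000000000000000 0x400000006000000070000000700000007000000070000000700000007 8 3) 0 0 (step_sound _ 66 [rh0fd65e3cf503e830, (rh11a3db031c212ca4.shift 0 1), (rh2977b00063528966.shift 1 0), (rh47dece01c1595e79.shift 1 0), rh4894bba141ca3bfd] (by decide +kernel))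
noncomputable def rh361e9eb3a41b2c44 : CRef := CRef.mk (Pat.mk 0x3000000018000000100000000000000000 0x1c0000001f0000003c0000001e000000f80000003000000030 8 8) 0 0 (step_sound _ 98 [(rh53b3c253cb0c65f4.shift 1 3), rhb591837bf3b24512] (by decide +kernel))
noncomputable def rh5263137a31aba65f : CRef := CRef.mk (Pat.mk 0x180000000c0000000800000000 0x10000000180000003c0000006f0000007e0000007c0000001c00000018 8 7) 0 0 (step_sound _ 101 [(rh18965a982d73c794.shift 2 2), rh495ebfdfb30e8c83] (by decide +kernel))
noncomputable def rhc51d4bd657668b2d : CRef := CRef.mk (Pat.mk 0x4000000040000000400000000000000000000000000000000 0x60000000e0000000e0000000f0000003c0000000e0000000e000000060000000e0000000e0000000e 8 6) 0 0 (step_sound _ 195 [(rh0add70d8af670373.shift 1 0), (rh15590a39afd9a120.shift 1 1), (rh215e11e099257d75.shift 2 3), (rh7c926e9e0f3dd82b.shift 0 3)] (by decide +kernel))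
noncomputable def rhafcdfbbe69e6301e : CRef := CRef.mk (Pat.mk 0xc00000004000000040000000400000000 0x720000007f0000003f0000000c0000000c00000008 8 7) 0 0 (step_sound _ 129 [rh25c3f385b8b33a45, (rh50fbb5868c909700.shift 1 1)] (by decide +kernel))
noncomputable def rh78e315a98112eac6 : CRef := CRef.mk (Pat.mk 0x2000000020000000200000003000000000 0x100000003000000020000001f7000001fe000003ce 8 10) 0 0 (step_sound _ 38 [(rh55afc6a59410cf00.shift 5 0), rhf84d9097b89c7671] (by decide +kernel))
noncomputable def rhab48348ca7fc1b4a : CRef := CRef.mk (Pat.mk 0x800000008000000000000000400000000 0x40000001c0000001c0000001f000000380000001c0000001c0000001c 8 6) 0 0 (step_sound _ 67 [rh69aec307012104e0, (rhe16036ff578a11df.shift 2 1), (rhf4b53f8ba1873014.shift 2 0)] (by decide +kernel))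
noncomputable def rhdeaf1cc1b4b8791f : CRef := CRef.mk (Pat.mk 0x4000000040000000000000006000000020000000000000000000000000 0x40000001c000000787000003fe000007fe000003800000018000000100 8 11) 0 0 (step_sound _ 135 [(rh2820ca9a6c4f41b4.shift 2 3), (rhdc1641106d7e5aa2.shift 4 3), (rhf8e8c7d049b79c7d.shift 0 3), (rhfda5d98529f5ef7c.shift 4 0)] (by decide +kernel))
noncomputable def rha926caedf19da5b6 : CRef := CRef.mk (Pat.mk 0x1000000018000000080000000800000000 0xc0000000c0000000c000000ff0000007f0000000c0000000c00000004 8 8) 0 0 (step_sound _ 98 [(rh056e846e89b32726.shift 0 1), (rh1778294ed519f05a.shift 1 1), rh1f80c72d55a34491, (rha11dfd15f08f96e3.shift 1 3)] (by decide +kernel))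
noncomputable def rhfa478de624c980f4 : CRef := CRef.mk (Pat.mk 0x2000000030000000000000001000000000 0x280000007c000001ef0000007c000000d80000005000000010 8 9) 0 0 (step_sound _ 68 [(rh68d1169f76a8f9b9.shift 0 1), (rh71222050f2c63a3a.shift 4 0)] (by decide +kernel))
noncomputable def rh21a89099263c2760 : CRef := CRef.mk (Pat.mk 0x180000000c000000000000000400000000 0x140000001c0000001c0000007f0000007e0000006c000000260000000600000002 8 7) 0 0 (step_sound _ 133 [(rh18965a982d73c794.shift 2 3), rhc088bbe9c2d99fd9] (by decide +kernel))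
noncomputable def rh4d2b8d73fbf8d523 : CRef := CRef.mk (Pat.mk 0x30000000180000000000000008 0x280000003800000038000000300000003f000001fe000001e800000028 8 9) 0 0 (step_sound _ 66 [(rh53b3c253cb0c65f4.shift 1 2), rhcdde82d09a3fb4d7] (by decide +kernel))
noncomputable def rhee572bdaecb5714d : CRef := CRef.mk (Pat.mk 0xc00000006 0x3000000030000003f0000003f00000007 8 6) 0 0 (step_sound _ 36 [(rh18965a982d73c794.shift 1 0), rh1abb8dda3f9ec076] (by decide +kernel))
noncomputable def rhdffab1ad31680306 : CRef := CRef.mk (Pat.mk 0x30000000180000000000000000 0xc0000002c000000fe000000ff000000f8000000c0000000c0 8 8) 0 0 (step_sound _ 102 [(rh18965a982d73c794.shift 3 2), rh7f378f4460177d34] (by decide +kernel))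
noncomputable def rha74c67ef57cef2cc : CRef := CRef.mk (Pat.mk 0x180000000c000000000000000400000000 0x60000000e0000000f0000001f000000ff000000f20000001600000006 8 8) 0 0 (step_sound _ 97 [(rh53b3c253cb0c65f4.shift 0 3), rhfb947bf93728ac87] (by decide +kernel))
noncomputable def rh28b94a7d615f8eb4 : CRef := CRef.mk (Pat.mk 0x100000001000000018000000000000000000000000 0x16000000770000007f000001ff0000007c0000002c 8 9) 0 0 (step_sound _ 67 [(rh42548283029e2a39.shift 3 0), rhb0bfb45804bf496c, rhc17d8535022b7c9f] (by decide +kernel))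
noncomputable def rh36f76fa08fe31c6d : CRef := CRef.mk (Pat.mk 0x800000008000000080000000c000000000000000000000000 0x40000000c0000001c0000003c0000000f000000180000001800000018 8 6) 0 0 (step_sound _ 194 [rh12a80cf06c561a62, (rh50fbb5868c909700.shift 2 3)] (by decide +kernel))
noncomputable def rh76c9124f8ac7d024 : CRef := CRef.mk (Pat.mk 0x100000001000000030000000200000000000000000 0x100000001f000000fe000001ef0000007c00000028 8 9) 0 0 (step_sound _ 37 [(rh7b1f1fb55310c477.shift 4 0), rhb2d80fc93059a271] (by decide +kernel))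
noncomputable def rh3d4a2972c1712414 : CRef := CRef.mk (Pat.mk 0x800000008000000180000001000000000 0x30000000320000003f0000001f0000007f0000007600000024 8 7) 0 0 (step_sound _ 98 [(rh0fcb228d13e9ff47.shift 1 0), (rh5c5a2014709044d0.shift 0 2), rhd4ca68a3fd4d7772] (by decide +kernel))
noncomputable def rh44f014140cfb6637 : CRef := CRef.mk (Pat.mk 0x800000008000000180000000000000000 0x1000000018000000180000007c0000001f0000007c0000006e00000004 8 7) 0 0 (step_sound _ 98 [(rh5350a5c3672f0581.shift 0 1), (rh6e3ab356061e5def.shift 1 0), (rhb0121edee88fe839.shift 0 2)] (by decide +kernel))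
noncomputable def rh5b0552d861d930ad : CRef := CRef.mk (Pat.mk 0x4000000080000000800000008 0x2000000170000003f0000003f0000000c0000000c 8 6) 0 0 (step_sound _ 99 [(rh50fbb5868c909700.shift 2 0), rh5efd2f99a4638dcf] (by decide +kernel))
noncomputable def rh5dab0d94ea966c82 : CRef := CRef.mk (Pat.mk 0x800000008000000080000000800000000 0x1000000018000000080000003f000000ff000000f4 8 8) 0 0 (step_sound _ 36 [(rh55afc6a59410cf00.shift 3 0), rh76e5cc803f85552a] (by decide +kernel))
noncomputable def rhc2cfd9278499c975 : CRef := CRef.mk (Pat.mk 0x2000000020000000200000002000000000 0x2000000020000003bf000001fe000003de 8 10) 0 0 (step_sound _ 36 [(rh932754581e0f4330.shift 4 0), rhbe47a2f1d7535d8f] (by decide +kernel))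
noncomputable def rh4db8c16c5868ab18 : CRef := CRef.mk (Pat.mk 0x8000000080000000800000000000000000000000000000000 0x140000001c0000001c0000001e0000007c0000001f0000000c0000000c0000001c0000001c00000014 8 7) 0 0 (step_sound _ 196 [(rh09bdb1135bcee1c1.shift 0 3), (rh15590a39afd9a120.shift 2 1), (rha2d608bbf475f0c5.shift 2 0), (rhccfa8390619f1805.shift 2 1)] (by decide +kernel))
noncomputable def rh4fe49759c930b494 : CRef := CRef.mk (Pat.mk 0x1000000010000000100000003000000000 0x1ef000000fe000000f70000007e000000f000000180 8 9) 0 0 (step_sound _ 133 [(rh2f68792b6b779e96.shift 4 1), rhe05c43516263f44c] (by decide +kernel))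
noncomputable def rh72f61e2f0d2de44e : CRef := CRef.mk (Pat.mk 0x10000000100000001000000030000000000000000000000000 0x2000000030000000180000007f0000007e0000000f0000000400000004 8 7) 0 0 (step_sound _ 197 [(rh2f68792b6b779e96.shift 4 3), rh8ce98df40524a715] (by decide +kernel))
noncomputable def rhcdc5dbba47dccc7e : CRef := CRef.mk (Pat.mk 0x400000004000000040000000400000000 0x7a0000007f0000003e0000000c0000000c00000008 8 7) 0 0 (step_sound _ 35 [(rh55afc6a59410cf00.shift 2 0), (rh58ab4f66efeaa15c.shift 0 1)] (by decide +kernel))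
noncomputable def rh3e9dcfbd2a6be8b6 : CRef := CRef.mk (Pat.mk 0x100000001000000018000000000000000000000000 0x120000007f0000007f0000007f0000003c0000002c 8 7) 0 0 (step_sound _ 67 [(rh42548283029e2a39.shift 3 0), rhb0bfb45804bf496c, (rhf9af042da61fc652.shift 3 0)] (by decide +kernel))
noncomputable def rh46bfeac12989f258 : CRef := CRef.mk (Pat.mk 0x100000001800000008000000080000000000000000 0x6000000770000007f0000007f0000000f0000000400000004 8 7) 0 0 (step_sound _ 98 [(rh69012675dfdb1a5b.shift 0 3), (rhea1b5039f46f25ec.shift 1 2), rhfa5d57a93a29da68] (by decide +kernel))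
noncomputable def rhb9fbe60b8bc385eb : CRef := CRef.mk (Pat.mk 0x20000000300000001000000000 0x7e0000007c000001fe000001ff000003bf0000002c 8 10) 0 0 (step_sound _ 133 [(rh5c5e593799055d58.shift 4 1), rhdb4a4d7d17d96ede] (by decide +kernel))
noncomputable def rh041f157b4a96073e : CRef := CRef.mk (Pat.mk 0x100000001800000008000000080000000000000000 0x6000000370000007f000000ff0000007f0000003600000012 8 8) 0 0 (step_sound _ 98 [(rh03bd3de0eda75619.shift 0 2), rhaab89d8396fbf464, (rhd56889e682b5152d.shift 1 1), (rhd69c262cd33b94b3.shift 0 3)] (by decide +kernel))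
noncomputable def rhb4b46e5d14d485b2 : CRef := CRef.mk (Pat.mk 0x1000000018000000080000000000000000 0x1000000050000000df000000fe000000ff0000002000000020 8 8) 0 0 (step_sound _ 164 [(rh5c5e593799055d58.shift 3 2), rhbf6c784b634046f2] (by decide +kernel))
noncomputable def rh424d938adeacf699 : CRef := CRef.mk (Pat.mk 0x8000000080000000c00000004000000000000000000000000 0x140000003c0000007f000000fe000000ef0000003a0000001800000018 8 8) 0 0 (step_sound _ 132 [(rh55341ceeabf85104.shift 1 0), rh77b2701a1bc52e80, (rha83d0a1d851c6a27.shift 1 3)] (by decide +kernel))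
noncomputable def rh7a508e2e0ce0ae8d : CRef := CRef.mk (Pat.mk 0x80000000c000000040000000400000000 0x6000000760000007f0000003f0000003c0000000f0000000a 8 7) 0 0 (step_sound _ 132 [(rh69012675dfdb1a5b.shift 0 3), (rh81371391c3ab18f9.shift 1 0), rhb0ab2009c821a7bc] (by decide +kernel))
noncomputable def rh0c4a0613805c431c : CRef := CRef.mk (Pat.mk 0x1000000010000000080000000000000000 0xc0000001c0000001c0000001e000000ff000000ff0000003c0000001c 8 8) 0 0 (step_sound _ 99 [rh271ac9a0ccf7c588, (rh92c5866cf4cb982e.shift 1 1), (rhaf278bcf347a0eec.shift 2 0), (rhe3368c953b8cbe7f.shift 0 1)] (by decide +kernel))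
noncomputable def rhc54beeae6290c0c8 : CRef := CRef.mk (Pat.mk 0x4000000060000000200000002000000000 0x10000003b8000003ff0000007e0000003e000000f800000050 8 10) 0 0 (step_sound _ 132 [(rh3cda02577b6bba53.shift 0 1), (rh62d566778efe684d.shift 2 0), (rhaa54358cfc235fa3.shift 2 0), (rhbab796f6dafe9186.shift 4 1), (rhe900109b898506d7.shift 2 1)] (by decide +kernel))
noncomputable def rhdcd0df241792dd6e : CRef := CRef.mk (Pat.mk 0x100000001800000008000000080000000000000000 0x6000000064000000f60000007e000001ef000000e8000000e0000000a0 8 9) 0 0 (step_sound _ 133 [(rh2820ca9a6c4f41b4.shift 0 3), (rha8e118612a5545ec.shift 1 2), (rhc855e125f4247125.shift 2 1), (rhe724be64cae83bf2.shift 2 0)] (by decide +kernel))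
noncomputable def rh24489e57cccd618a : CRef := CRef.mk (Pat.mk 0x80000000c00000004000000000000000000000000 0x1c0000001e000000780000001f0000003c000000180000001800000008 8 7) 0 0 (step_sound _ 195 [(rh5c5e593799055d58.shift 2 3), rh936d970e6aeb11da] (by decide +kernel))
noncomputable def rh9faeaf6c6d430213 : CRef := CRef.mk (Pat.mk 0x80000000800000008000000040000000000000000 0x180000007c0000001f0000001f0000003c0000001800000018 8 7) 0 0 (step_sound _ 68 [rh010247836776a37e, (rh2977b00063528966.shift 3 0), (rh2f6cd3183cec8379.shift 2 2)] (by decide +kernel))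
noncomputable def rh150f178fd744486c : CRef := CRef.mk (Pat.mk 0x80000000800000008000000040000001000000000 0x170000003f0000003f0000000c0000000c0000001800000010 8 6) 0 0 (step_sound _ 67 [(rh26de692f03d4cb57.shift 0 2), (rh46137ff9626501bb.shift 2 0), (rh5ee4dc8825dcefa0.shift 0 1), (rh9f113608394b30d0.shift 3 0)] (by decide +kernel))
noncomputable def rhcb2b43c5ca85b512 : CRef := CRef.mk (Pat.mk 0x100000001000000010000000080000002000000000 0x1c000000ff000000fe000001ef0000006000000060 8 9) 0 0 (step_sound _ 101 [(rh3b5346b2e316d790.shift 4 0), (rhb87368c4ab892963.shift 1 0), (rhbf9426d6ac266d57.shift 1 1), rhefbabe4ef52e79ef] (by decide +kernel))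
noncomputable def rh84a503cf86a9fc4c : CRef := CRef.mk (Pat.mk 0x200000003000000018000000000000000000000000 0xc0000000c0000006e0000003f0000001f0000001f0000001c0000001c 8 7) 0 0 (step_sound _ 131 [rh3721570b93f317e9, (rh37ed05a0c9e74c8f.shift 1 1), (rhf0ab1ab592ea3c19.shift 0 3)] (by decide +kernel))
noncomputable def rh4c5ce94480f60dfc : CRef := CRef.mk (Pat.mk 0x2000000020000000180000000000000000 0x180000007c000000ff0000007e000000f000000070 8 8) 0 0 (step_sound _ 100 [(rh0bb882ba86b2372d.shift 1 2), (rh4e1d9d0df8239e12.shift 2 0), rhe32a2d5d057d7bca] (by decide +kernel))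
noncomputable def rhb547ff4e707ab09f : CRef := CRef.mk (Pat.mk 0x10000000100000001c000000000000000000000000 0x800000018000000180000001f0000003f0000003800000028 8 6) 0 0 (step_sound _ 68 [(rh6aa5625770489e83.shift 3 0), (rhbdde238153e38af9.shift 1 1), rhd814c08c4ef3e6c7] (by decide +kernel))
noncomputable def rhbce293094b561f9f : CRef := CRef.mk (Pat.mk 0x10000000180000000c00000000 0xe0000000f0000007f0000007e0000007c00000004 8 7) 0 0 (step_sound _ 69 [(rh18965a982d73c794.shift 2 1), rh6c598f42cf2084a3] (by decide +kernel))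
noncomputable def rh90fac272eb7fa08e : CRef := CRef.mk (Pat.mk 0x200000002000000018000000100000000000000000 0x50000001f40000003e000001fe000000ff0000006f00000008 8 9) 0 0 (step_sound _ 69 [(rh3c3e23a02e82b2ed.shift 1 2), (rh752d3bfc0358ea0e.shift 1 0), rhb8a1d3bda59c6780, (rhfdfeb5c085d24dd8.shift 2 1)] (by decide +kernel))
noncomputable def rh573ff139b71e3d26 : CRef := CRef.mk (Pat.mk 0x800000018000000060000000000000000 0x400000004000000160000001f0000007a0000001e0000000a00000008 8 7) 0 0 (step_sound _ 101 [rh68c16a39a3551660, (rh761e2e70c46f9564.shift 1 2), (rhf60aa8aede119d3b.shift 0 3)] (by decide +kernel))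
noncomputable def rha0946dc7933b126f : CRef := CRef.mk (Pat.mk 0x10000000300000000c0000000000000000000000000000000000000000 0x200000006e0000003e0000003e0000007c0000007f0000002e000000180000001800000010 8 7) 0 0 (step_sound _ 131 [(rh1ecc252676ecc754.shift 2 2), (rh53c798c09177b7db.shift 3 2), (rh720d803709b87ec1.shift 0 3), (rha9fe710bdcac5192.shift 2 0), (rhd0ea48050e50a3e4.shift 1 2)] (by decide +kernel))
noncomputable def rh4ce68f04a07b6612 : CRef := CRef.mk (Pat.mk 0x3800000000000000000000000000000000 0xc0000000c0000000f0000003e0000007f0000000e0000000e0000000a 8 7) 0 0 (step_sound _ 130 [(rh06c54508efd5b78e.shift 1 0), (rh0d378fd9e8917c5a.shift 0 3), (rh185f35b8bd8ec37f.shift 0 3), (rh592c7139d2c44767.shift 0 3)] (by decide +kernel))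
noncomputable def rheba37ead179ed931 : CRef := CRef.mk (Pat.mk 0x200000002000000038000000000000000000000000 0x80000007c0000002f000000f8000000fc0000005000000050 8 8) 0 0 (step_sound _ 68 [(rh42548283029e2a39.shift 4 0), rh434087ecb3bf0158, (rha475531719705764.shift 2 0)] (by decide +kernel))
noncomputable def rh2f3a3db59fc22a10 : CRef := CRef.mk (Pat.mk 0x100000001000000018000000080000000000000000 0xc0000003e000000ff000000fe000000cf0000004600000040 8 8) 0 0 (step_sound _ 133 [(rh0bb882ba86b2372d.shift 1 3), (rh574fdbf07bdd18b9.shift 1 3), rha139a0473f4a94d0, (rhbf96dbc5b6297256.shift 0 1)] (by decide +kernel))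
noncomputable def rh7b15a2cbe75b7772 : CRef := CRef.mk (Pat.mk 0x100000003800000000 0x3f7000001fe000001c7 8 10) 0 0 (step_sound _ 34 [rh592c7139d2c44767, (rhbde7df1047197f39.shift 1 0), (rhec46bd5500c722c9.shift 1 1)] (by decide +kernel))
noncomputable def rh09aaf063d3c5ad12 : CRef := CRef.mk (Pat.mk 0x80000000800000004000000000000000000000000 0x4000000140000001e0000007e0000007c0000001f0000007c0000001c00000004 8 7) 0 0 (step_sound _ 99 [(rh5156e7176b703a30.shift 0 1), (rh51b6c1193f55e78c.shift 0 1), (rhfafeb437ceb8396d.shift 2 0)] (by decide +kernel))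
noncomputable def rh391c8afdabd79fa7 : CRef := CRef.mk (Pat.mk 0x400000004000000060000000200000000000000000 0x80000000c8000000cc000001ff000001fc000000d000000090 8 9) 0 0 (step_sound _ 68 [(rh0bb882ba86b2372d.shift 2 2), (rh4bae17a3737c7fc2.shift 3 0), (rh69012675dfdb1a5b.shift 2 2), rh8a83130238af6cbf] (by decide +kernel))
noncomputable def rhd5cd81c85547b78b : CRef := CRef.mk (Pat.mk 0x1000000010000000100000000000000000000000000000000000000000 0x180000003c000000ff000000fe0000003f000000380000003800000020 8 8) 0 0 (step_sound _ 132 [(rh21574c04c88fbf88.shift 0 3), (rh43000f16a4e76173.shift 3 1), (rh6eff4158bb400f47.shift 3 2), (rh88dba91e210acf9e.shift 3 0), (rhe2e6c99f94cc8dc6.shift 2 2), (rhe84e00c98653ad0c.shift 3 1)] (by decide +kernel))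
noncomputable def rh616de9c9b1826290 : CRef := CRef.mk (Pat.mk 0x100000000000000008000000080000000800000000 0x1e0000001f0000003c0000000c0000000c0000000c 8 6) 0 0 (step_sound _ 131 [rh3b17dbb1355aeddf, (rhbaefcd01e0a8bca3.shift 3 1)] (by decide +kernel))
noncomputable def rhf586216b53ca888d : CRef := CRef.mk (Pat.mk 0x800000008000000080000000800000000 0xe0000000f0000003f0000007f0000000f00000006 8 7) 0 0 (step_sound _ 34 [rh4eb670395e2eb958, (rh932754581e0f4330.shift 2 0)] (by decide +kernel))
noncomputable def rh685a0a5800ef2c7f : CRef := CRef.mk (Pat.mk 0x1000000000000000080000000800000000000000000000000000000000 0x180000001c0000001c0000000f0000003c0000001c0000001c0000001c00000014 8 6) 0 0 (step_sound _ 195 [(rhdc75b37da3483bfa.shift 0 3), (rhdfdec3abc73f8c21.shift 2 0), (rhfed70eac6bc86d41.shift 2 2)] (by decide +kernel))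
noncomputable def rhe109a3e62780303c : CRef := CRef.mk (Pat.mk 0x200000002000000000000000300000001000000000 0xe0000000e0000001ce000000fe000001ff000000c0 8 9) 0 0 (step_sound _ 70 [(rh5b343709215b4192.shift 0 1), (rh6e783a87a95540f6.shift 3 0), (rhf0f55c4504412200.shift 1 1)] (by decide +kernel))
noncomputable def rh1b0acbfa0f0c4b78 : CRef := CRef.mk (Pat.mk 0x2000000030000000000000000000000000 0x2000000024000007f7000003fe000007cf0000004800000048 8 11) 0 0 (step_sound _ 99 [(rh67f65461111a323b.shift 2 0), rh98c7f86ac3daf90c, (rha11dfd15f08f96e3.shift 2 3), (rhb103f40a53fe1424.shift 0 2), (rhf5183d55e2daca0a.shift 1 0)] (by decide +kernel))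
noncomputable def rh50404f2406e84f85 : CRef := CRef.mk (Pat.mk 0x10000000100000001000000010000000000000000000000000 0x10000000100000001f000000ff000000fe0000000e0000000400000004 8 8) 0 0 (step_sound _ 99 [(rh932754581e0f4330.shift 3 2), rh9500c794ba8b729e] (by decide +kernel))
noncomputable def rheefb295621f115c7 : CRef := CRef.mk (Pat.mk 0x4000000000000000e000000020000000000000000 0x20000000380000003e000000380000001e0000003b0000001800000008 8 6) 0 0 (step_sound _ 100 [(rhd9acbd63e5902ec7.shift 1 0), (rheb0810cc63b001d8.shift 0 2)] (by decide +kernel))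
noncomputable def rh21fab61c870bd1ac : CRef := CRef.mk (Pat.mk 0x4000000000000000e000000020000000000000000000000000 0x40000001de000000fe000001bf000001c0000001c000000140 8 9) 0 0 (step_sound _ 132 [(rh01c040830a0e3366.shift 4 0), (rh775ca1963e850b80.shift 2 3), (rhb017a1319ebe3638.shift 0 3)] (by decide +kernel))
noncomputable def rh27d59b3dd0f2fea1 : CRef := CRef.mk (Pat.mk 0x100000000000000038000000000000000000000000 0x80000000e0000000f8000000f70000007e000001e00000006000000020 8 9) 0 0 (step_sound _ 70 [(rh0deb2ebc850de581.shift 2 1), (rh0f23a17930355bc9.shift 3 0), (rh71efda916732b25a.shift 2 2), (rhc88dbad8567ff01b.shift 0 2)] (by decide +kernel))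
noncomputable def rh3e20570c3b8a7909 : CRef := CRef.mk (Pat.mk 0x180000000c000000000000000000000000 0x3000000030000001f0000003f0000007f0000003400000030 8 7) 0 0 (step_sound _ 97 [(rh53b3c253cb0c65f4.shift 0 3), rh9450acc3751fb4b1] (by decide +kernel))
noncomputable def rha6741c8e0eb96d2e : CRef := CRef.mk (Pat.mk 0x200000000000000030000000180000000000000000 0xa0000000e0000000e0000000f0000003cf000000ff000000f8000000f0000000a0 8 10) 0 0 (step_sound _ 102 [(rh18965a982d73c794.shift 3 2), rhbb468a0fb66b5869] (by decide +kernel))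
noncomputable def rhb118997f4013549b : CRef := CRef.mk (Pat.mk 0x100000001000000010 0x200000003800000038000001ff000000ff000000fc0000003e00000018 8 9) 0 0 (step_sound _ 100 [(rh1741680720c097b4.shift 3 0), (rh1f25b33bbea643f0.shift 3 0), rh2059c7a12df91ac2, (rh435ead6b7ed7ff75.shift 3 0), (rhc4a8feffcdaf9613.shift 1 0), (rhe01cfd8f0577defd.shift 3 0)] (by decide +kernel))
noncomputable def rhd881631c7c1ed932 : CRef := CRef.mk (Pat.mk 0x10000000100000001000000010 0x40000002f000000ff000000fe0000001800000018 8 8) 0 0 (step_sound _ 101 [(rh2f68792b6b779e96.shift 4 0), rh4a953a83360d0f1b] (by decide +kernel))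
noncomputable def rh500f96bd67a31441 : CRef := CRef.mk (Pat.mk 0xc00000008000000080000000000000000 0x800000018000000380000001f0000007c0000001f0000000c00000004 8 7) 0 0 (step_sound _ 100 [(rh5de78c6f848da88a.shift 0 1), rh702f3fad38383819, (rhdeca8db941583de2.shift 0 3)] (by decide +kernel))
noncomputable def rh569cba7c8a2929f2 : CRef := CRef.mk (Pat.mk 0x40000000c000000040000000000000008 0x1e0000003f0000003f0000000c0000000c0000000800000008 8 6) 0 0 (step_sound _ 67 [(rh9e07f76261b05888.shift 2 0), (rhb2b357e068ce58c4.shift 0 2)] (by decide +kernel))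
noncomputable def rh9517357b38d6099f : CRef := CRef.mk (Pat.mk 0x80000001800000008000000000000001000000000 0x180000007c000000ff000000f70000003000000020 8 8) 0 0 (step_sound _ 100 [(rh9e07f76261b05888.shift 3 1), rhfe1b5253aee3fece] (by decide +kernel))
noncomputable def rh5c9cfe07c087a679 : CRef := CRef.mk (Pat.mk 0x8000000180000000800000000 0x140000001c0000001c0000001c00000018000000180000007c0000000f00000004 8 7) 0 0 (step_sound _ 131 [(rh35c5f1c53251aa1b.shift 2 1), (rh7b3828af614c0a71.shift 2 0), rh80650b8e93363f1e] (by decide +kernel))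
noncomputable def rh1853e448bad272b4 : CRef := CRef.mk (Pat.mk 0x100000003000000000000000200000002000000000 0xfc000001ff000003ce000000600000006000000040 8 10) 0 0 (step_sound _ 134 [(rh05e384b6cfae8b91.shift 1 1), (rh2c94f9db7e7d3608.shift 0 1), (rh78a8697fba378c13.shift 3 0), (rha7edc60fc34bffff.shift 2 4), (rhae8d21abc86b555a.shift 3 3), (rhca7a9642e2890640.shift 2 3)] (by decide +kernel))
noncomputable def rhf1c6d7ddbd329cc7 : CRef := CRef.mk (Pat.mk 0x800000008000000080000000800000000 0xf7000000fe0000007e0000000c0000000c00000004 8 8) 0 0 (step_sound _ 130 [(rh50fbb5868c909700.shift 2 1), rhf5e40e3c4d210e74] (by decide +kernel))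
noncomputable def rhe306cb1967357f1d : CRef := CRef.mk (Pat.mk 0x40000000c00000008000000080000000000000000 0x180000003e0000003f0000007b0000003f0000003600000030 8 7) 0 0 (step_sound _ 100 [(rh05132b1c08880bde.shift 0 1), (rh4189b75e9c0b9eda.shift 1 0), (rh4ca5dae25f5c14ff.shift 0 3), (rhf2d2137cae204fd2.shift 0 1)] (by decide +kernel))
noncomputable def rh8a23d7d5d1e6df4c : CRef := CRef.mk (Pat.mk 0x1000000030000000000000002000000000 0x1000000050000000dc000000fc000001ef0000007c00000028 8 9) 0 0 (step_sound _ 69 [(rh7b1f1fb55310c477.shift 4 0), rhf59a09c78aebb8bd] (by decide +kernel))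
noncomputable def rhd0f494f4dbb8a5b6 : CRef := CRef.mk (Pat.mk 0x1000000070000000000000002000000000 0x6000000070000000f0000000f8000000ff0000004f0000006800000060 8 8) 0 0 (step_sound _ 131 [rha099b8cb3dd0c9a6, (rhf48373e13d2bc128.shift 3 3)] (by decide +kernel))
noncomputable def rhadc65333656de586 : CRef := CRef.mk (Pat.mk 0x20000000e00000000000000040000000000000000 0x180000001b0000001f000000380000001e0000003c00000038 8 6) 0 0 (step_sound _ 132 [(rh3244c3cc8379b070.shift 0 4), rhda1d71cf9bdb8739] (by decide +kernel))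
noncomputable def rh44e732ece18b944c : CRef := CRef.mk (Pat.mk 0x80000003800000000000000100000000000000000 0x78000000ff000000e70000007c0000007400000040 8 8) 0 0 (step_sound _ 130 [(rh07aebf238cfe606a.shift 0 3), (rh5418bb250389bc85.shift 1 1), (rh9e97bba44c1b13e4.shift 0 3), (rhc7ff6f1b5e3daec8.shift 1 0)] (by decide +kernel))
noncomputable def rh0fe1d312a32324ef : CRef := CRef.mk (Pat.mk 0x40000000400000004000000000000000000000000 0x80000000c0000000e0000000e0000003e0000000f0000000e0000000e0000000e 8 6) 0 0 (step_sound _ 195 [(rh08d50fe567eb1045.shift 2 2), (rh2148ea6ec6872841.shift 0 2), (rh47e721e0117b8d5f.shift 1 0), (rh527895f4954d6693.shift 1 0)] (by decide +kernel))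
noncomputable def rh15d5d2a0363c0bc9 : CRef := CRef.mk (Pat.mk 0x2000000030000000100000001000000000 0x280000002c000001ef000000fe000000df0000005800000008 8 9) 0 0 (step_sound _ 165 [rh164faa9569ca831d, (rh5c5e593799055d58.shift 4 2)] (by decide +kernel))
noncomputable def rhf1b13113bdaf34ba : CRef := CRef.mk (Pat.mk 0x1c00000008000000080000000000000000 0xb0000007e0000007f0000003c0000000f0000000e 8 7) 0 0 (step_sound _ 98 [(rh2612b4f73ba7c3b3.shift 1 3), rh284d5030d95b4fdc, rh8650e3525f3afd54] (by decide +kernel))
noncomputable def rh2342c59e096a8581 : CRef := CRef.mk (Pat.mk 0x1800000008000000080000000800000000 0x4000001ec000000f8000001ee0000007f0000007800000010 8 9) 0 0 (step_sound _ 36 [(rh55afc6a59410cf00.shift 3 0), (rh6f078d7573e41704.shift 0 1)] (by decide +kernel))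
noncomputable def rh74e46e9cef886f55 : CRef := CRef.mk (Pat.mk 0x40000000c000000080000000800000000 0x800000018000000380000007c0000006f0000007c0000001800000010 8 7) 0 0 (step_sound _ 68 [(rh3c0159080694d988.shift 2 0), (rh3c3e23a02e82b2ed.shift 0 2), rhd2ff1294fee72422] (by decide +kernel))
noncomputable def rhde7079fa9bb9c7d9 : CRef := CRef.mk (Pat.mk 0xc000000040000000400000000000000000000000000000000 0x80000000e0000000e000000060000000c0000000c000000070000003e0000000e0000000c0000000c 8 6) 0 0 (step_sound _ 98 [(rh1904b52b42aee148.shift 0 2), (rh7f82aa92ca390d05.shift 1 2), (rh8c3839f9b9075f23.shift 2 1), (rhe7ca52c84c68d387.shift 1 0)] (by decide +kernel))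
noncomputable def rhc47d282b097c0241 : CRef := CRef.mk (Pat.mk 0x800000008000000080000001800000000 0x30000000780000003e0000007f0000007e00000064 8 7) 0 0 (step_sound _ 34 [(rh932754581e0f4330.shift 2 0), rhaf4010ee7be375fa] (by decide +kernel))
noncomputable def rh2b5e6160d966e60c : CRef := CRef.mk (Pat.mk 0x800000008000000080000000800000000 0x40000000c0000000c0000003e0000007f00000017 8 7) 0 0 (step_sound _ 34 [rh2c6da238d0858eea, (rh932754581e0f4330.shift 2 0)] (by decide +kernel))
noncomputable def rhe3210dad0b0928ed : CRef := CRef.mk (Pat.mk 0x1000000018000000080000000800000000 0x60000000f00000007f0000007f0000007e000001f0 8 9) 0 0 (step_sound _ 66 [(rh0358f91b0601e05b.shift 0 1), (rh57598951b3619839.shift 2 0), (rh69012675dfdb1a5b.shift 0 2), (rhd69c262cd33b94b3.shift 0 2)] (by decide +kernel))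
noncomputable def rh513ea1b645a188dc : CRef := CRef.mk (Pat.mk 0x2000000020000000100000001000000000 0x280000007c000001ef000000fc000000dc0000005000000010 8 9) 0 0 (step_sound _ 100 [(rh71222050f2c63a3a.shift 4 0), (rh898ac49d3f396f48.shift 0 1)] (by decide +kernel))
noncomputable def rh193bd13f6db4eafb : CRef := CRef.mk (Pat.mk 0x400000004000000060000000200000000000000000 0x10000000f8000003df000001fe0000003e0000003000000030 8 10) 0 0 (step_sound _ 37 [rh0d492c671971d7be, (rh71222050f2c63a3a.shift 5 0)] (by decide +kernel))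
noncomputable def rhb092099331071b18 : CRef := CRef.mk (Pat.mk 0x800000008000000080000000800000000 0xc0000000f0000003f000000380000001800000018 8 6) 0 0 (step_sound _ 130 [rh19d8908510f0d300, (rh50fbb5868c909700.shift 2 1)] (by decide +kernel))
noncomputable def rh2dcc7203a6ae7020 : CRef := CRef.mk (Pat.mk 0x2000000030000000000000001000000010 0x400000006000001ff000001fe000001cf0000001800000010 8 9) 0 0 (step_sound _ 99 [(rh1bd8298309534102.shift 2 0), (rhb103f40a53fe1424.shift 0 2), (rhb12ffaec36122c99.shift 0 2), (rhdd231e3489095896.shift 1 0), rhf89779a77e704f4f] (by decide +kernel))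
noncomputable def rh3479e184ffc0c7bc : CRef := CRef.mk (Pat.mk 0x60000000200000000000000000 0x90000000900000079f000003fe0000077e0000012000000020 8 11) 0 0 (step_sound _ 103 [(rh2820ca9a6c4f41b4.shift 2 2), (rh7d1c88ca2dd65c35.shift 2 1), rh7ed7053fe705ab58, (rhdc1641106d7e5aa2.shift 4 2)] (by decide +kernel))
noncomputable def rh7c9eb675a8dac123 : CRef := CRef.mk (Pat.mk 0x40000000400000004000000060000000000000000 0xc0000000c0000000e0000000f0000003c0000000e0000000400000004 8 6) 0 0 (step_sound _ 195 [rhad3353e7e8ca87d1, (rhbaefcd01e0a8bca3.shift 2 2)] (by decide +kernel))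
noncomputable def rhd3eb9e238cbe1301 : CRef := CRef.mk (Pat.mk 0x200000002000000020000000100000000 0x1000000070000000700000006000000060000001e0000000700000001 8 5) 0 0 (step_sound _ 33 [rh932754581e0f4330, (rhde0ba0689311c8a6.shift 0 1)] (by decide +kernel))
noncomputable def rh053d0b003dc7dcc3 : CRef := CRef.mk (Pat.mk 0x70000000000000002000000000 0x3000000038000000380000001f000000ff0000003f0000003800000008 8 8) 0 0 (step_sound _ 99 [(rh775ca1963e850b80.shift 1 2), (rh9f2663ce05a4b93a.shift 0 2), (rha36ed4c017c18c61.shift 2 0), (rhd506e74654261ae3.shift 2 1), (rhd52e3929053d9d5f.shift 2 2)] (by decide +kernel))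
noncomputable def rh6112f9cbc5d5e03c : CRef := CRef.mk (Pat.mk 0xe0000000000000004 0x50000000700000007000000730000003e0000007700000004 8 7) 0 0 (step_sound _ 68 [(rh3b00e9e9432b8f40.shift 0 1), rh76e5a56812011884, (rha93a5dd541ab8209.shift 1 1)] (by decide +kernel))
noncomputable def rh94ee88126e4788d0 : CRef := CRef.mk (Pat.mk 0x60000000300000000000000010000000000000000000000000 0x200000003c0000007e000003fc000003cf0000007c0000001e0000001400000010 8 10) 0 0 (step_sound _ 163 [rh08e1cb6ff1ec7975, (rh53b3c253cb0c65f4.shift 2 5)] (by decide +kernel))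
noncomputable def rhd2673ace869681ac : CRef := CRef.mk (Pat.mk 0x2000000030000000000000000000000000 0x28000003fe000001fe000001cf0000004400000044 8 10) 0 0 (step_sound _ 99 [(rh72a53ccab2fa8473.shift 1 0), (rh78a34acb5652f35b.shift 0 2), (rhb103f40a53fe1424.shift 0 2), (rhbb230affd71b6a12.shift 2 0)] (by decide +kernel))
noncomputable def rh0fb42eb329876923 : CRef := CRef.mk (Pat.mk 0x100000000800000008000000080000000000000000 0x1e0000001f0000003c0000000c0000000c0000000c 8 6) 0 0 (step_sound _ 35 [rhacc5f7c6cf37f1f9, (rhbaefcd01e0a8bca3.shift 3 1)] (by decide +kernel))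
noncomputable def rh73b6b1ed5aaee512 : CRef := CRef.mk (Pat.mk 0x40000000200000002000000020000000000000000000000000 0x1000000030000000ff0000003e000001f700000078000000700000007000000040 8 9) 0 0 (step_sound _ 164 [(rh0de392c253db2d75.shift 2 0), (rhb266ebb1612c5310.shift 0 2), (rhf9a6286f1d5377a2.shift 4 2)] (by decide +kernel))
noncomputable def rh0de355a1f8f590f0 : CRef := CRef.mk (Pat.mk 0x200000001000000010000000180000000000000000 0x180000003c000000ff000000ff000001fe000001e0000000a0 8 9) 0 0 (step_sound _ 101 [(rh0bb882ba86b2372d.shift 1 2), (rh31641351c0b0da60.shift 2 0), (rhc21b0d8e03411ea1.shift 1 1), rhcc9fab4b2b836c6a] (by decide +kernel))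
noncomputable def rhb366d1d75ae30840 : CRef := CRef.mk (Pat.mk 0x200000001000000010000000180000000000000000 0x80000002c000000ff000000ff000000fe000000ee000000a0 8 8) 0 0 (step_sound _ 101 [(rh0bb882ba86b2372d.shift 1 2), (rh574fdbf07bdd18b9.shift 1 2), (rh5bc13e29350ad82f.shift 1 0), rhcc9fab4b2b836c6a] (by decide +kernel))
noncomputable def rh8fb77ae9862602fc : CRef := CRef.mk (Pat.mk 0x800000008000000080000000800000000 0x60000000f0000007f0000003f0000000f0000000e 8 7) 0 0 (step_sound _ 130 [rh0ada45f54bbbd85d, (rh50fbb5868c909700.shift 2 1)] (by decide +kernel))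
noncomputable def rh5e30485a68e4a8a2 : CRef := CRef.mk (Pat.mk 0x10000000000000003800000000000000000000000000000000 0x10000000770000003e00000067000000700000007000000050 8 7) 0 0 (step_sound _ 130 [(rh01c040830a0e3366.shift 2 0), (rh775ca1963e850b80.shift 0 3)] (by decide +kernel))
noncomputable def rhdf6c7091301c991e : CRef := CRef.mk (Pat.mk 0x800000008000000100000001000000000 0x280000007c000001ef0000007c000000360000001400000010 8 9) 0 0 (step_sound _ 100 [(rh3ef238bd341dea99.shift 0 1), (rh7b1f1fb55310c477.shift 3 0)] (by decide +kernel))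
noncomputable def rh60dbb4a9e00d6c89 : CRef := CRef.mk (Pat.mk 0x1800000010000000100000001000000000 0x1e7000001fe000003f7000000100000001800000008 8 10) 0 0 (step_sound _ 133 [(rh2f68792b6b779e96.shift 4 1), rhf24861da23530f9c] (by decide +kernel))
noncomputable def rhd2fc8822b165c101 : CRef := CRef.mk (Pat.mk 0x8000000080000000800000000000000000000000000000000 0x1000000018000000180000001c0000001f0000007c0000007f0000001c0000001c00000008 8 7) 0 0 (step_sound _ 132 [(rh21460e6e614b5dd0.shift 2 0), rh6a3717bdefad362c, (rh70e33bfdf511e144.shift 3 1), (rh8599f462953abc6e.shift 3 3), (rh8e8e7d2e281cb730.shift 1 2)] (by decide +kernel))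
noncomputable def rhe048af0ff3d87d56 : CRef := CRef.mk (Pat.mk 0x1000000030000000000000002000000020 0x3fc000001ff000003de0000007000000020 8 10) 0 0 (step_sound _ 36 [rhf42a0452a634efc3, (rhff0f29cb645b05f7.shift 4 0)] (by decide +kernel))
noncomputable def rh2720e64e31b0b0b5 : CRef := CRef.mk (Pat.mk 0x10000000100000001000000000 0x280000003f0000007e000000ff000000180000001800000008 8 8) 0 0 (step_sound _ 132 [(rh0f4f5e983b383ce5.shift 0 1), (rh1741680720c097b4.shift 3 1), (rh20966da26a1c2ae8.shift 3 0), (rh771d065bdc85bf2d.shift 3 0)] (by decide +kernel))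
noncomputable def rh1891ba058456cc78 : CRef := CRef.mk (Pat.mk 0x800000018000000000000001000000010 0x8000001ff000000ff000000e70000003400000014 8 9) 0 0 (step_sound _ 101 [rh2d73b0340a6703cd, (rh94571179a39a6e64.shift 1 0), (rhf60aa8aede119d3b.shift 0 3)] (by decide +kernel))
noncomputable def rhe78326fa3c839711 : CRef := CRef.mk (Pat.mk 0x800000008000000180000001000000000 0x140000003c0000000f0000001f000000ff000000ec 8 8) 0 0 (step_sound _ 35 [rh81ff32de2979b8ba, rh900a894640be090c] (by decide +kernel))
noncomputable def rhb08d4a0eefb6364e : CRef := CRef.mk (Pat.mk 0x100000001000000030000000200000000000000000 0xc0000004c0000005c000000df0000007e000001ef0000002c00000028 8 9) 0 0 (step_sound _ 37 [(rh7b1f1fb55310c477.shift 4 0), rh919993c1be83de89] (by decide +kernel))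
noncomputable def rhec5c4f19ae83eb49 : CRef := CRef.mk (Pat.mk 0x80000000000000018000000300000000000000000 0x40000002c0000006e0000003e0000003f0000001e00000014 8 7) 0 0 (step_sound _ 98 [rha5ff18c8db250e7e, (rhb739f4f82bb681b4.shift 1 2)] (by decide +kernel))
noncomputable def rhb06e8270b8c86028 : CRef := CRef.mk (Pat.mk 0x8000000000000001800000030000000000000000000000000 0x80000002800000038000000ff000000fe0000001c0000001c 8 8) 0 0 (step_sound _ 102 [rh3554dca876ed3df7, (rhf48373e13d2bc128.shift 3 3)] (by decide +kernel))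
noncomputable def rhbf87377bec2ff835 : CRef := CRef.mk (Pat.mk 0x70000000400000000000000000 0x180000001f0000007e0000007f0000001c0000001c 8 7) 0 0 (step_sound _ 99 [(rh0de499e0455c9c14.shift 1 2), (rh592c7139d2c44767.shift 1 2), (rh88c620441a3a17ea.shift 0 2), (rhc98c1f4f583d33e4.shift 2 0), (rhd1d05263fabc0227.shift 1 2)] (by decide +kernel))
noncomputable def rh65356f2b1a9a4d5f : CRef := CRef.mk (Pat.mk 0x800000008000000180000001000000000 0x30000000320000003f0000001f0000007f0000007600000024 8 7) 0 0 (step_sound _ 98 [(rh0fcb228d13e9ff47.shift 1 0), (rh3c3e23a02e82b2ed.shift 0 2), (rh5c5a2014709044d0.shift 0 2), rhd4ca68a3fd4d7772] (by decide +kernel))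
noncomputable def rh895de44449268f2d : CRef := CRef.mk (Pat.mk 0x80000000800000018000000000000000000000000 0x1000000018000000180000007c0000001f0000007c0000006e0000000c00000004 8 7) 0 0 (step_sound _ 130 [(rhb0121edee88fe839.shift 0 3), (rhb764f36e5a9cb0ea.shift 1 1), rheb0eb4c450b4628c] (by decide +kernel))
noncomputable def rh4c8b9e2055be5462 : CRef := CRef.mk (Pat.mk 0x1000000010000000100000001000000000 0x200000003000000010000003be000001fe000001ef 8 10) 0 0 (step_sound _ 37 [(rh55afc6a59410cf00.shift 4 0), rhe4410573c83a648c] (by decide +kernel))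
noncomputable def rhfe75b0c9d53cc51e : CRef := CRef.mk (Pat.mk 0x1000000008000000080000001800000000 0xec000000ff0000007f0000000f0000007c00000004 8 8) 0 0 (step_sound _ 131 [(rh036c1b0ca9a4a4cb.shift 0 1), rh2ada9617d70c0b74, (rhc6caea4112c2545d.shift 1 0)] (by decide +kernel))
noncomputable def rh98b8239e2bbc542f : CRef := CRef.mk (Pat.mk 0x1000000010000000300000000000000000 0x10000003bf000001fe000003ee00000008 8 10) 0 0 (step_sound _ 70 [(rh3cb42604b49c2076.shift 0 1), (rh47051c83af3a8861.shift 1 0), (rh9c94213f6896c74a.shift 3 1), (rha9fbfd4bb8cf890b.shift 1 2)] (by decide +kernel))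
noncomputable def rhf95f53205ad3ae84 : CRef := CRef.mk (Pat.mk 0x20000000300000001000000010 0x280000007c000001ef000000fe0000001f00000010 8 9) 0 0 (step_sound _ 133 [(rh5c5e593799055d58.shift 4 1), rhc143b6f9ea221995] (by decide +kernel))
noncomputable def rh1d485ae795a886b2 : CRef := CRef.mk (Pat.mk 0x100000001800000008000000080000000000000000 0x24000000760000007f0000001f0000003f0000003200000030 8 7) 0 0 (step_sound _ 98 [(rh02e7bb29240e64f1.shift 1 2), (rh69012675dfdb1a5b.shift 0 3), rh7e7f177ac944e5c7] (by decide +kernel))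
noncomputable def rh444129799b23acdd : CRef := CRef.mk (Pat.mk 0x100000001000000030000000200000000000000000 0x8000000180000001f000000fe000001ef0000007c00000028 8 9) 0 0 (step_sound _ 37 [(rh7b1f1fb55310c477.shift 4 0), rh8365d9e4bc897e65] (by decide +kernel))
noncomputable def rhe76b3180508aee1c : CRef := CRef.mk (Pat.mk 0x8000000080000000c00000000000000000000000000000000 0x18000000380000007f0000003f000000780000003c0000001c00000004 8 7) 0 0 (step_sound _ 164 [(rh0bb882ba86b2372d.shift 0 4), (rh2bd0e9f546761791.shift 0 2), (rh3eb8dfeff30af859.shift 2 0)] (by decide +kernel))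
noncomputable def rh4a795cfa244d2373 : CRef := CRef.mk (Pat.mk 0x4000000040000000400000004000000000000000000000000 0x40000000c0000003f0000003f0000003a0000001000000010 8 6) 0 0 (step_sound _ 97 [rh0f02d67a463c24e3, (rh932754581e0f4330.shift 1 2)] (by decide +kernel))
noncomputable def rh5153e833f798250b : CRef := CRef.mk (Pat.mk 0x300000002000000020000000200000000 0x10000000700000007000000060000000300000007000000070000000300000001 8 3) 0 0 (step_sound _ 32 [rh932754581e0f4330, (rhbf5cca5ac64e4501.shift 0 1)] (by decide +kernel))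
noncomputable def rh4419d81eb17d2149 : CRef := CRef.mk (Pat.mk 0x1000000030000000200000002000000000 0x10000000100000001f000000fe000000ef0000007c00000008 8 8) 0 0 (step_sound _ 164 [(rh2145e1d24b96a57e.shift 4 2), rh3f9599da326f7848] (by decide +kernel))
noncomputable def rhd48b84fa58bd8dd8 : CRef := CRef.mk (Pat.mk 0x1000000030000000200000002000000000 0x8000000080000001f000000fe000000fe0000003c00000018 8 8) 0 0 (step_sound _ 99 [(rh111bceccc66c96e2.shift 2 0), (rh1c0598f48372ac11.shift 0 2), (rh9909eeda0ef2ed2c.shift 2 2), (rhc8ae77ecad49585e.shift 1 1), (rhf530834c0c5f3ed9.shift 0 2)] (by decide +kernel))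
noncomputable def rh972494ac8b12a612 : CRef := CRef.mk (Pat.mk 0x400000000000000080000000800000000000000000000000000000000 0x40000000c0000000c0000001c000000380000001f0000001c0000001c0000001c00000004 8 6) 0 0 (step_sound _ 195 [(rh114f4abf4ea101c9.shift 2 3), (rh36d2592072881719.shift 0 3), (rhcce7569531e62f87.shift 2 0)] (by decide +kernel))
noncomputable def rh7f8773e38318465c : CRef := CRef.mk (Pat.mk 0x8000000080000000800000008000000000000000000000000 0x800000008000000f80000007f000000ff000000700000002000000020 8 8) 0 0 (step_sound _ 100 [(rh55afc6a59410cf00.shift 3 2), rh694653212873ace6] (by decide +kernel))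
noncomputable def rh9e8c2939eb566350 : CRef := CRef.mk (Pat.mk 0x1800000010000000100000001000000000 0x140000001e000000f7000000ff0000001f00000008 8 8) 0 0 (step_sound _ 35 [(rh932754581e0f4330.shift 3 0), (rhad7622a930636dad.shift 0 1)] (by decide +kernel))
noncomputable def rha8da474a24ad6bf0 : CRef := CRef.mk (Pat.mk 0x20000000000000007000000000000000000000000000000000 0x8000000380000003f000000ff0000001f000000380000003800000030 8 8) 0 0 (step_sound _ 131 [(rh58ee83271d542edc.shift 2 1), (rh592c7139d2c44767.shift 1 3), (rh87fa0a8b0456f79e.shift 0 3), (rhaeebc73f5a9c796a.shift 2 3), (rhefb9fd160366c0d7.shift 2 0)] (by decide +kernel))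
noncomputable def rha6372574c74a067d : CRef := CRef.mk (Pat.mk 0x4000000000000000e00000000000000000000000000000000 0x4000000770000003e00000073000000070000000700000005 8 7) 0 0 (step_sound _ 132 [rha3708673ce6a5ec7, (rha93a5dd541ab8209.shift 1 3)] (by decide +kernel))
noncomputable def rh72bd11db4720d9b8 : CRef := CRef.mk (Pat.mk 0x380000002000000000 0x800000008000001cf000001fe0000003f00000004 8 9) 0 0 (step_sound _ 34 [(rh45beebce8c11cf6a.shift 0 1), (rh4c5c51b0ae60cece.shift 0 1), (rh73f5f7cdf41b5bc9.shift 1 0), (rhc0aaabcb2ec956ed.shift 1 1), (rhdb9d5a4b3d22d761.shift 1 1)] (by decide +kernel))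
noncomputable def rh51c902d2204c16e5 : CRef := CRef.mk (Pat.mk 0x20000000000000004000000040000000000000000 0x400000006000000060000000600000007000000070000003f0000000f0000000e00000004 8 6) 0 0 (step_sound _ 129 [(rh55f7723b8b306d34.shift 1 0), (rh74a43b9a483760f6.shift 1 0), (rhd3a7bc5830c8a8a1.shift 0 1), (rhe482ee30a2733b5f.shift 1 0), (rheea87a15177a5006.shift 0 2)] (by decide +kernel))
noncomputable def rhd4ae6de4e71711ef : CRef := CRef.mk (Pat.mk 0x10000000000000000800000008000000000000000000000000 0x1000000018000000180000001c0000001c0000000f0000003c0000001c0000001c 8 6) 0 0 (step_sound _ 163 [(rh08d50fe567eb1045.shift 3 2), (rh527895f4954d6693.shift 2 0), (rh5890386c1f942fa1.shift 3 3), (rh87d5e4118780fa3b.shift 3 2), (rheab8a4ec72298776.shift 0 1)] (by decide +kernel))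
noncomputable def rhfa77e0cbb23183b4 : CRef := CRef.mk (Pat.mk 0x1800000008000000080000000800000000 0x18000000180000007f000000ff000000f4 8 8) 0 0 (step_sound _ 36 [(rh55afc6a59410cf00.shift 3 0), rh93a160b8decbc8cc] (by decide +kernel))
noncomputable def rh05228d967304fec2 : CRef := CRef.mk (Pat.mk 0x300000000000000030000000100000000 0x70000000700000006000000070000001f0000001e 8 5) 0 0 (step_sound _ 97 [rh5082002897bc2cda, (rh5c5e593799055d58.shift 0 1)] (by decide +kernel))
noncomputable def rhf63247da5fae3a9d : CRef := CRef.mk (Pat.mk 0x100000000000000018000000080000000000000000 0x1000000070000000f70000007e000001ef0000006000000060 8 9) 0 0 (step_sound _ 101 [(rh2820ca9a6c4f41b4.shift 0 2), (rh6346549a2c766215.shift 2 0), (rh6e8df8cf4e9b0833.shift 0 1), (rhb8c6454e761bb380.shift 2 0)] (by decide +kernel))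
noncomputable def rhd996d77d821361f7 : CRef := CRef.mk (Pat.mk 0x30000000000000003000000010000000000000000000000000 0x5000000070000000ef000000ff000000fe000000ee0000008800000008 8 8) 0 0 (step_sound _ 99 [(rh0bb882ba86b2372d.shift 1 3), (rh69012675dfdb1a5b.shift 1 3), (rh76226c4fac0ee062.shift 0 1), (rhf3a3a51827a7fd98.shift 1 0)] (by decide +kernel))
noncomputable def rh92f97e0e5a248f9f : CRef := CRef.mk (Pat.mk 0x2000000000000000300000001000000000 0x6000000060000001ce000000fe000001ff00000020 8 9) 0 0 (step_sound _ 70 [(rh114748ecb9272358.shift 0 1), (rh2820ca9a6c4f41b4.shift 1 1), rh4d2b4a042be4497b, (rhf0f55c4504412200.shift 1 1), (rhfba8a95c9d8d620d.shift 3 1)] (by decide +kernel))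
noncomputable def rh3f8a21866c4395cf : CRef := CRef.mk (Pat.mk 0x4000000000000000e000000020000000000000000000000000 0x40000001ce000000fe000001bf000001c0000001c000000140 8 9) 0 0 (step_sound _ 132 [(rh01c040830a0e3366.shift 4 0), (rh7654d7b92c96fe12.shift 2 3), (rhb017a1319ebe3638.shift 0 3), (rhb9f88b2b004cd304.shift 1 3), (rhc2770b327e102d70.shift 3 2)] (by decide +kernel))
noncomputable def rh3d797bc51dc7233d : CRef := CRef.mk (Pat.mk 0x200000000000000070000000000000000000000000 0x100000001c0000001f0000001e7000000fe000003c7000000c000000040 8 10) 0 0 (step_sound _ 71 [(rh0deb2ebc850de581.shift 3 1), (rh0f23a17930355bc9.shift 4 0), (rh71efda916732b25a.shift 3 2), (rhcd7d2b841f4b65a7.shift 0 2)] (by decide +kernel))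
noncomputable def rhfe8497f409d2494f : CRef := CRef.mk (Pat.mk 0x200000002000000020 0x400000007000000070000003fe000001fe000001f70000007c00000030 8 10) 0 0 (step_sound _ 101 [(rh1741680720c097b4.shift 4 0), (rh1f25b33bbea643f0.shift 4 0), (rh435ead6b7ed7ff75.shift 4 0), rh6ac97e40abea9b32, (rhc4a8feffcdaf9613.shift 2 0), (rhe01cfd8f0577defd.shift 4 0)] (by decide +kernel))
noncomputable def rha794d491e3ccc936 : CRef := CRef.mk (Pat.mk 0x8000000080000000000000018000000100000000000000000 0x28000000ec000001e6000001fe000000ff000000fe00000020 8 9) 0 0 (step_sound _ 69 [(rh094f0b1286a5cf26.shift 1 1), (rh4ca5dae25f5c14ff.shift 1 2), (rh75ea294132184f25.shift 2 2), rhd9dc983537091330, (rhdeca8db941583de2.shift 1 2)] (by decide +kernel))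
noncomputable def rha0c16d98b5965f9f : CRef := CRef.mk (Pat.mk 0x2000000020000000200000002000000000 0x5e000001fe000001f7000000300000003000000010 8 9) 0 0 (step_sound _ 132 [(rh50fbb5868c909700.shift 4 1), rhd6dacd8605a94268] (by decide +kernel))
noncomputable def rh3c9f86c9e5b08f3f : CRef := CRef.mk (Pat.mk 0x2000000060000000400000004000000000 0x20000000a0000001b7000000fe000003de000000f800000010 8 10) 0 0 (step_sound _ 165 [(rh2145e1d24b96a57e.shift 5 2), rh68123764371c1c50] (by decide +kernel))
noncomputable def rh80a469df1b7ddcbd : CRef := CRef.mk (Pat.mk 0x180000000c000000080000000000000000 0xe0000000f0000001e0000000f0000003c0000000f0000000e 8 6) 0 0 (step_sound _ 97 [(rh53b3c253cb0c65f4.shift 0 3), rh9bb54cc541f64892] (by decide +kernel))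
noncomputable def rh301c55723b40d16c : CRef := CRef.mk (Pat.mk 0xc00000006000000040000000000000000 0x1000000012000000330000003f0000003e0000000c0000000400000004 8 6) 0 0 (step_sound _ 132 [(rh18965a982d73c794.shift 1 3), rh242b1f38cdd4f850] (by decide +kernel))
noncomputable def rh658b6914cd7e2dce : CRef := CRef.mk (Pat.mk 0x1000000000000000200000002000000020000000000000000000000000000000000000000 0x40000000700000007000000020000000600000006000000070000000700000007000000070000000700000005 8 3) 0 0 (step_sound _ 129 [rh105dd45885165533, (rh165cdb78240e1819.shift 0 1), (rh8cdd36b03d57a2f6.shift 0 2), (rh93ed2585fadf9b71.shift 0 3), (rhc9ac229b3c77cd55.shift 0 3)] (by decide +kernel))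
noncomputable def rh209f667ae5d74c3e : CRef := CRef.mk (Pat.mk 0x2000000020000000200000002000000000 0x100000003000000030000001f7000001fe0000005e 8 9) 0 0 (step_sound _ 132 [(rh50fbb5868c909700.shift 4 1), rha5f7e0914f56e3c6] (by decide +kernel))
noncomputable def rh31878aa17df5ac83 : CRef := CRef.mk (Pat.mk 0x180000000c00000008000000000000000000000000 0x800000008000000180000000f0000007c0000007c0000001c0000001c 8 7) 0 0 (step_sound _ 129 [(rh53b3c253cb0c65f4.shift 0 4), (rheab6e7b910c444f3.shift 1 0)] (by decide +kernel))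
noncomputable def rhd37e158773780479 : CRef := CRef.mk (Pat.mk 0xc00000006000000040000000000000000000000000000000000000000 0x600000006000000060000003c0000000e0000003e0000000f0000000e000000060000000600000002 8 6) 0 0 (step_sound _ 228 [(rh18965a982d73c794.shift 1 6), rh2d74af7a0fe53a1a] (by decide +kernel))
noncomputable def rhe6969c7aac48200a : CRef := CRef.mk (Pat.mk 0x400000004000000040000000400000000 0x80000000c0000001c0000003f0000003e0000003a 8 6) 0 0 (step_sound _ 35 [(rh55afc6a59410cf00.shift 2 0), rhbe3b245974213236] (by decide +kernel))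
noncomputable def rh447bfdde75c690dc : CRef := CRef.mk (Pat.mk 0x100000000000000030000000200000002000000000 0x1800000058000001cf000000fe000000ff0000006600000004 8 9) 0 0 (step_sound _ 99 [(rh2c5d03a81e313eb4.shift 2 1), rh97b1f85bc2946eed, (rh9ed5bb099649ffd3.shift 2 1), (rhc92c11e8da6c894f.shift 0 2)] (by decide +kernel))
noncomputable def rh0ff1120f5721a07c : CRef := CRef.mk (Pat.mk 0x800000008000000080000001800000000 0x140000001c000000180000007c000000ff00000064 8 8) 0 0 (step_sound _ 34 [rh6f25c6a28824934f, (rh932754581e0f4330.shift 2 0)] (by decide +kernel))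
noncomputable def rh05eeef5b5e156a36 : CRef := CRef.mk (Pat.mk 0x400000004000000060000000200000000000000000 0x98000000f8000001dc000001ff0000007c000000d000000010 8 9) 0 0 (step_sound _ 68 [(rh2e10078597c85437.shift 1 2), rh688b40f5b724c52c, (rh69012675dfdb1a5b.shift 2 2), (rhd69c262cd33b94b3.shift 2 2)] (by decide +kernel))
noncomputable def rh1919140171614d82 : CRef := CRef.mk (Pat.mk 0x8000000180000000c00000000 0x40000001c0000001c000000180000007f0000007f0000006c00000028 8 7) 0 0 (step_sound _ 69 [(rh18965a982d73c794.shift 2 1), rhfd29e06a879b9e20] (by decide +kernel))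
noncomputable def rh9a12221d9799ab02 : CRef := CRef.mk (Pat.mk 0x8000000180000000c00000000 0x140000003c0000003c00000038000000780000003e0000001c0000001f00000008 8 7) 0 0 (step_sound _ 33 [(rh53b3c253cb0c65f4.shift 0 1), (rhd7096708abe916ae.shift 1 0)] (by decide +kernel))
noncomputable def rhe0756f75a710ea50 : CRef := CRef.mk (Pat.mk 0x300000002000000020 0x1800000058000000ff000000fe000000ff00000024 8 8) 0 0 (step_sound _ 100 [(rhc89253ff58c66167.shift 4 0), rhcf20f7f3b63f8534] (by decide +kernel))
noncomputable def rh787ccaa3a42cf750 : CRef := CRef.mk (Pat.mk 0xc00000018000000080000000000000000 0x2000000030000000700000007c0000007f000000780000000800000008 8 7) 0 0 (step_sound _ 101 [rh6c22e2782d917e7b, (rhf48373e13d2bc128.shift 2 3)] (by decide +kernel))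
noncomputable def rheafc06e3e15461f8 : CRef := CRef.mk (Pat.mk 0xc00000018000000080000000000000000 0x200000012000000330000003f0000001f0000000c0000000800000008 8 6) 0 0 (step_sound _ 129 [rh47a5080e0f215785, (rhb739f4f82bb681b4.shift 0 3)] (by decide +kernel))
noncomputable def rhcbb15956deb3f51c : CRef := CRef.mk (Pat.mk 0x180000000c00000008000000000000000000000000 0x100000001c0000001c0000000c0000001f000000ff000000f80000000c0000000c00000004 8 8) 0 0 (step_sound _ 129 [rh0bc6c9ee09575f0d, (rh53b3c253cb0c65f4.shift 0 4)] (by decide +kernel))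
noncomputable def rh038f641e42ea6471 : CRef := CRef.mk (Pat.mk 0xc0000000600000004000000000000000000000000 0x1000000010000000320000003f0000003e0000000c000000060000000600000002 8 6) 0 0 (step_sound _ 164 [(rh18965a982d73c794.shift 1 4), rh4ee27628f174473a] (by decide +kernel))
noncomputable def rh19ffd2707a6ee27e : CRef := CRef.mk (Pat.mk 0x40000000700000000000000000 0x1c0000001c0000007f0000007e0000001f00000018 8 7) 0 0 (step_sound _ 67 [(rh21d582c147e7e118.shift 1 1), (rh5e601430b8bc2e39.shift 0 1), (rh775ca1963e850b80.shift 1 1), (rh7fb660bc21ce4329.shift 1 2), (rhd460056c501ff99e.shift 2 0)] (by decide +kernel))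
noncomputable def rhe26b33ceee48c83c : CRef := CRef.mk (Pat.mk 0x200000002000000038000000000000000000000000 0x180000003c000003fe000001f80000039f0000001800000018 8 10) 0 0 (step_sound _ 67 [(rh15815aa9452e9695.shift 2 2), (rh30c0f19e0c6cde33.shift 1 0), (rhf0f55c4504412200.shift 0 2)] (by decide +kernel))
noncomputable def rh4e891e57aa454835 : CRef := CRef.mk (Pat.mk 0x8000000080000000c00000000 0x40000000c0000000c0000000f0000007e0000001f0000000a 8 7) 0 0 (step_sound _ 68 [rh1683aa4944c27f58, (rh574fdbf07bdd18b9.shift 0 1), rh9f0f972b3c6a7c5a] (by decide +kernel))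
noncomputable def rh870036adffa0448c : CRef := CRef.mk (Pat.mk 0x8000000180000000c 0x140000001c0000003c0000007c0000007e0000007f000000780000000c 8 7) 0 0 (step_sound _ 99 [rh0ed5bc5d6f716db1, (rh1741680720c097b4.shift 2 0), (rh35c5f1c53251aa1b.shift 2 0), (rh38175a832b84393d.shift 1 0), (rh58f78734eedd5029.shift 2 0), (rh7bbd6a1e8288c8a6.shift 1 0)] (by decide +kernel))
noncomputable def rh2d2e9dbe4ffa55b6 : CRef := CRef.mk (Pat.mk 0x40000000c00000004 0x1a0000003e0000003f0000003f0000000c0000000c 8 6) 0 0 (step_sound _ 98 [(rh14f80659e6313cc6.shift 2 0), rh38175a832b84393d, (rh3da62da861143b9a.shift 1 0)] (by decide +kernel))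
noncomputable def rheb4cd2748b65bd4e : CRef := CRef.mk (Pat.mk 0x200000002000000030000000100000000000000000 0x180000003c000001ff000000fe0000001f0000000800000008 8 9) 0 0 (step_sound _ 99 [(rh355a33c2042407ff.shift 2 2), (rh7f0f728c796044ac.shift 0 2), rh8b2f9b331371cd11, (rha11dfd15f08f96e3.shift 2 3)] (by decide +kernel))
noncomputable def rha50c6719029e9f80 : CRef := CRef.mk (Pat.mk 0xc000000080000000800000008 0x2200000022000000730000007f0000007f0000007c00000008 8 7) 0 0 (step_sound _ 100 [(rh2f68792b6b779e96.shift 3 0), (rhc92f5703486b361a.shift 0 1)] (by decide +kernel))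
noncomputable def rhac7be1a507539d5d : CRef := CRef.mk (Pat.mk 0x70000000200000000000000000000000000000000 0x7000000070000001f0000001f000000070000000600000006000000060000000600000004 8 5) 0 0 (step_sound _ 97 [(rh215e11e099257d75.shift 1 2), rh338385865bbd87ac, (rh63b5694f5f3f0147.shift 0 2)] (by decide +kernel))
noncomputable def rh5d01b68503f8e14c : CRef := CRef.mk (Pat.mk 0xe000000020000000000000000 0x280000003800000038000000380000001e0000003b0000001800000018 8 6) 0 0 (step_sound _ 100 [(rh09db8640fa28a310.shift 1 0), (rheb0810cc63b001d8.shift 0 2)] (by decide +kernel))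
noncomputable def rh600c9340046891c9 : CRef := CRef.mk (Pat.mk 0x1c000000040000000000000000 0x18000000180000007c0000003f000000f40000003e00000014 8 8) 0 0 (step_sound _ 131 [rh454c1ffcc0486478, (rh4821dcf828b9d7bf.shift 2 0), rh62e931f8ec45c70a] (by decide +kernel))
noncomputable def rh8e60a6764ffb608e : CRef := CRef.mk (Pat.mk 0x200000003800000000000000000000000000000000 0x80000002c0000002f0000007e000001ff0000006e0000004c00000044 8 9) 0 0 (step_sound _ 101 [rh56888e33f6a1a86e, (rh5dcde5558a8b47c7.shift 3 0), (rhc21a95c499b3efdb.shift 2 3)] (by decide +kernel))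
noncomputable def rh48933d5594e3deb8 : CRef := CRef.mk (Pat.mk 0x80000001e00000000 0x6c000000fe000001ff 8 9) 0 0 (step_sound _ 4 [rhb132a953115fb103, (rhe25b0a99195a5d59.shift 1 0)] (by decide +kernel))
noncomputable def rh2dd2526fc438b269 : CRef := CRef.mk (Pat.mk 0x3000000016000000000000000000000000 0xa0000000e0000003e0000001f0000003e00000016000000160000000600000006 8 6) 0 0 (step_sound _ 130 [(rhb2a0b9ccfb5cecd5.shift 1 3), rhda99630a70e70df9] (by decide +kernel))
noncomputable def rh8f84ec562d25be5d : CRef := CRef.mk (Pat.mk 0x1c000000040000000000000000 0x120000001a0000007f0000003e000000fc0000007400000030 8 8) 0 0 (step_sound _ 69 [(rh0d3c8bf4bf97ae4a.shift 2 2), (rh0deb2ebc850de581.shift 1 1), (rh4b10e7157bc2967e.shift 1 0), (rh5dd044a1fc18c168.shift 0 1), (rh77fa6d9a5cdf02f4.shift 1 2)] (by decide +kernel))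
noncomputable def rhf1e43d060ff08a2a : CRef := CRef.mk (Pat.mk 0xc00000007000000000000000000000000 0x20000000e0000000e0000000c0000000f0000003e0000007c0000001c 8 7) 0 0 (step_sound _ 67 [(rh055e965eca6fb182.shift 0 1), (rh0d3c8bf4bf97ae4a.shift 0 2), rh1e557b6fad6f1229, (rh2ba10533b652c59d.shift 1 1), (rh9c1d2b0fc40551bc.shift 0 1)] (by decide +kernel))
noncomputable def rh8ac6412e1c596c34 : CRef := CRef.mk (Pat.mk 0x180000000800000000000000000000000000000000 0x180000003c000000ff0000003c0000001800000018000000180000001800000010 8 8) 0 0 (step_sound _ 99 [(rh1b331e5c09b4e0ae.shift 2 0), (rh215e11e099257d75.shift 3 2), (rh3820f35d5e705bec.shift 3 0), (rh92b94bd09f04bf49.shift 0 2)] (by decide +kernel))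
noncomputable def rhd39220660507814e : CRef := CRef.mk (Pat.mk 0x180000000e000000000000000000000000 0x200000006000000170000001f000000fe000000ff000000fa00000038 8 8) 0 0 (step_sound _ 67 [(rh000637b5a81e86aa.shift 2 0), rh22f84fe7e7174ebd, (rhe5b261ea311aefb5.shift 1 0)] (by decide +kernel))
noncomputable def rh496d970b35934780 : CRef := CRef.mk (Pat.mk 0x180000000b0000000000000000000000000000000000000000 0x50000001f0000001f0000000f0000001f0000001b0000001300000003000000070000000700000004 8 5) 0 0 (step_sound _ 193 [rhafab25364979d6c2, (rhb2a0b9ccfb5cecd5.shift 0 5)] (by decide +kernel))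
noncomputable def rh8fba8df07c11ebda : CRef := CRef.mk (Pat.mk 0x180000000a0000000000000000 0x1000000050000001f70000007e000000fe0000002000000020 8 9) 0 0 (step_sound _ 101 [(rh67e5914ef7f4941c.shift 1 2), (rhd8856f0e0c4bbd76.shift 1 1), rhe31af6f36c824572] (by decide +kernel))
noncomputable def rhbe579671e43f410e : CRef := CRef.mk (Pat.mk 0xe000000000000000000000000 0x2800000038000000380000007f0000003e000000780000001800000008 8 7) 0 0 (step_sound _ 100 [(rh1a9922713ba80f42.shift 0 2), (rh3fc3a7fb6866dcd4.shift 1 2), (rh7661e7cdf6421781.shift 1 0), (rhb18e6c78a554867d.shift 0 3)] (by decide +kernel))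
noncomputable def rhb8d85dd316c7687e : CRef := CRef.mk (Pat.mk 0xc000000070000000000000000000000000000000000000000 0x80000000a0000000f0000003c000000070000003e0000000c0000000e0000000e00000002 8 6) 0 0 (step_sound _ 196 [rh0eb4af2c02bb0b33, (rh18965a982d73c794.shift 1 5)] (by decide +kernel))
noncomputable def rh865b581923e018a5 : CRef := CRef.mk (Pat.mk 0x180000000e0000000000000000 0xe0000000f0000001b000000fe000000f700000010 8 8) 0 0 (step_sound _ 68 [(rh1f0676df8d5b5c3f.shift 0 1), (rh2cd5e3ff422d0616.shift 0 1), (rhea719cc8bd0bdd28.shift 1 0)] (by decide +kernel))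
noncomputable def rh85f253f915f862ff : CRef := CRef.mk (Pat.mk 0x1c00000005000000000000000000000000 0x180000001e0000001f0000001c0000000f0000000f0000003c0000001c 8 6) 0 0 (step_sound _ 99 [rh12a8dfc3fd2537e5, (rh24ae073cf30720c4.shift 0 3)] (by decide +kernel))
noncomputable def rh0e49bb9623784b65 : CRef := CRef.mk (Pat.mk 0x1c00000004000000000000000000000000 0x60000001e0000001e0000001f0000003c0000007c0000007c0000001c00000008 8 7) 0 0 (step_sound _ 163 [(rh4821dcf828b9d7bf.shift 2 1), (rh888bb4a91572c0c5.shift 0 1), (rhadf429772c25fde0.shift 2 1), (rhfac3e3321019416a.shift 2 0)] (by decide +kernel))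
noncomputable def rh4b6ebf5889371815 : CRef := CRef.mk (Pat.mk 0x80000000c00000004000000000000000000000000 0x1e0000003f0000007f0000000c0000001c000000180000001800000008 8 7) 0 0 (step_sound _ 195 [(rh5c5e593799055d58.shift 2 3), rhdf6834960d01115a] (by decide +kernel))
noncomputable def rhe66554ee188fef9c : CRef := CRef.mk (Pat.mk 0x10000000180000000a0000000000000000 0xc0000000c0000000c0000001f00000038000000fb000000ff00000038 8 8) 0 0 (step_sound _ 35 [(rh71222050f2c63a3a.shift 3 0), rhbbad4b0611bbc791] (by decide +kernel))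
noncomputable def rh97661798c8f34ed0 : CRef := CRef.mk (Pat.mk 0x10000000180000000a0000000000000000 0x200000006000000370000007f000000fe0000007c00000008 8 8) 0 0 (step_sound _ 35 [(rh1d6b039269b582bc.shift 0 1), (rh71222050f2c63a3a.shift 3 0)] (by decide +kernel))
noncomputable def rh8805c5e3c4f6ea7b : CRef := CRef.mk (Pat.mk 0x200000003000000014 0x280000002c000000ff000000fe000001dc 8 9) 0 0 (step_sound _ 101 [rh0c28fd5216732641, (rh5c5e593799055d58.shift 4 0)] (by decide +kernel))
noncomputable def rh45a61eb7505ae794 : CRef := CRef.mk (Pat.mk 0x2000000030000000140000000000000000 0x3c0000007c000001ef0000007c000000dc0000004c00000004 8 9) 0 0 (step_sound _ 165 [rh0d2c237f9d84ece9, (rh5c5e593799055d58.shift 4 2)] (by decide +kernel))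
noncomputable def rh13063e8237fd1e54 : CRef := CRef.mk (Pat.mk 0x80000000c000000050000000000000000 0x600000006000000060000000f0000003e000000070000003e0000000c 8 6) 0 0 (step_sound _ 34 [rh0eb1aed6f2b27895, (rh71222050f2c63a3a.shift 2 0)] (by decide +kernel))
noncomputable def rh32132564e9463a56 : CRef := CRef.mk (Pat.mk 0x40000000200000002000000020000000000000000000000000000000000000000 0x40000000600000006000000060000000600000007000000070000000700000004 8 3) 0 0 (step_sound _ 129 [(rhbaefcd01e0a8bca3.shift 1 4), rhe9be39e0c65d145a] (by decide +kernel))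
noncomputable def rh641693c48794ae7c : CRef := CRef.mk (Pat.mk 0x10000000080000000a0000000800000000 0x40000000c0000003c0000000f0000003e0000003f00000018 8 6) 0 0 (step_sound _ 131 [(rh5abfc4c9d959be03.shift 2 0), rh9aab2e37f490e5ca, rhe182490c37f93ca7] (by decide +kernel))
noncomputable def rh077442e4b18ce09e : CRef := CRef.mk (Pat.mk 0x2000000010000000140000001000000000 0x180000001f0000007e000000fe0000007c0000007e00000020 8 8) 0 0 (step_sound _ 132 [rh34c13eff7b7e79f6, (rha4564ddfd517e709.shift 1 0), (rhd8d94946e0f1319c.shift 1 0), (rhe182490c37f93ca7.shift 1 0), (rheeb0ffdfdaa25f67.shift 1 1)] (by decide +kernel))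
noncomputable def rhfab461fcd726514c : CRef := CRef.mk (Pat.mk 0x200000003000000014 0x280000002c000000ff000000fe0000003c 8 8) 0 0 (step_sound _ 101 [(rh5c5e593799055d58.shift 4 0), rhacb54ace111932bc] (by decide +kernel))
noncomputable def rha3ec63ab969e1eb4 : CRef := CRef.mk (Pat.mk 0x10000000180000000a00000000 0x38000000780000001e000000380000003e00000037 8 7) 0 0 (step_sound _ 132 [rh4c4920049babe1a5, (rh5c5e593799055d58.shift 3 1)] (by decide +kernel))
noncomputable def rhbc12735ca8d23537 : CRef := CRef.mk (Pat.mk 0x80000000c00000005000000000 0x2000000020000007ff000003fe000007f700000010 8 11) 0 0 (step_sound _ 69 [(rh16c7077617300364.shift 3 0), (rh517307bc45ee289a.shift 4 1), (rhddf1910cafc6dca8.shift 0 1), (rhfa13f8e83ee1551c.shift 3 1)] (by decide +kernel))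
noncomputable def rh5fe04502b8ec54b1 : CRef := CRef.mk (Pat.mk 0x100000001c0000002000000000 0x1c0000001e0000001f0000001e0000007c0000006c00000004 8 7) 0 0 (step_sound _ 69 [rh8c9812e29cef6b55, (rhe25b0a99195a5d59.shift 2 1)] (by decide +kernel))
noncomputable def rh2c26bbad14baf124 : CRef := CRef.mk (Pat.mk 0x80000000e00000000000000000 0x3800000038000000fe000000fe0000007f00000030 8 8) 0 0 (step_sound _ 68 [(rh21d582c147e7e118.shift 2 1), (rh5e601430b8bc2e39.shift 1 1), (rh775ca1963e850b80.shift 2 1), (rh80ba3510f5cf0f08.shift 0 1), (rhd460056c501ff99e.shift 3 0)] (by decide +kernel))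
noncomputable def rh572c1bafe3a60457 : CRef := CRef.mk (Pat.mk 0x1c0000000a00000000 0x14000000340000003f0000001f0000000b00000002 8 6) 0 0 (step_sound _ 65 [rh90915b691ff5ccd0, (rheb0810cc63b001d8.shift 0 1)] (by decide +kernel))
noncomputable def rhd98a0ed303b1df42 : CRef := CRef.mk (Pat.mk 0x800000018000000140000000000000000 0x200000027000000ff000000ff000000170000001400000014 8 8) 0 0 (step_sound _ 36 [rh0563f78e0b51a7fa, (rh7b1f1fb55310c477.shift 3 0)] (by decide +kernel))
noncomputable def rhd90b118a9b5e02bf : CRef := CRef.mk (Pat.mk 0x40000000c0000000a0000000000000000 0x1800000018000000180000003c0000000f0000001b0000001f0000001a 8 6) 0 0 (step_sound _ 35 [rh7809dea872bd2cf6, (rh7b1f1fb55310c477.shift 2 0)] (by decide +kernel))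
noncomputable def rh10dd86fe0f994b37 : CRef := CRef.mk (Pat.mk 0x6000000040000000400000000 0xc0000000e0000003e0000003f0000003e0000000c0000000c00000008 8 6) 0 0 (step_sound _ 130 [(rh18def51c5620877e.shift 1 0), (rh7eb4a07d72ad7934.shift 1 0), rh9bf0b9fb40af46f0, (rhc85cc95794737cf7.shift 1 1), (rhced6d86d2069808b.shift 2 0)] (by decide +kernel))
noncomputable def rhea3917785ecafd7d : CRef := CRef.mk (Pat.mk 0x80000000a0000000000000000 0x40000002c000000ef0000007f000000ff0000003b0000001a 8 8) 0 0 (step_sound _ 100 [rh44bf1bc0b2dc42b2, rh459379322a57ae67, (rh806084e72ee4aa6b.shift 1 0), rhd351b5165b050003, (rhedf3a755fe019897.shift 0 2)] (by decide +kernel))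
noncomputable def rh4fcecf91ab74f2a6 : CRef := CRef.mk (Pat.mk 0x180000000e000000000000000000000000 0x800000008000000180000003e0000003f0000003c0000001c 8 6) 0 0 (step_sound _ 100 [rh9cf1eae2eabf38ec, rhc122c3b9be065fdc, (rhea719cc8bd0bdd28.shift 1 1)] (by decide +kernel))
noncomputable def rhbbda111800c1e3b1 : CRef := CRef.mk (Pat.mk 0x6000000038000000000000000000000000 0x380000003c0000007c000000f80000003e0000001f0000001c 8 8) 0 0 (step_sound _ 68 [rh4c6caa9e80695878, (rh6697294200135783.shift 2 2), (rhcf80391c5046a495.shift 4 0)] (by decide +kernel))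
noncomputable def rhf104f18e21a7ff3e : CRef := CRef.mk (Pat.mk 0x180000000e000000000000000000000000 0xe0000000f0000001f0000003e0000000f0000000400000004 8 6) 0 0 (step_sound _ 66 [rh0e125c315770d421, (rh6697294200135783.shift 0 2), (rhcf80391c5046a495.shift 2 0), (rhf9366b6a121593ef.shift 2 0)] (by decide +kernel))
noncomputable def rh824ed98d39823343 : CRef := CRef.mk (Pat.mk 0x180000000b00000000000000000000000000000000 0x50000001f0000001f0000000f0000001f0000001b00000013000000070000000700000004 8 5) 0 0 (step_sound _ 161 [(rhb2a0b9ccfb5cecd5.shift 0 4), rhe474d596d42f5730] (by decide +kernel))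
noncomputable def rhe63706d2547aaa82 : CRef := CRef.mk (Pat.mk 0x180000000e000000000000000000000000 0xe0000000e0000001f0000003e0000003c0000001f0000000e 8 6) 0 0 (step_sound _ 66 [(rh0920a52f960a76d1.shift 1 1), rhe244d40a4c5f0490, (rhf9366b6a121593ef.shift 2 0)] (by decide +kernel))
noncomputable def rh86b54264601488da : CRef := CRef.mk (Pat.mk 0x20000000380000002000000000000000000000000000000000 0x24000000260000007e0000003f00000078000000780000007000000040 8 7) 0 0 (step_sound _ 101 [(rh34c9ddba5742a2b3.shift 1 0), (rh64297b4d4a00447c.shift 0 2), (rh8cdd36b03d57a2f6.shift 4 1)] (by decide +kernel))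
noncomputable def rha18eab3eee93f195 : CRef := CRef.mk (Pat.mk 0x80000000e000000000000000000000000 0x40000000c0000000c0000007c0000003e0000003f0000001e00000014 8 7) 0 0 (step_sound _ 133 [rh0d1eec224fa73791, (rh4fd54f6717f3e7ac.shift 1 3), rhff182c8497d735e3] (by decide +kernel))
noncomputable def rheeda606863340da2 : CRef := CRef.mk (Pat.mk 0x120000001c00000000000000000000000000000000 0x130000001f0000003c000000f80000003800000038 8 8) 0 0 (step_sound _ 129 [(rh3244c3cc8379b070.shift 0 4), rh754a78b4a4af929d] (by decide +kernel))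
noncomputable def rhcf17fb64cfd29263 : CRef := CRef.mk (Pat.mk 0x90000000e000000000000000000000000 0xb0000003e0000003f0000003c00000014 8 6) 0 0 (step_sound _ 100 [rh22ad645c92ca84c5, (rh3f8766e6ecb455ce.shift 0 3)] (by decide +kernel))
noncomputable def rh6b85ca8a6eeb1580 : CRef := CRef.mk (Pat.mk 0x180000000e000000000000000000000000 0x380000003e000000370000003c00000038 8 6) 0 0 (step_sound _ 100 [rh26fd18283c6b3d6e, (rh33e738c4ed385b9f.shift 1 3)] (by decide +kernel))
noncomputable def rh8426602fc00093d6 : CRef := CRef.mk (Pat.mk 0x300000001c000000000000000000000000 0x1e0000001f0000003f0000007c0000006e0000002c0000000c 8 7) 0 0 (step_sound _ 130 [(rh0eba255d854412ca.shift 1 1), (rh3e6fa113d96337e6.shift 1 1), rh66b506213561d340] (by decide +kernel))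
noncomputable def rh9ca6ddfaa6d1ebfd : CRef := CRef.mk (Pat.mk 0x2000000020000000380000000000000000 0x4000000074000000740000003c0000003f0000007c0000002e00000008 8 7) 0 0 (step_sound _ 164 [(rh24e740d338799ad7.shift 3 1), (rh466a2277bc06011f.shift 4 2), rha4104d890738768d] (by decide +kernel))
noncomputable def rhd68306d2bc65f307 : CRef := CRef.mk (Pat.mk 0x1000000010000000340000000000000000 0x80000003800000038000000780000001f0000001f0000003e0000001700000010 8 7) 0 0 (step_sound _ 97 [rh32bb5644ee8f404e, (rh427c47ae159c2e18.shift 1 2), (rh511871bd0daf518c.shift 0 1), (rh74abf76296ae4269.shift 0 1)] (by decide +kernel))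
noncomputable def rh1530b38bd8da73e7 : CRef := CRef.mk (Pat.mk 0x8000000080000000a000000000000000000000000 0x100000001c0000001c0000001c0000007c0000000f0000000c0000001b0000001f0000001c00000014 8 7) 0 0 (step_sound _ 162 [(rh27c62bbdd5ea976f.shift 0 2), rh9199d6ba2ab77a94, (rhbdda2659d39caad2.shift 0 2), (rhf9a6286f1d5377a2.shift 2 2)] (by decide +kernel))
noncomputable def rhc651e1b27e17349f : CRef := CRef.mk (Pat.mk 0x1800000010000000140000000000000000 0xc0000000f0000001f0000001f000000ff000000ee0000000c 8 8) 0 0 (step_sound _ 99 [rh100b847b610d9c3f, rh4b0e85d5f2353e98, (rh55c7b0b41b27b1a9.shift 2 0), rh933775d4df72796f, rheaf893106871950f] (by decide +kernel))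
noncomputable def rh3555c33b815ef449 : CRef := CRef.mk (Pat.mk 0x400000004000000050000000000000000 0x20000000600000006000000040000007f0000003e0000007a 8 7) 0 0 (step_sound _ 34 [rh3058b7020828739c, (rh5abfc4c9d959be03.shift 1 0), (rh771d065bdc85bf2d.shift 1 0)] (by decide +kernel))
noncomputable def rh2abd89871daf426d : CRef := CRef.mk (Pat.mk 0x100000001c0000001000000000000000000000000000000000 0x1000000014000000140000001f0000001f0000003b0000003a0000003800000028 8 6) 0 0 (step_sound _ 100 [(rh89cf5152879421f3.shift 3 0), (rh8cdd36b03d57a2f6.shift 3 1), (rh8ff71bc284510f75.shift 3 1), (rhbaff7ec0fcc038ba.shift 3 0), (rhdecd96c2ff7753d7.shift 0 2)] (by decide +kernel))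
noncomputable def rh637757a03cef7680 : CRef := CRef.mk (Pat.mk 0x100000001c000000080000000000000000 0x80000000c0000000f0000001f0000001c0000007c0000001e0000001c 8 7) 0 0 (step_sound _ 35 [(rh71222050f2c63a3a.shift 3 0), rhd8049641bdbd21c0] (by decide +kernel))
noncomputable def rh4e6eb99d0c0389b1 : CRef := CRef.mk (Pat.mk 0x80000000e000000040000000000000000 0x780000003e000000770000003c0000001c 8 7) 0 0 (step_sound _ 34 [rh560d2db93b913cd6, (rh71222050f2c63a3a.shift 2 0)] (by decide +kernel))
noncomputable def rh9b96ed3fdd4e171a : CRef := CRef.mk (Pat.mk 0xc0000000a0000000800000000 0x100000001c0000001c0000000e0000001f0000007a0000001f00000006 8 7) 0 0 (step_sound _ 68 [rh0d12f092fad34a89, (rh4ca5dae25f5c14ff.shift 0 2), rhd454e7ce549f0c70] (by decide +kernel))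
noncomputable def rh7c940b55f5c11b02 : CRef := CRef.mk (Pat.mk 0x80000000a0000000c00000000 0xb0000000b0000003f0000007e0000003f00000010 8 7) 0 0 (step_sound _ 66 [(rh121397a93ef3afd3.shift 1 0), (rh17a37a392aa3be8e.shift 0 1)] (by decide +kernel))
noncomputable def rh6e1e1faab7ce9a6e : CRef := CRef.mk (Pat.mk 0xc0000000a000000080000000000000000 0x2000000020000000b0000003f0000007e0000007f0000001000000010 8 7) 0 0 (step_sound _ 100 [(rh4ca5dae25f5c14ff.shift 0 3), rhac54d7815a552515, (rhe25aa37e1656baa0.shift 0 2)] (by decide +kernel))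
noncomputable def rhec7c4ff488aa3e24 : CRef := CRef.mk (Pat.mk 0x4000000080000000a0000000800000000 0xe0000000f0000003b0000003e0000000f00000004 8 6) 0 0 (step_sound _ 131 [(rh50fbb5868c909700.shift 2 1), rh7b6a398d7af1896c] (by decide +kernel))
noncomputable def rh7b9655bc627f8e15 : CRef := CRef.mk (Pat.mk 0x100000002000000020000000200000000 0x10000000700000007000000070000000300000003000000060000000600000004 8 3) 0 0 (step_sound _ 129 [(rh50fbb5868c909700.shift 0 1), rh5b5ceeb118a9ed7c] (by decide +kernel))
noncomputable def rhefe5710bb904ce59 : CRef := CRef.mk (Pat.mk 0x100000001000000010000000100000000000000000 0x3000000030000000ff000000fe000001ef00000040 8 9) 0 0 (step_sound _ 67 [(rh932754581e0f4330.shift 3 1), rhabe0a4ac8b80c17f] (by decide +kernel))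
noncomputable def rha3f1bde4906978fe : CRef := CRef.mk (Pat.mk 0x80000000800000008000000080000000000000000 0x40000001c0000001c0000007c0000000f0000000c00000008 8 7) 0 0 (step_sound _ 162 [(rh50fbb5868c909700.shift 2 2), rhe31b40d03b332c87] (by decide +kernel))
noncomputable def rh0cde2b9d746e7aa6 : CRef := CRef.mk (Pat.mk 0x4000000050000000400000000 0x20000000600000006000000040000007f0000003e0000007a 8 7) 0 0 (step_sound _ 130 [rh3058b7020828739c, (rh5abfc4c9d959be03.shift 1 0), (rh771d065bdc85bf2d.shift 1 0)] (by decide +kernel))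
noncomputable def rh03c00182870d4521 : CRef := CRef.mk (Pat.mk 0x80000000a0000000c000000000000000000000000 0x40000000e0000000f0000003f0000003e0000000f000000180000001800000018 8 6) 0 0 (step_sound _ 194 [rh12a80cf06c561a62, (rh9a17dc36f7181934.shift 2 2), (rhbda2c8c74dba72b6.shift 0 3)] (by decide +kernel))
noncomputable def rh4b06b3493ba0d922 : CRef := CRef.mk (Pat.mk 0x80000000a000000080000000000000000000000000000000000000000 0x40000000c0000000c0000000c000001fb000000ff000000ff0000001c0000001c0000001800000010 8 9) 0 0 (step_sound _ 164 [(rh0fa4a62bba50784f.shift 2 4), rh5bb04862bccb9e67, (rh70e33bfdf511e144.shift 3 2), (rhf815acbf893c26d6.shift 0 2)] (by decide +kernel))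
noncomputable def rh8da583d121f4424b : CRef := CRef.mk (Pat.mk 0x1000000020000000280000002000000000 0x170000003e0000006f0000002c0000007c0000005e 8 7) 0 0 (step_sound _ 133 [rh3ea732606b3f041f, (rh50fbb5868c909700.shift 4 1)] (by decide +kernel))
noncomputable def rha0979e8bdd1f49da : CRef := CRef.mk (Pat.mk 0x80000000a00000008000000000000000000000000 0x80000001a000001fb000000ff000000ff0000001c0000001c 8 9) 0 0 (step_sound _ 100 [(rh046c5eb18e55a239.shift 3 0), (rh70e33bfdf511e144.shift 3 0), rhbee069a89b4fa027, rhf815acbf893c26d6] (by decide +kernel))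
noncomputable def rh67227fb79e7e3fbb : CRef := CRef.mk (Pat.mk 0x2000000028000000200000004000000000 0x4000000160000007c000000ef000000280000006800000060 8 8) 0 0 (step_sound _ 37 [(rh55afc6a59410cf00.shift 5 0), rh7c4ff8c5cfa4771c] (by decide +kernel))
noncomputable def rh58012a1549e037fa : CRef := CRef.mk (Pat.mk 0x3000000028000000200000000000000000 0x40000002e0000007c000001ef0000003c0000003800000030 8 9) 0 0 (step_sound _ 131 [(rh2820ca9a6c4f41b4.shift 0 3), (rh545103f8483e89f5.shift 1 3), (rh8db56b30528573a7.shift 2 0), (rh8ee80cc30e93a344.shift 2 3), (rhcd0ab74adf624db3.shift 1 1)] (by decide +kernel))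
noncomputable def rhaa69388c2b9877bd : CRef := CRef.mk (Pat.mk 0x100000001000000010000000100000000000000000 0x3000000030000000ff000000fe000001ef00000040 8 9) 0 0 (step_sound _ 69 [(rh55afc6a59410cf00.shift 4 1), rhf34dbc28c60b7d9d] (by decide +kernel))
noncomputable def rh9c21d629fe6db953 : CRef := CRef.mk (Pat.mk 0x2000000028000000200000002000000000 0x4000000160000007c000000ef000000280000006800000060 8 8) 0 0 (step_sound _ 38 [(rh55afc6a59410cf00.shift 5 0), rh7c4ff8c5cfa4771c] (by decide +kernel))
noncomputable def rh35db6702b4624818 : CRef := CRef.mk (Pat.mk 0x2000000028000000200000002000000000 0x4000000160000007c000000ef000000280000003800000030 8 8) 0 0 (step_sound _ 36 [rh7c4ff8c5cfa4771c, (rh932754581e0f4330.shift 4 0)] (by decide +kernel))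
noncomputable def rh186920cf64505637 : CRef := CRef.mk (Pat.mk 0x10000000140000001800000000 0xb0000001e000000fc000000160000003e0000002f 8 8) 0 0 (step_sound _ 132 [rh0ef8eb21cf98dc5c, (rh932754581e0f4330.shift 3 0)] (by decide +kernel))
noncomputable def rhb81b7858644abb41 : CRef := CRef.mk (Pat.mk 0x200000002800000030000000000000000000000000 0x28000000280000006f0000003e0000001f0000001000000010 8 7) 0 0 (step_sound _ 68 [(rh5c5e593799055d58.shift 4 2), rhc950a98d63a85ef9] (by decide +kernel))
noncomputable def rh30ec13a66548b804 : CRef := CRef.mk (Pat.mk 0x200000002800000020000000000000000000000000 0x10000000380000007c0000006f0000007e000000700000007000000050 8 7) 0 0 (step_sound _ 69 [(rh5abfc4c9d959be03.shift 4 1), (rh6eff4158bb400f47.shift 4 0), (rhbff2031a8b65a543.shift 0 1)] (by decide +kernel))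
noncomputable def rh77b9537d9d415eaf : CRef := CRef.mk (Pat.mk 0x4000000040000000000000006000000020000000000000000000000000 0x40000001c00000078e000001fe000003ff000001c0000001c000000140 8 11) 0 0 (step_sound _ 135 [(rh5e2640745bb02973.shift 4 0), (rh9eee144bcc47c07a.shift 0 3), (rhf0f55c4504412200.shift 2 3)] (by decide +kernel))
noncomputable def rh7f735efeb968734d : CRef := CRef.mk (Pat.mk 0x2000000020000000000000001000000010 0x28000001ff000001fe000001d70000005400000054 8 9) 0 0 (step_sound _ 100 [(rh04253f50b6dd0619.shift 4 0), rha9a98e9435472662] (by decide +kernel))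
noncomputable def rha46ed681a25c5f85 : CRef := CRef.mk (Pat.mk 0x10000000000000000800000008000000000000000000000000 0x1c0000001e000000780000000f0000003c0000001c0000001c00000014 8 7) 0 0 (step_sound _ 163 [(rh17d7303830c72081.shift 2 1), (rh88fc95ae81e80f82.shift 0 2), (rhb6173807e51fd66e.shift 1 2), (rhc94dfb5f501cb051.shift 2 0)] (by decide +kernel))
noncomputable def rh3d7f8cbc57d04f80 : CRef := CRef.mk (Pat.mk 0x100000001000000030000000000000000000000000 0x4000000fe000000fe000000ff000000ef0000006800000020 8 8) 0 0 (step_sound _ 131 [(rh27438132f6e0c8ad.shift 1 1), (rh843b897eb249eed2.shift 1 3), rh9793b34d9efc0721, (rhb0121edee88fe839.shift 1 3)] (by decide +kernel))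
noncomputable def rhec8b30d84b76479c : CRef := CRef.mk (Pat.mk 0x200000002000000060000000000000000000000000 0x2000000020000003bf000001fe000003be0000001000000010 8 10) 0 0 (step_sound _ 100 [(rh281c6819542c66e6.shift 4 0), (rh2bf11f1324c30e9b.shift 0 2), (rh666963be1c07257b.shift 3 2)] (by decide +kernel))
noncomputable def rhc85d4110771a2fc9 : CRef := CRef.mk (Pat.mk 0x8000000080000000c0000000000000000000000000000000000000000 0x80000001c0000003f0000001f0000001f0000001e0000001e00000014 8 6) 0 0 (step_sound _ 131 [(rh3969dd6adf53601d.shift 2 0), (rh7d126cf166b76c20.shift 0 1), (rh9837e24fa4a15b7a.shift 0 1), (rh9aa244fae87b9c0d.shift 2 0), (rhafd44d417107dbfd.shift 2 1)] (by decide +kernel))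
noncomputable def rh2fadd4bbdbc455b9 : CRef := CRef.mk (Pat.mk 0x100000001800000008 0x1600000016000000ff000001ff000001de 8 9) 0 0 (step_sound _ 37 [(rh04048a4a2acf2c94.shift 2 0), rh7b9382ef4f03c3e2, (rh982ddba9009dd54b.shift 2 0), (rhc8789020ec7a1991.shift 1 0)] (by decide +kernel))
noncomputable def rhfcc14db138c4770f : CRef := CRef.mk (Pat.mk 0x100000001000000018000000000000000000000000 0x14000000f60000007f0000007e0000002800000028 8 8) 0 0 (step_sound _ 98 [(rh6cf4c37417009e6c.shift 0 1), (rh9c627e8015333c34.shift 1 0), (rha11dfd15f08f96e3.shift 1 3)] (by decide +kernel))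
noncomputable def rh7eeba08036e76531 : CRef := CRef.mk (Pat.mk 0x8000000000000000c00000006000000000000000000000000 0x3800000038000000340000003f0000007e0000007f0000003a0000001a 8 7) 0 0 (step_sound _ 132 [(rh18965a982d73c794.shift 1 3), rhe53669e36996158d] (by decide +kernel))
noncomputable def rh8090fb974693a9ce : CRef := CRef.mk (Pat.mk 0x3000000018000000000000000000000000 0x20000000600000006000000060000003e0000007e000000ef0000000a00000008 8 8) 0 0 (step_sound _ 98 [(rh53b3c253cb0c65f4.shift 1 3), rhd78dcbb8955d5525] (by decide +kernel))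
noncomputable def rh3b820c2eeb6e3ee2 : CRef := CRef.mk (Pat.mk 0x200000000000000030000000180000000000000000 0xa0000000e0000001e0000000f8000003c7000000ff000000f8000000e000000020 8 10) 0 0 (step_sound _ 102 [(rh18965a982d73c794.shift 3 2), rh98a02e06862698d4] (by decide +kernel))
noncomputable def rh5feff34b764c5a32 : CRef := CRef.mk (Pat.mk 0x1000000010000000180000000000000000000000000000000000000000 0x1000000038000000f8000000ff0000003f000000380000003800000020 8 8) 0 0 (step_sound _ 132 [(rh04fb49e8b2fe896a.shift 0 3), (rh163713f210be8ab6.shift 1 2), (rh3969dd6adf53601d.shift 3 0), (rh9837e24fa4a15b7a.shift 1 1), (rhafd44d417107dbfd.shift 3 1), (rhed841d9ebc5dd0e1.shift 3 1)] (by decide +kernel))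
noncomputable def rh9fe5e7ab1ea65746 : CRef := CRef.mk (Pat.mk 0x4000000000000000a000000030000000000000000 0x80000001c0000003e000000f80000001e0000001f0000001e0000001c 8 8) 0 0 (step_sound _ 100 [rh94df47538fc2ed8a, (rhb2a0b9ccfb5cecd5.shift 0 2)] (by decide +kernel))
noncomputable def rh94514ee4dc6cc6f0 : CRef := CRef.mk (Pat.mk 0xa000000030000000000000000000000000 0x40000002400000026000000fe0000007e000000ef0000004000000040 8 8) 0 0 (step_sound _ 99 [(rh497db2942f8c7aa2.shift 3 0), (rh5f13f9568ecd098e.shift 0 2), (rhf4585caa3b13e38a.shift 2 3)] (by decide +kernel))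
noncomputable def rhad318b49e500dae1 : CRef := CRef.mk (Pat.mk 0x8000000080000000c00000000000000000000000000000000 0x80000001c0000001f0000007c0000001c0000001c00000018 8 7) 0 0 (step_sound _ 66 [(rh06181a2dc624c6f8.shift 2 2), (rhd5b92086fe7b06e3.shift 2 1), rhd6990aa995e4941b, (rhdebc43b768884653.shift 2 1)] (by decide +kernel))
noncomputable def rhb889f4f25b86c814 : CRef := CRef.mk (Pat.mk 0x8000000080000000c000000000000000000000000 0xc0000000c0000001c0000001f0000007c0000000f000000180000001800000010 8 7) 0 0 (step_sound _ 132 [(rh0bb882ba86b2372d.shift 0 3), rhd149c3d0126e0b07, (rhd26afdb95a51b9ac.shift 0 1)] (by decide +kernel))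
noncomputable def rh15b3e2f9b4f93510 : CRef := CRef.mk (Pat.mk 0x200000002000000030000000100000000000000000 0x180000003c000000f60000003e000000ff0000006000000040 8 8) 0 0 (step_sound _ 99 [(rh0366217c5eadaa23.shift 2 1), (rh162bb8541b6d45d2.shift 1 2), (rh7b4be808fd1d2796.shift 1 0), (rh7f0f728c796044ac.shift 0 2)] (by decide +kernel))
noncomputable def rhe487971419b54f87 : CRef := CRef.mk (Pat.mk 0x8000000180000000c00000000000000000000000000000000 0x4000000040000000c0000001f000000780000000c000000080000001c0000001c00000014 8 7) 0 0 (step_sound _ 165 [(rh18965a982d73c794.shift 2 4), rh2023bb9f7e83937d] (by decide +kernel))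
noncomputable def rhd1614adf0fa6a146 : CRef := CRef.mk (Pat.mk 0x10000000200000002000000020 0x5800000058000003df000001fe000003ff0000002c 8 10) 0 0 (step_sound _ 68 [(rh7492519b8ad1e735.shift 1 0), rhcf20f7f3b63f8534, (rhe072fffdd2fccf38.shift 4 0)] (by decide +kernel))
noncomputable def rhc940dcd71d4c6188 : CRef := CRef.mk (Pat.mk 0x8000000080000000800000008 0x2000000170000003f0000003f0000000c0000000c 8 6) 0 0 (step_sound _ 98 [(rh50fbb5868c909700.shift 2 0), rh5efd2f99a4638dcf] (by decide +kernel))
noncomputable def rhd4a66334095dc78e : CRef := CRef.mk (Pat.mk 0x300000002000000000 0x4400000044000001c7000001fe000001fe00000028 8 9) 0 0 (step_sound _ 67 [(rh8d10fe49e165ceee.shift 3 0), (rh9909eeda0ef2ed2c.shift 2 1), (rhb2afcb5db661472f.shift 0 1), rhf4a2226fbb3acfa7, (rhf748f01c7a8ecd84.shift 1 0)] (by decide +kernel))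
noncomputable def rh8fd5339685e2a82f : CRef := CRef.mk (Pat.mk 0x1000000030000000000000002000000020 0xa0000000e0000000e0000000ff000001fe000003c7000000e000000020 8 10) 0 0 (step_sound _ 102 [rh20c6879893dae772, rh2a8ef89e96d921ba, (rha9fbfd4bb8cf890b.shift 1 3), (rhae8d21abc86b555a.shift 3 2)] (by decide +kernel))
noncomputable def rh61747027f91f76ce : CRef := CRef.mk (Pat.mk 0x1000000020000000200000002000000000 0x4000000040000003fe000001ff0000003e0000002000000020 8 10) 0 0 (step_sound _ 100 [(rh7b1f1fb55310c477.shift 4 0), (rhb86ea7bbeec3780d.shift 0 1)] (by decide +kernel))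
noncomputable def rh4448ba2646aa73c9 : CRef := CRef.mk (Pat.mk 0x800000008000000180000000000000010 0x30000000300000003f0000007f0000007e0000007000000030 8 7) 0 0 (step_sound _ 100 [rh96adc8ebab196b3c, (rh9e07f76261b05888.shift 3 0)] (by decide +kernel))
noncomputable def rh08468e75aab8e03d : CRef := CRef.mk (Pat.mk 0x10000000100000001000000000 0x28000000380000003800000010000000ff000000fe0000002f 8 8) 0 0 (step_sound _ 132 [rh21574c04c88fbf88, (rh3ce7792043b47634.shift 3 0), (rhc85cc95794737cf7.shift 3 1)] (by decide +kernel))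
noncomputable def rh44749d42c0651b04 : CRef := CRef.mk (Pat.mk 0x2000000020000000200000000000000040000000000000000 0x400000007000000070000000700000007000000060000000600000002000000070000000700000001 8 3) 0 0 (step_sound _ 225 [(rh1741680720c097b4.shift 0 4), (rh18cc9f880821f0ab.shift 1 2), rh9b748f8143295222] (by decide +kernel))
noncomputable def rhc6489ec47b00a9e4 : CRef := CRef.mk (Pat.mk 0x8000000080000000800000008 0x200000002000000170000003f0000003f0000000c00000008 8 6) 0 0 (step_sound _ 98 [(rh50fbb5868c909700.shift 2 0), rhf460c2de1c38cdb5] (by decide +kernel))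
noncomputable def rh69d01bb507981895 : CRef := CRef.mk (Pat.mk 0x8000000080000000800000008 0xc0000001c0000001c0000000f0000003c0000001c 8 6) 0 0 (step_sound _ 100 [(rh2f68792b6b779e96.shift 3 0), rh972861c15763573f] (by decide +kernel))
noncomputable def rhc04fa491437a3258 : CRef := CRef.mk (Pat.mk 0x4000000040000000400000000000000080000000000000000 0xa0000000e0000000e0000000f0000003f0000003e0000000e000000040000000e0000000e00000002 8 6) 0 0 (step_sound _ 226 [(rh27b052a1db720fef.shift 1 4), (rhf149b0c20b930719.shift 0 3), rhf8bf4b631cbdd548] (by decide +kernel))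
noncomputable def rhffe7687e448b216f : CRef := CRef.mk (Pat.mk 0x80000000800000018000000100000000000000000 0x200000007c000001ef000000fe000001f00000001000000010 8 9) 0 0 (step_sound _ 36 [(rh0e4b5c86e994a192.shift 0 1), (rh7b1f1fb55310c477.shift 3 0)] (by decide +kernel))
noncomputable def rh79b9a820b1275599 : CRef := CRef.mk (Pat.mk 0x1000000018000000300000000000000000 0xc0000003f000000ff000000f8000000fc0000001400000010 8 8) 0 0 (step_sound _ 70 [rhbb8fe101fa214517, (rhf48373e13d2bc128.shift 3 2)] (by decide +kernel))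
noncomputable def rh2bc78c6bbc69c966 : CRef := CRef.mk (Pat.mk 0x1800000010000000100000001000000000 0x200000003c000000f0000001f7000000fe000001ef 8 9) 0 0 (step_sound _ 133 [(rh2f68792b6b779e96.shift 4 1), rhf4175ea1549ef298] (by decide +kernel))
noncomputable def rh71053f9fce0452b6 : CRef := CRef.mk (Pat.mk 0x100000001000000018000000000000000000000000 0x16000001f7000000ff000001ff0000003c0000002c 8 9) 0 0 (step_sound _ 67 [rh1d6aa28973ae6802, (rh42548283029e2a39.shift 3 0), rhb0bfb45804bf496c] (by decide +kernel))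
noncomputable def rhbd0f434f0aed84cb : CRef := CRef.mk (Pat.mk 0x8000000180000000c00000000 0x4000000040000000c0000000f0000001f000000ff000000fa 8 8) 0 0 (step_sound _ 33 [(rh53b3c253cb0c65f4.shift 0 1), rh543ced835bcd6a2b] (by decide +kernel))
noncomputable def rh0757c7b2eed96030 : CRef := CRef.mk (Pat.mk 0x100000001000000030000000200000000000000000 0x100000001f000000fe000001ff000001c800000008 8 9) 0 0 (step_sound _ 67 [(rh03421ec39b8494b6.shift 0 2), (rh3743dbe66b959104.shift 3 0), rh3d478c599e9c60db, (rh51fce1c34e57939e.shift 1 1), (rh864300ca6b3f12b8.shift 1 1)] (by decide +kernel))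
noncomputable def rhd37b7930014719b7 : CRef := CRef.mk (Pat.mk 0x1000000010000000300000000000000000 0x200000002000000030000000f0000000fe000000ff0000001f00000008 8 8) 0 0 (step_sound _ 99 [rh04a2359aacb04ee2, (rh3c3e23a02e82b2ed.shift 1 2), (rh45df595d1ad06a3d.shift 1 1)] (by decide +kernel))
noncomputable def rhcf119aa3055b2879 : CRef := CRef.mk (Pat.mk 0x10000000100000001800000000 0x2f0000007e000000ff000000100000001800000008 8 8) 0 0 (step_sound _ 132 [(rh932754581e0f4330.shift 3 0), (rhf157451710f64b09.shift 0 1)] (by decide +kernel))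
noncomputable def rh7751722d938a8dae : CRef := CRef.mk (Pat.mk 0x200000007000000000 0x3bf000001fe0000038e 8 10) 0 0 (step_sound _ 39 [(rh4cb981e42e77f7fb.shift 3 1), rh72acf8cf40560157, (rha93a5dd541ab8209.shift 4 0)] (by decide +kernel))
noncomputable def rh40cec9647ff47b91 : CRef := CRef.mk (Pat.mk 0x100000001000000030000000000000000000000000 0x6000000078000007ff000007fe000007ef000000e800000080 8 11) 0 0 (step_sound _ 102 [(rh49da656b2d03af26.shift 2 1), (rh92a5c4df176df4f3.shift 0 2), (rh9c94213f6896c74a.shift 3 2), (rha7edc60fc34bffff.shift 2 3), (rhec3de85db20cf3dc.shift 3 0)] (by decide +kernel))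
noncomputable def rh6fdaca10012d4e7a : CRef := CRef.mk (Pat.mk 0x80000000800000008000000000000000000000000 0x1000000018000000180000001c0000001c0000000f0000003c0000001c0000001c 8 6) 0 0 (step_sound _ 196 [(rh527895f4954d6693.shift 2 0), (rh5890386c1f942fa1.shift 3 3), (rh87d5e4118780fa3b.shift 3 2), (rheab8a4ec72298776.shift 0 1)] (by decide +kernel))
noncomputable def rh7cd87a07a829ab74 : CRef := CRef.mk (Pat.mk 0x800000018000000100000001000000000 0x300000003000000030000000780000001f000000fb0000001e0000000c 8 8) 0 0 (step_sound _ 98 [(rh0b19184f694fb092.shift 0 2), rh197c3a8e1af4398d, (rh7a23023020b8c3e0.shift 1 0), (rhc21a95c499b3efdb.shift 1 2)] (by decide +kernel))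
noncomputable def rhcb6403ff291d0648 : CRef := CRef.mk (Pat.mk 0x1000000018000000080000000800000000 0x80000000c0000000e0000001f0000007b0000001f0000000c00000004 8 7) 0 0 (step_sound _ 66 [rh5486ce40f419b9d9, (rh574fdbf07bdd18b9.shift 0 2), (rhef1fef9b2fe09d8c.shift 1 0)] (by decide +kernel))
noncomputable def rh9b9c75f48c7e9549 : CRef := CRef.mk (Pat.mk 0x1000000020000000200000002000000000 0x58000000fc000003df000000fe000001ff0000002c00000008 8 10) 0 0 (step_sound _ 100 [(rh5cee65fab8290e21.shift 1 1), rhace83205720233b8, (rhe072fffdd2fccf38.shift 4 1)] (by decide +kernel))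
noncomputable def rh3b4aa1475d8f5c82 : CRef := CRef.mk (Pat.mk 0x30000000100000001000000010 0x1cf000000fe000000ff0000001000000010 8 9) 0 0 (step_sound _ 99 [(rh50fbb5868c909700.shift 3 0), (rhf011268695c041b3.shift 0 2)] (by decide +kernel))
noncomputable def rhc10df8d62d3f6a35 : CRef := CRef.mk (Pat.mk 0x8000000100000001000000018 0x1c0000001e000000f7000000ff0000001f 8 8) 0 0 (step_sound _ 100 [(rh50fbb5868c909700.shift 3 0), rhad7622a930636dad] (by decide +kernel))
noncomputable def rh4b5768da77da5376 : CRef := CRef.mk (Pat.mk 0x100000001000000018000000000000000000000000 0x50000000df000000fe000000ff0000002800000028 8 8) 0 0 (step_sound _ 67 [(rh42548283029e2a39.shift 3 0), rhbf6c784b634046f2, (rhf9af042da61fc652.shift 3 0)] (by decide +kernel))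
noncomputable def rhc7a2a1b712f5b53e : CRef := CRef.mk (Pat.mk 0x1000000010000000100000001800000000 0x1000000010000000ff000000fe000001e7 8 9) 0 0 (step_sound _ 37 [(rh55afc6a59410cf00.shift 4 0), rh5fedde5d17b43726] (by decide +kernel))
noncomputable def rhdc47d536b3d69141 : CRef := CRef.mk (Pat.mk 0x40000000400000004000000060000000000000000000000000 0x40000000600000007f000003fe0000009f0000001000000010 8 10) 0 0 (step_sound _ 103 [rh04afcbbfad1360f5, (rh55afc6a59410cf00.shift 6 2)] (by decide +kernel))
noncomputable def rh7edd0fb57b3764a0 : CRef := CRef.mk (Pat.mk 0x400000004000000040000000c00000000 0xfa0000007e000000f70000003c0000003f00000072 8 8) 0 0 (step_sound _ 33 [rh38abcce05bcee1d2, (rh932754581e0f4330.shift 1 0)] (by decide +kernel))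
noncomputable def rh0428d8fa27ca7f9a : CRef := CRef.mk (Pat.mk 0x800000008000000180000000000000000000000000000000000000000 0x40000000c000000180000007c0000001f0000001c0000001c0000001c00000014 8 7) 0 0 (step_sound _ 131 [(rh2c5a6414b11f54f4.shift 0 3), (rh840b59618cfe7052.shift 2 0), (rhb0de455c382c5b1c.shift 0 3)] (by decide +kernel))
noncomputable def rhdfab6ec297236c63 : CRef := CRef.mk (Pat.mk 0x3000000020000000200000002000000000 0x70000003e0000007c000000ee0000007c0000005e 8 8) 0 0 (step_sound _ 38 [(rh55afc6a59410cf00.shift 5 0), rhcd2c871bfe1d4ba0] (by decide +kernel))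
noncomputable def rhe7ccbf4c24b74c98 : CRef := CRef.mk (Pat.mk 0x40000000400000004000000000000000000000000 0x200000006000000060000000e0000000e0000003c0000000f0000000e0000000e 8 6) 0 0 (step_sound _ 193 [(rh09361476c1ed2154.shift 0 1), (rh0dbc8abee7ad42d4.shift 1 2), (rh114f4abf4ea101c9.shift 1 2), (rhb59840d60ceae331.shift 1 0), (rhbab796f6dafe9186.shift 1 3)] (by decide +kernel))
noncomputable def rhbd810ae6c0fd3c61 : CRef := CRef.mk (Pat.mk 0x80000000800000008000000000000000000000000 0x100000001c0000001e000000780000001e000000780000003f0000001c00000014 8 7) 0 0 (step_sound _ 164 [(rh215e11e099257d75.shift 3 2), (rh274a837cd7eaa569.shift 2 0), (rh4603d8f188f19f9d.shift 1 2), rh9a9dbff92452f3d0] (by decide +kernel))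
noncomputable def rh5693721f84391bf5 : CRef := CRef.mk (Pat.mk 0x3000000010000000100000001000000000 0x3000000030000003f7000001fe000001ef 8 10) 0 0 (step_sound _ 37 [rh13015c5bcf408a1f, (rh55afc6a59410cf00.shift 4 0)] (by decide +kernel))
noncomputable def rh31ade9886d238913 : CRef := CRef.mk (Pat.mk 0x180000000e0000000000000000000000000000000000000000 0x1000000018000000fe000000ff000000fe000000fc0000001c00000010 8 8) 0 0 (step_sound _ 99 [(rh87ac23ce835a3079.shift 2 1), (rh9ecfdfec371fa6f3.shift 1 2), (rhb7028c8fa055ae6b.shift 0 2), (rhbe1b565f92bc3201.shift 1 2), (rhd22919919fc506b5.shift 2 0)] (by decide +kernel))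
noncomputable def rha45102ea3c8afd47 : CRef := CRef.mk (Pat.mk 0x1c00000006000000000000000000000000 0x800000038000000780000001f0000003e0000003f0000003f00000002 8 7) 0 0 (step_sound _ 163 [rh035091ba8798c671, (rh8ba76a019a1305b6.shift 0 1), (rhadf429772c25fde0.shift 2 1), (rhf7bbabc7740a8b9b.shift 0 1)] (by decide +kernel))
noncomputable def rh193671f3b618cc50 : CRef := CRef.mk (Pat.mk 0x300000001c0000000000000000000000000000000000000000 0xc0000002c0000006f0000003f000001fc0000001e0000003c000000380000003800000020 8 9) 0 0 (step_sound _ 132 [(rh14f2f79bb0cfaf00.shift 1 2), (rh2222a27c490588f5.shift 3 0), (rh274a837cd7eaa569.shift 3 1), (rhcce29a7accc69035.shift 0 2)] (by decide +kernel))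
noncomputable def rhdbbf68eb463d5af6 : CRef := CRef.mk (Pat.mk 0x180000000e000000000000000000000000000000000000000000000000 0x200000032000000370000001f000000fe0000007c0000007e000000fc0000001c0000001c00000014 8 8) 0 0 (step_sound _ 163 [(rh000637b5a81e86aa.shift 2 3), (rhd45a1a952a8e23fc.shift 0 5), (rhf039fef9e9bc56cb.shift 1 0)] (by decide +kernel))
noncomputable def rhf555f384a46eb39e : CRef := CRef.mk (Pat.mk 0x180000000c0000000000000000 0x7000000370000001f000000ff000000e700000006 8 8) 0 0 (step_sound _ 65 [rh425a13e1173506fb, (rh53b3c253cb0c65f4.shift 0 2)] (by decide +kernel))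
noncomputable def rh12eb5dd9d5e5bdf1 : CRef := CRef.mk (Pat.mk 0x300000001c0000000000000000000000000000000000000000 0x680000006f0000003f0000003c000000fe0000007e0000007c0000003800000020 8 8) 0 0 (step_sound _ 132 [(rh2222a27c490588f5.shift 3 0), (rh4daee3fc6eef3b92.shift 0 2), (rhc297f03dfbd12c9f.shift 1 2)] (by decide +kernel))
noncomputable def rhad5b57035329c175 : CRef := CRef.mk (Pat.mk 0x180000000e000000000000000000000000 0x20000003b0000003e000000370000001400000014 8 6) 0 0 (step_sound _ 100 [(rh33e738c4ed385b9f.shift 1 3), rhec7ad518217d8e47] (by decide +kernel))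
noncomputable def rhbb28fae148a4d438 : CRef := CRef.mk (Pat.mk 0x180000000e000000000000000000000000 0x1000000030000000320000001f0000003e0000003f0000003400000034 8 6) 0 0 (step_sound _ 100 [rh222d9114b60fb97b, rh5f27e0477c371a96, rhcfff3ba4b432b399] (by decide +kernel))
noncomputable def rhd8bd8e0a2e13c45e : CRef := CRef.mk (Pat.mk 0x30000000180000000000000000 0x2800000068000000ec000000ff000000f8000000e000000060 8 8) 0 0 (step_sound _ 102 [(rh18965a982d73c794.shift 3 2), rh1ed2095bc7c461f8] (by decide +kernel))
noncomputable def rhb086467b7377c326 : CRef := CRef.mk (Pat.mk 0x180000000e000000000000000000000000 0x3000000030000000300000001c000000fe0000003f000000f800000038 8 8) 0 0 (step_sound _ 100 [(rh9767a395d383a9c4.shift 1 0), (rhb447f348b8f2aaa5.shift 0 2), (rhef8986517b5b0144.shift 1 0)] (by decide +kernel))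
noncomputable def rhd24497e1e767e37a : CRef := CRef.mk (Pat.mk 0x300000001c000000000000000000000000 0xc0000002c0000002f0000003f000000fc000000fe000000f400000070 8 8) 0 0 (step_sound _ 68 [(rh000637b5a81e86aa.shift 3 0), rh2c059e45ffa15cab, (rh52223a67bafc1671.shift 1 0), (rhff42dcdc0970b402.shift 1 0)] (by decide +kernel))
noncomputable def rhc56b75a9fef7eb6e : CRef := CRef.mk (Pat.mk 0x1c00000006000000000000000000000000 0x1800000018000000180000001c0000007f0000003c0000001c00000008 8 7) 0 0 (step_sound _ 99 [(rh53b3c253cb0c65f4.shift 0 3), (rh576262974fcf62ec.shift 1 0)] (by decide +kernel))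
noncomputable def rh3486d0cfdfda2aef : CRef := CRef.mk (Pat.mk 0xc0000000e000000000000000000000000 0xf0000007f0000003f0000000300000003 8 7) 0 0 (step_sound _ 100 [rh47bc5cc95658036e, (rhe3060b190bc0bc78.shift 0 3), (rhf0def4d398a0beee.shift 0 2)] (by decide +kernel))
noncomputable def rh525437f8b959ec5b : CRef := CRef.mk (Pat.mk 0xc0000000e000000000000000000000000 0x80000000c0000000f0000007f0000003f0000001e 8 7) 0 0 (step_sound _ 67 [rh7cca796d15a13461, (rhc21a95c499b3efdb.shift 0 2), rhe2de5260b188f0f4] (by decide +kernel))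
noncomputable def rhb28c9d87d55087f0 : CRef := CRef.mk (Pat.mk 0x180000000e000000000000000000000000 0x140000001f0000003e0000007b0000003f0000001e 8 7) 0 0 (step_sound _ 35 [(rh5a7dce561d0bf78d.shift 2 0), rh93cd1a509368430b, (rha7085a59ed136d43.shift 1 0), rha9e25d71122884ad] (by decide +kernel))
noncomputable def rhdab250e0cc9a0d79 : CRef := CRef.mk (Pat.mk 0x180000000e000000000000000000000000 0x7000000070000001f0000003e000000370000003e00000038 8 6) 0 0 (step_sound _ 100 [(rh21460d2d48a35cb8.shift 0 1), rh26fd18283c6b3d6e, (rh3f38de6b95fe6c30.shift 0 1), (rh41d5a93e35cc8528.shift 0 1)] (by decide +kernel))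
noncomputable def rh96acc0cc51f94844 : CRef := CRef.mk (Pat.mk 0x80000001800000018000000000000000000000000 0x2000000020000000e8000000fc000000df0000005f0000001c0000001c 8 8) 0 0 (step_sound _ 133 [(rh4dc133ee0ba1420a.shift 1 3), rh4de41532da770f77, (rh7ec7bc643b172875.shift 2 1)] (by decide +kernel))
noncomputable def rh2952114d86a8ab63 : CRef := CRef.mk (Pat.mk 0x1800000018000000000000000000000000 0x1c0000003c0000000f000000f80000001f0000001f0000001c0000001c 8 8) 0 0 (step_sound _ 163 [(rh28152048bc8b598f.shift 0 2), (rh3e595262c1b737ad.shift 3 2), rhc60eca57951bafb8] (by decide +kernel))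
noncomputable def rh826fe248a99cf337 : CRef := CRef.mk (Pat.mk 0x180000001800000010 0xc0000000c000000ef000000ff0000001f00000010 8 8) 0 0 (step_sound _ 131 [(rh3fcd99c472a334c6.shift 0 1), (rh6f1cbe15c631ee70.shift 3 0)] (by decide +kernel))
noncomputable def rh0898acf46b3783a0 : CRef := CRef.mk (Pat.mk 0x1800000018000000000000000000000000 0xc0000000e0000000f0000007f0000001f0000000f0000000e0000000c 8 7) 0 0 (step_sound _ 98 [rh9d056153551b976f, (rhab2ad169e49f9c5e.shift 0 3), (rhd9b6067dacf5ff35.shift 0 1)] (by decide +kernel))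
noncomputable def rhc6fce6e3a7428711 : CRef := CRef.mk (Pat.mk 0x80000001800000018000000000000000000000000 0x40000000c0000001c0000001f0000003f0000001f0000000c 8 6) 0 0 (step_sound _ 68 [(rh7b1f1fb55310c477.shift 3 1), rheb3329c30661558b] (by decide +kernel))
noncomputable def rh5abec70f7a8a4b9d : CRef := CRef.mk (Pat.mk 0x80000001800000018000000000000000000000000 0x2000000024000000ef000000fc000000d80000005c0000001c0000000c 8 8) 0 0 (step_sound _ 68 [(rh7b1f1fb55310c477.shift 3 1), rh8c0ad0c66ea1bb38] (by decide +kernel))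
noncomputable def rh90e89d3900eef196 : CRef := CRef.mk (Pat.mk 0x5000000070000000000000000000000000 0x100000001000000077000001fe000001f70000002000000020 8 9) 0 0 (step_sound _ 69 [(rh827210f2b5f439b1.shift 0 2), (rhade0f4c81793f68e.shift 4 0), (rhbe707112c53dab40.shift 4 0), rhc5f13b10782deb77] (by decide +kernel))
noncomputable def rh8d4c9c20a908d33b : CRef := CRef.mk (Pat.mk 0x5000000070000000000000000000000000 0x380000003c00000077000001fe0000007f0000007f00000028 8 9) 0 0 (step_sound _ 69 [rh8c38f01c237e5759, (rhbe707112c53dab40.shift 4 0), (rhcb5333b321e8d881.shift 2 1)] (by decide +kernel))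
noncomputable def rhbce8a01a6672718a : CRef := CRef.mk (Pat.mk 0x140000001c00000000000000000000000000000000 0x40000000c0000000c0000001c0000003f0000007a0000003e0000003c00000028 8 7) 0 0 (step_sound _ 100 [(rh05cafac317bd78b2.shift 0 2), rh6c9f14dcfaa95209, (rh95d52529526d9362.shift 1 0), (rh9909eeda0ef2ed2c.shift 1 3)] (by decide +kernel))
noncomputable def rhf96d18b2dd926dff : CRef := CRef.mk (Pat.mk 0x100000001c000000000000000000000000 0xe0000000f0000001e0000007c000000ee0000000c00000008 8 8) 0 0 (step_sound _ 101 [(rh06db8ceda6269a47.shift 1 2), (rh5f27e0477c371a96.shift 1 0), (rhe0a2f640c8008c73.shift 0 1), (rhe401600d466b97cd.shift 1 2)] (by decide +kernel))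
noncomputable def rh76a5874def1a29c4 : CRef := CRef.mk (Pat.mk 0x1e000000000000000000000000 0x200000006000000070000001e0000003f0000000700000007 8 6) 0 0 (step_sound _ 68 [rh2885fe34da96c517, (rhe25b0a99195a5d59.shift 1 2)] (by decide +kernel))
noncomputable def rhe9728339b906606e : CRef := CRef.mk (Pat.mk 0x200000007800000000000000000000000000000000 0x1c0000001e0000003c000000780000003c0000001f0000001c00000008 8 7) 0 0 (step_sound _ 163 [(rh3244c3cc8379b070.shift 2 4), rhd7e0f41747552dd7] (by decide +kernel))
noncomputable def rh245a83f3c17e8bb0 : CRef := CRef.mk (Pat.mk 0xc0000000c000000080000000000000000 0x1000000034000000740000007f0000007c000000780000007000000020 8 7) 0 0 (step_sound _ 162 [(rh2145e1d24b96a57e.shift 2 2), rhc1efa01094375ded] (by decide +kernel))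
noncomputable def rhc2c2b50711241d7f : CRef := CRef.mk (Pat.mk 0x1800000018000000000000000000000000 0x3c0000003c000000ef000000fc000000380000001c0000001c0000000c 8 8) 0 0 (step_sound _ 163 [(rh28152048bc8b598f.shift 0 2), rh3a81693bb28b3fe0, (rh3e595262c1b737ad.shift 3 2)] (by decide +kernel))
noncomputable def rhb16a73b17f508dd1 : CRef := CRef.mk (Pat.mk 0xc0000001c000000000000000000000000 0x14000000770000007f0000001c000000180000001800000018 8 7) 0 0 (step_sound _ 129 [rh8d31eee43eaf43f5, (rhb739f4f82bb681b4.shift 0 3)] (by decide +kernel))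
noncomputable def rhb8b0231886cb7716 : CRef := CRef.mk (Pat.mk 0x1800000018000000100000000000000000 0x200000002c000000ef000000fc000000d80000005c0000000c0000000c 8 8) 0 0 (step_sound _ 163 [(rh2145e1d24b96a57e.shift 3 2), rh8c0ad0c66ea1bb38] (by decide +kernel))
noncomputable def rhb648d3fa3ea5157b : CRef := CRef.mk (Pat.mk 0x1800000018000000000000000000000000 0x1c0000007c000000ef000000f8000000f8000000fe0000007c0000001c 8 8) 0 0 (step_sound _ 133 [(rh063984de564f46f2.shift 3 1), (rh0c561658b8646091.shift 2 1), rh6cf8318ada960bd2] (by decide +kernel))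
noncomputable def rh5e651343a16111b1 : CRef := CRef.mk (Pat.mk 0x180000000e000000000000000000000000 0x24000000340000001f0000003e0000003f0000003e00000038 8 6) 0 0 (step_sound _ 100 [(rh21460d2d48a35cb8.shift 0 1), rh26fd18283c6b3d6e, rhb6483549f3fa1813] (by decide +kernel))
noncomputable def rh80ddf3b13611208a : CRef := CRef.mk (Pat.mk 0x3800000060000000000000000000000000 0x1c0000007c000000ff000000fc000000f80000006c000000c0000000c0000000c0 8 8) 0 0 (step_sound _ 134 [(rh20aa4f45d68bc15e.shift 3 0), (rh3d8f0513cff12700.shift 2 3), (rhe4fa57a573f8c1de.shift 0 3)] (by decide +kernel))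
noncomputable def rh0c7bddc3748e9e86 : CRef := CRef.mk (Pat.mk 0x60000001c000000000000000000000000 0x1c0000003e0000003e0000001f000000380000000800000008 8 6) 0 0 (step_sound _ 67 [rh31d0924caf06b0f6, (rha40d42a2e34c408d.shift 2 0), rhaedf09f5a1add2eb, (rhc6b0e933cbd408b6.shift 0 2)] (by decide +kernel))
noncomputable def rh5fc9219076aa41ad : CRef := CRef.mk (Pat.mk 0xe0000001800000000000000000000000000000000 0x1e0000003e0000000f0000003e0000001f00000017000000070000000700000004 8 6) 0 0 (step_sound _ 164 [(rh03b04d899cf466ea.shift 0 3), (rh21703bbb6af57eb9.shift 0 2), (rh44dd78dd79fc4e0b.shift 0 3), rh60867a60f1c6866c] (by decide +kernel))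
noncomputable def rhfdd9c0c9d7ade82a : CRef := CRef.mk (Pat.mk 0xe00000018000000000000000000000000 0x180000001c0000003c0000003e0000001f000000330000003200000030 8 6) 0 0 (step_sound _ 132 [(rh20aa4f45d68bc15e.shift 1 0), (rh21703bbb6af57eb9.shift 0 1), (rh391f4472eb57537b.shift 0 1)] (by decide +kernel))
noncomputable def rha2aa5240ec2fb9ed : CRef := CRef.mk (Pat.mk 0x1800000030000000000000000000000000 0x60000000e0000000f8000000ff000000ec0000006800000028 8 8) 0 0 (step_sound _ 102 [rh0c9745a831a786cb, (rhf48373e13d2bc128.shift 3 3)] (by decide +kernel))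
noncomputable def rh257211536db277f3 : CRef := CRef.mk (Pat.mk 0xe0000001800000000000000000000000000000000 0x60000000e000000ef0000007e0000001f00000037000000170000000700000004 8 8) 0 0 (step_sound _ 164 [(rh391f4472eb57537b.shift 0 2), (rh44dd78dd79fc4e0b.shift 0 3), rh60867a60f1c6866c, (rhdce80c6eb7d59202.shift 0 4)] (by decide +kernel))
noncomputable def rhe707fc7634527bb4 : CRef := CRef.mk (Pat.mk 0x18000000300000000000000000 0x8000000380000007c0000007c000000fe0000003e0000003f0000006f0000006c 8 8) 0 0 (step_sound _ 98 [rh2603e457ac100aed, (rhb739f4f82bb681b4.shift 1 2)] (by decide +kernel))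
noncomputable def rh6fc8cb74e2006f3a : CRef := CRef.mk (Pat.mk 0xe0000001800000000000000000000000000000000 0x32000000360000003f0000003e0000001f00000007000000070000000700000004 8 6) 0 0 (step_sound _ 164 [(rh21703bbb6af57eb9.shift 0 2), rh60867a60f1c6866c, (rhac2001fc0af031bf.shift 0 4)] (by decide +kernel))
noncomputable def rh92c327dbc7203f5c : CRef := CRef.mk (Pat.mk 0xe0000001800000000 0x40000001c0000001f0000001f000000ff0000007e0000001c00000014 8 8) 0 0 (step_sound _ 131 [(rh2944ff78a56ffb12.shift 2 0), rh47df6a03b0cdaa03, (rh89f667027fd8086a.shift 2 0), rh921503df541657e3] (by decide +kernel))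
noncomputable def rhdc704ca18e69510e : CRef := CRef.mk (Pat.mk 0x60000000c0000000000000000 0x1c0000003c0000003e0000003e0000003b0000001a 8 6) 0 0 (step_sound _ 68 [rh08cf1dc1ec600a7e, (rhf48373e13d2bc128.shift 1 2)] (by decide +kernel))
noncomputable def rhdb3ff221baa4d983 : CRef := CRef.mk (Pat.mk 0xe0000000800000000 0x4000000040000003f0000003f0000001b00000002 8 6) 0 0 (step_sound _ 64 [rhcabe1c9d11ad64a4, (rhe25b0a99195a5d59.shift 0 1)] (by decide +kernel))
noncomputable def rh035bc65b2dad60c7 : CRef := CRef.mk (Pat.mk 0x800000038000000200000000000000000 0x40000001c0000003c0000001f00000078000000780000003e0000001c00000010 8 7) 0 0 (step_sound _ 163 [(rh70e33bfdf511e144.shift 3 0), (rh9c0133e50d8100ea.shift 1 1), (rhbd0ae4c28dad89a6.shift 0 2), (rhf3afdd1b4b9b596e.shift 3 2)] (by decide +kernel))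
noncomputable def rh80cd5915113dc756 : CRef := CRef.mk (Pat.mk 0x60000001c0000000000000000 0x20000002e0000002e0000003f0000003f0000003e0000001f0000001b0000000a 8 6) 0 0 (step_sound _ 130 [rh24bdb1a54feeb276, (rh93acef825b4343d6.shift 1 1), (rhc21c3c599d692292.shift 0 1)] (by decide +kernel))
noncomputable def rhd5b62721e2ff05b0 : CRef := CRef.mk (Pat.mk 0x60000000c000000000000000000000000 0x80000001c0000003c0000001f0000003c000000180000001800000008 8 6) 0 0 (step_sound _ 100 [rhc8538951ddce3fec, (rhf48373e13d2bc128.shift 1 3)] (by decide +kernel))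
noncomputable def rh2821d2437b8de3fb : CRef := CRef.mk (Pat.mk 0xc00000018000000000000000000000000 0x3c0000007c000000ff0000007e0000001f000000370000001200000002 8 8) 0 0 (step_sound _ 132 [rh07cfee2a2accda0a, (rh680eac0fbe5a2298.shift 1 2), (rh6e52883474789b18.shift 0 1), (rhf96016540dee073a.shift 0 1)] (by decide +kernel))
noncomputable def rhfa81ce14c6422371 : CRef := CRef.mk (Pat.mk 0x60000000c0000000000000000 0x8000000080000003f0000003f0000003300000010 8 6) 0 0 (step_sound _ 68 [rh2a9847e303a07bc8, (rhf48373e13d2bc128.shift 1 2)] (by decide +kernel))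
noncomputable def rh1853dd3af8da44f9 : CRef := CRef.mk (Pat.mk 0xe0000001800000000000000000000000000000000 0x1a0000001a0000003b0000003e0000001f00000037000000370000003700000004 8 6) 0 0 (step_sound _ 164 [(rh20aa4f45d68bc15e.shift 1 1), (rh391f4472eb57537b.shift 0 2), rh60867a60f1c6866c] (by decide +kernel))
noncomputable def rhbe17c3732f970a90 : CRef := CRef.mk (Pat.mk 0xe0000001800000000000000000000000000000000 0x1e0000003e000000370000003e0000001f00000007000000070000000700000004 8 6) 0 0 (step_sound _ 164 [(rh21703bbb6af57eb9.shift 0 2), (rh3d8f0513cff12700.shift 0 4), rh60867a60f1c6866c] (by decide +kernel))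
noncomputable def rhbd41c87a1e695cf8 : CRef := CRef.mk (Pat.mk 0x1800000018000000080000000000000000 0x1c0000001c0000005f000000df000000fc000000e80000002000000020 8 8) 0 0 (step_sound _ 101 [(rh0a5be41cfa5d2fb3.shift 2 0), (rh351882b69f82cf2d.shift 0 2), (rhe2b63c00a3d7bb73.shift 1 3)] (by decide +kernel))
noncomputable def rhe2672fa076b01d53 : CRef := CRef.mk (Pat.mk 0x100000001800000018000000000000000000000000 0x50000000df000000ff000000ef0000002c0000002c 8 8) 0 0 (step_sound _ 35 [(rh9e3edb185cc347de.shift 3 1), rhe471aded800711ca] (by decide +kernel))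
noncomputable def rh4da5b91604be97a6 : CRef := CRef.mk (Pat.mk 0x18000000180000000800000000 0xc0000001f0000003f0000001f0000001c0000000c00000004 8 6) 0 0 (step_sound _ 132 [rh3160965f777d4302, (rh5c5e593799055d58.shift 3 1)] (by decide +kernel))
noncomputable def rhb364703c1ccff3b6 : CRef := CRef.mk (Pat.mk 0x1800000018000000000000000000000000 0x1c0000001c0000001f0000001f000000f80000000c0000000c0000000c 8 8) 0 0 (step_sound _ 67 [(rh9954101f0efffb9e.shift 2 0), (rha2c5146fa7ebf90c.shift 0 2), (rhea7a1800d6f053bd.shift 3 0)] (by decide +kernel))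
noncomputable def rhfe8117f69c40e9bb : CRef := CRef.mk (Pat.mk 0x20000000e0000000400000000 0xa0000000b0000007e0000003f0000007400000010 8 7) 0 0 (step_sound _ 129 [(rh2145e1d24b96a57e.shift 1 1), rhe07a8016389733a9] (by decide +kernel))
noncomputable def rh6e577222dc2a6858 : CRef := CRef.mk (Pat.mk 0x80000003800000010000000000000000000000000 0x3c0000007c0000007f0000003c00000018000000080000000800000008 8 7) 0 0 (step_sound _ 195 [(rh2145e1d24b96a57e.shift 3 3), rh9b113864bf66b7e5] (by decide +kernel))
noncomputable def rh8f14b2945177a222 : CRef := CRef.mk (Pat.mk 0x3800000018000000000000000000000000 0x14000000370000003f0000001e0000000c0000000c0000000c 8 6) 0 0 (step_sound _ 98 [(rh53b3c253cb0c65f4.shift 1 3), rha796b599eb6e0759] (by decide +kernel))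
noncomputable def rh7940a50a7592030f : CRef := CRef.mk (Pat.mk 0x1c0000000a00000000 0x14000000340000003f0000001f0000000b00000002 8 6) 0 0 (step_sound _ 65 [rheaf1d6ae2b007f53, (rheb0810cc63b001d8.shift 0 1)] (by decide +kernel))
noncomputable def rhf68c507a132accef : CRef := CRef.mk (Pat.mk 0x1c0000000a000000000000000000000000 0x60000000e0000000f0000001c0000000f000000060000000600000006 8 5) 0 0 (step_sound _ 98 [rh1378fe0ba956ca78, (rh53b3c253cb0c65f4.shift 0 3)] (by decide +kernel))
noncomputable def rh8d4c873bf5a2b448 : CRef := CRef.mk (Pat.mk 0xe0000000500000000000000000 0xb0000001b0000001ff000000fe000000770000003c00000028 8 9) 0 0 (step_sound _ 100 [(rh8446618da59e3717.shift 2 0), (rh90915b691ff5ccd0.shift 3 1), (rh9fdbaef37aa8be4a.shift 0 2)] (by decide +kernel))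
noncomputable def rh34d9484da156b64e : CRef := CRef.mk (Pat.mk 0x1e0000000400000000 0x6000000070000003f0000001f0000000700000002 8 6) 0 0 (step_sound _ 33 [rh1aded9edf2cf7032, (rheb0810cc63b001d8.shift 0 1)] (by decide +kernel))
noncomputable def rhf21df264e002a026 : CRef := CRef.mk (Pat.mk 0x1c00000012 0x3800000038000000f80000003c0000001f00000013 8 8) 0 0 (step_sound _ 33 [rha1951fc7b056a798, rheb0810cc63b001d8] (by decide +kernel))
noncomputable def rha66e987b57d7b6a5 : CRef := CRef.mk (Pat.mk 0xe000000090000000000000000 0x80000007e0000007e0000003b0000001000000010 8 7) 0 0 (step_sound _ 100 [(rh58cc253a25d6f07d.shift 1 0), (rh80fcd6d0a18cb2dd.shift 0 2)] (by decide +kernel))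
noncomputable def rhb0cd061e88776087 : CRef := CRef.mk (Pat.mk 0x4000000060000000600000000 0xc0000000c0000000c0000003e0000003f00000038 8 6) 0 0 (step_sound _ 130 [(rh5c5e593799055d58.shift 1 1), rhd03c8103a01c6c0d] (by decide +kernel))
noncomputable def rh8cb6bf24ea4a6889 : CRef := CRef.mk (Pat.mk 0x80000000c0000000c000000000000000000000000 0x2000000070000000780000007c0000007f000000740000003400000010 8 7) 0 0 (step_sound _ 66 [rh5868370a28924f20, (rh71222050f2c63a3a.shift 2 1)] (by decide +kernel))
noncomputable def rhaf95df0d36d4cc41 : CRef := CRef.mk (Pat.mk 0x1c0000000c0000000000000000 0x1800000018000000180000001c0000007f0000007600000014 8 7) 0 0 (step_sound _ 65 [(rh53b3c253cb0c65f4.shift 0 2), (rh64ea5a0420802fb2.shift 1 0)] (by decide +kernel))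
noncomputable def rhb55fe45d252655c9 : CRef := CRef.mk (Pat.mk 0xc0000000c000000000000000000000000 0x340000007c0000007c0000007f000000770000003600000004 8 7) 0 0 (step_sound _ 132 [(rh063984de564f46f2.shift 2 1), (rh2612b4f73ba7c3b3.shift 1 3), rhbfa472c8b9599924] (by decide +kernel))
noncomputable def rhbc3058e3cdb07978 : CRef := CRef.mk (Pat.mk 0x180000001c000000000000000000000000 0x1c0000003c0000000f00000078000000fc000000ee0000000400000004 8 8) 0 0 (step_sound _ 133 [(rh18965a982d73c794.shift 2 3), rhb0c6f616d8e16b4f] (by decide +kernel))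
noncomputable def rh681490eb5080e3cd : CRef := CRef.mk (Pat.mk 0xe0000001800000000 0x18000000380000003f0000003e0000003800000010 8 6) 0 0 (step_sound _ 68 [rhc81c3583b478ec95, (rhe25b0a99195a5d59.shift 1 1)] (by decide +kernel))
noncomputable def rh5aa170680b67ceee : CRef := CRef.mk (Pat.mk 0xe00000018000000000000000000000000 0x140000003c0000003e0000007f0000003e0000001f000000340000003400000030 8 7) 0 0 (step_sound _ 164 [(rh139c32c7bfcd2045.shift 0 1), rh18a1ce357562db7e, (rh20ec858911c66f98.shift 0 1), (rh6aeb88ae816778de.shift 1 2), (rh98d5a1a31fe2b343.shift 0 1)] (by decide +kernel))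
noncomputable def rh6ac38c0d6359570b : CRef := CRef.mk (Pat.mk 0x400000004000000060000000000000000000000000 0x30000000f0000003ff000001ff000001bf000000b800000028 8 10) 0 0 (step_sound _ 100 [(rh9e6a3afb60ac808f.shift 3 0), (rha11dfd15f08f96e3.shift 3 3), rha6595ea38ae90af7, (rhb103f40a53fe1424.shift 1 2)] (by decide +kernel))
noncomputable def rh017e4b43d934c206 : CRef := CRef.mk (Pat.mk 0x8000000180000000c0000000000000000 0xc0000000c0000000c0000001f0000003f0000003a00000010 8 6) 0 0 (step_sound _ 65 [(rh53b3c253cb0c65f4.shift 0 2), rha190f9f47afbf588] (by decide +kernel))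
noncomputable def rh3699c555d107ef6a : CRef := CRef.mk (Pat.mk 0x4000000060000000c0000000000000000 0x20000000e0000000e0000000c0000000e0000003e0000003f0000003300000012 8 6) 0 0 (step_sound _ 68 [(rhf48373e13d2bc128.shift 1 2), rhffa89b17638e6537] (by decide +kernel))
noncomputable def rh1d0f71ab3af2f6cf : CRef := CRef.mk (Pat.mk 0x200000007000000000 0x3ff000001fe0000038e 8 10) 0 0 (step_sound _ 35 [rh1f9701c4cf497514, (rh76c8aa930691778b.shift 2 0), (rhec46bd5500c722c9.shift 2 1)] (by decide +kernel))
noncomputable def rh10f2b3129287c05e : CRef := CRef.mk (Pat.mk 0x200000002000000030000000000000000000000000 0x1000000038000000fe000001fe000000ff0000005800000010 8 9) 0 0 (step_sound _ 99 [(rh9e6a3afb60ac808f.shift 2 0), (rhb103f40a53fe1424.shift 0 2), (rhc2150c3ba6f1ef65.shift 1 1)] (by decide +kernel))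
noncomputable def rh207f2ad74c7b3996 : CRef := CRef.mk (Pat.mk 0x8000000080000001c00000000 0x1c0000001e000000780000000f0000007c00000008 8 7) 0 0 (step_sound _ 66 [rh29bb5f7888f15536, (rh29d3d06f341f5e3c.shift 1 0), (rhe2b63c00a3d7bb73.shift 0 1)] (by decide +kernel))
noncomputable def rhd022b4831ce5c031 : CRef := CRef.mk (Pat.mk 0x4000000040000001c000000000000000000000000 0x14000000740000007c0000007f0000006a00000060 8 7) 0 0 (step_sound _ 66 [(rh157b220518f94713.shift 1 1), (rhf818473beb431028.shift 2 0), (rhfbf2eae4035425b6.shift 0 1)] (by decide +kernel))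
noncomputable def rhf184e32ec8c39c4d : CRef := CRef.mk (Pat.mk 0x8000000180000000800000000 0x8000000380000007c0000007e0000007f000000780000001800000010 8 7) 0 0 (step_sound _ 131 [(rh38175a832b84393d.shift 1 1), (rh92270cf11e05fcc3.shift 0 1), (rhd4b4beefcd67f51e.shift 3 0)] (by decide +kernel))
noncomputable def rhc62531948acd8eff : CRef := CRef.mk (Pat.mk 0x40000000c0000000600000000 0x180000003e0000003f0000003f0000000e0000000e00000008 8 6) 0 0 (step_sound _ 130 [(rh1ae8cb0b33fd1844.shift 1 1), (rh38175a832b84393d.shift 0 1), (rhd4b4beefcd67f51e.shift 2 0)] (by decide +kernel))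
noncomputable def rh1568b0aab31faa19 : CRef := CRef.mk (Pat.mk 0x300000002000000020000000100000000000000000000000000000000 0x40000000700000003000000030000000300000007000000070000000700000001 8 3) 0 0 (step_sound _ 129 [rh453decb7e69ad812, (rh932754581e0f4330.shift 0 3)] (by decide +kernel))
noncomputable def rhf9e59c824f3b0204 : CRef := CRef.mk (Pat.mk 0x80000000800000008000000000000000000000000 0x40000000c0000000c0000003e0000007f0000001f00000014 8 7) 0 0 (step_sound _ 67 [(rh46baee19951a66e7.shift 2 0), (rh6aa5625770489e83.shift 2 0), (rh7b5638b5f7c5db50.shift 0 1), (rh8cdd36b03d57a2f6.shift 2 0)] (by decide +kernel))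
noncomputable def rh64bd489bba78bf42 : CRef := CRef.mk (Pat.mk 0x8000000080000000800000000 0x40000000c0000000c0000000c0000003e0000007f00000017 8 7) 0 0 (step_sound _ 131 [(rh565a0c22519f57e9.shift 2 0), rh7b5638b5f7c5db50, (rh8065c10b3cae6218.shift 2 0), rhb20dd801f506db0f, (rhd7cb8ed87e2022d8.shift 2 0)] (by decide +kernel))
noncomputable def rhade579e70daceb87 : CRef := CRef.mk (Pat.mk 0x8000000080000000800000000 0x100000001800000018000000180000003e0000007f00000074 8 7) 0 0 (step_sound _ 131 [(rh12461e137161f2e1.shift 2 0), (rh20966da26a1c2ae8.shift 2 0), rh9ec72520c61ec0c6, rhb20dd801f506db0f, (rhced6d86d2069808b.shift 3 0)] (by decide +kernel))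
noncomputable def rh86402423187d4754 : CRef := CRef.mk (Pat.mk 0x20000000200000002000000000000000000000000 0x5000000070000000700000007000000070000000700000007000000060000000200000002 8 3) 0 0 (step_sound _ 193 [rh42ccdbc5b0067310, (rhc17b7d8fab3dfe57.shift 0 2), (rhc4055b4872d6fb38.shift 0 2), (rhce9487d7bd70535d.shift 0 1), (rhdd4885de3c11a4cc.shift 0 2), (rhdd4c9993b616f443.shift 0 2)] (by decide +kernel))
noncomputable def rh0de675b9b2df5438 : CRef := CRef.mk (Pat.mk 0x80000000800000008000000000000000000000000 0x40000000c0000000c0000001c000000180000001c0000001f0000000c00000008 8 5) 0 0 (step_sound _ 195 [(rh42ccdbc5b0067310.shift 2 0), (rh6aa5625770489e83.shift 2 1), rh892039d39122903c, (rhd7cb8ed87e2022d8.shift 2 2)] (by decide +kernel))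
noncomputable def rhcb2ac1a164deb6d5 : CRef := CRef.mk (Pat.mk 0x80000000800000008000000000000000000000000 0x40000001c0000001c000000180000001c0000001c0000001c0000001f0000000c0000000c 8 5) 0 0 (step_sound _ 195 [(rh367118e0bf0473e0.shift 2 1), rh892039d39122903c, (rhdd4885de3c11a4cc.shift 2 2), (rhec40b1b9702b09ce.shift 2 0)] (by decide +kernel))
noncomputable def rha76abe68ac1648db : CRef := CRef.mk (Pat.mk 0x8000000080000000800000000 0x140000001f0000003f0000003f0000001c0000001c00000014 8 6) 0 0 (step_sound _ 131 [(rh12461e137161f2e1.shift 2 0), (rh762a1aeaf83c662a.shift 2 0), rh9fa2c6c64d9fb98a, (rhc17b7d8fab3dfe57.shift 2 0), (rhd7cb8ed87e2022d8.shift 2 0)] (by decide +kernel))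
noncomputable def rh1ae0e2a711db5be9 : CRef := CRef.mk (Pat.mk 0x80000000800000008000000000000000000000000 0x170000003f0000003f0000000c0000000c0000000c00000004 8 6) 0 0 (step_sound _ 67 [(rh367118e0bf0473e0.shift 2 0), (rh6aa5625770489e83.shift 2 0), (rhc2eee776d4f816e7.shift 0 1), (rhc4055b4872d6fb38.shift 2 1)] (by decide +kernel))
noncomputable def rhc27a151b71f5a4ec : CRef := CRef.mk (Pat.mk 0x20000000200000002000000000000000000000000 0x5000000070000000700000007000000070000000700000007000000030000000200000002 8 3) 0 0 (step_sound _ 193 [(rh39cfed7698312e8c.shift 0 2), (rh762a1aeaf83c662a.shift 0 2), (rhc4055b4872d6fb38.shift 0 2), rhe29f0676c21f9786, (rhf4bc43673eb10f5e.shift 0 1), (rhfb812c0aa973830d.shift 0 2)] (by decide +kernel))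
noncomputable def rh4bc8c7616bb67a25 : CRef := CRef.mk (Pat.mk 0x20000000200000002000000000000000000000000 0x50000000700000007000000030000000700000007000000070000001f0000000600000006 8 5) 0 0 (step_sound _ 193 [rh42123b47b1238bbe, (rh46baee19951a66e7.shift 0 1), (rh4f39cd11514ea04a.shift 0 2), rhda6a4ec03cd9473a, (rhfb812c0aa973830d.shift 0 2)] (by decide +kernel))
noncomputable def rh341941acc7fc9c20 : CRef := CRef.mk (Pat.mk 0x20000000200000002000000000000000000000000 0x50000000700000007000000060000000700000007000000070000001f0000000600000002 8 5) 0 0 (step_sound _ 193 [(rh4f39cd11514ea04a.shift 0 2), (rhc9de03f9731897d4.shift 1 1), rhda6a4ec03cd9473a, rhe29f0676c21f9786] (by decide +kernel))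
noncomputable def rh83f7ba4d1a8a7c4d : CRef := CRef.mk (Pat.mk 0x40000000400000004000000000000000000000000 0x3a0000003f0000003f0000000c0000000c0000000c00000008 8 6) 0 0 (step_sound _ 66 [(rh46baee19951a66e7.shift 1 0), (rhc4055b4872d6fb38.shift 1 1), (rhc9de03f9731897d4.shift 2 0), (rhec40b8c1d5165ff5.shift 0 1)] (by decide +kernel))
noncomputable def rh873a73e773ca398b : CRef := CRef.mk (Pat.mk 0x1000000018000000000000000000000000 0x1c0000003c0000005f000000fe000000ff000000fc000000fc0000003c 8 8) 0 0 (step_sound _ 131 [rh1399ee796b421d76, (rh3fb2f85182f61511.shift 1 0), (rh858ffa6f0bbd09f4.shift 2 0), rhc8c3248fa63b18e3, rhca09bc9db67e80a3] (by decide +kernel))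
noncomputable def rh336fa6460b092621 : CRef := CRef.mk (Pat.mk 0x1000000018000000000000000000000000 0x1c0000001c0000005f000000ff000000ff000000fa0000003e0000003e 8 8) 0 0 (step_sound _ 131 [(rh12899a4ee16b2dea.shift 1 0), (rh3efd53e2f74950e6.shift 1 0), (rh3fb2f85182f61511.shift 1 0), (rh606f78f59525ca0d.shift 0 1), (rhad09b9e5003ce808.shift 1 0), rhca09bc9db67e80a3, rhd197270e2e4bcb88] (by decide +kernel))
noncomputable def rha5d8553e941f48f8 : CRef := CRef.mk (Pat.mk 0x100000001800000000000000000000000000000000 0x1c0000001e000000780000007c000000ff000000ff0000007c00000030 8 8) 0 0 (step_sound _ 99 [(rh50590d2ed67f73ea.shift 0 1), (rhcf80391c5046a495.shift 3 1), (rhdc6520f3d12a8c4c.shift 1 0), (rhf9366b6a121593ef.shift 3 1)] (by decide +kernel))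
noncomputable def rhb6492e3f5132a212 : CRef := CRef.mk (Pat.mk 0x1000000018000000000000000000000000 0xc0000000c0000001f000000ff000000ff0000001f0000001e0000001c 8 8) 0 0 (step_sound _ 131 [rh1399ee796b421d76, rh177959107ed8d627, (rh606f78f59525ca0d.shift 0 1), rh785b58d4e847f2a9, rha32eb95f4828039a, rhf5f6bb6746256c6e] (by decide +kernel))
noncomputable def rh568d5b5b202ff10e : CRef := CRef.mk (Pat.mk 0x2000000030000000000000000000000000 0x20000001ff000001fe000001cf0000004000000040 8 9) 0 0 (step_sound _ 99 [(rh499b99ac08f3c70e.shift 0 2), (rh76e32e5024c227a5.shift 2 0), (rh7f0f728c796044ac.shift 0 2), (rha11dfd15f08f96e3.shift 2 3), (rhb12ffaec36122c99.shift 0 2)] (by decide +kernel))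
noncomputable def rh6351ff4b1a1ab878 : CRef := CRef.mk (Pat.mk 0x80000000c00000000000000000000000000000000 0x40000000e0000000f0000003e0000000e0000007f0000003e0000003e00000018 8 7) 0 0 (step_sound _ 98 [(rh4492cdfc7f324339.shift 0 1), (rhcf80391c5046a495.shift 2 1), rhdc6520f3d12a8c4c, (rhf9366b6a121593ef.shift 2 1)] (by decide +kernel))
noncomputable def rhcc807e0ab36ff40c : CRef := CRef.mk (Pat.mk 0x100000001800000000000000000000000000000000 0x180000001c0000001e000000f8000000ff0000007f0000003c00000030 8 8) 0 0 (step_sound _ 99 [(rha35a92c94b0d3aff.shift 1 1), (rhcf80391c5046a495.shift 3 1), (rhf9366b6a121593ef.shift 3 1), rhfa9c628b2fb82901] (by decide +kernel))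
noncomputable def rh0a07fb48b19c18f5 : CRef := CRef.mk (Pat.mk 0x200000003000000000000000000000000000000000 0x280000002c000001ef000000fe000003ff0000005f0000005c00000008 8 10) 0 0 (step_sound _ 100 [rh54f062b3e0185579, (rha605ac48f1bcb3d2.shift 1 1), (rhcf80391c5046a495.shift 4 1), (rhfe6ad516e4d95126.shift 0 1)] (by decide +kernel))
noncomputable def rh05ff66de35398d63 : CRef := CRef.mk (Pat.mk 0x800000018000000000000000000000000 0x380000003c000000f80000003e000000ff000000ff0000001c0000001c 8 8) 0 0 (step_sound _ 132 [rh21babca8153a8018, rh49025743c1963691, (rhda993f03cc0b5512.shift 1 0)] (by decide +kernel))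
noncomputable def rhb41791288256f303 : CRef := CRef.mk (Pat.mk 0x800000018000000000000000000000000 0x380000003c000000f80000003e000000ff000000fe0000003c0000001c 8 8) 0 0 (step_sound _ 132 [rh49025743c1963691, (rh837bdd8cab609910.shift 2 0), (rhda993f03cc0b5512.shift 1 0)] (by decide +kernel))
noncomputable def rh602cf20b4ff36b8e : CRef := CRef.mk (Pat.mk 0x800000018000000000000000000000000 0x380000007f000000fb000000ff000000ff0000003f0000003c0000003c 8 8) 0 0 (step_sound _ 132 [rh1de1a6b9108c5c34, rh73657480cd7a52e9, (rhbde8530c94cb7633.shift 0 1), (rhd9919bda39e00047.shift 1 0), (rhda993f03cc0b5512.shift 1 0)] (by decide +kernel))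
noncomputable def rhf2fc0b62c8d6b4bd : CRef := CRef.mk (Pat.mk 0x800000018000000000000000000000000 0x380000003f000000fb000000ff000000ff0000005f0000007c0000007c 8 8) 0 0 (step_sound _ 132 [rh73657480cd7a52e9, (rh881ff1487bb4e198.shift 0 1), rhbefa4a088ac11d88, (rhda993f03cc0b5512.shift 1 0)] (by decide +kernel))
noncomputable def rhf1a6b67977901a9d : CRef := CRef.mk (Pat.mk 0x80000001800000000000000000000000000000000 0x1800000018000000180000003e000000ff000000ff0000003e00000008 8 8) 0 0 (step_sound _ 100 [(rh4dea29c6c0e40855.shift 0 1), (rh5d54cb79a67f97ab.shift 3 1), rh98c6b1e8b37e025c, (rha40d42a2e34c408d.shift 3 1)] (by decide +kernel))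
noncomputable def rh2729675db4655a7e : CRef := CRef.mk (Pat.mk 0x800000018000000000000000000000000 0x380000003c000000f8000000ff000000ff000000f80000007800000038 8 8) 0 0 (step_sound _ 132 [(rh837bdd8cab609910.shift 2 0), (rhc37c3370f0e8b601.shift 1 0), (rhda993f03cc0b5512.shift 1 0), rhe25a51bdbca2db1e, (rhe7a73ca671e67728.shift 1 0)] (by decide +kernel))
noncomputable def rhb03da0185267911d : CRef := CRef.mk (Pat.mk 0x800000018000000000000000000000000 0x6000000060000001ff000000fe000001ff0000003000000020 8 9) 0 0 (step_sound _ 101 [(rh5a51951da8feb64f.shift 1 0), (rh5d54a69ee789ff61.shift 2 0), (rh9c94213f6896c74a.shift 2 2), (rha9fbfd4bb8cf890b.shift 0 3), (rhef7add6065e4ef34.shift 0 1)] (by decide +kernel))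
noncomputable def rh4c6bfd6262424519 : CRef := CRef.mk (Pat.mk 0x80000001800000000000000000000000000000000 0x1000000038000000780000003e000000380000007f0000003e0000003e0000000c 8 7) 0 0 (step_sound _ 100 [(rh5d54cb79a67f97ab.shift 3 1), rh742a91c63cf6d6ec, (rh80d709a6472d0308.shift 1 1), (rha40d42a2e34c408d.shift 3 1)] (by decide +kernel))
noncomputable def rh6110e3a09bf4623b : CRef := CRef.mk (Pat.mk 0x80000001800000000000000000000000000000000 0x1800000038000000780000001f000000ff000000fe0000003c00000008 8 8) 0 0 (step_sound _ 100 [(rh413a3adcca3dd536.shift 1 1), (rh5d54cb79a67f97ab.shift 3 1), rh6d5f30f8c2206034, (rha40d42a2e34c408d.shift 3 1)] (by decide +kernel))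
noncomputable def rh220a209fe36a3bd2 : CRef := CRef.mk (Pat.mk 0x80000001800000000000000000000000000000000 0x100000007000000078000001ef000000fe000001f7000000740000007400000070 8 9) 0 0 (step_sound _ 133 [(rh5d54a69ee789ff61.shift 2 1), (rh900c75c2557f3883.shift 2 0), (rh9c94213f6896c74a.shift 2 3), (rha9fbfd4bb8cf890b.shift 0 4), (rhc26bbee07d9e3330.shift 0 1)] (by decide +kernel))
noncomputable def rh63c51576422a7221 : CRef := CRef.mk (Pat.mk 0x1800000010000000000000000000000000 0x3800000038000000ff000000ff000000ff000000df000000fc0000003c 8 8) 0 0 (step_sound _ 99 [(rh02799b0b39616890.shift 0 1), rh61e0c9708cd05881, rh785b58d4e847f2a9, rhadf9d06b3e65f11b, rhe34b4fec69541348] (by decide +kernel))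
noncomputable def rh007b31a7d5f08a75 : CRef := CRef.mk (Pat.mk 0x1800000010000000000000000000000000 0xc0000003c000000fc000000ff000000ff000000df000000dc0000001c 8 8) 0 0 (step_sound _ 99 [(rh02799b0b39616890.shift 0 1), (rh430caf1169e49a4a.shift 1 0), rh923f9649b7f6e811, rha32eb95f4828039a] (by decide +kernel))
noncomputable def rh16bc33bf164d2759 : CRef := CRef.mk (Pat.mk 0x1800000010000000000000000000000000 0x3e0000003e000000fa000000ff000000ff000000df000000fc0000003c 8 8) 0 0 (step_sound _ 99 [(rh02799b0b39616890.shift 0 1), rh0f81b1982c21de41, rh2dbee604c3b71074, rhadf9d06b3e65f11b, (rhe8f0041462f61c84.shift 1 1), rhf5f6bb6746256c6e, (rhfab5bc4cad1de95f.shift 1 1)] (by decide +kernel))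
noncomputable def rh2f04d32f949da2fa : CRef := CRef.mk (Pat.mk 0x1800000010000000000000000000000000 0x100000007c0000007c0000007e0000001e000000380000001f0000001c0000000c 8 7) 0 0 (step_sound _ 163 [(rh084f9cdf04287bac.shift 1 0), (rh5d54cb79a67f97ab.shift 3 1), (rha40d42a2e34c408d.shift 3 1), (rhd4a76df8c3cc910d.shift 0 1)] (by decide +kernel))
noncomputable def rh618a3ab6fca46800 : CRef := CRef.mk (Pat.mk 0x1800000010000000000000000000000000 0x1c0000001c0000001f000000ff000000ff0000001f0000007e0000001c 8 8) 0 0 (step_sound _ 99 [rh1399ee796b421d76, rh177959107ed8d627, rh3c82c76931b548e0, (rh606f78f59525ca0d.shift 0 1), rh785b58d4e847f2a9] (by decide +kernel))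
noncomputable def rh9dd1ffef0adcb1e2 : CRef := CRef.mk (Pat.mk 0x3000000020000000000000000000000000 0x8000001de000003fe000001ff0000001c0000001800000008 8 10) 0 0 (step_sound _ 131 [(rh17a918246ca7f37d.shift 2 0), (rh8ee80cc30e93a344.shift 2 3), (rhb8feeb20f7208ff3.shift 0 3), (rhc21a95c499b3efdb.shift 2 3)] (by decide +kernel))
noncomputable def rhb05b6b2839239ea5 : CRef := CRef.mk (Pat.mk 0x1800000010000000000000000000000000 0x100000003c0000003c0000007f0000007e0000001f0000001c0000001c0000000c 8 7) 0 0 (step_sound _ 163 [(rh5d54cb79a67f97ab.shift 3 1), (rha40d42a2e34c408d.shift 3 1), (rhc760aa80072c6510.shift 1 1), rhd471274a517cd5c7] (by decide +kernel))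
noncomputable def rha9fa4366f9b9eab4 : CRef := CRef.mk (Pat.mk 0x1800000010000000000000000000000000 0x100000007c0000007c0000007e0000001e0000003c0000001f0000001c00000008 8 7) 0 0 (step_sound _ 163 [(rh182ef5825b9546c8.shift 1 0), (rh5d54cb79a67f97ab.shift 3 1), (rha40d42a2e34c408d.shift 3 1), (rhd4a76df8c3cc910d.shift 0 1)] (by decide +kernel))
noncomputable def rh934a9338f601cd47 : CRef := CRef.mk (Pat.mk 0x1800000010000000000000000000000000 0x100000003c0000003f000000ff000000f80000003f0000001f0000001c0000000c 8 8) 0 0 (step_sound _ 163 [(rh5d54cb79a67f97ab.shift 3 1), rh6739aeac42353334, (rh8712f76b142ceecf.shift 0 1), (rha40d42a2e34c408d.shift 3 1)] (by decide +kernel))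
noncomputable def rhbaa8e6f7d34b61f9 : CRef := CRef.mk (Pat.mk 0x30000000200000000000000000 0x5c0000005e000003ff000003ff000003ef0000002c00000028 8 10) 0 0 (step_sound _ 132 [rh73ef42d688851094, rh7c16553a3429fe56, (rha1a55c7e5e492f91.shift 1 0), (rha40d42a2e34c408d.shift 4 0)] (by decide +kernel))
noncomputable def rh3de713b2d82dfbd1 : CRef := CRef.mk (Pat.mk 0x30000000200000000000000000 0x68000003ee000001fe000001ff0000003000000030 8 10) 0 0 (step_sound _ 99 [(rh8ee80cc30e93a344.shift 2 2), (rhc21a95c499b3efdb.shift 2 2), rhc664e3e0e60ed083, (rhdd5d92296b6c13a7.shift 2 0)] (by decide +kernel))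
noncomputable def rh0e0b01686e56d7be : CRef := CRef.mk (Pat.mk 0xc00000004000000000000000000000000 0x1f0000003f0000007f0000003f0000000c0000000c0000000c00000008 8 7) 0 0 (step_sound _ 163 [(rh2c719962dfef2f7d.shift 0 1), (rhcf80391c5046a495.shift 2 1), rhd99601bbe8cc3aaf, (rhf9366b6a121593ef.shift 2 1)] (by decide +kernel))
noncomputable def rh094a7ce42905fd01 : CRef := CRef.mk (Pat.mk 0x1800000008000000000000000000000000 0x3c0000003c0000003f000000ff000000ff000000fb0000003f00000038 8 8) 0 0 (step_sound _ 100 [(rh19a9d95d0c3a392f.shift 1 0), (rh3a4ec7efce4674ee.shift 0 1), (rh5d4c29fe1fb8ea3e.shift 0 1), (rh7bdb1a17aa432e53.shift 1 0), (rh837bdd8cab609910.shift 2 0), rhc3f7de8cdfb2194f] (by decide +kernel))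
noncomputable def rhc4be0ed6f6032b94 : CRef := CRef.mk (Pat.mk 0x1800000008000000000000000000000000 0x7c0000007c0000005f000000ff000000ff000000fb0000003f00000038 8 8) 0 0 (step_sound _ 100 [(rh19a9d95d0c3a392f.shift 1 0), (rh5d4c29fe1fb8ea3e.shift 0 1), rh6af53a4f50837c22, rhc3f7de8cdfb2194f, rhe25a51bdbca2db1e] (by decide +kernel))
noncomputable def rh27a730c7e0a48b04 : CRef := CRef.mk (Pat.mk 0xc00000004000000000000000000000000 0x1f0000001f0000007f0000003c0000000e0000007c0000001c00000018 8 7) 0 0 (step_sound _ 163 [rh054990ed3ebcd18b, (rhcf80391c5046a495.shift 2 1), (rhecfde732c3f3df9a.shift 0 1), (rhf9366b6a121593ef.shift 2 1)] (by decide +kernel))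
noncomputable def rh7549bfce21096111 : CRef := CRef.mk (Pat.mk 0xc00000004000000000000000000000000 0x1c0000001e0000007c0000007f0000007f0000007c0000003f0000001c 8 7) 0 0 (step_sound _ 99 [rh19a9d95d0c3a392f, rhc37c3370f0e8b601, rhda993f03cc0b5512, rhe7a73ca671e67728] (by decide +kernel))
noncomputable def rhe5d1a82d26fef883 : CRef := CRef.mk (Pat.mk 0x18000000080000000000000000 0x50000001ff000000ff000001ff0000006000000060 8 9) 0 0 (step_sound _ 101 [rh070f8ce3f7d69489, (rh2820ca9a6c4f41b4.shift 0 2), (rh352b7f91eba0c81f.shift 2 2), rh99d3a80c31018c8e] (by decide +kernel))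
noncomputable def rh9a0dd4efe3ff5978 : CRef := CRef.mk (Pat.mk 0xc00000004000000000000000000000000 0x1f0000001f0000003f0000003c0000001e0000007c0000001c00000008 8 7) 0 0 (step_sound _ 163 [rh7afedbd9cc31b29a, (rhcf80391c5046a495.shift 2 1), (rhecfde732c3f3df9a.shift 0 1), (rhf9366b6a121593ef.shift 2 1)] (by decide +kernel))
noncomputable def rh1bc6cf4b287a3074 : CRef := CRef.mk (Pat.mk 0x18000000080000000000000000 0x80000003c000000fc000000ff0000001f000000f80000003800000038 8 8) 0 0 (step_sound _ 132 [(rh5ca6ecddee9ced1f.shift 2 0), rha1c879f115e8acec, (rhcf80391c5046a495.shift 3 0), (rhf9366b6a121593ef.shift 3 0)] (by decide +kernel))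
noncomputable def rh43dca0641defcd37 : CRef := CRef.mk (Pat.mk 0x1800000008000000000000000000000000 0x500000007000000074000001f7000000fe000001ef000000780000007800000010 8 9) 0 0 (step_sound _ 133 [(rh0f2a9f1d860f17e3.shift 0 1), (rh2820ca9a6c4f41b4.shift 0 3), (rh352b7f91eba0c81f.shift 2 3), (rh9511c68a55398926.shift 2 0)] (by decide +kernel))
noncomputable def rha27a178318e755a6 : CRef := CRef.mk (Pat.mk 0x18000000080000000000000000 0x400000064000001ef000000ff000001ff0000003800000038 8 9) 0 0 (step_sound _ 101 [rh070f8ce3f7d69489, rh21ae82fde230719c, (rh2820ca9a6c4f41b4.shift 0 2), (rh352b7f91eba0c81f.shift 2 2)] (by decide +kernel))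
noncomputable def rh37c5d8117132061b : CRef := CRef.mk (Pat.mk 0x800000008000000080000000000000000 0x770000007f0000007f0000003e0000007f00000077 8 7) 0 0 (step_sound _ 35 [rh7b5638b5f7c5db50, rh9ec72520c61ec0c6, rhc2eee776d4f816e7, (rhec40b8c1d5165ff5.shift 1 0)] (by decide +kernel))
noncomputable def rh0d8722375899aa21 : CRef := CRef.mk (Pat.mk 0x8000000080000000800000000 0x140000001f0000003f0000003f0000000c0000001c00000014 8 6) 0 0 (step_sound _ 131 [(rh55a026e6f690bbaf.shift 2 0), (rh762a1aeaf83c662a.shift 2 0), (rhaba26d7b21102469.shift 2 0), (rhc17b7d8fab3dfe57.shift 2 0), rhc2eee776d4f816e7] (by decide +kernel))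
noncomputable def rh882b8301160d4c0f : CRef := CRef.mk (Pat.mk 0x80000000800000008000000000000000000000000 0x1000000018000000180000003e0000007f0000007c00000014 8 7) 0 0 (step_sound _ 67 [(rh367118e0bf0473e0.shift 2 0), (rh8cdd36b03d57a2f6.shift 2 0), (rhc360e68027cae609.shift 0 1), (rhc9de03f9731897d4.shift 3 0)] (by decide +kernel))
noncomputable def rh9c14bebec089f6fb : CRef := CRef.mk (Pat.mk 0x4000000040000000400000000 0xa0000003e0000003f0000003f0000000c0000000e0000000a 8 6) 0 0 (step_sound _ 130 [(rh12461e137161f2e1.shift 1 0), (rh762a1aeaf83c662a.shift 1 0), (rh91429c40af715d36.shift 1 0), rh9550f605666aa59d, (rhc17b7d8fab3dfe57.shift 1 0), (rhd7cb8ed87e2022d8.shift 1 0)] (by decide +kernel))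
noncomputable def rha809b4647c0c62be : CRef := CRef.mk (Pat.mk 0x4000000040000000400000000 0xa0000003e0000003f0000003f0000000c0000000e0000000a 8 6) 0 0 (step_sound _ 130 [(rh12461e137161f2e1.shift 1 0), (rh762a1aeaf83c662a.shift 1 0), rh9550f605666aa59d, (rhc17b7d8fab3dfe57.shift 1 0), (rhd7cb8ed87e2022d8.shift 1 0)] (by decide +kernel))
noncomputable def rhb94ec00ebd6c01ae : CRef := CRef.mk (Pat.mk 0x2000000030000000000000000000000000 0xc0000000c0000000c0000001ff000000fe000001ff0000006000000060 8 9) 0 0 (step_sound _ 99 [(rh7f0f728c796044ac.shift 0 2), (rha11dfd15f08f96e3.shift 2 3), (rhb12ffaec36122c99.shift 0 2), (rhb95719bdc646429a.shift 0 2), (rhd509ea0efde25c12.shift 2 0)] (by decide +kernel))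
noncomputable def rh3b168c4b88ac0352 : CRef := CRef.mk (Pat.mk 0x1000000018000000000000000000000000 0x600000006c000000ee000000ff000001fe000001f80000003800000030 8 9) 0 0 (step_sound _ 133 [(rh557b120f072744ca.shift 1 3), (rh69012675dfdb1a5b.shift 1 3), (rh91d909479d323325.shift 1 0), (rhccb39994a505a689.shift 0 1), (rhd69c262cd33b94b3.shift 1 3)] (by decide +kernel))
noncomputable def rha801b8dbe8dbe86a : CRef := CRef.mk (Pat.mk 0x1000000018000000000000000000000000 0xe000000ee000000ff000001fe000001de0000001800000008 8 9) 0 0 (step_sound _ 133 [(rh557b120f072744ca.shift 1 3), (rh69012675dfdb1a5b.shift 1 3), (rhccb39994a505a689.shift 0 1), (rhd69c262cd33b94b3.shift 1 3), (rhe70f406259fc698c.shift 1 0)] (by decide +kernel))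
noncomputable def rh4c39853121fdd09d : CRef := CRef.mk (Pat.mk 0x80000000c000000000000000000000000 0x3000000034000000760000007c000000ff0000007f0000007800000018 8 8) 0 0 (step_sound _ 132 [(rh557b120f072744ca.shift 0 3), (rh69012675dfdb1a5b.shift 0 3), (rh6d13b845bb473147.shift 1 1), rhbf0d375c1378f733, (rhd69c262cd33b94b3.shift 0 3)] (by decide +kernel))
noncomputable def rh1fd3ca3faafb6404 : CRef := CRef.mk (Pat.mk 0x2000000030000000000000000000000000 0x4000000dc000000dc000000dc000001ff0000007e000000ff0000007800000078 8 9) 0 0 (step_sound _ 99 [(rh058c3a17340e6705.shift 2 0), (rh7f0f728c796044ac.shift 0 2), (rha11dfd15f08f96e3.shift 2 3), (rhb12ffaec36122c99.shift 0 2), (rhb95719bdc646429a.shift 0 2)] (by decide +kernel))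
noncomputable def rhd737ad59582b2580 : CRef := CRef.mk (Pat.mk 0x200000003000000000000000000000000000000000 0x40000001c0000001c0000001c0000007f000003fe000001ff0000001c0000001c0000001c 8 10) 0 0 (step_sound _ 131 [(rh5c153366bfa59d0f.shift 1 3), (rh65dea568c3f759ce.shift 2 1), (rh7f0f728c796044ac.shift 0 3), (rhb12ffaec36122c99.shift 0 3), rhc84dabfa681df6d7] (by decide +kernel))
noncomputable def rh8681ff38b1e5ea59 : CRef := CRef.mk (Pat.mk 0x80000000c000000000000000000000000 0x1000000370000003700000037000000ff0000007e000000ff0000001e0000001e 8 8) 0 0 (step_sound _ 100 [(rh3253d0e4d04a6ec5.shift 1 0), rh388ecb69a3dbdc27, rh612ae084217ba7de, rhc554c5f3c96a0ab0, (rhceb064f556f3188a.shift 0 2)] (by decide +kernel))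
noncomputable def rha4f1e42b022a1648 : CRef := CRef.mk (Pat.mk 0x1000000018000000000000000000000000 0x6000000068000000ee000000ff000000fe000000760000003400000034 8 8) 0 0 (step_sound _ 133 [(rh35fb777b72cb1290.shift 1 0), (rh557b120f072744ca.shift 1 3), (rh69012675dfdb1a5b.shift 1 3), (rhccb39994a505a689.shift 0 1), (rhd69c262cd33b94b3.shift 1 3)] (by decide +kernel))
noncomputable def rh37ba98f974ac5a4e : CRef := CRef.mk (Pat.mk 0x200000003000000000000000000000000000000000 0x40000000c0000001c000001ff000000fe000001df0000001c0000001c0000001c 8 9) 0 0 (step_sound _ 131 [(rh75c81dc2037d8937.shift 2 1), (rha11dfd15f08f96e3.shift 2 4), (rhb12ffaec36122c99.shift 0 3), rhc84dabfa681df6d7] (by decide +kernel))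
noncomputable def rh2166dd8680ca3773 : CRef := CRef.mk (Pat.mk 0x1000000018000000000000000000000000 0xc0000002c000000ef000000ff000000df000000ff000000ff0000003e 8 8) 0 0 (step_sound _ 131 [rh1399ee796b421d76, rh49d8fb85db3f4fea, (rh56051609838fea1e.shift 0 1), rh9cbbc9e9dd7fb73e, (rha3d0117e9c704af3.shift 0 1)] (by decide +kernel))
noncomputable def rh701c12b087b9f1a7 : CRef := CRef.mk (Pat.mk 0x200000003000000000000000000000000000000000 0xc4000000cc000000cc000001ef000000fe000001ff0000007c0000007c0000001c 8 9) 0 0 (step_sound _ 131 [(rh9b2f8a02e2369ee0.shift 2 1), (rha11dfd15f08f96e3.shift 2 4), (rhb12ffaec36122c99.shift 0 3), rhc84dabfa681df6d7] (by decide +kernel))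
noncomputable def rh87576c8072575422 : CRef := CRef.mk (Pat.mk 0x1000000018000000000000000000000000 0x20000000e0000000e0000004e000001df000000fe000001ff0000003c0000003c 8 9) 0 0 (step_sound _ 101 [(rh08a2fa87f2a67926.shift 1 0), rh15e3ab52ac8f1377, (rh3253d0e4d04a6ec5.shift 2 0), rh477eb990f5bfaaf6, (rh612ae084217ba7de.shift 1 0), (rh99e30f08ef483997.shift 2 0), (rhceb064f556f3188a.shift 1 2)] (by decide +kernel))
noncomputable def rhb571029d6ca0caa9 : CRef := CRef.mk (Pat.mk 0x1000000018000000000000000000000000 0xc0000002c000000ef000000ff000000fb0000003f000000ff0000007c 8 8) 0 0 (step_sound _ 131 [rh1399ee796b421d76, rh57f5093e3e790409, (rh606f78f59525ca0d.shift 0 1), rha32eb95f4828039a, (rheac930b2be83dec3.shift 0 1)] (by decide +kernel))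
noncomputable def rh69c6f69ff3d89fbc : CRef := CRef.mk (Pat.mk 0x1800000010000000000000000000000000 0x80000001e000001fe000000ff000000ee0000002e00000028 8 9) 0 0 (step_sound _ 101 [(rh0a8fe03ce9883a1b.shift 1 0), (rh4ca5dae25f5c14ff.shift 1 3), rhb4ae41c8ba47b884, (rhdeca8db941583de2.shift 1 3)] (by decide +kernel))
noncomputable def rh59604e8eb9613db1 : CRef := CRef.mk (Pat.mk 0xc00000008000000000000000000000000 0x18000000780000007f000000ff0000007c000000760000003400000034 8 8) 0 0 (step_sound _ 100 [rh18987dd28c605d33, (rh4ca5dae25f5c14ff.shift 0 3), (rhb40f35ca611cd8af.shift 1 0), (rhdeca8db941583de2.shift 0 3)] (by decide +kernel))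
noncomputable def rhbf09acdf2e068648 : CRef := CRef.mk (Pat.mk 0x300000002000000000000000000000000000000000 0x7000000078000000ff0000007e000001ff000000dc000000dc000000dc00000014 8 9) 0 0 (step_sound _ 163 [(rh100c21cf956c47d3.shift 2 0), (rhbae210e77abaa4ad.shift 0 4), (rhc21a95c499b3efdb.shift 2 4)] (by decide +kernel))
noncomputable def rh07de3c16f9f8004b : CRef := CRef.mk (Pat.mk 0x300000002000000000000000000000000000000000 0x1000000038000003fe000001fe0000007f0000001c0000001c0000001c00000014 8 10) 0 0 (step_sound _ 163 [(rh1682159b27512b24.shift 2 0), (rh8ffa8f5969d44369.shift 0 4), (rha87bd76817e3db94.shift 0 4), (rhb8feeb20f7208ff3.shift 0 4), (rhc664e3e0e60ed083.shift 0 2), (rhd7152cf2bcf24eff.shift 1 2)] (by decide +kernel))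
noncomputable def rhceb1afad826de4fd : CRef := CRef.mk (Pat.mk 0xc0000000800000000000000000000000000000000 0x1e0000001e000000ff000000fe0000007f00000037000000370000003700000005 8 8) 0 0 (step_sound _ 164 [(rh5f36bffb38531c75.shift 0 2), (rh66f385bc2a369c03.shift 0 1), (rh82a06865da4999c1.shift 0 4), (rh8d51fb48110c5289.shift 1 1), rha0f785cd7650b1d1, (rhce72e3ceb13712db.shift 0 4), (rhf9c31414399bd0ed.shift 1 2)] (by decide +kernel))
noncomputable def rhbbd191d8ba3fca91 : CRef := CRef.mk (Pat.mk 0x1800000010000000000000000000000000 0x3000000030000000f0000001fe000000ff000000ee0000006800000068 8 9) 0 0 (step_sound _ 101 [(rh4ca5dae25f5c14ff.shift 1 3), (rh883baae6abb936ac.shift 1 0), rhb4ae41c8ba47b884, (rhdeca8db941583de2.shift 1 3)] (by decide +kernel))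
noncomputable def rhfc374d0779754224 : CRef := CRef.mk (Pat.mk 0x1800000010000000000000000000000000 0x3e000000ff000000ff000000df000000ff000000ef0000007c0000003c 8 8) 0 0 (step_sound _ 99 [rh0f5b6530bd2cee15, rh3c82c76931b548e0, rh3d59964ec2252de4, rh4fa6153b1f60b675, rh5ac60326fc23fdac, (rha4bbd166fec1ea26.shift 0 1), rha8aa9c84d32ce3bd] (by decide +kernel))
noncomputable def rh234d9cf4394353e2 : CRef := CRef.mk (Pat.mk 0x3000000020000000000000000000000000 0x6000000060000001ff000000fe000001ef000000c0000000c0000000c0 8 9) 0 0 (step_sound _ 131 [(rh3f561905aec1fbaa.shift 2 0), (rh8ee80cc30e93a344.shift 2 3), (rh8ffa8f5969d44369.shift 0 3), (rhbae210e77abaa4ad.shift 0 3)] (by decide +kernel))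
noncomputable def rhae4cba51bc6037c6 : CRef := CRef.mk (Pat.mk 0x180000001000000000000000000000000000000000 0x1c0000003c000001ff000000ff000000df0000004e0000004e0000000e0000000a 8 9) 0 0 (step_sound _ 165 [rh18a63d19cdbdd6d0, (rh1bc3e70345f23783.shift 0 1), (rh1deaebc0809fdab1.shift 1 1), (rh82a06865da4999c1.shift 1 4), (rh8d51fb48110c5289.shift 2 1), (rhbae210e77abaa4ad.shift 0 4), (rhf9c31414399bd0ed.shift 2 2)] (by decide +kernel))
noncomputable def rh5574c3e02ac99d1f : CRef := CRef.mk (Pat.mk 0x1800000010000000000000000000000000 0x5c000000dc000000ff000000fb000000ff000000ef0000007c0000007c 8 8) 0 0 (step_sound _ 99 [rh1f1c8009683573e6, rh3c82c76931b548e0, rh641f14e3495854c6, rhf57078b8ab5b4dcd, rhf5f6bb6746256c6e] (by decide +kernel))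
end Crest.Agent.S0047.Helper85.Cert
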