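import Crest.Agent.Lib.S0047.Helper85CertPL8F0
import Crest.Agent.Lib.S0047.Helper85CertPL8F1
import Crest.Agent.Lib.S0047.Helper85CertPL8F2
import Crest.Agent.Lib.S0047.Helper85CertPL8F3
import Crest.Agent.Lib.S0047.Helper85CertPL8F4
import Crest.Agent.Lib.S0047.Helper85CertPL8F5
import Crest.Agent.Lib.S0047.Helper85CertPL8F6
import Crest.Agent.Lib.S0047.Helper85CertPL8F7
import Crest.Agent.Lib.S0047.Helper85CertPL8F8
set_option autoImplicit false
set_option linter.all false
set_option Elab.async false
namespace Crest.Agent.S0047.Helper85.Cert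
open Crest.Agent.S0047.Helper85

noncomputable def rh2932fd705e944654 : CRef := CRef.mk (Pat.mk 0x1c0000003800000000000000000000000000000000 0xc0000000c0000001c0000003f0000007f000000780000003800000028 9 7) 0 0 (step_sound _ 130 [(rh741f762d9ada3528.shift 0 1), (rhcc2be1f880c5ea3e.shift 0 3), (rhd28fd41eb15b4d84.shift 1 1), rhea8bec7ec58bf9cb] (by decide +kernel))
noncomputable def rh8ccb459d17dc2974 : CRef := CRef.mk (Pat.mk 0x1800000018000000100000000000000000 0xc0000000c0000001c0000001e0000007f0000000f0000000c 9 7) 0 0 (step_sound _ 163 [rh14c666cb37f3f3cc, (rh2145e1d24b96a57e.shift 3 2)] (by decide +kernel))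
noncomputable def rh0f993b23aacd2dfd : CRef := CRef.mk (Pat.mk 0x18000000180000001800000000 0xc0000000f0000001f0000001b0000001f00000007 9 5) 0 0 (step_sound _ 131 [(rh2145e1d24b96a57e.shift 3 1), rh96caa15a528c64be] (by decide +kernel))
noncomputable def rhbf6eda89728e3bda : CRef := CRef.mk (Pat.mk 0x1800000018000000180000000000000000 0x70000001f0000001b0000001f0000000f0000000c 9 5) 0 0 (step_sound _ 35 [rh49886a88e1a7a0fd, (rh71222050f2c63a3a.shift 3 0)] (by decide +kernel))
noncomputable def rh03d9972b18cf7366 : CRef := CRef.mk (Pat.mk 0x100000001300000012000000020000000000000000 0x110000001b0000003e0000006b0000003e0000007c 9 7) 0 0 (step_sound _ 99 [(rh5419adcd928dba20.shift 0 3), rhaa9fc76512d6a52f] (by decide +kernel))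
noncomputable def rh06a3890a042eac4d : CRef := CRef.mk (Pat.mk 0x3800000030000000200000000000000000 0x1c0000003c0000001f000000380000003e0000003e0000001c0000000c 9 6) 0 0 (step_sound _ 163 [(rh5d54cb79a67f97ab.shift 3 1), (rh71348f9b27f9cc75.shift 1 1), (rhc2c7bae8f445c890.shift 3 1), rhf7d44d189d78c9ca] (by decide +kernel))
noncomputable def rh41ec28e15f794d20 : CRef := CRef.mk (Pat.mk 0x100000001300000012000000020000000000000000000000000000000000000000 0x100000001b0000003f0000006f0000003e0000007e000000070000000700000005 9 7) 0 0 (step_sound _ 129 [rh863f9384137efd39, (rha613ffd40b6c9d24.shift 0 2), (rhecfa9a5c21e0fe3b.shift 0 3)] (by decide +kernel))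
noncomputable def rhf621c33c3fee57aa : CRef := CRef.mk (Pat.mk 0x3800000020000000000000000000000000 0x6000000060000000f0000003e0000003f0000000e0000000e00000004 9 6) 0 0 (step_sound _ 130 [(rh0de499e0455c9c14.shift 0 3), (rh592c7139d2c44767.shift 0 3), (rhce024e22c3948170.shift 1 0), (rhd1d05263fabc0227.shift 0 3)] (by decide +kernel))
noncomputable def rh59d15a48ea4bcb1f : CRef := CRef.mk (Pat.mk 0x80000001800000018000000000000000000000000 0x60000000f0000001f0000003f0000007c0000001f0000000c 9 7) 0 0 (step_sound _ 68 [(rh7b1f1fb55310c477.shift 3 1), rhb7f018c9267b7c79] (by decide +kernel))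
noncomputable def rh825ca3ba4b7c44da : CRef := CRef.mk (Pat.mk 0x800000018000000180000000000000000 0x2000000060000000f0000001f0000003f0000003700000016 9 6) 0 0 (step_sound _ 36 [rh6f12e1e507d74d3c, (rh7b1f1fb55310c477.shift 3 0)] (by decide +kernel))
noncomputable def rh92d5c54060cf05da : CRef := CRef.mk (Pat.mk 0x800000018000000180000000800000000 0x60000000f0000001f0000001f0000003f00000007 9 6) 0 0 (step_sound _ 34 [(rh932754581e0f4330.shift 2 0), rhde8ffb442feb9cac] (by decide +kernel))
noncomputable def rh15bf3df045fa5217 : CRef := CRef.mk (Pat.mk 0x3000000030000000000000000000000000 0x180000001c0000001f0000003e0000007f0000001e0000007e00000038 9 7) 0 0 (step_sound _ 131 [(rh8fb48bf895dc6169.shift 1 1), (rhad5d8fc3675c15dd.shift 1 3), (rhb50986846f7b4973.shift 1 0), (rhc92c11e8da6c894f.shift 0 3)] (by decide +kernel))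
noncomputable def rh7d34333e89a7933e : CRef := CRef.mk (Pat.mk 0x3000000030000000000000000000000000 0xc0000000c0000000f0000003e0000007f0000007e000000fe000000fc 9 8) 0 0 (step_sound _ 131 [(rhad5d8fc3675c15dd.shift 1 3), (rhbb6bea929057f9b0.shift 1 0), (rhc92c11e8da6c894f.shift 0 3), (rhcd4d16d28964fbaf.shift 1 1)] (by decide +kernel))
noncomputable def rh7344eff2072b3908 : CRef := CRef.mk (Pat.mk 0x100000003000000030000000200000000000000000 0xa0000000e0000000e0000000f0000001f0000003e0000007f000000660000000600000002 9 7) 0 0 (step_sound _ 130 [(rh6d4e60afcd903d8e.shift 1 1), (rh7d14bdd45bfca3c1.shift 1 1), rh7eb4f82b561029e0, (rhcad483dcb4dcff76.shift 0 2), (rhcd6baf37b3e5de21.shift 1 3), (rhff8326e31a7c12c8.shift 0 3)] (by decide +kernel))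
noncomputable def rhcbe3dfa1e329b282 : CRef := CRef.mk (Pat.mk 0x1800000018000000080000000000000000 0x70000001f0000001f0000000e0000001c0000001c 9 5) 0 0 (step_sound _ 35 [rh5d9debd8ccee4af0, (rh71222050f2c63a3a.shift 3 0)] (by decide +kernel))
noncomputable def rha7aeec1c5101d6ff : CRef := CRef.mk (Pat.mk 0x30000000600000000000000000000000000000000000000000 0x100000001c0000001f0000003c00000078000000fc000001ff0000007c0000007000000040 9 9) 0 0 (step_sound _ 133 [(rh8d7603b4f20f6003.shift 2 1), (rhb4f8b2db1634e36f.shift 0 1), (rhf98fa66b1765731a.shift 4 0), (rhf9a6286f1d5377a2.shift 4 3)] (by decide +kernel))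
noncomputable def rh7dfa5d39e0ebe298 : CRef := CRef.mk (Pat.mk 0x1800000030000000100000000000000000000000000000000000000000 0x40000001e000000380000003f000000ff0000003c000000380000003800000028 9 8) 0 0 (step_sound _ 226 [(rhb739f4f82bb681b4.shift 1 6), rhc2f65035633957f1] (by decide +kernel))
noncomputable def rh497cab162966f1f5 : CRef := CRef.mk (Pat.mk 0x300000006000000020000000000000000000000000 0x1000000010000000180000003c0000007e0000007c000000df0000005c00000014 9 8) 0 0 (step_sound _ 163 [(rhb739f4f82bb681b4.shift 2 4), rhf04e139ff82daf60] (by decide +kernel))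
noncomputable def rh794c87c08b797b4d : CRef := CRef.mk (Pat.mk 0x100000001380000012000000020000000000000000000000000 0x108000001b8000003f8000006ff000003fe000007ff00000040 9 11) 0 0 (step_sound _ 69 [(rh0ee2c18560027c64.shift 3 1), (rh257d7200ab2a6828.shift 4 0), (rhb947d749739a4d06.shift 0 1), (rhecfa9a5c21e0fe3b.shift 4 1)] (by decide +kernel))
noncomputable def rh91dbd11959ec5074 : CRef := CRef.mk (Pat.mk 0x300000002000000020000000000000000000000000 0x3000000038000000ff0000007e0000007f00000050 9 8) 0 0 (step_sound _ 69 [(rh257d7200ab2a6828.shift 4 0), (rh8cdd36b03d57a2f6.shift 4 0), (rhb947d749739a4d06.shift 0 1), (rhe4441baab75a6f73.shift 4 0)] (by decide +kernel))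
noncomputable def rhbd8f6b9a0f7da141 : CRef := CRef.mk (Pat.mk 0x1c00000090000000100000000000000000000000000000000000000000 0x40000001c000000f80000003f000000ff0000003c000000380000003800000028 9 8) 0 0 (step_sound _ 197 [(rh2fe78cc5ca4405d8.shift 3 6), rhc2f65035633957f1] (by decide +kernel))
noncomputable def rhfc2b53509ce5fc98 : CRef := CRef.mk (Pat.mk 0x10000000130000001a00000002000000000000000000000000000000000 0x100000001b0000001b0000000ef000000fe000000ff0000007000000050 9 9) 0 0 (step_sound _ 101 [(rh257d7200ab2a6828.shift 4 1), (rh76063b6cb3d42cce.shift 0 2), (rh8cdd36b03d57a2f6.shift 4 1), (rhc05d451ce3dd5e48.shift 4 0), (rhe4441baab75a6f73.shift 4 1)] (by decide +kernel))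
noncomputable def rhbea25f80d2d8b935 : CRef := CRef.mk (Pat.mk 0x400000004c00000048000000080000000000000000000000000000000000000000 0x400000006c000000f8000001bf000000fc000001fc0000001c0000001c00000014 9 9) 0 0 (step_sound _ 131 [(rh6eff4158bb400f47.shift 2 2), (rhb4167e6082834458.shift 0 3), (rhecfa9a5c21e0fe3b.shift 2 3), (rhf10e92a230531025.shift 2 0)] (by decide +kernel))
noncomputable def rh6f3aa9447f6b7f36 : CRef := CRef.mk (Pat.mk 0x100000001380000012000000020000000000000000000000000 0x108000001b8000001ff000000ff000001de0000009800000010 9 9) 0 0 (step_sound _ 100 [(rh0fbbb92589a12005.shift 4 1), (rh64ad08057fe526f8.shift 2 0), (rh8fca7a90a3078f78.shift 1 0), rha910126b8d7c83b7] (by decide +kernel))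
noncomputable def rh7a5bceb6280a3a92 : CRef := CRef.mk (Pat.mk 0x10000000130000001200000002000000000000000000000000 0x100000001b0000003f0000006b0000003f0000007f00000005 9 7) 0 0 (step_sound _ 131 [(rh5419adcd928dba20.shift 0 4), rhb37b7446294f4b33] (by decide +kernel))
noncomputable def rh12799aacb43635cd : CRef := CRef.mk (Pat.mk 0x1c0000003c000000000000000000000000 0x1e0000007e0000000f0000001c0000003c0000006c0000002400000020 9 7) 0 0 (step_sound _ 69 [rha4220c7fce4c3085, (rhe25b0a99195a5d59.shift 2 2)] (by decide +kernel))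
noncomputable def rh57f6d5b69d641baa : CRef := CRef.mk (Pat.mk 0x1000000003400000070000000000000000000000000 0xa0000003e000000ff000001de000000360000007e000000f60000000600000002 9 9) 0 0 (step_sound _ 98 [rh2913d1f81bc7a724, (rh6e1685e3533aff0e.shift 1 3), (rh97d20052fbbd40fd.shift 1 2), (rhdb6bff318f198a51.shift 1 2)] (by decide +kernel))
noncomputable def rh42cb48c633f1dd84 : CRef := CRef.mk (Pat.mk 0x1800000038000000000000000000000000 0x4000000040000001e0000003f0000007f0000000e00000006 9 7) 0 0 (step_sound _ 130 [(rhb739f4f82bb681b4.shift 1 3), rhdfb0c44b422dd2b8] (by decide +kernel))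
noncomputable def rh40f89b50b8dbc3d9 : CRef := CRef.mk (Pat.mk 0x6000000020000000200000000000000000000000000000000 0x50000000700000007000000070000000300000006000000060000000600000007000000070000000700000005 9 3) 0 0 (step_sound _ 97 [(rh6eff4158bb400f47.shift 0 1), (rh7217bf3c0366330f.shift 0 2), rh984bfc6de6c2c524, (rha8bc3cae4d77a08f.shift 0 1)] (by decide +kernel))
noncomputable def rh9808a3d5a20574da : CRef := CRef.mk (Pat.mk 0x400000004e000000480000000a0000000000000000 0xe0000003e000000470000006e0000007e0000003e0000002200000020 9 7) 0 0 (step_sound _ 101 [rh0820b2f9ecdd0d55, (rh5419adcd928dba20.shift 2 3)] (by decide +kernel))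
noncomputable def rh2d380cf28cc07f36 : CRef := CRef.mk (Pat.mk 0x38000001200000002800000000 0xc0000001c0000001c0000001e00000038000001ff0000002c0000000c 9 9) 0 0 (step_sound _ 71 [(rh5419adcd928dba20.shift 4 2), rhde40e15162ee529c] (by decide +kernel))
noncomputable def rh8ade55f3fbba0f16 : CRef := CRef.mk (Pat.mk 0xc000000180000000a00000000000000000000000000000000 0xc0000001f0000001f00000033000000170000000700000005 9 6) 0 0 (step_sound _ 130 [rh370a4659f3c524dc, (rh53b3c253cb0c65f4.shift 0 4)] (by decide +kernel))
noncomputable def rhf91ea5db2ab21e31 : CRef := CRef.mk (Pat.mk 0xc000000480000000a000000000000000000000000 0x40000000f0000007e0000000f000000070000000700000005 9 7) 0 0 (step_sound _ 132 [(rh2fe78cc5ca4405d8.shift 2 4), rhcbb6eb0bba44162c] (by decide +kernel))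
noncomputable def rh87c5915999756df4 : CRef := CRef.mk (Pat.mk 0x600000004000000050000000000000000000000000 0x200000002c0000007c000000ff000001fe0000019f0000009800000098 9 9) 0 0 (step_sound _ 101 [(rh1137fe00bdf5afa1.shift 3 0), (rh14a027d8bf9f85d8.shift 2 0), (rha4e887c2a2a0f60b.shift 1 2), (rhf7943763ae823400.shift 0 2)] (by decide +kernel))
noncomputable def rhc5722af8562f44a6 : CRef := CRef.mk (Pat.mk 0x60000002400000005000000000000000000000000000000000 0x200000002c0000007c0000037f000001fe000003bf0000003c0000001c00000014 9 10) 0 0 (step_sound _ 133 [(rh02dd4bdbb8a6468f.shift 2 2), (rh14a027d8bf9f85d8.shift 2 1), (rh2af5c644bb26964e.shift 1 3), (rh2d3d2386ddc6714e.shift 2 3), (rh30ceb8bd6f1e9e97.shift 3 1), rhe586d5bdd2538835, (rhf1de380fa9ca77f6.shift 1 3)] (by decide +kernel))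
noncomputable def rha9fe76048983feb3 : CRef := CRef.mk (Pat.mk 0x400000004c000000480000000800000000000000000000000000000000 0x400000006c000000f8000001bc000000ff000001fc0000001c00000010 9 9) 0 0 (step_sound _ 99 [(rh355e32c877ed8638.shift 2 0), (rh3c8fcaf7bb9112e1.shift 0 2), (rh8cdd36b03d57a2f6.shift 2 1), (rhecfa9a5c21e0fe3b.shift 2 2)] (by decide +kernel))
noncomputable def rh52a01bd4e4702ca4 : CRef := CRef.mk (Pat.mk 0x300000002000000020000000000000000000000000 0x3000000038000000fe0000007e0000007f00000050 9 8) 0 0 (step_sound _ 69 [(rh4e511d3fac65df68.shift 0 1), (rh8cdd36b03d57a2f6.shift 4 0), (rha613ffd40b6c9d24.shift 4 0), (rhe4441baab75a6f73.shift 4 0)] (by decide +kernel))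
noncomputable def rhcfad47845f3d27a7 : CRef := CRef.mk (Pat.mk 0x1100000013000000130000000000000000000000000 0x110000001b8000001be000000f8000001fe000001ff 9 9) 0 0 (step_sound _ 35 [(rha525b2cd0382d64a.shift 1 0), (rha7445760dedd2f4f.shift 1 1), rhccedbad53afed989, (rhd8c1c87541a7b7cb.shift 3 0)] (by decide +kernel))
noncomputable def rh3e5a4a6f3b5b9f73 : CRef := CRef.mk (Pat.mk 0x4000000000000001800000018000000000000000000000000 0x10000000700000007000000070000001f0000001f0000007c000000fe0000003c 9 8) 0 0 (step_sound _ 130 [(rh0588d2c7f2cab5e9.shift 2 1), (rh3915c5ec9c95aaed.shift 0 3), (rh9ac953fe06873c81.shift 0 3), rhbacfc529f0cb7d19] (by decide +kernel))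
noncomputable def rhad0261652e4a9c11 : CRef := CRef.mk (Pat.mk 0x30000002000000006000000020 0x140000001c0000001c000003ff000001fe0000039f0000007c0000003c 9 10) 0 0 (step_sound _ 102 [(rh3a652aecf1f4722c.shift 2 2), (rh646ef66315089d91.shift 2 0), (rh9544a0e48813fe4b.shift 3 0), rhc2ecac2fc39f3552, (rhc3ddb7a8f33c453a.shift 2 2)] (by decide +kernel))
noncomputable def rhd99684bddccfcc5b : CRef := CRef.mk (Pat.mk 0x80000001800000098000000100000000000000000 0x40000000f0000001f000000df0000007e000000ef0000000c 9 8) 0 0 (step_sound _ 67 [rh3e3eef69b5a0c4e0, rha6f802784adb25e2, (rhb442011526476878.shift 0 1), (rhdf997f77704b6375.shift 2 0)] (by decide +kernel))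
noncomputable def rh37fe7fdf24a01b25 : CRef := CRef.mk (Pat.mk 0x100000003000000034000000000000000000000000 0xa0000000e0000000f0000001e0000003e000000360000003e0000003600000032 9 6) 0 0 (step_sound _ 68 [(rh4053c12da95c0aa0.shift 4 0), (rhdf997f77704b6375.shift 3 0), rhf5f5a345225909b7] (by decide +kernel))
noncomputable def rh0f7755f3a7b4c084 : CRef := CRef.mk (Pat.mk 0x8000000180000001a0000000000000000 0x2000000070000000f0000001f0000001e0000003700000012 9 6) 0 0 (step_sound _ 36 [(rh7b1f1fb55310c477.shift 3 0), rhd2dfb83d7afbfc32] (by decide +kernel))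
noncomputable def rh6037292288450d9d : CRef := CRef.mk (Pat.mk 0x18000000980000000800000000 0x8000000080000000800000018000000df0000007f000000f4 9 8) 0 0 (step_sound _ 131 [(rh3e595262c1b737ad.shift 3 1), (rh925a1628dd8a50da.shift 2 0), rha298beecb8c016e1] (by decide +kernel))
noncomputable def rh92ff1b21d37fdfca : CRef := CRef.mk (Pat.mk 0x180000001e00000010000000000000000000000000 0x4000000040000000c0000000f0000001f0000001e0000001b000000070000000700000005 9 5) 0 0 (step_sound _ 195 [(rh2145e1d24b96a57e.shift 3 3), rhfba6a2ef17561fff] (by decide +kernel))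
noncomputable def rhc7dede0fb202ec29 : CRef := CRef.mk (Pat.mk 0x3000000034000000200000000000000000 0xa0000000e0000003f0000001e0000003e00000036000000360000000600000002 9 6) 0 0 (step_sound _ 130 [(rh086f6046fa319626.shift 1 3), (rh738e3fe03271251d.shift 1 0), rh95529873678b85d0, (rhf40aa0b8cf1829db.shift 1 2)] (by decide +kernel))
noncomputable def rh0f91612f33ed8d38 : CRef := CRef.mk (Pat.mk 0x100000003000000030000000000000000000000000 0x8000000080000000c0000001e0000003e0000003e0000007f0000002c00000008 9 7) 0 0 (step_sound _ 163 [(rh99fd5327a931179a.shift 1 1), (rhdbd17875ab07bfc3.shift 1 1), rhe0dc25f1da29c8bf, (rhf9a6286f1d5377a2.shift 3 2)] (by decide +kernel))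
noncomputable def rh12e2832848112dba : CRef := CRef.mk (Pat.mk 0x800000018000000180000000800000000 0x40000000f0000001f0000001b0000001f00000017 9 5) 0 0 (step_sound _ 36 [(rh7b1f1fb55310c477.shift 3 0), rh96caa15a528c64be] (by decide +kernel))
noncomputable def rhed8e494255ecb68f : CRef := CRef.mk (Pat.mk 0x180000001a00000010 0x50000000700000007000000030000001f0000001e00000037 9 6) 0 0 (step_sound _ 34 [rhadcb73a925dd73aa, (rhe25b0a99195a5d59.shift 1 0)] (by decide +kernel))
noncomputable def rh732d6483cf7ecd78 : CRef := CRef.mk (Pat.mk 0x1a0000001a000000000000000000000000 0x10000000f0000001f0000000f0000001f0000001a000000170000000700000005 9 5) 0 0 (step_sound _ 195 [rh09bbd6a4dcdaa3d3, (rhda6cc5da102e1723.shift 3 2)] (by decide +kernel))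
noncomputable def rhb7f3ce0a7fff2021 : CRef := CRef.mk (Pat.mk 0x800000001a0000001a000000000000000000000000 0x4000000ff0000007f000000ef0000001e0000001b000000130000001100000001 9 8) 0 0 (step_sound _ 163 [(rh3e595262c1b737ad.shift 3 2), (rh4a2f65eae0891e4d.shift 0 3), (rh55a1f6c57a317ce6.shift 3 1), rh6766255ae5eb98d7] (by decide +kernel))
noncomputable def rhd32758c6adfbff79 : CRef := CRef.mk (Pat.mk 0x1000000003400000034000000000000000000000000 0xa000001fe000000ff000001de0000003600000036000000260000000600000002 9 9) 0 0 (step_sound _ 164 [(rh3e595262c1b737ad.shift 4 2), (rh4a2f65eae0891e4d.shift 1 3), rhcbec85f1afe4598a] (by decide +kernel))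
noncomputable def rhbff73d468f0c5061 : CRef := CRef.mk (Pat.mk 0x180000001c00000000000000000000000000000000 0xc0000000c0000000c0000001f0000001f0000000f0000000f0000000f00000001 9 5) 0 0 (step_sound _ 129 [rh2c201274c3e39ee8, (rh53b3c253cb0c65f4.shift 0 4)] (by decide +kernel))
noncomputable def rhd2a710af57663921 : CRef := CRef.mk (Pat.mk 0x180000001c00000000 0x50000000700000007000000030000001f0000001f00000007 9 5) 0 0 (step_sound _ 33 [(rh53b3c253cb0c65f4.shift 0 1), rhadcb73a925dd73aa] (by decide +kernel))
noncomputable def rh2d9f86b90a91e02d : CRef := CRef.mk (Pat.mk 0x1c000000180000000800000018 0x50000000700000007000000030000001f0000001f0000001f00000078 9 7) 0 0 (step_sound _ 97 [rh7dde268130da3aab, (rhb739f4f82bb681b4.shift 0 2)] (by decide +kernel))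
noncomputable def rh1881e4b2a53ddb49 : CRef := CRef.mk (Pat.mk 0x1c000000180000000800000018 0x50000000700000007000000030000001f0000001f0000000f0000007c 9 7) 0 0 (step_sound _ 97 [(rhb739f4f82bb681b4.shift 0 2), rhdcf24baeaac9cdc9] (by decide +kernel))
noncomputable def rh72489a0413cc0a98 : CRef := CRef.mk (Pat.mk 0x180000001800000008000000000000000000000000 0x50000000700000007000000070000001f0000001f0000003f000000370000003700000005 9 6) 0 0 (step_sound _ 129 [rh6bcdcaefc9d3d476, rhb8f56f1cf7ea79f8, (rhd70e5c10e03d8804.shift 0 1), (rhe25176f89823b1c7.shift 0 4)] (by decide +kernel))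
noncomputable def rh86c6fd3c24e57415 : CRef := CRef.mk (Pat.mk 0x1800000018000000080000001800000000 0x40000001f0000001f0000007b0000003f00000027 9 7) 0 0 (step_sound _ 130 [(rh50fbb5868c909700.shift 2 1), rhf4dd57159edd30f9] (by decide +kernel))
noncomputable def rhfdf5140d8f11417f : CRef := CRef.mk (Pat.mk 0x7000000000000000000000000000000000 0x100000001f0000007e000000ff0000003c0000001c00000004 9 8) 0 0 (step_sound _ 131 [(rh185f35b8bd8ec37f.shift 1 3), (rh282ab6f39ff84c70.shift 2 0), (rh592c7139d2c44767.shift 1 3), (rh708c3bc8fe2f3084.shift 0 3), (rh9c548838e8725ba1.shift 1 3)] (by decide +kernel))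
noncomputable def rh6959a3d1a0a56e84 : CRef := CRef.mk (Pat.mk 0x800000018000000180000001800000000 0x40000000f0000001f0000001f0000003f00000007 9 6) 0 0 (step_sound _ 34 [rh905f99cd1c450654, (rh932754581e0f4330.shift 2 0)] (by decide +kernel))
noncomputable def rha959e72add8e3393 : CRef := CRef.mk (Pat.mk 0x1000000200000000680000006000000000 0x4000001ff000001fe000003af0000006c0000007c00000014 9 10) 0 0 (step_sound _ 133 [(rh07f2ca48cf330ae8.shift 4 1), (rh5c0d8bb27c0cb9b5.shift 2 0), (rh903bcc0673644d14.shift 2 0), rhed41705f3288cd2a] (by decide +kernel))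
noncomputable def rh08fb8fa3ecebf6e0 : CRef := CRef.mk (Pat.mk 0x1800000038000000000000000000000000 0x800000008000000080000001f0000003f0000007c0000007c0000003c 9 7) 0 0 (step_sound _ 129 [rh91633dcd441d0b73, (rhab22b5b56e7b3243.shift 1 3)] (by decide +kernel))
noncomputable def rhad28b7bcdbfaeafa : CRef := CRef.mk (Pat.mk 0x180000003c000000000000000000000000 0xe0000000e0000000f0000001e0000003c000000740000003e0000003e 9 7) 0 0 (step_sound _ 130 [rh0e17804478cdc6c0, (rh3244c3cc8379b070.shift 1 3)] (by decide +kernel))
noncomputable def rhd69c7b3c85eb36e9 : CRef := CRef.mk (Pat.mk 0x200000002600000026000000000000000000000000 0x70000000700000023000000360000003f0000001f0000001f00000017 9 6) 0 0 (step_sound _ 100 [(rh5419adcd928dba20.shift 1 3), rh82e907a71625680a] (by decide +kernel))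
noncomputable def rhf97a045aa546dbf6 : CRef := CRef.mk (Pat.mk 0x180000003c000000000000000000000000 0x40000001e0000003c0000007c0000003e000000ff 9 8) 0 0 (step_sound _ 130 [(rh3244c3cc8379b070.shift 1 3), rh4090abae398a2d6f] (by decide +kernel))
noncomputable def rhb677a7622583202e : CRef := CRef.mk (Pat.mk 0x1800000098000000080000000000000000 0x8000000080000001f000000ff0000006c0000007c00000038 9 8) 0 0 (step_sound _ 101 [(rh2fe78cc5ca4405d8.shift 3 3), rhe3e7d03f31148a82] (by decide +kernel))
noncomputable def rh7a40e319671996a6 : CRef := CRef.mk (Pat.mk 0x420000005800000050000000100000000000000000 0x80000000e8000000f80000006f0000007800000050000000f8000000e0000000a0 9 8) 0 0 (step_sound _ 70 [(rh8ff3dde5b1c639e0.shift 5 0), (rhc190783df232cb3c.shift 0 2), (rhc4526fc8abf298b6.shift 5 0), (rhd8c37efe07b158de.shift 3 0)] (by decide +kernel))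
noncomputable def rheb87f0eec40a2a63 : CRef := CRef.mk (Pat.mk 0x20000005200000053000000500000000000000000 0x80000000e8000000fc000000ef000000de0000005b000000f80000006c00000028 9 8) 0 0 (step_sound _ 131 [rh440524ee67b83256, (rhb2a0b9ccfb5cecd5.shift 0 3)] (by decide +kernel))
noncomputable def rh0e6995540b929101 : CRef := CRef.mk (Pat.mk 0x5200000053000000500000000000000000 0x80000000e8000000f8000000680000005e0000005b000000f8000000e000000080 9 8) 0 0 (step_sound _ 131 [(rhb2a0b9ccfb5cecd5.shift 0 3), (rhf3f03626c5a77931.shift 3 0)] (by decide +kernel))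
noncomputable def rhecc6e65e59638623 : CRef := CRef.mk (Pat.mk 0x5200000053000000500000000000000000 0x28000000f8000000e8000000de0000005b000000f8000003c000000080 9 10) 0 0 (step_sound _ 38 [(rhc486ae0fcc44be52.shift 3 0), (rhd70f34f7b129cde9.shift 0 1)] (by decide +kernel))
noncomputable def rh268c5e317205f685 : CRef := CRef.mk (Pat.mk 0x20000005200000053000000500000000000000000000000000000000000000000 0xc0000000f0000005e0000005b000003fc000003ec000000e8000000e8000000e000000020 9 10) 0 0 (step_sound _ 134 [(rh231ac0f35bf7589d.shift 2 2), (rh6eff4158bb400f47.shift 5 2), rhb5cf342fce823e6c, (rhc486ae0fcc44be52.shift 3 3)] (by decide +kernel))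
noncomputable def rh0da2ebddb60f03f4 : CRef := CRef.mk (Pat.mk 0x1e0000001400000004000000000000000000000000 0x200000003a0000003e0000003b0000001e000000140000003e000000380000003800000028 9 6) 0 0 (step_sound _ 196 [(rh33e738c4ed385b9f.shift 1 5), rh5ef8d50464867950] (by decide +kernel))
noncomputable def rhef5b1eb572d59f49 : CRef := CRef.mk (Pat.mk 0x2000000020000000380000000000000000000000000000000000000000 0x240000003f0000003e0000001f0000001f0000001e0000000e0000000a 9 6) 0 0 (step_sound _ 162 [(rh21d582c147e7e118.shift 0 4), (rh775ca1963e850b80.shift 0 4), rh7d5cf8f3f21d3317, (rh7fb660bc21ce4329.shift 0 5)] (by decide +kernel))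
noncomputable def rhbaec7a9758354cd3 : CRef := CRef.mk (Pat.mk 0x2000000020000001a0000001200000010 0x50000000700000007000000070000000f0000000b0000000f0000001a0000001a00000010 9 5) 0 0 (step_sound _ 99 [(rhe072fffdd2fccf38.shift 3 0), (rhec7bb34b193f448b.shift 0 1)] (by decide +kernel))
noncomputable def rh14defd3446685dde : CRef := CRef.mk (Pat.mk 0x1a00000002000000000000000000000000 0x50000000700000007000000070000000700000007000000070000001f00000003000000030000000100000001 9 5) 0 0 (step_sound _ 161 [(rh01e48cd9f335aa73.shift 0 3), rh5c8c873042790be0, (rh7c5ac3871bb5b078.shift 0 2), (rhe8a9e0e6037b7c6e.shift 0 2)] (by decide +kernel))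
noncomputable def rh9ba60eb1e0e18b80 : CRef := CRef.mk (Pat.mk 0x1a00000002000000000000000000000000 0x50000000700000007000000070000000700000007000000070000001f00000003000000070000000700000005 9 5) 0 0 (step_sound _ 161 [(rh01e48cd9f335aa73.shift 0 3), rh5c8c873042790be0, (rh7c5ac3871bb5b078.shift 0 2), rhdee67538b8dccf39] (by decide +kernel))
noncomputable def rh6f115afe44033480 : CRef := CRef.mk (Pat.mk 0x38000000000000000000000000 0xc0000000f0000003e0000007f0000000e0000000e 9 7) 0 0 (step_sound _ 98 [(rh074bebdeeadc30e2.shift 1 0), (rh0d378fd9e8917c5a.shift 0 2), (rh185f35b8bd8ec37f.shift 0 2), (rh592c7139d2c44767.shift 0 2)] (by decide +kernel))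
noncomputable def rh82d83b0eb571b833 : CRef := CRef.mk (Pat.mk 0x680000000800000000000000000000000000000000 0x140000001c0000001c0000001c0000001c0000003c0000001f0000007c000000180000001c0000001c0000001c00000010 9 7) 0 0 (step_sound _ 195 [(rh1dd12dbc2b4733ab.shift 2 2), (rh78b87670118bd863.shift 0 3), (rh9d531b773ee2cd81.shift 2 0), (rhb87c81b4d8d5df91.shift 2 1), (rhdee67538b8dccf39.shift 2 1), (rhe8a9e0e6037b7c6e.shift 2 3), (rhee87d786569cf7db.shift 2 1)] (by decide +kernel))
noncomputable def rhc6d05dcf9b2f3bd6 : CRef := CRef.mk (Pat.mk 0x20000000200000002000000000000000000000000000000000 0x1000000030000000300000007f000000fe0000007e0000007000000050 9 8) 0 0 (step_sound _ 101 [(rh1f30fd575e31d468.shift 0 2), (rh6eff4158bb400f47.shift 4 1), (rh8ff3dde5b1c639e0.shift 4 1), (rhc4526fc8abf298b6.shift 4 1), (rhc850b49d039efae1.shift 4 0)] (by decide +kernel))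
noncomputable def rh9cd9212f95c901dc : CRef := CRef.mk (Pat.mk 0x680000000800000000 0x140000001c0000001c0000001c0000001c0000007c0000001f0000007c0000003c00000014 9 7) 0 0 (step_sound _ 99 [(rh01e48cd9f335aa73.shift 2 1), rh30c94c886e5427d6, (rha749589d3479e302.shift 2 0), (rhec5c45900e0e4fe3.shift 2 0)] (by decide +kernel))
noncomputable def rh2f3099eec6c07685 : CRef := CRef.mk (Pat.mk 0x680000000800000000000000000000000000000000 0x140000001c0000001c0000001c0000001c0000007c0000001f0000007c000000180000001c0000001c0000001c00000014 9 7) 0 0 (step_sound _ 195 [(rh1e4c7ccad4dac3f9.shift 2 2), (rh30c94c886e5427d6.shift 0 3), (rh695cf97890960404.shift 2 0), (rh7d4daea41212146c.shift 2 0), (rhb62ef33888612de0.shift 2 0), (rhb87c81b4d8d5df91.shift 2 1)] (by decide +kernel))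
noncomputable def rh6dd3c3785f8ac8d6 : CRef := CRef.mk (Pat.mk 0x10000000100000001000000000 0x280000003f0000007e0000007e000000180000001800000008 9 7) 0 0 (step_sound _ 132 [(rh1741680720c097b4.shift 3 1), (rh20966da26a1c2ae8.shift 3 0), rh704f6074f100fa8e, (rh771d065bdc85bf2d.shift 3 0)] (by decide +kernel))
noncomputable def rhfbbc7d690930cc0c : CRef := CRef.mk (Pat.mk 0x800000068000000080000000800000000 0x140000001c0000006c0000003f0000003f00000017 9 7) 0 0 (step_sound _ 34 [rh8489fe5c7650d082, (rh932754581e0f4330.shift 2 0)] (by decide +kernel))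
noncomputable def rh53001f0f9cfc5924 : CRef := CRef.mk (Pat.mk 0x2000000520000005300000010 0x7c0000007e0000006b0000005e0000005b00000011 9 7) 0 0 (step_sound _ 67 [rh778079f613304021, (rhb2a0b9ccfb5cecd5.shift 0 1)] (by decide +kernel))
noncomputable def rh88eeadb012886b65 : CRef := CRef.mk (Pat.mk 0x520000001300000010 0x50000000f0000000f0000000f0000007e0000001b00000011 9 7) 0 0 (step_sound _ 67 [rh8e9d029a9dbe8f27, (rhb2a0b9ccfb5cecd5.shift 0 1)] (by decide +kernel))
noncomputable def rh6922f39b4fa3d060 : CRef := CRef.mk (Pat.mk 0x200000002d000000218000000000000000000000000 0x500000007000000070000000700000007d000001f18000007d8000002180000000f0000003c0000001c 9 13) 0 0 (step_sound _ 201 [(rh94da6b2630cfcd81.shift 6 3), rh9cb7a2d7e28f07ce, (rha100d0586d1721fb.shift 6 3), (rhc85cc95794737cf7.shift 8 3), (rhe1d5b1059a8e326c.shift 6 3)] (by decide +kernel))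
noncomputable def rh9a4d8c053d2d5834 : CRef := CRef.mk (Pat.mk 0x1000000030000001100000001000000000 0x80000001e00000034000001de000000fe0000002f 9 9) 0 0 (step_sound _ 131 [(rh50fbb5868c909700.shift 3 1), rhfa43249c1e3b910b] (by decide +kernel))
noncomputable def rh189827e7e6f12117 : CRef := CRef.mk (Pat.mk 0x160000001400000014000000000000000000000000 0xa0000003e0000003a00000036000000160000001f000000fb0000003a0000002a 9 8) 0 0 (step_sound _ 68 [(rh20966da26a1c2ae8.shift 3 1), (rh6eadb76e76341036.shift 1 1), (rh6eff4158bb400f47.shift 3 0), rh810e07257826fd42, (rhabaa648d2bc9d61c.shift 1 1)] (by decide +kernel))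
noncomputable def rh6b1199a96e15d834 : CRef := CRef.mk (Pat.mk 0xb0000000a0000000a0000000000000000 0x100000001d0000001f0000001d0000001b0000000b0000001a0000001800000010 9 5) 0 0 (step_sound _ 163 [rh5a50073d702166ca, (rh5c2604daa0330ae7.shift 2 1), (rh6c59ce14113da07f.shift 3 0), (rhfae6d335bc204cce.shift 0 2)] (by decide +kernel))
noncomputable def rh2878602d1663b8b2 : CRef := CRef.mk (Pat.mk 0x100000000180000001000000000000000000000000000000000 0x8000001ce000000fe000000ff000000ff0000003e0000003c00000028 9 9) 0 0 (step_sound _ 133 [rh0ff089b494221760, (rh4ca5dae25f5c14ff.shift 1 4), (rhabdb05be14147126.shift 1 2), (rhdeca8db941583de2.shift 1 4)] (by decide +kernel))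
noncomputable def rhd7a169f2fccad69c : CRef := CRef.mk (Pat.mk 0x100000000180000001000000000000000000000000000000000 0x4000001ce000000fe000000ff000000ff0000003c0000003c00000028 9 9) 0 0 (step_sound _ 133 [rh0ff089b494221760, (rh4ca5dae25f5c14ff.shift 1 4), (rh6d81785a33777cc3.shift 1 1), (rhdeca8db941583de2.shift 1 4)] (by decide +kernel))
noncomputable def rh50061033fa196840 : CRef := CRef.mk (Pat.mk 0x240000000700000000000000038000000200000000000000000 0x3d0000000740000001e0000007c0000002f0000002800000028 9 10) 0 0 (step_sound _ 132 [(rh2145e1d24b96a57e.shift 4 2), rh8a4e0ea1381c90bd] (by decide +kernel))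
noncomputable def rh7569d1014769f99c : CRef := CRef.mk (Pat.mk 0x480000000c000000400000000600000004000000000 0x798000000f80000071f000003fe000003ff00000030 9 11) 0 0 (step_sound _ 168 [(rh361cc68994bd8a63.shift 6 4), rhf00edfae04934934] (by decide +kernel))
noncomputable def rh045081cd2214a308 : CRef := CRef.mk (Pat.mk 0x24000000060000002200000002000000000 0x1c000003fc0000007c000003bf000001fe0000005e 9 10) 0 0 (step_sound _ 133 [(rh1dcfdd430eac7808.shift 2 0), (rh34d5700d8f1990b7.shift 2 1), rh385097d62420cb49] (by decide +kernel))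
noncomputable def rh68c69a0849955020 : CRef := CRef.mk (Pat.mk 0xc000000068000002080000002800000000 0x1c0000001c000001dc000000fc0000006f0000039c000001f8000001cc 9 10) 0 0 (step_sound _ 36 [(rhb0d8db7cceb3a8e2.shift 2 0), rhd811af3c559b2305, (rhf22539ab3f079b17.shift 2 0)] (by decide +kernel))
noncomputable def rh9ce555a7caaffaf7 : CRef := CRef.mk (Pat.mk 0x300000001a000000820000000a0000000000000000 0x50000000700000007000000770000003f0000001b000000e70000007f0000007200000002 9 8) 0 0 (step_sound _ 161 [(rh0f7120a7b28fa607.shift 0 2), (rh2f7aebebd7d680c3.shift 0 2), (rh33340c4e08a82282.shift 0 1), rhb5e2811106eb513a, (rhd30c856bbcb3617d.shift 0 2)] (by decide +kernel))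
noncomputable def rh608da7126fe9334c : CRef := CRef.mk (Pat.mk 0x340000001c 0x3e0000003e000000770000003f0000001c 9 7) 0 0 (step_sound _ 35 [(rh6dbc3543a57a36eb.shift 1 0), rhba89ab7cb81bcc90, rhe25191970535449e] (by decide +kernel))
noncomputable def rhc650e9f1dc3a5f34 : CRef := CRef.mk (Pat.mk 0x200000002000000020000000000000000000000000 0x1000000030000000300000007f000000fe0000007e00000050 9 8) 0 0 (step_sound _ 69 [(rh1c05b8b69c9a9cdc.shift 0 1), (rh8cdd36b03d57a2f6.shift 4 0), (rh8ff3dde5b1c639e0.shift 4 0), (rhc4526fc8abf298b6.shift 4 0)] (by decide +kernel))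
noncomputable def rhef66253ba0d72db0 : CRef := CRef.mk (Pat.mk 0x6000000034000000000000001400000000000000000000000000000000 0xa0000000e000000ee0000007e0000003600000006000000370000003e0000000e0000000e00000002 9 8) 0 0 (step_sound _ 162 [(rh1f929f3c25ec8dff.shift 1 0), (rh6a45251f2b4f59c9.shift 1 2), (rh8117f18edbd429c4.shift 0 1), (rhe9d6dee13fb537c8.shift 1 3), (rhf672f1925a7f52e3.shift 1 2), (rhf7b6f5f5273b3e3a.shift 1 1)] (by decide +kernel))
noncomputable def rh5347f62ab5068d31 : CRef := CRef.mk (Pat.mk 0x3800000000000000000000000000000000 0xc0000000c0000000f0000003e0000007f0000000e0000000e0000000a 9 7) 0 0 (step_sound _ 130 [(rh0d378fd9e8917c5a.shift 0 3), (rh185f35b8bd8ec37f.shift 0 3), (rh58bbb2cb2c30456e.shift 1 0), (rh775ca1963e850b80.shift 0 3)] (by decide +kernel))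
noncomputable def rh8862b2129d821252 : CRef := CRef.mk (Pat.mk 0x1e0000000000000000000000000000000000000000 0x4000000070000001e0000003f0000000f000000070000000700000004 9 6) 0 0 (step_sound _ 129 [rhaa77979a8df9e46e, (rheb0810cc63b001d8.shift 0 4)] (by decide +kernel))
noncomputable def rhadc41b7569f6bedd : CRef := CRef.mk (Pat.mk 0x180000000c0000000000000007000000000 0x1a0000000f00000003f000001fe000001ce 9 9) 0 0 (step_sound _ 101 [(rh53b3c253cb0c65f4.shift 4 3), rhf5e8d98e2bc3a71e] (by decide +kernel))
noncomputable def rhd068644d13e7a0a8 : CRef := CRef.mk (Pat.mk 0xc00000006000000200000000280000000000000000 0x1c000000fc000000780000038f000001fe000001ff00000004 9 10) 0 0 (step_sound _ 131 [(rh24ae073cf30720c4.shift 3 4), rhe86c25402244045a] (by decide +kernel))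
noncomputable def rh996f711c834c6ef4 : CRef := CRef.mk (Pat.mk 0x6000000020000002000000002000000000 0x400000006000000020000003bf000001fe0000005e 9 10) 0 0 (step_sound _ 69 [(rh2f68792b6b779e96.shift 5 1), rh385097d62420cb49] (by decide +kernel))
noncomputable def rhf7cbcbdb231a67e5 : CRef := CRef.mk (Pat.mk 0x3000000020000002000000002000000000 0x100000003000000020000003bf000001fe0000005e 9 10) 0 0 (step_sound _ 69 [rh385097d62420cb49, (rh50fbb5868c909700.shift 4 1)] (by decide +kernel))
noncomputable def rh004f594a355a6240 : CRef := CRef.mk (Pat.mk 0x3800000038000001000000001000000000 0x60000003e00000038000001df000000fe000000ef 9 9) 0 0 (step_sound _ 35 [rh2a9db1145b5fd99a, (rh8f4c920c37cd7688.shift 1 1), (rhc928c025bc3efe2d.shift 1 0), (rhecb97fed8c7f1286.shift 3 0)] (by decide +kernel))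
noncomputable def rh20fba46a44ebde5a : CRef := CRef.mk (Pat.mk 0x380000001c 0x3e0000003e000000770000003f0000001c 9 7) 0 0 (step_sound _ 34 [(rh6dbc3543a57a36eb.shift 1 0), rhba89ab7cb81bcc90, rhe25191970535449e] (by decide +kernel))
noncomputable def rh9506972e07edd24d : CRef := CRef.mk (Pat.mk 0x1000000018000000000000000800000000 0x170000001f0000001f0000000e0000000c0000000c 9 5) 0 0 (step_sound _ 67 [(rh71222050f2c63a3a.shift 3 0), rhc0b4dbf406018161] (by decide +kernel))
noncomputable def rh207b8fdde5d3aa8d : CRef := CRef.mk (Pat.mk 0x20000000600000002000000020000000000000000000000000000000000000000 0x20000000600000007000000070000000700000006000000070000000700000005 9 3) 0 0 (step_sound _ 130 [(rhd3458b32566d63f7.shift 1 4), rhe3b014b75d257472] (by decide +kernel))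
noncomputable def rh5755bb2186c3b32f : CRef := CRef.mk (Pat.mk 0xd000000070000000100000001000000000 0x8000000080000001a0000000f0000000700000003f000000fc000000e8 9 9) 0 0 (step_sound _ 133 [(rh2f68792b6b779e96.shift 4 1), rh58c13b788cd59d35] (by decide +kernel))
noncomputable def rh919268fa4f845016 : CRef := CRef.mk (Pat.mk 0x6000000038000000000000000800000000000000000000000000000000 0x140000001c0000001c0000001c0000007f000000380000001f0000007c000000180000001c0000001c00000014 9 7) 0 0 (step_sound _ 163 [(rh1c01a74145d0a351.shift 0 4), (rh215e11e099257d75.shift 3 3), rhb6960c168faf3f9b, (rhb730ba14aa32bdb3.shift 3 3), (rhd8ec223adb5076fe.shift 3 2)] (by decide +kernel))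
noncomputable def rhb0c48753ecbe1b73 : CRef := CRef.mk (Pat.mk 0x200000003800000008000000080000000000000000 0x80000000800000028000000380000001f000000ff000000ff0000001c 9 8) 0 0 (step_sound _ 100 [(rh1944aabe75e9b237.shift 3 0), rh37ab9987c9783813, rh59884d4b0b1c90ac, (rhb27f859d08a3ceca.shift 1 0), (rhd0180256ed4b85c9.shift 0 1)] (by decide +kernel))
noncomputable def rh057d38e961ae2e88 : CRef := CRef.mk (Pat.mk 0x30000000180000000000000004000000000000000000000000 0xa0000000e0000000e0000000e0000003f0000001e0000000c0000000c0000000e0000000e0000000a 9 6) 0 0 (step_sound _ 162 [(rh53b3c253cb0c65f4.shift 1 5), rha87895ece8aba5ac] (by decide +kernel))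
noncomputable def rh8c5ab6d476fa06ad : CRef := CRef.mk (Pat.mk 0x40000000680000020000000030000000000000000000000000 0x1c0000007c0000006c000003af000001fe000001ef0000000c00000008 9 10) 0 0 (step_sound _ 69 [(rh04253f50b6dd0619.shift 5 2), rhf432483aaccf856f] (by decide +kernel))
noncomputable def rh1f3f4c1f19a2627e : CRef := CRef.mk (Pat.mk 0x600000003400000100000000180000000000000000 0x8000000080000001e0000007e00000036000001d7000000fe000000ef00000002 9 9) 0 0 (step_sound _ 164 [(rh2e92855e544f26b1.shift 0 1), (rh2ff73263f99fc7e9.shift 1 1), rh3a0a51d370ebca74, (rha27da208e97a072a.shift 1 2)] (by decide +kernel))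
noncomputable def rh3a00439dad2c9289 : CRef := CRef.mk (Pat.mk 0x10000004000000006000000000000000000000000000000000 0x800000018000000180000071f000003fe000003ff0000003c0000003c00000008 9 11) 0 0 (step_sound _ 132 [(rh0944306a90f95858.shift 1 1), (rh0ca4a1cfecc4130b.shift 1 0), (rh102151c75c3b5bbe.shift 0 1), (rh7690377bcf0e6d4d.shift 1 2), (rh97bd709de7f57db6.shift 1 3), (rhb35119aab3f911f9.shift 2 3), (rhf232a8bc5bd0bd8b.shift 3 1)] (by decide +kernel))
noncomputable def rhebbe10d3cc837498 : CRef := CRef.mk (Pat.mk 0x600000002000000020000000000000000000000000000000000000000 0x50000000700000007000000030000000600000007000000030000000700000007000000070000000700000005 9 3) 0 0 (step_sound _ 129 [rh8932e21c7c78d028, (rh8c3839f9b9075f23.shift 1 2), (rha8bc3cae4d77a08f.shift 0 2), (rhc94dfb5f501cb051.shift 0 1), (rhf692239ffd233d1c.shift 0 3)] (by decide +kernel))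
noncomputable def rh51ca07a546da8971 : CRef := CRef.mk (Pat.mk 0x3800000008000000080000000000000000000000000000000000000000 0x140000001c0000001c0000000c0000000c000000380000001f0000001c0000000c0000001c0000001c0000001c00000014 9 6) 0 0 (step_sound _ 259 [(rh771d065bdc85bf2d.shift 2 4), (rh8cd6fc04f4bbf7ba.shift 2 5), (rhde807367643436d4.shift 0 4), (rhe7697f1b3ce34399.shift 2 0)] (by decide +kernel))
noncomputable def rhc50812af2f60ad5d : CRef := CRef.mk (Pat.mk 0x1000000070000000100000001000000000 0x80000001e000000740000003e000000fe0000002f 9 8) 0 0 (step_sound _ 66 [rh7d46ca99cff0bf9c, (rhe0a09114c3afcda3.shift 2 0), (rhfb815e3afead425a.shift 1 2)] (by decide +kernel))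
noncomputable def rh30489006e9e074dd : CRef := CRef.mk (Pat.mk 0xc00000018000000000000000000000000 0x40000007c0000007e0000007f0000000f0000000e 9 7) 0 0 (step_sound _ 101 [rh7cbe911a3d1b0fc6, (rhf48373e13d2bc128.shift 2 3)] (by decide +kernel))
noncomputable def rh9fb6887c8f2c3196 : CRef := CRef.mk (Pat.mk 0x700000000000000000000000000000000000000000 0x40000001f0000007e000000ff0000003e0000001e0000001c00000010 9 8) 0 0 (step_sound _ 163 [(rh0d378fd9e8917c5a.shift 1 4), (rh347286d342cd1ea3.shift 0 1), (rh41140eaa67c26838.shift 1 4), (rh775ca1963e850b80.shift 1 4), (rh98c349a850b32313.shift 2 0)] (by decide +kernel))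
noncomputable def rhfe1f622cbb3754fd : CRef := CRef.mk (Pat.mk 0xc00000042000000060000000000000000000000000 0x4000000040000000c00000077f000003fe000003be0000003000000030 9 11) 0 0 (step_sound _ 134 [(rh503dd4575245365b.shift 5 2), (rh708bc64a570577a3.shift 3 2), rhf1348847de3d7c99] (by decide +kernel))
noncomputable def rhb6189c4896f90cbe : CRef := CRef.mk (Pat.mk 0x400000042000000060000000000000000000000000 0x400000006000000060000000600000073f000003fe000003be0000003000000030 9 11) 0 0 (step_sound _ 103 [(rh4115c02c20bfbac7.shift 4 3), (rh8d68598c2ad98dab.shift 3 2), rhaee3946d18522e4e] (by decide +kernel))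
noncomputable def rh8738f91182ee24db : CRef := CRef.mk (Pat.mk 0x400000006000000200000000300000000000000000 0x6800000068000003bf000001fe000001ef00000004 9 10) 0 0 (step_sound _ 101 [(rh71222050f2c63a3a.shift 5 1), rhdeeda52dcb26d28e] (by decide +kernel))
noncomputable def rh78e731f597c7246e : CRef := CRef.mk (Pat.mk 0xc0000004400000006000000000000000000000000000000000 0x10000000d00000077f000003ff000003bf000000380000003800000008 9 11) 0 0 (step_sound _ 132 [(rh25e345de685d2ea1.shift 1 2), (rh6397864faed7dd63.shift 3 0), (rhaee21cc6c898f5a0.shift 0 1), (rhca6fa9cc739b27f4.shift 0 3), (rhcd5202c2f44956cd.shift 1 3)] (by decide +kernel))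
noncomputable def rh8603a65758fd1166 : CRef := CRef.mk (Pat.mk 0x38000000000000000000000000 0xc0000000f0000003e0000007f0000000e0000000e 9 7) 0 0 (step_sound _ 98 [(rh074bebdeeadc30e2.shift 1 0), (rh0d378fd9e8917c5a.shift 0 2), (rh185f35b8bd8ec37f.shift 0 2), (rh775ca1963e850b80.shift 0 2)] (by decide +kernel))
noncomputable def rhcb9d6d247dad7efa : CRef := CRef.mk (Pat.mk 0x800000000e0000000000000000000000000000000000000000 0xe70000007e0000007f0000000f000000070000000700000004 9 8) 0 0 (step_sound _ 164 [(rh3e2531436cb70ef7.shift 0 5), (rh6dd26613a1ae639b.shift 1 4), rh98c349a850b32313] (by decide +kernel))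
noncomputable def rh52085ec742c1b63e : CRef := CRef.mk (Pat.mk 0x80000001800000010000000000000000000000000 0xc0000000c0000000f0000001f000000ff000000ee0000000c0000000c 9 8) 0 0 (step_sound _ 195 [(rh2145e1d24b96a57e.shift 3 3), rh5fd94e24f9e537d8] (by decide +kernel))
noncomputable def rh00e6cc17507d0810 : CRef := CRef.mk (Pat.mk 0x40000000700000000800000010000000000000000000000000 0x2800000038000000380000003000000070000000700000003f000000ff000000ef0000000c0000000c 9 8) 0 0 (step_sound _ 132 [rh2c51b2bc1a4c4600, (rhbbd9e14f32dff073.shift 2 2), (rhd02981352831412e.shift 3 2), (rheea1a90336e79c71.shift 1 4)] (by decide +kernel))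
noncomputable def rh79e0c876ebb86b84 : CRef := CRef.mk (Pat.mk 0x6000000030000000040000000800000000 0x140000001c0000001c0000001c000000780000003c0000001f0000007c00000074 9 7) 0 0 (step_sound _ 99 [rh38e54919b2e165d5, (rh53b3c253cb0c65f4.shift 2 3)] (by decide +kernel))
noncomputable def rha4a7d4536819edc1 : CRef := CRef.mk (Pat.mk 0x6000000030000000040000000800000000 0x7a000000fe000000de0000007e0000003e0000001f0000001a00000010 9 8) 0 0 (step_sound _ 132 [(rh041ec1996439bb76.shift 1 1), (rh51ba60d0a85254cb.shift 1 0), (rh6f71ba7d47a17374.shift 1 1), (rh800f2fbc13e94ac2.shift 1 1), (rh97fe789148a6d7cb.shift 0 1), (rha9289152a5c20833.shift 1 0)] (by decide +kernel))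
noncomputable def rh9d6678cc56105574 : CRef := CRef.mk (Pat.mk 0x80000000d00000001800000020000000000000000000000000 0x1c0000009c000000dc0000005f000000ff000000df0000001c00000010 9 8) 0 0 (step_sound _ 99 [(rh9cdee070315fb032.shift 3 2), rhb59f92c17d33b803, (rhcf80391c5046a495.shift 3 1), (rhd14568cc992204e6.shift 0 1), (rhf9366b6a121593ef.shift 3 1)] (by decide +kernel))
noncomputable def rh2f22e9d995af1f0f : CRef := CRef.mk (Pat.mk 0x180000000300000004000000000000000000000000000000000 0x18000000180000019f000000fe0000007f0000001c0000001c0000001c00000004 9 9) 0 0 (step_sound _ 166 [(rh3fc040e777f1679e.shift 4 5), rh6745c5ff56c9e9b6] (by decide +kernel))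
noncomputable def rhebf86b465e583687 : CRef := CRef.mk (Pat.mk 0x100000001800000020000000000000000000000000 0x280000003800000038000000180000003e000000ff0000001c0000000800000008 9 8) 0 0 (step_sound _ 100 [(rh1f2dad1f0679e95f.shift 1 1), rh4a102f56f45b9696, (rh5c5a2014709044d0.shift 1 3), (rhdeca8db941583de2.shift 1 3)] (by decide +kernel))
noncomputable def rhb6bc7707092ae57f : CRef := CRef.mk (Pat.mk 0x300000001a00000002000000040000000000000000 0x50000000700000007000000070000000f0000003f0000001b0000000e0000000f0000000300000001 9 6) 0 0 (step_sound _ 161 [(rh1148744b53f3df58.shift 0 2), (rh35c52047b207528b.shift 0 2), (rh496ab4f0459a0ee9.shift 1 2), (rh8f9f0dfb4a0bdb83.shift 0 2), rhac92e73f66399522, (rhb762589b1bfc4883.shift 0 2)] (by decide +kernel))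
noncomputable def rhad2ce8a8983d89d3 : CRef := CRef.mk (Pat.mk 0x900000001000000010000000200000000000000000 0x4000000040000001f000000ff0000001f0000001e000000780000001800000008 9 8) 0 0 (step_sound _ 68 [(rh01b78e5ef59799ae.shift 1 1), (rh3022e539c37b4796.shift 0 1), (rhc4526fc8abf298b6.shift 3 0)] (by decide +kernel))
noncomputable def rhb1e146aac626c448 : CRef := CRef.mk (Pat.mk 0x120000001a000000020000000400000000000000000000000000000000 0x50000001f0000001b000000070000000700000003000000070000000600000004 9 5) 0 0 (step_sound _ 226 [(rh3883177b4ab4119d.shift 0 6), rh78dc42c9dfcfea2e, (rh9d15916a925d4940.shift 0 4), (rhd8480aedf4075c15.shift 0 2)] (by decide +kernel))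
noncomputable def rh95298940dc670781 : CRef := CRef.mk (Pat.mk 0x380000010000000008000000000000000000000000 0x100000001c0000001e00000038000001cf000000fe0000007e0000001c00000014 9 9) 0 0 (step_sound _ 131 [(rh0aff501271da77c3.shift 0 2), (rh215e11e099257d75.shift 3 2), (rh75ab280807132a22.shift 1 0), (rhffb8e5993241bf15.shift 2 0)] (by decide +kernel))
noncomputable def rh861f0d55eda0c58a : CRef := CRef.mk (Pat.mk 0x180000001c000000000000000000000000 0xc0000001c0000007c0000001e0000001c0000000f0000007e0000001c 9 7) 0 0 (step_sound _ 67 [(rh0bb3bf9cae16a8bf.shift 1 0), rh72b06522cc100222, (rh82b0eb7ce5f29c3f.shift 0 1), (rhea7a1800d6f053bd.shift 3 0)] (by decide +kernel))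
noncomputable def rhd6107452463755f7 : CRef := CRef.mk (Pat.mk 0x10000000d8000000980000008800000000 0x480000004a0000007b000000df000000df0000008f00000004 9 8) 0 0 (step_sound _ 131 [(rh23625f181fa295a9.shift 3 1), (rh925a1628dd8a50da.shift 2 0), rhf57f97dc2369cf92] (by decide +kernel))
noncomputable def rh3f0d3218faa61ad6 : CRef := CRef.mk (Pat.mk 0x3800000018000000000000000000000000 0xc0000000c0000007f0000003f0000001e000000060000000600000006 9 7) 0 0 (step_sound _ 98 [(rh53b3c253cb0c65f4.shift 1 3), rh7bfbb51c679b913e] (by decide +kernel))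
noncomputable def rh8252618a2d9156c7 : CRef := CRef.mk (Pat.mk 0x18000000180000000800000000 0xc0000001f0000007f0000001e0000001c0000000c00000004 9 7) 0 0 (step_sound _ 132 [(rh5c5e593799055d58.shift 3 1), rhb7abc84d1061fd9c] (by decide +kernel))
noncomputable def rh11cc53519942b40b : CRef := CRef.mk (Pat.mk 0x9800000018000000000000000000000000 0x4000000040000000f000000ff0000001f0000000e0000007c0000001c 9 8) 0 0 (step_sound _ 67 [(rh453165d469b43fc6.shift 0 2), rh64c7865595ed6f7e, (rh81cfb49918470a21.shift 1 0), rh89fdf87e8478868f] (by decide +kernel))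
noncomputable def rh489e964f1f18743e : CRef := CRef.mk (Pat.mk 0x1000000038000000180000000000000000 0x200000006c0000007c0000003e0000001e0000000f0000000e 9 7) 0 0 (step_sound _ 66 [(rh53b3c253cb0c65f4.shift 1 2), rh9d905d38a8f2b637] (by decide +kernel))
noncomputable def rh000505123efe701c : CRef := CRef.mk (Pat.mk 0x1000000098000000180000000000000000 0x20000000680000007f000000ff0000001e0000000400000004 9 8) 0 0 (step_sound _ 101 [(rh361cc68994bd8a63.shift 3 2), rhb4f690055ec3bfef] (by decide +kernel))
noncomputable def rh00319cfa22d9c81d : CRef := CRef.mk (Pat.mk 0x1000000098000000180000000800000000 0x8000000ef0000007f000000df0000001f0000000f00000004 9 8) 0 0 (step_sound _ 131 [rh36f871eae198a85d, (rh84a77af056cc0ecc.shift 0 1), (rh925a1628dd8a50da.shift 2 0), rhf57f97dc2369cf92] (by decide +kernel))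
noncomputable def rh8f1d1c64979c8df5 : CRef := CRef.mk (Pat.mk 0xd8000000980000008800000000 0x4c0000005c00000078000000df000000df0000008c00000004 9 8) 0 0 (step_sound _ 132 [(rh5c5e593799055d58.shift 3 1), rh96771e4d2d9cd1b6] (by decide +kernel))
noncomputable def rh6919d3368f73c4bc : CRef := CRef.mk (Pat.mk 0x980000001800000008 0x1c000000fc0000007f000000df0000001800000008 9 8) 0 0 (step_sound _ 99 [(rh2ddd6c94c59240f8.shift 3 0), (rh7b9fbdf6d2d059e4.shift 2 0), rh93ebb9c80adce467] (by decide +kernel))
noncomputable def rhdc3e9f46d74af1fc : CRef := CRef.mk (Pat.mk 0x1800000018000000880000000800000000 0x40000001f0000001f000000ef0000007e00000014 9 8) 0 0 (step_sound _ 130 [rh3ba7041cce459f47, (rh50fbb5868c909700.shift 2 1)] (by decide +kernel))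
noncomputable def rhd2012393683592cc : CRef := CRef.mk (Pat.mk 0x4c0000000c0000000400000000 0x160000003e0000003e0000007f0000000f0000000600000002 9 7) 0 0 (step_sound _ 100 [rh0639031dd8fffce6, (rh361cc68994bd8a63.shift 2 2)] (by decide +kernel))
noncomputable def rhe876941ea9f46aaa : CRef := CRef.mk (Pat.mk 0x380000001c0000000000000000 0x2800000038000000780000007f0000003f0000001c0000000c0000000c 9 7) 0 0 (step_sound _ 98 [(rh847714dcdbbb074a.shift 0 1), (rhba89ab7cb81bcc90.shift 0 2), rhc7c960dad5d3eef8, (rhf4464e16bd84923e.shift 1 0)] (by decide +kernel))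
noncomputable def rh19d86e0e6100e54a : CRef := CRef.mk (Pat.mk 0x1000000018000000180000000000000000 0xc0000000f0000007f0000001e0000001c0000000c0000000c 9 7) 0 0 (step_sound _ 35 [(rh71222050f2c63a3a.shift 3 0), rhb7abc84d1061fd9c] (by decide +kernel))
noncomputable def rh48eba8bd41d9aade : CRef := CRef.mk (Pat.mk 0x2000000120000001300000010 0x7c0000003e0000006b0000003e0000001b00000011 9 7) 0 0 (step_sound _ 67 [(rhb2a0b9ccfb5cecd5.shift 0 1), rhe566f6163fc5e306] (by decide +kernel))
noncomputable def rh2dd510f1a704e8f1 : CRef := CRef.mk (Pat.mk 0x200000003000000038000000000000000000000000 0xc0000001c0000003e0000003e000000380000001f0000003c0000001c 9 6) 0 0 (step_sound _ 67 [(rh4821dcf828b9d7bf.shift 3 0), rh85981d64381482f7, (rhb6fac6f3fb9f6804.shift 1 1), (rhcf80391c5046a495.shift 3 0)] (by decide +kernel))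
noncomputable def rh2230d0adc6913184 : CRef := CRef.mk (Pat.mk 0x2000000120000001300000010 0x500000007000000070000007e0000003e0000006f0000003f0000001b00000010 9 7) 0 0 (step_sound _ 129 [(rh83b602833a62f83f.shift 0 1), (rh9a369cb82ea472da.shift 0 1), rhc3d0685d4229b680] (by decide +kernel))
noncomputable def rh42cc91f2a529ee86 : CRef := CRef.mk (Pat.mk 0x2000000038000000000000000000000000 0x40000000e0000000e0000003f0000003e0000000f0000000600000006 9 6) 0 0 (step_sound _ 98 [(rh21d582c147e7e118.shift 0 2), (rh775ca1963e850b80.shift 0 2), (rh7fb660bc21ce4329.shift 0 3), (rhd181063e2d6f3e58.shift 1 0)] (by decide +kernel))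
noncomputable def rh34edcf02e53cccbb : CRef := CRef.mk (Pat.mk 0x18000000180000000800000000 0xc0000001f0000007c0000003f0000001f0000000f00000006 9 7) 0 0 (step_sound _ 132 [rh3cc8098aa49461a3, (rh5c5e593799055d58.shift 3 1)] (by decide +kernel))
noncomputable def rh9b9e1e56ee8b0a25 : CRef := CRef.mk (Pat.mk 0x1800000018000000080000000000000000 0x16000000370000003f0000001f0000000f0000000600000002 9 6) 0 0 (step_sound _ 164 [rh31e8ab66817c9b50, (rh5c5e593799055d58.shift 3 2)] (by decide +kernel))
noncomputable def rh86e85d3f03e30ebe : CRef := CRef.mk (Pat.mk 0x800000018000000180000000800000000 0x70000003f0000001f0000001f0000000f00000006 9 6) 0 0 (step_sound _ 130 [rh3e67125b2faf441c, (rh50fbb5868c909700.shift 2 1)] (by decide +kernel))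
noncomputable def rhec3992c5f9979691 : CRef := CRef.mk (Pat.mk 0x3000000030000000000000000000000000 0x380000007e0000001e0000007f0000003e0000001f0000001c00000018 9 7) 0 0 (step_sound _ 99 [(rh9c70b30a20f56331.shift 1 0), (rhab2ad169e49f9c5e.shift 1 3), (rhb12ffaec36122c99.shift 0 2), (rhe3d0d9bd562d1f31.shift 1 0)] (by decide +kernel))
noncomputable def rh98608a4f17112b16 : CRef := CRef.mk (Pat.mk 0x3000000030000000000000000000000000 0xfc000000fe0000007e0000007f0000003e0000000f0000000c0000000c 9 8) 0 0 (step_sound _ 99 [(rha1e34485085d267d.shift 1 0), (rhab2ad169e49f9c5e.shift 1 3), (rhb12ffaec36122c99.shift 0 2), (rhbb7213d4724395ac.shift 1 1)] (by decide +kernel))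
noncomputable def rh5a18ebe5df45e349 : CRef := CRef.mk (Pat.mk 0x2000000030000000300000001000000000000000000000000000000000 0x200000006000000660000007f0000003e0000001f0000000f0000000e0000000e0000000a 9 7) 0 0 (step_sound _ 162 [(rh2b75b59b91c70173.shift 0 4), (rh654de5a59a70eb94.shift 1 3), (rh6d571b54e8dd9e33.shift 1 5), rh7845670759dc0bcb, (rh8e7402f15cb94778.shift 0 1), (rhfb48a445bef9445e.shift 1 3)] (by decide +kernel))
noncomputable def rh2220c3fe63b3f14d : CRef := CRef.mk (Pat.mk 0x8000000180000001800000000 0x1c0000001c0000000e0000001f0000001f00000007 9 5) 0 0 (step_sound _ 131 [(rh2145e1d24b96a57e.shift 3 1), rh7804cc5007dcb340] (by decide +kernel))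
noncomputable def rh9ab1cb24f0cec02c : CRef := CRef.mk (Pat.mk 0x6000000030000000000000000000000000 0x40000000700000007c000001ff000000fc000000780000003c0000001f0000001c00000010 9 9) 0 0 (step_sound _ 165 [rh156ec82af878a28b, (rh503845878d31a61c.shift 2 3), (rha8241f37c79477a8.shift 4 2), (rhfafeb437ceb8396d.shift 4 0)] (by decide +kernel))
noncomputable def rha06f5f4dbccd0dcd : CRef := CRef.mk (Pat.mk 0x10000000300000001800000000 0x2800000038000000380000003c000000ff0000003f000000380000001e00000004 9 8) 0 0 (step_sound _ 34 [rh1d375726d1a8e0a8, (rh53b3c253cb0c65f4.shift 1 1)] (by decide +kernel))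
noncomputable def rh40cc1c2032b1b727 : CRef := CRef.mk (Pat.mk 0x200000006000000030000000000000000000000000 0x140000005c000000df0000007c0000007e0000003c000000180000001000000010 9 8) 0 0 (step_sound _ 99 [(rh53b3c253cb0c65f4.shift 2 3), rhaaa14b20aedb262c] (by decide +kernel))
noncomputable def rhb5f1fcab58481656 : CRef := CRef.mk (Pat.mk 0x20000001200000013800000100 0x40000007ff000003fe000006ff000003f8000001b800000108 9 11) 0 0 (step_sound _ 133 [(rh0b1b5d22e3fdb264.shift 0 1), (rh1ae8cb0b33fd1844.shift 4 1), (rh7e2cf647d5bdef0f.shift 3 0), (rhc3d0685d4229b680.shift 4 0)] (by decide +kernel))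
noncomputable def rh8f284da0c306aa50 : CRef := CRef.mk (Pat.mk 0x200000002000000030 0x500000007f0000007e000000ff0000003800000030 9 8) 0 0 (step_sound _ 101 [rh0b1b5d22e3fdb264, (rh1ae8cb0b33fd1844.shift 4 0), (rhc85cc95794737cf7.shift 4 0), (rhe62cab2ff5ad6fe2.shift 4 0)] (by decide +kernel))
noncomputable def rhbb8966640ea46563 : CRef := CRef.mk (Pat.mk 0x10000000900000001c00000000 0x2800000038000000380000003c000000ff0000003f000000f80000001c00000004 9 8) 0 0 (step_sound _ 69 [rh1d375726d1a8e0a8, (rh361cc68994bd8a63.shift 3 1)] (by decide +kernel))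
noncomputable def rh4c65bbc0c1cc9ff3 : CRef := CRef.mk (Pat.mk 0x20000001a00000013000000100 0x5000000070000000ff000000fe000000ef000001b0000001b000000100 9 9) 0 0 (step_sound _ 133 [(rh1ae8cb0b33fd1844.shift 4 1), rh6831f9c0a6fbf048, (rhb77bfac3e9efecea.shift 4 1), (rhc85cc95794737cf7.shift 4 1), (rhe62cab2ff5ad6fe2.shift 4 1)] (by decide +kernel))
noncomputable def rh749ebde5973bae33 : CRef := CRef.mk (Pat.mk 0x8000000480000004c00000040 0x140000001c0000001c000001fc000000fc000001bf000000f80000006c00000040 9 9) 0 0 (step_sound _ 131 [(rh1741680720c097b4.shift 2 1), (rh21828636a210c6c1.shift 2 1), rh3eb70c5b9f895cc5, (rhc3d0685d4229b680.shift 2 0)] (by decide +kernel))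
noncomputable def rhdaa47d1c0cb14cee : CRef := CRef.mk (Pat.mk 0x20000001200000013800000100 0x1000000098000001de000000ff000001ff000001b800000108 9 9) 0 0 (step_sound _ 100 [(rh133ec9e97de3d2aa.shift 2 0), (rh6a6060c6b6bde3df.shift 4 0), (rhe2207c58c58eb607.shift 1 0), rhfece896c4f05d948] (by decide +kernel))
noncomputable def rh3c3bf765ee1a74b8 : CRef := CRef.mk (Pat.mk 0x2000000120000001300000010 0x50000007f0000003f0000006b0000003f0000001b00000010 9 7) 0 0 (step_sound _ 67 [rh92f824a565616456, (rhb2a0b9ccfb5cecd5.shift 0 1)] (by decide +kernel))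
noncomputable def rhc15735730e2b7394 : CRef := CRef.mk (Pat.mk 0x3c0000001c000000000000000000000000 0x20000000240000006c0000003c0000001c0000000f0000007e0000001e 9 7) 0 0 (step_sound _ 165 [(rh33e738c4ed385b9f.shift 2 4), rh648cb65b07201b67] (by decide +kernel))
noncomputable def rhf8421d0c3b407630 : CRef := CRef.mk (Pat.mk 0x700000003400000100000000000000000000000000 0x200000006000000f60000007e00000036000001de000000ff0000003e0000000a 9 9) 0 0 (step_sound _ 162 [(rh086f6046fa319626.shift 1 4), (rh1637e0e03b8b2f5c.shift 1 4), (rh35024012c177fdf9.shift 1 4), rhd3b81804e1b3874f] (by decide +kernel))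
noncomputable def rh8f22d44726b08144 : CRef := CRef.mk (Pat.mk 0x38000000180000000000000000 0x60000000e0000007f0000003f0000001e0000000400000004 9 7) 0 0 (step_sound _ 66 [rh3730c0e847592473, (rh53b3c253cb0c65f4.shift 1 2)] (by decide +kernel))
noncomputable def rh098a1cd4f713e728 : CRef := CRef.mk (Pat.mk 0x200000002000000060000000000000000000000000000000000000000 0x50000000700000007000000070000000600000006000000060000000300000007000000070000000700000005 9 3) 0 0 (step_sound _ 257 [(rh1148744b53f3df58.shift 0 5), (rh1741680720c097b4.shift 0 5), (rh5bd4bc0c2c48140c.shift 0 5), rh7c9af8700cf27961] (by decide +kernel))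
noncomputable def rh4abcf44e69cbc844 : CRef := CRef.mk (Pat.mk 0xa000000480000004e000000400000000000000000 0x20000000220000003e0000007e0000006e000000470000003e0000000e 9 7) 0 0 (step_sound _ 133 [rh0078733da135a0ce, (rhb2a0b9ccfb5cecd5.shift 2 3)] (by decide +kernel))
noncomputable def rhf612f18c17235cc7 : CRef := CRef.mk (Pat.mk 0x28000001200000003800000000000000000000000000000000 0xc0000002c000001ff000000380000001e0000001c0000001c0000000c 9 9) 0 0 (step_sound _ 167 [(rhb2a0b9ccfb5cecd5.shift 4 4), rhe3fb37630d4ca04a] (by decide +kernel))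
noncomputable def rhc81ac6213a0ebb16 : CRef := CRef.mk (Pat.mk 0xa000000180000000c 0x50000000700000017000000330000001f0000001f0000000c 9 6) 0 0 (step_sound _ 66 [rh92fc335d199f61a1, (rhb739f4f82bb681b4.shift 0 1)] (by decide +kernel))
noncomputable def rh09adab11a4f2061a : CRef := CRef.mk (Pat.mk 0xa000000480000000c00000000 0x500000007000000070000000f0000007e0000000f00000004 9 7) 0 0 (step_sound _ 68 [(rh361cc68994bd8a63.shift 2 1), rhb888a4ed66abb9b6] (by decide +kernel))
noncomputable def rhb0518316f1151406 : CRef := CRef.mk (Pat.mk 0x5000000040000000600000000000000000 0x98000000980000019f000001fe000000ff0000007c0000002c00000020 9 9) 0 0 (step_sound _ 133 [(rh1f4df707a11c768c.shift 2 0), (rh3918eeb6c53434d8.shift 1 3), (rh554009a2f490582e.shift 0 3), (rhbf42f742ec28df21.shift 3 2)] (by decide +kernel))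
noncomputable def rh7ef08bf5d1d867f2 : CRef := CRef.mk (Pat.mk 0x5000000240000000600000000000000000 0x140000001c0000003c000003bf000001fe0000037f0000007c0000002c00000020 9 10) 0 0 (step_sound _ 133 [(rh1ead17eef4d77515.shift 1 3), (rh1f4df707a11c768c.shift 2 0), (rh301918382b31d376.shift 2 0), (rh4f2c27d2a76172a7.shift 3 1), rh6392b194c2250731, (rhdf3c3df3c13acdf6.shift 1 0), (rhf8e735c4fd37dbb2.shift 2 3)] (by decide +kernel))
noncomputable def rh34d44112dbe4499f : CRef := CRef.mk (Pat.mk 0x8000000480000004c00000040 0x100000001c000001fc000000ff000001bc000000f80000006c00000040 9 9) 0 0 (step_sound _ 131 [(rh1f38d91509c9a600.shift 2 1), rh57141caf2f0cd222, (rhc3d0685d4229b680.shift 2 0), (rhc85cc95794737cf7.shift 2 1)] (by decide +kernel))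
noncomputable def rh4e28e1f4c6a2ae96 : CRef := CRef.mk (Pat.mk 0x200000002000000030 0x500000007f0000007e000000fe0000003800000030 9 8) 0 0 (step_sound _ 101 [rh3ad8c33d1e59f72f, (rh9a369cb82ea472da.shift 4 0), (rhc85cc95794737cf7.shift 4 0), (rhe62cab2ff5ad6fe2.shift 4 0)] (by decide +kernel))
noncomputable def rhaf3ceb19e2e0452c : CRef := CRef.mk (Pat.mk 0x1300000013000000110 0x1ff000001fe000000f8000001be000001b800000110 9 9) 0 0 (step_sound _ 131 [(rh1f72e38f783022bd.shift 3 0), rhc592605715f672d5, (rhca2682a31a84d1e4.shift 1 0), (rhcd892f57b886ba7d.shift 1 0)] (by decide +kernel))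
noncomputable def rhe59676039f82dea6 : CRef := CRef.mk (Pat.mk 0x180000001800000000000000040000000000000000 0x3c000000fe0000007c0000001f0000001f00000007000000070000000700000001 9 8) 0 0 (step_sound _ 130 [(rh00d6a6e3c7e3bb40.shift 2 1), rh53e6de8d0a80751f, (rhe5b71c37373d98f9.shift 0 1), (rhfe78e78768b72ccf.shift 0 1)] (by decide +kernel))
noncomputable def rh3f1c3094f1beb9f7 : CRef := CRef.mk (Pat.mk 0x2000000060000002000000003000000000000000000000000000000000 0x3c0000007c0000039f000001fe000003ff0000001c0000001c00000014 9 10) 0 0 (step_sound _ 134 [rh18ca5f7096039d29, (rh38dd4840086d1986.shift 2 3), (rh49cab235059a3e27.shift 3 3), (rh8f13cca74c435a72.shift 2 3), (rhcee8b2cb9be8f853.shift 2 3)] (by decide +kernel))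
noncomputable def rh45b4e65023faaa03 : CRef := CRef.mk (Pat.mk 0x1000000098000000180000000800000000 0xc000000ef0000007e000000df0000001f0000000f00000004 9 8) 0 0 (step_sound _ 131 [(rh01ff8e29f1e0af53.shift 0 2), rh3bd7840805157786, (rh925a1628dd8a50da.shift 2 0), (rha7c33e4c67a5da70.shift 0 1)] (by decide +kernel))
noncomputable def rhd34e26d317361b5e : CRef := CRef.mk (Pat.mk 0x340000003000000010000000000000000000000000 0x32000000360000003e000000360000003e0000001e0000000f0000000e0000000a 9 6) 0 0 (step_sound _ 196 [(rh2ddd6c94c59240f8.shift 4 3), (rh925a1628dd8a50da.shift 3 2), rh93e03a66e493979d] (by decide +kernel))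
noncomputable def rh01fe902849058546 : CRef := CRef.mk (Pat.mk 0x1a00000018000000080000000000000000 0x12000000370000001e0000001f0000000f0000000700000002 9 6) 0 0 (step_sound _ 164 [rh59f151bdef48d0ee, (rh5c5e593799055d58.shift 3 2)] (by decide +kernel))
noncomputable def rhc567c20df076dea3 : CRef := CRef.mk (Pat.mk 0x80000009800000018000000000000000000000000 0xf40000007f000000df00000018000000080000000800000008 9 8) 0 0 (step_sound _ 67 [(rh93ebb9c80adce467.shift 0 2), (rhdf997f77704b6375.shift 2 0), (rhea7a1800d6f053bd.shift 3 0)] (by decide +kernel))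
noncomputable def rhdae0e248a81e3578 : CRef := CRef.mk (Pat.mk 0x100000001e0000001800000000000000000000000000000000 0x500000007000000070000001b0000001e0000001f0000000f0000000c0000000400000004 9 5) 0 0 (step_sound _ 99 [(rh71222050f2c63a3a.shift 3 2), rha4cfcc078715a95f] (by decide +kernel))
noncomputable def rhd56ee488268b9963 : CRef := CRef.mk (Pat.mk 0x20000000340000003000000000000000000000000000000000 0x20000000600000036000000360000003e0000001e0000003f0000000e0000000a 9 6) 0 0 (step_sound _ 130 [(rh606b548914e2ab0d.shift 1 0), (rh6e1685e3533aff0e.shift 1 4), (rhbdf304e06eb41d61.shift 1 0), rhf90c31cc11b42f94] (by decide +kernel))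
noncomputable def rh726169cf7aa257d7 : CRef := CRef.mk (Pat.mk 0x300000003000000010000000000000000000000000 0x80000002c0000007f0000003e0000003e0000001e0000000c0000000800000008 9 7) 0 0 (step_sound _ 99 [(rh8107674b02376cf9.shift 1 0), (rh88db9e0744b493ce.shift 1 0), (rhf8f3f20c2284a69f.shift 0 2), (rhfafeb437ceb8396d.shift 3 0)] (by decide +kernel))
noncomputable def rhc5aac8a1aa3b6603 : CRef := CRef.mk (Pat.mk 0x800000018000000180000000800000000 0x170000001f0000001b0000001f0000000f00000004 9 5) 0 0 (step_sound _ 132 [rh49886a88e1a7a0fd, (rh5c5e593799055d58.shift 3 1)] (by decide +kernel))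
noncomputable def rh13d845aeb91d49e2 : CRef := CRef.mk (Pat.mk 0x100000001a0000001800000000000000000000000000000000 0x370000001e0000001f00000003000000070000000700000005 9 6) 0 0 (step_sound _ 162 [rh22e8b6572a2a969e, (rh33e738c4ed385b9f.shift 1 5)] (by decide +kernel))
noncomputable def rh81d3e098f5111260 : CRef := CRef.mk (Pat.mk 0x1a0000001a00000000000000000000000000000000 0x500000007000000170000001a0000001f0000000f0000001f0000000f00000001 9 5) 0 0 (step_sound _ 67 [(rh2c7fc7a7cc8a47be.shift 3 1), rha5d7771fbef1a42a] (by decide +kernel))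
noncomputable def rh101923d671912dfc : CRef := CRef.mk (Pat.mk 0x1a0000001a00000080000000000000000000000000 0x100000011000000130000001b0000001e000000ef0000007f000000ff00000004 9 8) 0 0 (step_sound _ 99 [(rh5439e3aa279d637d.shift 0 1), rh5ceae416b9294fb0, (rh84d1c02a8954c6a8.shift 3 2), (rhea7a1800d6f053bd.shift 3 1)] (by decide +kernel))
noncomputable def rh8a68740ef5534d68 : CRef := CRef.mk (Pat.mk 0x340000003400000100000000000000000000000000 0x200000006000000260000003600000036000001de000000ff000001fe0000000a 9 9) 0 0 (step_sound _ 100 [rh48b3a43f2f70c509, (rh5439e3aa279d637d.shift 1 1), (rhea7a1800d6f053bd.shift 4 1)] (by decide +kernel))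
noncomputable def rhe3d222c665b7b717 : CRef := CRef.mk (Pat.mk 0x1c00000018000000000000000000000000 0x10000000f0000000f0000000f0000001f0000001f0000000c0000000c0000000c 9 5) 0 0 (step_sound _ 129 [rh055a94e78211b7cd, (rhb739f4f82bb681b4.shift 0 3)] (by decide +kernel))
noncomputable def rh1c76fd46a49d2897 : CRef := CRef.mk (Pat.mk 0x1c0000001800000000000000000000000000000000 0x70000001f0000001f00000003000000070000000700000005 9 5) 0 0 (step_sound _ 161 [rh22e8b6572a2a969e, (rhb739f4f82bb681b4.shift 0 4)] (by decide +kernel))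
noncomputable def rha199bb7c4a597087 : CRef := CRef.mk (Pat.mk 0x1800000008000000180000001c00000000000000000000000000000000 0x780000001f0000001f0000001f00000003000000070000000700000005 9 7) 0 0 (step_sound _ 129 [(rh53b3c253cb0c65f4.shift 0 4), rhdb8ef9f8c8b57f42] (by decide +kernel))
noncomputable def rhf9db0121480cbc9e : CRef := CRef.mk (Pat.mk 0x1800000008000000180000001c00000000000000000000000000000000 0x7c0000000f0000001f0000001f00000003000000070000000700000005 9 7) 0 0 (step_sound _ 129 [(rh53b3c253cb0c65f4.shift 0 4), rhf98c0cd53fd7379e] (by decide +kernel))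
noncomputable def rhc2348842bb18b4f0 : CRef := CRef.mk (Pat.mk 0x8000000180000001800000000000000000000000000000000 0x500000037000000370000003f0000001f0000001f00000007000000070000000700000005 9 6) 0 0 (step_sound _ 161 [rh0d2506715b368dfb, (rh462faa19e337331f.shift 0 4), (rhd0cae7a5c36b3761.shift 0 1), (rhd268c6b2d65bf10d.shift 0 4)] (by decide +kernel))
noncomputable def rh0b949e096ec05f1b : CRef := CRef.mk (Pat.mk 0x1800000008000000180000001800000000 0x270000003f0000007b0000001f0000001f00000004 9 7) 0 0 (step_sound _ 34 [(rh932754581e0f4330.shift 2 0), (rhd27fabf0663470c7.shift 0 1)] (by decide +kernel))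
noncomputable def rh00434d7a9333a626 : CRef := CRef.mk (Pat.mk 0x700000000000000000 0x40000001c0000003c000000ff0000007e0000001f00000010 9 8) 0 0 (step_sound _ 67 [(rh15b856e33c69f807.shift 0 1), (rh4c622fddc53a5f99.shift 1 2), (rh7654d7b92c96fe12.shift 1 1), (rh775ca1963e850b80.shift 1 1), (rhcec4d6e93d600f7a.shift 2 0)] (by decide +kernel))
noncomputable def rh39db3a24f3956efa : CRef := CRef.mk (Pat.mk 0x1800000018000000180000000800000000 0x70000003f0000001f0000001f0000000f00000004 9 6) 0 0 (step_sound _ 130 [(rh50fbb5868c909700.shift 2 1), rhdfb7e2ae95ebcd54] (by decide +kernel))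
noncomputable def rhf9297ffddc668125 : CRef := CRef.mk (Pat.mk 0x600000006800000200000000100000000000000000 0x140000007c0000006c000003af000001fe000001ff00000004 9 10) 0 0 (step_sound _ 69 [(rh15bfdba1faf37c2c.shift 2 1), (rh3d160e37afbc6421.shift 2 1), rh4c3707919602ce19, (rhd24b9aa3f1cc01cd.shift 4 1)] (by decide +kernel))
noncomputable def rh730e2e13584cd635 : CRef := CRef.mk (Pat.mk 0x3800000018000000000000000000000000 0x3c0000007c0000007c0000003f0000001f000000080000000800000008 9 7) 0 0 (step_sound _ 97 [rh0ced53cd3be53ce0, (rh24ae073cf30720c4.shift 1 3)] (by decide +kernel))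
noncomputable def rh41eb870cec285b3b : CRef := CRef.mk (Pat.mk 0x3c00000018000000000000000000000000 0x3e0000003e000000740000003c0000001e0000000f0000000e0000000e 9 7) 0 0 (step_sound _ 98 [rhd176b2b3fa857f35, (rheb0810cc63b001d8.shift 1 3)] (by decide +kernel))
noncomputable def rh92a87d3877e927c4 : CRef := CRef.mk (Pat.mk 0x2600000026000000200000000000000000 0x170000001f0000001f0000003f00000036000000230000000700000007 9 6) 0 0 (step_sound _ 132 [rh805563a7cda984e0, (rhb2a0b9ccfb5cecd5.shift 1 3)] (by decide +kernel))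
noncomputable def rh419275fa5c5b9dec : CRef := CRef.mk (Pat.mk 0x3c0000001800000000 0xff0000003e0000007c0000003c0000001e00000004 9 8) 0 0 (step_sound _ 34 [rh1a81a9a346820211, (rheb0810cc63b001d8.shift 1 1)] (by decide +kernel))
noncomputable def rhe04ef1ccb525e8a6 : CRef := CRef.mk (Pat.mk 0x800000098000000180000000000000000 0x380000007c0000006c000000ff0000001f0000000800000008 9 8) 0 0 (step_sound _ 101 [(rh361cc68994bd8a63.shift 3 2), rhc4c055193397c921] (by decide +kernel))
noncomputable def rhea86c95d93746660 : CRef := CRef.mk (Pat.mk 0x100000001800000092000000080000000000000000 0x500000007000000170000001f000000f30000001f0000000b00000001 9 8) 0 0 (step_sound _ 101 [(rh2fe78cc5ca4405d8.shift 3 3), rh7e1155cf4b4bdd4f] (by decide +kernel))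
noncomputable def rhba1a96bc6ad53bd7 : CRef := CRef.mk (Pat.mk 0x100000001000000000000000000000000000000000 0x280000003e0000007f0000003e000000180000003e0000007f0000003e0000003800000028 9 7) 0 0 (step_sound _ 196 [(rh5f452f890cbd7cd4.shift 3 2), (rh6ad057e4a6aad04e.shift 3 1), (rh8d9dc76d2caafca6.shift 0 3), rhb1845721ea04c47f, (rhd03d0c8aad655629.shift 3 2)] (by decide +kernel))
noncomputable def rh7c6eff545af140bc : CRef := CRef.mk (Pat.mk 0x100000009000000018000000120000000000000000 0x10000000b0000001f000000f30000001f0000001f0000000700000004 9 8) 0 0 (step_sound _ 133 [(rh361cc68994bd8a63.shift 3 3), rhfc482d3460204337] (by decide +kernel))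
noncomputable def rh012a2af16c0046bb : CRef := CRef.mk (Pat.mk 0x2000000120000001300000012 0x50000007f0000003f0000006b0000003e0000001b00000012 9 7) 0 0 (step_sound _ 67 [(rhb2a0b9ccfb5cecd5.shift 0 1), rhc54bda19b377e696] (by decide +kernel))
noncomputable def rh6ac5a057c14a3a7d : CRef := CRef.mk (Pat.mk 0x30000001200000003000000130000000000000000000000000 0x1cf000000fe000001af0000003e000001fe0000000e0000000400000004 9 9) 0 0 (step_sound _ 195 [(rh5ee89f67e2414ce6.shift 1 5), (rhba33d2e1ea190e78.shift 0 3), (rhcadbf8b56d5190d5.shift 2 3), (rhde32889ccc76bdcd.shift 1 0), (rhde9387220b2fb778.shift 2 3), (rhfa26177841f892c8.shift 0 3)] (by decide +kernel))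
noncomputable def rhf442e13edaff9dbd : CRef := CRef.mk (Pat.mk 0x1800000038000000000000000000000000 0x600000006000000060000001f0000003f0000000f0000000c0000000c 9 6) 0 0 (step_sound _ 98 [(rhbe5fc5902345a0b9.shift 0 3), (rhc359ae14cfe16595.shift 1 0), (rhcc2be1f880c5ea3e.shift 0 2)] (by decide +kernel))
noncomputable def rhf2af14e627130ee3 : CRef := CRef.mk (Pat.mk 0x1a0000001200000012 0x50000007f0000003f0000006f0000003a0000001a00000012 9 7) 0 0 (step_sound _ 97 [rh1741680720c097b4, rh330a005829cdd297, rh4ebd90bd92772a20, rh97e428c054eb3c0a, rhb2aa47935e7ef7cb, rhc54bda19b377e696] (by decide +kernel))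
noncomputable def rh2d9d2f9240a561a4 : CRef := CRef.mk (Pat.mk 0x200000006000000160000000600000000000000000000000000000000 0x28000000390000003b0000003e000000160000003e0000003a0000003e0000003800000020 9 6) 0 0 (step_sound _ 196 [(rh367c4143e5a63119.shift 1 3), (rh52dc0b448901c5de.shift 0 4), (rh6493ceb007f59211.shift 0 5), (rh7d3911264e228925.shift 1 0)] (by decide +kernel))
noncomputable def rh921148ed382302eb : CRef := CRef.mk (Pat.mk 0x30000000b0000000900000000000000000000000000000000 0x40000001c0000001c0000001c0000001c0000001f0000000b000000190000001d0000001f0000001c00000010 9 5) 0 0 (step_sound _ 195 [(rh172c452e5d13a21a.shift 0 2), rh1f54ddeaa03f681d, (rh3453b8d8ca7f70b3.shift 0 3), (rh5b4e7f7751f15b2a.shift 0 2), (rhf9f763af7314a4a0.shift 0 1)] (by decide +kernel))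
noncomputable def rh7f559f703e0492dc : CRef := CRef.mk (Pat.mk 0x1200000016000000060000000000000000000000000000000000000000 0x20000000380000003f0000003b00000032000000160000003e0000003800000038000000380000003800000008 9 6) 0 0 (step_sound _ 164 [(rh36a89768d9c91f7d.shift 1 4), (rh3b8ecd29f69a1162.shift 1 3), (rhe0ed90f0c21106f5.shift 1 0), (rhed08e01e3d3f7f79.shift 0 2)] (by decide +kernel))
noncomputable def rh86d8d3372e805f77 : CRef := CRef.mk (Pat.mk 0x60000001600000006000000000000000000000000 0x20000000380000003e0000003a0000003e000000160000003e0000003b0000003a00000028 9 6) 0 0 (step_sound _ 100 [(rh18d511e648aabc8c.shift 1 0), (rh4a3ba4a889b0aa0d.shift 1 1), (rh7b67d2d838dda2d6.shift 1 0), (rhc28dd09875fb2825.shift 0 1)] (by decide +kernel))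
noncomputable def rh83da00bae85761d9 : CRef := CRef.mk (Pat.mk 0x120000000300000006000000000000000000000000000000000000000000000000 0x40000001e0000000300000007000000070000000300000003000000070000000700000005 9 5) 0 0 (step_sound _ 258 [(rh361cc68994bd8a63.shift 0 7), rhe3e6acd8c2dc0ebc] (by decide +kernel))
noncomputable def rh9d03109e53104fc0 : CRef := CRef.mk (Pat.mk 0x1c0000003000000010000000000000000000000000 0x40000001c0000003e0000007f0000003f0000003f00000030 9 7) 0 0 (step_sound _ 68 [(rh49178f19b4a7b930.shift 1 0), (rh723e4316482866bb.shift 0 1), (rha613ffd40b6c9d24.shift 3 0), (rhbd85a739b32027c8.shift 0 1)] (by decide +kernel))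
noncomputable def rh230ac7ae478aca80 : CRef := CRef.mk (Pat.mk 0x10000000130000001200000002000000000000000000000000 0x100000001b0000003f0000006b0000003f0000007f00000005 9 7) 0 0 (step_sound _ 65 [rh8cdd36b03d57a2f6, rhe4441baab75a6f73, (rhecfa9a5c21e0fe3b.shift 0 1)] (by decide +kernel))
noncomputable def rh7c89909c26b9739d : CRef := CRef.mk (Pat.mk 0x18000000300000001000000000000000000000000000000000 0x1e0000003e000000770000003e0000003f0000003800000020 9 7) 0 0 (step_sound _ 100 [(rh7231ee61eca7cd30.shift 0 2), (rh8a1bd34420cccc7f.shift 3 0), (rh8cdd36b03d57a2f6.shift 3 1), (rha613ffd40b6c9d24.shift 3 1), (rhe4441baab75a6f73.shift 3 1)] (by decide +kernel))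
noncomputable def rh5e9811923b52aea7 : CRef := CRef.mk (Pat.mk 0xc000000480000000c0000000800000000 0x20000000f0000007b0000003f0000001f00000014 9 7) 0 0 (step_sound _ 100 [rh17b2a013f667385e, (rh361cc68994bd8a63.shift 2 2)] (by decide +kernel))
noncomputable def rhfcc1a345080d960d : CRef := CRef.mk (Pat.mk 0x1800000018000000180000000000000000 0x200000006000000070000001f0000001f0000003f0000000a0000000a 9 6) 0 0 (step_sound _ 35 [(rh71222050f2c63a3a.shift 3 0), rheb753bb01ec49d1e] (by decide +kernel))
noncomputable def rh810a7e070d8a4f93 : CRef := CRef.mk (Pat.mk 0x1800000018000000180000000000000000 0x60000001f0000001b0000003f0000000f0000000c 9 6) 0 0 (step_sound _ 35 [(rh71222050f2c63a3a.shift 3 0), rhac217a4e7489474d] (by decide +kernel))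
noncomputable def rh859b26fea1b82014 : CRef := CRef.mk (Pat.mk 0x1800000018000000180000000000000000 0x30000001b0000001f0000003f0000000f0000000c 9 6) 0 0 (step_sound _ 35 [rh2ebb2cdde0d627b5, (rh71222050f2c63a3a.shift 3 0)] (by decide +kernel))
noncomputable def rhab507c24d2adc00a : CRef := CRef.mk (Pat.mk 0x80000009200000018000000100000000000000000 0x10000000b0000001f000000f30000001f000000170000000700000005 9 8) 0 0 (step_sound _ 133 [(rh361cc68994bd8a63.shift 3 3), rh861aa21a8abf63ef] (by decide +kernel))
noncomputable def rhc69ad55ef0353580 : CRef := CRef.mk (Pat.mk 0x100000001000000000000000000000000000000000 0x28000000380000003e0000007f0000003e000000180000003e0000007f0000003e00000028 9 7) 0 0 (step_sound _ 100 [(rh168fed7625321222.shift 3 0), rh193fe20a2c074999, (rh3193d494772eaa23.shift 3 1), (rh5776f5af2d5083ab.shift 0 2), (rh895960a8d60b102d.shift 3 0)] (by decide +kernel))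
noncomputable def rhc1279b299f75d50e : CRef := CRef.mk (Pat.mk 0x120000001800000090000000100000000000000000 0x4000000070000001f0000001f000000f30000001f0000000b00000001 9 8) 0 0 (step_sound _ 101 [(rh2fe78cc5ca4405d8.shift 3 3), rh7dabf39ac89801bf] (by decide +kernel))
noncomputable def rhad585ec84a94d844 : CRef := CRef.mk (Pat.mk 0x12000000130000001200000002000000000000000000000000 0x120000001b0000003e0000006b0000003f0000007f00000005 9 7) 0 0 (step_sound _ 131 [rh53df49c1fd8f6dbf, (rh5419adcd928dba20.shift 0 4)] (by decide +kernel))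
noncomputable def rh7c514de57a6cb00c : CRef := CRef.mk (Pat.mk 0x13000000030000001200000003000000000 0x4000000040000000e000001fe0000003e000001af000000fe000001cf 9 9) 0 0 (step_sound _ 35 [(rh1025acd51930fafb.shift 2 0), (rh4bc85716c4d7384f.shift 1 0), rh618ecf727f042bb6, rh660c4edc1a0db54d, (rh889c36e495db4d77.shift 2 0), (rhdfc0009829e9e9fd.shift 1 0)] (by decide +kernel))
noncomputable def rh1344a0c43c800e0b : CRef := CRef.mk (Pat.mk 0x3800000018000000000000000000000000 0xc0000000c0000000f0000003f0000001f000000060000000600000006 9 6) 0 0 (step_sound _ 130 [(rh4592e78c73a42485.shift 1 0), (rhb14e2588a8d71db8.shift 0 3), (rhba89ab7cb81bcc90.shift 0 3)] (by decide +kernel))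
noncomputable def rh4414b01931835843 : CRef := CRef.mk (Pat.mk 0x12000000120000001a00000000000000000000000000000000 0x120000001a0000003a0000006f0000003f0000007f00000005 9 7) 0 0 (step_sound _ 97 [(rh22f11455a56364ec.shift 0 1), (rh36e6bb6cca6188da.shift 0 2), rh53df49c1fd8f6dbf, (rh5c735efb546c43d8.shift 0 1), (rh6eff4158bb400f47.shift 0 1), rh7bb88d00bf5ff4e2] (by decide +kernel))
noncomputable def rh7d002ff5e84317d9 : CRef := CRef.mk (Pat.mk 0x60000001600000006000000020000000000000000 0x20000000380000003e0000003a0000003e000000160000003e0000003b0000003900000028 9 6) 0 0 (step_sound _ 100 [(rh4a3ba4a889b0aa0d.shift 1 1), (rh84f01cf2134210c0.shift 0 1), (rhb4e301194f3259f8.shift 1 0), (rhb7616ccf0736ebbe.shift 0 2)] (by decide +kernel))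
noncomputable def rhfdf48ebe068ff928 : CRef := CRef.mk (Pat.mk 0x90000000b000000030000000000000000000000000000000000000000 0x100000001c0000001f0000001d000000190000000b0000001f0000001c0000001c0000001c0000001c00000004 9 5) 0 0 (step_sound _ 163 [(rh3b8ecd29f69a1162.shift 0 3), rh5e1d13674f8bee28, (rh68f4aa9286a5d728.shift 0 2), (rha29ccca5e36268f0.shift 0 4), (rhd21e8935ac9bdb76.shift 0 2)] (by decide +kernel))
noncomputable def rhf65e59f71c4595d1 : CRef := CRef.mk (Pat.mk 0x6000000160000001200000000000000000000000000000000 0x8000000380000003800000038000000380000003e00000016000000320000003b0000003f0000003800000020 9 6) 0 0 (step_sound _ 196 [(rh1f54ddeaa03f681d.shift 1 0), (rha5309de37aeb3a95.shift 1 4), (rhb1b18b1a6233e09a.shift 1 1), (rhbdf837deeab7d3c0.shift 0 2)] (by decide +kernel))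
noncomputable def rh4560fd3df9297354 : CRef := CRef.mk (Pat.mk 0x6000000160000000600000000000000000000000000000000 0x280000003a0000003b0000003e000000160000003e0000003a0000003e0000003800000020 9 6) 0 0 (step_sound _ 196 [(rh367c4143e5a63119.shift 1 3), (rh379043b98eca61d9.shift 1 0), (rh3e4f775a4c1b3a1b.shift 1 1), (rhd6c5c8b1c02f21f5.shift 0 4)] (by decide +kernel))
noncomputable def rha9da6163b4996af0 : CRef := CRef.mk (Pat.mk 0x6000000030000001200000000 0x5000000070000000700000003000000030000000700000007000000030000001e00000004 9 5) 0 0 (step_sound _ 34 [(rh2fe78cc5ca4405d8.shift 0 1), rhdf383997fb71fef5] (by decide +kernel))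
noncomputable def rh165e185db28660bb : CRef := CRef.mk (Pat.mk 0x10000000300000001c00000000 0x300000003f0000003f0000007f0000003e0000001c00000004 9 7) 0 0 (step_sound _ 132 [(rh9a369cb82ea472da.shift 3 1), (rhcc73c56ab9a69393.shift 1 0), (rhd3d25ab0b094d51a.shift 0 1), rhe584f9f87996974b] (by decide +kernel))
noncomputable def rh80c2ced1f1b2c751 : CRef := CRef.mk (Pat.mk 0x2000000120000001300000010 0x50000007f0000003f0000006b0000003f0000001b00000010 9 7) 0 0 (step_sound _ 129 [rhc3d0685d4229b680, (rhc85cc95794737cf7.shift 0 1), (rhe62cab2ff5ad6fe2.shift 0 1)] (by decide +kernel))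
noncomputable def rhd33adde18348db1a : CRef := CRef.mk (Pat.mk 0x100000003000000018 0x20000000380000003f0000003e000000770000003e0000001e 9 7) 0 0 (step_sound _ 100 [(rh64bc0dab78a08b48.shift 3 0), rh7bb992c4c92f7229, (rh9a369cb82ea472da.shift 3 0), (rhc85cc95794737cf7.shift 3 0), (rhe62cab2ff5ad6fe2.shift 3 0)] (by decide +kernel))
noncomputable def rh758f6556af108548 : CRef := CRef.mk (Pat.mk 0x80000000c000000480000000c00000000 0x140000001f0000003f0000007b0000000f00000002 9 7) 0 0 (step_sound _ 68 [(rh2fe78cc5ca4405d8.shift 2 2), rhf7049bd8bede25b9] (by decide +kernel))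
noncomputable def rha56f3cd8833a2103 : CRef := CRef.mk (Pat.mk 0x180000001800000018000000000000000000000000 0xa0000000a0000003f0000001f0000001f000000070000000600000002 9 6) 0 0 (step_sound _ 195 [(rh2145e1d24b96a57e.shift 3 3), rhda9b1415646b8e88] (by decide +kernel))
noncomputable def rh94ff33f556947075 : CRef := CRef.mk (Pat.mk 0x18000000180000001800000000 0xc0000000f0000003f0000001b0000001f00000006 9 6) 0 0 (step_sound _ 131 [rh19ec84a2cdc3b128, (rh2145e1d24b96a57e.shift 3 1)] (by decide +kernel))
noncomputable def rh8e1d5b012c51c5f4 : CRef := CRef.mk (Pat.mk 0x18000000180000001800000000 0xc0000000f0000003f0000001f0000001b00000003 9 6) 0 0 (step_sound _ 131 [(rh2145e1d24b96a57e.shift 3 1), rh65ae3269d89f5b42] (by decide +kernel))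
noncomputable def rh74300a63a274f3fb : CRef := CRef.mk (Pat.mk 0x80000000980000008300000000000000000000000000000000 0x10000000180000001c0000000c0000009c000000d8000000ff0000007e0000005c0000005c00000014 9 8) 0 0 (step_sound _ 131 [(rh1c62b6193297d9e3.shift 0 4), rh6b91ca8699efbaac] (by decide +kernel))
noncomputable def rh43da226ec0ce4b79 : CRef := CRef.mk (Pat.mk 0x180000000600000000000000000000000000000000 0x140000001c0000001c000000180000000f0000007c0000007c0000001c0000001c 9 7) 0 0 (step_sound _ 131 [(rh53b3c253cb0c65f4.shift 0 4), (rhc15d8a133f58123b.shift 1 0)] (by decide +kernel))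
noncomputable def rhd339fe7e6cc5b1d9 : CRef := CRef.mk (Pat.mk 0x20000001a00000007000000000000000000000000000000000000000000000000 0x50000000f0000001b00000007000000070000000300000003000000070000000700000005 9 5) 0 0 (step_sound _ 161 [(rh330a005829cdd297.shift 0 5), (rhd1fa8140a3eb151f.shift 0 3), rhe5e7df0dfe4db41d] (by decide +kernel))
noncomputable def rh82ee01296f101fea : CRef := CRef.mk (Pat.mk 0x38000000000000000000000000 0xc0000000f0000003e0000007f0000000e0000000e 9 7) 0 0 (step_sound _ 98 [(rh0d378fd9e8917c5a.shift 0 2), (rh1393983197bff31f.shift 1 0), (rh185f35b8bd8ec37f.shift 0 2), (rh775ca1963e850b80.shift 0 2)] (by decide +kernel))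
noncomputable def rh5a6de2d1a8200365 : CRef := CRef.mk (Pat.mk 0x1000000018000000080000000000000000 0x40000000f0000001f0000001f0000001e0000001c0000001c 9 5) 0 0 (step_sound _ 35 [rh346e187a23833754, (rh71222050f2c63a3a.shift 3 0)] (by decide +kernel))
noncomputable def rhd2c7feb2528f83cf : CRef := CRef.mk (Pat.mk 0x1800000010000000180000000800000000 0xc0000001c0000001e0000001f0000001f00000017 9 5) 0 0 (step_sound _ 36 [rh41745629e4ea8f1a, (rh50fbb5868c909700.shift 3 1)] (by decide +kernel))
noncomputable def rhd7e67b06c9d1af69 : CRef := CRef.mk (Pat.mk 0x20000001a0000000300000001000000000 0x5f000001fe000001be000001b0000001f0000001c0 9 9) 0 0 (step_sound _ 37 [(rh1f69e0bb1354f088.shift 0 1), (rh330a005829cdd297.shift 4 1), (rhf37e64d8b3bfed19.shift 4 0)] (by decide +kernel))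
noncomputable def rhc712e73f16bb08c0 : CRef := CRef.mk (Pat.mk 0x1000000018000000080000000000000000 0xc0000000c0000000f0000001f0000001f0000001e0000000c0000000c 9 5) 0 0 (step_sound _ 35 [(rh71222050f2c63a3a.shift 3 0), rh8e7d0810c73cd1b3] (by decide +kernel))
noncomputable def rh10e798db5e87266d : CRef := CRef.mk (Pat.mk 0x1a000000030000000200000000000000000 0x500000007c0000007e000001fe000001bf0000003e0000006f0000002800000020 9 9) 0 0 (step_sound _ 165 [(rh330a005829cdd297.shift 4 2), (rh42ab489a1be3958e.shift 4 2), (rh69f0587a21bb077f.shift 4 2), rha33447e4cb719ad2, (rhc85cc95794737cf7.shift 4 2), (rhf94e4c7c88e23353.shift 1 1)] (by decide +kernel))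
noncomputable def rhe124f6d8406e8b92 : CRef := CRef.mk (Pat.mk 0x800000001a000000830000000200000000000000000000000000000000 0x800000028000000fa0000001b000000fb0000007e0000003f0000003f0000003f00000005 9 8) 0 0 (step_sound _ 97 [(rh5192e84255fe3228.shift 0 1), rh56259dd1390eee46, (rh6f07c57edaa7dadb.shift 0 1), (rh8cdd36b03d57a2f6.shift 0 1), (rhda88202a27137cb5.shift 0 1)] (by decide +kernel))
noncomputable def rhdb51e8c53379a603 : CRef := CRef.mk (Pat.mk 0x6c0000000c00000008000000080000000000000000 0x600000006c0000006f0000007b0000007f0000007600000040 9 7) 0 0 (step_sound _ 66 [(rh932754581e0f4330.shift 2 1), rhe9d8f1b39a46107a] (by decide +kernel))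
noncomputable def rh559c9f5aac0e8ac8 : CRef := CRef.mk (Pat.mk 0x20000001a0000000200000012000000000000000000000000 0xa0000001a0000001a000000160000003f0000003700000021 9 6) 0 0 (step_sound _ 66 [rha109c8280d615d4f, (rhd3458b32566d63f7.shift 1 2)] (by decide +kernel))
noncomputable def rh8d58ed9fec4adef0 : CRef := CRef.mk (Pat.mk 0x800000009a0000008b00000001000000000000000000000000 0xe0000009f000000da000000fb000000790000005c0000005c00000014 9 8) 0 0 (step_sound _ 193 [(rh5c5e593799055d58.shift 0 3), rh86c8d0f94c7b320c] (by decide +kernel))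
noncomputable def rh4b07502a0a37c109 : CRef := CRef.mk (Pat.mk 0x10000000130000001100000001000000000000000000000000000000000 0x180000001800000118000001b0000001f0000000f7000000be000000bf0000003800000028 9 9) 0 0 (step_sound _ 100 [(rh3a40cfe198d8ea4a.shift 0 2), (rh5360f814a6806e21.shift 3 2), (rh8cdd36b03d57a2f6.shift 3 1), (rhc94dfb5f501cb051.shift 3 0)] (by decide +kernel))
noncomputable def rh11ad28080149bc80 : CRef := CRef.mk (Pat.mk 0x102000001320000011200000010000000000000000000000000 0x150000011f000001b3000001f2000000f7000000a70000008700000005 9 9) 0 0 (step_sound _ 97 [(rh46baee19951a66e7.shift 0 1), (rh6eff4158bb400f47.shift 0 1), (rhc4526fc8abf298b6.shift 0 1), rhc850b49d039efae1, (rhfc3dc29d065de2f2.shift 1 1)] (by decide +kernel))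
noncomputable def rhb41d816190790f34 : CRef := CRef.mk (Pat.mk 0x80000000800000018000000000000000000000000 0x40000000c0000000e0000001f0000001f0000001f00000014 9 5) 0 0 (step_sound _ 67 [(rh46baee19951a66e7.shift 2 0), (rh6eff4158bb400f47.shift 2 0), (rhac0a67c951ef6745.shift 0 1), (rhc4526fc8abf298b6.shift 2 0)] (by decide +kernel))
noncomputable def rha78335691c48bcc5 : CRef := CRef.mk (Pat.mk 0x20000001a00000003000000010000000000000000000000000 0x1f000001fe000001be000001b0000001f0000001e00000006000000020 9 9) 0 0 (step_sound _ 101 [(rh1f69e0bb1354f088.shift 0 3), (rh4f66b8b299b10e60.shift 4 0), (rhf37e64d8b3bfed19.shift 4 2)] (by decide +kernel))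
noncomputable def rhd86629417cdf930c : CRef := CRef.mk (Pat.mk 0x180000000600000000000000000000000000000000 0x140000001c0000001c000000180000000f0000003e0000007c0000001c0000001c 9 7) 0 0 (step_sound _ 131 [(rh53b3c253cb0c65f4.shift 0 4), (rh83a3057590d82c3b.shift 1 0)] (by decide +kernel))
noncomputable def rh776748bc49421f8f : CRef := CRef.mk (Pat.mk 0x410000000d0000004180000000000000000000000000000000000000000 0x4000000140000007d0000000d8000007df000003ff000001ff000001fc0000017c00000028 9 11) 0 0 (step_sound _ 132 [(rh3abb2537a6c558d8.shift 1 1), (rh4bcda0d07de41309.shift 0 1), (rhaa4d9de99c4ea825.shift 1 3), (rhb52f55d967af4571.shift 3 0)] (by decide +kernel))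
noncomputable def rh1314a7ed02d6e452 : CRef := CRef.mk (Pat.mk 0x4000000820000001a000000830000000000000000000000000000000000000000 0x80000002c000000fe0000001b000000f30000007e0000003f0000003f0000002f00000005 9 8) 0 0 (step_sound _ 129 [rhb52f55d967af4571, (rhbaefcd01e0a8bca3.shift 1 4)] (by decide +kernel))
noncomputable def rh809b914b7c4c5566 : CRef := CRef.mk (Pat.mk 0x1a0000008e000000000000000000000000 0xc0000000e0000001f0000001b000000fe0000000c0000000c0000000c 9 8) 0 0 (step_sound _ 100 [(rh3244c3cc8379b070.shift 0 3), rhc1570fe3aa34e0fe] (by decide +kernel))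
noncomputable def rh6e5233fdb1a79da4 : CRef := CRef.mk (Pat.mk 0x800000009a0000008e000000000000000000000000 0xc0000002e000000ff000000da000000fe0000007c0000005c0000005c 9 8) 0 0 (step_sound _ 100 [(rh6a302076658b223e.shift 1 1), (rh84cadcd2156b2a3e.shift 1 0), (rhb0daf349861163a7.shift 2 0), rhc1570fe3aa34e0fe] (by decide +kernel))
noncomputable def rh2f7080a659d9bd96 : CRef := CRef.mk (Pat.mk 0x1a0000000a0000000000000000000000000000000000000000 0x1000000030000000f0000001f0000001b0000000f0000007d0000001f0000001c0000001c00000010 9 7) 0 0 (step_sound _ 131 [(rh144b706311123356.shift 0 2), (rh1b9022be4f7af407.shift 2 1), rh81b758912cbd6f6c, (rh87056637fcab2e6b.shift 0 3), (rhe1608dd3aece003a.shift 0 1)] (by decide +kernel))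
noncomputable def rhaf79bcbd018a0177 : CRef := CRef.mk (Pat.mk 0x1a0000009a000000000000000000000000 0xc0000000e0000001f0000001b000000fe0000000c0000000c0000000c 9 8) 0 0 (step_sound _ 102 [rh14411ff6624fa9b6, (rh5419adcd928dba20.shift 3 3)] (by decide +kernel))
noncomputable def rhb0604cff2cc02db5 : CRef := CRef.mk (Pat.mk 0x800000009a0000008a00000000000000000000000000000000 0x100000001d0000001f0000000f0000009f000000db000000fb0000007d0000005c0000005c00000014 9 8) 0 0 (step_sound _ 99 [(rh1b9022be4f7af407.shift 2 0), (rh274a837cd7eaa569.shift 2 0), (rh8a5a9846a31f2ef9.shift 0 1), (rh9a11b3e6d65b5856.shift 2 1)] (by decide +kernel))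
noncomputable def rheceda9b36f3de645 : CRef := CRef.mk (Pat.mk 0x800000001a00000002000000000000000000000000000000000 0x800000028000000f9f000001fe000003ef000003c0000003800000038000000280 9 12) 0 0 (step_sound _ 166 [(rh18b07360e0d27fa6.shift 5 0), (rh3bc20d0d8c73da06.shift 4 3), (rh7352c32b6596e1da.shift 0 4), (rh9ed996b6caee57e3.shift 0 4)] (by decide +kernel))
noncomputable def rh45780b542ab8102e : CRef := CRef.mk (Pat.mk 0x1a000000020 0x39f000001fe0000007f 9 10) 0 0 (step_sound _ 38 [rh7352c32b6596e1da, (rheb0810cc63b001d8.shift 4 0)] (by decide +kernel))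
noncomputable def rh584027f4d1ba2bb6 : CRef := CRef.mk (Pat.mk 0x1a000000020 0x1f000001fe000003ff 9 10) 0 0 (step_sound _ 38 [rh9ed996b6caee57e3, (rheb0810cc63b001d8.shift 4 0)] (by decide +kernel))
noncomputable def rhee4603d1647ab73b : CRef := CRef.mk (Pat.mk 0x800000001a0000000200000000000000000000000000000000 0x800000028000000f80000001e0000003f0000003c000000380000003800000028 9 8) 0 0 (step_sound _ 162 [(rh18b07360e0d27fa6.shift 1 0), (rheb0810cc63b001d8.shift 0 4)] (by decide +kernel))
noncomputable def rh7caa74351b452a23 : CRef := CRef.mk (Pat.mk 0x800000009a0000008a000000080000000000000000 0x10000000180000001c0000002c000000fc000000da000000fb0000007f000000f700000074 9 8) 0 0 (step_sound _ 68 [rh4b21977160783fa2, (rh5fd9ac163700c35e.shift 2 1), rh7684d34fd48eccb4, (rhc0e9703577a7275f.shift 3 0), rhd339b309600f487e] (by decide +kernel))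
noncomputable def rhb170006ac14812fb : CRef := CRef.mk (Pat.mk 0x800000009800000098000000000000000000000000 0xc0000000c0000008c000000d8000000f80000007c0000005f0000004c 9 8) 0 0 (step_sound _ 102 [rh485f7a47e9148ecf, (rh5419adcd928dba20.shift 3 3)] (by decide +kernel))
noncomputable def rh7bc92b3c9088da94 : CRef := CRef.mk (Pat.mk 0x80000001c000000000000000000000000 0x140000001c0000001c0000000c0000000c0000001c0000007f0000001f00000014 9 7) 0 0 (step_sound _ 163 [(rh281c6819542c66e6.shift 2 0), rh8e37ecb9994b662c, (rhfb9fb48a5e63ed80.shift 2 2)] (by decide +kernel))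
noncomputable def rhc2ead2e2bed3b787 : CRef := CRef.mk (Pat.mk 0x120000001e00000012000000000000000000000000 0x40000000c0000001e0000001e0000001a0000003f0000003f00000028 9 6) 0 0 (step_sound _ 68 [(rh6eff4158bb400f47.shift 3 0), (rh88eca4c091d4486e.shift 0 1), (rhe286c75f2739cce2.shift 3 1)] (by decide +kernel))
noncomputable def rhe4662fe8dd51d66c : CRef := CRef.mk (Pat.mk 0x340000012400000000000000000000000000000000 0xa0000000e0000001e0000001f0000007e00000036000001e60000000e0000000e0000000e0000000a 9 9) 0 0 (step_sound _ 134 [(rh2fe78cc5ca4405d8.shift 4 4), rhcb3b4cec603a45d1] (by decide +kernel))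
noncomputable def rh6b2c1649c6fc8f4c : CRef := CRef.mk (Pat.mk 0x2000000026000000240000000000000000000000000000000000000000 0x80000003c000000360000003e0000001e0000001f0000001e0000000e0000000a 9 6) 0 0 (step_sound _ 164 [(rh5419adcd928dba20.shift 1 5), rhd516063d870b5511] (by decide +kernel))
noncomputable def rh535159b793dad9b6 : CRef := CRef.mk (Pat.mk 0x1a000000020000000000000000000000000 0xc0000000e0000003ff000001fe0000036f000001700000007000000050 9 10) 0 0 (step_sound _ 134 [(rh1f1f19069f618dac.shift 4 0), (rh3bc20d0d8c73da06.shift 4 2), (rh7352c32b6596e1da.shift 0 3)] (by decide +kernel))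
noncomputable def rhd4de90522ff9bae9 : CRef := CRef.mk (Pat.mk 0x800000008000000080000000800000000 0x170000003f0000003f0000000c0000001c00000014 9 6) 0 0 (step_sound _ 130 [(rh50fbb5868c909700.shift 2 1), rh851c9d9a4716b6a1] (by decide +kernel))
noncomputable def rhe79bc0c5fd005583 : CRef := CRef.mk (Pat.mk 0x180000001e000000000000000000000000 0xe0000000f0000001c0000001e0000003f0000000e0000000c 9 6) 0 0 (step_sound _ 68 [rh5eee9690d5115f28, (rhe25b0a99195a5d59.shift 1 2)] (by decide +kernel))
noncomputable def rh6c425155ee3b7cf5 : CRef := CRef.mk (Pat.mk 0x80000000980000008a00000000000000000000000000000000 0x10000000180000001c0000000c0000009c000000dc000000ff000000780000005c0000005c00000014 9 8) 0 0 (step_sound _ 130 [(rh53b3c253cb0c65f4.shift 0 4), (rh59b17fa0646976f3.shift 1 0)] (by decide +kernel))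
noncomputable def rh1e4952eb5e5cc56e : CRef := CRef.mk (Pat.mk 0x300000001c000000080000000000000000 0x800000028000000380000007c0000001f0000007c0000003c 9 7) 0 0 (step_sound _ 35 [rh66fb48f0b4ac1e61, (rh71222050f2c63a3a.shift 3 0)] (by decide +kernel))
noncomputable def rh0caaa75467fd36c3 : CRef := CRef.mk (Pat.mk 0x6000000038000000100000000000000000 0x3f0000007c00000070000000f80000003e0000006800000020 9 8) 0 0 (step_sound _ 165 [(rh5c5e593799055d58.shift 4 2), rhd0dd91947cb4a83e] (by decide +kernel))
noncomputable def rhb7d1994e40090570 : CRef := CRef.mk (Pat.mk 0xc0000004e000000000000000000000000 0x80000000c0000007e0000003b0000001f0000001e 9 7) 0 0 (step_sound _ 100 [(rh2fe78cc5ca4405d8.shift 2 3), rhb8e15d71c7db821a] (by decide +kernel))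
noncomputable def rhae208d24c727d6c8 : CRef := CRef.mk (Pat.mk 0x180000000e00000000000000000000000000000000 0x60000000e0000001e0000001c0000000e0000003f0000007e0000001e00000018 9 7) 0 0 (step_sound _ 98 [(rhadf429772c25fde0.shift 2 1), rhc8add3a484c45c83, (rhf57f425499ea508d.shift 1 0), (rhf9366b6a121593ef.shift 2 1)] (by decide +kernel))
noncomputable def rhab85a39653b60af7 : CRef := CRef.mk (Pat.mk 0x180000001a000000100000000000000000 0xe0000000f0000001c0000001e0000003f0000000e0000000c 9 6) 0 0 (step_sound _ 98 [rh5eee9690d5115f28, (rhe25b0a99195a5d59.shift 1 2)] (by decide +kernel))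
noncomputable def rha9722cf4fd668a76 : CRef := CRef.mk (Pat.mk 0x80000000980000008a000000080000000000000000 0x10000000180000001c0000002c000000fc000000d8000000fb0000007f000000f700000070 9 8) 0 0 (step_sound _ 68 [rh4b21977160783fa2, (rh5fd9ac163700c35e.shift 2 1), rh7684d34fd48eccb4, (rhc2689041e310c379.shift 0 1)] (by decide +kernel))
noncomputable def rh683746ab080b38b2 : CRef := CRef.mk (Pat.mk 0x800000001a00000012000000000000000000000000 0x50000000f0000002f000000ff0000001b0000001e0000003f0000003f00000005 9 8) 0 0 (step_sound _ 163 [(rh3a5d716997a41475.shift 1 1), rh52aba57861521431, (rhc2c7bae8f445c890.shift 3 1), (rhc38f566cab2818e5.shift 3 1)] (by decide +kernel))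
noncomputable def rhe09d2463de1337ad : CRef := CRef.mk (Pat.mk 0x800000001a00000032000000000000000000000000000000000000000000000000 0x80000002a000000ff0000001b0000003e00000036000000340000003c000000380000003800000028 9 8) 0 0 (step_sound _ 164 [(rh805fd22999b566bd.shift 0 3), (rhabf581a777247a2c.shift 3 0), (rhb1a251d9bff81766.shift 3 4), (rhf9a6286f1d5377a2.shift 3 4)] (by decide +kernel))
noncomputable def rh77fa0a4f85863652 : CRef := CRef.mk (Pat.mk 0x1a000000920000000200000000000000000000000000000000 0xc0000000c0000001d0000001b000000fe0000000f0000000f0000000f0000000700000004 9 8) 0 0 (step_sound _ 166 [(rh5419adcd928dba20.shift 3 5), rh5e434339b4ac2f52] (by decide +kernel))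
noncomputable def rh8a809a72e61aa963 : CRef := CRef.mk (Pat.mk 0x1a00000002000000020000000000000000 0x100000007000000070000000f0000001b00000002000000070000000700000005 9 5) 0 0 (step_sound _ 161 [(rh2f7aebebd7d680c3.shift 0 2), rh4d95a05dc08713ed, rh6eff4158bb400f47, rhc4526fc8abf298b6] (by decide +kernel))
noncomputable def rhe1db58ba8141fc5f : CRef := CRef.mk (Pat.mk 0x800000001800000012000000000000000000000000 0xc0000002c000000fe0000001f0000001e0000003f0000003c0000000c 9 8) 0 0 (step_sound _ 163 [(rh3a5d716997a41475.shift 1 1), rha819c97e925865da, (rhc2c7bae8f445c890.shift 3 1), (rhc38f566cab2818e5.shift 3 1)] (by decide +kernel))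
noncomputable def rh1464a7cb3798a7af : CRef := CRef.mk (Pat.mk 0x180000009e000000000000000000000000 0x80000000e0000001f0000001b000000fe0000001c0000001c00000008 9 8) 0 0 (step_sound _ 102 [rh36fd44123b18b270, (rh5419adcd928dba20.shift 3 3)] (by decide +kernel))
noncomputable def rh485ab4b64446dde8 : CRef := CRef.mk (Pat.mk 0x180000003e00000000000000000000000000000000 0xc0000000e0000001f0000001b0000003e0000006c0000001c0000001c00000014 9 7) 0 0 (step_sound _ 195 [(rh37d9ceebb86d75d1.shift 2 3), rh8a13f19db78da086, (rhb3e5613249985042.shift 2 1), (rhf7c77fe48087fd5b.shift 2 1)] (by decide +kernel))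
noncomputable def rh696b54a20dc23da4 : CRef := CRef.mk (Pat.mk 0x180000008e000000000000000000000000 0xb0000001f0000001b000000fe0000007f0000000c0000000c 9 8) 0 0 (step_sound _ 100 [(rh4d075da104d1d80d.shift 1 0), rh94cc1232bebcea1d, rhafa5a7051d37b143, (rhb8546cc3e1ee40c7.shift 1 2)] (by decide +kernel))
noncomputable def rh55f85f2c25794781 : CRef := CRef.mk (Pat.mk 0x300000001c00000008000000000000000000000000 0x24000000360000007c0000001f0000007f0000002a00000002 9 7) 0 0 (step_sound _ 67 [(rh71222050f2c63a3a.shift 3 1), rhe72c5e8195d548a1] (by decide +kernel))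
noncomputable def rhbfbf48a4e1344535 : CRef := CRef.mk (Pat.mk 0x180000008e000000040000000000000000 0xf0000001f0000001b000000fe0000000f0000000800000008 9 8) 0 0 (step_sound _ 163 [(rh5c5e593799055d58.shift 2 2), rhe7765f56d875d8f1] (by decide +kernel))
noncomputable def rh3900709c877feac2 : CRef := CRef.mk (Pat.mk 0x80000000180000000a000000000000000000000000 0x2e000000ff0000001b0000001f0000003f0000001c0000001c 9 8) 0 0 (step_sound _ 98 [(rh53b3c253cb0c65f4.shift 0 3), rhe7368c2b0029a122] (by decide +kernel))
noncomputable def rhf889eadc7575626c : CRef := CRef.mk (Pat.mk 0x180000008a000000000000000000000000 0x20000001b000000ff0000007f0000003c0000003c 9 8) 0 0 (step_sound _ 98 [(rh53b3c253cb0c65f4.shift 0 3), rh981f6ab9d6a9d967] (by decide +kernel))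
noncomputable def rh3ebdd0880aebdecf : CRef := CRef.mk (Pat.mk 0x80000000180000000a000000000000000000000000 0x2b000000ff0000001b0000003f0000003f0000001800000018 9 8) 0 0 (step_sound _ 98 [rh0c4e9915c7e26adc, (rh53b3c253cb0c65f4.shift 0 3)] (by decide +kernel))
noncomputable def rhac057c3649b8bb00 : CRef := CRef.mk (Pat.mk 0x3000000114000000100000000000000000 0x180000001e00000034000001de000000fe000000ef00000008 9 9) 0 0 (step_sound _ 67 [(rh878ed7d45cbc8a83.shift 1 0), (rhb90b092708b12638.shift 2 1), (rhbc21ff68c0364fb0.shift 1 1), (rhbf56a814e1b9a1e0.shift 1 1), (rhee89854a5c57fda6.shift 0 1)] (by decide +kernel))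
noncomputable def rh39c5152c7ef1ece7 : CRef := CRef.mk (Pat.mk 0x180000009a000000000000000000000000 0xe0000000f0000001b000000fe0000007f0000000400000004 9 8) 0 0 (step_sound _ 101 [(rh2fe78cc5ca4405d8.shift 3 3), rh819f3515e6c04c26] (by decide +kernel))
noncomputable def rhcfdc7354c1575105 : CRef := CRef.mk (Pat.mk 0x80000000180000001a000000000000000000000000 0x2b000000ff0000001b0000003e0000003f0000003800000038 9 8) 0 0 (step_sound _ 68 [(rh3cb04db3dd2b6a55.shift 3 0), (rh504e55626661b5b1.shift 3 0), (rh9ec33b98ee176bfe.shift 0 2), (rha83b9947c4b91a20.shift 3 0)] (by decide +kernel))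
noncomputable def rh63e46162e7a068ed : CRef := CRef.mk (Pat.mk 0x8000000180000008a00000000 0xc0000000c0000000f0000001b000000ff0000007a 9 8) 0 0 (step_sound _ 34 [(rh53b3c253cb0c65f4.shift 0 1), rhd71de2792a2d0bc0] (by decide +kernel))
noncomputable def rhdbb6ac29c57f6840 : CRef := CRef.mk (Pat.mk 0x8000000180000003e00000000 0xd0000000f0000001f0000001b0000003e00000063 9 7) 0 0 (step_sound _ 131 [(rh2145e1d24b96a57e.shift 3 1), rhe547bf8c118f609e] (by decide +kernel))
noncomputable def rh6d29d1b386289d6a : CRef := CRef.mk (Pat.mk 0x8000000180000000a00000000000000000000000000000000 0x140000001c0000001c0000000c00000018000000180000001f000000180000001c0000001c00000014 9 5) 0 0 (step_sound _ 130 [(rh53b3c253cb0c65f4.shift 0 4), (rhc1bde4cdc2ffef89.shift 2 0)] (by decide +kernel))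
noncomputable def rhc135a6f699b09cdd : CRef := CRef.mk (Pat.mk 0x83000000980000008000000000000000000000000000000000 0x140000005c0000005c0000007e000000ff000000d80000009c0000000c0000001c0000001800000010 9 8) 0 0 (step_sound _ 195 [rh7c86e47e9ccfb3d9, (rhc10214bf3fe8094a.shift 0 5)] (by decide +kernel))
noncomputable def rh4089800d48005743 : CRef := CRef.mk (Pat.mk 0x600000018000000000000000000000000 0x1c0000001c0000007c0000007c0000000f000000180000001c0000001c00000014 9 7) 0 0 (step_sound _ 131 [(rhb739f4f82bb681b4.shift 0 3), (rhb956b4a39abe463e.shift 1 0)] (by decide +kernel))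
noncomputable def rhcf9591f4497d4872 : CRef := CRef.mk (Pat.mk 0x70000001a0000000200000000 0x50000000700000007000000030000000300000007000000070000001b0000000f00000005 9 5) 0 0 (step_sound _ 129 [rh36e6bb6cca6188da, (rh79bf920132cab629.shift 0 1), (rh84b808f2994504a3.shift 0 1)] (by decide +kernel))
noncomputable def rh262517e2c925a6fe : CRef := CRef.mk (Pat.mk 0x380000000000000000 0xe0000000e0000007f0000003e0000000f0000000c 9 7) 0 0 (step_sound _ 66 [(rh4c622fddc53a5f99.shift 0 2), (rh592c7139d2c44767.shift 0 1), (rh9e97bba44c1b13e4.shift 0 1), (rhde26a6daac8b723d.shift 1 0)] (by decide +kernel))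
noncomputable def rh6f80dc870cb2c258 : CRef := CRef.mk (Pat.mk 0x800000018000000100000000000000000 0x1c0000001c0000001e0000001f0000001f0000000f00000004 9 5) 0 0 (step_sound _ 163 [(rh2145e1d24b96a57e.shift 3 2), rha5afaf184286b3cd] (by decide +kernel))
noncomputable def rh7c446e0f53cc8f2c : CRef := CRef.mk (Pat.mk 0x800000018000000100000001800000000 0x170000001f0000001f0000001e0000001c0000000c 9 5) 0 0 (step_sound _ 132 [(rh932754581e0f4330.shift 3 0), rhd496d31260bb594f] (by decide +kernel))
noncomputable def rh777b9bda97f69bab : CRef := CRef.mk (Pat.mk 0x1000000030000001a00000002000000000 0x1c0000001f0000001b0000001be000001fe0000005f 9 9) 0 0 (step_sound _ 133 [(rh36e6bb6cca6188da.shift 4 0), rhc9ef3197110724c2, (rhffecb74827085417.shift 4 1)] (by decide +kernel))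
noncomputable def rh7a1a944dcc203504 : CRef := CRef.mk (Pat.mk 0x80000001800000010000000000000000000000000 0xc0000000c0000001e0000001f0000001f0000000f0000000c0000000c 9 5) 0 0 (step_sound _ 195 [(rh2145e1d24b96a57e.shift 3 3), rhd0590a4d9ce3dbda] (by decide +kernel))
noncomputable def rh916418e5ece13963 : CRef := CRef.mk (Pat.mk 0x2000000030000001a000000000000000000000000000000000 0x20000000280000006f0000003e000001bf000001fe0000007e0000007c00000050 9 9) 0 0 (step_sound _ 101 [(rh186fb1c4b495d047.shift 0 1), (rh36e6bb6cca6188da.shift 4 2), (rh499b5546f16682a4.shift 1 1), (rh89cf5152879421f3.shift 4 0), (rh8cdd36b03d57a2f6.shift 4 1), (rhbaff7ec0fcc038ba.shift 4 0)] (by decide +kernel))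
noncomputable def rh129424e8a899af1d : CRef := CRef.mk (Pat.mk 0x2000000830000001a000000800000000000000000 0x50000003f0000003f0000003f0000007e000000fb0000001b000000fa0000002800000008 9 8) 0 0 (step_sound _ 193 [rh083c4fbc294a24b8, (rh643e326d7e4b3aa0.shift 0 2), (rh68a777751bfeafdf.shift 0 3), (rha77f215723363df0.shift 0 3), (rhc85cc95794737cf7.shift 0 3)] (by decide +kernel))
noncomputable def rhcbf025f0320da715 : CRef := CRef.mk (Pat.mk 0x8000000080000000c0000006c00000000 0x40000000760000007f0000007b0000006f0000006c00000060 9 7) 0 0 (step_sound _ 130 [rh252cc9cf4d079dc5, (rh50fbb5868c909700.shift 2 1)] (by decide +kernel))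
noncomputable def rh49dffc97f3af0245 : CRef := CRef.mk (Pat.mk 0x12000000020000001a00000002 0x21000000370000003f000000160000001a0000001a0000000a 9 6) 0 0 (step_sound _ 130 [(rhbaefcd01e0a8bca3.shift 1 0), rhea51a4c66ea9046a] (by decide +kernel))
noncomputable def rh1b9b6cfe612a1233 : CRef := CRef.mk (Pat.mk 0x10000008b0000009a0000008000000000 0x140000005c0000005c00000079000000fb000000da0000009f0000000e 9 8) 0 0 (step_sound _ 33 [rh7a0e026e0f6b9790, rh7b1f1fb55310c477] (by decide +kernel))
noncomputable def rhe4b4d0c5e09e50dd : CRef := CRef.mk (Pat.mk 0x100000011000000130000001000000000000000000 0x2800000038000000bf000000be000000f7000001f0000001b0000001180000001800000018 9 9) 0 0 (step_sound _ 196 [(rh95124b413261eddd.shift 0 2), (rhb58ac158d9215e49.shift 3 0), (rhba97f7f4ade5e136.shift 3 3), (rhc85cc95794737cf7.shift 3 3)] (by decide +kernel))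
noncomputable def rhc6fe31673e54c5fe : CRef := CRef.mk (Pat.mk 0x1000000112000001320000010200000000 0x500000087000000a7000000f7000001f2000001b30000011f00000015 9 9) 0 0 (step_sound _ 129 [(rh1741680720c097b4.shift 0 1), rh193da7fc9e1674f1, rh3b734c5288922837, (rh4bb722c3bc1e3bed.shift 1 0), rh771d065bdc85bf2d] (by decide +kernel))
noncomputable def rh429d19b7247fe8fb : CRef := CRef.mk (Pat.mk 0x18000000080000000800000000 0x140000001f0000001f0000001f0000000e0000000c00000004 9 5) 0 0 (step_sound _ 131 [(rh1741680720c097b4.shift 2 1), (rh3b734c5288922837.shift 2 0), rh4d36718ad7ef5347, (rh771d065bdc85bf2d.shift 2 0)] (by decide +kernel))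
noncomputable def rh63080b9386eb016f : CRef := CRef.mk (Pat.mk 0x1000000030000001a00000002000000000 0x2000000060000001e0000001f0000001b0000001be000001fe0000001f 9 9) 0 0 (step_sound _ 133 [(rh028809442a7beef4.shift 4 1), rhc9ef3197110724c2, (rhffecb74827085417.shift 4 1)] (by decide +kernel))
noncomputable def rh48ab553543eaa8b0 : CRef := CRef.mk (Pat.mk 0x600000018000000000000000000000000 0x1c0000001c0000007c0000003e0000000f000000180000001c0000001c00000014 9 7) 0 0 (step_sound _ 131 [(rh0577eb307c357d56.shift 1 0), (rhb739f4f82bb681b4.shift 0 3)] (by decide +kernel))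
noncomputable def rh963e0515ffb2a42f : CRef := CRef.mk (Pat.mk 0x418000000d0000004100000000000000000 0x280000017c000001fc000001ff000003ff000007df000000d8000007d00000014000000040 9 11) 0 0 (step_sound _ 164 [(rh1d5410a14414e7d3.shift 1 2), (rh41b74d59d8bd4bab.shift 3 0), (rh7b7b3be4c844f0db.shift 0 2), (rhdf8b9aa233deec1e.shift 1 2)] (by decide +kernel))
noncomputable def rhc2e3b5f24a54749e : CRef := CRef.mk (Pat.mk 0x830000001a000000820000000400000000 0x50000002f0000003f0000003f0000007e000000f30000001b000000fe0000002c00000008 9 8) 0 0 (step_sound _ 161 [rh41b74d59d8bd4bab, (rhd3458b32566d63f7.shift 1 1)] (by decide +kernel))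
noncomputable def rh560b1cef9383d2e2 : CRef := CRef.mk (Pat.mk 0x8e0000001a000000000000000000000000 0xc0000000c0000000c000000fe0000001b0000001f0000000e0000000c 9 8) 0 0 (step_sound _ 132 [rh58a7f2e0d7c947bf, (rheb0810cc63b001d8.shift 0 3)] (by decide +kernel))
noncomputable def rha6114db7e5bf5cce : CRef := CRef.mk (Pat.mk 0x8e0000009a000000800000000000000000 0x5c0000005c0000007c000000fe000000da000000ff0000002e0000000c 9 8) 0 0 (step_sound _ 132 [(rh0f46d994b415db7f.shift 1 1), rh58a7f2e0d7c947bf, (rh95b8e0c093d5ee59.shift 2 0), (rhd2e76835c45d2103.shift 1 0)] (by decide +kernel))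
noncomputable def rhee4228e527646439 : CRef := CRef.mk (Pat.mk 0xa0000001a00000000000000000000000000000000 0x100000001c0000001c0000001f0000007d0000000f0000001b0000001f0000000f0000000300000001 9 7) 0 0 (step_sound _ 195 [(rh44ef475688875815.shift 0 3), (rha3f40822d00edc07.shift 0 3), (rhc79d8e4c006bb434.shift 0 3), rheb8aeeedd9d2df88, (rhfb9fb48a5e63ed80.shift 2 3)] (by decide +kernel))
noncomputable def rh90dbbabb338a2226 : CRef := CRef.mk (Pat.mk 0x9a0000001a000000000000000000000000 0xc0000000c0000000c000000fe0000001b0000001f0000000e0000000c 9 8) 0 0 (step_sound _ 134 [rha0652198e682bc2c, (rhb2a0b9ccfb5cecd5.shift 3 3)] (by decide +kernel))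
noncomputable def rh4d1b6788968d44bb : CRef := CRef.mk (Pat.mk 0x8a0000009a0000008000000000000000000000000000000000 0x140000005c0000005c0000007d000000fb000000db0000009f0000000f0000001f0000001d00000010 9 8) 0 0 (step_sound _ 227 [(rh0fa4a62bba50784f.shift 2 4), rhb426d15b87b4072e, (rhe4915eb2a246efe3.shift 2 2), (rhfb9fb48a5e63ed80.shift 2 4)] (by decide +kernel))
noncomputable def rh18afd6fd44b064e0 : CRef := CRef.mk (Pat.mk 0x20000001a0000008000000000000000000 0x2800000038000000380000003c0000003ef000001fe00000f9f0000028000000080 9 12) 0 0 (step_sound _ 102 [(rh2090acd143595efc.shift 0 2), (rh27c06de0e13c0a9f.shift 5 0), (rha8c69142fea144c6.shift 0 2), (rhc02275ce183c9512.shift 4 0)] (by decide +kernel))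
noncomputable def rhc1e41ac37ef70b3a : CRef := CRef.mk (Pat.mk 0x20000001a000000000 0x7f000001fe0000039f 9 10) 0 0 (step_sound _ 38 [rh2090acd143595efc, (rh3244c3cc8379b070.shift 4 1)] (by decide +kernel))
noncomputable def rh17368494d8bdcb59 : CRef := CRef.mk (Pat.mk 0x20000001a000000000 0x3ff000001fe0000001f 9 10) 0 0 (step_sound _ 38 [(rh3244c3cc8379b070.shift 4 1), rha8c69142fea144c6] (by decide +kernel))
noncomputable def rhae1d59ec0fc7d822 : CRef := CRef.mk (Pat.mk 0x20000001a000000800000000000000000 0x2800000038000000380000003c0000003f0000001e000000f80000002800000008 9 8) 0 0 (step_sound _ 98 [(rh27c06de0e13c0a9f.shift 1 0), (rh3244c3cc8379b070.shift 0 3)] (by decide +kernel))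
noncomputable def rh3c1dabe2d88100ca : CRef := CRef.mk (Pat.mk 0x80000008a0000009a0000008000000000000000000000000000000000 0x74000000f70000007f000000fb000000da000000fc0000002c0000001c0000001800000010 9 8) 0 0 (step_sound _ 228 [(rh35dc1881a8d5c9f8.shift 2 0), (rh4b0c7742c0859820.shift 3 2), (rhd76a1dd02d35d335.shift 0 3), (rhdce01ee5202fb1a6.shift 0 3), (rhec69f48eaf53827f.shift 0 4)] (by decide +kernel))
noncomputable def rhf79878c57ce9baa0 : CRef := CRef.mk (Pat.mk 0x9800000098000000800000000000000000 0x4c0000005f0000007c000000f8000000d80000008c0000000c0000000c 9 8) 0 0 (step_sound _ 134 [rh76ba6b68068b74ec, (rhb2a0b9ccfb5cecd5.shift 3 3)] (by decide +kernel))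
noncomputable def rhd1c7d191b63d8050 : CRef := CRef.mk (Pat.mk 0x1c0000000800000000000000000000000000000000 0x140000001f0000007f0000001c0000000c0000000c0000001c0000001c00000014 9 7) 0 0 (step_sound _ 99 [(rh1b9022be4f7af407.shift 2 0), (rhb1a251d9bff81766.shift 2 2), (rhb35a2851e3aabda7.shift 0 2)] (by decide +kernel))
noncomputable def rhd3806b5a8325d5c4 : CRef := CRef.mk (Pat.mk 0x120000001e000000120000000000000000 0x280000003f0000003f0000001a0000001e0000001e0000000c00000004 9 6) 0 0 (step_sound _ 164 [(rh03dfdf12d5937476.shift 3 1), (rh1741680720c097b4.shift 3 2), rh7654250a92548068] (by decide +kernel))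
noncomputable def rhbc640c4ed00ddd04 : CRef := CRef.mk (Pat.mk 0x124000000340000000000000000000000000000000000000000 0xa0000000e0000000e0000000e000001e6000000360000007e0000001f0000001e0000000e0000000a 9 9) 0 0 (step_sound _ 198 [(rh361cc68994bd8a63.shift 4 5), rhdeee2289b213cb4f] (by decide +kernel))
noncomputable def rhe028dda05b456f2a : CRef := CRef.mk (Pat.mk 0x24000000260000002000000000 0xa0000000e0000001e0000001f0000001e0000003e000000360000003c00000008 9 6) 0 0 (step_sound _ 100 [rha6ea904a9a91c3d4, (rhb2a0b9ccfb5cecd5.shift 1 2)] (by decide +kernel))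
noncomputable def rhe9fbb49d585fa5f9 : CRef := CRef.mk (Pat.mk 0x20000001a0000000000000000000000000 0x5000000070000001700000036f000001fe000003ff000000e0000000c0 9 10) 0 0 (step_sound _ 102 [(rh2090acd143595efc.shift 0 2), (rh2aeeb47b5d617fd1.shift 4 0), (rhc02275ce183c9512.shift 4 0)] (by decide +kernel))
noncomputable def rh39a5f9b23db30fdb : CRef := CRef.mk (Pat.mk 0x800000008000000080000000800000000 0x140000001c0000000c0000003f0000003f00000017 9 6) 0 0 (step_sound _ 34 [rh783aff09e1185792, (rh932754581e0f4330.shift 2 0)] (by decide +kernel))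
noncomputable def rh6166e12b4845748b : CRef := CRef.mk (Pat.mk 0x1e000000180000000000000000 0xc0000000e0000003f0000001e0000001c0000000f0000000e 9 6) 0 0 (step_sound _ 132 [(rh33e738c4ed385b9f.shift 1 3), rhd8d24875a5d3ecce] (by decide +kernel))
noncomputable def rh25813bbc698a70ee : CRef := CRef.mk (Pat.mk 0x8a000000980000008000000000000000000000000000000000 0x140000005c0000005c00000078000000ff000000dc0000009c0000000c0000001c0000001800000010 9 8) 0 0 (step_sound _ 194 [(rhb739f4f82bb681b4.shift 0 5), (rhbaa25b66256485bd.shift 1 0)] (by decide +kernel))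
noncomputable def rh53e8740f4ae901e6 : CRef := CRef.mk (Pat.mk 0x80000001c000000300000000000000000 0x3c0000007c0000001f0000007c000000380000002800000008 9 7) 0 0 (step_sound _ 163 [(rh2145e1d24b96a57e.shift 3 2), rhc8dec50e0cd75297] (by decide +kernel))
noncomputable def rh86ab566745c2369d : CRef := CRef.mk (Pat.mk 0x1000000038000000600000000000000000 0x20000000680000003e000000f8000000700000007c0000003f 9 8) 0 0 (step_sound _ 37 [rh24fc04875b06e2fd, (rh7b1f1fb55310c477.shift 4 0)] (by decide +kernel))
noncomputable def rh11f8b7d1d12c8ca9 : CRef := CRef.mk (Pat.mk 0x4e0000000c00000000 0x1e0000001f0000003b0000007e0000000c00000008 9 7) 0 0 (step_sound _ 68 [(rh361cc68994bd8a63.shift 2 1), rh3c0c3c20ca9414e9] (by decide +kernel))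
noncomputable def rh58a978bb1f360635 : CRef := CRef.mk (Pat.mk 0xe00000018000000000000000000000000 0x180000001e0000007e0000003f0000000e0000001c0000001e0000000e00000006 9 7) 0 0 (step_sound _ 162 [rh4c53c474d2e58faf, (rh8c1a98e729d81bdd.shift 1 1), (rha40d42a2e34c408d.shift 2 1), (rhc38f566cab2818e5.shift 2 1)] (by decide +kernel))
noncomputable def rhe919283ada59ae52 : CRef := CRef.mk (Pat.mk 0x100000001a000000180000000000000000 0xc0000000e0000003f0000001e0000001c0000000f0000000e 9 6) 0 0 (step_sound _ 98 [(rh33e738c4ed385b9f.shift 1 3), rhd8d24875a5d3ecce] (by decide +kernel))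
noncomputable def rh22562c41f0e2b7e4 : CRef := CRef.mk (Pat.mk 0x80000008a000000980000008000000000000000000000000000000000 0x70000000f70000007f000000fb000000d8000000fc0000002c0000001c0000001800000010 9 8) 0 0 (step_sound _ 228 [(rh20f3be0843e6c4b5.shift 0 4), (rh35dc1881a8d5c9f8.shift 2 0), (rhd76a1dd02d35d335.shift 0 3), (rhdce01ee5202fb1a6.shift 0 3)] (by decide +kernel))
noncomputable def rh295ad7da4ff96e5a : CRef := CRef.mk (Pat.mk 0x120000001a00000080000000000000000000000000 0x50000003f0000003f0000001e0000001b000000ff0000002f0000000f00000005 9 8) 0 0 (step_sound _ 99 [rh4108ff370a0a5cdb, (rh53feca7c44f9343a.shift 1 2), (rhcf80391c5046a495.shift 3 1), (rhf9366b6a121593ef.shift 3 1)] (by decide +kernel))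
noncomputable def rhf374e772a63bd170 : CRef := CRef.mk (Pat.mk 0x320000001a000000800000000000000000 0x2800000038000000380000003c00000034000000360000003e0000001b000000ff0000002a00000008 9 8) 0 0 (step_sound _ 164 [(rh281c6819542c66e6.shift 3 0), (rh36c03d3cdd239787.shift 3 1), (rhc55e460ae4e03932.shift 0 1), (rhfafeb437ceb8396d.shift 3 0)] (by decide +kernel))
noncomputable def rh9515dfafda03aa8f : CRef := CRef.mk (Pat.mk 0x2000000920000001a000000000000000000000000 0x4000000070000000f0000000f0000000f000000fe0000001b0000001d0000000c0000000c 9 8) 0 0 (step_sound _ 134 [rh1dedb4f12e9eeb90, (rhb2a0b9ccfb5cecd5.shift 3 3)] (by decide +kernel))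
noncomputable def rhc70d6ac6cf6b8c39 : CRef := CRef.mk (Pat.mk 0x2000000020000001a00000000000000000000000000000000 0x50000000700000007000000020000001b0000000f000000070000000700000001 9 5) 0 0 (step_sound _ 97 [(rh1741680720c097b4.shift 0 3), (rh771d065bdc85bf2d.shift 0 2), rh973cc6b6ab09634c, (rhd630af2e39ca770f.shift 0 2)] (by decide +kernel))
noncomputable def rh60ce6a5e494fd168 : CRef := CRef.mk (Pat.mk 0x1200000018000000800000000000000000 0xc0000003c0000003f0000001e0000001f000000fe0000002c0000000c 9 8) 0 0 (step_sound _ 67 [(rh53feca7c44f9343a.shift 1 1), rh56eecca7f6b0c43a, (rhcf80391c5046a495.shift 3 0), (rhf9366b6a121593ef.shift 3 0)] (by decide +kernel))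
noncomputable def rha6d11962485cf589 : CRef := CRef.mk (Pat.mk 0x9e00000018000000000000000000000000 0x80000001c0000001c000000fe0000001b0000001f0000000e00000008 9 8) 0 0 (step_sound _ 134 [rh7a43381dba1590f7, (rhb2a0b9ccfb5cecd5.shift 3 3)] (by decide +kernel))
noncomputable def rh1f9063794c5da279 : CRef := CRef.mk (Pat.mk 0x3e00000018000000000000000000000000 0x140000001c0000001c0000006c0000003e0000001b0000001f0000000e0000000c 9 7) 0 0 (step_sound _ 67 [(rh40241bd608e5be1a.shift 2 0), (rh4f4c4c1027c971e0.shift 2 0), (rh57d9bed7ae8c7094.shift 0 1), (rh9954101f0efffb9e.shift 2 0)] (by decide +kernel))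
noncomputable def rh2d173763316c0cdd : CRef := CRef.mk (Pat.mk 0x8e000000180000000000000000 0xc0000000c0000007f000000fe0000001b0000001f0000000b 9 8) 0 0 (step_sound _ 100 [(rh1134327336d3a48e.shift 1 0), (rh21460d2d48a35cb8.shift 0 1), (rh361215bab1155e5e.shift 1 2), rhcb32fe4b3fce5ae8] (by decide +kernel))
noncomputable def rh248f9f3b9dfebb81 : CRef := CRef.mk (Pat.mk 0x80000001c0000003000000000 0x20000002a0000007f0000001f0000007c0000003600000024 9 7) 0 0 (step_sound _ 131 [(rh2145e1d24b96a57e.shift 3 1), rhf28a14c2e5e134ae] (by decide +kernel))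
noncomputable def rh2f738bc5a06b636b : CRef := CRef.mk (Pat.mk 0x40000008e000000180000000000000000 0x8000000080000000f000000fe0000001b0000001f0000000f 9 8) 0 0 (step_sound _ 35 [rh58588d2c08b23777, (rh7b1f1fb55310c477.shift 2 0)] (by decide +kernel))
noncomputable def rh5e9b930f9f3e65bd : CRef := CRef.mk (Pat.mk 0xa000000180000008000000000 0x1c0000001c0000003f0000001f0000001b000000ff0000002e 9 8) 0 0 (step_sound _ 98 [(rhb739f4f82bb681b4.shift 0 2), rhfe9fb0321c9c9aba] (by decide +kernel))
noncomputable def rhd539ad32833f473f : CRef := CRef.mk (Pat.mk 0x8a0000001800000000 0x3c0000003c0000007f000000ff0000001b00000002 9 8) 0 0 (step_sound _ 66 [(rhb739f4f82bb681b4.shift 0 1), rhc1a8146a78b821c1] (by decide +kernel))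
noncomputable def rhd00648646a540a59 : CRef := CRef.mk (Pat.mk 0xa000000180000008000000000 0x18000000180000003f0000003f0000001b000000ff0000002b 9 8) 0 0 (step_sound _ 98 [rh60d964a4edf69137, (rhb739f4f82bb681b4.shift 0 2)] (by decide +kernel))
noncomputable def rhee1ced0b6235da1e : CRef := CRef.mk (Pat.mk 0x1000000114000000300000000000000000 0x8000000ef000000fe000001de000000340000001e00000018 9 9) 0 0 (step_sound _ 131 [(rh2a46b8f69c8bdaef.shift 1 1), rh3d7ccf763c87fe22, (rh5866ce709cbed5cc.shift 2 0), (rh697471ba25650f84.shift 1 0), (rh6a91e9e3f4b68683.shift 1 3)] (by decide +kernel))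
noncomputable def rh1ce77944fa708344 : CRef := CRef.mk (Pat.mk 0x9a000000180000000000000000 0x4000000040000007f000000fe0000001b0000000f0000000e 9 8) 0 0 (step_sound _ 101 [(rh361cc68994bd8a63.shift 3 2), rhdd4de6ea0429dffa] (by decide +kernel))
noncomputable def rh22872bc44033e90b : CRef := CRef.mk (Pat.mk 0x1a000000180000008000000000 0x38000000380000003f0000003e0000001b000000ff0000002b 9 8) 0 0 (step_sound _ 132 [rh355433a973311398, (rh503dd4575245365b.shift 3 1), (rh52a14b35399e424a.shift 3 0), (rhd9a6eb52cc5f3a98.shift 3 0)] (by decide +kernel))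
noncomputable def rh7a64529f3b60060a : CRef := CRef.mk (Pat.mk 0x8a00000018000000080000000000000000 0x7a000000ff0000001b0000000f0000000c0000000c 9 8) 0 0 (step_sound _ 130 [rh13ebc97a1de32a29, (rhb739f4f82bb681b4.shift 0 3)] (by decide +kernel))
noncomputable def rh32009619bea38dae : CRef := CRef.mk (Pat.mk 0x3e00000018000000080000000000000000 0x630000003e0000001b0000001f0000000f0000000d 9 7) 0 0 (step_sound _ 35 [(rh71222050f2c63a3a.shift 3 0), rhf4700f76dad429e3] (by decide +kernel))
noncomputable def rh589a2c522c8a1b94 : CRef := CRef.mk (Pat.mk 0xa000000180000000800000000000000000000000000000000 0x140000001c0000001c000000180000001f00000018000000180000000c0000001c0000001c00000014 9 5) 0 0 (step_sound _ 194 [(rh0a4bd2056e862232.shift 2 0), (rhb739f4f82bb681b4.shift 0 5)] (by decide +kernel))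
noncomputable def rhb592d46129d82bbc : CRef := CRef.mk (Pat.mk 0x80000001800000090000000000000000000000000 0x20000000f0000001e000000fe0000007e0000007600000020 9 8) 0 0 (step_sound _ 101 [rh10ee1f19a84f84f6, (rh2fe78cc5ca4405d8.shift 3 3)] (by decide +kernel))
noncomputable def rh36c70346be031542 : CRef := CRef.mk (Pat.mk 0x880000001800000080000000000000000000000000 0x300000003c0000007f000000ff0000001f000000f8000000380000003800000028 9 8) 0 0 (step_sound _ 100 [(rh0a4dcf51a719c563.shift 1 0), (rh711cedfac771e4e0.shift 3 1), (rh7c8e909822b6c34c.shift 0 2), (rhc38f566cab2818e5.shift 3 1)] (by decide +kernel))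
noncomputable def rhc4470d30197fee4c : CRef := CRef.mk (Pat.mk 0x8000000180000001800000030000000000000000000000000 0x40000000f0000001f0000001f0000003e0000000f0000000c0000000c 9 6) 0 0 (step_sound _ 99 [(rh41eb4a13b78c152f.shift 0 1), (rh611a1f5575a908b7.shift 0 2), (rh674dd4f5f6cca5c0.shift 2 1), rh7796ea604357f216, (rha9a9dd876407ae9a.shift 2 0)] (by decide +kernel))
noncomputable def rh5387d96437f41030 : CRef := CRef.mk (Pat.mk 0x3800000018000000000000000000000000 0xc0000000c0000000f0000003f0000001f000000060000000600000006 9 6) 0 0 (step_sound _ 130 [(rh4592e78c73a42485.shift 1 0), (rh71f2db6f0f8252e9.shift 0 3), (rhb14e2588a8d71db8.shift 0 3)] (by decide +kernel))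
noncomputable def rhb2fa4486e6508c55 : CRef := CRef.mk (Pat.mk 0x800000008000000080000003800000000 0x50000000f0000001f0000000f0000003e00000007 9 6) 0 0 (step_sound _ 34 [(rh932754581e0f4330.shift 2 0), rhf7bcff3564451e2f] (by decide +kernel))
noncomputable def rhbcd1b0f199fc2c2e : CRef := CRef.mk (Pat.mk 0x800000008000000080000003800000000 0x140000001f0000000f0000000f0000003e00000007 9 6) 0 0 (step_sound _ 34 [rh428a7f48a5d50791, (rh932754581e0f4330.shift 2 0)] (by decide +kernel))
noncomputable def rh29186bc5a50e601a : CRef := CRef.mk (Pat.mk 0x4c0000004c0000004000000000 0x3e0000007f0000003e0000007c0000006e0000004600000006 9 7) 0 0 (step_sound _ 101 [rhb0b851c6b984b28e, (rhb2a0b9ccfb5cecd5.shift 2 2)] (by decide +kernel))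
noncomputable def rhb55f7c2655039b7a : CRef := CRef.mk (Pat.mk 0x1000000098000000180000000000000000 0xc000000ec0000007f000000df0000001c0000000c0000000c 9 8) 0 0 (step_sound _ 35 [rh30f117cd82bf52cf, (rh71222050f2c63a3a.shift 3 0)] (by decide +kernel))
noncomputable def rh1a1b1d08e2f9ab48 : CRef := CRef.mk (Pat.mk 0x98000000180000000000000000 0x3c0000007e0000007f000000ff000000180000000800000008 9 8) 0 0 (step_sound _ 101 [rh22d3cf2aa79e6c48, (rh361cc68994bd8a63.shift 3 2)] (by decide +kernel))
noncomputable def rh7d74a97389bd5075 : CRef := CRef.mk (Pat.mk 0x380000001c0000000000000000 0x28000000780000007f0000003f0000001c0000000c00000008 9 7) 0 0 (step_sound _ 98 [(rh71f2db6f0f8252e9.shift 0 2), (rh73fb042208b2237d.shift 1 0), (rhe25191970535449e.shift 0 2)] (by decide +kernel))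
noncomputable def rhe9b87f9b1b1854d2 : CRef := CRef.mk (Pat.mk 0x80000004c0000000c00000000 0x1e0000001f0000003c0000007c0000000f00000002 9 7) 0 0 (step_sound _ 68 [(rh361cc68994bd8a63.shift 2 1), rh4943581eb3cf81b7] (by decide +kernel))
noncomputable def rh0747161ff270e90c : CRef := CRef.mk (Pat.mk 0x8800000018000000800000000000000000 0x320000003600000077000000ff0000001f000000fc0000003c00000018 9 8) 0 0 (step_sound _ 132 [(rh4be75cdc953be108.shift 3 0), (rh660cd9f78cd2785f.shift 0 1), (rhed22d6b9375844d9.shift 0 1)] (by decide +kernel))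
noncomputable def rh7648322444f5b069 : CRef := CRef.mk (Pat.mk 0x440000000c000000000000000000000000 0x7e0000003e0000007f0000000c0000000f0000003e0000001e 9 7) 0 0 (step_sound _ 67 [rh20cc24a8b18ca0fd, (rha40d42a2e34c408d.shift 2 0), (rhc38f566cab2818e5.shift 2 0), rhdb979701e2373415] (by decide +kernel))
noncomputable def rh5554349e0f397d88 : CRef := CRef.mk (Pat.mk 0x90000000180000000800000000 0x20000000760000007e000000fe0000001e0000000f00000002 9 8) 0 0 (step_sound _ 101 [(rh361cc68994bd8a63.shift 3 2), rh74d9a5726fbc5dbd] (by decide +kernel))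
noncomputable def rh7c63d9b27f9c8774 : CRef := CRef.mk (Pat.mk 0x800000001800000088000000000000000000000000 0x280000003800000038000000f80000001f000000ff0000007f0000003c00000030 9 8) 0 0 (step_sound _ 164 [(rh2e1c90998a150258.shift 1 0), (rhaeb1cd3494b49c26.shift 0 1), (rhdc3d9be1e8b9b02a.shift 3 0), (rhf9366b6a121593ef.shift 3 1)] (by decide +kernel))
noncomputable def rh7a5f36f9adf7ce43 : CRef := CRef.mk (Pat.mk 0x3000000018000000180000000800000000 0xc0000000c0000000f0000003e0000001f0000001f0000000f00000004 9 6) 0 0 (step_sound _ 131 [(rh0ef6c71ce89c1c36.shift 2 0), rh29cf9c503135e1c1, (rh5346ef108eeef606.shift 0 1), (rhbd1553ade3ecbf42.shift 2 0), (rhdfed4ebb0eb54f43.shift 0 2)] (by decide +kernel))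
noncomputable def rhaaf3dac907d404b5 : CRef := CRef.mk (Pat.mk 0x1800000038000000000000000000000000 0x600000006000000060000001f0000003f0000000f0000000c0000000c 9 6) 0 0 (step_sound _ 98 [(rh0e1512cbacfbd48b.shift 0 2), (rhbe5fc5902345a0b9.shift 0 3), (rhc359ae14cfe16595.shift 1 0)] (by decide +kernel))
noncomputable def rhf95a219af4cadbb1 : CRef := CRef.mk (Pat.mk 0x3800000008000000080000000800000000 0x70000003e0000000f0000001f0000000f00000005 9 6) 0 0 (step_sound _ 130 [(rh50fbb5868c909700.shift 2 1), rhb3df527f2868ef84] (by decide +kernel))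
noncomputable def rhbe7d0ce69869dbdb : CRef := CRef.mk (Pat.mk 0x3800000008000000080000000800000000 0x70000003e0000000f0000000f0000001f00000014 9 6) 0 0 (step_sound _ 130 [(rh50fbb5868c909700.shift 2 1), rhf78195abbf864a13] (by decide +kernel))
noncomputable def rhea3002d889ce19cc : CRef := CRef.mk (Pat.mk 0x400000004c0000004c000000000000000000000000 0x6000000460000006e0000007c0000003e0000007f0000003e 9 7) 0 0 (step_sound _ 101 [rh36b5d6eb1f885a58, (rh5419adcd928dba20.shift 2 3)] (by decide +kernel))
noncomputable def rhe1c372636a1a114b : CRef := CRef.mk (Pat.mk 0x1800000098000000100000000000000000 0xc0000000c0000001c000000df0000007f000000ec0000000c 9 8) 0 0 (step_sound _ 163 [(rh2145e1d24b96a57e.shift 3 2), rhc27d991eb67e9a5f] (by decide +kernel))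
noncomputable def rh02cd6cea254fdbd3 : CRef := CRef.mk (Pat.mk 0x1800000098000000000000000000000000 0x80000000800000018000000ff0000007f0000007e0000003c 9 8) 0 0 (step_sound _ 101 [(rh2fe78cc5ca4405d8.shift 3 3), rh591a9c4308c2af44] (by decide +kernel))
noncomputable def rh00b3b694dc079418 : CRef := CRef.mk (Pat.mk 0x1c00000038000000000000000000000000 0x80000000c0000001c0000003f0000007f0000007800000028 9 7) 0 0 (step_sound _ 98 [(rh0b65c1bc69af3667.shift 1 0), (rh0e1512cbacfbd48b.shift 0 2), (rhe153806bfe3acc65.shift 0 2)] (by decide +kernel))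
noncomputable def rhcfdb7946090de03f : CRef := CRef.mk (Pat.mk 0xc0000004c000000080000000000000000 0x20000000f0000007c0000003c0000001f0000001e 9 7) 0 0 (step_sound _ 100 [(rh2fe78cc5ca4405d8.shift 2 3), rhee4940ee514b36e2] (by decide +kernel))
noncomputable def rhef689b81a79c1652 : CRef := CRef.mk (Pat.mk 0x800000001800000088000000000000000000000000 0x180000003c000000fc0000001f000000ff000000770000003600000032 9 8) 0 0 (step_sound _ 100 [rh71d6d170ad989b3f, (rha2235b38e25e7461.shift 0 1), (rhb03350adae46e966.shift 3 0)] (by decide +kernel))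
noncomputable def rh5ccf062bf7389888 : CRef := CRef.mk (Pat.mk 0xc000000440000000000000000 0x1e0000003e0000000f0000000c0000007f0000003e0000007e 9 7) 0 0 (step_sound _ 131 [(rh6da45e36b67121b0.shift 0 1), (rhadf429772c25fde0.shift 2 0), rhb67af93cbf170b29, (rhf9366b6a121593ef.shift 2 0)] (by decide +kernel))
noncomputable def rhb7158fca0e3963ac : CRef := CRef.mk (Pat.mk 0x800000001800000088000000000000000000000000 0x8000000380000003c000000ff0000001f000000ff0000001f0000001c00000004 9 8) 0 0 (step_sound _ 164 [(rh54e490846bf0bb2e.shift 0 1), rh7efdaf8c01a507fa, (rh9cdee070315fb032.shift 3 2), (rhcf80391c5046a495.shift 3 1), (rhf9366b6a121593ef.shift 3 1)] (by decide +kernel))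
noncomputable def rh7e41f218fbdebcec : CRef := CRef.mk (Pat.mk 0x800000001800000088000000000000000000000000 0x380000007c000000ff0000001f000000fc000000780000003800000010 9 8) 0 0 (step_sound _ 164 [rh03cffd233922a240, (rh37235d0a647eab3b.shift 3 2), (rh6610a29b67230cd4.shift 1 2), (rh6da45e36b67121b0.shift 1 2), (rhf9366b6a121593ef.shift 3 1)] (by decide +kernel))
noncomputable def rh6863421a6347e34a : CRef := CRef.mk (Pat.mk 0xc0000004c000000080000000000000000 0x20000000f0000007c0000003c0000001f0000001e 9 7) 0 0 (step_sound _ 100 [(rh2fe78cc5ca4405d8.shift 2 3), rhc47a1980b9430a5c] (by decide +kernel))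
noncomputable def rh62530a3de3213b77 : CRef := CRef.mk (Pat.mk 0x900000009800000088000000000000000000000000 0x80000000800000008000000f8000000d8000000fe0000007f000000fc00000040 9 8) 0 0 (step_sound _ 67 [(rh71222050f2c63a3a.shift 3 1), rhc2ec70993dfb9cdc] (by decide +kernel))
noncomputable def rh5fb83811badd6a97 : CRef := CRef.mk (Pat.mk 0x900000009800000088000000000000000000000000 0xc000000ff000000df000000f80000007f0000005c00000040 9 8) 0 0 (step_sound _ 165 [(rh361cc68994bd8a63.shift 3 4), rh9a3541bf6862d5d7] (by decide +kernel))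
noncomputable def rh1900c1bad7e860ae : CRef := CRef.mk (Pat.mk 0x80000000800000008000000000000000000000000 0x40000000c0000000c0000003f0000003f0000001f00000014 9 6) 0 0 (step_sound _ 67 [(rh8cdd36b03d57a2f6.shift 2 0), (rh8ff3dde5b1c639e0.shift 2 0), (rhc4526fc8abf298b6.shift 2 0), (rhc8c8ca90955b904b.shift 0 1)] (by decide +kernel))
noncomputable def rh54d942dff9d7212f : CRef := CRef.mk (Pat.mk 0x800000001800000088000000000000000000000000 0x380000007c000000fc0000001f000000ff000000770000003e0000003e 9 8) 0 0 (step_sound _ 100 [rh02dfd75c8a5012b1, (rh7537a81f5988a61a.shift 1 0), rh9e141fa6bc2add05] (by decide +kernel))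
noncomputable def rhce77f04e8c57a3b7 : CRef := CRef.mk (Pat.mk 0x1800000098000000000000000000000000 0x200000006000000170000001f000000ff0000000f0000000e0000000e 9 8) 0 0 (step_sound _ 101 [(rh2fe78cc5ca4405d8.shift 3 3), rh487ac70e945fbb83] (by decide +kernel))
noncomputable def rh9d2cfa1582ad8925 : CRef := CRef.mk (Pat.mk 0xc0000001e000000000000000000000000 0x20000000e0000001e0000003f0000003f0000001f 9 6) 0 0 (step_sound _ 65 [rh1f0969eec54b4e70, (rheb0810cc63b001d8.shift 0 2)] (by decide +kernel))
noncomputable def rhf2f81dfa57cd0cf9 : CRef := CRef.mk (Pat.mk 0x1800000038000000000000000000000000 0x40000001e0000003f0000007f0000000e0000000e 9 7) 0 0 (step_sound _ 130 [(rhb739f4f82bb681b4.shift 1 3), rhdc7c98cd5cfac196] (by decide +kernel))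
noncomputable def rhdd9a547a943ea3e1 : CRef := CRef.mk (Pat.mk 0x800000001800000088000000000000000000000000 0x3800000078000000f80000001f000000ff0000003f0000003c00000034 9 8) 0 0 (step_sound _ 164 [(rh37235d0a647eab3b.shift 3 2), (rh9cdee070315fb032.shift 3 2), rhe2ec7081a4bdc2db, (rhf9366b6a121593ef.shift 3 1)] (by decide +kernel))
noncomputable def rha5e0c2f6ce1ec477 : CRef := CRef.mk (Pat.mk 0x1800000038000000100000000000000000 0xe0000000f0000001e0000003f0000007c0000000f0000000c 9 7) 0 0 (step_sound _ 130 [rh4fcd0b14004f93a2, (rhb739f4f82bb681b4.shift 1 3)] (by decide +kernel))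
noncomputable def rhe6ce55b9acb097d9 : CRef := CRef.mk (Pat.mk 0x80000001800000018000000000000000000000000 0x40000000c0000001c0000001e0000007f0000001f0000000c 9 7) 0 0 (step_sound _ 68 [rh684846c5c340ef35, (rh7b1f1fb55310c477.shift 3 1)] (by decide +kernel))
noncomputable def rhfa427a3b7d428523 : CRef := CRef.mk (Pat.mk 0x1800000098000000000000000000000000 0x800000018000000ff0000007f0000007600000034 9 8) 0 0 (step_sound _ 101 [(rh2fe78cc5ca4405d8.shift 3 3), rh99d129008fb4e62f] (by decide +kernel))
noncomputable def rhb9d85aad953dd529 : CRef := CRef.mk (Pat.mk 0xc0000004c000000080000000000000000 0x20000000f0000007c0000001f0000007c0000001c 9 7) 0 0 (step_sound _ 100 [(rh2fe78cc5ca4405d8.shift 2 3), rhd11067a17957b0c8] (by decide +kernel))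
noncomputable def rh414372eb8e119cbd : CRef := CRef.mk (Pat.mk 0x1c00000038000000000000000000000000 0xc0000000c0000001c0000003f0000007f0000007a0000002a 9 7) 0 0 (step_sound _ 98 [(rh0b65c1bc69af3667.shift 1 0), rh8f7039354bfc4ec2, (rha8bcb4927b3d3cd5.shift 0 1)] (by decide +kernel))
noncomputable def rh3789af4ae0b870ea : CRef := CRef.mk (Pat.mk 0x880000001800000080000000000000000000000000 0x40000001c0000001f000000ff0000001f000000ff0000003c0000003800000008 9 8) 0 0 (step_sound _ 100 [(rh3d8c7972416e2e7f.shift 0 1), (rh7e1098702e50f2b0.shift 3 1), (rhc2c7bae8f445c890.shift 3 1), (rhc38f566cab2818e5.shift 3 1), rhcb58c19703886190] (by decide +kernel))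
noncomputable def rhf13d332344ab0207 : CRef := CRef.mk (Pat.mk 0x8800000018000000800000000000000000 0x100000003800000078000000fc0000001f000000ff0000007c00000038 9 8) 0 0 (step_sound _ 68 [(rh64d0dfaf00c250e1.shift 0 1), (rh83aef45cdbd4f3ab.shift 1 0), (rh990fd10f5c71e5ea.shift 3 0), (rhc38f566cab2818e5.shift 3 0), (rhdb979701e2373415.shift 1 0)] (by decide +kernel))
noncomputable def rh802f2cf61dd9852b : CRef := CRef.mk (Pat.mk 0x80000004c0000000c00000000 0x1e0000001f0000003c0000007c0000000f00000002 9 7) 0 0 (step_sound _ 68 [rh1699e3c8b5729242, (rh361cc68994bd8a63.shift 2 1)] (by decide +kernel))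
noncomputable def rhd0ffd2bde57e6e1f : CRef := CRef.mk (Pat.mk 0x880000009800000090000000000000000000000000 0x40000000fc0000007f000000fe000000d8000000f8000000080000000800000008 9 8) 0 0 (step_sound _ 195 [rh10db1c845cdc7a32, (rh2145e1d24b96a57e.shift 3 3)] (by decide +kernel))
noncomputable def rh8b475b508608ef07 : CRef := CRef.mk (Pat.mk 0x88000000980000009000000000 0x400000005c0000007f000000f8000000df000000ff0000000c 9 8) 0 0 (step_sound _ 37 [rh10b761850c4552e9, (rh2fe78cc5ca4405d8.shift 3 1)] (by decide +kernel))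
noncomputable def rh8162256afb8560d3 : CRef := CRef.mk (Pat.mk 0x8800000018000000800000000000000000 0x3e0000003e00000077000000ff0000001f000000fc0000007c00000038 9 8) 0 0 (step_sound _ 132 [(rh05e09c21a928b9af.shift 1 0), (rh26ffcb37093465b4.shift 0 2), (rh8aeee0238399e329.shift 0 1)] (by decide +kernel))
noncomputable def rhe94e00874dbf5347 : CRef := CRef.mk (Pat.mk 0x9800000018000000000000000000000000 0xe0000000e0000000f000000ff0000001f000000170000000600000002 9 8) 0 0 (step_sound _ 133 [(rh361cc68994bd8a63.shift 3 3), rhcde6ea049e762803] (by decide +kernel))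
noncomputable def rh46cdcd508882dcca : CRef := CRef.mk (Pat.mk 0x1e0000000c00000000 0x1f0000003f0000003f0000001e0000000e00000002 9 6) 0 0 (step_sound _ 97 [rh2205e9378575dfbc, (rh3244c3cc8379b070.shift 0 2)] (by decide +kernel))
noncomputable def rh665881483872f49d : CRef := CRef.mk (Pat.mk 0x380000001800000000 0xe0000000e0000007f0000003f0000001e00000004 9 7) 0 0 (step_sound _ 34 [(rh53b3c253cb0c65f4.shift 1 1), rhff8b7ea87144b8a4] (by decide +kernel))
noncomputable def rhb21f14f49386d335 : CRef := CRef.mk (Pat.mk 0x8800000018000000800000000000000000 0x340000003c0000003f000000ff0000001f000000f80000007800000038 9 8) 0 0 (step_sound _ 68 [(rh7e1098702e50f2b0.shift 3 0), (rh990fd10f5c71e5ea.shift 3 0), (rhc38f566cab2818e5.shift 3 0), (rhc41352f5c78d4ab1.shift 0 1)] (by decide +kernel))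
noncomputable def rha693c6881fea7b59 : CRef := CRef.mk (Pat.mk 0x1000000038000000180000000000000000 0xc0000000f0000007c0000003f0000001e0000000f0000000e 9 7) 0 0 (step_sound _ 66 [(rh53b3c253cb0c65f4.shift 1 2), rh67c272ba3f375a34] (by decide +kernel))
noncomputable def rh8e77edae91edbe13 : CRef := CRef.mk (Pat.mk 0x18000000180000000800000000 0xc0000001f0000007f0000001e0000001c0000000c00000004 9 7) 0 0 (step_sound _ 132 [(rh5c5e593799055d58.shift 3 1), rhe1599bc1598d0fee] (by decide +kernel))
noncomputable def rh61142f598d4e551e : CRef := CRef.mk (Pat.mk 0x980000001800000000 0x34000000760000007f000000ff0000001800000008 9 8) 0 0 (step_sound _ 69 [(rh361cc68994bd8a63.shift 3 1), rh6337f5b6ce16b4e1] (by decide +kernel))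
noncomputable def rh1d01428565a91be3 : CRef := CRef.mk (Pat.mk 0x80000004c0000000c00000000 0x1c0000007c0000001f0000007c0000000f00000002 9 7) 0 0 (step_sound _ 68 [(rh361cc68994bd8a63.shift 2 1), rh47fabe710f059c1c] (by decide +kernel))
noncomputable def rh68fbc6e72d8657e9 : CRef := CRef.mk (Pat.mk 0x380000001c0000000000000000 0x2a0000007a0000007f0000003f0000001c0000000c0000000c 9 7) 0 0 (step_sound _ 98 [(rh73fb042208b2237d.shift 1 0), rh8d364617c03d6975, rhaed54c24fb91f24a] (by decide +kernel))
noncomputable def rhf6a3776b7cfca2ba : CRef := CRef.mk (Pat.mk 0x4c0000004c000000400000000000000000 0x3e0000007e0000003f0000007c0000006c0000004c0000000c00000004 9 7) 0 0 (step_sound _ 133 [rh7aa534f9a8417559, (rhb2a0b9ccfb5cecd5.shift 2 3)] (by decide +kernel))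
noncomputable def rhd6462a555c5a1f5d : CRef := CRef.mk (Pat.mk 0x4c0000000c000000000000000000000000 0x1c0000001c0000003c0000007f0000000f000000180000001800000018 9 7) 0 0 (step_sound _ 132 [(rh361cc68994bd8a63.shift 2 3), rh6a5680a7ab1df68f] (by decide +kernel))
noncomputable def rhbefa170d204f187d : CRef := CRef.mk (Pat.mk 0x8000000180000001800000008000000000000000000000000 0x10000000180000001c0000001f0000003f000000170000000200000002 9 6) 0 0 (step_sound _ 196 [rh23164e599a95be23, (rh5c5e593799055d58.shift 3 3)] (by decide +kernel))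
noncomputable def rhd625ba0c46031fe9 : CRef := CRef.mk (Pat.mk 0x380000001c0000000000000000 0x20000000380000007f0000003f0000001c0000000f0000000e 9 7) 0 0 (step_sound _ 98 [(rhba89ab7cb81bcc90.shift 0 2), rhd82f6fd6847c3c5b, (rhe25191970535449e.shift 0 2)] (by decide +kernel))
noncomputable def rh418fc2c151112ccd : CRef := CRef.mk (Pat.mk 0x3800000018000000000000000000000000 0x80000002f0000003f0000001f0000003f0000007f0000003c 9 7) 0 0 (step_sound _ 68 [(rh21209c823c891eb5.shift 0 1), rhabcad4f99cf46847, (rhb0c1e7919d9be92d.shift 3 0), (rhfc7c29d8e65d775f.shift 3 1)] (by decide +kernel))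
noncomputable def rh2a6f1d245b226674 : CRef := CRef.mk (Pat.mk 0x9800000018000000000000000000000000 0x300000003000000030000000f80000001f0000003f0000003f0000003c 9 8) 0 0 (step_sound _ 133 [(rh361cc68994bd8a63.shift 3 3), rhc7ee9b345b80c973] (by decide +kernel))
noncomputable def rh21357a2533224916 : CRef := CRef.mk (Pat.mk 0x180000001c00000000 0x50000000700000007000000030000001f0000001f00000007 9 5) 0 0 (step_sound _ 33 [(rh53b3c253cb0c65f4.shift 0 1), rhd63d3c6ca3e875b3] (by decide +kernel))
noncomputable def rh8843564cd6577c7f : CRef := CRef.mk (Pat.mk 0x8000000180000001800000000000000000000000000000000 0x80000001c0000001f0000003f0000001f0000001e00000002 9 6) 0 0 (step_sound _ 99 [rh23164e599a95be23, (rh4053c12da95c0aa0.shift 3 1), (rh46530d756bdf8511.shift 2 1), (rh6eff4158bb400f47.shift 2 1)] (by decide +kernel))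
noncomputable def rhdab6572807aa35fd : CRef := CRef.mk (Pat.mk 0x1800000018000000100000001800000000 0x40000001c0000001e0000003f0000007f00000027 9 7) 0 0 (step_sound _ 37 [(rh55afc6a59410cf00.shift 4 0), rha31714ade6b30f5d] (by decide +kernel))
noncomputable def rhc685013a81b381f9 : CRef := CRef.mk (Pat.mk 0x80000001800000010000000000000000000000000 0xc0000000c0000001f0000001e0000001f0000000f0000000c0000000c 9 5) 0 0 (step_sound _ 195 [rh1a65b40f49f2fac8, (rh2145e1d24b96a57e.shift 3 3)] (by decide +kernel))
noncomputable def rhc464197ce592b6ee : CRef := CRef.mk (Pat.mk 0x8000000080000001800000000000000000000000000000000 0x40000000c0000000c0000001f0000003f0000001f0000001600000002 9 6) 0 0 (step_sound _ 99 [(rh46baee19951a66e7.shift 2 1), (rh6eff4158bb400f47.shift 2 1), (rhc4526fc8abf298b6.shift 2 1), rhdb60d54b4838bac1] (by decide +kernel))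
noncomputable def rh127bebb648a3946c : CRef := CRef.mk (Pat.mk 0x9800000018000000000000000000000000 0xc0000000c0000001f000000f80000001e0000000c0000000c0000000c 9 8) 0 0 (step_sound _ 133 [rh2fe231011f722c61, (rh361cc68994bd8a63.shift 3 3)] (by decide +kernel))
noncomputable def rh750b9e76c52aaf72 : CRef := CRef.mk (Pat.mk 0x1c0000000c000000000000000000000000 0x1e0000001e0000003f0000001e0000000f000000080000000800000008 9 6) 0 0 (step_sound _ 97 [(rh53b3c253cb0c65f4.shift 0 3), rhebf1fcf54d55f9c0] (by decide +kernel))
noncomputable def rhac7560f1acf2078e : CRef := CRef.mk (Pat.mk 0x880000001800000010000000000000000000000000 0xfc0000007c000000df000000180000001f0000000c0000000c0000000c 9 8) 0 0 (step_sound _ 195 [(rh2145e1d24b96a57e.shift 3 3), rh380dd236995fc104] (by decide +kernel))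
noncomputable def rh47fa5c87a0439ef3 : CRef := CRef.mk (Pat.mk 0x1300000013000000120 0xe0000001f0000000fc000001f7000001be00000167 9 9) 0 0 (step_sound _ 35 [(rh2b3584ef0f05e9c2.shift 2 1), rhc92c11e8da6c894f, (rhcb9f1087d72f22bb.shift 2 0)] (by decide +kernel))
noncomputable def rha9b0dbb92523ed99 : CRef := CRef.mk (Pat.mk 0x800000018000000180000001800000000 0x60000000f0000001b0000001f0000003f00000007 9 6) 0 0 (step_sound _ 34 [rh35bd92213dc6a7cc, (rh932754581e0f4330.shift 2 0)] (by decide +kernel))
noncomputable def rhf0d6b9d574336390 : CRef := CRef.mk (Pat.mk 0x98000000180000000800000000 0xc000000fc0000007f000000df0000001c0000000c00000004 9 8) 0 0 (step_sound _ 132 [rh30f117cd82bf52cf, (rh5c5e593799055d58.shift 3 1)] (by decide +kernel))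
noncomputable def rh8084a1dab3b7b6c1 : CRef := CRef.mk (Pat.mk 0x80000000800000018000000000000000000000000 0x40000000c0000000f0000001f0000001f0000001f00000014 9 5) 0 0 (step_sound _ 67 [(rh12e1f87e8636d236.shift 0 1), (rh46baee19951a66e7.shift 2 0), (rh60ddb123e268bde8.shift 0 1), (rh6eff4158bb400f47.shift 2 0)] (by decide +kernel))
noncomputable def rh6fad83ad57b27f59 : CRef := CRef.mk (Pat.mk 0x800000008000000180000000800000000 0x140000003c0000000f0000001c0000001f00000017 9 6) 0 0 (step_sound _ 36 [(rh55afc6a59410cf00.shift 3 0), rhc2a3ec5fa943f33b] (by decide +kernel))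
noncomputable def rh9ab9340be25a56d2 : CRef := CRef.mk (Pat.mk 0x400000004c0000004c000000000000000000000000 0x40000000c0000004c0000006c0000007c0000003f0000007e0000003e 9 7) 0 0 (step_sound _ 101 [(rh5419adcd928dba20.shift 2 3), rh5db266b7131283b6] (by decide +kernel))
noncomputable def rh4e3d17ed4e0bd162 : CRef := CRef.mk (Pat.mk 0xc0000004c000000000000000000000000 0x1800000018000000180000000f0000007f0000003c0000001c0000001c 9 7) 0 0 (step_sound _ 100 [(rh2fe78cc5ca4405d8.shift 2 3), rhf9ed024c3318586a] (by decide +kernel))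
noncomputable def rh5bed7c9796b057f5 : CRef := CRef.mk (Pat.mk 0x800000018000000180000000800000000 0x200000002000000170000003f0000001f0000001c0000001800000010 9 6) 0 0 (step_sound _ 36 [(rh7b1f1fb55310c477.shift 3 0), (rhd3cd28bb98f4eef3.shift 0 1)] (by decide +kernel))
noncomputable def rh71f295951b0bbc82 : CRef := CRef.mk (Pat.mk 0x1c00000038000000000000000000000000 0xe0000000f0000001c0000003f0000007f0000003800000020 9 7) 0 0 (step_sound _ 98 [(rhcc2be1f880c5ea3e.shift 0 2), (rhe153806bfe3acc65.shift 0 2), rhe7627975d3d2788d] (by decide +kernel))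
noncomputable def rh13c0b3e8771b4a82 : CRef := CRef.mk (Pat.mk 0x18000000380000000000000000 0x3c0000007f0000003f0000001f0000003f0000002f00000008 9 7) 0 0 (step_sound _ 132 [(rh16337c54e5e60ac4.shift 0 2), (rh1e309b005ffa1b36.shift 3 0), (rh571950d89739e871.shift 3 1), rhaa234234cdd30fad] (by decide +kernel))
noncomputable def rhd5e7e24ce050b165 : CRef := CRef.mk (Pat.mk 0x1800000098000000000000000000000000 0x3c0000003f0000003f0000001f000000f8000000300000003000000030 9 8) 0 0 (step_sound _ 101 [(rh2fe78cc5ca4405d8.shift 3 3), rh9d152bbdfc5208e7] (by decide +kernel))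
noncomputable def rhab9248efcb37edea : CRef := CRef.mk (Pat.mk 0x1c0000001800000000000000000000000000000000 0x70000001f0000001f00000003000000070000000700000005 9 5) 0 0 (step_sound _ 161 [rh1b3af92ea531b599, (rhb739f4f82bb681b4.shift 0 4)] (by decide +kernel))
noncomputable def rh318e5b950165f28b : CRef := CRef.mk (Pat.mk 0x180000001800000008 0x20000001e0000001f0000003f0000001f0000001c00000008 9 6) 0 0 (step_sound _ 99 [(rh1741680720c097b4.shift 2 0), (rh2ddd6c94c59240f8.shift 3 0), (rh7b9fbdf6d2d059e4.shift 2 0), rhd3cd28bb98f4eef3] (by decide +kernel))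
noncomputable def rh7284f30d62973384 : CRef := CRef.mk (Pat.mk 0x1800000010000000180000001800000000 0x270000007f0000003f0000001e0000001c00000004 9 7) 0 0 (step_sound _ 133 [(rh2f68792b6b779e96.shift 4 1), rhb537f0806fa6ed05] (by decide +kernel))
noncomputable def rhcc50f93bf3ea498e : CRef := CRef.mk (Pat.mk 0x1000000018000000080000000000000000 0xc0000000c0000000f0000001f0000001e0000001f0000000c0000000c 9 5) 0 0 (step_sound _ 35 [(rh71222050f2c63a3a.shift 3 0), rhc480fc957c70cdeb] (by decide +kernel))
noncomputable def rh50a2cbb91928b3e0 : CRef := CRef.mk (Pat.mk 0x18000000080000000800000000 0x2000000160000001f0000003f0000001f0000000c0000000c00000004 9 6) 0 0 (step_sound _ 131 [(rh1741680720c097b4.shift 2 1), (rh3b734c5288922837.shift 2 0), (rh771d065bdc85bf2d.shift 2 0), (rhfc18e786075cb33a.shift 0 1)] (by decide +kernel))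
noncomputable def rh6394440062ca24cf : CRef := CRef.mk (Pat.mk 0x1800000098000000000000000000000000 0xc0000000c0000000c0000001e000000f80000001f0000000c0000000c 9 8) 0 0 (step_sound _ 101 [(rh2fe78cc5ca4405d8.shift 3 3), rh32b92f3f20664212] (by decide +kernel))
noncomputable def rh181727a1ac765062 : CRef := CRef.mk (Pat.mk 0xc0000001c000000000000000000000000 0x800000008000000080000000f0000001e0000003f0000001e0000001e 9 6) 0 0 (step_sound _ 129 [rh0da2cb0367939538, (rhb739f4f82bb681b4.shift 0 3)] (by decide +kernel))
noncomputable def rh657060f229c018dd : CRef := CRef.mk (Pat.mk 0x1000000018000000880000000000000000 0xc0000000c0000000c0000001f00000018000000df0000007c000000fc 9 8) 0 0 (step_sound _ 35 [rh2afa547825f35211, (rh71222050f2c63a3a.shift 3 0)] (by decide +kernel))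
noncomputable def rh95cbd18cd20a4e94 : CRef := CRef.mk (Pat.mk 0x1200000013000000130000000000000000000000000 0x167000001be000001f7000000fc000001f0000000e0 9 9) 0 0 (step_sound _ 131 [(rh0bbc4e65714eb846.shift 2 0), (rh5bb78067c54b222b.shift 2 3), (rhb12ffaec36122c99.shift 0 3)] (by decide +kernel))
noncomputable def rhf308c9de3c00d211 : CRef := CRef.mk (Pat.mk 0x1800000018000000180000000800000000 0x70000003f0000001f0000001b0000000f00000006 9 6) 0 0 (step_sound _ 130 [(rh50fbb5868c909700.shift 2 1), rhfbc00eac58294445] (by decide +kernel))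
noncomputable def rh2d7398385dc76692 : CRef := CRef.mk (Pat.mk 0x80000001800000098000000000000000000000000 0x40000000c0000001c000000df0000007f000000fc0000000c 9 8) 0 0 (step_sound _ 68 [(rh7b1f1fb55310c477.shift 3 1), rhc27d991eb67e9a5f] (by decide +kernel))
noncomputable def rh2223fef7a805e379 : CRef := CRef.mk (Pat.mk 0x18000000080000000800000000 0x140000001f0000001f0000001f0000000f0000000c00000004 9 5) 0 0 (step_sound _ 131 [rh006c8b244f84d464, (rh1741680720c097b4.shift 2 1), (rh3b734c5288922837.shift 2 0), rhbd9df789f891ff13] (by decide +kernel))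
noncomputable def rhe7a41b5fa138926c : CRef := CRef.mk (Pat.mk 0x800000018000000080000000800000000 0x170000001f0000001c0000000f0000003c00000014 9 6) 0 0 (step_sound _ 132 [(rh2f68792b6b779e96.shift 3 1), rhc00d8e3616870f32] (by decide +kernel))
noncomputable def rh951b5652bdf46155 : CRef := CRef.mk (Pat.mk 0x800000001800000088000000000000000000000000 0x1000000038000000f80000001f000000ff0000003f0000003c00000034 9 8) 0 0 (step_sound _ 164 [(rh9cdee070315fb032.shift 3 2), (rhcf80391c5046a495.shift 3 1), rhe2ec7081a4bdc2db, (rhf9366b6a121593ef.shift 3 1)] (by decide +kernel))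
noncomputable def rh751b21eaa34973da : CRef := CRef.mk (Pat.mk 0x900000001a000000880000000000000000 0x40000000c000000ff0000001b000000ff0000000e0000000c 9 8) 0 0 (step_sound _ 35 [(rh71222050f2c63a3a.shift 3 0), rh8b79cf238414cfb1] (by decide +kernel))
noncomputable def rh10bd3878568a60dd : CRef := CRef.mk (Pat.mk 0x90000000180000000800000000 0x20000000760000003e000000fc0000001e0000000f00000002 9 8) 0 0 (step_sound _ 101 [(rh361cc68994bd8a63.shift 3 2), rha533158c760d2c53] (by decide +kernel))
noncomputable def rh2408f241a744f9d6 : CRef := CRef.mk (Pat.mk 0x480000004c00000044000000000000000000000000 0x2000000060000007e0000006c0000007f0000003e0000007e00000020 9 7) 0 0 (step_sound _ 66 [rh70d9bc11478c6418, (rh71222050f2c63a3a.shift 2 1)] (by decide +kernel))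
noncomputable def rh0196c833be1eafb0 : CRef := CRef.mk (Pat.mk 0x900000009800000088000000000000000000000000 0x40000000f000000ff000000df000000f8000000780000005800000040 9 8) 0 0 (step_sound _ 165 [(rh361cc68994bd8a63.shift 3 4), rhdaf9c0fb4beffb13] (by decide +kernel))
noncomputable def rh319e69aa992e117c : CRef := CRef.mk (Pat.mk 0x1800000038000000000000000000000000 0x600000006000000060000001e0000003f0000007e0000000c0000000c 9 7) 0 0 (step_sound _ 130 [(rhb739f4f82bb681b4.shift 1 3), rhebc8321090d5ca14] (by decide +kernel))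
noncomputable def rh16ece0601b2866b3 : CRef := CRef.mk (Pat.mk 0x8000000018000000080000000800000000 0x40000001f000000ff0000001f0000000f0000003c00000014 9 8) 0 0 (step_sound _ 131 [rh006c8b244f84d464, rh1344168b263b5f7b, (rh38b9f7ce4e4d2b02.shift 0 1), (rh771d065bdc85bf2d.shift 2 0)] (by decide +kernel))
noncomputable def rh0ad8fef4458d641e : CRef := CRef.mk (Pat.mk 0x1c00000038000000000000000000000000 0x80000000c0000001c0000003f0000007f0000007800000028 9 7) 0 0 (step_sound _ 98 [(rh0b65c1bc69af3667.shift 1 0), (rhcc2be1f880c5ea3e.shift 0 2), (rhe153806bfe3acc65.shift 0 2)] (by decide +kernel))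
noncomputable def rhf072bef6c35af98a : CRef := CRef.mk (Pat.mk 0x1800000038000000100000000000000000 0x80000000c0000001f0000003f0000007c0000006c00000028 9 7) 0 0 (step_sound _ 98 [(rhbe5fc5902345a0b9.shift 0 3), (rhc23de22a3132a245.shift 1 0), (rhf56e6bc5d2f7fe77.shift 0 2)] (by decide +kernel))
noncomputable def rhe15cabacc36eb8bd : CRef := CRef.mk (Pat.mk 0x1800000098000000000000000000000000 0xc0000001e000000f80000003f000000fe0000003c 9 8) 0 0 (step_sound _ 101 [(rh2fe78cc5ca4405d8.shift 3 3), rhd1e64bf41617b69a] (by decide +kernel))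
noncomputable def rh64457c840c5ab4ef : CRef := CRef.mk (Pat.mk 0x1800000018000000180000000000000000 0x200000002000000070000001f0000001f0000003f0000000800000008 9 6) 0 0 (step_sound _ 35 [(rh3775448547e8cddf.shift 0 1), (rh71222050f2c63a3a.shift 3 0)] (by decide +kernel))
noncomputable def rhc3d715b0e55db222 : CRef := CRef.mk (Pat.mk 0x1000000018000000180000001800000000 0x260000007f0000001e0000001c0000001f00000006 9 7) 0 0 (step_sound _ 133 [(rh2f68792b6b779e96.shift 4 1), rh49721f14f543caa8] (by decide +kernel))
noncomputable def rh163698142955249c : CRef := CRef.mk (Pat.mk 0x180000001a0000000000000000 0x50000000700000007000000030000001f0000001f0000000700000004 9 5) 0 0 (step_sound _ 66 [(rh53b3c253cb0c65f4.shift 0 2), rhf4c78ed7abc84f21] (by decide +kernel))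
noncomputable def rh2b165c86f1b8dc27 : CRef := CRef.mk (Pat.mk 0xc0000001e000000000000000000000000 0x40000000e0000001e0000003b0000001f0000001f 9 6) 0 0 (step_sound _ 65 [rhc2d0945ec54014f8, (rheb0810cc63b001d8.shift 0 2)] (by decide +kernel))
noncomputable def rh8c893c3969bbdaca : CRef := CRef.mk (Pat.mk 0x400000000c0000001c000000000000000000000000 0x140000001c0000001c00000018000000180000007c0000000f0000001c000000180000001800000018 9 7) 0 0 (step_sound _ 129 [(rh323c210576d7015a.shift 2 0), (rhb739f4f82bb681b4.shift 0 3)] (by decide +kernel))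
noncomputable def rh97a78f72d342e82a : CRef := CRef.mk (Pat.mk 0x60000000300000010000000000000000000000000 0x50000000700000007000000060000000600000007000000030000001e000000070000000700000005 9 5) 0 0 (step_sound _ 97 [rh4c145d583973abd2, (rha8ff6568553180ed.shift 0 2), rhf6237156212ce777, rhffb8e5993241bf15] (by decide +kernel))
noncomputable def rh777f6d8f49756a84 : CRef := CRef.mk (Pat.mk 0x8800000018000000800000000000000000 0x340000003c0000003f000000ff0000001f000000f80000003800000010 9 8) 0 0 (step_sound _ 68 [(rh7e1098702e50f2b0.shift 3 0), (rhc2c7bae8f445c890.shift 3 0), (rhc38f566cab2818e5.shift 3 0), (rhc41352f5c78d4ab1.shift 0 1)] (by decide +kernel))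
noncomputable def rh73a980d9b100e497 : CRef := CRef.mk (Pat.mk 0x880000001a000000900000000000000000 0xc0000000e000000ff0000001b000000ff0000000c00000004 9 8) 0 0 (step_sound _ 163 [(rh2145e1d24b96a57e.shift 3 2), rhd9433c250228664c] (by decide +kernel))
noncomputable def rhe506fe9683aa44bd : CRef := CRef.mk (Pat.mk 0x80000001800000090000000000000000000000000 0x20000000f0000001e000000fc0000003e0000007600000020 9 8) 0 0 (step_sound _ 101 [(rh2fe78cc5ca4405d8.shift 3 3), rhdd88d74d8ca0bd10] (by decide +kernel))
noncomputable def rh17a427616d5cb206 : CRef := CRef.mk (Pat.mk 0x440000004c000000480000000000000000 0x200000007e0000003e0000007f0000006c0000007e0000000600000002 9 7) 0 0 (step_sound _ 162 [(rh2145e1d24b96a57e.shift 2 2), rhc30aab7d7681b014] (by decide +kernel))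
noncomputable def rh0fd30a2d45d65fb0 : CRef := CRef.mk (Pat.mk 0x8800000098000000900000000000000000 0x400000005800000078000000f8000000df000000ff0000000f00000004 9 8) 0 0 (step_sound _ 69 [(rh2fe78cc5ca4405d8.shift 3 2), rhd7e8f26df6e9940a] (by decide +kernel))
noncomputable def rhd87d9ca36e5da2f6 : CRef := CRef.mk (Pat.mk 0x3800000018000000000000000000000000 0xc0000000c0000007e0000003f0000001e000000060000000600000006 9 7) 0 0 (step_sound _ 98 [(rh53b3c253cb0c65f4.shift 1 3), rha9d28131cd56500f] (by decide +kernel))
noncomputable def rh12079da8f848d88f : CRef := CRef.mk (Pat.mk 0x80000000800000018000000800000000000000000 0x140000003c0000000f0000001f000000ff0000001f00000004 9 8) 0 0 (step_sound _ 67 [(rh518e8f618396c20e.shift 0 1), (rh60ddb123e268bde8.shift 0 1), (rh79e4170ed8274321.shift 0 1), (rhc4526fc8abf298b6.shift 2 0)] (by decide +kernel))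
noncomputable def rh14a838e2c2cb47c7 : CRef := CRef.mk (Pat.mk 0x380000001c0000000000000000 0x28000000780000007f0000003f0000001c0000000c00000008 9 7) 0 0 (step_sound _ 98 [(rh73fb042208b2237d.shift 1 0), (rhba89ab7cb81bcc90.shift 0 2), (rhe25191970535449e.shift 0 2)] (by decide +kernel))
noncomputable def rh3bb005aca5d9603a : CRef := CRef.mk (Pat.mk 0x1000000038000000180000000000000000 0x280000006c0000007c0000003f0000001f0000000c00000008 9 7) 0 0 (step_sound _ 98 [(rh34517e326ddb5b25.shift 0 2), (rhb14e2588a8d71db8.shift 0 2), (rhbe13032a17eca955.shift 1 0)] (by decide +kernel))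
noncomputable def rh456fee83b6c5a056 : CRef := CRef.mk (Pat.mk 0x980000001800000000 0x3c000000fe0000003f000000f80000001e0000000c 9 8) 0 0 (step_sound _ 69 [(rh361cc68994bd8a63.shift 3 1), rh9deb46bd2a35e064] (by decide +kernel))
noncomputable def rh52a9478baf11e69f : CRef := CRef.mk (Pat.mk 0x180000001800000018000000000000000000000000 0x8000000080000003f0000001f0000001f000000070000000200000002 9 6) 0 0 (step_sound _ 195 [(rh2145e1d24b96a57e.shift 3 3), rhfc5101f9980ad4a5] (by decide +kernel))
noncomputable def rh5b2a6c0ebf7e7964 : CRef := CRef.mk (Pat.mk 0x1800000018000000180000001000000000 0x60000001f0000001c0000001e0000007f00000026 9 7) 0 0 (step_sound _ 37 [(rh55afc6a59410cf00.shift 4 0), rhce12326eda7f5ea5] (by decide +kernel))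
noncomputable def rh861d7aec6505c419 : CRef := CRef.mk (Pat.mk 0x1a0000001800000000000000000000000000000000 0x4000000070000001f0000001f00000003000000070000000700000005 9 5) 0 0 (step_sound _ 162 [rh97cfa51bbec4ec42, (rhb739f4f82bb681b4.shift 0 4)] (by decide +kernel))
noncomputable def rh2b6826d48ff31fe0 : CRef := CRef.mk (Pat.mk 0x1e0000000c00000000 0x1f0000001f0000003b0000001e0000000e00000004 9 6) 0 0 (step_sound _ 97 [(rh3244c3cc8379b070.shift 0 2), rhb100dcf3bca36246] (by decide +kernel))
noncomputable def rhe1488588450dec98 : CRef := CRef.mk (Pat.mk 0x1c0000000c000000400000000000000000000000000000000000000000 0x1800000018000000180000001c0000000f0000007c00000018000000180000001c0000001c00000014 9 7) 0 0 (step_sound _ 193 [(rh1229ebb3ac5f892f.shift 2 0), (rh53b3c253cb0c65f4.shift 0 6)] (by decide +kernel))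
noncomputable def rh789fc0e98b5d755c : CRef := CRef.mk (Pat.mk 0x1000000003000000060000000000000000000000000000000000000000 0x500000007000000070000001e00000003000000070000000600000006000000070000000700000005 9 5) 0 0 (step_sound _ 225 [(rh14e0829dc73b6804.shift 0 4), (rh566659606c8abe04.shift 0 4), (rh8b45a73eaadf2a53.shift 0 4), rh970a0cc351b94a12] (by decide +kernel))
noncomputable def rh230c353c6b05dace : CRef := CRef.mk (Pat.mk 0x180000001c000000100000000000000000 0x60000001f0000001c0000001e0000007c0000003c 9 7) 0 0 (step_sound _ 36 [(rh7b1f1fb55310c477.shift 3 0), rha10ceded666c09f9] (by decide +kernel))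
noncomputable def rh06441a9c1a9531b8 : CRef := CRef.mk (Pat.mk 0x1a00000013000000120000000000000000 0xe0000001f0000000b0000001b0000001b000000130000000300000003 9 5) 0 0 (step_sound _ 32 [rh00d6a6e3c7e3bb40, rh5ddbeed5d869bf16, rh752c9303f297f9fa, (rhf89532e72e8d3e14.shift 0 1)] (by decide +kernel))
noncomputable def rh30e21091d75a08e4 : CRef := CRef.mk (Pat.mk 0x40000000e000000180000000000000000 0x140000001c0000001c000000080000003c0000000e0000001f0000001f0000000e 9 6) 0 0 (step_sound _ 35 [(rh7b1f1fb55310c477.shift 2 0), rhac1acd57d0fc9c9f] (by decide +kernel))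
noncomputable def rhd41e22297caaa522 : CRef := CRef.mk (Pat.mk 0x90000000180000001000000000 0x40000000c0000000f000000ff0000001f0000001b00000013 9 8) 0 0 (step_sound _ 99 [rh3f59e6a013622bb8, (rhfc7c29d8e65d775f.shift 3 0)] (by decide +kernel))
noncomputable def rh10b8414d1b4dcc42 : CRef := CRef.mk (Pat.mk 0x3000000018000000080000000000000000 0xc0000000c0000000e0000003f0000001f0000000f0000000c0000000c 9 6) 0 0 (step_sound _ 35 [rh05dd9edeeff9bbec, (rh71222050f2c63a3a.shift 3 0)] (by decide +kernel))
noncomputable def rh3eab6097335fa778 : CRef := CRef.mk (Pat.mk 0x90000000180000001000000010 0x4000000040000000f000000ff0000001f0000001b00000013 9 8) 0 0 (step_sound _ 99 [rh3f59e6a013622bb8, (rh50fbb5868c909700.shift 3 0)] (by decide +kernel))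
noncomputable def rh6697e8f90c0f460b : CRef := CRef.mk (Pat.mk 0x2000000030000000200000002000000000 0x1000000030000000300000003e0000007e0000005f 9 7) 0 0 (step_sound _ 132 [(rh50fbb5868c909700.shift 4 1), rhc889d3e5dc9407af] (by decide +kernel))
noncomputable def rh3babc670b21a67af : CRef := CRef.mk (Pat.mk 0x3000000018000000100000000000000000 0xc0000001c0000001f0000003f0000001e0000001c0000000c0000000c 9 6) 0 0 (step_sound _ 98 [rh4b0265eac4157bc9, (rh53b3c253cb0c65f4.shift 1 3)] (by decide +kernel))
noncomputable def rh6e58f8ea9dbc0f3c : CRef := CRef.mk (Pat.mk 0x800000009800000090000000100000000000000000 0x80000001a0000009f000000de000000f40000007e000001ee00000040 9 9) 0 0 (step_sound _ 67 [(rh078748749203f420.shift 1 1), (rh0fbbb92589a12005.shift 3 0), (rh7a1bc29db4f94c13.shift 0 1), (rh8bf99f042330a7dc.shift 3 1)] (by decide +kernel))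
noncomputable def rhc785f7fce48ed164 : CRef := CRef.mk (Pat.mk 0x1800000018000000180000001800000000 0x40000001f0000001f0000001b0000003f00000027 9 6) 0 0 (step_sound _ 34 [(rh932754581e0f4330.shift 2 0), rh9a29d2166b97ce6b] (by decide +kernel))
noncomputable def rheb023947bc608e90 : CRef := CRef.mk (Pat.mk 0x1800000010000000180000000000000000 0xc0000000c0000001c0000001e0000007f0000000f0000000c 9 7) 0 0 (step_sound _ 99 [(rh58a27f2dfe2842ab.shift 0 1), rha6f802784adb25e2, (rhb6428504fe0baec6.shift 2 0)] (by decide +kernel))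
noncomputable def rh634adcfb1b9b2380 : CRef := CRef.mk (Pat.mk 0x9000000018000000180000000800000000 0xc0000000e000000ff0000001e0000001c0000000f00000006 9 8) 0 0 (step_sound _ 133 [(rh361cc68994bd8a63.shift 3 3), rh8d7228d4a2459588] (by decide +kernel))
noncomputable def rh017f48fb9eca1bc9 : CRef := CRef.mk (Pat.mk 0x800000001800000098000000000000000000000000 0x1c0000001c000000ff0000001f000000f8000000080000000800000008 9 8) 0 0 (step_sound _ 101 [(rh2fe78cc5ca4405d8.shift 3 3), rhc5dee4b6054fbd87] (by decide +kernel))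
noncomputable def rhfc555640b11289e0 : CRef := CRef.mk (Pat.mk 0x3000000018000000180000000800000000 0x40000000f0000003f0000001f0000001f0000000f00000004 9 6) 0 0 (step_sound _ 131 [rh10caf0c599b88049, rh49886a88e1a7a0fd, (rh5d9b544e5d59a29d.shift 0 2), (rh771d065bdc85bf2d.shift 2 0), rhb25419b448e767b8] (by decide +kernel))
noncomputable def rh7c43f035ec5e0e93 : CRef := CRef.mk (Pat.mk 0x400000004c000000480000000000000000000000000000000000000000 0x8000000480000006f0000007f0000003f0000003f0000003f0000001c00000014 9 7) 0 0 (step_sound _ 131 [rh412229cdb1cd8fa9, (rh6cb812f95378008a.shift 2 1), (rh6e335ff7b9d335b5.shift 0 1), rh8df7e1e14f0bb9c4, rhaa10b9dc076cd26f, (rhb9f3cc448b32aeb0.shift 2 1)] (by decide +kernel))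
noncomputable def rhe12ff0f25e7e8188 : CRef := CRef.mk (Pat.mk 0x1800000018000000100000000000000000 0xc0000000c0000001c0000001e0000007f0000000f0000000c 9 7) 0 0 (step_sound _ 163 [(rh2145e1d24b96a57e.shift 3 2), rh684846c5c340ef35] (by decide +kernel))
noncomputable def rh33594b2a9a4ae82d : CRef := CRef.mk (Pat.mk 0x1a00000030000000000000000000000000 0x28000000380000003c0000001c0000001c0000001b0000003f0000007e0000007e0000002c 9 7) 0 0 (step_sound _ 163 [rh3e35c40c744e2117, (rh7e1098702e50f2b0.shift 3 1), (rh9f099b52c62df192.shift 1 0), (rhc2c7bae8f445c890.shift 3 1), (rhda1ad26c7481a7b4.shift 2 1)] (by decide +kernel))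
noncomputable def rh6de8e9541b24fa7a : CRef := CRef.mk (Pat.mk 0x100000001c0000001800000000 0x3c0000007c0000001e0000001c0000001f00000006 9 7) 0 0 (step_sound _ 132 [rh226684e548f05fa7, (rh5c5e593799055d58.shift 3 1)] (by decide +kernel))
noncomputable def rhb294a30dc510ceed : CRef := CRef.mk (Pat.mk 0x12000000130000001a000000000000000000000000 0x300000003000000130000001b0000001b0000000b0000001f0000000e 9 5) 0 0 (step_sound _ 192 [(rh0588d2c7f2cab5e9.shift 0 1), (rh616c75d1b5542aee.shift 0 3), (rha52e0141694f1c7d.shift 0 2), rhd7526ccac6352a19] (by decide +kernel))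
noncomputable def rh6fa73c7546047943 : CRef := CRef.mk (Pat.mk 0x180000000e0000000400000000000000000000000000000000 0xe0000001f0000001f0000000e0000003c000000080000001c0000001c00000014 9 6) 0 0 (step_sound _ 227 [rh00794e6bbd02e3ae, (rh5c5e593799055d58.shift 2 4)] (by decide +kernel))
noncomputable def rh13e48573a363522a : CRef := CRef.mk (Pat.mk 0x100000001800000090000000000000000000000000 0x130000001b0000001f000000ff0000000f0000000c00000004 9 8) 0 0 (step_sound _ 99 [(rh1e309b005ffa1b36.shift 3 1), rhc22507c45ae387cb] (by decide +kernel))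
noncomputable def rha2120f9f3f7d0fe5 : CRef := CRef.mk (Pat.mk 0x80000001800000030000000000000000000000000 0xc0000000c0000000f0000001f0000003f0000000e0000000c0000000c 9 6) 0 0 (step_sound _ 195 [(rh2145e1d24b96a57e.shift 3 3), rhce9232f63fe77619] (by decide +kernel))
noncomputable def rh247bd96aefa1d313 : CRef := CRef.mk (Pat.mk 0x10000000100000001800000090000000000000000000000000 0x130000001b0000001f000000ff0000000f0000000400000004 9 8) 0 0 (step_sound _ 99 [(rh932754581e0f4330.shift 3 2), rhc22507c45ae387cb] (by decide +kernel))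
noncomputable def rh25c138e5a7f4ea57 : CRef := CRef.mk (Pat.mk 0x2000000020000000300000002000000000 0x5f0000007e0000003e000000300000003000000010 9 7) 0 0 (step_sound _ 36 [(rh932754581e0f4330.shift 4 0), (rhe11ed297f19634bd.shift 0 1)] (by decide +kernel))
noncomputable def rhe7bb9456b9b76c51 : CRef := CRef.mk (Pat.mk 0x100000001800000030000000000000000000000000 0xc0000000c0000001c0000001e0000003f0000001f0000001c0000000c 9 6) 0 0 (step_sound _ 130 [(rhb739f4f82bb681b4.shift 1 3), rhfb69de277c851520] (by decide +kernel))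
noncomputable def rh646134a20f695378 : CRef := CRef.mk (Pat.mk 0x100000009000000098000000800000000000000000 0x40000001ee0000007e000000f4000000de0000009f0000001a00000008 9 9) 0 0 (step_sound _ 163 [(rh0e42de44541b09b1.shift 3 0), (rh266421fe7753c52f.shift 1 2), (rh6a6060c6b6bde3df.shift 3 2), rh7ecadda0695945eb] (by decide +kernel))
noncomputable def rh084b553d40b759b0 : CRef := CRef.mk (Pat.mk 0x1800000018000000180000001800000000 0x270000003f0000001b0000001f0000001f00000004 9 6) 0 0 (step_sound _ 130 [(rh50fbb5868c909700.shift 2 1), rh9230b156ff49db95] (by decide +kernel))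
noncomputable def rh5dc80a0c8ec30515 : CRef := CRef.mk (Pat.mk 0x1800000010000000180000000000000000 0xc0000000f0000007f0000001e0000001c0000000c0000000c 9 7) 0 0 (step_sound _ 99 [(rh01ff8e29f1e0af53.shift 0 2), rh10d6e428fce92817, (rh29e0362802793f45.shift 2 0)] (by decide +kernel))
noncomputable def rhbd7fa17432affa14 : CRef := CRef.mk (Pat.mk 0x80000001800000018000000900000000000000000 0x60000000f0000001c0000001e000000ff0000000e0000000c 9 8) 0 0 (step_sound _ 69 [(rh2fe78cc5ca4405d8.shift 3 2), rhb3fcf67e43c586ff] (by decide +kernel))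
noncomputable def rh16464b5468e69a1c : CRef := CRef.mk (Pat.mk 0x9800000018000000800000000000000000 0x80000000800000008000000f80000001f000000ff0000001c0000001c 9 8) 0 0 (step_sound _ 133 [(rh361cc68994bd8a63.shift 3 3), rhed003e2aeeb6e295] (by decide +kernel))
noncomputable def rh14719e5f07e586c9 : CRef := CRef.mk (Pat.mk 0x80000001800000018000000300000000000000000 0x40000000f0000001f0000001f0000003f0000000f00000004 9 6) 0 0 (step_sound _ 67 [rh1ee6fca8f7941981, (rh6a347865ba58ef83.shift 0 1), (rh96caa15a528c64be.shift 0 1), (rhbac7775403877014.shift 0 1), (rhc4526fc8abf298b6.shift 2 0)] (by decide +kernel))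
noncomputable def rh12872e325e791b92 : CRef := CRef.mk (Pat.mk 0x480000004c0000004000000000 0x140000001c0000003f0000003f0000003f0000007f0000006f0000004800000008 9 7) 0 0 (step_sound _ 131 [(rh14f5373c7ef20f8d.shift 2 1), (rh160305803deb2a0e.shift 0 1), rh233bb3747d706553, (rhc8cdf55a7120aa2f.shift 0 1), (rhdb1409eef7bb21d4.shift 2 1), (rhe145bdbd45fce79b.shift 0 2)] (by decide +kernel))
noncomputable def rh8461123c7f4d655f : CRef := CRef.mk (Pat.mk 0x1000000018000000180000000000000000 0xc0000000f0000007f0000001e0000001c0000000c0000000c 9 7) 0 0 (step_sound _ 35 [(rh71222050f2c63a3a.shift 3 0), rhe1599bc1598d0fee] (by decide +kernel))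
noncomputable def rh275437562d1b032d : CRef := CRef.mk (Pat.mk 0x300000001a0000000000000000000000000000000000000000 0x2c0000007e0000007e0000003f0000001b0000001c0000001c0000003c0000003800000028 9 7) 0 0 (step_sound _ 131 [(rh43083b39eec69134.shift 1 0), (rh9cdee070315fb032.shift 3 3), (rhc02baa3f181a70b4.shift 0 2), (rhcf80391c5046a495.shift 3 2), (rhe24448ac32e0808b.shift 2 2)] (by decide +kernel))
noncomputable def rh7d02066301e5f73e : CRef := CRef.mk (Pat.mk 0x880000001800000030000000000000000000000000 0xfc0000007c000000df0000001e00000038000000280000000800000008 9 8) 0 0 (step_sound _ 195 [(rh2145e1d24b96a57e.shift 3 3), rhba7c59832a4ff493] (by decide +kernel))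
noncomputable def rhaf9876fdc1559582 : CRef := CRef.mk (Pat.mk 0x800000018000000300000001000000000 0x280000003e0000003e000000760000001f0000001f0000003e0000007800000028 9 7) 0 0 (step_sound _ 132 [(rhbdafb3d85b369369.shift 1 1), (rhbe6a11bbb961c2b9.shift 3 0), (rhd4b4beefcd67f51e.shift 4 0), rhf0662fa892a90129, (rhfa3205aafd2af0b3.shift 3 1)] (by decide +kernel))
noncomputable def rh2f4bf160388ba3ec : CRef := CRef.mk (Pat.mk 0xc00000018000000000000000000000000 0x140000001c0000001e0000003e0000000f0000000c0000001c0000001f0000003f00000016 9 6) 0 0 (step_sound _ 162 [(rh5d54cb79a67f97ab.shift 2 1), (rh7e1098702e50f2b0.shift 2 1), rh9f099b52c62df192, rhb5e03d30b20f24e2, (rhc2c7bae8f445c890.shift 2 1)] (by decide +kernel))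
noncomputable def rh8e84ccf8b5ad51ae : CRef := CRef.mk (Pat.mk 0x80000001c0000003000000000000000000000000000000000 0x20000001f0000001c0000003f0000001f0000001f0000000e00000008 9 6) 0 0 (step_sound _ 100 [(rh7b1f1fb55310c477.shift 3 2), rh959688b6cf706288] (by decide +kernel))
noncomputable def rhf5232f49bd5cabd3 : CRef := CRef.mk (Pat.mk 0x800000001c00000030000000000000000000000000 0xfc0000007c000000df0000001c0000003f0000007f0000003400000020 9 8) 0 0 (step_sound _ 163 [(rh41a1122184bcdc64.shift 0 1), (rh5d54cb79a67f97ab.shift 3 1), rhae93e663416b4d44, (rhc2c7bae8f445c890.shift 3 1)] (by decide +kernel))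
noncomputable def rhd9023ddd859faecd : CRef := CRef.mk (Pat.mk 0x180000003c0000000000000000 0x1e0000001f0000001e0000003c0000006e00000008 9 7) 0 0 (step_sound _ 98 [rh08b8aef564a7c69c, (rh3244c3cc8379b070.shift 1 2)] (by decide +kernel))
noncomputable def rh6f1378fbb010df8f : CRef := CRef.mk (Pat.mk 0x18000000080000000800000000 0x100000001c0000001c0000001f0000001f0000001e0000000f0000000c00000004 9 5) 0 0 (step_sound _ 131 [(rh1741680720c097b4.shift 2 1), (rh3b734c5288922837.shift 2 0), (rh41a986fca86cdb94.shift 2 0), (rh771d065bdc85bf2d.shift 2 0), rhbf63a9a4e020b9e3] (by decide +kernel))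
noncomputable def rha8d2db06ca3244f5 : CRef := CRef.mk (Pat.mk 0x400000004c0000004c000000000000000000000000 0x8000000480000006c0000007c0000003f0000007e0000003e 9 7) 0 0 (step_sound _ 66 [rh0ba91d29d11884ed, rh362104532586ff12, (rhea7a1800d6f053bd.shift 2 0)] (by decide +kernel))
noncomputable def rhfab4306191dbaa1e : CRef := CRef.mk (Pat.mk 0x1c0000001800000008000000000000000000000000 0x4000000070000001f0000001b0000000f000000070000000700000005 9 5) 0 0 (step_sound _ 161 [(rhb739f4f82bb681b4.shift 0 4), rhc6b17a136fb65659] (by decide +kernel))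
noncomputable def rhfa7baccc762df71e : CRef := CRef.mk (Pat.mk 0x1800000018000000100000001000000000 0x170000001f0000001c0000003c0000001f0000000c 9 6) 0 0 (step_sound _ 35 [(rh932754581e0f4330.shift 3 0), rhf7491f15b99a6227] (by decide +kernel))
noncomputable def rha8cb8bda553d7637 : CRef := CRef.mk (Pat.mk 0x1c00000018000000100000001000000000 0x4000000070000001f0000001b0000001f0000003700000025 9 6) 0 0 (step_sound _ 129 [rh76176f1787543b6a, (rhb739f4f82bb681b4.shift 0 3)] (by decide +kernel))
noncomputable def rh2df8dad3d617ff4d : CRef := CRef.mk (Pat.mk 0x1c00000018000000300000001000000000 0x600000006000000060000001c0000001e0000003f0000007700000026 9 7) 0 0 (step_sound _ 98 [(rhb739f4f82bb681b4.shift 1 2), rhbf4b5b5642ab6879] (by decide +kernel))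
noncomputable def rh099b5954991f70ca : CRef := CRef.mk (Pat.mk 0x1800000038000000000000000000000000 0x140000001f0000001f0000001e0000003c0000000c0000000c00000008 9 6) 0 0 (step_sound _ 130 [rhaed8330d4f691f6f, (rhb739f4f82bb681b4.shift 1 3)] (by decide +kernel))
noncomputable def rhebc99d555d93bad3 : CRef := CRef.mk (Pat.mk 0x1000000003800000070000000000000000000000000 0x4000000074000001ff000000fe000001bf000000380000007e000000740000001000000010 9 9) 0 0 (step_sound _ 197 [(rh71aae90b29d9e2ee.shift 4 2), (rh872a2f96c251e61f.shift 0 2), (rhd9907c6fa023d767.shift 3 0)] (by decide +kernel))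
noncomputable def rheececee03f0139a0 : CRef := CRef.mk (Pat.mk 0x3000000018000000880000000000000000 0x80000000800000028000000380000001e000000df0000007c000000fc 9 8) 0 0 (step_sound _ 35 [(rh71222050f2c63a3a.shift 3 0), rhcb7fdf67e43f20d0] (by decide +kernel))
noncomputable def rhc87bec32b1ce8edb : CRef := CRef.mk (Pat.mk 0x1000000030000000180000000800000000000000000000000000000000 0x28000000780000003e0000001f0000001f000000760000003e0000003e00000028 9 7) 0 0 (step_sound _ 132 [(rh001a17fcab73eeeb.shift 0 3), (rh9ed269deb495bfb0.shift 1 1), (rha707fb719e87fe6e.shift 4 3), (rhdd11e03a2f8b13b6.shift 3 1), (rhe8826dab31f3e5a9.shift 3 0)] (by decide +kernel))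
noncomputable def rhedccbc722d31ec2a : CRef := CRef.mk (Pat.mk 0x180000000c0000000000000000000000000000000000000000 0x160000003f0000001f0000001c0000000c0000000f0000003e0000001e0000001c00000014 9 6) 0 0 (step_sound _ 130 [rh43083b39eec69134, (rh4821dcf828b9d7bf.shift 2 2), (rh9cdee070315fb032.shift 2 3), (rhcf80391c5046a495.shift 2 2), (rhe3d27a7125b6c3e4.shift 0 2)] (by decide +kernel))
noncomputable def rh243c01d0df54f82c : CRef := CRef.mk (Pat.mk 0x300000001c0000000800000000 0x80000000e0000001f0000001f0000003f0000001c0000001f00000002 9 6) 0 0 (step_sound _ 132 [rh3fb24f959eadd9f6, (rh5c5e593799055d58.shift 3 1)] (by decide +kernel))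
noncomputable def rh75b830a78de665e8 : CRef := CRef.mk (Pat.mk 0x300000001c000000800000000000000000 0x20000000340000007f0000003f0000001c000000df0000007c000000fc 9 8) 0 0 (step_sound _ 67 [(rh4821dcf828b9d7bf.shift 3 0), rhc3afe52b4a9b0729, (rhcf80391c5046a495.shift 3 0), (rhfc3d58d370a2b291.shift 0 2)] (by decide +kernel))
noncomputable def rh265ccf2fb6ab288a : CRef := CRef.mk (Pat.mk 0x3c000000180000000000000000 0x80000006e0000003c0000001e0000001f0000001e 9 7) 0 0 (step_sound _ 66 [(rheb0810cc63b001d8.shift 1 2), rhf2a7b7edf1bbb817] (by decide +kernel))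
noncomputable def rhad8225cc492a9e17 : CRef := CRef.mk (Pat.mk 0x800000008000000180000000000000000000000000000000000000000 0x40000000c0000000f0000001e0000001f0000001f0000001c0000001c00000010 9 5) 0 0 (step_sound _ 131 [(rh0bc31c456da4ae1b.shift 0 3), (rh46baee19951a66e7.shift 2 2), (rh6eff4158bb400f47.shift 2 2), (rh7562c99e9f5a2f28.shift 2 0), (rhc4526fc8abf298b6.shift 2 2)] (by decide +kernel))
noncomputable def rhfba147d3d151e233 : CRef := CRef.mk (Pat.mk 0x4c0000004c0000004000000000 0x3e0000007e0000003f0000007c0000006c0000004800000008 9 7) 0 0 (step_sound _ 130 [(rh3e595262c1b737ad.shift 2 1), (rh495a39b8a06d7922.shift 0 2), rhba8869081440dc58] (by decide +kernel))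
noncomputable def rhf6e7400a43dd8e84 : CRef := CRef.mk (Pat.mk 0x8000000180000001c0000000000000000 0x500000007000000070000000f0000001b0000001f0000000700000004 9 5) 0 0 (step_sound _ 65 [rh2bd54d05d99623a2, (rh53b3c253cb0c65f4.shift 0 2)] (by decide +kernel))
noncomputable def rh08e855694d2d9aba : CRef := CRef.mk (Pat.mk 0x1000000010000000180000001800000000 0xc0000001f0000003c0000001c0000001f00000017 9 6) 0 0 (step_sound _ 131 [rh248387735c33fadb, (rh50fbb5868c909700.shift 3 1)] (by decide +kernel))
noncomputable def rhf269e48977dcfb13 : CRef := CRef.mk (Pat.mk 0x1000000010000000180000001c0000000000000000 0x25000000370000001f0000001b0000001f0000000700000004 9 6) 0 0 (step_sound _ 65 [rh07a0b96e4b6960a9, (rh53b3c253cb0c65f4.shift 0 2)] (by decide +kernel))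
noncomputable def rhef42bb2d21d1d981 : CRef := CRef.mk (Pat.mk 0x1000000030000000180000001c000000000000000000000000 0x26000000770000003f0000001e0000001c000000060000000600000006 9 7) 0 0 (step_sound _ 130 [(rh53b3c253cb0c65f4.shift 1 4), rh869fde8b75eeeecb] (by decide +kernel))
noncomputable def rh7bd05258f0c27458 : CRef := CRef.mk (Pat.mk 0x3800000018000000000000000000000000 0x80000000c0000000c0000003c0000001e0000001f0000001f00000014 9 6) 0 0 (step_sound _ 98 [(rh53b3c253cb0c65f4.shift 1 3), rhf738d324b96c896c] (by decide +kernel))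
noncomputable def rha16cb422f6b33789 : CRef := CRef.mk (Pat.mk 0x70000000380000010000000000000000000000000000000000 0x1000000010000000740000007e00000038000001bf000000fe000001ff0000007400000040 9 9) 0 0 (step_sound _ 101 [(rh4b4dde78fe1cd3e6.shift 3 3), (rhd22919919fc506b5.shift 4 0), (rhd903513057233b8e.shift 0 1)] (by decide +kernel))
noncomputable def rh790dd60b33a05df0 : CRef := CRef.mk (Pat.mk 0x1000000013000000120000000200000000 0x50000000f0000000f0000000f0000001f0000001b0000001f0000000300000001 9 5) 0 0 (step_sound _ 67 [(rh5419adcd928dba20.shift 0 2), rh6b23697e3f4667e7] (by decide +kernel))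
noncomputable def rh320b6e92173490e3 : CRef := CRef.mk (Pat.mk 0xc000000480000000800000000000000000000000000000000 0xc0000007c0000003f0000003f0000001f0000001c00000014 9 7) 0 0 (step_sound _ 165 [rh412229cdb1cd8fa9, (rh5419adcd928dba20.shift 2 5)] (by decide +kernel))
noncomputable def rh68a5ce3c121116b7 : CRef := CRef.mk (Pat.mk 0x100000001300000012000000020000000000000000 0x500000007000000070000001e0000001b0000001f0000000b0000001f0000000e 9 5) 0 0 (step_sound _ 99 [(rh5419adcd928dba20.shift 0 3), rhf9478b3a573bdbe9] (by decide +kernel))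
noncomputable def rh1986c71cbfe895cc : CRef := CRef.mk (Pat.mk 0x13000000030000000100000003000000000 0xe000001fe000000380000001f0000007c00000008 9 9) 0 0 (step_sound _ 134 [(rh361cc68994bd8a63.shift 4 3), rhe0eb21830d325c7f] (by decide +kernel))
noncomputable def rh2ded14948e6bf0ad : CRef := CRef.mk (Pat.mk 0x80000000800000018000000000000000000000000 0x40000000c0000000f0000001f000000ff000000fe00000014 9 8) 0 0 (step_sound _ 67 [(rh46baee19951a66e7.shift 2 0), (rh4e135e28bb1b8e89.shift 0 1), (rh6eff4158bb400f47.shift 2 0), (rhea7a452624c2d472.shift 0 1)] (by decide +kernel))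
noncomputable def rh6783a1228c72cc85 : CRef := CRef.mk (Pat.mk 0x1e00000000000000000000000000000000 0x4000000070000001e0000003f0000000f0000000700000005 9 6) 0 0 (step_sound _ 97 [rhe430aea55fcd0fbe, (rheb0810cc63b001d8.shift 0 3)] (by decide +kernel))
noncomputable def rh69ed07e680c2677e : CRef := CRef.mk (Pat.mk 0x300000012000000020000000000000000000000000 0x1000000010000000180000003c000001fe000000fc000000df0000005c00000014 9 9) 0 0 (step_sound _ 134 [(rh2fe78cc5ca4405d8.shift 4 4), rh53a1e84b78019883] (by decide +kernel))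
noncomputable def rh5dbcb9d7e9cac859 : CRef := CRef.mk (Pat.mk 0x400000000c000000400000000800000000000000000000000000000000 0x18000000780000000f0000007c0000003f0000003f0000001f0000001c00000014 9 7) 0 0 (step_sound _ 163 [(rh36b93069b258c830.shift 0 3), (rh37deb14b1487b038.shift 0 1), rh412229cdb1cd8fa9, (rh612f35418d67476f.shift 0 3)] (by decide +kernel))
noncomputable def rh30d57f6d51fe6301 : CRef := CRef.mk (Pat.mk 0x3800000000000000000000000000000000 0x80000000f0000003e0000007f0000001e0000000e0000000a 9 7) 0 0 (step_sound _ 130 [(rh0d378fd9e8917c5a.shift 0 3), (rh41140eaa67c26838.shift 0 3), (rh592c7139d2c44767.shift 0 3), (rhbb8902779543614b.shift 1 0)] (by decide +kernel))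
noncomputable def rh03e0ba4033b726fa : CRef := CRef.mk (Pat.mk 0x200000012000000030000000000000000000000000 0x140000005c000000df000000fc000001fe0000003c000000180000001000000010 9 9) 0 0 (step_sound _ 134 [(rh361cc68994bd8a63.shift 4 3), rhd14ce9892aaeb68c] (by decide +kernel))
noncomputable def rha4a767f2cc45b2b8 : CRef := CRef.mk (Pat.mk 0x8000000400000000c0000004000000000 0x140000001c0000001f0000003f0000003f0000007c0000000f0000007800000018 9 7) 0 0 (step_sound _ 99 [rh2f51ab36adc3e505, rh355dcdb377faff3b, rh3824beb4fce50949, (rhe145bdbd45fce79b.shift 0 2)] (by decide +kernel))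
noncomputable def rh1747aec2b848bd03 : CRef := CRef.mk (Pat.mk 0x380000000000000000 0xa0000000e0000001e0000007f0000003e0000000f00000008 9 7) 0 0 (step_sound _ 66 [(rh41fec018d4554c23.shift 1 0), (rh61325f73ebf98108.shift 0 2), (rh775ca1963e850b80.shift 0 1), (rh9e97bba44c1b13e4.shift 0 1)] (by decide +kernel))
noncomputable def rhf67e5d16d82794ee : CRef := CRef.mk (Pat.mk 0x1e0000000000000000 0x5000000070000000f0000003f0000001e0000000700000004 9 6) 0 0 (step_sound _ 97 [rh12b55f8c459f18ec, (rh3244c3cc8379b070.shift 0 2)] (by decide +kernel))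
noncomputable def rheb556026af80b0a3 : CRef := CRef.mk (Pat.mk 0x8000000480000000c 0x140000001c0000001f0000003f0000003f0000007c0000000c 9 7) 0 0 (step_sound _ 37 [(rhb2a0b9ccfb5cecd5.shift 2 0), rhe145bdbd45fce79b] (by decide +kernel))
noncomputable def rh82c2d9707249a320 : CRef := CRef.mk (Pat.mk 0x50000000530000005a00000000 0x85000000ef000000ff000000ef0000007f0000005b0000005b00000001 9 8) 0 0 (step_sound _ 99 [rh0bb018cd1de4a9bc, (rh5377837824fa2ef4.shift 0 1), (rhb7239909d9910172.shift 0 1), (rhc19f30fb82180036.shift 2 1)] (by decide +kernel))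
noncomputable def rhde6de23060fe52e3 : CRef := CRef.mk (Pat.mk 0x10000000030000001200000000000000000000000000000000 0x500000007000000070000000f0000001f000000030000001f00000003000000070000000700000005 9 5) 0 0 (step_sound _ 131 [(rh5419adcd928dba20.shift 0 4), rhf7fdb9666d162e22] (by decide +kernel))
noncomputable def rh851e94ef3f859365 : CRef := CRef.mk (Pat.mk 0x10000000530000005a0000000800000000 0x5000000a7000000ef000000ef000000fe0000005b000000fb0000002f00000005 9 8) 0 0 (step_sound _ 129 [rh77bfdd0f40ec1259, rhb415fb9ca08355d6, rhba46b0d89cb38d71, (rhe8d7fabc8b012c7b.shift 0 1)] (by decide +kernel))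
noncomputable def rha52ac6af14ca1cca : CRef := CRef.mk (Pat.mk 0x1000000030000000260000000c0000000000000000 0x80000001e0000001f0000001f00000037000000260000000f0000000b00000001 9 6) 0 0 (step_sound _ 196 [(rh2145e1d24b96a57e.shift 4 3), rhd9dfd2071564949b] (by decide +kernel))
noncomputable def rh42e1e1a710452d2c : CRef := CRef.mk (Pat.mk 0x1800000053000000520000000000000000 0xa0000000ec000000ec000000fc0000005b000000fe0000002c00000008 9 8) 0 0 (step_sound _ 99 [(rh03153d0859b1137f.shift 2 1), rh044f4d195f658110, rh5e7599abd927fa28] (by decide +kernel))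
noncomputable def rhba7e6621ddefe3d0 : CRef := CRef.mk (Pat.mk 0x1000000018000000100000000000000000000000000000000000000000 0x800000018000000180000003e0000007f0000007e0000003e0000003800000028 9 7) 0 0 (step_sound _ 132 [(rh412229cdb1cd8fa9.shift 1 0), (rh5192e84255fe3228.shift 3 2), (rh6eff4158bb400f47.shift 3 2), (rhb1a2e31b491e763d.shift 0 3), (rhe286c75f2739cce2.shift 3 3)] (by decide +kernel))
noncomputable def rhe2c116b4994e1afc : CRef := CRef.mk (Pat.mk 0x60000001400000014000000000000000000000000 0x200000003a0000003e0000003b0000003e0000001600000034000000380000003800000028 9 6) 0 0 (step_sound _ 164 [(rh5f26444d0785c042.shift 1 0), (rh615872fc71fadb08.shift 1 0), (rh6da38dbe36491ba4.shift 0 2), rh71ef8619d44923d6, (rhc19f30fb82180036.shift 0 3)] (by decide +kernel))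
noncomputable def rhbe1d01bec249fb0d : CRef := CRef.mk (Pat.mk 0x18000000030000001000000000000000000000000000000000 0x40000000600000006000000070000001f000000030000001f00000007000000070000000700000005 9 5) 0 0 (step_sound _ 193 [rh112c116f809bddde, (rhb2a0b9ccfb5cecd5.shift 0 5)] (by decide +kernel))
noncomputable def rh449022d3d59c914b : CRef := CRef.mk (Pat.mk 0x80000001a000000030000000000000000000000000000000000000000 0x400000004000000060000000f0000001b000000030000000300000007000000070000000700000005 9 5) 0 0 (step_sound _ 225 [rh245dab86daa60af8, (rh281c6819542c66e6.shift 0 2), (rhbe5703805fd7fa8f.shift 0 4), (rhfafeb437ceb8396d.shift 0 2)] (by decide +kernel))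
noncomputable def rhaa5291f50dd93f18 : CRef := CRef.mk (Pat.mk 0xb0000000a0000000a00000008000000080000000000000000 0x50000001f0000001d0000001b0000000b0000000a00000008000000180000001800000010 9 5) 0 0 (step_sound _ 36 [rh6778ea9fdf9e6d39, (rhd3458b32566d63f7.shift 3 1)] (by decide +kernel))
noncomputable def rh0fdc5259f2d0fcef : CRef := CRef.mk (Pat.mk 0xa0000000b000000010000000000000000000000000000000000000000 0x140000001c0000001c0000000a0000001f0000001d0000001f0000001d0000001c0000001c00000004 9 5) 0 0 (step_sound _ 128 [(rh71222050f2c63a3a.shift 0 3), rhea9d80481c911e78] (by decide +kernel))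
noncomputable def rh9acd5f4503dd6ee2 : CRef := CRef.mk (Pat.mk 0x500000005800000041000000000000000000000000 0xa0000000e0000000e000000050000000780000006f000000f8000000e800000080 9 8) 0 0 (step_sound _ 198 [(rh1741680720c097b4.shift 5 3), (rh20966da26a1c2ae8.shift 5 2), rh219fe7e1dd43b1c8, (rh771d065bdc85bf2d.shift 5 2)] (by decide +kernel))
noncomputable def rh743d870d1c52f5a2 : CRef := CRef.mk (Pat.mk 0x1000000017000000000000000000000000 0x28000000380000003800000010000003ff000001f8000003f800000028 9 10) 0 0 (step_sound _ 68 [(rh0640759f80205b45.shift 3 0), (rh28466a375eadb735.shift 2 1), (rh45009313f1dc1cd3.shift 0 1), (rh92758c3412962234.shift 1 1), (rhc13e87f7835e0776.shift 0 2)] (by decide +kernel))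
noncomputable def rhdec5a1bdd1418881 : CRef := CRef.mk (Pat.mk 0x1000000090000000180000000000000008 0x24000000660000007f000000ff000000180000000800000008 9 8) 0 0 (step_sound _ 101 [(rh361cc68994bd8a63.shift 3 2), rh998ec9bcbc3508a5] (by decide +kernel))
noncomputable def rhbfcbb4b782060313 : CRef := CRef.mk (Pat.mk 0x20000000200000000200000007000000000 0x20000000300000001fc000001fe0000038f 9 10) 0 0 (step_sound _ 35 [rhb103f40a53fe1424, (rhe6bdd62e1711df0b.shift 3 1), (rhec46bd5500c722c9.shift 2 1), (rhee91b0436ee0fb26.shift 1 0)] (by decide +kernel))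
noncomputable def rh134e08ec0e30f604 : CRef := CRef.mk (Pat.mk 0x208000002c80000000800000000000000000000000000000000 0x50000000700000007000000070000000208000003ef0000077e00000777000007040000070000000100 9 11) 0 0 (step_sound _ 168 [(rh9093c0855f689cdd.shift 0 2), (rhb91b6a88a09d420b.shift 6 0)] (by decide +kernel))
noncomputable def rh0546205ead752f7b : CRef := CRef.mk (Pat.mk 0x1800000018000000080000000800000000 0x70000001f0000001b0000001f0000000f00000005 9 5) 0 0 (step_sound _ 130 [rh508104c5d0731274, (rh50fbb5868c909700.shift 2 1)] (by decide +kernel))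
noncomputable def rh03b5d9121b35cdfb : CRef := CRef.mk (Pat.mk 0x10000000030000001800000001000000000000000000000000 0x50000000f0000001f000000030000001f0000000f000000060000000400000004 9 5) 0 0 (step_sound _ 129 [(rh5419adcd928dba20.shift 0 4), rhef499c3499c8e1bd] (by decide +kernel))
noncomputable def rheaed87a7e9f27921 : CRef := CRef.mk (Pat.mk 0x288000002c00000000800000000000000000000000000000000 0x50000000700000007000000070800000288000003ef0000077e00000777000007040000070400000100 9 11) 0 0 (step_sound _ 168 [(rh3b552d6e56c841dd.shift 0 1), (rh8195a2d7794c7cd2.shift 4 4), (rha009eea60430f826.shift 5 2), (rhb91b6a88a09d420b.shift 6 0)] (by decide +kernel))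
noncomputable def rhc5e66e3d1c7ab1f6 : CRef := CRef.mk (Pat.mk 0x400000004c000000600000002c000000000000000000000000 0x180000007c0000004c0000006e0000002f0000007a0000003f0000000a 9 7) 0 0 (step_sound _ 69 [(rh71222050f2c63a3a.shift 5 1), rhccf80a95c603969e] (by decide +kernel))
noncomputable def rhf66df9e0e4a72efc : CRef := CRef.mk (Pat.mk 0x80000000b000000000000000100000000000000000000000000000000 0x140000001c0000001c0000001c000000080000001f0000001c0000001f0000001c0000001c0000001c00000014 9 5) 0 0 (step_sound _ 163 [(rh064af1fbcb545c11.shift 0 3), (rh92758c3412962234.shift 0 4), rha54756a302b8ca04, (rha97eafd389ee3ce1.shift 0 2), (rhc2c0f24096bccdca.shift 2 3)] (by decide +kernel))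
noncomputable def rh2ca1500e879a3c28 : CRef := CRef.mk (Pat.mk 0x10000000160000000200000000000000000000000000000000 0x28000000380000003800000038000000100000001e0000003b00000038000000380000003800000008 9 6) 0 0 (step_sound _ 163 [(rhb91b6a88a09d420b.shift 1 0), (rheb0810cc63b001d8.shift 0 4)] (by decide +kernel))
noncomputable def rha01fdd81cdf76aa4 : CRef := CRef.mk (Pat.mk 0x43000000580000000000000000000000000000000000000000 0xa0000000e0000000e0000000e0000000430000007e000000ee000000e0000000e0000000e000000020 9 8) 0 0 (step_sound _ 165 [(rh2e85ec7b47efa312.shift 0 4), (rhb91b6a88a09d420b.shift 3 0), (rhcd3666e3c2d6988d.shift 0 4)] (by decide +kernel))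
noncomputable def rh5c2ce1fa343145b7 : CRef := CRef.mk (Pat.mk 0x1800000018000000080000000800000000 0x70000001f0000001b0000000f0000001f00000014 9 5) 0 0 (step_sound _ 130 [(rh50fbb5868c909700.shift 2 1), rh8c53cd00250235a8] (by decide +kernel))
noncomputable def rh69eaa8f72a6945f8 : CRef := CRef.mk (Pat.mk 0x44000000600000002c000000000000000000000000 0x400000044000000660000002f0000007e0000003f0000000a 9 7) 0 0 (step_sound _ 69 [(rh71222050f2c63a3a.shift 5 1), rhcd8abf348d670e57] (by decide +kernel))
noncomputable def rh163e1aad45935486 : CRef := CRef.mk (Pat.mk 0x4000000050000000400000000 0xa0000000e0000000e00000004000000ff0000007e000000f8 9 8) 0 0 (step_sound _ 130 [(rh1741680720c097b4.shift 1 1), (rh25208373db83e521.shift 2 0), (rh5abfc4c9d959be03.shift 1 0), rh7210c5738948ad11] (by decide +kernel))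
noncomputable def rh5545f6d56d702cfe : CRef := CRef.mk (Pat.mk 0x10000000530000005000000041000000000000000000000000 0xa5000000e7000000ff000000530000007e000000ef0000007f0000002f00000005 9 8) 0 0 (step_sound _ 198 [(rh1741680720c097b4.shift 5 3), (rh20966da26a1c2ae8.shift 5 2), rh4b6d1f1dbed377ad, (rh771d065bdc85bf2d.shift 5 2)] (by decide +kernel))
noncomputable def rhf96d0140d12c9e1a : CRef := CRef.mk (Pat.mk 0x5300000050000000400000004000000000 0x530000007e000003ee000003f8000007bc 9 11) 0 0 (step_sound _ 99 [(rh133713279a235f1c.shift 0 2), (rh6b97811909dabb93.shift 2 0), (rhb89be806f5e541fe.shift 0 2), (rhc10977e2d5b1bf53.shift 0 2)] (by decide +kernel))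
noncomputable def rh5ef71b3c80bd65ad : CRef := CRef.mk (Pat.mk 0x80000000a00000008000000080000000000000000000000000000000000000000 0x8000001ff000000fc000001ef0000000c0000001c0000001c0000001c00000014 9 9) 0 0 (step_sound _ 196 [(rh74d2f5fb27c42879.shift 2 0), (rh80650b8e93363f1e.shift 0 4), (rh9ebd639649ea671c.shift 0 6), (rhc6fcfba5efa2f321.shift 1 5)] (by decide +kernel))
noncomputable def rh0cb07b01b241e5bb : CRef := CRef.mk (Pat.mk 0x1200000013000000120000000000000000 0x50000000f0000001f0000000b0000001f0000001b000000130000000300000001 9 5) 0 0 (step_sound _ 161 [rh63dc2b656e521f0a, (rh68a777751bfeafdf.shift 0 2), (rh6db903dfd159fe19.shift 0 1), (rh7a7e08304268422e.shift 0 2)] (by decide +kernel))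
noncomputable def rh953fea31a1f0ba14 : CRef := CRef.mk (Pat.mk 0x10000000130000005800000000000000000000000000000000 0x40000001f0000001b000000fb000001cf0000000f0000000b00000001 9 9) 0 0 (step_sound _ 99 [(rh107e52fd5f4b8643.shift 2 3), rh726fe2d8bfa746d1, (rhf9af042da61fc652.shift 3 1)] (by decide +kernel))
noncomputable def rh873513404ad9d24b : CRef := CRef.mk (Pat.mk 0x20000000e00000000 0x3e3000001fe000003fc 9 10) 0 0 (step_sound _ 36 [(rh3244c3cc8379b070.shift 0 1), (rhe42bb21035df5e0c.shift 1 0)] (by decide +kernel))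
noncomputable def rhccd94abfa12c5f58 : CRef := CRef.mk (Pat.mk 0x4000000140000001600000000000000000000000000000000 0x28000000380000003c000000160000001f0000003b0000003e0000003a00000020 9 6) 0 0 (step_sound _ 97 [(rh3136b1eea67d4833.shift 0 1), rhe757a7284fc1c5ca, (rhf9af042da61fc652.shift 1 1)] (by decide +kernel))
noncomputable def rh09ec8ebd8125d5e7 : CRef := CRef.mk (Pat.mk 0x20000000300000001800000008000000000000000000000000 0x24000000360000007e0000001f0000001f0000000a00000002 9 7) 0 0 (step_sound _ 100 [rh59116f42ceecf9df, (rh71222050f2c63a3a.shift 4 2)] (by decide +kernel))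
noncomputable def rh33c3b1b84879eec1 : CRef := CRef.mk (Pat.mk 0x1200000003000000010000000080000000000000000 0xc0000000c000001ff0000003c0000001e0000000f0000003c0000001c 9 9) 0 0 (step_sound _ 166 [rh242767287c2b6973, (rh361cc68994bd8a63.shift 4 4)] (by decide +kernel))
noncomputable def rh95a34d8fb4b05711 : CRef := CRef.mk (Pat.mk 0x1200000003000000010000000080000000000000000 0xc0000000c000001ff0000003c0000001e0000001c0000000c0000000c 9 9) 0 0 (step_sound _ 166 [rh2370132f9e74bb47, (rh361cc68994bd8a63.shift 4 4)] (by decide +kernel))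
noncomputable def rhaf9987066762cdec : CRef := CRef.mk (Pat.mk 0x24000000060000000200000001000000000 0x80000001c0000001c000003ff0000007e0000003f0000003e00000028 9 10) 0 0 (step_sound _ 100 [(rh2b3584ef0f05e9c2.shift 3 3), (rhb103f40a53fe1424.shift 1 2), (rhb57c833171db5e3f.shift 1 0), (rhc39df0604ee922b2.shift 0 1)] (by decide +kernel))
noncomputable def rh6b0291ed71551829 : CRef := CRef.mk (Pat.mk 0xb00000009800000088000000000000000000000000 0x24000000bf000000df000000ff0000007f0000006c00000044 9 8) 0 0 (step_sound _ 100 [(rh0c3959da2349e21d.shift 1 0), (rh69abf2a6a3d0359e.shift 1 1), rh9e141fa6bc2add05, (rhab77603de2f0d7f2.shift 0 1)] (by decide +kernel))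
noncomputable def rhe186eaac5fec7b5c : CRef := CRef.mk (Pat.mk 0x90000000180000008c00000000 0x8000000380000003800000030000000f80000001f000000ff00000020 9 8) 0 0 (step_sound _ 101 [(rh361cc68994bd8a63.shift 3 2), rh47603ed4778fd1e9] (by decide +kernel))
noncomputable def rh3b457029118d9900 : CRef := CRef.mk (Pat.mk 0x30000000180000008c00000000 0x30000000740000003e0000001e000000ff00000023 9 8) 0 0 (step_sound _ 66 [(rh53b3c253cb0c65f4.shift 1 2), rh649cad3ce9f40b2c] (by decide +kernel))
noncomputable def rhedb42875cd4d0438 : CRef := CRef.mk (Pat.mk 0x90000000180000008c000000000000000000000000 0x3000000074000000fe0000001c000000ff000000270000000200000002 9 8) 0 0 (step_sound _ 196 [(rh5c5e593799055d58.shift 3 3), rhb3471bbac1bb101d] (by decide +kernel))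
noncomputable def rh418b75e5b9fc9cc3 : CRef := CRef.mk (Pat.mk 0x600000003000000018000000000000000000000000 0x2c0000002c0000007f0000003c0000001e0000000c0000000c0000000c 9 7) 0 0 (step_sound _ 131 [rh02d95980aef6155e, (rh53b3c253cb0c65f4.shift 2 4)] (by decide +kernel))
noncomputable def rh7874488d84c3f62f : CRef := CRef.mk (Pat.mk 0x20000000600000003800000118000000000000000000000000 0x4c000000ec0000007f00000038000001f80000004c0000000c0000000c 9 9) 0 0 (step_sound _ 101 [(rha8c5bd59cda30112.shift 2 0), rhe9c9348ba7ea0725, (rhf8edb192cdea7ada.shift 4 2)] (by decide +kernel))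
noncomputable def rhb9cf444f7ff92274 : CRef := CRef.mk (Pat.mk 0x10000000180000008e00000000 0x35000000370000001f0000001b000000fe00000027 9 8) 0 0 (step_sound _ 132 [(rh5c5e593799055d58.shift 3 1), rhd39cbd3b68a4b04b] (by decide +kernel))
noncomputable def rh6dfac56aa340ba01 : CRef := CRef.mk (Pat.mk 0x30000000180000008c000000000000000000000000 0x10000000100000003c0000001e000000ff000000270000000600000006 9 8) 0 0 (step_sound _ 130 [rh189eabfd2aeca85e, (rh53b3c253cb0c65f4.shift 1 4)] (by decide +kernel))
noncomputable def rh2e62b62755839230 : CRef := CRef.mk (Pat.mk 0x90000000980000008800000000000000000000000000000000 0x20000000f8000000d8000001ff0000007e0000007f0000005400000010 9 9) 0 0 (step_sound _ 99 [(rh71222050f2c63a3a.shift 3 2), rhaeed7d8f13066267] (by decide +kernel))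
noncomputable def rh37f2313aad020ba0 : CRef := CRef.mk (Pat.mk 0x1800000038000000000000000000000000 0x600000007000000070000001f0000003f0000000f0000000c0000000c 9 6) 0 0 (step_sound _ 98 [(rhbb7213d4724395ac.shift 0 1), (rhbe5fc5902345a0b9.shift 0 3), (rhc359ae14cfe16595.shift 1 0), (rhcc2be1f880c5ea3e.shift 0 2)] (by decide +kernel))
noncomputable def rh1a8dd197fbf93e7f : CRef := CRef.mk (Pat.mk 0x1800000038000000000000000000000000 0x40000001e0000003f0000007f0000007e0000007c 9 7) 0 0 (step_sound _ 130 [(rhb739f4f82bb681b4.shift 1 3), rhef80f603f505bf65] (by decide +kernel))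
noncomputable def rhd0549d47e0c723f2 : CRef := CRef.mk (Pat.mk 0x900000009800000088000000000000000000000000 0x400000027000000ff000000df000000f8000000780000005800000040 9 8) 0 0 (step_sound _ 165 [rh0e53d22a031edbcb, (rh361cc68994bd8a63.shift 3 4)] (by decide +kernel))
noncomputable def rh948e2eeed12cd59e : CRef := CRef.mk (Pat.mk 0x3c00000018000000080000000800000000 0x630000003f0000001b0000000f0000001f00000014 9 7) 0 0 (step_sound _ 129 [rh5816797891c67f01, (rhb739f4f82bb681b4.shift 0 3)] (by decide +kernel))
noncomputable def rh72da4a559e707d7e : CRef := CRef.mk (Pat.mk 0x1800000018000000080000000800000000 0x70000001f0000001b0000001f0000000f00000005 9 5) 0 0 (step_sound _ 130 [rh3f20436c3f549b15, (rh50fbb5868c909700.shift 2 1)] (by decide +kernel))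
noncomputable def rh27b2c04616a36fec : CRef := CRef.mk (Pat.mk 0x10000000100000001000000000 0x28000000380000003f0000003e0000007f0000001c0000001800000008 9 7) 0 0 (step_sound _ 132 [(rh1741680720c097b4.shift 3 1), (rh193da7fc9e1674f1.shift 3 0), (rh3b734c5288922837.shift 3 0), (rh771d065bdc85bf2d.shift 3 0), rhfe754b976f025ac1] (by decide +kernel))
noncomputable def rh08d77ba7f1022a52 : CRef := CRef.mk (Pat.mk 0x900000001a0000000a00000000000000000000000000000000 0x3500000037000000ff0000001b0000001e00000037000000380000003800000028 9 8) 0 0 (step_sound _ 228 [(rh5c5e593799055d58.shift 3 4), rhb4dfb04b233a0268] (by decide +kernel))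
noncomputable def rhdff8ee49a40a6b22 : CRef := CRef.mk (Pat.mk 0x1e00000000000000000000000000000000 0x50000000700000007000000070000001e00000007000000070000000700000005 9 5) 0 0 (step_sound _ 161 [(rh3244c3cc8379b070.shift 0 4), rh5492a090f7472398] (by decide +kernel))
noncomputable def rhe1f422e8172b7cfe : CRef := CRef.mk (Pat.mk 0x9000000018000000080000000000000000 0x400000067000000ff0000001e0000001c0000001c0000001c 9 8) 0 0 (step_sound _ 133 [(rh361cc68994bd8a63.shift 3 3), rh912a6c9ba21e3185] (by decide +kernel))
noncomputable def rhc00df95cb9c83796 : CRef := CRef.mk (Pat.mk 0x800000001800000088000000000000000000000000 0x3400000037000000ff0000001f000000ff0000003f0000003400000034 9 8) 0 0 (step_sound _ 164 [(rh358736babf21756e.shift 3 2), (rh422d1427940f8e6a.shift 0 2), (rh9cdee070315fb032.shift 3 2), rhb508c6a3cfac6721] (by decide +kernel))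
noncomputable def rhcf3aacaad9891ef5 : CRef := CRef.mk (Pat.mk 0x1000000018000000080000000000000000 0x170000001f0000001f0000000e0000000c0000000c 9 5) 0 0 (step_sound _ 35 [(rh71222050f2c63a3a.shift 3 0), rhc0b4dbf406018161] (by decide +kernel))
noncomputable def rh5f9066cea604717b : CRef := CRef.mk (Pat.mk 0x100000000300000001000000078000000000000000000000000 0x2000000020000001f40000003c0000001e0000007e000000070000000200000002 9 9) 0 0 (step_sound _ 130 [(rh3f8766e6ecb455ce.shift 2 3), rh734a2a47806d59a5] (by decide +kernel))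
noncomputable def rhb2585ae04cb39e9e : CRef := CRef.mk (Pat.mk 0x400000000c0000001c00000000000000000000000000000000 0x40000001c0000001c000000180000007c0000000f0000001c000000180000001c0000001c00000014 9 7) 0 0 (step_sound _ 160 [(rhab22b5b56e7b3243.shift 0 4), (rhc2b7295c9a896ef4.shift 2 0)] (by decide +kernel))
noncomputable def rh392e38e68fccc61b : CRef := CRef.mk (Pat.mk 0x180000009a00000000000000000000000000000000 0x30000000300000003800000018000000fe000000770000003e0000003f00000028 9 8) 0 0 (step_sound _ 100 [(rh0a6888916bcef86b.shift 3 0), (rh3cb04db3dd2b6a55.shift 3 1), (rh56d57b1e31de0a32.shift 1 2), (rhb3847ae9161819c8.shift 0 1)] (by decide +kernel))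
noncomputable def rhebff3093b63dead8 : CRef := CRef.mk (Pat.mk 0x180000001a00000000000000000000000000000000 0x4000000070000000f0000001b0000001e000000770000003e0000003f00000028 9 7) 0 0 (step_sound _ 100 [(rh0a6888916bcef86b.shift 3 0), (rh6050bee48016523f.shift 0 2), (rhb3847ae9161819c8.shift 0 1)] (by decide +kernel))
noncomputable def rh312dabc1cbb423b3 : CRef := CRef.mk (Pat.mk 0x1000000018000000080000000000000000 0x80000000c0000000f0000001f0000001f0000001e0000001c0000001c 9 5) 0 0 (step_sound _ 35 [(rh71222050f2c63a3a.shift 3 0), rhf1292e3d9a433dd0] (by decide +kernel))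
noncomputable def rh83ce26c69b07ec87 : CRef := CRef.mk (Pat.mk 0xd00000001800000008000000000000000000000000 0x80000003c0000007f000000df0000001c0000001c000000340000003000000030 9 8) 0 0 (step_sound _ 196 [(rh5c5e593799055d58.shift 3 3), rhad392d63b0aaf61a] (by decide +kernel))
noncomputable def rhd7959e60b8e94a3b : CRef := CRef.mk (Pat.mk 0x3800000030000000000000000000000000 0xc0000001f000000380000003e0000007e000001fc0000007c 9 9) 0 0 (step_sound _ 68 [(rh40241bd608e5be1a.shift 3 0), rh593bcb08a4a5db9f, (rh59884d4b0b1c90ac.shift 1 0)] (by decide +kernel))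
noncomputable def rh0eeabcc14891bbd5 : CRef := CRef.mk (Pat.mk 0x8000000180000003000000020 0x20000000a0000001f0000001f0000007e0000003600000024 9 7) 0 0 (step_sound _ 100 [(rh2145e1d24b96a57e.shift 4 0), rh42c52fc930a7b45d] (by decide +kernel))
noncomputable def rh600606c7176b9038 : CRef := CRef.mk (Pat.mk 0x80000001000000030000001200000000000000000 0x1c0000003c0000000f0000001e0000003c000001ff0000000c0000000c 9 9) 0 0 (step_sound _ 70 [rh27d885408af946a2, (rh2fe78cc5ca4405d8.shift 4 2)] (by decide +kernel))
noncomputable def rh79b7e25a3d01db4f : CRef := CRef.mk (Pat.mk 0x80000001000000030000001200000000000000000 0xc0000000c0000001c0000001e0000003c000001ff0000000c0000000c 9 9) 0 0 (step_sound _ 70 [(rh2fe78cc5ca4405d8.shift 4 2), rh381d93bca1a506e4] (by decide +kernel))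
noncomputable def rh3ebec17117179133 : CRef := CRef.mk (Pat.mk 0x10000000200000006000000240000000000000000000000000 0x280000003e0000003f0000007e000003ff0000001c0000001c00000008 9 10) 0 0 (step_sound _ 132 [(rh5bb78067c54b222b.shift 3 3), rh5f648fe2a095a1a8, (rhb2afcb5db661472f.shift 1 3), (rhfcce6d330ab93c51.shift 1 1)] (by decide +kernel))
noncomputable def rhc05206e4f349df6d : CRef := CRef.mk (Pat.mk 0x8800000098000000b000000000 0x440000006c0000007f000000ff000000df000000bf00000024 9 8) 0 0 (step_sound _ 100 [(rh142c5eeb8c5640bc.shift 1 0), (rh26ffcb37093465b4.shift 0 1), (rhba6b5647c62b116f.shift 1 0), rhbf3faf08f20d30dc] (by decide +kernel))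
noncomputable def rh0b5d706188135a44 : CRef := CRef.mk (Pat.mk 0x8c000000180000009000000000000000000000000000000000 0x20000000ff0000001f000000f800000030000000380000003800000008 9 8) 0 0 (step_sound _ 133 [(rh2fe78cc5ca4405d8.shift 3 4), rhf12ace6107562e72] (by decide +kernel))
noncomputable def rhd4893d3ef287fca6 : CRef := CRef.mk (Pat.mk 0x8c00000018000000300000000000000000 0x23000000ff0000001e0000003e0000007400000030 9 8) 0 0 (step_sound _ 98 [rh0244fa68b8a7406a, (rhb739f4f82bb681b4.shift 1 2)] (by decide +kernel))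
noncomputable def rhd5998ccc2e9c7f1e : CRef := CRef.mk (Pat.mk 0x8c00000018000000900000000000000000 0x20000000200000027000000ff0000001c000000fe0000007400000030 9 8) 0 0 (step_sound _ 36 [rh0e48a6d525548132, (rh7b1f1fb55310c477.shift 3 0)] (by decide +kernel))
noncomputable def rh1422c583598a92f3 : CRef := CRef.mk (Pat.mk 0x1800000030000000600000000000000000 0xc0000000c0000000c0000001e0000003c0000007f0000002c0000002c 9 7) 0 0 (step_sound _ 99 [rh2f76c9cbfdece845, (rhb739f4f82bb681b4.shift 2 2)] (by decide +kernel))
noncomputable def rhaf98fef387977846 : CRef := CRef.mk (Pat.mk 0x11800000038000000600000002000000000 0xc0000000c0000004c000001f8000000380000007f000000ec0000004c 9 9) 0 0 (step_sound _ 133 [(rh04e571695666b5c1.shift 4 1), (rh400dcec132c42705.shift 2 1), rhba91484cf1964543] (by decide +kernel))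
noncomputable def rhe4cf5c9f9d09700b : CRef := CRef.mk (Pat.mk 0x8e00000018000000100000000000000000 0x27000000fe0000001b0000001f0000003700000035 9 8) 0 0 (step_sound _ 36 [rh5174af0ecfd92fb5, (rh7b1f1fb55310c477.shift 3 0)] (by decide +kernel))
noncomputable def rh3d3bc1a0fd0375df : CRef := CRef.mk (Pat.mk 0x8c00000018000000300000000000000000 0x60000000600000027000000ff0000001e0000003c0000001000000010 9 8) 0 0 (step_sound _ 98 [rh6ce3d05bb3cb8753, (rhb739f4f82bb681b4.shift 1 2)] (by decide +kernel))
noncomputable def rhb6dd251735550394 : CRef := CRef.mk (Pat.mk 0x88000000980000009000000000 0x10000000540000007f0000007e000001ff000000d8000000f800000020 9 9) 0 0 (step_sound _ 131 [(rh2145e1d24b96a57e.shift 3 1), rh364c932959ecd537] (by decide +kernel))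
noncomputable def rh05a2cd34b7a6e80e : CRef := CRef.mk (Pat.mk 0x3800000018000000000000000000000000 0xc0000000c0000000f0000003f0000001f000000070000000700000006 9 6) 0 0 (step_sound _ 130 [(rh4592e78c73a42485.shift 1 0), (rhb14e2588a8d71db8.shift 0 3), (rhba89ab7cb81bcc90.shift 0 3), (rhcd4d16d28964fbaf.shift 0 1)] (by decide +kernel))
noncomputable def rh2efd9b6ae0d18ff5 : CRef := CRef.mk (Pat.mk 0x380000001800000000 0x7c0000007e0000007f0000003f0000001e00000004 9 7) 0 0 (step_sound _ 34 [rh2cc863de7e36293a, (rh53b3c253cb0c65f4.shift 1 1)] (by decide +kernel))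
noncomputable def rhe24f1daa0ef6e12c : CRef := CRef.mk (Pat.mk 0x8800000098000000900000000000000000 0x400000005800000078000000f8000000df000000ff0000002700000004 9 8) 0 0 (step_sound _ 69 [(rh2fe78cc5ca4405d8.shift 3 2), rhf4c07ab58b47d967] (by decide +kernel))
noncomputable def rha3207dec93f774ce : CRef := CRef.mk (Pat.mk 0x800000008000000180000003c00000000 0x140000001f0000000f0000001b0000003f00000063 9 7) 0 0 (step_sound _ 33 [(rh53b3c253cb0c65f4.shift 0 1), rha4f3a1639dd04c76] (by decide +kernel))
noncomputable def rhae2d772bc0db32c8 : CRef := CRef.mk (Pat.mk 0x800000008000000180000001800000000 0x50000000f0000001f0000001b0000001f00000007 9 5) 0 0 (step_sound _ 34 [rh30c269dd0a5f1dca, (rh932754581e0f4330.shift 2 0)] (by decide +kernel))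
noncomputable def rh29046fa91b9b5148 : CRef := CRef.mk (Pat.mk 0x10000000100000001000000000000000000000000000000000 0x8000000180000001c0000007f0000003e0000003f0000003800000028 9 7) 0 0 (step_sound _ 100 [(rh1109a082d1455468.shift 0 2), (rh46baee19951a66e7.shift 3 1), (rh6eff4158bb400f47.shift 3 1), (rhc4526fc8abf298b6.shift 3 1), (rhc850b49d039efae1.shift 3 0)] (by decide +kernel))
noncomputable def rhebd34c600eca3907 : CRef := CRef.mk (Pat.mk 0xa0000001a000000900000000000000000 0x280000003800000038000000370000001e0000001b000000ff0000003700000035 9 8) 0 0 (step_sound _ 36 [(rh7b1f1fb55310c477.shift 3 0), rhb5f8ccef2adfead0] (by decide +kernel))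
noncomputable def rh4e334009c4c4278c : CRef := CRef.mk (Pat.mk 0x1e00000000000000000000000000000000 0x50000000700000007000000070000001e00000007000000070000000700000005 9 5) 0 0 (step_sound _ 97 [rh623e465634380f59, (rheb0810cc63b001d8.shift 0 3)] (by decide +kernel))
noncomputable def rhab4924a08ee69f28 : CRef := CRef.mk (Pat.mk 0x800000018000000900000000000000000 0x1c0000001c0000001c0000001e000000ff0000006700000004 9 8) 0 0 (step_sound _ 69 [(rh2fe78cc5ca4405d8.shift 3 2), rh47a58a985a35773d] (by decide +kernel))
noncomputable def rh4dfb617f66fd0b73 : CRef := CRef.mk (Pat.mk 0x8800000018000000800000000000000000 0x34000000340000003f000000ff0000001f000000ff0000003700000034 9 8) 0 0 (step_sound _ 68 [(rh4d5ec4caa1ea9a2e.shift 3 0), (rh7e1098702e50f2b0.shift 3 0), (rhb102f5944f000458.shift 0 1), rhd4ee616373a69375] (by decide +kernel))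
noncomputable def rhd486dac1c108fa29 : CRef := CRef.mk (Pat.mk 0x8000000180000001000000000 0xc0000000c0000000e0000001f0000001f00000017 9 5) 0 0 (step_sound _ 131 [rh1276910a2c206cfd, (rh2145e1d24b96a57e.shift 3 1)] (by decide +kernel))
noncomputable def rh20c667e3d5c5db6a : CRef := CRef.mk (Pat.mk 0x780000001000000030000001000000000000000000 0x200000002000000070000007e0000001e0000003c000001f40000002000000020 9 9) 0 0 (step_sound _ 130 [rh3020ef2008af56eb, (rh80fcd6d0a18cb2dd.shift 2 4)] (by decide +kernel))
noncomputable def rh443c9a60bc3e82ff : CRef := CRef.mk (Pat.mk 0x1c0000000c0000004000000000000000000000000000000000 0x140000001c0000001c000000180000001c0000000f0000007c000000180000001c0000001c00000004 9 7) 0 0 (step_sound _ 160 [(rh24ae073cf30720c4.shift 0 5), (rh749922d4be4b3add.shift 2 0)] (by decide +kernel))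
noncomputable def rhed262fbe22d2ce59 : CRef := CRef.mk (Pat.mk 0x9a00000018000000000000000000000000 0x280000003f0000003e00000077000000fe00000018000000380000003000000030 9 8) 0 0 (step_sound _ 164 [(rh32431e66bbf434a4.shift 3 2), (rh503dd4575245365b.shift 3 2), (rhcde25cfa3581ac09.shift 0 3), (rhd53de04377ff6328.shift 1 0)] (by decide +kernel))
noncomputable def rhfded4b9358629068 : CRef := CRef.mk (Pat.mk 0x1a00000018000000000000000000000000 0x280000003f0000003e000000770000001e0000001b0000000f0000000700000004 9 7) 0 0 (step_sound _ 164 [(rh32431e66bbf434a4.shift 3 2), rh837581486774079d, (rhcde25cfa3581ac09.shift 0 3)] (by decide +kernel))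
noncomputable def rh719ad152a87e379e : CRef := CRef.mk (Pat.mk 0x80000001800000010000000000000000000000000 0x1c0000001c0000001e0000001f0000001f0000000f0000000c00000008 9 5) 0 0 (step_sound _ 195 [(rh2145e1d24b96a57e.shift 3 3), rh86ad8d6e9d6617b0] (by decide +kernel))
noncomputable def rh874b5bc8ddb3396a : CRef := CRef.mk (Pat.mk 0x800000018000000d0000000000000000000000000 0x3000000030000000340000001c0000001c000000df0000007f0000003c00000008 9 8) 0 0 (step_sound _ 68 [rh526d683992292443, (rh7b1f1fb55310c477.shift 3 1)] (by decide +kernel))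
noncomputable def rhaf244288f4c5c93e : CRef := CRef.mk (Pat.mk 0x30000000380000000000000000 0x7c000001fc0000007e0000003e000000380000001f0000000c 9 9) 0 0 (step_sound _ 132 [(rh28152048bc8b598f.shift 1 1), (rh37d9ceebb86d75d1.shift 3 1), rh501162af44546794] (by decide +kernel))
noncomputable def rhc6a781b022d74355 : CRef := CRef.mk (Pat.mk 0x1480000014c000000480000000000000000000000000 0x22000000330000003f8e000016fe00003fff00007b0000003a0000002800 9 15) 0 0 (step_sound _ 133 [(rh2b3584ef0f05e9c2.shift 4 4), (rh5bb78067c54b222b.shift 4 3), (rh77de483a0fd23afa.shift 6 0), (rha6b5e59d94079c0e.shift 0 3)] (by decide +kernel))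
noncomputable def rh01242416325952f7 : CRef := CRef.mk (Pat.mk 0x12000000030000001200000000 0x5000000070000000700000006000000060000001f000000030000001e00000004 9 5) 0 0 (step_sound _ 98 [(rh361cc68994bd8a63.shift 0 2), rha8ff6568553180ed] (by decide +kernel))
noncomputable def rh1ce8fb1c4a9f647b : CRef := CRef.mk (Pat.mk 0x20000000300000002000000000 0x40000000700000007f0000007e00000070000000300000003000000010 9 7) 0 0 (step_sound _ 133 [(rh03dfdf12d5937476.shift 4 0), (rh69f0587a21bb077f.shift 4 1), rh6bc4ad39fdd95f73, (rhc85cc95794737cf7.shift 4 1)] (by decide +kernel))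
noncomputable def rhed12c7be3d20c175 : CRef := CRef.mk (Pat.mk 0x480000000c00000018000000000000000000000000 0x10000000780000000c0000001f0000003f0000001700000002 9 7) 0 0 (step_sound _ 164 [rh13cfb81d5721d6d0, (rh361cc68994bd8a63.shift 2 4)] (by decide +kernel))
noncomputable def rhda6d4138a62ba995 : CRef := CRef.mk (Pat.mk 0x480000000f000000090000000000000000 0x100000001c0000001e0000003e0000006e0000000f0000000f0000000500000001 9 7) 0 0 (step_sound _ 163 [(rh03dfdf12d5937476.shift 2 1), rh27dde67f94d0c18e, (rh69f0587a21bb077f.shift 2 2), (rhc85cc95794737cf7.shift 2 2)] (by decide +kernel))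
noncomputable def rhf14690b5ab5bf131 : CRef := CRef.mk (Pat.mk 0x400000000c0000001800000000000000000000000000000000 0x140000001c0000001c000000180000007c0000000f0000001c000000180000001c0000001c00000014 9 7) 0 0 (step_sound _ 161 [(rh63c8e784ce2a8ab1.shift 2 0), (rhb739f4f82bb681b4.shift 0 4)] (by decide +kernel))
noncomputable def rh0397c05dfe96f207 : CRef := CRef.mk (Pat.mk 0x80000007800000053000000120000000000000000 0x80000000e8000000f8000000e80000007800000053000000fe000000e0000000a0 9 8) 0 0 (step_sound _ 66 [(rh29c4a643c22dd7d0.shift 3 0), (rh2fe78cc5ca4405d8.shift 0 2)] (by decide +kernel))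
noncomputable def rh8899cac0c6c33185 : CRef := CRef.mk (Pat.mk 0x20000000300000002000000000 0x40000000700000007f0000007e00000070000000300000003000000010 9 7) 0 0 (step_sound _ 133 [(rh03dfdf12d5937476.shift 4 0), (rh69f0587a21bb077f.shift 4 1), rh6bc4ad39fdd95f73, (rh769be3fe24eee174.shift 4 1)] (by decide +kernel))
noncomputable def rhf07649b063a7e700 : CRef := CRef.mk (Pat.mk 0x100000000300000012000000000000000000000000 0x5000000070000000700000007000000060000001f000000030000001e000000070000000700000005 9 5) 0 0 (step_sound _ 98 [(rh2fe78cc5ca4405d8.shift 0 3), rhac55f7bf52687e52] (by decide +kernel))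
noncomputable def rh1cb2cfd7037c011c : CRef := CRef.mk (Pat.mk 0x4c0000000c00000008 0x1f0000001f0000003f0000007e0000000c00000008 9 7) 0 0 (step_sound _ 68 [(rh361cc68994bd8a63.shift 2 1), rh609872bffbe364ea] (by decide +kernel))
noncomputable def rh2b5ae7b2a196cdc2 : CRef := CRef.mk (Pat.mk 0x1c000000300000000000000000000000000000000000000000 0x4000000140000001c0000001c0000003f0000007f0000007f0000003e0000003a00000028 9 7) 0 0 (step_sound _ 132 [(rh0a6888916bcef86b.shift 3 1), (rh412229cdb1cd8fa9.shift 1 0), (rh43d8dfd721575dfb.shift 3 1), (rh8c12254ab6ceca75.shift 0 1), (rhd1779d7de7f8215b.shift 3 1)] (by decide +kernel))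
noncomputable def rh8cb19ab572662beb : CRef := CRef.mk (Pat.mk 0x1c00000038000000000000000000000000 0xc0000000c0000000c0000001c0000003e0000007c000000ff0000002c 9 8) 0 0 (step_sound _ 163 [(rh3e595262c1b737ad.shift 3 2), rh4be33259bb102110, (rhb3e5613249985042.shift 2 0)] (by decide +kernel))
noncomputable def rha60d8ebffcff8b30 : CRef := CRef.mk (Pat.mk 0x180000009800000000000000000000000000000000 0xc0000001e000000f80000007e0000007f0000003e00000028 9 8) 0 0 (step_sound _ 133 [rh08abaaa17308cf7d, (rh2fe78cc5ca4405d8.shift 3 4)] (by decide +kernel))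
noncomputable def rh79e8415602b59adc : CRef := CRef.mk (Pat.mk 0x3800000070000000000000000000000000 0x8000000380000007e000000fe0000007f0000007c 9 8) 0 0 (step_sound _ 99 [rh057c4fb73ca17b64, (rh67a4f40273f88ea0.shift 1 0), (rhcc2be1f880c5ea3e.shift 1 2), (rhe153806bfe3acc65.shift 1 2)] (by decide +kernel))
noncomputable def rh86570a14527af3c5 : CRef := CRef.mk (Pat.mk 0x80000001800000018000000000000000000000000 0x40000000c0000001e0000001f0000001f0000001f0000000c 9 5) 0 0 (step_sound _ 68 [rh0aa6175f824af332, (rh7b1f1fb55310c477.shift 3 1)] (by decide +kernel))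
noncomputable def rh523884895dbd0349 : CRef := CRef.mk (Pat.mk 0x80000001800000098000000000000000000000000 0x800000018000000df0000007f000000fc0000001c 9 8) 0 0 (step_sound _ 67 [(rh4053c12da95c0aa0.shift 3 0), (rh46530d756bdf8511.shift 2 0), (rh8cdd36b03d57a2f6.shift 2 0), (rha298beecb8c016e1.shift 0 1)] (by decide +kernel))
noncomputable def rh09196501705d2386 : CRef := CRef.mk (Pat.mk 0x100000001800000088000000000000000000000000 0x1800000018000000180000001f000000ff000000370000003400000034 9 8) 0 0 (step_sound _ 196 [rh30a9b2ae13910fe4, (rh5c5e593799055d58.shift 3 3)] (by decide +kernel))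
noncomputable def rh06a3fb0bcf0f8cce : CRef := CRef.mk (Pat.mk 0x5800000013000000100000000000000000 0x50000000f0000000f0000000f0000007b0000001b000000170000000700000005 9 7) 0 0 (step_sound _ 163 [rhc60f47f785060e23, (rhe072fffdd2fccf38.shift 3 2)] (by decide +kernel))
noncomputable def rh72f4fa4c6501986f : CRef := CRef.mk (Pat.mk 0x80000000c000000680000000000000000000000000000000000000000 0xc0000000c0000006c0000003f0000003f0000001f0000001c00000014 9 7) 0 0 (step_sound _ 131 [(rh0a6888916bcef86b.shift 2 1), rh412229cdb1cd8fa9, (rh43d8dfd721575dfb.shift 2 1), (rhd1779d7de7f8215b.shift 2 1), (rhd630af2e39ca770f.shift 2 3)] (by decide +kernel))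
noncomputable def rh33662ae0fd178e68 : CRef := CRef.mk (Pat.mk 0x10000000100000001800000000000000000000000000000000 0x800000018000000180000001f0000003f0000003f0000002c00000004 9 6) 0 0 (step_sound _ 100 [rh5da5ff6b5e993966, (rh63dc2b656e521f0a.shift 3 1), (rh8cdd36b03d57a2f6.shift 3 1), (rh8ff3dde5b1c639e0.shift 3 1)] (by decide +kernel))
noncomputable def rhb2a95bb7ae3bdff7 : CRef := CRef.mk (Pat.mk 0x800000090000000180000009000000000 0x4000000040000000c0000000f000000fc0000001f000000ff00000004 9 8) 0 0 (step_sound _ 99 [(rh2145e1d24b96a57e.shift 3 1), rh333816e82cf72c91] (by decide +kernel))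
noncomputable def rh3ea8aa306a93cd67 : CRef := CRef.mk (Pat.mk 0x8000000900000001800000000 0x1c0000003c0000007e0000007f000000f80000001e00000004 9 8) 0 0 (step_sound _ 69 [rh0a8ed9f9cc4bf7a7, (rh361cc68994bd8a63.shift 3 1)] (by decide +kernel))
noncomputable def rh2bd13ad897859d7b : CRef := CRef.mk (Pat.mk 0x80000008000000018000000300000000000000000 0x340000007c000000fc0000001e0000003f0000003700000014 9 8) 0 0 (step_sound _ 98 [rh2cf94225fdf7c48f, (rhb739f4f82bb681b4.shift 1 2)] (by decide +kernel))
noncomputable def rhce27654737584e92 : CRef := CRef.mk (Pat.mk 0x10000001000000003000000060000000000000000000000000000000000000000 0x50000000f0000001e00000003000000070000000600000006000000070000000700000005 9 5) 0 0 (step_sound _ 225 [(rh6196b452c518de56.shift 0 4), rh99f26731b215bf54, (rhd626cb2a88a0bee7.shift 0 4), (rhe1f1aab5318cd34b.shift 0 5)] (by decide +kernel))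
noncomputable def rh550aaf4dad24721d : CRef := CRef.mk (Pat.mk 0x400000000c000000480000000800000000000000000000000000000000 0x10000000780000000f0000007c0000001c0000000c0000001c0000001c00000014 9 7) 0 0 (step_sound _ 164 [(rh2fe78cc5ca4405d8.shift 2 5), rhc2f888aede60dcbf] (by decide +kernel))
noncomputable def rh40843b252af69935 : CRef := CRef.mk (Pat.mk 0x400000000c00000018000000080000000000000000 0x10000000780000000f0000001f0000003f0000001700000002 9 7) 0 0 (step_sound _ 129 [rh7403c827bda2f2c8, (rhb739f4f82bb681b4.shift 0 3)] (by decide +kernel))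
noncomputable def rhb57758181049d199 : CRef := CRef.mk (Pat.mk 0x80000000a40000003400000004000000040000000000000000 0x140000001c0000001c0000001c0000000a4000001f4000003df000001fe000001da00000100 9 10) 0 0 (step_sound _ 100 [(rh0f7282f9ea8e6b7a.shift 1 1), (rh1a41199cb1732a22.shift 3 0), (rh85aeda6ee413ef40.shift 0 1), (rhc4ec7d1c5025eeda.shift 1 1), (rheb1cf7630c4718b6.shift 1 1)] (by decide +kernel))
noncomputable def rhcaf75b0449f51db2 : CRef := CRef.mk (Pat.mk 0x30000001200000002000000020000000000000000000000000000000000000000 0x30000001e00000007000000030000000300000007000000070000000700000005 9 5) 0 0 (step_sound _ 226 [(rh2fe78cc5ca4405d8.shift 0 7), rha708f8dbd677a0cf] (by decide +kernel))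
noncomputable def rh240ea8fb23f6808e : CRef := CRef.mk (Pat.mk 0x82000000b0000000a600000080 0x700000057000000ff000001df000000f7000000a700000085 9 9) 0 0 (step_sound _ 100 [(rh0dda944375fef289.shift 1 2), rh859fe1bb7f85965f, (rh8fc62e25076e002b.shift 4 0)] (by decide +kernel))
noncomputable def rha21684b98af2c6f4 : CRef := CRef.mk (Pat.mk 0x190000000b0000000a 0x40000000c0000001c0000001d0000001f0000001d0000001b0000000a 9 5) 0 0 (step_sound _ 96 [rh2145e1d24b96a57e, rhac65a468c58fcab5] (by decide +kernel))
noncomputable def rh1df22c63ef4be1b5 : CRef := CRef.mk (Pat.mk 0x410000005800000050000000000000000000000000 0x80000000e8000000f80000006f0000007800000050000000e0000000e0000000a0 9 8) 0 0 (step_sound _ 70 [(rh6eff4158bb400f47.shift 5 0), (rh8ff3dde5b1c639e0.shift 5 0), (rha484c3d71fb115e6.shift 0 2), (rhc4526fc8abf298b6.shift 5 0)] (by decide +kernel))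
noncomputable def rhcb17e3a0f213aed1 : CRef := CRef.mk (Pat.mk 0x4000000000000000c000000180000000000000000000000000000000000000000 0xc0000000c000000080000000c0000001f0000003f0000001f0000001e0000001c00000014 9 6) 0 0 (step_sound _ 227 [(rh6196b452c518de56.shift 2 4), rh88726f9b8ae45453, (rha52e0141694f1c7d.shift 2 4), (rhb23658ecdd7ce5df.shift 2 4)] (by decide +kernel))
noncomputable def rh998ef3be58cacbe7 : CRef := CRef.mk (Pat.mk 0x8000000000000001800000090000000000000000000000000 0x1c0000001c0000001c00000018000000ff0000006c0000000c0000000c 9 8) 0 0 (step_sound _ 163 [(rh2145e1d24b96a57e.shift 3 3), rh3caba516acc46302] (by decide +kernel))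
noncomputable def rh751ab56a6d6cdd62 : CRef := CRef.mk (Pat.mk 0x100000006000000030000001000000000 0x50000000700000007000000060000000700000007000000030000001f00000007 9 5) 0 0 (step_sound _ 33 [rh12452934acb847d5, rha8ff6568553180ed, rhc705a4e0321a1bff] (by decide +kernel))
noncomputable def rhea295a63eadec6e1 : CRef := CRef.mk (Pat.mk 0x100000006000000030000001000000000000000000000000000000000 0x50000000700000007000000060000000700000007000000030000001f00000006000000070000000700000001 9 5) 0 0 (step_sound _ 129 [rh0ac2c7be15b134d5, (rh215e11e099257d75.shift 1 3), (rha8ff6568553180ed.shift 0 3), (rhc705a4e0321a1bff.shift 0 3)] (by decide +kernel))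
noncomputable def rh66bcdea7755dce09 : CRef := CRef.mk (Pat.mk 0x1000000060000000300000010000000000000000000000000 0x50000000700000007000000060000000700000007000000030000001e000000070000000700000005 9 5) 0 0 (step_sound _ 97 [rh1b9022be4f7af407, (rha8ff6568553180ed.shift 0 2), rhc05d451ce3dd5e48, (rhc705a4e0321a1bff.shift 0 2)] (by decide +kernel))
noncomputable def rha89fcbfd21d03fc3 : CRef := CRef.mk (Pat.mk 0x4000000480000000c000000000000000000000000 0x100000003b0000001f0000007e0000000f000000060000000600000006 9 7) 0 0 (step_sound _ 132 [(rh361cc68994bd8a63.shift 2 3), rh67f70ce1828ccc82] (by decide +kernel))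
noncomputable def rhd75964fda5e1ef2c : CRef := CRef.mk (Pat.mk 0x8000000300000001800000080000000000000000000000000 0x40000002f0000003c0000001f000000ff0000007f0000003c0000003c 9 8) 0 0 (step_sound _ 99 [(rh183fd3c76fc48792.shift 0 1), rh1bdedcf86a4eb544, rh2ed163ab0b248192, (rha6cbd052c746e3e6.shift 2 1)] (by decide +kernel))
noncomputable def rh10358f26b5d9b703 : CRef := CRef.mk (Pat.mk 0x80000000c000000480000000000000000000000000000000000000000 0x80000000c0000007f0000003f0000001f0000001e0000001c00000014 9 7) 0 0 (step_sound _ 164 [(rh2fe78cc5ca4405d8.shift 2 5), rh88726f9b8ae45453] (by decide +kernel))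
noncomputable def rh4a999881715a1306 : CRef := CRef.mk (Pat.mk 0x80000000800000018000000800000000000000000000000000000000000000000 0x40000000c0000000c0000001f000000ff0000001c0000001c0000001c0000001c00000014 9 8) 0 0 (step_sound _ 163 [(rh79e4170ed8274321.shift 0 4), (rhb40cded1ce9244b1.shift 2 0), (rhc4526fc8abf298b6.shift 2 3), (rhe3db86fd46dd130f.shift 2 2)] (by decide +kernel))
noncomputable def rhd27ba24d0e899fd0 : CRef := CRef.mk (Pat.mk 0x3000000020000002200000022000000000 0x3cf000001fe000001fe000003200000023000000010 9 10) 0 0 (step_sound _ 134 [(rh2f68792b6b779e96.shift 5 1), rh4ebfc2d05b10a946] (by decide +kernel))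
noncomputable def rh6baf06259829d08a : CRef := CRef.mk (Pat.mk 0x20000000200000022000000220 0x3df000001fe000001fe0000032000000220 9 10) 0 0 (step_sound _ 100 [(rh50fbb5868c909700.shift 4 0), rha656b0e8264085e9] (by decide +kernel))
noncomputable def rhb49ddddc37b5f7cb : CRef := CRef.mk (Pat.mk 0x20000002200000006000000020 0x3de000001fe000003f70000006000000020 9 10) 0 0 (step_sound _ 102 [(rh2f68792b6b779e96.shift 5 0), rhff22dde660c0d331] (by decide +kernel))
noncomputable def rhf7625b4186c7df3e : CRef := CRef.mk (Pat.mk 0x410000005000000053000000500000000000000000 0x50000002f0000007f000000ef0000007e000000530000005f0000000500000001 9 8) 0 0 (step_sound _ 197 [rh7b2a5389fbdeb937, (rhffd04209dc8ea796.shift 5 2)] (by decide +kernel))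
noncomputable def rh7e14e553bf12cb32 : CRef := CRef.mk (Pat.mk 0x410000005000000053000000500000000000000000 0x85000000ef000000ff0000006f0000007e000000530000005f0000000500000001 9 8) 0 0 (step_sound _ 131 [(rha484c3d71fb115e6.shift 0 2), rhea73a7dfb27367a9, (rhee3dcc851cfeecaf.shift 0 3), (rhf374e0ffc9756f39.shift 0 2)] (by decide +kernel))
noncomputable def rh4e61d3d54bb54f3c : CRef := CRef.mk (Pat.mk 0x100000001400000014 0x280000003800000038000001ff000000fe000000fb0000003e00000014 9 9) 0 0 (step_sound _ 100 [(rh1741680720c097b4.shift 3 0), (rh2d385d8575299c6e.shift 1 0), (rh6807a10dba0e3fd1.shift 1 0), (rh74e5b4bbdb03b72a.shift 1 0), rhaa1314a9d741ee30] (by decide +kernel))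
noncomputable def rh4e520f12e938eac9 : CRef := CRef.mk (Pat.mk 0x480000014c0000014800000000000000000 0x280000003a0000007b0000003fff000016fe00003f8e0000330000002200 9 15) 0 0 (step_sound _ 101 [(rh2b3584ef0f05e9c2.shift 4 3), (rh4e8d4a68c5715d9b.shift 6 0), (rh5bb78067c54b222b.shift 4 2), (rhb994459733f41147.shift 0 2)] (by decide +kernel))
noncomputable def rh576ac54ab1059997 : CRef := CRef.mk (Pat.mk 0x1200000003000000120000000000000000000000000000000000000000 0x40000001e000000030000001f0000000600000006000000070000000700000005 9 5) 0 0 (step_sound _ 162 [(rh2fe78cc5ca4405d8.shift 0 5), rh970a0cc351b94a12] (by decide +kernel))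
noncomputable def rh09378e915c84f1be : CRef := CRef.mk (Pat.mk 0x20000000300000002000000000000000000000000000000000 0x100000003000000030000000700000007e0000007f0000007000000040 9 7) 0 0 (step_sound _ 101 [(rh89cf5152879421f3.shift 4 0), (rh8cdd36b03d57a2f6.shift 4 1), (rhe286c75f2739cce2.shift 4 2), (rhe5a6973d56949a77.shift 0 2)] (by decide +kernel))
noncomputable def rhadc87d160dfd77a4 : CRef := CRef.mk (Pat.mk 0x180000000c0000004800000000 0x2000000170000003f0000001f0000000c0000007800000010 9 7) 0 0 (step_sound _ 36 [(rh2fe78cc5ca4405d8.shift 2 1), rhd4e7a2fb3491d6cd] (by decide +kernel))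
noncomputable def rh4aae853d14b3fd76 : CRef := CRef.mk (Pat.mk 0x90000000f0000004800000000000000000000000000000000 0x1000000050000000f0000000f0000006e0000003e0000001e0000001c00000010 9 7) 0 0 (step_sound _ 99 [(rh89cf5152879421f3.shift 2 0), (rh8cdd36b03d57a2f6.shift 2 1), (rhc77d4a09f6ff3b2b.shift 0 2), (rhe286c75f2739cce2.shift 2 2)] (by decide +kernel))
noncomputable def rh53b1bd3b0f5d6ff2 : CRef := CRef.mk (Pat.mk 0x180000000c0000004000000000000000000000000000000000 0x140000001c0000001c000000180000001c0000000f0000007c000000180000001c0000001c00000014 9 7) 0 0 (step_sound _ 161 [(rh53b3c253cb0c65f4.shift 0 5), (rhc8c6b69b9e9c59c6.shift 2 0)] (by decide +kernel))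
noncomputable def rh92264d2e867dea1f : CRef := CRef.mk (Pat.mk 0x12000000530000007800000008000000000000000000000000 0xa0000000e0000000fe0000005300000078000000e8000000f8000000e800000080 9 8) 0 0 (step_sound _ 194 [(rh361cc68994bd8a63.shift 0 5), (rhbee42d0f0d1feff8.shift 3 0)] (by decide +kernel))
noncomputable def rh65eccffd7ea1a61d : CRef := CRef.mk (Pat.mk 0x20000000300000002000000000000000000000000000000000 0x100000003000000030000000700000007e0000007f0000007000000040 9 7) 0 0 (step_sound _ 101 [(rh5c651669912fbab1.shift 4 1), (rh89cf5152879421f3.shift 4 0), (rhe286c75f2739cce2.shift 4 2), (rhe5a6973d56949a77.shift 0 2)] (by decide +kernel))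
noncomputable def rh7b52e19b623aa074 : CRef := CRef.mk (Pat.mk 0x1200000003000000100000000000000000000000000000000000000000 0x500000007000000070000001e000000030000001f0000000600000007000000070000000700000005 9 5) 0 0 (step_sound _ 226 [(rh361cc68994bd8a63.shift 0 6), rhc74fa9c027adee12] (by decide +kernel))
noncomputable def rh17a2ffbb6c901f86 : CRef := CRef.mk (Pat.mk 0x80000000c0000004c000000000000000000000000 0x80000000c0000007e0000003f0000001f0000001f 9 7) 0 0 (step_sound _ 100 [(rh2fe78cc5ca4405d8.shift 2 3), rha9cc135d79de0f87] (by decide +kernel))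
noncomputable def rhac321df1c267a6f0 : CRef := CRef.mk (Pat.mk 0x1000000010000000180000001800000000 0xf0000001f0000001f0000001e0000001c00000014 9 5) 0 0 (step_sound _ 131 [rh2d68da2e52dcd6c3, (rh50fbb5868c909700.shift 3 1)] (by decide +kernel))
noncomputable def rh9e4b3ad25ac578f2 : CRef := CRef.mk (Pat.mk 0x300000001c000000000000000000000000 0x280000003a0000003e0000007f0000007f0000003f0000001c0000001c0000001400000004 9 7) 0 0 (step_sound _ 164 [(rh32431e66bbf434a4.shift 3 2), (rh7a7e08304268422e.shift 3 2), (rhc9b7a010d6829066.shift 3 2), (rhe145bdbd45fce79b.shift 1 3), rhfcfcd9c092bc3ec3] (by decide +kernel))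
noncomputable def rh9e4ac041e6a5ca9b : CRef := CRef.mk (Pat.mk 0x2000000020000000300000002000000000 0x5f0000007e0000003e000000300000003000000010 9 7) 0 0 (step_sound _ 36 [(rh466e341eaf8e8f76.shift 0 1), (rh932754581e0f4330.shift 4 0)] (by decide +kernel))
noncomputable def rhfca0e8b25e410148 : CRef := CRef.mk (Pat.mk 0x380000001c000000000000000000000000 0x2c000000ff0000007c0000003e0000001c0000000c0000000c0000000c 9 8) 0 0 (step_sound _ 67 [(rh2d9da442dd4dc788.shift 0 1), (rh9954101f0efffb9e.shift 2 0), (rhea7a1800d6f053bd.shift 3 0)] (by decide +kernel))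
noncomputable def rh436f90adca98ec12 : CRef := CRef.mk (Pat.mk 0x980000001800000000 0x280000003e0000007f0000007e000000f80000001e0000000c 9 8) 0 0 (step_sound _ 69 [(rh361cc68994bd8a63.shift 3 1), rh3916da5d397cb27d] (by decide +kernel))
noncomputable def rh69a64589013b6cba : CRef := CRef.mk (Pat.mk 0x700000003800000000 0x7c0000007f000000fe0000007e0000003800000008 9 8) 0 0 (step_sound _ 67 [rh7f5ff820fa050db7, (rhba89ab7cb81bcc90.shift 1 1), (rhe25191970535449e.shift 1 1), (rhfa8ab4e8ce7b3b52.shift 1 1)] (by decide +kernel))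
noncomputable def rhf54ffb9e12259174 : CRef := CRef.mk (Pat.mk 0x18000000180000000800000000 0xc0000001f0000001f0000001f0000001e0000000c00000004 9 5) 0 0 (step_sound _ 132 [(rh5c5e593799055d58.shift 3 1), rhf57854ce7945c3ec] (by decide +kernel))
noncomputable def rh08da2e49f6a50423 : CRef := CRef.mk (Pat.mk 0x980000001800000008 0x1c000000fc0000007f000000df0000001800000008 9 8) 0 0 (step_sound _ 99 [(rh2ddd6c94c59240f8.shift 3 0), (rh7b9fbdf6d2d059e4.shift 2 0), rh93ebb9c80adce467, (rhc85cc95794737cf7.shift 2 0)] (by decide +kernel))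
noncomputable def rh2bc514c438513f59 : CRef := CRef.mk (Pat.mk 0x8800000018000000100000000000000000 0x340000003400000037000000ff0000001f000000180000001800000018 9 8) 0 0 (step_sound _ 36 [rh2abd2245bf90a235, (rh7b1f1fb55310c477.shift 3 0)] (by decide +kernel))
noncomputable def rh352d1eafd00fffea : CRef := CRef.mk (Pat.mk 0x10000000130000005800000000000000000000000000000000 0x500000007000000170000001b0000007b0000000f0000000f0000000f00000005 9 7) 0 0 (step_sound _ 99 [rhe92ea42e5d485c45, (rhf9af042da61fc652.shift 3 1)] (by decide +kernel))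
noncomputable def rhf2958d9b6c80988b : CRef := CRef.mk (Pat.mk 0x680000000c00000008 0x140000001c0000001f0000003f0000003f0000006c0000000c0000000c 9 7) 0 0 (step_sound _ 99 [(rh2f7aebebd7d680c3.shift 2 0), (rh32431e66bbf434a4.shift 2 0), (rh7a7e08304268422e.shift 2 0), (rhc9b7a010d6829066.shift 2 0), (rhe145bdbd45fce79b.shift 0 1)] (by decide +kernel))
noncomputable def rhc8a5c9ff10761614 : CRef := CRef.mk (Pat.mk 0x18000000100000001000000000 0x40000002c0000003f0000003f0000001f000000180000001800000008 9 6) 0 0 (step_sound _ 132 [(rh20966da26a1c2ae8.shift 3 0), rh51b4282a01ff6a69, (rhc85cc95794737cf7.shift 3 1), (rhfbd142acd04e79a5.shift 3 0)] (by decide +kernel))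
noncomputable def rhe090211cafa56e57 : CRef := CRef.mk (Pat.mk 0x90000000180000009000000008000000000000000000000000 0x4000000ff0000001f000000fc0000000f0000000c0000000400000004 9 8) 0 0 (step_sound _ 131 [rh53d3c8ea25f042ed, (rh71222050f2c63a3a.shift 3 2)] (by decide +kernel))
noncomputable def rh0a71188c1f0ad4ab : CRef := CRef.mk (Pat.mk 0x180000009000000008000000000000000000000000 0x40000001e000000f80000007f0000007e0000003c0000001c 9 8) 0 0 (step_sound _ 133 [rh09a6e0d94cc27c13, (rh2fe78cc5ca4405d8.shift 3 4)] (by decide +kernel))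
noncomputable def rh1c119999e6fd888d : CRef := CRef.mk (Pat.mk 0x3000000018000000800000000800000000 0x14000000370000003f0000001e000000fc0000007c00000034 9 8) 0 0 (step_sound _ 98 [rh3997435df71c7a6b, (rh53b3c253cb0c65f4.shift 1 3)] (by decide +kernel))
noncomputable def rh57aa0a9ff1a5fec3 : CRef := CRef.mk (Pat.mk 0x600000003000000100000000100000000 0x50000000700000007000000060000000600000007000000030000001e0000000f00000005 9 5) 0 0 (step_sound _ 65 [rh75bd2b7f2bf50fe2, rh8c01e5409b730b8b, rh950a87af91ef39cc, (rhccd3548d55d62cb7.shift 0 1)] (by decide +kernel))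
noncomputable def rh5606ebf13710ef07 : CRef := CRef.mk (Pat.mk 0x8000000480000000c0000004000000000 0x140000001c0000001c0000000c0000001c0000007c0000000f0000007800000010 9 7) 0 0 (step_sound _ 100 [(rh361cc68994bd8a63.shift 2 2), rha373c5473ee1314b] (by decide +kernel))
noncomputable def rhac0b40ee4a0fce64 : CRef := CRef.mk (Pat.mk 0x8000000180000000c0000004000000000 0x2000000170000003f0000001f0000000f0000007800000010 9 7) 0 0 (step_sound _ 65 [rh23358b2fe788262d, (rh53b3c253cb0c65f4.shift 0 2)] (by decide +kernel))
noncomputable def rh11c6e5cdb4e793c9 : CRef := CRef.mk (Pat.mk 0x40000000400000034000000a400000080000000000000000000000000 0x100000001da000001fe000003df000001f4000000a4000001c0000001c0000001c000000140 9 10) 0 0 (step_sound _ 196 [(rh2be649ff8a02be3b.shift 1 0), (rh6f033827b70492d3.shift 1 1), (rhb1813a1c2dc402fb.shift 0 4), (rhbe54f843394cdd4c.shift 1 1), (rhc09058418d70a80a.shift 3 0)] (by decide +kernel))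
noncomputable def rhdcfb1056cc23e520 : CRef := CRef.mk (Pat.mk 0x2000000020000001200000003 0x50000000700000007000000070000000300000003000000070000001e00000003 9 5) 0 0 (step_sound _ 34 [rh361cc68994bd8a63, rhe03e7bea4efc52b3] (by decide +kernel))
noncomputable def rhceffe67de0550c6c : CRef := CRef.mk (Pat.mk 0x80000000a6000000b000000082000000000000000000000000 0x85000000a7000000f7000001df000000ff0000005700000007 9 9) 0 0 (step_sound _ 100 [(rh6a63694b978e6cfd.shift 1 3), rhd0b2ad0c4f69be75, (rhfb187e564bf2ca3f.shift 4 1)] (by decide +kernel))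
noncomputable def rhef3df91a691508ca : CRef := CRef.mk (Pat.mk 0xa0000000b000000190000000000000000000000000000000000000000 0xa0000001b0000001d0000001f0000001d0000001c0000000c00000004 9 5) 0 0 (step_sound _ 128 [rh63c9f8dfc046ee87, (rh71222050f2c63a3a.shift 0 3)] (by decide +kernel))
noncomputable def rh38c98af93e3ad97f : CRef := CRef.mk (Pat.mk 0x180000000c000000000000000400000000 0x140000001c0000001e0000001f0000003f0000001f0000000c000000080000000c0000000c 9 6) 0 0 (step_sound _ 67 [(rh000637b5a81e86aa.shift 2 0), (rh6b9e510cdd796283.shift 0 2), (rh752c9303f297f9fa.shift 2 0), (rh8c01e5409b730b8b.shift 2 0)] (by decide +kernel))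
noncomputable def rhe7b510da18d802bd : CRef := CRef.mk (Pat.mk 0x9000000018000000000000000800000000 0xc0000000c0000006c000000ff000000180000001c0000001c0000001c 9 8) 0 0 (step_sound _ 67 [(rh71222050f2c63a3a.shift 3 0), rhc8f8bd26e90f6e1e] (by decide +kernel))
noncomputable def rhaccb182d074ee4fc : CRef := CRef.mk (Pat.mk 0x1000000003000000060000000100000000000000000000000000000000 0x70000001f00000003000000070000000700000006000000070000000700000005 9 5) 0 0 (step_sound _ 225 [(rh518d6f6eeebddcb2.shift 0 4), rh970a0cc351b94a12, (rhc47fe1bc6b175f77.shift 0 3)] (by decide +kernel))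
noncomputable def rhaa582c20f65bbb57 : CRef := CRef.mk (Pat.mk 0x1000000003000000060000000100000000000000000000000000000000 0x10000000700000007000000060000001f00000003000000070000000700000006000000070000000700000005 9 5) 0 0 (step_sound _ 225 [(rh40e1ca449fc7ebc6.shift 0 4), (rh518d6f6eeebddcb2.shift 0 4), (rh70e33bfdf511e144.shift 1 2), rh970a0cc351b94a12] (by decide +kernel))
noncomputable def rh03f232b8e32862fd : CRef := CRef.mk (Pat.mk 0x1000000003000000060000000100000000000000000000000000000000 0x500000007000000070000001e00000003000000070000000700000006000000070000000700000005 9 5) 0 0 (step_sound _ 225 [(rh518d6f6eeebddcb2.shift 0 4), rh970a0cc351b94a12, (rhb77bfac3e9efecea.shift 0 4), (rhfb9fb48a5e63ed80.shift 0 4)] (by decide +kernel))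
noncomputable def rhc004ca419dd91ef0 : CRef := CRef.mk (Pat.mk 0xc00000048000000040000000000000000 0x600000006000000060000000f0000007e0000001f0000003b00000010 9 7) 0 0 (step_sound _ 100 [(rh2fe78cc5ca4405d8.shift 2 3), rhbdf6f5d3aeb5ec6b] (by decide +kernel))
noncomputable def rh6be3d27afd269e80 : CRef := CRef.mk (Pat.mk 0x8000000018000000300000000800000000 0x3c0000003c0000007f000000ff0000001f0000003c0000002f00000004 9 8) 0 0 (step_sound _ 131 [(rh54cc50c8d4991b16.shift 2 0), (rh559f12a464bddd7e.shift 0 1), (rh572e03cf9b4b35c6.shift 0 2), rh8d6197d4d36e3ee0] (by decide +kernel))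
noncomputable def rh90c3ff0071edb3ca : CRef := CRef.mk (Pat.mk 0x480000000c00000008 0x140000001c0000001e0000001f0000003f0000007f0000000c00000008 9 7) 0 0 (step_sound _ 68 [(rh361cc68994bd8a63.shift 2 1), rh6b9e510cdd796283] (by decide +kernel))
noncomputable def rh050d4af690c892c8 : CRef := CRef.mk (Pat.mk 0x8000000018000000080000000800000000 0x140000001c0000001c0000001c0000001c000000ff0000001f0000000c0000000c00000004 9 8) 0 0 (step_sound _ 131 [(rh38b9f7ce4e4d2b02.shift 0 1), (rh771d065bdc85bf2d.shift 2 0), (rh7f5a6fea872aff8d.shift 2 0), (rha6ef7c743a41b850.shift 2 0)] (by decide +kernel))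
noncomputable def rhacc93257545b9f25 : CRef := CRef.mk (Pat.mk 0x22000000220000000200000003000000000 0x100000023000000320000001fe000001fe000003cf 9 10) 0 0 (step_sound _ 38 [(rh55afc6a59410cf00.shift 5 0), rhaf68b1e902b3d201] (by decide +kernel))
noncomputable def rh214b65f1b5b7514c : CRef := CRef.mk (Pat.mk 0x22000000220000000200000002000000000 0x22000000320000001fe000001fe000003df 9 10) 0 0 (step_sound _ 36 [(rh932754581e0f4330.shift 4 0), rh9a20c633e1137e1a] (by decide +kernel))
noncomputable def rhd3a8b63fc08f7810 : CRef := CRef.mk (Pat.mk 0x2000000060000002200000002000000000 0x2000000060000003f7000001fe000003de 9 10) 0 0 (step_sound _ 38 [(rh55afc6a59410cf00.shift 5 0), rha7ec421d07d3f5a8] (by decide +kernel))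
noncomputable def rh3ab3d23cc3cf4078 : CRef := CRef.mk (Pat.mk 0x50000000530000005000000041000000000000000000000000 0x1000000050000005f000000530000007e000000ef0000007f0000002f00000005 9 8) 0 0 (step_sound _ 69 [rh74d309238b3ec835, (rh79877ebd3ef475dd.shift 5 2)] (by decide +kernel))
noncomputable def rhb0614c570cea5ab4 : CRef := CRef.mk (Pat.mk 0x50000000530000005000000041000000000000000000000000 0x1000000050000005f000000530000007e0000006f000000ff000000ef00000085 9 8) 0 0 (step_sound _ 131 [rh219fe7e1dd43b1c8, rh21b02ce1f3f6563f, (rh3fa391f31ba455f8.shift 0 2), (rhb89be806f5e541fe.shift 0 3)] (by decide +kernel))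
noncomputable def rh059b04ce1a601957 : CRef := CRef.mk (Pat.mk 0x1400000014000000100000000000000000000000000000000000000000 0x140000003e000000fb000000fe000001ff000000380000003800000028 9 9) 0 0 (step_sound _ 132 [(rh1fbbc54969deb57e.shift 1 0), (rh5d7ef8eeb650fa23.shift 0 3), (rh61dacc860b4842b4.shift 1 0), (rh6eff4158bb400f47.shift 3 2), (rha9958f71dcf38deb.shift 1 1)] (by decide +kernel))
noncomputable def rh75feb4ebc696eed3 : CRef := CRef.mk (Pat.mk 0x580000004c0000004400000004000000000000000000000000 0x140000005c0000006f0000007f0000003e0000007a0000003800000008 9 7) 0 0 (step_sound _ 161 [(rh53b3c253cb0c65f4.shift 0 5), rh69aa5f0dd10c1a01] (by decide +kernel))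
noncomputable def rh37919f801f1ce004 : CRef := CRef.mk (Pat.mk 0x480000000c000000400000000400000000 0x140000001c0000001c000000780000000f000000780000001c00000014 9 7) 0 0 (step_sound _ 132 [(rh361cc68994bd8a63.shift 2 3), rh957ab23f8e9b970c] (by decide +kernel))
noncomputable def rh8b70c0a9754d5d0f : CRef := CRef.mk (Pat.mk 0x480000004c00000040000000040000000000000000 0x140000001c0000001c000000780000006f0000007c0000003c0000003000000030 9 7) 0 0 (step_sound _ 164 [(rh361cc68994bd8a63.shift 2 4), rhe6ed87fa160461e0] (by decide +kernel))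
noncomputable def rhae38375ee1383dd9 : CRef := CRef.mk (Pat.mk 0x580000004c00000040000000040000000000000000 0x40000001c0000001c000000180000005c0000006f000000780000003c0000003400000030 9 7) 0 0 (step_sound _ 129 [(rh53b3c253cb0c65f4.shift 0 4), (rhea8e0d3f4c6be2c7.shift 2 0)] (by decide +kernel))
noncomputable def rhc4b12ad3e89c59d0 : CRef := CRef.mk (Pat.mk 0x580000004c00000040000000040000000000000000 0x40000001c0000001c000000180000005c0000006f0000007c0000003c0000003000000030 9 7) 0 0 (step_sound _ 129 [(rh53b3c253cb0c65f4.shift 0 4), (rh95262f90b3411b37.shift 2 0)] (by decide +kernel))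
noncomputable def rhd31e2f76b1878c29 : CRef := CRef.mk (Pat.mk 0x24000000060000000000000006000000020000000000000002000000000 0x3c0000000600000001f000000fe000001ff000003fc000001fc000003d0 9 10) 0 0 (step_sound _ 232 [rh6703b0a0ed1a867b, (rhb2a0b9ccfb5cecd5.shift 5 6)] (by decide +kernel))
noncomputable def rh938fee741ae8c399 : CRef := CRef.mk (Pat.mk 0x400000004000000000000000200000002000000000000000200000000000000000 0x40000000400000005f000000fe000001ff00000020000000600000006000000040 9 9) 0 0 (step_sound _ 166 [(rh3c88ce959c0e423f.shift 5 4), rh9f7f168bcaaa198d] (by decide +kernel))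
noncomputable def rhbf0e7f05f021e673 : CRef := CRef.mk (Pat.mk 0x100000001000000000000000080000000800000000000000080000000000000000 0x1000000010000000100000001800000018000000ff0000007f000000fc00000014 9 8) 0 0 (step_sound _ 164 [(rh3c88ce959c0e423f.shift 3 4), rh514830abf9a0893a] (by decide +kernel))
noncomputable def rh633162873200dccf : CRef := CRef.mk (Pat.mk 0x80000000800000000000000080000000000000000 0x40000000c0000000c0000003f0000003f0000001f00000014 9 6) 0 0 (step_sound _ 99 [(rh6eff4158bb400f47.shift 2 0), (rh8ff3dde5b1c639e0.shift 2 0), (rhc4526fc8abf298b6.shift 2 0), (rhc8c8ca90955b904b.shift 0 1)] (by decide +kernel))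
noncomputable def rhb4847598120781e2 : CRef := CRef.mk (Pat.mk 0x1000000010000000800000000800000008000000000000000800000000 0x1000000010000001f70000007e0000007f000000060000000e0000000c 9 9) 0 0 (step_sound _ 132 [(rh3c88ce959c0e423f.shift 3 3), rhb5e9bed0c951c76b] (by decide +kernel))
noncomputable def rh291f12979c72f5ad : CRef := CRef.mk (Pat.mk 0x100000020000000060000000200000000000000000 0x10000000100000079e000001fe0000003f0000002000000020 9 11) 0 0 (step_sound _ 103 [(rh1f36686c55693598.shift 4 3), (rh2820ca9a6c4f41b4.shift 2 2), (rh4a2d14650c96af18.shift 4 2), rhf154673466109248] (by decide +kernel))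
noncomputable def rh3cab28ef9206de59 : CRef := CRef.mk (Pat.mk 0x90000000180000008000000008000000080000000000000000 0xf40000001e000000f60000007e000000ff0000000800000008 9 8) 0 0 (step_sound _ 162 [(rh2b3584ef0f05e9c2.shift 1 5), (rh653fa5811f4713a9.shift 1 2), rh7a4c831c7598d954] (by decide +kernel))
noncomputable def rh4083776e9f366a21 : CRef := CRef.mk (Pat.mk 0x580000004c0000004400000004000000000000000000000000 0x140000005c0000006f000000fe0000003f000000fb0000003a0000000a 9 8) 0 0 (step_sound _ 161 [rh05abc6a23c92d85e, (rh53b3c253cb0c65f4.shift 0 5)] (by decide +kernel))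
noncomputable def rhade36893feb5ff7c : CRef := CRef.mk (Pat.mk 0x160000001300000011000000010000000000000000000000000 0x5000000170000001bc000001f7000000fe000001ef000000e000000020 9 9) 0 0 (step_sound _ 163 [(rh53b3c253cb0c65f4.shift 2 5), rhc74d69308bf3da19] (by decide +kernel))
noncomputable def rh9253b389a70b1cee : CRef := CRef.mk (Pat.mk 0x60000000300000010000000030000000000000000000000000 0x10000000740000003c000003df000000fe000000f70000002000000020 9 10) 0 0 (step_sound _ 102 [(rh1f36686c55693598.shift 3 3), (rh6815aea2c6c4a2a3.shift 3 0), (rh694c04153ed77deb.shift 1 2), (rh9566fc6189817f9c.shift 0 2)] (by decide +kernel))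
noncomputable def rh62c48efa4720617a : CRef := CRef.mk (Pat.mk 0x800000001c0000008800000008000000000000000000000000 0x30000000f70000001f000000ff0000007b000000230000000300000001 9 8) 0 0 (step_sound _ 132 [rh3ab23325bf9fa7a0, (rh42dfa2940cbbe425.shift 1 2), (rh5bb78067c54b222b.shift 1 4)] (by decide +kernel))
noncomputable def rh4ee7b71777ff37da : CRef := CRef.mk (Pat.mk 0x200000002700000022000000020000000000000000 0x500000007000000070000000e0000003e000000370000003f0000001e0000001400000010 9 6) 0 0 (step_sound _ 161 [(rh3290eb83f8a84c79.shift 0 2), (rh56b294bd68552b61.shift 1 0), (rh7f7574ca10c8e804.shift 0 2), (rh8613c4d15736e5cc.shift 1 0)] (by decide +kernel))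
noncomputable def rh257c3a82ce84288a : CRef := CRef.mk (Pat.mk 0x800000009c0000008800000008000000000000000000000000 0x8f000000df000000ff0000007b000000530000005300000001 9 8) 0 0 (step_sound _ 132 [rh3ab23325bf9fa7a0, (rh7c9f981eae00e4ff.shift 3 1)] (by decide +kernel))
noncomputable def rh4c5c7a830b4f920a : CRef := CRef.mk (Pat.mk 0xc000000180000000e00000000000000000000000000000000 0x80000000f0000001f0000001e0000001b000000170000001700000005 9 5) 0 0 (step_sound _ 193 [rha9f6dd52f167963f, (rhb739f4f82bb681b4.shift 0 5)] (by decide +kernel))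
noncomputable def rh775f431992b2e029 : CRef := CRef.mk (Pat.mk 0x400000004c000000400000000c000000000000000000000000 0x140000001c0000001c0000007a0000006f0000007e0000002f0000007e0000003c00000014 9 7) 0 0 (step_sound _ 131 [(rh038de9f6952c0fd9.shift 2 2), rh0d28f0fb53508b9c, (rh6e4c5959d08fc253.shift 2 2), (rh8ca74fa25325e393.shift 2 2), (rhbf7e7c7d2359c2e7.shift 2 0)] (by decide +kernel))
noncomputable def rhac6089e0fbe43770 : CRef := CRef.mk (Pat.mk 0x240000000700000000000000060000000200000000000000000 0x3d0000000700000001f000000fe000001ff0000002800000020 9 10) 0 0 (step_sound _ 200 [rha69bdc0399d9b069, (rhb2a0b9ccfb5cecd5.shift 5 5)] (by decide +kernel))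
noncomputable def rh55444531b9b63c3b : CRef := CRef.mk (Pat.mk 0x8000000480000004c00000040 0x100000001c000001fc000000ff000001bc000000f80000006c00000040 9 9) 0 0 (step_sound _ 131 [rh57141caf2f0cd222, (rhc3d0685d4229b680.shift 2 0), (rhc85cc95794737cf7.shift 2 1), (rhda751d9f305bb899.shift 2 1)] (by decide +kernel))
noncomputable def rh85d9fecb4e9c1901 : CRef := CRef.mk (Pat.mk 0xf000000040000000c00000000000000000 0x17000000fe0000007f000003fc000003bc00000030 9 10) 0 0 (step_sound _ 131 [(rh36eba2a3de447758.shift 0 3), (rhadaa214f84d19d9c.shift 2 0), (rheae1728ff4a56756.shift 2 3)] (by decide +kernel))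
noncomputable def rh1fb2e55b8f7caa8c : CRef := CRef.mk (Pat.mk 0x200000003c000000000000003000000000 0x270000003f0000001c000000fc000000fe 9 8) 0 0 (step_sound _ 68 [rh4d7bb0b9cddad2fe, (rh71222050f2c63a3a.shift 4 0)] (by decide +kernel))
noncomputable def rh5c936e83d940d161 : CRef := CRef.mk (Pat.mk 0x400000000c000000400000000c000000000000000000000000 0x180000007a0000000f0000007b0000001f0000003c0000001400000004 9 7) 0 0 (step_sound _ 131 [rh2b25bc9a05c71505, (rh8464c34b4eba5e43.shift 0 1), (rh8ca74fa25325e393.shift 2 2)] (by decide +kernel))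
noncomputable def rhc56c6c11892e8cee : CRef := CRef.mk (Pat.mk 0x200000002600000020000000060000000000000000 0xa0000000e0000000e0000003c000000360000007e0000001f0000003c0000001c 9 7) 0 0 (step_sound _ 100 [(rh4aaae8bb96ffc877.shift 0 2), (rh598d2c5bacfdea97.shift 1 0), (rhc13ae28137ba9813.shift 0 2), (rhc4713ca36c943a51.shift 1 0)] (by decide +kernel))
noncomputable def rheeaae9d7dbec9e2a : CRef := CRef.mk (Pat.mk 0x80000000980000008000000018000000000000000000000000 0x80000000d8000001f80000007f0000007f0000007e00000028 9 9) 0 0 (step_sound _ 134 [rh963418645cd9dbfd, (rhc13ae28137ba9813.shift 2 3), (rhc4713ca36c943a51.shift 3 1)] (by decide +kernel))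
noncomputable def rh59659260346ddc64 : CRef := CRef.mk (Pat.mk 0xc000000040000000e000000000000000000000000000000000 0x38000000f80000007f000000fe000001bf000000380000003800000028 9 9) 0 0 (step_sound _ 132 [(rh12bc9016c46aee78.shift 3 0), (rh1f9701c4cf497514.shift 1 3), (rh39044c6164022eb3.shift 0 3), (rh5b2ce1e5aa4a4edd.shift 1 3), (rh775ca1963e850b80.shift 2 3), (rh894ae99761dcc8d9.shift 0 1)] (by decide +kernel))
noncomputable def rh2a1e4a46d37973e6 : CRef := CRef.mk (Pat.mk 0x180000000c0000000000000004 0x140000001c0000001c0000001f0000003c0000001c0000000f0000000c0000000c 9 6) 0 0 (step_sound _ 65 [(rh53b3c253cb0c65f4.shift 0 2), rhfbe82baa8b23dcab] (by decide +kernel))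
noncomputable def rhaadd7877553d969a : CRef := CRef.mk (Pat.mk 0x38000000000000003000000000000000000000000000000000 0x10000000140000001f000000380000000f0000007e000000ff0000001e0000001e0000000a 9 8) 0 0 (step_sound _ 131 [(rh1b293c6574892215.shift 0 1), (rh3f890e09e1d46e97.shift 1 1), (rh8e0db32d4f9056c0.shift 0 3), (rhbd852b24efab923f.shift 0 3), rhbf4b61a088705768] (by decide +kernel))
noncomputable def rh8fdbdec203cb1cdd : CRef := CRef.mk (Pat.mk 0xc000000400000000c00000000000000000000000000000000 0x400000004000000040000000f0000007f0000003f0000003b0000001e0000001e00000004 9 7) 0 0 (step_sound _ 163 [(rh0069bdff5bba684b.shift 0 2), (rh231570c0eeabc6f0.shift 2 0), (rh8b342a3f95bb5c6a.shift 0 1), (rh8db6518e827e68b4.shift 2 3), (rh9bf7118bf0f2b22b.shift 2 1), (rhd1779d7de7f8215b.shift 2 1)] (by decide +kernel))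
noncomputable def rh1d30244e505db623 : CRef := CRef.mk (Pat.mk 0x10000000130000001000000003000000000000000000000000 0x40000000700000007000000070000001f0000001b0000001f0000000b0000001e0000000e00000004 9 5) 0 0 (step_sound _ 129 [(rh07f41384b0a1975e.shift 0 2), rh9bf7118bf0f2b22b, (rhb7a9b8968a0c592a.shift 0 3), rhbf7e7c7d2359c2e7] (by decide +kernel))
noncomputable def rh99a16be9f9729963 : CRef := CRef.mk (Pat.mk 0x400000000c000000480000000c0000000000000000 0x140000001c0000007c0000000f000000780000001f0000003000000010 9 7) 0 0 (step_sound _ 100 [(rh361cc68994bd8a63.shift 2 2), rha0b4aed11df1fc19] (by decide +kernel))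
noncomputable def rh1d42c312ab680e51 : CRef := CRef.mk (Pat.mk 0x10000000030000001800000003 0x40000000700000007000000070000001f000000030000001f00000003 9 5) 0 0 (step_sound _ 33 [rhb2a0b9ccfb5cecd5, rhb7a9b8968a0c592a] (by decide +kernel))
noncomputable def rhde59bdf6ec1d0048 : CRef := CRef.mk (Pat.mk 0x8000000018000000000000001800000000 0x800000078000000ff0000001f0000001f0000003c00000014 9 8) 0 0 (step_sound _ 131 [rh8473fb0df66d0342, (rh935da622f8ebc962.shift 3 0), (rh95a80f84f48ac358.shift 3 0), rhdf24145e521476d6] (by decide +kernel))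
noncomputable def rh71ca6dd446a7edd0 : CRef := CRef.mk (Pat.mk 0xc000000000000000e000000000000000000000000000000000 0x1f8000000f80000007f000000fe000001bf000000380000003800000028 9 9) 0 0 (step_sound _ 132 [(rh12bc9016c46aee78.shift 3 0), (rh35721e7f29c6df53.shift 0 3), (rh5567c9c793710161.shift 3 1), (rh775ca1963e850b80.shift 2 3), (rhc2a8eba46a5da047.shift 1 3)] (by decide +kernel))
noncomputable def rh8cc409081a28271c : CRef := CRef.mk (Pat.mk 0x1000000003000000100000000180000000000000000 0x2000000030000001f00000003c000001df000000fe000000ff00000020 9 9) 0 0 (step_sound _ 100 [(rh215e11e099257d75.shift 4 1), (rh49858638110b757d.shift 1 0), (rha94705fc46044d1b.shift 0 1), (rhe2f01b8686fd165f.shift 1 1)] (by decide +kernel))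
noncomputable def rh2304bd52e85d9b8a : CRef := CRef.mk (Pat.mk 0x300000000000000018000000000000000000000000 0x200000002000000038000000380000001e000000380000001f0000001c00000008 9 6) 0 0 (step_sound _ 132 [(rh215e11e099257d75.shift 4 2), (rh3d397cfd990b086d.shift 0 1), (rhfafeb437ceb8396d.shift 3 0)] (by decide +kernel))
noncomputable def rh829c8e40a8b7db76 : CRef := CRef.mk (Pat.mk 0x10000000030000001000000003800000000 0x2000000020000001f40000003c000001de000000fe000001d7 9 9) 0 0 (step_sound _ 38 [(rh186400995b27b60f.shift 2 0), (rh45e9dfbd6bd5d256.shift 3 1), (rhc13dbb2602bbcc3a.shift 3 0), rhe4202a1fe58ccfa8] (by decide +kernel))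
noncomputable def rha089aa043aa9a898 : CRef := CRef.mk (Pat.mk 0xc000000000000001e00000000000000000000000000000000 0xa0000000e0000000e0000000c0000000e0000000e000000070000001e0000000c0000000e0000000e00000006 9 5) 0 0 (step_sound _ 162 [(rh20b5d29ffe8415ee.shift 0 3), (rh215e11e099257d75.shift 2 3), (rh3a999951b86e4f32.shift 1 0), (rh70e33bfdf511e144.shift 2 1)] (by decide +kernel))
noncomputable def rh56d213915283b23a : CRef := CRef.mk (Pat.mk 0x30000000000000003800000000000000000000000000000000 0xe0000003e0000000f0000003e000000770000000e0000000e0000000a 9 7) 0 0 (step_sound _ 130 [(rh0d378fd9e8917c5a.shift 0 3), (rh12bc9016c46aee78.shift 1 0), (rh185f35b8bd8ec37f.shift 0 3), (rh775ca1963e850b80.shift 0 3)] (by decide +kernel))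
noncomputable def rheb96031e1b17fae6 : CRef := CRef.mk (Pat.mk 0x3800000000000000000000000000000000 0x80000000f0000003e0000007f0000001e0000000e0000000a 9 7) 0 0 (step_sound _ 130 [(rh0d378fd9e8917c5a.shift 0 3), (rh41140eaa67c26838.shift 0 3), (rh775ca1963e850b80.shift 0 3), (rhc153c5f4c8e97f79.shift 1 0)] (by decide +kernel))
noncomputable def rhcf9a78d1490ec868 : CRef := CRef.mk (Pat.mk 0x380000000000000000000000000000000000000000 0xc0000000f0000003e0000007f0000000e0000000e0000000600000002 9 7) 0 0 (step_sound _ 162 [(rh0d378fd9e8917c5a.shift 0 4), (rh185f35b8bd8ec37f.shift 0 4), (rh3842156d5dbbe8d2.shift 1 0), (rh775ca1963e850b80.shift 0 4)] (by decide +kernel))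
noncomputable def rh7b9cc5c5acef6d51 : CRef := CRef.mk (Pat.mk 0x1e00000000000000000000000000000000 0x300000003000000070000001e0000003f000000070000000300000002 9 6) 0 0 (step_sound _ 97 [rhbfda2ee34edc542f, (rheb0810cc63b001d8.shift 0 3)] (by decide +kernel))
noncomputable def rh148d2fed99fbb7df : CRef := CRef.mk (Pat.mk 0x180000009000000018000000000000000000000000 0x80000000a0000000f0000001e000000f40000001e0000000e0000000e0000000a 9 8) 0 0 (step_sound _ 133 [(rh361cc68994bd8a63.shift 3 3), rh624c1adcc8cec403] (by decide +kernel))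
noncomputable def rhce83aeb1371d8894 : CRef := CRef.mk (Pat.mk 0x600000020000000060000000000000000000000000 0x3c0000007c0000039e000001fe000003ff0000003800000010 9 10) 0 0 (step_sound _ 100 [rh0340fb167638fef0, (rh34097ee86ed23e08.shift 3 1), (rh40789fe01e004519.shift 2 2), (rhb57bf8585a8f422d.shift 3 1), (rhc1d9d95268728087.shift 2 2)] (by decide +kernel))
noncomputable def rhd000277421b81087 : CRef := CRef.mk (Pat.mk 0x7800000000000000000000000000000000 0xc0000000c0000001c00000078000000fc0000001f0000001c0000000c 9 8) 0 0 (step_sound _ 102 [rh76638a8beb9efd1d, (rhe25b0a99195a5d59.shift 3 3)] (by decide +kernel))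
noncomputable def rh0e44b348acabacdf : CRef := CRef.mk (Pat.mk 0x100000001e00000010000000080000000000000000 0x200000003c0000003f0000007b0000001f0000001e000000170000000f0000000f00000001 9 7) 0 0 (step_sound _ 196 [rh5b524d74b1ef45c7, (rh69f0587a21bb077f.shift 3 3), (rh906473dd3f481652.shift 0 1), (rhc85cc95794737cf7.shift 3 3)] (by decide +kernel))
noncomputable def rhd3e6bd385c5cff30 : CRef := CRef.mk (Pat.mk 0x340000000000000010000000000000000000000000 0x2000000020000000700000003e000000770000001e000000780000003800000028 9 7) 0 0 (step_sound _ 163 [(rh47395bb7c99a0fd7.shift 1 1), (rh9887616343b87ff1.shift 1 0), (rh9e97bba44c1b13e4.shift 0 4), (rhb705031692dfe65f.shift 2 2)] (by decide +kernel))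
noncomputable def rh2e99e00558cf62ce : CRef := CRef.mk (Pat.mk 0x3400000000000000100000000000000000 0x2000000020000000770000003e000000700000001e0000007800000038 9 7) 0 0 (step_sound _ 131 [(rh0d378fd9e8917c5a.shift 0 3), (rh47395bb7c99a0fd7.shift 1 0), (rh4c622fddc53a5f99.shift 0 4), (rhb705031692dfe65f.shift 2 1)] (by decide +kernel))
noncomputable def rh962328cfb9f4162a : CRef := CRef.mk (Pat.mk 0x1300000003400000010000000100000000000000000 0x20000000600000006000001fe000000360000003f0000001f0000000e0000000a 9 9) 0 0 (step_sound _ 167 [(rhb2a0b9ccfb5cecd5.shift 4 4), rhf34630cea86647af] (by decide +kernel))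
noncomputable def rh74d2f13123eb70b1 : CRef := CRef.mk (Pat.mk 0x600000003000000100000000000000000 0x50000000700000007000000070000000700000007000000030000001e0000000600000002 9 5) 0 0 (step_sound _ 65 [rh000637b5a81e86aa, (rh5efaf85ec96fcaef.shift 0 1), (rh79c8a8cfe2c792e5.shift 0 1), (rha8ff6568553180ed.shift 0 1)] (by decide +kernel))
noncomputable def rhb46c93a6910f1292 : CRef := CRef.mk (Pat.mk 0x20000000260000002000000006000000000000000000000000000000000 0x200000022000000378000003ff000001fe000003be000001bc0000003c00000014 9 10) 0 0 (step_sound _ 132 [(rh12d39b366bc064ff.shift 1 2), (rh2d3d2386ddc6714e.shift 2 3), (rh5ac55a79dae8a79d.shift 0 1), (rh77dde8fce463d17d.shift 3 1), (rh877815dff8f2c0f3.shift 1 3), (rhb6f87c3074f98a99.shift 3 2), (rhc29b8d5f76f8c4ae.shift 1 0)] (by decide +kernel))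
noncomputable def rhe60c8e3a602adb78 : CRef := CRef.mk (Pat.mk 0x4000000440000004c0000005800000000 0x8000000380000007a0000003e0000007f0000006f0000005c00000014 9 7) 0 0 (step_sound _ 65 [(rhb739f4f82bb681b4.shift 0 1), rhca5d75ed7bb1113d] (by decide +kernel))
noncomputable def rhfcac32312a33016d : CRef := CRef.mk (Pat.mk 0x4000000400000000c00000048000000000000000000000000 0x140000001c000000780000000f000000780000001c0000001c00000014 9 7) 0 0 (step_sound _ 100 [rh065feb69e017dff2, (rh2fe78cc5ca4405d8.shift 2 3)] (by decide +kernel))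
noncomputable def rh576433bffeee19b4 : CRef := CRef.mk (Pat.mk 0x4000000400000004c00000048000000000000000000000000 0x30000000300000003c0000007c0000006f000000780000001c0000001c00000014 9 7) 0 0 (step_sound _ 100 [rh1e6a53eca823bcea, (rh2fe78cc5ca4405d8.shift 2 3)] (by decide +kernel))
noncomputable def rh7a6e38ed5f93de8d : CRef := CRef.mk (Pat.mk 0x4000000400000004c0000005800000000000000000000000000000000 0x30000000340000003c000000780000006f0000005c000000180000001c0000001c00000004 9 7) 0 0 (step_sound _ 161 [(rhb034d33cb17e8e88.shift 2 0), (rhb739f4f82bb681b4.shift 0 4)] (by decide +kernel))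
noncomputable def rh17d97aae1a2326e6 : CRef := CRef.mk (Pat.mk 0x4000000400000004c0000005800000000000000000000000000000000 0x30000000300000003c0000007c0000006f0000005c000000180000001c0000001c00000004 9 7) 0 0 (step_sound _ 161 [(rhb739f4f82bb681b4.shift 0 4), (rhbd5e8ffc34ecffb3.shift 2 0)] (by decide +kernel))
noncomputable def rh7b21fa8e621c69c2 : CRef := CRef.mk (Pat.mk 0x20000000000000002000000060000000000000006000000240 0x3d0000001fc000003fc000001ff000000fe0000001f00000060000003c0 9 10) 0 0 (step_sound _ 8 [(rh5419adcd928dba20.shift 5 0), (rh7e44d5fd7af46b45.shift 0 2)] (by decide +kernel))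
noncomputable def rh1c31f0295ed8bf13 : CRef := CRef.mk (Pat.mk 0x20000000000000002000000020000000000000004000000040 0x40000000600000006000000020000001ff000000fe0000005f0000004000000040 9 9) 0 0 (step_sound _ 102 [(rh2613c889e411427e.shift 5 0), (rhf2c887f918843c4a.shift 0 2)] (by decide +kernel))
noncomputable def rhc7fbe9ba8ded2067 : CRef := CRef.mk (Pat.mk 0x8000000000000000800000008000000000000001000000010 0x14000000fc0000007f000000ff0000001800000018000000100000001000000010 9 8) 0 0 (step_sound _ 100 [(rh2613c889e411427e.shift 3 0), (rhbc4bea5aff41e470.shift 0 3)] (by decide +kernel))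
noncomputable def rhf89e390102aa7b90 : CRef := CRef.mk (Pat.mk 0x800000000000000080000000800000000 0x140000001f0000003f0000003f0000000c0000000c00000004 9 6) 0 0 (step_sound _ 99 [(rh1741680720c097b4.shift 2 1), (rh20966da26a1c2ae8.shift 2 0), rh23faec912ebb5a9f, (rh771d065bdc85bf2d.shift 2 0)] (by decide +kernel))
noncomputable def rh01b556f5b44ddd85 : CRef := CRef.mk (Pat.mk 0x8000000000000000800000008000000800000001000000010 0xc0000000e000000060000007f0000007e000001f70000001000000010 9 9) 0 0 (step_sound _ 100 [(rh2613c889e411427e.shift 3 0), (rh41fbdbf4b4800b91.shift 0 2)] (by decide +kernel))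
noncomputable def rh3d42b8cc321ec606 : CRef := CRef.mk (Pat.mk 0x2000000060000002000000001000000000 0x20000000200000003f000001fe0000079e0000001000000010 9 11) 0 0 (step_sound _ 103 [rh4eb490786d4a91c4, (rh8a14c52668870c9c.shift 4 2), (rha9fbfd4bb8cf890b.shift 2 3), (rhf1af73716833b731.shift 4 2)] (by decide +kernel))
noncomputable def rh82b026e9747e5ff3 : CRef := CRef.mk (Pat.mk 0x800000008000000800000001800000090 0x800000008000000ff0000007e000000f60000001e000000f4 9 8) 0 0 (step_sound _ 34 [(rh5bb78067c54b222b.shift 1 0), rh7d021c4fc9a20c29, (rhbffe292f5462cc89.shift 1 0)] (by decide +kernel))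
noncomputable def rh43d81f3ea8efd648 : CRef := CRef.mk (Pat.mk 0x4000000440000004c0000005800000000 0xa0000003a000000fb0000003f000000fe0000006f0000005c00000014 9 8) 0 0 (step_sound _ 65 [rh07f73d0ff909a014, (rhb739f4f82bb681b4.shift 0 1)] (by decide +kernel))
noncomputable def rh9fc615074d781324 : CRef := CRef.mk (Pat.mk 0x1000000110000001300000016000000000 0x20000000e0000001ef000000fe000001f7000001bc0000017000000050 9 9) 0 0 (step_sound _ 67 [(rhb739f4f82bb681b4.shift 2 1), rhc0a4a3074c6df0a1] (by decide +kernel))
noncomputable def rh99ef63d27b283bdd : CRef := CRef.mk (Pat.mk 0x3000000100000000300000006000000000 0x2000000020000000f7000000fe000003df0000003c0000007400000010 9 10) 0 0 (step_sound _ 134 [(rh04263e10ff9fff0c.shift 3 1), (rh099d444677688b93.shift 1 1), rhf0b2851a6ea926cb, (rhf1af73716833b731.shift 3 3)] (by decide +kernel))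
noncomputable def rhdef0db35383bf8ca : CRef := CRef.mk (Pat.mk 0x8000000880000001c0000008000000000 0x100000003000000230000007b000000ff0000001f000000f700000030 9 8) 0 0 (step_sound _ 100 [(rh2b3584ef0f05e9c2.shift 1 2), (rh917c0ab664e1f0d1.shift 1 0), (rhe8b49820a5c39089.shift 0 1)] (by decide +kernel))
noncomputable def rh7f225f60f37dabc7 : CRef := CRef.mk (Pat.mk 0x200000022000000270000002000000000000000000000000000000000 0x10000000140000001e0000003f000000370000003e0000000e000000070000000700000005 9 6) 0 0 (step_sound _ 129 [rh209146e9a4cc10a8, (rhb1240ddd48f9d47f.shift 1 3), (rhb781b7d4512f8b10.shift 1 3), rhf5becaca8d13cfd1] (by decide +kernel))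
noncomputable def rh1a3e42f9a1ef7daa : CRef := CRef.mk (Pat.mk 0x8000000880000009c00000080 0x100000053000000530000007b000000ff000000df0000008f 9 8) 0 0 (step_sound _ 68 [(rhbe4ee7e45aebf17d.shift 3 0), rhe8b49820a5c39089] (by decide +kernel))
noncomputable def rh712086319626166f : CRef := CRef.mk (Pat.mk 0xe000000180000000c00000000 0x500000017000000170000001b0000001e0000001f0000000f00000008 9 5) 0 0 (step_sound _ 33 [(rh53b3c253cb0c65f4.shift 0 1), rh7686c69c75f5866b] (by decide +kernel))
noncomputable def rh57429c799050ca80 : CRef := CRef.mk (Pat.mk 0xc000000400000004c00000040000000000000000000000000 0x140000003c0000007e0000002f0000007e0000006f0000007a0000001c0000001c00000014 9 7) 0 0 (step_sound _ 163 [(rh007b8c853ca5ccaf.shift 2 2), (rh3458cca790d68fb0.shift 2 0), (rh6cedf07b388dfaa4.shift 0 3), (rhb7ec845def264386.shift 2 2), (rhc46b61bcbcf6c641.shift 2 0)] (by decide +kernel))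
noncomputable def rh2f0b4bbc9835a72e : CRef := CRef.mk (Pat.mk 0x2000000060000000000000007000000240 0x2000000028000001ff000000fe0000001f00000070000003d0 9 10) 0 0 (step_sound _ 8 [(rh5419adcd928dba20.shift 5 0), rhaf935276576988d7] (by decide +kernel))
noncomputable def rh06ed343eea56828a : CRef := CRef.mk (Pat.mk 0x400000004c000000480000000800000000000000000000000000000000 0x400000006c000000f8000001bc000000ff000001fc0000001c00000010 9 9) 0 0 (step_sound _ 99 [(rh3b7aca60d2453a5e.shift 2 0), (rh3c8fcaf7bb9112e1.shift 0 2), (rh8cdd36b03d57a2f6.shift 2 1), (rhecfa9a5c21e0fe3b.shift 2 2)] (by decide +kernel))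
noncomputable def rhb75b6bedc1ccae47 : CRef := CRef.mk (Pat.mk 0xc000000040000000f000000000 0x30000003bc000003fc0000007f000000fe00000017 9 10) 0 0 (step_sound _ 35 [rh5e601430b8bc2e39, (rh981c8c71ff7f86a0.shift 2 0), (rhd5eb272e07a4e288.shift 2 1)] (by decide +kernel))
noncomputable def rhc8042b0fb2aad760 : CRef := CRef.mk (Pat.mk 0x30000000000000003c00000020 0xfe000000fc0000001c0000003f00000027 9 8) 0 0 (step_sound _ 68 [(rh2145e1d24b96a57e.shift 4 0), rhca0138a71fa69511] (by decide +kernel))
noncomputable def rh178b6535a0f33072 : CRef := CRef.mk (Pat.mk 0xc000000400000000c0000004000000000 0x4000000140000003c0000001f0000007b0000000f0000007a00000018 9 7) 0 0 (step_sound _ 99 [(rh82c5d1095b74bdca.shift 0 1), rh9bf6ac8dea9c2a25, (rhb7ec845def264386.shift 2 0)] (by decide +kernel))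
noncomputable def rh335e4eef3a2fa899 : CRef := CRef.mk (Pat.mk 0x6000000200000002600000020000000000000000000000000 0x1c0000003c0000001f0000007e000000360000003c0000000e0000000e0000000a 9 7) 0 0 (step_sound _ 164 [(rh130c4691a5653274.shift 0 5), (rh14a23a289611aafb.shift 0 5), (rh23625f181fa295a9.shift 1 3), (rha28f1f17bca18172.shift 1 0)] (by decide +kernel))
noncomputable def rh801fc955b618a30c : CRef := CRef.mk (Pat.mk 0x18000000800000009800000080 0x280000007e0000007f0000007f000001f8000000d800000080 9 9) 0 0 (step_sound _ 70 [(rh130c4691a5653274.shift 2 2), (rh23625f181fa295a9.shift 3 0), (rhd81ed44a9ed0232d.shift 0 1)] (by decide +kernel))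
noncomputable def rh5a63e63506b59eda : CRef := CRef.mk (Pat.mk 0xe000000040000000c000000000 0x280000003800000038000001bf000000fe0000007f000000f800000038 9 9) 0 0 (step_sound _ 100 [(rh2efad3051cff7df1.shift 1 2), (rh592c7139d2c44767.shift 2 2), (rh8aa80d8d90d3223c.shift 1 2), (rh8e4e59df125f891a.shift 0 2), rha5448565c09b6f50, (rhe9b08f41bf3a885c.shift 3 0)] (by decide +kernel))
noncomputable def rhd9848a1d617c45b3 : CRef := CRef.mk (Pat.mk 0x4000000000000000c000000180000000000000000000000000000000000000000 0xc0000000c0000000f0000001c0000003c0000001f0000001c0000001c00000014 9 6) 0 0 (step_sound _ 193 [rha3ab2d8b8a28d411, (rhb739f4f82bb681b4.shift 0 5)] (by decide +kernel))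
noncomputable def rh995fc4ab36efa221 : CRef := CRef.mk (Pat.mk 0x300000000000000038000000000000000000000000 0xa0000001e0000001e000000ff0000007e0000000f000000380000001f0000001400000010 9 8) 0 0 (step_sound _ 163 [(rh3b2a3ec390b836fa.shift 0 3), rhb0bd3920ce91a0e5, (rhb947c64477cdd321.shift 0 4), rhd8938fa7040a21a4, (rhf68d87a9cc7d7e5d.shift 1 0)] (by decide +kernel))
noncomputable def rhee35aaf9f3163920 : CRef := CRef.mk (Pat.mk 0xc000000400000000c000000000000000000000000 0x40000001e0000001e0000003b0000003f0000007f0000000f000000040000000400000004 9 7) 0 0 (step_sound _ 131 [(rh1c7ce97be2832ce9.shift 0 3), (rh5923bba055a032c3.shift 0 2), (rh7a7e08304268422e.shift 2 2), (rh8d10a241ee292d9c.shift 2 0), (rhb10764487bb44a2b.shift 2 2), (rhf6d82f1f6c96273d.shift 2 2)] (by decide +kernel))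
noncomputable def rha9eb02e50056ec0b : CRef := CRef.mk (Pat.mk 0x300000010000000130000001000000000000000000000000000000000 0x40000000e0000001e0000000b0000001f0000001b0000001f00000007000000070000000700000004 9 5) 0 0 (step_sound _ 193 [(rh3458cca790d68fb0.shift 0 1), (rhb10764487bb44a2b.shift 0 4), rhe6f8f0c3648954d0, (rhf43b1ce8c68849a0.shift 0 2)] (by decide +kernel))
noncomputable def rh8df11686789c7ef5 : CRef := CRef.mk (Pat.mk 0xc000000480000000c000000400000000000000000 0x10000000300000001f000000780000000f0000007c0000001c00000014 9 7) 0 0 (step_sound _ 132 [(rh2fe78cc5ca4405d8.shift 2 4), rh5c5f3ad623e7433f] (by decide +kernel))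
noncomputable def rh15f54fc0bfae2a6d : CRef := CRef.mk (Pat.mk 0x300000018000000030000001000000000000000000000000000000000 0x30000001f000000030000001f00000007000000070000000700000004 9 5) 0 0 (step_sound _ 193 [(rh5419adcd928dba20.shift 0 6), rhe6f8f0c3648954d0] (by decide +kernel))
noncomputable def rhcdf27cf301cddb97 : CRef := CRef.mk (Pat.mk 0x180000000000000018000000800000000000000000 0x140000003c0000001f0000001f000000ff0000007800000008 9 8) 0 0 (step_sound _ 67 [(rh02ef15e22aa7db92.shift 3 0), (rh040ba0f36ac8ff88.shift 0 1), (rh2d55c6a7f1c1aeb9.shift 0 1), (rh7d7eaefe27cdd7b0.shift 3 2)] (by decide +kernel))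
noncomputable def rhfb9e01390821c059 : CRef := CRef.mk (Pat.mk 0xe000000000000000c000000000 0x280000003800000038000001bf000000fe0000007f000000f8000001f8 9 9) 0 0 (step_sound _ 100 [(rh0a39ef4d7d86e336.shift 1 0), (rh368bcaef720bd0af.shift 3 0), (rh592c7139d2c44767.shift 2 2), rh5a86b7d35ebf3fc4, (rhe9b08f41bf3a885c.shift 3 0)] (by decide +kernel))
noncomputable def rh906625968a792faf : CRef := CRef.mk (Pat.mk 0x180000010000000030000001000000000000000000 0x20000000ff000000fe000001df0000003c000001f00000003000000020 9 9) 0 0 (step_sound _ 132 [(rh0c73448074db8fb0.shift 0 2), (rh3017d25d78b4d84f.shift 1 1), (rh70e33bfdf511e144.shift 4 0), (rhe10aaf075294da23.shift 1 2)] (by decide +kernel))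
noncomputable def rh3aa0a0aef46dc71d : CRef := CRef.mk (Pat.mk 0x180000000000000030000000000000000000000000 0x80000001c0000001f000000380000001e00000038000000380000002000000020 9 6) 0 0 (step_sound _ 132 [(rh70e33bfdf511e144.shift 4 0), (rh97d9d8d872f65553.shift 0 2), (rhf9a6286f1d5377a2.shift 3 2)] (by decide +kernel))
noncomputable def rh03bc41e3a8fe0aa0 : CRef := CRef.mk (Pat.mk 0x380000010000000030000001000000000000000000 0x1d7000000fe000001de0000003c000001f40000002000000020 9 9) 0 0 (step_sound _ 166 [(rh1a48baf448afc5e7.shift 3 4), rh623136dad2354286, (rheaa91b92daf0efc8.shift 3 4), (rhf9ab2d41f5effb32.shift 2 0)] (by decide +kernel))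
noncomputable def rhc81eed30a9f3b193 : CRef := CRef.mk (Pat.mk 0x1e000000000000000c0000000000000000000000000000000000000000 0x60000000e0000000e0000000c0000001e000000070000000e0000000e0000000c0000000e0000000e0000000a 9 5) 0 0 (step_sound _ 194 [(rh215e11e099257d75.shift 2 4), (rh4f89f9aa69c353f7.shift 1 4), (rh70e33bfdf511e144.shift 2 2), rha46ba7e1739ef911] (by decide +kernel))
noncomputable def rha8bb2498a63ff4be : CRef := CRef.mk (Pat.mk 0x38000000000000003000000000 0xa0000000e0000000e000000770000003e0000000f0000003e0000000e 9 7) 0 0 (step_sound _ 98 [(rh4c622fddc53a5f99.shift 0 3), (rh592c7139d2c44767.shift 0 2), (rh9e97bba44c1b13e4.shift 0 2), (rhe9b08f41bf3a885c.shift 1 0)] (by decide +kernel))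
noncomputable def rhe986cafad7244fd7 : CRef := CRef.mk (Pat.mk 0x380000000000000000 0xa0000000e0000001e0000007f0000003e0000000f00000008 9 7) 0 0 (step_sound _ 66 [(rh308a8596f9045463.shift 1 0), (rh592c7139d2c44767.shift 0 1), (rh61325f73ebf98108.shift 0 2), (rh9e97bba44c1b13e4.shift 0 1)] (by decide +kernel))
noncomputable def rhcde82a51d5a1e484 : CRef := CRef.mk (Pat.mk 0x380000000000000000 0x2000000060000000e0000000e0000007f0000003e0000000f0000000c 9 7) 0 0 (step_sound _ 66 [(rh1a138814b2521829.shift 1 0), (rh4c622fddc53a5f99.shift 0 2), (rh592c7139d2c44767.shift 0 1), (rh9e97bba44c1b13e4.shift 0 1)] (by decide +kernel))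
noncomputable def rhdd23029110ea28a4 : CRef := CRef.mk (Pat.mk 0x1e000000000000000000000000 0x200000003000000070000003f0000001e000000070000000300000003 9 6) 0 0 (step_sound _ 129 [(rh3244c3cc8379b070.shift 0 3), rhaa3a8093534b4613] (by decide +kernel))
noncomputable def rhf4525d986a139460 : CRef := CRef.mk (Pat.mk 0x180000009000000018000000000000000000000000 0xa0000000e0000000e0000001e000000f40000001e0000000f0000000a00000008 9 8) 0 0 (step_sound _ 133 [(rh2fe78cc5ca4405d8.shift 3 4), rh324d0ea50577142e] (by decide +kernel))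
noncomputable def rhb718edc4cc2c5de4 : CRef := CRef.mk (Pat.mk 0x60000002000000006000000000 0x1000000038000003ff000001fe0000039e0000007c0000003c 9 10) 0 0 (step_sound _ 100 [(rh107d500764a21788.shift 3 0), (rh29ae7a2b4f5dbf8e.shift 2 2), (rh389af9323abc94f7.shift 3 0), rh929afe6d5ee8cc62, (rh9a42f4164057f645.shift 2 2)] (by decide +kernel))
noncomputable def rha0faa2db2c5b26f7 : CRef := CRef.mk (Pat.mk 0x78000000000000000000000000 0xc0000001c0000001f000000fc000000780000001c0000000c0000000c 9 8) 0 0 (step_sound _ 134 [(rh33e738c4ed385b9f.shift 3 3), rhc1619fc31161e2b4] (by decide +kernel))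
noncomputable def rhb45f5c57be7f52ab : CRef := CRef.mk (Pat.mk 0x8000000100000001e0000001000000000000000000000000000000000 0x10000000f0000000f000000170000001e0000001f0000007b0000003f0000003c00000020 9 7) 0 0 (step_sound _ 100 [(rh5dcd6e5f43e1328e.shift 0 1), (rh89cf5152879421f3.shift 3 0), (rh8cdd36b03d57a2f6.shift 3 1), (rha04d4bd5c298d1be.shift 0 2)] (by decide +kernel))
noncomputable def rh1c30208f46633a8e : CRef := CRef.mk (Pat.mk 0x100000000000000034000000000000000000000000 0x2800000038000000780000001e000000770000003e000000700000002000000020 9 7) 0 0 (step_sound _ 99 [(rh03a6f79dca3226c9.shift 2 0), (rh0d378fd9e8917c5a.shift 0 2), (rh5fe3e239c7f00e2b.shift 1 2), (rhecee3631ccd53610.shift 1 2)] (by decide +kernel))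
noncomputable def rhccf23b12f7bdc631 : CRef := CRef.mk (Pat.mk 0x100000000000000034000000000000000000000000 0x38000000780000001e000000700000003e000000770000002000000020 9 7) 0 0 (step_sound _ 99 [(rh03a6f79dca3226c9.shift 2 0), (rh185f35b8bd8ec37f.shift 0 2), (rh5fe3e239c7f00e2b.shift 1 2), (rh9e97bba44c1b13e4.shift 0 2)] (by decide +kernel))
noncomputable def rh59767b2ab65b192e : CRef := CRef.mk (Pat.mk 0x10000000100000003400000130000000000000000000000000 0xa0000000e0000001f0000003f00000036000001fe000000060000000600000002 9 9) 0 0 (step_sound _ 103 [(rh5419adcd928dba20.shift 4 3), rhf1018b4394019803] (by decide +kernel))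
noncomputable def rhea2b902a15c579ee : CRef := CRef.mk (Pat.mk 0x1000000003000000060000000000000000000000000000000000000000 0x2000000060000001e00000003000000070000000700000007000000070000000700000005 9 5) 0 0 (step_sound _ 225 [(rh62825c4dfa6be415.shift 0 2), rh970a0cc351b94a12, (rhb23658ecdd7ce5df.shift 0 4), (rhbffa7d433fd798c9.shift 0 1)] (by decide +kernel))
noncomputable def rh33f7e76a8a7f7c0e : CRef := CRef.mk (Pat.mk 0x6000000200000002600000020000000000 0x140000003c000001bc000003be000001fe000003ff000003780000022000000020 9 10) 0 0 (step_sound _ 132 [(rh04ec5264a1e834aa.shift 0 1), (rh4c47f9d4566e15ff.shift 1 1), (rh4d84294bee8b0a94.shift 3 1), (rh4e19d4e59bbd8815.shift 3 1), (rhf1db2585fffcecc4.shift 1 0), (rhf4f365312b20189e.shift 1 1), (rhf8e735c4fd37dbb2.shift 2 3)] (by decide +kernel))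
noncomputable def rh14da0beb887ba650 : CRef := CRef.mk (Pat.mk 0x4000000000000000c0000003800000000000000000000000000000000 0xc0000000c0000000c0000003c0000001e0000001f0000001f0000000c 9 6) 0 0 (step_sound _ 99 [(rh3a1cc22ead2eadb0.shift 2 2), (rh50a14b5cf38c0cd7.shift 2 2), (rh92d527fd57e151ef.shift 2 3), rhe1464fd7fe467fc3] (by decide +kernel))
noncomputable def rh37c9f303378a6cda : CRef := CRef.mk (Pat.mk 0x40000002000000024000000200000000000000000 0x60000001f0000007e0000003c0000007e0000001f0000001e 9 7) 0 0 (step_sound _ 99 [rh08840d7eb0a3d489, (rh2db2c8c34df74365.shift 1 1), (rh6eb9d2ddfb905593.shift 1 1), (rhabf575676fe0ef70.shift 2 2)] (by decide +kernel))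
noncomputable def rh22ee824e84634542 : CRef := CRef.mk (Pat.mk 0x1c000000c00000000800000000 0x400000014000000170000001f000000ff0000000b0000000b 9 8) 0 0 (step_sound _ 68 [rh4f7f82fcdc6d49b1, (rh5419adcd928dba20.shift 3 2)] (by decide +kernel))
noncomputable def rhc6aa8af222c5b50d : CRef := CRef.mk (Pat.mk 0x38000001800000001000000000 0x8000000080000001f0000003e000001ff0000001600000016 9 9) 0 0 (step_sound _ 69 [rh4c7b023274139050, (rh5419adcd928dba20.shift 4 2)] (by decide +kernel))
noncomputable def rh393b9e818eca099a : CRef := CRef.mk (Pat.mk 0x38000000200000001000000000 0x2800000038000000ff0000007e0000003f00000038000000380000001000000010 9 8) 0 0 (step_sound _ 68 [(rh475651e00172e788.shift 0 1), (rh84d1c02a8954c6a8.shift 4 0), (rhb1a251d9bff81766.shift 3 0)] (by decide +kernel))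
noncomputable def rhbef556ba51f4410a : CRef := CRef.mk (Pat.mk 0xe0000000000000004000000000 0x8000000b8000000b8000000ff000000fe000000ff0000005000000040 9 8) 0 0 (step_sound _ 70 [(rh215e11e099257d75.shift 6 0), (rh261f868a429ae0e3.shift 5 0), (rh7bbca7199f72f7e6.shift 0 1), (rhb1a251d9bff81766.shift 5 0)] (by decide +kernel))
noncomputable def rh42ba1a28775cd8b8 : CRef := CRef.mk (Pat.mk 0x20000000200000002000000000 0x8000000580000005f000000fe000000ff000000300000002000000020 9 8) 0 0 (step_sound _ 132 [(rh0dbc8abee7ad42d4.shift 4 0), rh90e850ed26c24b2c, (rha5dc83e34999ae02.shift 2 0), (rhbab796f6dafe9186.shift 4 1)] (by decide +kernel))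
noncomputable def rhca7b6d491368171a : CRef := CRef.mk (Pat.mk 0x20000001200000002000000020 0x5e000000fe000001bf0000002000000020 9 9) 0 0 (step_sound _ 102 [(rh2f68792b6b779e96.shift 5 0), rhad290403e98fc978] (by decide +kernel))
noncomputable def rh525d8949d0af3587 : CRef := CRef.mk (Pat.mk 0x4000000160000001e00000000000000000000000000000000 0x4000000160000001f0000003a0000003f0000003f00000038 9 6) 0 0 (step_sound _ 100 [rh770a5a98a9f094d6, (rhe25b0a99195a5d59.shift 1 3)] (by decide +kernel))
noncomputable def rhf7cf00a000bca404 : CRef := CRef.mk (Pat.mk 0x800000048000000180000001800000000 0x40000000f0000007f0000001b0000001f00000007 9 7) 0 0 (step_sound _ 34 [rh82b8db4f2cbc1330, (rh932754581e0f4330.shift 2 0)] (by decide +kernel))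
noncomputable def rhce323160a9dd10ed : CRef := CRef.mk (Pat.mk 0x80000001c00000000 0x140000001e0000001e0000007f0000007f0000003f00000004 9 7) 0 0 (step_sound _ 68 [rh52be32fc3697216c, rhe62dad4106b3ff88, (rhf9d36e158778ce35.shift 1 1)] (by decide +kernel))
noncomputable def rhb80b9c50b8d6a707 : CRef := CRef.mk (Pat.mk 0x200000007000000000 0x100000001c0000001c0000000c000000ff0000007e0000001f 9 8) 0 0 (step_sound _ 35 [rh1f9701c4cf497514, (rh592c7139d2c44767.shift 1 0), rha4e887c2a2a0f60b, (rhb4fea50914d79e96.shift 2 0), (rhec46bd5500c722c9.shift 2 1)] (by decide +kernel))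
noncomputable def rhf8f73b255217880d : CRef := CRef.mk (Pat.mk 0x100000003c0000000000000000 0x1c0000001e0000001f0000001e0000007f0000000c00000004 9 7) 0 0 (step_sound _ 98 [(rh3244c3cc8379b070.shift 1 2), rhfdb50135dd20ef21] (by decide +kernel))
noncomputable def rhb8ec66daf742d649 : CRef := CRef.mk (Pat.mk 0xc0000001c00000000 0x38000000f80000007f0000007f0000001c00000004 9 8) 0 0 (step_sound _ 65 [(rhb739f4f82bb681b4.shift 0 1), rhc31600c52b933ba5] (by decide +kernel))
noncomputable def rha0982572811bf6a0 : CRef := CRef.mk (Pat.mk 0x10000000100000001000000000 0x20000000380000003800000010000000ff0000007e0000002f 9 8) 0 0 (step_sound _ 132 [(rh20966da26a1c2ae8.shift 3 0), (rh3d8d68a896ef6211.shift 2 0), rhc1d8cfb54668e2bf, (rhced6d86d2069808b.shift 4 0)] (by decide +kernel))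
noncomputable def rhc4f02fd1c1ca2b61 : CRef := CRef.mk (Pat.mk 0x1000000010000000100000001000000000 0x280000003800000010000000ff0000007e0000002f 9 8) 0 0 (step_sound _ 35 [rh8b4e143382c60276, (rh932754581e0f4330.shift 3 0)] (by decide +kernel))
noncomputable def rh5a50c0b29e922fec : CRef := CRef.mk (Pat.mk 0x120000001e00000022000000a400000020000000000000000000000000 0x50000000700000037000000370000003f0000001e0000001e000000e2000000bc000001f8000001d80000005000000040 9 9) 0 0 (step_sound _ 257 [(rh1741680720c097b4.shift 0 5), rh238dfe96441452dd, (rh35c5f1c53251aa1b.shift 0 5), (rh53ce98c440f4f2e0.shift 0 5), (rh64bc0dab78a08b48.shift 0 5), (rhc3115e0f4b0bf27b.shift 0 5)] (by decide +kernel))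
noncomputable def rhbc103e91375b1d9c : CRef := CRef.mk (Pat.mk 0x700000000000000000 0x40000001c0000001c0000001c000000ff0000007e0000001f00000008 9 8) 0 0 (step_sound _ 67 [(rh4c622fddc53a5f99.shift 1 2), (rh592c7139d2c44767.shift 1 1), (rh988dac8d009f9f77.shift 0 1), (rh9e97bba44c1b13e4.shift 1 1), (rhbd27678d53491cff.shift 2 0)] (by decide +kernel))
noncomputable def rha7f6f86892668f1d : CRef := CRef.mk (Pat.mk 0x10000000e00000010000000000000000000000000 0x80000003800000038000000380000003b0000001e00000010000000380000003800000028 9 6) 0 0 (step_sound _ 132 [(rh3f8766e6ecb455ce.shift 0 4), (rh99d5b9ef2979bf4c.shift 1 0)] (by decide +kernel))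
noncomputable def rh581c062deb03aeda : CRef := CRef.mk (Pat.mk 0x120000001e00000000 0x50000002f0000003f0000003f0000003f0000001e0000001e0000000b 9 6) 0 0 (step_sound _ 100 [(rh32431e66bbf434a4.shift 3 0), rh4b5b940b21eff260, (rh7a7e08304268422e.shift 3 0)] (by decide +kernel))
noncomputable def rh1de59408abff17ad : CRef := CRef.mk (Pat.mk 0x8000000480000001800000000 0x3c0000003f0000003c000000f80000001800000008 9 8) 0 0 (step_sound _ 68 [(rh21e4a49dbe82aa73.shift 2 0), (rh6493ceb007f59211.shift 2 1), rhde9a024a75bcc2d8] (by decide +kernel))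
noncomputable def rh3b796f43bac1c5ff : CRef := CRef.mk (Pat.mk 0x180000000c0000004800000008 0x200000002000000070000001f0000003f0000007f00000008 9 7) 0 0 (step_sound _ 98 [(rh391e6aeea958789b.shift 0 1), (rh50fbb5868c909700.shift 2 0)] (by decide +kernel))
noncomputable def rh3124eab6fb94a8dd : CRef := CRef.mk (Pat.mk 0x30000000600000002000000000 0x2c0000003c0000007c0000003e0000007c0000007f0000002c0000000c 9 7) 0 0 (step_sound _ 99 [rh176e9b90035e335b, (rhb739f4f82bb681b4.shift 2 2)] (by decide +kernel))
noncomputable def rh35ee0669004f7c68 : CRef := CRef.mk (Pat.mk 0x300000012000000020000000000000000000000000 0x4e000000fe000001bf00000020000000700000007000000050 9 9) 0 0 (step_sound _ 69 [(rh257d7200ab2a6828.shift 4 0), (rh8cdd36b03d57a2f6.shift 4 0), (rhd94eec85b09820d1.shift 0 2), (rhe4441baab75a6f73.shift 4 0)] (by decide +kernel))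
noncomputable def rhe56b2e751eefe68e : CRef := CRef.mk (Pat.mk 0x20000001e000000000000000000000000 0x300000007000000070000003e0000001e000000070000000300000003 9 6) 0 0 (step_sound _ 65 [rh572ace3c3f6a224b, (rheb0810cc63b001d8.shift 0 2)] (by decide +kernel))
noncomputable def rh8025924852927109 : CRef := CRef.mk (Pat.mk 0x3000000100000000200000000000000000 0x4c0000004c000001ef000000fe000003ff0000002e0000002e0000000a 9 10) 0 0 (step_sound _ 131 [(rh344a70c8e96766cc.shift 1 3), (rh833cbed0dc104bad.shift 1 1), (rhaf9c05432836c531.shift 3 1), rhd6372986e467aa61] (by decide +kernel))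
noncomputable def rh0886eda4009eec0a : CRef := CRef.mk (Pat.mk 0xa0000001a000000800000009000000080 0x100000001400000077000000ff0000005a000000ff000000d700000090 9 8) 0 0 (step_sound _ 68 [(rh7b1f1fb55310c477.shift 3 0), rhf1a5c739604d4496] (by decide +kernel))
noncomputable def rh9cf66fbf0072f524 : CRef := CRef.mk (Pat.mk 0x20000001a0000009200000000 0x1000000070000000700000006000000030000001b000000ff00000005 9 8) 0 0 (step_sound _ 38 [(rh5419adcd928dba20.shift 3 1), rh8bc4abfc476f3cec] (by decide +kernel))
noncomputable def rha1dc6eb332887697 : CRef := CRef.mk (Pat.mk 0x8000000180000003000000000 0x20000000280000007f0000007f0000001e0000003000000010 9 7) 0 0 (step_sound _ 131 [(rh2145e1d24b96a57e.shift 3 1), rhf662a0f3107b5399] (by decide +kernel))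
noncomputable def rh628aa53c229f135e : CRef := CRef.mk (Pat.mk 0x80000001800000038000000000000000000000000 0x770000007f0000001e00000038000000180000000800000008 9 7) 0 0 (step_sound _ 130 [rh76de68150f28808e, (rhb739f4f82bb681b4.shift 1 3)] (by decide +kernel))
noncomputable def rhc90840db7d6596d5 : CRef := CRef.mk (Pat.mk 0x20000000300000006000000000 0x10000000300000003000000030000000770000007e0000001f 9 7) 0 0 (step_sound _ 133 [rh00612dd337361f8b, (rh03dfdf12d5937476.shift 4 0), (rh5bd4bc0c2c48140c.shift 4 1)] (by decide +kernel))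
noncomputable def rhadb4facb2f6fc005 : CRef := CRef.mk (Pat.mk 0x2000000020000000300000006000000000 0x500000007000000030000000770000007e0000001f 9 7) 0 0 (step_sound _ 36 [(rh932754581e0f4330.shift 4 0), rhd8a757daf8388885] (by decide +kernel))
noncomputable def rhace0efcbe16d0979 : CRef := CRef.mk (Pat.mk 0x20000000300000002000000000 0x4800000058000000df000001fe000001f70000003e00000038 9 9) 0 0 (step_sound _ 100 [(rh4a0402cc0c221ec5.shift 1 0), rh5402d89d0d342a88, (rh74b8be03d75336da.shift 2 1), (rhfc7c29d8e65d775f.shift 4 0)] (by decide +kernel))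
noncomputable def rh3e46ff16ad2116a1 : CRef := CRef.mk (Pat.mk 0x1800000030000000000000000000000000 0x7c000000fe000001fe000001fc0000003e0000001f0000000c00000004 9 9) 0 0 (step_sound _ 133 [rh526f36f762e6f626, (rh6e9dff32f37b2c48.shift 1 3), (rh90c25fb46e141444.shift 1 2), (rhb6524700ef1c9b0c.shift 2 2)] (by decide +kernel))
noncomputable def rhd78d7e140471533b : CRef := CRef.mk (Pat.mk 0xe000000000000000000000000000000000 0x3000000030000000ff000000fe0000007f000000380000003800000028 9 8) 0 0 (step_sound _ 132 [(rh03c06803d1655eb6.shift 3 0), (rh507c820bd498f3fc.shift 0 3), (rh592c7139d2c44767.shift 2 3), (rh73d929a11584eaf7.shift 0 3), (rhaeac014a58998cf3.shift 1 3), (rhd4999ead6bb0c91f.shift 1 3)] (by decide +kernel))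
noncomputable def rhd51ea6e961e524bd : CRef := CRef.mk (Pat.mk 0x600000014000000000000000000000000 0x30000000300000003000000070000003e000000070000000600000006 9 6) 0 0 (step_sound _ 99 [rh1c05aabf677823fd, (rhf48373e13d2bc128.shift 1 3)] (by decide +kernel))
noncomputable def rh945d31abe92af6d6 : CRef := CRef.mk (Pat.mk 0x48000000180000001000000000 0x300000003c0000003f000000ff0000001c0000001800000008 9 8) 0 0 (step_sound _ 100 [rh51c3ca895621e214, (rhbaf88512d8002c5c.shift 2 1), (rhd11dc6dd83191698.shift 2 2)] (by decide +kernel))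
noncomputable def rh87491f8605a16bbc : CRef := CRef.mk (Pat.mk 0x4800000018000000100000000000000000 0x30000000780000001c0000001f0000003f0000003c 9 7) 0 0 (step_sound _ 36 [(rh7b1f1fb55310c477.shift 3 0), rhe506c945a1ee89fa] (by decide +kernel))
noncomputable def rh9dcfe95529112d00 : CRef := CRef.mk (Pat.mk 0x1000000018000000100000001800000000 0x1c0000001c0000001c0000001f0000003f00000007 9 6) 0 0 (step_sound _ 67 [(rh5c5e593799055d58.shift 3 1), rhe1c294874c7409c4] (by decide +kernel))
noncomputable def rhfb6d97fe0a9673a4 : CRef := CRef.mk (Pat.mk 0x1800000010000000180000001000000000 0x70000003f0000001f0000001c0000001c0000001c 9 6) 0 0 (step_sound _ 99 [(rh7b1f1fb55310c477.shift 3 0), rhf4fbb1b9236a794d] (by decide +kernel))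
noncomputable def rhe3b3bebffea4ebcf : CRef := CRef.mk (Pat.mk 0xa0000000300000008000000000000000000000000 0x10000000700000007000000060000001f000000030000001f000000070000000700000005 9 5) 0 0 (step_sound _ 162 [(rh18965a982d73c794.shift 0 4), rh71075b63545df86a] (by decide +kernel))
noncomputable def rh9048c0e2d3f65199 : CRef := CRef.mk (Pat.mk 0x8000000030000000a00000000000000000000000000000000 0x500000007000000070000001f000000030000001f00000006000000070000000700000001 9 5) 0 0 (step_sound _ 130 [rhbc234d174ca48365, (rhf48373e13d2bc128.shift 0 4)] (by decide +kernel))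
noncomputable def rh4d8175640a1c5542 : CRef := CRef.mk (Pat.mk 0x100000001e0000001000000000000000000000000000000000 0x50000000700000007000000170000001e0000001f0000000f0000000f0000000700000005 9 5) 0 0 (step_sound _ 129 [rh890bcb427de20597, (rheb0810cc63b001d8.shift 0 4)] (by decide +kernel))
noncomputable def rh672a7e41a88dc9cb : CRef := CRef.mk (Pat.mk 0x5000000018000000400000000000000000 0x8000000380000003e000000fc000000180000007f0000003c0000001c 9 8) 0 0 (step_sound _ 67 [(rhcf80391c5046a495.shift 3 0), (rhd89d4df18650b4c4.shift 1 1), rhe93a86005ec16405, (rhf9366b6a121593ef.shift 3 0)] (by decide +kernel))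
noncomputable def rh3c8824623a8e8753 : CRef := CRef.mk (Pat.mk 0x1800000010000000180000001800000000 0x40000001f0000001f0000001b0000001f00000017 9 5) 0 0 (step_sound _ 99 [(rh7b1f1fb55310c477.shift 3 0), rhe7b1cef18b79e1f3] (by decide +kernel))
noncomputable def rh1b2e4b814ba28c31 : CRef := CRef.mk (Pat.mk 0x100000001e00000010000000000000000000000000 0x5000000070000000f0000000f0000001f0000001e00000017000000070000000700000005 9 5) 0 0 (step_sound _ 161 [(rh3244c3cc8379b070.shift 0 4), rhfc2ea406fedd95c5] (by decide +kernel))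
noncomputable def rh2bc2ca59b89655d4 : CRef := CRef.mk (Pat.mk 0x400000001800000050000000000000000000000000 0x1c0000003c0000007f00000018000000fc0000003e0000003800000008 9 8) 0 0 (step_sound _ 163 [rh03720221dce5bb36, (rh6bc83c419fddbefd.shift 1 1), (rhc2c7bae8f445c890.shift 3 1), (rhc38f566cab2818e5.shift 3 1)] (by decide +kernel))
noncomputable def rh909315b6cf949fd9 : CRef := CRef.mk (Pat.mk 0x1800000018000000100000001800000000 0x170000001f0000001b0000001f0000001f00000004 9 5) 0 0 (step_sound _ 67 [(rh5c5e593799055d58.shift 3 1), rh93a6b901282244f0] (by decide +kernel))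
noncomputable def rh79ada172e96b8cca : CRef := CRef.mk (Pat.mk 0x200000000c00000028000000000000000000000000 0x140000007c0000000f000000780000001e0000001c00000014 9 7) 0 0 (step_sound _ 100 [rh6c274d2d020a6b0a, (rhf48373e13d2bc128.shift 2 3)] (by decide +kernel))
noncomputable def rh755520f75e33e38a : CRef := CRef.mk (Pat.mk 0x280000000c0000002000000000 0x140000001c0000001e000000780000000f0000007c00000014 9 7) 0 0 (step_sound _ 100 [(rh18965a982d73c794.shift 2 2), rh5db3c2745ae3d1ae] (by decide +kernel))
noncomputable def rh285361bb38bf26a1 : CRef := CRef.mk (Pat.mk 0x1400000006000000000000000000000000 0x600000006000000070000003e00000007000000030000000300000003 9 6) 0 0 (step_sound _ 131 [(rh18965a982d73c794.shift 1 3), rha5a3f4073b5bb156] (by decide +kernel))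
noncomputable def rhce17c3e2129fe20e : CRef := CRef.mk (Pat.mk 0x8000000480000001800000000 0xc0000000c0000000c000000ff0000001f0000000f 9 8) 0 0 (step_sound _ 68 [(rh51246ab843efda05.shift 2 1), (rh6493ceb007f59211.shift 2 1), (rhd11dc6dd83191698.shift 2 1), rhe14fc7e364857bff] (by decide +kernel))
noncomputable def rh02be826f3f0ce423 : CRef := CRef.mk (Pat.mk 0x800000018000000180000001800000000 0x30000000390000001f0000001f0000001f00000007 9 6) 0 0 (step_sound _ 132 [(rh5c5e593799055d58.shift 3 1), rhf446cc0fdc5bfdeb] (by decide +kernel))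
noncomputable def rhb20533638eff840a : CRef := CRef.mk (Pat.mk 0x800000018000000180000001800000000 0x170000001f0000001b0000001f0000001f00000004 9 5) 0 0 (step_sound _ 132 [rh58490d8150452a41, (rh5c5e593799055d58.shift 3 1)] (by decide +kernel))
noncomputable def rh2c7fe63d5a32bc91 : CRef := CRef.mk (Pat.mk 0x10000000000000001800000018000000000000000000000000 0x10000000170000001f0000001f0000000e0000000c0000000c 9 5) 0 0 (step_sound _ 67 [rhca7a90608d5ccc41, (rhee230b994cc8b773.shift 3 2)] (by decide +kernel))
noncomputable def rh81e47a00abaf9e2a : CRef := CRef.mk (Pat.mk 0x80000000800000018000000000000000000000000 0x40000000c0000000e0000001f0000001f0000001f00000014 9 5) 0 0 (step_sound _ 67 [(rh4237f462a9fac39e.shift 0 1), (rh8cdd36b03d57a2f6.shift 2 0), (rh8ff3dde5b1c639e0.shift 2 0), (rhc4526fc8abf298b6.shift 2 0)] (by decide +kernel))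
noncomputable def rh7a2881502ef9f6ab : CRef := CRef.mk (Pat.mk 0x80000004800000018000000000000000000000000 0x340000003f000000ff0000001c000000180000001800000008 9 8) 0 0 (step_sound _ 132 [(rh51246ab843efda05.shift 2 3), (rh6493ceb007f59211.shift 2 3), rh9856bd5a5bf110f8, (rhd11dc6dd83191698.shift 2 3)] (by decide +kernel))
noncomputable def rh4dc8227252b9390a : CRef := CRef.mk (Pat.mk 0x2000000100000001200000010000000000000000000000000 0x500000007000000070000000f0000003f0000001e00000037000000070000000700000005 9 6) 0 0 (step_sound _ 130 [(rhabf575676fe0ef70.shift 1 3), rhc910297120d18e1a] (by decide +kernel))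
noncomputable def rhe8d1c029b202ce90 : CRef := CRef.mk (Pat.mk 0x10000000a000000030000000000000000000000000000000000000000 0x50000000700000007000000070000001e000000030000000300000007000000070000000700000001 9 5) 0 0 (step_sound _ 194 [(rh18965a982d73c794.shift 0 5), rh7801be426ffd689d] (by decide +kernel))
noncomputable def rh05fdecfb8be517ea : CRef := CRef.mk (Pat.mk 0x1800000008000000180000001800000000 0x60000007f0000003f0000001f0000001f00000006 9 7) 0 0 (step_sound _ 34 [rh598f91d18bcc66c5, (rh932754581e0f4330.shift 2 0)] (by decide +kernel))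
noncomputable def rh359f80cdeb4b35b0 : CRef := CRef.mk (Pat.mk 0x80000000800000018000000000000000000000000 0x140000003c0000000f0000001f0000001f0000001f00000014 9 6) 0 0 (step_sound _ 67 [(rh185ea437a42a90aa.shift 0 1), (rh8cdd36b03d57a2f6.shift 2 0), (rh8ff3dde5b1c639e0.shift 2 0), (rhac0a67c951ef6745.shift 0 1)] (by decide +kernel))
noncomputable def rh55c6fc656279cce9 : CRef := CRef.mk (Pat.mk 0x1000000010000000100000000000000000000000000000000000000000 0x2f0000003e0000003f0000001c0000001800000038000000380000003800000028 9 6) 0 0 (step_sound _ 132 [(rh95311890f436bcdc.shift 3 1), (rhac896e42bf3e13c0.shift 3 0), (rhc4055b4872d6fb38.shift 3 3), (rhc4526fc8abf298b6.shift 3 2), (rhc850b49d039efae1.shift 3 1), (rhe2de2da7254b6a91.shift 0 3)] (by decide +kernel))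
noncomputable def rha58aac1f517ae841 : CRef := CRef.mk (Pat.mk 0x10000000100000001000000000000000000000000000000000 0x800000018000000180000003f0000007e0000003f0000003800000028 9 7) 0 0 (step_sound _ 100 [(rh47992774edf9829f.shift 3 0), (rh6eff4158bb400f47.shift 3 1), (rh8ff3dde5b1c639e0.shift 3 1), (rhc4526fc8abf298b6.shift 3 1), (rhd7d261cc9481cf89.shift 0 2)] (by decide +kernel))
noncomputable def rhe8ecc54b19ff96dd : CRef := CRef.mk (Pat.mk 0x200000002000000020000000000000000000000000000000000000000 0x4000000060000000600000007000000030000000300000007000000070000000700000005 9 3) 0 0 (step_sound _ 129 [(rh20966da26a1c2ae8.shift 0 3), (rh95311890f436bcdc.shift 0 1), rhac896e42bf3e13c0, rhffda8a88c63a3621] (by decide +kernel))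
noncomputable def rh84707d9684a1f08b : CRef := CRef.mk (Pat.mk 0x180000002900000008000000000000000000000000 0x500000007000000070000000780000002f00000078000000700000007000000050 9 7) 0 0 (step_sound _ 130 [(rh24ae073cf30720c4.shift 0 4), (rh47cb302106d74e2a.shift 2 0)] (by decide +kernel))
noncomputable def rh521be6cb6667d077 : CRef := CRef.mk (Pat.mk 0xc00000020000000240000002000000000000000000000000000000000 0x140000001c0000003c0000000f000000680000003c0000006c0000001c0000001c0000001c00000004 9 7) 0 0 (step_sound _ 163 [rh2f49f0d2b09f94e7, (rhabf575676fe0ef70.shift 2 4)] (by decide +kernel))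
noncomputable def rh5462687512824031 : CRef := CRef.mk (Pat.mk 0x380000000000000000 0xe0000000e0000007f0000003e0000000f0000000c 9 7) 0 0 (step_sound _ 66 [(rh4c622fddc53a5f99.shift 0 2), (rh775ca1963e850b80.shift 0 1), (rh9e97bba44c1b13e4.shift 0 1), (rhde26a6daac8b723d.shift 1 0)] (by decide +kernel))
noncomputable def rhdc979c27d69a796c : CRef := CRef.mk (Pat.mk 0x20000000200000002000000000 0x500000007f000000fe000000fc000000300000003000000010 9 8) 0 0 (step_sound _ 133 [rh108ae7717c23a852, (rh20966da26a1c2ae8.shift 4 0), (rh771d065bdc85bf2d.shift 4 0), (rhc85cc95794737cf7.shift 4 1)] (by decide +kernel))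
noncomputable def rh135a7cfdf280a0d6 : CRef := CRef.mk (Pat.mk 0x10000000000000006000000020000000000000000000000000 0x18000000180000001e0000007e0000007f0000003c0000003c00000014 9 7) 0 0 (step_sound _ 132 [(rh0588d2c7f2cab5e9.shift 4 1), (rh7ad9335bdd999f56.shift 1 1), rhb2e8ce3297b78ea1, (rhcafea7e010a7d58d.shift 0 2)] (by decide +kernel))
noncomputable def rhe7999d725b403561 : CRef := CRef.mk (Pat.mk 0xc000000400000000800000000000000000000000000000000 0x12000000370000003f0000007f0000000c0000001c0000001c0000001c00000014 9 7) 0 0 (step_sound _ 163 [(rh0a6888916bcef86b.shift 2 1), (rh985335d5e81225b5.shift 2 0), (rhb0efbadc3906b2d2.shift 0 3), (rhd1779d7de7f8215b.shift 2 1)] (by decide +kernel))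
noncomputable def rh3be629ef940a5308 : CRef := CRef.mk (Pat.mk 0x1800000018000000080000000000000000 0x200000002000000070000003f0000001f0000000f0000000800000008 9 6) 0 0 (step_sound _ 35 [(rh71222050f2c63a3a.shift 3 0), (rh863dbea2bef7647b.shift 0 1)] (by decide +kernel))
noncomputable def rh9bd2e432bcc9fa86 : CRef := CRef.mk (Pat.mk 0x200000012000000020000000000000000000000000000000000000000 0x40000000600000006000000070000003f000000070000000300000003000000070000000700000005 9 6) 0 0 (step_sound _ 194 [(rh58aa26c47e50de25.shift 0 2), (rh5ff7e8d752bed2cb.shift 0 5), rhb7c65291bb7e0616] (by decide +kernel))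
noncomputable def rh22ecd2785146be1b : CRef := CRef.mk (Pat.mk 0x200000012000000020000000000000000000000000000000000000000 0x10000000300000003000000070000001f000000030000000300000007000000070000000700000005 9 5) 0 0 (step_sound _ 194 [(rh2f8fab6247ecc6da.shift 0 2), rh39b2a7d6ed212c96, (rh51246ab843efda05.shift 0 5), (rhef1c44b93c9d3b46.shift 0 4)] (by decide +kernel))
noncomputable def rh4bde0bac72aeb239 : CRef := CRef.mk (Pat.mk 0x1800000048000000080000000000000000 0xf0000001f000000ff0000000c0000000c0000000c 9 8) 0 0 (step_sound _ 100 [rh2ce42d98aa524e3e, (rh51246ab843efda05.shift 2 2), (rhb7616ccf0736ebbe.shift 2 2), (rhfd0f316c42bbba52.shift 2 3)] (by decide +kernel))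
noncomputable def rh19ffed9c3ea5a1ac : CRef := CRef.mk (Pat.mk 0x1800000018000000180000000800000000 0x70000001f0000001f0000001f0000003900000030 9 6) 0 0 (step_sound _ 36 [rh1451fb88c146e794, (rh7b1f1fb55310c477.shift 3 0)] (by decide +kernel))
noncomputable def rhde344759d710a47f : CRef := CRef.mk (Pat.mk 0x1800000018000000180000000800000000 0x40000001f0000001f0000001b0000001f00000017 9 5) 0 0 (step_sound _ 36 [rh409ccfb5c1e19dfc, (rh7b1f1fb55310c477.shift 3 0)] (by decide +kernel))
noncomputable def rh2fe6753515f3af4c : CRef := CRef.mk (Pat.mk 0x18000000180000000000000010 0xc0000000c0000000e0000001f0000001f0000001700000010 9 5) 0 0 (step_sound _ 131 [(rh9e07f76261b05888.shift 3 0), (rhfa68d77a8eb0398e.shift 0 1)] (by decide +kernel))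
noncomputable def rh0ef2eb06f97dc5d2 : CRef := CRef.mk (Pat.mk 0x18000000080000000800000000 0x140000001f0000001f0000001f0000000e0000000c00000004 9 5) 0 0 (step_sound _ 131 [(rh20966da26a1c2ae8.shift 2 0), (rh771d065bdc85bf2d.shift 2 0), rhb2fb99c2d88149c2, (rhc85cc95794737cf7.shift 2 1)] (by decide +kernel))
noncomputable def rha0f7c4258975106c : CRef := CRef.mk (Pat.mk 0x18000000480000000800000000 0x800000018000000180000001c000000ff0000003f00000034 9 8) 0 0 (step_sound _ 68 [(rh51246ab843efda05.shift 2 1), (rhb7616ccf0736ebbe.shift 2 1), rhe7fe121323391a2a, (rhfd0f316c42bbba52.shift 2 2)] (by decide +kernel))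
noncomputable def rha28db5e2ae8a3cf0 : CRef := CRef.mk (Pat.mk 0x10000000120000001000000002000000000000000000000000 0x50000000700000007000000370000001e0000003f0000000f000000070000000700000005 9 6) 0 0 (step_sound _ 162 [rh77c5bbcfe31ce7ea, (rhabf575676fe0ef70.shift 1 4)] (by decide +kernel))
noncomputable def rh8b5ca908d8f25fd0 : CRef := CRef.mk (Pat.mk 0x30000000a00000001000000000000000000000000 0x100000007000000070000000700000003000000030000001e00000007000000070000000700000005 9 5) 0 0 (step_sound _ 130 [rh94e1dae75c471bde, (rhf48373e13d2bc128.shift 0 4)] (by decide +kernel))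
noncomputable def rh81d3e369b048b3aa : CRef := CRef.mk (Pat.mk 0x1800000018000000080000001800000000 0x60000001f0000001f0000003f0000007f00000006 9 7) 0 0 (step_sound _ 130 [rh03429bc7267c41a5, (rh50fbb5868c909700.shift 2 1)] (by decide +kernel))
noncomputable def rh0e0def5dff4a1a23 : CRef := CRef.mk (Pat.mk 0x18000000080000000800000000 0x140000001f0000001f0000001f0000000f0000003c00000014 9 6) 0 0 (step_sound _ 131 [(rh20966da26a1c2ae8.shift 2 0), rh4d36718ad7ef5347, (rhc85cc95794737cf7.shift 2 1), rhf1a8127573b72831] (by decide +kernel))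
noncomputable def rhb4a4e1783f20f145 : CRef := CRef.mk (Pat.mk 0x10000000100000001000000000 0x28000000380000003800000038000000180000001c0000003f0000003e0000002f 9 6) 0 0 (step_sound _ 132 [rh02a5a8a45a7ec6b6, (rh193da7fc9e1674f1.shift 3 0), (rh52361f9a80a83625.shift 3 1), (rh771d065bdc85bf2d.shift 3 0), (rha087c6594f4bfb59.shift 3 0), (rhed79e5c5ffee0217.shift 3 0)] (by decide +kernel))
noncomputable def rh33ff55aac87c59b5 : CRef := CRef.mk (Pat.mk 0x10000000100000001000000000 0x28000000380000003f0000007e0000003f000000180000001800000008 9 7) 0 0 (step_sound _ 132 [(rh1726a00b0a8befd0.shift 3 0), (rh1741680720c097b4.shift 3 1), (rh20966da26a1c2ae8.shift 3 0), (rh771d065bdc85bf2d.shift 3 0), rhcad5cd41a0833516] (by decide +kernel))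
noncomputable def rh2cc64937851c7d51 : CRef := CRef.mk (Pat.mk 0x200000002000000020000000000000000 0x5000000070000000700000007000000030000000300000007000000060000000600000004 9 3) 0 0 (step_sound _ 161 [(rh52361f9a80a83625.shift 0 2), (rh5c02f9c76b250244.shift 0 1), rh8ff3dde5b1c639e0, (rha087c6594f4bfb59.shift 0 1)] (by decide +kernel))
noncomputable def rh01bb8b0d5e61b9c8 : CRef := CRef.mk (Pat.mk 0x80000002900000018000000000000000000000000 0x500000007000000070000000780000002f00000078000000700000007000000050 9 7) 0 0 (step_sound _ 130 [(rh9db4c888db2f22b3.shift 2 0), (rhab22b5b56e7b3243.shift 0 3)] (by decide +kernel))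
noncomputable def rhfc100ff83fe8059d : CRef := CRef.mk (Pat.mk 0x2000000024000000200000000c000000000000000000000000 0x40000001c0000001c0000001c0000006c0000003c000000680000000f0000003c0000001c00000014 9 7) 0 0 (step_sound _ 163 [rh30d90ac17b9ab3d1, (rhabf575676fe0ef70.shift 2 4)] (by decide +kernel))
noncomputable def rh87f60db4e743d546 : CRef := CRef.mk (Pat.mk 0x38000000000000000000000000 0xc0000000f0000003e0000007f0000000e0000000e 9 7) 0 0 (step_sound _ 98 [(rh0d378fd9e8917c5a.shift 0 2), (rh1393983197bff31f.shift 1 0), (rh185f35b8bd8ec37f.shift 0 2), (rh592c7139d2c44767.shift 0 2)] (by decide +kernel))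
noncomputable def rhbd8cbd59b47ede63 : CRef := CRef.mk (Pat.mk 0x200000002000000020000000000000000000000000 0x100000003000000030000000fc000000fe0000007f00000050 9 8) 0 0 (step_sound _ 69 [(rh4c5b6f5be70356db.shift 0 1), (rh8cdd36b03d57a2f6.shift 4 0), (rh8ff3dde5b1c639e0.shift 4 0), (rhc4526fc8abf298b6.shift 4 0)] (by decide +kernel))
noncomputable def rhffba68c9b3a1d383 : CRef := CRef.mk (Pat.mk 0x2000000060000000000000001000000000 0x140000003c0000003c0000007f0000007e0000001e0000001800000018 9 7) 0 0 (step_sound _ 100 [(rh00d6a6e3c7e3bb40.shift 4 0), (rh44e92dcc048aa319.shift 0 1), (rhb7b766ca92a6e766.shift 1 0), rhbefa7713f4dea7fd] (by decide +kernel))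
noncomputable def rh310ebd6a46e6137b : CRef := CRef.mk (Pat.mk 0x8000000400000000c0000000000000000 0x140000001c0000001c0000001c0000000c0000007f0000003f0000003700000012 9 7) 0 0 (step_sound _ 99 [rh2e883ccb2e85cccb, (rh32431e66bbf434a4.shift 2 1), (rh7a7e08304268422e.shift 2 1), (rha6dfe1edc6ae80dd.shift 2 1)] (by decide +kernel))
noncomputable def rhd85439d95e22a9c5 : CRef := CRef.mk (Pat.mk 0x80000001800000018000000000000000000000000 0x8000000080000000f0000001f0000003f000000070000000200000002 9 6) 0 0 (step_sound _ 195 [(rh2145e1d24b96a57e.shift 3 3), rhc9e4d546eaf1f4ab] (by decide +kernel))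
noncomputable def rh2bc462a54c4030e9 : CRef := CRef.mk (Pat.mk 0x20000001200000002000000000000000000000000 0x500000007000000070000000300000003000000070000003f00000007000000060000000600000004 9 6) 0 0 (step_sound _ 130 [rh42e8034d4874bc94, (rh9d09f0c7c2ebab65.shift 0 3), (rhb3a7e953166bc519.shift 0 2)] (by decide +kernel))
noncomputable def rh888b9995aee7aeeb : CRef := CRef.mk (Pat.mk 0x20000001200000002000000000000000000000000 0x500000007000000070000000700000003000000030000001f00000007000000030000000300000001 9 5) 0 0 (step_sound _ 130 [rh2f8fab6247ecc6da, (rh51246ab843efda05.shift 0 3), (rhb26340aed194a825.shift 0 1), (rhef1c44b93c9d3b46.shift 0 2)] (by decide +kernel))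
noncomputable def rhdeae4c6a132a690b : CRef := CRef.mk (Pat.mk 0x90000000b000000020000000000000000000000000000000000000000 0x140000001f0000001d000000190000000b0000001f0000003c0000001c0000001c0000001c00000004 9 6) 0 0 (step_sound _ 163 [(rh73c9385ceb03b91b.shift 0 2), rh9b9a99813c68398d, (rha66e4e5ada000089.shift 0 2), (rhda7c17c004b4f878.shift 0 4)] (by decide +kernel))
noncomputable def rh1947b29e836b9cc4 : CRef := CRef.mk (Pat.mk 0xb0000000b000000020000000000000000000000000000000000000000 0x140000001c0000001c0000000f0000000b0000001f0000003c0000001c0000001c0000001c00000004 9 6) 0 0 (step_sound _ 163 [(rh172c452e5d13a21a.shift 0 3), rh9b9a99813c68398d, (rha55c6794f27836c3.shift 0 3), (rhda7c17c004b4f878.shift 0 4)] (by decide +kernel))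
noncomputable def rh9d4310bf546bd60d : CRef := CRef.mk (Pat.mk 0x8000000180000001e00000000000000000000000000000000 0x400000004000000060000000f0000001f0000001e0000000b000000070000000700000005 9 5) 0 0 (step_sound _ 161 [(rh3244c3cc8379b070.shift 0 4), rhb104857dd9c10002] (by decide +kernel))
noncomputable def rha026aab0f9a8ee30 : CRef := CRef.mk (Pat.mk 0x6800000048000000400000000000000000 0x140000003c0000007e0000003f000001ec0000006c0000004c0000000c00000004 9 9) 0 0 (step_sound _ 165 [(rh066bc44b95f79a95.shift 1 0), rhb68af66c5945057d, (rhe072fffdd2fccf38.shift 5 2)] (by decide +kernel))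
noncomputable def rh3ace7cbd580106ff : CRef := CRef.mk (Pat.mk 0xd00000009000000080000000000000000000000000 0x2800000078000000f80000007f000003fe000000d700000098000000380000003800000028 9 10) 0 0 (step_sound _ 196 [(rh0982409dd09ad83d.shift 0 4), (rh212a89ef3f4379a9.shift 3 0), (rhb9cc2547849575bc.shift 4 3), (rhe8a9e0e6037b7c6e.shift 3 3)] (by decide +kernel))
noncomputable def rh5ce7e2c1297839a1 : CRef := CRef.mk (Pat.mk 0x1c000000020000000000000000000000000000000000000000 0x10000000700000007000000070000001e000000070000000300000007000000070000000700000005 9 5) 0 0 (step_sound _ 193 [rh374d8aee495b7b8f, (rheb0810cc63b001d8.shift 0 5)] (by decide +kernel))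
noncomputable def rh9e60a1e4df18b28f : CRef := CRef.mk (Pat.mk 0x200000002000000020000000000000000000000000 0x5f000000fe0000007c00000038000000300000003000000010 9 8) 0 0 (step_sound _ 69 [(rh367118e0bf0473e0.shift 4 0), (rhc4055b4872d6fb38.shift 4 1), (rhc4526fc8abf298b6.shift 4 0), (rhe2f90e3326c0197d.shift 0 1)] (by decide +kernel))
noncomputable def rh48255c8b9ae8e2b9 : CRef := CRef.mk (Pat.mk 0x2000000080000001a00000010 0x1000000070000001f0000000e0000000b0000001e00000033 9 6) 0 0 (step_sound _ 34 [rh4f206d3f8a6f638b, (rhe25b0a99195a5d59.shift 1 0)] (by decide +kernel))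
noncomputable def rh56f1a242ae0a5cf8 : CRef := CRef.mk (Pat.mk 0x50000000c0000000d00000000000000000 0x20000000380000003f0000003e00000077000000f8000000d80000005800000008 9 8) 0 0 (step_sound _ 100 [(rh086f6046fa319626.shift 3 2), (rh5f452f890cbd7cd4.shift 3 0), (rh6f931acf8cf20b6c.shift 0 1), (rhca161cd30e405913.shift 3 1)] (by decide +kernel))
noncomputable def rh99156f362cc9dcda : CRef := CRef.mk (Pat.mk 0x10000000c000000010000000000000000000000000 0x28000000380000003e0000007f0000003e000000f800000018000000180000000800000008 9 8) 0 0 (step_sound _ 132 [(rh01e48cd9f335aa73.shift 3 3), (rh5c8c873042790be0.shift 3 0), (rhdd17fd55617d70f9.shift 3 2), (rhf63e6767a4d7973d.shift 0 2)] (by decide +kernel))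
noncomputable def rh2b2fcf6a86bfd82a : CRef := CRef.mk (Pat.mk 0x20000000b00000009000000000000000000000000 0x40000001c0000001c0000001c0000003c0000001f0000000b000000190000001d0000001f00000014 9 6) 0 0 (step_sound _ 163 [rh32ed7c24a64682a4, (rh3a925e7b8292dc86.shift 0 2), rh82874e8df3455493, (rhf9dfc51ee078650d.shift 0 3)] (by decide +kernel))
noncomputable def rh9ebab77a65661bd5 : CRef := CRef.mk (Pat.mk 0x20000000b0000000b000000000000000000000000 0x40000001c0000001c0000001c0000003c0000001f0000000b0000000f0000001c0000001c00000014 9 6) 0 0 (step_sound _ 163 [rh06455e3c12b131d2, rh32ed7c24a64682a4, rhd21e8935ac9bdb76, (rhf9dfc51ee078650d.shift 0 3)] (by decide +kernel))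
noncomputable def rha6e14fa9ed4b239b : CRef := CRef.mk (Pat.mk 0x1e0000001800000008000000000000000000000000 0x500000007000000070000000b0000001e0000001f0000000f000000060000000400000004 9 5) 0 0 (step_sound _ 129 [rh12ca04846377c794, (rheb0810cc63b001d8.shift 0 4)] (by decide +kernel))
noncomputable def rhc40dc6d23321851e : CRef := CRef.mk (Pat.mk 0x40000000480000006800000000000000000000000000000000 0x40000000c0000004c0000006c000001ec0000003f0000007e0000003c00000014 9 9) 0 0 (step_sound _ 101 [(rh207de66a44e8b82c.shift 1 0), rhb09adbbb08a74166, (rhf9af042da61fc652.shift 5 1)] (by decide +kernel))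
noncomputable def rh6453337d8735d7cc : CRef := CRef.mk (Pat.mk 0x8000000090000000d000000000000000000000000000000000 0x28000000380000003800000098000000d7000003fe0000007f000000f80000007800000028 9 10) 0 0 (step_sound _ 100 [(rh030500ba0764469f.shift 3 0), (rh529dbabb2a6c0429.shift 0 3), (rh5c8c873042790be0.shift 3 0), (rha2317065dc49f08e.shift 4 0)] (by decide +kernel))
noncomputable def rh23fd7296fcffc998 : CRef := CRef.mk (Pat.mk 0x20000001c00000000000000000000000000000000 0x500000007000000070000000700000003000000070000001e00000007000000070000000700000001 9 5) 0 0 (step_sound _ 129 [(rh3244c3cc8379b070.shift 0 4), rhe81d76997e665179] (by decide +kernel))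
noncomputable def rh8e33a2bc88b0ddeb : CRef := CRef.mk (Pat.mk 0x20000000200000002000000000 0x100000003000000030000000380000007c000000fe0000005f 9 8) 0 0 (step_sound _ 133 [rh60bc5ea561e94b8b, (rh771d065bdc85bf2d.shift 4 0), (rh7eb4a07d72ad7934.shift 4 0), (rhed79e5c5ffee0217.shift 4 0)] (by decide +kernel))
noncomputable def rhdb18e2fc0ad93a02 : CRef := CRef.mk (Pat.mk 0x100000001a0000000800000002000000000000000000000000 0x330000001e0000000b0000000e0000001f0000000700000001 9 6) 0 0 (step_sound _ 162 [(rh33e738c4ed385b9f.shift 1 5), rhbf15faf1c2b3c8a3] (by decide +kernel))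
noncomputable def rha6995b46c59b693c : CRef := CRef.mk (Pat.mk 0xd0000000c00000005000000000000000000000000000000000 0x800000058000000d8000000f8000000770000003e0000003f0000003800000020 9 8) 0 0 (step_sound _ 164 [(rh168fed7625321222.shift 3 1), (rh6e1685e3533aff0e.shift 3 5), rh93de9c75d5b261a0, (rhfc7a679450f55fe7.shift 3 1)] (by decide +kernel))
noncomputable def rhe2d79d4d4e3386eb : CRef := CRef.mk (Pat.mk 0x10000000c00000001000000000000000000000000000000000 0x8000000080000001800000018000000f80000003e0000007f0000003e0000003800000028 9 8) 0 0 (step_sound _ 164 [(rh01e48cd9f335aa73.shift 3 4), rh364574667b51295a, (rh712b6e7d90bff97a.shift 3 1), (rhe8a9e0e6037b7c6e.shift 3 3)] (by decide +kernel))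
noncomputable def rh583928ee4103e4fe : CRef := CRef.mk (Pat.mk 0x1a0000001e0000000000000000 0x17000000170000003f0000001e0000001e0000000b00000008 9 6) 0 0 (step_sound _ 33 [rh600ec3b8a1485e87, (rheb0810cc63b001d8.shift 0 1)] (by decide +kernel))
noncomputable def rh296efd781cdbe563 : CRef := CRef.mk (Pat.mk 0x180000001e000000000000000000000000 0x3000000030000000300000001f0000001e0000003b0000003000000030 9 6) 0 0 (step_sound _ 68 [rhbe084178632aba19, (rhe25b0a99195a5d59.shift 1 2)] (by decide +kernel))
noncomputable def rhc8bd1b27db699f3f : CRef := CRef.mk (Pat.mk 0x180000001e000000100000000000000000 0x3000000030000001f0000001e000000170000003c00000038 9 6) 0 0 (step_sound _ 36 [(rh7b1f1fb55310c477.shift 3 0), rhdc4c385d09a4fb22] (by decide +kernel))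
noncomputable def rh91a4a4960910a5cd : CRef := CRef.mk (Pat.mk 0x10000000180000003000000000000000000000000000000000 0xc0000001f0000003e0000003e00000078000000380000003800000028 9 7) 0 0 (step_sound _ 162 [(rhb739f4f82bb681b4.shift 1 4), rhd2ddbe88a8c68dc0] (by decide +kernel))
noncomputable def rh35ff3447e41b8d6c : CRef := CRef.mk (Pat.mk 0x12000000030000000000000000000000000 0x1000000010000000380000003c000001ff0000007c000000380000001000000010 9 9) 0 0 (step_sound _ 134 [(rh361cc68994bd8a63.shift 4 3), rh8a6c6845836f3233] (by decide +kernel))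
noncomputable def rh825d56710c2eea7f : CRef := CRef.mk (Pat.mk 0x480000000c000000400000000000000000 0x10000000180000001c0000000c0000007c0000001f0000007c0000001c00000004 9 7) 0 0 (step_sound _ 132 [(rh361cc68994bd8a63.shift 2 3), rha3e85e8cd0a2174b] (by decide +kernel))
noncomputable def rh73ae67b894b39955 : CRef := CRef.mk (Pat.mk 0x480000000c00000040000000000000000000000000 0x140000001c0000001c000000780000000f0000007c0000001c0000001c00000014 9 7) 0 0 (step_sound _ 164 [(rh361cc68994bd8a63.shift 2 4), rh81de3e6bbacc1a7c] (by decide +kernel))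
noncomputable def rha713ff12ba9a2e56 : CRef := CRef.mk (Pat.mk 0x1e0000001a000000000000000000000000 0x80000000b0000001e0000001e0000003f0000001700000017 9 6) 0 0 (step_sound _ 161 [(rh3244c3cc8379b070.shift 0 4), rh9b057c7f07519584] (by decide +kernel))
end Crest.Agent.S0047.Helper85.Cert
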