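import Crest.Agent.Lib.S0047.Helper85CertPL8F0
import Crest.Agent.Lib.S0047.Helper85CertPL8F1
import Crest.Agent.Lib.S0047.Helper85CertPL8F2
import Crest.Agent.Lib.S0047.Helper85CertPL8F3
import Crest.Agent.Lib.S0047.Helper85CertPL8F4
import Crest.Agent.Lib.S0047.Helper85CertPL8F5
import Crest.Agent.Lib.S0047.Helper85CertPL8F6
import Crest.Agent.Lib.S0047.Helper85CertPL8F7
import Crest.Agent.Lib.S0047.Helper85CertPL8F8
set_option autoImplicit false
set_option linter.all false
set_option Elab.async false
namespace Crest.Agent.S0047.Helper85.Cert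
open Crest.Agent.S0047.Helper85

noncomputable def rhd32d93bb27bf5ea3 : CRef := CRef.mk (Pat.mk 0x1e00000018000000000000000000000000 0x30000000300000003b0000001e0000001f000000300000003000000030 9 6) 0 0 (step_sound _ 164 [(rh33e738c4ed385b9f.shift 1 4), rh874c821f73e699f8] (by decide +kernel))
noncomputable def rh822d2174eb95b3ee : CRef := CRef.mk (Pat.mk 0x100000001e000000180000000000000000 0x380000003c000000170000001e0000001f0000000300000003 9 6) 0 0 (step_sound _ 164 [(rh5c5e593799055d58.shift 3 2), rh60513d8ac0c2b3dc] (by decide +kernel))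
noncomputable def rh7e8e75f29e5ab55a : CRef := CRef.mk (Pat.mk 0x30000000180000001000000000 0x280000003800000038000000780000003e0000003e0000001f0000000c 9 7) 0 0 (step_sound _ 66 [(rh53b3c253cb0c65f4.shift 1 2), rhccc465e4178a099e] (by decide +kernel))
noncomputable def rhf9398b273f7b1ed5 : CRef := CRef.mk (Pat.mk 0x300000012000000000000000000000000000000000 0x1000000010000000380000007c000001ff0000003c000000380000001000000010 9 9) 0 0 (step_sound _ 134 [(rh2fe78cc5ca4405d8.shift 4 4), rh9416af69aa2d1af4] (by decide +kernel))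
noncomputable def rh1e862c73b26db705 : CRef := CRef.mk (Pat.mk 0x400000000c0000004800000000000000000000000000000000 0x40000001c0000007c0000001f0000007c0000000c0000001c0000001800000010 9 7) 0 0 (step_sound _ 132 [(rh2fe78cc5ca4405d8.shift 2 4), rhaf8b4fc0cd973ed3] (by decide +kernel))
noncomputable def rhefa2d2725866ffa1 : CRef := CRef.mk (Pat.mk 0x400000000c00000048000000000000000000000000 0x140000001c0000001c0000007c0000000f000000780000001c0000001c00000014 9 7) 0 0 (step_sound _ 100 [(rh2fe78cc5ca4405d8.shift 2 3), rh4996befd3bb78d64] (by decide +kernel))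
noncomputable def rh7d011b8a65747178 : CRef := CRef.mk (Pat.mk 0x30000000180000008000000000000000000000000000000000 0x280000003800000038000000380000003e000000ff0000001e000000340000003400000020 9 8) 0 0 (step_sound _ 162 [rh3335926a1eb6b5e8, (rh53b3c253cb0c65f4.shift 1 5)] (by decide +kernel))
noncomputable def rhdc0f07ac451df9ce : CRef := CRef.mk (Pat.mk 0x1a0000001e000000000000000000000000 0x180000003c0000003f0000001e0000001e000000070000000600000002 9 6) 0 0 (step_sound _ 65 [rhd993ca6e56657236, (rheb0810cc63b001d8.shift 0 2)] (by decide +kernel))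
noncomputable def rhf8043cb25648cc76 : CRef := CRef.mk (Pat.mk 0x180000001e000000000000000000000000 0x28000000380000003c000000340000001f0000001e0000000b0000000200000002 9 6) 0 0 (step_sound _ 129 [(rh3244c3cc8379b070.shift 0 3), rhbf21c1b7096a9243] (by decide +kernel))
noncomputable def rh3e3b9ef6949e4d0a : CRef := CRef.mk (Pat.mk 0xd0000000f000000010000000000000000 0x140000001c0000001c0000001d0000000f0000000f000000070000000300000003 9 5) 0 0 (step_sound _ 33 [(rh1c7e31de666bf50b.shift 0 1), rh390a8df03c6c5a62, rh5834d070b73de990] (by decide +kernel))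
noncomputable def rh40206885dd9770d2 : CRef := CRef.mk (Pat.mk 0x300000001c0000008000000000000000000000000000000000 0x38000000380000003c000000ff0000003e0000007f0000003e00000028 9 8) 0 0 (step_sound _ 132 [(rh000637b5a81e86aa.shift 3 2), rh591182709f252ff1, (rha796fa52bdbf3739.shift 0 1)] (by decide +kernel))
noncomputable def rhac4738885f7416ed : CRef := CRef.mk (Pat.mk 0x10000000300000001800000008000000000000000000000000 0x280000007e0000003e000000380000001f000000340000003000000030 9 7) 0 0 (step_sound _ 100 [(rh000637b5a81e86aa.shift 3 1), (rha707fb719e87fe6e.shift 4 2), (rhdd11e03a2f8b13b6.shift 3 0), (rhde1e8ce8a5b51144.shift 0 2)] (by decide +kernel))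
noncomputable def rh7edb124f30e9ebf9 : CRef := CRef.mk (Pat.mk 0x180000001e000000100000000000000000 0x4000000070000001f0000001e0000001b0000001f0000001f 9 5) 0 0 (step_sound _ 129 [(rh3244c3cc8379b070.shift 0 3), rh72e63d714a13bc0c] (by decide +kernel))
noncomputable def rhd409a37f822dd92f : CRef := CRef.mk (Pat.mk 0x180000001e000000000000000000000000 0x1c0000001e000000370000003e0000003f 9 6) 0 0 (step_sound _ 68 [rhb93304f30ff8e958, (rhe25b0a99195a5d59.shift 1 2)] (by decide +kernel))
noncomputable def rh786c0e711647b40a : CRef := CRef.mk (Pat.mk 0x180000000e0000004000000000000000000000000000000000 0x2800000038000000380000003c0000001f0000001e000000fb0000003a0000003a0000003800000008 9 8) 0 0 (step_sound _ 164 [(rh22fd2aedb85dd47f.shift 0 2), (rh4943ef6bf3d7ba14.shift 0 2), (rh53c39d62899594f6.shift 2 0), (rhea719cc8bd0bdd28.shift 1 3)] (by decide +kernel))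
noncomputable def rhcf1590048e70ded1 : CRef := CRef.mk (Pat.mk 0x30000000180000008000000000000000000000000000000000 0x200000003000000030000000380000003800000018000000f80000003e0000007f0000003e00000028 9 8) 0 0 (step_sound _ 132 [(rh000637b5a81e86aa.shift 3 2), rh591182709f252ff1, (rh63aae37a5ea11039.shift 3 0), (rhb2c24aa65dd14528.shift 3 3)] (by decide +kernel))
noncomputable def rh00a1198c58889409 : CRef := CRef.mk (Pat.mk 0x100000001800000080000000000000000000000000 0x180000001c0000001f00000038000000ff0000007f0000003c00000030 9 8) 0 0 (step_sound _ 99 [rh5671b10472da9848, (rh9d5f9964e46b4125.shift 0 1), (rhcf80391c5046a495.shift 3 1), (rhf9366b6a121593ef.shift 3 1)] (by decide +kernel))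
noncomputable def rhd939aa97ba4e7577 : CRef := CRef.mk (Pat.mk 0x180000001e000000000000000000000000 0x140000001c0000001e0000003b0000001f0000001e 9 6) 0 0 (step_sound _ 68 [rh72eef7e356518668, (rhe25b0a99195a5d59.shift 1 2)] (by decide +kernel))
noncomputable def rh56191e8983a36a2d : CRef := CRef.mk (Pat.mk 0x800000001800000030000000000000000000000000 0x2000000034000000340000001e000000ff0000003e00000038000000380000003800000028 9 8) 0 0 (step_sound _ 130 [rh367989083b658e34, (rhb739f4f82bb681b4.shift 1 3)] (by decide +kernel))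
noncomputable def rh3ae682456ad7f403 : CRef := CRef.mk (Pat.mk 0x1e0000001a000000000000000000000000 0x200000006000000070000001e0000001e0000003f0000003c00000018 9 6) 0 0 (step_sound _ 161 [(rh3244c3cc8379b070.shift 0 4), rh759cd0b3f819ba17] (by decide +kernel))
noncomputable def rh9d5427592fa4c22e : CRef := CRef.mk (Pat.mk 0x1e0000001800000000000000000000000000000000 0x2000000020000000b0000001e0000001f000000340000003c0000003800000028 9 6) 0 0 (step_sound _ 129 [rh686309ab50c84075, (rheb0810cc63b001d8.shift 0 4)] (by decide +kernel))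
noncomputable def rhaa0d630fd2f0b93e : CRef := CRef.mk (Pat.mk 0x10000000f0000000d00000000000000000000000000000000 0x300000003000000070000000f0000000f0000001d0000001c0000001c00000014 9 5) 0 0 (step_sound _ 225 [rh4d059ba98ece9c43, (rh5fcbac5b57173fc5.shift 0 3), (rhe68e315fb4553677.shift 0 2)] (by decide +kernel))
noncomputable def rh2ab2cdb91d7c7106 : CRef := CRef.mk (Pat.mk 0x800000001c0000003000000000 0x280000003e0000007f0000003e000000ff0000003c0000003800000038 9 8) 0 0 (step_sound _ 100 [rh79761d0672ae3fdb, (rhb23658ecdd7ce5df.shift 3 0), rhf7d638497f1e4071] (by decide +kernel))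
noncomputable def rh812eb73653b728c5 : CRef := CRef.mk (Pat.mk 0x800000018000000300000001000000000 0x3000000030000000340000001f000000380000003e0000007e00000028 9 7) 0 0 (step_sound _ 132 [rh9f9e9cb31a0b5e03, (rhb23658ecdd7ce5df.shift 3 1), (rhbe6a11bbb961c2b9.shift 3 0), (rhd4b4beefcd67f51e.shift 4 0)] (by decide +kernel))
noncomputable def rhf4e989b633a5042d : CRef := CRef.mk (Pat.mk 0x100000001e000000180000000000000000 0x1f0000001f0000001b0000001e0000001f0000000700000004 9 5) 0 0 (step_sound _ 65 [rh4144738ad4b1b02b, (rheb0810cc63b001d8.shift 0 2)] (by decide +kernel))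
noncomputable def rh7b99c5f05d8bab31 : CRef := CRef.mk (Pat.mk 0x1e00000018 0x3f0000003e000000370000001e0000001c 9 6) 0 0 (step_sound _ 68 [(rh33e738c4ed385b9f.shift 1 1), rh9cb7460c3c1b1126] (by decide +kernel))
noncomputable def rh74907f5728c9e5ed : CRef := CRef.mk (Pat.mk 0x400000000e0000001800000000000000000000000000000000 0x8000000380000003a0000003a000000fb0000001e0000001f0000003c000000380000003800000028 9 8) 0 0 (step_sound _ 164 [(rh34b1188e635efc8d.shift 1 2), (rh5e8a0bfcf7618516.shift 0 2), (rhae78d81915981534.shift 2 0), (rhfe08a85aecacbe80.shift 0 1)] (by decide +kernel))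
noncomputable def rhe1d2de4a6f0ce3b4 : CRef := CRef.mk (Pat.mk 0x80000000180000003000000000000000000000000000000000 0x280000003e0000007f0000003e000000f8000000180000003800000038000000300000003000000020 9 8) 0 0 (step_sound _ 196 [(rh79761d0672ae3fdb.shift 0 3), (rh807a3fca9b5109b0.shift 3 0), (rhb23658ecdd7ce5df.shift 3 3), (rhdae9388eef521f76.shift 3 3)] (by decide +kernel))
noncomputable def rhf5072d0f9bf62ac6 : CRef := CRef.mk (Pat.mk 0x8000000018000000100000000000000000 0x300000003c0000007f000000ff000000380000001f0000001c00000018 9 8) 0 0 (step_sound _ 131 [(rh7d1b67e42a2269d8.shift 0 1), (rhc2c7bae8f445c890.shift 3 0), (rhc38f566cab2818e5.shift 3 0), rhf36b7fdefc9f591f] (by decide +kernel))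
noncomputable def rh6f5dc7a7c826c52a : CRef := CRef.mk (Pat.mk 0x1e0000001800000000 0x1e0000001f0000003b0000001e0000001c00000014 9 6) 0 0 (step_sound _ 100 [(rh33e738c4ed385b9f.shift 1 2), rhc727847d0db593a8] (by decide +kernel))
noncomputable def rh3e9887aa21e4ab45 : CRef := CRef.mk (Pat.mk 0x100000001e000000180000000000000000 0x40000000c0000001f0000001e0000001c0000001f0000001f 9 5) 0 0 (step_sound _ 35 [(rh71222050f2c63a3a.shift 3 0), rh969cf86e195c1029] (by decide +kernel))
noncomputable def rha42c44bab2555fff : CRef := CRef.mk (Pat.mk 0x1e00000000000000000000000000000000 0x50000000700000007000000070000001e00000007000000070000000700000005 9 5) 0 0 (step_sound _ 97 [rh435bd94551dda45a, (rheb0810cc63b001d8.shift 0 3)] (by decide +kernel))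
noncomputable def rh3208049472f238e2 : CRef := CRef.mk (Pat.mk 0x100000001e00000018000000000000000000000000 0x2f0000003e0000001f0000001e0000001c000000300000003000000030 9 6) 0 0 (step_sound _ 161 [(rh3244c3cc8379b070.shift 0 4), rhe0493133269f1b3c] (by decide +kernel))
noncomputable def rhafee2ac54f679b95 : CRef := CRef.mk (Pat.mk 0x100000001e00000018000000000000000000000000 0x2e0000003e0000001f0000001e0000001b000000300000003000000030 9 6) 0 0 (step_sound _ 161 [(rh3244c3cc8379b070.shift 0 4), rh85de8bfe3cf9bcd5] (by decide +kernel))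
noncomputable def rh43cc7ca75760bcf8 : CRef := CRef.mk (Pat.mk 0x90000000180000001000000000000000000000000000000000 0x20000000f000000018000000180000003e0000007f0000003e00000028 9 8) 0 0 (step_sound _ 197 [(rh361cc68994bd8a63.shift 3 5), rh591182709f252ff1] (by decide +kernel))
noncomputable def rh3d89b6e6bed8f797 : CRef := CRef.mk (Pat.mk 0x900000001c0000003000000000000000000000000000000000 0x2e000000ff0000001c0000003e0000003e0000006e0000002200000002 9 8) 0 0 (step_sound _ 197 [(rh361cc68994bd8a63.shift 3 5), rh995367f936b80b01] (by decide +kernel))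
noncomputable def rh0251e9748d405450 : CRef := CRef.mk (Pat.mk 0x3000000060000000000000000000000000 0x380000007c0000003e0000007c0000007e0000007c0000003f00000018 9 7) 0 0 (step_sound _ 131 [rh68c5de0cd07c7e55, (rhb739f4f82bb681b4.shift 2 3)] (by decide +kernel))
noncomputable def rh5df458f217f5fa5d : CRef := CRef.mk (Pat.mk 0x1e00000018000000000000000000000000 0xc0000001e0000001f000000370000003e0000003f 9 6) 0 0 (step_sound _ 97 [rhb896b00eba4f621f, (rheb0810cc63b001d8.shift 0 3)] (by decide +kernel))
noncomputable def rh053c3521a27adace : CRef := CRef.mk (Pat.mk 0xc00000048000000000000000000000000 0x120000003b0000001f0000007f0000003c0000001c00000010 9 7) 0 0 (step_sound _ 100 [(rh2fe78cc5ca4405d8.shift 2 3), rh90f97ea8fdb7e3ad] (by decide +kernel))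
noncomputable def rh5a0953e291570f3b : CRef := CRef.mk (Pat.mk 0x180000001e000000100000000000000000 0x1f0000001f0000001c0000001e0000001f0000000c00000004 9 5) 0 0 (step_sound _ 163 [(rh2145e1d24b96a57e.shift 3 2), rh4568d2e26188261f] (by decide +kernel))
noncomputable def rh90ec1f2afa9b016c : CRef := CRef.mk (Pat.mk 0x1e00000000000000000000000000000000 0x50000000700000007000000070000001e00000007000000070000000700000005 9 5) 0 0 (step_sound _ 161 [(rh3244c3cc8379b070.shift 0 4), rh355f68752cbea554] (by decide +kernel))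
noncomputable def rhe6ed3378a808fc70 : CRef := CRef.mk (Pat.mk 0x180000001e000000100000000000000000 0x3000000030000000300000001c0000001e0000001f0000003e0000002f 9 6) 0 0 (step_sound _ 65 [(rheb0810cc63b001d8.shift 0 2), rhf683422703876cb8] (by decide +kernel))
noncomputable def rhd93bc801439f6044 : CRef := CRef.mk (Pat.mk 0x180000001e000000100000000000000000 0x3000000030000000300000001b0000001e0000001f0000003e0000002e 9 6) 0 0 (step_sound _ 65 [rh54f866d5e60a46fd, (rheb0810cc63b001d8.shift 0 2)] (by decide +kernel))
noncomputable def rh399e79f70837a3e7 : CRef := CRef.mk (Pat.mk 0x10000000180000009000000000 0x280000003e0000007f0000003e0000001800000018000000f000000020 9 8) 0 0 (step_sound _ 37 [(rh2fe78cc5ca4405d8.shift 3 1), rh79761d0672ae3fdb] (by decide +kernel))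
noncomputable def rh0ea2c8d80b882457 : CRef := CRef.mk (Pat.mk 0x300000001c0000009000000000 0x2000000220000006e0000003e0000003e0000001c000000ff0000002e 9 8) 0 0 (step_sound _ 37 [rh01eabe45a6c5f059, (rh2fe78cc5ca4405d8.shift 3 1)] (by decide +kernel))
noncomputable def rh1a0d91ab6d25a03b : CRef := CRef.mk (Pat.mk 0x6000000030000000000000000000000000 0x180000003f0000007c0000007e0000007c0000003e0000007c00000038 9 7) 0 0 (step_sound _ 99 [rh39b93a99ded68957, (rh53b3c253cb0c65f4.shift 2 3)] (by decide +kernel))
noncomputable def rh1181a14b3e7c5f21 : CRef := CRef.mk (Pat.mk 0x180000001e00000000 0x3f0000003e000000370000001f0000001e0000000c 9 6) 0 0 (step_sound _ 65 [(rh3244c3cc8379b070.shift 0 1), rhe6b0aa7eff5c86b0] (by decide +kernel))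
noncomputable def rh80392a3cbe564899 : CRef := CRef.mk (Pat.mk 0x480000000c0000000000000000 0x100000001c0000003c0000007f0000001f0000003b00000012 9 7) 0 0 (step_sound _ 100 [(rh361cc68994bd8a63.shift 2 2), rh9d3bfcde6e7ea807] (by decide +kernel))
noncomputable def rh9e3ee33c7e250c13 : CRef := CRef.mk (Pat.mk 0x100000001c000000880000000000000000 0x80000000c0000000c0000001c0000003c000000ff0000007e0000003c 9 8) 0 0 (step_sound _ 35 [(rh71222050f2c63a3a.shift 3 0), rh8d6027ecf2dddd69] (by decide +kernel))
noncomputable def rhccf38a96731db11a : CRef := CRef.mk (Pat.mk 0x300000001c00000080000000000000000000000000 0x80000001c0000001f0000003f0000001c000000fe0000007e0000003c00000030 9 8) 0 0 (step_sound _ 99 [(rh73fffb3e21547544.shift 1 0), (rhadf429772c25fde0.shift 3 1), (rhc99038cb100e4ee2.shift 0 1), (rhf9366b6a121593ef.shift 3 1)] (by decide +kernel))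
noncomputable def rhc058333cdb053d60 : CRef := CRef.mk (Pat.mk 0x1c0000001e000000400000000000000000 0x40000001f0000001e0000007c0000001f0000001f 9 7) 0 0 (step_sound _ 35 [rh7c39a1a715d9c849, (rhdc461deccfb05432.shift 1 0), (rhdd1b84382d19bcbb.shift 2 0)] (by decide +kernel))
noncomputable def rhda12134df2b0a1d0 : CRef := CRef.mk (Pat.mk 0x1e0000001e000000400000000000000000 0x600000006000000070000001e0000001e000000780000003c0000001c 9 7) 0 0 (step_sound _ 69 [rh2cc1b1d6d0408438, (rh96851dee118c1ba3.shift 1 2)] (by decide +kernel))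
noncomputable def rh6dcc101a01879d64 : CRef := CRef.mk (Pat.mk 0x1c0000001c000000100000000000000000 0xe0000003e000000070000001c0000001c0000001c0000001800000018 9 6) 0 0 (step_sound _ 36 [(rh7b1f1fb55310c477.shift 3 0), rh8c3ce7eb1e1347c6] (by decide +kernel))
noncomputable def rh9e5b44c361a7248d : CRef := CRef.mk (Pat.mk 0x180000001e000000100000000000000000 0x1f0000001e000000170000003e0000003f 9 6) 0 0 (step_sound _ 36 [rh5e22c6ff3668998f, (rh7b1f1fb55310c477.shift 3 0)] (by decide +kernel))
noncomputable def rh3aa51519481e89c9 : CRef := CRef.mk (Pat.mk 0x180000000c000000000000000000000000 0xb0000000f0000001b0000001f0000003f0000003c0000003c 9 6) 0 0 (step_sound _ 97 [(rh53b3c253cb0c65f4.shift 0 3), rh60b59cd1407e45b6] (by decide +kernel))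
noncomputable def rhe6369a843f553341 : CRef := CRef.mk (Pat.mk 0x480000000c000000000000000000000000 0x20000000e0000000f0000007f0000001f000000370000001200000002 9 7) 0 0 (step_sound _ 132 [rh337b97864464a7c8, (rh361cc68994bd8a63.shift 2 3)] (by decide +kernel))
noncomputable def rhff6926d28ba2653c : CRef := CRef.mk (Pat.mk 0x880000001c00000010000000000000000000000000 0x3c0000007e000000ff0000003c0000001c0000000c0000000c00000008 9 8) 0 0 (step_sound _ 195 [rh0e17e7d9e5e7998d, (rh2145e1d24b96a57e.shift 3 3)] (by decide +kernel))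
noncomputable def rh5e96d950589d686a : CRef := CRef.mk (Pat.mk 0x800000001c00000030000000000000000000000000 0x300000003c0000007e000000fe0000001c0000003f0000001f0000001c00000008 9 8) 0 0 (step_sound _ 163 [rh9e7eb64093edc09a, (rha40d42a2e34c408d.shift 3 1), (rhc38f566cab2818e5.shift 3 1), (rhfea0689e1fa82827.shift 1 1)] (by decide +kernel))
noncomputable def rh0bdad21bd025180b : CRef := CRef.mk (Pat.mk 0x400000001e0000001c00000000 0x1f0000001f0000007c0000001e0000001f00000004 9 7) 0 0 (step_sound _ 131 [(rh4d8d614e03a7f6ad.shift 1 1), rh4fba31df106e1138, (rhb8fddd58ad9026ec.shift 2 0)] (by decide +kernel))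
noncomputable def rh2b1591e22530177e : CRef := CRef.mk (Pat.mk 0x400000001e0000001e000000000000000000000000 0x1c0000003c000000780000001e0000001e000000070000000600000006 9 7) 0 0 (step_sound _ 165 [(rh428265de8cd3cd2d.shift 1 4), rhd397f45936c72e12] (by decide +kernel))
noncomputable def rh937eaaddf2c7b643 : CRef := CRef.mk (Pat.mk 0x100000001c0000001c000000000000000000000000 0x18000000180000001c0000001c0000001c000000070000003e0000000e 9 6) 0 0 (step_sound _ 196 [(rh5c5e593799055d58.shift 3 3), rhee0520d9a5885d75] (by decide +kernel))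
noncomputable def rhd51370b1d42a8fa8 : CRef := CRef.mk (Pat.mk 0x100000001e00000018 0x3f0000003e000000170000001e0000001f 9 6) 0 0 (step_sound _ 100 [rh4ddefe67706b8d41, (rh5c5e593799055d58.shift 3 0)] (by decide +kernel))
noncomputable def rh57b77b331eec858c : CRef := CRef.mk (Pat.mk 0xc000000180000000000000000 0x3c0000003c0000003f0000001f0000001b0000000f0000000b 9 6) 0 0 (step_sound _ 97 [rh22d12b2afbd7ea9f, (rhb739f4f82bb681b4.shift 0 2)] (by decide +kernel))
noncomputable def rh73a1e1a164125cd7 : CRef := CRef.mk (Pat.mk 0xc00000048000000000000000000000000 0x200000012000000370000001f0000007f0000000f0000000e00000002 9 7) 0 0 (step_sound _ 100 [(rh2fe78cc5ca4405d8.shift 2 3), rh7dcbbfc2e76bcc96] (by decide +kernel))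
noncomputable def rh343e412b577609a8 : CRef := CRef.mk (Pat.mk 0x80000000c00000048000000080000000000000000 0x40000000c0000000c0000007f0000003f0000003700000012 9 7) 0 0 (step_sound _ 66 [rh74b8ab36e47241ad, (rh932754581e0f4330.shift 2 1)] (by decide +kernel))
noncomputable def rh700a37990d331cd0 : CRef := CRef.mk (Pat.mk 0x6000000030000000000000000000000000 0x40000000680000007c0000007f0000007c000000380000003000000010 9 7) 0 0 (step_sound _ 99 [(rh53b3c253cb0c65f4.shift 2 3), rh55869a89e7001fda] (by decide +kernel))
noncomputable def rh49855af54517db0c : CRef := CRef.mk (Pat.mk 0x8000000480000000c0000000800000000 0x12000000370000003f0000007f0000000c0000000c00000004 9 7) 0 0 (step_sound _ 130 [rh4c1b1762f2f0e9fe, (rh50fbb5868c909700.shift 2 1)] (by decide +kernel))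
noncomputable def rh03195be266148887 : CRef := CRef.mk (Pat.mk 0x3000000060000000000000000000000000 0x1000000030000000380000007c0000007f0000007c0000006800000040 9 7) 0 0 (step_sound _ 131 [rh9c4de80e08b34dca, (rhb739f4f82bb681b4.shift 2 3)] (by decide +kernel))
noncomputable def rh8e059bad3e0a3792 : CRef := CRef.mk (Pat.mk 0x60000000200000003000000030000000000000000000000000 0xa000000fe0000003e0000007f0000003e0000006f0000002e0000000a 9 8) 0 0 (step_sound _ 164 [rh50f007810629d47f, (rh55a1f6c57a317ce6.shift 4 1), (rhad524fbc7e0727d3.shift 1 2)] (by decide +kernel))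
noncomputable def rh461f943bc24400e5 : CRef := CRef.mk (Pat.mk 0x3000000030000000200000006000000000 0xa0000002e0000006f0000003e0000007f0000003e000000fe0000000a 9 8) 0 0 (step_sound _ 68 [(rh097cd9ebdd00847c.shift 1 1), rh65f59a8dacb93335, (rh84d1c02a8954c6a8.shift 4 1)] (by decide +kernel))
noncomputable def rhcc9ce359a88eaad0 : CRef := CRef.mk (Pat.mk 0xe0000001800000000000000000000000000000000 0x14000000140000003f0000001e0000001f0000000b0000000f0000000700000005 9 6) 0 0 (step_sound _ 164 [rh97cfa51bbec4ec42, (rhf60cdf71a14eca6b.shift 1 2), (rhfc2bf04274467006.shift 0 2)] (by decide +kernel))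
noncomputable def rhd52edfad25e393b3 : CRef := CRef.mk (Pat.mk 0x3000000060000000000000000000000000 0x100000003c0000003e0000007c0000007f000000ec0000006c00000040 9 8) 0 0 (step_sound _ 131 [(rhb739f4f82bb681b4.shift 2 3), rhff2ecba54480a251] (by decide +kernel))
noncomputable def rh8bc8a7c1307abfa4 : CRef := CRef.mk (Pat.mk 0x1e00000018 0x3e0000003e000000370000001e0000001b 9 6) 0 0 (step_sound _ 68 [(rh33e738c4ed385b9f.shift 1 1), rh6cebbde1e7007d5d] (by decide +kernel))
noncomputable def rh9fe0141ba87a3ac5 : CRef := CRef.mk (Pat.mk 0x1000000003000000060000000000000000000000000000000000000000 0x400000006000000060000001e00000007000000070000000600000006000000070000000700000005 9 5) 0 0 (step_sound _ 225 [(rh70e33bfdf511e144.shift 1 2), (rh8599f462953abc6e.shift 1 4), rh9bb10a325484170c] (by decide +kernel))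
noncomputable def rhea4f283b731ac8af : CRef := CRef.mk (Pat.mk 0x1000000003000000020000000000000000000000000000000000000000 0x50000000700000007000000070000001f00000007000000030000000200000007000000070000000700000005 9 5) 0 0 (step_sound _ 129 [(rh0163168cc088e075.shift 0 3), (rh0a6888916bcef86b.shift 0 1), (rh308180abb9b2fdae.shift 0 4), rh82a8149108180a6c] (by decide +kernel))
noncomputable def rh0b369f634113c1e2 : CRef := CRef.mk (Pat.mk 0x180000000e000000000000000000000000 0x5000000070000000f0000000b0000001f0000001e0000003f0000001400000014 9 6) 0 0 (step_sound _ 100 [(rh65dcfd18fd55cba0.shift 1 0), rhc6a9ed8537595237, (rhf4c78ed7abc84f21.shift 0 1)] (by decide +kernel))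
noncomputable def rhc8fd67e1ce9f4b56 : CRef := CRef.mk (Pat.mk 0x6000000030000000000000000000000000 0x400000006c000000ec0000007f0000007c0000003e0000003c00000010 9 8) 0 0 (step_sound _ 99 [rh2f0972ef04616995, (rh53b3c253cb0c65f4.shift 2 3)] (by decide +kernel))
noncomputable def rhcbaf3b120543c03e : CRef := CRef.mk (Pat.mk 0x180000001e000000000000000000000000 0x1b0000001e000000370000003e0000003e 9 6) 0 0 (step_sound _ 68 [rha5db6962292c783c, (rhe25b0a99195a5d59.shift 1 2)] (by decide +kernel))
noncomputable def rhae5b8ad9d0097f2f : CRef := CRef.mk (Pat.mk 0x60000000300000010000000000000000000000000 0x50000000700000007000000060000000600000007000000070000001e000000060000000600000004 9 5) 0 0 (step_sound _ 97 [(rh215e11e099257d75.shift 1 2), (rh3820f35d5e705bec.shift 1 0), (rhc6fae9da7ec824dc.shift 0 2)] (by decide +kernel))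
noncomputable def rhcb325d33d94dfb12 : CRef := CRef.mk (Pat.mk 0x2000000030000001000000000000000000000000000000000 0x50000000700000007000000070000000200000003000000070000001f00000007000000070000000700000005 9 5) 0 0 (step_sound _ 225 [(rh32431e66bbf434a4.shift 0 4), rh793c5585f2e4b081, (rh995ae866d9508489.shift 0 3), (rhab1f77ed1bed3389.shift 0 3)] (by decide +kernel))
noncomputable def rhf5e1b45733236866 : CRef := CRef.mk (Pat.mk 0x180000001e000000000000000000000000 0x1000000010000000340000001f0000001e0000003b0000003200000032 9 6) 0 0 (step_sound _ 68 [rhdbff0042d9c18cd0, (rhe25b0a99195a5d59.shift 1 2)] (by decide +kernel))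
noncomputable def rh1d1fc9d7fd86ede8 : CRef := CRef.mk (Pat.mk 0x20000000600000002000000000 0x50000000fe000000fe000000ff000000600000006000000040 9 8) 0 0 (step_sound _ 133 [(rh14f80659e6313cc6.shift 5 1), rh7b15644ec221579e, (rhc85cc95794737cf7.shift 4 1), (rhd4b4beefcd67f51e.shift 5 0)] (by decide +kernel))
noncomputable def rhe7a76828858867ce : CRef := CRef.mk (Pat.mk 0x180000000e000000000000000000000000 0x100000001a0000003b0000001f0000001e0000003f0000003400000034 9 6) 0 0 (step_sound _ 100 [rh457b8fe904b690c2, rhb778e23283cb2230, (rhbbe16ff26f7822db.shift 1 0)] (by decide +kernel))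
noncomputable def rhdf9e4f553424071f : CRef := CRef.mk (Pat.mk 0x60000000780000000000000000 0xfe000000fe000000ff0000006c000000780000001c00000010 9 8) 0 0 (step_sound _ 133 [(rh11ed841b8aae55dc.shift 2 0), (rh37d9ceebb86d75d1.shift 4 1), (rh8d20653c3cc9f281.shift 0 2)] (by decide +kernel))
noncomputable def rh4320a23892b14136 : CRef := CRef.mk (Pat.mk 0x80000001e00000010000000000000000000000000 0x10000000f0000001f0000000f0000001e00000013000000070000000700000005 9 5) 0 0 (step_sound _ 161 [(rh3244c3cc8379b070.shift 0 4), rhd870735a4c5cca5c] (by decide +kernel))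
noncomputable def rh0c32cda3e1077eca : CRef := CRef.mk (Pat.mk 0x4a0000000c000000000000000000000000000000000 0x7000000078000007ee000001fe000000ff0000007c0000007000000030 9 11) 0 0 (step_sound _ 133 [(rh2b3584ef0f05e9c2.shift 4 4), (rh3183e63ea7c66766.shift 0 1), (rh398798d936007c12.shift 2 0)] (by decide +kernel))
noncomputable def rh7f7b1a9a374408dd : CRef := CRef.mk (Pat.mk 0x1a0000000c000000000000000000000000 0x20000001b0000001f0000003f0000003400000034 9 6) 0 0 (step_sound _ 97 [(rh53b3c253cb0c65f4.shift 0 3), rh5d6ebeda8e93d78c] (by decide +kernel))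
noncomputable def rh7ed580e175c02e55 : CRef := CRef.mk (Pat.mk 0x100000001800000080000000000000000000000000 0xc0000003c0000007f0000003f0000003f000000ff0000002f0000000c00000004 9 8) 0 0 (step_sound _ 99 [(rh2fb2abca57e1419c.shift 0 1), (rhadf429772c25fde0.shift 3 1), rhede4e331ce0659db, (rhf9366b6a121593ef.shift 3 1)] (by decide +kernel))
noncomputable def rh48984dda3dd6c68b : CRef := CRef.mk (Pat.mk 0x900000001800000088000000000000000000000000 0x3800000078000000dc0000003f000000ff000000670000002400000024 9 8) 0 0 (step_sound _ 196 [rh218a77afb1f96192, (rh5c5e593799055d58.shift 3 3)] (by decide +kernel))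
noncomputable def rh944b6a1fe0dae62b : CRef := CRef.mk (Pat.mk 0x1000000038000000180000000000000000 0xc0000000f0000007c0000003f0000001e0000000f0000000e 9 7) 0 0 (step_sound _ 66 [rh2ab9bc22ff61b1a1, (rh53b3c253cb0c65f4.shift 1 2)] (by decide +kernel))
noncomputable def rhd7146f15699a63b1 : CRef := CRef.mk (Pat.mk 0x20000000300000003400000000000000000000000000000000 0x200000006000000660000003e000000360000001e0000001f0000000e0000000a 9 7) 0 0 (step_sound _ 100 [rh3e77b14c71fa8d7f, (rh71222050f2c63a3a.shift 4 2)] (by decide +kernel))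
noncomputable def rh507d17f7715b8616 : CRef := CRef.mk (Pat.mk 0x18000000180000000c00000008 0x50000000700000007000000070000001f0000001f0000000c00000008 9 5) 0 0 (step_sound _ 98 [(rh50fbb5868c909700.shift 2 0), (rha95c05b0b27d50b0.shift 0 1)] (by decide +kernel))
noncomputable def rh81026b1e290fdb89 : CRef := CRef.mk (Pat.mk 0x1e00000018000000000000000000000000 0x32000000320000003b0000001e0000001f000000340000001000000010 9 6) 0 0 (step_sound _ 164 [(rh33e738c4ed385b9f.shift 1 4), rhd3a8265e0e9817ac] (by decide +kernel))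
noncomputable def rhbc11b99e9dd6c4eb : CRef := CRef.mk (Pat.mk 0x200000006000000020000000000000000000000000 0x400000006000000060000000ff000000fe000000fe00000050 9 8) 0 0 (step_sound _ 69 [(rh301a6b3a9154ed36.shift 5 0), (rh8cdd36b03d57a2f6.shift 4 0), (rha707fb719e87fe6e.shift 5 1), (rhefc4da190d1cc847.shift 0 1)] (by decide +kernel))
noncomputable def rh344eb94ba5a16f84 : CRef := CRef.mk (Pat.mk 0xe00000018000000000000000000000000 0x34000000340000003f0000001e0000001f0000003b0000001a00000010 9 6) 0 0 (step_sound _ 132 [(rh5ba2d67652840f34.shift 1 2), rh68203db27b70906d, (rh6e4a74575a998d00.shift 0 2)] (by decide +kernel))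
noncomputable def rh9e3ad1ab18760e6b : CRef := CRef.mk (Pat.mk 0x7800000060000000000000000000000000 0x100000001c000000780000006c000000ff000000fe000000fe 9 8) 0 0 (step_sound _ 69 [(rh3769e31627773032.shift 2 1), (rh40241bd608e5be1a.shift 4 0), rhd9ffb9bed2be85c3] (by decide +kernel))
noncomputable def rh3938616a3947f2c5 : CRef := CRef.mk (Pat.mk 0x100000001e00000008000000000000000000000000 0x50000000700000007000000130000001e0000000f0000001f0000000f00000001 9 5) 0 0 (step_sound _ 97 [rh07e8da69c477925c, (rheb0810cc63b001d8.shift 0 3)] (by decide +kernel))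
noncomputable def rhd687db5de8577fa4 : CRef := CRef.mk (Pat.mk 0xc0000004a00000000000000000 0x30000000700000007c000000ff000001fe000007ee0000007800000070 9 11) 0 0 (step_sound _ 101 [rh2d9aeae574918fb7, (rh5bb78067c54b222b.shift 4 2), (rhe0e756012fee8c74.shift 2 0)] (by decide +kernel))
noncomputable def rhb8abf14f22d3edc6 : CRef := CRef.mk (Pat.mk 0xc0000001a00000000 0x34000000340000003f0000001f0000001b00000002 9 6) 0 0 (step_sound _ 65 [rh5d7d159610e0d2dc, (rhb739f4f82bb681b4.shift 0 1)] (by decide +kernel))
noncomputable def rh19477890d353b975 : CRef := CRef.mk (Pat.mk 0x800000001800000010000000000000000000000000 0x40000000c0000002f000000ff0000003f0000003f0000007f0000003c0000000c 9 8) 0 0 (step_sound _ 163 [(rh6f9ce0305bdef05e.shift 0 1), (rha40d42a2e34c408d.shift 3 1), rhb471e6dda963c9fc, (rhc38f566cab2818e5.shift 3 1)] (by decide +kernel))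
noncomputable def rh8e58269983fcff57 : CRef := CRef.mk (Pat.mk 0x8800000018000000900000000000000000 0x240000002400000067000000ff0000003f000000dc0000007800000038 9 8) 0 0 (step_sound _ 36 [(rh7b1f1fb55310c477.shift 3 0), rh7e1567b9a0964927] (by decide +kernel))
noncomputable def rh60fdf741d372d4ec : CRef := CRef.mk (Pat.mk 0x1800000038000000100000000000000000 0xe0000000f0000001e0000003f0000007c0000000f0000000c 9 7) 0 0 (step_sound _ 130 [rh0399b77a7d302d36, (rhb739f4f82bb681b4.shift 1 3)] (by decide +kernel))
noncomputable def rh7c63b5bd22c678b5 : CRef := CRef.mk (Pat.mk 0x3400000030000000200000000000000000 0xa0000000e0000001f0000001e000000360000003e000000660000000600000002 9 7) 0 0 (step_sound _ 164 [(rh2145e1d24b96a57e.shift 4 2), rhc8262c63f3da5dbb] (by decide +kernel))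
noncomputable def rh311e84c0cd025a95 : CRef := CRef.mk (Pat.mk 0x80000000c000000180000001800000000000000000000000000000000 0x80000000c0000001f0000001f00000007000000070000000700000005 9 5) 0 0 (step_sound _ 130 [(rh932754581e0f4330.shift 2 3), rhdc3057b3d7d61c66] (by decide +kernel))
noncomputable def rh23f073829d3e947b : CRef := CRef.mk (Pat.mk 0x400000000e0000001800000000000000000000000000000000 0x140000001c0000001c0000000c0000007c0000001e0000001f0000001f0000001e0000001c00000014 9 7) 0 0 (step_sound _ 195 [rh051357491b722a02, (rh0b089fae14e9d2f1.shift 2 2), (rh70e33bfdf511e144.shift 3 1), (rhdae9388eef521f76.shift 2 3)] (by decide +kernel))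
noncomputable def rh5a3c8a6ee50ab5d8 : CRef := CRef.mk (Pat.mk 0x8000000180000001000000000000000000000000000000000 0xc0000000c0000001c000000380000001f0000000c0000001c0000001c00000014 9 6) 0 0 (step_sound _ 227 [(rh2145e1d24b96a57e.shift 3 4), rh3d528d28349dc2fd] (by decide +kernel))
noncomputable def rh53add0a816e2f5e7 : CRef := CRef.mk (Pat.mk 0x10000000180000001000000000 0x280000003e0000007e0000007f00000038000000380000001f0000000c 9 7) 0 0 (step_sound _ 132 [(rh03dfdf12d5937476.shift 3 0), rh73cd6241a8d42df3, (rhf26678cbbb095e02.shift 1 2)] (by decide +kernel))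
noncomputable def rh28fcc5200c665908 : CRef := CRef.mk (Pat.mk 0x40000000c00000018000000000000000000000000 0x1800000018000000180000000c0000000c0000001f0000003f0000003f00000012 9 6) 0 0 (step_sound _ 67 [(rh7b1f1fb55310c477.shift 2 1), rhcfd0179807569c91] (by decide +kernel))
noncomputable def rh124f48cc6ee88fae : CRef := CRef.mk (Pat.mk 0x400000000c0000001800000000000000000000000000000000 0x40000001c0000001c0000001c0000007c0000001f000000180000001c0000001c0000001c00000014 9 7) 0 0 (step_sound _ 161 [(rh0dfb067cd5f204a2.shift 2 0), (rhb739f4f82bb681b4.shift 0 4)] (by decide +kernel))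
noncomputable def rhdd369ea035efea71 : CRef := CRef.mk (Pat.mk 0x800000001800000098000000000000000000000000 0x3e0000003e000000f80000003f000000ff000000680000002800000020 9 8) 0 0 (step_sound _ 101 [(rh2fe78cc5ca4405d8.shift 3 3), rh31ae1d05b4482e0b] (by decide +kernel))
noncomputable def rh4595c50536dc5a54 : CRef := CRef.mk (Pat.mk 0x8000000018000000180000000000000000 0x2c0000003c0000007f000000fc000000380000001f0000000c0000000c 9 8) 0 0 (step_sound _ 132 [rh4f2f9eb43fda910e, (rh503dd4575245365b.shift 3 1), (rhb156d28b0b135bca.shift 0 1)] (by decide +kernel))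
noncomputable def rh9373cab9105f6862 : CRef := CRef.mk (Pat.mk 0x440000000e00000018000000000000000000000000 0x400000034000000f60000001e0000001b0000003a0000003a00000030 9 8) 0 0 (step_sound _ 194 [(rh2145e1d24b96a57e.shift 2 3), rhe7ea408305dd3cee] (by decide +kernel))
noncomputable def rh4963de23fc0e5a95 : CRef := CRef.mk (Pat.mk 0x30000000180000001000000000000000000000000000000000 0x8000000380000001e0000003e0000007f0000007f0000003e00000028 9 7) 0 0 (step_sound _ 162 [(rh53b3c253cb0c65f4.shift 1 5), rhbb11b2660c1163d2] (by decide +kernel))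
noncomputable def rhcfa85849a635be6b : CRef := CRef.mk (Pat.mk 0x180000000c0000000800000000 0x140000001f0000003f0000003f0000001c0000000c0000000c00000004 9 6) 0 0 (step_sound _ 131 [(rh03dfdf12d5937476.shift 2 0), (rh42ab489a1be3958e.shift 2 1), (rh7a7e08304268422e.shift 2 1), (rhc85cc95794737cf7.shift 2 1), rhe5fce868e21152e4, (rhf26678cbbb095e02.shift 0 2)] (by decide +kernel))
noncomputable def rh5a47a683548e3079 : CRef := CRef.mk (Pat.mk 0x30000000180000009000000000000000000000000000000000 0x8000000380000001e000000de0000007e0000007f0000003e00000028 9 8) 0 0 (step_sound _ 162 [(rh53b3c253cb0c65f4.shift 1 5), rh6c3abda1771d0c4b] (by decide +kernel))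
noncomputable def rhdf07977f043a3332 : CRef := CRef.mk (Pat.mk 0x8000000018000000300000000000000000000000000000000000000000 0x400000004000000060000001f000000038000000380000007e0000007f0000007e0000003800000028 9 9) 0 0 (step_sound _ 229 [(rh32de1c09ccc8e6c6.shift 3 0), (rh4cb75d0d99567cbf.shift 0 1), (rh9af8c15d140c9390.shift 3 2), (rha540469dc7c409e4.shift 3 2), (rhc9467d8b09504220.shift 3 0), (rhdf68472e7f05d839.shift 4 2)] (by decide +kernel))
noncomputable def rh86ebdeac0356b9ae : CRef := CRef.mk (Pat.mk 0x180000000e0000004000000000000000000000000000000000 0x140000001c0000001e0000001f0000001f0000001e0000007c0000000c0000001c0000001c00000014 9 7) 0 0 (step_sound _ 131 [(rh215e11e099257d75.shift 3 3), (rh63aae37a5ea11039.shift 2 0), (rhddf2ad02f7d15a2c.shift 2 0), (rhf61d216cd79fc1a5.shift 0 3)] (by decide +kernel))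
noncomputable def rhae7273f7fe0bd606 : CRef := CRef.mk (Pat.mk 0x1000000018000000080000000000000000 0x140000001c0000001c0000000c0000001f000000380000001c0000000c0000000c 9 6) 0 0 (step_sound _ 35 [(rh71222050f2c63a3a.shift 3 0), rhb026e96fd83c006e] (by decide +kernel))
noncomputable def rhf0c88dddd9db10b4 : CRef := CRef.mk (Pat.mk 0x10000000180000001000000000000000000000000000000000 0xc0000001f00000038000000380000007f0000007e0000003e00000028 9 7) 0 0 (step_sound _ 100 [(rh70e2db778ce43bdb.shift 1 0), (rh76d96e94cace76a3.shift 0 2), (rhe286c75f2739cce2.shift 3 2)] (by decide +kernel))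
noncomputable def rh163436530c5549dc : CRef := CRef.mk (Pat.mk 0x180000000c00000004000000000000000000000000 0x120000003f0000003f0000001f0000000c0000000c000000180000001800000018 9 6) 0 0 (step_sound _ 195 [rh5909afe0c617e2ab, (rh5c5e593799055d58.shift 2 3)] (by decide +kernel))
noncomputable def rh51cf0a84bcdbf535 : CRef := CRef.mk (Pat.mk 0x180000000c0000004000000000000000000000000000000000 0x140000001c0000001c0000001c000000180000001f0000007c0000001c0000001c0000001c00000004 9 7) 0 0 (step_sound _ 161 [(rh53b3c253cb0c65f4.shift 0 5), (rh62210429a3837785.shift 2 0)] (by decide +kernel))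
noncomputable def rhafacf8fd42000585 : CRef := CRef.mk (Pat.mk 0x9800000018000000800000000000000000 0x200000002800000068000000ff0000003f000000f80000003e0000003e 9 8) 0 0 (step_sound _ 133 [(rh361cc68994bd8a63.shift 3 3), rhd467fbc92cc94e64] (by decide +kernel))
noncomputable def rh75ad5ecd8209b0d7 : CRef := CRef.mk (Pat.mk 0x180000001800000080000000000000000000000000 0xc0000000c0000001f00000038000000fc0000007f0000003c0000002c 9 8) 0 0 (step_sound _ 100 [rh0aecdb2f10f98522, (rh3cb04db3dd2b6a55.shift 3 1), (rh92ade98158ad8454.shift 0 1)] (by decide +kernel))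
noncomputable def rh790ca7b8903fe9b6 : CRef := CRef.mk (Pat.mk 0x180000000e000000440000000000000000 0x300000003a0000003a0000001b0000001e000000f60000003400000004 9 8) 0 0 (step_sound _ 34 [(rh71222050f2c63a3a.shift 2 0), (rhdbeb9cdf04720cd9.shift 0 1)] (by decide +kernel))
noncomputable def rhc15d972654a603d4 : CRef := CRef.mk (Pat.mk 0x10000000180000003000000000 0x280000003e0000007f0000007f0000003e0000001e0000003800000008 9 7) 0 0 (step_sound _ 66 [(rhb739f4f82bb681b4.shift 1 1), rhbda20124defa0fc6] (by decide +kernel))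
noncomputable def rh50c70271ddf702de : CRef := CRef.mk (Pat.mk 0x80000000c0000001800000000000000000000000000000000 0x40000000c0000000c0000001c0000003f0000003f0000001f00000014 9 6) 0 0 (step_sound _ 99 [rh70e2db778ce43bdb, (rh8cdd36b03d57a2f6.shift 2 1), (rhad4642d129d01d74.shift 0 2), (rhbaff7ec0fcc038ba.shift 2 0), (rhd1779d7de7f8215b.shift 2 0), (rhe286c75f2739cce2.shift 2 2)] (by decide +kernel))
noncomputable def rh4a37eb86bd1c2c55 : CRef := CRef.mk (Pat.mk 0x90000000180000003000000000 0x280000003e0000007f0000007e000000de0000001e0000003800000008 9 8) 0 0 (step_sound _ 66 [rh4aacbc52f2edfee3, (rhb739f4f82bb681b4.shift 1 1)] (by decide +kernel))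
noncomputable def rh67b1ff97d3096e92 : CRef := CRef.mk (Pat.mk 0x300000001800000080000000000000000000000000 0x28000000380000007e0000007f0000007e0000003800000038000001f0000000600000004000000040 9 9) 0 0 (step_sound _ 101 [(rh0e3f947242a26eb1.shift 3 2), (rh6551b5e52cd4047b.shift 4 0), (rh6bcb812d7d11b8a6.shift 3 2), (rha29a958fa1e630e5.shift 3 2), (rhdacf328ac7e3d000.shift 0 2), (rhf034b91e4b0e1c51.shift 3 2)] (by decide +kernel))
noncomputable def rhe95c2b07ef3402a3 : CRef := CRef.mk (Pat.mk 0x8000000018000000100000000000000000 0x300000003c0000007f000000ff000000380000001f0000001c00000018 9 8) 0 0 (step_sound _ 131 [(rha40d42a2e34c408d.shift 3 0), (rhac84a362fd769c9a.shift 0 1), (rhc38f566cab2818e5.shift 3 0), rhf36b7fdefc9f591f] (by decide +kernel))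
noncomputable def rhcf065ede5d872f92 : CRef := CRef.mk (Pat.mk 0x1800000030000000000000000000000000 0x1c0000003c0000001f000000380000003f0000007e0000003c0000000c 9 7) 0 0 (step_sound _ 163 [(rh13ec5f55e610b919.shift 0 1), (rh605bd8206c148d95.shift 2 0), (rha40d42a2e34c408d.shift 3 1), (rhac84a362fd769c9a.shift 0 2), (rhc38f566cab2818e5.shift 3 1)] (by decide +kernel))
noncomputable def rh0a504f64ff2e544e : CRef := CRef.mk (Pat.mk 0x80000001800000038000000000000000000000000 0x40000000f0000003c0000003e000000780000003800000038 9 7) 0 0 (step_sound _ 36 [rh7ac579666a7b27c4, (rh9e07f76261b05888.shift 3 1)] (by decide +kernel))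
noncomputable def rh4cec1ed8e48973ae : CRef := CRef.mk (Pat.mk 0xc0000001e000000000000000000000000 0x100000001c0000001e0000003f0000003f0000003e 9 6) 0 0 (step_sound _ 65 [rh9620ddd4764fbf99, (rheb0810cc63b001d8.shift 0 2)] (by decide +kernel))
noncomputable def rh3a9126fdd58fb5ae : CRef := CRef.mk (Pat.mk 0x400000000c00000008000000000000000000000000 0x140000001c0000001f0000001f0000007c0000000c0000000c0000001c0000001c00000014 9 7) 0 0 (step_sound _ 163 [(rh0e121116e6cb9d51.shift 0 2), (rhaac6df22c4ef4a49.shift 2 0), (rhb6f0e8cb45aa3ad3.shift 2 0), (rhc47fe1bc6b175f77.shift 2 1)] (by decide +kernel))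
noncomputable def rhb26aee321c9b38e7 : CRef := CRef.mk (Pat.mk 0xf0000000000000000000000000000000000000000 0x40000001c0000001c0000001c0000001c0000000f000000180000001c0000001c0000001c00000014 9 5) 0 0 (step_sound _ 195 [rh0e5efc445ea123fc, (rh33e738c4ed385b9f.shift 0 5)] (by decide +kernel))
noncomputable def rh98e4f251c2228c4c : CRef := CRef.mk (Pat.mk 0x80000001e0000001000000008000000000000000000000000 0x40000000f0000001e0000001b0000001f000000170000000700000005 9 5) 0 0 (step_sound _ 193 [(rh3244c3cc8379b070.shift 0 5), rhb110bee72ded4f68] (by decide +kernel))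
noncomputable def rh4c73cb2027a8e167 : CRef := CRef.mk (Pat.mk 0x480000001e0000000000000000000000000000000000000000 0x4000000040000000c0000000e0000007f0000001e0000000b00000007000000070000000700000005 9 7) 0 0 (step_sound _ 197 [rh4ac3f56766ee3cb3, (rhb2a0b9ccfb5cecd5.shift 2 5)] (by decide +kernel))
noncomputable def rh148dc9b744c3eef2 : CRef := CRef.mk (Pat.mk 0x100000001e0000000000000008000000000000000000000000 0x4000000170000001e0000000b0000000f0000001f0000000700000005 9 5) 0 0 (step_sound _ 67 [(rh04253f50b6dd0619.shift 3 2), rh19bf0a16a7508ecd] (by decide +kernel))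
noncomputable def rh5480e9f451ad2555 : CRef := CRef.mk (Pat.mk 0x100000001e000000000000000000000000 0x34000000340000001f0000001e0000003b0000000f0000000e 9 6) 0 0 (step_sound _ 68 [rh628e2c5c77d1b5c3, (rhe25b0a99195a5d59.shift 1 2)] (by decide +kernel))
noncomputable def rh4d122a5bbe0af927 : CRef := CRef.mk (Pat.mk 0x100000001e00000010000000000000000000000000 0x1d0000001f0000001f0000001e00000013000000070000000700000005 9 5) 0 0 (step_sound _ 161 [(rh3244c3cc8379b070.shift 0 4), rh67af138b9590ad10] (by decide +kernel))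
noncomputable def rhaa2ac33c27877a0d : CRef := CRef.mk (Pat.mk 0x100000001e00000012000000000000000000000000 0x28000000380000003c000000170000001e0000001a0000003e0000003a00000020 9 6) 0 0 (step_sound _ 161 [(rh3244c3cc8379b070.shift 0 4), (rh84201e0604d1efb9.shift 1 0)] (by decide +kernel))
noncomputable def rhdc98d15928a9da03 : CRef := CRef.mk (Pat.mk 0x120000001e0000000000000000000000000000000000000000 0x3d0000001f0000001e0000001e0000000b00000007000000070000000700000005 9 6) 0 0 (step_sound _ 129 [rh95c7e118086b2217, (rheb0810cc63b001d8.shift 0 4)] (by decide +kernel))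
noncomputable def rh6262c496468931f0 : CRef := CRef.mk (Pat.mk 0x20000001e0000001200000000000000000000000000000000 0x10000000f0000001f0000000e0000001e0000001a00000017000000170000000700000005 9 5) 0 0 (step_sound _ 97 [(rh11213fd779aeb7bc.shift 0 2), rh1b9022be4f7af407, (rh6eff4158bb400f47.shift 0 1), (rha707fb719e87fe6e.shift 1 2)] (by decide +kernel))
noncomputable def rhc4d3b4475505d224 : CRef := CRef.mk (Pat.mk 0xf0000000000000000000000000000000000000000 0x140000001c0000001c0000001c000000180000000f0000001c0000001c0000001c0000001c00000004 9 5) 0 0 (step_sound _ 131 [(rhe25b0a99195a5d59.shift 0 4), rhe66df16e7851a7cf] (by decide +kernel))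
noncomputable def rh72a51ac2ca001cc6 : CRef := CRef.mk (Pat.mk 0x8000000100000001e0000000800000000 0x500000007000000170000001f0000001b0000001e0000000f00000004 9 5) 0 0 (step_sound _ 33 [rha0af8a87cf7f814e, (rheb0810cc63b001d8.shift 0 1)] (by decide +kernel))
noncomputable def rhc2da1d5fe8679502 : CRef := CRef.mk (Pat.mk 0x1e0000004800000000000000000000000000000000 0x50000000700000007000000070000000b0000001e0000007f0000000e0000000c0000000400000004 9 7) 0 0 (step_sound _ 133 [(rh5419adcd928dba20.shift 2 4), rhbd978bb55b8ed546] (by decide +kernel))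
noncomputable def rh10f4724316488a31 : CRef := CRef.mk (Pat.mk 0x8000000000000001e0000001000000000 0x5000000070000001f0000000f0000000b0000001e0000001700000004 9 5) 0 0 (step_sound _ 163 [rh450c145b76fa75d0, (rhff0f29cb645b05f7.shift 3 1)] (by decide +kernel))
noncomputable def rh16a007eeb67bc56e : CRef := CRef.mk (Pat.mk 0x1e000000100000000000000000 0xe0000000f0000003b0000001e0000001f0000003400000034 9 6) 0 0 (step_sound _ 132 [(rh33e738c4ed385b9f.shift 1 3), rh8f56f24846053bc2] (by decide +kernel))
noncomputable def rh8973b2fef200d840 : CRef := CRef.mk (Pat.mk 0x100000001e000000100000000000000000 0x50000000700000007000000130000001e0000001f0000001f0000001d 9 5) 0 0 (step_sound _ 65 [rhd36d36f8e07da989, (rheb0810cc63b001d8.shift 0 2)] (by decide +kernel))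
noncomputable def rh72b08afb7b1ce7ad : CRef := CRef.mk (Pat.mk 0x120000001e00000010000000000000000000000000 0x200000003a0000003e0000001a0000001e000000170000003c0000003800000028 9 6) 0 0 (step_sound _ 97 [(rh93e2ce761246cb32.shift 1 0), (rheb0810cc63b001d8.shift 0 3)] (by decide +kernel))
noncomputable def rh89774618d69f7321 : CRef := CRef.mk (Pat.mk 0x1e000000120000000000000000 0x50000000700000007000000070000000b0000001e0000001e0000001f0000003d 9 6) 0 0 (step_sound _ 129 [rh0361426074790674, (rh3244c3cc8379b070.shift 0 3)] (by decide +kernel))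
noncomputable def rhfcf5b286094731cb : CRef := CRef.mk (Pat.mk 0x120000001e00000002000000000000000000000000 0x50000000700000017000000170000001a0000001e0000000e0000001f0000000f00000001 9 5) 0 0 (step_sound _ 193 [(rh1741680720c097b4.shift 0 3), rhab3dc487befda424, (rhd4b4beefcd67f51e.shift 1 2), (rhfb9fb48a5e63ed80.shift 0 3)] (by decide +kernel))
noncomputable def rhca20a231a333c0b6 : CRef := CRef.mk (Pat.mk 0x400000000c0000004800000000000000000000000000000000 0x140000001c0000001c0000007c0000000f0000007c00000018000000180000001800000010 9 7) 0 0 (step_sound _ 132 [(rh2fe78cc5ca4405d8.shift 2 4), rh9ccc1f174fc9e5b8] (by decide +kernel))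
noncomputable def rh380b9ec320992f80 : CRef := CRef.mk (Pat.mk 0x400000000c00000048000000000000000000000000 0x100000001800000018000000780000000f0000007c0000001c0000001c00000014 9 7) 0 0 (step_sound _ 100 [(rh2fe78cc5ca4405d8.shift 2 3), rhe0450f09c3428e8e] (by decide +kernel))
noncomputable def rh8258a38ca30bc8ae : CRef := CRef.mk (Pat.mk 0x400000000c00000048000000000000000000000000 0x140000001c0000001c000000780000000f000000780000001c0000001c00000014 9 7) 0 0 (step_sound _ 100 [(rh2fe78cc5ca4405d8.shift 2 3), rh641570b714abf37d] (by decide +kernel))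
noncomputable def rhe5e30fb6e57c47ca : CRef := CRef.mk (Pat.mk 0x800000001800000098000000000000000000000000 0x1c0000001c000000ff0000001f000000f8000000080000000800000008 9 8) 0 0 (step_sound _ 101 [(rh2fe78cc5ca4405d8.shift 3 3), rhb5f0bc483d5e7700] (by decide +kernel))
noncomputable def rh7fe3ef7469552a19 : CRef := CRef.mk (Pat.mk 0x8000000018000000980000000000000000 0x280000003c0000003f000000fc00000018000000fc0000002f0000000c 9 8) 0 0 (step_sound _ 69 [(rh2fe78cc5ca4405d8.shift 3 2), rh6d0717456b4d61db] (by decide +kernel))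
noncomputable def rhc105df336f61d468 : CRef := CRef.mk (Pat.mk 0x180000009800000000000000000000000000000000 0x80000001f000000ff000000070000000e0000000e0000000a 9 8) 0 0 (step_sound _ 133 [(rh2fe78cc5ca4405d8.shift 3 4), rh4c5426433429daae] (by decide +kernel))
noncomputable def rh7e53244a5438e8b5 : CRef := CRef.mk (Pat.mk 0x400000000c00000048000000000000000000000000 0x140000001c0000001c000000780000000f0000007c0000001c0000001c00000014 9 7) 0 0 (step_sound _ 100 [(rh2fe78cc5ca4405d8.shift 2 3), rhc5b2dd566dfef9d3] (by decide +kernel))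
noncomputable def rhcb4c4bd527709581 : CRef := CRef.mk (Pat.mk 0x1800000098000000080000000800000000 0x2800000038000000ff00000078000000f800000070 9 8) 0 0 (step_sound _ 36 [(rh55afc6a59410cf00.shift 3 0), rh6dbe88631b08141a] (by decide +kernel))
noncomputable def rh767d499670ef2007 : CRef := CRef.mk (Pat.mk 0x1000000030000001100000003000000000 0x80000001e000000340000019e000000fe000001cf 9 9) 0 0 (step_sound _ 35 [(rh932754581e0f4330.shift 3 0), rh93513a0cafe97200] (by decide +kernel))
noncomputable def rhd46bf9175851df36 : CRef := CRef.mk (Pat.mk 0x180000000000000008000000000000000000000000 0x140000001c0000001c0000001c0000001f000000380000001f0000001c0000001c0000001c00000014 9 6) 0 0 (step_sound _ 131 [(rh15590a39afd9a120.shift 2 0), (rh215e11e099257d75.shift 3 2), (rh974be4a934d53feb.shift 0 1), (rhe52dd2c61e02d0a0.shift 0 2), (rhffb8e5993241bf15.shift 2 0)] (by decide +kernel))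
noncomputable def rh4c3fdea28b5e2c2e : CRef := CRef.mk (Pat.mk 0x800000001800000080000000080000000000000000 0x28000000380000003c000000ff00000038000000f8000000380000003800000030 9 8) 0 0 (step_sound _ 164 [(rh00d6a6e3c7e3bb40.shift 3 1), (rh393ff7a2f1a16fb7.shift 3 0), (rh3efafc482874f7b3.shift 3 1), rh4b374e373d9afde3, (rheceadeb1a5313184.shift 3 0)] (by decide +kernel))
noncomputable def rh309d467122a16519 : CRef := CRef.mk (Pat.mk 0x8800000018000000980000001800000000 0x200000002000000067000000ff00000038000000fe0000007800000020 9 8) 0 0 (step_sound _ 70 [(rhb2a0b9ccfb5cecd5.shift 3 1), rhc8bf64f432d85ff6] (by decide +kernel))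
noncomputable def rh5e235ff96d3e0cd7 : CRef := CRef.mk (Pat.mk 0x1000000003000000060000000100000000000000000 0xa0000003e0000000770000007e000000ff000003f0000000c0 9 10) 0 0 (step_sound _ 165 [(rh0db119afefb5ebc7.shift 4 1), rh547badf8d403a7aa, (rhce279e175f0338bb.shift 3 0)] (by decide +kernel))
noncomputable def rh8723acfbbe80c5f4 : CRef := CRef.mk (Pat.mk 0x1000000003000000060000000100000000000000000 0x500000007000000070000001e0000000770000007e000000df0000005000000040 9 9) 0 0 (step_sound _ 165 [(rh0db119afefb5ebc7.shift 4 1), rh547badf8d403a7aa, (rhb77bfac3e9efecea.shift 4 2), (rhfb9fb48a5e63ed80.shift 4 2)] (by decide +kernel))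
noncomputable def rhaaab78b483d9563a : CRef := CRef.mk (Pat.mk 0x200000000600000024000000020000000000000000 0xa0000000e0000001e0000007c0000000e0000003c0000001f0000007e00000018 9 7) 0 0 (step_sound _ 99 [rh2a047981615953f9, (rh2fe78cc5ca4405d8.shift 1 3)] (by decide +kernel))
noncomputable def rh07bdb9fd7da2852c : CRef := CRef.mk (Pat.mk 0x4000000480000001c00000000000000000000000000000000 0x40000007f0000001f00000003000000070000000700000005 9 7) 0 0 (step_sound _ 164 [(rh361cc68994bd8a63.shift 2 4), rhdc3057b3d7d61c66] (by decide +kernel))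
noncomputable def rh145aabc5fe9b3110 : CRef := CRef.mk (Pat.mk 0x400000000c000000480000000c0000000000000000 0x30000000f00000001c0000007f0000003f000000f300000032 9 8) 0 0 (step_sound _ 100 [(rh361cc68994bd8a63.shift 2 2), rhcb1b0b80ba165c33] (by decide +kernel))
noncomputable def rh906e61d78990b8c2 : CRef := CRef.mk (Pat.mk 0x400000000c00000018000000040000000000000000 0x140000001c0000001c000000780000000c0000001f0000003f0000003300000012 9 7) 0 0 (step_sound _ 163 [(rh518d6f6eeebddcb2.shift 2 2), (rhb77bfac3e9efecea.shift 2 2), rhe7920d1b4df02c33, (rhfb9fb48a5e63ed80.shift 2 2)] (by decide +kernel))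
noncomputable def rh1d4f6a1252a20145 : CRef := CRef.mk (Pat.mk 0x9000000018000000080000000800000000 0x140000001c0000001c0000000c000000ff000000380000001c0000000c00000004 9 8) 0 0 (step_sound _ 133 [(rh361cc68994bd8a63.shift 3 3), rhb026e96fd83c006e] (by decide +kernel))
noncomputable def rhcd5f593130de0d29 : CRef := CRef.mk (Pat.mk 0x400000000c000000180000000c 0x10000000180000007c0000001f0000007c0000001c0000001c0000000f 9 7) 0 0 (step_sound _ 1 [rh53b3c253cb0c65f4, rhfb3ea2fa958ef7a5] (by decide +kernel))
noncomputable def rh9125f795d844973f : CRef := CRef.mk (Pat.mk 0x8000000018000000300000000800000000 0x28000000380000003c000001ff0000007e000001ff000000380000003f0000002f00000004 9 9) 0 0 (step_sound _ 164 [(rh92c1d6daf3e537bf.shift 3 1), (rha2ea393c84cb5419.shift 0 2), rhb5c514d837945659, (rhcf2a8f121bc4ac1e.shift 3 1), (rhf033863bb7051c88.shift 3 1), (rhfdbfa5ec95bd358e.shift 3 1)] (by decide +kernel))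
noncomputable def rhda736717633163e2 : CRef := CRef.mk (Pat.mk 0x8000000018000000100000000800000000 0x200000002c0000007f000000ff000000380000001f0000003f00000014 9 8) 0 0 (step_sound _ 131 [(rh54cc50c8d4991b16.shift 2 0), (rha40d42a2e34c408d.shift 3 0), rhde6121efe7d65cef] (by decide +kernel))
noncomputable def rhce63da315fee39ec : CRef := CRef.mk (Pat.mk 0x400000000c00000048000000040000000000000000 0x40000001c0000001c0000003e000000fc0000001c0000007c0000001f0000007800000010 9 8) 0 0 (step_sound _ 100 [(rh2fe78cc5ca4405d8.shift 2 3), rhfd78e1d445dfc9bd] (by decide +kernel))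
noncomputable def rh64b57de0ad74860d : CRef := CRef.mk (Pat.mk 0x300000000000000010000000000000000000000000 0x2800000038000000380000003e000000700000001e000000ff000000fe0000003f00000028 9 8) 0 0 (step_sound _ 132 [(rh215e11e099257d75.shift 4 2), rh840f85098366c4ad, (rhd0ff9ecf40c804b3.shift 1 2), (rhffb8e5993241bf15.shift 3 0)] (by decide +kernel))
noncomputable def rh96ecd4d5133e069f : CRef := CRef.mk (Pat.mk 0x80000000180000008000000008000000000000000000000000 0x280000003800000078000001f800000038000001f70000007e000000ff0000007800000078 9 9) 0 0 (step_sound _ 100 [(rh0627db7446bbd39d.shift 3 0), rh18355b30ef73d3e8, rh5f1b7916fe7bd610, rh9064eab2f5a75772, (rhc9180c94ab4eac1f.shift 3 0), (rhc995ebf4417e407a.shift 1 0), (rhdf7255d1e60f0837.shift 3 0)] (by decide +kernel))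
noncomputable def rhd2ef6afb83ee6db9 : CRef := CRef.mk (Pat.mk 0x20000000600000002000000020000000000000000000000000000000000000000 0x1000000030000000600000007000000030000000300000007000000070000000700000005 9 3) 0 0 (step_sound _ 256 [(rh50fbb5868c909700.shift 0 5), rh6d24e068c0dd33f7] (by decide +kernel))
noncomputable def rh90f97c5ae6d9752c : CRef := CRef.mk (Pat.mk 0x18000000880000000800000000000000000000000000000000 0xc0000000c0000000c00000038000000ff0000000e0000007c0000001c0000001c00000014 9 8) 0 0 (step_sound _ 99 [(rh1904b52b42aee148.shift 1 2), (rh434d70daf9d9e692.shift 0 2), (rh984bfc6de6c2c524.shift 2 0)] (by decide +kernel))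
noncomputable def rh33b5c7b8113300ab : CRef := CRef.mk (Pat.mk 0x1000000030000001100000001000000000 0x1000000070000001fe000000ff0000002f 9 9) 0 0 (step_sound _ 67 [rh3e94624e4cbf8da9, (rh7fe11f484215afaf.shift 1 0), (rh916c6ea577483915.shift 1 0), (rhd78ef5af479876fa.shift 1 0)] (by decide +kernel))
noncomputable def rh5a1fcbec4dbe4925 : CRef := CRef.mk (Pat.mk 0x1800000088000000080000000800000000 0x38000000ff0000007f0000006e0000002c 9 8) 0 0 (step_sound _ 100 [(rh71222050f2c63a3a.shift 3 0), rh845938e2dfbbc36b] (by decide +kernel))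
noncomputable def rh1907ec9f8d12909a : CRef := CRef.mk (Pat.mk 0x180000008800000008000000000000000000000000 0x140000001c0000001c0000000c00000038000000ff0000007e000000780000003800000010 9 8) 0 0 (step_sound _ 68 [(rh1171055e7581798b.shift 0 2), (rh2977b00063528966.shift 3 0), (rh7aa2b8b726642349.shift 0 1)] (by decide +kernel))
noncomputable def rhfdaeea1f72775220 : CRef := CRef.mk (Pat.mk 0x800000018000000080000000800000000 0x140000001c0000001c0000000c0000000f000000180000001c0000000c00000004 9 5) 0 0 (step_sound _ 130 [(rh50fbb5868c909700.shift 2 1), rhd1769e69b74063a9] (by decide +kernel))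
noncomputable def rhdbc499d4eea25e71 : CRef := CRef.mk (Pat.mk 0x100000000e00000000000000000000000000000000 0x600000006000000370000001e00000007000000070000000700000005 9 6) 0 0 (step_sound _ 132 [(rh33e738c4ed385b9f.shift 1 4), rhb67112d1a5517cbe] (by decide +kernel))
noncomputable def rh43d263827f313f55 : CRef := CRef.mk (Pat.mk 0x200000000e00000000000000000000000000000000 0x600000006000000370000001e00000007000000070000000700000005 9 6) 0 0 (step_sound _ 132 [(rh428265de8cd3cd2d.shift 1 4), rhb67112d1a5517cbe] (by decide +kernel))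
noncomputable def rh41288eff854f0cdd : CRef := CRef.mk (Pat.mk 0x18000000d00000009c0000000800000000 0x4c0000004e0000007f000000dc0000009c0000000f00000006 9 8) 0 0 (step_sound _ 134 [rh304002f43fe926d5, (rhc10214bf3fe8094a.shift 3 3)] (by decide +kernel))
noncomputable def rhe2424f25a98a0066 : CRef := CRef.mk (Pat.mk 0x80000003800000010000000000000000000000000 0x100000003000000038000000780000003f000000fc000000fc00000014 9 8) 0 0 (step_sound _ 99 [rh303f0e5282a8371c, (rh36d8dfd49dd2c68e.shift 3 1), (rh4dc133ee0ba1420a.shift 1 3)] (by decide +kernel))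
noncomputable def rhb44ff88a01cd0e39 : CRef := CRef.mk (Pat.mk 0xe000000000 0x3ce000001fe0000007f 9 10) 0 0 (step_sound _ 36 [(rh27ce058b59d72f64.shift 3 0), (rh988dac8d009f9f77.shift 1 0), rha683599be3e69071, rhd6a543980fee235b] (by decide +kernel))
noncomputable def rh770b85bab39a604a : CRef := CRef.mk (Pat.mk 0xe000000000000000000000000000000000 0x3000000030000000ff000000fe0000007f000000380000003800000028 9 8) 0 0 (step_sound _ 132 [(rh06c54508efd5b78e.shift 3 0), (rh38e98a39fbf2939a.shift 0 3), (rh592c7139d2c44767.shift 2 3), (rh73d929a11584eaf7.shift 0 3), (rhaeac014a58998cf3.shift 1 3), (rhd4999ead6bb0c91f.shift 1 3), (rhd6a543980fee235b.shift 0 3)] (by decide +kernel))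
noncomputable def rh384689dbbf11135f : CRef := CRef.mk (Pat.mk 0x100000001e000000000000000000000000 0xc0000001f0000001f0000001e0000003f0000000c0000000c0000000c 9 6) 0 0 (step_sound _ 131 [rh471e176a838f2935, (rh53b3c253cb0c65f4.shift 0 3)] (by decide +kernel))
noncomputable def rhba36076a145524e7 : CRef := CRef.mk (Pat.mk 0x1c00000002000000000000000000000000 0x8000000380000001f00000033000000380000003800000028 9 6) 0 0 (step_sound _ 129 [rh0264aa946e8b1e61, (rheb0810cc63b001d8.shift 0 3)] (by decide +kernel))
noncomputable def rh21d82f3c45cf1426 : CRef := CRef.mk (Pat.mk 0xe000000100000000000000000 0x50000000700000007000000070000001e000000370000000600000006 9 6) 0 0 (step_sound _ 100 [(rhe25b0a99195a5d59.shift 1 2), rhee977e353f789025] (by decide +kernel))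
noncomputable def rh8feab067d171f14c : CRef := CRef.mk (Pat.mk 0xe000000200000000000000000 0x50000000700000007000000070000001e000000370000000600000006 9 6) 0 0 (step_sound _ 100 [(rh96851dee118c1ba3.shift 1 2), rhee977e353f789025] (by decide +kernel))
noncomputable def rhc2a85810f541903c : CRef := CRef.mk (Pat.mk 0x80000009c000000d0000000180000000000000000 0x60000000f0000009c000000dc0000007f0000004e0000004c 9 8) 0 0 (step_sound _ 70 [(rh1c62b6193297d9e3.shift 3 2), rhb6e99b66a4f88bd4] (by decide +kernel))
noncomputable def rh28c41e6fdc46828f : CRef := CRef.mk (Pat.mk 0x1000000038000000080000000000000000 0x14000000fc000000fc0000003f00000078000000380000003000000010 9 8) 0 0 (step_sound _ 131 [(rhcc87e2d5d9dda917.shift 0 1), (rhdc6b4505c2469271.shift 3 0), (rhe2b63c00a3d7bb73.shift 1 3)] (by decide +kernel))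
noncomputable def rhea60bb43041adec7 : CRef := CRef.mk (Pat.mk 0xe000000000 0x7f000001fe000003ce 9 10) 0 0 (step_sound _ 36 [rh207cfd9c044cf941, (rh3947d1dfff0afc6c.shift 3 0), rha7257c5fe7487efa, (rhbb13f9e1d387f64a.shift 1 0)] (by decide +kernel))
noncomputable def rh7fe8f7b5c9be5469 : CRef := CRef.mk (Pat.mk 0xe0000000000000000000000000 0x2800000038000000380000007f000000fe000000ff0000003000000030 9 8) 0 0 (step_sound _ 100 [(rh008ec883d4619f17.shift 0 2), (rh04797e9e06425c4e.shift 1 2), (rh207cfd9c044cf941.shift 0 2), (rh60648fb9b8df41c0.shift 0 2), (rh775ca1963e850b80.shift 2 2), (rh7e8391acd972767e.shift 3 0), (rhfd7f50bc4465ec35.shift 1 2)] (by decide +kernel))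
noncomputable def rhd47920a6fa63e992 : CRef := CRef.mk (Pat.mk 0x1e00000010000000000000000000000000 0xc0000000c0000000c0000003f0000001e0000001f0000001f0000000c 9 6) 0 0 (step_sound _ 99 [rh7ff83e255ffc0f7c, (rhb739f4f82bb681b4.shift 0 3)] (by decide +kernel))
noncomputable def rh5fe46803b3e61d40 : CRef := CRef.mk (Pat.mk 0x20000001c0000000000000000 0x280000003800000038000000330000001f0000003800000008 9 6) 0 0 (step_sound _ 65 [(rh3244c3cc8379b070.shift 0 2), rh44f661c7c07a4115] (by decide +kernel))
noncomputable def rh1e76e860f18c0fc2 : CRef := CRef.mk (Pat.mk 0xf00000000000000000000000000000000 0x40000001c0000001c0000001c0000001c0000000f000000180000001c0000001c00000014 9 5) 0 0 (step_sound _ 163 [(rh33e738c4ed385b9f.shift 0 4), rh37fda04cb288357c] (by decide +kernel))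
noncomputable def rh86373abb7b035593 : CRef := CRef.mk (Pat.mk 0x380000000000000000 0xe0000000e0000007f0000003e0000000f0000000c 9 7) 0 0 (step_sound _ 66 [(rh4c622fddc53a5f99.shift 0 2), (rh592c7139d2c44767.shift 0 1), (rh9e97bba44c1b13e4.shift 0 1), (rhf576cbc6ba99d365.shift 1 0)] (by decide +kernel))
noncomputable def rhb157e94e1c6ae8c9 : CRef := CRef.mk (Pat.mk 0x1e00000000000000000000000000000000 0x40000000600000006000000070000001e00000007000000070000000700000005 9 5) 0 0 (step_sound _ 161 [(rh3244c3cc8379b070.shift 0 4), rhe5afaa6c0c9ec9c5] (by decide +kernel))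
noncomputable def rhe7f343ade2260b1e : CRef := CRef.mk (Pat.mk 0x80000000f00000009000000000000000000000000 0x100000001e0000001f0000000e0000000f0000000b0000001d0000001d00000014 9 5) 0 0 (step_sound _ 67 [(rh5c651669912fbab1.shift 2 0), (rh6e41144ddd0bdce9.shift 0 1), (rh8cdd36b03d57a2f6.shift 2 0), (rhe286c75f2739cce2.shift 2 1)] (by decide +kernel))
noncomputable def rhc28945803c694115 : CRef := CRef.mk (Pat.mk 0xf0000000000000000000000000000000000000000 0x140000001c0000001c000000180000000f0000001c0000001c0000001c0000001c00000004 9 5) 0 0 (step_sound _ 131 [rh45d1f9cc4728a903, (rhe25b0a99195a5d59.shift 0 4)] (by decide +kernel))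
noncomputable def rh1dd9bafc81214674 : CRef := CRef.mk (Pat.mk 0x1e00000000000000000000000000000000 0x50000000700000007000000070000001e00000007000000060000000600000004 9 5) 0 0 (step_sound _ 97 [rhbe615db3d7119bfe, (rheb0810cc63b001d8.shift 0 3)] (by decide +kernel))
noncomputable def rha800ac1be5edcad2 : CRef := CRef.mk (Pat.mk 0x90000000f00000008000000000000000000000000 0x140000001d0000001d0000000b0000000f0000000e0000001f0000001e00000010 9 5) 0 0 (step_sound _ 195 [(rh03dfdf12d5937476.shift 2 2), (rh769be3fe24eee174.shift 2 3), rh7f6381860ffb9811, (rhc85cc95794737cf7.shift 2 3)] (by decide +kernel))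
noncomputable def rhe78263d30bab0277 : CRef := CRef.mk (Pat.mk 0x800000001c00000030000000000000000000000000 0x20000000380000003800000018000000f80000003c0000003f0000007e0000007e00000024 9 8) 0 0 (step_sound _ 164 [(rh0fa4a62bba50784f.shift 3 2), (rh170b8ca624304747.shift 1 0), (rhdae9388eef521f76.shift 3 2), rhded9ff1cbe86b6ca] (by decide +kernel))
noncomputable def rhee42ed6b15a60e4a : CRef := CRef.mk (Pat.mk 0x400000001e00000018000000000000000000000000 0x1f0000003f0000007c0000001e0000001f000000070000000200000002 9 7) 0 0 (step_sound _ 195 [(rh4d8d614e03a7f6ad.shift 1 3), rh679c9954ea153950, rhee04ebb463528c3e] (by decide +kernel))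
noncomputable def rh2106f9ed3879f3dc : CRef := CRef.mk (Pat.mk 0x400000000e0000001a000000000000000000000000 0x100000001c0000001f0000001f0000007c0000001e0000001e000000370000001600000012 9 7) 0 0 (step_sound _ 163 [rh0b7c1a0dcee7575e, (rh0fa4a62bba50784f.shift 2 2), (rh1869826b6f95e91c.shift 0 2), (rhdae9388eef521f76.shift 2 2)] (by decide +kernel))
noncomputable def rha617fbe34284e1f6 : CRef := CRef.mk (Pat.mk 0xc0000001a000000000000000000000000 0x1800000018000000380000001f0000001b000000300000003000000030 9 6) 0 0 (step_sound _ 129 [rh54756c1d87b35482, (rhb739f4f82bb681b4.shift 0 3)] (by decide +kernel))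
noncomputable def rh1214307454f345c6 : CRef := CRef.mk (Pat.mk 0x2000000030000000200000002000000000 0x1000000030000000380000003e0000007e0000005f 9 7) 0 0 (step_sound _ 132 [(rh50fbb5868c909700.shift 4 1), rhbb38e400e915dae9] (by decide +kernel))
noncomputable def rhcb6efa310bb7bb53 : CRef := CRef.mk (Pat.mk 0x400000000e0000004a000000000000000000000000 0x180000003e000000f00000001e0000007b000000380000003800000038 9 8) 0 0 (step_sound _ 132 [(rh9ca2224253149574.shift 1 0), (rheb0810cc63b001d8.shift 0 3)] (by decide +kernel))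
noncomputable def rh0b05942c07c3ef5a : CRef := CRef.mk (Pat.mk 0xe0000004a00000000000000000000000000000000 0x400000004000000140000001e0000007e0000003f0000007f0000001f00000015 9 7) 0 0 (step_sound _ 132 [(rh2fe78cc5ca4405d8.shift 2 4), rhc04cc13a45fd9ec6] (by decide +kernel))
noncomputable def rh126a01d87591f2e8 : CRef := CRef.mk (Pat.mk 0x80000000c000000180000000000000000 0x140000001f0000003f0000003f0000000c0000001c0000001c0000000c00000004 9 6) 0 0 (step_sound _ 163 [(rh03dfdf12d5937476.shift 2 1), (rh42ab489a1be3958e.shift 2 2), (rhba97f7f4ade5e136.shift 2 2), (rhc4526fc8abf298b6.shift 2 0), (rhf26678cbbb095e02.shift 0 3)] (by decide +kernel))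
noncomputable def rh11056bed0ea2e689 : CRef := CRef.mk (Pat.mk 0x300000001c0000008000000000000000000000000000000000 0x240000007e0000007e0000003f0000003c000000f800000018000000380000003800000020 9 8) 0 0 (step_sound _ 132 [(rh274a837cd7eaa569.shift 3 1), (rh63aae37a5ea11039.shift 3 0), (rh79e18c7f0bd74a50.shift 0 1), (rh8ee247f2e00e2063.shift 1 3)] (by decide +kernel))
noncomputable def rh1d1fd90c72881d6a : CRef := CRef.mk (Pat.mk 0x180000001e000000400000000000000000 0x200000002000000070000001f0000001e0000007c0000003f0000001f 9 7) 0 0 (step_sound _ 35 [rh26fb2f4b1c5a5c83, (rhdc461deccfb05432.shift 1 0), rhde016052a80d3526] (by decide +kernel))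
noncomputable def rhc0ed33466eeec198 : CRef := CRef.mk (Pat.mk 0x1a0000000e0000004000000000000000000000000000000000 0x1200000016000000370000001e0000001e0000007c0000001f0000001f0000001c00000010 9 7) 0 0 (step_sound _ 131 [(rh274a837cd7eaa569.shift 2 1), (rh4b7eb34d46dea33a.shift 0 4), (rh63aae37a5ea11039.shift 2 0), (rhc6b224b6d178ecf8.shift 0 1)] (by decide +kernel))
noncomputable def rh59e1577dccfbc916 : CRef := CRef.mk (Pat.mk 0x1a0000000c000000000000000000000000 0x3000000030000000300000001b0000001f000000380000001800000018 9 6) 0 0 (step_sound _ 97 [rh48e6fc66f64fc72e, (rh53b3c253cb0c65f4.shift 0 3)] (by decide +kernel))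
noncomputable def rh379ba253432a0400 : CRef := CRef.mk (Pat.mk 0x2000000020000000300000002000000000 0x5f0000007e0000003e000000380000003000000010 9 7) 0 0 (step_sound _ 36 [(rh932754581e0f4330.shift 4 0), (rhad2abb9494c0989c.shift 0 1)] (by decide +kernel))
noncomputable def rhda8c7ebda1d7357c : CRef := CRef.mk (Pat.mk 0x4a0000000e000000400000000000000000 0x3800000038000000380000007b0000001e000000f00000003e00000018 9 8) 0 0 (step_sound _ 100 [(rh3244c3cc8379b070.shift 0 3), (rhdd7e7f5e40699f67.shift 1 0)] (by decide +kernel))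
noncomputable def rh57db1b2ec7b7733f : CRef := CRef.mk (Pat.mk 0x4a0000000e000000000000000000000000 0x150000001f0000007f0000003f0000007e0000001e000000140000000400000004 9 7) 0 0 (step_sound _ 132 [(rh361cc68994bd8a63.shift 2 3), rh8a9f989a26cb40b9] (by decide +kernel))
noncomputable def rhd39f01818dca8e7f : CRef := CRef.mk (Pat.mk 0x180000000c0000000800000000000000000000000000000000 0x40000000c0000001c0000001c0000000c0000003f0000003f0000001f00000014 9 6) 0 0 (step_sound _ 99 [rh70e2db778ce43bdb, (rh771d065bdc85bf2d.shift 2 2), (rhbaff7ec0fcc038ba.shift 2 0), (rhc94dfb5f501cb051.shift 2 0), (rhe286c75f2739cce2.shift 2 2)] (by decide +kernel))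
noncomputable def rh58246860b6702422 : CRef := CRef.mk (Pat.mk 0x480000001c000000100000000000000000 0x1f0000001f0000007c0000001c0000001c0000000c0000000c 9 7) 0 0 (step_sound _ 163 [(rh2145e1d24b96a57e.shift 3 2), rh4f8162692210f097] (by decide +kernel))
noncomputable def rh994141317476cf0a : CRef := CRef.mk (Pat.mk 0x480000001c000000100000000000000000 0x10000000780000001c0000001f0000003f0000003c 9 7) 0 0 (step_sound _ 132 [(rh361cc68994bd8a63.shift 2 3), rhfa3da53dd8360358] (by decide +kernel))
noncomputable def rhbd3cc2ca3cd04748 : CRef := CRef.mk (Pat.mk 0x100000001c000000480000000000000000 0xc0000000c0000001c0000001c0000007c0000001f0000001f 9 7) 0 0 (step_sound _ 35 [(rh71222050f2c63a3a.shift 3 0), rhf1a8f4bd88d60e52] (by decide +kernel))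
noncomputable def rh5e1dd81a3b8b36f6 : CRef := CRef.mk (Pat.mk 0x100000001c0000004800000000 0x3c0000003f0000001f0000001c0000007800000010 9 7) 0 0 (step_sound _ 36 [rh1d6a790d61718848, (rh2fe78cc5ca4405d8.shift 2 1)] (by decide +kernel))
noncomputable def rhd4ffb7e16e6d91bf : CRef := CRef.mk (Pat.mk 0x380000000000000000 0x70000000f00000007f0000003e0000007700000030 9 8) 0 0 (step_sound _ 66 [(rh185f35b8bd8ec37f.shift 0 1), (rh4c622fddc53a5f99.shift 0 2), (rh592c7139d2c44767.shift 0 1), (rh8fab0bc5ec92af95.shift 2 0)] (by decide +kernel))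
noncomputable def rh4a5e3fc94db99d7d : CRef := CRef.mk (Pat.mk 0x38000000000000000000000000 0x30000000770000003e0000007f000000f000000070 9 8) 0 0 (step_sound _ 98 [(rh185f35b8bd8ec37f.shift 0 2), (rh4c622fddc53a5f99.shift 0 3), (rh775ca1963e850b80.shift 0 2), (rha71d30e3224d1cd8.shift 2 0)] (by decide +kernel))
noncomputable def rh2a65d0cec4dce4d7 : CRef := CRef.mk (Pat.mk 0xc0000000400000000000000000 0x100000013000000f3f000007fe00000eff0000024800000248 9 12) 0 0 (step_sound _ 104 [(rh352b7f91eba0c81f.shift 5 2), rh79d10fa3eeef4305, (rhb20c3bbfde65aed4.shift 5 0)] (by decide +kernel))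
noncomputable def rh51ed210bbc8822bc : CRef := CRef.mk (Pat.mk 0x1000000010000000100000003000000000 0x800000018000000180000003e000000ff000000cf 9 8) 0 0 (step_sound _ 35 [(rh932754581e0f4330.shift 3 0), rh97bf57c6677c9d2b] (by decide +kernel))
noncomputable def rh8f87de33a4a523ba : CRef := CRef.mk (Pat.mk 0x20000000200000002000000000000000000000000000000000 0x100000003000000030000001fe000001fe000001ff0000007e00000050 9 9) 0 0 (step_sound _ 101 [(rh8cdd36b03d57a2f6.shift 4 1), (rh8ff3dde5b1c639e0.shift 4 1), (rhc23d842ba69180fe.shift 1 0), (rhc30f48ddc6fc54d9.shift 0 2), (rhc4526fc8abf298b6.shift 4 1)] (by decide +kernel))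
noncomputable def rhc7f5d4a2c67a24de : CRef := CRef.mk (Pat.mk 0x20000000a000000020000000000000005000000000 0x20000000a0000000a0000003bf000001fe000003ef 9 10) 0 0 (step_sound _ 37 [(rh6e2e73c314adbe23.shift 3 0), (rh71b06adb1bde91cb.shift 4 0), (rh9e62a52686d7cbe8.shift 1 0), rhe45bb01ac4479772] (by decide +kernel))
noncomputable def rh18bd019a91d82631 : CRef := CRef.mk (Pat.mk 0x280000002000000020000000300000000000000000 0xf0000007e000001f7000000240000003c0000006000000040 9 9) 0 0 (step_sound _ 164 [(rh0534ccfab756e493.shift 3 1), rha86238bf9c102144, (rhc92c11e8da6c894f.shift 0 4)] (by decide +kernel))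
noncomputable def rh89d7ee08b8557bff : CRef := CRef.mk (Pat.mk 0x380000002000000020000000600000000000000000 0x80000000f0000007e0000003700000024000001e40000003000000010 9 9) 0 0 (step_sound _ 162 [(rh0de499e0455c9c14.shift 0 4), (rh464bab2e226d0259.shift 1 1), (rh592c7139d2c44767.shift 0 4), (rhe317ea46c0626ead.shift 1 0)] (by decide +kernel))
noncomputable def rh1a9fb850c5b83564 : CRef := CRef.mk (Pat.mk 0x80000000a000000080000000800000000 0x10000000180000000f0000007c0000007e000000f4 9 8) 0 0 (step_sound _ 132 [(rh2f68792b6b779e96.shift 3 1), rh9014f69254e382b1] (by decide +kernel))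
noncomputable def rh65a657f5b6c5b7b3 : CRef := CRef.mk (Pat.mk 0x180000000a00000008000000080000000000000000000000000000000000000000 0x180000000f0000001c00000018000000180000001c0000001c0000001c00000014 9 5) 0 0 (step_sound _ 226 [(rh53b3c253cb0c65f4.shift 0 7), (rh571428492a87aece.shift 2 0)] (by decide +kernel))
noncomputable def rhdad2d94673b5d300 : CRef := CRef.mk (Pat.mk 0x80000001e00000018000000100000000000000000 0x1b0000001e0000001c000000ff000000ef0000000c 9 8) 0 0 (step_sound _ 161 [rh08f500103af46dfa, (rh3244c3cc8379b070.shift 0 4)] (by decide +kernel))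
noncomputable def rh75fffe750a66e9c2 : CRef := CRef.mk (Pat.mk 0x180000001e000000080000000000000000 0x1b0000001e000001dc000000fc000000fc 9 9) 0 0 (step_sound _ 35 [rh2b4d4dd0c6731211, (rh71222050f2c63a3a.shift 3 0)] (by decide +kernel))
noncomputable def rh86e0cc5f8b61d5c5 : CRef := CRef.mk (Pat.mk 0x600000006000000020000000000000000 0x60000000e0000007b0000003f0000007f 9 7) 0 0 (step_sound _ 33 [rh2ce6beec7b351e8b, (rh71222050f2c63a3a.shift 1 0)] (by decide +kernel))
noncomputable def rh6faa95dd63717930 : CRef := CRef.mk (Pat.mk 0x1800000008000000080000000800000000 0x18000000180000007c000000ff000000f7 9 8) 0 0 (step_sound _ 36 [(rh55afc6a59410cf00.shift 3 0), rh8ee5b1dc83465cd0] (by decide +kernel))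
noncomputable def rh83162f1bd7e5cda0 : CRef := CRef.mk (Pat.mk 0x20000000200000002000000000000000000000000 0x4000000060000000e0000003f0000001f0000003f00000005 9 6) 0 0 (step_sound _ 65 [(rh635c0230fe857cf4.shift 0 1), (rh6c59ce14113da07f.shift 1 0), rh8cdd36b03d57a2f6, rhcab3157f7bdcba3e] (by decide +kernel))
noncomputable def rh4da9eee6ed7d3f1e : CRef := CRef.mk (Pat.mk 0x800000008000000080000000800000000 0x100000001800000008000001ff000000fe000001f4 9 9) 0 0 (step_sound _ 132 [(rh2f68792b6b779e96.shift 3 1), rhe72a2ee9a383cd6d] (by decide +kernel))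
noncomputable def rh3fccf268587cad47 : CRef := CRef.mk (Pat.mk 0x1000000000000000000000001e00000018000000000000000000000000 0x1000000010000000100000003e0000001f0000003f0000000b00000003 9 6) 0 0 (step_sound _ 97 [rhc878396e6bd32792, (rheb0810cc63b001d8.shift 0 3)] (by decide +kernel))
noncomputable def rh60ccfa2fe0054cc6 : CRef := CRef.mk (Pat.mk 0x1c0000002000000000000000000000000000000000 0x600000006000000070000001e0000003700000007000000070000000700000005 9 6) 0 0 (step_sound _ 161 [rh6eb2d6db5a72db4b, (rh96851dee118c1ba3.shift 1 4)] (by decide +kernel))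
noncomputable def rhc3fab8025065a6e3 : CRef := CRef.mk (Pat.mk 0x5000000040000000400000002000000000 0x8000000080000000f000000fe000003ff000000500000006000000060 9 10) 0 0 (step_sound _ 38 [(rh932754581e0f4330.shift 5 0), rhb28ade722a660c2f] (by decide +kernel))
noncomputable def rhbac1fa46864be0fb : CRef := CRef.mk (Pat.mk 0x5000000040000000400000008000000000 0x8000000080000000f000000fe000003ff00000050000000c0000000c0 9 10) 0 0 (step_sound _ 38 [(rh55afc6a59410cf00.shift 6 0), rhb28ade722a660c2f] (by decide +kernel))
noncomputable def rhe9e0f7dd21a7d7d3 : CRef := CRef.mk (Pat.mk 0x300000001c00000010000000100000000000000000 0xf00000001c0000007f0000007f0000001e0000001c 9 8) 0 0 (step_sound _ 35 [(rh79877ebd3ef475dd.shift 3 1), rhbdfffbc76cd386f8] (by decide +kernel))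
noncomputable def rh127fbc4d00e99fc2 : CRef := CRef.mk (Pat.mk 0x80000000a000000080000000800000000000000000000000000000000 0x10000000780000000f0000000f0000007c000000180000001c0000001c00000014 9 7) 0 0 (step_sound _ 228 [(rh2f68792b6b779e96.shift 3 4), rh301e290ea5b31219] (by decide +kernel))
noncomputable def rh142880ea7ce27f51 : CRef := CRef.mk (Pat.mk 0x4000000000000000000000007800000038000000000000001000000000 0x4000000040000000460000007e000000380000002f0000007e000000ff 9 8) 0 0 (step_sound _ 130 [(rhb739f4f82bb681b4.shift 1 3), rhbf1ac8122154e259] (by decide +kernel))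
noncomputable def rh554332c9c5cfeed9 : CRef := CRef.mk (Pat.mk 0x1800000018000000000000001000000000 0x1800000018000000ff000000fe000001ff 9 9) 0 0 (step_sound _ 68 [(rh7b1f1fb55310c477.shift 3 0), rhe220c0de9982429b] (by decide +kernel))
noncomputable def rhd9faffa1c3d35f79 : CRef := CRef.mk (Pat.mk 0xc00000008000000080000001c00000000000000000000000000000000 0x2f0000007c000003fe000001fc000003e0000000f0000000f0000000f0 9 10) 0 0 (step_sound _ 133 [(rh1e450ca191fb0255.shift 3 0), (rh4a0cb3a9508b05dd.shift 2 3), rhd64673c95c04d899, (rhe3060b190bc0bc78.shift 1 4)] (by decide +kernel))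
noncomputable def rhfd1d08e3f854bb69 : CRef := CRef.mk (Pat.mk 0x80000000800000008000000080000000000000000000000000000000000000000 0x8000000180000007c0000001f0000001c000000180000001c0000001c00000014 9 7) 0 0 (step_sound _ 131 [rh0057bf2ed1c643a3, (rh5f1c7693341f5f3e.shift 2 0), rhb28d70720f337bcb, (rhd29a1fb688eae70f.shift 3 3)] (by decide +kernel))
noncomputable def rhc27a84b2ed01b28b : CRef := CRef.mk (Pat.mk 0x2000000020000000200000002000000000 0x1f0000003e000000ff000000700000003e00000038 9 8) 0 0 (step_sound _ 132 [(rh50fbb5868c909700.shift 4 1), rhd570598789c06f74] (by decide +kernel))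
noncomputable def rh237c50422a2adf79 : CRef := CRef.mk (Pat.mk 0x80000000800000008000000080000000000000000000000000000000000000000 0x80000001c0000007c0000001f0000001c000000180000001c0000001c00000014 9 7) 0 0 (step_sound _ 131 [(rh047f549357eb18af.shift 2 2), (rh5f1c7693341f5f3e.shift 2 0), rhb28d70720f337bcb, (rhd29a1fb688eae70f.shift 3 3)] (by decide +kernel))
noncomputable def rh7fc3d1d1ffefa3d7 : CRef := CRef.mk (Pat.mk 0x1000000010000000100000001000000000 0x800000018000000180000003e000000ff000000ee 9 8) 0 0 (step_sound _ 37 [(rh55afc6a59410cf00.shift 4 0), rhfa2f04f86dfc7d53] (by decide +kernel))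
noncomputable def rh56cc245a1a8744f7 : CRef := CRef.mk (Pat.mk 0x20000000200000001800000018000000100000001000000000 0x2000000060000000de000000ff000000ff0000003600000026 9 8) 0 0 (step_sound _ 37 [rh27a3414dd8ade423, (rh55afc6a59410cf00.shift 4 0)] (by decide +kernel))
noncomputable def rh325b6ffcf2f39f5d : CRef := CRef.mk (Pat.mk 0x50000000100000000c00000008000000080000001c0000000000000000 0x4000000050000000700000006f0000007f0000007c0000007e000000e000000040 9 8) 0 0 (step_sound _ 101 [(rh6e96e90a79333766.shift 2 1), (rh7dcd5319f4f71bec.shift 1 2), rhf085abb8f8f2bd3e] (by decide +kernel))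
noncomputable def rhfd8136d1712a6320 : CRef := CRef.mk (Pat.mk 0x8000000080000001e00000000 0x500000007000000070000000f0000003b0000001e00000007 9 6) 0 0 (step_sound _ 68 [(rh33e738c4ed385b9f.shift 1 1), rhded03eae47b48b5c] (by decide +kernel))
noncomputable def rh925b8d85bf3c63bf : CRef := CRef.mk (Pat.mk 0x8000000080000000000000004000000050000000000000000000000000 0x80000000c000000040000007ff000003fe000007cf0000008000000080 9 11) 0 0 (step_sound _ 166 [(rh1006c02ae4212ff0.shift 6 3), rh585063eeaafa339c] (by decide +kernel))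
noncomputable def rh734770c1d6983bd4 : CRef := CRef.mk (Pat.mk 0x50000000100000000c000000080000000a0000000800000000 0x5000000070000001ee000000fe000001ff000000ef00000008 9 9) 0 0 (step_sound _ 98 [(rh404fe6d9790db83e.shift 0 1), (rh7b1f1fb55310c477.shift 2 0)] (by decide +kernel))
noncomputable def rh1b8787380a02563c : CRef := CRef.mk (Pat.mk 0x8000000080000000a0000000800000000000000000000000000000000 0x40000000c0000001c0000001f0000000c000000180000001c0000001c00000004 9 5) 0 0 (step_sound _ 226 [(rh50fbb5868c909700.shift 2 4), rh57026eff083916f6] (by decide +kernel))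
noncomputable def rh66e8ee5080f80181 : CRef := CRef.mk (Pat.mk 0x500000001000000008000000080000000a0000000800000000000000000000000000000000 0x50000000f4000000ec000003f8000001fe000003ff000000f8000000180000001800000010 9 10) 0 0 (step_sound _ 164 [(rh1ed422ad98229120.shift 3 0), (rh7f8476316fee2a1b.shift 0 3), (rhe97eb6ba8dbeba1c.shift 1 3)] (by decide +kernel))
noncomputable def rhe0fe95ec2b323fff : CRef := CRef.mk (Pat.mk 0x8000000080000000a0000000000000000000000000 0x80000007de00000ffe00000fff0000010000000100 9 12) 0 0 (step_sound _ 102 [(rh209658185e438b00.shift 3 2), (rh5ca3840da9e83c1a.shift 4 0), (rha11dfd15f08f96e3.shift 4 3), (rha4e887c2a2a0f60b.shift 2 2), (rhab99e4cdfdfcc1db.shift 0 2)] (by decide +kernel))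
noncomputable def rh7b0ac8ba249e82c1 : CRef := CRef.mk (Pat.mk 0x20000000200000001000000010000000140000001000000000 0x220000006a000000df000000ff000000d60000001400000014 9 8) 0 0 (step_sound _ 131 [rh0250d898c9054a62, (rh50fbb5868c909700.shift 3 1)] (by decide +kernel))
noncomputable def rh0d9021fae91600ed : CRef := CRef.mk (Pat.mk 0x600000004000000050000000400000000000000000 0x80000000c0000007c0000007f000001fe0000007f0000005800000018 9 9) 0 0 (step_sound _ 101 [(rh1e1ac93a173399bb.shift 2 1), (rh6e9177f6985b9407.shift 0 2), (rha03b15ffdc27be10.shift 2 0), (rhcf68ae70d2549fb7.shift 2 0), (rhddc3a4b352a66132.shift 2 0), (rhe5193cb07d9333df.shift 2 1), (rhfb0864d8983e37ee.shift 2 1)] (by decide +kernel))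
noncomputable def rh32be1f53da6094fa : CRef := CRef.mk (Pat.mk 0x1800000010000000140000001000000000 0x600000006000000060000001f0000001f000000370000003e00000016 9 6) 0 0 (step_sound _ 99 [rh54a9d6b90dd94a72, (rh7b1f1fb55310c477.shift 3 0)] (by decide +kernel))
noncomputable def rhe729a364fe4c1eb1 : CRef := CRef.mk (Pat.mk 0x4000000000000000000000003000000020000000380000000000000000 0x100000007c0000001c0000000c0000003c000001ff000000f80000001c00000008 9 9) 0 0 (step_sound _ 102 [(rh572132728df34c43.shift 3 2), (rh80f90a60d87caa0d.shift 3 2), rhb7ec75a34a7834fa] (by decide +kernel))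
noncomputable def rh22bef4d370f16163 : CRef := CRef.mk (Pat.mk 0xa0000000200000001000000010000000140000001000000000 0xa2000000ea000003df000001ff000003fc0000001600000016 9 10) 0 0 (step_sound _ 131 [(rh50fbb5868c909700.shift 3 1), rh8ea3e871763d5ce2] (by decide +kernel))
noncomputable def rh71b97df6f0b1908a : CRef := CRef.mk (Pat.mk 0x500000001000000008000000080000000a0000000800000000000000000000000000000000 0x50000000f0000000e8000003ff000001fe000003ff00000058000000180000001800000010 9 10) 0 0 (step_sound _ 164 [(rh1ed422ad98229120.shift 3 0), (rhcad1dfe4834d1fd2.shift 0 3), (rhd9a877c628be425a.shift 0 3)] (by decide +kernel))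
noncomputable def rh4e8215893af088e7 : CRef := CRef.mk (Pat.mk 0x100000001c000000140000000000000000 0xe0000000e0000000e0000001f0000001c000000170000003e00000016 9 6) 0 0 (step_sound _ 131 [(rh4821dcf828b9d7bf.shift 2 0), rh6767252407a6ab2b, (rh78e424ef2951d21e.shift 2 1), (rhfc7c29d8e65d775f.shift 3 1)] (by decide +kernel))
noncomputable def rh2c542fa03c4a0f12 : CRef := CRef.mk (Pat.mk 0x1000000014000000140000000000000000 0xa0000000a0000000f0000001f0000007f000000f40000001e00000016 9 8) 0 0 (step_sound _ 99 [(rh8ee80cc30e93a344.shift 1 2), rhaa79a099736eb728, rhcccb769001e7fd5d, rhf4e4690e1d4c3fc6] (by decide +kernel))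
noncomputable def rhc012ad234c583656 : CRef := CRef.mk (Pat.mk 0x8000000000000000000000004000000050000000500000000000000000 0x800000038000000f80000003f0000003e0000007f000000de000000580000005800000008 9 8) 0 0 (step_sound _ 132 [(rh139c88fd133742b2.shift 2 1), (rh981d69d292ec3bee.shift 2 1), (rha3a926c6bbe7b967.shift 0 1), (rhf1e8c1c297cb0416.shift 1 1), (rhfa95a84a9d75ee01.shift 3 0)] (by decide +kernel))
noncomputable def rh37964690872f8b1b : CRef := CRef.mk (Pat.mk 0x4000000040000000000000002000000028000000000000000000000000 0x48000001d80000019c000003fe000001fe000003ff0000000800000008 9 10) 0 0 (step_sound _ 100 [(rh0568b7ab013f43a7.shift 0 2), (rh182142b62bccbf23.shift 0 2), (rh8522c6bc3a1a8270.shift 1 2), (rha0a8379952207406.shift 2 0), (rhd7c0a18f92b59752.shift 1 2)] (by decide +kernel))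
noncomputable def rhc8d77969065cc0c2 : CRef := CRef.mk (Pat.mk 0x8000000080000001e00000000 0x100000007000000070000000f0000003f0000001e00000003 9 6) 0 0 (step_sound _ 68 [(rh33e738c4ed385b9f.shift 1 1), rh3da478f020abb9c4] (by decide +kernel))
noncomputable def rh22d8f5dcc016ae2c : CRef := CRef.mk (Pat.mk 0x1800000010000000100000003800000000 0x5e000000f8000000f7000000fe000001c7 9 9) 0 0 (step_sound _ 34 [(rh54308ed43bfdd542.shift 1 0), rh592c7139d2c44767, (rhec46bd5500c722c9.shift 1 1)] (by decide +kernel))
noncomputable def rh3d72ce3876a963d6 : CRef := CRef.mk (Pat.mk 0x1000000010000000100000001800000000 0x800000018000000180000003e000000ff000000e7 9 8) 0 0 (step_sound _ 37 [(rh55afc6a59410cf00.shift 4 0), rh97bf57c6677c9d2b] (by decide +kernel))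
noncomputable def rh3083a24140990d8e : CRef := CRef.mk (Pat.mk 0x800000008000000080000001c00000000 0x50000000f0000001f000000ef0000007e000000e3 9 8) 0 0 (step_sound _ 130 [(rh50fbb5868c909700.shift 2 1), rhac7d6bbb58ec72fc] (by decide +kernel))
noncomputable def rhaeba2171bba0b7d4 : CRef := CRef.mk (Pat.mk 0x30000000200000002000000038000000000000000000000000 0xf0000003e000000ff000000fe000000380000000c0000000c0000000c 9 8) 0 0 (step_sound _ 132 [(rh108c989a0d88fb53.shift 2 2), rh3405158eb3704a32, (rh605f94335facc945.shift 1 3), (rha6fe76383d94ebc9.shift 1 2), (rhb4e9139ef6806937.shift 1 3), (rhb6cb688e1e09da79.shift 0 2)] (by decide +kernel))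
noncomputable def rh02055d4e0987ef4a : CRef := CRef.mk (Pat.mk 0x380000001000000010000000000000000000000000 0xc0000000f000000fc0000001f0000001c0000000c0000000c0000000c 9 8) 0 0 (step_sound _ 131 [(rh1b048598a8b37bd5.shift 2 3), (rh2820ca9a6c4f41b4.shift 0 4), rh32da4dcdbc5be6f2, (rh4dc133ee0ba1420a.shift 1 4)] (by decide +kernel))
noncomputable def rh8671195c0aef936e : CRef := CRef.mk (Pat.mk 0x1400000004000000000000000200000003000000010 0x10000000140000001cc0000018c00000ffe000007fe00000f9f 9 12) 0 0 (step_sound _ 38 [(rh61fc01b276c27a00.shift 3 0), rh6543bbf43e71ac7a, (rh6f30b9806435927e.shift 1 0), (rha83d0a1d851c6a27.shift 3 0), (rhdfe67b24fcc3b045.shift 3 0)] (by decide +kernel))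
noncomputable def rh5dbcb26068ba7c59 : CRef := CRef.mk (Pat.mk 0x100000001000000000000000080000000a0000000000000000000000000000000000000000 0x100000001c0000000c0000001c0000001f000000780000001c0000001c0000001c00000010 9 7) 0 0 (step_sound _ 227 [(rh1006c02ae4212ff0.shift 3 5), rh4141fe07bc2916ac] (by decide +kernel))
noncomputable def rh517c469e90b69191 : CRef := CRef.mk (Pat.mk 0x4000000050000000000000000000000000 0x140000001c0000005c00000fff000007fe0000079f0000009800000098 9 12) 0 0 (step_sound _ 101 [(rh8054609d8b031a11.shift 3 0), (rha11dfd15f08f96e3.shift 3 3), rhcea113df8f1ef6c1, (rhfb46419da33febf8.shift 1 2)] (by decide +kernel))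
noncomputable def rh4872ac8182671b80 : CRef := CRef.mk (Pat.mk 0x8000000080000001800000000000000000000000000000000 0x40000000c0000000e0000001f0000001f0000001f0000001c00000004 9 5) 0 0 (step_sound _ 99 [(rh4237f462a9fac39e.shift 0 2), (rh46baee19951a66e7.shift 2 1), (rh6eff4158bb400f47.shift 2 1), (rhc4526fc8abf298b6.shift 2 1), (rhe84e00c98653ad0c.shift 2 0)] (by decide +kernel))
noncomputable def rh8753e6bd700de53e : CRef := CRef.mk (Pat.mk 0x400000005000000000000000200000002800000000 0x5e000000fc000001ae000001ef000000fe000000ef 9 9) 0 0 (step_sound _ 133 [(rh04253f50b6dd0619.shift 5 1), rhdfadbe57591631e4] (by decide +kernel))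
noncomputable def rh346dd9456f8c404e : CRef := CRef.mk (Pat.mk 0x100000001c000000100000001000000000 0xf00000007c000000f7000000fe000001ef 9 9) 0 0 (step_sound _ 37 [(rh55afc6a59410cf00.shift 4 0), rh5e54e5d53e5286ed] (by decide +kernel))
noncomputable def rh26da89277c8ed87b : CRef := CRef.mk (Pat.mk 0x5000000000000000200000002800000000 0x40000001c0000007c00000018000001ef000000fe000001ef 9 9) 0 0 (step_sound _ 36 [(rh0adc0745e1aa601e.shift 2 0), (rh209658185e438b00.shift 1 0), rh7180a8c1fcdc4d47, (rha2b6411962a48741.shift 1 0), rha4e887c2a2a0f60b] (by decide +kernel))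
noncomputable def rh67aa459a960b3d5e : CRef := CRef.mk (Pat.mk 0x200000002800000000000000100000001400000000 0x2f0000007e0000001f000000170000001700000005 9 7) 0 0 (step_sound _ 132 [(rh04253f50b6dd0619.shift 4 1), rh20ef21b53f9550fc] (by decide +kernel))
noncomputable def rhae5e6af83ef9dfbe : CRef := CRef.mk (Pat.mk 0x400000005000000000000000200000002800000000 0x10000000500000007f0000003e0000006f0000002800000028 9 7) 0 0 (step_sound _ 101 [(rh1006c02ae4212ff0.shift 5 1), rh4ab5e84f45c738f8] (by decide +kernel))
noncomputable def rhb4d58fc0bc5a5f04 : CRef := CRef.mk (Pat.mk 0x600000004000000050000000400000000000000000 0x1c0000001c0000007c0000007f000001fe000000df0000005800000018 9 9) 0 0 (step_sound _ 101 [(rh0fa479cea2267816.shift 2 2), (rh36ceb22628bab848.shift 2 1), (rh49846b79d756d913.shift 2 1), rhcea113df8f1ef6c1] (by decide +kernel))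
noncomputable def rh89a79e39f2bb84d2 : CRef := CRef.mk (Pat.mk 0x8000000080000001a00000010000000000000000000000000 0x400000004000000040000000e0000000f0000001e0000003b000000070000000700000005 9 6) 0 0 (step_sound _ 130 [rh87299d5f0623721e, (rhe25b0a99195a5d59.shift 1 3)] (by decide +kernel))
noncomputable def rhb25aa5d50b14e489 : CRef := CRef.mk (Pat.mk 0x8000000080000001a00000000000000000000000000000000 0x400000004000000040000000e000000ef0000007e000000fb000000170000001700000005 9 8) 0 0 (step_sound _ 130 [(rh394e80a462af5b2f.shift 0 3), (rh6076add87d5fdaa7.shift 0 1), rh87299d5f0623721e, (rhc7b95363f9049b11.shift 1 1)] (by decide +kernel))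
noncomputable def rh2369d3f33f19b5d5 : CRef := CRef.mk (Pat.mk 0x280000000800000004000000040000000d00000008000000000000000000000000 0x280000003800000076000001fc000000ff000001fc000000300000003000000030 9 9) 0 0 (step_sound _ 164 [(rh3661252e83d8054a.shift 1 4), rh43bb7a5cea3e4777, (rh81349719466fd7f7.shift 1 0), (rh85ec48ec037e3610.shift 0 3)] (by decide +kernel))
noncomputable def rh607df5926466fef2 : CRef := CRef.mk (Pat.mk 0x40000000d000000000000000c0000000000000000000000000 0x20000003f8000003d000001f1f00000ffe00001fff000000a0000000a0 9 13) 0 0 (step_sound _ 101 [(rh03d3b9cf18584b40.shift 4 1), (rh4408ee43fb1ddf12.shift 2 2), (rh85ae36e2850b4f44.shift 3 0), (rh8cf0181d02cc9f2b.shift 1 0), (rhe62591aef300aec6.shift 2 1), (rhfd21c8fee3a7c651.shift 0 1)] (by decide +kernel))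
noncomputable def rh1fd6950f600a74ae : CRef := CRef.mk (Pat.mk 0x1400000007800000000000000200000002800000000 0x15c000001f800000388000001fc000001ef00000004 9 10) 0 0 (step_sound _ 163 [(rh3244c3cc8379b070.shift 2 4), rhf8cfe824bf4003fb] (by decide +kernel))
noncomputable def rh0b9f78fdc9e989f8 : CRef := CRef.mk (Pat.mk 0x1000000001000000000000000200000002800000000000000000000000000000000 0x40000011c0000011c0000039f000001fe000001ef0000000c0000001c0000001c00000014 9 10) 0 0 (step_sound _ 163 [(rh104645e12aaa51da.shift 0 2), (rh2063d934709491ad.shift 2 2), (rh3bf8e27e072b0a46.shift 2 0), (rh55de085fe2c305a7.shift 0 4), (rh654bea7ae5e2bebd.shift 2 2)] (by decide +kernel))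
noncomputable def rh8c8ca9c394e0043e : CRef := CRef.mk (Pat.mk 0x100000000000000000000000020000000280000002000000000000000000000000000000000 0x1000000010000000397000001fe000001ef0000006000000070000000700000007000000040 9 10) 0 0 (step_sound _ 101 [(rh0be2a4256982885c.shift 4 0), (rh372db7e305e6ee08.shift 0 3), (rh6eff4158bb400f47.shift 4 1)] (by decide +kernel))
noncomputable def rh5e7016f0f64969b8 : CRef := CRef.mk (Pat.mk 0x2000000028000000000000000000000000 0x20000007ff000003fe000003ef0000004000000040 9 11) 0 0 (step_sound _ 100 [(rh209658185e438b00.shift 1 2), (rh3e0b38310ac09007.shift 0 3), (rh8054609d8b031a11.shift 2 0), (rhfb46419da33febf8.shift 0 2)] (by decide +kernel))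
noncomputable def rh4ef3b76303541e85 : CRef := CRef.mk (Pat.mk 0x1e0000001e000000000000000000000000 0x30000001e0000001e0000003b0000001f0000001f 9 6) 0 0 (step_sound _ 161 [rh1377246c8c242c5d, (rh3244c3cc8379b070.shift 0 4)] (by decide +kernel))
noncomputable def rhf2ce80b49f9d6f48 : CRef := CRef.mk (Pat.mk 0x10000000000000001c0000001e000000080000000000000000 0x1000000070000001f000000070000001f0000001e000000380000001000000010 9 6) 0 0 (step_sound _ 129 [(rh3244c3cc8379b070.shift 0 3), rhed2c7500c8df6474] (by decide +kernel))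
noncomputable def rh711cab745c063078 : CRef := CRef.mk (Pat.mk 0x20000000200000001800000010000000100000001800000000 0x2400000064000000de000000ff000000f70000001e00000016 9 8) 0 0 (step_sound _ 99 [rh05c74ae76b09a0de, (rh7b1f1fb55310c477.shift 3 0)] (by decide +kernel))
noncomputable def rhf489582d939dbefe : CRef := CRef.mk (Pat.mk 0x5000000010000000040000000c000000080000000c0000000000000000 0x40000000500000007000000064000001ff0000007e0000006f0000006200000040 9 9) 0 0 (step_sound _ 100 [(rh37228fd8f723ae11.shift 2 0), (rh3c3e23a02e82b2ed.shift 0 3), (rh5c5a2014709044d0.shift 0 3), (rhf33c9c7cd497f89c.shift 0 1)] (by decide +kernel))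
noncomputable def rh5605825d292879dc : CRef := CRef.mk (Pat.mk 0x2000000030000000200000001000000000 0xc0000000c0000001f0000003e000000ff000000fe0000003000000020 9 8) 0 0 (step_sound _ 132 [(rh3cab7e4c264186c1.shift 0 1), (rh3cb04db3dd2b6a55.shift 4 0)] (by decide +kernel))
noncomputable def rh35cd7a0a4d2b243d : CRef := CRef.mk (Pat.mk 0xa0000000280000001800000018000000100000000000000000 0xa0000000ea000001db000001ff000003ff0000000400000004 9 10) 0 0 (step_sound _ 98 [rh08b442d520f588b0, (rh6798e924bc94cc92.shift 1 0), (rhf56e6bc5d2f7fe77.shift 0 2)] (by decide +kernel))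
noncomputable def rh1512be0d93198572 : CRef := CRef.mk (Pat.mk 0x30000000300000002000000010 0x18000000180000001f0000003e000000ff0000007600000016 9 8) 0 0 (step_sound _ 99 [(rh3918eeb6c53434d8.shift 0 2), (rh393f7255ff6e81af.shift 1 0), (rh6292bd8784ece55f.shift 2 2), (rha92d88ebf24f190d.shift 1 0), (rhad5d8fc3675c15dd.shift 1 2)] (by decide +kernel))
noncomputable def rhc4d39b704ba14423 : CRef := CRef.mk (Pat.mk 0x1c0000001800000010000000000000000000000000 0x40000001f0000001f00000033000000070000000700000005 9 6) 0 0 (step_sound _ 161 [(rhb739f4f82bb681b4.shift 0 4), rhf8130010fcaa4b4e] (by decide +kernel))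
noncomputable def rhbedc868d1b7fa914 : CRef := CRef.mk (Pat.mk 0x1800000018000000100000000800000000 0x40000001f0000007c0000007e0000001f00000017 9 7) 0 0 (step_sound _ 36 [rh25f885f9c7e711f4, (rh7b1f1fb55310c477.shift 3 0)] (by decide +kernel))
noncomputable def rhc1ed33516b9232a6 : CRef := CRef.mk (Pat.mk 0x1800000018000000100000001800000000 0x200000002000000070000001f0000001f0000007f0000001f00000007 9 7) 0 0 (step_sound _ 67 [(rh3775448547e8cddf.shift 0 1), rhb0de455c382c5b1c, rhe7b1cef18b79e1f3] (by decide +kernel))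
noncomputable def rh1fe18f128f0e54a2 : CRef := CRef.mk (Pat.mk 0x18000000180000001000000000 0x20000000a0000000b0000001f0000007f0000003700000004 9 7) 0 0 (step_sound _ 131 [(rh2145e1d24b96a57e.shift 3 1), rh2bed358dcaea05f2] (by decide +kernel))
noncomputable def rh26d61437ab2c9607 : CRef := CRef.mk (Pat.mk 0x20000000200000001800000018000000100000000800000000 0x2400000064000000de000000ff000000f70000001e00000016 9 8) 0 0 (step_sound _ 36 [rh05c74ae76b09a0de, (rh7b1f1fb55310c477.shift 3 0)] (by decide +kernel))
noncomputable def rh80301b79f3885f35 : CRef := CRef.mk (Pat.mk 0x3000000030000000200000003000000000 0x80000000f0000003e000000ff0000003e0000003e0000000e 9 8) 0 0 (step_sound _ 131 [(rh3918eeb6c53434d8.shift 0 3), (rh40dcc8bac196bd60.shift 1 0), (rh6292bd8784ece55f.shift 2 3), (rh7ccf3f603f87c1ba.shift 1 0), (rhad5d8fc3675c15dd.shift 1 3)] (by decide +kernel))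
noncomputable def rhb86baff9389aecdf : CRef := CRef.mk (Pat.mk 0x100000000000000000000000000000001e0000000000000004 0x1000000070000001f0000000700000003000000030000001e0000000700000004 9 5) 0 0 (step_sound _ 33 [rh6c3a756c5edbe4b8, (rheb0810cc63b001d8.shift 0 1)] (by decide +kernel))
noncomputable def rh8565a221cb40bcc9 : CRef := CRef.mk (Pat.mk 0x2000000020000000200000002000000000 0x2000000020000007ef000003fe000003df 9 11) 0 0 (step_sound _ 36 [rh4e0212bccf27eebf, (rh932754581e0f4330.shift 4 0)] (by decide +kernel))
noncomputable def rh3147b593a9b1c9a6 : CRef := CRef.mk (Pat.mk 0x500000001000000000000000080000000800000008000000080000000000000000 0x400000005000000070000001e0000000fc000001ff000000280000000c0000000c00000004 9 9) 0 0 (step_sound _ 34 [rh01bb025c46c1ab61, (rh79877ebd3ef475dd.shift 2 1)] (by decide +kernel))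
noncomputable def rh1dc3dd42d3aa5743 : CRef := CRef.mk (Pat.mk 0x500000001000000000000000080000000800000008000000080000000000000000 0x400000005000000070000001e0000000fc000001ff00000028000000180000001800000010 9 9) 0 0 (step_sound _ 36 [rhd2347c784448740d, (rhd3458b32566d63f7.shift 3 1)] (by decide +kernel))
noncomputable def rh2ae781461d7af002 : CRef := CRef.mk (Pat.mk 0x100000003000000010000000080000000000000000 0x7df000007fe000003f7000000180000001800000010 9 11) 0 0 (step_sound _ 68 [(rh932754581e0f4330.shift 3 1), rhba60f23f4ff758ff] (by decide +kernel))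
noncomputable def rhede050bb77e2c0cf : CRef := CRef.mk (Pat.mk 0x400000004000000000000000000000007000000020 0x40000000c0000000800000038e000001fe000003bf 9 10) 0 0 (step_sound _ 39 [rh2e14de18b68917ef, (rh35e918dd76851f8c.shift 4 0), (rhaf9f2efc81a8312b.shift 3 0)] (by decide +kernel))
noncomputable def rh2508904f7684b93e : CRef := CRef.mk (Pat.mk 0x80000000e00000008 0x1000000030000000300000003000003ff000001fe000003ef 9 10) 0 0 (step_sound _ 36 [rh14f0649c351b0eb7, rh27ce058b59d72f64, (rh760768b52a3c5f47.shift 1 0), rhbac63f7342df8fab] (by decide +kernel))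
noncomputable def rh269775ad10dd4fa9 : CRef := CRef.mk (Pat.mk 0xc00000008000000080000000c00000000 0x10000000f0000001f000000ef0000007e000000f3 9 8) 0 0 (step_sound _ 36 [(rh55afc6a59410cf00.shift 3 0), rhac7d6bbb58ec72fc] (by decide +kernel))
noncomputable def rh9d601549f25b65bb : CRef := CRef.mk (Pat.mk 0x80000001e000000100000000000000000 0x3b0000001e000000170000003e0000003e 9 6) 0 0 (step_sound _ 132 [rh0fdb7f2688bb68d0, (rh33e738c4ed385b9f.shift 1 3)] (by decide +kernel))
noncomputable def rh767c955c7c41ba9b : CRef := CRef.mk (Pat.mk 0x2000000038000000100000000000000000 0x800000008000007af000003fc000007980000001000000010 9 11) 0 0 (step_sound _ 36 [(rh4e4ac940a362749f.shift 0 1), (rh71222050f2c63a3a.shift 4 0)] (by decide +kernel))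
noncomputable def rh113159dbfa28455a : CRef := CRef.mk (Pat.mk 0x60000000000000002000000028000000000000000000000000 0x100000007e0000001e0000007f000000fe000001df0000001c0000001c 9 9) 0 0 (step_sound _ 100 [(rh3e0b38310ac09007.shift 0 3), (rha03ba84d9d2a9412.shift 2 0), (rha4e887c2a2a0f60b.shift 0 2), rhad5dd1d4c96935a7, (rhb103f40a53fe1424.shift 0 2), rhfaa719289f0d8837] (by decide +kernel))
noncomputable def rhb0c1824112fd2df2 : CRef := CRef.mk (Pat.mk 0x1000000010000000000000000a0000000b000000000000000000000000 0x5000000170000001f0000000f0000001e0000000b000000070000000700000005 9 5) 0 0 (step_sound _ 132 [(rhb2a0b9ccfb5cecd5.shift 0 3), rhe3ca3d4a714d3f60] (by decide +kernel))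
noncomputable def rhb718831478b0c452 : CRef := CRef.mk (Pat.mk 0xc0000000000000005000000050000000000000000000000000 0x18000000f80000001c000000ff0000007e0000002f0000000800000008 9 8) 0 0 (step_sound _ 99 [(rh9f2591205204f08d.shift 3 3), rhaf359bf56d6512c3, (rhb3f0701341c741cf.shift 1 2), (rhe33d9496e10d8eb0.shift 1 3)] (by decide +kernel))
noncomputable def rha13393ba993eeb6b : CRef := CRef.mk (Pat.mk 0x100000001000000050000000000000000000000000 0x280000003800000018000000770000003e0000003f00000028 9 7) 0 0 (step_sound _ 68 [(rh8cdd36b03d57a2f6.shift 3 0), (rh8ff3dde5b1c639e0.shift 3 0), (rhc4526fc8abf298b6.shift 3 0), (rhd73782b8d4550726.shift 0 1)] (by decide +kernel))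
noncomputable def rh3d171ce0ed43769f : CRef := CRef.mk (Pat.mk 0x8000000000000000c000000000000000500000001000000000000000000000000000000000 0x800000038000000f800000038000001ff0000003e000000ff0000001000000038000000380000003800000028 9 9) 0 0 (step_sound _ 196 [(rh0e80cf0ae8f04b90.shift 3 1), (rh5dcfc86e76340f97.shift 3 4), (rhc2dee24317815e65.shift 2 3), (rhd1170f0b06c28221.shift 3 4), (rhd9e8eea0787f5e0c.shift 1 1), rhfde16437934d4f4c] (by decide +kernel))
noncomputable def rh4136496b2230668a : CRef := CRef.mk (Pat.mk 0x100000003c000000000000000000000000 0x1e0000001f0000001e0000003c0000000e0000000c00000008 9 6) 0 0 (step_sound _ 67 [(rh4821dcf828b9d7bf.shift 3 0), (rh6badc4bba85c71f5.shift 0 1), (rh6cc58692ec716844.shift 1 0)] (by decide +kernel))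
noncomputable def rh83c9710b3a22f70c : CRef := CRef.mk (Pat.mk 0x10000000100000001000000000 0x280000003f0000003e0000003f0000001c0000001800000008 9 6) 0 0 (step_sound _ 132 [(rh20966da26a1c2ae8.shift 3 0), (rh968ba7b0df7e4096.shift 3 0), rhad999c3d6513a242, (rhc85cc95794737cf7.shift 3 1)] (by decide +kernel))
noncomputable def rh9ee806ed3911e93d : CRef := CRef.mk (Pat.mk 0x20000000200000002000000004000000140000001400000000 0x20000000e0000003e0000002e0000007c0000001f000000140000001400000004 9 7) 0 0 (step_sound _ 132 [(rh04253f50b6dd0619.shift 4 1), rhc2dee24317815e65] (by decide +kernel))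
noncomputable def rh7bb513c93d5b0156 : CRef := CRef.mk (Pat.mk 0x80000000000000000000000010000000700000000000000000000000000000000 0x8000000180000001c0000007f0000003f000000780000001c0000001c00000014 9 7) 0 0 (step_sound _ 131 [(rh167fff566cb27b75.shift 0 3), (rh2aac33c566332a8c.shift 0 3), (rh790acd67f4fffd04.shift 0 4), rh84d563c0d5fddcd4, (rha93a5dd541ab8209.shift 0 3)] (by decide +kernel))
noncomputable def rh44c63c2eb5a054fc : CRef := CRef.mk (Pat.mk 0x400000000000000060000000000000002800000008000000000000000000000000 0x40000001c0000007c0000001c000000fc0000001f00000078000000080000001c0000001c00000014 9 8) 0 0 (step_sound _ 163 [(rh0e80cf0ae8f04b90.shift 2 0), (rh5dcfc86e76340f97.shift 2 3), (rhc2dee24317815e65.shift 1 2), rhd9e8eea0787f5e0c] (by decide +kernel))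
noncomputable def rh328d4df1df5078c0 : CRef := CRef.mk (Pat.mk 0x140000003c000000000000000000000000 0xe0000000f0000001c0000003c0000006e0000007c0000003c 9 7) 0 0 (step_sound _ 66 [rh5c5b3414155a4528, (rheb0810cc63b001d8.shift 1 2)] (by decide +kernel))
noncomputable def rh21c60cb444196a36 : CRef := CRef.mk (Pat.mk 0x1000000010000000000000000a0000000a000000000000000000000000 0x150000001f0000000f0000001f0000007e000000770000000600000004 9 7) 0 0 (step_sound _ 163 [(rh1006c02ae4212ff0.shift 3 3), rh99431c244b692f57] (by decide +kernel))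
noncomputable def rh78dd6c9a89da264e : CRef := CRef.mk (Pat.mk 0x800000008000000080000000000000000000000000000000000000000 0x8000000180000007c0000001f0000001c0000001c0000001c0000001c00000014 9 7) 0 0 (step_sound _ 131 [(rh5f1c7693341f5f3e.shift 2 0), (rh8cdd36b03d57a2f6.shift 2 2), rh937dda6a580ad7b9, (rhc9ac229b3c77cd55.shift 2 3), (rhf62e0bde5b9f0689.shift 2 1)] (by decide +kernel))
noncomputable def rh3e0ba1c794e6f83a : CRef := CRef.mk (Pat.mk 0x800000008000000080000000000000000000000000000000000000000 0x40000000c0000001c0000007c0000001f0000000c0000001c0000001c0000001c00000014 9 7) 0 0 (step_sound _ 131 [(rh4cae674e8fd8dc57.shift 2 1), (rh565a0c22519f57e9.shift 2 3), rh937dda6a580ad7b9, (rhc4526fc8abf298b6.shift 2 2), (rhcaeb492376c707d4.shift 2 1)] (by decide +kernel))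
noncomputable def rh70f834b40aa8abb4 : CRef := CRef.mk (Pat.mk 0x800000008000000080000000000000000000000000000000000000000 0x80000001c0000007f0000007f0000001c0000001c0000001c0000001c00000014 9 7) 0 0 (step_sound _ 131 [(rh5f1c7693341f5f3e.shift 2 0), (rh8cdd36b03d57a2f6.shift 2 2), rh937dda6a580ad7b9, (rha7788a23a70e77b5.shift 0 2), (rhc9ac229b3c77cd55.shift 2 3)] (by decide +kernel))
noncomputable def rh00be6935dadc9201 : CRef := CRef.mk (Pat.mk 0x4000000040000000000000002000000020000000300000000000000000 0x40000001c000000190000001f8000001fe000001ff000000dc00000058 9 9) 0 0 (step_sound _ 102 [(rh0bb882ba86b2372d.shift 2 2), (rh1aa43eac5796afc1.shift 2 0), (rh1ea8e67d5f436bf6.shift 1 2), (rh574fdbf07bdd18b9.shift 2 2), rh8efea855b9b25970] (by decide +kernel))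
noncomputable def rhb8b2232ac5a35305 : CRef := CRef.mk (Pat.mk 0x4000000040000000000000002000000020000000300000000000000000 0x40000001c0000001b0000001f8000001fe000001ff000000cc00000048 9 9) 0 0 (step_sound _ 102 [(rh0bb882ba86b2372d.shift 2 2), (rh1aa43eac5796afc1.shift 2 0), (rh1ea8e67d5f436bf6.shift 1 2), (rh574fdbf07bdd18b9.shift 2 2), rhed070cfec526849f] (by decide +kernel))
noncomputable def rh988a6bd211aaaf48 : CRef := CRef.mk (Pat.mk 0x80000001e000000000000000000000000 0x3b0000001e0000003f0000003c00000038 9 6) 0 0 (step_sound _ 132 [(rh33e738c4ed385b9f.shift 1 3), rhaec1fdae0b8e279a] (by decide +kernel))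
noncomputable def rh8a3dc242352cac90 : CRef := CRef.mk (Pat.mk 0x1000000000000000180000000c000000000000000000000000 0x60000001f000000070000001f000000ff000000070000000600000004 9 8) 0 0 (step_sound _ 97 [(rh53b3c253cb0c65f4.shift 0 3), rhdbc02e9d729001e6] (by decide +kernel))
noncomputable def rh87909bb165676bb8 : CRef := CRef.mk (Pat.mk 0x180000001e000000000000000000000000 0x2000000020000001f0000001e0000003e0000007c0000003c 9 7) 0 0 (step_sound _ 129 [(rh3244c3cc8379b070.shift 0 3), (rh6a94b0a6c4b5cbad.shift 1 0)] (by decide +kernel))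
noncomputable def rha0970dc99b83f4fa : CRef := CRef.mk (Pat.mk 0x180000001e000000100000000400000000 0x2000000020000001f0000001e000001dc000000fc000001f8 9 9) 0 0 (step_sound _ 36 [rh78173cbe13a3f133, (rh7b1f1fb55310c477.shift 3 0)] (by decide +kernel))
noncomputable def rhd9138a0cdae5a672 : CRef := CRef.mk (Pat.mk 0x1000000000000000180000000c0000000000000000 0x40000001f000000070000001f000000ff000000e700000006 9 8) 0 0 (step_sound _ 65 [(rh53b3c253cb0c65f4.shift 0 2), rh89318481c075852c] (by decide +kernel))
noncomputable def rhf20974aa8b8ce891 : CRef := CRef.mk (Pat.mk 0x180000000c000000000000000000000000 0x1c000000ff000000ff0000003c00000038 9 8) 0 0 (step_sound _ 97 [(rh53b3c253cb0c65f4.shift 0 3), rha942d7b9587b63c1] (by decide +kernel))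
noncomputable def rh0f409e89105df01d : CRef := CRef.mk (Pat.mk 0x180000001c000000000000000000000000 0xc0000000c0000000e0000007f0000003c000000060000000600000006 9 7) 0 0 (step_sound _ 133 [(rh18965a982d73c794.shift 2 3), rhe9459d834c9e9d10] (by decide +kernel))
noncomputable def rhdfa05c679ffb66ad : CRef := CRef.mk (Pat.mk 0x1c0000000e000000000000000000000000 0x400000004000000040000001f0000001e0000003f0000003a00000032 9 6) 0 0 (step_sound _ 162 [(rh37d9ceebb86d75d1.shift 1 2), (rh55a1f6c57a317ce6.shift 2 1), rhad663572d0e909a2] (by decide +kernel))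
noncomputable def rhcb71377827b9161a : CRef := CRef.mk (Pat.mk 0x2000000020000000000000001000000018000000000000000000000000 0x2c000000fc000000cf000000ff000000f8000000fe000000fc000000bc 9 8) 0 0 (step_sound _ 131 [(rh18211f97f4a5cc52.shift 2 0), rh8418a79b79046e93, (rhd2a80c4cf4536a01.shift 0 1), rhe7aff87fd8558c86] (by decide +kernel))
noncomputable def rh097356bed3692232 : CRef := CRef.mk (Pat.mk 0x1000000018000000080000000000000000 0x8000000180000007c0000007f000000fe0000007c 9 8) 0 0 (step_sound _ 35 [(rh71222050f2c63a3a.shift 3 0), rh76de21557045ed7c] (by decide +kernel))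
noncomputable def rh7e0bae1aac8b3b56 : CRef := CRef.mk (Pat.mk 0x1800000018000000080000000800000000 0x70000001f0000001b0000000f0000001f00000014 9 5) 0 0 (step_sound _ 36 [(rh55afc6a59410cf00.shift 3 0), rh563df09e4360fed9] (by decide +kernel))
noncomputable def rh7d8956fcf002800d : CRef := CRef.mk (Pat.mk 0x200000003000000010000000000000000000000000 0x1c0000001e0000003f000000fe000000fe000000ee0000006800000008 9 8) 0 0 (step_sound _ 99 [(rh0bb882ba86b2372d.shift 1 3), (rhfa4524adde54e850.shift 0 1), (rhfba2defcdbec12f4.shift 1 0)] (by decide +kernel))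
noncomputable def rh89a5a1cb11e00685 : CRef := CRef.mk (Pat.mk 0x80000001800000018000000000000000000000000 0x8000000180000001f000000ff000000fc0000001c 9 8) 0 0 (step_sound _ 67 [(rh4053c12da95c0aa0.shift 3 0), (rh46530d756bdf8511.shift 2 0), (rh9458d4be74707da8.shift 0 1)] (by decide +kernel))
noncomputable def rhe4ed590f96ede081 : CRef := CRef.mk (Pat.mk 0x1000000010000000000000000e0000000c000000000000000000000000 0x1600000036000000670000007e0000006f0000000b0000000b00000003 9 7) 0 0 (step_sound _ 132 [(rh0c561658b8646091.shift 1 1), rh4592e78c73a42485, (rh4ab6fb4bdbc94f50.shift 2 3), (rh4d5f031aebbc48bc.shift 0 3)] (by decide +kernel))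
noncomputable def rhaa02287072daf225 : CRef := CRef.mk (Pat.mk 0xa0000001e000000000000000000000000 0x6000000060000000e0000001e0000003f0000003f00000015 9 6) 0 0 (step_sound _ 65 [rh7753eaa55f9d2cc9, (rheb0810cc63b001d8.shift 0 2)] (by decide +kernel))
noncomputable def rhc8c6d5399d7153a1 : CRef := CRef.mk (Pat.mk 0x1c0000001800000000000000000000000000000000 0x8000000080000001c0000007f000000770000003c0000003800000028 9 7) 0 0 (step_sound _ 133 [rh1c50ca694e98612a, (rhf48373e13d2bc128.shift 2 4)] (by decide +kernel))
noncomputable def rha65ec1b9ad5370f1 : CRef := CRef.mk (Pat.mk 0x800000008000000000000000600000006000000000000000000000000 0x800000038000000300000003e0000003f0000007c0000003800000028 9 7) 0 0 (step_sound _ 132 [(rh2aafe128d79bbf48.shift 0 3), (rh80204b337f1f9113.shift 1 3), (rhd11dc6dd83191698.shift 0 3), rhf75c674fcd26bb0e] (by decide +kernel))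
noncomputable def rh1c2acfb865312319 : CRef := CRef.mk (Pat.mk 0x180000003800000000000000000000000000000000 0x8000000080000001e0000003f000000770000003c0000003800000028 9 7) 0 0 (step_sound _ 162 [rh1c50ca694e98612a, (rhb739f4f82bb681b4.shift 1 4)] (by decide +kernel))
noncomputable def rh9e45980b50f55773 : CRef := CRef.mk (Pat.mk 0x180000001e000000000000000000000000 0x1b0000001e000000370000003e0000003e 9 6) 0 0 (step_sound _ 129 [(rh3244c3cc8379b070.shift 0 3), rh8b133dae1f39aaa8] (by decide +kernel))
noncomputable def rh335b17b7570f0876 : CRef := CRef.mk (Pat.mk 0x4000000040000000000000002000000030000000000000000000000000 0x48000001d80000019c000003fe000001fe000003ff0000000800000008 9 10) 0 0 (step_sound _ 99 [(rh0568b7ab013f43a7.shift 0 2), (rh182142b62bccbf23.shift 0 2), (rh8522c6bc3a1a8270.shift 1 2), (rha0a8379952207406.shift 2 0), (rhd7c0a18f92b59752.shift 1 2)] (by decide +kernel))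
noncomputable def rh4fb3122d27624e05 : CRef := CRef.mk (Pat.mk 0x80000000800000018000000000000000000000000000000000000000000000000 0x8000000180000001f000000ff000000fc0000001c0000001c0000001c00000014 9 8) 0 0 (step_sound _ 163 [(rh248a87c7370a10b9.shift 2 2), (rh4e135e28bb1b8e89.shift 0 4), (rh6eff4158bb400f47.shift 2 3), (rh8435f16c73c7f2d9.shift 2 1), (rhafa445209071e29b.shift 2 0), (rhda432e4b2ba2aa89.shift 2 0)] (by decide +kernel))
noncomputable def rh401ff9f125c1d82e : CRef := CRef.mk (Pat.mk 0x100000000000000002000000020000000e000000000000000000000000 0x10000000180000003b000001fe000000ff000001ee0000000400000004 9 9) 0 0 (step_sound _ 66 [(rh08edf065357d68e5.shift 1 0), (rh2d181e99dd1906fd.shift 0 2), (rh79ad7b82ec8c35e2.shift 1 0)] (by decide +kernel))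
noncomputable def rh953f358a8dc2fe17 : CRef := CRef.mk (Pat.mk 0x4000000040000001c00000000000000000000000000000000 0x140000001c0000007f000000fc0000007e0000002c00000024 9 8) 0 0 (step_sound _ 99 [(rh08edf065357d68e5.shift 2 1), rh292bd24c5102e671, (rh79ad7b82ec8c35e2.shift 2 1)] (by decide +kernel))
noncomputable def rh95a64dd07910d906 : CRef := CRef.mk (Pat.mk 0x4000000040000001c00000000000000000000000000000000 0x2000000034000001f4000000ff000001fc000000380000003800000030 9 9) 0 0 (step_sound _ 99 [rh1f624a16a7920ee2, (rh79ad7b82ec8c35e2.shift 2 1), (rhf36b0802c3ca9fa9.shift 0 1)] (by decide +kernel))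
noncomputable def rh5561f2a7a215ea21 : CRef := CRef.mk (Pat.mk 0x800000008000000380000000000000000 0x40000000c000003e8000003fc000001ff00000004 9 10) 0 0 (step_sound _ 35 [(rh157b220518f94713.shift 2 0), rh322e79f034282812, (rhe932349687fdd2a6.shift 2 1)] (by decide +kernel))
noncomputable def rh0159929b232d130b : CRef := CRef.mk (Pat.mk 0x40000000400000000000000020000000e000000000000000000000000000000000 0x40000000c000000080000001ef000000fe000001df000001c0000001c000000100 9 9) 0 0 (step_sound _ 132 [(rh1e62cc755ec1c18b.shift 3 2), (rh6dae75dfb1ef3176.shift 4 0), (rh988dac8d009f9f77.shift 1 3), (rhc33780f73196dd1c.shift 0 3), (rhe6f05702474da38c.shift 0 3)] (by decide +kernel))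
noncomputable def rh263bc49f903e26f6 : CRef := CRef.mk (Pat.mk 0x80000000800000000000000040000001e00000004000000000000000000000000 0x800000018000000100000003c0000001f00000034000000fe0000007e000000ff 9 8) 0 0 (step_sound _ 35 [rh6c655961b2bc0800, rhb0f758679862063c, (rhdd363d948666913b.shift 0 1), (rhff763b75cad9671b.shift 1 0)] (by decide +kernel))
noncomputable def rhc24907c5878e16ec : CRef := CRef.mk (Pat.mk 0x40000000400000000000000000000000f000000020 0x40000000c000000080000001ce000000fe000001b7 9 9) 0 0 (step_sound _ 71 [rh0096df1507d559fc, (rh33e738c4ed385b9f.shift 4 1)] (by decide +kernel))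
noncomputable def rh0f020227edb1f81e : CRef := CRef.mk (Pat.mk 0x8000000080000001800000000000000000000000000000000 0x2000000028000000f8000000fe000000ff000000fc0000003c00000024 9 8) 0 0 (step_sound _ 99 [(rh8cdd36b03d57a2f6.shift 2 1), (rh8dce4397d6075b0b.shift 0 2), (rhb0de455c382c5b1c.shift 0 2), (rhb72c6d3b8f00eaae.shift 2 0), rhd4d6f7c990784ef5] (by decide +kernel))
noncomputable def rhf65caf7d074dc26b : CRef := CRef.mk (Pat.mk 0x1000000038000000000000000000000000 0x770000003e0000007f0000007800000070 9 7) 0 0 (step_sound _ 98 [(rh0d378fd9e8917c5a.shift 0 2), (rh185f35b8bd8ec37f.shift 0 2), (rh312f246eee46ebe0.shift 1 0), (rhedf6b6c69a16cbd5.shift 0 3)] (by decide +kernel))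
noncomputable def rh2e9abe7fa935a1bb : CRef := CRef.mk (Pat.mk 0x80000000800000000000000140000001e0000000000000000000000000000000000000000 0x800000018000000100000001c0000001e000000370000003e0000003f0000003800000028 9 6) 0 0 (step_sound _ 65 [(rh00aa351f3d920c10.shift 0 1), rh6d6bcfcf7d81ee72, (rh79326e87f4f613a5.shift 0 2), (rh7af8a7f581225d5e.shift 0 1), (rhaa8c2c774a6881be.shift 0 1)] (by decide +kernel))
noncomputable def rhf851e74ccbe43c43 : CRef := CRef.mk (Pat.mk 0x80000000800000000000000040000001e00000000 0x80000001800000010000001fc000000fe000001c7 9 9) 0 0 (step_sound _ 68 [(rh33e738c4ed385b9f.shift 1 1), rh77fb94fd731d7f43] (by decide +kernel))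
noncomputable def rh7a6c71c530e4a88e : CRef := CRef.mk (Pat.mk 0x1000000010000000100000001000000000 0x1000000010000003be000001fe000001ef 9 10) 0 0 (step_sound _ 37 [rh52c32b7e58b1ca29, (rh55afc6a59410cf00.shift 4 0)] (by decide +kernel))
noncomputable def rhee59bd96dd11cfcd : CRef := CRef.mk (Pat.mk 0x2000000020000000200000003000000000 0x140000003c0000007c0000006f0000007e0000004f 9 7) 0 0 (step_sound _ 38 [(rh55afc6a59410cf00.shift 5 0), rhade3a9fc8c65e20e] (by decide +kernel))
noncomputable def rh9bc2515d24b635f0 : CRef := CRef.mk (Pat.mk 0x1000000010000000100000007800000000 0x280000007c0000001e0000001e0000007e00000007 9 7) 0 0 (step_sound _ 66 [rh05b50c09533147ee, (rh3f8766e6ecb455ce.shift 2 1)] (by decide +kernel))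
noncomputable def rhd1b9926c5f810489 : CRef := CRef.mk (Pat.mk 0x3000000030000000200000002000000000 0x30000000300000007f000001fe0000005f 9 9) 0 0 (step_sound _ 36 [rh5d72c3b5572771c0, (rh932754581e0f4330.shift 4 0)] (by decide +kernel))
noncomputable def rhd1624e5433ecef3e : CRef := CRef.mk (Pat.mk 0x2000000020000000200000003000000000 0x500000007000000020000001ff000001fe0000004f 9 9) 0 0 (step_sound _ 38 [(rh55afc6a59410cf00.shift 5 0), rh79cc4a49c4dcea1c] (by decide +kernel))
noncomputable def rh6909d7623c0d2018 : CRef := CRef.mk (Pat.mk 0x2000000020000000200000003000000000 0x500000007000000038000000ff0000007e0000004f 9 8) 0 0 (step_sound _ 38 [(rh55afc6a59410cf00.shift 5 0), rh57a5c00391f8f1b1] (by decide +kernel))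
noncomputable def rhe6ccd2195ae00770 : CRef := CRef.mk (Pat.mk 0x800000028000000080000001800000000 0x140000003c00000028000001ff000000fe000000e4 9 9) 0 0 (step_sound _ 34 [(rh932754581e0f4330.shift 2 0), rhd65746d29ca4d4e7] (by decide +kernel))
noncomputable def rh797ddfc9bfb5bfe9 : CRef := CRef.mk (Pat.mk 0x7000000030000000200000002000000000 0x700000003c000000ef0000007e0000005f 9 8) 0 0 (step_sound _ 99 [(rh53b3c253cb0c65f4.shift 2 3), rha6b75009b4c8d098] (by decide +kernel))
noncomputable def rh01935294a40d6bbb : CRef := CRef.mk (Pat.mk 0x7800000054000000100000001000000000 0xc70000007e00000056000000f8000000f0000000a0 9 8) 0 0 (step_sound _ 130 [(rheb0810cc63b001d8.shift 1 3), rhee6727832910a972] (by decide +kernel))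
noncomputable def rh3609840e8705c328 : CRef := CRef.mk (Pat.mk 0xe0000000a000000020000000200000000 0x390000001f0000000a0000007f0000003e00000004 9 7) 0 0 (step_sound _ 128 [(rh50fbb5868c909700.shift 0 1), rhffedd92ad5785517] (by decide +kernel))
noncomputable def rh7e75732b1afaabbc : CRef := CRef.mk (Pat.mk 0x7800000028000000200000002000000000 0xe0000007c000000280000006f0000003e00000017 9 7) 0 0 (step_sound _ 162 [(rh3f8766e6ecb455ce.shift 2 4), rh438467d0217c3fef] (by decide +kernel))
noncomputable def rh251de0d504380267 : CRef := CRef.mk (Pat.mk 0x800000008000000280000000800000000000000000000000000000000 0x80000000f0000007c000000180000001c0000001c0000001c00000010 9 7) 0 0 (step_sound _ 99 [(rh4d92d1ba39d47cac.shift 0 1), rh5825ea3fc986a461, (rh6eff4158bb400f47.shift 2 1), (rhd29a1fb688eae70f.shift 3 2)] (by decide +kernel))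
noncomputable def rh675616cafd086768 : CRef := CRef.mk (Pat.mk 0x2800000008000000080000000800000000000000000000000000000000 0x10000000780000000f0000001c000000180000001c0000001c0000001c00000014 9 7) 0 0 (step_sound _ 228 [(rh2f68792b6b779e96.shift 3 4), rhb65d374da893649d] (by decide +kernel))
noncomputable def rh6bc51fbcba561fae : CRef := CRef.mk (Pat.mk 0x20000000a0000000a00000002000000060000000000000000 0xc0000001e0000000b0000001b0000001a0000001f0000001300000001 9 5) 0 0 (step_sound _ 32 [(rh79877ebd3ef475dd.shift 0 1), rhe2c6d6e9a6a0545e] (by decide +kernel))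
noncomputable def rha0c76373b75db985 : CRef := CRef.mk (Pat.mk 0x20000000a0000000a00000002000000000000000000000000 0x10000000180000001a0000000b0000001f0000007e0000001f0000001700000011 9 7) 0 0 (step_sound _ 66 [rh6fe14436bf182bfc, (rhd3458b32566d63f7.shift 1 2)] (by decide +kernel))
noncomputable def rhd9ebbd4aeed2cd48 : CRef := CRef.mk (Pat.mk 0x20000000a0000000a00000002000000020000000000000000 0xc0000001e0000000b0000001f0000001a000000130000001300000001 9 5) 0 0 (step_sound _ 32 [(rh79877ebd3ef475dd.shift 0 1), rhc9eba88465801533] (by decide +kernel))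
noncomputable def rh96b62f254f787428 : CRef := CRef.mk (Pat.mk 0x20000000a0000000a00000002000000020000000000000000 0xc0000001e0000000b0000001f0000001a000000160000001600000004 9 5) 0 0 (step_sound _ 34 [rhcfdd8a313729ff44, (rhd3458b32566d63f7.shift 1 1)] (by decide +kernel))
noncomputable def rha2629d51c48bdba5 : CRef := CRef.mk (Pat.mk 0x20000000a0000000a000000020000000000000000 0x140000001c0000001e0000000a0000001f0000007e0000001e00000014 9 7) 0 0 (step_sound _ 34 [(rhd3458b32566d63f7.shift 1 1), rhffe9a540292db46f] (by decide +kernel))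
noncomputable def rh5244c94539524daf : CRef := CRef.mk (Pat.mk 0x280000002800000008000000080000000000000000 0x500000007000000070000000380000002f0000007c000001fc0000007800000050 9 9) 0 0 (step_sound _ 101 [(rh25a3c5d74d9bc3fa.shift 3 0), (rh423e64b91cf4a654.shift 2 0), rh5db26f6f12bd6d22, (rhe6fa192f79d3524d.shift 3 1), (rhfa4888791cee9f3a.shift 2 2)] (by decide +kernel))
noncomputable def rh10f0beb4f9d69f7f : CRef := CRef.mk (Pat.mk 0x280000002800000008000000080000000000000000 0x4000000060000000780000002f0000007e000000fe000000f800000050 9 8) 0 0 (step_sound _ 101 [(rh06f1c17b7aa8d8de.shift 2 0), rh5db26f6f12bd6d22, (rh86c5959807151eba.shift 2 0), (rha1575ac87dd4bf60.shift 1 1), (rha577da2f3ca7d83b.shift 3 0), (rhd27c8fcc2b2e465e.shift 1 1)] (by decide +kernel))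
noncomputable def rhafe49adea3493130 : CRef := CRef.mk (Pat.mk 0x2800000008000000080000000800000000000000000000000000000000 0x10000000780000000f0000001c0000001c000000180000001c0000001c00000014 9 7) 0 0 (step_sound _ 99 [rh31397b5a8a9b68b1, (rh6e0a5d61d19f6b7d.shift 2 0), (rhd29a1fb688eae70f.shift 3 2), (rhe84e00c98653ad0c.shift 2 0)] (by decide +kernel))
noncomputable def rh211c85f21f455842 : CRef := CRef.mk (Pat.mk 0x140000001400000004000000040000000000000000 0x2800000038000000380000003c000000140000003e000000ff0000003c00000008 9 8) 0 0 (step_sound _ 100 [(rh423e64b91cf4a654.shift 1 0), (rha577da2f3ca7d83b.shift 2 0), (rhb20d3951e6be7214.shift 2 1), (rhd27c8fcc2b2e465e.shift 0 1), (rhe6fa192f79d3524d.shift 2 1)] (by decide +kernel))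
noncomputable def rhaa5add4b8c4ed3ce : CRef := CRef.mk (Pat.mk 0x2000000020000000a0000000200000000000000000 0x400000006400000024000000f70000007e0000001f00000008 9 8) 0 0 (step_sound _ 68 [rh84db5d54655a9592, (rh932754581e0f4330.shift 4 1)] (by decide +kernel))
noncomputable def rh5480efb329e91652 : CRef := CRef.mk (Pat.mk 0x20000000a0000000a0000000300000000000000000 0x140000001c0000001e0000000b0000001bf000001fe0000018e00000100 9 9) 0 0 (step_sound _ 71 [(rh04f36b18797890ec.shift 4 1), (rh66a190e6d68ff540.shift 4 0), (rh6a8fbe22e34a927e.shift 3 2), (rhb6836417b21c61a4.shift 0 1)] (by decide +kernel))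
noncomputable def rh42e0a1220cc4d2a1 : CRef := CRef.mk (Pat.mk 0x1c00000058000000100000001c00000000 0xe0000000ff00000058000000f8000000fc00000084 9 8) 0 0 (step_sound _ 129 [(rhb739f4f82bb681b4.shift 0 3), (rhc59679e4e6b24087.shift 2 0)] (by decide +kernel))
noncomputable def rh85ed6eefeec1730a : CRef := CRef.mk (Pat.mk 0x800000008000000480000000800000000 0x40000000c0000000e0000007f0000001f00000017 9 7) 0 0 (step_sound _ 34 [(rh932754581e0f4330.shift 2 0), rhab2ecaa89ab08986] (by decide +kernel))
noncomputable def rhc709c405831dbd7b : CRef := CRef.mk (Pat.mk 0x200000000000000060000001700000004000000000000000000000000 0x20000000380000003e000000380000003e000000170000003e000000f80000002000000020 9 8) 0 0 (step_sound _ 164 [(rh361cc68994bd8a63.shift 0 4), rh900ff5afbaf3c7b8] (by decide +kernel))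
noncomputable def rh492f4e30984a2908 : CRef := CRef.mk (Pat.mk 0x180000005800000010 0x2c0000002c000000ef000000ff0000005f00000050 9 8) 0 0 (step_sound _ 131 [(rh6f1cbe15c631ee70.shift 3 0), rhe342cd6d6dd2dc22] (by decide +kernel))
noncomputable def rh5ec328dca2c5c511 : CRef := CRef.mk (Pat.mk 0x8400000020000000300000000000000000 0x840000008c000007ff000003fe0000038f00000008 9 11) 0 0 (step_sound _ 67 [(rh3e0b38310ac09007.shift 0 2), (rha4e887c2a2a0f60b.shift 0 1), (rhb212a8e0e6794e3c.shift 2 1), rhe6e9edbf4be5494a, (rhff7d63dcb3cf9f74.shift 2 2)] (by decide +kernel))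
noncomputable def rh25f5b5da397ccc7f : CRef := CRef.mk (Pat.mk 0x84000000200000003000000000 0xa0000000e0000008e0000008c000007ff000003fe0000038f 9 11) 0 0 (step_sound _ 35 [(rh3e0b38310ac09007.shift 0 1), rh77c0a217cac7c101, rha4e887c2a2a0f60b, (rhb212a8e0e6794e3c.shift 2 0), (rhff7d63dcb3cf9f74.shift 2 1)] (by decide +kernel))
noncomputable def rh4a179318d09c91a0 : CRef := CRef.mk (Pat.mk 0x3000000024000000200000000000000000 0xc0000000c000000ce0000007c0000002f0000002e0000002e00000006 9 8) 0 0 (step_sound _ 131 [(rh3cc5c7fb74c49f61.shift 0 3), (rh5543c6cc51357226.shift 2 1), (rh73f5f7cdf41b5bc9.shift 1 2), (rhd4a736842dec618f.shift 1 0)] (by decide +kernel))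
noncomputable def rh3ac43251ad785673 : CRef := CRef.mk (Pat.mk 0x38000000240000002000000000000000000000000000000000 0x180000003c000000260000007e0000007e0000003f0000001e0000000a 9 7) 0 0 (step_sound _ 98 [(rh132e8b4115802db3.shift 1 2), (rh1683ac9a8961d536.shift 1 0), (rh55fe3182bebc491c.shift 1 2), (rh6aa0009fd8cb10a9.shift 1 1), (rhb38c8bb3d8951b09.shift 0 2), (rhd06c0cb1e0ae426f.shift 1 2)] (by decide +kernel))
noncomputable def rhd06fc11918f03bf1 : CRef := CRef.mk (Pat.mk 0x3000000004000000000000000000000000 0xc0000000c000001de000000fc0000000f0000000e0000000e00000006 9 9) 0 0 (step_sound _ 131 [(rh3cc5c7fb74c49f61.shift 0 3), (rh73f5f7cdf41b5bc9.shift 1 2), (rhc277914c2ed71bf6.shift 1 3), (rhc2f5cb19e51fa5d5.shift 2 3), (rhd4a736842dec618f.shift 1 0)] (by decide +kernel))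
noncomputable def rhb14e1a3db5dc0ff8 : CRef := CRef.mk (Pat.mk 0x3c00000010000000100000000000000000 0x40000007c0000001e0000007c0000001f0000001c 9 7) 0 0 (step_sound _ 98 [rh42e0b09f6489cf28, (rheb0810cc63b001d8.shift 1 3)] (by decide +kernel))
noncomputable def rhf9394435dd534326 : CRef := CRef.mk (Pat.mk 0x8000000000000001800000058000000180000000000000000 0x80000000e0000000f8000000e0000000f80000005f000000f8000000c000000080 9 8) 0 0 (step_sound _ 98 [(rh34517e326ddb5b25.shift 0 2), (rhcf86d050071af9b3.shift 1 2), (rhf56e6bc5d2f7fe77.shift 0 2), (rhfb03c8295033c7e6.shift 2 0)] (by decide +kernel))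
noncomputable def rhc3fc78185a3c98da : CRef := CRef.mk (Pat.mk 0x3800000024000000200000002000000000 0x70000003e00000026000000740000003e00000017 9 7) 0 0 (step_sound _ 130 [(rheb0810cc63b001d8.shift 1 3), rhf3e24e4acbe5e0ec] (by decide +kernel))
noncomputable def rh1da55f2686e6333f : CRef := CRef.mk (Pat.mk 0xe00000008000000080000000000000000 0x170000001e0000000b0000001f0000000f00000005 9 5) 0 0 (step_sound _ 35 [(rh50fbb5868c909700.shift 2 1), rh9963bb4b5ca5dd09] (by decide +kernel))
noncomputable def rhd0f786275177478b : CRef := CRef.mk (Pat.mk 0x100000003000000008000000080000002800000008 0x28000000f8000000fc000000fc00000030000000340000002f0000007c0000002800000008 9 8) 0 0 (step_sound _ 196 [rh51b7efd198d89261, (rh61dfe63d3a56496f.shift 2 4), (rh66845b7b577256ef.shift 4 1)] (by decide +kernel))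
noncomputable def rh5d6a3513a46fb902 : CRef := CRef.mk (Pat.mk 0x6000000010000000500000005 0x100000003800000038000000ff0000007f000000f90000001f00000015 9 8) 0 0 (step_sound _ 99 [rh17ae452972785d06, rh440bcca3b237d2d2, rh4525851cb6ba592a, rh49a2b9abcd32fefb, rhb2bb391ea59f1a58] (by decide +kernel))
noncomputable def rh222b2fde14f365f0 : CRef := CRef.mk (Pat.mk 0xc000000020000000a0000000a000000020000000400000000 0x280000003800000038000000f80000003e000000fa0000003e0000000a0000000b0000000d00000004 9 8) 0 0 (step_sound _ 64 [(rh8b17b2181f7115bc.shift 1 0), (rh932754581e0f4330.shift 0 1)] (by decide +kernel))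
noncomputable def rh45169a36ad8e4ea6 : CRef := CRef.mk (Pat.mk 0x18000000070000000400000014000000040000000000000000 0x500000007000000070000001e0000000fc000001f70000007e000000140000003e0000003200000020 9 9) 0 0 (step_sound _ 197 [rh6a7a5199f681af34, (rhca9569cc80abfe76.shift 1 5)] (by decide +kernel))
noncomputable def rh9bb813363f1e279e : CRef := CRef.mk (Pat.mk 0x300000000800000008000000280000000800000000 0x50000000740000006f0000007c000000280000007c00000074 9 7) 0 0 (step_sound _ 130 [rh3e53307e5b4df530, (rh50fbb5868c909700.shift 2 1)] (by decide +kernel))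
noncomputable def rh87bf9865c9659a06 : CRef := CRef.mk (Pat.mk 0xc0000002000000020000000000000001800000000000000000000000000000000 0x50000000780000006c0000002000000020000003e7000001fe000003ff000000e0000000e0000000a0 9 10) 0 0 (step_sound _ 133 [(rh2a0978bba1598d2f.shift 2 0), (rh392d7678b3ef63ac.shift 0 3), (rh6668c88653940ad5.shift 1 3), (rh900144b0f9adb2af.shift 0 3), (rhdc6ecbaaaf37a6e5.shift 0 3), (rhf03c2f52813be111.shift 2 3)] (by decide +kernel))
noncomputable def rhd0384d75c2950ef5 : CRef := CRef.mk (Pat.mk 0x1000000010000000100000000000000000000000000000000000000000 0x1800000038000000ff000000fe0000003f000000380000003000000020 9 8) 0 0 (step_sound _ 132 [(rh21574c04c88fbf88.shift 0 3), (rh43000f16a4e76173.shift 3 1), (rh7a62c4b2780c02e6.shift 3 0), (rh8cdd36b03d57a2f6.shift 3 2), (rhecb5030495b54322.shift 3 0)] (by decide +kernel))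
noncomputable def rh2bd6ef0e1cc4560c : CRef := CRef.mk (Pat.mk 0x40000000400000004000000000000000800000000 0xa0000003e0000003f0000003f0000000c0000000c000000080000000800000008 9 6) 0 0 (step_sound _ 99 [(rh3b5346b2e316d790.shift 2 0), (rh61dfe63d3a56496f.shift 0 3), (rh9d021f793ef14721.shift 2 0)] (by decide +kernel))
noncomputable def rhaf590f08e0a88692 : CRef := CRef.mk (Pat.mk 0x200000002000000020000000000000001800000000000000000000000000000000 0x200000002000000020000003e7000001fe000003ff000000e0000000e0000000a0 9 10) 0 0 (step_sound _ 133 [(rh072ce4b569e16e7a.shift 4 3), (rh2a0978bba1598d2f.shift 2 0), (rh392d7678b3ef63ac.shift 0 3), (rh6668c88653940ad5.shift 1 3), (rh900144b0f9adb2af.shift 0 3), (rhdc6ecbaaaf37a6e5.shift 0 3)] (by decide +kernel))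
noncomputable def rha2ce6ccb6b9ffcb3 : CRef := CRef.mk (Pat.mk 0x100000000e00000020000000000000003800000000 0x170000003e00000023000000670000003e00000070 9 7) 0 0 (step_sound _ 69 [rh1b783eb773eac7fb, (rhb55a4883166134e9.shift 4 0), rhfd01510815188b45] (by decide +kernel))
noncomputable def rh746ec45db8c0aae7 : CRef := CRef.mk (Pat.mk 0x3000000020000000a000000000 0x1000000010000007bf000003fe000001ff000000ac0000008c 9 11) 0 0 (step_sound _ 132 [(rha3df16ea9c8576c8.shift 4 1), (rhc89253ff58c66167.shift 4 1), (rhe072fffdd2fccf38.shift 4 1), rhf1637021ea74c40a] (by decide +kernel))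
noncomputable def rhab657cabf48b2883 : CRef := CRef.mk (Pat.mk 0x6000000140000000400000000000000000 0x180000001f000003fe000001ff0000005c0000005800000048 9 10) 0 0 (step_sound _ 132 [rh0e54e943bd9c5ed0, (rhc92c11e8da6c894f.shift 1 3), (rhe28dc3223a412fc9.shift 4 3)] (by decide +kernel))
noncomputable def rh8680f6240be827cc : CRef := CRef.mk (Pat.mk 0x1e00000000000000000000000000000000 0x300000003000000070000001e0000003f000000070000000700000002 9 6) 0 0 (step_sound _ 97 [rh84f9486e6ec18576, (rheb0810cc63b001d8.shift 0 3)] (by decide +kernel))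
noncomputable def rhace6a1d2d86aeb2a : CRef := CRef.mk (Pat.mk 0x28000000280000002800000000000000000000000000000000 0x280000002800000028000001ff000000fe000001ff00000004 9 9) 0 0 (step_sound _ 68 [rh8c0c3a41ec9a31a9, (rhd3d019a85ab3f7d5.shift 3 2), (rhebbfc1325fb53d6f.shift 4 1), (rhff763b75cad9671b.shift 2 1)] (by decide +kernel))
noncomputable def rhfbd5ce00a7de0ac6 : CRef := CRef.mk (Pat.mk 0x40000000e000000000000000800000008 0x7000000070000000ff0000007e000000f00000003800000008 9 8) 0 0 (step_sound _ 100 [(rh1fbc9fee05401eba.shift 1 0), (rh6965b3e0a1a7e0a4.shift 2 1), (rhe3060b190bc0bc78.shift 0 3), (rhf5fa5e48e0784de2.shift 1 2)] (by decide +kernel))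
noncomputable def rh79817c4c1b8c61ac : CRef := CRef.mk (Pat.mk 0x4000000020000000a00000002 0x10000000700000007000000720000003e00000077 9 7) 0 0 (step_sound _ 97 [(rh2f68792b6b779e96.shift 1 0), rh9e7dd783abb26a40] (by decide +kernel))
noncomputable def rh9be3086ce756a8af : CRef := CRef.mk (Pat.mk 0x10000000100000001000000010 0x80000003800000038000000380000001f0000007c0000003800000010 9 7) 0 0 (step_sound _ 132 [(rh3ca48e2a6d60153d.shift 3 0), (rha5695dd6c76db17e.shift 0 1), (rhc85cc95794737cf7.shift 3 1), (rhe01cfd8f0577defd.shift 3 1)] (by decide +kernel))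
noncomputable def rhbc5a793176a74725 : CRef := CRef.mk (Pat.mk 0x8000000080000000800000008 0x140000001c0000001c00000008000003ff000001fe000003df 9 10) 0 0 (step_sound _ 131 [(rh1741680720c097b4.shift 2 1), rh1db35a40d847f096, (rh20966da26a1c2ae8.shift 2 0), (rh771d065bdc85bf2d.shift 2 0)] (by decide +kernel))
noncomputable def rh0606b79ffeaa2a7a : CRef := CRef.mk (Pat.mk 0xe0000000200000002000000000 0x1000000010000000180000001e000000fe000001ff0000002c0000000c 9 9) 0 0 (step_sound _ 100 [(rh14868310222b4e34.shift 1 0), (rh41140eaa67c26838.shift 2 2), (rh708c3bc8fe2f3084.shift 1 2), (rhd1ff8027c4c86c76.shift 1 2), (rhe4f9133a81c1dbc5.shift 3 1), (rhe52307a01c64ddb7.shift 0 2)] (by decide +kernel))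
noncomputable def rhd3b361bb28827283 : CRef := CRef.mk (Pat.mk 0x10000001c00000010000000000000000000000000 0x80000003800000038000000380000003b0000001e00000010000000380000003800000028 9 6) 0 0 (step_sound _ 129 [(rh3f8766e6ecb455ce.shift 0 4), (rhdabe48cffde4ecfc.shift 1 0)] (by decide +kernel))
noncomputable def rh37c261e87219cb09 : CRef := CRef.mk (Pat.mk 0x200000002000000004000000300000001800000000 0xc0000000c0000007e0000007e00000017000000360000001e0000000c 9 7) 0 0 (step_sound _ 132 [(rh04253f50b6dd0619.shift 4 1), rh99066e8ee5738879] (by decide +kernel))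
noncomputable def rha25cd7f721d3472b : CRef := CRef.mk (Pat.mk 0x1800000002000000380000002c00000000000000000000000000000000 0x40000007e000001f30000003a0000002f00000074000000700000007000000050 9 9) 0 0 (step_sound _ 129 [rh24fd22363d47dca9, (rh53b3c253cb0c65f4.shift 0 4)] (by decide +kernel))
noncomputable def rhfaaf7932c2d2926b : CRef := CRef.mk (Pat.mk 0x1000000002000000280000002e000000000000000000000000 0x40000001ff000000fe000001eb0000002a0000002e000000760000007400000054 9 9) 0 0 (step_sound _ 195 [(rh856116d2c601fcb3.shift 1 0), (rhcddd2712883fd9b7.shift 2 2), rhe246de0844c484e0] (by decide +kernel))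
noncomputable def rh8412121993ed6f13 : CRef := CRef.mk (Pat.mk 0x8000000000000001c00000014 0x1ff000000fe000000fc0000001c00000014 9 9) 0 0 (step_sound _ 131 [(rh3c88ce959c0e423f.shift 2 0), rhdd27dd6371a9f7e4] (by decide +kernel))
noncomputable def rh518aed9096110a04 : CRef := CRef.mk (Pat.mk 0x40000001e00000000 0x200000003800000038000000380000003f0000001e00000030 9 6) 0 0 (step_sound _ 65 [(rh3244c3cc8379b070.shift 0 1), (rhfea0fc5dd0061968.shift 1 0)] (by decide +kernel))
noncomputable def rh83cbd0a54859d045 : CRef := CRef.mk (Pat.mk 0x8000000010000001c00000016000000000000000000000000000000000 0x2800000228000003f8000003fe000001df0000017800000398000003980000038800000280 9 10) 0 0 (step_sound _ 132 [(rh53b3c253cb0c65f4.shift 3 4), rh8c7de65d40e5cff0] (by decide +kernel))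
noncomputable def rh6eed03288a212aed : CRef := CRef.mk (Pat.mk 0x10000000c000000060000000000000000000000000 0x2800000038000000780000007e000000df000000780000003c0000003800000028 9 8) 0 0 (step_sound _ 100 [(rh53b3c253cb0c65f4.shift 3 3), rhfc0a5aa9dcf2274c] (by decide +kernel))
noncomputable def rhb588ae74c103bc89 : CRef := CRef.mk (Pat.mk 0x200000002000000060000000b000000000000000000000000 0x1d0000001f0000007e0000001e0000000b0000001c0000001c00000014 9 7) 0 0 (step_sound _ 194 [(rh2f68792b6b779e96.shift 1 3), rhb8f980b9bc09d0c3] (by decide +kernel))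
noncomputable def rh51264a00f818ae83 : CRef := CRef.mk (Pat.mk 0x2000000380000002c000000000000000000000000 0x50000001700000057000000fe0000003a0000002f000000270000002700000005 9 8) 0 0 (step_sound _ 97 [(rh53b3c253cb0c65f4.shift 0 3), rhb8399cc923e59944] (by decide +kernel))
noncomputable def rh628f1b4d3c6ff60f : CRef := CRef.mk (Pat.mk 0x20000003a0000002a0000000200000000 0x1000000170000001f000000360000003a0000002a0000002300000021 9 6) 0 0 (step_sound _ 32 [rh932754581e0f4330, rhd3c68f6c4a864a2b] (by decide +kernel))
noncomputable def rh65a93ee90d12d7f5 : CRef := CRef.mk (Pat.mk 0x2000000180000000c000000000000000000000000 0x4000000f4000000ff000000ff0000001a0000000f000000060000000400000004 9 8) 0 0 (step_sound _ 163 [rh0abb1b51d7bfc180, (rh2cdb07717aa1e3e7.shift 0 2), (rh7e999be08f7321fe.shift 0 2), (rh94bfc7b0597a1632.shift 0 3), (rh9ff0bceb6239a573.shift 0 2), (rhcca991c8287f0498.shift 1 2)] (by decide +kernel))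
noncomputable def rh38c4c99863e43fe5 : CRef := CRef.mk (Pat.mk 0x20000001800000028000000000000000000000000 0x54000000f4000000ff0000007f0000002b000000270000002700000005 9 8) 0 0 (step_sound _ 162 [(rh3e55a5642f206aaa.shift 0 4), (rh83ec37ff6e78b01f.shift 0 4), (rhb17fe90e1de9c130.shift 0 2), rhd32c32a772ffb18a, (rhe0c93a5b6f773f75.shift 1 1)] (by decide +kernel))
noncomputable def rh0b268ac557ac499f : CRef := CRef.mk (Pat.mk 0xc000000600000002000000000 0x5000000078000000780000007c0000007f0000006c0000003c00000014 9 7) 0 0 (step_sound _ 101 [(rhc10214bf3fe8094a.shift 2 2), rhd67e88e7fe653665] (by decide +kernel))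
noncomputable def rh783001b007e59d41 : CRef := CRef.mk (Pat.mk 0x400000030000000500000000000000000 0xa0000008e0000008e000001df000000fc0000005e0000004800000040 9 9) 0 0 (step_sound _ 99 [(rh40811da85268475d.shift 0 3), (rh4df35fbc131eb4ae.shift 0 3), (rhc91286365cb10619.shift 1 1), (rhdbcc872b2f0a9d52.shift 2 0)] (by decide +kernel))
noncomputable def rh6212475b91b9fe06 : CRef := CRef.mk (Pat.mk 0x2000000380000002000000000000000000000000000000000 0x10000000700000007000000070000001f30000003e0000002000000070000000700000007000000050 9 9) 0 0 (step_sound _ 197 [(rh074c8d12f5550a62.shift 0 5), (rh2900058440e8ae56.shift 3 1), (rh4d130210d7523874.shift 1 0), (rhc24f8d367658c081.shift 2 1)] (by decide +kernel))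
noncomputable def rhc4f76dfcf3380bb0 : CRef := CRef.mk (Pat.mk 0x40000003c00000014000000000000000000000000 0x2c0000002c0000006c0000003f0000001c0000000f0000000e00000006 9 7) 0 0 (step_sound _ 165 [(rh33e738c4ed385b9f.shift 2 4), rh7dba94687c0913d0] (by decide +kernel))
noncomputable def rhc0d3be1c9d5ae399 : CRef := CRef.mk (Pat.mk 0xc0000001000000010000000000000000000000000 0x2c0000007c000000ff0000007c0000001f0000000f0000000c00000008 9 8) 0 0 (step_sound _ 131 [rh0358a0971668addd, (rhb0121edee88fe839.shift 0 4), (rhb220b02469f067dd.shift 2 3), (rhfcae9c72d230969d.shift 0 2)] (by decide +kernel))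
noncomputable def rh0562623ff99267e1 : CRef := CRef.mk (Pat.mk 0x30000000f0000000400000000000000000 0x30000000f00000007f0000003e0000003f 9 8) 0 0 (step_sound _ 68 [rh715a74713cf8614d, (rheb0810cc63b001d8.shift 3 2)] (by decide +kernel))
noncomputable def rh15f8b4ce61bf907a : CRef := CRef.mk (Pat.mk 0x80000000c000000180000001800000000000000000000000000000000 0x80000000c0000001f0000001f00000007000000070000000700000005 9 5) 0 0 (step_sound _ 130 [(rh932754581e0f4330.shift 2 3), rhf50f239e2104efd0] (by decide +kernel))
noncomputable def rh21e301dcb79e36c9 : CRef := CRef.mk (Pat.mk 0x100000001c000000300000002000000000 0x20000000a0000000f0000007f0000007c000000360000003e0000001c 9 7) 0 0 (step_sound _ 131 [(rh86c3f9e6585921a3.shift 1 0), (rh9fbd2c8ad518b547.shift 0 1), (rhfc7c29d8e65d775f.shift 3 1)] (by decide +kernel))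
noncomputable def rhd2a93a49579a4f56 : CRef := CRef.mk (Pat.mk 0x1e00000000000000000000000000000000 0x4000000070000000700000003000000070000001e00000007000000070000000700000001 9 5) 0 0 (step_sound _ 161 [(rh3244c3cc8379b070.shift 0 4), rhdb98ef2821c37c39] (by decide +kernel))
noncomputable def rhd075e3c6627e2d89 : CRef := CRef.mk (Pat.mk 0x380000000000000000 0xa0000000e0000000e0000007f0000003e0000000f00000004 9 7) 0 0 (step_sound _ 66 [(rh4c622fddc53a5f99.shift 0 2), (rh592c7139d2c44767.shift 0 1), (rh6370dd1ee84dad11.shift 1 0), (rh7654d7b92c96fe12.shift 0 1)] (by decide +kernel))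
noncomputable def rh7c4251a5fccff183 : CRef := CRef.mk (Pat.mk 0x1e000000000 0x1cf000001fe000000ff 9 9) 0 0 (step_sound _ 36 [(rh15b856e33c69f807.shift 1 0), rhde1f0c0d7fc93739, (rheae1728ff4a56756.shift 3 0)] (by decide +kernel))
noncomputable def rh3431074a83f74769 : CRef := CRef.mk (Pat.mk 0x100000001e0000001800000010000000000000000000000000 0x170000001e0000001f0000001f0000000f0000000700000005 9 5) 0 0 (step_sound _ 99 [(rh932754581e0f4330.shift 3 2), rhaa269e5c03281f1a] (by decide +kernel))
noncomputable def rh3204d64d1fcafec9 : CRef := CRef.mk (Pat.mk 0xe000000180000001000000000 0x40000000c000000ef000000fe0000001f0000001b0000000b 9 8) 0 0 (step_sound _ 131 [(rh2145e1d24b96a57e.shift 3 1), rhbf1ae7ece9f8a82e] (by decide +kernel))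
noncomputable def rh6494d89a3e274471 : CRef := CRef.mk (Pat.mk 0x80000001c0000001000000000000000000000000000000000 0xc0000000c0000001c0000001c0000001f0000000f0000001c0000001c00000014 9 5) 0 0 (step_sound _ 227 [(rh2145e1d24b96a57e.shift 3 4), rhce42d16f4e1378fc] (by decide +kernel))
noncomputable def rhd17694c142f94d67 : CRef := CRef.mk (Pat.mk 0x10000000380000006000000010 0x1c0000003c0000000f0000039c000003f80000007c00000010 9 10) 0 0 (step_sound _ 70 [rh045c067aa1674a39, (rh546551bfa61a8651.shift 3 1), (rh9115c4bb33f193b6.shift 2 1)] (by decide +kernel))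
noncomputable def rhfc47cdc6977d6801 : CRef := CRef.mk (Pat.mk 0xc00000018000000100000000000000000 0x20000000a000000ef000000ff0000001f000000170000000600000002 9 8) 0 0 (step_sound _ 129 [rh1c972fde5c668e7b, (rhb739f4f82bb681b4.shift 0 3)] (by decide +kernel))
noncomputable def rh1749062f81ee538e : CRef := CRef.mk (Pat.mk 0x200000002800000020000000a000000000 0x397000001fe000001ef000000a0000000b000000010 9 10) 0 0 (step_sound _ 4 [(rh62b8d838eedf7883.shift 0 1), (rh79877ebd3ef475dd.shift 4 0)] (by decide +kernel))
noncomputable def rh545acab9cff5529e : CRef := CRef.mk (Pat.mk 0xc0000001000000010000000000000000000000000 0x38000000780000007f0000007c0000001e0000000c0000000c0000000c 9 7) 0 0 (step_sound _ 131 [rh2e27c869e42fe209, (rh4ca5dae25f5c14ff.shift 0 4), (rhd1df61ef3d0778c7.shift 1 2), (rhdeca8db941583de2.shift 0 4)] (by decide +kernel))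
noncomputable def rh0864d3c0f4f8234e : CRef := CRef.mk (Pat.mk 0xc0000001000000010000000000000000000000000 0x180000007c0000001f000000780000001e0000000c0000000c0000000c 9 7) 0 0 (step_sound _ 131 [(rh14a19bb675b34f77.shift 1 0), rh22476bf79ebdea3a, (rh4ca5dae25f5c14ff.shift 0 4), rhad16872f2d996238] (by decide +kernel))
noncomputable def rhcbff0bcd73a76838 : CRef := CRef.mk (Pat.mk 0xc0000001800000010000000000000000000000000 0x180000001c0000001c0000001f0000001f0000000f0000000e0000000c 9 5) 0 0 (step_sound _ 195 [(rh2145e1d24b96a57e.shift 3 3), rh562d97bc9e96843d] (by decide +kernel))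
noncomputable def rhe14fe1d08149e4e0 : CRef := CRef.mk (Pat.mk 0x80000000c0000001800000010000000000000000000000000 0x100000001c0000000f0000001f0000001f0000000f0000000e0000000c 9 5) 0 0 (step_sound _ 161 [(rhb739f4f82bb681b4.shift 0 4), rhdbb0a6241119420c] (by decide +kernel))
noncomputable def rh300241cc982be7ea : CRef := CRef.mk (Pat.mk 0x80000000c0000001800000010000000000000000000000000 0x100000001c0000000c0000007f0000001f0000000f0000000e0000000c 9 7) 0 0 (step_sound _ 133 [rhb46d473d71af96f0, (rhf48373e13d2bc128.shift 2 4)] (by decide +kernel))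
noncomputable def rhdd9b22441478f4a3 : CRef := CRef.mk (Pat.mk 0x2000000380000002000000000000000000000000000000000 0x10000000700000007000000070000001f30000003e0000002000000070000000700000007000000050 9 9) 0 0 (step_sound _ 197 [(rh074c8d12f5550a62.shift 0 5), (rh50c124f5b0ef979f.shift 3 0), (rhc24f8d367658c081.shift 2 1), (rhfd51391f24c73af2.shift 1 1)] (by decide +kernel))
noncomputable def rh231ed365e08dbb25 : CRef := CRef.mk (Pat.mk 0x38000000c00000004000000000 0x2000000024000000770000003e000000df0000007800000018 9 8) 0 0 (step_sound _ 98 [(rh592c7139d2c44767.shift 0 2), (rh61325f73ebf98108.shift 0 3), (rh9e97bba44c1b13e4.shift 0 2), (rhf9fb0407d2623645.shift 1 0)] (by decide +kernel))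
noncomputable def rh9eb9b1409e31188d : CRef := CRef.mk (Pat.mk 0x18000000080000000800000000 0x140000001f0000001f0000001f0000000e0000000c00000004 9 5) 0 0 (step_sound _ 131 [(rh1741680720c097b4.shift 2 1), rh20355ff53d86955b, (rh3b734c5288922837.shift 2 0), (rh771d065bdc85bf2d.shift 2 0)] (by decide +kernel))
noncomputable def rh77d258c941bee152 : CRef := CRef.mk (Pat.mk 0x10000000c000000070000000000000000000000000 0x2800000038000000780000007e000003df000000700000003c0000003800000028 9 10) 0 0 (step_sound _ 136 [(rh18965a982d73c794.shift 5 3), rhfc0a5aa9dcf2274c] (by decide +kernel))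
noncomputable def rhc4f08050044d1852 : CRef := CRef.mk (Pat.mk 0x200000000c0000004000000044000000000000000000000000 0x8000000a8000000fc000000cf0000004400000044000000e4000000e0000000a0 9 8) 0 0 (step_sound _ 195 [(rh00d6a6e3c7e3bb40.shift 2 2), (rh1b1ee78933ae1fc2.shift 2 0), (rhe33d9496e10d8eb0.shift 0 5)] (by decide +kernel))
noncomputable def rhdadd9e1d3cf6f25d : CRef := CRef.mk (Pat.mk 0x2000000180000002c0000000000000000 0x1000000018000000180000007c000000ff000000780000002c0000002400000020 9 8) 0 0 (step_sound _ 101 [(rh18965a982d73c794.shift 2 2), rhfac9a2e26c0cda21] (by decide +kernel))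
noncomputable def rhcb093b1b3e02fce0 : CRef := CRef.mk (Pat.mk 0x2000000380000000c00000000 0x180000001c000000ff000000ff000000380000000c00000004 9 8) 0 0 (step_sound _ 99 [(rh075211c3608a5a57.shift 0 2), (rh3afdcdf137303c16.shift 0 1), rh7e999be08f7321fe, rh9ff0bceb6239a573, rhbde95eadf1e18d44] (by decide +kernel))
noncomputable def rh8c1787aee29394ff : CRef := CRef.mk (Pat.mk 0x2000000180000000e000000000000000000000000 0x180000001c000000ff000000ff0000001a0000000e000000060000000400000004 9 8) 0 0 (step_sound _ 163 [(rh1b8205aeab53059f.shift 1 0), (rh3afdcdf137303c16.shift 0 3), (rh7e999be08f7321fe.shift 0 2), (rh9ff0bceb6239a573.shift 0 2), (rhaa4937157f620ec5.shift 0 2)] (by decide +kernel))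
noncomputable def rh087b112fa6d87e62 : CRef := CRef.mk (Pat.mk 0x1000000002000000180000000c00000000 0x50000003f0000001f0000001b0000001a0000000f00000004 9 6) 0 0 (step_sound _ 164 [rh03417aa6cf85f7e8, (rh3c88ce959c0e423f.shift 3 1)] (by decide +kernel))
noncomputable def rh5e9da6b9b42b9d15 : CRef := CRef.mk (Pat.mk 0xc000000000000001c00000016000000000000000000000000 0x280000003800000038000000770000003e000000fc0000001c000000160000003a0000003a0000002a 9 8) 0 0 (step_sound _ 193 [(rh0491492b235c9302.shift 0 4), (rh4176b1306bc070ea.shift 1 2), (rh8cd27b1950c5f13a.shift 1 0)] (by decide +kernel))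
noncomputable def rh056f9ee81f5a648f : CRef := CRef.mk (Pat.mk 0x10000000020000003800000028 0x3ff000001fe000003fb0000003800000028 9 10) 0 0 (step_sound _ 132 [(rh3c88ce959c0e423f.shift 3 0), rhf46a8d8b7aa983cf] (by decide +kernel))
noncomputable def rh7670d4ee4dec5251 : CRef := CRef.mk (Pat.mk 0x100000001800000002 0x300000007000000070000000ff000000ff000000e3 9 8) 0 0 (step_sound _ 34 [rh1eef45d71b73a217, rh2ee61895a6499355, (rh9b817791fbf7069f.shift 1 0)] (by decide +kernel))
noncomputable def rhb0ffc637f62d53fa : CRef := CRef.mk (Pat.mk 0xc000000680000002000000000 0x140000001c0000001f0000001f0000007c0000000f0000006c0000003c00000014 9 7) 0 0 (step_sound _ 131 [(rh1184b4bf56fce392.shift 2 0), (rh3c41c563fd95de1d.shift 0 1), (rh7781319fadf471a8.shift 2 0), (rh8b66d3c921f16fdb.shift 2 0), rhb21d2480c522bb83, (rhd21f87d2a5856ca5.shift 0 1), (rhe01325f52d40a444.shift 2 0)] (by decide +kernel))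
noncomputable def rh1d96b917b4341293 : CRef := CRef.mk (Pat.mk 0x2000000380000002c000000000000000000000000 0x50000001700000057000000fe0000003a0000002f000000270000002700000005 9 8) 0 0 (step_sound _ 97 [(rh53b3c253cb0c65f4.shift 0 3), rhb6f80341672666c6] (by decide +kernel))
noncomputable def rh79ad4f3dc2a99ec3 : CRef := CRef.mk (Pat.mk 0x40000007000000018000000000000000000000000 0x160000003e000000760000001e0000000f0000000e00000002 9 7) 0 0 (step_sound _ 98 [rh34c46e1efd9cfe7a, (rh53b3c253cb0c65f4.shift 1 3)] (by decide +kernel))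
noncomputable def rhd2517b146d3779dd : CRef := CRef.mk (Pat.mk 0x100000001800000002000000180000000c00000000 0x2000000070000003f0000001f000000030000001b0000000f00000006 9 6) 0 0 (step_sound _ 33 [(rh53b3c253cb0c65f4.shift 0 1), rh845650a413891bbc] (by decide +kernel))
noncomputable def rhc3bdc569379d51c9 : CRef := CRef.mk (Pat.mk 0xc000000000000001c00000016000000000000000000000000 0x20000000f70000007e000000fc0000001c000000160000003a0000003a0000002a 9 8) 0 0 (step_sound _ 193 [rh0a5a2e4d6ae73ece, (rh4176b1306bc070ea.shift 1 2), (rh7b8a3f2a217d2093.shift 0 3), (rh8cd27b1950c5f13a.shift 1 0)] (by decide +kernel))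
noncomputable def rhf8b8d492fddcdbab : CRef := CRef.mk (Pat.mk 0x1000000002000000280000002e000000000000000000000000 0x40000001ff000000fe000001eb0000002a0000002e000000760000007400000054 9 9) 0 0 (step_sound _ 195 [(rh856116d2c601fcb3.shift 1 0), (rhcddd2712883fd9b7.shift 2 2), rhe3482780b88c5a6e] (by decide +kernel))
noncomputable def rhe4b4b528d4b93a6a : CRef := CRef.mk (Pat.mk 0x4000000300000001c000000000000000000000000 0x2a000001ff000000fe000001de000000360000001c0000000f0000000e0000000a 9 9) 0 0 (step_sound _ 196 [(rh0eb34c720862f00d.shift 0 2), (rh51f3d73fa267b352.shift 3 2), rh84361ae44d3fe889, (rh856116d2c601fcb3.shift 2 0)] (by decide +kernel))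
noncomputable def rhf2d56b14d195c2ad : CRef := CRef.mk (Pat.mk 0x180000006000000004000000000000000000000000 0x80000000e0000000e0000000f0000003c0000006e000000060000000e0000000e0000000a 9 7) 0 0 (step_sound _ 162 [rh8c8bc92b6b1553f7, (rhd6e447e81774439e.shift 2 4)] (by decide +kernel))
noncomputable def rhe394692a647ef9e0 : CRef := CRef.mk (Pat.mk 0x4000000000000000c0000000e00000008 0x20000000ff0000007e000000f80000003c0000000e00000008 9 8) 0 0 (step_sound _ 68 [(rh18965a982d73c794.shift 1 1), rhc8c96f914b3edabd] (by decide +kernel))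
noncomputable def rhf0516fa3d93c2cea : CRef := CRef.mk (Pat.mk 0x2000000180000000c000000000000000000000000 0x140000001c000000ff000000ff0000001b0000000f000000060000000400000004 9 8) 0 0 (step_sound _ 97 [(rh53b3c253cb0c65f4.shift 0 3), rheef67d74a3c8f4a1] (by decide +kernel))
noncomputable def rhd06157feb2cf7a17 : CRef := CRef.mk (Pat.mk 0x1c000000000000000000000000 0x5000000070000000700000007000000770000003e000000070000000600000006 9 7) 0 0 (step_sound _ 97 [rh36178d5c583bf07a, (rh3a69dc315759d1b4.shift 0 1), (rh6cc0f305be0098c0.shift 0 2), (rhb18e6c78a554867d.shift 0 3)] (by decide +kernel))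
noncomputable def rhdf113fd94597b69d : CRef := CRef.mk (Pat.mk 0xe0000000000000000000000000 0x4000000060000003f7000001fe000000ff0000003000000010 9 10) 0 0 (step_sound _ 100 [(rh008ec883d4619f17.shift 0 2), (rh4ee24c8c3be77869.shift 1 2), (rh6cc0f305be0098c0.shift 3 2), (rh7654d7b92c96fe12.shift 2 2), (rha2893642700f4b17.shift 2 0), (rhde1f0c0d7fc93739.shift 0 2), (rhe22f206674b6451c.shift 0 2)] (by decide +kernel))
noncomputable def rh2dc7ff673aef82d8 : CRef := CRef.mk (Pat.mk 0xe0000000000000000000000000 0x4000000060000003ef000001fe000000ff0000003000000010 9 10) 0 0 (step_sound _ 100 [(rh15b856e33c69f807.shift 1 2), (rh4ee24c8c3be77869.shift 1 2), (rh588ce071dcaabc27.shift 0 2), (rh6cc0f305be0098c0.shift 3 2), (rha2893642700f4b17.shift 2 0), (rha683599be3e69071.shift 0 2)] (by decide +kernel))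
noncomputable def rh551d8c3b828edd02 : CRef := CRef.mk (Pat.mk 0xe00000000000000000 0x1000000010000001df000001fe000000ff00000020 9 9) 0 0 (step_sound _ 68 [(rh3a69dc315759d1b4.shift 3 0), (rh4ee24c8c3be77869.shift 1 1), (rh588ce071dcaabc27.shift 0 1), (rh61325f73ebf98108.shift 2 2), (rha683599be3e69071.shift 0 1)] (by decide +kernel))
noncomputable def rh87ee9763167b12aa : CRef := CRef.mk (Pat.mk 0xe0000000000000000000000000 0x200000002000000030000003ff000001fe000000f70000007000000060 9 10) 0 0 (step_sound _ 100 [(rh36e14854f8a9d7cf.shift 2 0), (rh61325f73ebf98108.shift 2 3), (rha683599be3e69071.shift 0 2), (rhb18e6c78a554867d.shift 3 3), (rhde1f0c0d7fc93739.shift 0 2)] (by decide +kernel))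
noncomputable def rh71645f7ad5c177cb : CRef := CRef.mk (Pat.mk 0x3800000000000000000000000000000000 0x140000001c0000001c0000001f0000003f000000780000003f0000001f0000001c0000001c 9 7) 0 0 (step_sound _ 99 [rh241d3a3c14edeb5d, (rh80094d3ea1f96b2c.shift 0 1), rh91b4bbc1d90c7d0b, (rhf0f55c4504412200.shift 0 3)] (by decide +kernel))
noncomputable def rha7a51365fafdf589 : CRef := CRef.mk (Pat.mk 0x3800000000000000000000000000000000 0x140000001c0000001c0000001c0000001f0000007c0000001f0000001c0000001c00000014 9 7) 0 0 (step_sound _ 99 [(rh80094d3ea1f96b2c.shift 0 1), rh91b4bbc1d90c7d0b, rha1583b2b9f81af23, (rhf0f55c4504412200.shift 0 3)] (by decide +kernel))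
noncomputable def rha4f1ec0b96ae2c07 : CRef := CRef.mk (Pat.mk 0x30000000c00000000000000000 0x20000000e0000000e0000000e0000007f0000007e000000cf0000000c0000000c 9 8) 0 0 (step_sound _ 99 [rh1b4767f6e5121d6d, (rhd6e447e81774439e.shift 3 2)] (by decide +kernel))
noncomputable def rh26b60e294096f14e : CRef := CRef.mk (Pat.mk 0xe0000000000000000000000000 0x8000000380000003800000038000000ff000000fe0000007f0000003000000030 9 8) 0 0 (step_sound _ 100 [(rh132224b2333f091b.shift 1 2), (rh47ca132480fc32c7.shift 3 0), (rh507c820bd498f3fc.shift 0 2), (rh73d929a11584eaf7.shift 0 2), (rh775ca1963e850b80.shift 2 2)] (by decide +kernel))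
noncomputable def rh8397ea26723ecbdb : CRef := CRef.mk (Pat.mk 0x20000001a000000020000000000000000000000000 0x5000000050000000fe000000fe000001b700000020000000300000003000000010 9 9) 0 0 (step_sound _ 164 [(rh111ba3208ce75e3e.shift 0 3), (rh9a0e6a9463b8cbbb.shift 4 0), (rhb1a251d9bff81766.shift 4 2)] (by decide +kernel))
noncomputable def rh74f72540e2b27a92 : CRef := CRef.mk (Pat.mk 0x600000018000000020000000000000000000000000 0x4000000040000000fe000000fe000001b700000020000000300000003000000010 9 9) 0 0 (step_sound _ 164 [rh1e2a8eceb775fb97, (rhd6e447e81774439e.shift 4 4)] (by decide +kernel))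
noncomputable def rh0983cec8fdcac6ea : CRef := CRef.mk (Pat.mk 0x2000000060000000e0000000a0000000000000000 0x7e0000003f0000007b0000003e0000000e0000000a0000000800000008 9 7) 0 0 (step_sound _ 193 [(rh2145e1d24b96a57e.shift 1 3), rhe50399a1a8a3fbbb] (by decide +kernel))
noncomputable def rha04705618d08036c : CRef := CRef.mk (Pat.mk 0x20000000200000006000000000 0x8000000080000005e000000fe0000007f000000300000006000000040 9 8) 0 0 (step_sound _ 133 [(rh31251d00f48b5833.shift 0 1), (rh55afc6a59410cf00.shift 5 0)] (by decide +kernel))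
noncomputable def rh0ac75c69b9b847b3 : CRef := CRef.mk (Pat.mk 0x18000000200000002000000000 0x500000007000000270000006f0000007e0000007f0000003600000016 9 7) 0 0 (step_sound _ 98 [(rh188dd7f519d15d21.shift 1 2), (rh2a93610f372db098.shift 1 0), rh31967e3f0443a5e3] (by decide +kernel))
noncomputable def rh759b7f5c3e35389a : CRef := CRef.mk (Pat.mk 0x300000004000000040 0x8000000a8000000ec000001ff000001fe000003df00000040 9 10) 0 0 (step_sound _ 70 [(rh278c09721bb92f20.shift 2 0), (rh8ee80cc30e93a344.shift 3 1), (rh8f608fc770a6e29a.shift 0 1), (rhc9fa261013a99723.shift 3 0)] (by decide +kernel))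
noncomputable def rh893b927cea449a3b : CRef := CRef.mk (Pat.mk 0x200000038000000280000000000000000 0x140000001c0000001c0000007c0000007e000000ff00000078000000280000002000000020 9 8) 0 0 (step_sound _ 131 [(rh05d00e7cfdb5e850.shift 0 3), (rh075211c3608a5a57.shift 0 3), rh5b36b02b2b297ef6, (rhdeb26f2c1965e74f.shift 1 0)] (by decide +kernel))
noncomputable def rh4568c7d8b2d95fd2 : CRef := CRef.mk (Pat.mk 0x80000000b0000000800000009000000000000000000000000000000000 0x1000000150000001fc000001f8000001af000000be000000bf0000009c00000038000000380000003800000028 9 9) 0 0 (step_sound _ 164 [(rh1b9022be4f7af407.shift 3 1), rh5146e0082c931b2e, (rhabe121237277a85f.shift 2 4), (rhb730ba14aa32bdb3.shift 4 3)] (by decide +kernel))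
noncomputable def rhf23c453812947e8b : CRef := CRef.mk (Pat.mk 0x4000000080000000b0000000800000001000000000000000000000000000000000 0x100000001e0000001f0000000af000000be000000bf0000001c00000038000000380000003800000028 9 9) 0 0 (step_sound _ 164 [(rh05b3631c53a5580a.shift 4 4), (rh1b9022be4f7af407.shift 3 1), rh5146e0082c931b2e, (rhb730ba14aa32bdb3.shift 4 3)] (by decide +kernel))
noncomputable def rhabc6bf454c2cf099 : CRef := CRef.mk (Pat.mk 0x3000000020000000200000006800000000 0x40000000c0000000e0000003e0000003e0000002f0000007c0000002c 9 7) 0 0 (step_sound _ 100 [rh6bcf5c09da53248f, (rh7b1f1fb55310c477.shift 4 0)] (by decide +kernel))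
noncomputable def rhfd699ba159fc88aa : CRef := CRef.mk (Pat.mk 0xb000000180000000800000000 0x140000001c0000001c0000001c0000001e0000001b0000001c0000000c00000004 9 5) 0 0 (step_sound _ 131 [(rh4a57183b91ec83ec.shift 0 1), (rh64bc0dab78a08b48.shift 2 1), (rh8a1863ea2c9c8c4f.shift 2 0), (rhc70df92508b35bf8.shift 2 0), (rhccb3a79fd989e123.shift 2 1)] (by decide +kernel))
noncomputable def rh387ca28685cc10c8 : CRef := CRef.mk (Pat.mk 0xc0000001000000010000000000000000000000000 0x1c0000001c0000001f0000007c0000001f0000000f0000000c0000000c 9 7) 0 0 (step_sound _ 131 [(rh4ca5dae25f5c14ff.shift 0 4), rh8ea57463cda4abb4, (rhc53d4c24604c4d00.shift 1 2)] (by decide +kernel))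
noncomputable def rh12a2147ac3c72157 : CRef := CRef.mk (Pat.mk 0x7000000080000000800000000 0x40000001c0000001c000000180000001c0000000f0000001c0000000c00000004 9 5) 0 0 (step_sound _ 99 [(rhe25b0a99195a5d59.shift 0 2), rhe37e92ae9241c82c] (by decide +kernel))
noncomputable def rhd62c819f98783b72 : CRef := CRef.mk (Pat.mk 0x30000000c000000140000000000000000 0x800000008000003ff000001fc000001d60000001000000010 9 10) 0 0 (step_sound _ 100 [rh181bfa7f292ff3dd, (rh485547c197806ade.shift 1 2), (rh795d3e5d420177aa.shift 1 2)] (by decide +kernel))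
noncomputable def rh366c28576438b37d : CRef := CRef.mk (Pat.mk 0x18000000300000002000000000 0xc0000000c000000ff000000ff000000df000000f00000003000000010 9 8) 0 0 (step_sound _ 132 [(rh2145e1d24b96a57e.shift 4 1), rh82a20018d98048f7] (by decide +kernel))
noncomputable def rhdc84c3bd0568cfe7 : CRef := CRef.mk (Pat.mk 0x2000000030000000600000004000000000000000000000000 0xd0000001f0000007f0000001f00000006000000020000000200000002 9 7) 0 0 (step_sound _ 131 [rhbb69f3b9766e801a, (rhf48373e13d2bc128.shift 0 4)] (by decide +kernel))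
noncomputable def rh52f10003c58a24b5 : CRef := CRef.mk (Pat.mk 0xc000000180000005000000000 0x30000000380000007f000000ff000000dc0000005000000040 9 8) 0 0 (step_sound _ 131 [(rh2145e1d24b96a57e.shift 3 1), rh261b50e769e1f644] (by decide +kernel))
noncomputable def rhb98998f23f741db4 : CRef := CRef.mk (Pat.mk 0x1c0000001000000010 0x20000002a0000003f000000ff0000007f0000001400000014 9 8) 0 0 (step_sound _ 100 [(rh018f2ebb4d91ad9d.shift 1 0), (rh1eeec04e73117746.shift 2 0), (rhc85cc95794737cf7.shift 3 0), rhd6e74e2f3840d34d, (rhdab32775f5c78fcf.shift 1 0)] (by decide +kernel))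
noncomputable def rhaf3e8f628a573659 : CRef := CRef.mk (Pat.mk 0xc0000001000000010000000000000000000000000 0x7c0000007c0000007f0000007c0000001c0000000c0000000c0000000c 9 7) 0 0 (step_sound _ 131 [(rh4ca5dae25f5c14ff.shift 0 4), (rh8890a2107ac3536f.shift 2 0), (rhaa0eec57d75bda3b.shift 2 0)] (by decide +kernel))
noncomputable def rhb288afa110bb8dc7 : CRef := CRef.mk (Pat.mk 0x38000000100000001000000000 0x18000000380000003e000000fe000000380000001f0000001f0000000c 9 8) 0 0 (step_sound _ 132 [(rh13d4a0c417b9c5bd.shift 3 0), rh3675c5e80244345c, (rh38b56bf623cf94fc.shift 1 0), (rh7ef5fa5c39f1c762.shift 3 1), (rh82242c0ae96d2a2d.shift 3 1), (rhc2e4765e51126ea2.shift 1 0)] (by decide +kernel))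
noncomputable def rh20cd7ac806c36022 : CRef := CRef.mk (Pat.mk 0xb0000001800000008000000000000000000000000 0x140000001c0000001c0000001c0000001d0000001b0000001f0000000f000000070000000300000001 9 5) 0 0 (step_sound _ 195 [(rh7b3828af614c0a71.shift 2 2), (rh8a1863ea2c9c8c4f.shift 2 2), (rhc70df92508b35bf8.shift 2 2), (rhc85cc95794737cf7.shift 2 3), rhfe01bf044090285e] (by decide +kernel))
noncomputable def rh2467d30dcf0bfc11 : CRef := CRef.mk (Pat.mk 0x6000000300000001000000000 0x2a0000003e0000003f0000003e0000003e000000360000001e0000000a 9 6) 0 0 (step_sound _ 100 [rh138b7d65a6c9bf2c, (rhc10214bf3fe8094a.shift 1 2)] (by decide +kernel))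
noncomputable def rh60392335659ac034 : CRef := CRef.mk (Pat.mk 0x6000000300000001000000000 0x28000000380000003b0000003e0000003e0000003c0000001e0000000c 9 6) 0 0 (step_sound _ 100 [rha6a0b1be648c76dc, (rhc10214bf3fe8094a.shift 1 2)] (by decide +kernel))
noncomputable def rhaf426c1cfa3c862a : CRef := CRef.mk (Pat.mk 0x180000003000000020000000000000000000000000 0x3e0000003f00000038000000f800000038000000180000001800000018 9 8) 0 0 (step_sound _ 196 [(rh2145e1d24b96a57e.shift 4 3), rhc538a4f863906d56] (by decide +kernel))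
noncomputable def rh61216961156df678 : CRef := CRef.mk (Pat.mk 0x10000000180000003000000020000000000000000000000000 0x40000002e0000003f0000007e0000003e00000038000000180000001800000018 9 7) 0 0 (step_sound _ 162 [rhb01d5178b3647b6f, (rhb739f4f82bb681b4.shift 1 4)] (by decide +kernel))
noncomputable def rh586a39d0ab200f1c : CRef := CRef.mk (Pat.mk 0x1e000000080000000800000000 0x300000007000000070000000f0000001e0000000f0000000e00000006 9 5) 0 0 (step_sound _ 65 [(rheb0810cc63b001d8.shift 0 2), rhfb11a0059d2545f5] (by decide +kernel))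
noncomputable def rh7a9559e0dbc11113 : CRef := CRef.mk (Pat.mk 0x1c000000100000001000000000 0x28000000380000003f000000ff0000003c0000001c0000001c0000000c 9 8) 0 0 (step_sound _ 132 [rh177611406e131364, (rh193da7fc9e1674f1.shift 3 0), (rh1eeec04e73117746.shift 2 1), (rh32af3ac9501babcd.shift 2 0)] (by decide +kernel))
noncomputable def rh17a2bee1618ae283 : CRef := CRef.mk (Pat.mk 0x100000001c000000100000001000000000 0x1f0000001f0000001c0000007c0000001c0000000c 9 7) 0 0 (step_sound _ 131 [(rh50fbb5868c909700.shift 3 1), rhf05013e07c94059c] (by decide +kernel))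
noncomputable def rhb9c993553b5c8bec : CRef := CRef.mk (Pat.mk 0x30000000400000004000000000 0xa0000000e0000000e0000000cf0000007e000001ff0000006000000020 9 9) 0 0 (step_sound _ 99 [(rh07db138bb9ba6c42.shift 1 2), (rh6aa0ed61cce1493b.shift 2 2), (rh84b1e9528762b864.shift 3 0), (rh88c620441a3a17ea.shift 0 2)] (by decide +kernel))
noncomputable def rh627a20d9a2ac10a4 : CRef := CRef.mk (Pat.mk 0xc0000001000000010000000000000000000000000 0x40000007c0000007c0000001f0000007c0000001e0000000c0000000c0000000c 9 7) 0 0 (step_sound _ 131 [(rh2dd82c7e81af44a6.shift 1 0), (rh4ca5dae25f5c14ff.shift 0 4), rh60ab467fe83d5128, (rh8890a2107ac3536f.shift 2 0)] (by decide +kernel))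
noncomputable def rh832002080758e5cc : CRef := CRef.mk (Pat.mk 0x100000001e0000001a0000000200000000 0x50000003700000037000000130000001e0000001e0000000600000004 9 6) 0 0 (step_sound _ 129 [(rh3244c3cc8379b070.shift 0 3), rh8f1ebdbbc7402a97] (by decide +kernel))
noncomputable def rh9a45cc852975c59f : CRef := CRef.mk (Pat.mk 0x20000000300000006000000000000000000000000000000000 0x8000000dc000000de000000fe0000007c0000007f0000001c0000001c0000001c00000014 9 8) 0 0 (step_sound _ 163 [rh0f809ff1a4bff254, (rhb739f4f82bb681b4.shift 2 4)] (by decide +kernel))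
noncomputable def rhc7a583ff944cc2b6 : CRef := CRef.mk (Pat.mk 0x1e000000180000000000000000000000000000000000000000 0x4000000070000001e0000001f0000000700000007000000070000000700000005 9 5) 0 0 (step_sound _ 161 [(rheb0810cc63b001d8.shift 0 5), rhebd859c5a70f7cf7] (by decide +kernel))
noncomputable def rh215cc87ed210888f : CRef := CRef.mk (Pat.mk 0x3800000018000000100000000000000000 0xe0000000e0000000f0000003f0000001f000000160000000600000006 9 6) 0 0 (step_sound _ 130 [rh3a9d5d138f842f8f, (rhb14e2588a8d71db8.shift 0 3), (rhba89ab7cb81bcc90.shift 0 3)] (by decide +kernel))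
noncomputable def rha58b38fd4cff8ca0 : CRef := CRef.mk (Pat.mk 0x1e000000060000000000000000 0x180000001e0000003f0000003e0000001f000000060000000200000002 9 6) 0 0 (step_sound _ 132 [(rh33e738c4ed385b9f.shift 1 3), rhcca42c150d240686] (by decide +kernel))
noncomputable def rhb8050fe8f7112fc1 : CRef := CRef.mk (Pat.mk 0x7800000018000000200000002000000000 0xe00000007c000000180000007f0000003e0000001f 9 8) 0 0 (step_sound _ 166 [rh1f5b4eb7498a344f, (rh33e738c4ed385b9f.shift 3 4)] (by decide +kernel))
noncomputable def rh0ccd9b85ddbf81ae : CRef := CRef.mk (Pat.mk 0x240000003c000000000000000000000000 0x1e0000003e0000000f0000003c0000007e0000000c0000000c00000004 9 7) 0 0 (step_sound _ 131 [rhbe76e34e83fa3789, (rhf48373e13d2bc128.shift 2 3)] (by decide +kernel))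
noncomputable def rh8661134dc825f94c : CRef := CRef.mk (Pat.mk 0xe000000100000001000000000 0x80000003800000038000000340000003f0000003e0000001f0000001b0000000a 9 6) 0 0 (step_sound _ 100 [(rh47c07cd0cc865f65.shift 0 2), rh6a720d6d0b2a9973, (rhe37e92ae9241c82c.shift 1 0)] (by decide +kernel))
noncomputable def rh6762c9aa59c11694 : CRef := CRef.mk (Pat.mk 0x3000000034000000100000000000000000 0x3400000034000001de000000fe000001ff 9 9) 0 0 (step_sound _ 36 [(rh71222050f2c63a3a.shift 4 0), rha4898672bbe30c3c] (by decide +kernel))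
noncomputable def rh272bc4aa1bde44ac : CRef := CRef.mk (Pat.mk 0x180000006000000030000000000000000000000000 0x4c000000fc000000f80000006c0000003c0000001f0000001400000010 9 8) 0 0 (step_sound _ 99 [(rh53b3c253cb0c65f4.shift 2 3), rhba03d6618726f0ff] (by decide +kernel))
noncomputable def rhfb49254b42ca0e60 : CRef := CRef.mk (Pat.mk 0x18000000600000003800000000 0x1c0000003c000000ef000000ff000000f80000007c0000003800000008 9 8) 0 0 (step_sound _ 132 [(rh161b377929e491af.shift 3 0), (rh47505ce0e7147710.shift 2 0), (rhc4b3a1f14ed9a396.shift 0 1), (rhecb97fed8c7f1286.shift 3 0)] (by decide +kernel))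
noncomputable def rh1327381b6fd21075 : CRef := CRef.mk (Pat.mk 0x30000000c00000004 0x3fb000001fe000001c6 9 10) 0 0 (step_sound _ 36 [(rh09d4dfe75d4407d6.shift 0 1), (rh485547c197806ade.shift 1 0)] (by decide +kernel))
noncomputable def rh3367bf9cc98b232b : CRef := CRef.mk (Pat.mk 0xe000000100000001000000000 0x14000000340000003e0000003f0000001b0000000a 9 6) 0 0 (step_sound _ 100 [rh6a720d6d0b2a9973, (rhe25b0a99195a5d59.shift 1 2)] (by decide +kernel))
noncomputable def rh02e8bf6a6aed1d74 : CRef := CRef.mk (Pat.mk 0x200000038000000280000000000000000 0x1c0000005c000000ff000000ff000000f8000000280000002000000020 9 8) 0 0 (step_sound _ 132 [rh6197b4f8826b3bbd, (rh818b972a3796a3cb.shift 1 0), (rh9eb167871f7ba80d.shift 1 2), (rhf71cb1a94bedb48c.shift 3 0)] (by decide +kernel))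
noncomputable def rh0878aa168f19e001 : CRef := CRef.mk (Pat.mk 0x1000000016000000300000001000000000 0x5000000270000003f00000016000000360000001e00000006 9 6) 0 0 (step_sound _ 133 [(rh2f68792b6b779e96.shift 4 1), rh92a8457ebe03c117] (by decide +kernel))
noncomputable def rhe6893ef01ae1662d : CRef := CRef.mk (Pat.mk 0x1000000016000000300000001000000000 0x50000000f0000003f00000016000000360000001e00000006 9 6) 0 0 (step_sound _ 131 [rh3b071fce79af88d8, (rh50fbb5868c909700.shift 3 1)] (by decide +kernel))
noncomputable def rh98b64fed5ea054ef : CRef := CRef.mk (Pat.mk 0x180000001000000016000000300000001000000000 0x500000027000000370000003f0000001700000017000000370000001f00000005 9 6) 0 0 (step_sound _ 197 [rh92f2313c842689fb, (rhbaefcd01e0a8bca3.shift 4 2)] (by decide +kernel))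
noncomputable def rha172e9362e01ba15 : CRef := CRef.mk (Pat.mk 0x100000001000000016000000300000001000000000 0x7000000070000000f0000001f0000003700000017000000370000001f00000005 9 6) 0 0 (step_sound _ 163 [rh161133668844638f, (rh50fbb5868c909700.shift 3 2)] (by decide +kernel))
noncomputable def rhabf0898c7b6d5882 : CRef := CRef.mk (Pat.mk 0x1e000000000000000000000000 0x200000007000000070000003f0000001e000000070000000300000003 9 6) 0 0 (step_sound _ 65 [rh8448a351cceb7d21, (rheb0810cc63b001d8.shift 0 2)] (by decide +kernel))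
noncomputable def rh3115ab5a70a49d52 : CRef := CRef.mk (Pat.mk 0x180000000c00000038000000180000000000000000 0x20000000780000006c0000003f0000001b0000000f0000000e 9 7) 0 0 (step_sound _ 165 [(rh18965a982d73c794.shift 2 4), rhd2c3141809176f29] (by decide +kernel))
noncomputable def rh6c564b350998ec86 : CRef := CRef.mk (Pat.mk 0x100000001c000000300000000000000000 0x20000000a0000002f0000003f000000fc0000003e0000001600000016 9 8) 0 0 (step_sound _ 131 [(rh186a81581a6a7e7a.shift 0 1), (rh5d54cb79a67f97ab.shift 3 0), (rh91174d9c61e133cc.shift 1 0)] (by decide +kernel))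
noncomputable def rhad313f73d3413962 : CRef := CRef.mk (Pat.mk 0x8000000000000001e0000001e000000000000000000000000 0x3f0000001f000000130000001e0000001e000000030000000200000002 9 6) 0 0 (step_sound _ 161 [(rh3244c3cc8379b070.shift 0 4), rhcd1b4b39ba727be4] (by decide +kernel))
noncomputable def rh02b656dd9c401b3d : CRef := CRef.mk (Pat.mk 0xc000000180000001000000000 0x340000003e0000007f0000007f0000001c0000001800000008 9 7) 0 0 (step_sound _ 131 [rh10bf281a9ced894f, (rh2145e1d24b96a57e.shift 3 1)] (by decide +kernel))
noncomputable def rh111245d64e6cb514 : CRef := CRef.mk (Pat.mk 0xe0000000800000028000000000000000000000000 0x1000000010000000f00000007e0000007f00000028000000700000007000000050 9 8) 0 0 (step_sound _ 164 [(rh257411a10614b6c1.shift 1 0), rh3d9ccce8f1410f87, (rh94246470f0e6fdf7.shift 1 3), (rhff137c455409f0e3.shift 1 2)] (by decide +kernel))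
noncomputable def rh081ea7ee9d9d9c55 : CRef := CRef.mk (Pat.mk 0x300000004000000140000000000000000000000000 0x20000000e0000000e0000000e0000007ef000003fe000003cf00000140000003800000038000000280 9 11) 0 0 (step_sound _ 166 [(rh3918d96d7d9146eb.shift 2 3), (rh60a2685cbac03297.shift 4 0), (rhab3233772ef8317a.shift 0 4)] (by decide +kernel))
noncomputable def rh53c8973f117821dd : CRef := CRef.mk (Pat.mk 0x80000000c000000180000001800000000000000000000000000000000 0x80000000c0000001f0000001f00000007000000070000000700000005 9 5) 0 0 (step_sound _ 130 [rh2253ffaa075818a2, (rh932754581e0f4330.shift 2 3)] (by decide +kernel))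
noncomputable def rh18e3070bbec11bf2 : CRef := CRef.mk (Pat.mk 0x30000000f0000000400000000000000000 0x30000000f00000007f0000003e0000003f 9 8) 0 0 (step_sound _ 68 [rh968e624264c565f5, (rheb0810cc63b001d8.shift 3 2)] (by decide +kernel))
noncomputable def rha90ff820fc68f548 : CRef := CRef.mk (Pat.mk 0x40000001800000010000000000000000000000000 0x1c0000001c0000001f0000007c0000001f0000000f0000000c0000000c 9 7) 0 0 (step_sound _ 163 [(rh4ca5dae25f5c14ff.shift 0 4), rh8ea57463cda4abb4, (rhc53d4c24604c4d00.shift 1 2)] (by decide +kernel))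
noncomputable def rh8a32f939ee6d987a : CRef := CRef.mk (Pat.mk 0x20000000c000000080000000000000000000000000 0x20000000a0000007ff000007fe000000df000000780000007800000028 9 11) 0 0 (step_sound _ 133 [rh0f7d56f838539f54, (rh38791ac5737ed75e.shift 4 4), (rh5f251ea50dbd4c37.shift 0 1), (rha9d5af57152f357b.shift 3 1), (rha9fbfd4bb8cf890b.shift 2 4)] (by decide +kernel))
noncomputable def rh2bbbdceb9beb64f6 : CRef := CRef.mk (Pat.mk 0x1800000030000000200000000000000000 0x1c0000003c0000001f000000f8000000ff0000002f0000000c0000000c 9 8) 0 0 (step_sound _ 99 [rh2f1494ecfa8e9298, rh89023288cad75979, (rh8c29b1e2f83d279d.shift 2 1), (rhadec87ca519a3ac3.shift 0 2), (rhd4c726bfd72d2183.shift 0 1)] (by decide +kernel))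
noncomputable def rh9ac4fb4a5e78cf26 : CRef := CRef.mk (Pat.mk 0xe00000018000000100000000000000000 0x60000000e0000000f000000fe0000001f000000170000000600000002 9 8) 0 0 (step_sound _ 163 [(rh2145e1d24b96a57e.shift 3 2), rh640b7efa9d417d36] (by decide +kernel))
noncomputable def rh76aaef624be45a8c : CRef := CRef.mk (Pat.mk 0x80000003800000020000000000000000000000000 0x1c0000001f000001f8000001f80000003e0000001e0000001c00000004 9 9) 0 0 (step_sound _ 100 [(rh5d54cb79a67f97ab.shift 3 1), (rh7faa0b945f01f97c.shift 0 2), (rha40d42a2e34c408d.shift 3 1), (rhcef342ff4fc45254.shift 1 0)] (by decide +kernel))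
noncomputable def rh2e7caf0dcb3b19d9 : CRef := CRef.mk (Pat.mk 0x800000038000000200000000000000000 0x1c0000003c0000001f000000f8000000ff0000002f0000000c0000000c 9 8) 0 0 (step_sound _ 132 [rh2f1494ecfa8e9298, rh89023288cad75979, (rh8c29b1e2f83d279d.shift 2 1), (rhadec87ca519a3ac3.shift 0 2), (rhd4c726bfd72d2183.shift 0 1)] (by decide +kernel))
noncomputable def rhfd1e1e6dfee1cf75 : CRef := CRef.mk (Pat.mk 0x1000000018000000300000002000000000 0x20000000a0000000f0000001f0000007e000000360000003e0000001c 9 7) 0 0 (step_sound _ 98 [rh10c90991544eb537, (rhb739f4f82bb681b4.shift 1 2)] (by decide +kernel))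
noncomputable def rhca55e93dfa4b8be7 : CRef := CRef.mk (Pat.mk 0x1e0000000000000000000000000000000000000000 0x50000000700000007000000070000001e0000000700000006000000070000000700000005 9 5) 0 0 (step_sound _ 129 [rh57218186cf0e061b, (rheb0810cc63b001d8.shift 0 4)] (by decide +kernel))
noncomputable def rh7c925a6208e62a82 : CRef := CRef.mk (Pat.mk 0x100000001c000000300000002000000000 0x60000000e0000000f0000001f0000007c0000003c0000003e0000001e 9 7) 0 0 (step_sound _ 131 [(rh3cb04db3dd2b6a55.shift 3 0), (rh49c19d5e04bef9a6.shift 1 0), (rh5d54cb79a67f97ab.shift 3 0), (rhe4abfb192d31c518.shift 0 1)] (by decide +kernel))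
noncomputable def rh865977041eba647a : CRef := CRef.mk (Pat.mk 0x80000003000000020000000000000000000000000 0x8000000080000000f000000fe0000003f0000001f0000001c0000001c 9 8) 0 0 (step_sound _ 131 [(rha9fbfd4bb8cf890b.shift 0 4), rhc126a2d483e3db27, (rhe3ebd767f1f38667.shift 0 1)] (by decide +kernel))
noncomputable def rh2ece67075f594c2f : CRef := CRef.mk (Pat.mk 0x20000001c000000080 0x77000001fe000000ff 9 9) 0 0 (step_sound _ 37 [(rh3244c3cc8379b070.shift 4 1), rh5f98b24570859296] (by decide +kernel))
noncomputable def rhb14f7dd7e283ffff : CRef := CRef.mk (Pat.mk 0x40000001c000000100000000000000000 0x300000037000000370000003f0000001e0000001f0000000e00000006 9 6) 0 0 (step_sound _ 97 [(rh14ebe618fe80128a.shift 0 1), rhc359ae14cfe16595, rhcfde16a7ff36af03] (by decide +kernel))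
noncomputable def rh206d58bc6c6d56f4 : CRef := CRef.mk (Pat.mk 0x40000003c000000100000000800000000 0x20000000740000007c0000003c0000001e0000000f00000006 9 7) 0 0 (step_sound _ 66 [rh92c5928e8d143f39, (rheb0810cc63b001d8.shift 1 2)] (by decide +kernel))
noncomputable def rhb1fa271bafcae416 : CRef := CRef.mk (Pat.mk 0x80000002800000020000000000000000000000000 0x8000000280000006f000000fe0000003e0000001f0000001c0000001c 9 8) 0 0 (step_sound _ 132 [(rha9fbfd4bb8cf890b.shift 0 4), rhc126a2d483e3db27, (rhf5925d064fbfae9a.shift 1 1)] (by decide +kernel))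
noncomputable def rh83235cf9e9c7ec37 : CRef := CRef.mk (Pat.mk 0x1000000050000000000000000000000000 0x8000000180000001c000003fe000001ff0000001f0000001800000008 9 10) 0 0 (step_sound _ 101 [(rh38791ac5737ed75e.shift 3 3), rh61f3e7ba5d6248e4, (rha9fbfd4bb8cf890b.shift 1 3), (rhe091ed77919be4bd.shift 1 2)] (by decide +kernel))
noncomputable def rhe9fb6be6e742330b : CRef := CRef.mk (Pat.mk 0x100000005000000050000000000000000000000000 0x8000000180000003e000000f0000000770000003e0000003f00000028 9 8) 0 0 (step_sound _ 68 [(rh4dc75d06c1bf4c3e.shift 0 1), (rh5133fbe07fd94255.shift 0 1), (rh5abfc4c9d959be03.shift 3 1), (rh8cdd36b03d57a2f6.shift 3 0), (rhd5d193521cc593a5.shift 1 2)] (by decide +kernel))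
noncomputable def rh643c9943a577215c : CRef := CRef.mk (Pat.mk 0x400000004000000140000000400000000000000000 0x2000000070000000d0000001ff000000fe0000003f00000008 9 9) 0 0 (step_sound _ 69 [rh8e5458a3b4c6664a, (rh932754581e0f4330.shift 5 1)] (by decide +kernel))
noncomputable def rh02bbc98d17f7b55d : CRef := CRef.mk (Pat.mk 0x100000005000000050000000000000000000000000 0x80000001800000018000000d00000007f0000003e0000003f00000028 9 8) 0 0 (step_sound _ 68 [(rh4dc75d06c1bf4c3e.shift 0 1), (rh5133fbe07fd94255.shift 0 1), (rh5abfc4c9d959be03.shift 3 1), (rh8cdd36b03d57a2f6.shift 3 0), (rhea8014c6e0bdabf0.shift 2 1)] (by decide +kernel))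
noncomputable def rha8332c9e7e75e6d1 : CRef := CRef.mk (Pat.mk 0x1000000018000000080000000800000000 0xe0000000e0000000f0000003f0000001f0000001f0000001c00000014 9 6) 0 0 (step_sound _ 131 [(rh0ef6c71ce89c1c36.shift 2 0), (rh4bc3fb1b54fe76ba.shift 2 0), (rh863dbea2bef7647b.shift 0 1), (rhbad6ff9bdc3f8001.shift 2 0)] (by decide +kernel))
noncomputable def rh1251506cec5dd6b8 : CRef := CRef.mk (Pat.mk 0x1000000010000000180000001800000000 0xf0000001f0000001f0000001e0000001c00000014 9 5) 0 0 (step_sound _ 131 [(rh50fbb5868c909700.shift 3 1), rha3077da8245306f2] (by decide +kernel))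
noncomputable def rha74d86627d53c36d : CRef := CRef.mk (Pat.mk 0x18000000080000000800000000 0x140000001f0000001f0000001f0000000e0000000c00000004 9 5) 0 0 (step_sound _ 131 [(rh1741680720c097b4.shift 2 1), (rh771d065bdc85bf2d.shift 2 0), rhb2fb99c2d88149c2, (rhb7ee8905496f843d.shift 2 0)] (by decide +kernel))
noncomputable def rh44020f2a9e505ba9 : CRef := CRef.mk (Pat.mk 0x100000005000000050000000000000000000000000 0x1c0000001f00000038000000de0000007c0000001e0000000800000008 9 8) 0 0 (step_sound _ 99 [(rh281c6819542c66e6.shift 3 0), (rh335fd4dc083b6880.shift 0 2), (rh5bc5f4ab1822bc0a.shift 1 2)] (by decide +kernel))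
noncomputable def rha089b6aa6dd4dd5e : CRef := CRef.mk (Pat.mk 0x100000005000000050000000000000000000000000 0x1c0000005f000000f8000003de00000078000000300000002000000020 9 10) 0 0 (step_sound _ 101 [(rh5f83072f3a3235e6.shift 0 2), (rh70e33bfdf511e144.shift 4 0), (rh830524983b23eddc.shift 1 2), (rhfaf121bd5b878f40.shift 1 0)] (by decide +kernel))
noncomputable def rh6d4c2023ef00b685 : CRef := CRef.mk (Pat.mk 0xc00000008000000080000000c00000000 0x1f3000000fe000001ef0000001f0000000f00000001 9 9) 0 0 (step_sound _ 132 [(rh2f68792b6b779e96.shift 3 1), rhdd67586c1db5e4fd] (by decide +kernel))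
noncomputable def rh4980e4695665177c : CRef := CRef.mk (Pat.mk 0x20000000f000000020000000400000000000000000 0x2e000000fe0000003f000001e00000007000000030 9 9) 0 0 (step_sound _ 131 [(rh0e4b065ff1343ed7.shift 1 0), (rh2efad3051cff7df1.shift 0 3), (rh775ca1963e850b80.shift 1 3), (rheae1728ff4a56756.shift 2 3)] (by decide +kernel))
noncomputable def rhb3b72ecfa3e27b41 : CRef := CRef.mk (Pat.mk 0x20000000a0000000a00000002000000000000000000000000000000000 0x20000001bf000000fe0000007f0000003e000000780000007800000050 9 9) 0 0 (step_sound _ 164 [(rh5bc5f4ab1822bc0a.shift 2 4), (rh5f3fcb0278f75f5c.shift 0 4), (rh9e3adcad829ae77e.shift 4 0), (rhedd860f1c68fa72a.shift 1 1)] (by decide +kernel))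
noncomputable def rh12d41e8ca682dab5 : CRef := CRef.mk (Pat.mk 0x100000001000000050000000000000000000000000 0x80000001800000018000000770000003e0000003f00000028 9 7) 0 0 (step_sound _ 68 [(rh4dc75d06c1bf4c3e.shift 0 1), (rh5133fbe07fd94255.shift 0 1), (rh8ff3dde5b1c639e0.shift 3 0), (rhc4526fc8abf298b6.shift 3 0)] (by decide +kernel))
noncomputable def rh2153db04e5176210 : CRef := CRef.mk (Pat.mk 0x20000000a000000080000000000000000000000000 0x20000000200000007f000003fe000000ff0000007c0000007000000070 9 10) 0 0 (step_sound _ 134 [(rha9fbfd4bb8cf890b.shift 2 4), (rhc126a2d483e3db27.shift 2 0), (rhe644eb1cd8f767e3.shift 0 1)] (by decide +kernel))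
noncomputable def rh6500554dce01d40b : CRef := CRef.mk (Pat.mk 0x1800000000000000400000007000000020 0x3ff000001fe000003c7000000c00000007800000020 9 10) 0 0 (step_sound _ 71 [(rh53b3c253cb0c65f4.shift 3 1), rh6a3a033dbfcc0146] (by decide +kernel))
noncomputable def rh9e74382ec9f594b6 : CRef := CRef.mk (Pat.mk 0x1000000010000000500000000000000000 0x28000000380000003800000010000000100000007f0000003e0000002f 9 7) 0 0 (step_sound _ 164 [rh0da0c3a9036404ec, (rh1741680720c097b4.shift 3 2)] (by decide +kernel))
noncomputable def rh7aeadb60d83d8fff : CRef := CRef.mk (Pat.mk 0x1e00000010 0x38e000001fe0000039f 9 10) 0 0 (step_sound _ 1 [(rhe5154f101f0e52e6.shift 1 0), rheb0810cc63b001d8] (by decide +kernel))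
noncomputable def rhd214c4355655135e : CRef := CRef.mk (Pat.mk 0xe0000000000000000000000000 0x280000007800000078000000fc000000fe0000007f0000003000000030 9 8) 0 0 (step_sound _ 100 [(rh132224b2333f091b.shift 1 2), (rh66b1bce6d5c872a4.shift 3 0), (rh73d929a11584eaf7.shift 0 2), (rh775ca1963e850b80.shift 2 2), (rh9eef68063efe4653.shift 2 0)] (by decide +kernel))
noncomputable def rhde1cf5db39a20c02 : CRef := CRef.mk (Pat.mk 0x800000018000000180000007000000020 0x40000004f000000df000000fb0000007f00000027 9 8) 0 0 (step_sound _ 35 [(rh4d6ff7d31d8220d4.shift 2 0), (rh67c56d36b3f405ac.shift 2 0), rh6fae963f33cfdfd7, rh96caa15a528c64be] (by decide +kernel))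
noncomputable def rh598abe895daf367a : CRef := CRef.mk (Pat.mk 0x1e0000000000000040000000000000000000000000 0x1e0000000fe000000c700000040000000e0000000e0000000a0 9 9) 0 0 (step_sound _ 129 [(rh394dc79bf690ecc6.shift 1 0), (rheb0810cc63b001d8.shift 0 4)] (by decide +kernel))
noncomputable def rh93bfd97a9c6ac33e : CRef := CRef.mk (Pat.mk 0x40000000e0000000800000020000000000000000000000000 0x400000004000000f60000007e0000006b00000022000000720000007000000050 9 8) 0 0 (step_sound _ 226 [(rh2145e1d24b96a57e.shift 2 4), rheb30d58c87534c0f] (by decide +kernel))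
noncomputable def rh813793ded730b233 : CRef := CRef.mk (Pat.mk 0x40000000e0000000c00000020000000000000000000000000 0x200000002000000170000007e0000006c00000026000000760000007600000050 9 7) 0 0 (step_sound _ 193 [rh3d5b9978396f3dee, (rh46d6183566ef1216.shift 1 1), (rhfc7c29d8e65d775f.shift 1 3)] (by decide +kernel))
noncomputable def rh0ae1080fd505a701 : CRef := CRef.mk (Pat.mk 0x1e0000000000000040000000000000000000000000 0x1e7000000fe000000c000000040000000e0000000e0000000a0 9 9) 0 0 (step_sound _ 193 [(rh3244c3cc8379b070.shift 0 5), (rhe9b8460dd5b589d9.shift 1 0)] (by decide +kernel))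
noncomputable def rhc0f4979667dee4a4 : CRef := CRef.mk (Pat.mk 0x700000004000000100000000000000000000000000 0x1000000010000007bf000003fe0000037700000120000003a00000038000000280 9 11) 0 0 (step_sound _ 167 [(rh2a535ce68d5cfc5d.shift 3 2), (rh394b5e194a5b6455.shift 3 0), (rha3cd6e417638cbd6.shift 4 0), (rha73466a95de71388.shift 0 2)] (by decide +kernel))
noncomputable def rh4cfeedddc71cb3b0 : CRef := CRef.mk (Pat.mk 0x20000001e0000000a0000000800000000 0x30000001700000017000000360000001e0000000e0000000e00000006 9 6) 0 0 (step_sound _ 132 [(rh33e738c4ed385b9f.shift 1 3), rh866868afb1330d2e] (by decide +kernel))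
noncomputable def rhe06e0055f4893bda : CRef := CRef.mk (Pat.mk 0x1c0000000000000040000000000000000000000000 0x1ef000000fe000000c700000040000000e0000000e0000000a0 9 9) 0 0 (step_sound _ 165 [(rh394b5e194a5b6455.shift 1 0), (rh775ca1963e850b80.shift 0 4), (rha3cd6e417638cbd6.shift 2 0)] (by decide +kernel))
noncomputable def rh080c9723a422b8c0 : CRef := CRef.mk (Pat.mk 0x1e00000000000000000000000000000000 0x50000000700000007000000070000001e00000007000000070000000700000005 9 5) 0 0 (step_sound _ 97 [rh9ad9c62864141506, (rheb0810cc63b001d8.shift 0 3)] (by decide +kernel))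
noncomputable def rhcb440d7ac054a977 : CRef := CRef.mk (Pat.mk 0xe0000000800000008 0x5000000070000000700000006000001f7000000fe000001cf0000000c 9 9) 0 0 (step_sound _ 68 [(rh14f0649c351b0eb7.shift 0 1), rh39400817b198d246, (rh3b00e9e9432b8f40.shift 0 1), (rhb18e6c78a554867d.shift 0 2)] (by decide +kernel))
noncomputable def rh4962a6c834c13761 : CRef := CRef.mk (Pat.mk 0x1000000014000000100000001000000000 0x40000000c0000003f0000003f000000330000001a00000008 9 6) 0 0 (step_sound _ 131 [rh14a45999957af193, (rh50fbb5868c909700.shift 3 1)] (by decide +kernel))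
noncomputable def rhe762ac5df6378ea4 : CRef := CRef.mk (Pat.mk 0xa000000080000000800000000 0x100000001c0000001c0000001c000000780000007f0000001f0000000c00000004 9 7) 0 0 (step_sound _ 131 [(rh0363d47a46978688.shift 0 1), (rh1726a00b0a8befd0.shift 2 0), (rh20966da26a1c2ae8.shift 2 0), (rh59715b3e1c0e1f10.shift 0 1), (rh68ae634e1ebb8f05.shift 1 1), (rhf4e9e26b335fe316.shift 2 0)] (by decide +kernel))
noncomputable def rh750d9f0bfb43b2d4 : CRef := CRef.mk (Pat.mk 0x80000000a000000080000000800000000 0x40000001c0000001c000000180000000c0000001f0000001c0000000c00000004 9 5) 0 0 (step_sound _ 34 [(rh2d09c3908e713579.shift 0 1), (rh932754581e0f4330.shift 2 0)] (by decide +kernel))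
noncomputable def rh6fad4c06358c0840 : CRef := CRef.mk (Pat.mk 0xa0000000800000008 0x140000001c0000001c000000fc0000007f000000fe0000001f0000000c 9 8) 0 0 (step_sound _ 99 [rh142161f605ffde05, rh4e55bb8c152eaae3, rh59715b3e1c0e1f10, (rh68ae634e1ebb8f05.shift 1 0), (rha011e19fdaacded3.shift 1 0), (rhc85cc95794737cf7.shift 2 0)] (by decide +kernel))
noncomputable def rh397bbf8a9347d422 : CRef := CRef.mk (Pat.mk 0x5000000040000000400000000 0x80000000e0000000e0000007e0000007e000000ef0000000e0000000600000002 9 8) 0 0 (step_sound _ 130 [(rh1726a00b0a8befd0.shift 1 0), (rh20966da26a1c2ae8.shift 1 0), (rh5ad14598e2c21a97.shift 0 1), (rh68ae634e1ebb8f05.shift 0 1), (rh771d065bdc85bf2d.shift 1 0), (rhf4e9e26b335fe316.shift 1 0)] (by decide +kernel))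
noncomputable def rhe3f0b9189c48765d : CRef := CRef.mk (Pat.mk 0xa000000080000000800000000 0x100000001c0000001c0000001c0000001f0000003b0000001c0000000c00000004 9 6) 0 0 (step_sound _ 131 [(rh018f2ebb4d91ad9d.shift 0 1), (rh1726a00b0a8befd0.shift 2 0), (rh20966da26a1c2ae8.shift 2 0), (rh771d065bdc85bf2d.shift 2 0), (rhc85cc95794737cf7.shift 2 1), (rhf4e9e26b335fe316.shift 2 0)] (by decide +kernel))
noncomputable def rh0ef2c3048d023286 : CRef := CRef.mk (Pat.mk 0x20000000100000001000000014000000100000005000000000 0x30000000340000001c000001df000000fe000000f30000005200000040 9 9) 0 0 (step_sound _ 196 [(rh2f68792b6b779e96.shift 4 3), rhe631069a9a4fde61] (by decide +kernel))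
noncomputable def rha20e808a04dae405 : CRef := CRef.mk (Pat.mk 0xe0000000800000028000000000000000000000000 0xc0000000f000001ff000000fe000001fc0000002c000000740000007000000050 9 9) 0 0 (step_sound _ 164 [(rh14f0649c351b0eb7.shift 0 4), (rh257411a10614b6c1.shift 1 0), (rhafe6c2722a73a1a8.shift 0 2), (rhb18e6c78a554867d.shift 0 5)] (by decide +kernel))
noncomputable def rh7eb86cdebefe9c7f : CRef := CRef.mk (Pat.mk 0xa000000080000002800000000 0x100000001c0000001c0000001c000000780000003f0000007c0000002c00000024 9 7) 0 0 (step_sound _ 131 [(rh1726a00b0a8befd0.shift 2 0), (rh20966da26a1c2ae8.shift 2 0), rh234b9e8903310361, (rh68ae634e1ebb8f05.shift 1 1), (rhf4e9e26b335fe316.shift 2 0)] (by decide +kernel))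
noncomputable def rh3f256a784b035849 : CRef := CRef.mk (Pat.mk 0x500000004000000140000000000000000000000000 0x9000000090000007ff000003fe000003ef00000148000003800000038000000280 9 11) 0 0 (step_sound _ 165 [(rh554009a2f490582e.shift 0 4), (rh56e3bea49a5ffec8.shift 4 0), (rhdba4da4e151cbcc5.shift 0 3)] (by decide +kernel))
noncomputable def rhf1d755d44fe2de7a : CRef := CRef.mk (Pat.mk 0x80000000a000000080000002800000000 0x170000001f000000fe000001fe0000002e00000024 9 9) 0 0 (step_sound _ 130 [(rh50fbb5868c909700.shift 2 1), rhad276b0568385096] (by decide +kernel))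
noncomputable def rhb6c8efb17806eddd : CRef := CRef.mk (Pat.mk 0x100000001400000010000000100000000000000000 0x140000001e0000007c000000ff0000001f0000000a00000002 9 8) 0 0 (step_sound _ 67 [(rh932754581e0f4330.shift 3 1), rhebccb200f5d35391] (by decide +kernel))
noncomputable def rh780eb0fcbe61127b : CRef := CRef.mk (Pat.mk 0x3000000014000000100000001000000000 0x2000000020000000f0000007f0000007c000000760000001e0000000c 9 7) 0 0 (step_sound _ 131 [(rh50fbb5868c909700.shift 3 1), rhf2a0137daf1cf560] (by decide +kernel))
noncomputable def rh7ea74aae767c8e2b : CRef := CRef.mk (Pat.mk 0x38000000140000001000000058000000000000000000000000 0x8000000086000003fe000001f4000003fe0000005e000000470000000200000002 9 10) 0 0 (step_sound _ 165 [(rh6292bd8784ece55f.shift 2 5), (rh80d83ff8d448048f.shift 2 2), rha82e37c3ad84c7d5] (by decide +kernel))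
noncomputable def rh747f822b211cbc9d : CRef := CRef.mk (Pat.mk 0x180000000a000000080000002400000000 0x100000003000001ff000000fe000001ff0000002400000020 9 9) 0 0 (step_sound _ 98 [rh37699cec2f6e4fb4, (rh572132728df34c43.shift 1 3), (rh80f90a60d87caa0d.shift 1 3), (rhafdf94f2acdc0ed4.shift 1 3)] (by decide +kernel))
noncomputable def rhd25fef0fb2e17855 : CRef := CRef.mk (Pat.mk 0x400000005000000040000001400000000 0x1e8000000fc000001ff000000ff0000001700000012 9 9) 0 0 (step_sound _ 33 [rh473f36f42608bd8d, (rh932754581e0f4330.shift 1 0)] (by decide +kernel))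
noncomputable def rh5ea81b026542da7e : CRef := CRef.mk (Pat.mk 0x1e0000000800000008000000000000000000000000 0x70000001e0000003b0000000f000000070000000700000005 9 6) 0 0 (step_sound _ 132 [rhc0405dd9b5849e63, (rhe25b0a99195a5d59.shift 1 4)] (by decide +kernel))
noncomputable def rh87cdbe27f70260bf : CRef := CRef.mk (Pat.mk 0x1a0000000800000028000000000000000000000000 0x1000000010000000ff0000007e0000006800000028000000700000007000000050 9 8) 0 0 (step_sound _ 162 [(rh2a535ce68d5cfc5d.shift 0 2), rh394b5e194a5b6455, (rh49606a42a30c7ac4.shift 1 3)] (by decide +kernel))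
noncomputable def rh23e56f8bfa032f91 : CRef := CRef.mk (Pat.mk 0x1a0000000800000028000000000000000000000000 0x1400000014000000770000007e0000007b0000002a000000700000007000000050 9 7) 0 0 (step_sound _ 162 [(rh21460d2d48a35cb8.shift 0 3), (rh712b16cb3a117b98.shift 1 0), (rh94246470f0e6fdf7.shift 1 3)] (by decide +kernel))
noncomputable def rh72c1a545b7a1f95c : CRef := CRef.mk (Pat.mk 0x10000000080000000e000000080000002000000000 0x1800000018000000ef000000fe000001f80000002000000020 9 9) 0 0 (step_sound _ 163 [(rh2f68792b6b779e96.shift 3 2), rhf3db3ae927cdf624] (by decide +kernel))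
noncomputable def rhd7ff55a1143a1594 : CRef := CRef.mk (Pat.mk 0x1e0000000800000000000000000000000000000000 0x70000001e0000003f00000003000000070000000700000005 9 6) 0 0 (step_sound _ 193 [(rh3244c3cc8379b070.shift 0 5), rhabb18f4d098cb3b5] (by decide +kernel))
noncomputable def rh2146647acd9525ab : CRef := CRef.mk (Pat.mk 0x140000001c00000010000000000000000000000000 0x1800000018000000fc000000fc0000001f0000000f0000000e00000006 9 8) 0 0 (step_sound _ 99 [rh13ef087501181018, (rh1e309b005ffa1b36.shift 3 1), rhcef342ff4fc45254] (by decide +kernel))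
noncomputable def rh165a58c8e219b69a : CRef := CRef.mk (Pat.mk 0xa0000000a0000002800000000 0x400000004000000ef000000fe000001ff0000002b00000023 9 9) 0 0 (step_sound _ 100 [(rh0b786d94a31538a6.shift 0 2), rh773834d8b3b46161, (rhda02c4ce0b224328.shift 0 2), rhe56ade3d7de9e8e5] (by decide +kernel))
noncomputable def rhfa7a6fe2642e1d0d : CRef := CRef.mk (Pat.mk 0x28000000280000003800000000000000000000000000000000 0x1000000010000000380000003800000038000000380000000c0000001f0000007c00000010 9 7) 0 0 (step_sound _ 228 [rh65dbbe7fe75d26f5, (rh87d5e4118780fa3b.shift 3 3), (rh8b14df1b185c100a.shift 3 4)] (by decide +kernel))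
noncomputable def rh8f3c23d30ef38b04 : CRef := CRef.mk (Pat.mk 0xa000000020000002200000000 0x500000007000000e70000007e000000730000002300000023 9 8) 0 0 (step_sound _ 129 [(rh1741680720c097b4.shift 0 1), rh3b734c5288922837, rh771d065bdc85bf2d, rha57fcef68bd1c875] (by decide +kernel))
noncomputable def rh32a36d34788e9ade : CRef := CRef.mk (Pat.mk 0xa0000000a0000002800000000 0x5000000070000000700000006000000e70000007e0000007f0000002c00000024 9 8) 0 0 (step_sound _ 100 [(rh0b786d94a31538a6.shift 0 2), rha76b1ceb08e774cc, (rhda02c4ce0b224328.shift 0 2), rhe56ade3d7de9e8e5] (by decide +kernel))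
noncomputable def rhb98e14c5c8abde59 : CRef := CRef.mk (Pat.mk 0x1000000010000000500000000000000000 0x8000000180000001800000010000000380000007f0000003e0000002f 9 7) 0 0 (step_sound _ 164 [rh0da0c3a9036404ec, (rh5abfc4c9d959be03.shift 3 1), (rh771d065bdc85bf2d.shift 3 1)] (by decide +kernel))
noncomputable def rhf595d31fd98fbd14 : CRef := CRef.mk (Pat.mk 0xa0000000a0000000200000000000000000000000000000000 0x500000007000000070000007a0000001f0000000600000007000000070000000700000004 9 7) 0 0 (step_sound _ 97 [rh15796d2d34ac7730, (rh2e231bee8e9e924b.shift 0 1), (rh8cdd36b03d57a2f6.shift 0 1), (rha087c6594f4bfb59.shift 0 2)] (by decide +kernel))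
noncomputable def rhade143d5c40f84ae : CRef := CRef.mk (Pat.mk 0xa0000000a000000080000000000000000000000000 0x280000007c000001ef000000fe000000ff000000700000007000000060 9 9) 0 0 (step_sound _ 132 [(rh0af1044008953213.shift 0 3), (rh6c1cdca9e0563a00.shift 2 0), (rh747a2bb84ca9c3b2.shift 1 3), (rh9f2591205204f08d.shift 4 4)] (by decide +kernel))
noncomputable def rhf6454ed7b2002375 : CRef := CRef.mk (Pat.mk 0xa0000000a00000028000000000000000000000000 0x1000000010000000f00000007e0000007f00000028000000700000007000000050 9 8) 0 0 (step_sound _ 164 [(rh0b786d94a31538a6.shift 0 4), (rh36ba6f6dab0e2c44.shift 1 0), rhcf23f699a2a8e27b, (rhda02c4ce0b224328.shift 0 4)] (by decide +kernel))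
noncomputable def rh49c15d1008bd2904 : CRef := CRef.mk (Pat.mk 0xa0000000a00000028000000000000000000000000 0x400000014000000f70000007e0000007f00000028000000700000007000000050 9 8) 0 0 (step_sound _ 164 [(rh0b786d94a31538a6.shift 0 4), rhcf23f699a2a8e27b, (rhda02c4ce0b224328.shift 0 4), (rhf9d5db2f6187735c.shift 0 2)] (by decide +kernel))
noncomputable def rh140521b70eb86a69 : CRef := CRef.mk (Pat.mk 0x1a0000000a000000280000000000000000 0x4000000054000000f4000003fe000001fe000003af0000002200000020 9 10) 0 0 (step_sound _ 100 [(rh63973ee2238d2449.shift 1 2), (rh8cbbc29a150c4f10.shift 0 1), (rhecbbba3143bd9724.shift 2 0)] (by decide +kernel))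
noncomputable def rhabfb261b2812911f : CRef := CRef.mk (Pat.mk 0x140000001400000050000000000000000000000000 0xa0000000e0000002e0000002e000001ef000000fc000000fc0000005f000000ee000000e0000000a0 9 9) 0 0 (step_sound _ 163 [(rh56e3bea49a5ffec8.shift 2 0), (rh7d808fdd70fddd3a.shift 0 2), (rhb7d3d7fe4e916dab.shift 1 2), (rhccf01267a8e22d44.shift 1 3)] (by decide +kernel))
noncomputable def rh1f29cbcfe2741478 : CRef := CRef.mk (Pat.mk 0x50000000500000005000000000 0x2f0000003e00000077000000d00000007800000028 9 8) 0 0 (step_sound _ 132 [rh1ddf8c79eb23a15c, (rh565169fdbcfbf9eb.shift 0 1), (rhe8768a83bdb59c61.shift 3 0)] (by decide +kernel))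
noncomputable def rh970aed97d4bae258 : CRef := CRef.mk (Pat.mk 0x7000000020000000a000000000000000000000000 0x400000004000001fc000000ff000001fe0000000a0000001c0000001c00000014 9 9) 0 0 (step_sound _ 163 [rh33d3f1ba39b8bd00, (rha056b86642bda627.shift 0 2), (rhdbe30b89b8872db3.shift 0 4)] (by decide +kernel))
noncomputable def rhebd87b9c732791f6 : CRef := CRef.mk (Pat.mk 0x100000005000000040000000000000000000000000 0x2800000038000000380000003800000030000000ff0000007f0000003f0000003f00000028 9 8) 0 0 (step_sound _ 100 [(rh16d5150a4767b77a.shift 3 0), rh310d8c1897d86d09, (rh5dfa61fd702a77cf.shift 1 2), rh8fa42b0c52f21b74, (rhc62057506e88083e.shift 3 2), (rhdeebb54323221089.shift 3 0)] (by decide +kernel))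
noncomputable def rh2d253f50e1cae92f : CRef := CRef.mk (Pat.mk 0x14000000060000000800000008 0xe0000000f0000003b0000003f0000000e0000000800000008 9 6) 0 0 (step_sound _ 99 [(rh18965a982d73c794.shift 1 2), rh5626b7178a8a1ec3] (by decide +kernel))
noncomputable def rh265b62acdf4a545a : CRef := CRef.mk (Pat.mk 0x100000001000000010 0x2000000030000000380000003f000000fe000000ff0000003800000018 9 8) 0 0 (step_sound _ 100 [(rh1728f021e30dac24.shift 3 0), (rh1741680720c097b4.shift 3 0), (rh1f25b33bbea643f0.shift 3 0), rh6ab0f2d813d99d98, (rhf927af2b331f35d4.shift 3 0)] (by decide +kernel))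
noncomputable def rhbe5b4e705f13e935 : CRef := CRef.mk (Pat.mk 0x1800000020000000a000000000 0x7000000070000000f8000001fe000001ff000000af00000088 9 9) 0 0 (step_sound _ 68 [(rh25e211d7b3b069c9.shift 1 1), (rh3c3e23a02e82b2ed.shift 1 2), rh436abf0ab2ecb2c0, (rh58cdb5d012614265.shift 1 0), (rh5c5a2014709044d0.shift 1 2)] (by decide +kernel))
noncomputable def rh172f06d5c4065566 : CRef := CRef.mk (Pat.mk 0x1800000020000000a000000000 0x7000000074000000f6000001fe000001ff000000af00000088 9 9) 0 0 (step_sound _ 68 [(rh25e211d7b3b069c9.shift 1 1), (rh3c3e23a02e82b2ed.shift 1 2), rh436abf0ab2ecb2c0, (rh44dfc43c7323aae7.shift 1 0), (rh5c5a2014709044d0.shift 1 2)] (by decide +kernel))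
noncomputable def rhd4209277732943e3 : CRef := CRef.mk (Pat.mk 0x1800000000000000180000003000000000 0xf40000007c000000ee00000038000000ff0000000e 9 8) 0 0 (step_sound _ 35 [rh05bd55df537f83ce, rh848867ba30e8c9fb, (rhda1647748bdb35dc.shift 1 0)] (by decide +kernel))
noncomputable def rh080ff63419a237e9 : CRef := CRef.mk (Pat.mk 0xc0000001e000000100000000000000000 0x30000000b0000000b0000000f0000001e000000170000000600000006 9 5) 0 0 (step_sound _ 129 [(rh3244c3cc8379b070.shift 0 3), rhd858e031d98dbb8d] (by decide +kernel))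
noncomputable def rh9c269c181d7ceef5 : CRef := CRef.mk (Pat.mk 0x1800000038000000200000000000000000 0x1c000000ff000000ff0000001f00000038000000280000000800000008 9 8) 0 0 (step_sound _ 163 [(rh2b4f3c0785538b0e.shift 0 2), (rh4f89f797aa397115.shift 3 2), (rh668abf9c207ad18d.shift 0 2), (rh70e1ae7d5bbbbf54.shift 1 0)] (by decide +kernel))
noncomputable def rh2552d2d5bb06974a : CRef := CRef.mk (Pat.mk 0x18000000080000000800000000 0x2000000160000001f0000003f0000001f0000000f0000000c00000004 9 6) 0 0 (step_sound _ 131 [(rh1741680720c097b4.shift 2 1), (rh3b734c5288922837.shift 2 0), (rh7974377628e60511.shift 0 1), rhbd9df789f891ff13] (by decide +kernel))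
noncomputable def rh99316177889b03e7 : CRef := CRef.mk (Pat.mk 0xc000000180000005000000000 0x340000003c000000ff000000ff000000db0000005200000040 9 8) 0 0 (step_sound _ 131 [(rh2145e1d24b96a57e.shift 3 1), rh7d0a6ab2bfc428a0] (by decide +kernel))
noncomputable def rh9026c06bfe386e0d : CRef := CRef.mk (Pat.mk 0x1e000000180000000000000000 0x34000000340000003f0000001e0000001f0000000200000002 9 6) 0 0 (step_sound _ 132 [(rh33e738c4ed385b9f.shift 1 3), rh392dd09d16f52bcd] (by decide +kernel))
noncomputable def rh8f54d7f6570e8a16 : CRef := CRef.mk (Pat.mk 0xe0000000c00000008000000000000000000000000 0x700000007000000070000007e0000000f0000000b000000070000000700000005 9 7) 0 0 (step_sound _ 164 [(rh1b048598a8b37bd5.shift 1 3), (rh2612b4f73ba7c3b3.shift 1 4), rh2e78ca0b9e99b3d5] (by decide +kernel))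
noncomputable def rh497530510dc8a6c4 : CRef := CRef.mk (Pat.mk 0xe0000000c00000000000000000000000000000000 0x700000007000000770000007e0000000f00000003000000070000000700000005 9 7) 0 0 (step_sound _ 164 [(rh226655e3fe6b4a8a.shift 1 4), (rh2612b4f73ba7c3b3.shift 1 4), rh2e78ca0b9e99b3d5, (rhaf9f2efc81a8312b.shift 0 4)] (by decide +kernel))
noncomputable def rhfe69abd8bd2c4d4b : CRef := CRef.mk (Pat.mk 0x1e00000018000000000000000000000000 0x50000000700000007000000030000001e0000001f000000070000000700000005 9 5) 0 0 (step_sound _ 97 [rh347f6dfa4995bd80, (rheb0810cc63b001d8.shift 0 3)] (by decide +kernel))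
noncomputable def rh777fa0abb810253d : CRef := CRef.mk (Pat.mk 0x1000000000000000580000007800000020 0x3ff000001fe000003cf000000580000007800000028 9 10) 0 0 (step_sound _ 134 [rh7ae97c82d3a7ef21, (rhee230b994cc8b773.shift 5 0)] (by decide +kernel))
noncomputable def rh5ad9b7fda8768606 : CRef := CRef.mk (Pat.mk 0x3000000000000000380000007000000000 0x1ff000000fe000001cf000000380000007e0000000e 9 9) 0 0 (step_sound _ 35 [(rhc0788540949c7bb7.shift 0 1), (rhcc2be1f880c5ea3e.shift 1 0)] (by decide +kernel))
noncomputable def rh6a5926b543649298 : CRef := CRef.mk (Pat.mk 0x30000000000000003000000038 0x1df000000fe000001de000000340000003e 9 9) 0 0 (step_sound _ 2 [(rh53b3c253cb0c65f4.shift 1 0), rhb2aefed8eb377177] (by decide +kernel))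
noncomputable def rh6efb8afa1f921679 : CRef := CRef.mk (Pat.mk 0x30000000000000003000000018 0x1ef000000fe000001de000000340000001e 9 9) 0 0 (step_sound _ 2 [(rh53b3c253cb0c65f4.shift 1 0), rh9f0edb29735b7363] (by decide +kernel))
noncomputable def rh57b2f7bd75fd8caf : CRef := CRef.mk (Pat.mk 0x1800000000000000000000007800000020 0x3ff000001fe000003c7000000c00000007800000020 9 10) 0 0 (step_sound _ 70 [(rh33e738c4ed385b9f.shift 3 1), rh6a3a033dbfcc0146] (by decide +kernel))
noncomputable def rh1a831396d3690826 : CRef := CRef.mk (Pat.mk 0xb000000030000000700000010000000000000000000000000 0x200000003f0000003b0000001f00000010000000380000003800000028 9 6) 0 0 (step_sound _ 164 [(rh5d3e2e278971398b.shift 0 4), (rh7a7cbdf4209ff7c6.shift 0 5), rhc04b8302e602282f] (by decide +kernel))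
noncomputable def rh9f17a4402b3acd11 : CRef := CRef.mk (Pat.mk 0x10000000180000002000000020 0x280000003f0000007e0000007e00000018000000180000003000000020 9 7) 0 0 (step_sound _ 132 [(rh86c13d386e83e68b.shift 0 2), (rhbe0e43a3bc50a43f.shift 4 0)] (by decide +kernel))
noncomputable def rhd6f2fe0ccb8b3c70 : CRef := CRef.mk (Pat.mk 0x6000000000000000700000004000000040 0x3df000001fe000003de000000700000006000000040 9 10) 0 0 (step_sound _ 132 [(rh33f8b5ed5da08169.shift 4 0), (rh6a56180c10599970.shift 3 1), (rh84fc73035c5bb51a.shift 3 0), (rhb5bfe58352afe42b.shift 1 1), (rhc4282c4921034716.shift 3 0), (rhd489f5ee3fe2e79a.shift 0 1)] (by decide +kernel))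
noncomputable def rh76a72906ee41d626 : CRef := CRef.mk (Pat.mk 0x60000000000000007000000040 0x2800000028000000ff0000007e000000de0000007000000070 9 8) 0 0 (step_sound _ 100 [(rh91d8ce4dac8e4598.shift 4 0), rhd489f5ee3fe2e79a, (rhe8acf97c41299ae7.shift 1 0)] (by decide +kernel))
noncomputable def rh9b14952828254507 : CRef := CRef.mk (Pat.mk 0x300000003800000000 0x60000000e0000000f0000003e0000007e0000000e 9 7) 0 0 (step_sound _ 34 [rh2684cab9281b3e6a, (rh53b3c253cb0c65f4.shift 1 1)] (by decide +kernel))
noncomputable def rh17a8a8fd90290efe : CRef := CRef.mk (Pat.mk 0xc000000100000001000000000 0x300000003c000000ff000000ff0000007f0000001700000006 9 8) 0 0 (step_sound _ 67 [(rh4ca5dae25f5c14ff.shift 0 2), (rhbd0e754d4374ae88.shift 1 0), (rhdeca8db941583de2.shift 0 2), rhf4af149282bff475] (by decide +kernel))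
noncomputable def rh8b5f396ca52df7f0 : CRef := CRef.mk (Pat.mk 0x1000000078000000200000000000000000 0x3c0000003f0000003c00000078000000380000001800000010 9 7) 0 0 (step_sound _ 131 [(rh3244c3cc8379b070.shift 2 3), rh8570b2ca089e7980] (by decide +kernel))
noncomputable def rh2167a28eef75c27f : CRef := CRef.mk (Pat.mk 0x800000038000000a0000000000000000000000000 0x11800000118000003d8000001f8000000bc0000009f0000009c0000001c 9 10) 0 0 (step_sound _ 134 [rh5e8244a6088f18ed, (rh790acd67f4fffd04.shift 3 4), rh9f254fcbdfeefb81, (rhececc2ee7da1d4c6.shift 3 1)] (by decide +kernel))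
noncomputable def rh111d357bccd75c52 : CRef := CRef.mk (Pat.mk 0x800000038000000320000000000000000 0x500000017000000170000001f0000003f0000003b0000001b00000019 9 6) 0 0 (step_sound _ 97 [rh179f9bd917010755, (rhab22b5b56e7b3243.shift 1 2)] (by decide +kernel))
noncomputable def rh3413e39b1b5f7a30 : CRef := CRef.mk (Pat.mk 0x1800000070000000600000000000000000 0x3c0000003f000000380000007c0000007c0000001000000010 9 7) 0 0 (step_sound _ 99 [rh9eae011e45f7aefe, (rhb739f4f82bb681b4.shift 2 2)] (by decide +kernel))
noncomputable def rhe55a0456510d726a : CRef := CRef.mk (Pat.mk 0x1000000050000001400000000000000000 0x28000000380000023800000238000007bf000003fe0000017e0000011c0000011c 9 11) 0 0 (step_sound _ 101 [(rh38791ac5737ed75e.shift 3 3), rh8895ad51455b84b3, rh8d3110c424aed2bd, (rha9fbfd4bb8cf890b.shift 1 3)] (by decide +kernel))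
noncomputable def rh490ef880444d0299 : CRef := CRef.mk (Pat.mk 0x10000000300000005000000000000000000000000000000000 0x280000003800000038000000380000001000000030000000770000003e0000003f0000003800000020 9 7) 0 0 (step_sound _ 228 [(rhc85cc95794737cf7.shift 3 4), (rhd4b4beefcd67f51e.shift 4 3), rhe823ea448f375f5e, (rhfb9fb48a5e63ed80.shift 3 4)] (by decide +kernel))
noncomputable def rh5b3c582865ac28bc : CRef := CRef.mk (Pat.mk 0x1000000190000000300000004000000000000000000000000000000000 0xe8000000f8000001b000000030000000770000003e0000003f0000003800000020 9 9) 0 0 (step_sound _ 132 [(rh23010d3b92cc2194.shift 3 1), (rh49759b6975f15643.shift 3 1), (rh9cf464eb73f7ae11.shift 3 0), (rha8dab5843f085d4f.shift 3 3), (rhb72c6d3b8f00eaae.shift 3 1), rhe823ea448f375f5e] (by decide +kernel))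
noncomputable def rh931c9476afb8bcda : CRef := CRef.mk (Pat.mk 0x1000000110000000700000016000000000000000000000000 0x280000003e0000003b000000330000003f00000017000000380000003800000028 9 6) 0 0 (step_sound _ 132 [(rh9548c07d1d1f2a1b.shift 1 2), (rhafe0a86dc059044e.shift 0 3), rhc8ed0cd2fc307f2a] (by decide +kernel))
noncomputable def rha445f14da046771b : CRef := CRef.mk (Pat.mk 0x1000000110000000300000014000000000000000000000000000000000 0x1e8000001f8000003b000000130000001770000003e0000003f0000003800000020 9 10) 0 0 (step_sound _ 132 [(rh23010d3b92cc2194.shift 3 1), (rh49759b6975f15643.shift 3 1), (rh933090e6461351af.shift 3 3), (rh9cf464eb73f7ae11.shift 3 0), (rhb72c6d3b8f00eaae.shift 3 1), rhe823ea448f375f5e] (by decide +kernel))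
noncomputable def rhce2d0367fb13c9fa : CRef := CRef.mk (Pat.mk 0x100000005000000040000000000000000000000000 0x10000000180000001f000001fe0000007f0000003e0000003c00000038 9 9) 0 0 (step_sound _ 133 [(rh09291b12208037b0.shift 0 1), (rha9fbfd4bb8cf890b.shift 1 4), (rhc126a2d483e3db27.shift 1 0), (rhea3c36b66d54eaf8.shift 3 1), (rhfde2c6903cc051ad.shift 0 1)] (by decide +kernel))
noncomputable def rh916b37582f8394b6 : CRef := CRef.mk (Pat.mk 0xc0000003800000020000000000000000000000000 0x140000001c0000001c0000001f0000007c0000001c000000380000003e0000001f0000001c0000001c 9 7) 0 0 (step_sound _ 99 [rh3c37fa2aa19fc550, (rh56259dd1390eee46.shift 2 0), (rh668fc65514a55b16.shift 2 1), (rh767e3705445de28c.shift 2 1), rhe54392b04addbc3b, (rhfc1f38e77c497e2e.shift 0 2)] (by decide +kernel))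
noncomputable def rh6a38a633f768a23f : CRef := CRef.mk (Pat.mk 0xc0000003800000020000000000000000000000000 0x140000001c0000001c0000001f0000007c0000001c0000003c0000002f0000001c0000001c00000014 9 7) 0 0 (step_sound _ 99 [(rh01483ff9cba2f6ac.shift 2 0), (rh029f82fcbdb61681.shift 2 0), rh3c37fa2aa19fc550, (rh909031182cd44872.shift 0 2), (rh98ffd43cad60040d.shift 2 0), (rhd1779d7de7f8215b.shift 2 0)] (by decide +kernel))
noncomputable def rhb848ab9d3ce98ca0 : CRef := CRef.mk (Pat.mk 0x180000000c000000180000000000000000 0x500000017000000370000001f000000ff0000001f0000000600000006 9 8) 0 0 (step_sound _ 97 [(rhb739f4f82bb681b4.shift 0 2), rhf471b4a136020f9b] (by decide +kernel))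
noncomputable def rhe8ab189175315f47 : CRef := CRef.mk (Pat.mk 0x18000000300000002000000000 0xc0000001c0000001c0000001e0000007c0000002f0000000c 9 7) 0 0 (step_sound _ 98 [rh354a387836d831b8, (rhb739f4f82bb681b4.shift 1 2)] (by decide +kernel))
noncomputable def rh51ab296a4ee56466 : CRef := CRef.mk (Pat.mk 0x200000006000000040000000000000000000000000 0x2800000078000000f8000003de000001ff000000fe0000007f0000003c0000003c00000034 9 10) 0 0 (step_sound _ 132 [(rh0a7b639b2b8c6814.shift 1 3), (rh26bd48145358d107.shift 0 3), (rh2d6cd15875c439c6.shift 1 0), (rh458bb13bb93083a8.shift 2 2), (rh7b4f405d3949d94c.shift 1 0), (rh8a87d5db41754290.shift 1 3), (rhaac7e64f8151c096.shift 1 3), (rhdd0ac0f88f27a08d.shift 1 3), (rhfb42b3948e71e89a.shift 0 3)] (by decide +kernel))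
noncomputable def rh59ef8705fbb03f31 : CRef := CRef.mk (Pat.mk 0x80000003800000020000000000000000000000000 0x140000001c0000001c0000001f0000007c000000180000007c0000002f0000001c0000001c00000014 9 7) 0 0 (step_sound _ 99 [(rh029f82fcbdb61681.shift 2 0), (rh2820ca9a6c4f41b4.shift 0 3), rh3c37fa2aa19fc550] (by decide +kernel))
noncomputable def rh414d45f545981fb9 : CRef := CRef.mk (Pat.mk 0x100000005000000140000000000000000000000000 0x20000000208000007bf000003fe0000017e0000013e0000013c00000038 9 11) 0 0 (step_sound _ 133 [rh322433eebc9e4e19, (rh8d3110c424aed2bd.shift 0 1), (rha9fbfd4bb8cf890b.shift 1 4), (rhc126a2d483e3db27.shift 1 0)] (by decide +kernel))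
noncomputable def rh8a558223d8e6a069 : CRef := CRef.mk (Pat.mk 0x8000000080000000800000000 0x40000001c0000001f0000003f0000003f0000000c0000000c00000004 9 6) 0 0 (step_sound _ 131 [(rh20966da26a1c2ae8.shift 2 0), rh23faec912ebb5a9f, (rh771d065bdc85bf2d.shift 2 0), (rhc85cc95794737cf7.shift 2 1), (rhe01cfd8f0577defd.shift 2 1)] (by decide +kernel))
noncomputable def rh3c179db23d0eaedc : CRef := CRef.mk (Pat.mk 0x10000000100000001000000000 0x280000003f0000007e0000003f000000180000001800000008 9 7) 0 0 (step_sound _ 132 [(rh1741680720c097b4.shift 3 1), (rh20966da26a1c2ae8.shift 3 0), (rh771d065bdc85bf2d.shift 3 0), rhda361581fd12353e] (by decide +kernel))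
noncomputable def rhbdea2099c1fd4a1f : CRef := CRef.mk (Pat.mk 0x10000000500000004000000000000000000000000000000000 0x38000000380000003800000030000000ff0000007f0000003f0000003f0000003800000028 9 8) 0 0 (step_sound _ 132 [(rh029f82fcbdb61681.shift 3 1), (rh042bb8ca439a3a8d.shift 3 3), rh0527d1845a70a1e7, (rh69eb17a882fdcb14.shift 0 3), (rh6ee0b2d9c4263c53.shift 2 3), (rh974f4e57f0f80455.shift 0 1), (rh97519811245bffa8.shift 3 1)] (by decide +kernel))
noncomputable def rh3cc154af21c7d856 : CRef := CRef.mk (Pat.mk 0x40000001c000000100000000000000000 0xa0000000e0000000e0000000c000000ff0000001f0000000a00000008 9 8) 0 0 (step_sound _ 67 [(rh9a45fdf01c5c42e4.shift 0 1), (rha40d42a2e34c408d.shift 2 0), rhdd24bc396a0443d1] (by decide +kernel))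
noncomputable def rh6b6dc5e5764d4e1a : CRef := CRef.mk (Pat.mk 0x800000008000000280000002000000000000000000000000000000000 0x140000001c0000001f000000ff000001ee0000003c000000180000001c0000001c00000014 9 9) 0 0 (step_sound _ 131 [(rh210928190827b327.shift 1 3), (rh6f98d11fdf64c635.shift 2 0), (rh8ff3dde5b1c639e0.shift 2 2), (rhc85cc95794737cf7.shift 2 4), (rhf5924acdbae8c415.shift 0 3)] (by decide +kernel))
noncomputable def rhdf079a6a0da78fd4 : CRef := CRef.mk (Pat.mk 0x1000000008000000080000002800000028 0x8000000580000007c0000006f0000007c0000006c00000028 9 7) 0 0 (step_sound _ 131 [(rh2f68792b6b779e96.shift 3 1), rh80f64ce87fab52ae] (by decide +kernel))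
noncomputable def rh9b6b0a2fd63afa6e : CRef := CRef.mk (Pat.mk 0x4000000040000001400000010 0xa0000007e0000003f0000003c000000160000001600000012 9 7) 0 0 (step_sound _ 130 [rh15026cad7476510a, (rh1741680720c097b4.shift 1 1), (rh771d065bdc85bf2d.shift 1 0), (rhb7ee8905496f843d.shift 1 0)] (by decide +kernel))
noncomputable def rh5db4a153e263745f : CRef := CRef.mk (Pat.mk 0x70000000200000000000000010 0x18f000001fe0000007f0000001000000010 9 9) 0 0 (step_sound _ 68 [rh00aee29d00007ae9, (rh2612b4f73ba7c3b3.shift 3 2), (rh4dc133ee0ba1420a.shift 2 2), rh5f5158835e4197ab] (by decide +kernel))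
noncomputable def rhe8996ef1f717b314 : CRef := CRef.mk (Pat.mk 0x20000000200000002000000020000000a0000002000000000 0x4000000060000000600000002000000e60000007f0000007b0000002000000020 9 8) 0 0 (step_sound _ 226 [rh558c4cf43e0a5015, (rhbaefcd01e0a8bca3.shift 1 3)] (by decide +kernel))
noncomputable def rhfbdac39e16a7cfa9 : CRef := CRef.mk (Pat.mk 0x10000000100000001800000058000000000000000000000000 0x800000018000000ff000000ff000000df000000060000000600000006 9 8) 0 0 (step_sound _ 133 [(rh02575fc56458b534.shift 0 3), (rhbca71ab025ef4262.shift 3 3), rhecade70a1460bc24] (by decide +kernel))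
noncomputable def rha426c7efb6f9abcf : CRef := CRef.mk (Pat.mk 0x2000000020000000300000003000000000 0x1f0000003e00000077000000770000003e0000000f 9 7) 0 0 (step_sound _ 132 [rh4ab5a43568bfd7da, (rh50fbb5868c909700.shift 4 1)] (by decide +kernel))
noncomputable def rhce5cbd6f20efa95b : CRef := CRef.mk (Pat.mk 0x20000000200000003000000020000000000000000000000000 0x1f0000003e0000007f0000003e0000003e0000001e0000000c00000004 9 7) 0 0 (step_sound _ 100 [(rh932754581e0f4330.shift 4 2), rhf06770119560d50d] (by decide +kernel))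
noncomputable def rh9977ad88fec273b3 : CRef := CRef.mk (Pat.mk 0x1000000010000000180000005800000000 0xf0000001f0000001e000000fc000000de00000004 9 8) 0 0 (step_sound _ 131 [(rh50fbb5868c909700.shift 3 1), rhbee1115a2a7909d2] (by decide +kernel))
noncomputable def rh18d88faf0c16fef0 : CRef := CRef.mk (Pat.mk 0x18000000100000001800000058000000000000000000000000 0x40000001e000000f7000000ff000000df000000070000000600000002 9 8) 0 0 (step_sound _ 133 [(rh02575fc56458b534.shift 0 3), rha50fe5a30aaaf252, (rhbca71ab025ef4262.shift 3 3)] (by decide +kernel))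
noncomputable def rh95b62c70feb836e4 : CRef := CRef.mk (Pat.mk 0x100000001000000018000000500000000000000000 0x600000016000000ff000000ff000000df0000000c00000004 9 8) 0 0 (step_sound _ 67 [rh67e3c3b088b822c2, (rh932754581e0f4330.shift 3 1)] (by decide +kernel))
noncomputable def rhd25ee810ded0cf24 : CRef := CRef.mk (Pat.mk 0x10000000200000003000000080000000800000000000000000 0x10c0000011c000003ff000001fe0000018f0000009e0000001e0000001e 9 10) 0 0 (step_sound _ 131 [(rha11dfd15f08f96e3.shift 2 4), rhec299a55e8ce0ab8, (rheeb1038eb8dbc387.shift 2 0)] (by decide +kernel))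
noncomputable def rh1b4bcec15968765e : CRef := CRef.mk (Pat.mk 0x80000001e00000000 0x50000000700000007000000030000003f0000001e00000007 9 6) 0 0 (step_sound _ 68 [(rh33e738c4ed385b9f.shift 1 1), rhbc185c60b0dca6ab] (by decide +kernel))
noncomputable def rhedc7191241004692 : CRef := CRef.mk (Pat.mk 0x100000001000000010000000580000000000000000 0x1600000016000000ff000000ff000000df0000000400000004 9 8) 0 0 (step_sound _ 99 [(rh5c5e593799055d58.shift 3 2), rh67e3c3b088b822c2] (by decide +kernel))
noncomputable def rh79e2dfaa8afaa996 : CRef := CRef.mk (Pat.mk 0x10000000100000001000000000000000000000000000000000 0x2f0000003e0000007f0000001c00000038000000380000003800000028 9 7) 0 0 (step_sound _ 100 [(rh399f60bc6312554f.shift 0 2), (rh49759b6975f15643.shift 3 0), (rh8ff3dde5b1c639e0.shift 3 1), (rhc4055b4872d6fb38.shift 3 2)] (by decide +kernel))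
noncomputable def rh7a3c78f8cc63548c : CRef := CRef.mk (Pat.mk 0x800000008000000080000002800000020 0x170000003f000000ff0000002c0000002c00000024 9 8) 0 0 (step_sound _ 130 [(rh50fbb5868c909700.shift 2 1), rh779ca6c5eda4a6ff] (by decide +kernel))
noncomputable def rh9d2d966552608705 : CRef := CRef.mk (Pat.mk 0x1000000010000000500000014000000000 0x80000000e0000000f0000007fe000007fe000007fe000003df0000016800000120 9 11) 0 0 (step_sound _ 102 [(rh17efe654bd2155ff.shift 1 2), (rh2407651670d70208.shift 2 1), rh25fe4b8a41ce3528, (rh5e61bfb09d99a74f.shift 1 1), (rh9d0593bf2488d441.shift 1 0), (rhb7d8c50f7d3d9c23.shift 3 1), (rhd29dd2709753ee1f.shift 3 0), (rhe4491ce1f3cd9c14.shift 1 1)] (by decide +kernel))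
noncomputable def rh9c46a7060d06e11a : CRef := CRef.mk (Pat.mk 0x400000004000000040000001000000000000000000000000000000000 0xc0000000e0000000e000000070000001e0000000e0000000e0000000e0000000a 9 5) 0 0 (step_sound _ 130 [(rh49759b6975f15643.shift 1 1), (rh605ebd1d430ac774.shift 1 0), (rh6c59ce14113da07f.shift 2 2), (rh6f98d11fdf64c635.shift 1 0), (rh8335cee50bf8d60c.shift 0 3)] (by decide +kernel))
noncomputable def rh74cf79715023d0dc : CRef := CRef.mk (Pat.mk 0xc00000008000000080000000c00000000 0xf30000007e000000ef0000001f0000000f00000001 9 8) 0 0 (step_sound _ 132 [rh16d1ebaf76a73864, (rh2f68792b6b779e96.shift 3 1)] (by decide +kernel))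
noncomputable def rh5676c571199efcc0 : CRef := CRef.mk (Pat.mk 0x1000000018000000480000004000000000 0x8000000080000001c0000003e000000f8000001fe000000df0000007400000010 9 9) 0 0 (step_sound _ 164 [(rh5c5e593799055d58.shift 3 2), rhbbc3e8b6b90029f1] (by decide +kernel))
noncomputable def rhdc2a8236b56c0a85 : CRef := CRef.mk (Pat.mk 0x1000000018000000480000004000000000 0x1000000090000000f000000078000000cf0000007800000028 9 8) 0 0 (step_sound _ 35 [rh4f9a4fe1de940a49, (rh71222050f2c63a3a.shift 3 0)] (by decide +kernel))
noncomputable def rh185b6404e23915ff : CRef := CRef.mk (Pat.mk 0x1000000010000000180000004800000040 0xc0000008c000000ff000001ff000000fc000000df00000054 9 9) 0 0 (step_sound _ 69 [(rh20aaab6250709fa0.shift 2 1), (rh474e234485f2465c.shift 2 1), rh860933cd98ede05f, (rhc1c8ef3b77490bf7.shift 3 0)] (by decide +kernel))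
noncomputable def rh34ae608003fd79f6 : CRef := CRef.mk (Pat.mk 0x1800000018000000180000000800000000 0x40000003f0000001f0000001b0000001f00000016 9 6) 0 0 (step_sound _ 36 [rh59645b74a41ef591, (rh7b1f1fb55310c477.shift 3 0)] (by decide +kernel))
noncomputable def rh3779ab0ca435c230 : CRef := CRef.mk (Pat.mk 0x800000018000000180000000800000000 0x40000000f0000003f0000001b0000001f00000016 9 6) 0 0 (step_sound _ 36 [(rh7b1f1fb55310c477.shift 3 0), rhf68e5e357595b6d2] (by decide +kernel))
noncomputable def rh938d97af9be64f5e : CRef := CRef.mk (Pat.mk 0x80000001e0000000000000000000000000000000000000000 0x500000007000000070000003f0000001e0000000300000007000000070000000700000005 9 6) 0 0 (step_sound _ 196 [(rh33e738c4ed385b9f.shift 1 5), rha1a13764281c12ff] (by decide +kernel))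
noncomputable def rh8d56a5ed1b884032 : CRef := CRef.mk (Pat.mk 0x20000000200000003800000010 0x10000000100000001f0000003e0000007f0000003800000038 9 7) 0 0 (step_sound _ 100 [rhca73c83edd3db24f, (rhf9a6286f1d5377a2.shift 4 0), rhfa7f4caacd828db5] (by decide +kernel))
noncomputable def rhc5939650e4bf8fd5 : CRef := CRef.mk (Pat.mk 0x1000000018000000080000000000000000 0xc0000000c0000000f0000001f0000001f0000001e0000001c0000001c 9 5) 0 0 (step_sound _ 35 [(rh71222050f2c63a3a.shift 3 0), rhc05cbb9d794246f0] (by decide +kernel))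
noncomputable def rh6810d03a87f91f47 : CRef := CRef.mk (Pat.mk 0x10000000180000000c000000480000000000000000 0x200000006000000370000001f0000001f0000007f0000003200000032 9 7) 0 0 (step_sound _ 68 [(rh2fe78cc5ca4405d8.shift 2 2), rh5f121c888c1a9091] (by decide +kernel))
noncomputable def rh4f45541977e778c8 : CRef := CRef.mk (Pat.mk 0x100000001800000048 0x1c0000001e000000f7000000ff000000df 9 8) 0 0 (step_sound _ 100 [rh000251f6fc426eac, (rh5c5e593799055d58.shift 3 0)] (by decide +kernel))
noncomputable def rhbc9fe4d75e7f61fb : CRef := CRef.mk (Pat.mk 0x8000000080000000c00000024 0x400000004000000060000000f0000007f000000ff0000006c 9 8) 0 0 (step_sound _ 68 [(rh0bb882ba86b2372d.shift 0 1), (rh574fdbf07bdd18b9.shift 0 1), (rh7551299cce63a7a0.shift 1 0), rhcffeea202677a0f5] (by decide +kernel))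
noncomputable def rhed003092ae0c6fb4 : CRef := CRef.mk (Pat.mk 0x180000000c000000200000002000000000 0x8000000080000007c000001fc0000006f0000003e00000017 9 9) 0 0 (step_sound _ 133 [(rh18965a982d73c794.shift 2 3), rh920e8dab75d0ee93] (by decide +kernel))
noncomputable def rh82824d35b7b11e35 : CRef := CRef.mk (Pat.mk 0x180000000e0000002000000020000000000000000000000000 0xc0000001f000000fe000000670000003f0000000f0000000700000005 9 8) 0 0 (step_sound _ 164 [(rh20aaab6250709fa0.shift 1 4), (rh9d1db2a55d27de19.shift 0 4), (rhb447f348b8f2aaa5.shift 0 4), rhed59f5a76731c3f9] (by decide +kernel))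
noncomputable def rhee4cc8af5374ab13 : CRef := CRef.mk (Pat.mk 0x40000000e000000100000001000000000000000000 0x58000000580000007e000000fe0000037f000001fc0000003c0000001c 9 10) 0 0 (step_sound _ 132 [(rh1069dcc4c6d7d888.shift 1 3), (rh1881150757042a5e.shift 0 3), (rh1f9701c4cf497514.shift 1 3), (rh310809b5afd7178c.shift 3 0), (rh4a9662abca1b8825.shift 2 1), (rh592c7139d2c44767.shift 2 3), (rhec299a55e8ce0ab8.shift 1 0)] (by decide +kernel))
noncomputable def rh6afecca201f134d0 : CRef := CRef.mk (Pat.mk 0x180000000e0000002000000000 0x1a0000003e000000f30000001f000000fe0000006c00000008 9 8) 0 0 (step_sound _ 68 [(rh3d501a730f77e9b6.shift 2 0), (rh69e791dc58880d5d.shift 0 1), (rh6f9b955097eeb2e4.shift 0 1), (rhe9e45df45a37d678.shift 0 1)] (by decide +kernel))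
noncomputable def rh9f6fdfdcae475b6b : CRef := CRef.mk (Pat.mk 0x80000002c000000060000001000000010 0x560000007e000000fe000000fc0000006f000000660000007200000010 9 8) 0 0 (step_sound _ 163 [(rh5c5e593799055d58.shift 2 2), rh95ec417bb34bd550] (by decide +kernel))
noncomputable def rhfce208e3035df8fb : CRef := CRef.mk (Pat.mk 0x80000002c00000006000000100000001000000000 0x5000000070000000f00000007c0000006f00000066000000760000001e00000006 9 8) 0 0 (step_sound _ 34 [rh2d3f5067290163e3, (rh9e3edb185cc347de.shift 2 1)] (by decide +kernel))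
noncomputable def rh013e62f07fd3d494 : CRef := CRef.mk (Pat.mk 0x400000004000000060000001200000010 0x2000000038000000380000003c0000003e0000003e0000003700000010 9 6) 0 0 (step_sound _ 68 [(rh4255400751e19784.shift 1 1), (rh79e0e6618d0e65cf.shift 1 0), (rhcaa7ba44a31c4370.shift 0 1), (rhdc45162e28a620df.shift 0 1)] (by decide +kernel))
noncomputable def rh7299406317c9db9c : CRef := CRef.mk (Pat.mk 0x180000000e000000000000000000000000 0x5000000170000001f0000003b0000001f000000fe0000000f0000000400000004 9 8) 0 0 (step_sound _ 100 [rh2395824d1086e2bc, (rh6f9b955097eeb2e4.shift 0 2), rh85f6559bb0eefa7b, (rhb447f348b8f2aaa5.shift 0 2), (rhbc185c60b0dca6ab.shift 0 2)] (by decide +kernel))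
noncomputable def rh8dd6ebfe860879ac : CRef := CRef.mk (Pat.mk 0x80000001e00000000000000040000000000000000 0x100000003b0000001e0000000b0000001f0000000f00000001 9 6) 0 0 (step_sound _ 164 [rh010195deefe38b7c, (rh33e738c4ed385b9f.shift 1 4)] (by decide +kernel))
noncomputable def rh01a753651edb2c61 : CRef := CRef.mk (Pat.mk 0x1800000038000000000000000000000000 0x2000000034000000760000003e0000003f0000001f0000000800000008 9 7) 0 0 (step_sound _ 130 [rh4e9398ae38feac53, (rhb739f4f82bb681b4.shift 1 3)] (by decide +kernel))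
noncomputable def rh445babcca1b240d2 : CRef := CRef.mk (Pat.mk 0x400000004000000060000001200000010 0x2000000038000000380000003c0000003f0000003e0000003700000010 9 6) 0 0 (step_sound _ 68 [(rh4255400751e19784.shift 1 1), (rh79e0e6618d0e65cf.shift 1 0), (rh8aeae207ef4e32d0.shift 0 1), (rhcaa7ba44a31c4370.shift 0 1), (rhf516302f831125d8.shift 0 1)] (by decide +kernel))
noncomputable def rh8b5d80517523fcce : CRef := CRef.mk (Pat.mk 0x6000000020000000800000009000000000 0x400000006000000020000001ae000000fe0000007f 9 9) 0 0 (step_sound _ 37 [(rh12cda698427604cb.shift 4 0), rh40f6748db6af0fea, (rh7b08a2a7822d5c27.shift 4 0)] (by decide +kernel))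
noncomputable def rh2d4279defcfbf2b8 : CRef := CRef.mk (Pat.mk 0x4000000070000001000000010 0x200000003800000038000000380000003f0000003f0000003000000010 9 6) 0 0 (step_sound _ 100 [(rh4fd54f6717f3e7ac.shift 0 2), (rh8de3be3c8425de3f.shift 1 0), rhc307bcce9aa7b8d1, (rhcb00ab67b46fb179.shift 0 2)] (by decide +kernel))
noncomputable def rh7a1f6a0f2b0296d1 : CRef := CRef.mk (Pat.mk 0x200000007000000010000000000000000000000000 0xc0000000c000000ff0000007e0000003f0000000e0000000e0000000a 9 8) 0 0 (step_sound _ 131 [(rh3b9460ceb992f88f.shift 1 3), (rh592c7139d2c44767.shift 1 3), (rh6558fc11d90a948b.shift 1 3), (rh68cef6500c03b622.shift 2 3), rhec299a55e8ce0ab8] (by decide +kernel))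
noncomputable def rh8d58ec6c687cd5d6 : CRef := CRef.mk (Pat.mk 0x180000000800000028 0x140000001c0000001c0000001c000000fc000000ff0000001f000000ff000001e8 9 9) 0 0 (step_sound _ 99 [(rh1741680720c097b4.shift 2 0), rh1aa7dc47e3d83d8f, (rh4cf2b58529def11d.shift 2 0), (rh5a634c360f901c77.shift 2 0), rh5c4644d8c858bef1, (rh6a4c4980304e3079.shift 2 0)] (by decide +kernel))
noncomputable def rh30ffb8d4afd600cc : CRef := CRef.mk (Pat.mk 0xc000000040000001400000000 0x1f0000001f0000007c0000000f0000001c0000001400000004 9 7) 0 0 (step_sound _ 131 [(rh71222050f2c63a3a.shift 2 0), (rh83b6dcb419e3df1b.shift 0 1)] (by decide +kernel))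
noncomputable def rh2a9d9e20cf71b5f0 : CRef := CRef.mk (Pat.mk 0x20000000600000003000000010 0x18000000180000007f000001fe000001f700000030 9 9) 0 0 (step_sound _ 71 [(rh18965a982d73c794.shift 4 1), rh5e4b3e890689c21a] (by decide +kernel))
noncomputable def rh4c2307d38e41ecb7 : CRef := CRef.mk (Pat.mk 0x2000000030000000100000004000000040 0x1ee000001fe000003f7000000c000000040 9 10) 0 0 (step_sound _ 102 [rh1388b97d1c1553cf, (rh2613c889e411427e.shift 5 0)] (by decide +kernel))
noncomputable def rh4e16995cd3f28ca1 : CRef := CRef.mk (Pat.mk 0x200000007000000010000000400000014 0xfe0000007f000000fb0000001c00000014 9 8) 0 0 (step_sound _ 99 [rh66c438da7fa185e0, (rh67d0180ef0585f3c.shift 0 2), rh78864f9e980aced1, rh9c9de8a82d5e4ca8, rhef0cebf72bace38a, (rhf3baec4a0a3dd35e.shift 0 2)] (by decide +kernel))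
noncomputable def rhbd5268775f254b50 : CRef := CRef.mk (Pat.mk 0x4000000060000000200000008000000080 0x1000000010000000ff000000fe000000ef000000a0000000a0 9 8) 0 0 (step_sound _ 103 [(rh2613c889e411427e.shift 6 0), rhafba9015ee0cfd41] (by decide +kernel))
noncomputable def rha548d94a6f18a802 : CRef := CRef.mk (Pat.mk 0x180000001c00000000 0x500000007000000070000000f0000001b0000001f00000007 9 5) 0 0 (step_sound _ 33 [(rh53b3c253cb0c65f4.shift 0 1), rh5569f0f477aca761] (by decide +kernel))
noncomputable def rh0b73c4d0736e4adc : CRef := CRef.mk (Pat.mk 0x2000000030000000300000004000000000 0x180000007f0000003e0000007f000000de00000010 9 8) 0 0 (step_sound _ 36 [(rh71222050f2c63a3a.shift 4 0), (rhfa849d7771498671.shift 0 1)] (by decide +kernel))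
noncomputable def rhadd8ff9a8a15ddd9 : CRef := CRef.mk (Pat.mk 0x18000000180000001c0000002000000020 0x20000000e0000000fc000000df0000005f0000006000000020 9 8) 0 0 (step_sound _ 65 [(rh53b3c253cb0c65f4.shift 0 2), rhb67f7cc981e3af6a] (by decide +kernel))
noncomputable def rha8f74a977dd26e2d : CRef := CRef.mk (Pat.mk 0x18000000080000002000000000 0x600000006000000070000007f000000ff0000006f00000002 9 8) 0 0 (step_sound _ 66 [(rh0bb882ba86b2372d.shift 0 2), (rh574fdbf07bdd18b9.shift 0 2), (rh7551299cce63a7a0.shift 1 1), rhf6422fd86d08c8bb] (by decide +kernel))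
noncomputable def rh3062cc2dcb189b20 : CRef := CRef.mk (Pat.mk 0x40000000e0000000200000000000000000 0x100000001000001cff00000ffe00001c6f0000002000000020 9 13) 0 0 (step_sound _ 37 [(rh46efc3b74c9daebc.shift 0 1), (rh71222050f2c63a3a.shift 5 0)] (by decide +kernel))
noncomputable def rhbd27a65cad1e7c1b : CRef := CRef.mk (Pat.mk 0x1e00000006000000100000001000000000 0x600000006000000030000001e0000003e000000330000001e0000000a 9 6) 0 0 (step_sound _ 100 [(rhe25b0a99195a5d59.shift 1 3), rhe4eddecde82d1f93] (by decide +kernel))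
noncomputable def rh72651d93d15526b9 : CRef := CRef.mk (Pat.mk 0x2000000030000000800000009000000000 0x100000003000000030000001ae000000fe0000007f 9 9) 0 0 (step_sound _ 37 [(rh2656824f78be4f5b.shift 4 0), rh40f6748db6af0fea, (rh4c87c97afcfda1ec.shift 3 0), (rhfff8953c7af09ce5.shift 4 0)] (by decide +kernel))
noncomputable def rh92b0c5774196ef18 : CRef := CRef.mk (Pat.mk 0x80000000c0000002000000000 0x600000006000000070000007f000000ff0000006f00000002 9 8) 0 0 (step_sound _ 100 [(rh0bb882ba86b2372d.shift 0 2), (rh574fdbf07bdd18b9.shift 0 2), (rh7551299cce63a7a0.shift 1 1), rhf6422fd86d08c8bb] (by decide +kernel))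
noncomputable def rh5d30301cd57dfc30 : CRef := CRef.mk (Pat.mk 0x200000007000000010000000000000000000000000 0x1c0000001e0000003f0000007e0000003f0000000e0000000e0000000a 9 7) 0 0 (step_sound _ 131 [(rh1069dcc4c6d7d888.shift 0 3), (rh1f9701c4cf497514.shift 0 3), (rh31a483d007a1a37a.shift 1 2), (rh3b9460ceb992f88f.shift 1 3), (rh592c7139d2c44767.shift 1 3), (rh72ddbefe89b0241f.shift 1 3), rhec299a55e8ce0ab8] (by decide +kernel))
noncomputable def rh7b747664a7d4ea7c : CRef := CRef.mk (Pat.mk 0x20000000300000009000000080 0x11c0000011e000003ff000001fe0000019f00000088 9 10) 0 0 (step_sound _ 70 [(rh474e234485f2465c.shift 3 1), (rhc1c8ef3b77490bf7.shift 4 0), rhcf655f4067115cd0] (by decide +kernel))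
noncomputable def rhd8ae9cf30496c947 : CRef := CRef.mk (Pat.mk 0x1000000018000000080000000000000000 0x140000001c0000001c000000ef000000ff0000001f0000001c0000000c0000000c 9 8) 0 0 (step_sound _ 35 [(rh71222050f2c63a3a.shift 3 0), rhc006266e508039a3] (by decide +kernel))
noncomputable def rh97de1f0bfbdac795 : CRef := CRef.mk (Pat.mk 0x180000000c000000000000000000000000 0x700000007000000070000001f000000ff000000070000000600000006 9 8) 0 0 (step_sound _ 97 [(rh53b3c253cb0c65f4.shift 0 3), rh737ed092db23254c] (by decide +kernel))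
noncomputable def rhd80337218f51c545 : CRef := CRef.mk (Pat.mk 0x1000000010000000500000004000000000000000000000000000000000 0x100000001800000018000000dc0000007f0000003e0000003f0000003800000008 9 8) 0 0 (step_sound _ 132 [(rh210928190827b327.shift 2 3), (rh2e88faa7cc86f648.shift 2 3), (rh4b9f4b08d218d72f.shift 0 1), (rh605ebd1d430ac774.shift 3 0), (rhe8768a83bdb59c61.shift 3 3)] (by decide +kernel))
noncomputable def rh867239122cd8b4e4 : CRef := CRef.mk (Pat.mk 0x1000000010000000500000004000000000000000000000000000000000 0x80000001800000018000000d80000007f0000003e0000003f0000003800000008 9 8) 0 0 (step_sound _ 132 [(rh4b9f4b08d218d72f.shift 0 1), (rh58bd9c951d232c21.shift 3 0), (rh605ebd1d430ac774.shift 3 0), (rhc4526fc8abf298b6.shift 3 2), (rhe8768a83bdb59c61.shift 3 3)] (by decide +kernel))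
noncomputable def rhc6416c87c949383f : CRef := CRef.mk (Pat.mk 0x800000028000000880000001000000000 0x390000001fc000001ef000000880000009800000018 9 10) 0 0 (step_sound _ 35 [(rh55afc6a59410cf00.shift 3 0), rh5ca059cf244e96d1] (by decide +kernel))
noncomputable def rhf222813a2beb4592 : CRef := CRef.mk (Pat.mk 0x20000000400000004000000040000001400000010 0xa0000000e0000000e00000006000000060000000c0000003c0000001f0000001600000014 9 6) 0 0 (step_sound _ 162 [(rh50fbb5868c909700.shift 1 2), rhf38a54cc01ceb3c7] (by decide +kernel))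
noncomputable def rh8245481cba155a43 : CRef := CRef.mk (Pat.mk 0x3000000010000000400000005800000000 0xf40000003e000000ce0000007e00000007 9 8) 0 0 (step_sound _ 37 [(rh33e738c4ed385b9f.shift 3 1), rh76263023c6c08955] (by decide +kernel))
noncomputable def rhb877314a1c393c42 : CRef := CRef.mk (Pat.mk 0x4000000040000001400000010 0x80000000e0000000e0000007e0000003f0000003c0000001e0000001600000012 9 7) 0 0 (step_sound _ 130 [rh15026cad7476510a, (rh6063f6a9ac176357.shift 1 0), (rh771d065bdc85bf2d.shift 1 0), (rh8529fe9f47ce3d5b.shift 1 1), (rhb7ee8905496f843d.shift 1 0)] (by decide +kernel))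
noncomputable def rh4869853105bc929a : CRef := CRef.mk (Pat.mk 0x3c00000008000000200000002000000000 0x40000003e000000780000006f0000003e0000001f 9 7) 0 0 (step_sound _ 101 [rh79f8fda1f5994ae2, (rhe25b0a99195a5d59.shift 2 3)] (by decide +kernel))
noncomputable def rhf462af2fa8809f8e : CRef := CRef.mk (Pat.mk 0x1c000000100000000000000000 0x50000000700000007000000370000001e000000370000000600000006 9 6) 0 0 (step_sound _ 97 [rh3a1f9ba1417df5c5, (rhe25b0a99195a5d59.shift 1 2)] (by decide +kernel))
noncomputable def rh6f765c70fbd72626 : CRef := CRef.mk (Pat.mk 0x3800000010000000400000004000000000 0x28000000380000003c000000ff0000007e000000ff0000003800000070000000d80000007800000028 9 8) 0 0 (step_sound _ 197 [(rh16cbd58a1619e6a8.shift 4 1), rh2217c9001e3e4980, (rh383509f03a4ef313.shift 2 2), (rhbdae503d04582bad.shift 3 1)] (by decide +kernel))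
noncomputable def rh85ba56542c8f8563 : CRef := CRef.mk (Pat.mk 0x70000000200000000000000000 0x10000000100000003f0000007e000000ef0000003c0000003c 9 8) 0 0 (step_sound _ 99 [(rh113448db0ebf54de.shift 2 0), (rh3918eeb6c53434d8.shift 0 2), (rh592c7139d2c44767.shift 1 2), (rha03f6e28ea70fc7d.shift 2 2), (rhfcb55d5dc3b78d1f.shift 1 2)] (by decide +kernel))
noncomputable def rhbc6001a281fc4b47 : CRef := CRef.mk (Pat.mk 0x40000000400000004000000040000001000000010000000000000000000000000 0x80000000c0000000e0000000600000006000000340000001e0000000f0000000e0000000a 9 6) 0 0 (step_sound _ 259 [rh20aeed275d8f6531, (rh2f68792b6b779e96.shift 2 5)] (by decide +kernel))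
noncomputable def rh2b4a8cacdf1375f9 : CRef := CRef.mk (Pat.mk 0x180000000c0000000a0000000a000000180000000800000000 0x50000000f0000001b0000000f0000000a0000000f000000790000000c00000004 9 7) 0 0 (step_sound _ 34 [(rh75e333353f8ccb89.shift 0 1), (rh932754581e0f4330.shift 2 0)] (by decide +kernel))
noncomputable def rh9a9ffc3d3d4752eb : CRef := CRef.mk (Pat.mk 0xa0000000a000000080000002800000000 0x4000000050000003ff000001fe000003f80000002800000020 9 10) 0 0 (step_sound _ 100 [rh335bf86fb600ffc2, (rh72bb9518f297dbf7.shift 1 0), (rhebf172f8583357f1.shift 0 1)] (by decide +kernel))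
noncomputable def rh77e93098a6afd229 : CRef := CRef.mk (Pat.mk 0xc000000050000000580000004000000000 0x280000007e000000ef0000005f0000007f0000005700000006 9 8) 0 0 (step_sound _ 99 [(rh4723afaf4d1af126.shift 3 1), rh923214a82886950a] (by decide +kernel))
noncomputable def rhd89fb92d37252ffb : CRef := CRef.mk (Pat.mk 0xc00000005000000058000000400000000800000000 0x2800000078000000ef0000005f0000005f0000005e0000000c0000000c 9 8) 0 0 (step_sound _ 67 [(rh71222050f2c63a3a.shift 3 0), rhb120ad985bd59d38] (by decide +kernel))
noncomputable def rh7dc2f1dfdf9753b0 : CRef := CRef.mk (Pat.mk 0x1000000018000000000000000800000000 0xc0000000c0000000f0000001f0000001f0000001e0000001c0000001c 9 5) 0 0 (step_sound _ 67 [(rh71222050f2c63a3a.shift 3 0), rhc05cbb9d794246f0] (by decide +kernel))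
noncomputable def rhd3ca8751008562b1 : CRef := CRef.mk (Pat.mk 0x400000016000000100000000000000000 0x30000000300000003000000070000001e000000370000000600000006 9 6) 0 0 (step_sound _ 99 [rhc359ae14cfe16595, (rhe25b0a99195a5d59.shift 1 2)] (by decide +kernel))
noncomputable def rh7b6072d21b803efe : CRef := CRef.mk (Pat.mk 0x1800000050000000400000006000000000 0x140000001c0000001e0000000f0000001f0000007f000000df0000007e0000001e 9 8) 0 0 (step_sound _ 99 [(rh458ab99d1bfd8b30.shift 3 0), (rh591b01406a282cb2.shift 1 0), (rh665fa2b016ee28ae.shift 2 2), (rh923214a82886950a.shift 0 1)] (by decide +kernel))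
noncomputable def rh00d6df1d79a46330 : CRef := CRef.mk (Pat.mk 0x40000000e0000000200000000000000000 0x7000000078000001de000000fe0000003f0000002000000020 9 9) 0 0 (step_sound _ 5 [(rh6949440d344f884c.shift 0 2), (rh9e3edb185cc347de.shift 5 0)] (by decide +kernel))
noncomputable def rhf2d0eed062749239 : CRef := CRef.mk (Pat.mk 0x8000000080000000a000000080000000800000000 0x40000001c0000001c000000180000000c0000001f000000780000000c00000004 9 7) 0 0 (step_sound _ 196 [rhb09f96361caf72b5, (rhbaefcd01e0a8bca3.shift 3 2)] (by decide +kernel))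
noncomputable def rhcee6cd01f55cf020 : CRef := CRef.mk (Pat.mk 0x3800000028000000200000002000000000 0x60000003c000000680000006f0000003e00000017 9 7) 0 0 (step_sound _ 130 [rh0cfbd20b906c70c6, (rhe25b0a99195a5d59.shift 2 3)] (by decide +kernel))
noncomputable def rhc3f8e6f9e904f136 : CRef := CRef.mk (Pat.mk 0x280000002800000020000000200000000000000000 0x140000007c000000640000007c000000780000006f0000003e0000001f00000014 9 7) 0 0 (step_sound _ 198 [rh34b2de25f71a03cf, (rhbaefcd01e0a8bca3.shift 5 2)] (by decide +kernel))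
noncomputable def rh9f8e0ef2761391d6 : CRef := CRef.mk (Pat.mk 0xa0000000200000008000000280 0x28000000380000003800000fdf000007fe00000f7f000003a000000280 9 12) 0 0 (step_sound _ 102 [(rh2820ca9a6c4f41b4.shift 2 2), (rh4b7c6726086d5ca6.shift 0 1), (rh504df99a2451d493.shift 4 0), (rhb852e0292eb0aa89.shift 2 0)] (by decide +kernel))
noncomputable def rhbf54cdfbb94fbe06 : CRef := CRef.mk (Pat.mk 0x10000000100000005000000040000000000000000000000000 0x3000000038000000f8000000dc0000007f0000003e0000003f00000028 9 8) 0 0 (step_sound _ 100 [(rh2e88faa7cc86f648.shift 2 2), (rh3f5207fbbe366c95.shift 2 2), rh4b9f4b08d218d72f, (rh65a643973921d367.shift 3 2), (rhc400d3ce99a0a6f7.shift 2 0)] (by decide +kernel))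
noncomputable def rh2f29a75a07d93df0 : CRef := CRef.mk (Pat.mk 0x1000000010000000100000001000000000 0xee000000ff0000003e000000180000001800000008 9 8) 0 0 (step_sound _ 133 [(rh2f68792b6b779e96.shift 4 1), rha191243300fee798] (by decide +kernel))
noncomputable def rh43b653f8b91f8777 : CRef := CRef.mk (Pat.mk 0x10000000100000001000000040000000000000000000000000 0x2800000038000000380000003800000018000000770000003e0000003f00000028 9 7) 0 0 (step_sound _ 100 [(rh1741680720c097b4.shift 3 3), (rh32e32f03ae89b559.shift 3 2), (rh49759b6975f15643.shift 3 0), rh4b9f4b08d218d72f, (rhc850b49d039efae1.shift 3 0)] (by decide +kernel))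
noncomputable def rh97ba0137397d0733 : CRef := CRef.mk (Pat.mk 0x1000000070000000400000000000000000 0xc0000001c0000001c0000001f0000007e0000007f0000003c0000003c 9 7) 0 0 (step_sound _ 99 [(rh31edea79c38d604a.shift 2 0), (rh3423e5ac208fb65b.shift 2 0), (rh6a5aeac7ed90cff2.shift 2 0), (rh88c620441a3a17ea.shift 0 2), (rhc359ae14cfe16595.shift 2 0), (rhee7dc6826bc99ade.shift 2 0)] (by decide +kernel))
noncomputable def rh25f11acaf10141a3 : CRef := CRef.mk (Pat.mk 0x1000000070000000400000000000000000 0xc0000007c000000fc000000df0000007e0000007f0000001c0000001c 9 8) 0 0 (step_sound _ 99 [(rh3423e5ac208fb65b.shift 2 0), (rh6a5aeac7ed90cff2.shift 2 0), (rh88c620441a3a17ea.shift 0 2), (rhc359ae14cfe16595.shift 2 0), (rhee7dc6826bc99ade.shift 2 0), (rhfc4a245e16829331.shift 2 2)] (by decide +kernel))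
noncomputable def rh2e71ab69b41c95d3 : CRef := CRef.mk (Pat.mk 0x800000028000000200000000000000000 0x3800000078000001ef000001fe000000380000001000000010 9 9) 0 0 (step_sound _ 100 [(rh20cabb80a58b6fe1.shift 1 0), (rha9fbfd4bb8cf890b.shift 0 3), (rhc94b560032274623.shift 1 0), (rhf57e429b22973115.shift 2 2)] (by decide +kernel))
noncomputable def rh67d938f56e893c6d : CRef := CRef.mk (Pat.mk 0x800000008000000080000002800000000 0x140000001c0000001c00000018000000780000001f0000000f0000007800000010 9 7) 0 0 (step_sound _ 36 [(rh55afc6a59410cf00.shift 3 0), (rh686c14efb7fb0622.shift 0 1)] (by decide +kernel))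
noncomputable def rhb6e99b900f300d85 : CRef := CRef.mk (Pat.mk 0x8000000080000000c0000002800000020 0xf4000000ff0000007f0000002c0000002800000020 9 8) 0 0 (step_sound _ 130 [rh26d640b9e76f0bda, (rh50fbb5868c909700.shift 2 1)] (by decide +kernel))
noncomputable def rh2eca9713144a7556 : CRef := CRef.mk (Pat.mk 0x1000000018000000180000004000000040 0x16000000160000007f000000ff000000de0000004000000040 9 8) 0 0 (step_sound _ 164 [(rh5c5e593799055d58.shift 3 2), rh80acceff05e916c8] (by decide +kernel))
noncomputable def rha5b8098c3a1ac9c5 : CRef := CRef.mk (Pat.mk 0x1000000018000000180000004000000040 0x1c0000001e00000077000000ff000000de0000004000000040 9 8) 0 0 (step_sound _ 101 [(rh2612b4f73ba7c3b3.shift 2 2), (rh6e36e895ce1a35fe.shift 3 0), (rhc92dc4e50cacb73c.shift 0 2)] (by decide +kernel))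
noncomputable def rh4f859c3f1eb7e979 : CRef := CRef.mk (Pat.mk 0x200000002000000020000000a000000080 0x8000000080000001c000000ff000001fe000001bf000000a0000000a0 9 9) 0 0 (step_sound _ 132 [rh0db9d2b49c9c45ce, (rh50fbb5868c909700.shift 4 1)] (by decide +kernel))
noncomputable def rhd8bc806b85e53302 : CRef := CRef.mk (Pat.mk 0x1000000070000000400000000000000000 0xc0000000c0000004c000000df0000007e0000007f0000003c0000003c 9 8) 0 0 (step_sound _ 99 [(rh6a5aeac7ed90cff2.shift 2 0), (rh88c620441a3a17ea.shift 0 2), (rha4c1d69345b99268.shift 2 0), (rhc359ae14cfe16595.shift 2 0)] (by decide +kernel))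
noncomputable def rh1036ef1bb64c057b : CRef := CRef.mk (Pat.mk 0x20000000200000002000000000 0x8000000580000007f000000fe0000007f000000300000003000000010 9 8) 0 0 (step_sound _ 133 [(rh1741680720c097b4.shift 4 1), (rh3b734c5288922837.shift 4 0), (rh771d065bdc85bf2d.shift 4 0), (rhd59fa6ecbd15dc7c.shift 0 1)] (by decide +kernel))
noncomputable def rh5610fdc71959581a : CRef := CRef.mk (Pat.mk 0x6000000020000000a0000002e0000000000000000 0x390000007f000000fa0000007e0000002e0000002000000020 9 8) 0 0 (step_sound _ 160 [(rh50fbb5868c909700.shift 0 2), rh66fa3b253aebd09f] (by decide +kernel))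
noncomputable def rhe3e10377edf350ff : CRef := CRef.mk (Pat.mk 0x10000000100000005000000040000000000000000000000000 0x2000000030000000380000001c0000007e0000007f0000003e0000003f00000028 9 7) 0 0 (step_sound _ 100 [(rh20966da26a1c2ae8.shift 3 2), (rh2dadb5131a148eed.shift 2 1), rh7838ab7b7f8155fa, (rh8cdd36b03d57a2f6.shift 3 1), (rh905e10946450bea1.shift 1 2)] (by decide +kernel))
noncomputable def rhb579bab13446f436 : CRef := CRef.mk (Pat.mk 0x10000000100000005000000040000000000000000000000000 0x28000000780000001e0000007e0000007f0000003e0000003f00000028 9 7) 0 0 (step_sound _ 100 [(rh47992774edf9829f.shift 3 0), (rh5ee4dc8825dcefa0.shift 1 2), rh7838ab7b7f8155fa, (rh8cdd36b03d57a2f6.shift 3 1), (rh905e10946450bea1.shift 1 2)] (by decide +kernel))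
noncomputable def rh13c2c593f0e23c2e : CRef := CRef.mk (Pat.mk 0x2000000008000000280000002000000000 0x5c0000007c000001ef000001fe0000003000000010 9 9) 0 0 (step_sound _ 101 [(rh018f2ebb4d91ad9d.shift 2 1), rh04976e0fcd24e9f6, rh938d876a2805eb64, (rhb7a13aec94a9d108.shift 2 0), rhd16607741342cf53, (rhfc993a6ca5f5731c.shift 2 0)] (by decide +kernel))
noncomputable def rh4078f0adc5205922 : CRef := CRef.mk (Pat.mk 0x2000000008000000280000002000000000 0x4000000070000000700000007000000070000001ef000001fe0000003000000010 9 9) 0 0 (step_sound _ 101 [(rh200df86862075f45.shift 2 0), (rh417b883f66a983e4.shift 2 0), rh938d876a2805eb64, (rhc85cc95794737cf7.shift 4 1), (rhf8aa6e00902d9ee7.shift 4 1)] (by decide +kernel))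
noncomputable def rh61b86c3c8c8889af : CRef := CRef.mk (Pat.mk 0x180000000a0000000a00000008 0x10000000700000007000000070000000f0000003f0000000b0000000b00000009 9 6) 0 0 (step_sound _ 97 [rh2bca94733de15aea, rh2c5916844c8cac62, (rh7156846f50bf0aca.shift 0 1), (rhafab112a4c4dda0f.shift 1 0), rhc66b6dc71e48d893] (by decide +kernel))
noncomputable def rh73860364aa56cff1 : CRef := CRef.mk (Pat.mk 0xd0000000100000005000000040 0x2f000001fe000001ff00000190000000d800000048 9 9) 0 0 (step_sound _ 132 [(rh2ca48826cd3969c7.shift 4 0), rh58134bea842019b2, (rh5e05da03898e7023.shift 3 1), (rh88ceeeeb0cade4fa.shift 3 1)] (by decide +kernel))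
noncomputable def rh65949f6eacdb3d25 : CRef := CRef.mk (Pat.mk 0x40000000180000001000000000 0x8000000380000003c000000ff000000fe0000001e0000001800000008 9 8) 0 0 (step_sound _ 100 [rh2ee3e6d8c4f3b0c8, (rhd39fc3ffd9767cf5.shift 2 0), (rhe33d9496e10d8eb0.shift 1 2), (rhf3e7cb7c9fbd8e80.shift 1 0)] (by decide +kernel))
noncomputable def rh07b8142a141fc6c4 : CRef := CRef.mk (Pat.mk 0x40000000180000007000000040000000000000000000000000 0x1c000000fc000000fc000000180000007f0000006f0000003c0000003c00000014 9 8) 0 0 (step_sound _ 131 [(rh9a011a4d0ec8f646.shift 2 1), (rhc0fdbedd668582ed.shift 0 3), (rhfef4a4e13204809b.shift 2 0)] (by decide +kernel))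
noncomputable def rhed8e8fb4fda0cf2b : CRef := CRef.mk (Pat.mk 0x5000000040000000400000000 0xa0000000e0000000e0000000e0000007e0000003e00000077000000060000000600000002 9 7) 0 0 (step_sound _ 130 [(rh1726a00b0a8befd0.shift 1 0), (rh1ef01c036bca8289.shift 1 1), (rh20966da26a1c2ae8.shift 1 0), (rh771d065bdc85bf2d.shift 1 0), (rha9871193becf60de.shift 0 1)] (by decide +kernel))
noncomputable def rh13e949f6725eb17b : CRef := CRef.mk (Pat.mk 0xa000000080000000800000000 0x140000001c0000001c0000001c0000001c0000003c0000000f0000000c0000000c00000004 9 6) 0 0 (step_sound _ 131 [(rh1726a00b0a8befd0.shift 2 0), (rh1ef01c036bca8289.shift 2 1), (rh20966da26a1c2ae8.shift 2 0), (rh23960e9e60179cb6.shift 0 1), (rh771d065bdc85bf2d.shift 2 0)] (by decide +kernel))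
noncomputable def rhfa4b9474fa11f414 : CRef := CRef.mk (Pat.mk 0x180000001c0000000000000000 0x500000007000000070000001b0000003f0000000700000004 9 6) 0 0 (step_sound _ 65 [(rh53b3c253cb0c65f4.shift 0 2), rhf7b439ef283c3027] (by decide +kernel))
noncomputable def rh5206030f3fbee799 : CRef := CRef.mk (Pat.mk 0xe0000000800000028000000000000000000000000 0x1000000010000000ff0000007e0000006800000028000000700000007000000050 9 8) 0 0 (step_sound _ 164 [(rh2a535ce68d5cfc5d.shift 0 2), rh394b5e194a5b6455, (rh49606a42a30c7ac4.shift 1 3)] (by decide +kernel))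
noncomputable def rhf37ea0d9a86fec3d : CRef := CRef.mk (Pat.mk 0x10000000380000002000000000 0xc0000001c0000001c0000001f000000fc0000002f0000000c 9 8) 0 0 (step_sound _ 99 [(rh8c29b1e2f83d279d.shift 2 0), rha3b21793194f019d, (rha9fbfd4bb8cf890b.shift 0 2)] (by decide +kernel))
noncomputable def rh494cf2fafb0caefa : CRef := CRef.mk (Pat.mk 0x20000000700000000000000000 0x140000001c0000001c0000007f000000fe0000001f00000018 9 8) 0 0 (step_sound _ 67 [(rh21460d2d48a35cb8.shift 2 0), (rhaeebc73f5a9c796a.shift 2 1), (rhb103f40a53fe1424.shift 0 1), (rhb12ffaec36122c99.shift 0 1), (rhedf6b6c69a16cbd5.shift 1 2), (rhf7b439ef283c3027.shift 2 0)] (by decide +kernel))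
noncomputable def rh06aa32078b6e2fc0 : CRef := CRef.mk (Pat.mk 0x180000001c00000000 0x50000000700000007000000030000001f0000003f00000004 9 6) 0 0 (step_sound _ 33 [(rh53b3c253cb0c65f4.shift 0 1), rhc77685af98fea08e] (by decide +kernel))
noncomputable def rhfe29dd5d23e52b0f : CRef := CRef.mk (Pat.mk 0x1e0000000000000020000000000000000000000000 0x600000007e0000006700000020000000700000007000000050 9 7) 0 0 (step_sound _ 129 [(rh6470ab33a31c4326.shift 1 0), (rheb0810cc63b001d8.shift 0 4)] (by decide +kernel))
noncomputable def rh224666264ddb3414 : CRef := CRef.mk (Pat.mk 0x1c00000018000000180000000000000000 0x10000000700000007000000070000001f0000001f0000001f0000000700000005 9 5) 0 0 (step_sound _ 129 [rh22be26741370e848, (rhb739f4f82bb681b4.shift 0 3)] (by decide +kernel))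
noncomputable def rhef3d8b947f49434d : CRef := CRef.mk (Pat.mk 0x1c0000001800000000 0x50000000700000007000000030000003f0000001f00000004 9 6) 0 0 (step_sound _ 65 [(rhb739f4f82bb681b4.shift 0 1), rhf7b439ef283c3027] (by decide +kernel))
noncomputable def rh0509492c3990331c : CRef := CRef.mk (Pat.mk 0x4000000070000000000000010000000000 0x77f000003fe0000031f0000010000000100 9 11) 0 0 (step_sound _ 99 [(rh551591afa7e9bd9a.shift 0 2), (rh749ef735eba9e657.shift 2 0), (rh775ca1963e850b80.shift 1 2), (rh7fb660bc21ce4329.shift 1 3), (rhaeebc73f5a9c796a.shift 2 2)] (by decide +kernel))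
noncomputable def rhd09836b62f3b8a87 : CRef := CRef.mk (Pat.mk 0x180000001e000000000000000000000000 0x50000000700000007000000070000001f0000001e000000070000000200000002 9 5) 0 0 (step_sound _ 129 [rh140cb16e14e72fc5, (rh3244c3cc8379b070.shift 0 3)] (by decide +kernel))
noncomputable def rh7a5177ec1234c014 : CRef := CRef.mk (Pat.mk 0x1c00000018000000100000000000000000 0x8000000080000003f0000001f0000001f0000000700000003 9 6) 0 0 (step_sound _ 163 [(rh2145e1d24b96a57e.shift 3 2), rh5fde13324c5270da] (by decide +kernel))
noncomputable def rh0d3ca8b63da7fd38 : CRef := CRef.mk (Pat.mk 0x1c00000018000000100000000000000000 0x1c0000001c0000001f0000001c0000001f0000000f00000008 9 5) 0 0 (step_sound _ 163 [(rh2145e1d24b96a57e.shift 3 2), rhbf20632202867af8] (by decide +kernel))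
noncomputable def rh760fd7902454f6a8 : CRef := CRef.mk (Pat.mk 0x80000001c00000018000000100000000000000000 0x140000001c0000007f0000001b0000001f0000000e00000008 9 7) 0 0 (step_sound _ 129 [(rhb739f4f82bb681b4.shift 0 3), rhed2e1dee54d283ad] (by decide +kernel))
noncomputable def rhd93707983e9f8037 : CRef := CRef.mk (Pat.mk 0x80000000c000000180000001800000000000000000000000000000000 0x80000000c0000001f0000001f00000007000000070000000700000005 9 5) 0 0 (step_sound _ 130 [rh598cc44037a19265, (rh932754581e0f4330.shift 2 3)] (by decide +kernel))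
noncomputable def rh5e6fc665ddf73b1f : CRef := CRef.mk (Pat.mk 0x70000000400000004000000000 0xc8000000e8000000fc0000007f000000fe000000770000007000000020 9 8) 0 0 (step_sound _ 133 [rh2e8ece5aa59f47b9, (rhc89253ff58c66167.shift 5 1), (rhe072fffdd2fccf38.shift 5 1)] (by decide +kernel))
noncomputable def rh1f5f74f9939ba32f : CRef := CRef.mk (Pat.mk 0x1e00000010000000000000000000000000 0x600000006000000070000001e0000001f000000070000000700000003 9 5) 0 0 (step_sound _ 161 [(rh3244c3cc8379b070.shift 0 4), rh72a7e19f9f28c199] (by decide +kernel))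
noncomputable def rh8e9b4a71d276fcd5 : CRef := CRef.mk (Pat.mk 0x80000001c0000001000000010000000000000000000000000 0x600000006000000070000001f0000007c0000001e0000001f0000000f0000000800000008 9 7) 0 0 (step_sound _ 194 [(rh253c7727954085aa.shift 1 2), rh6b661178b0d42ad2, (rhe2b63c00a3d7bb73.shift 0 5)] (by decide +kernel))
noncomputable def rhf309c35256515adf : CRef := CRef.mk (Pat.mk 0x20000000700000004000000000 0x140000001c0000001c0000006f000000fe0000007f00000010 9 8) 0 0 (step_sound _ 67 [(rh6765e7960b108c8d.shift 2 1), (rhb12ffaec36122c99.shift 0 1), (rhedf6b6c69a16cbd5.shift 1 2), (rhf7b439ef283c3027.shift 2 0)] (by decide +kernel))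
noncomputable def rhfa0f2b160eccf56b : CRef := CRef.mk (Pat.mk 0x6000000028000000200000002000000000 0x10000000700000007c000001ff0000003c00000018 9 9) 0 0 (step_sound _ 100 [(rh53b3c253cb0c65f4.shift 2 3), rhc905a6efe7814404] (by decide +kernel))
noncomputable def rhf4ada3949e0d11c2 : CRef := CRef.mk (Pat.mk 0x80000000800000018000000000000000000000000 0x40000000c0000000e0000001f0000001f0000001f00000014 9 5) 0 0 (step_sound _ 67 [(rh46baee19951a66e7.shift 2 0), (rh60ddb123e268bde8.shift 0 1), (rh6eff4158bb400f47.shift 2 0), (rhc4526fc8abf298b6.shift 2 0)] (by decide +kernel))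
noncomputable def rh22c9c475c792a31f : CRef := CRef.mk (Pat.mk 0x680000000000000018000000000000000000000000 0x140000001c0000001c0000007c0000000f0000001e0000001f0000001e00000014 9 7) 0 0 (step_sound _ 131 [(rh14e0829dc73b6804.shift 2 2), (rh1c63ae79d6e8f8cf.shift 2 2), rh63a53ebf8b7ac563, (rh70e33bfdf511e144.shift 3 0)] (by decide +kernel))
noncomputable def rh343f5c3cb9818b5d : CRef := CRef.mk (Pat.mk 0x7800000000000000000000000000000000 0xc0000000c0000000f000000fc0000001c0000001c0000000c0000000c 9 8) 0 0 (step_sound _ 99 [rh91ef0c7a9be97580, (rheb0810cc63b001d8.shift 2 3)] (by decide +kernel))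
noncomputable def rh3d598b469b6347ec : CRef := CRef.mk (Pat.mk 0x1c0000001000000050000000000000000000000000 0x1800000018000001f8000000fc000000fe0000005f000000ec000000e0000000a0 9 9) 0 0 (step_sound _ 165 [(rh11043f09ca00c114.shift 1 2), (rh3d9ccce8f1410f87.shift 1 0), (rh89a4727f6810ed6b.shift 0 2), (rhff137c455409f0e3.shift 2 2)] (by decide +kernel))
noncomputable def rhe9d95785ade67daa : CRef := CRef.mk (Pat.mk 0x1e00000010000000000000000000000000 0x300000003000000030000003e0000001f000000070000000700000007 9 6) 0 0 (step_sound _ 97 [rh80ee52c885d69500, (rheb0810cc63b001d8.shift 0 3)] (by decide +kernel))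
noncomputable def rh215547c38c69a52b : CRef := CRef.mk (Pat.mk 0x200000007800000008000000000000000000000000 0x2c0000002c0000002f000000fc000000180000001c0000000c0000000c 9 8) 0 0 (step_sound _ 100 [(rh18965a982d73c794.shift 3 3), rh4dfc96cabeb02c4b] (by decide +kernel))
noncomputable def rh2b6899534a3bef29 : CRef := CRef.mk (Pat.mk 0x40000000e000000180000000e00000000 0x38000000780000006c0000007e0000001b0000000e00000006 9 7) 0 0 (step_sound _ 65 [rh03bbcb54bbef2748, (rh71222050f2c63a3a.shift 1 0)] (by decide +kernel))
noncomputable def rhfae39de9491c5e5e : CRef := CRef.mk (Pat.mk 0x10000000140000001000000058000000000000000000000000 0x1e8000000f8000000f6000000ff0000005e000000e0000000e0000000a0 9 9) 0 0 (step_sound _ 195 [(rh50fbb5868c909700.shift 3 3), rhdf88e7aa7acafcdf] (by decide +kernel))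
noncomputable def rhdb54973789c73117 : CRef := CRef.mk (Pat.mk 0x380000002000000080000000000000000000000000 0x3c7000001fe000001be00000080000001c0000001c000000140 9 10) 0 0 (step_sound _ 130 [(rh394dc79bf690ecc6.shift 2 0), (rh45beebce8c11cf6a.shift 0 4)] (by decide +kernel))
noncomputable def rh2822b717a6b50e5d : CRef := CRef.mk (Pat.mk 0x700000004000000000 0x140000001c0000001c0000000f000000fe0000007f00000010 9 8) 0 0 (step_sound _ 67 [(rh36eba2a3de447758.shift 0 1), (rh775ca1963e850b80.shift 1 1), (rhd1d05263fabc0227.shift 1 1), (rhdceeca65bdd8095a.shift 1 1), (rhf7b439ef283c3027.shift 2 0)] (by decide +kernel))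
noncomputable def rhd2c6614e8ad4682c : CRef := CRef.mk (Pat.mk 0x1c0000001000000010 0x800000038000000380000003f000000ff000000ff0000001000000010 9 8) 0 0 (step_sound _ 100 [rh12155d67af2d0ad6, (rh1741680720c097b4.shift 3 0), (rh684e729394fba19d.shift 2 0), rh9cf53d219962c6e9, (rha7bb430bc20854cc.shift 3 0)] (by decide +kernel))
noncomputable def rh259594e5f77e420d : CRef := CRef.mk (Pat.mk 0x2800000020000000a000000000 0x10000000700000007000000070000003ff000001fe000001ff000000a000000080 9 10) 0 0 (step_sound _ 100 [(rh1719ab664bba2b6b.shift 0 1), (rh3918eeb6c53434d8.shift 0 2), (rhc21a95c499b3efdb.shift 2 2), (rhefe7683ab1569a9b.shift 2 0)] (by decide +kernel))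
noncomputable def rh69f34d2fa26c2fcc : CRef := CRef.mk (Pat.mk 0x1000000010000000100000001000000000 0x2f000000fe000000ff000000100000003800000028 9 8) 0 0 (step_sound _ 131 [(rh50fbb5868c909700.shift 3 1), rhbd07a21262597418] (by decide +kernel))
noncomputable def rh001eea94b18ca57b : CRef := CRef.mk (Pat.mk 0x100000001000000010000000000000000000000000 0x28000000780000001e0000003e000000ff0000003c00000028 9 8) 0 0 (step_sound _ 68 [(rh5ee4dc8825dcefa0.shift 1 1), (rh8cdd36b03d57a2f6.shift 3 0), (rhb44e3c49199259fd.shift 0 1), (rhc4526fc8abf298b6.shift 3 0)] (by decide +kernel))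
noncomputable def rh437e790325d667d9 : CRef := CRef.mk (Pat.mk 0x400000004000000040000000000000000 0x20000000e0000000e0000000e0000000f0000003e0000000f000000060000000400000004 9 6) 0 0 (step_sound _ 162 [(rh00bcd0ccee83f75d.shift 1 1), (rh305945700f20b255.shift 0 1), (rh435dd3dd0bf07b3a.shift 1 0), rhb220754ea8dc3fc1, (rhf515f701b82bbaa6.shift 1 2)] (by decide +kernel))
noncomputable def rhbc594059aceee1ac : CRef := CRef.mk (Pat.mk 0x800000008000000280000000800000000 0x4000000050000000fe0000007c0000002f0000007800000038 9 8) 0 0 (step_sound _ 132 [(rh2f68792b6b779e96.shift 3 1), rh909f5f45f67d0800] (by decide +kernel))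
noncomputable def rhcdb8519293f33729 : CRef := CRef.mk (Pat.mk 0x20000000200000002000000000000000000000000 0x100000007000000070000000700000003000000070000000700000003000000030000000300000001 9 3) 0 0 (step_sound _ 193 [(rh00bcd0ccee83f75d.shift 0 2), (rh1726a00b0a8befd0.shift 0 2), (rhc4526fc8abf298b6.shift 0 1), rhe520c97f67e4a7f2] (by decide +kernel))
noncomputable def rheb00397f2e17b35d : CRef := CRef.mk (Pat.mk 0x3800000010000000100000001000000000 0x70000003e000000770000001e0000003e00000028 9 7) 0 0 (step_sound _ 35 [(rh932754581e0f4330.shift 3 0), rhbbca3631809929ae] (by decide +kernel))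
noncomputable def rh742d2dfe3f8cfc94 : CRef := CRef.mk (Pat.mk 0x80000002800000008000000000000000000000000 0x40000001c0000001c000000380000002c0000002f0000007f0000003e0000001400000014 9 7) 0 0 (step_sound _ 66 [(rh3743dbe66b959104.shift 2 0), (rh544d3caba1e1e2bb.shift 2 0), (rh86aa94d7c0c1e10d.shift 1 1), rhd140198a1e07e6e1] (by decide +kernel))
noncomputable def rhc4f19a1059d81026 : CRef := CRef.mk (Pat.mk 0x800000008000000280000001c 0xf70000007e0000006f0000002f0000003f 9 8) 0 0 (step_sound _ 98 [rh00491062ae4d4dbe, (rh50fbb5868c909700.shift 2 0)] (by decide +kernel))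
noncomputable def rhfe4c11c3fd07bed1 : CRef := CRef.mk (Pat.mk 0x200000002000000020000000000000000 0x4000000070000000700000007000000060000000700000007000000030000000300000001 9 3) 0 0 (step_sound _ 161 [(rh1726a00b0a8befd0.shift 0 1), (rh23178b7cc2693d64.shift 0 2), rhcab3157f7bdcba3e, (rhf4e9e26b335fe316.shift 0 1), (rhf515f701b82bbaa6.shift 0 2)] (by decide +kernel))
noncomputable def rh25f2d94dff6be19b : CRef := CRef.mk (Pat.mk 0xc00000008000000080000000c00000000 0xf30000007e000000ef0000001f0000000f00000001 9 8) 0 0 (step_sound _ 132 [(rh2f68792b6b779e96.shift 3 1), rhf727dafe1d21a96a] (by decide +kernel))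
noncomputable def rhf5cf8a84631dca39 : CRef := CRef.mk (Pat.mk 0x100000001000000010 0x2800000038000000380000003f000000fe000000ff0000003800000018 9 8) 0 0 (step_sound _ 100 [(rh7338b82a9f3f05a7.shift 3 0), rh735c89bfeddbe03f, (rh880c79128ec0fcff.shift 3 0), (rhb0ae520633f95e85.shift 3 0), (rhc85cc95794737cf7.shift 3 0), (rhf515f701b82bbaa6.shift 3 0)] (by decide +kernel))
noncomputable def rh76772ded3c6f470c : CRef := CRef.mk (Pat.mk 0x1000000010000000540000007800000000 0xa0000000f0000000f8000000560000007e000000c7 9 8) 0 0 (step_sound _ 34 [(rh3244c3cc8379b070.shift 1 1), rh4e6c3aa15f584c5d] (by decide +kernel))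
noncomputable def rhbade80ace3bf6db0 : CRef := CRef.mk (Pat.mk 0x2000000020000000a0000000e00000000 0x740000003e0000000f0000000a0000001f00000039 9 7) 0 0 (step_sound _ 32 [rh100456712886256d, rh932754581e0f4330] (by decide +kernel))
noncomputable def rh097f73403d6721cc : CRef := CRef.mk (Pat.mk 0x1c00000008000000280000000800000000 0xe30000007e0000006f0000002f0000003f00000014 9 8) 0 0 (step_sound _ 34 [rh4e1664d2192b23aa, (rh932754581e0f4330.shift 2 0)] (by decide +kernel))
noncomputable def rh514ceb29bd7d4a6c : CRef := CRef.mk (Pat.mk 0x1800000008000000280000000000000000 0x1000000050000001f0000001fe000001fc0000002f0000002000000020 9 9) 0 0 (step_sound _ 164 [(rh0e5d4c0fb0f5e081.shift 2 1), (rh69755ef358ebfd54.shift 3 2), rhd5fd12ce73981d70, (rhfe79dc477dd9ca37.shift 1 1)] (by decide +kernel))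
noncomputable def rh0a164acf73651af6 : CRef := CRef.mk (Pat.mk 0x800000008000000280000001c00000000 0x570000007f0000007c0000002f0000007c00000060 9 7) 0 0 (step_sound _ 130 [(rh50fbb5868c909700.shift 2 1), rh61d09aeeef5258b1] (by decide +kernel))
noncomputable def rhff0559c51de8e02b : CRef := CRef.mk (Pat.mk 0xc00000008000000280000001800000000 0x10000002f0000007f0000002f0000007e000000e7 9 8) 0 0 (step_sound _ 34 [(rh932754581e0f4330.shift 2 0), rh9fa5ffde405df940] (by decide +kernel))
noncomputable def rhabbbc880d8d53c71 : CRef := CRef.mk (Pat.mk 0x100000002000000020000000a0 0x3d7000001fe000003fc000000a0000000a0 9 10) 0 0 (step_sound _ 101 [(rh50fbb5868c909700.shift 4 0), rh64fbb3f02bfa0964] (by decide +kernel))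
noncomputable def rh4e9c83a2c4a72d64 : CRef := CRef.mk (Pat.mk 0x1e000000180000000800000000 0x150000001f0000001f0000000b0000001e0000001f0000000f00000004 9 5) 0 0 (step_sound _ 65 [rh8c6542221b0cffe4, (rheb0810cc63b001d8.shift 0 2)] (by decide +kernel))
noncomputable def rh879a18df9f5973ff : CRef := CRef.mk (Pat.mk 0x4000000040000001400000000 0x80000000e0000000e0000000e000000fc0000007f0000007e0000001600000016 9 8) 0 0 (step_sound _ 130 [(rh1726a00b0a8befd0.shift 1 0), (rh6a8ae1d697a946e3.shift 1 1), rh703f725ce197dbba, (rhf4e9e26b335fe316.shift 1 0), (rhf515f701b82bbaa6.shift 1 1)] (by decide +kernel))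
noncomputable def rh1c7b1e8fd6d8a20b : CRef := CRef.mk (Pat.mk 0x1000000010000000100000005000000000 0x1ef000000fe000000f7000000500000005800000008 9 9) 0 0 (step_sound _ 133 [(rh2f68792b6b779e96.shift 4 1), rh5c55772eba0aa2ba] (by decide +kernel))
noncomputable def rh74473c1df99506fd : CRef := CRef.mk (Pat.mk 0x3e00000020000000080000000c00000000 0x4000000040000000e30000007e000000230000001f0000000f00000001 9 8) 0 0 (step_sound _ 166 [(rh428265de8cd3cd2d.shift 2 4), rhf5f38b09cf03797e] (by decide +kernel))
noncomputable def rh7b9a3f96ba47279a : CRef := CRef.mk (Pat.mk 0x8000000080000000800000000 0x14000000fc0000007f000000ff000000180000001800000010 9 8) 0 0 (step_sound _ 131 [(rh1741680720c097b4.shift 2 1), (rh7eb4a07d72ad7934.shift 2 0), rhb6779b1ef703c5d9, (rhced6d86d2069808b.shift 3 0)] (by decide +kernel))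
noncomputable def rhad57a9bda30f13b4 : CRef := CRef.mk (Pat.mk 0x4000000040000000500000005000000000 0x20000000670000007e000000f70000005000000050 9 8) 0 0 (step_sound _ 133 [(rh50fbb5868c909700.shift 5 1), rh6e5dc1df13655dbf] (by decide +kernel))
noncomputable def rhab3f4eb02f867ea7 : CRef := CRef.mk (Pat.mk 0x1000000014000000140000000000000000 0x28000001fc000000fc000001dc000000160000003e0000002f 9 9) 0 0 (step_sound _ 36 [(rh3561d14314f27a7f.shift 1 0), rh3a45e8bf546107b3, (rha011e19fdaacded3.shift 2 1), (rhc85cc95794737cf7.shift 3 1)] (by decide +kernel))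
noncomputable def rh8683ac39832c322e : CRef := CRef.mk (Pat.mk 0x40000000800000008000000080000000a000000020 0x40000000c00000008000000080000001ce000000fe0000003f 9 9) 0 0 (step_sound _ 167 [(rh50fbb5868c909700.shift 6 2), rh72d5fd66b30b856f] (by decide +kernel))
noncomputable def rh8fd03b1c8ba714c0 : CRef := CRef.mk (Pat.mk 0x2000000010000000100000001c000000040000000000000000 0x30000000340000001c0000001f0000001f000000070000000600000004 9 6) 0 0 (step_sound _ 196 [(rh2f68792b6b779e96.shift 4 3), rh81f62f5d83c811c6] (by decide +kernel))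
noncomputable def rh78563da56612dc34 : CRef := CRef.mk (Pat.mk 0x2000000038000000280000000000000000 0x500000007000000070000000f00000003f0000007e000000280000000800000008 9 8) 0 0 (step_sound _ 165 [(rh42ab489a1be3958e.shift 4 2), (rh69f0587a21bb077f.shift 4 2), (rh8e3699cd1de33d56.shift 1 2), rha24db61a32825c6c, (rhc4df6499ac7f19aa.shift 0 1), (rhc85cc95794737cf7.shift 4 2)] (by decide +kernel))
noncomputable def rh4fd815e323df3bc5 : CRef := CRef.mk (Pat.mk 0x8000000080000000a0000000a00000000000000000000000000000000 0x2000000020000000740000007e0000007f0000001e0000000a00000002000000070000000700000005 9 7) 0 0 (step_sound _ 226 [(rh50fbb5868c909700.shift 2 4), rh9e9838869082ab5a] (by decide +kernel))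
noncomputable def rh47a96a032af94b95 : CRef := CRef.mk (Pat.mk 0x5000000010000000100000001000000000 0x30000000b0000007f0000001f000000170000001400000010 9 7) 0 0 (step_sound _ 131 [(rh50fbb5868c909700.shift 3 1), rh64b1be81531a57d3] (by decide +kernel))
noncomputable def rhfd7088464668de2d : CRef := CRef.mk (Pat.mk 0xa0000000a0000000a00000001 0x1000000170000001f0000001e0000001a0000001a0000000b00000001 9 5) 0 0 (step_sound _ 129 [rh79877ebd3ef475dd, (rhe1031a9364470a9c.shift 0 1)] (by decide +kernel))
noncomputable def rheaebc0000686898f : CRef := CRef.mk (Pat.mk 0x1800000018000000100000001000000000 0x140000001f000000180000001f0000003f0000002c 9 6) 0 0 (step_sound _ 35 [rh386a126d77437283, (rh932754581e0f4330.shift 3 0)] (by decide +kernel))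
noncomputable def rh7f5a960dd6683023 : CRef := CRef.mk (Pat.mk 0x8000000020000000a0000000000000000000000000 0x1000000010000001fee00000ffe00000ebf000001f0000001f800000140 9 13) 0 0 (step_sound _ 135 [(rh145fd0e0c3c30b9b.shift 0 3), (rh9234eb75db3115ca.shift 3 0), (rhae671ae2d483218f.shift 2 0), (rhb1362713869e4c29.shift 3 0), (rhca1c8166938286b3.shift 4 0)] (by decide +kernel))
noncomputable def rh447f4a6d51ee8326 : CRef := CRef.mk (Pat.mk 0x80000000a0000000a000000000000000000000000 0x40000000e0000000e0000000e0000000b0000001f0000001f00000014 9 5) 0 0 (step_sound _ 67 [(rh3561d14314f27a7f.shift 0 1), (rh8cdd36b03d57a2f6.shift 2 0), (rh8ff3dde5b1c639e0.shift 2 0), (rhfb48bea540f6436d.shift 2 0)] (by decide +kernel))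
noncomputable def rhe256b8e4f83e10f2 : CRef := CRef.mk (Pat.mk 0x100000005000000010000000000000000000000000 0x20000000300000007000000050000000ff000000fe000001ff00000028 9 9) 0 0 (step_sound _ 68 [(rh20966da26a1c2ae8.shift 3 1), (rh23b0710d39eabaa6.shift 0 1), (rh6eff4158bb400f47.shift 3 0), (rhced6d86d2069808b.shift 4 1)] (by decide +kernel))
noncomputable def rh429ecd6acbc509dc : CRef := CRef.mk (Pat.mk 0x100000005000000010000000000000000000000000000000000000000000000000 0x20000000300000007000000058000000ff000000fe000001ff00000038000000380000003800000028 9 9) 0 0 (step_sound _ 164 [(rh20966da26a1c2ae8.shift 3 4), (rh4e533ecc461baf4c.shift 0 4), (rh84cefe9a12341663.shift 3 0), (rhced6d86d2069808b.shift 4 4)] (by decide +kernel))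
noncomputable def rh9ad5f731febdae61 : CRef := CRef.mk (Pat.mk 0x20000000200000002000000020000000200000000000000000000000000000000 0x4000000070000000300000007000000060000000600000002000000070000000700000005 9 3) 0 0 (step_sound _ 224 [(rh50fbb5868c909700.shift 0 4), rhc1bc272fe0800917] (by decide +kernel))
noncomputable def rh483b82f3a16b3b46 : CRef := CRef.mk (Pat.mk 0x40000000100000005000000030000000000000000000000000 0x60000000f80000005f000000fe000000ef000000a800000020 9 8) 0 0 (step_sound _ 102 [rh6542d51f474da422, (rh80d5a76dceac5bf5.shift 3 1), (rha9fbfd4bb8cf890b.shift 1 3), (rhfff620b7ead7f1c9.shift 1 1)] (by decide +kernel))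
noncomputable def rh1d6699b24052ac86 : CRef := CRef.mk (Pat.mk 0x4000000010000000180000001c00000004 0x370000007e000000ff000000180000001c00000004 9 8) 0 0 (step_sound _ 132 [(rh5c5e593799055d58.shift 3 1), rhae6fe62e351c2b9e] (by decide +kernel))
noncomputable def rh5128d195d09e53e5 : CRef := CRef.mk (Pat.mk 0x100000005000000010000000000000000000000000 0x28000000f80000005c000000f7000000fe000001ff00000020 9 9) 0 0 (step_sound _ 68 [(rh23b0710d39eabaa6.shift 0 1), (rh8ff3dde5b1c639e0.shift 3 0), (rhe1bcd80b5c7d4f4c.shift 2 1)] (by decide +kernel))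
noncomputable def rhb484c345c81211d1 : CRef := CRef.mk (Pat.mk 0x100000005000000010000000000000000000000000 0x28000000f80000005c000000f7000000fe000001ff00000008 9 9) 0 0 (step_sound _ 68 [(rh23b0710d39eabaa6.shift 0 1), (rhc4526fc8abf298b6.shift 3 0), (rhe1bcd80b5c7d4f4c.shift 2 1)] (by decide +kernel))
noncomputable def rh127217fa2af7777a : CRef := CRef.mk (Pat.mk 0x20000000280000002800000020 0x10000000700000007000000070000000300000007c0000002f00000020 9 7) 0 0 (step_sound _ 133 [(rh3ca48e2a6d60153d.shift 4 0), (rhc85cc95794737cf7.shift 4 1), (rhc8d6a9190a731122.shift 0 1), rhf1522487bc4aba26] (by decide +kernel))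
noncomputable def rhdb334cd22c442285 : CRef := CRef.mk (Pat.mk 0x100000002000000028000000280000002000000000 0x400000007000000070000000200000007c0000002f0000007800000050 9 7) 0 0 (step_sound _ 165 [rh35cc5a92726a4f59, (rh50fbb5868c909700.shift 4 2)] (by decide +kernel))
noncomputable def rh2126bec8881fb2f8 : CRef := CRef.mk (Pat.mk 0xe000000020000000a0000000000000000 0x1000000010000000f80000007f000000fa0000000b0000001f0000001f 9 8) 0 0 (step_sound _ 132 [(rh5dce78d28c627f6b.shift 1 3), rh6ace141cc0a78dea, (rhb705031692dfe65f.shift 1 1)] (by decide +kernel))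
noncomputable def rhe10ed98b08afefbe : CRef := CRef.mk (Pat.mk 0x10000000500000001000000000000000000000000000000000 0x80000005800000058000000f7000000fe000001ff0000003800000028 9 9) 0 0 (step_sound _ 100 [(rh46baee19951a66e7.shift 3 1), (rh4e533ecc461baf4c.shift 0 2), (rhc4526fc8abf298b6.shift 3 1), (rhc850b49d039efae1.shift 3 0)] (by decide +kernel))
noncomputable def rh7c03a303e469c5cc : CRef := CRef.mk (Pat.mk 0x60000001e00000000 0x1a0000001a0000003b0000003e0000001f00000030 9 6) 0 0 (step_sound _ 68 [(rh33e738c4ed385b9f.shift 1 1), rha428a30a5177aeb0] (by decide +kernel))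
noncomputable def rh2b83f9915ce1845a : CRef := CRef.mk (Pat.mk 0x1000000050000000100000005000000000 0x20000003f7000001fe000003df0000005000000040 9 10) 0 0 (step_sound _ 101 [rh277384a7f4a13b01, (rh2820ca9a6c4f41b4.shift 1 2), (rhfa35e196e150edb4.shift 3 2)] (by decide +kernel))
noncomputable def rhded18dba65c2d821 : CRef := CRef.mk (Pat.mk 0x20000000080000002800000018000000100000000000000000 0x200000002800000028000000ff000000ff000000e400000040 9 8) 0 0 (step_sound _ 101 [rh8e6c767406b57c2c, (rhee230b994cc8b773.shift 4 2)] (by decide +kernel))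
noncomputable def rh042f1bc5ddaae0e1 : CRef := CRef.mk (Pat.mk 0x2000000008000000280000001000000010 0x4000000040000007e7000003fe000003af0000003000000010 9 11) 0 0 (step_sound _ 101 [(rh046e4bc34261e00b.shift 0 2), (rheea67dfebd0f8008.shift 4 0)] (by decide +kernel))
noncomputable def rh3c2b6e729b519421 : CRef := CRef.mk (Pat.mk 0x40000000100000005000000010000000200000000000000000 0x50000000500000005f0000007e000000ef0000002800000020 9 8) 0 0 (step_sound _ 101 [(rh2145e1d24b96a57e.shift 4 2), rh9c3a4cc13b20a0de] (by decide +kernel))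
noncomputable def rhcf7ca03edf95ab5e : CRef := CRef.mk (Pat.mk 0x1000000010000000100000002000000000 0x1000000010000007be000003fe000007ef 9 11) 0 0 (step_sound _ 36 [(rh55afc6a59410cf00.shift 4 0), rha5711fb274b57f20] (by decide +kernel))
noncomputable def rh60742b530bc93d29 : CRef := CRef.mk (Pat.mk 0x80000000a0000000a00000002000000040 0x1000000010000001fbf00000ffe00000eae0000006000000040 9 13) 0 0 (step_sound _ 133 [(rh3e369f0a7fbda958.shift 0 2), (rhd3458b32566d63f7.shift 5 0)] (by decide +kernel))
noncomputable def rh977ad96a47003516 : CRef := CRef.mk (Pat.mk 0x20000000a0000000a0000000a 0x1000000170000001f0000001e0000001b0000000f0000000a 9 5) 0 0 (step_sound _ 130 [rh27cc462555bb888a, (rhbaefcd01e0a8bca3.shift 1 0)] (by decide +kernel))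
noncomputable def rhac91a1029b9ab92d : CRef := CRef.mk (Pat.mk 0x200000000800000028000000200000003000000000 0x4000000040000007e7000003fe000003af000000200000003000000010 9 11) 0 0 (step_sound _ 133 [(rh046e4bc34261e00b.shift 0 3), (rh932754581e0f4330.shift 4 0)] (by decide +kernel))
noncomputable def rhef455373c717c554 : CRef := CRef.mk (Pat.mk 0x200000000800000028000000000000001000000000 0x4000000040000007e7000003fe000003af000000700000007000000050 9 11) 0 0 (step_sound _ 133 [(rh046e4bc34261e00b.shift 0 3), (rhebbfc1325fb53d6f.shift 4 0)] (by decide +kernel))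
noncomputable def rh1cb106057a7b8f5b : CRef := CRef.mk (Pat.mk 0x20000000000000004000000078000000400000000000000000 0x100000007c0000001f0000004c000000780000007c0000007c00000074 9 7) 0 0 (step_sound _ 67 [rh8c5613dbdb09f44b, (rheb0810cc63b001d8.shift 2 2)] (by decide +kernel))
noncomputable def rhf82fbb975b37213a : CRef := CRef.mk (Pat.mk 0x800000008000000000000001e000000000000000000000000 0x80000000e000000370000001e0000003f0000000700000007 9 6) 0 0 (step_sound _ 65 [(rheb0810cc63b001d8.shift 0 2), rheb55b086bf8c1a06] (by decide +kernel))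
noncomputable def rh0bdcfacce69d214d : CRef := CRef.mk (Pat.mk 0x200000002000000060000000100000000000000000000000000000000 0x100000003000000070000001e0000000300000003000000070000000700000005 9 5) 0 0 (step_sound _ 129 [(rh932754581e0f4330.shift 0 3), rh99c2a1845fc58480] (by decide +kernel))
noncomputable def rh61579b7022585de1 : CRef := CRef.mk (Pat.mk 0x1000000010000000100000001000000000 0x1000000010000007be000003fe000007ef 9 11) 0 0 (step_sound _ 37 [(rh55afc6a59410cf00.shift 4 0), rha5711fb274b57f20] (by decide +kernel))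
noncomputable def rh0debaa30dd08a919 : CRef := CRef.mk (Pat.mk 0x60000000500000005000000000000000200000000000000000 0x70000007e000000ff00000050000003de000001fc000003fe00000080 9 10) 0 0 (step_sound _ 68 [(rh0ffd28eb6491ba0c.shift 1 0), (rh2ab430a705a452d5.shift 2 1), (rh64f58cea62e24702.shift 4 1), (rhb74e0e512d560f44.shift 0 2)] (by decide +kernel))
noncomputable def rh521ba9b6c82dfda9 : CRef := CRef.mk (Pat.mk 0x20000000080000002800000000000000000000000000000000 0x5000000070000003fc000001fc000003af0000007c0000007e0000007000000050 9 10) 0 0 (step_sound _ 165 [(rh20e1e6a40e3c7911.shift 0 4), (rhb31231eacc44e2a6.shift 1 1), rhb96c1ac664c53919, (rhdee67538b8dccf39.shift 4 1)] (by decide +kernel))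
noncomputable def rh6a83890fb134e4b9 : CRef := CRef.mk (Pat.mk 0x400000005000000040000000400000000 0x10000000780000007c0000007f000000640000006400000004 9 7) 0 0 (step_sound _ 131 [(rh2f68792b6b779e96.shift 2 1), rh6061cbec65e34029] (by decide +kernel))
noncomputable def rhde7a108a57594e08 : CRef := CRef.mk (Pat.mk 0x8000000080000000a0000000a0000000800000000 0x40000001c0000001c000000180000000c0000001e0000000b0000001e00000014 9 5) 0 0 (step_sound _ 196 [rh4eb66164c1e2113b, (rhbaefcd01e0a8bca3.shift 3 2)] (by decide +kernel))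
noncomputable def rhd7a83ac45380d426 : CRef := CRef.mk (Pat.mk 0x8000000080000000a0000000a0000000800000000 0x100000001c0000001c0000000c000000180000001e0000000b0000001e00000014 9 5) 0 0 (step_sound _ 194 [rh065d6b3912c9f62f, (rhffd04209dc8ea796.shift 2 2)] (by decide +kernel))
noncomputable def rhf440e60ef6c87440 : CRef := CRef.mk (Pat.mk 0x40000000400000004000000050000000400000004 0x4000000140000007c0000007c0000007f0000006400000064 9 7) 0 0 (step_sound _ 99 [(rh2f68792b6b779e96.shift 2 0), rh61495391eabd3e60] (by decide +kernel))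
noncomputable def rha6f8144f891f87b0 : CRef := CRef.mk (Pat.mk 0xa0000000a000000080000000000000000 0x140000001c000000fe0000007e000000eb000000180000001800000010 9 8) 0 0 (step_sound _ 163 [(rh1741680720c097b4.shift 2 2), (rh6c59ce14113da07f.shift 3 0), (rh98b1f5f521715fac.shift 0 1)] (by decide +kernel))
noncomputable def rh5b29f1d93ddef7ae : CRef := CRef.mk (Pat.mk 0x280000002800000020000000600000000000000000 0x40000000c0000003f000003780000032c000003fc000003e40000038000000080 9 10) 0 0 (step_sound _ 99 [(rh0e50f6030037c114.shift 0 2), (rh653c327ac0a2093a.shift 3 0), (rh69e31f076ff3d529.shift 2 2), (rha6815d932d68a32b.shift 2 2)] (by decide +kernel))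
noncomputable def rhe166fa0b19ae6c98 : CRef := CRef.mk (Pat.mk 0x18000000080000000a0000000a0000000800000018 0x50000000f0000007b0000000f0000000e0000000b0000000f00000019 9 7) 0 0 (step_sound _ 130 [rhe89febb3a3618c4c, (rhffd04209dc8ea796.shift 2 0)] (by decide +kernel))
noncomputable def rheb12776dda416f3f : CRef := CRef.mk (Pat.mk 0x400000008000000080000000a00000002000000000000000000000000 0x100000001d0000001f0000000b000001fb000000fe000000e3000000030000000100000001 9 9) 0 0 (step_sound _ 132 [(rh42c8ae686d713d97.shift 2 4), (rh61228bdc610929fd.shift 0 3), (rhcf49c152420fa38f.shift 0 3), rhd2300a7a3115fedf] (by decide +kernel))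
noncomputable def rh0327afd0daf5ca8b : CRef := CRef.mk (Pat.mk 0x30000000500000005000000018 0xf0000007e000000de000000f40000001e 9 8) 0 0 (step_sound _ 37 [(rh18965a982d73c794.shift 3 0), rhc8e16585d962bb95] (by decide +kernel))
noncomputable def rh07ab36fa1b56ce12 : CRef := CRef.mk (Pat.mk 0x20000000a0000000a00000002000000020000000000000000 0x3c0000001e0000000b0000000e0000000e000000070000000300000003 9 6) 0 0 (step_sound _ 32 [(rh79877ebd3ef475dd.shift 0 1), rhe8a07b1ebe306a89] (by decide +kernel))
noncomputable def rh527cc7947a4f3d8a : CRef := CRef.mk (Pat.mk 0x40000000400000004000000000000000000000000 0x80000000c0000000c0000003f0000003f0000003e0000000a 9 6) 0 0 (step_sound _ 66 [(rh0a7bbcc1ebd1be36.shift 0 1), (rh6c59ce14113da07f.shift 2 0), (rh8cdd36b03d57a2f6.shift 1 0), (rhcab3157f7bdcba3e.shift 1 0)] (by decide +kernel))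
noncomputable def rh7e9c865612af8935 : CRef := CRef.mk (Pat.mk 0x80000000800000008 0x140000001c0000001c000000fc0000007f000000ff0000001c00000018 9 8) 0 0 (step_sound _ 99 [(rh6d09739f568e9449.shift 2 0), (rh7cb421097af52dd8.shift 2 0), (rh9a2d563d4264a103.shift 2 0), (rhc85cc95794737cf7.shift 2 0), rhddb69792f7cee2c5] (by decide +kernel))
noncomputable def rh4491dd7e71e8968c : CRef := CRef.mk (Pat.mk 0x4000000040000001400000010000000100000000800000000 0xa0000000e0000000e00000004000000040000001600000016000000170000003e0000002f 9 6) 0 0 (step_sound _ 36 [(rh932754581e0f4330.shift 3 0), rhe70ade46415e09f3] (by decide +kernel))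
noncomputable def rhf3d56b0c59b0c7bb : CRef := CRef.mk (Pat.mk 0x1400000014000000100000001000000000 0xa0000002e0000003f0000003e00000034000000160000001e0000003200000020 9 6) 0 0 (step_sound _ 162 [(rh8a9bfb0eaa48994c.shift 2 1), (rhb1f7cf33eb316feb.shift 1 1), (rhd3a7265ec4e0e1e7.shift 1 0), (rhdf8786e7b34ab0f4.shift 1 0), (rhf2eeb9585c83f942.shift 0 1)] (by decide +kernel))
noncomputable def rh42b1b4f79eafae95 : CRef := CRef.mk (Pat.mk 0x6000000020000000a0000000a00000008 0x730000003e0000007b0000001e0000000b00000009 9 7) 0 0 (step_sound _ 32 [rh17ab612a29fb130b, rh932754581e0f4330] (by decide +kernel))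
noncomputable def rhd132b804cea0b0d2 : CRef := CRef.mk (Pat.mk 0x2000000020000000200000002000000000000000000000000000000000000000000000000 0x2000000020000000600000007000000070000000700000007000000070000000700000005 9 3) 0 0 (step_sound _ 161 [rh1a8de4899e50cf4a, (rh7928877f9bf74a91.shift 0 4), (rh8cdd36b03d57a2f6.shift 0 3), (rhd29a1fb688eae70f.shift 1 4)] (by decide +kernel))
noncomputable def rh287b51015bc0d65d : CRef := CRef.mk (Pat.mk 0x3000000020000000a0000000a000000000000000000000000 0x140000001e0000001b0000001e0000000a0000001f0000001b0000001f00000014 9 5) 0 0 (step_sound _ 163 [(rh028b73e3b7973375.shift 0 2), rhaf8c746725f0cb26, rhcbe07625d92ce41f, (rhd86de760b9387923.shift 0 1)] (by decide +kernel))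
noncomputable def rhcdf0481e12f89280 : CRef := CRef.mk (Pat.mk 0x400000004000000140000001400000000 0xa0000001f0000003c000000140000003e0000007a 9 7) 0 0 (step_sound _ 35 [rh101fc1717377c25b, (rh55afc6a59410cf00.shift 2 0)] (by decide +kernel))
noncomputable def rhb317b49921a3baad : CRef := CRef.mk (Pat.mk 0x80000002800000028000000000000000000000000 0x50000000700000007000000078000000280000007c000001ff0000007c00000054 9 9) 0 0 (step_sound _ 165 [rh22509315904f76d0, (rh332b18d7d85f7077.shift 4 0), (rh7a3105e5f8daf74a.shift 4 1), (rh895960a8d60b102d.shift 4 0), (rh9a50ac099d0117da.shift 2 1), (rhdee67538b8dccf39.shift 4 0), rhfc15e75b6322a824] (by decide +kernel))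
noncomputable def rh66ce8e2e4596b00e : CRef := CRef.mk (Pat.mk 0x100000001000000010000000500000000000000000 0x1000000014000000170000001f0000007f0000000b00000003 9 7) 0 0 (step_sound _ 67 [rh2ac7190ebb3b9c2e, (rh932754581e0f4330.shift 3 1)] (by decide +kernel))
noncomputable def rhf3770dceca190196 : CRef := CRef.mk (Pat.mk 0xe0000000a000000080000001000000000 0x500000007000000070000000b0000001e0000000b0000001f0000003300000001 9 6) 0 0 (step_sound _ 161 [rh19b19bf0872cfe73, rh3fa61604c77d8256, (rhb5ba847c57864cbc.shift 0 2), (rhd9106766b9ff53c0.shift 0 3)] (by decide +kernel))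
noncomputable def rh54ec97cf73b00746 : CRef := CRef.mk (Pat.mk 0x1a0000000a000000080000001000000000 0x500000007000000070000000b0000001e0000000b0000001f0000003300000001 9 6) 0 0 (step_sound _ 161 [(rh01e48cd9f335aa73.shift 0 3), rh3fa61604c77d8256, rh5c8c873042790be0, (rhe8a9e0e6037b7c6e.shift 0 2)] (by decide +kernel))
noncomputable def rh91d29808417278c7 : CRef := CRef.mk (Pat.mk 0x100000006000000020000000a0000001a00000002000000000000000000000000 0x1000000030000001e0000000a0000000a0000001a00000013000000170000001f00000004 9 5) 0 0 (step_sound _ 257 [rh3ff525876cc87449, (rh50fbb5868c909700.shift 0 5)] (by decide +kernel))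
noncomputable def rh35f3a9c1055596a2 : CRef := CRef.mk (Pat.mk 0x1000000010000000500000001800000000000000000000000000000000 0x100000001000000018000000780000001f00000030000000380000003800000028 9 7) 0 0 (step_sound _ 163 [(rh5c5e593799055d58.shift 3 4), rhcc321364c9282ea5] (by decide +kernel))
noncomputable def rhb329a42105f13e13 : CRef := CRef.mk (Pat.mk 0x80000000800000028000000080000000000000000000000000000000000000000 0x80000000f000000fc000000180000001c0000001c0000001c0000001c00000014 9 8) 0 0 (step_sound _ 131 [(rh5825ea3fc986a461.shift 0 1), (rh6eff4158bb400f47.shift 2 2), (rhd0e10b4e356a2922.shift 2 0), (rhd29a1fb688eae70f.shift 3 3)] (by decide +kernel))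
noncomputable def rhc8b3730dffc7987d : CRef := CRef.mk (Pat.mk 0x1e0000001a000000000000000000000000 0x3e0000001e0000003b0000001f0000001f 9 6) 0 0 (step_sound _ 98 [(rh18965a982d73c794.shift 1 3), rh86d8ff41a45f031c] (by decide +kernel))
noncomputable def rh6ed0bca8935d3454 : CRef := CRef.mk (Pat.mk 0xc00000038000000000000000000000000 0x7c0000003e0000007f0000001e0000000e 9 7) 0 0 (step_sound _ 98 [(rh5c75ef1ea170a9c9.shift 0 2), (rhb5986f28c05a4f3a.shift 1 2), (rhbb7a69f31443c624.shift 1 0), (rhda1f519ec6e6d4d6.shift 1 0)] (by decide +kernel))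
noncomputable def rh29e0347bdfdb6c7d : CRef := CRef.mk (Pat.mk 0x2000000020000000a0000000a00000002000000010000001000000000 0x10000000300000003000000020000000a0000000e0000001e0000001b0000001f00000014 9 5) 0 0 (step_sound _ 256 [rhf842068f6e58ff86, (rhffd04209dc8ea796.shift 0 4)] (by decide +kernel))
noncomputable def rh33d686816831f17b : CRef := CRef.mk (Pat.mk 0x20000000a0000000a000000000000001000000010 0x2000000020000006b0000007e0000007c0000003c00000014 9 7) 0 0 (step_sound _ 100 [(rh2613c889e411427e.shift 3 0), rh36ba5bf4f64a45f2] (by decide +kernel))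
noncomputable def rheb1ceab7138da14f : CRef := CRef.mk (Pat.mk 0x1400000014000000100000001000000000 0x20000002a0000003f0000003e0000003400000016000000370000001e0000000b 9 6) 0 0 (step_sound _ 164 [(rh1741680720c097b4.shift 3 2), (rh44f453b84f013105.shift 4 1), rha12cb9a6a490391a] (by decide +kernel))
noncomputable def rh44c8a7786ca63969 : CRef := CRef.mk (Pat.mk 0x80000002800000020000000000000000000000000 0x140000001c0000003c000000380000002f0000007e000000fe0000005c00000054 9 8) 0 0 (step_sound _ 99 [(rh0fabbeb2cfd1512d.shift 2 0), (rh5f452f890cbd7cd4.shift 2 1), (rh7a3105e5f8daf74a.shift 2 1), rh919441945b1ab801, (rhd3679f2cfde2c4d9.shift 2 0), (rhfb33572181b1be4d.shift 1 0), rhfd8d9e89e6899ce9] (by decide +kernel))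
noncomputable def rh4e6c9547fff88fa9 : CRef := CRef.mk (Pat.mk 0x400000007000000060000001400000004000000000000000000000000 0x280000003c000000370000003e000000160000003c000000780000002000000020 9 7) 0 0 (step_sound _ 164 [(rh2fe78cc5ca4405d8.shift 0 5), (rhe61a28b10c93962f.shift 1 0)] (by decide +kernel))
noncomputable def rh0c5202c0abdd02a6 : CRef := CRef.mk (Pat.mk 0x1000000050000000100000000000000000 0x8000000180000005800000050000000ff000000fe000001ef 9 9) 0 0 (step_sound _ 36 [(rh5abfc4c9d959be03.shift 3 0), (rh771d065bdc85bf2d.shift 3 0), (rh980b42d53e606c8c.shift 1 0), rhc27be619e28bd394] (by decide +kernel))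
noncomputable def rhcdc01f10a6a9521c : CRef := CRef.mk (Pat.mk 0x1e00000000000000000000000000000000 0x50000000700000007000000070000001e00000007000000070000000700000005 9 5) 0 0 (step_sound _ 161 [(rh3244c3cc8379b070.shift 0 4), rhe18c383aded3573c] (by decide +kernel))
noncomputable def rhf519751f450c1afc : CRef := CRef.mk (Pat.mk 0x180000001a00000018000000300000000000000000 0x11000000170000003f0000001b0000001f000000f70000000700000005 9 8) 0 0 (step_sound _ 97 [rh25b7be8e06c400e6, (rhab22b5b56e7b3243.shift 1 2)] (by decide +kernel))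
noncomputable def rh5a9a21f949f260e2 : CRef := CRef.mk (Pat.mk 0x280000001c000000180000000000000000 0x20000000200000002f0000007f0000001b0000000f0000000e 9 7) 0 0 (step_sound _ 130 [rh54ac73e6028745be, rh6746ddf1a36b89eb, (rh79b3c29022acbdf3.shift 1 3)] (by decide +kernel))
noncomputable def rhc227410bbf139b5a : CRef := CRef.mk (Pat.mk 0x3000000030000000200000000000000000 0xc0000000c0000000e000001fe0000003e0000007f0000001e0000000a 9 9) 0 0 (step_sound _ 131 [(rh204f82f8a7f1a371.shift 1 2), (rh885825ed8c4e1768.shift 0 1), (rh905938542dfca92c.shift 1 0), (rhdaf210947b47bcf0.shift 1 3), (rhdc692b1e23a4285d.shift 1 2), (rhf82a4e9f7d8e0938.shift 1 2)] (by decide +kernel))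
noncomputable def rhecaf84a67824f6a6 : CRef := CRef.mk (Pat.mk 0x30000000b00000002000000000 0x500000007000000070000000a0000000f7000000be000001f700000040 9 9) 0 0 (step_sound _ 67 [(rh0a49a342f988dc02.shift 3 0), (rh3a2e0da897283d2e.shift 0 1), (rhb12ffaec36122c99.shift 0 1), (rhcf86d050071af9b3.shift 2 1), (rhf56e6bc5d2f7fe77.shift 1 1)] (by decide +kernel))
noncomputable def rh459e007365a7193d : CRef := CRef.mk (Pat.mk 0x8000000280000000800000018000000000000000000000000 0x280000007c0000002f000001fe000000f8000001ec0000004800000040 9 9) 0 0 (step_sound _ 132 [rh05ae901ca813c312, (rh2145e1d24b96a57e.shift 3 3)] (by decide +kernel))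
noncomputable def rhad590607a56894ae : CRef := CRef.mk (Pat.mk 0x100000001800000018000000180000000000000000 0x340000001f000000ff0000007f0000001600000016 9 8) 0 0 (step_sound _ 4 [(rh9e07f76261b05888.shift 3 0), rhcd34ef2683b4bb6b] (by decide +kernel))
noncomputable def rh4148bcb1f4dce946 : CRef := CRef.mk (Pat.mk 0x400000014000000040000000c0000000000000000 0x1400000016000000170000007f0000003f0000003400000004 9 7) 0 0 (step_sound _ 99 [(rh2145e1d24b96a57e.shift 2 2), rh68b3da46267c20a3] (by decide +kernel))
noncomputable def rh8fe995902cc7e205 : CRef := CRef.mk (Pat.mk 0x100000005000000010000000000000000000000000 0x80000005800000058000000f7000000fe000001ff00000028 9 9) 0 0 (step_sound _ 68 [(rh46baee19951a66e7.shift 3 0), (rh6eff4158bb400f47.shift 3 0), (rhc27be619e28bd394.shift 0 1), (rhc4526fc8abf298b6.shift 3 0)] (by decide +kernel))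
noncomputable def rh9e91e7f94302541f : CRef := CRef.mk (Pat.mk 0x10000000100000003c00000000 0x1c0000001f0000007c0000001e0000007c00000004 9 7) 0 0 (step_sound _ 66 [(rh3244c3cc8379b070.shift 1 1), rhec9a991f32d89675] (by decide +kernel))
noncomputable def rhd1dbfa5666dfb70e : CRef := CRef.mk (Pat.mk 0x10000000180000001c0000000000000000 0xc0000000e0000001f0000001b0000007f0000000c0000000c 9 7) 0 0 (step_sound _ 35 [rh6192025c8f82f342, (rh71222050f2c63a3a.shift 3 0)] (by decide +kernel))
noncomputable def rh72733426a0038600 : CRef := CRef.mk (Pat.mk 0x80000000a0000001e00000002000000000000000000000000 0x60000000e0000000e0000001e00000036000000170000001700000003 9 6) 0 0 (step_sound _ 100 [rhca7188c4a37f7a77, (rhe25b0a99195a5d59.shift 1 3)] (by decide +kernel))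
noncomputable def rh447769b53578cf66 : CRef := CRef.mk (Pat.mk 0x38000000000000000000000000 0xe0000000e0000000e0000000f0000007c0000001f0000000c0000000c 9 7) 0 0 (step_sound _ 66 [(rh3cc5c7fb74c49f61.shift 0 2), rh448a76a2cc2faf17, (rh4c5c51b0ae60cece.shift 0 2), (rh73f5f7cdf41b5bc9.shift 1 1), (rhe1c32197ffb40f8f.shift 0 2)] (by decide +kernel))
noncomputable def rh36be3764fe001199 : CRef := CRef.mk (Pat.mk 0x4000000040000000f0000000000000000000000000 0x300000003c0000007c00000077000000fe0000003f0000003000000010 9 8) 0 0 (step_sound _ 99 [(rh551591afa7e9bd9a.shift 0 2), (rh576b091afd4e4699.shift 2 0), (rheae1728ff4a56756.shift 2 2)] (by decide +kernel))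
noncomputable def rh7dce55b787b1a954 : CRef := CRef.mk (Pat.mk 0x6000000040000000080000007800000000 0x70000007e000000ef000000080000007c0000000e 9 8) 0 0 (step_sound _ 2 [rh5e64d88246caed71, (rh80fcd6d0a18cb2dd.shift 2 0)] (by decide +kernel))
noncomputable def rh2818d3d6f6ff492b : CRef := CRef.mk (Pat.mk 0x8000000080000000e00000000 0x50000000f0000001f0000000b0000001e00000017 9 5) 0 0 (step_sound _ 131 [rh31fc74b4b475ce31, (rh932754581e0f4330.shift 2 0)] (by decide +kernel))
noncomputable def rhbd0ec1c77d2f0775 : CRef := CRef.mk (Pat.mk 0x20000000000000003c000000100000000000000000 0x1c0000007c0000000f0000003c0000001e0000001f0000001e 9 7) 0 0 (step_sound _ 66 [rh892dc9d699cbde68, (rheb0810cc63b001d8.shift 1 2)] (by decide +kernel))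
noncomputable def rhdecf5814855ea7d6 : CRef := CRef.mk (Pat.mk 0x8000000080000000f0000000000000000000000000 0xa0000000a0000000b7000000fe0000007f0000005000000050 9 8) 0 0 (step_sound _ 99 [rha1679523e36f1f45, (rhc7e126711c4875af.shift 0 2), (rheae1728ff4a56756.shift 2 2)] (by decide +kernel))
noncomputable def rh9a0c7a569dc29ddd : CRef := CRef.mk (Pat.mk 0x180000001400000010 0x380000003f000000ff000000f80000001e00000010 9 8) 0 0 (step_sound _ 100 [(rh279ad5450f1bece9.shift 1 0), (rh7aeb5dd0e973b740.shift 1 0), rh9cf53d219962c6e9, (rhc85cc95794737cf7.shift 3 0)] (by decide +kernel))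
noncomputable def rhb40a5dd38ea39131 : CRef := CRef.mk (Pat.mk 0x600000003000000050000000100000000000000000 0x10000000700000007c0000005e000000fc000000ef0000000c 9 8) 0 0 (step_sound _ 131 [rh101f68e389b596f3, (rh53b3c253cb0c65f4.shift 2 4)] (by decide +kernel))
noncomputable def rh01d4cd1478853f6c : CRef := CRef.mk (Pat.mk 0x40000000c0000000200000002 0xa0000003e0000003f0000003f0000000c0000000c0000000600000002 9 6) 0 0 (step_sound _ 130 [(rh61dfe63d3a56496f.shift 0 2), (rheea67dfebd0f8008.shift 1 0)] (by decide +kernel))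
noncomputable def rh051d18c3a0478198 : CRef := CRef.mk (Pat.mk 0x1e000000100000000000000000 0x3000000038000000380000003f0000001e000000180000003000000030 9 6) 0 0 (step_sound _ 132 [rh0d2b840b5ef62173, (rh33e738c4ed385b9f.shift 1 3)] (by decide +kernel))
noncomputable def rh74b1a39c9532774b : CRef := CRef.mk (Pat.mk 0x380000001400000014 0x1ff000000fc000001f8000000380000003e00000014 9 9) 0 0 (step_sound _ 35 [(rh53b3c253cb0c65f4.shift 1 1), rh5cc0decffb3a6887] (by decide +kernel))
noncomputable def rheb6d9bd1b12e0bb2 : CRef := CRef.mk (Pat.mk 0xc000000020000000a0000000000000000000000000 0x14000001fce00000ffe00000ebf000001c0000001c000000140 9 13) 0 0 (step_sound _ 135 [(rh569774833124f14a.shift 0 3), (rh6d7e9fbf5dfafd17.shift 6 0), (rha2f3f9a990095b85.shift 6 0), (rhca1c8166938286b3.shift 4 0)] (by decide +kernel))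
noncomputable def rhe7cc21f98a93c83e : CRef := CRef.mk (Pat.mk 0xc000000060000000a0000000000000000 0x200000012000000330000003e0000003e0000000b0000001f0000001b 9 6) 0 0 (step_sound _ 132 [(rh18965a982d73c794.shift 1 3), rhb919c3d6057db261] (by decide +kernel))
noncomputable def rhd560dc6f4a279a9e : CRef := CRef.mk (Pat.mk 0x600000003000000050000000100000000000000000 0x1000000070000000fc0000005e000000fc000000ef0000000c 9 8) 0 0 (step_sound _ 131 [rh1c890ee3650d9f1b, (rh53b3c253cb0c65f4.shift 2 4)] (by decide +kernel))
noncomputable def rh44a8b08cbd5d6482 : CRef := CRef.mk (Pat.mk 0x100000001400000014000000000000000000000000 0x8000001dc000000fc000001d60000003e0000003f00000020 9 9) 0 0 (step_sound _ 68 [(rh8ff3dde5b1c639e0.shift 3 0), (rh98b1f5f521715fac.shift 1 1), (rhf92c094e260f0cb7.shift 0 1)] (by decide +kernel))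
noncomputable def rh784a2d3339e288f2 : CRef := CRef.mk (Pat.mk 0x40000000400000008000000180000000a0000000000000000 0xa0000000e4000000e6000001fb000000fe000001ee0000006000000060 9 9) 0 0 (step_sound _ 101 [(rh0744da9a1063acfe.shift 3 0), (rh37b1d0aaf934e3c6.shift 0 2), (rh9c0ab0af19c4d8a6.shift 1 2)] (by decide +kernel))
noncomputable def rhb1234207688305e9 : CRef := CRef.mk (Pat.mk 0x40000000800000008000000080000000a00000002 0x40000000c0000000800000008000001fc000000fe000000e3 9 9) 0 0 (step_sound _ 163 [(rh50fbb5868c909700.shift 2 2), rh60225b6de958a843] (by decide +kernel))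
noncomputable def rh12f9f6e687455e8f : CRef := CRef.mk (Pat.mk 0x1000000008000000080000000a000000020000000000000000 0x18000000180000000f000001fe000000fe000000e30000000300000003 9 9) 0 0 (step_sound _ 98 [(rh53a4f32c163a9707.shift 0 2), (rha328890dc6ff34c6.shift 1 3), (rhc71651cfcc703c30.shift 0 2), rhf20a2a3deda29f8f] (by decide +kernel))
noncomputable def rh8559e380e0b4881b : CRef := CRef.mk (Pat.mk 0x100000001400000014000000000000000000000000 0x20000000300000003400000034000000160000003e0000003f00000028 9 6) 0 0 (step_sound _ 68 [(rh3a45e8bf546107b3.shift 0 1), (rh8cdd36b03d57a2f6.shift 3 0), (rhc9de03f9731897d4.shift 4 0), (rhcab3157f7bdcba3e.shift 3 0)] (by decide +kernel))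
noncomputable def rh4a081d989f4791be : CRef := CRef.mk (Pat.mk 0x20000000a000000020000000a000000010000000000000000 0x3d0000001f0000001a0000000a0000000a000000070000000700000004 9 6) 0 0 (step_sound _ 65 [rh4acdb1b9e0831e18, (rh932754581e0f4330.shift 0 1)] (by decide +kernel))
noncomputable def rh7371eaac216ae604 : CRef := CRef.mk (Pat.mk 0x400000001000000050000000100000000000000000 0x200000002000000060000000700000007000000050000003fe000001fe000001ef 9 10) 0 0 (step_sound _ 36 [rh6ab4eba411743c7b, (rhc8bd5a66cad88589.shift 4 1)] (by decide +kernel))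
noncomputable def rh75e3af95a6716250 : CRef := CRef.mk (Pat.mk 0x20000000080000002800000008000000000000000000000000 0x1000000010000000320000003a0000007e0000002f0000007e0000006c0000000400000004 9 7) 0 0 (step_sound _ 196 [(rh055331f574142fff.shift 3 3), (rh09801475d705d836.shift 3 2), (rh1fa6f7f8cdcb4cc4.shift 0 2), rh7a09db8548eeddc2] (by decide +kernel))
noncomputable def rh949eca4b325d28de : CRef := CRef.mk (Pat.mk 0x4000000010000000100000003000000000 0x280000003f0000003e0000007700000018000000180000003800000020 9 7) 0 0 (step_sound _ 132 [(rh535a4b914bcace7f.shift 0 1), (rh55afc6a59410cf00.shift 4 0)] (by decide +kernel))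
noncomputable def rh22b498b55578d0bf : CRef := CRef.mk (Pat.mk 0x8000000020000000a000000020000000200000000 0xa0000000a000000eb0000007e000000fe00000004 9 8) 0 0 (step_sound _ 34 [(rh07c634dd1b7a5168.shift 0 1), (rh55afc6a59410cf00.shift 1 0)] (by decide +kernel))
noncomputable def rhc8da4c605a99c694 : CRef := CRef.mk (Pat.mk 0x100000001800000018000000100000000000000000 0x6000000170000001f0000003f0000007f0000000f00000004 9 7) 0 0 (step_sound _ 67 [rh2ac39a49fe6475ca, (rh932754581e0f4330.shift 3 1)] (by decide +kernel))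
noncomputable def rh5c9ba96de06b125c : CRef := CRef.mk (Pat.mk 0x20000000200000002000000060000000000000000000000000000000000000000 0x30000000300000007000000070000000300000003000000070000000700000005 9 3) 0 0 (step_sound _ 128 [rh61e375759c4dd139, (rh79877ebd3ef475dd.shift 0 4)] (by decide +kernel))
noncomputable def rhdceab40a272815b1 : CRef := CRef.mk (Pat.mk 0x8000000020000000a0000000000000004000000000 0x150000001f0000001f000001fae00000ffe00000ebf000001f0000001c000000100 9 13) 0 0 (step_sound _ 135 [(rh569774833124f14a.shift 0 3), (rh5d91ec4eb06a1f14.shift 4 2), (rhabda7ab599cf968f.shift 4 1), (rhd5529ece0511c5ec.shift 2 1), (rhf7ab05468f5c87a6.shift 6 0)] (by decide +kernel))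
noncomputable def rh000b3d2f99a70554 : CRef := CRef.mk (Pat.mk 0x400000000000000030000000200000000000000000 0x14400000144000003cf000001fe000001f7000000a2000000a2 9 10) 0 0 (step_sound _ 99 [(rh3918eeb6c53434d8.shift 0 2), rh475a7000295d3586, (rhc015b38fa2840fae.shift 3 0), (rhc21a95c499b3efdb.shift 2 2)] (by decide +kernel))
noncomputable def rhfd790945e43a3bd6 : CRef := CRef.mk (Pat.mk 0x1000000050000000000000003000000000000000000000000000000000 0x28000000380000003800000010000000500000005c000001df000000fc000001df0000001c0000001c00000014 9 9) 0 0 (step_sound _ 131 [(rh1dd2f696837e3c63.shift 2 3), (rh61a0202de37988d6.shift 0 3), rh7b072b6bc015633a, (rhc03f4929ba5fd023.shift 1 3)] (by decide +kernel))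
noncomputable def rha88e0a301cd8420b : CRef := CRef.mk (Pat.mk 0x8000000020000000a000000000000000c000000000 0x1000000010000001f8e00000ffe00000ebf00000180000001c000000140 9 13) 0 0 (step_sound _ 135 [(rh072ce4b569e16e7a.shift 6 0), (rh145fd0e0c3c30b9b.shift 0 3)] (by decide +kernel))
noncomputable def rh44f270149324b21c : CRef := CRef.mk (Pat.mk 0x2000000020000000200000002000000000 0x2000000020000003fc000001fe000003d7 9 10) 0 0 (step_sound _ 36 [rh1fcb48d0a7215b0a, (rh932754581e0f4330.shift 4 0)] (by decide +kernel))
noncomputable def rh857dfc5931a46fec : CRef := CRef.mk (Pat.mk 0x40000000400000004000000000000000000000000 0x80000000c0000000c0000003f0000003f0000003e0000000a 9 6) 0 0 (step_sound _ 66 [(rh45ae090f27ec4e0a.shift 0 1), (rh6c59ce14113da07f.shift 2 0), (rh8cdd36b03d57a2f6.shift 1 0), (rhcab3157f7bdcba3e.shift 1 0)] (by decide +kernel))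
noncomputable def rh80034323f0b41c9e : CRef := CRef.mk (Pat.mk 0x800000008000000080000000000000000000000000000000000000000 0x80000001c0000007e0000007f0000001c0000001c0000001c0000001800000010 9 7) 0 0 (step_sound _ 131 [(rh0aac1eeb518e599b.shift 1 1), (rh7a62c4b2780c02e6.shift 2 0), (rh8cdd36b03d57a2f6.shift 2 2), (rhb752505ce93c5e7d.shift 0 2), (rhc9ac229b3c77cd55.shift 2 3)] (by decide +kernel))
noncomputable def rh4e030f365645c2f0 : CRef := CRef.mk (Pat.mk 0x10000000000000000c00000018000000000000000000000000 0x1000000010000000330000003f0000001f000000070000000600000006 9 6) 0 0 (step_sound _ 129 [rh8c59c9ff7411e9ca, (rhb739f4f82bb681b4.shift 0 3)] (by decide +kernel))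
noncomputable def rh7fc00b83e4eff15d : CRef := CRef.mk (Pat.mk 0x8000000020000000a0000000000000004000000000 0x100000001000000018000001f8e00000ffe00000ebf000001c0000001c000000140 9 13) 0 0 (step_sound _ 135 [(rh569774833124f14a.shift 0 3), (rh5d91ec4eb06a1f14.shift 4 2), (rhebbfc1325fb53d6f.shift 6 0)] (by decide +kernel))
noncomputable def rh6d553054cff5a68d : CRef := CRef.mk (Pat.mk 0x1800000010000000100000001000000000 0x1e000000ff000000ff0000001600000016 9 8) 0 0 (step_sound _ 99 [(rh7b1f1fb55310c477.shift 3 0), rhf58170592c9731f0] (by decide +kernel))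
noncomputable def rhbff7da0eddf6f9b0 : CRef := CRef.mk (Pat.mk 0x4000000080000000a0000000a00000000 0x400000004000000fc000000fe000001fb0000000a00000002 9 9) 0 0 (step_sound _ 98 [rh8d5c3997adedfe0d, rh95b7e77470206b69, (rhc89253ff58c66167.shift 2 1)] (by decide +kernel))
noncomputable def rh89aafc06c6394aeb : CRef := CRef.mk (Pat.mk 0x7000000000000000000000000 0x140000001c0000001c0000003f0000007f000000fe0000000c0000000c 9 8) 0 0 (step_sound _ 99 [(rh3fc3a7fb6866dcd4.shift 0 2), (rh4dd1a2e1e273a1e5.shift 0 2), (rh533df5c46f4783d4.shift 0 2), (rhb6df8b8dcb7e8542.shift 0 2), rhbc61463a522fcd04] (by decide +kernel))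
noncomputable def rhc5a01e90cb40429b : CRef := CRef.mk (Pat.mk 0x4000000080000000000000008000000000000000000000000 0x140000001c0000001c0000001c0000001f0000007c0000001800000008000000180000001800000010 9 7) 0 0 (step_sound _ 131 [(rh114f4abf4ea101c9.shift 2 2), (rh3fdfff57602df0d6.shift 2 0), (rhbec796c3ea7a32e6.shift 1 2), (rhfe1e47ed4d5b3fd8.shift 0 3)] (by decide +kernel))
noncomputable def rhfb1477ed9a4df54d : CRef := CRef.mk (Pat.mk 0xe0000000000000000 0x2800000038000000380000007f0000003e0000007800000018 9 7) 0 0 (step_sound _ 68 [(rh3947d1dfff0afc6c.shift 0 1), (rh3fc3a7fb6866dcd4.shift 1 1), rh4f8d498fddd05aa9, (rhb18e6c78a554867d.shift 0 2)] (by decide +kernel))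
noncomputable def rh4543a8e047d972ae : CRef := CRef.mk (Pat.mk 0x1800000010000000040000001400000000 0x7000000070000001f7000001fe000003f4000000740000001400000010 9 10) 0 0 (step_sound _ 130 [(rh6289f4ac4c624f40.shift 0 1), (rh9b29d20d31abe80a.shift 2 0), (rhb3c9533f45f83bb3.shift 0 1)] (by decide +kernel))
noncomputable def rh50e6bb003b216f65 : CRef := CRef.mk (Pat.mk 0xe000000080000000200000002 0x3400000034000000ff000000fe000001fa0000000200000002 9 9) 0 0 (step_sound _ 130 [(rh04253f50b6dd0619.shift 1 0), (rhc3766c9fc34e3648.shift 0 2)] (by decide +kernel))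
noncomputable def rhcdf262502dbba546 : CRef := CRef.mk (Pat.mk 0xa000000020000000a00000000000000000000000000000000 0x1000000010000000740000003e0000001f0000000a0000000f000000070000000700000005 9 7) 0 0 (step_sound _ 97 [(rh07a92d1d27d8d30e.shift 0 1), rh49759b6975f15643, (rh6eff4158bb400f47.shift 0 1), (rha4dc5b779161f430.shift 0 1), (rhd0d766e96107943c.shift 0 3)] (by decide +kernel))
noncomputable def rh55cce442a9967da7 : CRef := CRef.mk (Pat.mk 0x1000000020000000a000000020000000800000000 0x40000001700000017000000320000001e0000001f0000000800000008 9 6) 0 0 (step_sound _ 161 [rh0287ecaf9d16a783, (rh50fbb5868c909700.shift 0 2)] (by decide +kernel))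
noncomputable def rh36d5a34baa5c7bc7 : CRef := CRef.mk (Pat.mk 0x20000000a000000020000000a000000030000000000000000 0x3d0000001f0000001a0000000a0000000a000000070000001e00000004 9 6) 0 0 (step_sound _ 34 [(rhd3458b32566d63f7.shift 1 1), rhdc62e3f2cb59168e] (by decide +kernel))
noncomputable def rh4f401498f303a99a : CRef := CRef.mk (Pat.mk 0x160000000200000000000000000000000000000000 0x10000000700000007000000370000001e0000003700000003000000070000000700000004 9 6) 0 0 (step_sound _ 163 [rh8dbf0dd41004c2ab, (rheb0810cc63b001d8.shift 0 4)] (by decide +kernel))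
noncomputable def rh33ca698741033404 : CRef := CRef.mk (Pat.mk 0x1600000002000000000000000000000000 0x4000000070000000700000007000000370000001e00000003000000070000000700000005 9 6) 0 0 (step_sound _ 131 [rh1552c8f69bd3f898, (rheb0810cc63b001d8.shift 0 3)] (by decide +kernel))
noncomputable def rh628320e72c83d720 : CRef := CRef.mk (Pat.mk 0x1600000002000000000000000000000000000000000 0x40000001c0000001c0000005c000001ff0000007c0000007e0000003e0000003c00000018 9 9) 0 0 (step_sound _ 132 [(rh361cc68994bd8a63.shift 4 4), rh8fc26a479e7bdb9b] (by decide +kernel))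
noncomputable def rh7e8e0802a62bd748 : CRef := CRef.mk (Pat.mk 0x1e0000000000000000000000000000000000000000 0x280000003800000038000000300000001e0000003b00000038000000380000003800000008 9 6) 0 0 (step_sound _ 129 [(rh08e81bf9a3a3eadb.shift 1 0), (rheb0810cc63b001d8.shift 0 4)] (by decide +kernel))
noncomputable def rhb5413248639a448c : CRef := CRef.mk (Pat.mk 0x580000000800000000000000000000000000000000 0x100000001c0000001c0000001c000000d80000007c000000fc0000001f0000001c0000001c00000014 9 8) 0 0 (step_sound _ 165 [rh4d75d6c45626d783, (rheb0810cc63b001d8.shift 2 4)] (by decide +kernel))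
noncomputable def rha7483bafcf996f4c : CRef := CRef.mk (Pat.mk 0x5800000008000000000000000000000000 0x30000000b0000007f0000003f000000370000001400000010 9 7) 0 0 (step_sound _ 98 [(rh361cc68994bd8a63.shift 2 3), rh38109f157fa9043f] (by decide +kernel))
noncomputable def rh7057e8210a70cafd : CRef := CRef.mk (Pat.mk 0x580000000800000000000000000000000000000000 0x100000001c0000001c0000001c0000005800000058000001f8000000ff000001fc0000001c00000014 9 9) 0 0 (step_sound _ 99 [(rh15590a39afd9a120.shift 2 0), (rh166517108d68a8bd.shift 0 2), (rh3820f35d5e705bec.shift 3 0), (rhb44fbf6bd2c6418e.shift 2 0), (rhffb8e5993241bf15.shift 2 0)] (by decide +kernel))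
noncomputable def rh2ef76d1ed4736d88 : CRef := CRef.mk (Pat.mk 0x8000000580000000000000000 0x300000003c0000003f0000001f0000007f0000001b0000001b 9 7) 0 0 (step_sound _ 98 [(rh2fe78cc5ca4405d8.shift 2 2), rh4272b644dcd5aa54] (by decide +kernel))
noncomputable def rhc8f1c868a58558ef : CRef := CRef.mk (Pat.mk 0x2000000160000000000000000000000000000000000000000 0x280000003800000038000000330000001e0000003800000038000000380000003800000008 9 6) 0 0 (step_sound _ 163 [(rh08e81bf9a3a3eadb.shift 1 0), (rh3244c3cc8379b070.shift 0 5)] (by decide +kernel))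
noncomputable def rh3426fc852f964bb3 : CRef := CRef.mk (Pat.mk 0x800000058000000000000000000000000 0x30000000380000003f0000001f0000007f0000003b0000003a00000012 9 7) 0 0 (step_sound _ 130 [rh1fec140cfbc87e7c, (rh2fe78cc5ca4405d8.shift 2 3)] (by decide +kernel))
noncomputable def rh2f30238ec446a497 : CRef := CRef.mk (Pat.mk 0x40000002c0000000000000000000000000000000000000000 0x7c0000007c0000006c0000003f0000007c0000007f0000007f0000005600000004 9 7) 0 0 (step_sound _ 131 [rh5a56954dd378e9e0, (rh5d54cb79a67f97ab.shift 2 2), (rh5ff3746593ce7bfb.shift 0 1), (rha40d42a2e34c408d.shift 2 2)] (by decide +kernel))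
noncomputable def rh985083a03133ef1f : CRef := CRef.mk (Pat.mk 0x80000001800000000000000000000000000000000 0x300000007c0000007c0000001f0000001f000000f80000003e0000003e0000000c 9 8) 0 0 (step_sound _ 100 [(rh084f9cdf04287bac.shift 1 0), (rh386fe6f4e3d02a1f.shift 0 1), (rh5d54cb79a67f97ab.shift 3 1), (rha40d42a2e34c408d.shift 3 1)] (by decide +kernel))
noncomputable def rhd7c12fec24b39174 : CRef := CRef.mk (Pat.mk 0x1e00000000000000000000000000000000 0x4000000070000000700000007000000370000001e00000003000000070000000700000005 9 6) 0 0 (step_sound _ 97 [rh1552c8f69bd3f898, (rheb0810cc63b001d8.shift 0 3)] (by decide +kernel))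
noncomputable def rhfbb28a2e54b44681 : CRef := CRef.mk (Pat.mk 0x1e0000000000000000000000000000000000000000 0x280000003800000038000000330000001e0000003800000038000000380000003800000008 9 6) 0 0 (step_sound _ 132 [(rhe25b0a99195a5d59.shift 1 4), rhf2754d885c60c2a8] (by decide +kernel))
noncomputable def rhf33b67baeabf111a : CRef := CRef.mk (Pat.mk 0x1600000002000000000000000000000000000000000 0x780000007c000001fc000000fc0000003e0000003f0000001c00000008 9 9) 0 0 (step_sound _ 132 [(rh361cc68994bd8a63.shift 4 4), rh7542810034a8c730] (by decide +kernel))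
noncomputable def rh57f997dcdaf1c675 : CRef := CRef.mk (Pat.mk 0x5800000008000000000000000000000000 0x3000000030000007f0000003f0000007f0000003400000030 9 7) 0 0 (step_sound _ 98 [(rh361cc68994bd8a63.shift 2 3), rh3fc1cead129f33f2] (by decide +kernel))
noncomputable def rh1c342c8474abb7c4 : CRef := CRef.mk (Pat.mk 0x160000000200000000000000000000000000000000 0x280000003800000038000000300000001e0000003b00000038000000380000003800000008 9 6) 0 0 (step_sound _ 163 [(rh08e81bf9a3a3eadb.shift 1 0), (rheb0810cc63b001d8.shift 0 4)] (by decide +kernel))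
noncomputable def rh6f8b4e12f2c8835b : CRef := CRef.mk (Pat.mk 0xb0000000100000000000000000000000000000000000000000 0x140000001f0000001f8000003af000000fe000001f7000001fe000001fe000001fe000001ea00000140 9 10) 0 0 (step_sound _ 167 [(rh257b7246c4570a29.shift 1 2), (rh4c8c688b28bbd5c9.shift 1 0), (rh69dbcbccc7eb9fcb.shift 0 5), (rhe662c5a109152f47.shift 0 1), (rhfd18628fa736ba2b.shift 4 1)] (by decide +kernel))
noncomputable def rhf4310443c8a6650b : CRef := CRef.mk (Pat.mk 0xb00000001000000000000000000000000000000000 0x2e0000002e000000ae000000be000001fe000003ff000001fe000003ff0000004a 9 10) 0 0 (step_sound _ 133 [(rh5fe87a4e490df4de.shift 1 1), (rh67c733abba0446c3.shift 0 1), (rh7e34f96bddd5e911.shift 1 0), (rh9dcb954df7023698.shift 1 1), (rhb494292580f1abd0.shift 1 1), (rhbbcda363c6029991.shift 1 0), (rhc47488317cbcdc32.shift 1 1), (rhd226601aa5b2d41c.shift 1 1), (rhe26e2ac687952f5f.shift 1 1)] (by decide +kernel))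
noncomputable def rh3c666738de7a52b2 : CRef := CRef.mk (Pat.mk 0x200000016000000000000000000000000000000000 0x1c0000001f0000007c000001ff0000001c0000001c0000001c00000014 9 9) 0 0 (step_sound _ 164 [(rh2fe78cc5ca4405d8.shift 4 4), rh5901ace7067b7767] (by decide +kernel))
noncomputable def rh59e87f8bca719c8f : CRef := CRef.mk (Pat.mk 0x40000002c00000000000000000000000000000000000000000000000000000000 0xa0000007e0000007f0000007f0000006c0000003f000001fa000001fe000001fc00000070000000700000007000000050 9 9) 0 0 (step_sound _ 290 [(rh046c5eb18e55a239.shift 2 4), (rh096bcb781aae0385.shift 0 6), rh98c672f14914ab51, (rhfcaeb045b834dc3c.shift 1 6)] (by decide +kernel))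
noncomputable def rh652bcf813a9c87b3 : CRef := CRef.mk (Pat.mk 0x40000002c000000000000000000000000000000000 0x28000000b8000007fe000003fe000007fe000002ff000002fe000001bf000001f8000001b800000038 9 11) 0 0 (step_sound _ 164 [(rh1ad0c9217ad39fe2.shift 1 2), (rh3e4648ee4798bd6e.shift 1 0), (rh3f5051c866d70e9e.shift 3 1), (rh6f06e49d27a9508b.shift 1 0), (rh71f8adc749c8cd21.shift 1 0), (rh907de7166cb50b3c.shift 1 1), rhb9e4789fd6e7fc4e] (by decide +kernel))
noncomputable def rh177a5ba8eee4b244 : CRef := CRef.mk (Pat.mk 0xb00000001000000000000000000000000000000000 0xff0000007e000000bf000000be000001fe000001fe000001f60000007000000040 9 9) 0 0 (step_sound _ 133 [(rh04c6af5a918d0242.shift 0 1), (rh3a53344aa48bddf8.shift 1 0), (rh7ab6f95944031941.shift 2 1), (rh98ca3cd0fdf52f9d.shift 1 1), (rh9dcb954df7023698.shift 1 1), (rhaa9178296703da32.shift 2 1), (rhf8133b70cf79fd8a.shift 2 1)] (by decide +kernel))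
noncomputable def rh4ab55ac37a7b0d5f : CRef := CRef.mk (Pat.mk 0x580000000800000000000000000000000000000000 0x1800000018000000580000005f000000ff000000ff000000fe0000007c00000020 9 8) 0 0 (step_sound _ 132 [(rh0b3c3590f2057748.shift 0 1), (rh5dfb3791815b6bea.shift 0 1), (rh622efe1f4a6c8030.shift 0 1), (rh6f5d4b636400e4f3.shift 1 0), (rh9dcb954df7023698.shift 0 1), (rhd3ad7570e04482d6.shift 0 1), (rhd96e477cd7f06adf.shift 2 1)] (by decide +kernel))
noncomputable def rh8afe2e18f3bac610 : CRef := CRef.mk (Pat.mk 0x300000001000000000000000000000000000000000 0x280000003c000000ff0000007e0000003f0000003f000001ff000001f60000007e0000007800000028 9 9) 0 0 (step_sound _ 100 [(rh15590a39afd9a120.shift 3 0), (rh509015da7b49d54c.shift 0 1), (rh92b03e8c4eb7c7b3.shift 3 0), (rhf849c8472bff4b9d.shift 3 0)] (by decide +kernel))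
noncomputable def rh6e04e47eb7cc0848 : CRef := CRef.mk (Pat.mk 0x180000000800000000000000000000000000000000 0x100000001c0000001c0000001f0000001f0000001e0000001f0000001c0000000c0000000c00000004 9 5) 0 0 (step_sound _ 99 [(rh095c9ad63039ff52.shift 0 2), (rh15590a39afd9a120.shift 2 0), (rhb8c18aeece372d98.shift 2 0), (rhd2b286e370d4a8f3.shift 2 1), (rhe726175a5b7384ef.shift 2 0)] (by decide +kernel))
noncomputable def rhf17ba1778d45ffe4 : CRef := CRef.mk (Pat.mk 0x180000000800000000000000000000000000000000 0x100000001c0000001c0000001f0000001f0000001e0000001f0000000c0000001c0000001c00000014 9 5) 0 0 (step_sound _ 99 [(rh0f5b52d4c767672f.shift 2 0), (rh15590a39afd9a120.shift 2 0), (rhb06d029395a2d4d3.shift 0 2), (rhf849c8472bff4b9d.shift 2 0)] (by decide +kernel))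
noncomputable def rh3ad6e7d15605fb3d : CRef := CRef.mk (Pat.mk 0xc0000000400000000000000000000000000000000 0x80000000e0000000e0000000e0000000c0000000f0000003e0000003e0000000e0000000a 9 6) 0 0 (step_sound _ 98 [(rh15590a39afd9a120.shift 1 0), (rh3820f35d5e705bec.shift 2 0), (rh7253c7cf23958a38.shift 0 2), (rhc4138b9119888c61.shift 1 1), (rhffb8e5993241bf15.shift 1 0)] (by decide +kernel))
noncomputable def rhd02cbd3d63fff9df : CRef := CRef.mk (Pat.mk 0x30000000100000000000000000 0x3800000038000000380000007e0000003e0000003e000001fe000000ff000000ee 9 9) 0 0 (step_sound _ 132 [(rh128f612df318097e.shift 3 0), (rh487489a9737765fd.shift 3 0), (rh58f73dfb164eff92.shift 1 1), (rh6d406e32c1bd7163.shift 3 1), (rhb0a86dd39b2e7e82.shift 3 0), (rhca55a751ad914d51.shift 3 0), rhf78f1f5ea867cdea] (by decide +kernel))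
noncomputable def rhb2ce2adcb612a1f1 : CRef := CRef.mk (Pat.mk 0x580000000800000000000000000000000000000000 0x40000001c0000001c0000005c0000005c000001f8000000ff000001fc0000001c00000014 9 9) 0 0 (step_sound _ 99 [(rh15590a39afd9a120.shift 2 0), (rh3820f35d5e705bec.shift 3 0), (rh5666aa245e46f96d.shift 0 2), (rhfa50cc73c689e7d7.shift 2 0), (rhffb8e5993241bf15.shift 2 0)] (by decide +kernel))
noncomputable def rh81dc4d9aa7ec0a54 : CRef := CRef.mk (Pat.mk 0x5800000008000000000000000000000000 0xe0000000e0000004f0000005f000000ff000001ff000000fe000001fe 9 9) 0 0 (step_sound _ 100 [rh0428fd9d76234700, (rh53e79ab146da0068.shift 1 0), rh5fe87a4e490df4de, rh622efe1f4a6c8030, rh69099aa93e4d91c0, (rh7ab6f95944031941.shift 1 0), (rhcdec31b70c0cc2ad.shift 0 1), rhd1e9d0e555d20b83] (by decide +kernel))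
noncomputable def rh2b2df762e819bae0 : CRef := CRef.mk (Pat.mk 0xb00000001000000000000000000000000000000000 0x2e0000002e000000ae000000be000001fe000003ff000001fe000003ff0000004a 9 10) 0 0 (step_sound _ 133 [(rh5fe87a4e490df4de.shift 1 1), (rh67c733abba0446c3.shift 0 1), (rh7e34f96bddd5e911.shift 1 0), (rh9dcb954df7023698.shift 1 1), (rhbbcda363c6029991.shift 1 0), (rhc47488317cbcdc32.shift 1 1), (rhc76dcc51cecc8451.shift 1 1), (rhd226601aa5b2d41c.shift 1 1), (rhe26e2ac687952f5f.shift 1 1)] (by decide +kernel))
noncomputable def rh3ef0ab812f23c2aa : CRef := CRef.mk (Pat.mk 0x180000000800000000000000000000000000000000 0xc0000001c0000001f0000001f0000001c0000000e0000007c0000001c0000001c00000014 9 7) 0 0 (step_sound _ 99 [(rh020140c103c93fec.shift 2 0), (rh5e8c20006d6f8863.shift 0 2), (rh947561ae8c5c3f87.shift 2 1), (rhb8c18aeece372d98.shift 2 0), (rhf849c8472bff4b9d.shift 2 0), (rhffb8e5993241bf15.shift 2 0)] (by decide +kernel))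
noncomputable def rh4022e5517fb4568b : CRef := CRef.mk (Pat.mk 0x580000000800000000000000000000000000000000 0x25000001ff000001ff000003df0000005f000000ff000000f70000007f0000003d00000020 9 10) 0 0 (step_sound _ 132 [(rh2e269c541c7494b8.shift 0 1), (rh3648b491b08017ae.shift 1 0), (rh39308ac34155494c.shift 0 1), rh4069f3985c24eef3, (rh622efe1f4a6c8030.shift 0 1), (rh9dcb954df7023698.shift 0 1), (rhb761bd0c3098f57e.shift 0 1), (rhcdec31b70c0cc2ad.shift 0 2)] (by decide +kernel))
noncomputable def rhdd76dc26c616ab41 : CRef := CRef.mk (Pat.mk 0x1600000002000000000000000000000000 0x4000000070000000700000007000000070000001e00000033000000070000000700000005 9 6) 0 0 (step_sound _ 131 [rh16bb22dc85b26489, (rheb0810cc63b001d8.shift 0 3)] (by decide +kernel))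
noncomputable def rh1b27d5811bb96f8b : CRef := CRef.mk (Pat.mk 0x5800000008000000000000000000000000 0x30000001b0000007f0000001f0000003f0000003c0000003c 9 7) 0 0 (step_sound _ 98 [(rh361cc68994bd8a63.shift 2 3), rhba5b8e7e3f9c7339] (by decide +kernel))
noncomputable def rh3a404b11ea21ed54 : CRef := CRef.mk (Pat.mk 0x16000000020000000000000000000000000 0x40000000c0000001c000001ff0000007c0000001f0000001c0000001c 9 9) 0 0 (step_sound _ 100 [(rh361cc68994bd8a63.shift 4 3), rha4938008c37fc360] (by decide +kernel))
noncomputable def rh4555c8fe7b33f361 : CRef := CRef.mk (Pat.mk 0x5800000008000000000000000000000000 0x40000001c0000003c0000001f0000007c000000d80000001c0000001c00000014 9 8) 0 0 (step_sound _ 163 [(rh4101d2a22a613325.shift 2 0), (rh6661a04aba01afe6.shift 0 2), (rh9b548e3f1df0b784.shift 2 1), (rhaae62e2e4be94518.shift 2 0), (rhf1d4a61aaded1469.shift 2 0)] (by decide +kernel))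
noncomputable def rh5dca7ce7cce359ef : CRef := CRef.mk (Pat.mk 0x180000000800000000000000000000000000000000 0x140000001c0000001c000000180000001e0000007e0000007f0000007c00000014 9 7) 0 0 (step_sound _ 99 [(rh15590a39afd9a120.shift 2 0), (rh28025ef24e5874a5.shift 1 2), (rh3820f35d5e705bec.shift 3 0), rh3beaf7cc43a1a946, (rhffb8e5993241bf15.shift 2 0)] (by decide +kernel))
end Crest.Agent.S0047.Helper85.Cert
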