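import Crest.Agent.Lib.S0047.Helper85CertPL8F0
import Crest.Agent.Lib.S0047.Helper85CertPL8F1
import Crest.Agent.Lib.S0047.Helper85CertPL8F2
import Crest.Agent.Lib.S0047.Helper85CertPL8F3
import Crest.Agent.Lib.S0047.Helper85CertPL8F4
import Crest.Agent.Lib.S0047.Helper85CertPL8F5
import Crest.Agent.Lib.S0047.Helper85CertPL8F6
import Crest.Agent.Lib.S0047.Helper85CertPL8F7
import Crest.Agent.Lib.S0047.Helper85CertPL8F8
set_option autoImplicit false
set_option linter.all false
set_option Elab.async false
namespace Crest.Agent.S0047.Helper85.Cert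
open Crest.Agent.S0047.Helper85

noncomputable def rh93adb467bcad6714 : CRef := CRef.mk (Pat.mk 0x1e00000000000000000000000000000000 0x8000000380000003800000038000000380000001e00000033000000380000003800000028 9 6) 0 0 (step_sound _ 97 [(rh04206c67f8af9c59.shift 1 0), (rheb0810cc63b001d8.shift 0 3)] (by decide +kernel))
noncomputable def rh4996991b0a2dc395 : CRef := CRef.mk (Pat.mk 0x8000000580000000000000000000000000000000000000000 0x4000000040000001c0000001f000000fc0000007c000000d80000001c0000001c0000001c00000010 9 8) 0 0 (step_sound _ 165 [(rh3244c3cc8379b070.shift 2 5), rhf251b012618ad97d] (by decide +kernel))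
noncomputable def rhe346bc3686eb5480 : CRef := CRef.mk (Pat.mk 0x8000000580000000000000000 0x300000003c0000003f0000001f0000007f0000001b0000001b 9 7) 0 0 (step_sound _ 98 [(rh2fe78cc5ca4405d8.shift 2 2), rh3f4867ae71c64de1] (by decide +kernel))
noncomputable def rh309d118f3f7e66ce : CRef := CRef.mk (Pat.mk 0x20000001600000000000000000000000000000000 0x80000003800000038000000380000003f0000001e00000030000000380000003800000028 9 6) 0 0 (step_sound _ 131 [(rh3244c3cc8379b070.shift 0 4), (rhec018cfad5a36532.shift 1 0)] (by decide +kernel))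
noncomputable def rhf4243d7db20427cd : CRef := CRef.mk (Pat.mk 0x800000058000000000000000000000000 0x200000003c0000007c000000ff000000ff0000005f000000580000001800000018 9 8) 0 0 (step_sound _ 132 [(rh6a24a4c74def6bc8.shift 0 1), (rhabc6cf3e6ed9bec1.shift 2 0), rhb9ebb603dfc5b03c, (rhd289b4ee9f91a8f2.shift 1 0), (rhd71da80ad057ce5e.shift 1 0), (rhf426b4f96f491dc8.shift 0 1)] (by decide +kernel))
noncomputable def rh72a19572275765b1 : CRef := CRef.mk (Pat.mk 0x8000000580000000000000000000000000000000000000000 0x100000003c0000007c0000007f000000f80000007c000000180000001c0000001c0000001c00000010 9 8) 0 0 (step_sound _ 227 [(rh046c5eb18e55a239.shift 3 2), (rh70e33bfdf511e144.shift 3 2), (rhfc132c52f922a5c6.shift 0 2), (rhffa68e21b6281672.shift 1 0)] (by decide +kernel))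
noncomputable def rh80e587d7b34e8ace : CRef := CRef.mk (Pat.mk 0x1600000002000000000000000000000000 0x8000000380000003800000038000000380000001e00000033000000380000003800000028 9 6) 0 0 (step_sound _ 131 [(rh04206c67f8af9c59.shift 1 0), (rheb0810cc63b001d8.shift 0 3)] (by decide +kernel))
noncomputable def rhf03968ff57a22782 : CRef := CRef.mk (Pat.mk 0x5800000008000000000000000000000000 0x320000003b0000007f0000001f0000003f0000003c00000038 9 7) 0 0 (step_sound _ 98 [(rh361cc68994bd8a63.shift 2 3), rh9c5ed4ec8cb3ce3f] (by decide +kernel))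
noncomputable def rha7782e1a9409ada0 : CRef := CRef.mk (Pat.mk 0x2c0000000400000000000000000000000000000000 0x460000005f0000007f0000007c0000003f0000006c0000007e0000007e0000005800000008 9 7) 0 0 (step_sound _ 195 [(rhaa7b0e2fecc15611.shift 0 1), rhcd676e56189b7dff, (rhcf80391c5046a495.shift 2 2), (rhf9366b6a121593ef.shift 2 2)] (by decide +kernel))
noncomputable def rhc92765b6a0d7c039 : CRef := CRef.mk (Pat.mk 0xc00000004000000000000000000000000 0x60000001f0000001f0000007c0000000f0000000f0000003e0000003e00000018 9 7) 0 0 (step_sound _ 163 [rhaa7b0e2fecc15611, (rhb03f00f2b7829a82.shift 0 1), (rhcf80391c5046a495.shift 2 1), (rhf9366b6a121593ef.shift 2 1)] (by decide +kernel))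
noncomputable def rhb29010e562ff4481 : CRef := CRef.mk (Pat.mk 0x1e000000000000000000000000 0x4000000070000000700000007000000070000001e000000370000000700000007 9 6) 0 0 (step_sound _ 65 [rh27f3d43238c7ed62, (rheb0810cc63b001d8.shift 0 2)] (by decide +kernel))
noncomputable def rhbf342574b3e69683 : CRef := CRef.mk (Pat.mk 0x1e00000000000000000000000000000000 0x80000003800000038000000380000003f0000001e00000030000000380000003800000028 9 6) 0 0 (step_sound _ 161 [(rh3244c3cc8379b070.shift 0 4), (rhec018cfad5a36532.shift 1 0)] (by decide +kernel))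
noncomputable def rhaa541924566bf7c8 : CRef := CRef.mk (Pat.mk 0x20000001600000000000000000000000000000000 0x400000006000000070000001e00000037000000070000000700000005 9 6) 0 0 (step_sound _ 131 [rh0ce91fbe9723a33d, (rh3244c3cc8379b070.shift 0 4)] (by decide +kernel))
noncomputable def rhafa1b082061bba9b : CRef := CRef.mk (Pat.mk 0x10000000b0000000000000000000000000 0xc0000001c0000001c0000003e000000ff0000003e0000003c00000008 9 8) 0 0 (step_sound _ 131 [(rh2fe78cc5ca4405d8.shift 3 3), rhd78a6aefcc224a5e] (by decide +kernel))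
noncomputable def rh70e0664d05679898 : CRef := CRef.mk (Pat.mk 0x2000000160000000000000000000000000000000000000000 0x50000000700000007000000030000001e0000003700000007000000070000000700000004 9 6) 0 0 (step_sound _ 163 [(rh3244c3cc8379b070.shift 0 5), rh36ee99f6b7e1afde] (by decide +kernel))
noncomputable def rh115000b117306c27 : CRef := CRef.mk (Pat.mk 0x800000058000000000000000000000000 0x6000000770000003f0000007f000000070000000700000002 9 7) 0 0 (step_sound _ 130 [(rh2fe78cc5ca4405d8.shift 2 3), rhfd6550e99bcd2fdb] (by decide +kernel))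
noncomputable def rh2c9f916e31edf914 : CRef := CRef.mk (Pat.mk 0x80000005800000000000000000000000000000000 0x40000001c0000001c000000380000007f0000001f000000fc0000003c00000014 9 8) 0 0 (step_sound _ 99 [(rh109132c4aafef14d.shift 0 1), rh42ad8271e667fdf6, (rh58aa26c47e50de25.shift 2 0), (rhec22f610c656d10b.shift 2 0), (rhf1d4a61aaded1469.shift 2 0)] (by decide +kernel))
noncomputable def rhe080af1715470975 : CRef := CRef.mk (Pat.mk 0x10000000b000000000 0x1ff000000fe0000018e 9 9) 0 0 (step_sound _ 38 [(rh3244c3cc8379b070.shift 3 1), rhc4f74b3b1aeda056] (by decide +kernel))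
noncomputable def rh8ac174d26a4a5946 : CRef := CRef.mk (Pat.mk 0x200000016000000000000000000000000000000000 0x380000003e000000fe0000007c000001ff0000005c0000004c0000004c00000004 9 9) 0 0 (step_sound _ 164 [(rh2fe78cc5ca4405d8.shift 4 4), rh438d66953d021795] (by decide +kernel))
noncomputable def rh6b89a4f3c5c98cbc : CRef := CRef.mk (Pat.mk 0x10000000b000000000000000000000000000000000 0x140000001e8000001fc000003fe000001fc000001f7000000fe000003ae000001f0000001f000000140 9 10) 0 0 (step_sound _ 167 [(rh57460537d30c2329.shift 1 1), (rh619ec56ec121a2b5.shift 4 0), (rh959298dfadb95e2b.shift 0 3), (rh9975a0a3bd979e51.shift 3 1), (rhd4bec86f2d0215b5.shift 2 1), (rhdf5dc8d25bb14dae.shift 3 1)] (by decide +kernel))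
noncomputable def rh158ed6f542b6bc12 : CRef := CRef.mk (Pat.mk 0x10000000b0000000000000000000000000 0xa000003ff000001fe000003ff000001fe000000be000000ae0000007e0000007e 9 10) 0 0 (step_sound _ 133 [(rh16dd470c7d26d1d9.shift 0 1), (rh20e60b0ac999feb9.shift 1 0), (rh840ac6684babdd65.shift 1 0), (rhad46165246fe75d2.shift 1 0), (rhae60b1d4f7734855.shift 1 1), (rhc24dee264f7b2077.shift 1 1), (rhd9db7e2e5c399b3e.shift 1 0), (rheedc363f92adfe33.shift 1 0), (rhf426b4f96f491dc8.shift 1 1)] (by decide +kernel))
noncomputable def rhc4d435993439bff6 : CRef := CRef.mk (Pat.mk 0x5800000008000000000000000000000000 0x32000000370000007f0000001f0000003f0000003e0000003a 9 7) 0 0 (step_sound _ 98 [(rh361cc68994bd8a63.shift 2 3), rh40bc99be7b80d88f] (by decide +kernel))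
noncomputable def rhf1c5e0bd8b645581 : CRef := CRef.mk (Pat.mk 0xb00000001000000000000000000000000000000000 0x140000001c0000001c0000001c0000007f0000007f8000007ee000000fe000001b7000001fc000001fe000001f800000028 9 11) 0 0 (step_sound _ 100 [(rh15590a39afd9a120.shift 3 0), (rh3beaf7cc43a1a946.shift 1 0), (rh9c37f73482095829.shift 0 1), (rhffb8e5993241bf15.shift 3 0)] (by decide +kernel))
noncomputable def rh95d05ede6325a2a8 : CRef := CRef.mk (Pat.mk 0x2c0000000400000000000000000000000000000000000000000 0x38000001b8000001f8000001bf000002fe000002ff000007fe000003fe000007fe000000b800000028 9 11) 0 0 (step_sound _ 164 [(rh340cdd35d07bf769.shift 2 1), (rh3a1713428e23caed.shift 1 0), (rh74472983d29753b1.shift 2 1), (rh788f8a6474d605c7.shift 1 2), (rha95aefcac29e56e4.shift 2 1), (rhcecb8856e3b8045e.shift 1 0), (rhd1027e972ec428a4.shift 3 2), rhd32056078138ea84] (by decide +kernel))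
noncomputable def rhbbb8ee0f2343a859 : CRef := CRef.mk (Pat.mk 0x10000000b0000000000000000000000000 0x4000000070000000f6000001fe000001fe000000be000000bf000001fe000001ff 9 9) 0 0 (step_sound _ 133 [(rh6295dc376f634546.shift 1 1), (rh7a1721f11527e455.shift 1 0), (rh8176ff43d4cde5a9.shift 1 0), (rha9e06645388a9678.shift 2 0), (rhae60b1d4f7734855.shift 1 1), (rhde228040c608cec9.shift 1 1), rhe0e8df73786c7b9d, (rhf426b4f96f491dc8.shift 1 1)] (by decide +kernel))
noncomputable def rhf7a94e5d938ec551 : CRef := CRef.mk (Pat.mk 0x10000000300000000000000000000000000000000000000000 0x2800000038000000380000007e000000f60000007f0000003f0000003f0000007e000001ff0000003c00000028 9 9) 0 0 (step_sound _ 228 [(rh046c5eb18e55a239.shift 4 2), rh2c7521332d6d2f66, (rh70e33bfdf511e144.shift 4 2), (rhc5f983176ab93ac0.shift 2 2)] (by decide +kernel))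
noncomputable def rha4ec2a762eb1400f : CRef := CRef.mk (Pat.mk 0x800000018000000000000000000000000 0x1c0000001c0000001c0000000c0000001c0000001f0000001e0000001f0000001f0000001c 9 5) 0 0 (step_sound _ 163 [(rh046c5eb18e55a239.shift 3 0), rh5f4db23054eb9a1b, rh7d3c6c814e4951e1, (rhac469ad3f802a454.shift 2 1)] (by decide +kernel))
noncomputable def rh91a3d8388ffbe641 : CRef := CRef.mk (Pat.mk 0x800000018000000000000000000000000 0x100000001c0000001c0000000f0000007f0000001e0000001f0000001f0000001c 9 7) 0 0 (step_sound _ 163 [(rh046c5eb18e55a239.shift 3 0), rh6f5af34ca1669b89, rh91a6cdea14523a80] (by decide +kernel))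
noncomputable def rh76b41ec5e38f0056 : CRef := CRef.mk (Pat.mk 0x800000018000000000000000000000000 0x100000003c0000003c000000ff000000ff0000001f0000001c0000001400000010 9 8) 0 0 (step_sound _ 163 [(rh046c5eb18e55a239.shift 3 0), (rh4ba548eb7578cc5b.shift 0 1), (rh6da970b254f0bfd9.shift 2 1), (rhac469ad3f802a454.shift 2 1)] (by decide +kernel))
noncomputable def rhd3775bff143f5234 : CRef := CRef.mk (Pat.mk 0x800000018000000000000000000000000 0x140000001c0000001f0000003f0000003f0000001c0000001c0000000c0000000c 9 6) 0 0 (step_sound _ 163 [rh22a85b61a9a45e43, (rh6d45fcc122d4e332.shift 2 2), (rh8b2b55e75e843554.shift 2 1), (rha887bdf71aec8413.shift 2 0), (rhac469ad3f802a454.shift 2 1), (rhfcaeb045b834dc3c.shift 2 2)] (by decide +kernel))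
noncomputable def rhe32b2c032100b5b0 : CRef := CRef.mk (Pat.mk 0x80000001800000000000000000000000000000000 0x740000007f000000ff0000001f0000001f000000ff0000003c00000014 9 8) 0 0 (step_sound _ 99 [(rh4101d2a22a613325.shift 2 0), rh7aaeb23f48ae8834, (rhb8d2236ec74c0423.shift 2 0), (rhc03111fc4bc0ceb1.shift 2 0), (rhc1fdef7c4962bf20.shift 2 0), rhe821647f32202a30, (rhec22f610c656d10b.shift 2 0)] (by decide +kernel))
noncomputable def rh16b2280bbbab451e : CRef := CRef.mk (Pat.mk 0x40000002c000000000000000000000000 0x80000000e000000fe0000007f000000fc0000002e0000002e0000000e0000000e 9 8) 0 0 (step_sound _ 162 [(rh046c5eb18e55a239.shift 2 0), rh2d60d6764bc5aa32, (rh3e9d1c7de4d29b0f.shift 1 0), (rh70e33bfdf511e144.shift 2 0)] (by decide +kernel))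
noncomputable def rh4e35db2c1c1af808 : CRef := CRef.mk (Pat.mk 0x800000058000000000000000000000000 0x1fe000000ff000001ff000000ff0000005f0000000f0000001e0000001e 9 9) 0 0 (step_sound _ 132 [(rh20c4d5647f81ede9.shift 0 1), (rh2144b02621191bb0.shift 0 1), (rh2878b83328414a3e.shift 0 1), (rh6295dc376f634546.shift 0 1), (rh725d9248e0da2006.shift 1 0), rh80b42489b3cc6e23, rh840ac6684babdd65, (rh9b431c841895222c.shift 1 0), rheedc363f92adfe33] (by decide +kernel))
noncomputable def rh0137c7d118da7fe8 : CRef := CRef.mk (Pat.mk 0x10000000b0000000000000000000000000 0xa000003ff000001fe000003ff000001fe000000be000000ae0000007e0000007e 9 10) 0 0 (step_sound _ 133 [(rh16dd470c7d26d1d9.shift 0 1), (rh20e60b0ac999feb9.shift 1 0), (rh840ac6684babdd65.shift 1 0), (rha5e9c85684b60621.shift 1 0), (rhae60b1d4f7734855.shift 1 1), (rhc24dee264f7b2077.shift 1 1), (rhd9db7e2e5c399b3e.shift 1 0), (rheedc363f92adfe33.shift 1 0), (rhf426b4f96f491dc8.shift 1 1)] (by decide +kernel))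
noncomputable def rh1be514c2ecbc76f1 : CRef := CRef.mk (Pat.mk 0x800000018000000000000000000000000 0x140000001c0000001c0000003c0000000f0000001e0000001f0000001f00000014 9 6) 0 0 (step_sound _ 163 [(rh3e53d14085adc43a.shift 2 1), (rh70e33bfdf511e144.shift 3 0), rhd60f4d9526791357, (rhfcaeb045b834dc3c.shift 2 2)] (by decide +kernel))
noncomputable def rh16650e073d6fb413 : CRef := CRef.mk (Pat.mk 0x10000000b000000000000000000000000000000000 0x720000007e000001ee000001fe000000be000007bf000003fe000003ff0000004a 9 11) 0 0 (step_sound _ 165 [(rh0192cc3fe8b6da8b.shift 1 0), (rh2144b02621191bb0.shift 1 2), (rh8c25750e01576cd8.shift 1 0), (rhb025ac5c0d40399c.shift 1 1), (rhd289b4ee9f91a8f2.shift 2 1), (rhe0e8df73786c7b9d.shift 0 1), rhef89634dbb27a386, (rhf426b4f96f491dc8.shift 1 2)] (by decide +kernel))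
noncomputable def rhdabd7b4a1b6e43ba : CRef := CRef.mk (Pat.mk 0x1e0000000000000000 0x28000000380000003c0000003f0000001e0000003800000008 9 6) 0 0 (step_sound _ 36 [rh8f6d760f4a63adbc, (rhe25b0a99195a5d59.shift 1 1)] (by decide +kernel))
noncomputable def rh4dec200a1b920193 : CRef := CRef.mk (Pat.mk 0x1e00000000000000000000000000000000 0x8000000380000003800000038000000380000001e00000033000000380000003800000028 9 6) 0 0 (step_sound _ 97 [(rha4ffb49505ad40b4.shift 1 0), (rheb0810cc63b001d8.shift 0 3)] (by decide +kernel))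
noncomputable def rhf72e2fe2cb6c9ef4 : CRef := CRef.mk (Pat.mk 0x7800000000000000000000000000000000 0x18000000dc000000780000003c0000001f0000001c00000014 9 8) 0 0 (step_sound _ 163 [rh12c08b8385183947, (rh3244c3cc8379b070.shift 2 4)] (by decide +kernel))
noncomputable def rh4ab0e7791e547069 : CRef := CRef.mk (Pat.mk 0x780000000000000000 0x1c0000001f0000003c00000078000000dc00000018 9 8) 0 0 (step_sound _ 38 [rh0b914b50194df212, (rhe25b0a99195a5d59.shift 3 1)] (by decide +kernel))
noncomputable def rh19a88341dacb93ca : CRef := CRef.mk (Pat.mk 0x1e0000000000000000000000000000000000000000 0x50000000700000007000000330000001e0000000700000007000000070000000700000004 9 6) 0 0 (step_sound _ 129 [rhad2c260c7e36163f, (rheb0810cc63b001d8.shift 0 4)] (by decide +kernel))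
noncomputable def rhd77fa4f59a9f4419 : CRef := CRef.mk (Pat.mk 0x1e0000000000000000 0x28000000380000003c0000003f0000001e0000003800000008 9 6) 0 0 (step_sound _ 100 [(rh33e738c4ed385b9f.shift 1 2), rh9453a9fdfc60f89f] (by decide +kernel))
noncomputable def rhd3b4f479e2d10752 : CRef := CRef.mk (Pat.mk 0x780000000000000000000000000000000000000000 0x7000000070000000f000000078000000fc0000003e0000007f0000003c00000014 9 8) 0 0 (step_sound _ 131 [rh5587b60ea1c439e7, (rheb0810cc63b001d8.shift 2 4)] (by decide +kernel))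
noncomputable def rh04ddcbfab9be7cab : CRef := CRef.mk (Pat.mk 0x1e00000000000000000000000000000000 0x4000000070000000700000003000000370000001e00000007000000070000000700000001 9 6) 0 0 (step_sound _ 161 [(rh3244c3cc8379b070.shift 0 4), rh34d46472f1641c8f] (by decide +kernel))
noncomputable def rh597ee5952dbfe2f7 : CRef := CRef.mk (Pat.mk 0x1e0000000000000000000000000000000000000000 0x10000000700000007000000070000001e0000003700000003000000070000000700000004 9 6) 0 0 (step_sound _ 129 [rhdcd1773ca7defe75, (rheb0810cc63b001d8.shift 0 4)] (by decide +kernel))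
noncomputable def rh61c3bef609871c58 : CRef := CRef.mk (Pat.mk 0x1c00000000000000000000000000000000 0x280000003c0000003e0000003f0000001e0000003f0000003f0000003700000015 9 6) 0 0 (step_sound _ 129 [rh2dd25b972eef097e, (rh3fa30c482a54b896.shift 0 1), rhe108b6074a952d08] (by decide +kernel))
noncomputable def rh9b3df9736671ea60 : CRef := CRef.mk (Pat.mk 0x1e00000000000000000000000000000000 0x80000003800000038000000300000003b0000001e00000038000000380000003800000020 9 6) 0 0 (step_sound _ 164 [(rh33e738c4ed385b9f.shift 1 4), rhd3d65a60c5c6751e] (by decide +kernel))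
noncomputable def rh020af60f51bb4173 : CRef := CRef.mk (Pat.mk 0x1e0000000000000000000000000000000000000000 0x200000003800000038000000380000001e0000003b00000030000000380000003800000008 9 6) 0 0 (step_sound _ 132 [rh6f308d939775ae78, (rhe25b0a99195a5d59.shift 1 4)] (by decide +kernel))
noncomputable def rh5d19fb08bd4df3f3 : CRef := CRef.mk (Pat.mk 0x1c00000010000000000000000000000000 0x8000000380000003800000038000000380000001e00000033000000380000003800000028 9 6) 0 0 (step_sound _ 129 [rhd71de1677a98348e, (rhe25b0a99195a5d59.shift 1 3)] (by decide +kernel))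
noncomputable def rhf9cf4e6f372fbe88 : CRef := CRef.mk (Pat.mk 0x1c00000010000000000000000000000000 0x300000003c0000003c0000007c0000001c0000001f000000ff0000003c00000008 9 8) 0 0 (step_sound _ 163 [rh25c3edeeccd88835, (rh5d54cb79a67f97ab.shift 3 1), (rha40d42a2e34c408d.shift 3 1), (rhce8a49e699a9ed81.shift 2 1)] (by decide +kernel))
noncomputable def rh0f02d928b34bedef : CRef := CRef.mk (Pat.mk 0x100000001c0000000000000000000000000000000000000000 0x280000003800000038000000330000001e0000003800000038000000380000003800000008 9 6) 0 0 (step_sound _ 161 [(rh33e738c4ed385b9f.shift 1 5), rhdeffba9fbfb4f563] (by decide +kernel))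
noncomputable def rhc6cd8f0abe2eac25 : CRef := CRef.mk (Pat.mk 0x100000001c000000000000000000000000 0x3c0000007c0000007f0000007f0000001c0000001c0000001c0000001c 9 7) 0 0 (step_sound _ 131 [(rh1770bf77f009faff.shift 1 0), (rh2e95b87086deea8e.shift 1 1), (rh56fe24bf8a80f34a.shift 0 1), (rh6d704e339a22fe57.shift 1 0), rha741c27102132109] (by decide +kernel))
noncomputable def rh632be1effafadd17 : CRef := CRef.mk (Pat.mk 0x80000000e00000000000000000000000000000000 0x180000001c0000003c0000000f0000000f0000007e0000001e0000001e00000010 9 7) 0 0 (step_sound _ 99 [(rh3c7b710fb0407322.shift 0 1), rh5a8abb721f11b584, (rhc21a95c499b3efdb.shift 0 3)] (by decide +kernel))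
noncomputable def rh10ccbf76d9074909 : CRef := CRef.mk (Pat.mk 0x1e0000000000000000000000000000000000000000 0x280000003800000038000000330000001e0000003800000038000000380000003800000008 9 6) 0 0 (step_sound _ 132 [rh12436a2b1a460115, (rhe25b0a99195a5d59.shift 1 4)] (by decide +kernel))
noncomputable def rh84a6e3443da6976e : CRef := CRef.mk (Pat.mk 0x1e0000000000000000000000000000000000000000 0x50000000700000007000000030000001e0000003700000007000000070000000700000004 9 6) 0 0 (step_sound _ 132 [(rhe25b0a99195a5d59.shift 1 4), rhfe3ac238c42784e1] (by decide +kernel))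
noncomputable def rh208c9675ae8e5634 : CRef := CRef.mk (Pat.mk 0x1e00000000000000000000000000000000 0x8000000380000003800000038000000380000001e00000033000000380000003800000028 9 6) 0 0 (step_sound _ 164 [rh204bea2678204acf, (rh33e738c4ed385b9f.shift 1 4)] (by decide +kernel))
noncomputable def rh5accd1a302db4750 : CRef := CRef.mk (Pat.mk 0x1e00000000000000000000000000000000 0x40000000700000007000000070000003f0000001e00000003000000070000000700000005 9 6) 0 0 (step_sound _ 164 [(rh33e738c4ed385b9f.shift 1 4), rhfd23d4143c6f4688] (by decide +kernel))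
noncomputable def rh44eee429e86861ae : CRef := CRef.mk (Pat.mk 0x1e00000000000000000000000000000000 0x4000000070000000700000007000000070000001e00000033000000070000000700000005 9 6) 0 0 (step_sound _ 161 [rh30666edebafe3b6c, (rh3244c3cc8379b070.shift 0 4)] (by decide +kernel))
noncomputable def rh7c0a56a828ae2896 : CRef := CRef.mk (Pat.mk 0x700000004000000000 0x1c0000001f0000003c00000078000000dc00000018 9 8) 0 0 (step_sound _ 67 [rh0b914b50194df212, (rhe25b0a99195a5d59.shift 3 1)] (by decide +kernel))
noncomputable def rhf8122c594a75d676 : CRef := CRef.mk (Pat.mk 0x1c00000010000000000000000000000000 0xc0000000e0000000f0000001c0000007f000001ff000000ff000001fe 9 9) 0 0 (step_sound _ 99 [rh4b4d1a859fd220dd, rh4d522a9e1f27d1dc, rh4f5df7961f37c748, rh97d6e99cc9b93513, rhbf01f149cb72854f, (rhc6cb7d23c205f9db.shift 1 0), rhe66b6c6dd58ea2d9] (by decide +kernel))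
noncomputable def rh85acea5f059b333b : CRef := CRef.mk (Pat.mk 0x380000002000000000000000000000000000000000 0x80000000e0000001e0000001e0000001e0000003c0000003f0000007e000001fe0000007e00000054 9 9) 0 0 (step_sound _ 101 [(rh0739a96975f79f1b.shift 1 0), (rh0a6888916bcef86b.shift 4 0), rhce24e3f84e12a467, (rhd1779d7de7f8215b.shift 4 0)] (by decide +kernel))
noncomputable def rhe73babaf1fbfa43e : CRef := CRef.mk (Pat.mk 0x100000001c00000000000000000000000000000000 0x400000006000000370000001e00000007000000070000000700000005 9 6) 0 0 (step_sound _ 129 [rh1e243571c691fb37, (rh33e738c4ed385b9f.shift 1 4)] (by decide +kernel))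
noncomputable def rh7f4bff74c215f49a : CRef := CRef.mk (Pat.mk 0x100000001c000000000000000000000000 0x1fe000000ff000001ff0000007f0000001c0000000f0000001e0000001c 9 9) 0 0 (step_sound _ 131 [rh0ada30e93805f842, (rh1aaa7ece9c7c2064.shift 0 1), (rh2e95b87086deea8e.shift 1 1), rha741c27102132109, (rhac838ad27ba6c3b0.shift 0 1), (rhb8ffb2dad1913763.shift 1 2), (rhc503f10c4173a0f1.shift 0 1)] (by decide +kernel))
noncomputable def rh0e7b216bc5f11db6 : CRef := CRef.mk (Pat.mk 0x20000000380000000000000000000000000000000000000000 0x4000000070000000740000007e000000fe000000fe0000003f0000003c0000001e0000001e0000001e0000000e00000008 9 8) 0 0 (step_sound _ 229 [(rh32431e66bbf434a4.shift 4 4), rhd7a1a25a25990b3b, (rhe84c6fde8b846d56.shift 2 4), (rhfafeb437ceb8396d.shift 4 2)] (by decide +kernel))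
noncomputable def rh481a3003d6bbde59 : CRef := CRef.mk (Pat.mk 0x3800000020000000000000000000000000 0x1ff000000fe000001ff00000038000000f8000003f0000001fe000003fc 9 10) 0 0 (step_sound _ 100 [(rh29fc9ea30124871d.shift 0 1), (rh37fd54ce9fd14e76.shift 3 0), (rh6bbd541a79db896c.shift 2 0), (rha3972226d6d63d35.shift 3 0), (rhd9ec48444d9640a1.shift 3 0), (rhe66b6c6dd58ea2d9.shift 1 0), (rhec8d195effea7f0d.shift 3 0)] (by decide +kernel))
noncomputable def rh00e82b245a2a80d0 : CRef := CRef.mk (Pat.mk 0x1c0000001000000000000000000000000000000000 0x3800000038000000780000001c0000007f000000ff0000003c0000003c00000004 9 8) 0 0 (step_sound _ 131 [(rh4f5df7961f37c748.shift 0 1), rh55e7dc9742a11ce5, (rha40dd5fb5eea7704.shift 2 1), (rhc7c05f7cd110c8c2.shift 2 1), (rhd9294ea8499c96b5.shift 0 1)] (by decide +kernel))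
noncomputable def rh64b6e78ce9e24195 : CRef := CRef.mk (Pat.mk 0x1c00000010000000000000000000000000 0x300000003c0000003e0000007f0000001c000000780000003e0000003800000008 9 7) 0 0 (step_sound _ 163 [(rh0e405c9938d744c1.shift 1 1), rh15917b3baf9dd848, (rh5d54cb79a67f97ab.shift 3 1), (rha40d42a2e34c408d.shift 3 1)] (by decide +kernel))
noncomputable def rhcb0b6fa5496f1367 : CRef := CRef.mk (Pat.mk 0x1c000000100000000000000000 0x1c0000003e0000007c0000001c000000ff0000007700000030 9 8) 0 0 (step_sound _ 131 [(rh313c2e48ab729282.shift 0 1), (rh32d39563b68b3960.shift 2 0), (rh5d54cb79a67f97ab.shift 3 0), (rha40d42a2e34c408d.shift 3 0)] (by decide +kernel))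
noncomputable def rh9c0729fe6a614c0e : CRef := CRef.mk (Pat.mk 0x1c00000010000000000000000000000000000000000000000000000000 0x3000000030000000fc0000001c000000fe0000007f0000003e00000038000000380000003800000020 9 8) 0 0 (step_sound _ 164 [(rh0a6888916bcef86b.shift 3 2), (rh162ee7212e7034bb.shift 2 4), (rh2add4bebdded4732.shift 3 0), (rh2d5581c417ad61f3.shift 1 2), (rhc35031d65dd5c8fe.shift 0 3)] (by decide +kernel))
noncomputable def rh6561017f93b0b577 : CRef := CRef.mk (Pat.mk 0x7000000040000000000000000000000000 0xa0000000e8000002f8000007ff000003fe000007ff00000370000003fe000007bc000003b8000002b0 9 11) 0 0 (step_sound _ 104 [(rh237e208af50e2838.shift 3 0), (rh68691964b29f233d.shift 4 3), rhd628108ad01f312a] (by decide +kernel))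
noncomputable def rh3b05da9079b98c75 : CRef := CRef.mk (Pat.mk 0x1c00000010000000000000000000000000000000000000000000000000 0x80000003800000038000000f40000001c000001ff000001ff000001ff000000fe0000007c0000007800000020 9 9) 0 0 (step_sound _ 164 [(rh2d5581c417ad61f3.shift 1 2), (rh5c5347bb6241b82c.shift 3 1), rh7d133a25bb586bc7, (rh8d14fe2788d66671.shift 0 2), (rha5a2443c4c95ccf7.shift 0 2), (rhf9e0177ec18f0ebb.shift 1 4), rhfe60654109e242d0] (by decide +kernel))
noncomputable def rh4fbae6c49524e78b : CRef := CRef.mk (Pat.mk 0x1c00000010000000000000000000000000000000000000000000000000 0x3000000038000000380000007c0000001c000001f6000001ff000001fe000000f8000000780000007800000020 9 9) 0 0 (step_sound _ 164 [(rh0a6888916bcef86b.shift 3 2), (rh2add4bebdded4732.shift 3 0), rh7d133a25bb586bc7, (rhc35031d65dd5c8fe.shift 0 3), (rhd8cfb8052df601c6.shift 2 4)] (by decide +kernel))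
noncomputable def rhef2dead90dd1b977 : CRef := CRef.mk (Pat.mk 0xa0000000000000000000000000000000000000000000000000 0x58000001f8000001f8000003fc000007fc000000ff000007fe00000ffe00000ff8000001f8000001f000000040 9 12) 0 0 (step_sound _ 167 [(rh2028f4b509227053.shift 2 2), (rh4f2232cebb2cd2ba.shift 2 1), rh5546b64289021f48, (rh8a8fe157ae315812.shift 1 0), (rha14d7918d94a12a9.shift 3 1), (rha8072279884bb30a.shift 2 1), (rhb0a3b6aaa703cafc.shift 2 1), (rhb4ff42fbee9f541c.shift 3 1), (rhca88f12153a2670e.shift 2 3), (rhdb7a06e6536c2019.shift 2 1)] (by decide +kernel))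
noncomputable def rh27da303b253e2225 : CRef := CRef.mk (Pat.mk 0xa0000000000000000000000000000000000000000000000000 0x58000001f8000001f8000003fc000007fc000000ff000007fe00000ffe00000ff8000001f8000001f000000040 9 12) 0 0 (step_sound _ 167 [(rh2f9f241e2eb4a7a6.shift 3 2), (rh3dd0c723d627c84d.shift 4 1), (rh4e2eab4568b9d577.shift 2 1), rh6c4232c6c2162052, (rh8a8fe157ae315812.shift 1 0), (rha8072279884bb30a.shift 2 1), (rhb0a3b6aaa703cafc.shift 2 1), (rhba6f39dd02c7788d.shift 2 2), (rhca88f12153a2670e.shift 2 3), (rhe22395576487a73f.shift 2 1)] (by decide +kernel))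
noncomputable def rh94bfd42528744d75 : CRef := CRef.mk (Pat.mk 0xa00000000000000000000000000000000000000000 0x40000001f0000001f8000007f800000ffe00000ffe00000eff000007fc000007fc000001f8000001f800000068 9 12) 0 0 (step_sound _ 199 [(rh05fb1482e3039245.shift 2 0), (rh0af3191fa0aee58e.shift 2 0), (rh0b68681544688b10.shift 2 1), (rh2e5d0d5cf17ca182.shift 2 0), (rh5467fd3a1df04c06.shift 3 2), (rh56343c7a1c75fd27.shift 4 1), rhda7b07327bb42f4f, (rhe2455003c5268390.shift 2 0), (rhf1bdb0fbbbb4d984.shift 1 1), (rhf4afdd6aba63911b.shift 2 0)] (by decide +kernel))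
noncomputable def rh166a695f7bce81c9 : CRef := CRef.mk (Pat.mk 0xa0000000000000000000000000000000000000000000000000 0x58000001f8000001f8000003fc000007fc00000eff00000ffe00000ffe000007f8000001f8000001f000000040 9 12) 0 0 (step_sound _ 167 [(rh3dd0c723d627c84d.shift 4 1), (rh4e2eab4568b9d577.shift 2 1), rh6c4232c6c2162052, (rh6c88353a7944dd14.shift 3 1), (rh6d29d47f260277fa.shift 2 1), (rha8072279884bb30a.shift 2 1), (rhba6f39dd02c7788d.shift 2 2), (rhca88f12153a2670e.shift 2 3), (rhce02c8b5da0d702b.shift 1 0), (rhe22395576487a73f.shift 2 1)] (by decide +kernel))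
noncomputable def rh2e84441707eafe07 : CRef := CRef.mk (Pat.mk 0xa0000000000000000000000000000000000000000000000000 0x58000001f8000001f8000003fc000003fc00000eff00000ffe00000ffe00000ff8000001f8000001f000000040 9 12) 0 0 (step_sound _ 167 [(rh2028f4b509227053.shift 2 2), (rh278ec6bd314028ad.shift 1 0), (rh5ed9a78d6699216d.shift 2 1), rh72837bc0fcdbf887, (rhb0a3b6aaa703cafc.shift 2 1), (rhb4ff42fbee9f541c.shift 3 1), (rhc3a6bff20a4c4c20.shift 2 1), (rhca88f12153a2670e.shift 2 3), (rhed0c3749fa666c00.shift 3 1), (rhf53f448cff72fcb3.shift 2 1)] (by decide +kernel))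
noncomputable def rh54e8b3c7ef88e22c : CRef := CRef.mk (Pat.mk 0xa0000000000000000000000000000000000000000000000000 0x58000001f8000001f8000003fc000007fc000000ff000007fe000007fe00000ff8000001f8000001f000000040 9 12) 0 0 (step_sound _ 167 [rh0d01e4f505f3c336, (rh2028f4b509227053.shift 2 2), (rh4f2232cebb2cd2ba.shift 2 1), rh9497f7754cd83a32, (rha14d7918d94a12a9.shift 3 1), (rha8072279884bb30a.shift 2 1), (rhb0a3b6aaa703cafc.shift 2 1), (rhb4ff42fbee9f541c.shift 3 1), (rhca88f12153a2670e.shift 2 3), (rhdb7a06e6536c2019.shift 2 1)] (by decide +kernel))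
noncomputable def rh27044ba91fe89af6 : CRef := CRef.mk (Pat.mk 0xa00000000000000000000000000000000000000000 0x40000001f0000001f8000007f800000ffe00000ffe00000eff000003fc000003fc000001f8000001f800000068 9 12) 0 0 (step_sound _ 199 [(rh05fb1482e3039245.shift 2 0), (rh0af3191fa0aee58e.shift 2 0), (rh2e5d0d5cf17ca182.shift 2 0), (rh5467fd3a1df04c06.shift 3 2), (rh653433433bcbb5b8.shift 2 1), (rhcac3ecce95fdc5c1.shift 1 1), (rhce55ce02af2e7af1.shift 2 0), (rhd1a818adc17ba5c5.shift 4 1), (rhe2455003c5268390.shift 2 0), rhe247cb2b33b1c23a] (by decide +kernel))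
noncomputable def rh776ddf36e776b9f5 : CRef := CRef.mk (Pat.mk 0xa00000000000000000000000000000000000000000 0x40000001f0000001f8000007f800000ffe00000ffe00000eff000007fc000003fc000001f8000001f800000068 9 12) 0 0 (step_sound _ 199 [rh0e01c77f9dc8cdd7, (rh5467fd3a1df04c06.shift 3 2), (rh5de6ebd4d6f0e719.shift 2 1), (rh64c3618d3921622f.shift 2 0), (rha32831eeb434b217.shift 2 0), (rha5c80eae429bf9ca.shift 4 1), (rhbf32b2fd5f15dabb.shift 2 0), (rhf1bdb0fbbbb4d984.shift 1 1), (rhf2f0f9b3533de8b2.shift 2 0), (rhfdc15c51c02fb1f1.shift 2 0)] (by decide +kernel))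
noncomputable def rhe26b866673be66cb : CRef := CRef.mk (Pat.mk 0xa0000000000000000000000000000000000000000000000000 0x58000001f8000001f8000003fc000007fc00000eff00000ffe00000ffe000003f8000001f8000001f000000040 9 12) 0 0 (step_sound _ 167 [(rh183ac62944043210.shift 2 1), (rh460794c3a9116c97.shift 4 1), (rh4e2eab4568b9d577.shift 2 1), (rh6c88353a7944dd14.shift 3 1), rh799753c9da228e69, (rhb5d14440a39258ac.shift 2 1), (rhba6f39dd02c7788d.shift 2 2), (rhc0b890567136afe3.shift 2 3), (rhce02c8b5da0d702b.shift 1 0), (rhe22395576487a73f.shift 2 1)] (by decide +kernel))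
noncomputable def rhf4571e82d6118a78 : CRef := CRef.mk (Pat.mk 0xa0000000000000000000000000000000000000000000000000 0x78000001f8000001f8000001fc000007fc00000eff00000ffe00000ffe00000ff8000001f8000001f000000040 9 12) 0 0 (step_sound _ 167 [(rh17fa998e4328ea68.shift 2 1), (rh2028f4b509227053.shift 2 2), (rh3914c89f74481266.shift 1 0), (rh794a6660a3bcbdb9.shift 3 1), rh9b1718a855905da2, (rha8072279884bb30a.shift 2 1), (rhabcf52d40f3638bb.shift 2 1), (rhb0a3b6aaa703cafc.shift 2 1), (rhb4ff42fbee9f541c.shift 3 1), (rhca88f12153a2670e.shift 2 3)] (by decide +kernel))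
noncomputable def rh2eb149c13ec3bfc7 : CRef := CRef.mk (Pat.mk 0xa0000000000000000000000000000000000000000000000000 0x50000001f0000001f0000003fc000001fc00000eff00000ffe00000ffe00000ffc000001f8000001f000000140 9 12) 0 0 (step_sound _ 167 [(rh07553a4b284b79b6.shift 2 1), (rh374108c9fba16242.shift 2 1), (rh4f2232cebb2cd2ba.shift 2 1), rh6ad2f743b5367586, (rh8f11d54f9ff5b53a.shift 3 1), (rhbb080eba889fe4a6.shift 1 0), (rhc1883fe439a40edf.shift 2 0), (rhc1f052d0ca33f741.shift 2 2), (rhce15de0f6fc60ac7.shift 2 2), (rhd00bc875a3f8c11b.shift 2 1), (rhdb7a06e6536c2019.shift 2 1)] (by decide +kernel))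
noncomputable def rha6f7af8e86d12d0c : CRef := CRef.mk (Pat.mk 0xa00000000000000000000000000000000000000000 0x140000001f0000001f800000ffc00000ffe00000ffe00000eff000001fc000003fc000001fc0000017800000040 9 12) 0 0 (step_sound _ 199 [(rh0620ed0beb664516.shift 2 1), (rh15c8e4fad36f2726.shift 2 1), (rh2ddd81af501565c4.shift 3 2), (rh5e68014f7b14be65.shift 2 2), (rh6f16a83cc614c31e.shift 2 2), (rh85c61610de0e8dfb.shift 2 2), (rhd77c2d7e8e80da50.shift 2 1), (rhe298992b6c8bae46.shift 2 2), (rheb142accb6b81502.shift 2 1), (rhf1bdb0fbbbb4d984.shift 1 1), rhf81707b4094cbfd3] (by decide +kernel))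
noncomputable def rh0f9a37fb267f450f : CRef := CRef.mk (Pat.mk 0xa00000000000000000000000000000000000000000 0x40000001f0000001f8000007f800000ffe00000ffe00000eff000007fc000001fc000001f8000001f800000078 9 12) 0 0 (step_sound _ 199 [rh32a977fed49c0735, (rh5467fd3a1df04c06.shift 3 2), (rh5de6ebd4d6f0e719.shift 2 1), (rh64c3618d3921622f.shift 2 0), (rh761cf4ce2245405e.shift 4 1), (rha32831eeb434b217.shift 2 0), (rhbf32b2fd5f15dabb.shift 2 0), (rhe422b27de20ff3bf.shift 1 1), (rhf2f0f9b3533de8b2.shift 2 0), (rhfdc15c51c02fb1f1.shift 2 0)] (by decide +kernel))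
noncomputable def rh14b5d819fd105ae4 : CRef := CRef.mk (Pat.mk 0xa0000000000000000000000000000000000000000000000000 0x58000001f8000001f8000003fc000007fc00000eff00000ffe00000ffe000001f8000001f8000001f0000001c0 9 12) 0 0 (step_sound _ 167 [(rh0fb16c8f3bb870a5.shift 4 1), (rh183ac62944043210.shift 2 1), (rh2f9f241e2eb4a7a6.shift 3 2), (rh4e2eab4568b9d577.shift 2 1), (rh5563f4715f527796.shift 1 0), (rh7c8ff4c7c383c4cf.shift 2 0), (rhba6f39dd02c7788d.shift 2 2), rhc73b146d81172a80, (rhca88f12153a2670e.shift 2 3), (rhe22395576487a73f.shift 2 1)] (by decide +kernel))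
noncomputable def rhb693b871be34ccde : CRef := CRef.mk (Pat.mk 0xa0000000000000000000000000000000000000000000000000 0x5800000078000001f8000003fc000007fc00000eff00000ffe00000ffe00000ff8000001f8000001f000000040 9 12) 0 0 (step_sound _ 167 [(rh2028f4b509227053.shift 2 2), (rh25642818773794d8.shift 2 1), (rh99591b92a14a7a53.shift 2 3), rh99acd7873b43df2d, (rha8072279884bb30a.shift 2 1), (rhb0a3b6aaa703cafc.shift 2 1), (rhb4ff42fbee9f541c.shift 3 1), (rhba1d4bc84a18ebd7.shift 3 1), (rhc6ce3796c38f7aa5.shift 1 0), (rhdb7a06e6536c2019.shift 2 1)] (by decide +kernel))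
noncomputable def rh8eab7dac2644b783 : CRef := CRef.mk (Pat.mk 0x2c00000000000000000000000000000000 0x1000000030000000770000003e00000077000000700000007000000050 9 7) 0 0 (step_sound _ 132 [(rh2ba551de881ca4cd.shift 0 3), (rh2cc7d62e70c02209.shift 0 3), (rh2d691ab8f8ceddb4.shift 1 0), (rh8195a2d7794c7cd2.shift 0 3)] (by decide +kernel))
noncomputable def rh8617134d0728a8f8 : CRef := CRef.mk (Pat.mk 0x160000000000000000000000000000000000000000 0x1e0000003f0000003f0000001e0000003f0000003f0000003f0000002f00000005 9 6) 0 0 (step_sound _ 163 [(rh2d691ab8f8ceddb4.shift 0 1), rhc771cebdf788c766, (rhd1cf39858fe3af7b.shift 0 2), (rhe0619f5fa1f9aed9.shift 0 1)] (by decide +kernel))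
noncomputable def rh9b50a9b2a3034b4f : CRef := CRef.mk (Pat.mk 0x2c00000000000000000000000000000000 0x30000000700000003e0000007f000000780000007000000050 9 7) 0 0 (step_sound _ 132 [(rh7654d7b92c96fe12.shift 0 3), (rh8195a2d7794c7cd2.shift 0 3), (rhe0619f5fa1f9aed9.shift 1 0), (rhf459621b93742302.shift 1 1)] (by decide +kernel))
noncomputable def rh6a8fffccf0b05ee4 : CRef := CRef.mk (Pat.mk 0x2c000000000000000000000000 0x24000000760000007f0000003e000000780000003800000030 9 7) 0 0 (step_sound _ 100 [(rh2ba551de881ca4cd.shift 0 2), (rh61325f73ebf98108.shift 0 3), (rhd1cf39858fe3af7b.shift 1 0), (rhf459621b93742302.shift 1 0)] (by decide +kernel))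
noncomputable def rh5e5a9700b4415c05 : CRef := CRef.mk (Pat.mk 0x580000000000000000000000000000000000000000 0x1c0000003e000000ff000000ff0000005f000001ff000001ff000001ff0000003e00000034 9 9) 0 0 (step_sound _ 131 [(rh04f5aa63926d81f5.shift 0 1), (rh6cb5b1f5357060f4.shift 0 1), rh7bcc05569e3e38c1, (rh8cdffccdf52edd4a.shift 0 1), rha29f458662cad2e8, (rhaf9aaf542ec8939a.shift 0 1), rhb25e9c2604d62113, (rhc4882303b48a7840.shift 0 2), rhcdbaa1f624fb0f1f, rhd98bb42caf7edeac, (rhdb931ac79e2298a5.shift 0 1), rhe361a7b98a0e0809] (by decide +kernel))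
noncomputable def rhace7c02905148673 : CRef := CRef.mk (Pat.mk 0x160000000000000000000000000000000000000000 0xc0000001e0000003f0000001e0000003f0000003f0000003f0000002f00000005 9 6) 0 0 (step_sound _ 163 [(rh625471d836e77ca0.shift 0 1), rhc771cebdf788c766, (rhe0619f5fa1f9aed9.shift 0 1)] (by decide +kernel))
noncomputable def rhdf6b6a3e0c3a82c1 : CRef := CRef.mk (Pat.mk 0x2c00000000000000000000000000000000 0x1000000030000000770000003e00000070000000700000007000000050 9 7) 0 0 (step_sound _ 132 [(rh2ba551de881ca4cd.shift 0 3), (rh61325f73ebf98108.shift 0 4), (rh625471d836e77ca0.shift 1 0), (rhf459621b93742302.shift 1 1)] (by decide +kernel))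
noncomputable def rhffdcd90a8c4a172d : CRef := CRef.mk (Pat.mk 0xb00000000000000000000000000000000000000000 0x380000007c000000fe000001fe000000be000003ff000003fe000003fe0000007c00000068 9 10) 0 0 (step_sound _ 132 [(rh099035937be8edce.shift 2 0), (rh14f774fae695f490.shift 0 1), (rh30de1fef1b2f4bc2.shift 1 0), (rh4c6a9fd8f10832d0.shift 1 0), (rh860c12e43b88747d.shift 1 0), (rha29f458662cad2e8.shift 1 0), (rhab958c43f51102c8.shift 1 1), (rhaf9aaf542ec8939a.shift 1 1), (rhb25e9c2604d62113.shift 1 0), (rhb770c6fea70dc274.shift 1 1), (rhd98bb42caf7edeac.shift 1 0), (rhdb931ac79e2298a5.shift 1 1), (rhe361a7b98a0e0809.shift 1 0)] (by decide +kernel))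
noncomputable def rh0e2ded1e4d0aef3c : CRef := CRef.mk (Pat.mk 0x580000000000000000000000000000000000000000 0x10000000780000007c0000007e000000ff000003fc000000fc0000007c00000014 9 10) 0 0 (step_sound _ 165 [(rh8195a2d7794c7cd2.shift 1 4), (rhc1e8360b4240db4c.shift 1 2), (rhc771cebdf788c766.shift 2 0), (rhd9365101e31fb89b.shift 2 1), (rhefd12c9646cafdd8.shift 0 4)] (by decide +kernel))
noncomputable def rh5d32e4722544ecdd : CRef := CRef.mk (Pat.mk 0xb00000000000000000000000000000000000000000 0x7000000070000000ff000000fe000001bf000000b8000000b80000003800000028 9 9) 0 0 (step_sound _ 166 [(rh138c3774b73e0afc.shift 1 4), (rh2cc7d62e70c02209.shift 2 4), (rha0b223f75e655682.shift 0 2), (rhc771cebdf788c766.shift 3 0), (rhd690071d9e563773.shift 1 4), (rhe7a917bc81751aab.shift 0 2)] (by decide +kernel))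
noncomputable def rh813eb7d830ba9692 : CRef := CRef.mk (Pat.mk 0x2c0000000000000000000000000000000000000000 0xa0000000e0000000e000000070000003e0000007f0000000e0000000e0000000e00000008 9 7) 0 0 (step_sound _ 164 [(rh2ba551de881ca4cd.shift 0 4), (rh2cc7d62e70c02209.shift 0 4), (rh8195a2d7794c7cd2.shift 0 4), (rhe75bad2115358ade.shift 1 0)] (by decide +kernel))
noncomputable def rh5e434e210ec6cd1d : CRef := CRef.mk (Pat.mk 0xb00000000000000000000000000000000000000000 0x60000000e0000000e7000000fe000001ff000001f8000001f8000000f800000028 9 9) 0 0 (step_sound _ 166 [(rh8195a2d7794c7cd2.shift 2 4), (rh8e226990f41c2b8b.shift 0 4), (rha1c345ccdc6e43e7.shift 3 0), (rhc1e8360b4240db4c.shift 2 2), (rhe7a917bc81751aab.shift 0 2)] (by decide +kernel))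
noncomputable def rh0e49de9fbce45e5a : CRef := CRef.mk (Pat.mk 0xb00000000000000000000000000000000000000000 0x5000000050000000ff000000fe000001f7000007e0000007f0000001c000000140 9 11) 0 0 (step_sound _ 166 [(rh222437426eac50e7.shift 3 0), (rh2ba551de881ca4cd.shift 2 4), (rh82d55c655b5bb88a.shift 0 4), (rh8e226990f41c2b8b.shift 0 4), (rha0b223f75e655682.shift 0 2)] (by decide +kernel))
noncomputable def rhf317f41dcb504c43 : CRef := CRef.mk (Pat.mk 0x2c00000000000000000000000000000000 0x80000000e0000000e0000000e0000000f0000003e000000770000000e0000000e0000000a 9 7) 0 0 (step_sound _ 132 [(rh2ba551de881ca4cd.shift 0 3), (rh2cc7d62e70c02209.shift 0 3), (rh54807c1f2ce61255.shift 1 0), (rh8195a2d7794c7cd2.shift 0 3)] (by decide +kernel))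
noncomputable def rh279d0d0cb5925932 : CRef := CRef.mk (Pat.mk 0xb00000000000000000000000000000000000000000 0x2000000070000000fe000000fe0000007f00000038000000380000003800000028 9 8) 0 0 (step_sound _ 166 [(rh138c3774b73e0afc.shift 1 4), (rh2cc7d62e70c02209.shift 2 4), (rh82d55c655b5bb88a.shift 0 4), (rhc1e8360b4240db4c.shift 2 2), (rhc771cebdf788c766.shift 3 0), (rhd690071d9e563773.shift 1 4)] (by decide +kernel))
noncomputable def rhf5efcdc3c9f234af : CRef := CRef.mk (Pat.mk 0x580000000000000000000000000000000000000000 0x100000001c0000003c0000003c0000007f0000007b000000ff000000ff0000007c0000007c00000014 9 8) 0 0 (step_sound _ 131 [(rh0aceda9de19faf60.shift 2 1), (rh381ed0e90c9fcfcf.shift 2 1), (rh51810c863b56635c.shift 2 0), (rh61ebb077456cf6ef.shift 0 1), (rh8a8fd2d787bee71a.shift 2 2), (rh8b1334d97495445e.shift 2 1), (rh8fe9791f8a64546a.shift 0 1), rhb25e9c2604d62113] (by decide +kernel))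
noncomputable def rhddbc62df2eb8103f : CRef := CRef.mk (Pat.mk 0x580000000000000000000000000000000000000000 0x1000000070000000770000007e000000fe000000fc000000fc0000007c00000014 9 8) 0 0 (step_sound _ 165 [(rh138c3774b73e0afc.shift 0 4), (rh16d72ec685797d2b.shift 2 0), (rh2fa4d48c9e158234.shift 0 4), (rh8195a2d7794c7cd2.shift 1 4)] (by decide +kernel))
noncomputable def rhcb0ed52c696debef : CRef := CRef.mk (Pat.mk 0xb0000000000000000000000000 0xa0000000e0000000e000000ff000000fe000001ef0000000c0000000c 9 9) 0 0 (step_sound _ 99 [(rh0128f12cac02c611.shift 1 2), (rh0b1be9f149f46cdc.shift 1 2), (rh1a8b51fb005158ac.shift 2 2), (rh20f75641c483f9d7.shift 0 2), (rhdf9c8fa0b4790c43.shift 1 2), rheb42bc5c4734443c] (by decide +kernel))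
noncomputable def rh17bfb27812af96cd : CRef := CRef.mk (Pat.mk 0xb00000000000000000000000000000000000000000 0x380000007c000000fe000000ff000000be000003ff000003fe000003fe0000007c00000068 9 10) 0 0 (step_sound _ 132 [(rh4c6a9fd8f10832d0.shift 1 0), (rh6e8fdc60dd88f593.shift 1 1), (rh742081d69b281d06.shift 2 0), (rh8449baef85bb144a.shift 1 1), rh910da9ac61ced992, (rha29f458662cad2e8.shift 1 0), (rhb25e9c2604d62113.shift 1 0), (rhc9cd7c4debe22673.shift 1 1), (rhd98bb42caf7edeac.shift 1 0), (rhdb931ac79e2298a5.shift 1 1), (rhe361a7b98a0e0809.shift 1 0), (rhff23b07f61b88c28.shift 1 1)] (by decide +kernel))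
noncomputable def rh4dd91e16365a81f3 : CRef := CRef.mk (Pat.mk 0x580000000000000000000000000000000000000000 0x1800000058000000fc0000007e0000007f0000003c0000003c0000001c00000014 9 8) 0 0 (step_sound _ 165 [(rh2c1baeadcd4b32f5.shift 1 4), (rh4cf8cadacd839b9e.shift 0 4), (rh69109ec7d2e7c34b.shift 1 2), (rhc771cebdf788c766.shift 2 0), (rhe1b4214f6e8fdc8a.shift 2 2)] (by decide +kernel))
noncomputable def rhb8322d330c464d98 : CRef := CRef.mk (Pat.mk 0x580000000000000000000000000000000000000000 0x1000000058000000ff0000007e0000007c0000003c0000003c0000001c00000014 9 8) 0 0 (step_sound _ 165 [(rh00f1bb10334541e3.shift 1 5), (rh109390ad9621a737.shift 0 2), (rhc483bf534335932e.shift 2 2), (rhc771cebdf788c766.shift 2 0)] (by decide +kernel))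
noncomputable def rh6b2ddfbe28da4a95 : CRef := CRef.mk (Pat.mk 0xb00000000000000000000000000000000000000000 0xa0000000b0000001bf000000fe000000ff00000078000000780000003800000028 9 9) 0 0 (step_sound _ 166 [(rh219021521bf409aa.shift 1 4), (rh2cc7d62e70c02209.shift 2 4), (rh411c2ef75942b27e.shift 0 2), (rh9a61dc0f685e3a67.shift 1 4), (rha9e52ce667426466.shift 0 2), (rhc771cebdf788c766.shift 3 0)] (by decide +kernel))
noncomputable def rhbc031e55eb826e6b : CRef := CRef.mk (Pat.mk 0x2c00000000000000000000000000000000 0x80000000e0000000e0000000e0000007f0000003e000000070000000e0000000e0000000a 9 7) 0 0 (step_sound _ 132 [(rh00f1bb10334541e3.shift 0 4), (rh2c1baeadcd4b32f5.shift 0 3), (rh2cc7d62e70c02209.shift 0 3), (rhf8e170477bbe038d.shift 1 0)] (by decide +kernel))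
noncomputable def rhf7c8d392a9dfd0fc : CRef := CRef.mk (Pat.mk 0xb00000000000000000000000000000000000000000 0xa0000000a0000001f7000000fe000000ff0000007e000000fe0000003800000028 9 9) 0 0 (step_sound _ 166 [(rh2c1baeadcd4b32f5.shift 2 4), (rh3055900a7dba823a.shift 1 0), (rh411c2ef75942b27e.shift 0 2), (rh822486abf6086842.shift 0 4), (rhde1f0c0d7fc93739.shift 0 4)] (by decide +kernel))
noncomputable def rhc01f913feabaadf4 : CRef := CRef.mk (Pat.mk 0xb0000000000000000000000000 0x28000000f8000001f8000001f8000001ff000000fe000000e7000000e0000000e0 9 9) 0 0 (step_sound _ 102 [(rh00f1bb10334541e3.shift 2 3), (rh578b1e3d9e228717.shift 3 0), (rh579d8a7da199f92b.shift 2 0), rha9e52ce667426466, (rhde1f0c0d7fc93739.shift 0 2)] (by decide +kernel))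
noncomputable def rh163534abb5d553f2 : CRef := CRef.mk (Pat.mk 0x2c0000000000000000000000000000000000000000 0xa0000000e0000000e000000770000003e0000000f0000000e0000000e0000000e00000008 9 7) 0 0 (step_sound _ 164 [(rh00f1bb10334541e3.shift 0 5), (rh2c1baeadcd4b32f5.shift 0 4), (rh2cc7d62e70c02209.shift 0 4), (rh8dfb49bb07e94bc8.shift 1 0)] (by decide +kernel))
noncomputable def rhdca12d589956c481 : CRef := CRef.mk (Pat.mk 0xb00000000000000000000000000000000000000000 0x20000000300000007f000000fe000000fe00000078000000780000003800000028 9 8) 0 0 (step_sound _ 166 [(rh219021521bf409aa.shift 1 4), (rh2cc7d62e70c02209.shift 2 4), (rh579d8a7da199f92b.shift 2 2), (rh822486abf6086842.shift 0 4), (rh9a61dc0f685e3a67.shift 1 4), (rhc771cebdf788c766.shift 3 0)] (by decide +kernel))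
noncomputable def rh56ea43b1da3d4de5 : CRef := CRef.mk (Pat.mk 0x580000000000000000000000000000000000000000 0x100000001c0000007c0000007e000000ff0000007b0000007f000000ff0000003c0000001c00000014 9 8) 0 0 (step_sound _ 131 [(rh12b86f344212f1e9.shift 0 1), (rh16920a0fc3ec95bd.shift 2 3), (rh5ec7195b8b0b0e33.shift 2 0), (rh61ebb077456cf6ef.shift 0 1), rh667329cb98c3be7a, (rhb91ebc34bf30d78e.shift 2 2), (rhf45ef8844ebe45fd.shift 2 1), (rhfc1dbcf9d7adcdd0.shift 2 1)] (by decide +kernel))
noncomputable def rh53cf5e34488672b8 : CRef := CRef.mk (Pat.mk 0xb000000000000000000000000000000000 0x80000000c000001ef000000fe000000ff0000000e0000000e0000000a 9 9) 0 0 (step_sound _ 131 [(rh0c894822215ce91f.shift 1 3), (rh38230e69feba7cfe.shift 0 3), (rh39ad6055f66b9ead.shift 2 3), rh3af97ae9a1b73f0f, (rhee26079a742ab99d.shift 1 3)] (by decide +kernel))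
noncomputable def rh51a67087f5b3b646 : CRef := CRef.mk (Pat.mk 0x58000000000000000000000000 0x140000007c000000fc000000fc000000fe0000007e000000770000007000000070 9 8) 0 0 (step_sound _ 101 [(rh00f1bb10334541e3.shift 1 3), (rh219021521bf409aa.shift 0 2), (rh4cf8cadacd839b9e.shift 0 2), (rh578b1e3d9e228717.shift 2 0)] (by decide +kernel))
noncomputable def rhe7d1d84a86647896 : CRef := CRef.mk (Pat.mk 0xb000000000000000000000000000000000 0x380000007c000000fe000001fe000003fe000000be000000ff000000fe0000007c00000038 9 10) 0 0 (step_sound _ 164 [(rh0bb8a5766cefa8f5.shift 2 1), (rh180ec102881c913b.shift 1 1), (rh1adcbc7ae4bb2ba8.shift 2 1), (rh25c9d418ec896a2d.shift 1 0), (rh3f1a3c49b38a9ae3.shift 1 1), (rh4315ce1fc5ff56e2.shift 1 1), rh7212074bd2a4ca91, (rh80fe2cb8de56a2cd.shift 1 1), (rh82ac93212b09d07d.shift 2 0), (rhaafbf918d494a09d.shift 1 1), (rhb2cd943323d923c0.shift 1 1)] (by decide +kernel))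
noncomputable def rhddcfd0779a0b5073 : CRef := CRef.mk (Pat.mk 0x16000000000000000000000000 0x10000002f0000003f0000003f0000003f0000001e0000003f0000001e0000001e 9 6) 0 0 (step_sound _ 99 [(rh0a301e9cd1a23dbb.shift 0 1), rh805b7d85b33a7d22, rhd1449abf98167e73] (by decide +kernel))
noncomputable def rh3197b58d2ca4a898 : CRef := CRef.mk (Pat.mk 0x2c000000000000000000000000 0x70000000700000007f0000003e000000700000003000000010 9 7) 0 0 (step_sound _ 100 [(rh0a301e9cd1a23dbb.shift 1 1), (rh2ba551de881ca4cd.shift 0 2), (rh61325f73ebf98108.shift 0 3), (rhf459621b93742302.shift 1 0)] (by decide +kernel))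
noncomputable def rhe38f58961b39e31b : CRef := CRef.mk (Pat.mk 0x2c000000000000000000000000 0x500000007000000070000000700000003e000000770000003000000030 9 7) 0 0 (step_sound _ 100 [(rh7654d7b92c96fe12.shift 0 2), (rh8195a2d7794c7cd2.shift 0 2), (rhc6229acb339d6d73.shift 1 0), (rhf459621b93742302.shift 1 0)] (by decide +kernel))
noncomputable def rheff147ec45c91216 : CRef := CRef.mk (Pat.mk 0xb000000000000000000000000000000000 0x380000007c000003fe000001fe000003fe000000be000001ff000000fe0000007c00000038 9 10) 0 0 (step_sound _ 164 [(rh13388bc621af972b.shift 1 1), (rh1adcbc7ae4bb2ba8.shift 2 1), (rh3bd1c0eec99a46a8.shift 2 0), (rh6d53874c42932884.shift 1 0), (rh9e885f2cbc8f155b.shift 3 1), (rha7da768226e428b3.shift 1 1), (rhab875bc0f4c2c3af.shift 1 1), (rhc64bb0e616068413.shift 1 1), (rhd483be439a20514d.shift 1 1), (rhd5a1b63e8a499fa3.shift 2 1), (rhed7f3bf16f114d61.shift 1 1), (rhf1eed8a020b15f06.shift 1 0), rhf92efb797fd84fd7] (by decide +kernel))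
noncomputable def rh79f501246f7e937a : CRef := CRef.mk (Pat.mk 0x2c000000000000000000000000 0x500000007000000070000000770000003e000000770000003000000030 9 7) 0 0 (step_sound _ 100 [(rh2ba551de881ca4cd.shift 0 2), (rh2cc7d62e70c02209.shift 0 2), (rh63c1dce38216ec14.shift 1 0), (rh8195a2d7794c7cd2.shift 0 2)] (by decide +kernel))
noncomputable def rhb6bf48209d0b9d82 : CRef := CRef.mk (Pat.mk 0x160000000000000000000000000000000000000000 0x280000003c0000003e0000003f0000001e0000003f0000003f0000001f0000001700000005 9 6) 0 0 (step_sound _ 163 [(rh0a301e9cd1a23dbb.shift 0 3), (rh63c1dce38216ec14.shift 0 2), (rh9747093d0ffde9de.shift 0 1), rhc771cebdf788c766] (by decide +kernel))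
noncomputable def rhbb9a283cf4ef134a : CRef := CRef.mk (Pat.mk 0x2c00000000000000000000000000000000 0x20000000780000003e0000007f000000760000003400000024 9 7) 0 0 (step_sound _ 132 [(rh7654d7b92c96fe12.shift 0 3), (rh8195a2d7794c7cd2.shift 0 3), (rh9747093d0ffde9de.shift 1 0), (rhf459621b93742302.shift 1 1)] (by decide +kernel))
noncomputable def rhe33c9cc11787d737 : CRef := CRef.mk (Pat.mk 0x580000000000000000000000000000000000000000 0x1c000001ff000000fe000001ff0000005f000001ff000001ff0000007f0000003e00000034 9 9) 0 0 (step_sound _ 131 [(rh04f5aa63926d81f5.shift 0 1), (rh0da96baa24f52abf.shift 0 1), (rh112c0560d81112f8.shift 0 1), rh1f849700e38cfaa5, (rh292c31211ef96a2f.shift 0 1), (rh62f42ef7e9fd53e7.shift 0 2), (rh8cdffccdf52edd4a.shift 0 1), rha4c4f7687dc1ba6b, rhc1b59f7d99d33fbb, rhcdbaa1f624fb0f1f, rhd98bb42caf7edeac, rhef0a71a161bd4a4a] (by decide +kernel))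
noncomputable def rh2d8b7c38cf4da27e : CRef := CRef.mk (Pat.mk 0xa00000000000000000000000000000000000000000 0x40000001f0000001f8000007f800000ffe00000ffe00000eff000007fc000003fc000001f8000000f800000078 9 12) 0 0 (step_sound _ 199 [(rh5467fd3a1df04c06.shift 3 2), (rh64c3618d3921622f.shift 2 0), rh941b2e94fe6848e5, (rh9963b1346f6c91c7.shift 3 1), (rh9c5d06712aca829e.shift 2 0), (rha32831eeb434b217.shift 2 0), (rhbccaaee7465a7fa5.shift 2 2), (rhbf32b2fd5f15dabb.shift 2 0), (rhf1bdb0fbbbb4d984.shift 1 1), (rhf2f0f9b3533de8b2.shift 2 0)] (by decide +kernel))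
noncomputable def rh3eb8bd9a20937a4e : CRef := CRef.mk (Pat.mk 0xa00000000000000000000000000000000000000000 0x40000001f0000001f8000007f800000ffe00000ffe00000eff000007fc000003fc000001f8000001f800000068 9 12) 0 0 (step_sound _ 199 [(rh05fb1482e3039245.shift 2 0), (rh0af3191fa0aee58e.shift 2 0), rh0e01c77f9dc8cdd7, (rh2e5d0d5cf17ca182.shift 2 0), (rh5467fd3a1df04c06.shift 3 2), (rh5de6ebd4d6f0e719.shift 2 1), (rha5d293c6b281decf.shift 4 1), (rhce55ce02af2e7af1.shift 2 0), (rhe2455003c5268390.shift 2 0), (rhf1bdb0fbbbb4d984.shift 1 1)] (by decide +kernel))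
noncomputable def rh26802162024afe7f : CRef := CRef.mk (Pat.mk 0xa0000000000000000000000000000000000000000000000000 0x5800000178000001f8000003fc000007fc00000eff00000ffe00000ffe00000ff8000001f8000001f000000040 9 12) 0 0 (step_sound _ 167 [(rh2028f4b509227053.shift 2 2), (rh49fc82a24ba3ead4.shift 1 0), (rh4f2232cebb2cd2ba.shift 2 1), (rh99591b92a14a7a53.shift 2 3), (rh9b51e05054024c5e.shift 3 1), (rha8072279884bb30a.shift 2 1), (rhb0a3b6aaa703cafc.shift 2 1), (rhb4ff42fbee9f541c.shift 3 1), (rhdb7a06e6536c2019.shift 2 1), rhfd5037d1fe94b36c] (by decide +kernel))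
noncomputable def rha53471a23a3373a2 : CRef := CRef.mk (Pat.mk 0xa0000000000000000000000000000000000000000000000000 0x58000000780000017800000ffc000007fc00000eff000007fe00000ffe00000ffc000001f8000001f000000040 9 12) 0 0 (step_sound _ 167 [(rh26edf287419c3dff.shift 2 1), rh53754becb1aae9a9, (rh57c4e50764fc165b.shift 1 0), (rh5ed9a78d6699216d.shift 2 1), (rh6f51ad8b13739e34.shift 3 1), (rha4d46d534e893dcd.shift 2 1), (rhb7d9a07cd47a8710.shift 2 1), (rhe418b4b649ce5646.shift 2 1), (rhf3b6af47d3a4e626.shift 2 3), (rhfd640015976ea2de.shift 4 1)] (by decide +kernel))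
noncomputable def rh3a9e4707e5d94c4d : CRef := CRef.mk (Pat.mk 0x2c000000000000000000000000 0x1c0000001e0000007f0000003e0000007c0000003c00000038 9 7) 0 0 (step_sound _ 100 [(rh2ba551de881ca4cd.shift 0 2), (rh3e1b7b343686dca1.shift 1 2), (rh61325f73ebf98108.shift 0 3), (rh8f935cf4d49a9dbc.shift 1 0)] (by decide +kernel))
noncomputable def rh3e2226efbb1eb0c3 : CRef := CRef.mk (Pat.mk 0x2c000000000000000000000000 0xa0000000e0000000e0000001e0000007f0000003e000000770000002400000024 9 7) 0 0 (step_sound _ 100 [(rh2ba551de881ca4cd.shift 0 2), (rh2cc7d62e70c02209.shift 0 2), (rh5a3dee260aa2921d.shift 1 0), (rh8195a2d7794c7cd2.shift 0 2)] (by decide +kernel))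
noncomputable def rh2507b9db82b37b1d : CRef := CRef.mk (Pat.mk 0x580000000000000000000000000000000000000000 0x140000001c0000001c0000003c000000fc00000078000000fc000000ff000000fc000000bc00000014 9 8) 0 0 (step_sound _ 131 [(rh08ce4b220451231b.shift 2 1), (rh1adce417a0c35e3f.shift 2 1), (rh6839ffca48ccc498.shift 2 0), (rh78b5bd58a950a8f1.shift 2 2), rhb25e9c2604d62113] (by decide +kernel))
noncomputable def rh73ebb91494b48f13 : CRef := CRef.mk (Pat.mk 0x2c00000000000000000000000000000000 0x10000000700000003e0000007f000000780000007000000050 9 7) 0 0 (step_sound _ 132 [(rh3e1b7b343686dca1.shift 1 3), (rh7654d7b92c96fe12.shift 0 3), (rh8195a2d7794c7cd2.shift 0 3), (rhe0619f5fa1f9aed9.shift 1 0)] (by decide +kernel))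
noncomputable def rhedb06550822ce33d : CRef := CRef.mk (Pat.mk 0xb0000000000000000000000000 0xa0000000e0000000e000001ff000000fe000001ef0000000c0000000c 9 9) 0 0 (step_sound _ 99 [(rh1a8b51fb005158ac.shift 2 2), (rh3f83af65ae644162.shift 3 2), (rhd7b8cc4eecb9e3ae.shift 2 3), rheb42bc5c4734443c] (by decide +kernel))
noncomputable def rhdd112d01328dac07 : CRef := CRef.mk (Pat.mk 0xb00000000000000000000000000000000000000000 0x380000007c0000007e000001fe000000be000001ff000001fe000003fe000000fc00000068 9 10) 0 0 (step_sound _ 132 [(rh171712c64367aa82.shift 1 1), (rh30de1fef1b2f4bc2.shift 1 0), (rh4c6a9fd8f10832d0.shift 1 0), (rh5241040e39720537.shift 1 0), (rh57dd592a6a1d8539.shift 1 1), (rh7016b92003f22ccb.shift 1 0), (rh860c12e43b88747d.shift 1 0), (rhb25e9c2604d62113.shift 1 0), (rhb3bcefb7d37f4de7.shift 1 1), (rhcdc41731546c3c0d.shift 0 1), (rhd98bb42caf7edeac.shift 1 0), (rhe8372e76c1f2f09d.shift 1 1), (rhf757ff2a58a04081.shift 1 0)] (by decide +kernel))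
noncomputable def rh665d02da03dc2b2f : CRef := CRef.mk (Pat.mk 0x2c000000000000000000000000 0xa0000000e0000000e0000000f0000003e0000007f0000000c0000000c 9 7) 0 0 (step_sound _ 100 [(rh2ba551de881ca4cd.shift 0 2), (rh2cc7d62e70c02209.shift 0 2), (rh650b36881c7c95fb.shift 1 0), (rh8195a2d7794c7cd2.shift 0 2)] (by decide +kernel))
noncomputable def rhc387e4b7a9d98a58 : CRef := CRef.mk (Pat.mk 0x2c0000000000000000000000000000000000000000 0x80000001c0000001e0000003e0000007f0000003e0000003e0000003e0000000a 9 7) 0 0 (step_sound _ 164 [(rh0a120c13085430e5.shift 1 0), (rh8195a2d7794c7cd2.shift 0 4), (rhc771cebdf788c766.shift 1 0)] (by decide +kernel))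
noncomputable def rh15a9e05eed57c8d5 : CRef := CRef.mk (Pat.mk 0x2c0000000000000000000000000000000000000000 0x80000001c0000001f0000003e0000007e0000003e0000003e0000003e0000000a 9 7) 0 0 (step_sound _ 164 [(rh2ba551de881ca4cd.shift 0 4), (rhc771cebdf788c766.shift 1 0), (rhca81a2be8881beab.shift 1 0)] (by decide +kernel))
noncomputable def rh4eed0f657b8a123a : CRef := CRef.mk (Pat.mk 0x16000000000000000000000000000000000 0xc0000000f0000003fc000001fe000000fc000001ff0000037c000000fc0000007800000050 9 10) 0 0 (step_sound _ 165 [(rh05e6adf69b0b2d56.shift 0 2), (rh0fb242845b9fd8cd.shift 2 2), (rh66d2ed7e8ebe25cc.shift 4 0), (rh8d04047934eb4dea.shift 2 0), (rh9fee24e32c05d9d4.shift 2 2), (rhc0a38065e8cf206d.shift 2 1), (rhc8f2679bdce2f50a.shift 2 1), (rhdafefc8fc1469402.shift 2 0)] (by decide +kernel))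
noncomputable def rh7aec5aac1d18d9c9 : CRef := CRef.mk (Pat.mk 0x2c0000000000000000000000000000000000000000 0xa0000000e0000000e000000070000003e0000007f0000000e0000000e0000000e00000008 9 7) 0 0 (step_sound _ 164 [(rh27030b6d9eddb3b8.shift 1 0), (rh2ba551de881ca4cd.shift 0 4), (rh2cc7d62e70c02209.shift 0 4), (rh8195a2d7794c7cd2.shift 0 4)] (by decide +kernel))
noncomputable def rh1eb2f5fca10a0485 : CRef := CRef.mk (Pat.mk 0x580000000000000000000000000000000000000000 0x1c0000003f0000003f0000007f0000003f0000007f0000001c0000001c00000014 9 7) 0 0 (step_sound _ 131 [(rh3db42460990513b7.shift 0 2), rh48c0bb17b6d64256, (rh498d14379c12cab7.shift 0 1), (rh56e536374b6ce8d2.shift 0 1), (rh92c68958b3151892.shift 0 1), (rha95f48dee792da27.shift 0 1), (rhf4dd4de109330334.shift 0 1)] (by decide +kernel))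
noncomputable def rh2043081bd1990921 : CRef := CRef.mk (Pat.mk 0xb00000000000000000000000000000000000000000 0x8000000780000007e00000076000000fe000003fe000003fe000001ff0000007c00000028 9 10) 0 0 (step_sound _ 132 [rh0816d1cd767905a7, (rh498d14379c12cab7.shift 1 1), (rh82869b52a26ab671.shift 1 2), (rh8c7f760c3bfe7c4a.shift 1 1), (rh9d2d07b15e6ca90f.shift 1 2), (rhabc6eb8211cfeaa7.shift 1 0)] (by decide +kernel))
noncomputable def rhc7c47096d2eef123 : CRef := CRef.mk (Pat.mk 0x1600000000000000000000000000000000000000000 0x40000000f0000001f4000001fe000000fc000001ff000003ec000000fc000000f8000000f000000040 9 10) 0 0 (step_sound _ 197 [(rh05e6adf69b0b2d56.shift 0 3), (rh0fb242845b9fd8cd.shift 2 3), (rh2e6c91c1166792ee.shift 2 0), (rh9fee24e32c05d9d4.shift 2 3), (rhcf85d7bc11ebe144.shift 2 2), (rhdafefc8fc1469402.shift 2 1), (rhf57d7c86e6b73f0d.shift 4 1)] (by decide +kernel))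
noncomputable def rhf6fc955b6293d468 : CRef := CRef.mk (Pat.mk 0x2c00000000000000000000000000000000 0x80000000e0000000e0000000e0000000f0000003e000000770000000e0000000e0000000a 9 7) 0 0 (step_sound _ 132 [(rh2ba551de881ca4cd.shift 0 3), (rh2cc7d62e70c02209.shift 0 3), (rh8195a2d7794c7cd2.shift 0 3), (rh9ce530ec817edad8.shift 1 0)] (by decide +kernel))
noncomputable def rh7225427ba772470b : CRef := CRef.mk (Pat.mk 0x580000000000000000000000000000000000000000 0x100000001c0000003c0000003c0000003f0000007b000000ff000000ff0000003c0000001c00000014 9 8) 0 0 (step_sound _ 131 [(rh22f23d05c207caad.shift 2 2), (rh2b7ef1a9dc0c22bb.shift 2 0), (rh2fea5b90f6ebff44.shift 2 1), (rh498d14379c12cab7.shift 0 1), (rh819ad4a7a3e7805b.shift 0 1), (rh8b1334d97495445e.shift 2 1), (rh8fe9791f8a64546a.shift 0 1), rhb25e9c2604d62113] (by decide +kernel))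
noncomputable def rhfc259bd4bf63214b : CRef := CRef.mk (Pat.mk 0xb000000000000000000000000000000000 0x80000002c0000006f000000ff000001ff0000001e0000001e0000000a 9 9) 0 0 (step_sound _ 131 [rh2caff7e113dca1e8, (rh3194727a60434116.shift 2 3), (rh4e6319c9b903438d.shift 1 1), (rh9afc1294c237a43d.shift 0 3), (rhc8b372f49952ef00.shift 0 1), (rhf0e49f0f068301ae.shift 0 3)] (by decide +kernel))
noncomputable def rh72b45c5257ed1518 : CRef := CRef.mk (Pat.mk 0xb000000000000000000000000000000000 0x80000000c0000007f000000fe000001ef0000000e0000000e0000000a 9 9) 0 0 (step_sound _ 131 [(rh122e729f50a4419c.shift 0 1), (rh1a8b51fb005158ac.shift 2 3), (rh2a6c5e5ee9c5293c.shift 0 1), rh79575dfea8db82d7, (rh9afc1294c237a43d.shift 0 3), (rhba59418d937d067d.shift 1 3)] (by decide +kernel))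
noncomputable def rh59356f8d2ddefcff : CRef := CRef.mk (Pat.mk 0xb00000000000000000000000000000000000000000 0x38000000fc000000fe0000007f000000be000001ff000003fe000003fe0000007c00000068 9 10) 0 0 (step_sound _ 132 [rh0dad2529a08152dd, rh1a9102b703cfcf46, (rh348e0f836710745c.shift 1 1), (rh4c6a9fd8f10832d0.shift 1 0), (rh54aea630326aca67.shift 1 1), (rh7016b92003f22ccb.shift 1 0), (rh7a5f4f99b7c752d9.shift 1 0), (rh8b5b6b130aca844f.shift 1 1), (rh8fae134ab3d77cf3.shift 1 1), (rhb25e9c2604d62113.shift 1 0), (rhd98bb42caf7edeac.shift 1 0), (rhe8372e76c1f2f09d.shift 1 1)] (by decide +kernel))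
noncomputable def rhdfe12ef14e244090 : CRef := CRef.mk (Pat.mk 0x2c00000000000000000000000000000000 0x80000000c0000007f0000003e0000000f0000000e0000000e0000000a 9 7) 0 0 (step_sound _ 132 [(rh00f1bb10334541e3.shift 0 4), (rh2c1baeadcd4b32f5.shift 0 3), (rh2cc7d62e70c02209.shift 0 3), (rh9ac2a42af8d44412.shift 1 0)] (by decide +kernel))
noncomputable def rh54d56308d0408bd4 : CRef := CRef.mk (Pat.mk 0x2c00000000000000000000000000000000 0x80000001e0000001e0000003e0000007e0000003e0000001f0000001e0000001e0000000a 9 7) 0 0 (step_sound _ 132 [(rh2c1baeadcd4b32f5.shift 0 3), (rh7bbefec245183748.shift 1 1), (rh94a24476e0c607d9.shift 1 0)] (by decide +kernel))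
noncomputable def rh411bce92ff9d76f8 : CRef := CRef.mk (Pat.mk 0x5800000000000000000000000000000000 0x100000003c0000003c0000007c000000ff0000007f0000003c0000003c0000003c00000014 9 8) 0 0 (step_sound _ 133 [(rh00f1bb10334541e3.shift 1 4), (rh7bbefec245183748.shift 2 1), (rh94a24476e0c607d9.shift 2 0), (rhc2b07f7811352ddf.shift 0 3)] (by decide +kernel))
noncomputable def rh63b361a3aa76686b : CRef := CRef.mk (Pat.mk 0xb00000000000000000000000000000000000000000 0x28000000380000007e0000003e000000fe0000007e000000ff000000fa0000003800000028 9 8) 0 0 (step_sound _ 132 [(rh3427c72fd233e588.shift 2 0), (rh4fbfcc345ee7abf4.shift 3 2), (rh60baaad8ce9d3cb2.shift 1 2), (rh8de2bd4945f7cfc7.shift 1 1), (rh92c68958b3151892.shift 1 1), (rhd54935fd2345ad07.shift 0 1), (rhde45d7164ad6c044.shift 1 1), (rhe411f36be3a84bad.shift 1 1)] (by decide +kernel))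
noncomputable def rh225545b3a9258ed8 : CRef := CRef.mk (Pat.mk 0x2c00000000000000000000000000000000 0x80000000e0000000e0000000e0000007f0000003e000000070000000e0000000e0000000a 9 7) 0 0 (step_sound _ 132 [(rh00f1bb10334541e3.shift 0 4), (rh2c1baeadcd4b32f5.shift 0 3), (rh2cc7d62e70c02209.shift 0 3), (rh94a24476e0c607d9.shift 1 0)] (by decide +kernel))
noncomputable def rh5393610cb3a9668c : CRef := CRef.mk (Pat.mk 0xb00000000000000000000000000000000000000000 0x8000000380000007e0000007e000000fe0000007e000000ff000000fa0000003800000028 9 8) 0 0 (step_sound _ 132 [(rh2f2218849e1d2cd2.shift 1 1), (rh3427c72fd233e588.shift 2 0), (rh661f17429395f2ba.shift 1 2), (rh92c68958b3151892.shift 1 1), (rha95f48dee792da27.shift 1 1), (rhd54935fd2345ad07.shift 0 1), (rhde45d7164ad6c044.shift 1 1), (rhe411f36be3a84bad.shift 1 1)] (by decide +kernel))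
noncomputable def rh67b0b92279b495f6 : CRef := CRef.mk (Pat.mk 0xb00000000000000000000000000000000000000000 0x2000000038000000380000007e000000f6000000fe0000007e000000ff0000003a0000003800000028 9 8) 0 0 (step_sound _ 132 [(rh17fc46094ca729c8.shift 1 0), (rh661f17429395f2ba.shift 1 2), (rha95f48dee792da27.shift 1 1), (rhabc6eb8211cfeaa7.shift 1 0), (rhd54935fd2345ad07.shift 0 1), (rhde45d7164ad6c044.shift 1 1), (rhe411f36be3a84bad.shift 1 1)] (by decide +kernel))
noncomputable def rhc848f3c258520919 : CRef := CRef.mk (Pat.mk 0xb000000000000000000000000000000000 0x200000007c000001ff000001fe000001fe000000fe000000740000007c0000007800000008 9 9) 0 0 (step_sound _ 164 [(rh6b2e8ab894a12c2a.shift 1 1), (rh73de17cad525770e.shift 1 1), (rh9fee24e32c05d9d4.shift 1 2), (rhc1731d5b51ca92ae.shift 1 1), (rhdafefc8fc1469402.shift 1 0), (rhf56f1d86758257f3.shift 0 1)] (by decide +kernel))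
noncomputable def rh8522e212dcad8d8b : CRef := CRef.mk (Pat.mk 0x2c0000000000000000000000000000000000000000 0xa0000000e0000000e000000770000003e0000000f0000000e0000000e0000000e00000008 9 7) 0 0 (step_sound _ 164 [(rh00f1bb10334541e3.shift 0 5), (rh2c1baeadcd4b32f5.shift 0 4), (rh2cc7d62e70c02209.shift 0 4), (rh3f54b50bbf13c3fd.shift 1 0)] (by decide +kernel))
noncomputable def rhf987ea4ae3ba0c2c : CRef := CRef.mk (Pat.mk 0x580000000000000000000000000000000000000000 0x100000001c0000003c0000007f000000ff0000007b0000003f0000007e0000003c0000001c00000010 9 8) 0 0 (step_sound _ 195 [(rh0729085bcd876d1f.shift 2 1), (rh64b9d09abf174972.shift 2 1), (rh806709cd17c32070.shift 2 2), (rh9fee24e32c05d9d4.shift 0 3), (rhaafbf918d494a09d.shift 0 2), (rhc1731d5b51ca92ae.shift 0 2), (rhcaa3ce58339a1c4f.shift 0 1), (rhf6b287e1b5fd5d23.shift 2 0)] (by decide +kernel))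
noncomputable def rhd68ec41cb650e3cf : CRef := CRef.mk (Pat.mk 0x160000000000000000000000000 0x140000001c0000003c000003ff000001fe000000df0000005800000058 9 10) 0 0 (step_sound _ 100 [rh1cd8f644cd6b8d77, (rh5ee5f38b5301a128.shift 2 0), (rh8bf0b92c16974768.shift 1 2), (rhaf31ce36e5389fc7.shift 1 2), (rhd7b8cc4eecb9e3ae.shift 3 3), (rhf375edc52532fe2c.shift 1 0)] (by decide +kernel))
noncomputable def rh4741497c3fc0e5f9 : CRef := CRef.mk (Pat.mk 0xb0000000000000000000000000 0xa0000000e0000000e000001ef000000fe0000007f0000000c0000000c 9 9) 0 0 (step_sound _ 99 [rh15a144f8077b3b15, (rh38230e69feba7cfe.shift 0 2), (rh39ad6055f66b9ead.shift 2 2), (rh8bf0b92c16974768.shift 0 2), rha4d0430f397afbf2, (rhb336eb95515c974f.shift 1 2)] (by decide +kernel))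
noncomputable def rh95136593ed15cd12 : CRef := CRef.mk (Pat.mk 0xb000000000000000000000000000000000 0x38000000fc000001fe000001fe000003ff000000be0000007f000000fe000000fc00000038 9 10) 0 0 (step_sound _ 164 [rh0dfd3c9f9de2c92d, (rh16312b1d1645ba8e.shift 1 1), (rh188a87735955f112.shift 1 0), (rh1adcbc7ae4bb2ba8.shift 2 1), (rh5cfaf251062717a3.shift 1 1), (rha9e4b856e5c01a50.shift 1 1), (rha9e921353206d1aa.shift 1 1), (rhaafbf918d494a09d.shift 1 1), (rhbca4be5d9cd5863d.shift 0 1), (rhcdb7381eef773478.shift 1 1), (rhe78e2b262b3d94e3.shift 1 0)] (by decide +kernel))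
noncomputable def rh3d113a44b7999659 : CRef := CRef.mk (Pat.mk 0x2c00000000000000000000000000000000 0x38000000380000007c0000003e0000007f0000001e0000001c0000000c 9 7) 0 0 (step_sound _ 132 [(rh7654d7b92c96fe12.shift 0 3), (rh8195a2d7794c7cd2.shift 0 3), (rhba498bbda112d0e0.shift 1 0), (rhf459621b93742302.shift 1 1)] (by decide +kernel))
noncomputable def rh28c61dd76cf5ee6d : CRef := CRef.mk (Pat.mk 0x580000000000000000000000000000000000000000 0x40000001c000000fc000000fe000000ff00000078000000ff0000003c0000003c0000001c00000014 9 8) 0 0 (step_sound _ 195 [(rh0bf7397451d5ea0e.shift 2 2), (rh0f99185f2a41923a.shift 2 0), (rh85c95a9fd62466b2.shift 2 3), (rhaafbf918d494a09d.shift 0 2), (rhd00276a9c3d83249.shift 0 1)] (by decide +kernel))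
noncomputable def rhcb60fd94b945f23a : CRef := CRef.mk (Pat.mk 0x2c000000000000000000000000 0x70000000780000007f0000003e000000700000001000000010 9 7) 0 0 (step_sound _ 100 [(rh2ba551de881ca4cd.shift 0 2), (rh61325f73ebf98108.shift 0 3), (rh7786380084e24498.shift 1 1), (rhf459621b93742302.shift 1 0)] (by decide +kernel))
noncomputable def rh11abbc3960bf9ee6 : CRef := CRef.mk (Pat.mk 0xb000000000000000000000000000000000 0x80000000c000001cf000000fe000001ff0000000e0000000e0000000a 9 9) 0 0 (step_sound _ 131 [(rh3194727a60434116.shift 2 3), (rh39ad6055f66b9ead.shift 2 3), rh3af97ae9a1b73f0f, (rh3f83af65ae644162.shift 3 3)] (by decide +kernel))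
noncomputable def rh25a55ee2e1c83c77 : CRef := CRef.mk (Pat.mk 0xb000000000000000000000000000000000 0x38000000fc000003fe000001fe000003fe000000be000001ff0000007e0000007c00000038 9 10) 0 0 (step_sound _ 164 [(rh0aed6362b19df932.shift 1 0), (rh14c78ad192d200d4.shift 1 1), (rh20704de0b924940e.shift 1 1), (rh2d100bdaddcfe56a.shift 1 0), (rh46969be4c1193782.shift 2 1), (rh9c0d066b5a4960d3.shift 1 1), (rh9d529f931cdd0b7a.shift 1 1), (rhaafbf918d494a09d.shift 1 1), (rhcd44122fb01a5032.shift 1 0), (rhd44f344580d48a63.shift 2 1), (rhe9450d72c6cb3337.shift 1 1), (rhf0aedc17e319d692.shift 1 1), rhf92efb797fd84fd7] (by decide +kernel))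
noncomputable def rhb47a8a2b8f4ba4f3 : CRef := CRef.mk (Pat.mk 0xa00000000000000000000000000000000000000000 0x40000001f0000001f8000007fc00000ffe00000ffe00000eff000007fc00000ffc000001780000007800000078 9 12) 0 0 (step_sound _ 199 [(rh001f26a8c3c019cf.shift 1 1), (rh178debfed6b0e0c0.shift 3 2), (rh222810b20d491de6.shift 2 1), (rh26426791c93343bc.shift 2 0), (rh3d748cdd6d2ae761.shift 2 1), (rh444af100240a2940.shift 2 2), rh4d4d423c21325403, (rhcd72d994b90d26f3.shift 2 2), (rhd1ecf8febc2edf21.shift 4 2), (rhe9fab39a9db25901.shift 2 0)] (by decide +kernel))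
noncomputable def rhe75de8ae4fe0415d : CRef := CRef.mk (Pat.mk 0xa00000000000000000000000000000000000000000 0x40000001f0000001f8000007f800000ffe00000ffe00000eff000007fc000003fc000001f80000017800000068 9 12) 0 0 (step_sound _ 199 [rh060308794567e175, (rh5467fd3a1df04c06.shift 3 2), (rh5de6ebd4d6f0e719.shift 2 1), (rh64c3618d3921622f.shift 2 0), (rh920b1bf4312e2355.shift 2 0), (rh9c5d06712aca829e.shift 2 0), (rha5c80eae429bf9ca.shift 4 1), (rhbf32b2fd5f15dabb.shift 2 0), (rhcac3ecce95fdc5c1.shift 1 1), (rhf2f0f9b3533de8b2.shift 2 0)] (by decide +kernel))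
noncomputable def rha3cbcd3c91b9bdc7 : CRef := CRef.mk (Pat.mk 0xa0000000000000000000000000000000000000000000000000 0x58000001f8000001f8000003fc000007fc00000eff00000ffe00000ffe00000ff8000001f80000017000000040 9 12) 0 0 (step_sound _ 167 [rh07143cf590880394, (rh2f9f241e2eb4a7a6.shift 3 2), (rh3579050c30e7d845.shift 2 1), (rh4deda1a32aaf23f6.shift 4 1), (rh5d2dc7394b84c1cd.shift 1 0), (rh830f72cb6e2b7c11.shift 2 2), (rha8072279884bb30a.shift 2 1), (rhb0a3b6aaa703cafc.shift 2 1), (rhca88f12153a2670e.shift 2 3), (rhd7911e3005f7f375.shift 2 1)] (by decide +kernel))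
noncomputable def rh53f4b000ee9d195a : CRef := CRef.mk (Pat.mk 0xa0000000000000000000000000000000000000000000000000 0x18000001f8000001f8000003f8000007fc00000eff000007fe00000ffe00000ff8000001f8000001f000000040 9 12) 0 0 (step_sound _ 167 [(rh17fa998e4328ea68.shift 2 1), (rh2028f4b509227053.shift 2 2), (rh2bbb7014b634da8c.shift 2 1), (rha14d7918d94a12a9.shift 3 1), rha76a85dade40c96c, (rha8072279884bb30a.shift 2 1), (rhb0a3b6aaa703cafc.shift 2 1), (rhb4ff42fbee9f541c.shift 3 1), (rhca88f12153a2670e.shift 2 3), (rhd11a8886dd19dbd3.shift 1 0)] (by decide +kernel))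
noncomputable def rhb8b1fa15278f7571 : CRef := CRef.mk (Pat.mk 0xa0000000000000000000000000000000000000000000000000 0x8000001b8000001f8000003f8000007fc00000eff000007fe00000ffe00000ffe000001f8000001f000000040 9 12) 0 0 (step_sound _ 167 [(rh2028f4b509227053.shift 2 2), (rh2801d6b4553d65d0.shift 2 1), (rh312984e7563e4edf.shift 2 0), (rh7cf5dd353b1b00de.shift 1 1), (rh8d7029784a4e69d4.shift 2 1), (rha8072279884bb30a.shift 2 1), (rhb4ff42fbee9f541c.shift 3 1), (rhca88f12153a2670e.shift 2 3), rhd8d6a3868002609f, (rheee96fe57e149f51.shift 3 1)] (by decide +kernel))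
noncomputable def rhaacb244f65a6f66e : CRef := CRef.mk (Pat.mk 0x160000000000000000000000000000000000000000 0x240000003e0000003f0000001e0000003f0000003f0000003f0000002f00000005 9 6) 0 0 (step_sound _ 163 [(rh64eb35b959cf32a5.shift 0 1), (rh77f80e7b870274ce.shift 0 1), rhc771cebdf788c766] (by decide +kernel))
noncomputable def rh9fc560d046af378a : CRef := CRef.mk (Pat.mk 0x2c00000000000000000000000000000000 0x30000000700000003e0000007f000000780000007000000050 9 7) 0 0 (step_sound _ 132 [(rh64eb35b959cf32a5.shift 1 0), (rh7654d7b92c96fe12.shift 0 3), (rh8195a2d7794c7cd2.shift 0 3), (rhf459621b93742302.shift 1 1)] (by decide +kernel))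
noncomputable def rhb4bc0acb8a7814d5 : CRef := CRef.mk (Pat.mk 0x2c00000000000000000000000000000000 0x40000000700000007f0000003e00000070000000700000007000000050 9 7) 0 0 (step_sound _ 132 [(rh2ba551de881ca4cd.shift 0 3), (rh61325f73ebf98108.shift 0 4), (rh77f80e7b870274ce.shift 1 0), (rhf459621b93742302.shift 1 1)] (by decide +kernel))
noncomputable def rh84dab2c55e4a2c35 : CRef := CRef.mk (Pat.mk 0xb00000000000000000000000000000000000000000 0x10000000380000003c000001fe000001ff000000be000003fe000003fe000003fe0000007c00000068 9 10) 0 0 (step_sound _ 132 [(rh0e26c913af5a411e.shift 1 2), rh30fc9921ce5b6c23, (rh3464ecff4a0b25ef.shift 1 2), (rh49b57ddc3f095216.shift 1 2), (rh64d7af9b6be58e2a.shift 1 1), (rh72b45db31775347b.shift 1 2), (rh7b4337875938f615.shift 1 0), (rh9aeff74a1c2d5c66.shift 1 1), (rha29f458662cad2e8.shift 1 0), (rha8f83b340848fea0.shift 1 0), (rhb25e9c2604d62113.shift 1 0), (rhcdbaa1f624fb0f1f.shift 1 0), (rhd98bb42caf7edeac.shift 1 0)] (by decide +kernel))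
noncomputable def rh5735df3eae513f03 : CRef := CRef.mk (Pat.mk 0x160000000000000000000000000000000000000000 0x8000000380000003c000000360000003f0000001e0000003f0000003f0000003f0000001700000005 9 6) 0 0 (step_sound _ 163 [(rha6097c7f177d2098.shift 0 1), rhc771cebdf788c766, (rhf7acf1b6caf8cf04.shift 0 2)] (by decide +kernel))
noncomputable def rh6c5b8b49bbac4b4e : CRef := CRef.mk (Pat.mk 0x2c00000000000000000000000000000000 0x2000000020000000700000003e0000007f000000700000007000000020 9 7) 0 0 (step_sound _ 132 [(rh7654d7b92c96fe12.shift 0 3), (rh8195a2d7794c7cd2.shift 0 3), (rha6097c7f177d2098.shift 1 0), (rhf459621b93742302.shift 1 1)] (by decide +kernel))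
noncomputable def rhebcd721a8265673b : CRef := CRef.mk (Pat.mk 0x2c000000000000000000000000 0x100000007000000070000000600000007f0000003e000000700000003000000030 9 7) 0 0 (step_sound _ 100 [(rh2ba551de881ca4cd.shift 0 2), (rh61325f73ebf98108.shift 0 3), (rhf459621b93742302.shift 1 0), (rhf7acf1b6caf8cf04.shift 1 0)] (by decide +kernel))
noncomputable def rhff844dd7a2152b41 : CRef := CRef.mk (Pat.mk 0x1600000000000000000000000000000000000000000 0x80000000e0000000f80000007c000001fe0000017c000003ff000003fe000003ff000000fc000000fc 9 10) 0 0 (step_sound _ 164 [(rh6196100f5fa54eb7.shift 1 0), (rh6bcccd416ed8ea8e.shift 1 2), rh920dbecabbaf3ef0, (rhd36d5537292d4aa7.shift 1 2), (rhd4be413a411cad18.shift 1 0)] (by decide +kernel))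
noncomputable def rhf8fec13910acc9d8 : CRef := CRef.mk (Pat.mk 0x160000000000000000000000000000000000000000 0x1000000170000003f0000003f0000003f0000001e0000003f000000360000003e0000003800000008 9 6) 0 0 (step_sound _ 163 [rh01b512450216e75b, (rh48ea642629d3c921.shift 0 2), (rh805b7d85b33a7d22.shift 0 2)] (by decide +kernel))
noncomputable def rh4a60f8bd08414e92 : CRef := CRef.mk (Pat.mk 0x2c000000000000000000000000 0x2000000070000000700000007f0000003e000000700000002000000020 9 7) 0 0 (step_sound _ 100 [(rh2ba551de881ca4cd.shift 0 2), (rh3e1b7b343686dca1.shift 1 2), (rh48ea642629d3c921.shift 1 0), (rh61325f73ebf98108.shift 0 3)] (by decide +kernel))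
noncomputable def rh216516abf0d85ee7 : CRef := CRef.mk (Pat.mk 0x2c0000000000000000000000000000000000000000 0x3000000030000000700000003e0000007f00000060000000700000007000000010 9 7) 0 0 (step_sound _ 164 [(rh3e1b7b343686dca1.shift 1 4), (rh7654d7b92c96fe12.shift 0 4), (rh8195a2d7794c7cd2.shift 0 4), (rhb48176701a15526e.shift 1 0)] (by decide +kernel))
noncomputable def rh9615c8459ed75572 : CRef := CRef.mk (Pat.mk 0x1600000000000000000000000000000000000000000 0xfc000000fc000003ff000001fe000003ff0000017c000001fe0000007c000000f8000000f0000000b0 9 10) 0 0 (step_sound _ 164 [(rh0d566b0b77d99e55.shift 1 2), (rh45e491d361a701a1.shift 1 2), rh466a7bdce49160ef, (rh4ead97843dbd083f.shift 1 2), (rh9f5baa311565437e.shift 1 0)] (by decide +kernel))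
noncomputable def rhe9db69459e0ba4f5 : CRef := CRef.mk (Pat.mk 0x160000000000000000000000000000000000000000 0x280000003c0000003e0000003f0000001e0000003f0000003f000000370000001700000005 9 6) 0 0 (step_sound _ 163 [(rh2dd25b972eef097e.shift 0 1), (rhc39de04245f652fc.shift 0 3), rhc771cebdf788c766] (by decide +kernel))
noncomputable def rh3944420063265415 : CRef := CRef.mk (Pat.mk 0x2c00000000000000000000000000000000 0x500000007000000070000000700000003e0000007f000000700000006000000020 9 7) 0 0 (step_sound _ 132 [(rh2dd25b972eef097e.shift 1 0), (rh7654d7b92c96fe12.shift 0 3), (rh8195a2d7794c7cd2.shift 0 3), (rha4cf9251629f1722.shift 1 2)] (by decide +kernel))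
noncomputable def rh832bcbcc722cff18 : CRef := CRef.mk (Pat.mk 0x2c0000000000000000 0x70000000700000007f0000003e0000007000000030 9 7) 0 0 (step_sound _ 68 [(rh2ba551de881ca4cd.shift 0 1), (rh61325f73ebf98108.shift 0 2), (rha4cf9251629f1722.shift 1 0), (rhc39de04245f652fc.shift 1 0)] (by decide +kernel))
noncomputable def rh87adb0b08fc9be6d : CRef := CRef.mk (Pat.mk 0xb00000000000000000000000000000000000000000 0x380000007c000000fe000001fe000003fe000000be000001ff000001fe000003bc0000003800000010 9 10) 0 0 (step_sound _ 196 [(rh17ac6a27be26787e.shift 1 2), (rh180ec102881c913b.shift 1 2), (rh196daaa454ca28ea.shift 1 0), (rh1adcbc7ae4bb2ba8.shift 2 2), (rh211ae9974b67fb02.shift 1 0), (rh265d90f55a52fe9e.shift 1 1), (rh37109b5c4e021565.shift 1 2), (rh594ab2131e14322c.shift 1 2), (rh6264763b47fa2313.shift 0 2), (rh830d1784c2b1e9e4.shift 1 2), (rhaafbf918d494a09d.shift 1 2), (rhb20d93bb7b61ffcf.shift 1 1), (rhd44ecd828cce7981.shift 1 1)] (by decide +kernel))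
noncomputable def rh622cbfa9f84f4947 : CRef := CRef.mk (Pat.mk 0xa00000000000000000000000000000000000000000 0x40000001f0000001f8000007fe00000ffe000007fe00000eff000007fc000003fc000001f8000001b800000028 9 12) 0 0 (step_sound _ 199 [(rh5467fd3a1df04c06.shift 3 2), (rh5de6ebd4d6f0e719.shift 2 1), (rh5eb4e5400dfc69a5.shift 1 1), (rh64c3618d3921622f.shift 2 0), (rh782bed750f50552b.shift 0 1), (rh99eee94e2a187053.shift 3 1), (rh9c5d06712aca829e.shift 2 0), (rha32831eeb434b217.shift 2 0), (rhbf32b2fd5f15dabb.shift 2 0), (rhdb45a5fbddba3a1d.shift 2 0)] (by decide +kernel))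
noncomputable def rh56de56d3ecf0e352 : CRef := CRef.mk (Pat.mk 0xa00000000000000000000000000000000000000000 0x40000001f0000001f8000007f800000ffe00000ffe00000eff000007fc000003f8000001f8000001f800000038 9 12) 0 0 (step_sound _ 199 [(rh05fb1482e3039245.shift 2 0), (rh0af3191fa0aee58e.shift 2 0), (rh2e5d0d5cf17ca182.shift 2 0), (rh3036dcb736b58116.shift 1 1), rh44e227bcd93deb0a, (rh5467fd3a1df04c06.shift 3 2), (rh5de6ebd4d6f0e719.shift 2 1), (rha5d293c6b281decf.shift 4 1), (rhce55ce02af2e7af1.shift 2 0), (rhe2455003c5268390.shift 2 0)] (by decide +kernel))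
noncomputable def rh7d260369e8ca66a9 : CRef := CRef.mk (Pat.mk 0x500000000000000000000000000000000000000000 0x2c000000fc000000fc000001fe000003fe0000077f000007ff000007fe000007fc000000fc000000b8 9 11) 0 0 (step_sound _ 134 [(rh4deda1a32aaf23f6.shift 3 0), (rh4e2eab4568b9d577.shift 1 0), rh5246a30d9370c9ca, (rh6c88353a7944dd14.shift 2 0), (rh830f72cb6e2b7c11.shift 1 1), (rh87b390558e035054.shift 1 0), (rha8072279884bb30a.shift 1 0), (rhb0a3b6aaa703cafc.shift 1 0), (rhca88f12153a2670e.shift 1 2), (rhd721fa001247feec.shift 1 0)] (by decide +kernel))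
noncomputable def rhdc3f6da6fc973e7f : CRef := CRef.mk (Pat.mk 0xa0000000000000000000000000000000000000000000000000 0x1d0000001f0000003f8000007fc00000eff000007fe00000ffe00000ff8000001f8000001f800000040 9 12) 0 0 (step_sound _ 167 [(rh0d6b12483ca693fa.shift 2 1), (rh2028f4b509227053.shift 2 2), (rh4ea7b08086b5c0e1.shift 2 1), (rh5ffd125d360878fb.shift 4 1), (rh80f0c5c50e8d5f6e.shift 3 1), rh892c60f63ec9fff4, (rh90049ff9cde2803f.shift 1 0), (rh9336291fd1ba9155.shift 2 1), (rhbf740c61d3f1af12.shift 2 1), (rhe59db682f1f968f8.shift 2 1)] (by decide +kernel))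
noncomputable def rha5646e628dc1f128 : CRef := CRef.mk (Pat.mk 0xa0000000000000000000000000000000000000000000000000 0x40000001c0000001d0000007f8000007fc00000eff000007fe00000ffe00000ff8000001f8000001f000000140 9 12) 0 0 (step_sound _ 167 [(rh0bf0028c475db332.shift 2 2), (rh2028f4b509227053.shift 2 2), (rh22ec1d3e2ee4e71c.shift 2 1), (rh2b4d592fb4571a68.shift 2 1), (rh40cf94cfe6938c7e.shift 2 0), rh459cf7f9fddd359e, (rh83e7bef257d4699f.shift 2 3), (rh99d7c846aa83a939.shift 1 1), (rha13442418db6e2bc.shift 3 1), (rha60869fd754661f0.shift 2 1), (rhc5900089fa5de4c5.shift 4 1), (rhff741d363d2957d2.shift 2 1)] (by decide +kernel))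
noncomputable def rhfb3445b80efc0f44 : CRef := CRef.mk (Pat.mk 0x280000000800000000000000000000000000000000 0x34000000340000007f0000003f0000007f0000007f0000001f0000001c00000014 9 7) 0 0 (step_sound _ 162 [(rh4aa40160b2df696f.shift 0 2), rh60ce05e571cda9fb, (rh696d4a839c70968b.shift 1 1), (rh92e9255e4f35144f.shift 0 1), (rh9bc04572187f3d26.shift 0 2), (rhec0ccef5ca3b2f96.shift 0 4)] (by decide +kernel))
noncomputable def rh393a0dcfbadbf0c4 : CRef := CRef.mk (Pat.mk 0xa00000002000000000000000000000000000000000 0x1c000000de000001fe000000fe000001ff0000007e000000fc0000001800000010 9 9) 0 0 (step_sound _ 164 [(rh4aa40160b2df696f.shift 2 2), (rh696d4a839c70968b.shift 3 1), (rh92e9255e4f35144f.shift 2 1), rhac77d30938c0ae2d, (rhec0ccef5ca3b2f96.shift 2 4), (rhf239a6ae637ceebf.shift 2 2)] (by decide +kernel))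
noncomputable def rhe4f5b2647025cbf4 : CRef := CRef.mk (Pat.mk 0x50000000100000000000000000000000000000000000000000 0x2f0000003e0000007f000001fc000000ff000001fe0000003f0000003800000028 9 9) 0 0 (step_sound _ 132 [(rh4357bc4c604fe815.shift 3 1), (rh703e52e343cfe7aa.shift 2 0), (rh9db91f3cd8f2fc13.shift 0 1), (rhbb395e5519ebd7e8.shift 0 3), (rhdddd600131b6e356.shift 3 1), (rhf95a3f7724385ac4.shift 2 0)] (by decide +kernel))
noncomputable def rh8f83ef798c5866fe : CRef := CRef.mk (Pat.mk 0x280000000800000000000000000000000000000000 0x34000000340000007f0000003e000000ff000000f8000000f80000003000000010 9 8) 0 0 (step_sound _ 164 [(rh272e8f3b1172ba75.shift 0 2), (rh459a6b84e414d24b.shift 0 2), (rh4c34a26b98f01443.shift 0 2), (rh683f71ba10e07e25.shift 0 2), (rh8f06a1b86fe42394.shift 0 1), rhcc451419551223b1] (by decide +kernel))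
noncomputable def rh7bf13effa9574b85 : CRef := CRef.mk (Pat.mk 0x1400000004000000000000000000000000000000000 0x18000001b8000001bc000003fc000001ff000003fe0000037c000003780000002000000020 9 10) 0 0 (step_sound _ 165 [rh3fabeaa97f96fb20, (rh4aa40160b2df696f.shift 3 2), (rh964a0bf51fae5b7c.shift 4 1), (rh9bc04572187f3d26.shift 3 2), (rhec0ccef5ca3b2f96.shift 3 4), (rhf4728c43996b4eaf.shift 3 2)] (by decide +kernel))
noncomputable def rhb382c995b53360dc : CRef := CRef.mk (Pat.mk 0x50000000100000000000000000000000000000000000000000 0xa0000000ec000000ec000001ee0000077e000003fe000007ff000007fe000000fc000000f800000020 9 11) 0 0 (step_sound _ 165 [(rh05d6588fbcbbbad3.shift 1 2), (rh31118e68824aa60b.shift 1 2), (rh434d91c525d7b186.shift 1 2), (rh4cca85d976d18300.shift 1 1), (rh52ed54337dee9cc5.shift 1 0), (rh5fcae9ebd1ea12aa.shift 1 2), (rh6a0ba826d6e7da1f.shift 1 2), (rhbd30336e6bf49a57.shift 0 1), (rhe32aaa33ba032ab4.shift 1 3)] (by decide +kernel))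
noncomputable def rh8de00d51127e7869 : CRef := CRef.mk (Pat.mk 0x500000001000000000000000000000000000000000 0x6c0000006c000000fe0000007f000000ff000000fe000000dc0000000800000008 9 8) 0 0 (step_sound _ 163 [rh1918a75a6c101a55, (rh4aa40160b2df696f.shift 1 2), (rh964a0bf51fae5b7c.shift 2 1), (rh9bc04572187f3d26.shift 1 2), (rhec0ccef5ca3b2f96.shift 1 4), (rhf4728c43996b4eaf.shift 1 2)] (by decide +kernel))
noncomputable def rh80bbdbf343f0bcdc : CRef := CRef.mk (Pat.mk 0xa00000002000000000000000000000000000000000 0xc0000001c0000003ee000000fe000003ff000003fe000003fe000001f800000058 9 10) 0 0 (step_sound _ 166 [(rh1bdbb0686b51e16d.shift 3 1), (rh2d9b3d78d8b733d3.shift 1 0), (rh47903c212ebb7323.shift 1 0), (rh8f06a1b86fe42394.shift 2 1), (rhd4c93112531f89c0.shift 0 1), (rhe10ee85a55f1233f.shift 2 1), (rheb73068cb4f7e05d.shift 2 2), (rhf3de0f8577f51fc8.shift 0 1)] (by decide +kernel))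
noncomputable def rh78c1fab995dac6cb : CRef := CRef.mk (Pat.mk 0x1400000004000000000000000000000000000000000 0x10000000380000013e0000037c000001ff000003fe000003fc000001f8000000f0000000a0 9 10) 0 0 (step_sound _ 165 [(rh013a113442af0c85.shift 1 1), (rh348eaa13ea41279c.shift 0 1), (rh5020925a71e2718f.shift 2 2), (rh696d4a839c70968b.shift 4 1), (rh7714326fe4c18511.shift 4 2), (rh81694ec12e828124.shift 2 1), (rh903bf7084befb8ef.shift 2 0), (rhec0ccef5ca3b2f96.shift 3 4)] (by decide +kernel))
noncomputable def rhd785476248489e5d : CRef := CRef.mk (Pat.mk 0xa0000000200000000000000000000000000000000000000000 0x5e0000007c000000fe000001f7000001fe000003fe0000007e0000007000000050 9 10) 0 0 (step_sound _ 133 [(rh4357bc4c604fe815.shift 4 1), (rh703e52e343cfe7aa.shift 3 0), (rh9af760ad06f2da17.shift 0 3), (rh9db91f3cd8f2fc13.shift 1 1), (rhdddd600131b6e356.shift 4 1), (rhf95a3f7724385ac4.shift 3 0)] (by decide +kernel))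
noncomputable def rhdf63f6af86437606 : CRef := CRef.mk (Pat.mk 0x500000001000000000000000000000000000000000 0x68000000e8000001fe0000007e000001fe000003ff000000ec000000e8000000c0 9 10) 0 0 (step_sound _ 133 [(rh05d6588fbcbbbad3.shift 1 1), (rh38c729b349cf6728.shift 1 1), (rh585a7b5d08254be6.shift 1 1), (rh7355241b309a0cfb.shift 1 1), rh73cc3e94d31fe288, (rh8f2bcf21904858b9.shift 1 1), (rhadc4164ca9283403.shift 1 1), (rhedb78307e903d308.shift 3 1)] (by decide +kernel))
noncomputable def rh6f1e7724f5deba87 : CRef := CRef.mk (Pat.mk 0xa0000000200000000000000000000000000000000000000000 0x5e0000007c000000fe0000007f000001fe000000fe0000007e0000007000000050 9 9) 0 0 (step_sound _ 133 [(rh40cc7fb1c1675e47.shift 3 0), (rh4357bc4c604fe815.shift 4 1), (rh82168d22465a6670.shift 3 0), (rh9db91f3cd8f2fc13.shift 1 1), (rhd3aa14531690da02.shift 0 3), (rhdddd600131b6e356.shift 4 1)] (by decide +kernel))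
noncomputable def rh536eeef0b5b79b4f : CRef := CRef.mk (Pat.mk 0x50000000100000000000000000000000000000000000000000 0x2f0000007e0000007f000000f7000000ff000001ff0000003f0000003800000028 9 9) 0 0 (step_sound _ 132 [(rh0aca310f521f2383.shift 3 1), (rh1dd2291884dc9013.shift 0 1), (rh8f3de337f71da4b3.shift 2 0), (rhb20d3b5d1ec0bdc3.shift 2 1), (rhdddd600131b6e356.shift 3 1), (rhf85115f65cb09f04.shift 0 3)] (by decide +kernel))
noncomputable def rhae6030b37795a69a : CRef := CRef.mk (Pat.mk 0xa0000000200000000000000000000000000000000000000000 0x5e0000007c000000fe000003bf000001fe000003fe0000007e0000007000000050 9 10) 0 0 (step_sound _ 133 [(rh4357bc4c604fe815.shift 4 1), (rh561dacdc8712ccae.shift 3 0), (rh895960a8d60b102d.shift 4 1), (rh9db91f3cd8f2fc13.shift 1 1), (rheb5a2d728f5b890c.shift 3 0), (rhf138ccc3806f9ded.shift 0 3)] (by decide +kernel))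
noncomputable def rhc70b9b47707c11d5 : CRef := CRef.mk (Pat.mk 0xa0000000200000000000000000000000000000000000000000 0x40000001c0000001c0000003c4000003fe000000fe000001ff000007dc000001f8000001fc000001c0000001c0 9 11) 0 0 (step_sound _ 167 [(rh262cd6629bc3c4f2.shift 2 2), (rh601f0dda13dc27a4.shift 2 1), (rh7072b4710987917d.shift 0 3), (rh8d54ec1cfcc24b51.shift 2 2), (rhb8a2aa3d4947b1d4.shift 2 0), (rhbe7bd575912b4e94.shift 2 1), (rhc39d7d536fab1ee3.shift 2 0)] (by decide +kernel))
noncomputable def rh67edea370cbc79a1 : CRef := CRef.mk (Pat.mk 0x50000000100000000000000000000000000000000000000000 0x28000000780000005e000001ff000001fe000003ff000003f80000003800000038 9 10) 0 0 (step_sound _ 132 [(rh020140c103c93fec.shift 3 1), (rh0aca310f521f2383.shift 3 1), (rh2c033b5f8616777c.shift 1 3), rh359bf635abe15a8c, (rh4357bc4c604fe815.shift 3 1), (rh639cf83ef65ee98b.shift 1 1), (rhc05bf655c88730bb.shift 2 0), (rhca4d5fc3d95c8c8e.shift 3 1), (rhf93db1b14aa15dd2.shift 0 1)] (by decide +kernel))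
noncomputable def rh461a26787f6b6c31 : CRef := CRef.mk (Pat.mk 0x20000000a000000000000000000000000000000000 0x1000000010000000fc0000007e000001fe000000fe000001ff000000de0000009c00000004 9 9) 0 0 (step_sound _ 132 [(rh42b45e953326a8fe.shift 2 1), rh51b8332fb237602e, (rh7bc99153e8ec0ad7.shift 2 1), (rha58b9ae01800a257.shift 2 3), (rhad036160db3ebff4.shift 1 1), (rhb33d8488d8d828f5.shift 2 1), (rhb55ceab1c27dc614.shift 3 1), (rhe2d2d390575b322c.shift 1 1)] (by decide +kernel))
noncomputable def rh7179ea38192dd742 : CRef := CRef.mk (Pat.mk 0x1000000050000000000000000000000000 0x2800000038000001fe000000fe000001fc0000007f000000fe0000006f00000040 9 9) 0 0 (step_sound _ 164 [(rh3764879d5697f374.shift 2 0), (rh37c05aa62684ff00.shift 3 1), (rh8ab806722c24385b.shift 3 1), (rha11b24c61a9ef807.shift 3 1), (rhcb0c5f23fc42acee.shift 3 1), (rhdb1441f8b7f37133.shift 0 1)] (by decide +kernel))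
noncomputable def rhdd920ff78de83819 : CRef := CRef.mk (Pat.mk 0x800000028000000000000000000000000 0x10000000f8000000f8000000ff0000003f0000007f0000003400000034 9 8) 0 0 (step_sound _ 100 [rh59e12a6e0cb71d24, rh96c9605bfd1cf4ad, rhb0cd22231846ef9d, rhb7de6afa18ba6179, rhd708c00b074787bf, rhff20f507afa0fde7] (by decide +kernel))
noncomputable def rh9e68f67bbcf6ed4a : CRef := CRef.mk (Pat.mk 0x400000014000000000000000000000000000000000 0x2000000020000003780000037c000003fe000001ff000003fe000001be000000b800000018 9 10) 0 0 (step_sound _ 133 [rh1926745e5ba18039, (rh374a19256bd45f46.shift 3 1), (rh42b45e953326a8fe.shift 3 1), (rh4853547ea6465a8e.shift 4 1), (rh65827c3d61a0be59.shift 3 1), (rha58b9ae01800a257.shift 3 3), (rhb33d8488d8d828f5.shift 3 1)] (by decide +kernel))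
noncomputable def rh9357b3bcc17a7e83 : CRef := CRef.mk (Pat.mk 0x100000005000000000000000000000000000000000 0xf8000000fc000007fe000003fe000003fe0000077f000003ee000000ec000000ec000000a0 9 11) 0 0 (step_sound _ 165 [(rh0d6606c4e5474c89.shift 1 1), (rh135fec1212525b33.shift 1 1), (rh1884446023c3536e.shift 1 1), (rh22e20fe361bd5e9b.shift 0 1), (rh6685acfdb8686043.shift 1 1), (rh81abfd1299e141a9.shift 2 1), (rh9b98e7d5f8eb1e3e.shift 1 1), (rhbdb6a3d53f6c1fa1.shift 1 0), (rhca589f3d96e4d365.shift 1 1), (rhfffd28bc49c40a43.shift 1 1)] (by decide +kernel))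
noncomputable def rhd5abf8214bc31b4b : CRef := CRef.mk (Pat.mk 0x20000000a0000000000000000000000000 0x100000001000000038000001fc000001ff000000fe000001fe000000d8000000d8 9 9) 0 0 (step_sound _ 100 [(rh3a6b004bc3d20880.shift 1 0), (rh42b45e953326a8fe.shift 2 0), rh643e106a54a1d7d3, (rha58b9ae01800a257.shift 2 2), (rhb33d8488d8d828f5.shift 2 0), (rhb55ceab1c27dc614.shift 3 0), (rhc2b702e6222ee91d.shift 2 0), (rhfcc67872bb516e6e.shift 1 0)] (by decide +kernel))
noncomputable def rh1079a9578c71260d : CRef := CRef.mk (Pat.mk 0x20000000a000000000000000000000000000000000 0x58000001f8000003fc000003fe000003ff000000fe000003ee000007c0000001c000000080 9 11) 0 0 (step_sound _ 134 [(rh15f6ff81633c8a6a.shift 2 1), (rh3777366ede71c423.shift 0 1), (rh46db43e5c8e2c573.shift 3 1), (rh4fdf47ed0596de2d.shift 3 0), (rh895210397b4a6c31.shift 2 1), (rhb24a70eb9bcb1bed.shift 0 1), (rhd708c00b074787bf.shift 2 1), (rhf176bfecd5166f67.shift 1 1)] (by decide +kernel))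
noncomputable def rh7996fbce9040e219 : CRef := CRef.mk (Pat.mk 0x400000014000000000000000000000000000000000 0x4000000060000000e0000001f8000001f8000003fe000001ff0000037c0000013e0000013800000018 9 10) 0 0 (step_sound _ 133 [(rh08c78ec8899e8d23.shift 3 1), (rh18181647066d557d.shift 4 1), (rh3a6b004bc3d20880.shift 2 1), (rh643e106a54a1d7d3.shift 1 1), (rh9fa5c755ecf8ee6a.shift 3 1), rhaeff40cd27228177, (rhaff4b69f7e86b09b.shift 2 1), (rhb55ceab1c27dc614.shift 4 1)] (by decide +kernel))
noncomputable def rhcd99b7dc481cbb0a : CRef := CRef.mk (Pat.mk 0x20000000a0000000000000000000000000 0x5000000070000003fe000001fe000001f7000000fe000001fc000000de00000080 9 10) 0 0 (step_sound _ 165 [(rh3764879d5697f374.shift 3 0), (rh37c05aa62684ff00.shift 4 1), (rh8ab806722c24385b.shift 4 1), (rha11b24c61a9ef807.shift 4 1), (rhb650a6f642b586f0.shift 0 1), (rhcb0c5f23fc42acee.shift 4 1)] (by decide +kernel))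
noncomputable def rhf8acea46f4e942b2 : CRef := CRef.mk (Pat.mk 0x1000000050000000000000000000000000 0xc0000000e8000001ec000003fe000001fe0000007f000001fe000000e8000000e8 9 10) 0 0 (step_sound _ 133 [(rh313eeb5840a35090.shift 1 0), (rh463a11da444c90f2.shift 1 0), (rh674671c745f6d752.shift 1 0), (rh79db181e8115e6bf.shift 0 1), (rh85826a67a0a859a1.shift 1 1), (rh9e233564a3b1dcb3.shift 1 1), (rha4bed2385005dec8.shift 1 0), (rhbdd187dd77a59a20.shift 1 0), (rhdaf886912737e7d8.shift 2 0)] (by decide +kernel))
noncomputable def rh40c3c99f368a4aee : CRef := CRef.mk (Pat.mk 0x20000000a00000000000000000 0x50000000700000007e000001fe0000007f000000fe0000007e0000005e 9 9) 0 0 (step_sound _ 133 [(rh37c05aa62684ff00.shift 4 0), (rh61d35e9480549919.shift 1 1), (rh8ab806722c24385b.shift 4 0), (rha11b24c61a9ef807.shift 4 0), (rhcb0c5f23fc42acee.shift 4 0), rhe454a39aced27b6e] (by decide +kernel))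
noncomputable def rhb6ebf5457d98024c : CRef := CRef.mk (Pat.mk 0x1000000050000000000000000000000000 0x2800000038000001ff000000fe000000f70000007f000000fe0000006f00000040 9 9) 0 0 (step_sound _ 164 [(rh524c723f46db4dcf.shift 3 1), (rh6e7ab7c998b1d3da.shift 0 1), (rh86549c9e58bbc66b.shift 3 1), (rh8ab806722c24385b.shift 3 1), (rhb6280ae161a906a5.shift 2 0), (rhcb0c5f23fc42acee.shift 3 1)] (by decide +kernel))
noncomputable def rh4350ec6d92b23e8b : CRef := CRef.mk (Pat.mk 0x20000000a00000000000000000 0x500000007e000003fe000001fe000003bf000000fe0000007c0000005e 9 10) 0 0 (step_sound _ 133 [(rh37c05aa62684ff00.shift 4 0), (rh3bc53ae617ae8e9a.shift 1 1), rh5a97f1384f32b307, (rh8ab806722c24385b.shift 4 0), (rha11b24c61a9ef807.shift 4 0), (rhcb0c5f23fc42acee.shift 4 0)] (by decide +kernel))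
noncomputable def rh83e6195625031324 : CRef := CRef.mk (Pat.mk 0x20000000a00000000000000000000000000000000000000000 0x100000001c0000001c0000001fc000001f8000007dc000001fe000000fe000007ff000007c8000001c8000001c000000040 9 11) 0 0 (step_sound _ 199 [(rh00acdd8cc35c3301.shift 2 2), (rh35993f7f768eb7e8.shift 2 2), (rh6e1ad4be6c61bc56.shift 2 2), (rh8dbab1f2415fd1a6.shift 2 4), (rh9273edae038bea41.shift 0 2), (rha6ce179bc9834ce3.shift 2 0), (rhbca98d8efc8fda3f.shift 2 2), (rhd5ee74e0938d3fde.shift 2 1)] (by decide +kernel))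
noncomputable def rh79f18a0750ee1849 : CRef := CRef.mk (Pat.mk 0x10000000500000000000000000 0x3800000038000001f8000003ff000003fe000003ff0000005c000000f800000028 9 10) 0 0 (step_sound _ 132 [(rh0e789c9a4ea9b773.shift 1 1), (rh415a5e16501e523c.shift 1 0), (rh5bc9df88a00c877f.shift 2 0), (rh83fec12306a3cd0d.shift 1 0), (rh869c7116e9676e23.shift 3 0), (rha2ca8b2703f3fee4.shift 1 0), rha93bb3e4f7e745e5, (rhcaf0e07865c76d36.shift 1 0), (rhcb0c5f23fc42acee.shift 3 0), (rheb119bc10e1730b0.shift 1 1)] (by decide +kernel))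
noncomputable def rh3847377f3f41f3ae : CRef := CRef.mk (Pat.mk 0xa00000000000000000000000000000000000000000 0x140000001f0000001f0000007f800000ffe000007fe00000eff000007fc00000ff8000001d8000001c800000140 9 12) 0 0 (step_sound _ 199 [(rh013d70702af63b90.shift 2 1), (rh1f2ac81e05830491.shift 0 1), (rh217e8f93923112a2.shift 1 1), (rh28758355864339a4.shift 2 2), (rh3c59114d6ef2ee04.shift 2 2), (rh4e5a74ce893d44b8.shift 2 0), (rh4ea2a79128071069.shift 2 1), (rh57dc41c47975b2af.shift 2 2), (rh8a9ba389de770049.shift 2 1), (rh9d3e7972655f3f99.shift 5 0), (rhd67c7f71d6f50ace.shift 4 1)] (by decide +kernel))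
noncomputable def rh1dc562cb4d2e53fa : CRef := CRef.mk (Pat.mk 0xa00000000000000000000000000000000000000000 0x40000001f8000001f8000007f800000ffe000007fe00000eff000007fc000003fc000001f8000001d800000140 9 12) 0 0 (step_sound _ 199 [(rh28ae2c0a5a0dc196.shift 2 2), (rh37519ad7a5a59e11.shift 4 1), (rh67ec137b730fb9cd.shift 4 0), (rh84382fc9d2e74353.shift 2 2), (rh8f0d2b56fd7dfc69.shift 2 1), (rhb5d61790350cf6d7.shift 2 1), (rhc9113aa02b28b826.shift 2 1), (rhdd100473967209c7.shift 2 2), (rhf3a497ea83efede7.shift 0 1), (rhfd0d448bf2ee456b.shift 1 1)] (by decide +kernel))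
noncomputable def rh519f3d9ca15bd42a : CRef := CRef.mk (Pat.mk 0x50000000000000000000000000000000000000000000000000 0x2c000000fc000000fc000001fe000003fe0000077f000007ff000007fe000007fc000000fc000000e800000020 9 11) 0 0 (step_sound _ 166 [(rh2028f4b509227053.shift 1 2), (rh223fdc3eba2b694e.shift 2 1), (rh5ffd125d360878fb.shift 3 1), (rh64a8fb7c0599370c.shift 1 1), (rh832769e7c8611802.shift 1 1), (rhb1f8b440ab017715.shift 1 1), (rhc4fc8f46e1ffd487.shift 1 0), (rhdb72fea6ad674108.shift 1 1), (rhe7fe58312f691a9f.shift 0 1), (rhfe38a74ccdd3a588.shift 1 3)] (by decide +kernel))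
noncomputable def rh25b1a1d3b1a93501 : CRef := CRef.mk (Pat.mk 0xa0000000000000000000000000000000000000000000000000 0x8000001f8000001f8000003f8000007fc00000eff000007fe00000ffe00000ff8000001f8000001f000000040 9 12) 0 0 (step_sound _ 167 [(rh17fa998e4328ea68.shift 2 1), (rh2028f4b509227053.shift 2 2), (rh3db2c3225b57cc82.shift 2 1), (rh3e00082d05f7a230.shift 1 0), (rh5ffd125d360878fb.shift 4 1), (rh80f0c5c50e8d5f6e.shift 3 1), rh921bbaa55c5abef5, (rha8072279884bb30a.shift 2 1), (rhb0a3b6aaa703cafc.shift 2 1), (rhca88f12153a2670e.shift 2 3)] (by decide +kernel))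
noncomputable def rh6434586b73f267ee : CRef := CRef.mk (Pat.mk 0xa0000000000000000000000000000000000000000000000000 0x20000001e8000001f8000007f8000007fc00000eff000007fe00000ffe00000ff8000001f8000001f000000040 9 12) 0 0 (step_sound _ 167 [rh1b021e9b5b22b772, (rh2028f4b509227053.shift 2 2), (rh2abc8d390fe0e363.shift 2 1), (rh4242a31ea51b5c71.shift 2 1), (rh7c269e44c2d8f769.shift 2 1), (rha13442418db6e2bc.shift 3 1), (rhb57c10d2ebc33500.shift 2 3), (rhc5900089fa5de4c5.shift 4 1), (rhd4e093ea6d0bab11.shift 1 1), (rhdf7a7420422954a5.shift 2 1), (rhe04854daa468923d.shift 2 1)] (by decide +kernel))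
noncomputable def rh6920fe112058ae54 : CRef := CRef.mk (Pat.mk 0xa0000000000000000000000000000000000000000000000000 0x1c0000001c0000001c000000fe800000ffe00000ffe00000efe000007ff000007fe000007ff000003f8000001f800000050 9 12) 0 0 (step_sound _ 165 [(rh2aba276854e97333.shift 0 1), (rh3f6855da6b19a3c4.shift 1 1), (rh4c20cad5b5d1d0c8.shift 2 1), (rh5977004d00f9b1e7.shift 0 1), (rh68b8fd9f6b74ac79.shift 2 2), (rh702e7abaebe8f673.shift 1 0), rh8623798ac0d3ea1e, (rh86a6fee1321136a9.shift 2 1), (rh923b9bff94f7ec96.shift 1 0), (rhd3ef080046ad1551.shift 1 2), (rhdcec1a314f8f686f.shift 2 1), (rhe957ffd5b881e703.shift 1 0), (rhea63435bbd03ba8b.shift 0 1)] (by decide +kernel))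
noncomputable def rhb459c773c48890eb : CRef := CRef.mk (Pat.mk 0xa00000002000000000000000000000000000000000 0xc0000001c000000fe0000003e0000007fe000000fe000001ff000001fe0000017e0000017800000050 9 12) 0 0 (step_sound _ 166 [(rh0b81369499e77fa5.shift 2 1), (rh2ba83eebef47d818.shift 1 0), (rh4128d03a4b1f2fa7.shift 2 1), (rh50e972924f5492ef.shift 2 2), (rh523c2e8d22c830ce.shift 1 1), rhe0a3287738516b56] (by decide +kernel))
noncomputable def rh0ace362f2845880b : CRef := CRef.mk (Pat.mk 0xa00000002000000000000000000000000000000000 0x80000001e000000fe0000003e8000003ff000000fe000001ff0000007e000000ff0000007c00000010 9 12) 0 0 (step_sound _ 166 [(rh0b81369499e77fa5.shift 2 1), (rh13fdf4a1f6546398.shift 2 2), rh402b108c5b573ccf, (rh4128d03a4b1f2fa7.shift 2 1), (rh523c2e8d22c830ce.shift 1 1), (rh9f7ed28478988b96.shift 1 1), (rhd32496e5eb53168e.shift 0 1)] (by decide +kernel))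
noncomputable def rhff749c179b4dde8a : CRef := CRef.mk (Pat.mk 0x280000000800000000000000000000000000000000 0x6000000078000000780000007f0000003e000001ff000000f8000001f80000007800000050 9 9) 0 0 (step_sound _ 164 [(rh08496891ce53c717.shift 0 2), (rh16d29c832e860f40.shift 0 2), rh242ccd83009a356f, (rh3d1d6e228997da36.shift 0 1), rh3ff447dd49a1f28b, (rh410b6aa3fa3e1613.shift 0 2), (rh468b0e78bcc1fb98.shift 0 1), (rha97c1403423d693a.shift 0 2), (rhf09211eefcc6cfc2.shift 2 0)] (by decide +kernel))
noncomputable def rh27352508bdd1d15f : CRef := CRef.mk (Pat.mk 0x500000001000000000000000000000000000000000 0x40000000f0000001f0000001fe0000007c000000fe000001ff000000de0000001c00000008 9 9) 0 0 (step_sound _ 165 [(rh0b81369499e77fa5.shift 1 1), (rh1673ef40b9148004.shift 1 1), (rh523c2e8d22c830ce.shift 0 1), (rhab485b598b556b6c.shift 1 2), (rhdabbdc62783aa391.shift 1 0), (rhecf22638e4afa74c.shift 1 2)] (by decide +kernel))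
noncomputable def rh45c642cfbc550675 : CRef := CRef.mk (Pat.mk 0x100000001000000000000000000000000000000000 0x2000000030000000380000003800000078000001ff000000fe0000003f00000028 9 9) 0 0 (step_sound _ 100 [(rh4357bc4c604fe815.shift 3 0), (rh659eb6aa1e5d49ed.shift 3 0), rh661d512cfc006c27, (rh8324190c65d8f00b.shift 1 2), (rhc62a46e58eaea6df.shift 3 0), (rhd29dbdc868406425.shift 3 0)] (by decide +kernel))
noncomputable def rhd428b8cd4a975419 : CRef := CRef.mk (Pat.mk 0xa0000000200000000000000000000000000000000000000000 0x100000001a8000001be000000fe000001ff000003fe000003fe0000017c0000007000000050 9 10) 0 0 (step_sound _ 196 [(rh013a113442af0c85.shift 0 2), (rh08a88e1d1aad795e.shift 2 2), (rh5cce0cd489d69008.shift 2 1), (rhda3013d802316df7.shift 1 2), (rhe81a543cc9768dab.shift 1 1), (rhec0ccef5ca3b2f96.shift 2 5), rhec75af9f3b2480da] (by decide +kernel))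
noncomputable def rh7dd0fbd538af8b4b : CRef := CRef.mk (Pat.mk 0x500000001000000000000000000000000000000000 0x40000000f0000000f0000001fe0000007c000003ff000001fe000003ef000000e8000000a8 9 10) 0 0 (step_sound _ 165 [rh08ff18c61d0bf9d6, (rh0b81369499e77fa5.shift 1 1), (rh16d29c832e860f40.shift 1 2), (rh2f89a5efa375c8e2.shift 1 1), (rh3a12b82e60044c8b.shift 1 2), (rh468b0e78bcc1fb98.shift 1 1), (rhecf22638e4afa74c.shift 1 2)] (by decide +kernel))
noncomputable def rh2740ee3a24ef57cd : CRef := CRef.mk (Pat.mk 0xa0000000200000000000000000000000000000000000000000 0x50000001f0000001f4000003e6000007fe000000fe000001ff000001be000001fc0000017c0000007800000050 9 11) 0 0 (step_sound _ 196 [(rh02c631772c015472.shift 1 2), rh09340f072aa6ebdf, (rh302d1de10cce4e00.shift 2 3), (rh323734745ee38bb1.shift 1 1), (rh89d355566bb15c55.shift 2 3), (rhec0ccef5ca3b2f96.shift 2 5), (rhf94bbac06358ce2f.shift 2 1)] (by decide +kernel))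
noncomputable def rhcfa23a7d3928650f : CRef := CRef.mk (Pat.mk 0x500000001000000000000000000000000000000000 0x200000003000000038000000780000003e000000ff0000007f0000003f00000028 9 8) 0 0 (step_sound _ 100 [(rh4357bc4c604fe815.shift 3 0), (rh659eb6aa1e5d49ed.shift 3 0), rh661d512cfc006c27, (rha3b4db5d2b3c2f47.shift 0 2), (rhc62a46e58eaea6df.shift 3 0), (rhd29dbdc868406425.shift 3 0)] (by decide +kernel))
noncomputable def rhf68e5b56d791dc6e : CRef := CRef.mk (Pat.mk 0xa00000002000000000000000000000000000000000 0x180000001cc000001cc000001de000000fe000001fe000001ff000001fe000001fc00000148 9 9) 0 0 (step_sound _ 164 [(rh02c631772c015472.shift 1 1), (rh14dd4114d9473239.shift 1 1), (rh6eda46b88b77d2be.shift 2 2), (rh8f2f27849758ba4a.shift 2 2), rh99b613f04047d053, (rheba1f424e29f75e0.shift 2 2), (rhec0ccef5ca3b2f96.shift 2 4)] (by decide +kernel))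
noncomputable def rh92dd64bb651cf1cc : CRef := CRef.mk (Pat.mk 0x500000001000000000000000000000000000000000 0xe0000000f0000000fe0000007c000003f7000001ff000001ff0000007f00000068 9 10) 0 0 (step_sound _ 100 [(rh56ba25d94fbc4d95.shift 1 1), (rh659eb6aa1e5d49ed.shift 3 0), rh97d1976689957cb1, rhe138abeabc6304bc, (rhe554ca52e9989a90.shift 3 0), (rhe7d48083c2102c0b.shift 1 0)] (by decide +kernel))
noncomputable def rh7f56db1f3ce5dd3a : CRef := CRef.mk (Pat.mk 0x50000000100000000000000000000000000000000000000000 0x300000007800000078000003df000001ff000003ff000000bf000000b800000028 9 10) 0 0 (step_sound _ 132 [(rh1096075aba1667fa.shift 3 1), (rh3ec54fa38f7317ae.shift 2 0), (rh4357bc4c604fe815.shift 3 1), (rh4d8f364ce5a68db3.shift 2 1), (rh4ec767a20edfc219.shift 2 1), (rh661d512cfc006c27.shift 0 1), (rhe554ca52e9989a90.shift 3 1), (rheb5a2d728f5b890c.shift 2 0), (rhec2bfa8aaa828cce.shift 0 1), (rhfd930b23153e5bbe.shift 2 1)] (by decide +kernel))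
noncomputable def rha5bb46130764b4ca : CRef := CRef.mk (Pat.mk 0xa0000000200000000000000000000000000000000000000000 0x140000001c0000003e0000007fc000000ff000007fe000007de000001f8000001fc000001c0000001c0 9 11) 0 0 (step_sound _ 167 [(rh04f05610a0ae58b6.shift 2 1), (rh7f5cf245eb879232.shift 0 2), (rh8822772cd1003584.shift 2 5), (rha0e28bb1a91ff1a4.shift 2 0), (rhb8a2aa3d4947b1d4.shift 2 0), (rhd97608f8ce4fd29a.shift 3 1)] (by decide +kernel))
noncomputable def rhef10498eb62e2318 : CRef := CRef.mk (Pat.mk 0x20000000a00000000000000000000000000000000000000000 0x100000007c0000007f0000007e000001ff000000fe00000fff000007e800000fe00000018000000180 9 12) 0 0 (step_sound _ 166 [(rh1d8005aa4456c8db.shift 2 1), (rh3791200a8f29fc9a.shift 0 2), (rh77d2b26dc9dffdec.shift 2 2), (rh87cdd973a645791f.shift 2 3), rhbe2d9b265f6fd610, (rhf4893c6892817ae3.shift 1 2)] (by decide +kernel))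
noncomputable def rh75fa6aaae7ae30ce : CRef := CRef.mk (Pat.mk 0x100000005000000000000000000000000000000000 0x80000001c000000de000001ff000001fe0000007e000001fe000001f0000000f000000040 9 9) 0 0 (step_sound _ 133 [(rh444b9e3af52a97e0.shift 1 0), (rh5a1d8cef2c0e6810.shift 1 0), (rh87cdd973a645791f.shift 1 2), (rh98d8280a071eb8f0.shift 1 1), (rhd2eb9493c0481fb0.shift 1 1), (rhf4893c6892817ae3.shift 0 1)] (by decide +kernel))
noncomputable def rhd32fac57161e711e : CRef := CRef.mk (Pat.mk 0x80000002800000000000000000000000000000000 0x4000000078000001f8000000f8000001ff0000003f0000007f000000780000007800000020 9 9) 0 0 (step_sound _ 132 [(rh0c47eaa17fffd84c.shift 0 1), (rh213a2092f0d76af8.shift 0 3), (rh252f2ea48a88b48a.shift 0 1), (rh2efea052cb818ec2.shift 0 1), (rh468659965d035622.shift 0 1), rh5a1d8cef2c0e6810, (rha7665194c62d6b86.shift 0 1), (rhde3ae3c481c4976b.shift 0 1)] (by decide +kernel))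
noncomputable def rhd15041cc7dac2131 : CRef := CRef.mk (Pat.mk 0x400000014000000000000000000000000 0xa0000000e0000000e0000003f0000007f0000003e0000001f0000003e0000001c0000001c 9 7) 0 0 (step_sound _ 162 [(rh1f5e4c79f603b40d.shift 1 0), (rh2e7697aedfeb2c43.shift 0 2), (rh8ab806722c24385b.shift 1 1), (rhb77efa4b0d86bd93.shift 1 0), rhc3dadc5bdb204c1f, rhe8ce27c390849930, (rhf0cff05681e7f045.shift 1 1)] (by decide +kernel))
noncomputable def rh4d18ff8f2f18e8d9 : CRef := CRef.mk (Pat.mk 0x20000000a000000000000000000000000000000000 0x178000001fc000003fe000003fe000001ff000000fe000001be000001ac0000018000000100 9 10) 0 0 (step_sound _ 132 [(rh0220084faf591f48.shift 2 3), (rh06f49b69038b058d.shift 2 3), (rh31a180065014bc58.shift 2 2), (rh33734bfad4876688.shift 1 2), (rhb912fc59577c0529.shift 0 2), (rhccfc29fb2a5080d3.shift 0 1), (rhcd8d8f29fa25280c.shift 1 2), (rhd5428ed259e379cf.shift 2 0), (rhe1c9ee4f65a36a8c.shift 1 1), (rhf3c138439b802ef3.shift 1 2)] (by decide +kernel))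
noncomputable def rh2f1dbadb6820187e : CRef := CRef.mk (Pat.mk 0x100000005000000000000000000000000000000000 0x68000003ef000001fe000003ff0000007e000001fe000000f0000000f000000040 9 10) 0 0 (step_sound _ 133 [(rh0c47eaa17fffd84c.shift 1 1), (rh2e66ada281c2d191.shift 1 2), (rh5a1d8cef2c0e6810.shift 1 0), (rh7a6b3d6ae3aca69c.shift 1 0), (rh87cdd973a645791f.shift 1 2), (rhc8178f581a843e10.shift 0 1), (rhde3ae3c481c4976b.shift 1 1)] (by decide +kernel))
noncomputable def rha65a48230d0013e9 : CRef := CRef.mk (Pat.mk 0x20000000a00000000000000000000000000000000000000000 0x500000007800000178000001fc000001be000001ff000000fe000007fe000007ee000001f4000001f000000050 9 11) 0 0 (step_sound _ 164 [(rh06f49b69038b058d.shift 2 4), (rh2bd87d537883faf8.shift 1 2), (rh4bb8d2ec131f398c.shift 2 1), (rh97ccb931bb982599.shift 2 0), (rha58b9ae01800a257.shift 2 4), (rhb97fa052b3ec9647.shift 2 2), rhd0588396d170d478, (rhe10252a94135ee1f.shift 1 2)] (by decide +kernel))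
noncomputable def rh35ed058a01f6331e : CRef := CRef.mk (Pat.mk 0x1000000050000000000000000000000000 0x28000000380000003f000000fe0000003e0000007e0000003f0000003000000020 9 8) 0 0 (step_sound _ 164 [(rh2c5df723d73d32ea.shift 2 1), (rh2e7697aedfeb2c43.shift 2 2), (rh88c8a6f84c89b582.shift 2 1), (rh8ab806722c24385b.shift 3 1), (rhc1a8f98a75ae1de6.shift 0 2), (rhf0cff05681e7f045.shift 3 1), rhf6262fd14491fb9c] (by decide +kernel))
noncomputable def rh9b2dcabd6d361527 : CRef := CRef.mk (Pat.mk 0x100000005000000000000000000000000000000000 0xa4000000fe000000ff000000ff000000ff0000007f000000ef000000e6000000e6000000c0 9 8) 0 0 (step_sound _ 131 [(rh06f49b69038b058d.shift 1 3), (rh13795e73af27e57a.shift 1 0), (rh2bd87d537883faf8.shift 0 1), (rh4160dbec9d4cb8bc.shift 1 0), (rh46350ee979b79670.shift 1 1), (rh7533cacb1f2f15b6.shift 0 1), rh9e0740fa94b00128, (rha58b9ae01800a257.shift 1 3)] (by decide +kernel))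
noncomputable def rh0d0d480f0fdd7380 : CRef := CRef.mk (Pat.mk 0x100000005000000000000000000000000000000000 0x28000001f8000001ff000001fe000003f70000007e000000fe000000f0000000e000000040 9 10) 0 0 (step_sound _ 196 [(rh8ab806722c24385b.shift 3 2), (rh8fa861f6022402a5.shift 2 1), (rha1b5793c47f9bf9d.shift 1 3), (rhe3d633f659155c01.shift 3 2), (rhfa9a0412e27e0dd4.shift 0 1), (rhff77d31159887f25.shift 1 0)] (by decide +kernel))
noncomputable def rhd04917a113b1f84e : CRef := CRef.mk (Pat.mk 0x1000000050000000000000000000000000 0x28000001f8000003ff000001ff000003df00000078000000780000003000000020 9 10) 0 0 (step_sound _ 164 [rh2859732266baac61, (rh2c5df723d73d32ea.shift 2 1), (rh2e7697aedfeb2c43.shift 2 2), (rh88c8a6f84c89b582.shift 2 1), (rh8ab806722c24385b.shift 3 1), (rhd4df7dda5ef11e8f.shift 1 2), (rhf0cff05681e7f045.shift 3 1)] (by decide +kernel))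
noncomputable def rh0bfd67bbbd800780 : CRef := CRef.mk (Pat.mk 0x80000002800000000000000000000000000000000 0x70000000700000007f0000007e000001f7000001ff000003bf000000ff000001f80000007000000060 9 10) 0 0 (step_sound _ 165 [(rh35fcf9882053e3be.shift 0 2), rh3cb9b7d0562bcc74, (rh438d6d4f1df7c298.shift 0 3), (rh66c5a24de73bd043.shift 0 1), (rh74b0055ba70ad0ce.shift 0 1), (rh7ba8ceb2894b3821.shift 0 2), (rh7d3344fcd08b9d34.shift 0 2), (rh90cf9cbbb37e541b.shift 0 1)] (by decide +kernel))
noncomputable def rh63b13ad9fe70d776 : CRef := CRef.mk (Pat.mk 0xa0000000000000000000000000000000000000000000000000 0x40000001d0000003f8000007ff000007fe000007ff00000efe00000ffe00000ffe00000fe8000001e8000001e0000001c0 9 12) 0 0 (step_sound _ 229 [(rh14707e6b63188f9e.shift 2 3), (rh2f871e50c3f35028.shift 1 2), (rh3a1e0f56550690f9.shift 1 3), (rh453ff43853c75f56.shift 2 3), (rh5e99e406715b8921.shift 2 2), (rh81a762db59e08fc8.shift 0 3), (rh8387ea308b11aa60.shift 1 0), (rh9f5baa96dd1d02ea.shift 0 2), (rha96f9776c140c64a.shift 1 3), (rhbfbc142f19de82d6.shift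 1 3), (rhd8ede0185c581dcf.shift 0 2), (rhe712d9480fe66408.shift 2 3), (rhe8b75dc292ffd60a.shift 1 3), (rhf33c9f3480066ad9.shift 0 2)] (by decide +kernel))
noncomputable def rh1b5ed42f1e3622b5 : CRef := CRef.mk (Pat.mk 0xa00000000000000000000000000000000000000000 0x40000001f0000001f0000007f800000ffe000007fe00000eff000007fc000007fc000001f8000001e800000160 9 12) 0 0 (step_sound _ 199 [(rh0b68681544688b10.shift 2 1), (rh1b8e13ee4f7adda6.shift 2 0), (rh2f364533d7419af5.shift 4 0), (rh301639dcec145de3.shift 2 0), (rh543ee582594165b6.shift 2 0), (rh564b787168f276c5.shift 2 0), (rh695dbc4764e80d34.shift 0 1), (rh7c79254fbe6b5ad4.shift 1 1), (rh8e03cbae60226b32.shift 2 0), (rhb583ee1a278b4c81.shift 4 1)] (by decide +kernel))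
noncomputable def rh7438bb26112e31da : CRef := CRef.mk (Pat.mk 0x50000000000000000000000000000000000000000000000000 0x2c000000fc000000fc000001fe000003fe0000077f000007ff000007ff000007fc000000fc000000f000000020 9 11) 0 0 (step_sound _ 166 [(rh2028f4b509227053.shift 1 2), (rh5ffa60bf7e87ba7f.shift 1 1), (rh5ffd125d360878fb.shift 3 1), (rh80f0c5c50e8d5f6e.shift 2 1), (rha8072279884bb30a.shift 1 1), (rhb0a3b6aaa703cafc.shift 1 1), (rhc7816ad0d28e1433.shift 1 0), (rhca88f12153a2670e.shift 1 3), (rhd80fcd2e549d7eed.shift 0 1), (rhd9859c6ecd1d80d6.shift 1 2)] (by decide +kernel))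
noncomputable def rh3c749562511b2e11 : CRef := CRef.mk (Pat.mk 0xa0000000000000000000000000000000000000000000000000 0x70000001f8000001f8000003fc000007fc00000eff00000ffe00000ffe00000ff8000001f8000001f000000040 9 12) 0 0 (step_sound _ 167 [(rh2028f4b509227053.shift 2 2), (rh31f2d4bb14ef53e0.shift 2 1), (rh4a895fbbb9d1536d.shift 2 1), rh5546b64289021f48, (rh5ffd125d360878fb.shift 4 1), (rh80f0c5c50e8d5f6e.shift 3 1), (rhb1d972b8ee4d7c0f.shift 2 1), (rhccfc2c154dc7c0af.shift 1 0), (rhea317ef9c30120c1.shift 2 3), (rhfade2ee6a3cff707.shift 2 1)] (by decide +kernel))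
noncomputable def rhffb1d5163e0ef8fb : CRef := CRef.mk (Pat.mk 0xa0000000000000000000000000000000000000000000000000 0x50000001f0000001f0000003fc000007fc00000eff00000ffe00000ffe00000ff8000001f8000001f800000040 9 12) 0 0 (step_sound _ 167 [(rh152248adc1aee1f2.shift 2 1), (rh173984388f34f881.shift 2 1), (rh2028f4b509227053.shift 2 2), rh5546b64289021f48, (rh5ffd125d360878fb.shift 4 1), (rh80f0c5c50e8d5f6e.shift 3 1), (rhb7a195bf4bd4f2a5.shift 2 1), (rhc0ccd28023c02f14.shift 2 1), (rhccfc2c154dc7c0af.shift 1 0), (rhe59db682f1f968f8.shift 2 1)] (by decide +kernel))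
noncomputable def rh62933cd45772bb98 : CRef := CRef.mk (Pat.mk 0xa0000000000000000000000000000000000000000000000000 0x50000001f0000001f0000003fc000007fc00000eff000007fe00000ffe00000ff8000001f8000001f000000140 9 12) 0 0 (step_sound _ 167 [rh11b6d3ec50c2ffb3, (rh2028f4b509227053.shift 2 2), (rh5ffd125d360878fb.shift 4 1), (rh65a20eba89e03a7f.shift 2 1), (rh7bd7a68903a24f52.shift 2 3), (rh80f0c5c50e8d5f6e.shift 3 1), (rh8226bfb54ed9a97a.shift 2 1), (rhabc0d77e4421cee6.shift 2 1), (rhb7011cae4f96f225.shift 2 1), (rhe186e8420f093554.shift 2 0), (rhf1eeb9204a1829e2.shift 2 0)] (by decide +kernel))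
noncomputable def rh110edab1e9428c6a : CRef := CRef.mk (Pat.mk 0xa0000000000000000000000000000000000000000000000000 0x58000001f8000001f8000003f0000007fc00000eff000007fe00000ffe00000ff8000001f8000001f000000040 9 12) 0 0 (step_sound _ 167 [(rh1d5871c52eff6d60.shift 2 1), (rh2028f4b509227053.shift 2 2), (rh263e0adb59eac83f.shift 2 0), rh28d91ccb092ba629, (rh5e0d684c1682deb2.shift 2 1), (rha14d7918d94a12a9.shift 3 1), (rhab4057d947f78471.shift 2 3), (rhabc0d77e4421cee6.shift 2 1), (rhb4ff42fbee9f541c.shift 3 1), (rhb7011cae4f96f225.shift 2 1)] (by decide +kernel))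
noncomputable def rh5a519f420512a122 : CRef := CRef.mk (Pat.mk 0xa0000000000000000000000000000000000000000000000000 0x1c0000001d0000001f0000003f000000ffc000007f700000eff000007ff000007ff000007ff000003f80000017800000050 9 12) 0 0 (step_sound _ 165 [(rh0136e8dd0fadb881.shift 1 1), (rh0d8fa00fe245bfae.shift 2 1), (rh11755acac3194727.shift 1 1), (rh35d198abde5a47b1.shift 0 1), (rh514bf96911bfb750.shift 0 1), (rh5e8455ec33f0944b.shift 0 1), (rh7a82c9dfe1225188.shift 2 0), (rh8512529a10d7f57b.shift 0 1), (rh85b6d3c9af76fe6e.shift 1 1), (rh9fab1fc971697bdb.shift 0 1), (rha331841db558bd76.shift 0 1), (rha4a0176613614e98.shift 2 1), (rhbaa9b6dbff0833f3.shift 0 2), (rhc174d4c6aae1e40c.shift 2 1), (rhcac5ce7ff4aca76c.shift 1 0), (rhce19f0f6858f9d19.shift 1 1)] (by decide +kernel))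
noncomputable def rhd7e7cb8ec105a7f8 : CRef := CRef.mk (Pat.mk 0xa0000000000000000000000000000000000000000000000000 0x1f0000003f8000007ff000007ff000007ff00000eff000007f700000ffc00000ffc000001d0000001c0000001c0 9 12) 0 0 (step_sound _ 229 [(rh072431ce4a89c0cb.shift 0 3), (rh4f7392dff0ec0f98.shift 0 2), (rh610bc6970e4d1f60.shift 0 2), rh62780d9acbf1d720, (rh73578e43f9713cfe.shift 2 3), (rh7373a1bbb6584a11.shift 0 2), (rh7dc166df6e5bbb6a.shift 0 3), (rh84e1721ab818cbaf.shift 2 3), (rh95367b74ab1235bd.shift 2 2), (rh9d73b853081e138a.shift 0 2), (rha5bccda3277d7fda.shift 2 2), (rhbd6caa14a6457fa8.shift 2 3), (rhd29d49a8aa42ae48.shift 0 2), (rhe2d5da7990fe8914.shift 1 3), (rhfaff5d71f67ae795.shift 2 2)] (by decide +kernel))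
noncomputable def rh63f63d905214a39d : CRef := CRef.mk (Pat.mk 0xa00000000000000000000000000000000000000000 0x40000001f0000001f8000007f800000ffe000007fe00000eff000007fc000003f0000001f8000001f800000058 9 12) 0 0 (step_sound _ 199 [(rh0b68681544688b10.shift 2 1), (rh37519ad7a5a59e11.shift 4 1), rh4d7bce108393a154, (rh4f3abe8ff15c2ab1.shift 2 0), (rh5467fd3a1df04c06.shift 3 2), (rh5cf0bc61008ad89f.shift 2 0), (rh710d79ffbbb73106.shift 2 0), (rh7167b6dca133076a.shift 2 1), (rhb207b9888246e5f6.shift 2 0), (rhe1457d0033cc012d.shift 2 0)] (by decide +kernel))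
noncomputable def rh98b80fcad205ecde : CRef := CRef.mk (Pat.mk 0xa0000000000000000000000000000000000000000000000000 0x50000001f0000001f0000003fc000007fc00000eff00000ffe00000ffe00000ff0000001f0000001f000000140 9 12) 0 0 (step_sound _ 167 [(rh14aff9efdc7eb322.shift 3 1), rh15207b5b697eb4a1, (rh2deb422a55990dd1.shift 2 1), (rh3dd0c723d627c84d.shift 4 1), (rh67502109c115e046.shift 2 1), (rh830f72cb6e2b7c11.shift 2 2), (rh957bde74089bb310.shift 2 0), (rha8a98201a3b48c3f.shift 2 1), (rhdd4ed642c79660dd.shift 2 0), (rhe5890e4c794386a8.shift 2 3)] (by decide +kernel))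
noncomputable def rhb5cbd7efab16a571 : CRef := CRef.mk (Pat.mk 0xa0000000000000000000000000000000000000000000000000 0x50000001f0000001f0000003fc000007fc00000eff00000ffe00000ffe00000ff8000001f0000001f000000040 9 12) 0 0 (step_sound _ 167 [(rh1864f86dfcdfc31f.shift 2 0), (rh2028f4b509227053.shift 2 2), (rh223fdc3eba2b694e.shift 3 1), (rh4841f751bfa7f2ca.shift 2 1), (rh5ffd125d360878fb.shift 4 1), rh7d984f60a0949d34, (rh8226bfb54ed9a97a.shift 2 1), (rhf1fab269645b1ef5.shift 2 1), (rhf5025409dd305af1.shift 2 1), (rhfa9c0eefa3b19d77.shift 2 3)] (by decide +kernel))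
noncomputable def rh57259f2dc8be5b70 : CRef := CRef.mk (Pat.mk 0xa0000000000000000000000000000000000000000000000000 0x58000001f8000001f8000003f8000007fc00000eff000007fe00000ffe00000ff8000001f8000001f000000040 9 12) 0 0 (step_sound _ 167 [(rh2028f4b509227053.shift 2 2), rh20d4a4c17581422d, (rh366acdf446b831c2.shift 1 0), (rh4242a31ea51b5c71.shift 2 1), (rh52351f161e89b2c5.shift 2 1), (rh5ffd125d360878fb.shift 4 1), (rh80f0c5c50e8d5f6e.shift 3 1), (rha8072279884bb30a.shift 2 1), (rhb0a3b6aaa703cafc.shift 2 1), (rhca88f12153a2670e.shift 2 3)] (by decide +kernel))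
noncomputable def rh9040280f9c9d19e2 : CRef := CRef.mk (Pat.mk 0xa0000000000000000000000000000000000000000000000000 0x50000001f0000001f0000007fc000007f800000eff000007fe00000ffe00000ff8000001f8000001f000000040 9 12) 0 0 (step_sound _ 167 [(rh0bf0028c475db332.shift 2 2), (rh0ef039dfbd1b5c1a.shift 2 1), (rh5fac7d26f8d97ad9.shift 2 1), (rh92455d1be8e5798b.shift 2 1), (rha13442418db6e2bc.shift 3 1), (rhc5900089fa5de4c5.shift 4 1), (rhd6fe8b7488127eb2.shift 2 2), (rhef60cbaea40ae573.shift 1 1), rhfd83e50bcbc66028, (rhfe0d1b1e143018d4.shift 2 1)] (by decide +kernel))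
noncomputable def rhd8626d1bb98d8503 : CRef := CRef.mk (Pat.mk 0x50000000000000000000000000000000000000000000000000 0x24000000fc000000fc000001fe000003fe0000077c000007ff000007ff000007fc000000f8000000f8000000a0 9 11) 0 0 (step_sound _ 166 [(rh2028f4b509227053.shift 1 2), (rh2b057b3af4763933.shift 0 1), (rh5570cf9152067587.shift 0 1), (rh5ffd125d360878fb.shift 3 1), (rh80f0c5c50e8d5f6e.shift 2 1), (rh811116df4462fc36.shift 1 0), (rha8072279884bb30a.shift 1 1), (rhb0a3b6aaa703cafc.shift 1 1), rhe53fe2df443debe7, (rhfa9c0eefa3b19d77.shift 1 3)] (by decide +kernel))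
noncomputable def rhe30ea4a660321d8e : CRef := CRef.mk (Pat.mk 0x28000000000000000000000000000000000000000000000000 0x140000007e0000007e000000ff000001ff000003bf000003fe000003ff000003ff0000007e0000007c00000010 9 10) 0 0 (step_sound _ 165 [rh0005d4d601d04103, (rh74c68f07cc6b1b2f.shift 0 1), (rh80f0c5c50e8d5f6e.shift 1 1), (rh8554ee8fed87d91a.shift 0 1), (rh9ac1317ef0620676.shift 2 1), (rha584b986baf101a5.shift 0 1), (rhc4b2ca34eb8a1148.shift 0 2), (rhe24fc141f9dfa793.shift 0 1), (rhf1de82eb31bbdc93.shift 0 3), rhfa7936593c59c1aa] (by decide +kernel))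
noncomputable def rh8344b2eda0ebdd58 : CRef := CRef.mk (Pat.mk 0xa00000000000000000000000000000000000000000 0x40000001f0000001f0000007f800000ffe00000ffe00000eff000007fc00000ff8000001f8000001f800000168 9 12) 0 0 (step_sound _ 199 [(rh05fb1482e3039245.shift 2 0), (rh0af3191fa0aee58e.shift 2 0), (rh0b68681544688b10.shift 2 1), (rh2e5d0d5cf17ca182.shift 2 0), rh500215574e8cc504, (rh63a305c031d0c7b9.shift 1 1), (rh75012dc938a4f204.shift 4 1), (rh8b22508824f990b6.shift 4 0), (rhce55ce02af2e7af1.shift 2 0), (rhe2455003c5268390.shift 2 0)] (by decide +kernel))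
noncomputable def rhacdd7401067b8ace : CRef := CRef.mk (Pat.mk 0x28000000000000000000000000000000000000000000000000 0x160000007e0000007e000000ff000001ff000003bf000003ff000003ff000003fe0000007e0000007c00000010 9 10) 0 0 (step_sound _ 165 [(rh00ea15ca2b84a758.shift 0 1), rh0e8479be80bb50fa, (rh2028f4b509227053.shift 0 2), (rh5ffd125d360878fb.shift 2 1), (rh80f0c5c50e8d5f6e.shift 1 1), rh8b872794f88395d7, (rha8072279884bb30a.shift 0 1), (rhb0a3b6aaa703cafc.shift 0 1), (rhc90bdd45d71d9a71.shift 0 1), (rhca88f12153a2670e.shift 0 3)] (by decide +kernel))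
noncomputable def rh2a2dec1b352ce2ce : CRef := CRef.mk (Pat.mk 0x50000000000000000000000000000000000000000000000000 0x2c000000fc000000fc000001fe000003fe0000077e000007fe000007ff000007fc000000fc000000f800000020 9 11) 0 0 (step_sound _ 166 [(rh2028f4b509227053.shift 1 2), (rh22e826f4f17e558b.shift 1 1), (rh4563e899b49e2ed1.shift 1 0), (rh5ffd125d360878fb.shift 3 1), (rh80f0c5c50e8d5f6e.shift 2 1), (rh89057aa56a7b293c.shift 1 1), rh8b5ed5875a9dba6c, (rha8072279884bb30a.shift 1 1), (rhb0a3b6aaa703cafc.shift 1 1), (rhca88f12153a2670e.shift 1 3)] (by decide +kernel))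
noncomputable def rh571462f29d2a4d21 : CRef := CRef.mk (Pat.mk 0x50000000000000000000000000000000000000000000000000 0x2c000000fc000000fc000001fe000003fe0000077f000007fe000007fe000007fc000000fc000000f800000020 9 11) 0 0 (step_sound _ 166 [(rh2028f4b509227053.shift 1 2), (rh22e826f4f17e558b.shift 1 1), (rh4841f751bfa7f2ca.shift 1 1), (rh5ffd125d360878fb.shift 3 1), (rh80f0c5c50e8d5f6e.shift 2 1), rh8b58ea770deabe3f, (rha8072279884bb30a.shift 1 1), (rhb0a3b6aaa703cafc.shift 1 1), (rhca88f12153a2670e.shift 1 3), (rhe7d447f8eb390b89.shift 1 0)] (by decide +kernel))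
noncomputable def rh15b82e51a95e7a73 : CRef := CRef.mk (Pat.mk 0x50000000000000000000000000000000000000000000000000 0x2c000000fc000000fc000001fe000003fe0000077e000007fe000007ff000007fc000000fc000000f800000020 9 11) 0 0 (step_sound _ 166 [(rh2028f4b509227053.shift 1 2), (rh4841f751bfa7f2ca.shift 1 1), (rh5ffd125d360878fb.shift 3 1), (rh80f0c5c50e8d5f6e.shift 2 1), (rh8a1acf56af3fbc6c.shift 1 0), (rha8072279884bb30a.shift 1 1), (rhb0a3b6aaa703cafc.shift 1 1), (rhca88f12153a2670e.shift 1 3), (rhdb7a06e6536c2019.shift 1 1), rhf4afc7a1228d9d33] (by decide +kernel))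
noncomputable def rh558c411955aaea96 : CRef := CRef.mk (Pat.mk 0xa0000000000000000000000000000000000000000000000000 0x58000001f8000001f8000003fc000007fc00000eff00000ffe00000ffe00000ff8000001f8000001f000000040 9 12) 0 0 (step_sound _ 167 [(rh19fc397b705c05e2.shift 3 1), rh3bdda5786a67a623, (rh509fa3e83511e65d.shift 2 1), rh6a09f368013f58c7, (rh75646f80775861e2.shift 2 1), (rh986bec7e65271494.shift 2 1), (rh9eba0889ea697c8a.shift 2 1), (rhca88f12153a2670e.shift 2 3), (rhcbc97125bf51d0ee.shift 2 1), (rhf30c9609d81f1b27.shift 4 1)] (by decide +kernel))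
noncomputable def rhd91412bd922fa2d9 : CRef := CRef.mk (Pat.mk 0x1e0000000200000000000000000000000000000000 0x40000000f0000001e0000003a0000001f0000003f0000000700000005 9 6) 0 0 (step_sound _ 193 [(rh3244c3cc8379b070.shift 0 5), rh9e00bf6ae2e0318e] (by decide +kernel))
noncomputable def rh8451b93d7ee8630c : CRef := CRef.mk (Pat.mk 0x1e000000000000000000000008 0x380000003c0000003f0000001e000000380000000800000008 9 6) 0 0 (step_sound _ 132 [(rh33e738c4ed385b9f.shift 1 3), rh6cab633b8dfb8fbc] (by decide +kernel))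
noncomputable def rhd7041c6f9411dca5 : CRef := CRef.mk (Pat.mk 0x1e00000010000000000000000000000000 0x40000001c0000001c0000001c0000000c0000001f0000001a0000007f0000001f0000001c 9 7) 0 0 (step_sound _ 99 [rh7439878cbcce00fc, (rhb739f4f82bb681b4.shift 0 3)] (by decide +kernel))
noncomputable def rhdbd4061df3c25027 : CRef := CRef.mk (Pat.mk 0x200000002000000070000000100000000000000000 0x20000000670000007e000003df000001fc000003de 9 10) 0 0 (step_sound _ 36 [rh6d6c1d0fca6d3b2a, (rh71222050f2c63a3a.shift 4 0)] (by decide +kernel))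
noncomputable def rhabbac99088262f39 : CRef := CRef.mk (Pat.mk 0x40000000e0000000200000000000000000 0x20000000ef000000fe000001bf000001f0000000f0 9 9) 0 0 (step_sound _ 37 [rh5709db7dacf41e8b, (rh71222050f2c63a3a.shift 5 0)] (by decide +kernel))
noncomputable def rh37803848f15edf97 : CRef := CRef.mk (Pat.mk 0x40000000e000000020000000000000000 0x8000000ee0000007f0000007a0000001f0000001e 9 8) 0 0 (step_sound _ 33 [(rh71222050f2c63a3a.shift 1 0), rh7b5b3320256174fb] (by decide +kernel))
noncomputable def rh18fbbdb6aa30cd45 : CRef := CRef.mk (Pat.mk 0xe000000020000000800000000 0x400000004000000ec000000fe000001fb0000000800000008 9 9) 0 0 (step_sound _ 100 [(rh464c7dc8858f3c8e.shift 1 0), (rheb0810cc63b001d8.shift 0 2)] (by decide +kernel))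
noncomputable def rh698f63637b6f4359 : CRef := CRef.mk (Pat.mk 0x8000000080000000800000018000000000000000000000000 0x800000008000000f8000000ff0000007f000000600000002000000020 9 8) 0 0 (step_sound _ 132 [(rh2145e1d24b96a57e.shift 3 3), rhdbb70cf0ae4e227b] (by decide +kernel))
noncomputable def rh4fe96e0e5c95af88 : CRef := CRef.mk (Pat.mk 0x60000000c00000004000000000000000000000000 0x400000004000000060000003c0000007f0000007f0000000a0000000a 9 7) 0 0 (step_sound _ 132 [rh893c72d09e6e0a6e, (rhf48373e13d2bc128.shift 1 4)] (by decide +kernel))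
noncomputable def rh5650761e0149f0bd : CRef := CRef.mk (Pat.mk 0xc0000000200000008000000000000000000000000 0x40000001c0000001c0000001c0000000c0000000c0000007b000000ff000000ff000001fc00000014 9 9) 0 0 (step_sound _ 131 [(rh56259dd1390eee46.shift 2 0), (rh7d473427d6d19b3e.shift 0 2), (rhb1a251d9bff81766.shift 2 2), rhf7abee39bcd1851e] (by decide +kernel))
noncomputable def rh400dee5d433cfe14 : CRef := CRef.mk (Pat.mk 0x20000001a0000001200000002000000000000000000000000 0xa0000001a0000001a000000160000003f0000003700000021 9 6) 0 0 (step_sound _ 66 [rh4ec6b8f173509a40, (rhd3458b32566d63f7.shift 1 2)] (by decide +kernel))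
noncomputable def rhc1104475b15d2b96 : CRef := CRef.mk (Pat.mk 0x380000000800000008000000000000000000000000 0x28000000780000006f0000007e000000780000001000000010 9 7) 0 0 (step_sound _ 130 [(rh18965a982d73c794.shift 2 4), rh8f0cc0a9c6b71936] (by decide +kernel))
noncomputable def rh511913c11747295f : CRef := CRef.mk (Pat.mk 0xe000000020000000200000000 0xb0000001e0000003b0000001f0000003d 9 6) 0 0 (step_sound _ 100 [rhb9fe5612d8746deb, (rheb0810cc63b001d8.shift 0 2)] (by decide +kernel))
noncomputable def rh0f9feb8fcbca8413 : CRef := CRef.mk (Pat.mk 0x100000001c000000100000001000000000000000000000000000000000 0x4000000140000001c0000007f0000007f0000001e0000003e0000003800000028 9 7) 0 0 (step_sound _ 100 [(rh2fe12e7e8bc26135.shift 0 2), (rh7928877f9bf74a91.shift 3 2), (rhbba7d23481996066.shift 3 0), (rhe4441baab75a6f73.shift 3 1)] (by decide +kernel))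
noncomputable def rhb2e8e32a390437d4 : CRef := CRef.mk (Pat.mk 0x1e00000002000000020000000000000000 0xe30000007e00000072000000070000000700000005 9 8) 0 0 (step_sound _ 161 [(rh3244c3cc8379b070.shift 0 4), rhbee30f0b8de86617] (by decide +kernel))
noncomputable def rh208a561cb75517c2 : CRef := CRef.mk (Pat.mk 0x20000000e000000020000000200000000 0x40000000e0000003e0000003a0000001f0000003d 9 6) 0 0 (step_sound _ 130 [(rh2f68792b6b779e96.shift 1 1), rh479db19420f479a1] (by decide +kernel))
noncomputable def rh2bfb831579cf4956 : CRef := CRef.mk (Pat.mk 0x380000000800000000000000000000000000000000 0x100000001c0000003f000000380000002f0000007f0000003e0000001c00000014 9 7) 0 0 (step_sound _ 99 [(rh0d071c7f3eba9391.shift 0 2), (rh1b9022be4f7af407.shift 2 0), (rh215e11e099257d75.shift 3 2), rh2583994356ee65c8] (by decide +kernel))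
noncomputable def rh8682730b1d316a94 : CRef := CRef.mk (Pat.mk 0x1000000130000001200000010000000000000000000000000 0x100000001000000110000001300000012000001fe0000007f0000003800000008 9 9) 0 0 (step_sound _ 224 [(rh2145e1d24b96a57e.shift 0 4), rhcc9433833233a69e] (by decide +kernel))
noncomputable def rh12ce8472f30be717 : CRef := CRef.mk (Pat.mk 0x1c0000000200000000000000000000000000000000 0x5000000070000000700000007000000030000001e0000000700000007000000070000000700000004 9 5) 0 0 (step_sound _ 161 [rh3365c0d842095f81, (rheb0810cc63b001d8.shift 0 4)] (by decide +kernel))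
noncomputable def rhac2c31c96f6e24ba : CRef := CRef.mk (Pat.mk 0x2000000038000000200000002000000000 0x1000000030000000380000006f0000007e0000005f 9 7) 0 0 (step_sound _ 132 [rh20f45bc9c948192b, (rh50fbb5868c909700.shift 4 1)] (by decide +kernel))
noncomputable def rh432696f3a5eb66ad : CRef := CRef.mk (Pat.mk 0x1e0000000000000000000000000000000000000000 0x5000000070000000700000007000000030000001e0000000700000007000000070000000700000004 9 5) 0 0 (step_sound _ 193 [(rh3244c3cc8379b070.shift 0 5), rh3c1473d1b40eb0b7] (by decide +kernel))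
noncomputable def rhbb5c7fa15aad1362 : CRef := CRef.mk (Pat.mk 0x60000001c000000000000000000000000 0x20000003600000037000000fe0000001e0000007c0000003c00000008 9 8) 0 0 (step_sound _ 67 [(rh03de4028502f3760.shift 1 0), (rh5d54cb79a67f97ab.shift 2 0), (rhf396694984be8444.shift 0 1)] (by decide +kernel))
noncomputable def rhaf3fc5659a290614 : CRef := CRef.mk (Pat.mk 0x70000000c000000000000000000000000000000000 0x2000000028000001ff000000fe0000007f000000f0000000e0000000e0000000e0000000e000000020 9 9) 0 0 (step_sound _ 102 [(rh1daa1ff529c52a31.shift 0 3), (rh43d8dfd721575dfb.shift 5 0), (rh6e809d429c52317f.shift 5 0), (rh96fd921285cd54f8.shift 5 0)] (by decide +kernel))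
noncomputable def rh4c94d5462214c489 : CRef := CRef.mk (Pat.mk 0x20000000600000004000000040000000000000000000000000 0x54000001dc000003df0000037c000007fc000003ec0000037c0000003c0000003c00000034 9 11) 0 0 (step_sound _ 135 [(rh4ca5dae25f5c14ff.shift 3 4), (rh4dea9f9d1704bcf4.shift 3 2), rhbc1b4ca391d9a697, (rhdeca8db941583de2.shift 3 4)] (by decide +kernel))
noncomputable def rh558284e5849b49be : CRef := CRef.mk (Pat.mk 0x60000000c000000000000000000000000 0x34000000340000003e0000003e0000003b0000000a0000000a 9 6) 0 0 (step_sound _ 100 [rh977da3e008d89912, (rhf48373e13d2bc128.shift 1 3)] (by decide +kernel))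
noncomputable def rh027f28d4842086fa : CRef := CRef.mk (Pat.mk 0xc0000001800000000000000000000000000000000 0x100000001c0000001c0000000c0000001c0000001c0000001f0000001f0000001c00000014 9 5) 0 0 (step_sound _ 99 [(rh6ab542677de33e67.shift 0 2), (rh6e809d429c52317f.shift 2 0), (rh7a1170c34084fea8.shift 2 0), (rhd1779d7de7f8215b.shift 2 0), (rhfa2242deaca05a59.shift 2 1)] (by decide +kernel))
noncomputable def rhfe7147cc5bea0d39 : CRef := CRef.mk (Pat.mk 0x8000000180000001000000000000000000000000000000000 0x1000000010000000140000001f0000007e000000f80000003e0000001c0000000c00000008 9 8) 0 0 (step_sound _ 100 [rh1c660cf5eaaf5c97, (rh7b1f1fb55310c477.shift 3 2)] (by decide +kernel))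
noncomputable def rhb27079f4ccb5565b : CRef := CRef.mk (Pat.mk 0x200000002000000060000000400000000000000000 0x54000000dc000000de000001fc0000007f000001fc000000ce0000008c00000004 9 9) 0 0 (step_sound _ 131 [(rh0da94d5b7f13cbd0.shift 2 1), (rh174a767562f03570.shift 2 3), (rh9ebd639649ea671c.shift 2 3), rha2aa47e52b29efcd] (by decide +kernel))
noncomputable def rh177ec3d784ba052c : CRef := CRef.mk (Pat.mk 0x8000000180000001000000010000000000000000000000000 0x400000014000000b7000000df000000ff000000fb000000fe000000e6000000e0000000a0 9 8) 0 0 (step_sound _ 194 [(rh1eb7f0416b84daf7.shift 1 0), (rh5c5a2014709044d0.shift 0 5), (rhdeca8db941583de2.shift 0 5), (rhf542af1edd0d60e9.shift 0 2)] (by decide +kernel))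
noncomputable def rhfffae33358bd6c04 : CRef := CRef.mk (Pat.mk 0x70000000c0000000000000000000000000 0x38000001ff000001fe0000017f000007f0000000e0000003c0000001f0000001e0 9 11) 0 0 (step_sound _ 71 [(rh0a630c5bbe42f7c8.shift 0 1), (rh5d54cb79a67f97ab.shift 6 0), (rh6e18c21866452386.shift 3 0), (rha40d42a2e34c408d.shift 6 0)] (by decide +kernel))
noncomputable def rh28e125413174a64d : CRef := CRef.mk (Pat.mk 0xc00000008000000000000000000000000 0x180000003e0000003e0000000f0000000c0000007c0000001f0000001f00000006 9 7) 0 0 (step_sound _ 162 [(rh5d54cb79a67f97ab.shift 2 1), rh93451e8fad1a0716, (rha40d42a2e34c408d.shift 2 1), (rhf7dd72d0d2b202ac.shift 0 1)] (by decide +kernel))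
noncomputable def rh9350e05c4351d2ba : CRef := CRef.mk (Pat.mk 0x1000000030000000200000002000000000 0x60000000600000006a0000003e000000fe000000770000007e0000005f 9 8) 0 0 (step_sound _ 133 [rh22fa8f37eaae1b57, (rh330f820e7f44bd5b.shift 4 0), (rh634e434b81682288.shift 4 0), (rhe93a1469eabff810.shift 2 0)] (by decide +kernel))
noncomputable def rh857115ca24ff267c : CRef := CRef.mk (Pat.mk 0xe0000002800000000000000000000000000000000 0x40000000e70000007e000001ec0000007c000001fe0000007c00000054 9 9) 0 0 (step_sound _ 165 [(rh4d02e2747fc6a56f.shift 0 4), (rh6193b2137094bba4.shift 0 4), (rh998c077f32f9ac03.shift 1 0), (rhb11bd98471861a6a.shift 0 4)] (by decide +kernel))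
noncomputable def rh4e9871f9db227867 : CRef := CRef.mk (Pat.mk 0xc0000001800000008000000000000000000000000 0x8000000280000002f00000078000000fe000000fe0000001400000004 9 8) 0 0 (step_sound _ 133 [rhd24d38356aff6783, (rhf48373e13d2bc128.shift 2 4)] (by decide +kernel))
noncomputable def rha47cd6a1aa38c91a : CRef := CRef.mk (Pat.mk 0x60000000c00000004000000000000000000000000 0x4000000040000000e0000003c0000000f0000003e0000003e00000006 9 6) 0 0 (step_sound _ 132 [rh81eefd071f705d9b, (rhf48373e13d2bc128.shift 1 4)] (by decide +kernel))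
noncomputable def rh1a25886d0bab141d : CRef := CRef.mk (Pat.mk 0x80000000c000000080000000800000000 0x40000002e0000007f000000780000007e000000f4 9 8) 0 0 (step_sound _ 130 [rh0f3538984b373cb0, (rh50fbb5868c909700.shift 2 1)] (by decide +kernel))
noncomputable def rh6cf031d8f8dc09c6 : CRef := CRef.mk (Pat.mk 0x80000000c000000080000000800000000 0x40000001c0000001c0000001c0000000c0000001f000000780000000f00000004 9 7) 0 0 (step_sound _ 34 [(rh5b6e2c57d3e1dcf0.shift 0 1), (rh932754581e0f4330.shift 2 0)] (by decide +kernel))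
noncomputable def rh14f5cd763c35baa9 : CRef := CRef.mk (Pat.mk 0x300000018000000000000000000000000 0x140000001c0000001e000000780000001f000000f8000000fc000000fc00000014 9 8) 0 0 (step_sound _ 131 [(rh7f03562f1af65e63.shift 1 0), (rhc10214bf3fe8094a.shift 0 3)] (by decide +kernel))
noncomputable def rh28178f1aa74e653e : CRef := CRef.mk (Pat.mk 0xc00000028000000000000000000000000 0x68000000680000007f0000003c000000760000001400000014 9 7) 0 0 (step_sound _ 100 [(rh977da3e008d89912.shift 1 0), (rhc02b3aee7ab87ee1.shift 0 3), (rhdbcea10a0fbe5ba6.shift 0 3)] (by decide +kernel))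
noncomputable def rh60ec83faaf5d4f0e : CRef := CRef.mk (Pat.mk 0x20000000000000006000000040 0x7800000078000000fc000001ff000001fe0000007e000000f800000068 9 9) 0 0 (step_sound _ 133 [rha829068541a8b1b5, (rhff0f29cb645b05f7.shift 5 0)] (by decide +kernel))
noncomputable def rh6ad05e01cf993816 : CRef := CRef.mk (Pat.mk 0x2000000000000000600000014000000000000000000000000 0x28000000380000007e0000003e000000770000003e000000360000003b0000003b0000002b 9 7) 0 0 (step_sound _ 161 [(rh2145e1d24b96a57e.shift 1 3), rha0b68b2835005351] (by decide +kernel))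
noncomputable def rh639577fc79742f35 : CRef := CRef.mk (Pat.mk 0x100000000000000030000000a0000000000000000000000000 0x2000000160000007ff000003fe000007b7000001f0000001b0000001d8000001d800000158 9 11) 0 0 (step_sound _ 164 [(rh2145e1d24b96a57e.shift 4 3), rhd840b3268c808548] (by decide +kernel))
noncomputable def rh6171949514bb7ea5 : CRef := CRef.mk (Pat.mk 0x8000000000000001800000050 0x800000008000001ff000000ff000001df0000005c00000050 9 9) 0 0 (step_sound _ 131 [rhe52986d32a7d0cc6, (rhff0f29cb645b05f7.shift 3 0)] (by decide +kernel))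
noncomputable def rh3aff51c327789ed8 : CRef := CRef.mk (Pat.mk 0x10000000000000003000000020 0x10000003ff000001fe000003be0000003800000030 9 10) 0 0 (step_sound _ 132 [rh674deef59ef671ad, (rhff0f29cb645b05f7.shift 4 0)] (by decide +kernel))
noncomputable def rh72fa31baa064809e : CRef := CRef.mk (Pat.mk 0x100000000000000030000000a0000000000000000000000000 0x144000001cc000001fe000001ff0000019f000001f8000001b0000001d0000001c000000140 9 9) 0 0 (step_sound _ 164 [(rh2145e1d24b96a57e.shift 4 3), rhc18951fb2c67fd51] (by decide +kernel))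
noncomputable def rh0bbb1190f598a21c : CRef := CRef.mk (Pat.mk 0x20000000000000006000000140000000000000000000000000 0x140000001c0000001c0000003e0000003c0000077f000003fc0000036e0000001c0000001c00000014 9 11) 0 0 (step_sound _ 165 [(rh2145e1d24b96a57e.shift 5 3), rhfb24ad5241107e41] (by decide +kernel))
noncomputable def rhd564093e5d561322 : CRef := CRef.mk (Pat.mk 0x100000000000000030000000a0000000000000000000000000 0x150000001d0000007ff000003fe000007ae000001f8000001b0000001d0000001c000000140 9 11) 0 0 (step_sound _ 197 [(rh045a29dae8c97265.shift 4 2), (rh215f6667d0d06067.shift 1 3), rh9722fdad844455fe, (rh9a56e9c39db8add0.shift 1 2), (rhc29a11b5c5ad65c7.shift 1 0)] (by decide +kernel))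
noncomputable def rh68f4727567015feb : CRef := CRef.mk (Pat.mk 0x100000000000000030000000a0000000000000000000000000 0x160000001e0000007ef000003fe000007bf000001f8000001b0000001d8000001d800000158 9 11) 0 0 (step_sound _ 135 [(rh44963904797deafe.shift 3 0), rh69aa94b5142251ec, (rh6edfd21d5d35aecc.shift 0 2), rh83c93f212005e3e7, (rhbec44d5f438e9215.shift 3 3), (rhcd8fc927b72d0e58.shift 4 3)] (by decide +kernel))
noncomputable def rh4b28675f207a49a6 : CRef := CRef.mk (Pat.mk 0x20000000600000004000000040000000000000000000000000 0x140000001c0000005c0000007c000001fc0000076f000003fe000007bf0000003400000020 9 11) 0 0 (step_sound _ 101 [rh2269f370e0c24276, (rh53705506d1c69545.shift 2 1), (rhf9a02cc772d686fa.shift 1 2), (rhfafeb437ceb8396d.shift 5 0)] (by decide +kernel))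
noncomputable def rh98ab60ba5528fde1 : CRef := CRef.mk (Pat.mk 0x1c000000500000000000000000000000000000000000000000 0x80000000e8000000fc000000fc000001d6000007fc000007d8000007ff000007fe000001ff000001e8000001e0 9 11) 0 0 (step_sound _ 198 [(rh4d02e2747fc6a56f.shift 1 5), (rh689cbb03adf41d83.shift 3 0), (rh70ea3857bf8e60c1.shift 2 1), (rh716c51f2e1b25a1b.shift 1 2), (rhb1eb3e8fd44e09aa.shift 2 1), (rhb2f5b9eeaa383c77.shift 2 0), (rhf5a16e0b5ea0eba3.shift 0 1)] (by decide +kernel))
noncomputable def rh42556c66b1e93606 : CRef := CRef.mk (Pat.mk 0xc00000018000000000000000000000000 0x50000003f0000003f0000003f0000001f0000001f0000000c0000000c0000000c 9 6) 0 0 (step_sound _ 129 [rh1fe9da35fc35b60f, (rhb739f4f82bb681b4.shift 0 3)] (by decide +kernel))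
noncomputable def rha4fba0915071f9dd : CRef := CRef.mk (Pat.mk 0x180000003000000000000000000000000000000000 0x380000003e0000003f00000038000000f800000018000000380000003800000028 9 8) 0 0 (step_sound _ 134 [rha904ec83935fb34c, (rhf48373e13d2bc128.shift 3 4)] (by decide +kernel))
noncomputable def rh7ec8ae35ecb18eb8 : CRef := CRef.mk (Pat.mk 0x20000000e00000000000000000 0x380000003e0000007f000000fe000001bf00000020 9 9) 0 0 (step_sound _ 68 [(rh276f6ac79b43ae42.shift 0 1), (rh775ca1963e850b80.shift 2 1), (rh7d9f3ee17a1f3b26.shift 0 1), (rh9e21f8155d8e79d7.shift 1 1), (rha5346060b12b3a35.shift 2 1), (rhb2db5b6095dd39e4.shift 1 0)] (by decide +kernel))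
noncomputable def rhf04fa0c81bf3cd6b : CRef := CRef.mk (Pat.mk 0x20000000e00000000000000000000000000000000000000000 0x5c0000007c000000fc000000ff000000ff0000007f000000fc000001ae0000007c0000007c0000005c00000004 9 9) 0 0 (step_sound _ 195 [(rh075211c3608a5a57.shift 2 5), rh465502abdd1bfcad, (rh4b858afe2cb38247.shift 3 5), (rhc30259bd62f0e380.shift 2 5)] (by decide +kernel))
noncomputable def rhc801600e8fb15741 : CRef := CRef.mk (Pat.mk 0x1000000038000000000000000000000000 0xc0000001c0000007c0000001e000000fc0000000f0000000c00000008 9 8) 0 0 (step_sound _ 131 [(rh39b36e93b258e604.shift 2 0), (rh79b3c29022acbdf3.shift 2 3), rhb001d8998a598776] (by decide +kernel))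
noncomputable def rhba4c7d1cb18a9bec : CRef := CRef.mk (Pat.mk 0x20000000700000000000000000000000000000000000000000 0x500000007000000078000000fe0000003f000000f80000003000000070000000700000007000000010 9 8) 0 0 (step_sound _ 195 [rh10ee3147573d2bbd, (rh1411de907014bb9c.shift 1 2), (rh54c49bb299227e8d.shift 2 5)] (by decide +kernel))
noncomputable def rh0393b51c998119f9 : CRef := CRef.mk (Pat.mk 0x1000000038000000000000000000000000 0xc0000000c0000000c0000001e000000ff0000001f0000001c00000018 9 8) 0 0 (step_sound _ 131 [(rh39a5d4e8dc6c73ef.shift 2 0), rh648825952dbc3a53, (rh79b3c29022acbdf3.shift 2 3)] (by decide +kernel))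
noncomputable def rh39dedb7fc5ddc6aa : CRef := CRef.mk (Pat.mk 0x80000001c000000000000000000000000 0x60000001e0000003e0000000f0000007c0000000e0000000e00000004 9 7) 0 0 (step_sound _ 130 [(rh39b36e93b258e604.shift 1 0), (rh79b3c29022acbdf3.shift 1 3), rhe3344bf73cfe5a94] (by decide +kernel))
noncomputable def rh505d60148adeb525 : CRef := CRef.mk (Pat.mk 0x200000007000000000000000000000000000000000 0xff0000007e000001ff0000003e0000007e0000003e000001fe0000007e0000000a 9 9) 0 0 (step_sound _ 164 [(rh3c7bfe65ecbe61e0.shift 1 1), (rh648825952dbc3a53.shift 1 1), (rh7755f55683b457d3.shift 1 1), (rh83777e1d0e5d09c1.shift 1 1), (rhb001d8998a598776.shift 1 1), (rhd7ad04b289096a31.shift 0 3), (rhe3344bf73cfe5a94.shift 2 1), (rhef68422bde02a31a.shift 1 0)] (by decide +kernel))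
noncomputable def rh7f692f2f17542055 : CRef := CRef.mk (Pat.mk 0x200000007000000000 0x4000001ff000000fe000001ff0000003f000001fe0000002f 9 9) 0 0 (step_sound _ 35 [rh1f9701c4cf497514, rh495fe66f3a0de288, (rh775ca1963e850b80.shift 1 0), rhd36da432537ba706, (rhec0f150ffdda098a.shift 1 0)] (by decide +kernel))
noncomputable def rhaa8a46d0e8e0ec93 : CRef := CRef.mk (Pat.mk 0x20000000e0000000000000000000000000 0x1800000018000000180000007f000000fe000001bf0000003000000030 9 9) 0 0 (step_sound _ 100 [(rh276f6ac79b43ae42.shift 0 2), (rh775ca1963e850b80.shift 2 2), (rh7d9f3ee17a1f3b26.shift 0 2), (rh9e21f8155d8e79d7.shift 1 2), (rha158b5ac5902ae53.shift 3 0), (rha5dd842502aeeece.shift 1 2)] (by decide +kernel))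
noncomputable def rhc0e715b793232010 : CRef := CRef.mk (Pat.mk 0x80000001800000008000000000000000000000000 0x140000001c0000007c0000006f0000007c0000007c00000010 9 7) 0 0 (step_sound _ 67 [(rh46baee19951a66e7.shift 2 0), (rh7e8dbb02b0a012bc.shift 0 1), (rha707fb719e87fe6e.shift 3 1)] (by decide +kernel))
noncomputable def rhb52cdf1010d18ba2 : CRef := CRef.mk (Pat.mk 0x20000000e00000000000000000000000000000000 0x4000000070000000700000007000000760000003e00000073000000070000000700000005 9 7) 0 0 (step_sound _ 132 [(rh07fc106a6edf0c0a.shift 0 3), (rh31905c9abd083ad2.shift 0 3), (rh790acd67f4fffd04.shift 1 4), rh7eccb57319315c64] (by decide +kernel))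
noncomputable def rh4b8c316bb153cb7b : CRef := CRef.mk (Pat.mk 0x100000007000000000000000000000000000000000 0x380000003800000078000001ff000000ff0000003f000000700000005e000000380000003800000020 9 9) 0 0 (step_sound _ 196 [(rh070ce8d84f838422.shift 1 1), (rh1dd6f5d487a29bc3.shift 2 3), (rh771895664643b0ba.shift 3 0), (rh964d92b31d4fa070.shift 3 1), (rheeaced76841e42fd.shift 0 1), (rhf32db6b2b1f30873.shift 2 3), (rhfd65b85264b9da11.shift 1 1), (rhffba593eb79942bb.shift 0 2)] (by decide +kernel))
noncomputable def rha606cd5aa8f1c694 : CRef := CRef.mk (Pat.mk 0x20000000e0000000000000000000000000 0xf8000000fc000000fe0000007f000000fe0000019e0000001000000010 9 9) 0 0 (step_sound _ 100 [(rh1594105c69ababad.shift 1 0), (rh775ca1963e850b80.shift 2 2), (rh7d9f3ee17a1f3b26.shift 0 2), (rh9e21f8155d8e79d7.shift 1 2), (rha5dd842502aeeece.shift 1 2)] (by decide +kernel))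
noncomputable def rha02a85519a85ca3b : CRef := CRef.mk (Pat.mk 0x80000001800000008000000000000000000000000 0xe0000000f0000001e0000000f0000001c0000001c00000014 9 5) 0 0 (step_sound _ 67 [(rh46baee19951a66e7.shift 2 0), (rh62f0c753dbf7e6d9.shift 0 1), (rh6aa5625770489e83.shift 2 0), (rh8cdd36b03d57a2f6.shift 2 0)] (by decide +kernel))
noncomputable def rhec5449225c63a3c0 : CRef := CRef.mk (Pat.mk 0x80000001800000008000000000000000000000000 0x170000001f0000001f0000000e0000001c0000001c00000014 9 5) 0 0 (step_sound _ 67 [(rh2df37068a39c730e.shift 0 1), (rh8cdd36b03d57a2f6.shift 2 0), (rha707fb719e87fe6e.shift 3 1)] (by decide +kernel))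
noncomputable def rhdf9fd4c775e69eaf : CRef := CRef.mk (Pat.mk 0x10000000300000001000000000 0x800000018000000380000003c0000007f0000003e000000380000001e0000000c 9 7) 0 0 (step_sound _ 132 [rh56c0836b5ffeb9e5, (rh6de554eaecff45de.shift 3 0), (rhba04f2f01af6ce4d.shift 1 0), (rhc85cc95794737cf7.shift 3 1), (rhccb3a79fd989e123.shift 3 1)] (by decide +kernel))
noncomputable def rh7a37b97b560c98b8 : CRef := CRef.mk (Pat.mk 0x8000000080000001800000000000000000000000000000000 0x140000001c0000001c0000001800000018000000180000007c0000000f0000001c0000001c00000014 9 7) 0 0 (step_sound _ 99 [(rh49759b6975f15643.shift 2 0), (rh57403fb2b9ccfbdf.shift 0 1), (rh6b2be6fe49c7eac7.shift 0 2), (rhb0de455c382c5b1c.shift 0 2)] (by decide +kernel))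
noncomputable def rh74bc491d0bbfd11d : CRef := CRef.mk (Pat.mk 0x4000000040000000c00000000 0x20000000e0000000e0000003e0000003f0000003f0000000c0000000e00000002 9 6) 0 0 (step_sound _ 130 [(rh4b783bb445d2d96a.shift 1 0), (rh762a1aeaf83c662a.shift 1 0), (rh940ae88dd0b4949f.shift 1 0), rhb09e61758b193798, (rhbdecaeed4a59cb58.shift 1 0), (rhd0d01d2b9e5cc624.shift 1 0), (rhdbc400e79194dff9.shift 1 1)] (by decide +kernel))
noncomputable def rh6d2bd4a74eb3be38 : CRef := CRef.mk (Pat.mk 0x4000000040000000c000000000000000000000000000000000 0x80000000a8000001bf000001ff00000edf000007f80000077c000000f8000000e0000000a0 9 12) 0 0 (step_sound _ 197 [(rh04e24da42fb7d9be.shift 1 1), (rh671c195f1f208861.shift 0 2), (rha7f321bc4d5814ed.shift 3 2), (rhc570480bd0c7e235.shift 5 0), (rhda6729f3879c7c1f.shift 5 0)] (by decide +kernel))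
noncomputable def rhd0d477be75f8b48f : CRef := CRef.mk (Pat.mk 0x7800000000000000000000000000000000 0x100000001800000018000000f80000003c0000003f0000003c00000038 9 8) 0 0 (step_sound _ 99 [rh222dd9b919e13de7, (rheb0810cc63b001d8.shift 2 3)] (by decide +kernel))
noncomputable def rh147013688cda2174 : CRef := CRef.mk (Pat.mk 0x1e000000000000000000000000 0xc0000003e0000003e000000170000003e0000000c0000000c0000000c 9 6) 0 0 (step_sound _ 129 [(rh3244c3cc8379b070.shift 0 3), (rh377ea5b46fd01117.shift 1 0)] (by decide +kernel))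
noncomputable def rh482329368609b4e0 : CRef := CRef.mk (Pat.mk 0x1e00000000000000000000000000000000 0x1000000010000000140000001f0000003c000000fc000000fe00000038 9 8) 0 0 (step_sound _ 100 [rh6187d89547938ee9, (rhe25b0a99195a5d59.shift 1 3)] (by decide +kernel))
noncomputable def rh8e0009a1c4bf8293 : CRef := CRef.mk (Pat.mk 0x70000000000000000000000000 0x180000001f000001fe0000007f0000003000000030 9 9) 0 0 (step_sound _ 99 [(rh219021521bf409aa.shift 0 2), (rh775ca1963e850b80.shift 1 2), (rh9a61dc0f685e3a67.shift 0 2), (rhafa5a7051d37b143.shift 2 0), (rhcbcf03fd2ab3821a.shift 1 0), (rhe55b0dbbf3210617.shift 1 2)] (by decide +kernel))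
noncomputable def rhfae1bc54da926896 : CRef := CRef.mk (Pat.mk 0x1e00000000000000000000000000000000 0x400000006000000070000001e00000037000000070000000700000005 9 6) 0 0 (step_sound _ 97 [rh6a8ded142a787650, (rheb0810cc63b001d8.shift 0 3)] (by decide +kernel))
noncomputable def rhee65fa8f54cd0f14 : CRef := CRef.mk (Pat.mk 0x7000000010000000000000000000000000000000000000000000000000 0x480000005800000058000000f0000001df000001ff000001ff000001ff0000017c0000003c00000028 9 9) 0 0 (step_sound _ 164 [rh0e2de312864a4d16, (rh32f6efaa475dc0d0.shift 3 4), (rh41146ecbd27cd6dd.shift 3 3), rh67329824268198e5, (rha4574a59b743f36e.shift 1 2), (rhafc2abb2d191974d.shift 1 2), (rhb77ac882ac1516e5.shift 3 2), (rhbdf75cd565e36664.shift 3 2)] (by decide +kernel))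
noncomputable def rhaa865e0f38f011af : CRef := CRef.mk (Pat.mk 0xe0000000200000000000000000000000000000000 0x50000000700000007000000e3000000fe000001fe00000007000000070000000700000004 9 9) 0 0 (step_sound _ 193 [rh33bb8992f32152f0, (rh34c6542e55ceb0b7.shift 0 2), (rh5326b160420f0573.shift 0 1), (rh706a4cb3df15a0ed.shift 0 4), (rh7d830273a9d6bf55.shift 0 1), rhda2dc035bca2bb33] (by decide +kernel))
noncomputable def rh994456d38928074b : CRef := CRef.mk (Pat.mk 0x7000000010000000000000000000000000000000000000000000000000 0x2000000038000000380000005e00000070000001ff000001ff000001ff000000fe0000007c0000003c00000008 9 9) 0 0 (step_sound _ 164 [(rh329f59b083601506.shift 1 3), (rh5d7ac7d2f39b0353.shift 2 2), rh67329824268198e5, (rh6df7a2065fe2584c.shift 1 1), (rh778aad725eceaf11.shift 1 0), (rh7b2ef251d90cba3e.shift 1 2), (rh849bf25c21aa08d0.shift 0 4), (rhfc3a72764098adf5.shift 3 2)] (by decide +kernel))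
noncomputable def rh9bb2f615c3b60c7c : CRef := CRef.mk (Pat.mk 0x1800000008000000000000000000000000 0x1c0000003e0000005f000000df000000ff000001ff0000003800000038 9 9) 0 0 (step_sound _ 100 [(rh008024e78995f67b.shift 2 0), (rh1d5d962df521aa98.shift 2 0), rh4078cc23688ff8bc, rh43982a8b2bea7331, rh4915eee5c8e43165, (rhb4845d7e9bb6c969.shift 1 0), rhc48f1dcb35b873d5, rhcd0bce8cfe16172a, (rhf71fcb301a0b6131.shift 1 0)] (by decide +kernel))
noncomputable def rhb971f02372b2395a : CRef := CRef.mk (Pat.mk 0x1800000008000000000000000000000000 0x180000001800000058000000df000000ff000001ff0000003f0000003c 9 9) 0 0 (step_sound _ 100 [(rh008024e78995f67b.shift 2 0), (rh1d5d962df521aa98.shift 2 0), rh43982a8b2bea7331, rhc37922845684d7ef, rhc8c6de1a6b38bfe2, rhfa76e76d1b89c4f1] (by decide +kernel))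
noncomputable def rhd93f4dbd9e6a504b : CRef := CRef.mk (Pat.mk 0x300000001000000000000000000000000000000000 0x280000003c000000ff0000007e0000003f0000003f000000ff000001f60000007e0000003800000028 9 9) 0 0 (step_sound _ 100 [(rh92b03e8c4eb7c7b3.shift 3 0), (rhc6833d3a3c630fe4.shift 0 1), (rhe3458ab40071103b.shift 4 2), (rhf849c8472bff4b9d.shift 3 0)] (by decide +kernel))
noncomputable def rh3e78d51dbb5cf05f : CRef := CRef.mk (Pat.mk 0x180000000800000000000000000000000000000000 0xc0000001c0000001f0000001f0000001e0000001f0000001c0000000c0000000c00000004 9 5) 0 0 (step_sound _ 99 [(rhb8c18aeece372d98.shift 2 0), (rhe26a0cf944a9cba0.shift 0 2), (rhe3458ab40071103b.shift 3 2), (rhe726175a5b7384ef.shift 2 0)] (by decide +kernel))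
noncomputable def rh595cb70a8208754d : CRef := CRef.mk (Pat.mk 0x180000000800000000000000000000000000000000 0xc0000001c0000001f0000001f0000001e0000001f0000000c0000001c0000001c00000014 9 5) 0 0 (step_sound _ 99 [(rh0f5b52d4c767672f.shift 2 0), (rh7820999ded068a27.shift 0 2), (rhe3458ab40071103b.shift 3 2), (rhf849c8472bff4b9d.shift 2 0)] (by decide +kernel))
noncomputable def rh70d65ab19e85826e : CRef := CRef.mk (Pat.mk 0x300000001000000000000000000000000000000000 0x80000001800000038000000380000003c000000ff0000003e0000003800000028 9 8) 0 0 (step_sound _ 100 [(rh15590a39afd9a120.shift 3 0), (rha9caaee05f990922.shift 0 2), (rhf849c8472bff4b9d.shift 3 0), (rhffb8e5993241bf15.shift 3 0)] (by decide +kernel))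
noncomputable def rh7db7cc86da9d9ea2 : CRef := CRef.mk (Pat.mk 0xc00000004000000000000000000000000000000000 0x40000000e0000000f0000000f0000000f0000007df000003ff000007ff000001e8000000a8 9 11) 0 0 (step_sound _ 102 [rhb1e660b69c9896bf, (rhe3458ab40071103b.shift 6 2), (rhfa50cc73c689e7d7.shift 5 0), (rhffb8e5993241bf15.shift 5 0)] (by decide +kernel))
noncomputable def rha44dc394a5f8ac74 : CRef := CRef.mk (Pat.mk 0x1800000008000000000000000000000000 0x1e0000003e0000004f000000df000000ff000001ff000000fe000001fe 9 9) 0 0 (step_sound _ 100 [rh20fb29457d0d3dc9, rh2a6c50334ab32aac, rh4915eee5c8e43165, rh89a3c329a95d560f, (rh9beb382f6e1ae931.shift 1 0), rhb6edc9d8f3db87b6, rhc37922845684d7ef] (by decide +kernel))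
noncomputable def rhbf51ad9f142c0161 : CRef := CRef.mk (Pat.mk 0x3000000010000000000000000000000000 0x2c0000002e000000ae000001be000001fe000003ff000000fe000000ff 9 10) 0 0 (step_sound _ 101 [(rh1d5d962df521aa98.shift 3 0), (rh255a6182130c5821.shift 1 0), rh26f65d3a714a8319, (rh43982a8b2bea7331.shift 1 0), (rh89a3c329a95d560f.shift 1 0), (rhdd367f580f22acf2.shift 1 0)] (by decide +kernel))
noncomputable def rh982662a51b07c797 : CRef := CRef.mk (Pat.mk 0x180000000800000000000000000000000000000000 0xc0000001c0000001f0000001f0000001c0000000e0000007c0000001c0000001c00000014 9 7) 0 0 (step_sound _ 99 [(rh020140c103c93fec.shift 2 0), (rh947561ae8c5c3f87.shift 2 1), (rh99f8f9c253f401b7.shift 0 2), (rhb8c18aeece372d98.shift 2 0), (rhf849c8472bff4b9d.shift 2 0), (rhffb8e5993241bf15.shift 2 0)] (by decide +kernel))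
noncomputable def rh70382a1b8b42d1d7 : CRef := CRef.mk (Pat.mk 0x6000000020000000000000000000000000 0x2000000074000001fc000001fe0000007f0000007e000003fc000003dc000000dc00000094 9 10) 0 0 (step_sound _ 165 [(rh0158bce22b6246f6.shift 3 2), rh0cd62ef8c5aec2a4, (rh33a232b191ae95b0.shift 2 2), (rh7e5d4f80a0017424.shift 2 0), (rhb255976656203730.shift 1 2), (rhd441b8536cfdb1d0.shift 2 2)] (by decide +kernel))
noncomputable def rh8195119ea21bb86b : CRef := CRef.mk (Pat.mk 0x600000000000000000000000000000000000000000 0x2000000074000001fc000001fc0000007e000003ff0000007f000003ff000001ff0000007c00000054 9 10) 0 0 (step_sound _ 133 [(rh04c6542796f914f3.shift 2 1), (rh1da18205f97e66f1.shift 3 0), (rh34a9deeb03dac54e.shift 2 0), (rh385cd5c887476869.shift 2 0), (rh39e217fb17d1e256.shift 0 1), rh4316adb83fd8e009, (rh8e5aad96394de3d4.shift 3 0), (rhad8e4706db7e90c0.shift 2 1), (rhb548828a5af292c5.shift 2 0), (rhb96ff74f629b6f91.shift 0 1), (rhc3c8d2f3a8875c8a.shift 0 1), (rhd4aaba6ab9103f3a.shift 2 1), (rhddbffcdfddd5a177.shift 0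 1)] (by decide +kernel))
noncomputable def rh66325d470cfab240 : CRef := CRef.mk (Pat.mk 0x600000000000000000000000000000000000000000 0x20000000280000077f000003fe000007ff000001fc0000007c0000003800000028 9 11) 0 0 (step_sound _ 164 [(rh2e678656302cb861.shift 0 4), (rh30fbb0fb487535bf.shift 0 4), (rh406a1501c158396f.shift 2 2), (rh6f52c0c31b35ae2f.shift 1 1), (rh70188dd07649dd61.shift 0 2), (rh7d349d6c6d0cb235.shift 2 4), (rhb54390edcf8a95c3.shift 1 4), (rhb9216f5f29d394d8.shift 2 4), (rhbac2be4f0e360e43.shift 1 4), (rhf7f2e2d07d0fe416.shift 1 0)] (by decide +kernel))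
noncomputable def rh7b94ddfb07c51f88 : CRef := CRef.mk (Pat.mk 0x600000002000000000000000000000000000000000 0x400000006000000060000003f0000003fe0000007e0000007f0000007000000050 9 10) 0 0 (step_sound _ 101 [(rh6ce3b0443ca07e9e.shift 0 2), (rhb44fbf6bd2c6418e.shift 4 0), (rhe3458ab40071103b.shift 5 2), (rhffb8e5993241bf15.shift 4 0)] (by decide +kernel))
noncomputable def rhd83b49b534d38e79 : CRef := CRef.mk (Pat.mk 0x180000000800000000000000000000000000000000 0x12000000120000001b0000007f000001ff000000ff000000380000003000000010 9 9) 0 0 (step_sound _ 130 [(rh557b120f072744ca.shift 0 4), (rh69012675dfdb1a5b.shift 0 4), (rh7493a5946e81cdc8.shift 0 1), (rhc3e348198b42d8bc.shift 1 0), (rhd69c262cd33b94b3.shift 0 4)] (by decide +kernel))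
noncomputable def rh819ffacda6c9ff0d : CRef := CRef.mk (Pat.mk 0x180000000800000000000000000000000000000000 0x40000001c0000001c000000180000007c0000003f000000780000003f0000001c00000004 9 7) 0 0 (step_sound _ 130 [rh28d77a0dd292c82d, (rh557b120f072744ca.shift 0 4), (rh69012675dfdb1a5b.shift 0 4), (rhd69c262cd33b94b3.shift 0 4), (rhdada2c0c28b6128e.shift 0 1)] (by decide +kernel))
noncomputable def rh9131db738edfba55 : CRef := CRef.mk (Pat.mk 0x300000001000000000000000000000000000000000 0x400000026000000fe000001fe000001fe000000ff000000fe000000a8 9 9) 0 0 (step_sound _ 131 [rh3a9f74b96e910be5, (rh557b120f072744ca.shift 1 4), (rh69012675dfdb1a5b.shift 1 4), (rh894ff6a844e63b90.shift 1 1), (rhd69c262cd33b94b3.shift 1 4)] (by decide +kernel))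
noncomputable def rh5435a193f21493c1 : CRef := CRef.mk (Pat.mk 0x1800000008000000000000000000000000 0x1800000018000000180000001f000000ff000000ff0000003c0000003c 9 8) 0 0 (step_sound _ 100 [(rh008024e78995f67b.shift 2 0), rh407fb390d8316269, (rh5dc5071a19a64e2e.shift 2 0), rh9b6fff83fabad7bf, rhb448feabc469110d, rhbe18761d05c871a6] (by decide +kernel))
noncomputable def rh8313daa1f1fb2ca5 : CRef := CRef.mk (Pat.mk 0x600000002000000000000000000000000000000000 0x1200000072e000003fe000007ff000003fc000003f0000003f000000070 9 11) 0 0 (step_sound _ 167 [rh0646a5919108f8b3, (rh2820ca9a6c4f41b4.shift 2 4), (rhd1af12ee1a1e7b6b.shift 4 2), (rhf0f55c4504412200.shift 2 4)] (by decide +kernel))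
noncomputable def rhc3f82ed5fda78ad3 : CRef := CRef.mk (Pat.mk 0x180000000800000000000000000000000000000000 0x100000001c0000001c0000001c000000180000003c000001f8000000ff000001fc0000001c00000014 9 9) 0 0 (step_sound _ 99 [(rh3b8df6439b08ed7c.shift 0 2), (rhb44fbf6bd2c6418e.shift 2 0), (rhe3458ab40071103b.shift 3 2), (rhffb8e5993241bf15.shift 2 0)] (by decide +kernel))
noncomputable def rha4a07adef6865b97 : CRef := CRef.mk (Pat.mk 0x180000000000000008000000000000000000000000 0x40000001c0000001c0000001f000000f8000000ff000000ff000000f80000007800000010 9 8) 0 0 (step_sound _ 131 [(rh215e11e099257d75.shift 3 2), (rh22af712fe1842032.shift 0 2), (rh3820f35d5e705bec.shift 3 0), (rhdcac1c7ef7fcb2a7.shift 0 1), (rhe3458ab40071103b.shift 3 2)] (by decide +kernel))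
noncomputable def rh78ab2193fa5114a0 : CRef := CRef.mk (Pat.mk 0x18000000000000000800000000000000000000000000000000 0x40000001c0000001c0000001f000000780000001c0000001c0000000c0000001c0000001c00000014 9 7) 0 0 (step_sound _ 163 [(rh15590a39afd9a120.shift 2 1), (rh215e11e099257d75.shift 3 3), (rh6c79948db6aa3d81.shift 0 3), (rh8a66c9bf3e153cf7.shift 2 0), (rhe3458ab40071103b.shift 3 3)] (by decide +kernel))
noncomputable def rh0fa5d4b5057348eb : CRef := CRef.mk (Pat.mk 0x600000000000000020000000000000000000000000 0x3000000070000000700000007c000001e00000003f000001fe000001fe0000007000000050 9 9) 0 0 (step_sound _ 133 [(rh215e11e099257d75.shift 5 2), rh44ad7e0a1b06d797, (rhce83e8eb8b5b640c.shift 2 2), (rhffb8e5993241bf15.shift 4 0)] (by decide +kernel))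
noncomputable def rh63f4b93d0cda74fc : CRef := CRef.mk (Pat.mk 0x60000000000000002000000000000000000000000000000000 0x300000003000000030000003e0000003ff000003fe000003fe000001f00000007000000050 9 10) 0 0 (step_sound _ 165 [(rh00f4d712d88729c0.shift 4 2), (rh162aa01abd884e4f.shift 2 3), (rh3beaf7cc43a1a946.shift 2 1), (rh44ad7e0a1b06d797.shift 0 1), (rh608a2540e141ac1e.shift 2 1), (rh7a1df22be2ece635.shift 3 1), (rh8a66c9bf3e153cf7.shift 4 0), (rhdcac1c7ef7fcb2a7.shift 2 2)] (by decide +kernel))
noncomputable def rh182ad3aba206955f : CRef := CRef.mk (Pat.mk 0x1800000000000000080000000000000000000000000000000000000000 0x800000018000000d8000001d0000001f8000003ff000001fe000001ff000000fe0000007e0000003e00000014 9 10) 0 0 (step_sound _ 164 [(rh14fe1bfe879a0918.shift 0 1), (rh19ec4640fbc4b285.shift 1 1), (rh66f92caee64592a1.shift 0 2), (rh6781fe548d237029.shift 1 1), rha7a3353dd449afce, (rhb9d56e533d077acc.shift 2 0), rhf1ac748a18bfa8d2, (rhf2c2b27fc7df34d4.shift 0 2)] (by decide +kernel))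
noncomputable def rh0fe266c618c304a4 : CRef := CRef.mk (Pat.mk 0x300000000000000010000000000000000000000000 0x1800000038000001b8000001be000001f0000007fe000003ff000003ef000000e8000000e8 9 11) 0 0 (step_sound _ 101 [(rh1c25d78617bffbe5.shift 1 0), (rh2b1d6441a96cb0f0.shift 1 2), rh2c6fb08033da33a6, (rh353c86b1832e6b82.shift 1 0), (rh6d1a4543db48b2ff.shift 0 1), (rhcc38da417ca6994e.shift 1 0), (rhff5d1bc70e9d7b6a.shift 1 2)] (by decide +kernel))
noncomputable def rh1141ee8accf25073 : CRef := CRef.mk (Pat.mk 0x6000000000000000200000000000000000000000000000000000000000 0x20000000e0000001e0000003e000000778000007e800000fde000007ff00000fff000001f0000001f0000001c000000040 9 12) 0 0 (step_sound _ 166 [(rh353c86b1832e6b82.shift 2 2), (rh7d6a465d590a4692.shift 3 2), (rh85f9d1d99eba7de4.shift 5 2), (rh8666682d10d8721e.shift 1 0), (rh941266a0188a9cba.shift 5 2), (rh97ccf9e84a3338e0.shift 1 2), (rhaa32a8b5e92ce90b.shift 0 2), (rhf2c2b27fc7df34d4.shift 2 2)] (by decide +kernel))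
noncomputable def rh28124fcf951b2e6e : CRef := CRef.mk (Pat.mk 0xe000000000000000000000000 0x50000000700000007000000370000003e000000770000000600000006 9 7) 0 0 (step_sound _ 100 [(rh2eb6cac0fecf3e9c.shift 0 2), (rh56f43794bcf10c2f.shift 0 2), (rh8db7f7558b75b2b1.shift 0 2), rh9e96e88217ec0616] (by decide +kernel))
noncomputable def rh57f91aaac1c0212e : CRef := CRef.mk (Pat.mk 0xe00000000000000000000000000000000000000000 0x74000001fc000001fe0000007f000000fe000003ff000003ec000000fc000000f400000050 9 10) 0 0 (step_sound _ 133 [(rh16591c84a7f96040.shift 0 1), (rh31cb4d3f054800db.shift 2 2), (rh57328f872dbd2b40.shift 2 1), (rh8f9541687a62943d.shift 2 0), (rhd0a7b5bd3f922abd.shift 0 1), (rhedad74a424ed7d2f.shift 2 2)] (by decide +kernel))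
noncomputable def rh7c3366e11d8209e3 : CRef := CRef.mk (Pat.mk 0x300000000000000000000000000000000000000000 0x100000007000000070000001f8000003b8000003fe000007ff000003ff000007ff000000fc000000f4 9 11) 0 0 (step_sound _ 133 [(rh215cd50caf41adfe.shift 1 1), (rh2322885c42eb44be.shift 2 1), (rh3c181e32c2f4549d.shift 1 0), (rh4c6e3ebb3308692d.shift 1 0), (rh55518eebcd8fbe14.shift 1 1), (rh60ef58de276ac4ff.shift 0 1), (rh93e0f4efe2dba385.shift 0 1), (rh9db7dff061af908b.shift 0 1), rhcb695c53aa173f02, rhe188b5f5d62d34da, (rhebfc44688e34d51f.shift 1 1), rhf515c21a6becd46f] (by decide +kernel))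
noncomputable def rhe9f7fb4ad585b65a : CRef := CRef.mk (Pat.mk 0x30000000000000000000000000000000000000000000000000 0x80000003c0000003c0000003f000001f8000003fe000001ff000000ff0000007c0000003c00000010 9 10) 0 0 (step_sound _ 164 [(rh00e9f12f2a89c7fc.shift 2 1), (rh04c6542796f914f3.shift 1 2), (rh57887e4dff33a6c3.shift 1 1), (rh61cdffdb6b66d3bf.shift 0 1), (rh773222da3a2b04ab.shift 1 1), (rh82b8eb2051b29e9f.shift 2 1), rh9934a983875052e4, (rhac89fc32b9660ffb.shift 0 1), (rhcbe24631faa81879.shift 0 2), (rhd1e806f028ef5ff1.shift 1 2), (rhdc382644493f6211.shift 1 2), (rhe02f9832c7afd27b.shift 1 1), (rhe9fabee5f68e4d73.shift 1 2)] (by decide +kernel))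
noncomputable def rh758b504e3e2143c3 : CRef := CRef.mk (Pat.mk 0x80000001800000000000000000000000000000000 0x100000007c0000007c0000001f0000007e000000fc000000f80000003800000008 9 8) 0 0 (step_sound _ 100 [(rh5d54cb79a67f97ab.shift 3 1), (rh7e1098702e50f2b0.shift 3 1), (rh95132bf40b298f0a.shift 1 1), (rha40d42a2e34c408d.shift 3 1), rheaff2b33516596aa] (by decide +kernel))
noncomputable def rh80992a77acd17912 : CRef := CRef.mk (Pat.mk 0x80000001800000000000000000000000000000000 0x100000007c0000007c0000001f0000007e000000f80000003e0000003e0000000c 9 8) 0 0 (step_sound _ 100 [(rh04de2b1750c28326.shift 1 1), (rh5d54cb79a67f97ab.shift 3 1), (rh7e1098702e50f2b0.shift 3 1), (rha40d42a2e34c408d.shift 3 1), rheb4d68c42e016993] (by decide +kernel))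
noncomputable def rh55440798f557b611 : CRef := CRef.mk (Pat.mk 0x40000000c00000000000000000000000000000000 0x80000000c0000000c0000000e0000001f0000007e0000003f0000001f00000006 9 7) 0 0 (step_sound _ 99 [(rh04de2b1750c28326.shift 0 1), (rh5d54cb79a67f97ab.shift 2 1), (rh7e1098702e50f2b0.shift 2 1), (rha40d42a2e34c408d.shift 2 1), rhd795438defdafdf9] (by decide +kernel))
noncomputable def rh3f2fa4ae738a13f2 : CRef := CRef.mk (Pat.mk 0x80000001800000000000000000000000000000000 0x80000001c0000001e000000fe000000fc000000ff0000003c00000028 9 8) 0 0 (step_sound _ 100 [(rh27dc6f67468e4eaf.shift 1 1), (rh7e1098702e50f2b0.shift 3 1), (rha40d42a2e34c408d.shift 3 1), rhdedaacbc108e9270] (by decide +kernel))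
noncomputable def rhe1562ce04495a4db : CRef := CRef.mk (Pat.mk 0x1000000030000000000000000000000000 0x200000003c0000003c0000001f0000003e000000ff000000f80000003800000038 9 8) 0 0 (step_sound _ 131 [rh0fbdcfd428eaf347, (rh4ca5dae25f5c14ff.shift 1 3), rh8079f89be9c77fe2, (rhdeca8db941583de2.shift 1 3)] (by decide +kernel))
noncomputable def rhb91103075b2a1531 : CRef := CRef.mk (Pat.mk 0x1000000030000000000000000000000000 0x100000003c0000007e0000007f0000003e000000f8000000780000001800000018 9 8) 0 0 (step_sound _ 131 [(rh4ca5dae25f5c14ff.shift 1 3), (rh836f52b8f1358a75.shift 0 1), rhd523dea06fae239b, (rhdeca8db941583de2.shift 1 3)] (by decide +kernel))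
noncomputable def rhc13d375982caf113 : CRef := CRef.mk (Pat.mk 0x800000018000000000000000000000000 0x140000007c0000007c0000001f000000780000001c0000001c0000001c 9 7) 0 0 (step_sound _ 163 [(rh046c5eb18e55a239.shift 3 0), (rh20d5890dee1c6816.shift 2 0), (rh70e33bfdf511e144.shift 3 0), rh9547fd2ca9e28cc3] (by decide +kernel))
noncomputable def rhc9647c4468ff6d02 : CRef := CRef.mk (Pat.mk 0x20000000600000000000000000000000000000000000000000 0x5000000078000003fe000001fc0000003f000001fe000003f7000001fc000003fc0000007000000010 9 10) 0 0 (step_sound _ 164 [(rh07238631f60dcc65.shift 0 2), rh3c4402ef6120068e, (rh636a94e64f7e8632.shift 3 2), (rh7ddbecf1214c2b89.shift 3 2), (rh93a8c7dd945d5fe8.shift 2 2), (rhdbf53a2e71682536.shift 3 2), (rhe3be010cd160edc6.shift 1 2)] (by decide +kernel))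
noncomputable def rhac964776fe1bed4f : CRef := CRef.mk (Pat.mk 0x1000000030000000000000000000000000 0x300000007c000000ff000000ff0000003e000000ff000001e80000006800000028 9 9) 0 0 (step_sound _ 131 [(rh3763708573e6b6c7.shift 1 0), (rh4ca5dae25f5c14ff.shift 1 3), rh6315632718c0b639, (rhdeca8db941583de2.shift 1 3)] (by decide +kernel))
noncomputable def rh5c4a7549f3c49e87 : CRef := CRef.mk (Pat.mk 0x100000003000000000000000000000000000000000 0x100000003c0000007e0000007f0000003e000000f800000018000000380000003800000008 9 8) 0 0 (step_sound _ 163 [(rh4ca5dae25f5c14ff.shift 1 4), (rh836f52b8f1358a75.shift 0 2), rh837c2102e8e07cfb, (rhdeca8db941583de2.shift 1 4)] (by decide +kernel))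
noncomputable def rhba9d91026b1b6c42 : CRef := CRef.mk (Pat.mk 0x20000000600000000000000000000000000000000000000000 0x40000001500000037e00000ffe000007f7000003fc000007fe0000014000000040 9 12) 0 0 (step_sound _ 167 [(rh1c3256059b8d6c56.shift 4 4), rh7263d044dfb722fe, (rh93c4b8c1b0259a52.shift 4 2), (rha9fbfd4bb8cf890b.shift 2 5)] (by decide +kernel))
noncomputable def rh27fb3cb41c6ab9bb : CRef := CRef.mk (Pat.mk 0x600000000000000000000000000000000000000000 0x10000000780000007800000178000003fe000007fe000007ff000001fe000000fc00000054 9 11) 0 0 (step_sound _ 133 [(rh25f2558d0fc5881a.shift 3 0), (rh3707f6ffe6f294b5.shift 2 1), (rh4433558f581caf9c.shift 2 0), (rh4d141704f6e6e414.shift 2 1), (rh59fa1dd8399afa30.shift 2 1), (rh63b59a168fcd8c7b.shift 3 0), rh7e77c50e8e49de3f, (rh9658cc2d88757d69.shift 3 0), (rhd9ed32d7725970a9.shift 0 1), (rhe7b477859428b579.shift 1 0), (rhee56aa1311863843.shift 2 1)] (by decide +kernel))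
noncomputable def rhf68801438f85ba7f : CRef := CRef.mk (Pat.mk 0x1800000010000000100000001000000000 0x140000001e0000007f0000007f0000001f0000000c 9 7) 0 0 (step_sound _ 35 [(rh932754581e0f4330.shift 3 0), rhe1164c90c92af023] (by decide +kernel))
noncomputable def rh49e73e803bf890e9 : CRef := CRef.mk (Pat.mk 0x40000000c0000000800000008000000000 0x60000000600000007f000003fe000001bf000001f000000030 9 10) 0 0 (step_sound _ 166 [(rh2145e1d24b96a57e.shift 6 2), rh8e3264e3b80ace24] (by decide +kernel))
noncomputable def rh7b6f8690ea1a2744 : CRef := CRef.mk (Pat.mk 0x2000000060000000400000000000000000 0x8000000090000007bf000003fe0000007e0000003c00000038 9 11) 0 0 (step_sound _ 103 [rh84fbc88ff03b5e04, (rh9260967c1dcba1c9.shift 1 2), (rh9f93e2b24091a43d.shift 4 2), (rha9fbfd4bb8cf890b.shift 2 3)] (by decide +kernel))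
noncomputable def rh9084a01451f2114f : CRef := CRef.mk (Pat.mk 0x10000000100000001000000010 0x1e8000000fe000001ff0000001000000010 9 9) 0 0 (step_sound _ 99 [(rh50fbb5868c909700.shift 3 0), rh841f88a132b64fde] (by decide +kernel))
noncomputable def rhbf369c614a0ea509 : CRef := CRef.mk (Pat.mk 0x100000001000000010000000000000000800000000 0x4000000040000002f0000007e0000007f00000018000000300000003800000028 9 7) 0 0 (step_sound _ 68 [(rhad4af35b1ac5fcc5.shift 0 2), (rhbd097c4034f102b6.shift 3 0)] (by decide +kernel))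
noncomputable def rh963a8134eb35a2b1 : CRef := CRef.mk (Pat.mk 0x400000004000000060000000000000002000000000 0x3800000038000000f8000001df000000ff000001bf000000b800000088 9 9) 0 0 (step_sound _ 100 [(rhb12ffaec36122c99.shift 1 2), (rhd7c0a18f92b59752.shift 2 2), (rhd8c24d9b70d6ce6b.shift 3 1), rhe712ec21d2a77189, (rhff68140e5315950a.shift 3 0)] (by decide +kernel))
noncomputable def rh083abebbc3dd2540 : CRef := CRef.mk (Pat.mk 0x80000001800000010000000000000001000000000 0x40000006f0000003e000000fc000001ef000000fc000003fe 9 10) 0 0 (step_sound _ 101 [(rh0673c8b0658797e4.shift 2 0), (rh3c3e23a02e82b2ed.shift 1 3), (rh5c5a2014709044d0.shift 1 3), rh8b6e5e033e3a35a0] (by decide +kernel))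
noncomputable def rhad729251c26bb374 : CRef := CRef.mk (Pat.mk 0x80000001800000010000000000000000000000000 0xe0000000f0000003f0000003e000000fc000000ec0000000800000008 9 8) 0 0 (step_sound _ 195 [(rh2145e1d24b96a57e.shift 3 3), rhdf0b7b52f169e4df] (by decide +kernel))
noncomputable def rh0dc334b8d53b9f07 : CRef := CRef.mk (Pat.mk 0x1000000018000000300000000000000000 0xc0000000c0000002f000000ff0000001f000000320000001000000010 9 8) 0 0 (step_sound _ 131 [(rh0a444d2316a5537b.shift 1 0), (rh3cb04db3dd2b6a55.shift 3 0), (rh80ee975a6876dcd1.shift 0 2)] (by decide +kernel))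
noncomputable def rh73178040fac32eee : CRef := CRef.mk (Pat.mk 0x8000000080000000800000000 0x40000001c0000001c0000001f0000003f0000003f0000000c0000000c00000004 9 6) 0 0 (step_sound _ 131 [(rh20966da26a1c2ae8.shift 2 0), (rh968ba7b0df7e4096.shift 2 0), rhbd43a7e385923071, (rhc85cc95794737cf7.shift 2 1), (rhff96651a0dddf3cc.shift 2 0)] (by decide +kernel))
noncomputable def rh7588a71766ec5470 : CRef := CRef.mk (Pat.mk 0x40000000400000004000000000000000000000000 0x80000000c0000000c0000003f0000003f0000003e0000000a 9 6) 0 0 (step_sound _ 66 [(rh0a7bbcc1ebd1be36.shift 0 1), (rh6c59ce14113da07f.shift 2 0), (rh6eff4158bb400f47.shift 1 0), (rhcab3157f7bdcba3e.shift 1 0)] (by decide +kernel))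
noncomputable def rh29530197077801c0 : CRef := CRef.mk (Pat.mk 0x80000000800000010000000000000000000000000 0x8000000380000003800000018000000f80000003f0000003c00000010 9 8) 0 0 (step_sound _ 68 [(rh0188917d0a15b7ff.shift 3 2), (rh151c4dd579819642.shift 2 1), (rh2631c0188d831221.shift 0 1), (rh74a43b9a483760f6.shift 3 0), (rhdeec3bc2a8e1e9dd.shift 3 0)] (by decide +kernel))
noncomputable def rhf923e1cd724294d9 : CRef := CRef.mk (Pat.mk 0x10000000200000002000000020 0x5000000050000007dc000003ff000003fe00000028 9 11) 0 0 (step_sound _ 68 [(rh89d86c6f37565103.shift 2 0), rhe05b02b243ece2fa, (rhe072fffdd2fccf38.shift 4 0)] (by decide +kernel))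
noncomputable def rh7b8a1967d08d1c05 : CRef := CRef.mk (Pat.mk 0x800000008000000080000001000000000000000000000000000000000 0x30000000780000007f0000003f000000fc000001ec0000001c0000001c00000014 9 9) 0 0 (step_sound _ 131 [rh3a320c1ad781fc59, (rh43e9c06ca9ffa876.shift 0 1), (rh5d6f29b55455895e.shift 0 3), rh8e86c51aba6dd008, (rhcab3157f7bdcba3e.shift 2 2), (rhe17074daefcac73d.shift 0 3)] (by decide +kernel))
noncomputable def rheec74041fb492c41 : CRef := CRef.mk (Pat.mk 0x800000008000000180000000000000000 0x140000001c0000001c0000001c0000003c0000000f0000000f0000007c0000000e0000000c 9 7) 0 0 (step_sound _ 98 [(rh3c3e23a02e82b2ed.shift 0 2), rh746b1eaff195a96d, rh955a8bc71bd42a0c] (by decide +kernel))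
noncomputable def rh63cb231ffb6b4435 : CRef := CRef.mk (Pat.mk 0x80000000c000000180000000000000000000000000000000000000000 0x140000007c0000000f00000018000000180000001c0000001c0000001c00000010 9 7) 0 0 (step_sound _ 193 [(rh4e578e53703819b3.shift 1 0), (rhb739f4f82bb681b4.shift 0 5)] (by decide +kernel))
noncomputable def rha31833d72126e601 : CRef := CRef.mk (Pat.mk 0x40000000c0000000800000008000000000000000000000000 0x780000007c0000001f000000f8000000ff000000f40000003000000020 9 8) 0 0 (step_sound _ 132 [rh1c89e5f828034ea3, (rh4ca5dae25f5c14ff.shift 0 4), (rhd2ff1294fee72422.shift 0 2)] (by decide +kernel))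
noncomputable def rh715601436bfe90d4 : CRef := CRef.mk (Pat.mk 0x10000000100000002000000020000000200000000000000000 0x1000000010000003f0000003fe000003ff000000c0000000c0 9 10) 0 0 (step_sound _ 100 [rhd01f443badc31089, (rhff0f29cb645b05f7.shift 4 2)] (by decide +kernel))
noncomputable def rha30ee3511751d125 : CRef := CRef.mk (Pat.mk 0x40000000400000004000000000000000000000000 0x80000000c0000000c0000003f0000003f0000003e0000000a 9 6) 0 0 (step_sound _ 66 [(rh6c59ce14113da07f.shift 2 0), (rh6eff4158bb400f47.shift 1 0), (rha15ea1106d27f115.shift 0 1), (rhcab3157f7bdcba3e.shift 1 0)] (by decide +kernel))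
noncomputable def rh119e4588c76f53fe : CRef := CRef.mk (Pat.mk 0x800000008000000100000001800000000 0x1000000010000000340000007f0000003f000000f80000003e00000028 9 8) 0 0 (step_sound _ 69 [(rh574fdbf07bdd18b9.shift 1 1), rh59f0e88bbab68aaa, rhe85fce033667bfd2] (by decide +kernel))
noncomputable def rh59450b2f6b30c777 : CRef := CRef.mk (Pat.mk 0x800000008000000100000001800000000 0x740000007c0000003f0000007c0000001f00000007 9 7) 0 0 (step_sound _ 67 [(rh2d8b9f8fc7ad4c88.shift 0 1), rh4f9b4ae6d8c5110f, rh6fae963f33cfdfd7] (by decide +kernel))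
noncomputable def rhcdbc8ac52ba42a7e : CRef := CRef.mk (Pat.mk 0x8000000180000000800000000 0x140000001c0000001c0000001c0000007f0000003f000000780000000c00000004 9 7) 0 0 (step_sound _ 131 [(rh1741680720c097b4.shift 2 1), (rh28e528d33d85c200.shift 2 0), (rh604941e6d05e4d72.shift 2 0), rh67161167dd78cde6, (rh7e7627a60a99036b.shift 2 0), rhfb764e5ce6699348] (by decide +kernel))
noncomputable def rhd96978996ba21256 : CRef := CRef.mk (Pat.mk 0xc0000000c0000000800000000000000000000000000000000 0xc0000001c000001f8000000ff000000fc0000002000000020 9 9) 0 0 (step_sound _ 99 [(rh7b1f1fb55310c477.shift 2 2), rhfde5c15cd2cdc89f] (by decide +kernel))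
noncomputable def rh3b3374c919bf32c4 : CRef := CRef.mk (Pat.mk 0x80000001800000008 0x3c0000007c0000007e0000007f0000007c00000008 9 7) 0 0 (step_sound _ 66 [(rh3c3e23a02e82b2ed.shift 0 1), (rh8f958595f2d7a157.shift 1 0), (rhb0121edee88fe839.shift 0 1), rhcf8e04ac2e2850fe] (by decide +kernel))
noncomputable def rhbc293e4d7efffac8 : CRef := CRef.mk (Pat.mk 0x30000000100000002000000000 0x4400000044000000e7000000ff0000007e0000006800000020 9 8) 0 0 (step_sound _ 67 [(rh005328c9d6472acf.shift 1 1), (rh0bb882ba86b2372d.shift 1 2), rhc739c7f1214dbab7, (rhf3169cbada5a42ca.shift 1 1)] (by decide +kernel))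
noncomputable def rh1f8971c784d79d96 : CRef := CRef.mk (Pat.mk 0x700000001000000000 0x3c0000003f000000fe0000007c0000001e00000008 9 8) 0 0 (step_sound _ 67 [rh31da3ea4a5e556f3, (rh775ca1963e850b80.shift 1 1), (rh8e490d90921524fe.shift 2 1), (rh9e97bba44c1b13e4.shift 1 1)] (by decide +kernel))
noncomputable def rhaee77175b7246d8d : CRef := CRef.mk (Pat.mk 0x1000000010000000300000002000000000 0x6c000000ef000000ff0000003e0000007f000001ec0000004c 9 9) 0 0 (step_sound _ 99 [(rh4e264bcae71bec50.shift 1 0), rh534457449eb2ef38, rh7d8ed7ba51414b4c, (rhb0121edee88fe839.shift 1 2), (rhe485a59421f95ab7.shift 1 2)] (by decide +kernel))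
noncomputable def rhc6993ccba5cf9e09 : CRef := CRef.mk (Pat.mk 0x8000000180000001000000010000000000000000000000000 0x120000001f0000003e000000fe0000007e000000ec0000004000000040 9 8) 0 0 (step_sound _ 133 [(rh2d4f16b1b12ca8a2.shift 0 2), (rhb0121edee88fe839.shift 1 4), (rhdd77e8c0cfd2e4ac.shift 1 0)] (by decide +kernel))
noncomputable def rh2e57623cd9ee84c5 : CRef := CRef.mk (Pat.mk 0x800000018000000100000001000000000 0x600000006000000260000006f0000003f000000fe0000007f0000000f 9 8) 0 0 (step_sound _ 98 [(rh5fdfeb43249d7b13.shift 1 0), (rh8ee80cc30e93a344.shift 1 2), (rh9909eeda0ef2ed2c.shift 1 2), (rhc21a95c499b3efdb.shift 1 2), rhf4d88a2b5a9fa7e0] (by decide +kernel))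
noncomputable def rhd53c4fa448d0249d : CRef := CRef.mk (Pat.mk 0x8000000080000001800000010000000000000000000000000 0x600000006000000ef000000ff0000003f000000fe000000ee0000000800000008 9 8) 0 0 (step_sound _ 101 [(rh7b45664c122fa76f.shift 2 0), (rh968ca8ad360f43ad.shift 0 2), (rhb0121edee88fe839.shift 1 3)] (by decide +kernel))
noncomputable def rh5513176e774cdbb2 : CRef := CRef.mk (Pat.mk 0x800000008000000180000001000000000 0x6000000060000007f0000007f0000003f000000f600000006 9 8) 0 0 (step_sound _ 66 [rh4c4cd986cdb9f76d, (rh8ee80cc30e93a344.shift 1 1), (rhc53ab2845504070a.shift 0 1)] (by decide +kernel))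
noncomputable def rh618c7b49a8d72916 : CRef := CRef.mk (Pat.mk 0x1000000010000000300000000000000000 0x280000006f0000007f0000007e000000f80000001e00000018 9 8) 0 0 (step_sound _ 99 [(rh9276edaf8e76eb1a.shift 1 0), rh97414a24e45b4f7f, (rhb0121edee88fe839.shift 1 2)] (by decide +kernel))
noncomputable def rhb7072fbebcb8be97 : CRef := CRef.mk (Pat.mk 0x1000000030000000200000002000000000 0xc0000001c0000005f000000df0000007c000001ec0000007c00000008 9 9) 0 0 (step_sound _ 164 [(rh2145e1d24b96a57e.shift 4 2), rha3efefe8d404be53] (by decide +kernel))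
noncomputable def rhb9e95ca250fdb6cc : CRef := CRef.mk (Pat.mk 0x10000000100000001800000000 0x80000001c0000001f000000ff000000ff0000001f00000014 9 8) 0 0 (step_sound _ 131 [(rh114f4abf4ea101c9.shift 3 0), (rh6941099612365d4c.shift 0 1), rh991cca38b3f3a020] (by decide +kernel))
noncomputable def rhf7d82867572884ab : CRef := CRef.mk (Pat.mk 0x1000000020000000200000002000000000 0x1800000018000003df000003ff000007ff0000003c00000018 9 11) 0 0 (step_sound _ 100 [rh02d9c579011e3eec, rhc8f44865133a5c5b, (rhe072fffdd2fccf38.shift 4 1)] (by decide +kernel))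
noncomputable def rhb7ee4591692f32dc : CRef := CRef.mk (Pat.mk 0x800000008000000080000001000000000000000000000000000000000 0x30000000780000003f000003bf000001fe000003ec0000003c0000003c00000014 9 10) 0 0 (step_sound _ 131 [rh3a320c1ad781fc59, (rh43e9c06ca9ffa876.shift 0 1), (rh44010dc6b63382d3.shift 0 1), rh8e86c51aba6dd008, (rhcab3157f7bdcba3e.shift 2 2), (rhe17074daefcac73d.shift 0 3)] (by decide +kernel))
noncomputable def rheb49d8db84dacd42 : CRef := CRef.mk (Pat.mk 0x2000000020000000200000004 0x40000000700000007000000030000000600000006000000070000000700000005 9 3) 0 0 (step_sound _ 129 [rh6d0d82e24e879366, (rhd3458b32566d63f7.shift 1 0)] (by decide +kernel))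
noncomputable def rh6e39b86d2d857efd : CRef := CRef.mk (Pat.mk 0x8000000080000001800000000000000000000000000000000 0x740000007c0000003f0000007c00000018000000180000001800000008 9 7) 0 0 (step_sound _ 100 [(rh08edf065357d68e5.shift 3 1), (rh79ad7b82ec8c35e2.shift 3 1), rhc9a41bebe073f303] (by decide +kernel))
noncomputable def rha59fae74b12ead1f : CRef := CRef.mk (Pat.mk 0x8000000080000001800000010000000000000000000000000 0x140000001f0000003f0000001e0000003f0000002f0000000c00000008 9 6) 0 0 (step_sound _ 99 [(rh133a557e31f61050.shift 0 2), (rh2d34244505ff44c2.shift 2 0), (rh83108174dbb9c1c7.shift 0 2), (rhcab3157f7bdcba3e.shift 2 1)] (by decide +kernel))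
noncomputable def rh6bcb35a6f859d01f : CRef := CRef.mk (Pat.mk 0x100000001000000030000000000000002000000000 0x1c0000001e000000fc000001ef0000007c0000002c 9 9) 0 0 (step_sound _ 69 [(rh7b1f1fb55310c477.shift 4 0), rha1cd5d8ce6afa02f] (by decide +kernel))
noncomputable def rh7bb2d2b33ca8bae6 : CRef := CRef.mk (Pat.mk 0x1000000010000000300000000000000000 0x2c0000006f0000007f0000007e000000f80000001e00000018 9 8) 0 0 (step_sound _ 99 [rh42e4f17b18cb4726, rh97414a24e45b4f7f, (rhb0121edee88fe839.shift 1 2)] (by decide +kernel))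
noncomputable def rh5068632e28c25248 : CRef := CRef.mk (Pat.mk 0x4000000040000000e000000000000000000000000 0x80000000c000001cf000000fe000001fb0000001200000012 9 9) 0 0 (step_sound _ 100 [rh593b7a50cb070e5a, (rhae036cc4ef671676.shift 0 1), (rhe3060b190bc0bc78.shift 0 3)] (by decide +kernel))
noncomputable def rh2c21e8500589e616 : CRef := CRef.mk (Pat.mk 0x8000000080000001c000000000000000000000000 0x60000000f0000003f0000001e000000370000001600000016 9 6) 0 0 (step_sound _ 68 [(rh08edf065357d68e5.shift 3 0), (rh3930ccf2bfb33cf6.shift 0 1), rh6a1a165d9500a14c] (by decide +kernel))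
noncomputable def rhf7fce303716bddf8 : CRef := CRef.mk (Pat.mk 0x8000000180000001000000010000000000000000000000000 0xf2000000ff0000003e000001f6000001fe000001ec0000006000000040 9 9) 0 0 (step_sound _ 133 [(rh1c89e5f828034ea3.shift 1 0), (rh2d4f16b1b12ca8a2.shift 0 2), (rh4ca5dae25f5c14ff.shift 1 4)] (by decide +kernel))
noncomputable def rh8293024c0b5568bb : CRef := CRef.mk (Pat.mk 0x1000000038000000200000000000000000 0x1c0000003c0000001f0000001f000000780000002c0000000c00000008 9 7) 0 0 (step_sound _ 131 [(rh1431e9557db421e0.shift 2 1), rhbefa01955daf0702, (rhe2b63c00a3d7bb73.shift 1 3)] (by decide +kernel))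
noncomputable def rha4a0a8769b1b9487 : CRef := CRef.mk (Pat.mk 0x80000001800000010000000000000000000000000 0x120000001f0000003e000000ff000000ff0000007c0000000c 9 8) 0 0 (step_sound _ 68 [(rh7b1f1fb55310c477.shift 3 1), rhb9850f337c05fa14] (by decide +kernel))
noncomputable def rh3d6b43573d1d7105 : CRef := CRef.mk (Pat.mk 0x40000000c0000000800000008000000000000000000000000 0x180000003c0000001f000000f8000000fc000000f40000002000000020 9 8) 0 0 (step_sound _ 195 [(rh54aac62bbe930afa.shift 2 0), (rhc0ddb33d3a52722b.shift 0 3)] (by decide +kernel))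
noncomputable def rh3299a8236509a078 : CRef := CRef.mk (Pat.mk 0x80000000800000018000000100000000000000000 0x26000000270000007f0000007f0000003f000000ff0000002a00000008 9 8) 0 0 (step_sound _ 98 [rh6943ad8912fcd328, (rh8ee80cc30e93a344.shift 1 2), rhe17a738016f97b67] (by decide +kernel))
noncomputable def rhf2319fd95f26f4ae : CRef := CRef.mk (Pat.mk 0x1000000010000000300000002000000000 0xc0000004c000000ef000000ff000000ff000000780000003800000010 9 8) 0 0 (step_sound _ 99 [(rh4da2778a5d645386.shift 1 0), rh5b1d448da22c19d1, (rhb0121edee88fe839.shift 1 2)] (by decide +kernel))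
noncomputable def rh10e15145e136c885 : CRef := CRef.mk (Pat.mk 0x40000000c000000080000000000000000 0x18000000780000007c0000001f0000007c0000001800000018 9 7) 0 0 (step_sound _ 35 [rh1fec4a35ede9be6f, (rh7b1f1fb55310c477.shift 2 0)] (by decide +kernel))
noncomputable def rhb280c6f1c03f64aa : CRef := CRef.mk (Pat.mk 0x800000008000000180000000000000000 0xe0000000e0000000e0000003f0000007f0000000f0000000e 9 7) 0 0 (step_sound _ 98 [rh48b421ddb5394e27, (rh5c5a2014709044d0.shift 0 2), rh96b06ca7aad1fdcd, rh9aec76d17b8263ba, (rhb0121edee88fe839.shift 0 2)] (by decide +kernel))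
noncomputable def rh2188d10eb3dedfa2 : CRef := CRef.mk (Pat.mk 0x2000000060000000400000004000000000 0x180000001800000098000001be000000fe000003ff000000f800000020 9 10) 0 0 (step_sound _ 100 [(rh5fdfeb43249d7b13.shift 3 0), (rh9909eeda0ef2ed2c.shift 3 2), (rhae043b7040a09eba.shift 0 2), (rhf00a222293c22082.shift 2 0)] (by decide +kernel))
noncomputable def rh36a68ffd23fdcfcd : CRef := CRef.mk (Pat.mk 0x400000004000000040000000800000000 0x4000000060000000e0000003e0000000f0000000e0000000c00000004 9 6) 0 0 (step_sound _ 162 [rhb220754ea8dc3fc1, (rhd3458b32566d63f7.shift 2 1)] (by decide +kernel))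
noncomputable def rh3dde855a063340f0 : CRef := CRef.mk (Pat.mk 0x1000000010000000100000003000000000 0x800000018000000100000007f000001fe000001cf 9 9) 0 0 (step_sound _ 35 [(rh932754581e0f4330.shift 3 0), rhbd229defb74cdbf0] (by decide +kernel))
noncomputable def rh997c64d22ca7cc80 : CRef := CRef.mk (Pat.mk 0x8000000080000000800000018000000000000000000000000 0x180000003f0000003f0000007f0000006f0000002a00000022 9 7) 0 0 (step_sound _ 98 [(rh932754581e0f4330.shift 2 2), rhabf3e8f0e9525159] (by decide +kernel))
noncomputable def rh0d5d5bbcf875e412 : CRef := CRef.mk (Pat.mk 0x800000008000000380000000000000000 0x340000003f00000038000000f80000001e0000001c 9 8) 0 0 (step_sound _ 35 [(rh157b220518f94713.shift 2 0), rhb7c024c652e3fadd, (rhfbf2eae4035425b6.shift 1 0)] (by decide +kernel))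
noncomputable def rh0fab673fb364dcf8 : CRef := CRef.mk (Pat.mk 0x80000000800000030000000000000000000000000 0x200000006e0000003e000000ff000000ff0000001c0000000c 9 8) 0 0 (step_sound _ 132 [(rh3c3e23a02e82b2ed.shift 1 3), (rhb0121edee88fe839.shift 1 3), rhc280b75c2141659f, (rhde4b803696cd3206.shift 1 1)] (by decide +kernel))
noncomputable def rhbe0b40f6b4797a7f : CRef := CRef.mk (Pat.mk 0x400000004000000180000000000000000 0x18000000780000007c0000001f0000007c0000001800000018 9 7) 0 0 (step_sound _ 99 [(rh3c3e23a02e82b2ed.shift 0 2), rhb990105fe101a292, (rhebdec60a6c01d07a.shift 2 0)] (by decide +kernel))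
noncomputable def rhea4fc5f073948bcb : CRef := CRef.mk (Pat.mk 0x2000000020000000c00000004000000000 0x8000001dc000001f8000000fe000000ff000007f8000001b8 9 11) 0 0 (step_sound _ 100 [(rh01c2cbc35a6b8288.shift 0 2), rh1ccad4f208adb4f9, (rhe753c2bd6bb4eeba.shift 2 2), (rhfaa779ac513c4d20.shift 2 0)] (by decide +kernel))
noncomputable def rhb1ce23252dc64dc3 : CRef := CRef.mk (Pat.mk 0x400000004000000180000000800000000000000000000000000000000 0x4000000140000003c0000003f0000003f0000003c0000001c00000004 9 6) 0 0 (step_sound _ 99 [(rh274a837cd7eaa569.shift 2 0), (rh4b555cfb2752cddc.shift 2 2), (rhe663b640bb2c02ec.shift 0 1)] (by decide +kernel))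
noncomputable def rhc7d93530153e020c : CRef := CRef.mk (Pat.mk 0x8000000080000003000000010000000000000000000000000 0xf4000000ff00000038000000fc000000fe000000ec0000004c0000004c 9 8) 0 0 (step_sound _ 99 [(rh09d76f8d3c678b9e.shift 2 0), (rh69012675dfdb1a5b.shift 1 3), (rhe34fd0eac032c40a.shift 0 2)] (by decide +kernel))
noncomputable def rh474fb2fcdf1e8d2a : CRef := CRef.mk (Pat.mk 0x40000000c0000001800000000000000000000000000000000 0x780000007c0000001c000000f8000000ff000000fc0000003000000020 9 8) 0 0 (step_sound _ 99 [rh1c89e5f828034ea3, (rh7b1f1fb55310c477.shift 2 2)] (by decide +kernel))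
noncomputable def rh6bdaeb980c4b1973 : CRef := CRef.mk (Pat.mk 0x8000000080000003000000000000000000000000000000000 0x140000003c0000002f000000fc000000fe000000dc0000005c00000054 9 8) 0 0 (step_sound _ 131 [rh4e92419a88d97728, (rh7558dbd3bc61e022.shift 1 0), (rha9fbfd4bb8cf890b.shift 0 4)] (by decide +kernel))
noncomputable def rh8a3f54013261f4d3 : CRef := CRef.mk (Pat.mk 0x400000004000000180000000000000000 0x80000000c0000001f000000fe000001fe0000001c 9 9) 0 0 (step_sound _ 69 [(rh4e2532d8140e017a.shift 1 0), (rh8c12fdbbddc1e7ab.shift 0 2), (rh91c13f66a23a53b7.shift 1 0), (rhe79590487a395ecc.shift 2 1)] (by decide +kernel))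
noncomputable def rhc2d6fa1b920785d6 : CRef := CRef.mk (Pat.mk 0x800000008000000180000000000000000 0x800000008000000080000001f000000ff000000f4 9 8) 0 0 (step_sound _ 36 [(rh2145e1d24b96a57e.shift 3 1), rh4b3139b0888595f7] (by decide +kernel))
noncomputable def rh2e51dfe33071836d : CRef := CRef.mk (Pat.mk 0x20000000200000007000000000 0x3de000003fe000007fe0000003f000001fe0000000f 9 11) 0 0 (step_sound _ 132 [rh03bb3a68866fe3ee, (rh089a3baab7396595.shift 1 0), (rh5fdaf7394ff9b10b.shift 1 1), (rhba1fe302b1bb2e4f.shift 2 1), (rhf461b7f08f40c428.shift 1 0)] (by decide +kernel))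
noncomputable def rh6de51a9c520922c1 : CRef := CRef.mk (Pat.mk 0x40000000c000000080000000800000000000000000 0x20000001300000037c000001fe000007bf000001f00000037800000110 9 11) 0 0 (step_sound _ 133 [(rh8ee80cc30e93a344.shift 4 3), (rh9bc1196f5285bfbc.shift 0 1), (rhae043b7040a09eba.shift 1 3), (rhcb0c936396f54c96.shift 2 0)] (by decide +kernel))
noncomputable def rhbca38e8c962b1ba2 : CRef := CRef.mk (Pat.mk 0x10000000300000002000000000 0x600000007c000000ff0000003e0000007f0000006e0000004c 9 8) 0 0 (step_sound _ 132 [(rh2145e1d24b96a57e.shift 4 1), rhccd1e26516b022be] (by decide +kernel))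
noncomputable def rhfe87a337204fc644 : CRef := CRef.mk (Pat.mk 0x80000001800000010000000000000000000000000 0x120000001f0000003e000000ff000000ff0000007c0000000c 9 8) 0 0 (step_sound _ 68 [(rh7b1f1fb55310c477.shift 3 1), rh9369d5be63dd365d] (by decide +kernel))
noncomputable def rh8fca7112ebdc7957 : CRef := CRef.mk (Pat.mk 0x100000001000000030000000000000000000000000 0x140000077f000003fe000003ef0000007c00000028 9 11) 0 0 (step_sound _ 69 [(rh08edf065357d68e5.shift 4 0), rh0f22bb96f7b9a0ec, rhbbdea05a16a46984] (by decide +kernel))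
noncomputable def rh458c6e2d8246515a : CRef := CRef.mk (Pat.mk 0x1000000018000000300000000000000000 0x20000000a0000001f0000007f0000007e0000003e0000001e0000001c 9 7) 0 0 (step_sound _ 98 [rh59e1254f4556149e, (rhb739f4f82bb681b4.shift 1 2)] (by decide +kernel))
noncomputable def rhd816469e49644016 : CRef := CRef.mk (Pat.mk 0x800000008000000180000001000000000 0x2000000220000007f0000007f0000003f000000f600000004 9 8) 0 0 (step_sound _ 66 [(rh8ee80cc30e93a344.shift 1 1), rhaca1af4563702311, (rhc53ab2845504070a.shift 0 1)] (by decide +kernel))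
noncomputable def rh218d372dc9ba6eb5 : CRef := CRef.mk (Pat.mk 0x80000001800000010000000000000000000000000 0x1c0000003c0000000f0000003f000000ff000000ec0000000c0000000c 9 8) 0 0 (step_sound _ 195 [(rh2145e1d24b96a57e.shift 3 3), rhd0ca3d066643a1a0] (by decide +kernel))
noncomputable def rh12c44a048c6d290e : CRef := CRef.mk (Pat.mk 0x80000000c000000180000000000000000000000000000000000000000 0x140000003c0000000f00000018000000180000001c0000001c0000001c00000010 9 6) 0 0 (step_sound _ 193 [(rhb739f4f82bb681b4.shift 0 5), (rhfec1717bb8235a65.shift 1 0)] (by decide +kernel))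
noncomputable def rh6bac05ca9b9a9ffc : CRef := CRef.mk (Pat.mk 0x20000000300000004000000000000000000000000000000000 0x4000000040000000d0000001f7000000fe000001fe000000e0000000700000007000000010 9 9) 0 0 (step_sound _ 163 [(rh39b8280c7d59e74d.shift 0 4), (rh6765e7960b108c8d.shift 2 4), (rhee6e72345e41ab8c.shift 3 0)] (by decide +kernel))
noncomputable def rhef15993785626faf : CRef := CRef.mk (Pat.mk 0x1000000018000000200000000000000000 0x20000000770000007e0000007f0000007000000030 9 7) 0 0 (step_sound _ 98 [(rh4d4ddb36715783b7.shift 0 2), (rh6765e7960b108c8d.shift 1 2), (rh99717974f2d51d3b.shift 1 0)] (by decide +kernel))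
noncomputable def rh3cd14cc6caf0f45e : CRef := CRef.mk (Pat.mk 0x2000000030000000400000000000000000 0xc8000000ce000000ce000001ff000000fe0000007f000000ec000000e0 9 9) 0 0 (step_sound _ 99 [(rh281e9a87c20e4a66.shift 0 1), (rh5934e9b17461794a.shift 2 0), (rh6765e7960b108c8d.shift 2 2)] (by decide +kernel))
noncomputable def rh627c57d4de58e86d : CRef := CRef.mk (Pat.mk 0x20000000300000004000000000 0x1e0000001e0000003f000000fe000000ff0000000c 9 8) 0 0 (step_sound _ 67 [(rh11596f044e9d5d1d.shift 2 0), rh281e9a87c20e4a66, (rh782848cf5e4b1e5e.shift 2 1)] (by decide +kernel))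
noncomputable def rhde9c6af2fd56496f : CRef := CRef.mk (Pat.mk 0x80000000c000000100000000000000000 0x2000000024000000740000007f0000003f000000f30000003200000030 9 8) 0 0 (step_sound _ 132 [(rh005328c9d6472acf.shift 0 2), rh45bd458d79fa825c, (rhd69c262cd33b94b3.shift 0 3), (rhf295f8648a075ada.shift 1 0)] (by decide +kernel))
noncomputable def rh332f314176d17914 : CRef := CRef.mk (Pat.mk 0x20000000300000004000000000000000000000000000000000 0x400000004e000000de000001ff000000be000001ff000000ec000000700000007000000010 9 9) 0 0 (step_sound _ 163 [(rh281e9a87c20e4a66.shift 0 3), (rh6765e7960b108c8d.shift 2 4), (rhee6e72345e41ab8c.shift 3 0)] (by decide +kernel))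
noncomputable def rhf079f675fa12f8e7 : CRef := CRef.mk (Pat.mk 0x100000001800000020000000000000000000000000 0xe0000000ec000000ef000000fc00000778000003fc000000f4000000f0000000a0 9 11) 0 0 (step_sound _ 102 [(rh2afac34f2bc57593.shift 0 1), (rh2e3eb2b697ef18ed.shift 1 0), (rh368dc3085932390d.shift 3 3), (rh78ee2eddc665304a.shift 3 2)] (by decide +kernel))
noncomputable def rh9015867c639c78a8 : CRef := CRef.mk (Pat.mk 0x80000000c00000010000000000000000000000000 0x7000000070000000770000007e0000003f0000007c000000700000007000000050 9 7) 0 0 (step_sound _ 101 [rh2e3eb2b697ef18ed, (rh5013634b2ce580c1.shift 1 3), (rh95f73988d2dec2c0.shift 0 3)] (by decide +kernel))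
noncomputable def rhdd03cd39608ebaca : CRef := CRef.mk (Pat.mk 0x100000003000000020000000000000000000000000 0x2000000064000001e4000001fe0000007c000003ef000003fc000001ff000000c0 9 10) 0 0 (step_sound _ 69 [(rh7b1f1fb55310c477.shift 4 1), rhc1074d47bf25d4cb] (by decide +kernel))
noncomputable def rh30df8c337db6db49 : CRef := CRef.mk (Pat.mk 0x18000000100000001000000010 0x1e7000001fe000003f70000001000000010 9 10) 0 0 (step_sound _ 101 [(rh2f68792b6b779e96.shift 4 0), (rh53e5d96020d57051.shift 0 2)] (by decide +kernel))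
noncomputable def rhc4fc8e8840370544 : CRef := CRef.mk (Pat.mk 0x800000018000000100000000000000000 0x4000000044000007cf000003fe0000077e0000002f0000002e 9 11) 0 0 (step_sound _ 101 [(rh422e3d9b4dfbc8cf.shift 1 0), rh7b958daf6e45333d, (rh9f93e2b24091a43d.shift 2 2), (rha9fbfd4bb8cf890b.shift 0 3)] (by decide +kernel))
noncomputable def rh69879e1fc04e6283 : CRef := CRef.mk (Pat.mk 0x2000000030000000100000001000000000 0xd4000001f6000000ff0000007e000000ff000003ea 9 10) 0 0 (step_sound _ 67 [(rh69012675dfdb1a5b.shift 1 2), rh715dbd584ddc944f, (rh86d542d797be17e8.shift 3 0)] (by decide +kernel))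
noncomputable def rhc60491518736b1b6 : CRef := CRef.mk (Pat.mk 0x3000000010000000100000000000000000 0x20000000300000003000000014000000fe0000007e0000007f0000003f00000018 9 8) 0 0 (step_sound _ 99 [rh14c3ccaf4349d61c, (rh1ef2ac1bbbf27e03.shift 3 0), (rhd69c262cd33b94b3.shift 1 3)] (by decide +kernel))
noncomputable def rh5a173c4109b6d772 : CRef := CRef.mk (Pat.mk 0x300000002000000020 0x50000000f8000003de000001ff000000fe00000028 9 10) 0 0 (step_sound _ 100 [rh6e3f5295889c1057, (rh81b7dbead2cfdfd4.shift 1 0), (rhe072fffdd2fccf38.shift 4 0)] (by decide +kernel))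
noncomputable def rh829b6dc0b284eb25 : CRef := CRef.mk (Pat.mk 0x20000000200000002000000020 0x3de000001fe000003bf0000002000000020 9 10) 0 0 (step_sound _ 102 [rh230c8b5310a4a4e4, (rh2f68792b6b779e96.shift 5 0)] (by decide +kernel))
noncomputable def rhae22e11cc2f70cc3 : CRef := CRef.mk (Pat.mk 0x2000000020000000100000001000000000000000000000000000000000 0x20000000380000001800000018000000ff0000007e0000003f00000028 9 8) 0 0 (step_sound _ 100 [(rh1006c02ae4212ff0.shift 4 3), rh426e6f580ab2500a] (by decide +kernel))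
noncomputable def rh1515b75ce3ebf2fc : CRef := CRef.mk (Pat.mk 0x100000001000000010000000000000000800000000 0x4000000040000002f0000007e0000007f00000018000000100000001800000008 9 7) 0 0 (step_sound _ 68 [(rh374dff4f3719a414.shift 3 0), (rhad4af35b1ac5fcc5.shift 0 2), (rhe867068ce7ea9877.shift 3 0)] (by decide +kernel))
noncomputable def rh3f082a17042f9313 : CRef := CRef.mk (Pat.mk 0x400000004000000060000000000000002000000000 0x10000000f8000000df000001fe0000003e0000003800000030 9 9) 0 0 (step_sound _ 69 [(rh71222050f2c63a3a.shift 5 0), rh9d41782d0645ecb7] (by decide +kernel))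
noncomputable def rh6a76d1fc70e0eee5 : CRef := CRef.mk (Pat.mk 0x200000002000000030000000000000001000000000 0xc0000000c000000fe000000fe000000fe000001cf0000003c0000001c 9 9) 0 0 (step_sound _ 99 [(rh3ecccf74f20eb0b5.shift 1 0), (rh7f0f728c796044ac.shift 0 2), rh9c37ed7999946d48, (rha0198dc55831a65f.shift 2 3), (rhd7c0a18f92b59752.shift 1 2)] (by decide +kernel))
noncomputable def rhb4d58240b4d75a9b : CRef := CRef.mk (Pat.mk 0x180000001000000010000000000000002000000000 0x2600000036000000f7000000ff0000005f000000fe000001ec0000002000000020 9 9) 0 0 (step_sound _ 101 [(rh9d021f793ef14721.shift 4 0), rha20d6f5a76f7eed7, (rhc12cc3ce2d4de9b4.shift 0 2)] (by decide +kernel))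
noncomputable def rhbff851b901f44c13 : CRef := CRef.mk (Pat.mk 0x200000002000000020000000400000000000000000000000000000000 0x10000000700000007000000060000000600000006000000070000000700000005 9 3) 0 0 (step_sound _ 129 [(rh55afc6a59410cf00.shift 1 3), rhad2c1671c58d8ea8] (by decide +kernel))
noncomputable def rhd4facf884c0dab44 : CRef := CRef.mk (Pat.mk 0x80000000800000008000000100000000000000000 0xc0000000c0000001c0000003c0000000f0000001c0000001800000008 9 6) 0 0 (step_sound _ 67 [(rh55afc6a59410cf00.shift 3 1), rhc1129142a927c7eb] (by decide +kernel))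
noncomputable def rh93e8b37033470cce : CRef := CRef.mk (Pat.mk 0x18000000080000000800000000 0x100000003c000003ff000001ff000000380000001800000010 9 10) 0 0 (step_sound _ 132 [(rh69755ef358ebfd54.shift 3 1), rh9025cda56dc2d3bf, (rhbfb5770941270498.shift 3 1)] (by decide +kernel))
noncomputable def rhd8ea817e8d9e238d : CRef := CRef.mk (Pat.mk 0x80000000800000008000000000000000000000000 0x140000001c0000001c000000180000001c0000001f0000001c0000001000000010 9 5) 0 0 (step_sound _ 68 [(rh2977b00063528966.shift 3 0), (rh475253e964ed1313.shift 3 0), (rh8a3b44d1b34c54df.shift 2 2), (rhadd7fae3e3d99b46.shift 0 1)] (by decide +kernel))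
noncomputable def rh5cf5c526b5988c69 : CRef := CRef.mk (Pat.mk 0x80000000c00000018 0x140000001c0000001c000000fc000000ff0000007f0000000f00000018 9 8) 0 0 (step_sound _ 33 [rh2ab4b7332133c977, rhb739f4f82bb681b4] (by decide +kernel))
noncomputable def rh82ef7fddd44d07cc : CRef := CRef.mk (Pat.mk 0x2000000030000000600000000 0x5000000070000000700000007000000070000001f0000000f0000001f00000019 9 5) 0 0 (step_sound _ 35 [rhf3df20513b47f960, (rhf48373e13d2bc128.shift 0 1)] (by decide +kernel))
noncomputable def rhc0a40df5d7c61821 : CRef := CRef.mk (Pat.mk 0x8000000180000000000000010000000000000000000000000 0x2f0000007e000001f7000000f8000000fe000000f0000000b0 9 9) 0 0 (step_sound _ 68 [(rh2613c889e411427e.shift 3 2), rhe67bbd796f0f5dbe] (by decide +kernel))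
noncomputable def rh38634cbeff8500fe : CRef := CRef.mk (Pat.mk 0x1000000010000000300000000000000020000000000000000000000000 0x80000000e0000000f80000007f000000fe000003ce00000070000003e0000000a000000020 9 10) 0 0 (step_sound _ 166 [(rha7edc60fc34bffff.shift 2 5), (rha9fbfd4bb8cf890b.shift 1 5), rhb248d617fe44189b, (rhdaf3c25112c1e18a.shift 3 0), (rhf60aa8aede119d3b.shift 1 5)] (by decide +kernel))
noncomputable def rh43bd5d218ec26f8d : CRef := CRef.mk (Pat.mk 0x180000001000000010000000100000000000000000 0x270000003e000000770000007e000000fe0000002600000006 9 8) 0 0 (step_sound _ 165 [(rh2f68792b6b779e96.shift 4 2), rhd1d65d1e25bda845] (by decide +kernel))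
noncomputable def rh26f015ff7ba929f9 : CRef := CRef.mk (Pat.mk 0x60000000400000004000000000 0x30000000b8000003be000001fe000001ff000000f800000010 9 10) 0 0 (step_sound _ 133 [rhc03331c17e060ccc, (rhe072fffdd2fccf38.shift 5 1)] (by decide +kernel))
noncomputable def rhc1315162e4b11c67 : CRef := CRef.mk (Pat.mk 0x100000001000000020000000000000000000000000 0x1800000078000000ff0000007e0000003e000000f80000007800000010 9 8) 0 0 (step_sound _ 133 [(rh5d54cb79a67f97ab.shift 4 1), (rh81d21ee323a0886c.shift 2 1), (rha40d42a2e34c408d.shift 4 1), rhac14c1acf08b72bb] (by decide +kernel))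
noncomputable def rh216484c8263c336f : CRef := CRef.mk (Pat.mk 0x1000000010000000300000000000000000 0x80000002f0000007f0000007e000000fe0000001e00000018 9 8) 0 0 (step_sound _ 99 [(rh568b5107308211c4.shift 1 0), rh73cc11cdda12e549, (rhb0121edee88fe839.shift 1 2)] (by decide +kernel))
noncomputable def rh40491340b926a5e9 : CRef := CRef.mk (Pat.mk 0x2000000020000000200000004 0x10000000700000007000000070000000300000007000000070000000600000004 9 3) 0 0 (step_sound _ 129 [(rh2c1551b6c97e944e.shift 0 1), (rhd3458b32566d63f7.shift 1 0)] (by decide +kernel))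
noncomputable def rhb33dfd298eb7a57c : CRef := CRef.mk (Pat.mk 0x10000000100000002000000020000000200000000000000000 0x1400000014000003f7000003fe000003fe000000c8000000c0 9 10) 0 0 (step_sound _ 100 [rh3690e2292bf99df5, (rhff0f29cb645b05f7.shift 4 2)] (by decide +kernel))
noncomputable def rh0eaf848fbe4680b4 : CRef := CRef.mk (Pat.mk 0x10000000100000002000000030000000000000000000000000 0x140000007c000003ef000001fe000003df0000004800000040 9 10) 0 0 (step_sound _ 99 [(rh7a565d7e53f08ed2.shift 2 0), (rha11dfd15f08f96e3.shift 2 3), (rhb12ffaec36122c99.shift 0 2), (rhdc2d8bbef5e7b7e6.shift 0 1)] (by decide +kernel))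
noncomputable def rh6e4eb07034d66dcc : CRef := CRef.mk (Pat.mk 0x800000008000000080000001800000000 0xf0000000fe000000f80000003f0000007800000028 9 8) 0 0 (step_sound _ 132 [(rh2f68792b6b779e96.shift 3 1), rhfaa2ea510eaf3238] (by decide +kernel))
noncomputable def rhc125a512d1caca12 : CRef := CRef.mk (Pat.mk 0x2000000030000000100000001000000000 0xc0000000c0000000c0000003e7000003fe000001ff0000007800000060 9 10) 0 0 (step_sound _ 102 [(rh06d01f7ea79d1513.shift 1 0), (rh09cd08bf7d5fae33.shift 3 2), (rh1bdc9beec7faf00e.shift 0 2), (rhc36a0cae95f9222f.shift 2 0)] (by decide +kernel))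
noncomputable def rh6f0f05894ce3c752 : CRef := CRef.mk (Pat.mk 0x1800000008000000080000000000000000000000000000000000000000 0x100000001800000018000000280000007c0000001f0000003f00000078000000380000001c0000001c00000014 9 7) 0 0 (step_sound _ 194 [(rh33a92977d3280b15.shift 1 1), (rh69012675dfdb1a5b.shift 0 6), rhff8d434023c7f1e6] (by decide +kernel))
noncomputable def rh8f6d77e6da746e98 : CRef := CRef.mk (Pat.mk 0x8000000080000000c00000000000000000000000000000000 0x8000000180000007c0000003f000000780000003c0000003c00000034 9 7) 0 0 (step_sound _ 164 [(rh0bb882ba86b2372d.shift 0 4), rh519883f9fce400ab, (rhe2068bcf1de01501.shift 2 0)] (by decide +kernel))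
noncomputable def rh9b38a8d19f2f88e7 : CRef := CRef.mk (Pat.mk 0x1000000000000000180000000800000008 0x6000000070000000f0000000fe000000ff0000003f 9 8) 0 0 (step_sound _ 36 [rh7fb665d0f4c515f8, (rhee230b994cc8b773.shift 3 0)] (by decide +kernel))
noncomputable def rh422fa7a2bf7e3ef1 : CRef := CRef.mk (Pat.mk 0x400000000000000060000000200000000000000000 0x4000000140000007ce000007fe00000fbf0000008000000080 9 12) 0 0 (step_sound _ 134 [rh21b14bab6232c4c9, (rh5c5e593799055d58.shift 5 2)] (by decide +kernel))
noncomputable def rh6073cddf456b5f5a : CRef := CRef.mk (Pat.mk 0x40000000000000006000000020000000000000000000000000 0x140000001c4000007c4000001fc0000078e000001ff000001fc000000de0000001400000010 9 11) 0 0 (step_sound _ 100 [(rh69012675dfdb1a5b.shift 2 3), (rha728679ade28e0cb.shift 1 2), rhc2e08c98393e18c6, (rhd69c262cd33b94b3.shift 2 3)] (by decide +kernel))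
noncomputable def rh04dbdfb4f1c44917 : CRef := CRef.mk (Pat.mk 0x180000000c000000080000000000000000000000000000000000000000 0x80000001c0000000f0000003e0000000f0000001e0000001e0000001e00000014 9 6) 0 0 (step_sound _ 193 [rh2857c550f2858267, (rh53b3c253cb0c65f4.shift 0 6)] (by decide +kernel))
noncomputable def rh1426ebba50bfb2a3 : CRef := CRef.mk (Pat.mk 0x30000000180000001000000000000000000000000000000000 0x14000000fc000000f8000000380000001f0000003c0000003800000020 9 8) 0 0 (step_sound _ 198 [(rh18965a982d73c794.shift 3 5), rh2cd23e5c3c6db84d] (by decide +kernel))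
noncomputable def rh0df971942355feb9 : CRef := CRef.mk (Pat.mk 0x80000000800000008000000000000000000000000 0x1000000018000000180000000c0000001c0000001f0000007c0000001c0000001c 9 7) 0 0 (step_sound _ 68 [(rh2977b00063528966.shift 3 0), (rh33e98d0e97205a3e.shift 2 2), (rh47dece01c1595e79.shift 3 0), rh8c17578c37be9755, (rhfa80626feb4e9cb5.shift 0 1)] (by decide +kernel))
noncomputable def rhbd47a9c01271dbc7 : CRef := CRef.mk (Pat.mk 0x8000000080000001800000010000000000000000000000000 0x10000000700000007f0000007f0000003b0000003f0000002e0000000c0000000c 9 7) 0 0 (step_sound _ 196 [rh3939e07ce3446eb1, (rha4a90701732bc6b6.shift 0 2), (rhcffafab25e5893f3.shift 1 2), (rhf1172de839113302.shift 1 2)] (by decide +kernel))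
noncomputable def rh0e5599501ac8c1cf : CRef := CRef.mk (Pat.mk 0x20000000300000006000000000000000000000000 0x500000007000000070000000600000006000000070000000700000006000000030000000300000003 9 3) 0 0 (step_sound _ 65 [rh5192e84255fe3228, rh668fc65514a55b16, (rh837d42d3d7ef0c95.shift 0 2), rhcab3157f7bdcba3e] (by decide +kernel))
noncomputable def rh0de19d4d95ee1ba1 : CRef := CRef.mk (Pat.mk 0x4000000060000000200000000000000000 0x4000000140000007ce000007fe00000fbf0000008000000080 9 12) 0 0 (step_sound _ 166 [rh21b14bab6232c4c9, (rh5c5e593799055d58.shift 5 2)] (by decide +kernel))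
noncomputable def rh4b401e0773cf5cff : CRef := CRef.mk (Pat.mk 0x800000008000000080000000800000000 0x8000000080000003f000000ff000000f4 9 8) 0 0 (step_sound _ 36 [(rh55afc6a59410cf00.shift 3 0), rh76ec8fb4580d5dd2] (by decide +kernel))
noncomputable def rh398157e9e7e87566 : CRef := CRef.mk (Pat.mk 0x100000001000000010000000100000000000000000000000000000000000000000 0x100000003f0000007e000000ff0000001800000038000000380000003800000028 9 8) 0 0 (step_sound _ 132 [(rh7928877f9bf74a91.shift 3 3), (rhb4d78cd0e58cc17c.shift 3 1), rhcec9d796c8240797] (by decide +kernel))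
noncomputable def rheba2cc81a4faab44 : CRef := CRef.mk (Pat.mk 0x100000001000000010000000100000000000000000000000000000000000000000 0x100000003f0000007e000000ff0000003000000038000000380000003800000028 9 8) 0 0 (step_sound _ 132 [(rh8702a07759af281c.shift 3 1), rhcec9d796c8240797, (rhd29a1fb688eae70f.shift 4 3)] (by decide +kernel))
noncomputable def rh2707a7c8aab15e7b : CRef := CRef.mk (Pat.mk 0x8000000080000000800000008000000000000000000000000 0x8000000180000007f0000003f000000740000002000000020 9 7) 0 0 (step_sound _ 98 [(rh932754581e0f4330.shift 2 2), rhda8494804990b635] (by decide +kernel))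
noncomputable def rh22dce013d0a425eb : CRef := CRef.mk (Pat.mk 0x300000001800000010000000000000000000000000 0x10000000300000001e0000007f0000007f0000002800000020 9 7) 0 0 (step_sound _ 130 [rh13121495d3a4b8ff, (rh53b3c253cb0c65f4.shift 1 4)] (by decide +kernel))
noncomputable def rh1661883cb2cecbf5 : CRef := CRef.mk (Pat.mk 0x1000000010000000100000001000000000 0x10000000100000007f000001fe000001ef 9 9) 0 0 (step_sound _ 37 [rh2f6dea88d8506723, (rh55afc6a59410cf00.shift 4 0)] (by decide +kernel))
noncomputable def rh956cbdde3c6ae4fd : CRef := CRef.mk (Pat.mk 0x800000008000000180000000000000000 0x1c0000001c0000007c0000007c0000001f000000780000002800000008 9 7) 0 0 (step_sound _ 98 [(rh2a5d2e072cb87bc2.shift 2 0), (rh5c5a2014709044d0.shift 0 2), rhb74f7ec94bb1664a] (by decide +kernel))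
noncomputable def rhe128c0d1ed9e8319 : CRef := CRef.mk (Pat.mk 0x800000008000000080000000c00000000 0x2000000020000000740000007c0000003f0000007e0000001f00000002 9 7) 0 0 (step_sound _ 132 [(rh2f68792b6b779e96.shift 3 1), rh688d165dc20baacd] (by decide +kernel))
noncomputable def rh613c9133ac84694e : CRef := CRef.mk (Pat.mk 0x8000000080000000e000000000000000000000000 0x3c000000fe0000007c0000003b0000001e000000300000001000000010 9 8) 0 0 (step_sound _ 100 [(rh48777cf9cabe463f.shift 1 3), (rhd132b680030c88e0.shift 1 0), (rhdce147dab1eb4ad9.shift 0 2)] (by decide +kernel))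
noncomputable def rh61021572cf736993 : CRef := CRef.mk (Pat.mk 0x1000000030000000000000002000000020 0x3ff000001fe000003df0000007000000020 9 10) 0 0 (step_sound _ 68 [rha057b7e1a274feb6, (rhbe0e43a3bc50a43f.shift 4 0)] (by decide +kernel))
noncomputable def rhce394b3dcd41bf62 : CRef := CRef.mk (Pat.mk 0x10000000100000001000000000 0x280000003f0000007f000000fe000000180000001800000008 9 8) 0 0 (step_sound _ 132 [(rh1741680720c097b4.shift 3 1), (rh20966da26a1c2ae8.shift 3 0), (rh5905d0c5a7853fcc.shift 0 1), (rh771d065bdc85bf2d.shift 3 0)] (by decide +kernel))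
noncomputable def rh2cb973294744585d : CRef := CRef.mk (Pat.mk 0x800000018000000000000001000000010 0x3000000038000000ff000000ff0000007f0000006e0000003400000014 9 8) 0 0 (step_sound _ 130 [(rh1a224d0670c469d1.shift 0 2), (rh5c5a2014709044d0.shift 0 3), (rh75ea294132184f25.shift 1 3), (rh892855ce0d8112b4.shift 1 0), (rhdb295ec562705fd3.shift 1 1)] (by decide +kernel))
noncomputable def rh5211525c799a1ed3 : CRef := CRef.mk (Pat.mk 0x80000000000000018000000100000000000000000 0x60000000e0000000f0000003f0000007f0000003f0000000e00000004 9 7) 0 0 (step_sound _ 131 [(rh2145e1d24b96a57e.shift 3 2), rhf9167169cca5f6c2] (by decide +kernel))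
noncomputable def rhfe5d93e1f7fae394 : CRef := CRef.mk (Pat.mk 0xc0000000800000008000000000000000000000000 0x200000012000000f3000000ff0000003f0000003f0000000f0000000c00000004 9 8) 0 0 (step_sound _ 34 [rh2f9774e1e968979d, (rh409edbec38c71a18.shift 2 0), (rh4da7184b55455439.shift 0 1), rhe9a589532a55a600] (by decide +kernel))
noncomputable def rhe914bc910f4e9ab2 : CRef := CRef.mk (Pat.mk 0x10000000000000003800000020000000000000000000000000 0x40000001c0000001c0000000f0000007e0000003f0000001e0000001c00000014 9 7) 0 0 (step_sound _ 99 [(rh1134a378ad781f9a.shift 2 0), (rh2820ca9a6c4f41b4.shift 0 3), (rh5c05ce7e7edd1894.shift 0 3), rhb12fba180b5315c9] (by decide +kernel))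
noncomputable def rh238cae07c30970ee : CRef := CRef.mk (Pat.mk 0x10000000000000003800000020000000000000000000000000 0x40000001c0000001c0000000c000000f8000000ff000000fe0000001c0000001c 9 8) 0 0 (step_sound _ 99 [(rh1134a378ad781f9a.shift 2 0), (rh3e341340f02a6686.shift 2 0), (rh54526730253c682f.shift 1 0), (rh7d24b49f25c5c0c8.shift 2 1), (rhf0f55c4504412200.shift 0 3)] (by decide +kernel))
noncomputable def rh1164298472e49e14 : CRef := CRef.mk (Pat.mk 0x1000000010000000200000002000000020000000000000000000000000 0x100000001c000001ff000000fc000001ef0000001c0000001c00000014 9 9) 0 0 (step_sound _ 132 [rh57c9f133c3443a5e, (rhff0f29cb645b05f7.shift 4 3)] (by decide +kernel))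
noncomputable def rh1421e6e06ed98450 : CRef := CRef.mk (Pat.mk 0x20000000100000001000000010000000000000000000000000 0x30000000300000001f0000007f0000007f0000000e0000000400000004 9 7) 0 0 (step_sound _ 196 [(rh2f68792b6b779e96.shift 4 3), rh87e65567662076b0] (by decide +kernel))
noncomputable def rh4d402d5998380d7f : CRef := CRef.mk (Pat.mk 0x18000000100000001000000010 0x1e7000001fe000003f70000001000000010 9 10) 0 0 (step_sound _ 101 [(rh21b67c4ce2cec61b.shift 0 2), (rh2f68792b6b779e96.shift 4 0)] (by decide +kernel))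
noncomputable def rh6e3fe3091a36dee1 : CRef := CRef.mk (Pat.mk 0x1c00000000000000100000001000000000 0x4000000770000003e000000670000003f0000003f00000004 9 7) 0 0 (step_sound _ 97 [(rh40eaa9221d46bf4f.shift 1 1), (rh472dabcf3553e8ad.shift 0 3), rh8823b61760788f57] (by decide +kernel))
noncomputable def rhb779180b3297245d : CRef := CRef.mk (Pat.mk 0x1c000000000000001000000010 0x1fc000000ff000000e70000003000000010 9 9) 0 0 (step_sound _ 101 [(rh1fbc9fee05401eba.shift 2 0), (rh43726b2af369debd.shift 0 2), (rhe98fd16c4771a217.shift 0 2)] (by decide +kernel))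
noncomputable def rha10b0071f2095704 : CRef := CRef.mk (Pat.mk 0x70000000000000000000000000 0x10000000180000077f000003fe0000039c0000001800000018 9 11) 0 0 (step_sound _ 99 [(rh549f2e9395e6c4ca.shift 1 0), (rh5774febc9663c082.shift 2 2), (rh875ee7c4c1e718c0.shift 0 3), (rhaeebc73f5a9c796a.shift 2 2), (rhe6f3c981f45ee7b2.shift 2 0)] (by decide +kernel))
noncomputable def rhd9c9b0b4cf964594 : CRef := CRef.mk (Pat.mk 0x1000000010000000300000002000000000 0xc0000000c000000ef000000ff000000df000000fc000000f000000010 9 8) 0 0 (step_sound _ 99 [rh0c69c576452bc4e8, (rh3c3e23a02e82b2ed.shift 1 2), (rh6e7004bebeb95b59.shift 2 0)] (by decide +kernel))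
noncomputable def rhe53ef0bedf0ccf4a : CRef := CRef.mk (Pat.mk 0x100000000000000030000000200000000000000000 0xf8000000f4000001d7000003fe000000ff0000000800000008 9 10) 0 0 (step_sound _ 99 [rh2443cefd31af890f, (rhb2afcb5db661472f.shift 0 2), (rhcbbb5f41384b1cff.shift 1 0), (rhd0953c184e5f90a8.shift 2 1)] (by decide +kernel))
noncomputable def rhd8bdb772daca8fd8 : CRef := CRef.mk (Pat.mk 0x1000000010000000300000002000000000 0xe0000000e000000ef000000ff000000df000000fc000000f400000010 9 8) 0 0 (step_sound _ 99 [(rh3c3e23a02e82b2ed.shift 1 2), (rh6e7004bebeb95b59.shift 2 0), rh8d42802c1a98842a] (by decide +kernel))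
noncomputable def rh61c736ed7630d502 : CRef := CRef.mk (Pat.mk 0x8000000080000001800000010000000000000000000000000 0x140000007c0000000f0000007f0000001f0000000e0000000c00000008 9 7) 0 0 (step_sound _ 162 [(rh3c3e23a02e82b2ed.shift 0 4), rh83eb44d79f94ce61, (rhec7286d79d970a12.shift 1 2)] (by decide +kernel))
noncomputable def rhbe9b1dd869d2b459 : CRef := CRef.mk (Pat.mk 0x8000000080000001800000010000000000000000000000000 0x140000003c0000000f0000001f0000007f0000000f0000000600000002 9 7) 0 0 (step_sound _ 99 [(rh6aa5625770489e83.shift 2 1), (rh900a894640be090c.shift 0 2), (rha16eca2e000e6e17.shift 0 1), rhc9e4d546eaf1f4ab] (by decide +kernel))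
noncomputable def rh73789906f1527de5 : CRef := CRef.mk (Pat.mk 0x1000000010000000000000003000000020000000000000000000000000 0xf8000000fc000000cf0000007e000000ef0000001c0000001c00000014 9 8) 0 0 (step_sound _ 131 [(rhc8e24a5b9d8d4944.shift 2 3), (rhc92c11e8da6c894f.shift 0 3), (rhe77cdbae63d92bd9.shift 1 3), (rhe935f215990b2b3e.shift 2 3), rheaae3fc3469ee246] (by decide +kernel))
noncomputable def rhe5aa3b91ffe50c1c : CRef := CRef.mk (Pat.mk 0x4000000040000000c00000008000000000000000000000000 0x40000000700000007a0000003e000003f6000001fc0000039f000000060000000600000006 9 10) 0 0 (step_sound _ 132 [(rh910c0c7ef57a2920.shift 0 2), (rh9f93e2b24091a43d.shift 1 3), rhcd8f88575d6c4b9f, (rhe9587aa670538aaf.shift 1 3)] (by decide +kernel))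
noncomputable def rha41420e62eeebe01 : CRef := CRef.mk (Pat.mk 0x100000000000000030000000200000000000000000 0x18000001df000000fe000000ff0000001e00000014 9 9) 0 0 (step_sound _ 99 [(rh0fa479cea2267816.shift 1 2), (rh8097db338449f3f9.shift 2 0), (rha0ae8adeb1dbcf8d.shift 0 2), rha8f315f29d4669d4, (rhb2afcb5db661472f.shift 0 2)] (by decide +kernel))
noncomputable def rh6e9dd9742570fb28 : CRef := CRef.mk (Pat.mk 0x4000000000000000e000000080000000000000000 0x1000000170000001f00000073000000fe0000003f0000000400000004 9 8) 0 0 (step_sound _ 100 [(rh67664dc1adb49e16.shift 1 2), (rha13eff3ea3bfa584.shift 0 2), rhe6f3c981f45ee7b2] (by decide +kernel))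
noncomputable def rh3ebbbc5c832b407d : CRef := CRef.mk (Pat.mk 0x10000000100000000000000030000000200000000000000000 0xf8000000f8000001cf000001fe000000ff0000000600000004 9 9) 0 0 (step_sound _ 99 [(rh1ff56f1ab0200d17.shift 1 0), (rh69bb10e352c6943a.shift 0 2), (rhb2afcb5db661472f.shift 0 2), (rhc8881a5c6e88c713.shift 2 2)] (by decide +kernel))
noncomputable def rhc98eba0206f5b313 : CRef := CRef.mk (Pat.mk 0x80000000800000018000000100000000000000000 0x1000000030000000780000007e0000003e000000ff000000e800000060 9 8) 0 0 (step_sound _ 69 [(rh3c3e23a02e82b2ed.shift 1 2), (rh4d4b48c38cbfcdba.shift 0 1), (rh5c5a2014709044d0.shift 1 2), (rhad75aa5f9a34cf02.shift 1 0)] (by decide +kernel))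
noncomputable def rhcb7ff4849791bf09 : CRef := CRef.mk (Pat.mk 0x10000000100000003000000020000000000000000000000000 0xc0000000c0000001f000000fe0000007c000001fe000001d40000001000000010 9 9) 0 0 (step_sound _ 102 [(rh3c3e23a02e82b2ed.shift 2 3), (rh5c5a2014709044d0.shift 2 3), (rh87be90bdef511a0c.shift 0 2), (rhf492c78a832a0261.shift 1 0)] (by decide +kernel))
noncomputable def rhb9c09184c9e6aebc : CRef := CRef.mk (Pat.mk 0x8000000180000001000000010000000000000000000000000 0x1000000030000000f6000000ff00000038000001f8000001f8000001e80000004000000040 9 9) 0 0 (step_sound _ 196 [(rh0801b67abda91994.shift 0 2), (rh3a483640d1bb9fdb.shift 3 2), (rh54aac62bbe930afa.shift 3 0), (rhe87fc85786a79de4.shift 3 2)] (by decide +kernel))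
noncomputable def rh42a6911bdeb67999 : CRef := CRef.mk (Pat.mk 0x10000000300000002000000000 0x800000028000000ff000001fe000000ff000000700000007000000050 9 9) 0 0 (step_sound _ 132 [(rh2145e1d24b96a57e.shift 4 1), rh5f76b1d25afb5100] (by decide +kernel))
noncomputable def rha7d8d2f51b1fdc89 : CRef := CRef.mk (Pat.mk 0x400000000000000020000000200000002000000000 0x2000000078000000780000003e000000ff000000f60000003c00000038 9 8) 0 0 (step_sound _ 132 [(rh0dbc8abee7ad42d4.shift 4 0), (rh7d31a7966d04388f.shift 2 0), rha920629b574224b5, (rhc031c8e4ab39f5bc.shift 4 0)] (by decide +kernel))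
noncomputable def rhd105e7931210be24 : CRef := CRef.mk (Pat.mk 0x200000000000000010000000100000001000000000 0x2c0000002c000001ef000001fe000001fe0000001800000010 9 9) 0 0 (step_sound _ 101 [rh39ce2b0da264c6da, (rha5c1ac488360e009.shift 4 0), (rhb009278fdd334770.shift 4 1)] (by decide +kernel))
noncomputable def rhbfd00c66ae8fd9fd : CRef := CRef.mk (Pat.mk 0x1000000010000000100000003000000000 0x4000000040000000c0000001e000000ff0000007e0000007800000010 9 8) 0 0 (step_sound _ 131 [(rh50fbb5868c909700.shift 3 1), rh6913e8260b969514] (by decide +kernel))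
noncomputable def rhfe0031048bdc4255 : CRef := CRef.mk (Pat.mk 0x1800000008000000100000000000000000 0x30000000380000007f0000001f00000038000000300000003000000030 9 7) 0 0 (step_sound _ 100 [(rh4ee84d7f73540b6b.shift 3 0), (rhdd238f5873d04e78.shift 0 1), (rhfc7c29d8e65d775f.shift 3 1)] (by decide +kernel))
noncomputable def rh01fdead5eb7ce2e8 : CRef := CRef.mk (Pat.mk 0x1800000008000000100000000000000000 0x3000000038000000ff000000ff00000038000000300000003000000030 9 8) 0 0 (step_sound _ 100 [(rh11d7d1b4c1559e52.shift 3 0), (rh3cb04db3dd2b6a55.shift 3 0), (rhdd238f5873d04e78.shift 0 1)] (by decide +kernel))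
noncomputable def rh637d9ba1d4a84b71 : CRef := CRef.mk (Pat.mk 0x3000000010000000200000000000000000 0x4000000048000000ef000000ff0000007e000000660000002400000020 9 8) 0 0 (step_sound _ 99 [(rh005328c9d6472acf.shift 1 2), (rh0bb882ba86b2372d.shift 1 3), (rh45bd458d79fa825c.shift 1 0), (rhc739c7f1214dbab7.shift 0 1)] (by decide +kernel))
noncomputable def rh2ecbeb4d3e9ca7d8 : CRef := CRef.mk (Pat.mk 0x8000000080000001800000000 0xc0000001c0000007c0000001f0000000c0000001c00000010 9 7) 0 0 (step_sound _ 131 [(rh55afc6a59410cf00.shift 3 0), (rhe1ef515661eedfa8.shift 0 1)] (by decide +kernel))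
noncomputable def rhdbc41366d7db82a8 : CRef := CRef.mk (Pat.mk 0x800000008000000180000000000000000 0x140000001c0000001c0000001c0000003e0000007f0000000f0000007c0000000800000008 9 7) 0 0 (step_sound _ 98 [(rh3c3e23a02e82b2ed.shift 0 2), rh746b1eaff195a96d, rh9e0e112c96ce9e76] (by decide +kernel))
noncomputable def rha25d98ba22060bc2 : CRef := CRef.mk (Pat.mk 0x10000000100000003000000020000000000000000000000000 0x1ef000000fe000001df0000003e0000007e0000000e0000000e0000000e 9 9) 0 0 (step_sound _ 100 [(rh0a0fa3bba4ba4fe6.shift 0 2), (rh4310fc046cc18785.shift 1 2), (rh67a82b7d56c81a67.shift 0 3), (rha8af4fe726c4a50b.shift 1 2), (rhc9e4d546eaf1f4ab.shift 1 0), (rhdb724fa847a38133.shift 1 2), (rhfa0ab2f6387bf6dc.shift 1 0)] (by decide +kernel))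
noncomputable def rh48b5167a7dbb96bc : CRef := CRef.mk (Pat.mk 0x80000000000000010000000100000000000000000 0x140000001c0000003c00000028000001ef000000fe000001fe0000001c0000001000000010 9 9) 0 0 (step_sound _ 131 [(rh4cdf6f2843e8569a.shift 0 1), (rh74a43b9a483760f6.shift 3 0), (rh9aed1232c1216b82.shift 2 2), (rhe482ee30a2733b5f.shift 3 0)] (by decide +kernel))
noncomputable def rh6298f23df1e7fb4b : CRef := CRef.mk (Pat.mk 0x80000000800000008000000000000000000000000 0x100000001800000018000001f8000000ff000001fc00000014 9 9) 0 0 (step_sound _ 67 [(rh6c59ce14113da07f.shift 3 0), (rh6eff4158bb400f47.shift 2 0), (rhc010bdd7dd48c354.shift 0 1), (rhcab3157f7bdcba3e.shift 2 0)] (by decide +kernel))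
noncomputable def rhff4990fab56cf9c5 : CRef := CRef.mk (Pat.mk 0x8000000000000001800000018000000000000000000000000 0x80000000f0000001f0000003f000000170000000200000002 9 6) 0 0 (step_sound _ 163 [(rh55afc6a59410cf00.shift 3 2), rhc9e4d546eaf1f4ab] (by decide +kernel))
noncomputable def rhb5f4e8af5f72c259 : CRef := CRef.mk (Pat.mk 0x4000000000000000c0000000c000000000000000000000000 0x4000000740000007f0000003c000000180000001800000018 9 7) 0 0 (step_sound _ 67 [(rh6f1cbe15c631ee70.shift 2 2), rhb930493778b0c41a] (by decide +kernel))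
noncomputable def rh0b513e2cd9dc4769 : CRef := CRef.mk (Pat.mk 0x80000000000000018000000180000000000000000 0x70000000780000006f000000ff0000007f0000000400000004 9 8) 0 0 (step_sound _ 98 [rh8df9bbeceee9cdb3, (rhad5d8fc3675c15dd.shift 0 2), (rhcaa13ed2ad44917a.shift 1 2)] (by decide +kernel))
noncomputable def rh2bc38e995c6804b3 : CRef := CRef.mk (Pat.mk 0x100000000000000038000000200000000000000000 0x140000001c0000005e0000007c000001cf000000f8000000fe0000002c00000020 9 9) 0 0 (step_sound _ 131 [(rh06e7b202d947f4d6.shift 1 1), (rh241debdc81a11ec1.shift 0 1), (rh2573c90a72219f55.shift 2 0), (rhbf8fc0c2e4fed52e.shift 2 2)] (by decide +kernel))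
noncomputable def rh46acd1b8de070037 : CRef := CRef.mk (Pat.mk 0x8000000080000001000000010000000100000000000000000000000000000000000000000 0x80000000c000000360000007e000000ff000000fe000001ff0000003c0000003c00000008 9 9) 0 0 (step_sound _ 132 [(rh165cdb78240e1819.shift 3 1), (rh5f1c7693341f5f3e.shift 3 0), (rh6eff4158bb400f47.shift 3 2), (rhb4d78cd0e58cc17c.shift 3 1), (rhe47c8bda911c6e11.shift 0 1), (rhfce98fb461631c67.shift 1 2)] (by decide +kernel))
noncomputable def rh628e6bdff8364c4f : CRef := CRef.mk (Pat.mk 0x1000000030000000000000002000000020 0xc0000000c000003ff000001ff0000001f0000003000000020 9 10) 0 0 (step_sound _ 68 [(rhbe0e43a3bc50a43f.shift 4 0), (rheb7691d9bbfcfdc0.shift 0 2)] (by decide +kernel))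
noncomputable def rh07259d5d22b7ce8b : CRef := CRef.mk (Pat.mk 0x800000018000000000000000000000000 0x10000000340000003c000000ff000000ff0000007f0000000e0000000400000004 9 8) 0 0 (step_sound _ 130 [(rh3c3e23a02e82b2ed.shift 0 3), (rh96dff9da4c572690.shift 0 2), (rhe5ca894c293080b8.shift 1 0)] (by decide +kernel))
noncomputable def rhdd320fdab47636e1 : CRef := CRef.mk (Pat.mk 0x100000001000000010 0x2000000038000000380000003f000000ff000000fe0000003e00000018 9 8) 0 0 (step_sound _ 100 [(rh1741680720c097b4.shift 3 0), rh5905d0c5a7853fcc, (rh723b1b4d69aa77dc.shift 3 0), (rh815f4fc3e21acd28.shift 3 0), (rhc4a8feffcdaf9613.shift 1 0), (rhe1ef515661eedfa8.shift 1 0), (rhf927af2b331f35d4.shift 3 0)] (by decide +kernel))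
noncomputable def rh94a1400de8969458 : CRef := CRef.mk (Pat.mk 0x1000000030000000000000002000000020 0x7c0000007c0000007f000000fe000000ff0000000f0000003e0000007c 9 8) 0 0 (step_sound _ 131 [(rh3c3e23a02e82b2ed.shift 1 3), (rh65166475994cef26.shift 1 3), (rh6b8c9a3a0dbe42f5.shift 1 1), (rhb0121edee88fe839.shift 1 3), rhdb267567957c98e2] (by decide +kernel))
noncomputable def rhb7481635fd98c0b9 : CRef := CRef.mk (Pat.mk 0x800000008000000080000000400000000000000000000000000000000 0x18000000180000001c0000001f0000001c0000001c0000000c00000004 9 5) 0 0 (step_sound _ 131 [(rh932754581e0f4330.shift 2 3), rh9b202401cb2f5143] (by decide +kernel))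
noncomputable def rh22bdcc9c990557c1 : CRef := CRef.mk (Pat.mk 0x10000000100000001000000008000000000000000000000000 0x100000001e0000003f0000007f0000007f000000370000003600000002 9 7) 0 0 (step_sound _ 131 [(rh5c5e593799055d58.shift 3 3), rhd4d75aa1c5c58a00] (by decide +kernel))
noncomputable def rh3764703280706972 : CRef := CRef.mk (Pat.mk 0x200000002000000020000000100000000000000000 0x2000000020000000fe000000fe000000df000000f800000050 9 8) 0 0 (step_sound _ 100 [(rh5c5e593799055d58.shift 4 2), rhd3ffc1b60c05cfe0] (by decide +kernel))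
noncomputable def rhf2d7918745c94090 : CRef := CRef.mk (Pat.mk 0x1000000010000000200000002000000020000000000000000000000000 0x100000001c000001ff000000fe000001ff0000000e0000000c00000004 9 9) 0 0 (step_sound _ 132 [rh5b6479a090f57da5, (rhff0f29cb645b05f7.shift 4 3)] (by decide +kernel))
noncomputable def rh038c3c7567465c17 : CRef := CRef.mk (Pat.mk 0x40000000400000004000000040000000000000000000000000 0x40000000600000007f000003fe000000bf0000001000000010 9 10) 0 0 (step_sound _ 101 [(rh932754581e0f4330.shift 5 2), rhefcd8589e41046cb] (by decide +kernel))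
noncomputable def rh05291e113e1e7d3d : CRef := CRef.mk (Pat.mk 0x100000001000000010000000100000000000000000000000000000000000000000 0x100000003f0000007e000000ff0000001800000038000000380000003800000028 9 8) 0 0 (step_sound _ 132 [(rh293c8f5a69fe342f.shift 1 1), (rh7928877f9bf74a91.shift 3 3), (rhb4d78cd0e58cc17c.shift 3 1), rhb78173f7b139f031] (by decide +kernel))
noncomputable def rhf6729a9f89ee41a5 : CRef := CRef.mk (Pat.mk 0x100000001000000010000000100000000000000000000000000000000000000000 0x100000003f0000007e000000ff0000003000000038000000380000003800000028 9 8) 0 0 (step_sound _ 132 [(rh88e49433b6bf2ac2.shift 1 1), rhb78173f7b139f031, (rhd29a1fb688eae70f.shift 4 3)] (by decide +kernel))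
noncomputable def rhc1de6bd3290c8573 : CRef := CRef.mk (Pat.mk 0x800000008000000080000000800000000000000000000000000000000 0x80000001c0000001f0000000c0000001c0000001c0000001c00000004 9 5) 0 0 (step_sound _ 99 [(rh6b0e6ea20bf12a11.shift 2 2), (rh6eff4158bb400f47.shift 2 1), (rh7928877f9bf74a91.shift 2 2), rh88e49433b6bf2ac2, (rhced1fa756b93455b.shift 2 1)] (by decide +kernel))
noncomputable def rha1951ad79618c725 : CRef := CRef.mk (Pat.mk 0x4000000040000000c0000000800000000000000000 0x20000000600000007f000003fe000001bf000001f0000000b0 9 10) 0 0 (step_sound _ 39 [(rh7b1f1fb55310c477.shift 6 0), rh8e3264e3b80ace24] (by decide +kernel))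
noncomputable def rh9a7a56ebcf9eeba3 : CRef := CRef.mk (Pat.mk 0xc00000008000000080000000000000000000000000000000000000000 0x1c0000001c0000007f0000007f0000001f0000001c0000001c00000014 9 7) 0 0 (step_sound _ 131 [(rh257d7200ab2a6828.shift 2 2), (rh4135fb27562cfe7c.shift 2 0), (rh506ca7837793fef4.shift 0 3)] (by decide +kernel))
noncomputable def rh8dcb9131a9a6f0b1 : CRef := CRef.mk (Pat.mk 0x10000000000000003800000000000000000000000000000000 0x40000001c0000003c0000000f0000007c0000001f0000001c0000001c00000014 9 7) 0 0 (step_sound _ 99 [(rh5c05ce7e7edd1894.shift 0 3), rha0e8cc203761b548, (rhf0f55c4504412200.shift 0 3)] (by decide +kernel))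
noncomputable def rh0418698e766c115e : CRef := CRef.mk (Pat.mk 0x1800000008000000180000000000000000000000000000000000000000 0x10000000180000000f0000001c000000180000001c0000001c0000001c00000010 9 5) 0 0 (step_sound _ 131 [rh1b7a19b534ac79d6, (rh2f68792b6b779e96.shift 3 4)] (by decide +kernel))
noncomputable def rh4ced77cc1c1c84dd : CRef := CRef.mk (Pat.mk 0x180000000800000018000000000000000000000000 0x1000000070000000f000000078000000ff0000003f000000f00000007000000010 9 8) 0 0 (step_sound _ 130 [(rh005328c9d6472acf.shift 0 3), rhac1dfdd7ec39434b, (rhbe6cd50dca43f167.shift 2 1), (rhca7b1c75b4cec277.shift 0 3), (rhfc74abf75a0cb9f0.shift 0 1)] (by decide +kernel))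
noncomputable def rh8b6df6c4589e705a : CRef := CRef.mk (Pat.mk 0x80000000800000008000000080000000000000000 0x140000001c0000001c00000008000000080000000c0000001f0000001c00000010 9 5) 0 0 (step_sound _ 66 [(rh932754581e0f4330.shift 2 1), rhce6ead8f6b95c782] (by decide +kernel))
noncomputable def rh001eba89ee1f3529 : CRef := CRef.mk (Pat.mk 0x800000008000000080000000c000000000000000000000000 0x40000000c000000180000007f0000003f000000700000002000000020 9 7) 0 0 (step_sound _ 100 [(rh55afc6a59410cf00.shift 3 2), rh7b454b90c68015eb] (by decide +kernel))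
noncomputable def rh64bfdb2e124c8edc : CRef := CRef.mk (Pat.mk 0x800000008000000080000000800000000 0x30000000780000001e0000003c000000ff00000034 9 8) 0 0 (step_sound _ 36 [(rh55afc6a59410cf00.shift 3 0), rhf9395e73badfa545] (by decide +kernel))
noncomputable def rh00f59b2510a62ba3 : CRef := CRef.mk (Pat.mk 0x80000000800000008000000000000000000000000 0x40000000c0000000c0000003f0000003f0000001f00000014 9 6) 0 0 (step_sound _ 67 [(rh5bba2aa8209b0dac.shift 0 1), (rh6eff4158bb400f47.shift 2 0), (rh8ff3dde5b1c639e0.shift 2 0), (rhc4526fc8abf298b6.shift 2 0)] (by decide +kernel))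
noncomputable def rhfe7be903937d7148 : CRef := CRef.mk (Pat.mk 0x20000000200000000000000010000000100000000000000000 0x28000000a8000003af000001fe000003ff0000005000000050 9 10) 0 0 (step_sound _ 101 [(rh3c88ce959c0e423f.shift 4 2), rhad2935f330dc4222] (by decide +kernel))
noncomputable def rheee1bcc09996442f : CRef := CRef.mk (Pat.mk 0x80000000800000008 0x140000001e0000001e0000001f0000003f0000003f0000003c00000018 9 6) 0 0 (step_sound _ 99 [(rh1741680720c097b4.shift 2 0), rh4fbe2ffbe3e7473a, (rh65113ca1cfcb3ae9.shift 2 0), (rh7cb421097af52dd8.shift 2 0), (rh9340b6a41f320436.shift 2 0), rhca2a390f413f04bc] (by decide +kernel))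
noncomputable def rh74c673f792b9f62e : CRef := CRef.mk (Pat.mk 0x200000003000000000000000100000001000000000 0x1ff000000fe0000002f000000ff000000fe0000000c 9 9) 0 0 (step_sound _ 69 [rh3051c8cf641dacf4, (rh3c88ce959c0e423f.shift 4 1)] (by decide +kernel))
noncomputable def rhcb577c1e1765496a : CRef := CRef.mk (Pat.mk 0x1800000008000000000000000000000000 0x70000000f0000007f000000ff0000007f0000003e00000034 9 8) 0 0 (step_sound _ 98 [(rh5c9559967b1308e8.shift 1 0), (rh69012675dfdb1a5b.shift 0 3), rhcfc9b6ea87cf21f5, (rhd69c262cd33b94b3.shift 0 3)] (by decide +kernel))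
noncomputable def rhdd0a2bd1f175f9f4 : CRef := CRef.mk (Pat.mk 0x2000000020000000000000003000000010000000000000000000000000 0x7c0000003e0000000f000000ff000001fe000000fe0000007c00000078 9 9) 0 0 (step_sound _ 99 [rh11f707992f362504, (rh69012675dfdb1a5b.shift 1 3), (rhcfc9b6ea87cf21f5.shift 1 0), (rhd69c262cd33b94b3.shift 1 3)] (by decide +kernel))
noncomputable def rhaf86bda34f90b2c5 : CRef := CRef.mk (Pat.mk 0x300000001000000010 0x2800000028000007ef000003fe000001ff00000050 9 11) 0 0 (step_sound _ 101 [(rh66545b54de5b6ba2.shift 1 0), rh66863267533cc0b5, (rh69755ef358ebfd54.shift 4 0)] (by decide +kernel))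
noncomputable def rhb6a927a571e5955f : CRef := CRef.mk (Pat.mk 0xc00000004000000040000000000000000 0x1000000012000000370000007f000000ff0000000c0000000400000004 9 8) 0 0 (step_sound _ 132 [(rh492208f1043c36f8.shift 1 3), rhf5ea6d643b8a4297, (rhfb9953e9a73eee19.shift 0 1)] (by decide +kernel))
noncomputable def rhd99c20cf667beeac : CRef := CRef.mk (Pat.mk 0x1000000010000000100000000000000008 0x2800000038000000380000003e0000007e0000007e000000ff0000007e0000000e0000000c 9 8) 0 0 (step_sound _ 67 [rh17dd5508533e3038, (rh319673309b7ac683.shift 3 0), (rh68a777751bfeafdf.shift 3 1), (rha16c6028ebc2e207.shift 1 2)] (by decide +kernel))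
noncomputable def rh6dc16a9d84437350 : CRef := CRef.mk (Pat.mk 0x8000000080000000800000008 0x2000000020000000f4000000ff0000007f0000001800000008 9 8) 0 0 (step_sound _ 100 [(rh2f68792b6b779e96.shift 3 0), rhdb63aa454c2bde81] (by decide +kernel))
noncomputable def rhe2b2bdee6ee52bb8 : CRef := CRef.mk (Pat.mk 0x10000000100000001000000010 0x28000000380000003800000018000000ff000000fe0000003f00000010 9 8) 0 0 (step_sound _ 132 [(rh3ca48e2a6d60153d.shift 3 0), (rh64962089654f0e21.shift 2 0), (rh66ee4e4e1313f0fc.shift 3 1), (rhfd585e588476eb96.shift 0 1)] (by decide +kernel))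
noncomputable def rh53db3b9c8df09cbb : CRef := CRef.mk (Pat.mk 0x10000000100000001000000010 0x28000000380000003800000030000000ff0000007e0000003f00000010 9 8) 0 0 (step_sound _ 132 [(rh44f453b84f013105.shift 4 0), (rh8bf34b10d19fc0cb.shift 1 0), (rhf515f701b82bbaa6.shift 3 1), (rhfd585e588476eb96.shift 0 1)] (by decide +kernel))
noncomputable def rh30c1bb15e0888073 : CRef := CRef.mk (Pat.mk 0x20000000300000001000000010000000000000000000000000 0x180000003c000000f80000001f000000ff000000ef0000000c0000000c 9 8) 0 0 (step_sound _ 131 [(rh3517ef88a07647cf.shift 2 2), rh8fbd62e09f8d256a, (rhd69c262cd33b94b3.shift 1 4)] (by decide +kernel))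
noncomputable def rh5e84f7ca3969efff : CRef := CRef.mk (Pat.mk 0x2000000030000000000000001000000000 0x280000007c000001ef000000fe0000001f0000001000000010 9 9) 0 0 (step_sound _ 68 [(rh0e033db10d8d0fd1.shift 0 1), (rh71222050f2c63a3a.shift 4 0)] (by decide +kernel))
noncomputable def rh12210b4929460699 : CRef := CRef.mk (Pat.mk 0x10000000180000000000000008 0x2800000038000000380000003e0000007e0000007e000000ff0000007e0000000e0000000c 9 8) 0 0 (step_sound _ 132 [rh17dd5508533e3038, (rh319673309b7ac683.shift 3 0), (rh68a777751bfeafdf.shift 3 1), (rha16c6028ebc2e207.shift 1 2)] (by decide +kernel))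
noncomputable def rhf5ed9a3ca086f37c : CRef := CRef.mk (Pat.mk 0x3000000018 0x1c0000003c000000fe000000ff00000078 9 8) 0 0 (step_sound _ 38 [(rh18965a982d73c794.shift 3 0), rh513d40f7ad55eba6] (by decide +kernel))
noncomputable def rh6f9766c866e54b80 : CRef := CRef.mk (Pat.mk 0x6000000030000000000000001000000000 0x1800000018000000fe0000007e000000fc0000000f0000003c0000001c 9 8) 0 0 (step_sound _ 99 [(rh53b3c253cb0c65f4.shift 2 3), rh81645dc79142ef50] (by decide +kernel))
noncomputable def rh208f43bd06f1f9c4 : CRef := CRef.mk (Pat.mk 0x10000000000000001800000008000000080000000000000000 0x50000000700000007200000076000000670000007f0000003f0000007f0000003200000030 9 7) 0 0 (step_sound _ 98 [rh0d5b008499ec8169, (rh69012675dfdb1a5b.shift 0 3), (rhd69c262cd33b94b3.shift 0 3), (rhdd0a63b95caefe79.shift 1 1)] (by decide +kernel))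
noncomputable def rhc112098269305093 : CRef := CRef.mk (Pat.mk 0x1800000010000000100000001000000000 0x1e7000001fe000003f7000000100000003800000028 9 10) 0 0 (step_sound _ 133 [(rh2f68792b6b779e96.shift 4 1), rh7c2ae6b05fa6a484] (by decide +kernel))
noncomputable def rh35497409ec627d31 : CRef := CRef.mk (Pat.mk 0x1000000018000000300000000000000000 0x20000000a0000000f0000001f0000007e000000360000001e0000001c 9 7) 0 0 (step_sound _ 98 [rh2d7ab781e8c7e13f, (rhb739f4f82bb681b4.shift 1 2)] (by decide +kernel))
noncomputable def rh65b638a107c9040b : CRef := CRef.mk (Pat.mk 0x100000001000000030000000000000000000000000 0x2000000060000000fe0000007f000000fe000001ef0000007c00000028 9 9) 0 0 (step_sound _ 69 [(rh08edf065357d68e5.shift 4 0), rh0f22bb96f7b9a0ec, (rhb200d10b16341678.shift 1 1)] (by decide +kernel))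
noncomputable def rh33a7d085b895f2b8 : CRef := CRef.mk (Pat.mk 0x1000000010000000100000003000000000 0x1000000010000001fe000000fe000001cf 9 9) 0 0 (step_sound _ 35 [rh0e7bcf99e76261c9, (rh932754581e0f4330.shift 3 0)] (by decide +kernel))
noncomputable def rhf979455b5cd21ca7 : CRef := CRef.mk (Pat.mk 0x40000000c000000060000000000000000 0x180000007a0000001f0000003c0000001e0000003c00000018 9 7) 0 0 (step_sound _ 100 [(rh18965a982d73c794.shift 1 2), rhc2d3e7a3a0370601] (by decide +kernel))
noncomputable def rh337eeaf395a498d4 : CRef := CRef.mk (Pat.mk 0x80000000800000008000000000000000000000000 0x40000001c0000001e0000007f0000003e0000000c0000003e0000001f0000001400000004 9 7) 0 0 (step_sound _ 162 [(rh767e3705445de28c.shift 2 1), rh7705eac96b0a30b0, (rhb1a251d9bff81766.shift 2 2), (rhd9c788dc817ec9f7.shift 0 2), (rhf9a6286f1d5377a2.shift 2 2)] (by decide +kernel))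
noncomputable def rhc3d935a80976a612 : CRef := CRef.mk (Pat.mk 0x30000000200000002000000000 0x100000001c0000001f000001fe000001ff0000007c0000001c 9 9) 0 0 (step_sound _ 132 [(rh9dc063451b54a109.shift 1 0), rhaf48ceacc378cacf, (rhe072fffdd2fccf38.shift 4 1)] (by decide +kernel))
noncomputable def rhcb3f987ed7f082fe : CRef := CRef.mk (Pat.mk 0xc0000001800000008000000000000000000000000 0x80000000a0000000f0000001f0000003f0000003f0000001600000004 9 6) 0 0 (step_sound _ 161 [(rhb739f4f82bb681b4.shift 0 4), rhfe28f6921fdaf2ed] (by decide +kernel))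
noncomputable def rhb9e10c563ef27e96 : CRef := CRef.mk (Pat.mk 0x40000000600000002000000020000000000000000000000000 0x300000003000000030000003ee000003fc000003bf000000fe000003de0000001c0000001c 9 10) 0 0 (step_sound _ 100 [(rh39745811d1b3923b.shift 2 2), (rh4b430f2f69007c97.shift 4 2), (rh621cd4e4141c3775.shift 1 2), (rh97168eacc952f7f5.shift 1 0), (rhdafc1c6c23dfd84d.shift 2 2), (rhf117762c688f2068.shift 0 2)] (by decide +kernel))
noncomputable def rh6902287a52a9e708 : CRef := CRef.mk (Pat.mk 0x3000000018000000100000000000000000 0x50000000d0000000fc000000f80000007f0000007f0000000c 9 8) 0 0 (step_sound _ 134 [(rh18965a982d73c794.shift 3 3), rh5b7c6e02c3a7f353] (by decide +kernel))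
noncomputable def rh5f067d786d236366 : CRef := CRef.mk (Pat.mk 0x30000000100000001000000000 0xa8000001e8000001ff000001fe000001df0000005000000040 9 9) 0 0 (step_sound _ 133 [(rhbfb5770941270498.shift 4 1), (rhe29ed1fef038a271.shift 0 1), (rhecb5def307cf17c4.shift 2 0)] (by decide +kernel))
noncomputable def rhfeeb6b1323700ffe : CRef := CRef.mk (Pat.mk 0x1000000010000000100000001800000000 0xc0000001f0000003c000000fe0000007e00000026 9 8) 0 0 (step_sound _ 37 [(rh55afc6a59410cf00.shift 4 0), rh91191d68880818c3] (by decide +kernel))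
noncomputable def rha2747473b6caa26e : CRef := CRef.mk (Pat.mk 0x800000008000000080000000400000000 0x40000000c000000080000003f000000ff000000f4 9 8) 0 0 (step_sound _ 35 [rh7de3b48f26f4f9f8, (rh932754581e0f4330.shift 2 0)] (by decide +kernel))
noncomputable def rh57a51e7a4af856f5 : CRef := CRef.mk (Pat.mk 0x3000000010000000100000000800000000 0x800000008000003ce000001fc000003de0000007e0000000f0000000e 9 10) 0 0 (step_sound _ 134 [(rh2820ca9a6c4f41b4.shift 1 3), (rh352b7f91eba0c81f.shift 3 3), (rh5c95dcd2bb69f038.shift 1 0), rhf5109498701c34aa] (by decide +kernel))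
noncomputable def rhb1f0530b12bc5112 : CRef := CRef.mk (Pat.mk 0x40000000400000007000000000000000000000000000000000 0x580000005e0000007c000000fe0000003f0000001c00000004 9 8) 0 0 (step_sound _ 131 [(rh6de56787cc1605b6.shift 2 2), rh9eaa695266163534, (rhfdf52a061710c7fa.shift 1 3)] (by decide +kernel))
noncomputable def rh39de8627b22f9f20 : CRef := CRef.mk (Pat.mk 0x200000002000000038000000000000000000000000 0x10000000140000001f0000007e000001ef00000038000000fe0000007400000010 9 9) 0 0 (step_sound _ 164 [(rh2e78b36d2be7904b.shift 2 2), (rhe3e29ad984c3b423.shift 3 1), rhf4dfed0b149e5ed5, (rhff4621d66568a73f.shift 1 0)] (by decide +kernel))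
noncomputable def rh9dc4a36120b5596b : CRef := CRef.mk (Pat.mk 0xc000000080000000c000000000000000000000000 0xe7000000ff0000007f0000000f000000030000000300000001 9 8) 0 0 (step_sound _ 132 [rh349d59d951c84731, (rh4ca5dae25f5c14ff.shift 0 4), (rh95c7bf00a65f6c99.shift 0 3), (rha42c5dfa6c5d377a.shift 1 3)] (by decide +kernel))
noncomputable def rh62e0ddced4ff450c : CRef := CRef.mk (Pat.mk 0x3000000020000000300000000000000000 0x140000001c0000001c0000038f000003fe000007ff0000003e0000006c00000020 9 11) 0 0 (step_sound _ 131 [(rh233c03698d2d6b1a.shift 2 2), rh24b1823c5c6e2b62, (rh8ee80cc30e93a344.shift 2 3), (rh9825d0c98fedc720.shift 2 2)] (by decide +kernel))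
noncomputable def rh1cc97ce2d7f9dc7a : CRef := CRef.mk (Pat.mk 0x60000000200000003000000000 0x4000000048000001ec000001fc000001ff0000003e00000007 9 9) 0 0 (step_sound _ 134 [rhabcd66ffa9eb3412, (rhbfb5770941270498.shift 5 1)] (by decide +kernel))
noncomputable def rhb0cbab6790a8749a : CRef := CRef.mk (Pat.mk 0x600000002000000030000000000000000000000000 0x78e000003fe000003ff0000003e000000600000002000000020 9 11) 0 0 (step_sound _ 167 [(rh099a0e3daa31ef6c.shift 4 3), (rh2820ca9a6c4f41b4.shift 2 4), rhc51eaa8a077bda70, (rhf0f55c4504412200.shift 2 4)] (by decide +kernel))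
noncomputable def rhcc687d9ea27eb7d4 : CRef := CRef.mk (Pat.mk 0x8000000080000000800000000000000000000000000000000 0x180000001c0000001c0000001e000000780000001c0000000f0000003c0000001c0000001c00000014 9 7) 0 0 (step_sound _ 196 [(rh15590a39afd9a120.shift 2 1), (rh215e11e099257d75.shift 3 3), rh7230a6ac4b96f2c8, (rh746fd82cc49e4875.shift 1 3)] (by decide +kernel))
noncomputable def rh2c3a5782646f1c39 : CRef := CRef.mk (Pat.mk 0x20000000400000004000000040 0xa0000000a0000007bf000003fe000007fc00000050 9 11) 0 0 (step_sound _ 69 [(rh1f8780027c824129.shift 2 0), rha5e0c8f27ad47d64, (rhe072fffdd2fccf38.shift 5 0)] (by decide +kernel))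
noncomputable def rh650dc778d948716e : CRef := CRef.mk (Pat.mk 0x10000000100000001000000000 0x280000003f000000fe000000ff000000180000001800000008 9 8) 0 0 (step_sound _ 132 [(rh1741680720c097b4.shift 3 1), (rh20966da26a1c2ae8.shift 3 0), (rh5a0926fb97031008.shift 0 1), (rh771d065bdc85bf2d.shift 3 0)] (by decide +kernel))
noncomputable def rhc502a7eaff8a69b5 : CRef := CRef.mk (Pat.mk 0x80000000c000000040000000400000000 0x16000000ff0000007c0000001e0000007c00000078 9 8) 0 0 (step_sound _ 100 [(rh09cd08bf7d5fae33.shift 1 2), (rha83d0a1d851c6a27.shift 1 2), rhfc33c4af2547b1df] (by decide +kernel))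
noncomputable def rh86cd3d5d7994e720 : CRef := CRef.mk (Pat.mk 0x18000000080000001800000000 0x40000000c0000000f000000780000003f0000003f00000004 9 7) 0 0 (step_sound _ 131 [rh20b28b884f3c0852, (rh50fc3837f5e8c53a.shift 2 0), (rh5bd4bc0c2c48140c.shift 2 1), rh66eeaab91603179f] (by decide +kernel))
noncomputable def rhce57b6de66b384ff : CRef := CRef.mk (Pat.mk 0x100000001000000010000000200000000000000000 0x140000077f000003fe000003ef0000007c00000028 9 11) 0 0 (step_sound _ 101 [(rh08edf065357d68e5.shift 4 0), rh0f22bb96f7b9a0ec, rhbbdea05a16a46984] (by decide +kernel))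
noncomputable def rh4445a76962bf37ce : CRef := CRef.mk (Pat.mk 0x1000000010000000100000001800000000 0x800000018000000100000007f000001fe000001e7 9 9) 0 0 (step_sound _ 37 [(rh55afc6a59410cf00.shift 4 0), rhbd229defb74cdbf0] (by decide +kernel))
noncomputable def rhbaf97f5b2d1f2326 : CRef := CRef.mk (Pat.mk 0x400000006000000020000000000000000000000000 0x1800000018000000df000001fe0000003e0000003e0000003800000038 9 9) 0 0 (step_sound _ 132 [(rh10f64d0ba3fb98c4.shift 1 0), (rh312a101bf7021a47.shift 2 1), (rh3d5866fd09826688.shift 0 1), (rh7c54c14170542785.shift 2 1), (rhb12ffaec36122c99.shift 1 3)] (by decide +kernel))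
noncomputable def rh825097188a8f0eb3 : CRef := CRef.mk (Pat.mk 0x18000000080000000800000000000000000000000000000000 0x140000001c0000001c000001cc000000f80000001f0000007c000000180000001c0000001c00000004 9 9) 0 0 (step_sound _ 197 [(rh2b4e8cf72fa7415e.shift 2 3), rh9b2eca1298571073, (rhdc1641106d7e5aa2.shift 2 5), (rhf2ab95e86046d109.shift 0 1)] (by decide +kernel))
noncomputable def rh17ec3c4e2287e644 : CRef := CRef.mk (Pat.mk 0x20000000200000002000000000000000000000000 0x4000000070000000700000007000000060000000700000007000000030000000300000001 9 3) 0 0 (step_sound _ 64 [rh3743dbe66b959104, (rh474753b99d38b854.shift 0 1), (rh9fb9dc683e09b5f3.shift 0 2)] (by decide +kernel))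
noncomputable def rh157f2560bab4cd4a : CRef := CRef.mk (Pat.mk 0x180000000800000008000000000000000000000000 0x100000001c0000001c0000000c00000018000000180000000f0000003c0000001c00000014 9 6) 0 0 (step_sound _ 67 [(rh161c003cd166b8ec.shift 0 1), (rh283aa840d851d11c.shift 2 1), (rh8c3839f9b9075f23.shift 3 0), (rha8bc3cae4d77a08f.shift 2 0)] (by decide +kernel))
noncomputable def rh5725ca6f3553b2f6 : CRef := CRef.mk (Pat.mk 0x1000000010000000100000001000000000 0x1ef000001fe000003f7000000100000001800000008 9 10) 0 0 (step_sound _ 133 [(rh2f68792b6b779e96.shift 4 1), rhfdc4582c28e8cb07] (by decide +kernel))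
noncomputable def rh5569af34171238a6 : CRef := CRef.mk (Pat.mk 0x20000000300000001000000000 0x1c0000001e000000fe000001fe0000001f00000008 9 9) 0 0 (step_sound _ 70 [(rh2820ca9a6c4f41b4.shift 1 1), (rha1063df14a74694a.shift 0 1), (rha83d0a1d851c6a27.shift 3 1), (rhd9cb84a5a5e667bc.shift 1 0)] (by decide +kernel))
noncomputable def rh4d422505a3c0b95b : CRef := CRef.mk (Pat.mk 0x8000000080000001800000000000000000000000000000000 0x140000001c0000001c0000001c0000003c0000000f0000001f000000780000000c0000001c0000001c00000010 9 7) 0 0 (step_sound _ 162 [(rh5c5a2014709044d0.shift 0 4), (rh746b1eaff195a96d.shift 0 2), (rhf7ef4f12995d54a1.shift 2 0)] (by decide +kernel))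
noncomputable def rhe5bcced305a521ff : CRef := CRef.mk (Pat.mk 0x80000000c000000180000000000000000 0x1c0000001c0000000c0000003c0000007f0000006700000004 9 7) 0 0 (step_sound _ 69 [rh7808e99493f4ceac, (rhf48373e13d2bc128.shift 2 2)] (by decide +kernel))
noncomputable def rh80c2e91216f985ec : CRef := CRef.mk (Pat.mk 0x100000001000000030000000000000000000000000 0x80000000c0000001e0000007f000000fe000001ef0000007c00000028 9 9) 0 0 (step_sound _ 69 [(rh08edf065357d68e5.shift 4 0), rh0f22bb96f7b9a0ec, (rhb3cc3c956260268e.shift 1 1)] (by decide +kernel))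
noncomputable def rh6c75addc4e08437d : CRef := CRef.mk (Pat.mk 0x2000000020000000200000003000000000 0xc0000000c0000001f0000003e000000ff000000fe0000003e00000008 9 8) 0 0 (step_sound _ 132 [rh4137754211e46b51, (rh50fbb5868c909700.shift 4 1)] (by decide +kernel))
noncomputable def rh8ed4be1eae12113d : CRef := CRef.mk (Pat.mk 0x300000001000000010 0x2800000028000007ff000003fe0000007000000010 9 11) 0 0 (step_sound _ 101 [(rh69755ef358ebfd54.shift 4 0), (rhbfb5770941270498.shift 4 0), rhfe8f802741a87f12] (by decide +kernel))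
noncomputable def rh5f52b26066249c47 : CRef := CRef.mk (Pat.mk 0x1800000010000000100000001000000000 0x40000001f0000003c000000fe0000007e0000002e 9 8) 0 0 (step_sound _ 35 [rh03237ea8a895c768, (rh932754581e0f4330.shift 3 0)] (by decide +kernel))
noncomputable def rh46c40fc1f0ed3ce8 : CRef := CRef.mk (Pat.mk 0x1000000020000000200000002000000000 0x100000001c0000001f000001fe000001ff0000007c0000001c 9 9) 0 0 (step_sound _ 100 [(rh9dc063451b54a109.shift 1 0), rhaf48ceacc378cacf, (rhe072fffdd2fccf38.shift 4 1)] (by decide +kernel))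
noncomputable def rh2eeb25d2bb8f1192 : CRef := CRef.mk (Pat.mk 0x100000002000000020000000200000000 0x10000000700000007000000070000000300000003000000030000000700000005 9 3) 0 0 (step_sound _ 129 [(rh50fbb5868c909700.shift 0 1), rh61b056960b1efe05] (by decide +kernel))
noncomputable def rhb97a0b555db8071e : CRef := CRef.mk (Pat.mk 0x100000001000000000000000300000002000000000000000000000000000000000 0x1000000018000001cf000003fe000000ff0000001e0000001c0000001c00000004 9 10) 0 0 (step_sound _ 163 [rh2cc295c8a12c5b6f, (rh9909eeda0ef2ed2c.shift 2 4), (rhc92c11e8da6c894f.shift 0 4), (rhf9dee39e9c000c0c.shift 2 4)] (by decide +kernel))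
noncomputable def rh9567ed9104f615e9 : CRef := CRef.mk (Pat.mk 0x800000018000000000000001000000010 0x7800000078000001fe000001ff000000fc000001e60000007400000014 9 9) 0 0 (step_sound _ 101 [(rh1aae126fdb0efa1d.shift 2 2), rh5c2fdb56a767852e, (rh7fc59d655f11124d.shift 2 1), (rhd3d7228cf4da7b9c.shift 2 0), (rhf60aa8aede119d3b.shift 0 3)] (by decide +kernel))
noncomputable def rh754b2c4b763ef6cb : CRef := CRef.mk (Pat.mk 0x1000000030000000000000002000000020 0x7c0000007c0000007f000000fe000000ff0000000f0000003e0000007c 9 8) 0 0 (step_sound _ 131 [(rh3c3e23a02e82b2ed.shift 1 3), (rh5c5a2014709044d0.shift 1 3), (rh6b8c9a3a0dbe42f5.shift 1 1), rhdb267567957c98e2] (by decide +kernel))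
noncomputable def rh4bf8552f09771e76 : CRef := CRef.mk (Pat.mk 0x100000001000000000000000300000002000000000000000000000000000000000 0xf80000005e000001c8000003fe000000ff0000001e0000001c0000001c00000004 9 10) 0 0 (step_sound _ 163 [(rh1ff56f1ab0200d17.shift 1 2), (rh3822c4a285f21ad0.shift 1 4), (rh50a90228664c4ebb.shift 1 1), (rh9909eeda0ef2ed2c.shift 2 4), (rha0ae8adeb1dbcf8d.shift 0 4), rhd993116c27d296c3] (by decide +kernel))
noncomputable def rh21712d3011ac9cf9 : CRef := CRef.mk (Pat.mk 0x800000018000000000000001000000010 0x7800000078000001fe000001ff000000fc000001e00000007000000030 9 9) 0 0 (step_sound _ 101 [(rh1aae126fdb0efa1d.shift 2 2), (rh5d54a69ee789ff61.shift 2 0), rh6f340fdb9e9ee967, (rha9fbfd4bb8cf890b.shift 0 3), (rhd3d7228cf4da7b9c.shift 2 0)] (by decide +kernel))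
noncomputable def rh7277bb6a6a6773a9 : CRef := CRef.mk (Pat.mk 0x800000008000000000000001000000010 0x2000000020000001ff000000ff000001f80000007e00000030 9 9) 0 0 (step_sound _ 100 [(rh2613c889e411427e.shift 3 0), rh3af52d68c7a1fb2f] (by decide +kernel))
noncomputable def rha923fd19a0445f31 : CRef := CRef.mk (Pat.mk 0x1000000030000000000000002000000020 0x6000000068000001fe000001fe000000ff000000c70000006600000020 9 9) 0 0 (step_sound _ 131 [(rh3c3e23a02e82b2ed.shift 1 3), (rh5c5a2014709044d0.shift 1 3), (rhb0121edee88fe839.shift 1 3), (rhb03f699babd0f7d9.shift 1 1), rhce0e5cbde6aab179] (by decide +kernel))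
noncomputable def rh1b98234bbe7ff2d7 : CRef := CRef.mk (Pat.mk 0x1000000010000000100000002000000020 0x80000003800000038000001f8000003ff000001fe000001ff000000d0000000e000000020 9 10) 0 0 (step_sound _ 133 [(rh3143ed1a8b2502eb.shift 2 1), rh49abdbee0daf80f5, (rh8a6883124b2e6a32.shift 1 2), (rh9453ebe0a50eebf4.shift 1 2), (rhc92f41024017c95c.shift 1 0), (rhd8673ff551ecbdb5.shift 1 1), (rhd9b36a4f0fe456d0.shift 1 2), (rhe8f76f0514ea97b5.shift 1 1)] (by decide +kernel))
noncomputable def rh1b6f79407ad2ee9c : CRef := CRef.mk (Pat.mk 0x1000000030000000000000002000000020 0x4c0000004c000007ff000003ff0000079f000000b000000020 9 11) 0 0 (step_sound _ 68 [(rh6c4d8afbbd9f4740.shift 0 1), (rhbe0e43a3bc50a43f.shift 4 0)] (by decide +kernel))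
noncomputable def rh828be486e818da65 : CRef := CRef.mk (Pat.mk 0x800000018000000000000000000000000 0x340000003c000000ff000000ff0000007f0000000e0000000400000004 9 8) 0 0 (step_sound _ 130 [(rh3c3e23a02e82b2ed.shift 0 3), (rh8281f9c3a901883e.shift 0 2), (rhe5ca894c293080b8.shift 1 0)] (by decide +kernel))
noncomputable def rh875ed16fd692e8b3 : CRef := CRef.mk (Pat.mk 0x2000000020000000000000006000000040 0x40000001c0000007c000001ff000001de000000fc000001fe 9 9) 0 0 (step_sound _ 102 [(rh2613c889e411427e.shift 5 0), rh95b03a1c6db6ec4d] (by decide +kernel))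
noncomputable def rhffc544392523bbe0 : CRef := CRef.mk (Pat.mk 0x10000000100000002000000020 0x280000003f000000fe000000ff00000018000000180000003800000020 9 8) 0 0 (step_sound _ 132 [(rhbe0e43a3bc50a43f.shift 4 0), (rhc7d2da80cbb0d941.shift 0 1)] (by decide +kernel))
noncomputable def rh76e3264f3ba42cd0 : CRef := CRef.mk (Pat.mk 0x10000000100000001000000000 0x28000000380000003e000000ff0000003e000000180000001800000008 9 8) 0 0 (step_sound _ 132 [rh041e63f8383302ef, (rh1741680720c097b4.shift 3 1), (rh20966da26a1c2ae8.shift 3 0), (rh771d065bdc85bf2d.shift 3 0), (rh815f4fc3e21acd28.shift 3 1)] (by decide +kernel))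
noncomputable def rhfc8a2c40713a9fd0 : CRef := CRef.mk (Pat.mk 0x1000000030000000000000002000000020 0x1c0000001c0000009f000003bf000001fe000003cf0000007c0000007c 9 10) 0 0 (step_sound _ 102 [(rh1aae126fdb0efa1d.shift 3 2), (rh5d54a69ee789ff61.shift 3 0), rh6ed6c7e389d6c1a6, (rha9fbfd4bb8cf890b.shift 1 3), (rhcb1560890d577d7a.shift 0 2)] (by decide +kernel))
noncomputable def rhfb4a5af0d6ed41f9 : CRef := CRef.mk (Pat.mk 0x800000018000000100000001000000000 0x46000000cf000000fe000000ff0000003e0000002e 9 8) 0 0 (step_sound _ 69 [rh0f7a1ddfedddfd24, (rh4ca5dae25f5c14ff.shift 1 2), (rh75ea294132184f25.shift 2 2), rha864e85261ca374c, (rhdeca8db941583de2.shift 1 2)] (by decide +kernel))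
noncomputable def rh6677b7f1719dea72 : CRef := CRef.mk (Pat.mk 0x1000000030000000000000002000000020 0x80000000cc000001cc000003ff000001ff000003df000000b000000020 9 10) 0 0 (step_sound _ 68 [(rha4b32c6d817ebd45.shift 0 1), (rhbe0e43a3bc50a43f.shift 4 0)] (by decide +kernel))
noncomputable def rh86c236bffde3b896 : CRef := CRef.mk (Pat.mk 0x1000000030000000000000002000000020 0xf0000000f0000003fc000003fe000001ff000003ce000000e000000020 9 10) 0 0 (step_sound _ 102 [(rh1aae126fdb0efa1d.shift 3 2), rh338235dfd6485741, (rh7fc59d655f11124d.shift 3 1), (rha9fbfd4bb8cf890b.shift 1 3), (rhd3d7228cf4da7b9c.shift 3 0)] (by decide +kernel))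
noncomputable def rhf8084e922ba2a9df : CRef := CRef.mk (Pat.mk 0x8000000080000000800000010 0xc0000001c0000007c0000001f0000000c0000001c00000010 9 7) 0 0 (step_sound _ 131 [(rhd3458b32566d63f7.shift 3 0), (rhe1ef515661eedfa8.shift 0 1)] (by decide +kernel))
noncomputable def rh879ee90054fc7e07 : CRef := CRef.mk (Pat.mk 0xc00000000000000080000000800000000 0x140000001c0000000c0000003f0000003f00000017 9 6) 0 0 (step_sound _ 99 [rh15e0f7e609a7c867, (rh50fbb5868c909700.shift 2 1)] (by decide +kernel))
noncomputable def rhecf1ec9e62d84b60 : CRef := CRef.mk (Pat.mk 0xc00000000000000080000000800000000 0x10000000180000001c0000000c0000003f0000003f00000017 9 6) 0 0 (step_sound _ 99 [rh15e0f7e609a7c867, (rh20966da26a1c2ae8.shift 2 0), (rhc9ac229b3c77cd55.shift 2 0), (rhced6d86d2069808b.shift 3 0)] (by decide +kernel))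
noncomputable def rh1eacb6e16f7b68b5 : CRef := CRef.mk (Pat.mk 0x18000000000000001800000010000000000000000000000000 0x2800000078000000ef000000ff0000007f000000070000000200000002 9 8) 0 0 (step_sound _ 163 [(rh2145e1d24b96a57e.shift 3 3), rh6803c33daac0223c] (by decide +kernel))
noncomputable def rhc13ee95a3906545b : CRef := CRef.mk (Pat.mk 0x18000000000000001800000010000000000000000000000000 0x18000000180000000c0000001f0000003f000000070000000200000002 9 6) 0 0 (step_sound _ 163 [(rh2145e1d24b96a57e.shift 3 3), rh679d73e8fa609910] (by decide +kernel))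
noncomputable def rh9b7bf6665dbf9648 : CRef := CRef.mk (Pat.mk 0x180000000000000018000000100000000000000000 0x1f8000000f8000007ef000003fe000007700000002000000020 9 11) 0 0 (step_sound _ 131 [(rh2145e1d24b96a57e.shift 3 2), rhfa844922a192689f] (by decide +kernel))
noncomputable def rh4e4fcfc3fd5b7970 : CRef := CRef.mk (Pat.mk 0x20000000000000003000000020000000000000000000000000 0x6000000064000003cf000003fe000000ff0000001e0000001c0000001c 9 10) 0 0 (step_sound _ 131 [(rh0b01d292f713c566.shift 1 1), rh2361b3984ad89fad, (rh7e992376561b0b7f.shift 2 0), (rha0ae8adeb1dbcf8d.shift 0 3), (rhf530834c0c5f3ed9.shift 0 3)] (by decide +kernel))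
noncomputable def rh208e8f1ac3743605 : CRef := CRef.mk (Pat.mk 0x8000000180000000000000000 0x300000003e0000007f0000007f0000007f0000006700000007 9 7) 0 0 (step_sound _ 98 [(rh5c5a2014709044d0.shift 0 2), rh6b8c9a3a0dbe42f5, rh9740d8d2a54803bb, (rhdb295ec562705fd3.shift 1 0)] (by decide +kernel))
noncomputable def rh1791ce698248e39a : CRef := CRef.mk (Pat.mk 0x1800000010000000100000001000000000 0x1e7000000fe000001fe000000100000001800000008 9 9) 0 0 (step_sound _ 133 [(rh2f68792b6b779e96.shift 4 1), rhf933bd4336820af4] (by decide +kernel))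
noncomputable def rh989f273465b2647a : CRef := CRef.mk (Pat.mk 0x70000000000000000000000000 0x80000077f000003ff000003bc0000001800000018 9 11) 0 0 (step_sound _ 99 [(rh5774febc9663c082.shift 2 2), (rh875ee7c4c1e718c0.shift 0 3), (rhaeebc73f5a9c796a.shift 2 2), (rhafa5a7051d37b143.shift 2 0), rhccc0908bea27efde] (by decide +kernel))
noncomputable def rh9f1d7b00f26e3f16 : CRef := CRef.mk (Pat.mk 0x38000000000000002000000020 0x4000003f7000003fe000001df0000006800000068 9 10) 0 0 (step_sound _ 133 [(rha11dfd15f08f96e3.shift 2 3), (rhb103f40a53fe1424.shift 0 2), rhd32c818bd740c96f, (rhe90b6fba2da4804e.shift 2 0)] (by decide +kernel))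
noncomputable def rh1c78af523c77ca63 : CRef := CRef.mk (Pat.mk 0x1000000000000000300000002000000000 0x8000000dc000000df000000fe000000fe000000f800000008 9 8) 0 0 (step_sound _ 100 [rh134e4ab01248583a, (rh2145e1d24b96a57e.shift 4 1)] (by decide +kernel))
noncomputable def rh9f4f30869ee2d02f : CRef := CRef.mk (Pat.mk 0x100000000000000030000000200000000000000000 0x1000000010000001f7000003fe000000ff0000000800000008 9 10) 0 0 (step_sound _ 132 [(rh2145e1d24b96a57e.shift 4 2), rh932a8065929bc8b2] (by decide +kernel))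
noncomputable def rh5efc2ebf2dc8400c : CRef := CRef.mk (Pat.mk 0x40000000c00000008000000000 0x32000000320000007ff00000ffe000003df00000010 9 12) 0 0 (step_sound _ 69 [(rh251facab2e282844.shift 3 1), (rh4f369b7a8207b2ec.shift 4 1), rhe2c4a3b5f2d73b68] (by decide +kernel))
noncomputable def rhcfd4f03dc334d029 : CRef := CRef.mk (Pat.mk 0x80000000800000018000000100000000000000000 0x440000004c000000ff000000fc0000007e0000002c00000020 9 8) 0 0 (step_sound _ 101 [(rh243794e02c417adb.shift 1 1), (rhe2a48cb2e9fea7e0.shift 1 0), (rhf60aa8aede119d3b.shift 0 3)] (by decide +kernel))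
noncomputable def rhd9a801b9de7a3215 : CRef := CRef.mk (Pat.mk 0x8000000080000001800000010000000000000000000000000 0x40000000c0000001f0000001f0000003f0000000f0000000e0000000a 9 6) 0 0 (step_sound _ 99 [(rh544fd3f279a4d968.shift 2 0), (rh6aa5625770489e83.shift 2 1), (rh7b18f3f209f14cd6.shift 2 0), rhc9e4d546eaf1f4ab] (by decide +kernel))
noncomputable def rhd0725e71a44c2583 : CRef := CRef.mk (Pat.mk 0x100000000000000030000000200000000000000000 0x5000000050000001fc000003fe000000ef0000000800000008 9 10) 0 0 (step_sound _ 132 [(rh2145e1d24b96a57e.shift 4 2), rh86d68b6158827783] (by decide +kernel))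
noncomputable def rh6828ac2c4c7e44c0 : CRef := CRef.mk (Pat.mk 0x100000001000000030000000200000000000000000 0x20000000a0000000f0000001f0000007e000000f60000003e0000001c00000008 9 8) 0 0 (step_sound _ 131 [(rh362f1bfea09d2c54.shift 0 1), (rh4ca5dae25f5c14ff.shift 1 3), (rh6aa19bd7cc49bfe1.shift 2 0)] (by decide +kernel))
noncomputable def rh147768cee304e652 : CRef := CRef.mk (Pat.mk 0x80000000000000018000000100000000000000000 0xc000000ff0000007f0000007f0000000e00000008 9 8) 0 0 (step_sound _ 98 [(rh0fa479cea2267816.shift 0 2), (rh2eafb5ef556a69f3.shift 0 2), (rh4c0fcb205717f138.shift 0 2), (rh8097db338449f3f9.shift 1 0)] (by decide +kernel))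
noncomputable def rh93a85fbfc05a7bcf : CRef := CRef.mk (Pat.mk 0x4000000000000000e00000008000000000000000000000000 0x50000000700000007000000070000007b000000fe0000003f000000370000001700000015 9 8) 0 0 (step_sound _ 161 [rh1f7369f0272b079c, rh3d2780e5b85339b4, rh7b12bbb0a7c60430, (rhc31e788a49ad4da2.shift 0 3), (rhea3c36b66d54eaf8.shift 0 1)] (by decide +kernel))
noncomputable def rh9f5e7a30a75199d5 : CRef := CRef.mk (Pat.mk 0x4000000000000000e00000008000000000000000000000000 0x1a0000001f0000003c0000003e0000003f000000370000003000000030 9 6) 0 0 (step_sound _ 132 [(rh6221654d33f9ba0a.shift 0 2), (rh92eeac1c1b6d8178.shift 1 0), (rhe0aaafafa5b062ca.shift 0 2)] (by decide +kernel))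
noncomputable def rh196ba146e90ea35b : CRef := CRef.mk (Pat.mk 0x10000000000000003800000020000000000000000000000000 0x68000001f8000000780000007e0000003f0000001f0000003c0000001c 9 9) 0 0 (step_sound _ 99 [rh12e725272b2d5031, (rh2820ca9a6c4f41b4.shift 0 3), (rhf0f55c4504412200.shift 0 3)] (by decide +kernel))
noncomputable def rhfb303951663d02b2 : CRef := CRef.mk (Pat.mk 0xe00000008000000000000000000000000 0x1800000018000000380000001f00000038000000300000003000000030 9 6) 0 0 (step_sound _ 100 [(rh01114522008b96e1.shift 1 0), (rhb739f4f82bb681b4.shift 0 3)] (by decide +kernel))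
noncomputable def rh2cfd9588b04e6786 : CRef := CRef.mk (Pat.mk 0xe000000080 0x1ce000000fe000001bf 9 9) 0 0 (step_sound _ 36 [rhdd7ace337692efbe, (rhe25b0a99195a5d59.shift 4 0)] (by decide +kernel))
noncomputable def rh68a2a0859fe28e14 : CRef := CRef.mk (Pat.mk 0xe00000008000000000000000000000000 0x18000000380000007f0000007e0000003e000000300000003000000030 9 7) 0 0 (step_sound _ 132 [(rh54628cf20d07d263.shift 0 2), (rh79ca413a1e436ec6.shift 0 3), (rh92eeac1c1b6d8178.shift 1 0), (rhb18e6c78a554867d.shift 0 4)] (by decide +kernel))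
noncomputable def rhda2fdd99d7c1ca2c : CRef := CRef.mk (Pat.mk 0x20000000000000006000000040000000000000000000000000 0x50000000f80000007e000007fe000001ff0000003c0000003800000028 9 11) 0 0 (step_sound _ 132 [(rh0fa479cea2267816.shift 2 3), (rh21e8ea33735ec344.shift 1 0), (rh294748a807cebe00.shift 0 3), (rha53655f2a9aeda6b.shift 3 1), (rhb2afcb5db661472f.shift 1 3)] (by decide +kernel))
noncomputable def rhe2f3bfae78aec466 : CRef := CRef.mk (Pat.mk 0x1000000000000000380000002000000000 0x68000000f8000001ff000000fe0000003000000010 9 9) 0 0 (step_sound _ 102 [(rh7fb2fb7938b68b6e.shift 2 0), (rhb8022f71dc28021b.shift 2 2), (rhbfdaafe6cbbfd7f3.shift 0 1)] (by decide +kernel))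
noncomputable def rh305838e5e2202d54 : CRef := CRef.mk (Pat.mk 0xe00000008000000000000000000000000 0x18000000380000007f000000fe0000003c000000300000003000000030 9 8) 0 0 (step_sound _ 132 [(rh54628cf20d07d263.shift 0 2), (rh92eeac1c1b6d8178.shift 1 0), (rhb18e6c78a554867d.shift 0 4), (rhe4374866cadc7201.shift 0 3)] (by decide +kernel))
noncomputable def rha5d4a01a659e4fd6 : CRef := CRef.mk (Pat.mk 0xe00000008000000000000000000000000 0x180000001a0000003b0000003e0000003f000000340000003400000030 9 6) 0 0 (step_sound _ 132 [(rh92eeac1c1b6d8178.shift 1 0), (rhafa5a7051d37b143.shift 0 1)] (by decide +kernel))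
noncomputable def rhe6b6fc9c85c8ff88 : CRef := CRef.mk (Pat.mk 0x8000000080000001800000010000000000000000000000000 0x34000000fc000000ff0000001c0000007f0000002f0000000800000008 9 8) 0 0 (step_sound _ 99 [(rh4f9b4ae6d8c5110f.shift 0 2), (rh544fd3f279a4d968.shift 2 0), (rh793931f12a29055c.shift 2 2)] (by decide +kernel))
noncomputable def rh07d9e017cfd3753b : CRef := CRef.mk (Pat.mk 0x200000000000000060000000400000000000000000 0x38000003be000001ff000001ff0000003800000030 9 10) 0 0 (step_sound _ 100 [(rh0fa479cea2267816.shift 2 2), (rh8097db338449f3f9.shift 3 0), (rha0ae8adeb1dbcf8d.shift 1 2), (rhb2afcb5db661472f.shift 1 2), rhc4a356394ca08aaf] (by decide +kernel))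
noncomputable def rha491eed8fd0d9059 : CRef := CRef.mk (Pat.mk 0x8000000080000001800000010000000000000000000000000 0x140000001c0000001f0000001e0000001f0000000f0000000c00000008 9 5) 0 0 (step_sound _ 99 [(rh544fd3f279a4d968.shift 2 0), (rh579ea01d0e347b70.shift 2 0), (rhb4b48ecf6371924e.shift 0 2)] (by decide +kernel))
noncomputable def rhe92425992e698e4e : CRef := CRef.mk (Pat.mk 0x800000008000000180000001000000000 0x30000000320000007f000000ff0000007f0000001600000004 9 8) 0 0 (step_sound _ 98 [rh11fd2bd6cbbd782c, (rh206a33f5d5c071c2.shift 0 2), (rh3c3e23a02e82b2ed.shift 0 2), (rh47e56154a6ce750a.shift 1 0), (rhb0121edee88fe839.shift 0 2)] (by decide +kernel))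
noncomputable def rh5760e19f4f768d6c : CRef := CRef.mk (Pat.mk 0x800000000000000180000001800000000 0x340000003c0000003f0000001f0000007f00000067 9 7) 0 0 (step_sound _ 66 [(rh849c205fecdd7dae.shift 0 1), rha7b261f3a207e96b, (rhad5d8fc3675c15dd.shift 0 1)] (by decide +kernel))
noncomputable def rhe4f42c8f973a3d1c : CRef := CRef.mk (Pat.mk 0x4000000000000000c0000000c00000000 0x40000000700000007a0000003e000000760000007c0000003f00000077 9 7) 0 0 (step_sound _ 68 [(rh4dc133ee0ba1420a.shift 0 1), (rh77beeb56b6a10601.shift 1 1), rhf27ced2d13a1e01d] (by decide +kernel))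
noncomputable def rh4ded9d779d38d23e : CRef := CRef.mk (Pat.mk 0x4000000000000000e00000008000000000000000000000000 0x180000001c0000003f0000003e0000003b000000320000003000000030 9 6) 0 0 (step_sound _ 132 [(rh40db87dcae8f23fa.shift 0 2), (rh6ba8cda2f50a6f28.shift 1 0), (rh8bb9cbc40f723f93.shift 0 2)] (by decide +kernel))
noncomputable def rha44396371ca47278 : CRef := CRef.mk (Pat.mk 0xe00000008000000000000000000000000 0x18000000380000003f0000003e0000003f000000300000003000000030 9 6) 0 0 (step_sound _ 132 [(rh47c07cd0cc865f65.shift 0 3), (rh54628cf20d07d263.shift 0 2), (rh92eeac1c1b6d8178.shift 1 0)] (by decide +kernel))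
noncomputable def rhec676860631873c8 : CRef := CRef.mk (Pat.mk 0x1800000000000000180000001000000000 0x2c0000007c0000006f000000ff0000007e0000000c 9 8) 0 0 (step_sound _ 99 [(rh2145e1d24b96a57e.shift 3 1), rh9d139a60d971deaa] (by decide +kernel))
noncomputable def rh3b827397790ecea0 : CRef := CRef.mk (Pat.mk 0x180000000000000018000000100000000000000000 0x780000007c000007ef000003fe000007700000002000000020 9 11) 0 0 (step_sound _ 131 [rh01a2947dead108ac, (rh2145e1d24b96a57e.shift 3 2)] (by decide +kernel))
noncomputable def rh1486d123edc5a594 : CRef := CRef.mk (Pat.mk 0x180000000e00000000000000000000000000000000 0x2000000130000001f0000003e0000007c000000ff0000007c00000010 9 8) 0 0 (step_sound _ 67 [(rh03264f17a10985c1.shift 2 1), (rh17de5e731388fba0.shift 0 1), (rh788a6df470748423.shift 0 1), (rh9bb9e1a9fd514b2a.shift 2 0)] (by decide +kernel))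
noncomputable def rhceff09e70080e6f2 : CRef := CRef.mk (Pat.mk 0x80000000e000000000000000000000000 0x1200000016000000370000003f0000003e0000003f0000003a00000018 9 6) 0 0 (step_sound _ 100 [(rhd865e80bfa50855b.shift 0 1), (rhded1904eb4255dd1.shift 0 2), rheecc7d81f83813b9] (by decide +kernel))
noncomputable def rh988d6ea8f282d994 : CRef := CRef.mk (Pat.mk 0x2800000038000000000000000000000000 0x8000000080000003f0000003e0000007f0000001600000016 9 7) 0 0 (step_sound _ 130 [rh382bda74904c87e2, (rhc02b3aee7ab87ee1.shift 0 3), (rhd8e93bbc8568df99.shift 1 3), (rhdbcea10a0fbe5ba6.shift 0 3)] (by decide +kernel))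
noncomputable def rhae667cfe2d28731d : CRef := CRef.mk (Pat.mk 0x5000000070000000000000000000000000 0x100000001000000077000001fe000001fe0000002800000028 9 9) 0 0 (step_sound _ 69 [rh3f5c40b60bc5a976, (rhbe707112c53dab40.shift 4 0), (rhc3e8361aa7c60363.shift 2 0)] (by decide +kernel))
noncomputable def rh858578de2edbd615 : CRef := CRef.mk (Pat.mk 0x20000003800000000000000000000000000000000 0x100000001c0000001c0000001c0000001f000000f8000001cc0000001c0000001c00000014 9 9) 0 0 (step_sound _ 163 [(rh05d00e7cfdb5e850.shift 0 4), (rh075211c3608a5a57.shift 0 4), (rh3fc5a7160b6c2d89.shift 2 0)] (by decide +kernel))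
noncomputable def rh8a2ebafa673c401a : CRef := CRef.mk (Pat.mk 0x180000000e000000000000000000000000 0x140000001f0000003e000001fb000000ff000000fe 9 9) 0 0 (step_sound _ 35 [(rh5a7dce561d0bf78d.shift 2 0), rh93cd1a509368430b, rhdb88c0293b31fc80] (by decide +kernel))
noncomputable def rha5ae317e258b9973 : CRef := CRef.mk (Pat.mk 0x80000000e0000000800000000000000000000000000000000 0x80000001e0000007e0000007f0000001f0000001e00000016 9 7) 0 0 (step_sound _ 99 [(rh406619d0d2a4450a.shift 0 1), (rh43a98e0770cf8cc0.shift 1 1), rh4e0e5ad01e134228, (rh89cf5152879421f3.shift 2 0), (rh8cdd36b03d57a2f6.shift 2 1), (rhbaff7ec0fcc038ba.shift 2 0)] (by decide +kernel))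
noncomputable def rh6990373db3ae5b5e : CRef := CRef.mk (Pat.mk 0x2000000038000000200000000000000000000000000000000000000000 0x40000000c0000000c0000002f0000007e00000038000001fc0000007c000000700000007000000050 9 9) 0 0 (step_sound _ 226 [(rh4df35fbc131eb4ae.shift 0 6), (rhcb770e52736fa6b2.shift 1 2), (rhd133142ba238c2ce.shift 2 0)] (by decide +kernel))
noncomputable def rh919d9749f25cd617 : CRef := CRef.mk (Pat.mk 0x300000001c00000000000000000000000000000000 0xe0000002e0000006e0000003e0000007c0000001f0000007e0000003e0000002c 9 7) 0 0 (step_sound _ 100 [(rh000637b5a81e86aa.shift 3 1), (rh1dcdabbf416b41e2.shift 1 0), (rh5e7d117b595d8302.shift 0 1)] (by decide +kernel))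
noncomputable def rhd500dff2db2fccdd : CRef := CRef.mk (Pat.mk 0x3800000008000000000000000000000000 0x140000001c0000001c0000000f0000003c0000001f0000001e0000001e00000016 9 6) 0 0 (step_sound _ 98 [(rh1ed7a3503fa50fc8.shift 0 3), rh7a4aace82dd2f994, (rheea1a90336e79c71.shift 0 3)] (by decide +kernel))
noncomputable def rhfe107cde5e7931d6 : CRef := CRef.mk (Pat.mk 0x80000000e000000000000000000000000 0x1000000032000000330000007f0000003e0000003f0000003400000030 9 7) 0 0 (step_sound _ 132 [rh15498457eb2ca7d3, (rh80f90a60d87caa0d.shift 1 3), rha0279b73fefa3273] (by decide +kernel))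
noncomputable def rh4e08541a42ecde2d : CRef := CRef.mk (Pat.mk 0x180000000e000000000000000000000000 0x140000001c0000003e0000007f000000ff000000fe 9 8) 0 0 (step_sound _ 35 [(rh03264f17a10985c1.shift 2 0), rh711e799cd7adf013, rh9bddbc5413cd86b9] (by decide +kernel))
noncomputable def rh9b4cf6df94e04dc0 : CRef := CRef.mk (Pat.mk 0x20000000380000002000000000000000000000000000000000 0x2000000078000001f7000001fe000003fe0000007000000050 9 10) 0 0 (step_sound _ 101 [(rh406619d0d2a4450a.shift 2 1), (rh43a98e0770cf8cc0.shift 3 1), (rh89cf5152879421f3.shift 4 0), (rh8cdd36b03d57a2f6.shift 4 1), (rhbaff7ec0fcc038ba.shift 4 0), (rhc70d29ad709e8a90.shift 0 2)] (by decide +kernel))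
noncomputable def rh49cf3a261ec381ff : CRef := CRef.mk (Pat.mk 0x400000007000000040000000000000000000000000 0x10000000100000005f000000fe0000006f000000e8000000e0000000e0 9 8) 0 0 (step_sound _ 37 [(rh2e7a2c1fe24b0b62.shift 2 1), (rhebbfc1325fb53d6f.shift 5 0), rhf0c35e5082738bda, (rhf9582ff5662029e8.shift 5 1)] (by decide +kernel))
noncomputable def rhd830ffd1341fef79 : CRef := CRef.mk (Pat.mk 0x140000001c00000000000000000000000000000000 0xe0000000f0000001c0000007c0000006f0000007e0000003e00000006 9 7) 0 0 (step_sound _ 99 [(rh88416a608c62c62d.shift 0 2), rh96862ceddb852e4f, (rhade0f4c81793f68e.shift 2 1), (rhbe707112c53dab40.shift 2 1)] (by decide +kernel))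
noncomputable def rh49f31a7a6414aac8 : CRef := CRef.mk (Pat.mk 0x180000000e000000000000000000000000 0x7000000070000001f0000003e000000370000003e0000001c 9 6) 0 0 (step_sound _ 100 [rh34555a9f7a241486, (rh41d5a93e35cc8528.shift 0 1), (rh43dc67402634d54f.shift 0 1), rh92e53b4a0160b8ae] (by decide +kernel))
noncomputable def rh9abfebf1beae952f : CRef := CRef.mk (Pat.mk 0x1e00000000000000000000000000000000 0x600000006000000070000001e0000003f0000000f0000000f00000003 9 6) 0 0 (step_sound _ 100 [rh0093c81a00fae60a, (rhe25b0a99195a5d59.shift 1 3)] (by decide +kernel))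
noncomputable def rhd6c47dd8fdd1ed54 : CRef := CRef.mk (Pat.mk 0x70000000000000000000000000 0x180000001f0000007e000000ff0000001c0000001c 9 8) 0 0 (step_sound _ 99 [(rh074bebdeeadc30e2.shift 2 0), (rh0d378fd9e8917c5a.shift 1 2), (rh185f35b8bd8ec37f.shift 1 2), (rh592c7139d2c44767.shift 1 2), (rh708c3bc8fe2f3084.shift 0 2)] (by decide +kernel))
noncomputable def rh7a193b6ccae24061 : CRef := CRef.mk (Pat.mk 0x280000002c000000000000000000000000 0x1c0000001c0000001f0000001f000000780000002c0000007c0000003c00000014 9 7) 0 0 (step_sound _ 132 [rh05136074d183cb2f, (rh18965a982d73c794.shift 2 3)] (by decide +kernel))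
noncomputable def rhf8fedb3bf8a3ba68 : CRef := CRef.mk (Pat.mk 0x100000001800000000000000000000000000000000 0x3c0000003f0000001f0000001e0000007e0000007c0000007c00000010 9 7) 0 0 (step_sound _ 99 [rh1323fc8df9e83662, (rh1369b354ba01a20e.shift 0 1), (rhcf80391c5046a495.shift 3 1), (rhf9366b6a121593ef.shift 3 1)] (by decide +kernel))
noncomputable def rh924912dc4df9d825 : CRef := CRef.mk (Pat.mk 0x80000001e000000000000000000000000 0x40000000c0000003e000000370000003e0000001e 9 6) 0 0 (step_sound _ 65 [(rh4ff3479da2578f8c.shift 1 0), (rheb0810cc63b001d8.shift 0 2)] (by decide +kernel))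
noncomputable def rh2986944aad83fc7f : CRef := CRef.mk (Pat.mk 0x1e0000000000000000000000000000000000000000 0x50000000700000007000000030000001e0000003700000007000000070000000700000004 9 6) 0 0 (step_sound _ 193 [(rh3244c3cc8379b070.shift 0 5), rhfdedb77bdf0398a2] (by decide +kernel))
noncomputable def rh13f3c0203d1bd5b0 : CRef := CRef.mk (Pat.mk 0x4000000070000000000000000000000000 0x380000003c0000007f000001fe000001f70000007000000020 9 9) 0 0 (step_sound _ 132 [rh099bc6bfc60b1e3e, (rh9e05fd710fa92eba.shift 1 1), (rha9fbfd4bb8cf890b.shift 1 3), (rhb2272e24508e38ee.shift 2 2), (rhf60aa8aede119d3b.shift 1 3)] (by decide +kernel))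
noncomputable def rh72614d3a885d0098 : CRef := CRef.mk (Pat.mk 0x4000000070000000100000000000000000 0x20000000200000006e000001fe000001f7000001f0000000f0 9 9) 0 0 (step_sound _ 99 [(rh28d782e6e855ec21.shift 2 1), (rhb3d3375f14b91f67.shift 3 0), (rhc7e8e87a0b43237b.shift 0 2)] (by decide +kernel))
noncomputable def rhef62a4938682b925 : CRef := CRef.mk (Pat.mk 0x80000000e00000010000000000000000000000000 0x40000000c0000000e0000007f0000003f0000001f00000002 9 7) 0 0 (step_sound _ 99 [rh478b6de963302cce, (rh89ade209b3e28f13.shift 1 3), (rhc7211169a1e41db2.shift 1 1)] (by decide +kernel))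
noncomputable def rh9fc4ca10663ac912 : CRef := CRef.mk (Pat.mk 0xa0000001a000000000000000000000000 0x3000000030000000300000003b0000001e000000380000001800000018 9 6) 0 0 (step_sound _ 98 [(rh3244c3cc8379b070.shift 0 3), (rh7f83bd45b8e0f5e4.shift 1 0)] (by decide +kernel))
noncomputable def rha6f3b866f83b2c74 : CRef := CRef.mk (Pat.mk 0xa0000001a000000000000000000000000 0x3000000034000000f4000000fe0000003e0000003b0000001a00000018 9 8) 0 0 (step_sound _ 132 [(rh7d5e19ec418aab0b.shift 1 1), (rhd49523d6cd17eb38.shift 0 1), (rhefac72a482fea52e.shift 1 1), (rhff6dbab96c968ee6.shift 1 0)] (by decide +kernel))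
noncomputable def rh8fc95eb0eac5732f : CRef := CRef.mk (Pat.mk 0x500000005000000000000000000000000000000000 0x28000000380000003e0000007e000000f70000003e000000380000003800000028 9 8) 0 0 (step_sound _ 163 [(rh9323204765be35af.shift 0 2), (rha6816dee951f7ee6.shift 3 4), (rhbf2afeb12154a83c.shift 1 0), (rhc49626c89a3eb918.shift 2 2)] (by decide +kernel))
noncomputable def rhc343e2f10665020b : CRef := CRef.mk (Pat.mk 0xa0000000a000000000000000000000000 0x2000000030000000f0000000ff0000003e0000003f0000003800000030 9 8) 0 0 (step_sound _ 100 [rh142a68cbd4017e01, rha7038a671b327ffe, (rhd8be3b7ca6adb62f.shift 0 3), (rhe0f4334d41ad24d5.shift 0 1)] (by decide +kernel))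
noncomputable def rh305c0dbc5c4ce736 : CRef := CRef.mk (Pat.mk 0x280000002800000008000000000000000000000000 0x800000048000000e8000000f8000000ff000000fc0000007000000010 9 8) 0 0 (step_sound _ 100 [(rh02d1b38a111984e1.shift 2 0), (rh7c239bee1895c077.shift 3 0), (rhaaa362a1ef1f95f1.shift 0 1), (rhca81b212c60b4e05.shift 1 1)] (by decide +kernel))
noncomputable def rh3866f06994cf9e5f : CRef := CRef.mk (Pat.mk 0x1400000014000000040000000000000000 0xa0000004e0000006f000000fc0000007c000000fe0000003a00000038 9 8) 0 0 (step_sound _ 101 [(rh1bf208e822811812.shift 2 0), (rh2cadc9261f43d1e3.shift 1 0), (rh322e0421ef56a63b.shift 1 2), (rh3aee9459e860d53c.shift 1 2), (rhb0aac2b4a89addf7.shift 0 1)] (by decide +kernel))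
noncomputable def rhf8369fa6eb8ed8c4 : CRef := CRef.mk (Pat.mk 0x500000005000000010000000000000000000000000 0x2800000038000000380000007000000050000000ff000000fe000000ef00000008 9 8) 0 0 (step_sound _ 67 [(rh80c8cdb8c28da3e6.shift 0 1), (rhb01ac4982a11ea27.shift 3 0), (rhf504f823d09b474a.shift 3 2)] (by decide +kernel))
noncomputable def rh7ffccfdd9d63fe02 : CRef := CRef.mk (Pat.mk 0xa0000000a000000020000000000000000000000000 0x100000003c000001f0000000a0000001ff000001fe000001de00000040 9 9) 0 0 (step_sound _ 70 [(rh236e859567235c51.shift 0 1), (rh2977b00063528966.shift 5 0), (rh617b684357e73c60.shift 2 2)] (by decide +kernel))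
noncomputable def rhf81154eed2bcc2ef : CRef := CRef.mk (Pat.mk 0xa0000000a0000000200000000000000000 0x500000007000000070000000a0000000e0000001ff000001fe000001de 9 9) 0 0 (step_sound _ 38 [rh236e859567235c51, (rh6a6116ff61aac7bc.shift 5 0), (rhba97f7f4ade5e136.shift 4 1)] (by decide +kernel))
noncomputable def rhe0b855e5710398a1 : CRef := CRef.mk (Pat.mk 0x100000005000000010000000000000000000000000 0x2f0000003e0000007700000010000000380000003800000028 9 7) 0 0 (step_sound _ 68 [(rh1ddf8c79eb23a15c.shift 0 1), (rh6eff4158bb400f47.shift 3 0), (rhec7a88c6dcaa5d28.shift 2 1)] (by decide +kernel))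
noncomputable def rh6ed210abcf5d8021 : CRef := CRef.mk (Pat.mk 0xa0000000a00000002000000000000000000000000 0x500000007000000170000001b0000001e0000003b0000001f0000003d00000001 9 6) 0 0 (step_sound _ 64 [(rh9fb9dc683e09b5f3.shift 0 2), rhb01ac4982a11ea27, (rhbce03622d6a167f6.shift 0 1)] (by decide +kernel))
noncomputable def rh8adeb29359c267f7 : CRef := CRef.mk (Pat.mk 0xa0000000a00000002000000000000000000000000 0x500000007000000170000001b0000001e0000003e0000001f0000003d00000004 9 6) 0 0 (step_sound _ 66 [(rh07aaf8774b11715f.shift 0 1), (rhba97f7f4ade5e136.shift 0 2), (rhf8a7b81bbeef57cd.shift 1 0)] (by decide +kernel))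
noncomputable def rh9a8d2db5d5590fde : CRef := CRef.mk (Pat.mk 0x500000005000000010000000000000000000000000 0x2800000038000000380000005800000050000000ff000000fe000000ef00000008 9 8) 0 0 (step_sound _ 67 [(rh926883c2e51ea161.shift 0 1), (rhb01ac4982a11ea27.shift 3 0), (rhf504f823d09b474a.shift 3 2)] (by decide +kernel))
noncomputable def rh77a6d5f44f0862ae : CRef := CRef.mk (Pat.mk 0x2800000028000000080000000000000000000000000000000000000000 0x440000006c000000780000007f0000007f0000003c0000001c0000001c00000014 9 7) 0 0 (step_sound _ 131 [(rh01d8cbead57d3bf9.shift 0 3), (rh6eff4158bb400f47.shift 2 2), rh7d00c724d6d6bf5c, (rhc847afd2dc286529.shift 2 1)] (by decide +kernel))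
noncomputable def rh86463c078ce83ad2 : CRef := CRef.mk (Pat.mk 0xa0000000a00000002000000000000000000000000 0x500000007000000070000000b0000003e0000003f0000001f0000001f00000017 9 6) 0 0 (step_sound _ 64 [rh6741e1b799f06d61, rhb01ac4982a11ea27, (rhf504f823d09b474a.shift 0 2)] (by decide +kernel))
noncomputable def rh9b78a84cf0364acf : CRef := CRef.mk (Pat.mk 0x1400000014000000000000000000000000 0x80000000e0000000e0000002e000000ef0000007e000000740000001e0000001e0000000a 9 8) 0 0 (step_sound _ 131 [(rh5e3458e5a400ab1f.shift 0 1), (rh604ba53da59d6fdc.shift 1 1), (rh87a3edca41116c28.shift 1 0), (rh8f7af3f59561927a.shift 1 1), (rhf4e4690e1d4c3fc6.shift 0 1)] (by decide +kernel))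
noncomputable def rh6b4685b8d1249925 : CRef := CRef.mk (Pat.mk 0x20000001a0000000000000000000000000000000000000000 0x50000000700000007000000030000001e0000003700000007000000070000000700000004 9 6) 0 0 (step_sound _ 162 [(rh3244c3cc8379b070.shift 0 5), rhfdedb77bdf0398a2] (by decide +kernel))
noncomputable def rh107b0d79983f04bd : CRef := CRef.mk (Pat.mk 0x3800000028000000000000000000000000 0x18000000180000003c0000006e0000007f0000003c0000001c 9 7) 0 0 (step_sound _ 130 [rh7b75df7b1b8fb155, (rhe25b0a99195a5d59.shift 2 3)] (by decide +kernel))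
noncomputable def rhe6143a8b5599667d : CRef := CRef.mk (Pat.mk 0x380000000800000000000000000000000000000000 0x180000001c0000001e0000003c0000000f0000000f0000003c0000001c00000014 9 6) 0 0 (step_sound _ 99 [(rh1b9022be4f7af407.shift 2 0), (rh215e11e099257d75.shift 3 2), (rh7759953ee540c442.shift 0 2), (rh9fcc43ed8cfba192.shift 0 1)] (by decide +kernel))
noncomputable def rhf0d59fc96aa132f4 : CRef := CRef.mk (Pat.mk 0x1c00000014000000000000000000000000 0x600000006000000070000001e00000037000000030000000300000003 9 6) 0 0 (step_sound _ 129 [rhd79a59188b24ad76, (rhe25b0a99195a5d59.shift 1 3)] (by decide +kernel))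
noncomputable def rhf51728dc908f32e6 : CRef := CRef.mk (Pat.mk 0x280000002800000000000000000000000000000000 0x140000005c000001de000000f8000000ef0000007f0000003c0000001c00000014 9 9) 0 0 (step_sound _ 164 [(rh236af70c223e1a76.shift 2 2), rh29e23b7f25e64b53, (rh480231ab31e80384.shift 2 3), (rh604ba53da59d6fdc.shift 2 2)] (by decide +kernel))
noncomputable def rhcca9b50a1c7dd914 : CRef := CRef.mk (Pat.mk 0x200000002000000020000000000000000 0x30000000700000007000000070000000300000003000000070000000600000006 9 3) 0 0 (step_sound _ 161 [(rh8dd419aa8bce8f44.shift 0 1), rh8ff3dde5b1c639e0, rh94faf80670e4ec6b, (rhc85cc95794737cf7.shift 0 2), rhf517b930ee0bd92d] (by decide +kernel))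
noncomputable def rh8a2aeac63f00ba0c : CRef := CRef.mk (Pat.mk 0x140000001400000004000000000000000000000000 0x200000016000000360000003f0000003f0000003e0000000a 9 6) 0 0 (step_sound _ 66 [(rh5ad9898cc32ef511.shift 1 0), (rh63121da8fa5df783.shift 0 1), (rh6eff4158bb400f47.shift 1 0), (rhc4526fc8abf298b6.shift 1 0)] (by decide +kernel))
noncomputable def rh03f2f920553f71c5 : CRef := CRef.mk (Pat.mk 0xa0000000a000000000000000000000000000000000 0x400000007000000070000000700000077e000003fe000003bf00000070000000700000005000000040 9 11) 0 0 (step_sound _ 166 [rh5c83d89dfc670c90, (rh9e9588fdbc6bb388.shift 3 1), (rhf6388f317ffa3be8.shift 4 4)] (by decide +kernel))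
noncomputable def rh5ed883c2301a35e9 : CRef := CRef.mk (Pat.mk 0x100000001c000000000000000000000000 0x20000000770000007e0000007f0000007000000030 9 7) 0 0 (step_sound _ 101 [(rh592c7139d2c44767.shift 0 2), (rhec46bd5500c722c9.shift 1 3), (rheecc7d81f83813b9.shift 1 0)] (by decide +kernel))
noncomputable def rh4ab14e449d9f3f01 : CRef := CRef.mk (Pat.mk 0x100000001c00000010000000000000000000000000 0x40000000c0000001f0000003f000000130000003a0000003800000028 9 6) 0 0 (step_sound _ 68 [(rh8cdd36b03d57a2f6.shift 3 0), (rha8adab4bc30e0ea1.shift 3 0), (rhaa52f5858920571d.shift 0 1)] (by decide +kernel))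
noncomputable def rh26dd3808a9ce0752 : CRef := CRef.mk (Pat.mk 0x3000000018000000100000000000000000 0x20000000600000006000000070000003f0000007e000000ff0000006a00000028 9 8) 0 0 (step_sound _ 98 [rh140f36dfb41f42ac, (rh53b3c253cb0c65f4.shift 1 3)] (by decide +kernel))
noncomputable def rh8ce801379984167e : CRef := CRef.mk (Pat.mk 0xc00000006000000040000000000000000 0x1000000030000000f80000003e0000001e0000003f0000003b00000032 9 8) 0 0 (step_sound _ 132 [(rh18965a982d73c794.shift 1 3), rhe767686aaf6e887f] (by decide +kernel))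
noncomputable def rh261464cd085426a1 : CRef := CRef.mk (Pat.mk 0x18000000080000000800000000000000000000000000000000 0x100000001800000018000000080000007c0000001f0000003f0000003c0000001c0000001c00000004 9 7) 0 0 (step_sound _ 162 [rh04be1018264b060e, (rh1ef2ac1bbbf27e03.shift 2 2), (rh69012675dfdb1a5b.shift 0 5)] (by decide +kernel))
noncomputable def rh4f1867b1e30f4618 : CRef := CRef.mk (Pat.mk 0x20000000000000003000000010000000100000000000000000 0x20000000a2000003ee000000fe000000ce000000fe0000007e000000ff0000000a00000008 9 10) 0 0 (step_sound _ 99 [(rh69012675dfdb1a5b.shift 1 3), (rhd69c262cd33b94b3.shift 1 3), rhda44040295eef544, (rhfc4a84c79907c6de.shift 2 2)] (by decide +kernel))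
noncomputable def rh0f788da68f99f768 : CRef := CRef.mk (Pat.mk 0x18000000080000000800000000 0x80000000e0000000f0000007f0000003f0000001c0000000c 9 7) 0 0 (step_sound _ 66 [(rh02f4b9832968c51d.shift 1 0), rh0e9c379274170b0a, (rh69012675dfdb1a5b.shift 0 2)] (by decide +kernel))
noncomputable def rhd01fa7dbefebf791 : CRef := CRef.mk (Pat.mk 0x180000000800000008000000080000000000000000 0x200000002800000028000000780000003f000000ff000000f80000002800000020 9 8) 0 0 (step_sound _ 132 [(rh71222050f2c63a3a.shift 3 1), rh9115bda3dcead73e] (by decide +kernel))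
noncomputable def rhef9908aa4f350868 : CRef := CRef.mk (Pat.mk 0x4000000040000001c00000000 0x1c0000003c0000000f0000000e0000007c00000070 9 7) 0 0 (step_sound _ 37 [rh141c526deb3f2b63, (rh3244c3cc8379b070.shift 1 1)] (by decide +kernel))
noncomputable def rh175105e482faca90 : CRef := CRef.mk (Pat.mk 0x2000000010000000100000001000000000 0x800000008000007ff000003fe000000700000001000000010 9 11) 0 0 (step_sound _ 101 [(rh6fca55baf8dec1b9.shift 0 1), (rh71222050f2c63a3a.shift 4 0)] (by decide +kernel))
noncomputable def rh292c0850d7cbf5d2 : CRef := CRef.mk (Pat.mk 0x10000000100000003000000000 0x280000003f0000007e000000ff000000300000003800000008 9 8) 0 0 (step_sound _ 132 [(rh5bd4bc0c2c48140c.shift 3 1), (rh73f605273a09a9d0.shift 4 1), rh76b95a79183a38a0] (by decide +kernel))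
noncomputable def rh82a644a8d6a52f5e : CRef := CRef.mk (Pat.mk 0x80000000800000008000000000000000000000000 0x170000003f0000003f0000000c0000001c0000001c00000014 9 6) 0 0 (step_sound _ 67 [(rh21f2da79219ee583.shift 0 1), (rh6204fa91b810ff3e.shift 2 0), (rh6eff4158bb400f47.shift 2 0)] (by decide +kernel))
noncomputable def rh068b355ba39a2031 : CRef := CRef.mk (Pat.mk 0x4000000060000000c0000000000000000 0xe0000000e0000003c0000001e0000003e0000003300000002 9 6) 0 0 (step_sound _ 68 [rhec1bd6714a9e20d4, (rhf48373e13d2bc128.shift 1 2)] (by decide +kernel))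
noncomputable def rh62cc5f1b973282f3 : CRef := CRef.mk (Pat.mk 0x300000001000000010000000000000000000000000 0xcf0000007f0000007e00000030000000300000003000000020 9 8) 0 0 (step_sound _ 68 [(rh896cb40d93423f88.shift 0 1), (rh8c3839f9b9075f23.shift 4 0), (rh9aab2e37f490e5ca.shift 1 1)] (by decide +kernel))
noncomputable def rh97ca3994bd324c3b : CRef := CRef.mk (Pat.mk 0x180000000c000000000000000000000000 0x40000001e0000001f0000001e0000000f0000000f0000003c0000001c 9 6) 0 0 (step_sound _ 97 [(rh53b3c253cb0c65f4.shift 0 3), rh8605076958ac1100] (by decide +kernel))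
noncomputable def rh1deb9acc4a7d81b3 : CRef := CRef.mk (Pat.mk 0xc0000000600000000000000000000000000000000 0xa0000000e0000000e000000060000003e0000003e0000003f0000003e0000001e00000006 9 6) 0 0 (step_sound _ 194 [(rh020adc38471d18b8.shift 1 2), rh5411948d142e5bcb, (rh7a7e08304268422e.shift 1 3), (rhbb339bb7e4e96b38.shift 1 3)] (by decide +kernel))
noncomputable def rh0d8834b30f688643 : CRef := CRef.mk (Pat.mk 0x80000000c000000040000000000000000 0x1000000012000000720000007f000001ff000000660000002400000004 9 9) 0 0 (step_sound _ 34 [(rh310a6e4a99d3b364.shift 0 1), (rh71222050f2c63a3a.shift 2 0)] (by decide +kernel))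
noncomputable def rhe6643dfb1d920984 : CRef := CRef.mk (Pat.mk 0x3000000018000000000000000000000000 0x80000003c0000007e0000003f0000001e0000001c0000001800000018 9 7) 0 0 (step_sound _ 98 [rh3b963bdce9ab2afc, (rh53b3c253cb0c65f4.shift 1 3)] (by decide +kernel))
noncomputable def rh934a7062da789b88 : CRef := CRef.mk (Pat.mk 0x300000001800000000 0x3c0000003c000000ff000000ff000000f800000040 9 8) 0 0 (step_sound _ 70 [(rh18965a982d73c794.shift 3 1), rh406d9bd4a189566b] (by decide +kernel))
noncomputable def rh81b29d73e9a9514f : CRef := CRef.mk (Pat.mk 0x3000000018000000000000000000000000 0x2000000070000000f0000000ff000000f8000000ec0000006800000008 9 8) 0 0 (step_sound _ 134 [(rh18965a982d73c794.shift 3 3), rh98fa153ee7ece7e1] (by decide +kernel))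
noncomputable def rhe8a3aef041cfb0a8 : CRef := CRef.mk (Pat.mk 0x100000001800000008000000000000000000000000 0x26000000770000007f0000001f0000003f0000003c00000030 9 7) 0 0 (step_sound _ 67 [(rh71222050f2c63a3a.shift 3 1), rhb9dfc824f7b4b871] (by decide +kernel))
noncomputable def rh4e30bdeb5dfcd5f1 : CRef := CRef.mk (Pat.mk 0x100000001800000008000000000000000000000000 0x380000007a000000ff0000007f0000001f000000140000001400000010 9 8) 0 0 (step_sound _ 196 [(rh5c5e593799055d58.shift 3 3), rh76ad7f57016a69b4] (by decide +kernel))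
noncomputable def rhba36b1610c8ad8a1 : CRef := CRef.mk (Pat.mk 0x3000000010000000000000000000000000 0x48000007ff000003fe000007ff000000380000003800000028 9 11) 0 0 (step_sound _ 134 [rh58f19ccd3c783475, (rhad562696acd1db6f.shift 3 3), (rhba475ed43cb26846.shift 1 1)] (by decide +kernel))
noncomputable def rhc12d08ebc1fc688f : CRef := CRef.mk (Pat.mk 0x70000000100000000000000000 0x6000000060000001ef000001fe000000f70000007000000010 9 9) 0 0 (step_sound _ 99 [(rh4c622fddc53a5f99.shift 1 3), (rh67ebaa4f47fc2e5e.shift 2 0), (rh708c3bc8fe2f3084.shift 0 2), (rhd542320a7a4dc2c4.shift 2 2)] (by decide +kernel))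
noncomputable def rhb33bc69bbe2ba631 : CRef := CRef.mk (Pat.mk 0x38000000080000000000000000 0x3000000030000003b7000001fe000001f80000007c00000028 9 10) 0 0 (step_sound _ 132 [rh200ad5b448d6ed65, (rh57c337bee0669234.shift 2 0), rh93cb5c57817acffa, (rhc76eabdf8943010c.shift 2 1), (rhcf80391c5046a495.shift 3 0)] (by decide +kernel))
noncomputable def rh5d59c41c411872b1 : CRef := CRef.mk (Pat.mk 0x70000000100000000000000000 0x4000000040000007ee000003fe000007b70000002000000020 9 11) 0 0 (step_sound _ 103 [(rh06d0abd80b8147e4.shift 3 0), (rh38bce10de678439d.shift 0 2), (rh87681ba6c867709f.shift 4 2), (rhf3baec4a0a3dd35e.shift 4 2)] (by decide +kernel))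
noncomputable def rhb65e5edd63825121 : CRef := CRef.mk (Pat.mk 0x38000000080000000000000000 0x1000000030000000770000003e000001f8000000fc00000078 9 9) 0 0 (step_sound _ 132 [rh200ad5b448d6ed65, rh936b67b15840b19a, (rhadf429772c25fde0.shift 3 0)] (by decide +kernel))
noncomputable def rh63f741f1b3958a4c : CRef := CRef.mk (Pat.mk 0x38000000080000000000000000 0x300000003000000077000001fe000001f80000007c00000028 9 9) 0 0 (step_sound _ 132 [rh200ad5b448d6ed65, (rh26a664f32f8ccb01.shift 1 0), (rh92c5866cf4cb982e.shift 1 1), (rhab8309d9bf89922a.shift 3 1), (rhadf429772c25fde0.shift 3 0), (rhc76eabdf8943010c.shift 2 1), rhf1af9f0750e10370] (by decide +kernel))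
noncomputable def rh896f4de61f22429b : CRef := CRef.mk (Pat.mk 0x100000001800000008000000000000000000000000 0x3e0000003e00000078000000f8000000ff000000370000001000000010 9 8) 0 0 (step_sound _ 196 [(rh5c5e593799055d58.shift 3 3), rh78680345a448402d] (by decide +kernel))
noncomputable def rhdab7829c0f36bcb6 : CRef := CRef.mk (Pat.mk 0x1000000018000000080000000000000000 0x2f0000007f0000001f0000007c000000fe0000003c 9 8) 0 0 (step_sound _ 35 [(rh71222050f2c63a3a.shift 3 0), rhe1d08aa776749e78] (by decide +kernel))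
noncomputable def rhc4c7c0e401f2cc41 : CRef := CRef.mk (Pat.mk 0x180000000c000000000000000000000000 0xe0000000f0000001f0000003f000000770000001400000004 9 7) 0 0 (step_sound _ 97 [(rh53b3c253cb0c65f4.shift 0 3), rhf0fea40b3d6d6462] (by decide +kernel))
noncomputable def rhe733d8043814aa72 : CRef := CRef.mk (Pat.mk 0x8000000180000000800000000 0x140000003c0000007c0000006f0000007c0000001800000010 9 7) 0 0 (step_sound _ 131 [(rh22cde4a1aed087ae.shift 3 1), rhb030e8b54b8c17b2, (rhc85cc95794737cf7.shift 2 1), (rhd4b4beefcd67f51e.shift 3 0)] (by decide +kernel))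
noncomputable def rhf3d924363e5fe322 : CRef := CRef.mk (Pat.mk 0x3800000008000000000000000000000000 0x400000054000000dc000000ff000000fc00000028000000380000001800000010 9 8) 0 0 (step_sound _ 163 [rha647c1eea3a4f11d, (rhd8c999de8bee4c18.shift 2 1), (rhf60aa8aede119d3b.shift 0 4)] (by decide +kernel))
noncomputable def rhab625a7bf1416fb9 : CRef := CRef.mk (Pat.mk 0x3800000008000000000000000000000000 0x140000007c000000df000000fc000000e80000003c0000003c00000014 9 8) 0 0 (step_sound _ 163 [(rha9fbfd4bb8cf890b.shift 0 4), rhdf38bce9b59c5b39, (rhe3f97884c998bb11.shift 2 1)] (by decide +kernel))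
noncomputable def rh3d2d16aadbf5a579 : CRef := CRef.mk (Pat.mk 0x70000000100000000000000000 0x2800000028000000fe0000007e000003d7000000f800000050 9 10) 0 0 (step_sound _ 133 [(rh200ad5b448d6ed65.shift 1 0), (rh4821dcf828b9d7bf.shift 4 0), (rh82cc2deab149c31d.shift 2 0), (rhe288f728cf3077fd.shift 0 1)] (by decide +kernel))
noncomputable def rhc748e865057af2be : CRef := CRef.mk (Pat.mk 0xe00000002000000000000000000000000 0xc0000001c0000007f0000003e0000007a0000003a0000003800000028 9 7) 0 0 (step_sound _ 132 [rh4b25bac5010a095b, (rha93a5dd541ab8209.shift 1 3), (rhaf661323c6e1d2ba.shift 0 2)] (by decide +kernel))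
noncomputable def rhc9b494530ea9bc24 : CRef := CRef.mk (Pat.mk 0x180000000c0000000000000000 0x1c0000001e0000007f0000007e0000007c0000000c0000000c 9 7) 0 0 (step_sound _ 101 [(rh18965a982d73c794.shift 2 2), rh6c133646c5a9d79f] (by decide +kernel))
noncomputable def rh891c3b366c413e18 : CRef := CRef.mk (Pat.mk 0x180000000c00000000000000000000000000000000 0x100000001c0000001e0000001f0000001b0000001f0000000c0000001c0000001c00000010 9 5) 0 0 (step_sound _ 129 [rh523dd6c48b9c9ba5, (rh53b3c253cb0c65f4.shift 0 4)] (by decide +kernel))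
noncomputable def rh36caef012bc4429c : CRef := CRef.mk (Pat.mk 0x3000000018000000000000000000000000 0x3c0000007e0000003f0000001e0000001c0000001c0000001c 9 7) 0 0 (step_sound _ 98 [(rh53b3c253cb0c65f4.shift 1 3), rhf421b995d0b831b4] (by decide +kernel))
noncomputable def rh9be51c7f03547eba : CRef := CRef.mk (Pat.mk 0x3000000018000000000000000000000000 0xc0000007e0000003f0000001e0000007e0000007c0000003c 9 7) 0 0 (step_sound _ 98 [(rh53b3c253cb0c65f4.shift 1 3), rhf7238f66a0956909] (by decide +kernel))
noncomputable def rh2a460a0ca1253d91 : CRef := CRef.mk (Pat.mk 0x3000000018000000000000000000000000 0x30000000770000003f0000001e0000007c0000003e0000001c 9 7) 0 0 (step_sound _ 98 [rh137291279585f2d2, (rh53b3c253cb0c65f4.shift 1 3)] (by decide +kernel))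
noncomputable def rh2d2117b91d0402bc : CRef := CRef.mk (Pat.mk 0xc000000060000000000000000 0x80000002c0000007c0000003f0000003e0000003e0000001f 9 7) 0 0 (step_sound _ 100 [(rh18965a982d73c794.shift 1 2), rhe4039fba4dd9c7ac] (by decide +kernel))
noncomputable def rhd1652f09ada4a6ac : CRef := CRef.mk (Pat.mk 0x180000000c000000000000000000000000 0x80000001a0000001b0000003f0000003f0000007c0000003c 9 7) 0 0 (step_sound _ 97 [rh1afae357bb4327c3, (rh53b3c253cb0c65f4.shift 0 3)] (by decide +kernel))
noncomputable def rh7d347aa489c33d28 : CRef := CRef.mk (Pat.mk 0x80000000c000000040000000000000000 0x600000006000000060000000f0000003c000000360000003e0000001e 9 6) 0 0 (step_sound _ 34 [rh5750a1e47e9fc816, (rh71222050f2c63a3a.shift 2 0)] (by decide +kernel))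
noncomputable def rh2a51943a9d1377a0 : CRef := CRef.mk (Pat.mk 0x80000000c00000004000000000000000000000000 0xe0000000f0000007f0000003f0000003c000000180000001800000008 9 7) 0 0 (step_sound _ 195 [rh26605b77b2e84b60, (rh5c5e593799055d58.shift 2 3)] (by decide +kernel))
noncomputable def rh27fcecbad56ae909 : CRef := CRef.mk (Pat.mk 0x180000000c0000000000000000 0x1c0000001e000000770000007e0000007c0000007800000038 9 7) 0 0 (step_sound _ 101 [(rh18965a982d73c794.shift 2 2), rhe3ece1b8b8149cd1] (by decide +kernel))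
noncomputable def rh49670016b22718dc : CRef := CRef.mk (Pat.mk 0x180000000800000008000000000000000000000000 0x100000001c0000001c0000000c000000180000007c0000000f0000003c0000001c00000010 9 7) 0 0 (step_sound _ 67 [(rh161c003cd166b8ec.shift 0 1), (rh283aa840d851d11c.shift 2 1), (rh406fda89a1e62cf5.shift 0 1), (rh8c3839f9b9075f23.shift 3 0)] (by decide +kernel))
noncomputable def rhf911a5094c9d8d1f : CRef := CRef.mk (Pat.mk 0x18000000080000000800000000 0x140000001c0000001c0000000c000000780000003f0000003f00000014 9 7) 0 0 (step_sound _ 131 [rh098bc7705ecc427a, (rh20e56a1196e70fcc.shift 2 0), (rh58921e956e31cc66.shift 2 0), (rh5abfc4c9d959be03.shift 2 0), (rhce9a49803a550f13.shift 2 0), rhef757b439f46a5d7] (by decide +kernel))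
noncomputable def rh2376c0abc9d4c14d : CRef := CRef.mk (Pat.mk 0x8000000080000000800000000000000000000000000000000 0x40000000c0000000c000000080000000c0000003f0000003f000000170000001200000002 9 6) 0 0 (step_sound _ 100 [(rh2977b00063528966.shift 3 1), (rh997d67b8c4cb0986.shift 2 2), (rhaf349dd7709502bf.shift 2 3), rhd186afc7bd89801d, (rhfa80626feb4e9cb5.shift 0 2)] (by decide +kernel))
noncomputable def rha9bb8c2bd208a34c : CRef := CRef.mk (Pat.mk 0x18000000080000000800000000000000000000000000000000 0x180000001c0000003f0000003f0000001f0000001600000002 9 6) 0 0 (step_sound _ 99 [rh7967cbec474eb2f4, (rh8c3839f9b9075f23.shift 3 1), (rha8bc3cae4d77a08f.shift 2 1)] (by decide +kernel))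
noncomputable def rh5c7bff79a791511f : CRef := CRef.mk (Pat.mk 0x18000000080000000800000000000000000000000000000000 0xc0000000c0000000c000000780000001f0000003c0000001c0000001c0000001c00000014 9 7) 0 0 (step_sound _ 227 [(rh26a641dd1ea9a7b1.shift 0 3), (rh5abfc4c9d959be03.shift 2 3), (rh7fbefdf5c4022631.shift 0 2), (rh8e21e0afc44fc961.shift 1 0)] (by decide +kernel))
noncomputable def rh66bbef6aeb639d96 : CRef := CRef.mk (Pat.mk 0x2000000030000000100000000000000000 0x180000007e0000003e000000f70000003e0000003c 9 8) 0 0 (step_sound _ 36 [rh0bd149663d6386ca, (rh71222050f2c63a3a.shift 4 0)] (by decide +kernel))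
noncomputable def rh352f7384a03dc0ab : CRef := CRef.mk (Pat.mk 0x8000000080000000800000000000000000000000000000000 0x40000000c0000000c000000080000000c0000003f0000003f000000170000001200000002 9 6) 0 0 (step_sound _ 100 [(rh2977b00063528966.shift 3 1), (rhaf349dd7709502bf.shift 2 3), rhd186afc7bd89801d, (rhfa80626feb4e9cb5.shift 0 2)] (by decide +kernel))
noncomputable def rh9d1a9b5a14aa5319 : CRef := CRef.mk (Pat.mk 0x30000000180000000000000000 0x20000000b0000001fe000000ff000000d8000000f80000007c 9 9) 0 0 (step_sound _ 102 [rh129050ca158fdb17, (rh18965a982d73c794.shift 3 2)] (by decide +kernel))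
noncomputable def rhbb0201546bd2a9a2 : CRef := CRef.mk (Pat.mk 0x180000000c000000000000000000000000 0x180000001e0000001f0000003f0000003c0000001f0000000e 9 6) 0 0 (step_sound _ 97 [(rh53b3c253cb0c65f4.shift 0 3), rhf18d67c87a5f0f79] (by decide +kernel))
noncomputable def rhbe0dc9b232f653da : CRef := CRef.mk (Pat.mk 0x3000000018000000000000000000000000 0x50000000fe000000ff000000f80000003f0000007c0000003c 9 8) 0 0 (step_sound _ 134 [(rh18965a982d73c794.shift 3 3), rh82dfa7f15a9fa1d0] (by decide +kernel))
noncomputable def rh489c15078f1a56c7 : CRef := CRef.mk (Pat.mk 0x180000000c000000000000000000000000 0xb0000000b0000001f0000003f0000000f0000000400000004 9 6) 0 0 (step_sound _ 97 [(rh53b3c253cb0c65f4.shift 0 3), rhebb65282a71489f3] (by decide +kernel))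
noncomputable def rh1a96f980461e5e08 : CRef := CRef.mk (Pat.mk 0x300000001800000000000000000000000000000000 0x300000003c000000f8000000d8000000ff000000fc0000003c00000010 9 8) 0 0 (step_sound _ 166 [(rh18965a982d73c794.shift 3 4), rh2c4015b596a6cbac] (by decide +kernel))
noncomputable def rhc53dcba3920ea7c0 : CRef := CRef.mk (Pat.mk 0x180000000c000000000000000000000000 0x80000000800000018000000ff0000007f0000003c00000034 9 8) 0 0 (step_sound _ 97 [(rh53b3c253cb0c65f4.shift 0 3), rha606ab2a80ffbe7a] (by decide +kernel))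
noncomputable def rhf4279fd8f8927c0a : CRef := CRef.mk (Pat.mk 0x180000000c0000000000000000 0x10000000180000007f0000007e0000007c0000006e0000002c 9 7) 0 0 (step_sound _ 101 [rh0dce48b8037d8d6e, (rh18965a982d73c794.shift 2 2)] (by decide +kernel))
noncomputable def rhca457f10247f0c3f : CRef := CRef.mk (Pat.mk 0x3000000018000000000000000000000000 0x3000000038000000380000001e0000007f0000007c0000003c 9 7) 0 0 (step_sound _ 98 [rh1170245cca44f4ba, (rh53b3c253cb0c65f4.shift 1 3)] (by decide +kernel))
noncomputable def rhb5a41303637865d1 : CRef := CRef.mk (Pat.mk 0x180000000c000000000000000000000000 0x40000001c0000001c000000180000003f0000007f0000001c0000007c0000007c00000018 9 7) 0 0 (step_sound _ 133 [(rh18965a982d73c794.shift 2 3), rh4efb5619c869dc3c] (by decide +kernel))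
noncomputable def rha51e8bf0677f17b9 : CRef := CRef.mk (Pat.mk 0x600000003000000000000000000000000 0xe0000001e0000003e0000001e0000003f0000003e0000000e00000004 9 6) 0 0 (step_sound _ 131 [(rh18965a982d73c794.shift 0 3), rhe7e86280834d1120] (by decide +kernel))
noncomputable def rhc5b51224b74d59d4 : CRef := CRef.mk (Pat.mk 0x180000000c000000000000000000000000 0x38000000380000003c0000001f000000ff0000003b0000001a0000001a 9 8) 0 0 (step_sound _ 97 [rh1f85079941ff49b8, (rh53b3c253cb0c65f4.shift 0 3)] (by decide +kernel))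
noncomputable def rhd5d354de5d176f66 : CRef := CRef.mk (Pat.mk 0x180000000c00000000000000000000000000000000 0x100000001800000038000000780000002f0000007f0000003c0000001c00000014 9 7) 0 0 (step_sound _ 129 [(rh53b3c253cb0c65f4.shift 0 4), rhc7ec79e13146fc20] (by decide +kernel))
noncomputable def rh21d4e3fb66cd8450 : CRef := CRef.mk (Pat.mk 0x180000000c000000000000000000000000 0x180000001a0000001b0000001f0000003f0000007c0000003c 9 7) 0 0 (step_sound _ 97 [(rh53b3c253cb0c65f4.shift 0 3), rh843e3750bc366e6d] (by decide +kernel))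
noncomputable def rh0a7828a3a3a28df2 : CRef := CRef.mk (Pat.mk 0xc000000060000000000000000 0x1c0000003c0000007c0000003c0000007e0000007e0000001f 9 7) 0 0 (step_sound _ 100 [(rh18965a982d73c794.shift 1 2), rhde29d6d5e6bd60cb] (by decide +kernel))
noncomputable def rh0f3e00c373acf168 : CRef := CRef.mk (Pat.mk 0x180000000c000000000000000000000000 0x80000000a0000000f0000001f000000ff000000f70000001600000006 9 8) 0 0 (step_sound _ 97 [rh04e9d582a75cd35c, (rh53b3c253cb0c65f4.shift 0 3)] (by decide +kernel))
noncomputable def rha82f7868d7786f99 : CRef := CRef.mk (Pat.mk 0x200000001c00000000000000000000000000000000 0x400000006000000370000001e00000007000000070000000700000003 9 6) 0 0 (step_sound _ 129 [(rh428265de8cd3cd2d.shift 1 4), rh631200791555ddc8] (by decide +kernel))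
noncomputable def rhd9ce75c8d2cd02b9 : CRef := CRef.mk (Pat.mk 0x38000000000000000000000000 0x180000001c000000f8000001fc0000001f0000001c 9 9) 0 0 (step_sound _ 102 [(rh06db8ceda6269a47.shift 2 2), rh257a556c69ee4933, (rhe401600d466b97cd.shift 2 2)] (by decide +kernel))
noncomputable def rheefc03b5076a903f : CRef := CRef.mk (Pat.mk 0x80000000e000000000000000000000000 0x30000000300000007f000000fe000000ff0000003800000018 9 8) 0 0 (step_sound _ 132 [(rh572132728df34c43.shift 1 3), (rh80f90a60d87caa0d.shift 1 3), rh83d232c0270e980e] (by decide +kernel))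
noncomputable def rh008933b32ec2841d : CRef := CRef.mk (Pat.mk 0x80000000e000000000000000000000000 0x80000000a000000ef0000007e0000007f0000001400000014 9 8) 0 0 (step_sound _ 66 [rh2996758104b30149, rh2cb8437104de90cf, (rhf9366b6a121593ef.shift 2 0)] (by decide +kernel))
noncomputable def rh8698667fdfe24e53 : CRef := CRef.mk (Pat.mk 0x100000001c000000000000000000000000 0x380000007e0000007f0000001c0000007f0000003e0000003c 9 7) 0 0 (step_sound _ 67 [(rh34435ebbffb0bbe0.shift 1 0), rhdbb7dda37812eefd, (rhf9366b6a121593ef.shift 3 0)] (by decide +kernel))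
noncomputable def rh8abcff43314d6ab3 : CRef := CRef.mk (Pat.mk 0xc0000000600000000000000000000000000000000 0x140000003c0000003f0000007e0000003f0000003e0000000e0000000c 9 7) 0 0 (step_sound _ 164 [(rh18965a982d73c794.shift 1 4), rh475f49615e6043f4] (by decide +kernel))
noncomputable def rh185c60bbda1510be : CRef := CRef.mk (Pat.mk 0x3000000018000000000000000000000000 0x7000000078000001f80000003f0000007e0000003e0000003c00000028 9 9) 0 0 (step_sound _ 98 [(rh53b3c253cb0c65f4.shift 1 3), rhe7d565546aca49c9] (by decide +kernel))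
noncomputable def rhe97814fc970299dd : CRef := CRef.mk (Pat.mk 0xc00000006000000000000000000000000 0x80000001c0000003c0000003f0000007e0000000f0000000e00000006 9 7) 0 0 (step_sound _ 132 [(rh18965a982d73c794.shift 1 3), rhb0c68faeb46661ee] (by decide +kernel))
noncomputable def rh0dd4e0131ff0e0d8 : CRef := CRef.mk (Pat.mk 0xc000000060000000000000000 0x80000000c0000003c0000003f0000003e0000003700000016 9 6) 0 0 (step_sound _ 100 [(rh18965a982d73c794.shift 1 2), rhec0e9af91cb0a174] (by decide +kernel))
noncomputable def rhb31fd4d06ac525fd : CRef := CRef.mk (Pat.mk 0x600000003000000000000000000000000 0x50000000700000007000000070000001f000000070000001f0000001f00000007 9 5) 0 0 (step_sound _ 131 [(rh18965a982d73c794.shift 0 3), rh677f4258c7d04d00] (by decide +kernel))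
noncomputable def rh91eaaacadbc8bda2 : CRef := CRef.mk (Pat.mk 0x60000000300000000000000000000000000000000 0x200000003000000070000001f0000001f0000001f0000001e0000000e0000000600000004 9 5) 0 0 (step_sound _ 163 [(rh18965a982d73c794.shift 0 4), rh5459ad12a1a3f355] (by decide +kernel))
noncomputable def rhc0af5118d822879b : CRef := CRef.mk (Pat.mk 0x600000003000000000000000000000000 0xe0000000e0000000e0000001e0000003f0000003f0000001f00000004 9 6) 0 0 (step_sound _ 131 [(rh18965a982d73c794.shift 0 3), rhb6ddd8aa5c2b851b] (by decide +kernel))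
noncomputable def rh37b8efb433d21222 : CRef := CRef.mk (Pat.mk 0x30000000180000000000000000 0x280000003800000078000000f0000000ff000000f8000000ec00000028 9 8) 0 0 (step_sound _ 102 [(rh18965a982d73c794.shift 3 2), rh522b6cae0e1292cb] (by decide +kernel))
noncomputable def rhcbf1c87e08f536c5 : CRef := CRef.mk (Pat.mk 0x4000000030000000000000000000000000 0xa0000000f0000000f00000007f000000fe000001ff0000006800000060 9 9) 0 0 (step_sound _ 99 [(rha2e182fd6274be10.shift 0 2), (rhb61ade19d028b468.shift 0 2), (rhbc439363394e3de6.shift 2 0), (rhe34d5b16b00f32c0.shift 1 2), rhfb67a59ac3cddd9d] (by decide +kernel))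
noncomputable def rh2290cfc15f89cc0a : CRef := CRef.mk (Pat.mk 0x100000001c000000000000000000000000 0x8000000380000007c0000007e0000001c0000007f0000003e0000001c 9 7) 0 0 (step_sound _ 67 [(rh10f58ed2a524eff2.shift 1 1), (rhcf80391c5046a495.shift 3 0), rheed30fe6e856b39a, (rhf9366b6a121593ef.shift 3 0)] (by decide +kernel))
noncomputable def rhd68b62711672754f : CRef := CRef.mk (Pat.mk 0x2000000018000000000000000000000000 0x2800000028000001ef000000fe000001fe0000005000000050 9 9) 0 0 (step_sound _ 101 [(rh16b38e15ac3db8ca.shift 2 0), (rhafe2bff1d5013456.shift 1 2), (rhb317c6cc5236f514.shift 2 0), rhd84d8aa26dfbdfdf, (rhfd01510815188b45.shift 0 2)] (by decide +kernel))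
noncomputable def rhb3821b1e2bacd559 : CRef := CRef.mk (Pat.mk 0x300000001800000000000000000000000000000000 0x2000000030000000f8000000fc000000d8000000ff000000fc0000003c00000010 9 8) 0 0 (step_sound _ 166 [(rh18965a982d73c794.shift 3 4), rhf2b14e1f1d4c3afc] (by decide +kernel))
noncomputable def rh3c91540462213342 : CRef := CRef.mk (Pat.mk 0xc00000006000000000000000000000000 0x80000001c0000003c0000003f0000007e0000003f0000001e00000006 9 7) 0 0 (step_sound _ 132 [(rh18965a982d73c794.shift 1 3), rh5c558c1ff85d792d] (by decide +kernel))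
noncomputable def rhd4f4e8aba8258128 : CRef := CRef.mk (Pat.mk 0x180000000c00000000000000000000000000000000 0x100000001c0000001f0000001f0000001c0000001f0000001c0000001c0000001800000008 9 5) 0 0 (step_sound _ 129 [(rh53b3c253cb0c65f4.shift 0 4), rh913a27bb690b8afb] (by decide +kernel))
noncomputable def rh334f8c297bf30a53 : CRef := CRef.mk (Pat.mk 0x1800000006000000000000000000000000 0x140000001c0000001e0000001f0000007a0000000f0000000e0000000c00000004 9 7) 0 0 (step_sound _ 99 [rh01283b94e84261d6, (rh53b3c253cb0c65f4.shift 0 3)] (by decide +kernel))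
noncomputable def rh80415385c3a86032 : CRef := CRef.mk (Pat.mk 0x1c000000020000000000000000 0x400000014000000ff0000007f000000fa0000000a0000000a 9 8) 0 0 (step_sound _ 130 [(rh10ab9917367cccab.shift 1 2), (rh1aae126fdb0efa1d.shift 1 2), (rh5bd8cd6009d9f86a.shift 0 1), (rha7edc60fc34bffff.shift 0 3), rhaf435f1addd569db] (by decide +kernel))
noncomputable def rha9b216ca16ea3257 : CRef := CRef.mk (Pat.mk 0x70000000080000000000000000 0x140000005f000000fc0000007c000000f80000003800000038 9 8) 0 0 (step_sound _ 99 [rh8f1d4d8f09e94aed, (rhafce7c2a98f15f1d.shift 2 0), (rhdaa484a4a2096467.shift 2 2)] (by decide +kernel))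
noncomputable def rh39dd5a128ef25f5b : CRef := CRef.mk (Pat.mk 0x7000000010000000000000000000000000 0x1800000018000000fc0000007f0000003e0000000c0000000c0000000c 9 8) 0 0 (step_sound _ 99 [(rh1ed7a3503fa50fc8.shift 1 3), (rheea1a90336e79c71.shift 1 3), rheefade70454d5a0c] (by decide +kernel))
noncomputable def rh1fcab73cb5acd4d0 : CRef := CRef.mk (Pat.mk 0x3800000008000000000000000000000000 0x1c0000001e0000007e0000003e0000007f000000260000000600000006 9 7) 0 0 (step_sound _ 98 [(rh1ed7a3503fa50fc8.shift 0 3), (rhd13425c6ad1aa4d4.shift 1 0), (rheea1a90336e79c71.shift 0 3)] (by decide +kernel))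
noncomputable def rh8cfb80a2eb937421 : CRef := CRef.mk (Pat.mk 0x1c000000040000000000000000 0x1c0000001e0000007f0000001c0000001f0000001f0000001e 9 7) 0 0 (step_sound _ 131 [(rh4821dcf828b9d7bf.shift 2 0), rha7fa973ea6938e87, (rhadf429772c25fde0.shift 2 0), rhfb8e12a9ace734ea] (by decide +kernel))
noncomputable def rhe1895ffb46292c15 : CRef := CRef.mk (Pat.mk 0x180000000c0000000000000000 0x80000003c0000003e000000ff0000001b0000001f0000001c0000000c 9 8) 0 0 (step_sound _ 65 [(rh53b3c253cb0c65f4.shift 0 2), rhf10eac71e737f5ed] (by decide +kernel))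
noncomputable def rh551de9dd1d38fe12 : CRef := CRef.mk (Pat.mk 0x30000000080000000000000000 0x1400000054000000ff000000fe000000ef0000002800000028 9 8) 0 0 (step_sound _ 99 [(rh40b0a4bea4334023.shift 1 1), (rh480231ab31e80384.shift 2 1), rh5e29cc6fcab447e5, (rhec89969cfdaf3653.shift 2 0)] (by decide +kernel))
noncomputable def rhc0017960468699ad : CRef := CRef.mk (Pat.mk 0x1c00000002000000000000000000000000 0x4000000070000000700000007000000070000001e00000003000000070000000700000005 9 5) 0 0 (step_sound _ 129 [rh7268977ffa731127, (rheb0810cc63b001d8.shift 0 3)] (by decide +kernel))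
noncomputable def rh575c5df68fa7c209 : CRef := CRef.mk (Pat.mk 0x180000000c000000000000000000000000 0x140000001c0000001c0000000f0000007c0000000c0000001e0000001e00000016 9 7) 0 0 (step_sound _ 133 [(rh18965a982d73c794.shift 2 3), rh575818d82ff5d49a] (by decide +kernel))
noncomputable def rh61b4c76eeca62199 : CRef := CRef.mk (Pat.mk 0x180000000c000000000000000000000000 0xa0000000b0000001f000000ff000000f60000001400000004 9 8) 0 0 (step_sound _ 97 [rh2347b14f736ae7a1, (rh53b3c253cb0c65f4.shift 0 3)] (by decide +kernel))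
noncomputable def rh4293a485d32ec6c9 : CRef := CRef.mk (Pat.mk 0x180000000c000000000000000000000000 0x3000000032000000330000001f0000003f0000003c0000001c00000018 9 6) 0 0 (step_sound _ 97 [rh38a43623b773715c, (rh53b3c253cb0c65f4.shift 0 3)] (by decide +kernel))
noncomputable def rh62eab07a744d2567 : CRef := CRef.mk (Pat.mk 0x3800000000000000000000000000000000 0x2000000060000000f70000007e000001e0000000e0000000e0000000c0 9 9) 0 0 (step_sound _ 102 [(rh0deb2ebc850de581.shift 2 2), (rh31c9b5d27f8466b9.shift 0 3), (rh71efda916732b25a.shift 2 3), (rhbc662e99f765b901.shift 2 3), (rhc9dc90c2c57d03cc.shift 3 0)] (by decide +kernel))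
noncomputable def rh25d481c3f6bc5f9e : CRef := CRef.mk (Pat.mk 0x180000000c000000000000000000000000 0x1e0000001f0000001f0000003f0000000e0000000c00000004 9 6) 0 0 (step_sound _ 97 [(rh53b3c253cb0c65f4.shift 0 3), rhfcb4f1deab08bf00] (by decide +kernel))
noncomputable def rhb3ae85ddbfb32e87 : CRef := CRef.mk (Pat.mk 0x180000000c000000000000000000000000 0x140000001c0000001c0000001c0000001c0000001c0000001c0000001f0000003c0000001c0000000c 9 6) 0 0 (step_sound _ 97 [(rh53b3c253cb0c65f4.shift 0 3), (rha47566d70085529f.shift 1 0)] (by decide +kernel))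
noncomputable def rheb1707ec2aa4aedb : CRef := CRef.mk (Pat.mk 0x180000000c000000000000000000000000 0x600000017000000370000001f000000ff0000007e0000000e00000004 9 8) 0 0 (step_sound _ 97 [(rh53b3c253cb0c65f4.shift 0 3), rhdd598dffc60d9f93] (by decide +kernel))
noncomputable def rhda95d51fc63672f8 : CRef := CRef.mk (Pat.mk 0x180000000c000000000000000000000000 0x60000001e0000001f0000001f0000000f0000003e0000000f0000000e 9 6) 0 0 (step_sound _ 97 [rh108dd95fd8fd3a92, (rh53b3c253cb0c65f4.shift 0 3)] (by decide +kernel))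
noncomputable def rh04ab92ef02b00aee : CRef := CRef.mk (Pat.mk 0x180000000c000000000000000000000000 0x300000003a0000003a0000001b000000ff0000003e0000001c0000001c 9 8) 0 0 (step_sound _ 97 [(rh53b3c253cb0c65f4.shift 0 3), rha9f28bb9f8276c18] (by decide +kernel))
noncomputable def rh20d62a788c6a0d36 : CRef := CRef.mk (Pat.mk 0x180000000c0000000000000000 0x3a0000003f000000ff0000001f0000007c0000007c0000003c 9 8) 0 0 (step_sound _ 132 [rh2a7a2186b080c7c7, (rh30c630fd27fb8669.shift 1 1), (rhf9366b6a121593ef.shift 3 0)] (by decide +kernel))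
noncomputable def rhdbcc33134ec8565b : CRef := CRef.mk (Pat.mk 0x180000000c0000000000000000000000000000000000000000 0x140000001c0000001c000000180000003f0000007c0000003c0000001c0000001c00000010 9 7) 0 0 (step_sound _ 161 [(rh53b3c253cb0c65f4.shift 0 5), (rh616bfd74a8d89df2.shift 1 0)] (by decide +kernel))
noncomputable def rhe099e10f997f122d : CRef := CRef.mk (Pat.mk 0x300000000800000000000000000000000000000000 0x3400000074000001ff000000ff000000ef000000e8000000fc000000bc00000014 9 9) 0 0 (step_sound _ 163 [(rh3054f1b57b66b1f5.shift 2 2), (rh5e29cc6fcab447e5.shift 0 2), (rh8eea156ffecb6be4.shift 2 4), (rhb4453f7eb37874fd.shift 1 1), rhe45feed76cc5ca95] (by decide +kernel))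
noncomputable def rh0ff478574118d002 : CRef := CRef.mk (Pat.mk 0x300000000800000000000000000000000000000000 0x2800000038000003fe000001fc000003df000000f8000000700000002000000020 9 10) 0 0 (step_sound _ 130 [(rh024ce6cab26049c7.shift 1 0), (rh7401e8cf466f4e5b.shift 0 4), (rhbd2e91c3fdbfa961.shift 0 4), (rhedb5257a62f09c47.shift 2 4)] (by decide +kernel))
noncomputable def rh13e27f7618ab5930 : CRef := CRef.mk (Pat.mk 0x180000000c000000000000000000000000 0xa0000000a0000001b000000ff0000007f0000001400000004 9 8) 0 0 (step_sound _ 97 [(rh53b3c253cb0c65f4.shift 0 3), rh8ec53f10ecd307da] (by decide +kernel))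
noncomputable def rhf577913770b5ed91 : CRef := CRef.mk (Pat.mk 0x180000000c000000000000000000000000 0x10000000360000001f0000007f0000007f0000003c0000003c 9 7) 0 0 (step_sound _ 97 [(rh53b3c253cb0c65f4.shift 0 3), rhfbf002349ee3f3c5] (by decide +kernel))
noncomputable def rh0acc6ee8cc440665 : CRef := CRef.mk (Pat.mk 0x38000000080000000000000000 0x3800000038000000780000003e000000ff000001fe00000038 9 9) 0 0 (step_sound _ 132 [rh2e3348a9fa2eeea9, (rh4821dcf828b9d7bf.shift 3 0), (rh88e9c0d9bd5fe301.shift 1 0), (rhadf429772c25fde0.shift 3 0)] (by decide +kernel))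
noncomputable def rhe51bea92d4aca79c : CRef := CRef.mk (Pat.mk 0x70000000100000000000000000 0x2000000020000000f70000007e000000fe000003f000000070 9 10) 0 0 (step_sound _ 133 [(rh2e3348a9fa2eeea9.shift 1 0), (rhadf429772c25fde0.shift 4 0), (rhefd1b7782434d2d1.shift 0 1)] (by decide +kernel))
noncomputable def rhfb52cb253c92a2b2 : CRef := CRef.mk (Pat.mk 0x38000000080000000000000000 0x1c0000001e0000007e0000003e0000007f0000002600000002 9 7) 0 0 (step_sound _ 66 [(rh1ed7a3503fa50fc8.shift 0 2), (rh20c80255b1363070.shift 1 0), (rheea1a90336e79c71.shift 0 2)] (by decide +kernel))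
noncomputable def rhb847d96b6d213d21 : CRef := CRef.mk (Pat.mk 0x38000000080000000000000000 0x100000001c0000007f0000003e0000001f0000001800000018 9 7) 0 0 (step_sound _ 65 [rh5ab5a7806b2d8214, (rh8bf8257c7eeda352.shift 0 2), (rhbb229bad87965364.shift 1 2), (rhfb815e3afead425a.shift 0 2)] (by decide +kernel))
noncomputable def rhc7c8a3590f9f5cfe : CRef := CRef.mk (Pat.mk 0x38000000080000000000000000 0x14000000340000007f0000003e00000078000000f800000078 9 8) 0 0 (step_sound _ 132 [(rh82cc2deab149c31d.shift 1 0), rh936b67b15840b19a, (rhadf429772c25fde0.shift 3 0)] (by decide +kernel))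
noncomputable def rhf1df18ac41f7da2f : CRef := CRef.mk (Pat.mk 0x1c000000040000000000000000 0x1c0000001e0000001f0000001c0000007f0000007f0000001c 9 7) 0 0 (step_sound _ 131 [(rh4821dcf828b9d7bf.shift 2 0), rh88e9c0d9bd5fe301, (rhadf429772c25fde0.shift 2 0), rhcf4ad328039bff98] (by decide +kernel))
noncomputable def rhbef2ca9e7ab35de2 : CRef := CRef.mk (Pat.mk 0x3000000008000000000000000000000000 0x3400000074000001ff000000fe000000ef000000e8000000e8000000a0 9 9) 0 0 (step_sound _ 131 [(rh3054f1b57b66b1f5.shift 2 1), (rh480231ab31e80384.shift 2 2), (rh5e29cc6fcab447e5.shift 0 1), (rh8eea156ffecb6be4.shift 2 3), (rhb4453f7eb37874fd.shift 1 0)] (by decide +kernel))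
noncomputable def rh11b32c1756178b0c : CRef := CRef.mk (Pat.mk 0x2000000030000000100000000000000000 0x3c0000003c0000007f000001fe000003df0000004000000040 9 10) 0 0 (step_sound _ 165 [(rh5c5e593799055d58.shift 4 2), rhaed4271f5b239ae4] (by decide +kernel))
noncomputable def rh9a584323d06b6a21 : CRef := CRef.mk (Pat.mk 0x2000000030000000100000000000000000 0x2000000020000000ff000001fe000003df0000004000000040 9 10) 0 0 (step_sound _ 165 [rh0a759fe15fb39c27, (rh5c5e593799055d58.shift 4 2)] (by decide +kernel))
noncomputable def rhc19b58328d3605c4 : CRef := CRef.mk (Pat.mk 0x10000000180000000800000000 0x2c0000003c000000fe000000ff000000fe0000006800000020 9 8) 0 0 (step_sound _ 132 [rh44c562c2c03c2f50, (rh5c5e593799055d58.shift 3 1)] (by decide +kernel))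
noncomputable def rhe3cba2f585fea1b8 : CRef := CRef.mk (Pat.mk 0x1000000018000000080000000000000000 0x800000008000000ec000000ff0000007f0000001f0000000c00000008 9 8) 0 0 (step_sound _ 35 [(rh71222050f2c63a3a.shift 3 0), (rhbdb1fed2ba50304d.shift 0 1)] (by decide +kernel))
noncomputable def rh83932c48b768138a : CRef := CRef.mk (Pat.mk 0x80000000c000000040000000000000000 0x1800000018000000780000007f0000007e0000007800000020 9 7) 0 0 (step_sound _ 163 [(rh5c5e593799055d58.shift 2 2), rhcbfcc7acdfb417f8] (by decide +kernel))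
noncomputable def rhe97a991aa83ffb25 : CRef := CRef.mk (Pat.mk 0x2000000030000000100000000000000000 0x8000003ef000003fe000003ff000003f000000050 9 10) 0 0 (step_sound _ 36 [(rh71222050f2c63a3a.shift 4 0), rhc80d5aadefdd4e12] (by decide +kernel))
noncomputable def rh3ff9f4c587b4a715 : CRef := CRef.mk (Pat.mk 0x80000000c00000004000000000000000000000000 0x1800000018000000fe0000007c0000007f000000780000003800000028 9 8) 0 0 (step_sound _ 195 [(rh5c5e593799055d58.shift 2 3), rhaeb99cade54a12f2] (by decide +kernel))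
noncomputable def rh3cac105934a1f084 : CRef := CRef.mk (Pat.mk 0x80000000c0000000400000000 0x1c0000003c000000ef0000007f000000ff00000012 9 8) 0 0 (step_sound _ 68 [rh0cdd234185f363cb, (rh1fdce53352ce63a0.shift 0 1), (rha83d0a1d851c6a27.shift 1 1), (rhfa35e196e150edb4.shift 1 1)] (by decide +kernel))
noncomputable def rh33209fe4282a9641 : CRef := CRef.mk (Pat.mk 0x80000000c00000004000000000000000000000000 0x1e0000001f0000007b0000001f0000003c000000180000001800000008 9 7) 0 0 (step_sound _ 195 [rh59ee469c0a329799, (rh5c5e593799055d58.shift 2 3)] (by decide +kernel))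
noncomputable def rh57f10b74a2756142 : CRef := CRef.mk (Pat.mk 0x80000000c0000000400000000 0x3c0000007c000000ef0000007c0000007e00000018 9 8) 0 0 (step_sound _ 131 [rh109eb059d0e6db00, (rh5c5e593799055d58.shift 2 1)] (by decide +kernel))
noncomputable def rhcf02ebc60f0d83ad : CRef := CRef.mk (Pat.mk 0x1000000018000000080000000000000000 0x800000008000000ec000000ff0000007f0000000f0000007c00000018 9 8) 0 0 (step_sound _ 35 [(rh71222050f2c63a3a.shift 3 0), rhed07901cdd461418] (by decide +kernel))
noncomputable def rh074a298cdc112935 : CRef := CRef.mk (Pat.mk 0x40000000200000002000000020000000000000000000000000000000000000000 0x40000000600000007000000070000000600000007000000070000000700000004 9 3) 0 0 (step_sound _ 129 [rha811bde27b77a068, (rhbaefcd01e0a8bca3.shift 1 4)] (by decide +kernel))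
noncomputable def rh7eb0db43dbb868c0 : CRef := CRef.mk (Pat.mk 0x800000008000000080000000000000000000000000000000000000000 0x40000000c0000000c0000000c0000001f0000007c000000180000001c0000001c0000001c00000010 9 7) 0 0 (step_sound _ 258 [(rh7270723053092f6a.shift 2 0), (rh9a17dc36f7181934.shift 2 4), (rhd99e0a08eca441fc.shift 0 4)] (by decide +kernel))
noncomputable def rhf8ec608000f2b94e : CRef := CRef.mk (Pat.mk 0x80000000c0000000400000000 0x1e0000001f0000007f0000001f0000000c00000008 9 7) 0 0 (step_sound _ 131 [(rh5c5e593799055d58.shift 2 1), rhdb9de2420151a569] (by decide +kernel))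
noncomputable def rh5f306614964e4442 : CRef := CRef.mk (Pat.mk 0x80000000c000000040000000000000000 0x100000003e0000001f0000007f0000001f0000007c0000007800000010 9 7) 0 0 (step_sound _ 163 [rh471933eaf3ce28bd, (rh5c5e593799055d58.shift 2 2)] (by decide +kernel))
noncomputable def rh61cf7918bab2a9ef : CRef := CRef.mk (Pat.mk 0x10000000180000000800000000 0x800000038000000f80000001c000000ff000000ff00000034 9 8) 0 0 (step_sound _ 132 [(rh5c5e593799055d58.shift 3 1), rh5d5383ee2f7c0852] (by decide +kernel))
noncomputable def rh4b6ecf3f78a67164 : CRef := CRef.mk (Pat.mk 0x80000000c000000040000000000000000 0x1c0000003c0000007f0000007c0000007e0000003800000030 9 7) 0 0 (step_sound _ 163 [(rh5c5e593799055d58.shift 2 2), rhcc6f61c72ef4fb62] (by decide +kernel))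
noncomputable def rh02dd11997b0d0cda : CRef := CRef.mk (Pat.mk 0x80000000c00000004000000000000000000000000 0x1f0000007e0000007f0000006f0000007c000000380000001800000018 9 7) 0 0 (step_sound _ 195 [(rh5c5e593799055d58.shift 2 3), rh70b9ff00c5c03a78] (by decide +kernel))
noncomputable def rh5b14ed3c01610f19 : CRef := CRef.mk (Pat.mk 0x80000000c000000040000000000000000 0x100000001a0000007b0000007f0000007f000000760000003000000020 9 7) 0 0 (step_sound _ 163 [rh159950b80e93c6c0, (rh5c5e593799055d58.shift 2 2)] (by decide +kernel))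
noncomputable def rh41ff19e81745e007 : CRef := CRef.mk (Pat.mk 0x10000000180000000800000000 0xe0000000f0000003e0000007f000000fe00000004 9 8) 0 0 (step_sound _ 66 [(rh5dec5e73a267a1c4.shift 0 1), (rh6558fc11d90a948b.shift 0 1), rh6c4b97ca08b6eb6f] (by decide +kernel))
noncomputable def rh7158ffdfdc973d0c : CRef := CRef.mk (Pat.mk 0x80000000c000000040000000000000000 0x18000000180000007c0000007f0000007e0000007800000020 9 7) 0 0 (step_sound _ 163 [rh02336259f87e9bed, (rh5c5e593799055d58.shift 2 2)] (by decide +kernel))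
noncomputable def rh8fc69c1ad3216f17 : CRef := CRef.mk (Pat.mk 0x1000000018000000080000000000000000 0x3000000030000000f00000007e000001ef0000007c00000028 9 9) 0 0 (step_sound _ 164 [rh0e774b75d8bcbd7e, (rh5c5e593799055d58.shift 3 2)] (by decide +kernel))
noncomputable def rh96103ef45fcd16a9 : CRef := CRef.mk (Pat.mk 0x1000000018000000080000000000000000 0x24000000760000007f000000ff0000007f0000000a 9 8) 0 0 (step_sound _ 35 [rh5735f401346bf1d4, (rh71222050f2c63a3a.shift 3 0)] (by decide +kernel))
noncomputable def rh11c5cb120c658c7c : CRef := CRef.mk (Pat.mk 0x100000000800000008000000000000000000000000 0x140000001c0000001f0000007c0000000f0000007c0000001c0000001800000010 9 7) 0 0 (step_sound _ 163 [(rh3ee1a3f6aa7284a1.shift 1 2), rh5e8e55930fb0f9f4, (rh6bc015b9268c8423.shift 0 1), (rha517dc49778eab17.shift 0 2), (rhab668327aef05524.shift 0 2)] (by decide +kernel))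
noncomputable def rh50a6961a975ff163 : CRef := CRef.mk (Pat.mk 0x3000000018000000000000000000000000 0x70000000f0000000ff000001f80000007c0000007800000018 9 9) 0 0 (step_sound _ 134 [(rh18965a982d73c794.shift 3 3), rh9282c57a6edc945a] (by decide +kernel))
noncomputable def rh612a40de5230b290 : CRef := CRef.mk (Pat.mk 0x180000000c00000000000000000000000000000000 0x80000000c0000001c0000001c0000001c0000000f0000007c000000180000001800000010 9 7) 0 0 (step_sound _ 129 [(rh17806dbb93308749.shift 1 0), (rh53b3c253cb0c65f4.shift 0 4)] (by decide +kernel))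
noncomputable def rh21d2f11a1e13fe0e : CRef := CRef.mk (Pat.mk 0x180000000c0000000000000000 0xc0000000e0000007f0000007e0000001c0000001c00000008 9 7) 0 0 (step_sound _ 101 [(rh18965a982d73c794.shift 2 2), rh29eb43ad3160eadd] (by decide +kernel))
noncomputable def rh663c2592e58e64b5 : CRef := CRef.mk (Pat.mk 0x3000000018000000000000000000000000 0x30000000770000003f0000001e0000007c0000003e0000001c 9 7) 0 0 (step_sound _ 98 [rh35aaed3151f314dc, (rh53b3c253cb0c65f4.shift 1 3)] (by decide +kernel))
noncomputable def rh50c7939d63bed0e2 : CRef := CRef.mk (Pat.mk 0xc0000000600000000000000000000000000000000 0x1c0000003c0000003f0000007e0000003f0000003e0000000e00000004 9 7) 0 0 (step_sound _ 164 [(rh18965a982d73c794.shift 1 4), rh2407865647e5b558] (by decide +kernel))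
noncomputable def rh5e87aa8fbb489306 : CRef := CRef.mk (Pat.mk 0xc000000060000000000000000000000000000000000000000 0x20000000e0000000f0000003c0000000e0000003e0000003e0000000e0000000e00000008 9 6) 0 0 (step_sound _ 196 [(rh18965a982d73c794.shift 1 5), rhecbf23b0c21a9ebe] (by decide +kernel))
noncomputable def rh5bb100e63136ba1c : CRef := CRef.mk (Pat.mk 0x3000000018000000000000000000000000 0x3c0000003e0000003e0000007e0000001f0000001a00000008 9 7) 0 0 (step_sound _ 98 [(rh53b3c253cb0c65f4.shift 1 3), rh7ec0f4a6b1534d0e] (by decide +kernel))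
noncomputable def rhed36d73cfd15ead1 : CRef := CRef.mk (Pat.mk 0x3000000018000000000000000000000000 0x1c0000007e0000003f0000001e0000007c0000003c0000001c 9 7) 0 0 (step_sound _ 98 [(rh53b3c253cb0c65f4.shift 1 3), rh68826f0cb707e6e2] (by decide +kernel))
noncomputable def rh4ee623ca914bdaf7 : CRef := CRef.mk (Pat.mk 0xc0000000600000000000000000000000000000000 0x20000000e0000001f0000003c0000001e0000003c0000001f0000001e00000012 9 6) 0 0 (step_sound _ 164 [(rh18965a982d73c794.shift 1 4), rh7fd2cd2288c60896] (by decide +kernel))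
noncomputable def rh6a37c74e8932ea8b : CRef := CRef.mk (Pat.mk 0x180000000c000000000000000000000000 0x4000000040000001e0000001f0000007a0000000f0000000e0000000c00000004 9 7) 0 0 (step_sound _ 97 [(rh53b3c253cb0c65f4.shift 0 3), rhab15947bb5400c72] (by decide +kernel))
noncomputable def rhe4d6f29643856626 : CRef := CRef.mk (Pat.mk 0x180000000c000000000000000000000000 0x1c0000001e0000001b0000001f0000003f0000007c0000003c 9 7) 0 0 (step_sound _ 97 [(rh53b3c253cb0c65f4.shift 0 3), rhb6e38391a04b016a] (by decide +kernel))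
noncomputable def rh6179f7330f48baee : CRef := CRef.mk (Pat.mk 0x180000000c000000000000000000000000 0x40000000c0000001c0000001f000000780000003c0000007c0000003c00000014 9 7) 0 0 (step_sound _ 133 [(rh18965a982d73c794.shift 2 3), rhee070b50456b6c45] (by decide +kernel))
noncomputable def rh3c3f6c6b54bbf705 : CRef := CRef.mk (Pat.mk 0xc00000006000000000000000000000000 0x60000001e0000003f0000003e0000003e0000003b0000001b00000003 9 6) 0 0 (step_sound _ 132 [(rh18965a982d73c794.shift 1 3), rh2ee88e8cd9e371d8] (by decide +kernel))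
noncomputable def rhec6a18ad984294b9 : CRef := CRef.mk (Pat.mk 0x2000000038000000000000000000000000 0x3c0000003f0000007c000000f80000003c0000003800000030 9 8) 0 0 (step_sound _ 68 [(rh75cc9f7832e14000.shift 0 2), (rhad34642a3bf2562d.shift 2 0), (rhcf80391c5046a495.shift 4 0)] (by decide +kernel))
noncomputable def rh9a716f48383689e6 : CRef := CRef.mk (Pat.mk 0x80000000e000000000000000000000000 0x1e0000003e000001df000000fe0000007c0000001c00000014 9 9) 0 0 (step_sound _ 66 [rh89afbfad263134df, (rhcf80391c5046a495.shift 2 0), rhd009d9f51dbb535d, (rhf9366b6a121593ef.shift 2 0)] (by decide +kernel))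
noncomputable def rh7c0a03d38a8c4d6f : CRef := CRef.mk (Pat.mk 0x80000000e000000000000000000000000 0x800000008000001d8000000fe0000007f0000003c00000014 9 9) 0 0 (step_sound _ 66 [rh80f4812d68d65270, (rhadf429772c25fde0.shift 2 0), rhc61dbca4f107e1d7] (by decide +kernel))
noncomputable def rh98896c3a95c83007 : CRef := CRef.mk (Pat.mk 0x2000000038000000000000000000000000 0x280000007c0000076f000003f8000001fc0000005000000050 9 11) 0 0 (step_sound _ 68 [(rh2cb8437104de90cf.shift 2 0), (rh4baa1af3d34d4393.shift 2 0), rh61d0a2f344f50e6e, (rhcf80391c5046a495.shift 4 0)] (by decide +kernel))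
noncomputable def rhcd3639379cdb3671 : CRef := CRef.mk (Pat.mk 0x100000001c000000000000000000000000 0x3c0000003f0000003f0000001c0000007f000000fe0000003c 9 8) 0 0 (step_sound _ 67 [(rh563e15be06caaa57.shift 1 1), rhbf3814bfab5cccd9, (rhf9366b6a121593ef.shift 3 0)] (by decide +kernel))
noncomputable def rhf45c5f39a5f99acd : CRef := CRef.mk (Pat.mk 0x100000001c000000000000000000000000 0x1e0000001f0000001e0000007c000000fe0000002c00000028 9 8) 0 0 (step_sound _ 67 [(rh2cb8437104de90cf.shift 1 0), (rh6c4b97ca08b6eb6f.shift 0 1), (rhf9366b6a121593ef.shift 3 0)] (by decide +kernel))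
noncomputable def rha18e06d834bc03e1 : CRef := CRef.mk (Pat.mk 0x100000001c000000000000000000000000 0x280000003c0000003c000000170000003f0000007f0000002a00000008 9 7) 0 0 (step_sound _ 164 [(rh2122dd954240d04b.shift 0 2), (rh281c6819542c66e6.shift 3 0), (rhc4aaccc35df926d5.shift 0 1), (rhec213941cbacc540.shift 1 1)] (by decide +kernel))
noncomputable def rh771960e736ba8bc2 : CRef := CRef.mk (Pat.mk 0xc0000000600000000 0x6000000070000003f0000003f0000000700000002 9 6) 0 0 (step_sound _ 68 [rh015f22746aba3d6e, (rh18965a982d73c794.shift 1 1)] (by decide +kernel))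
noncomputable def rh404e9396968984ee : CRef := CRef.mk (Pat.mk 0x30000000180000000000000000 0x8000000ef000000ff000000d8000000f000000070 9 8) 0 0 (step_sound _ 102 [rh121ebe7a81d8818e, (rh18965a982d73c794.shift 3 2)] (by decide +kernel))
noncomputable def rhbb78ef61a51e7a9a : CRef := CRef.mk (Pat.mk 0x3000000018000000000000000000000000 0x1c0000007e0000003f0000001e0000007c0000003c0000001c 9 7) 0 0 (step_sound _ 98 [(rh53b3c253cb0c65f4.shift 1 3), rh811a7e65c159bc81] (by decide +kernel))
noncomputable def rhf9a76ed25c306ad0 : CRef := CRef.mk (Pat.mk 0x3000000018000000000000000000000000 0x30000000770000003f0000001e0000007c0000003e0000001c 9 7) 0 0 (step_sound _ 98 [(rh53b3c253cb0c65f4.shift 1 3), rhed0eb66283a075d0] (by decide +kernel))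
noncomputable def rh739f307aec50baad : CRef := CRef.mk (Pat.mk 0xc00000006000000000000000000000000 0x1c0000003c0000001f0000003c0000000e0000003e0000003e00000018 9 6) 0 0 (step_sound _ 132 [(rh18965a982d73c794.shift 1 3), rhde8a067ee41544ba] (by decide +kernel))
noncomputable def rhdb35ae76ee936625 : CRef := CRef.mk (Pat.mk 0x600000003000000000000000000000000 0xe0000000e0000000e0000001e0000003f0000003e0000000e00000004 9 6) 0 0 (step_sound _ 131 [(rh18965a982d73c794.shift 0 3), rh44d93dd113bbbcd3] (by decide +kernel))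
noncomputable def rh139a240a69da71bf : CRef := CRef.mk (Pat.mk 0x3000000018000000000000000000000000 0x1000000038000000380000007e0000007f0000003e0000001c 9 7) 0 0 (step_sound _ 98 [(rh53b3c253cb0c65f4.shift 1 3), rhc97d3e4d541f1055] (by decide +kernel))
noncomputable def rh132831254c4ea57a : CRef := CRef.mk (Pat.mk 0x180000000600000000000000000000000000000000 0x100000001800000038000000780000002f0000007c0000003c0000001000000010 9 7) 0 0 (step_sound _ 131 [(rh53b3c253cb0c65f4.shift 0 4), (rhdf6ab45dbbbd4063.shift 1 0)] (by decide +kernel))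
noncomputable def rhe1f12418ec975599 : CRef := CRef.mk (Pat.mk 0x180000000c000000000000000000000000 0xb0000000b0000001f0000003f0000000f0000000400000004 9 6) 0 0 (step_sound _ 97 [rh23f45b1c21a84f9c, (rh53b3c253cb0c65f4.shift 0 3)] (by decide +kernel))
noncomputable def rh4389c92b5e23d60a : CRef := CRef.mk (Pat.mk 0x180000000c000000000000000000000000 0x8000000080000001c0000003f000000370000003c0000001c 9 6) 0 0 (step_sound _ 97 [(rh53b3c253cb0c65f4.shift 0 3), rhc5a34154c079eebe] (by decide +kernel))
noncomputable def rh3f3e6cf71521ffcb : CRef := CRef.mk (Pat.mk 0x180000000c000000000000000000000000 0x80000000a0000001f0000003f000000770000003e0000003e 9 7) 0 0 (step_sound _ 97 [(rh53b3c253cb0c65f4.shift 0 3), rh862137d0f82a5f73] (by decide +kernel))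
noncomputable def rh425cbe385bbb6945 : CRef := CRef.mk (Pat.mk 0x3000000018000000000000000000000000 0x300000003e0000003f0000001e0000007c0000003e0000001c 9 7) 0 0 (step_sound _ 98 [rh30c7490b7ddc5ed4, (rh53b3c253cb0c65f4.shift 1 3)] (by decide +kernel))
noncomputable def rh044df0a085c0cbf5 : CRef := CRef.mk (Pat.mk 0x180000000c000000000000000000000000 0x180000001e0000001f0000007c0000007e0000007c0000002c 9 7) 0 0 (step_sound _ 66 [(rh4821dcf828b9d7bf.shift 2 0), rh497d205c5cb4a4fe, (rhd801117444af86dd.shift 1 0)] (by decide +kernel))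
noncomputable def rh82f7a27d60ba575e : CRef := CRef.mk (Pat.mk 0x180000000c000000000000000000000000 0x8000000180000001f000000ff0000007c0000007c0000003c 9 8) 0 0 (step_sound _ 97 [(rh53b3c253cb0c65f4.shift 0 3), rhdddb01adeada7780] (by decide +kernel))
noncomputable def rh60b537a2757411a9 : CRef := CRef.mk (Pat.mk 0x180000000c00000000000000000000000000000000 0x100000001800000038000000780000002f0000007c0000003c0000001000000010 9 7) 0 0 (step_sound _ 129 [(rh53b3c253cb0c65f4.shift 0 4), (rhdf6ab45dbbbd4063.shift 1 0)] (by decide +kernel))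
noncomputable def rh68581a4ba90c0158 : CRef := CRef.mk (Pat.mk 0x180000000c0000000000000000000000000000000000000000 0x120000001b0000003f0000007f0000007e0000001c0000001c00000010 9 7) 0 0 (step_sound _ 161 [(rh53b3c253cb0c65f4.shift 0 5), rh6ab892c2c18722d3] (by decide +kernel))
noncomputable def rhf6e9fd2b7a10d538 : CRef := CRef.mk (Pat.mk 0x600000003000000000000000000000000 0xe0000000e0000000e0000001e0000003f0000003e0000000e00000004 9 6) 0 0 (step_sound _ 131 [(rh18965a982d73c794.shift 0 3), rhca9e0f0c173be454] (by decide +kernel))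
noncomputable def rh57f0212b6fe98f6d : CRef := CRef.mk (Pat.mk 0x300000000800000000000000000000000000000000 0x3400000074000001ff000000ff000000ef000000e8000000fc000000bc00000014 9 9) 0 0 (step_sound _ 163 [(rh8eea156ffecb6be4.shift 2 4), (rh9716f0280b16cfbc.shift 0 2), (rhb4453f7eb37874fd.shift 1 1), rhe45feed76cc5ca95, (rhec89969cfdaf3653.shift 2 2)] (by decide +kernel))
noncomputable def rh41fef66642ea14e3 : CRef := CRef.mk (Pat.mk 0x180000000c00000000000000000000000000000000 0x10000000180000001c0000000c0000001c0000001c0000000f0000007c0000001c0000001800000010 9 7) 0 0 (step_sound _ 129 [(rh53b3c253cb0c65f4.shift 0 4), (rh60181e3a6f65a651.shift 1 0)] (by decide +kernel))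
noncomputable def rhf7fbe5f60dbd4c9f : CRef := CRef.mk (Pat.mk 0xc0000000600000000000000000000000000000000 0xc0000000e0000003e0000007e0000003f0000003e0000000e00000004 9 7) 0 0 (step_sound _ 164 [(rh18965a982d73c794.shift 1 4), rh427cdf3ed931f540] (by decide +kernel))
noncomputable def rh5022ca473b9992e7 : CRef := CRef.mk (Pat.mk 0x180000000c00000000000000000000000000000000 0x140000001c0000001f0000001f0000001f0000000f0000007c000000180000001800000010 9 7) 0 0 (step_sound _ 129 [(rh53b3c253cb0c65f4.shift 0 4), rha75f463b15c9258c] (by decide +kernel))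
noncomputable def rhd1700d60b83f1b99 : CRef := CRef.mk (Pat.mk 0x3000000018000000000000000000000000 0x80000003c0000003f0000003f0000001e0000001c0000001c0000000c 9 6) 0 0 (step_sound _ 98 [(rh53b3c253cb0c65f4.shift 1 3), rha350945fe4e1da8b] (by decide +kernel))
noncomputable def rh80ed7f3a3f237e17 : CRef := CRef.mk (Pat.mk 0xc00000006000000000000000000000000 0xe0000000f0000003e0000003e000000370000001600000002 9 6) 0 0 (step_sound _ 132 [(rh18965a982d73c794.shift 1 3), rhda87cb79d8329164] (by decide +kernel))
noncomputable def rh0d869f1bceb82e20 : CRef := CRef.mk (Pat.mk 0x100000000c00000000000000000000000000000000 0x140000001c0000001e0000007e0000007f000000780000003e0000001c00000014 9 7) 0 0 (step_sound _ 163 [(rh08dc24c4b35e4d46.shift 1 2), (rh0bb882ba86b2372d.shift 0 4), (rh69012675dfdb1a5b.shift 0 4), rhf91f2f16f34163ef] (by decide +kernel))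
noncomputable def rh7c64b6753fd558ed : CRef := CRef.mk (Pat.mk 0x80000000e000000000000000000000000 0x8000000080000007c0000003e000000370000003c0000001c 9 7) 0 0 (step_sound _ 132 [(rh572132728df34c43.shift 1 3), (rh80f90a60d87caa0d.shift 1 3), rhc5a34154c079eebe] (by decide +kernel))
noncomputable def rhcb176710685c5437 : CRef := CRef.mk (Pat.mk 0x30000000180000000000000000 0x280000003c0000003f0000003e000000ff000000f80000002c0000000c 9 8) 0 0 (step_sound _ 102 [(rh18965a982d73c794.shift 3 2), rhd42bfa45fd9f8871] (by decide +kernel))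
noncomputable def rh53f3bbb290f7f099 : CRef := CRef.mk (Pat.mk 0xc000000060000000000000000 0x40000000c0000000c0000000c0000003f0000003e0000003e0000003e 9 6) 0 0 (step_sound _ 100 [(rh18965a982d73c794.shift 1 2), rh3064605eec889717] (by decide +kernel))
noncomputable def rh34e444097eceaedf : CRef := CRef.mk (Pat.mk 0x180000000c000000000000000000000000 0xc0000001f0000007e0000000c0000000f0000003c0000001c 9 7) 0 0 (step_sound _ 133 [(rh18965a982d73c794.shift 2 3), rh587ddc86cf471e87] (by decide +kernel))
noncomputable def rh3276940dc190283a : CRef := CRef.mk (Pat.mk 0x180000000c000000000000000000000000 0xc0000001e0000007e0000000c0000001f0000003c0000001c 9 7) 0 0 (step_sound _ 133 [(rh18965a982d73c794.shift 2 3), rh3ba5f8c511030d95] (by decide +kernel))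
noncomputable def rh705f3ca51888f572 : CRef := CRef.mk (Pat.mk 0x2000000030000000100000000000000000 0x2000000020000000ff000001fe000003df0000004000000040 9 10) 0 0 (step_sound _ 165 [(rh5c5e593799055d58.shift 4 2), rh93d52fed3997956b] (by decide +kernel))
noncomputable def rha8681ca78d8c7e12 : CRef := CRef.mk (Pat.mk 0x1000000018000000080000000000000000 0x2800000028000000e8000000fc000000fe0000007f0000001e0000001c 9 8) 0 0 (step_sound _ 35 [rh4427f43dd9778044, (rh71222050f2c63a3a.shift 3 0)] (by decide +kernel))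
noncomputable def rh6b712f966b69b7d6 : CRef := CRef.mk (Pat.mk 0x100000001800000008000000000000000000000000 0x2000000028000000fc000000fe000000ff0000005e0000001c00000010 9 8) 0 0 (step_sound _ 67 [(rh71222050f2c63a3a.shift 3 1), rhec2830af2b5a282b] (by decide +kernel))
noncomputable def rh9450e3f811d28a0f : CRef := CRef.mk (Pat.mk 0x10000000180000000800000000 0x3800000078000000fe000000fe000000df00000054 9 8) 0 0 (step_sound _ 132 [(rh5c5e593799055d58.shift 3 1), rh85a8ae6e10c59e94] (by decide +kernel))
noncomputable def rha78f7cbd21e58116 : CRef := CRef.mk (Pat.mk 0x80000000c00000004000000000000000000000000 0x1800000018000000780000001f0000007c000000780000001800000008 9 7) 0 0 (step_sound _ 195 [(rh5c5e593799055d58.shift 2 3), rhdac429fc05adaa97] (by decide +kernel))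
noncomputable def rh08258d6dde100e9d : CRef := CRef.mk (Pat.mk 0x1000000018000000080000000000000000 0x800000008000000e8000000ff0000003e0000007f0000007e0000003c 9 8) 0 0 (step_sound _ 35 [(rh71222050f2c63a3a.shift 3 0), rh8d2d1329665a9aa8] (by decide +kernel))
noncomputable def rh5a4a9e7d9de5144b : CRef := CRef.mk (Pat.mk 0x1000000008000000080000000000000000 0x300000003a0000003f0000007f0000007f0000007e0000003c 9 7) 0 0 (step_sound _ 100 [rh05eeec0f68bded0f, rhb8a40bdc3f825411, (rhf9366b6a121593ef.shift 3 0)] (by decide +kernel))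
noncomputable def rhcf78433b5831b46f : CRef := CRef.mk (Pat.mk 0x1000000018000000080000000000000000 0x28000000780000007e0000001f0000007c0000007c 9 7) 0 0 (step_sound _ 35 [(rh71222050f2c63a3a.shift 3 0), rhc8ccd6435a3aeca0] (by decide +kernel))
noncomputable def rh1d08f2e0a94b2509 : CRef := CRef.mk (Pat.mk 0x1000000018000000080000000000000000 0x380000007a0000007f0000007f0000001f0000003400000014 9 7) 0 0 (step_sound _ 164 [rh57f6f831d3d558e7, (rh5c5e593799055d58.shift 3 2)] (by decide +kernel))
noncomputable def rh47802fbab31d058e : CRef := CRef.mk (Pat.mk 0x1000000018000000080000000000000000 0x800000008000000e8000000ff0000001f0000001f0000003c0000001c 9 8) 0 0 (step_sound _ 35 [(rh71222050f2c63a3a.shift 3 0), rhfaac02220725ae5c] (by decide +kernel))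
noncomputable def rhdad5f4970fe04144 : CRef := CRef.mk (Pat.mk 0x80000000c000000040000000000000000 0x1c0000001c0000007c0000006f0000007c0000003800000010 9 7) 0 0 (step_sound _ 163 [(rh5c5e593799055d58.shift 2 2), rh9b5ff38f80a52403] (by decide +kernel))
noncomputable def rh2c2e6bd7e0d73899 : CRef := CRef.mk (Pat.mk 0x80000000c000000040000000000000000 0x1000000018000000780000007e0000007f000000770000003000000020 9 7) 0 0 (step_sound _ 163 [(rh5c5e593799055d58.shift 2 2), rhf8899d74260e3dea] (by decide +kernel))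
noncomputable def rhc7633bf1bd3e65c2 : CRef := CRef.mk (Pat.mk 0x200000003000000010000000000000000000000000 0x4000000f7000000ff000000fe000000de000000d800000008 9 8) 0 0 (step_sound _ 68 [(rh71222050f2c63a3a.shift 4 1), rh93d8ee2fb94a1f1d] (by decide +kernel))
noncomputable def rh35e676b1c4457487 : CRef := CRef.mk (Pat.mk 0x80000000c0000000400000000 0x1800000018000000780000007f0000007c00000038 9 7) 0 0 (step_sound _ 131 [(rh5c5e593799055d58.shift 2 1), rh6f8dd8d1913837e8] (by decide +kernel))
noncomputable def rh1c16822fea7405c9 : CRef := CRef.mk (Pat.mk 0x80000000c000000040000000000000000 0x1000000010000000740000007f000000ff0000007c0000007f0000003e 9 8) 0 0 (step_sound _ 132 [(rh69012675dfdb1a5b.shift 0 3), rh7b2149e9a252cc0a, rhec1a4dd58e954e92] (by decide +kernel))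
noncomputable def rh3fcad77d588a5e0a : CRef := CRef.mk (Pat.mk 0x2000000030000000100000000000000000 0x2000000060000003ef000001fe000003df000000c0000000c0 9 10) 0 0 (step_sound _ 165 [rh52acf40299bc1c73, (rh5c5e593799055d58.shift 4 2)] (by decide +kernel))
noncomputable def rh3cda7478c8a71fca : CRef := CRef.mk (Pat.mk 0x80000000c000000040000000000000000 0x1000000010000000700000007f0000007f000000770000003c0000001c 9 7) 0 0 (step_sound _ 34 [rh4e1cd5d5b6bf705c, (rh71222050f2c63a3a.shift 2 0)] (by decide +kernel))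
noncomputable def rh2beab275dba7a3a7 : CRef := CRef.mk (Pat.mk 0x2000000030000000100000000000000000 0x80000003ff000001fe000003fe000000d8000000d0 9 10) 0 0 (step_sound _ 36 [rh03cc456a496dd6df, (rh71222050f2c63a3a.shift 4 0)] (by decide +kernel))
noncomputable def rh9b601d900438a22a : CRef := CRef.mk (Pat.mk 0x1000000018000000080000000000000000 0x2000000730000007f000000ff0000007e0000002c 9 8) 0 0 (step_sound _ 35 [(rh71222050f2c63a3a.shift 3 0), rhd99a3831e395bf4e] (by decide +kernel))
noncomputable def rhbd9a11feb9350bea : CRef := CRef.mk (Pat.mk 0x2000000030000000100000000000000000 0x4000000040000001ff000001fe000003de000000f800000070 9 10) 0 0 (step_sound _ 36 [(rh71222050f2c63a3a.shift 4 0), rh7bbec066939eaf8f] (by decide +kernel))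
noncomputable def rh627e62a4bcbdfd7e : CRef := CRef.mk (Pat.mk 0x10000000180000000800000000 0x3800000078000001ff000000fe0000001e00000014 9 9) 0 0 (step_sound _ 132 [rh4289ab67ac3c8979, (rh5c5e593799055d58.shift 3 1)] (by decide +kernel))
noncomputable def rhdfd8a8b31c23f27a : CRef := CRef.mk (Pat.mk 0x80000000c000000040000000000000000 0x1c0000001c0000007c0000001f0000007c0000007800000010 9 7) 0 0 (step_sound _ 163 [(rh5c5e593799055d58.shift 2 2), rhbd0a6e817174d02d] (by decide +kernel))
noncomputable def rhba6d7aed36d2eb6a : CRef := CRef.mk (Pat.mk 0x2000000030000000100000000000000000 0x50000000fe000000ff000000fe000000e000000060 9 8) 0 0 (step_sound _ 67 [(rh0bb882ba86b2372d.shift 1 2), (rh574fdbf07bdd18b9.shift 1 2), (rh9317a75fc3e7942a.shift 1 0), rh995b19933ad47966] (by decide +kernel))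
noncomputable def rhc55df865ae108891 : CRef := CRef.mk (Pat.mk 0x1000000018000000080000000000000000 0x3000000030000000f00000007e000001ef0000007c00000028 9 9) 0 0 (step_sound _ 35 [rh3f1f11c5349dc2ef, (rh71222050f2c63a3a.shift 3 0)] (by decide +kernel))
noncomputable def rhd279b23fac28b3cf : CRef := CRef.mk (Pat.mk 0x80000000c00000004000000000000000000000000 0x1800000018000000780000007f0000007c000000380000001800000008 9 7) 0 0 (step_sound _ 195 [(rh5c5e593799055d58.shift 2 3), rh71ae1bec08bec80e] (by decide +kernel))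
noncomputable def rh5f8da3f57d2ec10f : CRef := CRef.mk (Pat.mk 0x100000001800000008000000000000000000000000 0x60000000f20000007f000000ff0000007f0000007e00000034 9 8) 0 0 (step_sound _ 67 [(rh71222050f2c63a3a.shift 3 1), rhfeb559172d55c8f0] (by decide +kernel))
noncomputable def rh58c9a575776a0d32 : CRef := CRef.mk (Pat.mk 0x4000000060000000200000000 0xc0000000c0000000c0000003e0000003f0000001e 9 6) 0 0 (step_sound _ 130 [rh2ffa9545c46592e8, (rh5c5e593799055d58.shift 1 1)] (by decide +kernel))
noncomputable def rh1524cac4e0a2099a : CRef := CRef.mk (Pat.mk 0x600000002000000020000000000000000000000000000000000000000 0x40000000700000003000000070000000700000007000000070000000600000004 9 3) 0 0 (step_sound _ 129 [rh0841610f92b16c99, (rh2f68792b6b779e96.shift 1 4)] (by decide +kernel))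
noncomputable def rh9a3c460c6189f3f0 : CRef := CRef.mk (Pat.mk 0x1800000008000000080000000000000000000000000000000000000000 0x8000000080000007c0000000f0000007f0000003e0000001c0000001c0000001800000010 9 7) 0 0 (step_sound _ 194 [(rhd69c262cd33b94b3.shift 0 6), rhddee99063f686c30] (by decide +kernel))
noncomputable def rh06d4c33fb959083a : CRef := CRef.mk (Pat.mk 0x180000000800000008000000000000000000000000 0x40000001c0000001c000000380000007c0000006f0000007c000000740000001000000010 9 7) 0 0 (step_sound _ 130 [(rh2573d28c3ffbce0c.shift 0 2), rh44f336f55b1192bd, (rhd69c262cd33b94b3.shift 0 4), (rhf0389e8b492e1dec.shift 2 2)] (by decide +kernel))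
noncomputable def rh58f9d4b9b7212879 : CRef := CRef.mk (Pat.mk 0x3000000018000000000000000000000000 0x3c0000007f0000003f0000001e0000001c0000001c0000001c 9 7) 0 0 (step_sound _ 98 [(rh53b3c253cb0c65f4.shift 1 3), rhe57a9b2f29b6e372] (by decide +kernel))
noncomputable def rh26037941c531bb59 : CRef := CRef.mk (Pat.mk 0x180000000c000000000000000000000000 0x60000000e0000007f0000007f0000007c0000000e0000000c0000000c 9 7) 0 0 (step_sound _ 133 [(rh18965a982d73c794.shift 2 3), rhc1ee48b03669be1b] (by decide +kernel))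
noncomputable def rhfc41e0339472a503 : CRef := CRef.mk (Pat.mk 0x80000000c0000000400000000 0x60000000e0000007f0000007f0000003f0000003400000010 9 7) 0 0 (step_sound _ 131 [(rh5c5e593799055d58.shift 2 1), rhc5be8bac3e534d8e] (by decide +kernel))
noncomputable def rhddc4e8b5f2394269 : CRef := CRef.mk (Pat.mk 0x4000000060000000200000000000000000 0x1800000038000000fe0000007e0000003f000000f800000070 9 8) 0 0 (step_sound _ 37 [rh43c6068edf48bd8b, (rh71222050f2c63a3a.shift 5 0)] (by decide +kernel))
noncomputable def rh72763884f5ad8add : CRef := CRef.mk (Pat.mk 0x80000000c0000000400000000 0x1e0000001f0000007f0000000f0000003c00000018 9 7) 0 0 (step_sound _ 131 [(rh5c5e593799055d58.shift 2 1), rha27e2b41b21516ec] (by decide +kernel))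
noncomputable def rh767c03dfc515d8e2 : CRef := CRef.mk (Pat.mk 0x180000000c0000000000000000000000000000000000000000 0x3000000030000000320000001f0000003f0000003f0000001c0000001c0000001c00000010 9 6) 0 0 (step_sound _ 161 [rh145edd3df58a3952, (rh53b3c253cb0c65f4.shift 0 5)] (by decide +kernel))
noncomputable def rh31b4923b3cc7160f : CRef := CRef.mk (Pat.mk 0x80000000c0000000400000000 0x60000000e0000007f0000007f0000003f0000003400000010 9 7) 0 0 (step_sound _ 131 [(rh5c5e593799055d58.shift 2 1), rhae47c26c536b9dcb] (by decide +kernel))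
noncomputable def rh2298bdb31dd4871e : CRef := CRef.mk (Pat.mk 0x3000000018000000000000000000000000 0x3000000038000000380000001e0000007f0000007c0000003c 9 7) 0 0 (step_sound _ 98 [(rh53b3c253cb0c65f4.shift 1 3), rhf8e6669eb6f616d9] (by decide +kernel))
noncomputable def rh0e65b1300c2f244c : CRef := CRef.mk (Pat.mk 0xc00000006000000000000000000000000 0x40000001c0000003c0000001f0000003e0000000e0000003e0000003e00000018 9 6) 0 0 (step_sound _ 132 [(rh18965a982d73c794.shift 1 3), rh83711c59419208e0] (by decide +kernel))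
noncomputable def rhe2ed219894ca6f7e : CRef := CRef.mk (Pat.mk 0x180000000c000000000000000000000000 0x1e0000001f0000001c0000003f0000003f0000000f0000000e 9 6) 0 0 (step_sound _ 97 [(rh53b3c253cb0c65f4.shift 0 3), rhad1ebfe5f4ee3832] (by decide +kernel))
noncomputable def rhca1e797a3fb6453f : CRef := CRef.mk (Pat.mk 0x3000000018000000000000000000000000 0x3c0000003e000000380000007e0000001f0000007c0000003c 9 7) 0 0 (step_sound _ 98 [(rh53b3c253cb0c65f4.shift 1 3), rh9fdfbe3a7266276a] (by decide +kernel))
noncomputable def rh28b0b67e213cb9c1 : CRef := CRef.mk (Pat.mk 0x180000000c0000000000000000 0x80000003c0000003c000000fc0000001c000000ff0000007800000018 9 8) 0 0 (step_sound _ 65 [(rh15dfa5752e55d7a9.shift 1 0), (rh53b3c253cb0c65f4.shift 0 2)] (by decide +kernel))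
noncomputable def rh5a15f08d37467e63 : CRef := CRef.mk (Pat.mk 0x180000000c000000000000000000000000 0x3000000030000000300000001c000000ff000000ff0000003800000038 9 8) 0 0 (step_sound _ 97 [(rh53b3c253cb0c65f4.shift 0 3), rhd45332dfa3754149] (by decide +kernel))
noncomputable def rh84cfb6d74de0a6d7 : CRef := CRef.mk (Pat.mk 0x6000000030000000000000000 0x20000000e0000000e0000000e0000001f0000003f0000003f0000001f 9 6) 0 0 (step_sound _ 99 [(rh18965a982d73c794.shift 0 2), rhc38323aa0a0acb71] (by decide +kernel))
noncomputable def rh0bba6bcf1fca380f : CRef := CRef.mk (Pat.mk 0xc000000060000000000000000 0x1c0000001e0000001f0000003c0000007e0000007e0000001e 9 7) 0 0 (step_sound _ 100 [(rh18965a982d73c794.shift 1 2), rh4fd72d012076a978] (by decide +kernel))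
noncomputable def rhe1aa7df02b3326d3 : CRef := CRef.mk (Pat.mk 0x180000000c0000000000000000 0x1e0000001f0000007e0000007c0000006c0000002c0000000c 9 7) 0 0 (step_sound _ 101 [(rh18965a982d73c794.shift 2 2), rh7e465442ede9d4b6] (by decide +kernel))
noncomputable def rh6699bc196fc17125 : CRef := CRef.mk (Pat.mk 0x180000000c000000000000000000000000 0x60000001e0000001e0000001c0000007c0000007f0000007e0000003e 9 7) 0 0 (step_sound _ 66 [(rh4821dcf828b9d7bf.shift 2 0), (rhd801117444af86dd.shift 1 0), rhdba1a98b7f3725c7] (by decide +kernel))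
noncomputable def rhbab326c304fc6de7 : CRef := CRef.mk (Pat.mk 0x180000000c00000000000000000000000000000000 0x100000001c0000001e000000780000000f0000007f0000003c0000001c00000014 9 7) 0 0 (step_sound _ 165 [(rh18965a982d73c794.shift 2 4), rha2f44e56d226f9db] (by decide +kernel))
noncomputable def rh8d825bfe099e5049 : CRef := CRef.mk (Pat.mk 0x180000000c0000000000000000 0x1e0000001f0000007e0000007c0000006c0000002c0000000c 9 7) 0 0 (step_sound _ 101 [(rh18965a982d73c794.shift 2 2), rhd33554dcb64ef952] (by decide +kernel))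
noncomputable def rhc478f08633670bba : CRef := CRef.mk (Pat.mk 0x3000000018000000000000000000000000 0x1c0000003e000000380000001e0000007f0000007c0000003c 9 7) 0 0 (step_sound _ 98 [(rh53b3c253cb0c65f4.shift 1 3), rhbbe10d35f728f3b1] (by decide +kernel))
noncomputable def rh77e94ccb69d4bd71 : CRef := CRef.mk (Pat.mk 0xc00000006000000000000000000000000 0x600000006000000070000003e00000007000000030000000300000003 9 6) 0 0 (step_sound _ 132 [(rh18965a982d73c794.shift 1 3), rh2ed33e0369b30858] (by decide +kernel))
noncomputable def rh82608743e00fd9da : CRef := CRef.mk (Pat.mk 0x80000000e000000000000000000000000 0x800000008000000780000003e0000007f0000003c0000001c 9 7) 0 0 (step_sound _ 66 [rh2cb8437104de90cf, rh7d2135775e887bfb, (rhcf80391c5046a495.shift 2 0)] (by decide +kernel))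
end Crest.Agent.S0047.Helper85.Cert
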