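import Crest.Agent.Lib.S0047.Helper85CertPL8F0
import Crest.Agent.Lib.S0047.Helper85CertPL8F1
import Crest.Agent.Lib.S0047.Helper85CertPL8F2
import Crest.Agent.Lib.S0047.Helper85CertPL8F3
import Crest.Agent.Lib.S0047.Helper85CertPL8F4
import Crest.Agent.Lib.S0047.Helper85CertPL8F5
import Crest.Agent.Lib.S0047.Helper85CertPL8F6
import Crest.Agent.Lib.S0047.Helper85CertPL8F7
import Crest.Agent.Lib.S0047.Helper85CertPL8F8
set_option autoImplicit false
set_option linter.all false
set_option Elab.async false
namespace Crest.Agent.S0047.Helper85.Cert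
open Crest.Agent.S0047.Helper85

noncomputable def rh77c8951ca4df4d8d : CRef := CRef.mk (Pat.mk 0x300000000c00000000000000000000000000000000 0x100000001c0000001e000000780000000f0000007f0000003c0000001c00000014 9 7) 0 0 (step_sound _ 163 [(rh18965a982d73c794.shift 2 4), rha2f44e56d226f9db] (by decide +kernel))
noncomputable def rh6368702b47ada9ee : CRef := CRef.mk (Pat.mk 0x3000000018000000000000000000000000 0x1800000018000000fc000000ff000000380000000c0000000c0000000c 9 8) 0 0 (step_sound _ 134 [(rh18965a982d73c794.shift 3 3), rheefade70454d5a0c] (by decide +kernel))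
noncomputable def rh7dd709e1d5785cae : CRef := CRef.mk (Pat.mk 0xc000000060000000000000000 0x40000001c0000001c0000003c0000003f0000001e0000003f0000003e 9 6) 0 0 (step_sound _ 100 [(rh18965a982d73c794.shift 1 2), rh7a2cbda83557c15f] (by decide +kernel))
noncomputable def rh8686be3fe1c95f06 : CRef := CRef.mk (Pat.mk 0x180000000c00000000000000000000000000000000 0xc0000000f0000007f0000003c0000001f0000003c0000001c00000008 9 7) 0 0 (step_sound _ 165 [(rh18965a982d73c794.shift 2 4), rh8ad12a41ae142045] (by decide +kernel))
noncomputable def rh24119eef38e47293 : CRef := CRef.mk (Pat.mk 0x30000000180000000000000000 0x380000003c000000fe000000ff000000180000001800000018 9 8) 0 0 (step_sound _ 102 [rh11b0c8112600f0c7, (rh18965a982d73c794.shift 3 2)] (by decide +kernel))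
noncomputable def rh722ac5caf6caa4bf : CRef := CRef.mk (Pat.mk 0x3000000018000000000000000000000000 0x80000001c0000003f0000003f0000001e0000007f0000001e0000001c 9 7) 0 0 (step_sound _ 98 [(rh53b3c253cb0c65f4.shift 1 3), rhe055e9e301e85fef] (by decide +kernel))
noncomputable def rh932e9b05ab4fa4dd : CRef := CRef.mk (Pat.mk 0x30000000180000000000000000 0x28000000280000007f0000007f0000001e0000001400000010 9 7) 0 0 (step_sound _ 66 [rh223e8fc70dd06a42, (rh53b3c253cb0c65f4.shift 1 2)] (by decide +kernel))
noncomputable def rhb70953b0f00faf03 : CRef := CRef.mk (Pat.mk 0x3000000018000000000000000000000000 0xc0000000c0000000f0000007c0000001e0000001c0000001c0000000c 9 7) 0 0 (step_sound _ 98 [(rh53b3c253cb0c65f4.shift 1 3), rhcc168055f308a0ae] (by decide +kernel))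
noncomputable def rh8975d56ae5d1c76c : CRef := CRef.mk (Pat.mk 0x3000000018000000000000000000000000 0x80000001c0000001e0000007f0000001e0000000c0000000c0000000c 9 7) 0 0 (step_sound _ 98 [(rh53b3c253cb0c65f4.shift 1 3), rh9305276e8fb90ae1] (by decide +kernel))
noncomputable def rh10f4c6e5f653deb0 : CRef := CRef.mk (Pat.mk 0x180000000c000000000000000000000000 0x1c0000003e0000000f0000003c0000000f0000000e0000000e00000006 9 6) 0 0 (step_sound _ 97 [(rh53b3c253cb0c65f4.shift 0 3), rh85cb29f64ca0eeed] (by decide +kernel))
noncomputable def rh808bb91e7c639890 : CRef := CRef.mk (Pat.mk 0x80000000e000000000000000000000000 0x1a0000001a0000007b0000001e0000003f0000007c0000003c 9 7) 0 0 (step_sound _ 66 [(rh2ea1689fcdb53446.shift 1 0), rh8b7980bb312c8f76, rha80460a64e912c3d, (rhcf80391c5046a495.shift 2 0)] (by decide +kernel))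
noncomputable def rh5662f812ce0c9894 : CRef := CRef.mk (Pat.mk 0x3000000018000000000000000000000000 0x140000003e0000003e000000fc0000007f0000003800000018 9 8) 0 0 (step_sound _ 67 [(rh0666d2850a7e73fb.shift 1 0), (rh1ee6236b45a57bae.shift 0 1), (rhadf429772c25fde0.shift 3 0)] (by decide +kernel))
noncomputable def rh35c1bdaaf7f6fb0c : CRef := CRef.mk (Pat.mk 0x100000001c000000000000000000000000 0x3c0000003e000000fc000001df000000fe000001df0000000800000008 9 9) 0 0 (step_sound _ 164 [(rh281c6819542c66e6.shift 3 0), (rh5676a97cea90d992.shift 1 2), (rh75df6e1ef8520eb3.shift 0 2)] (by decide +kernel))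
noncomputable def rhae6b5130feb38469 : CRef := CRef.mk (Pat.mk 0x100000001c000000000000000000000000 0x100000001c000001dc000000fe000000ff0000007c0000003c 9 9) 0 0 (step_sound _ 67 [(rh2cb8437104de90cf.shift 1 0), (rh73411a3dac2a298a.shift 1 0), (rhcf80391c5046a495.shift 3 0), rhe72a46e3e15b1b66] (by decide +kernel))
noncomputable def rh2e6eda61146e56a5 : CRef := CRef.mk (Pat.mk 0xc000000060000000000000000 0x80000000c0000003c0000003f0000003e0000003700000016 9 6) 0 0 (step_sound _ 100 [rh09f54805d661b3ea, (rh18965a982d73c794.shift 1 2)] (by decide +kernel))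
noncomputable def rhb18828e31164da4c : CRef := CRef.mk (Pat.mk 0x30000000180000000000000000 0x2000000038000000fe000000ff000000d80000005800000058 9 8) 0 0 (step_sound _ 102 [rh0d32baf958fc84a3, (rh18965a982d73c794.shift 3 2)] (by decide +kernel))
noncomputable def rh06a567c8e2b18ca3 : CRef := CRef.mk (Pat.mk 0xc000000060000000000000000 0x1c0000003e0000001f0000003c0000007e0000007700000006 9 7) 0 0 (step_sound _ 100 [(rh18965a982d73c794.shift 1 2), rh52f1cbf6295fef0f] (by decide +kernel))
noncomputable def rhd08a8edd8327805d : CRef := CRef.mk (Pat.mk 0x180000000c000000000000000000000000 0x1e0000003f0000001f0000003c0000000c0000000c0000000c 9 6) 0 0 (step_sound _ 66 [rh0666d2850a7e73fb, (rh226a132f01051d42.shift 0 1), (rh4821dcf828b9d7bf.shift 2 0), (rhadf429772c25fde0.shift 2 0)] (by decide +kernel))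
noncomputable def rhe4b7f787db651739 : CRef := CRef.mk (Pat.mk 0x180000000c000000000000000000000000 0x60000001e0000007f0000007f000000fc0000006e0000002400000004 9 8) 0 0 (step_sound _ 133 [rh11c969f7726ce595, (rh18965a982d73c794.shift 2 3)] (by decide +kernel))
noncomputable def rh15111a6992a186af : CRef := CRef.mk (Pat.mk 0x100000001c000000000000000000000000 0x3c0000007e0000007f0000001c0000007f0000003e0000001c 9 7) 0 0 (step_sound _ 67 [(rh563e15be06caaa57.shift 1 1), rhdbb7dda37812eefd, (rhf9366b6a121593ef.shift 3 0)] (by decide +kernel))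
noncomputable def rhe4b12231d540203e : CRef := CRef.mk (Pat.mk 0x80000000e000000000000000000000000 0x3000000030000000320000003b0000003e0000007f0000001c0000001c 9 7) 0 0 (step_sound _ 100 [(rh06db8ceda6269a47.shift 0 2), rh10542c60e0f28dcb, (rh7f83bd45b8e0f5e4.shift 1 0)] (by decide +kernel))
noncomputable def rh9a6c9554f9ac4066 : CRef := CRef.mk (Pat.mk 0x2000000038000000000000000000000000 0x10000000140000003f000001fc000001fe000000ec00000048 9 9) 0 0 (step_sound _ 69 [rh5d253b2d834c4d8a, (rh8ee80cc30e93a344.shift 2 2), (rh9909eeda0ef2ed2c.shift 2 2), (rha25e80d552c3a28f.shift 2 0), (rhc21a95c499b3efdb.shift 2 2)] (by decide +kernel))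
noncomputable def rh396deaf28febccdf : CRef := CRef.mk (Pat.mk 0x100000000c00000000000000000000000000000000 0x280000003c0000003c000001ff000000fe000000f8000000380000002800000020 9 9) 0 0 (step_sound _ 132 [(rh5f998eb2772c8efe.shift 2 0), (rh6b812bd853bb81dc.shift 0 1), (rhff7d63dcb3cf9f74.shift 1 4)] (by decide +kernel))
noncomputable def rh5c8600fc01e3c45d : CRef := CRef.mk (Pat.mk 0xc000000060000000000000000 0x40000000c0000000c0000001c0000003f0000003e0000003e0000003e 9 6) 0 0 (step_sound _ 100 [(rh18965a982d73c794.shift 1 2), rhf97246cd700d53f8] (by decide +kernel))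
noncomputable def rh6a459a582bf18ec5 : CRef := CRef.mk (Pat.mk 0x180000000c0000000000000000 0x10000000100000007f0000007e0000007c0000007800000038 9 7) 0 0 (step_sound _ 101 [rh0e01bea35602aed6, (rh18965a982d73c794.shift 2 2)] (by decide +kernel))
noncomputable def rha929c2efcd3bc723 : CRef := CRef.mk (Pat.mk 0xc00000006000000000000000000000000 0x600000006000000070000003f0000007e000000070000000600000006 9 7) 0 0 (step_sound _ 132 [(rh18965a982d73c794.shift 1 3), rhdc218e68203c137e] (by decide +kernel))
noncomputable def rh555ab2cfaca50511 : CRef := CRef.mk (Pat.mk 0x180000000c0000000000000000 0x140000001e0000001e0000007e0000007f0000007c0000001600000004 9 7) 0 0 (step_sound _ 101 [(rh18965a982d73c794.shift 2 2), rh2a76dc826943db94] (by decide +kernel))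
noncomputable def rha17362b3ad097165 : CRef := CRef.mk (Pat.mk 0xc000000060000000000000000 0x1f0000001f0000003b0000003f0000003e0000001400000014 9 6) 0 0 (step_sound _ 100 [(rh18965a982d73c794.shift 1 2), rh971bcfa3358962d6] (by decide +kernel))
noncomputable def rh32b2a51d55f2c8c4 : CRef := CRef.mk (Pat.mk 0x180000000c0000000000000000 0x380000003e000000ff0000001f0000007c0000003c0000001c 9 8) 0 0 (step_sound _ 132 [(rh30c630fd27fb8669.shift 1 1), rhe3d576e1617e854e, (rhf9366b6a121593ef.shift 3 0)] (by decide +kernel))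
noncomputable def rh825d552c7a2d9d92 : CRef := CRef.mk (Pat.mk 0x30000000180000000000000000 0x100000003000000030000000fe000000ff000000f8000000f8000000f8 9 8) 0 0 (step_sound _ 102 [(rh18965a982d73c794.shift 3 2), rhf1984b07aad849b4] (by decide +kernel))
noncomputable def rh4dc08aad0d0eca29 : CRef := CRef.mk (Pat.mk 0x100000000c000000000000000000000000 0x1000000012000001fb000000fe000000ff0000006c0000002c 9 9) 0 0 (step_sound _ 100 [(rh3a7e47317479c59c.shift 1 2), (rh80d76ac28deaf1aa.shift 1 0), rhb8253cd45d3e1e3b, (rhd2134ed257ec324b.shift 1 0), (rhff7d63dcb3cf9f74.shift 1 3)] (by decide +kernel))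
noncomputable def rha1f63b82e12aa38e : CRef := CRef.mk (Pat.mk 0x500000003000000000000000000000000000000000 0x2800000038000000380000003f0000003e0000007f0000003800000038000000380000003800000028 9 7) 0 0 (step_sound _ 196 [(rh0a740616bcf039de.shift 2 1), (rh1662f65ed666287e.shift 3 3), rh648238bd47afe148, (rhae88f600f33b586c.shift 3 3)] (by decide +kernel))
noncomputable def rhc19f1cc78f9f87fc : CRef := CRef.mk (Pat.mk 0x5000000030000000000000000000000000 0x800000078000000df0000007f000000f8000000700000003000000020 9 8) 0 0 (step_sound _ 131 [(rh04682368775a440c.shift 2 0), (rhc36b8f9eaafd0204.shift 0 1), (rhdeca8db941583de2.shift 1 3)] (by decide +kernel))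
noncomputable def rhfc80aed047e5cf40 : CRef := CRef.mk (Pat.mk 0x2800000018000000000000000000000000 0x3c0000003c0000002f0000007c0000003f0000001c00000010 9 7) 0 0 (step_sound _ 68 [rh31d5998334e4eabc, (rhc38f566cab2818e5.shift 3 0), (rhe5ccac68d21bc679.shift 0 1)] (by decide +kernel))
noncomputable def rh3bb735faa4d1f267 : CRef := CRef.mk (Pat.mk 0x28000000180000000000000000 0x34000000340000007f0000003f0000007c0000006800000048 9 7) 0 0 (step_sound _ 98 [(rh2981bc9ad3558d81.shift 1 0), (rh3e5c56f13d429182.shift 0 2), (rhdeca8db941583de2.shift 0 2), (rhf8103af894806c95.shift 1 0)] (by decide +kernel))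
noncomputable def rh41eb44bb2c05cc5a : CRef := CRef.mk (Pat.mk 0x280000001800000000000000000000000000000000 0x3c0000007e0000003f000000180000007c0000001f0000001c00000008 9 7) 0 0 (step_sound _ 100 [(rh5b53faf3b8d954fc.shift 3 1), (rh72dbfb9d9865884f.shift 0 1), rh7f05ac08b71600c1, (rhc38f566cab2818e5.shift 3 1)] (by decide +kernel))
noncomputable def rh06b9bb324b25e38c : CRef := CRef.mk (Pat.mk 0x100000000c0000000000000000000000000000000000000000 0x28000000380000003e000000f70000007e000000ff0000003c0000003c0000003800000008 9 8) 0 0 (step_sound _ 164 [(rh10d342d0ef647a06.shift 1 2), (rhce4919a4e2d76406.shift 1 0), (rhf5183d55e2daca0a.shift 0 2)] (by decide +kernel))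
noncomputable def rh7dd2c304d6b2c433 : CRef := CRef.mk (Pat.mk 0x300000001800000000000000000000000000000000 0x80000003c0000007e0000003e000000180000003f0000003c0000003c00000010 9 7) 0 0 (step_sound _ 99 [(rh3584a84a5dd4e9f8.shift 0 1), (rh443d2a96acc3165f.shift 1 0), (rhcf80391c5046a495.shift 3 1), (rhf9366b6a121593ef.shift 3 1)] (by decide +kernel))
noncomputable def rhe54b4690c021850f : CRef := CRef.mk (Pat.mk 0x1000000018000000080000000000000000 0x2800000028000000e8000000fc000003fe000000ff0000005e0000001c 9 10) 0 0 (step_sound _ 35 [(rh71222050f2c63a3a.shift 3 0), rhe66af879820e31e7] (by decide +kernel))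
noncomputable def rh2d287d6d7452e0e8 : CRef := CRef.mk (Pat.mk 0x80000000c0000000400000000 0x100000001a0000007b0000007f0000007f0000006f00000028 9 7) 0 0 (step_sound _ 131 [(rh5c5e593799055d58.shift 2 1), rhe5788a66310ff7bd] (by decide +kernel))
noncomputable def rh6bb6162cd7824647 : CRef := CRef.mk (Pat.mk 0xc00000006000000000000000000000000 0x1c0000003e0000007f0000003c0000000e0000000e0000000e00000008 9 7) 0 0 (step_sound _ 132 [(rh18965a982d73c794.shift 1 3), rhf6948677b8a0e464] (by decide +kernel))
noncomputable def rh7c21e8d8b31797f2 : CRef := CRef.mk (Pat.mk 0x180000000c00000000000000000000000000000000 0x80000000c0000001f0000001f0000001c0000001f0000001c0000001c0000001c00000004 9 5) 0 0 (step_sound _ 129 [(rh53b3c253cb0c65f4.shift 0 4), rh81884cd9c7493841] (by decide +kernel))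
noncomputable def rhbb50286ec7eba02a : CRef := CRef.mk (Pat.mk 0x30000000180000000000000000 0x20000000380000007c000000f7000000ff000000f80000003c00000028 9 8) 0 0 (step_sound _ 102 [(rh18965a982d73c794.shift 3 2), rh56b140bd5645dea3] (by decide +kernel))
noncomputable def rh6edfa1824ed09c36 : CRef := CRef.mk (Pat.mk 0x180000000c000000000000000000000000 0x40000000c0000000e0000001f0000001f0000003f0000001f0000001e00000014 9 6) 0 0 (step_sound _ 97 [(rh53b3c253cb0c65f4.shift 0 3), rhbc5f11c6a7a00580] (by decide +kernel))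
noncomputable def rh4c60e0513b62bbeb : CRef := CRef.mk (Pat.mk 0x180000000c0000000000000000 0x1c0000001e000000770000007e0000007c0000000800000008 9 7) 0 0 (step_sound _ 101 [(rh18965a982d73c794.shift 2 2), rh92e9ceb4b3713e61] (by decide +kernel))
noncomputable def rh201fbe8c1324ae85 : CRef := CRef.mk (Pat.mk 0x100000001800000008000000000000000000000000 0x380000003c000000f8000000fb000000ff000000170000001000000010 9 8) 0 0 (step_sound _ 196 [rh24099c3bcc78201b, (rh5c5e593799055d58.shift 3 3)] (by decide +kernel))
noncomputable def rhf8f7db08a0ee93e8 : CRef := CRef.mk (Pat.mk 0x3000000010000000000000000000000000 0x280000003c0000003c000000fe000000ff000000fe0000000e0000000c00000008 9 8) 0 0 (step_sound _ 99 [(rh0bb882ba86b2372d.shift 1 3), (rh574fdbf07bdd18b9.shift 1 3), (rh9ca5cccfe2acd38c.shift 1 0), (rha538362dc4782f64.shift 0 1)] (by decide +kernel))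
noncomputable def rh495a7a5657d7e91b : CRef := CRef.mk (Pat.mk 0x180000000c000000000000000000000000 0x40000001c0000001c0000003f0000003f000000780000000c0000001c0000001c00000014 9 7) 0 0 (step_sound _ 133 [(rh18965a982d73c794.shift 2 3), rhdce4e97f67dd8918] (by decide +kernel))
noncomputable def rhffe7a01ca39d5eee : CRef := CRef.mk (Pat.mk 0x3000000018000000000000000000000000 0x1c0000007e0000003f0000001e0000001f0000001e0000001c 9 7) 0 0 (step_sound _ 98 [(rh53b3c253cb0c65f4.shift 1 3), rha43fa5d6e459e272] (by decide +kernel))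
noncomputable def rhfeb0b78537e63f7e : CRef := CRef.mk (Pat.mk 0x80000000c000000040000000000000000 0x1000000010000000700000007e000001ff000000770000003c0000001c 9 9) 0 0 (step_sound _ 34 [(rh71222050f2c63a3a.shift 2 0), rhd9b12d47234f1ff1] (by decide +kernel))
noncomputable def rh6b2d478bd5038b58 : CRef := CRef.mk (Pat.mk 0x180000000800000000000000000000000000000000 0x140000001c0000001e0000007e0000007f000000780000003e0000001c00000014 9 7) 0 0 (step_sound _ 130 [(rh0bb882ba86b2372d.shift 0 4), (rh425ccdc644a2537d.shift 1 0), rhf91f2f16f34163ef] (by decide +kernel))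
noncomputable def rh829a4892477c1c80 : CRef := CRef.mk (Pat.mk 0x10000000180000000800000000 0xc0000005c000000fe000000ff000001fe0000002c00000020 9 9) 0 0 (step_sound _ 132 [(rh5c5e593799055d58.shift 3 1), rh79a4cda96ce1f867] (by decide +kernel))
noncomputable def rhbd905be6a34ff4d2 : CRef := CRef.mk (Pat.mk 0x1000000018000000080000000000000000 0x2000000024000007f7000003fe000007df0000004800000008 9 11) 0 0 (step_sound _ 35 [(rh71222050f2c63a3a.shift 3 0), (rhbd04c572f21d6c62.shift 0 1)] (by decide +kernel))
noncomputable def rh463e144b87e8207a : CRef := CRef.mk (Pat.mk 0x80000000c0000000400000000 0x1e0000003f0000007f0000007f0000006e00000028 9 7) 0 0 (step_sound _ 131 [(rh5c5e593799055d58.shift 2 1), rhd94c365dd6f0b751] (by decide +kernel))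
noncomputable def rhc52dd6e9af843363 : CRef := CRef.mk (Pat.mk 0x80000000c0000000400000000 0x60000003e0000007e0000007c0000007f0000007700000030 9 7) 0 0 (step_sound _ 131 [(rh5c5e593799055d58.shift 2 1), rha5cf0f78bad0453d] (by decide +kernel))
noncomputable def rh470e79ce5786cf7c : CRef := CRef.mk (Pat.mk 0x1000000018000000080000000000000000 0x8000000780000007f0000007f0000007800000038 9 7) 0 0 (step_sound _ 35 [(rh71222050f2c63a3a.shift 3 0), rhc7e41c1f323b1ce7] (by decide +kernel))
noncomputable def rhe62b8d1e1ed8d63f : CRef := CRef.mk (Pat.mk 0x80000000c0000000400000000 0x1a0000003f0000007f0000007f0000007600000030 9 7) 0 0 (step_sound _ 131 [rh37dda300fad21352, (rh5c5e593799055d58.shift 2 1)] (by decide +kernel))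
noncomputable def rhb7ebaac73008604f : CRef := CRef.mk (Pat.mk 0x80000000c000000040000000000000000 0x12000000160000007f000000ff0000007e0000002400000004 9 8) 0 0 (step_sound _ 34 [(rh52e65394b4d0a0c0.shift 0 1), (rh71222050f2c63a3a.shift 2 0)] (by decide +kernel))
noncomputable def rhe2a8e5fabb2d2118 : CRef := CRef.mk (Pat.mk 0x180000000c000000000000000000000000 0x300000003000000030000000380000001f000000380000001800000018 9 6) 0 0 (step_sound _ 97 [(rh0de55685b0e71a1a.shift 1 0), (rh53b3c253cb0c65f4.shift 0 3)] (by decide +kernel))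
noncomputable def rhcd3716459eb03ae5 : CRef := CRef.mk (Pat.mk 0x180000000c00000000000000000000000000000000 0x4000000140000001f0000003f0000003b0000001f0000001e00000004 9 6) 0 0 (step_sound _ 129 [(rh53b3c253cb0c65f4.shift 0 4), rh9aed2f99b33426cf] (by decide +kernel))
noncomputable def rh477cd56aaee98c1f : CRef := CRef.mk (Pat.mk 0xc0000000600000000000000000000000000000000 0x20000003b0000003f0000003e0000000c0000000c0000000c00000008 9 6) 0 0 (step_sound _ 164 [(rh18965a982d73c794.shift 1 4), rh1c5722a9d8481fcc] (by decide +kernel))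
noncomputable def rh8ef440292d0d083b : CRef := CRef.mk (Pat.mk 0x80000000c00000004000000000000000000000000 0x1f0000001f0000003c0000001c0000007c000000780000001800000008 9 7) 0 0 (step_sound _ 195 [(rh5c5e593799055d58.shift 2 3), rhc4ca062eed4f8b28] (by decide +kernel))
noncomputable def rh559fe084e372bdb3 : CRef := CRef.mk (Pat.mk 0x4000000060000000200000000000000000 0x2800000038000001bc000001fe0000007e000003ff000003e0000000e0 9 10) 0 0 (step_sound _ 37 [rh69e0145b5b1c0c84, (rh71222050f2c63a3a.shift 5 0)] (by decide +kernel))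
noncomputable def rh0df0fd2dce1ed5ef : CRef := CRef.mk (Pat.mk 0x80000000c000000040000000000000000 0x10000000160000007e000000ff000000770000003c0000001c 9 8) 0 0 (step_sound _ 34 [rh269b24cb97f42a2e, (rh71222050f2c63a3a.shift 2 0)] (by decide +kernel))
noncomputable def rh98cb46ed4fb89aee : CRef := CRef.mk (Pat.mk 0x1000000010000000180000000000000000 0x3000000030000000fc000000ff000001fe000001e000000020 9 9) 0 0 (step_sound _ 101 [(rh0bb882ba86b2372d.shift 1 2), (rh132178c3a24346e2.shift 1 1), (rh31641351c0b0da60.shift 2 0), (rh439c67fbeed3cacb.shift 0 1)] (by decide +kernel))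
noncomputable def rh77fc89d9361683eb : CRef := CRef.mk (Pat.mk 0x8000000080000000c000000000000000000000000 0x1000000030000000780000007e0000007f0000003f0000001400000004 9 7) 0 0 (step_sound _ 132 [(rh0bb882ba86b2372d.shift 0 3), rh55325803133eddca, (rh574fdbf07bdd18b9.shift 0 3), (rha29f6b7a7726c4e0.shift 1 1)] (by decide +kernel))
noncomputable def rhac65dc3480361f0b : CRef := CRef.mk (Pat.mk 0x10000000100000001800000000 0x28000000380000003c000000f0000001f7000000fe000001e7 9 9) 0 0 (step_sound _ 132 [(rh1741680720c097b4.shift 3 1), (rh3038ab5f74634e6d.shift 2 0), rhef5a28d8e7eee73d] (by decide +kernel))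
noncomputable def rh54b120a1cca4da36 : CRef := CRef.mk (Pat.mk 0x10000000100000001800000000 0x28000000380000003800000010000001ff000000fe000001e0 9 9) 0 0 (step_sound _ 132 [rhc6ea5fc6007639dc, (rhc85cc95794737cf7.shift 3 1), (rhf3cdd189c46cffe9.shift 3 0)] (by decide +kernel))
noncomputable def rh03f890b1075e53b0 : CRef := CRef.mk (Pat.mk 0x8000000080000000c0000000000000000 0x170000001f0000007c0000003f0000007c00000034 9 7) 0 0 (step_sound _ 100 [(rh0bb882ba86b2372d.shift 0 2), rh1bd4bb1ebe50900f, (rh574fdbf07bdd18b9.shift 0 2), rh78a7b6a9bdc75138] (by decide +kernel))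
noncomputable def rh4b3828faa07eec6c : CRef := CRef.mk (Pat.mk 0x10000000100000001800000000 0x80000003f0000007e000000ff000000380000003800000020 9 8) 0 0 (step_sound _ 132 [rh19cc2b19553767e3, (rhe62cab2ff5ad6fe2.shift 3 1), (rhf3cdd189c46cffe9.shift 3 0)] (by decide +kernel))
noncomputable def rhafa7f12613bc392d : CRef := CRef.mk (Pat.mk 0x8000000080000000c000000000000000000000000 0x170000001f0000007c0000007f0000007e0000007400000020 9 7) 0 0 (step_sound _ 132 [(rh0bb882ba86b2372d.shift 0 3), (rh1bd4bb1ebe50900f.shift 0 1), (rhcd8bf3896bcaf7c2.shift 1 0)] (by decide +kernel))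
noncomputable def rh69444cf54f9370e3 : CRef := CRef.mk (Pat.mk 0x2000000030000000000000000000000000 0x280000007c000001ff000001fe0000003c0000001800000010 9 9) 0 0 (step_sound _ 68 [(rh17bc389d5b388ca4.shift 1 1), (rhadf429772c25fde0.shift 4 0), rhf4ae13f0a3378606] (by decide +kernel))
noncomputable def rh54cb88645a09b699 : CRef := CRef.mk (Pat.mk 0x2000000038000000000000000000000000 0x3c0000003e0000003f000000fe000001dc0000001800000018 9 9) 0 0 (step_sound _ 68 [(rh1fd5746e30de88bb.shift 1 0), (rh3dd953df34b564af.shift 1 0), rh5425f6111a084d6f, (rh6c4b97ca08b6eb6f.shift 1 1), (rhf9366b6a121593ef.shift 4 0)] (by decide +kernel))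
noncomputable def rh8e56b8f1ed55e428 : CRef := CRef.mk (Pat.mk 0x80000000c0000000400000000 0x1f0000001f0000003f0000000e0000007c00000010 9 7) 0 0 (step_sound _ 131 [rh3556a9d63c0f34f1, (rh5c5e593799055d58.shift 2 1)] (by decide +kernel))
noncomputable def rh77fb14825b71fb2f : CRef := CRef.mk (Pat.mk 0x1000000018000000080000000000000000 0xc0000000e0000001f0000007f0000001f0000000c0000000c 9 7) 0 0 (step_sound _ 35 [(rh71222050f2c63a3a.shift 3 0), rhba01db7485a7000f] (by decide +kernel))
noncomputable def rhacc85f8099aa6604 : CRef := CRef.mk (Pat.mk 0x10000000180000000000000000 0x200000006c000000ee000000ff000000fe000000fe0000006c 9 8) 0 0 (step_sound _ 101 [(rh69012675dfdb1a5b.shift 1 2), (rh9d1941d7e7832117.shift 1 0), rhc56da5d249939437, (rhd69c262cd33b94b3.shift 1 2)] (by decide +kernel))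
noncomputable def rh3b7a9d9b99643cd8 : CRef := CRef.mk (Pat.mk 0x1000000010000000180000000000000000 0x2e000000fe000000fe000000f8000000ff0000006f 9 8) 0 0 (step_sound _ 36 [(rh0c88e839a269baae.shift 1 0), (rh3fc74652f5dccd97.shift 1 0), rh592616b467fecf3e, (rha1f9145d0e016d44.shift 2 0), (rhb09150e634b21e64.shift 1 0)] (by decide +kernel))
noncomputable def rh1cf125f884ac2945 : CRef := CRef.mk (Pat.mk 0x80000000c000000000000000000000000 0x16000000160000007e0000007f0000007f0000003b0000001200000010 9 7) 0 0 (step_sound _ 132 [rh04561ea046c0cfb0, (rh69012675dfdb1a5b.shift 0 3), (rhd3bcfdc2fde42f51.shift 1 2)] (by decide +kernel))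
noncomputable def rha55da8f3584173f6 : CRef := CRef.mk (Pat.mk 0x1000000018000000080000000000000000 0xe0000000f0000003f0000007f000000ff0000000400000004 9 8) 0 0 (step_sound _ 98 [(rh5dec5e73a267a1c4.shift 0 2), (rh6c4b97ca08b6eb6f.shift 0 1), rh7c54c14170542785] (by decide +kernel))
noncomputable def rh864260a7d7b309dd : CRef := CRef.mk (Pat.mk 0x8000000080000000800000000000000000000000000000000 0x40000000c0000000c000000080000000c0000003f0000003f000000170000001200000002 9 6) 0 0 (step_sound _ 100 [(rh2977b00063528966.shift 3 1), (rh37639814abe95979.shift 2 2), (rhaf349dd7709502bf.shift 2 3), rhd186afc7bd89801d, (rhfa80626feb4e9cb5.shift 0 2)] (by decide +kernel))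
noncomputable def rh7f38b555905b99f1 : CRef := CRef.mk (Pat.mk 0x800000008000000080000000000000000000000000000000000000000 0xc0000000c0000001c0000003f0000003f0000001c0000001c0000001c00000004 9 6) 0 0 (step_sound _ 131 [(rh8be7cdc10115012c.shift 2 0), (rh8ff3dde5b1c639e0.shift 2 2), (rh95b343e690f573c3.shift 2 2), (rhc39e2fbaf125caaa.shift 0 3), (rhc4526fc8abf298b6.shift 2 2), (rhf4fc431c6cf8f3c7.shift 2 2)] (by decide +kernel))
noncomputable def rhb094b06ab4ed8881 : CRef := CRef.mk (Pat.mk 0x80000000c00000004000000000000000000000000 0x18000000780000001f0000007c0000001e0000001c00000018 9 7) 0 0 (step_sound _ 66 [rh66730e39e62d8baf, (rh71222050f2c63a3a.shift 2 1)] (by decide +kernel))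
noncomputable def rhb064bebbf0dfbe70 : CRef := CRef.mk (Pat.mk 0x80000000c000000040000000000000000 0x10000000160000003f0000007e0000007f0000003c0000001800000018 9 7) 0 0 (step_sound _ 132 [(rh078d02524118d041.shift 0 1), (rh69012675dfdb1a5b.shift 0 3), rh6fdde8689920c28f] (by decide +kernel))
noncomputable def rh72aeeb7cf27dc420 : CRef := CRef.mk (Pat.mk 0x10000000080000000800000000000000000000000000000000 0x40000001c0000001f000000380000001f0000001c0000001c0000001c00000014 9 6) 0 0 (step_sound _ 99 [(rh1fd47671a807ffbf.shift 0 2), (rh6b22f79f237076fd.shift 2 0), (rh984bfc6de6c2c524.shift 2 0), (rh9fdf4b366b1cf3c3.shift 2 2)] (by decide +kernel))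
noncomputable def rh44f222197891b990 : CRef := CRef.mk (Pat.mk 0x10000000080000000800000000000000000000000000000000 0xc0000000e0000001f0000007e0000001f0000000c0000001c0000001c0000001c0000001c 9 7) 0 0 (step_sound _ 195 [(rh1feb3425e3ebe86f.shift 0 3), (rh3854429253eeadb4.shift 2 0), (rh4c5c32bb62ce4735.shift 0 1), (rh922fe98b3ec6dc1b.shift 0 2), (rh9ce876259f331a3e.shift 2 0)] (by decide +kernel))
noncomputable def rhcd60ab15175aa9b0 : CRef := CRef.mk (Pat.mk 0x180000000800000008000000000000000000000000 0x10000000180000001c0000000c0000003e0000007c0000002f0000007c000000340000001000000010 9 7) 0 0 (step_sound _ 130 [(rh410a0a98901a55b2.shift 1 2), rh44f336f55b1192bd, (rhcf2b7fc59a7274b0.shift 0 2), (rhd69c262cd33b94b3.shift 0 4)] (by decide +kernel))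
noncomputable def rh15a78100daa48b1b : CRef := CRef.mk (Pat.mk 0x1000000018000000080000000000000000 0x34000000740000007f0000007f0000001b0000001a 9 7) 0 0 (step_sound _ 35 [(rh71222050f2c63a3a.shift 3 0), rhc83f1578097fedc8] (by decide +kernel))
noncomputable def rh46d360ba6ff5aded : CRef := CRef.mk (Pat.mk 0x1000000018000000080000000000000000 0x6000000770000007f0000007f0000007e0000000c 9 7) 0 0 (step_sound _ 35 [(rh71222050f2c63a3a.shift 3 0), rhe02c82a31676f58e] (by decide +kernel))
noncomputable def rhb33447c6c07e4335 : CRef := CRef.mk (Pat.mk 0x100000001800000008000000000000000000000000 0x3000000030000000780000001f0000007f0000003800000030 9 7) 0 0 (step_sound _ 67 [rh46e46499feef1d38, (rh71222050f2c63a3a.shift 3 1)] (by decide +kernel))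
noncomputable def rheb84a1531b89519d : CRef := CRef.mk (Pat.mk 0x100000001800000008000000000000000000000000 0x10000000100000001e000000ff000000ff0000002800000020 9 8) 0 0 (step_sound _ 67 [(rh71222050f2c63a3a.shift 3 1), rh9f8026345c21506e] (by decide +kernel))
noncomputable def rh0a7ebb8a24f525ad : CRef := CRef.mk (Pat.mk 0x100000001800000008000000000000000000000000 0x30000000720000007f000000ff000000770000003400000014 9 8) 0 0 (step_sound _ 98 [rh356353bcd6652d1d, (rh574fdbf07bdd18b9.shift 0 3), (rh5e65a053fec18036.shift 1 3), (rhc5cf5ab20fc27e64.shift 1 1)] (by decide +kernel))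
noncomputable def rhf96734910781d94d : CRef := CRef.mk (Pat.mk 0x1000000018000000080000000000000000 0x50000000d0000000fe000000ff0000006f00000028 9 8) 0 0 (step_sound _ 35 [(rh71222050f2c63a3a.shift 3 0), rhbfce4eb8142d37fd] (by decide +kernel))
noncomputable def rhbe54830c80a9c0fa : CRef := CRef.mk (Pat.mk 0x180000000800000008000000000000000000000000 0x8000000180000007c0000007f0000007c000000740000002000000020 9 7) 0 0 (step_sound _ 130 [(rh652dac0036f3a1dd.shift 0 2), (rhb579c1f039cfe69c.shift 2 0), (rhd69c262cd33b94b3.shift 0 4)] (by decide +kernel))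
noncomputable def rh79faa8845b7a48c5 : CRef := CRef.mk (Pat.mk 0x18000000080000000800000000 0x10000000180000001c0000002c0000007f0000007e0000007f0000007800000010 9 7) 0 0 (step_sound _ 66 [(rh69012675dfdb1a5b.shift 0 2), rh6c754b85edbe3b2b, rh9e40fdd1ffd772c1, (rhd69c262cd33b94b3.shift 0 2)] (by decide +kernel))
noncomputable def rh2480878df902cab5 : CRef := CRef.mk (Pat.mk 0x18000000080000000800000000 0x10000000180000001c0000000e0000001f0000007e0000000f0000000c00000004 9 7) 0 0 (step_sound _ 66 [(rh0bb882ba86b2372d.shift 0 2), rh240693694c8e4788, rh737fea866f72dae5] (by decide +kernel))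
noncomputable def rhd13ecba20e27aaf9 : CRef := CRef.mk (Pat.mk 0x18000000080000000800000000 0x40000000e0000000f0000001e0000007f0000003f00000014 9 7) 0 0 (step_sound _ 131 [(rh3ca4c10fdf355329.shift 1 0), (rh565a0c22519f57e9.shift 2 0), (rh5abfc4c9d959be03.shift 2 0), rh97a1fcadaeaab608] (by decide +kernel))
noncomputable def rhd2bb1c32ca63fffa : CRef := CRef.mk (Pat.mk 0x1800000008000000080000000000000000 0x600000006000000770000007f0000007f0000003f0000003000000030 9 7) 0 0 (step_sound _ 98 [(rh69012675dfdb1a5b.shift 0 3), rhbe629828effc5407, (rhd69c262cd33b94b3.shift 0 3), (rhe3f3ccc676e28414.shift 1 2)] (by decide +kernel))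
noncomputable def rh20c1e51b42de3aa0 : CRef := CRef.mk (Pat.mk 0x180000000c000000000000000000000000 0x1a0000003b0000001f0000003f0000000f0000000c00000004 9 6) 0 0 (step_sound _ 97 [(rh53b3c253cb0c65f4.shift 0 3), rh71e3d7a89b83b087] (by decide +kernel))
noncomputable def rhb7268803eff90e0c : CRef := CRef.mk (Pat.mk 0x180000000c000000000000000000000000 0x10000000380000007a0000007e0000007c0000001f0000003c0000001c 9 7) 0 0 (step_sound _ 133 [(rh18965a982d73c794.shift 2 3), rh8f550f735445b383] (by decide +kernel))
noncomputable def rh7f03b65056a985fc : CRef := CRef.mk (Pat.mk 0x180000000c000000000000000000000000 0x1a0000003b0000001f0000003f0000000f0000000c00000004 9 6) 0 0 (step_sound _ 97 [(rh53b3c253cb0c65f4.shift 0 3), rh7b5fc4edaed11652] (by decide +kernel))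
noncomputable def rh94179f265dcd067b : CRef := CRef.mk (Pat.mk 0xc000000060000000000000000 0x80000000c0000003c0000003f0000003e0000003700000016 9 6) 0 0 (step_sound _ 100 [(rh18965a982d73c794.shift 1 2), rh3fb017cccc1c3950] (by decide +kernel))
noncomputable def rh0b3face3fe39af37 : CRef := CRef.mk (Pat.mk 0x180000000c0000000000000000 0x140000001c0000001c0000001c0000001e000000780000001c0000000f0000007c00000018 9 7) 0 0 (step_sound _ 65 [(rh2fa2ef34c6cdbfb2.shift 1 0), (rh53b3c253cb0c65f4.shift 0 2)] (by decide +kernel))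
noncomputable def rh7201bcc0f11c4c4f : CRef := CRef.mk (Pat.mk 0x1000000018000000000000000000000000 0x2000000060000000f4000000ff000000fe000000ee0000006800000028 9 8) 0 0 (step_sound _ 133 [(rhc56da5d249939437.shift 0 1), (rhd69c262cd33b94b3.shift 1 3), (rhdaec46d282c610b5.shift 1 0)] (by decide +kernel))
noncomputable def rh604bf96a494ae788 : CRef := CRef.mk (Pat.mk 0x1000000018000000080000000000000000 0xe4000000ff0000001f0000007e0000007e0000003c 9 8) 0 0 (step_sound _ 35 [(rh71222050f2c63a3a.shift 3 0), rhdeb635320ca36fcd] (by decide +kernel))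
noncomputable def rhc76124949dc2bf9b : CRef := CRef.mk (Pat.mk 0x180000000c00000000000000000000000000000000 0x40000001c0000001c000000380000001f0000003f000000380000001c0000001c00000014 9 6) 0 0 (step_sound _ 129 [rh4e79e8d95ed360f5, (rh53b3c253cb0c65f4.shift 0 4)] (by decide +kernel))
noncomputable def rhbbc30b14dfab1230 : CRef := CRef.mk (Pat.mk 0x200000003000000010000000000000000000000000 0x80000002f000000ff000001fe000000fe0000007800000068 9 9) 0 0 (step_sound _ 68 [rh46edc1b2abc05598, (rh71222050f2c63a3a.shift 4 1)] (by decide +kernel))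
noncomputable def rhcf81b0d656e13c4b : CRef := CRef.mk (Pat.mk 0x200000003000000010000000000000000000000000 0x20000000200000003e000000ff000000fe0000006e0000006800000028 9 8) 0 0 (step_sound _ 197 [(rh5c5e593799055d58.shift 4 3), rhd69587889fcb580b] (by decide +kernel))
noncomputable def rh1db00615b07fd91e : CRef := CRef.mk (Pat.mk 0x180000000c000000000000000000000000 0x10000000180000007a0000007e0000007c0000007f0000003c0000003c 9 7) 0 0 (step_sound _ 133 [(rh18965a982d73c794.shift 2 3), rh466af1d183bb470a] (by decide +kernel))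
noncomputable def rh717061469e26311a : CRef := CRef.mk (Pat.mk 0x180000000c000000000000000000000000 0x1e0000003f0000003e0000007c0000007e0000007e0000002e 9 7) 0 0 (step_sound _ 66 [(rh06d571041eea8319.shift 1 0), rh19cb599b90ce1883, (rh4821dcf828b9d7bf.shift 2 0)] (by decide +kernel))
noncomputable def rh71e60287805d3d8c : CRef := CRef.mk (Pat.mk 0x80000000700000000000000000000000000000000 0x40000001c0000001c0000001c0000001c0000000f000000180000001c0000001c00000014 9 5) 0 0 (step_sound _ 131 [(rh33e738c4ed385b9f.shift 0 4), rhc355c9873c76a82d] (by decide +kernel))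
noncomputable def rh20c3e4d99cb18df5 : CRef := CRef.mk (Pat.mk 0x100000000e0000000000000000000000000000000000000000 0x280000003800000038000000300000001e0000003f00000038000000380000003800000028 9 6) 0 0 (step_sound _ 164 [(rh33e738c4ed385b9f.shift 1 5), rha92fbff23deba915] (by decide +kernel))
noncomputable def rh7bdcd827332af1c9 : CRef := CRef.mk (Pat.mk 0x80000000c0000000400000000 0x1f0000001f0000007c0000007f0000000e0000000a 9 7) 0 0 (step_sound _ 131 [(rh5c5e593799055d58.shift 2 1), rhc8075ff670805346] (by decide +kernel))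
noncomputable def rh3ac4fdd6158e0c30 : CRef := CRef.mk (Pat.mk 0x80000000c000000040000000000000000 0x600000016000000160000007c000001ff0000007e0000002f0000000e 9 9) 0 0 (step_sound _ 34 [rh142b0f96d5901da7, (rh71222050f2c63a3a.shift 2 0)] (by decide +kernel))
noncomputable def rh4d649025900b4be7 : CRef := CRef.mk (Pat.mk 0x200000002000000030000000000000000000000000 0x24000001e7000000fe000000ff0000005800000058 9 9) 0 0 (step_sound _ 99 [(rh611e04f5c3327d05.shift 2 0), (rha11dfd15f08f96e3.shift 2 3), (rha4e887c2a2a0f60b.shift 0 2), (rhc357d9e74c3da626.shift 1 0)] (by decide +kernel))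
noncomputable def rhe21a5d743ee98714 : CRef := CRef.mk (Pat.mk 0x180000000c00000000000000000000000000000000 0x100000001800000038000000780000007c0000007f0000003c0000001c00000014 9 7) 0 0 (step_sound _ 165 [(rh18965a982d73c794.shift 2 4), rhd87897299b47a844] (by decide +kernel))
noncomputable def rh57f23587ca7abb6b : CRef := CRef.mk (Pat.mk 0x180000000c000000000000000000000000 0x8000000080000001c000000ff0000007f0000003c0000001c 9 8) 0 0 (step_sound _ 97 [rh4d1bc54d08ab24d9, (rh53b3c253cb0c65f4.shift 0 3)] (by decide +kernel))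
noncomputable def rh9b3a1717e6b1849b : CRef := CRef.mk (Pat.mk 0x100000001000000018 0x280000003f000000fe000000ff0000001800000018 9 8) 0 0 (step_sound _ 100 [(rh9a369cb82ea472da.shift 3 0), (rhe62cab2ff5ad6fe2.shift 3 0), rhf064e65ed79612df] (by decide +kernel))
noncomputable def rhe3286574c8449688 : CRef := CRef.mk (Pat.mk 0x10000000100000001800000000 0x3f000000fe000000ff000000380000003800000020 9 8) 0 0 (step_sound _ 132 [(rhf064e65ed79612df.shift 0 1), (rhf3cdd189c46cffe9.shift 3 0)] (by decide +kernel))
noncomputable def rh96417bcd5952d6f4 : CRef := CRef.mk (Pat.mk 0x100000001000000018000000000000000000000000 0x280000003c000000f8000000f8000000ff0000007f00000008 9 8) 0 0 (step_sound _ 67 [(rh286e65db43c3c1e5.shift 0 1), (rh42548283029e2a39.shift 3 0), (rhf9af042da61fc652.shift 3 0)] (by decide +kernel))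
noncomputable def rh4ce143eb5d903d96 : CRef := CRef.mk (Pat.mk 0xc00000006000000000000000000000000 0x60000001e0000003f0000003e0000003e0000003b0000001b00000003 9 6) 0 0 (step_sound _ 132 [(rh18965a982d73c794.shift 1 3), rhf814feeca4e82080] (by decide +kernel))
noncomputable def rh29114a72f0fe697e : CRef := CRef.mk (Pat.mk 0x180000000c000000000000000000000000 0x8000000080000001c000000ff000000770000003c0000001c 9 8) 0 0 (step_sound _ 97 [(rh53b3c253cb0c65f4.shift 0 3), rhc105c60bab72f168] (by decide +kernel))
noncomputable def rh36f06734b587cdfa : CRef := CRef.mk (Pat.mk 0x180000000c000000000000000000000000 0x3000000030000000300000001c000000ff0000007f0000001800000018 9 8) 0 0 (step_sound _ 97 [(rh53b3c253cb0c65f4.shift 0 3), rhc072126b1873a2d1] (by decide +kernel))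
noncomputable def rh32cf4e78e961b51d : CRef := CRef.mk (Pat.mk 0x1000000018000000000000000000000000 0xc0000001c0000001c000000180000007c000000ff0000007e0000007f 9 8) 0 0 (step_sound _ 67 [rh29f5abba2313e090, (rh4821dcf828b9d7bf.shift 3 0), (rh98f9af3a84ea18f6.shift 1 1), (rhadf429772c25fde0.shift 3 0)] (by decide +kernel))
noncomputable def rh1a7dc30c7c4cc32a : CRef := CRef.mk (Pat.mk 0x180000000c00000000000000000000000000000000 0x180000003c0000003c0000003c0000001c0000001f000000780000001e0000001c00000010 9 7) 0 0 (step_sound _ 129 [(rh53b3c253cb0c65f4.shift 0 4), (rhba66b5ee974253bf.shift 1 0)] (by decide +kernel))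
noncomputable def rh291e78b53c040c19 : CRef := CRef.mk (Pat.mk 0x80000000c0000000400000000 0x60000002e0000007e0000007c0000007f0000003700000012 9 7) 0 0 (step_sound _ 131 [(rh5c5e593799055d58.shift 2 1), rhcaa017727d726fd4] (by decide +kernel))
noncomputable def rhc31302e9f255c2d7 : CRef := CRef.mk (Pat.mk 0x300000001800000000000000000000000000000000 0x180000001e000000ff000000380000003e000000780000003800000010 9 8) 0 0 (step_sound _ 166 [(rh18965a982d73c794.shift 3 4), rh9a7f38f625d1ddff] (by decide +kernel))
noncomputable def rhcc667fc8d3a228e7 : CRef := CRef.mk (Pat.mk 0x100000000c00000000000000000000000000000000 0x2800000038000003fe000001fc000003df000000f8000000700000002000000020 9 10) 0 0 (step_sound _ 165 [(rh024ce6cab26049c7.shift 1 0), (rh7401e8cf466f4e5b.shift 0 4), (rhbd2e91c3fdbfa961.shift 0 4), (rhedb5257a62f09c47.shift 2 4)] (by decide +kernel))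
noncomputable def rh03a6ddf7df0aea50 : CRef := CRef.mk (Pat.mk 0x2000000018000000000000000000000000 0x280000003c0000003c000000fe000000ff0000003e0000006e0000002c00000020 9 8) 0 0 (step_sound _ 132 [(rh0bb882ba86b2372d.shift 1 3), (rh32b6b48fea0525e9.shift 1 0), (rh69012675dfdb1a5b.shift 1 3), (rhdd8460dfdfcf2a4d.shift 0 2)] (by decide +kernel))
noncomputable def rhb757542324201e26 : CRef := CRef.mk (Pat.mk 0x3000000018000000000000000000000000 0x1c0000003e0000003f0000003e0000001f0000001a00000018 9 6) 0 0 (step_sound _ 98 [(rh53b3c253cb0c65f4.shift 1 3), rhdb2ca63df2dd2bf8] (by decide +kernel))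
noncomputable def rh1c2aab843cf1219b : CRef := CRef.mk (Pat.mk 0x3000000018000000000000000000000000 0x8000000380000003f0000003f0000001e0000007c0000003e0000001c 9 7) 0 0 (step_sound _ 98 [(rh53b3c253cb0c65f4.shift 1 3), rha8373f99d3e2bad0] (by decide +kernel))
noncomputable def rh398b6a2385c833ed : CRef := CRef.mk (Pat.mk 0x180000000c000000000000000000000000 0x100000001c0000003c0000001f0000001f0000003b0000001a0000001a 9 6) 0 0 (step_sound _ 97 [rh4f819a72b2cae6f7, (rh53b3c253cb0c65f4.shift 0 3)] (by decide +kernel))
noncomputable def rh9a55a9b954e3bd6a : CRef := CRef.mk (Pat.mk 0x180000000c000000000000000000000000 0x3000000036000000370000001f0000001f0000003f0000001e00000018 9 6) 0 0 (step_sound _ 97 [(rh53b3c253cb0c65f4.shift 0 3), rh96d25d6551ccbfd7] (by decide +kernel))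
noncomputable def rh945d5376a8b8d16d : CRef := CRef.mk (Pat.mk 0x100000000c000000000000000000000000 0x40000001c0000001c0000003e0000007f0000007e0000000f0000003e0000001c0000000c 9 7) 0 0 (step_sound _ 131 [rh98d3ba3d82ad04c8, (rhca1e61e0ce0f7e0f.shift 1 0), (rhd69c262cd33b94b3.shift 0 3)] (by decide +kernel))
noncomputable def rhedba341aab841a95 : CRef := CRef.mk (Pat.mk 0xc00000006000000000000000000000000 0x40000001c0000003c0000001f0000003e0000000e0000003e0000003e00000018 9 6) 0 0 (step_sound _ 132 [(rh18965a982d73c794.shift 1 3), rh8d3fd859391fa0cb] (by decide +kernel))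
noncomputable def rh3080a82e6f92b656 : CRef := CRef.mk (Pat.mk 0xc000000060000000000000000 0x40000001e0000001f0000007c0000003e0000000e0000003e0000003e 9 7) 0 0 (step_sound _ 100 [(rh18965a982d73c794.shift 1 2), rhf354051673f16204] (by decide +kernel))
noncomputable def rh1dedf349d8374d7d : CRef := CRef.mk (Pat.mk 0x300000001800000000000000000000000000000000 0x180000001e000000ff000000380000003e0000007c0000003c00000010 9 8) 0 0 (step_sound _ 166 [(rh18965a982d73c794.shift 3 4), rh28fe678e5e7a8276] (by decide +kernel))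
noncomputable def rhbe8fb809be7cebb3 : CRef := CRef.mk (Pat.mk 0xc00000006000000000000000000000000 0x1c0000003e0000001f0000003c0000000e0000001e0000001e00000018 9 6) 0 0 (step_sound _ 132 [(rh18965a982d73c794.shift 1 3), rhbe775fbcb686b3d1] (by decide +kernel))
noncomputable def rhd75bb7046667217f : CRef := CRef.mk (Pat.mk 0x180000000c000000000000000000000000000000000000000000000000 0x8000000080000001e0000003f0000001f0000001c0000007f0000003e0000001c0000001c0000001800000010 9 7) 0 0 (step_sound _ 163 [(rh9bb5c7e5c08d4582.shift 2 3), (rhdd553dd56164c1d2.shift 0 4), rhddee99063f686c30] (by decide +kernel))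
noncomputable def rh96c5ea1eb90788fe : CRef := CRef.mk (Pat.mk 0x180000000c0000000000000000 0x1c0000001e0000007f0000007f0000001c0000000800000008 9 7) 0 0 (step_sound _ 101 [(rh18965a982d73c794.shift 2 2), rhd514abc4e6852231] (by decide +kernel))
noncomputable def rhf7a9ed3f7d8d4950 : CRef := CRef.mk (Pat.mk 0x100000000e00000000000000000000000000000000 0x400000006000000370000001e00000037000000070000000700000005 9 6) 0 0 (step_sound _ 132 [rh076cd4e18f7063e1, (rh33e738c4ed385b9f.shift 1 4)] (by decide +kernel))
noncomputable def rh3bf81c26537475d4 : CRef := CRef.mk (Pat.mk 0xe000000000000000000000000000000000 0x30000000300000007f000000fe000000fe000000780000007800000018 9 8) 0 0 (step_sound _ 132 [(rh008ec883d4619f17.shift 0 3), (rh631200791555ddc8.shift 3 0), (rh74f9ae0ef221baee.shift 2 1), (rh9a61dc0f685e3a67.shift 1 3), (rhc6c48c550f9232f4.shift 0 3), (rhcfaee032bd45abc2.shift 2 1)] (by decide +kernel))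
noncomputable def rh41beac1a2051aa46 : CRef := CRef.mk (Pat.mk 0x4000000060000000200000000000000000 0x100000001000000fde000007fe000007f70000002000000020 9 12) 0 0 (step_sound _ 37 [(rh2a7d3258dcc64100.shift 0 1), (rh71222050f2c63a3a.shift 5 0)] (by decide +kernel))
noncomputable def rh72c69a249db8c75e : CRef := CRef.mk (Pat.mk 0x80000000c0000000400000000 0x1000000018000000780000007f0000007f0000007600000030 9 7) 0 0 (step_sound _ 131 [(rh5c5e593799055d58.shift 2 1), rh8eda738686d37c4a] (by decide +kernel))
noncomputable def rh5fe13a5a03a88550 : CRef := CRef.mk (Pat.mk 0x4000000060000000200000000000000000 0x7fe000003fe000003f7000001e0000001e0 9 11) 0 0 (step_sound _ 37 [(rh71222050f2c63a3a.shift 5 0), rhb3ac08e3e9305a42] (by decide +kernel))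
noncomputable def rh5a89534b0318024a : CRef := CRef.mk (Pat.mk 0x4000000060000000200000000000000000 0x100000001000000ede000007fe000007f70000002000000020 9 12) 0 0 (step_sound _ 37 [(rh009c7c6174d85a84.shift 0 1), (rh71222050f2c63a3a.shift 5 0)] (by decide +kernel))
noncomputable def rh2903146ccc73fd6e : CRef := CRef.mk (Pat.mk 0x1000000018000000080000000000000000 0x400000004000001d7000000fe000001fc000001fc00000028 9 9) 0 0 (step_sound _ 35 [rh49ee9a1f2e214ee2, (rh71222050f2c63a3a.shift 3 0)] (by decide +kernel))
noncomputable def rh232be6d0712201ca : CRef := CRef.mk (Pat.mk 0x10000000180000000800000000 0xc0000005c000000fe000000ff000001fe0000002c00000020 9 9) 0 0 (step_sound _ 132 [(rh5c5e593799055d58.shift 3 1), rh9a3af0f1a28f6a4b] (by decide +kernel))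
noncomputable def rhd79338dcf533692a : CRef := CRef.mk (Pat.mk 0x80000000c0000000400000000 0x60000002e0000007e0000007c000000ff0000003600000012 9 8) 0 0 (step_sound _ 131 [rh1723d13aa03e4e1b, (rh5c5e593799055d58.shift 2 1)] (by decide +kernel))
noncomputable def rh2b6a0c00ba4f64a5 : CRef := CRef.mk (Pat.mk 0x80000000c000000040000000000000000 0x600000016000000160000007c000001ff0000007e0000002f0000000e 9 9) 0 0 (step_sound _ 34 [(rh71222050f2c63a3a.shift 2 0), rhba3aa037b09fb017] (by decide +kernel))
noncomputable def rh339fa2e563b4d2a0 : CRef := CRef.mk (Pat.mk 0x80000000c000000040000000000000000 0x1200000012000003fb000001ff000003ee0000002400000004 9 10) 0 0 (step_sound _ 34 [(rh0499c7cf533a1cdb.shift 0 1), (rh71222050f2c63a3a.shift 2 0)] (by decide +kernel))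
noncomputable def rh369c319ecf13133f : CRef := CRef.mk (Pat.mk 0x1000000018000000080000000000000000 0x1e0000003f0000001f0000000c0000000c0000000c 9 6) 0 0 (step_sound _ 35 [(rh71222050f2c63a3a.shift 3 0), rhb0f9d19a8b945cb7] (by decide +kernel))
noncomputable def rhc9c1eee6517c3432 : CRef := CRef.mk (Pat.mk 0x1000000018000000080000000000000000 0x2e0000007f0000001f0000007c000000fe0000003c 9 8) 0 0 (step_sound _ 35 [(rh71222050f2c63a3a.shift 3 0), rhb7f80460900bbacf] (by decide +kernel))
noncomputable def rh671274dd771bf29b : CRef := CRef.mk (Pat.mk 0x80000000c00000004000000000000000000000000 0x1f0000001f0000003c0000000f0000007c000000180000000800000008 9 7) 0 0 (step_sound _ 195 [(rh5c5e593799055d58.shift 2 3), rhf56fe83f34135f1c] (by decide +kernel))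
noncomputable def rhd7065eb82b525fb6 : CRef := CRef.mk (Pat.mk 0x2000000030000000100000000000000000 0x800000008000001ef000003fe000001f8000000f0000000f0 9 10) 0 0 (step_sound _ 36 [(rh71222050f2c63a3a.shift 4 0), rha284c5e983b245b0] (by decide +kernel))
noncomputable def rhe31bca5cae311987 : CRef := CRef.mk (Pat.mk 0x380000000800000000 0x340000003e0000007f0000003e0000007800000030 9 7) 0 0 (step_sound _ 66 [(rh0d378fd9e8917c5a.shift 0 1), (rh4c622fddc53a5f99.shift 0 2), (rhe5624cc9140f5917.shift 1 0), (rhf41a34b41b8c2138.shift 1 0)] (by decide +kernel))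
noncomputable def rhe0d585412745f550 : CRef := CRef.mk (Pat.mk 0x20000000000000003000000010 0x20000000ff000000fe000001ff0000007800000050 9 9) 0 0 (step_sound _ 133 [(rh3c88ce959c0e423f.shift 4 0), rhc3af7f539cc22fd4] (by decide +kernel))
noncomputable def rh19d2f2ea8d76746d : CRef := CRef.mk (Pat.mk 0x1000000000000000180000000800000000000000000000000000000000 0x140000001f0000007c0000000c0000003c0000001f0000001e00000010 9 7) 0 0 (step_sound _ 99 [(rh02b61373514f8551.shift 0 3), (rh19e48db1e9b4e625.shift 2 0), (rh42a7bbf213dec003.shift 3 2), rhefa476339080fdff] (by decide +kernel))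
noncomputable def rhd4dd03a61f0ef2ce : CRef := CRef.mk (Pat.mk 0x10000000000000001800000008000000000000000000000000 0x40000001c0000003c0000000f0000007c0000000c0000001c0000001c0000001c 9 7) 0 0 (step_sound _ 163 [(rh22d86f446f3de558.shift 0 2), rh7199b08f8e774313, (rh8f3c544a17d1186e.shift 2 2), (rhec1c8b2b80cec4c0.shift 2 0)] (by decide +kernel))
noncomputable def rhfdeae66e76dd7aac : CRef := CRef.mk (Pat.mk 0x180000000c000000000000000000000000 0x4000000040000001e0000001f0000007a0000000f0000000e0000000c00000004 9 7) 0 0 (step_sound _ 133 [(rh18965a982d73c794.shift 2 3), rh32957b15cc9c4047] (by decide +kernel))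
noncomputable def rhaa16f463bec2e204 : CRef := CRef.mk (Pat.mk 0x4000000038000000000000000000000000 0x40000000580000077c000003f8000003bc0000003f0000001c 9 11) 0 0 (step_sound _ 102 [(rh02cfdba40da83e95.shift 2 2), (rh066e00cb98e43031.shift 2 2), rh257a556c69ee4933, (rh625ad03eee6c8947.shift 2 1)] (by decide +kernel))
noncomputable def rh2f886bcd553082e1 : CRef := CRef.mk (Pat.mk 0x100000000e000000000 0x1f7000000fe000000fc 9 9) 0 0 (step_sound _ 36 [rh008ec883d4619f17, (rh428265de8cd3cd2d.shift 4 1)] (by decide +kernel))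
noncomputable def rha757f55b0258536d : CRef := CRef.mk (Pat.mk 0x3000000018000000000000000000000000 0x3800000038000000ff000000ff000000d80000005f0000007c0000003c 9 8) 0 0 (step_sound _ 134 [(rh18965a982d73c794.shift 3 3), rh1df7b7afcc46ac45] (by decide +kernel))
noncomputable def rhb241e5a4dae57ed4 : CRef := CRef.mk (Pat.mk 0x70000000000000000000000000 0x180000001e000001f8000003bc0000001f0000001c 9 10) 0 0 (step_sound _ 131 [(rh4df35fbc131eb4ae.shift 1 3), (rh8bb330ee5aea9f6b.shift 2 0), rh9f54117135443173, (rhe79590487a395ecc.shift 3 2)] (by decide +kernel))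
noncomputable def rhaffaf01dd8547fc0 : CRef := CRef.mk (Pat.mk 0x3000000018000000000000000000000000 0x80000001c0000007f0000003f0000001e0000007c0000002c0000000c 9 7) 0 0 (step_sound _ 98 [(rh53b3c253cb0c65f4.shift 1 3), rh6e42b28c092e4f24] (by decide +kernel))
noncomputable def rh47139aecdbbc9d0d : CRef := CRef.mk (Pat.mk 0x80000000e0000000000000000 0x1e0000003f0000003f000000fe0000000f0000000a 9 8) 0 0 (step_sound _ 68 [rh13e3bf69a48efc05, (rh263755ef6978fdb9.shift 0 1), (rh5f7b3bfbaf903d4f.shift 0 1), rh86fee9423a6b38ba, (rhde91c129e28832b1.shift 0 1)] (by decide +kernel))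
noncomputable def rh8076ad334c0a760e : CRef := CRef.mk (Pat.mk 0x80000000e000000000000000000000000 0x3000000030000000300000007f000000fe000000ff0000003800000018 9 8) 0 0 (step_sound _ 132 [(rh572132728df34c43.shift 1 3), (rh80f90a60d87caa0d.shift 1 3), rhc617d2f6bfe1af0c] (by decide +kernel))
noncomputable def rh98a7757aac0ef84c : CRef := CRef.mk (Pat.mk 0x80000000e000000000000000000000000 0xe0000000f0000003b000000fe000000f70000001000000010 9 8) 0 0 (step_sound _ 100 [(rh06db8ceda6269a47.shift 0 2), (rh2510c9405f884362.shift 1 0), (rh263755ef6978fdb9.shift 0 2), (rh2ef78639b50b20cd.shift 0 2)] (by decide +kernel))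
noncomputable def rh7509f70518dc6fdc : CRef := CRef.mk (Pat.mk 0x180000000c000000000000000000000000 0x160000001e0000007f0000007e0000006c0000002e0000000600000006 9 7) 0 0 (step_sound _ 133 [rh1394b770098d4562, (rh18965a982d73c794.shift 2 3)] (by decide +kernel))
noncomputable def rh29e07bf57501b67a : CRef := CRef.mk (Pat.mk 0x3800000000000000000000000000000000 0x80000000c0000000f0000003e0000007f0000000e0000000e00000006 9 7) 0 0 (step_sound _ 130 [(rh0d378fd9e8917c5a.shift 0 3), (rh185f35b8bd8ec37f.shift 0 3), (rh631200791555ddc8.shift 1 0)] (by decide +kernel))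
noncomputable def rh6726f530c4296a8c : CRef := CRef.mk (Pat.mk 0x180000000a000000000000000000000000 0xe0000000f0000001f0000003f0000003c0000001f0000000e 9 6) 0 0 (step_sound _ 98 [(rh53b3c253cb0c65f4.shift 0 3), rh88353a7d3b27a512] (by decide +kernel))
noncomputable def rhdf55ced7489350e0 : CRef := CRef.mk (Pat.mk 0x180000000c000000000000000000000000 0x40000000e0000000f0000001f0000003f0000000f0000000e0000000c 9 6) 0 0 (step_sound _ 97 [(rh53b3c253cb0c65f4.shift 0 3), rhcbf7764be34a9327] (by decide +kernel))
noncomputable def rhe3a9883eee63a9ed : CRef := CRef.mk (Pat.mk 0x1800000008000000000000000000000000 0x1c0000003e0000000f0000007f0000001f0000003f0000001e00000014 9 7) 0 0 (step_sound _ 98 [rh2e128c2b742fc3db, (rh38774a83d7c573ef.shift 0 1), (rh69012675dfdb1a5b.shift 0 3), (rhbde007d47b9dc637.shift 0 1), (rhd69c262cd33b94b3.shift 0 3)] (by decide +kernel))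
noncomputable def rh438cd87e54d32767 : CRef := CRef.mk (Pat.mk 0xe000000020000000000000000000000000 0x80000001ae000000fe000001ff000000580000005000000010 9 9) 0 0 (step_sound _ 132 [(rh137c8bdba9f7c40d.shift 3 1), (rha43dac9d051bb5b2.shift 0 3), (rhd1ff8027c4c86c76.shift 1 3), (rhf459621b93742302.shift 3 1), (rhf4f1a03a19e2b36a.shift 3 0)] (by decide +kernel))
noncomputable def rh2df05858970c7398 : CRef := CRef.mk (Pat.mk 0x180000000c0000000000000000 0x3c0000007e0000006f0000007e0000007c0000001400000010 9 7) 0 0 (step_sound _ 101 [(rh18965a982d73c794.shift 2 2), rh76e509ccf2862035] (by decide +kernel))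
noncomputable def rh35b23c6699cea663 : CRef := CRef.mk (Pat.mk 0x1800000008000000000000000000000000 0x26000000670000007f0000007f0000003f0000003e00000030 9 7) 0 0 (step_sound _ 98 [rh1abd8b7394fee212, (rh69012675dfdb1a5b.shift 0 3), (rhb5fe5d40bf7848ef.shift 1 1), (rhd69c262cd33b94b3.shift 0 3)] (by decide +kernel))
noncomputable def rh7f8cd220782d897f : CRef := CRef.mk (Pat.mk 0x80000001800000008000000000000000000000000 0x8000000080000000c0000001f000000ff000000fe0000001c0000000c 9 8) 0 0 (step_sound _ 100 [(rh31c10953d624db26.shift 0 2), (rh55a1f6c57a317ce6.shift 3 1), rhd38b80129ba10a1c] (by decide +kernel))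
noncomputable def rh81b8818a92b27584 : CRef := CRef.mk (Pat.mk 0x8000000180000000800000000 0x140000001c0000001c000000080000001f000000ff000000f4 9 8) 0 0 (step_sound _ 131 [(rh1741680720c097b4.shift 2 1), (rh22cde4a1aed087ae.shift 3 1), rh4e135e28bb1b8e89] (by decide +kernel))
noncomputable def rhebb1c343ac36a587 : CRef := CRef.mk (Pat.mk 0x80000001800000008000000000000000000000000 0x60000000f0000001e0000003f0000003f0000001c00000014 9 6) 0 0 (step_sound _ 67 [(rh5ad9898cc32ef511.shift 2 0), (rh6a5858a30017413a.shift 0 1), (rh6eff4158bb400f47.shift 2 0), (rh97a1fcadaeaab608.shift 0 1), (rhc4526fc8abf298b6.shift 2 0)] (by decide +kernel))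
noncomputable def rhc2f51d815d9786ac : CRef := CRef.mk (Pat.mk 0x180000000800000008000000000000000000000000 0x100000001c0000001c0000002f0000007c0000002f0000007c000000340000001000000010 9 7) 0 0 (step_sound _ 130 [(rh4241b995bcd449e6.shift 0 2), rh44f336f55b1192bd, (rh8bfc49d28ab751de.shift 0 2), (rhd69c262cd33b94b3.shift 0 4)] (by decide +kernel))
noncomputable def rh754f911ef7ea59d0 : CRef := CRef.mk (Pat.mk 0x180000000800000008000000000000000000000000 0x40000003c0000000f000000ff0000007e000000fc00000014 9 8) 0 0 (step_sound _ 67 [(rh1f8272c5fda13dae.shift 0 1), (rh8cdd36b03d57a2f6.shift 2 0), (rh9aab2e37f490e5ca.shift 0 1)] (by decide +kernel))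
noncomputable def rhd1f4591a1c263758 : CRef := CRef.mk (Pat.mk 0x1800000008000000080000000000000000 0x40000000f0000007c0000000f000000ff0000007e000000fc 9 8) 0 0 (step_sound _ 36 [rh34e677bdca93d83f, (rh37639814abe95979.shift 2 0), (rh6d5e7e64c3b63e80.shift 0 1), rh951db718d42a9c90] (by decide +kernel))
noncomputable def rhbc7da83500d1ae25 : CRef := CRef.mk (Pat.mk 0x3000000018000000000000000000000000 0x80000001c0000001f0000003f0000001e0000007c0000003e0000001c 9 7) 0 0 (step_sound _ 98 [(rh53b3c253cb0c65f4.shift 1 3), rh8b1454c4601f5f73] (by decide +kernel))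
noncomputable def rhcae357ed9ce22e25 : CRef := CRef.mk (Pat.mk 0x100000001800000008000000000000000000000000 0x4000000160000007f000000ff0000007f0000003c00000034 9 8) 0 0 (step_sound _ 67 [(rh71222050f2c63a3a.shift 3 1), rhc579c9c70ccb5e33] (by decide +kernel))
noncomputable def rh3815aac884922bf2 : CRef := CRef.mk (Pat.mk 0x8000000080000000c0000000000000000000000000000000000000000 0x140000003c0000000f0000003c0000000f0000001e0000001c0000001c00000014 9 6) 0 0 (step_sound _ 131 [(rh431719c633196326.shift 2 0), (rh5ee4dc8825dcefa0.shift 0 3), (rh6102227559b23512.shift 2 0), (rhb09150e634b21e64.shift 0 3), (rhe9722138ff9c2614.shift 0 3)] (by decide +kernel))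
noncomputable def rhabffa445020a17ca : CRef := CRef.mk (Pat.mk 0x10000000100000001800000000 0x80000003f000000ff000000ff000000180000001800000010 9 8) 0 0 (step_sound _ 131 [(rh0dbc8abee7ad42d4.shift 3 0), (rh114f4abf4ea101c9.shift 3 0), rh16127a428515670d, (rh2fc971bc337245d8.shift 0 1), (rhbec796c3ea7a32e6.shift 2 0)] (by decide +kernel))
noncomputable def rhcd07c62159bca617 : CRef := CRef.mk (Pat.mk 0x1000000018000000000000000000000000 0xc0000003c0000007c0000001e0000001c000000ff0000007e0000007f 9 8) 0 0 (step_sound _ 67 [(rh11d179a357fc6647.shift 1 1), rh29f5abba2313e090, (rhcf80391c5046a495.shift 3 0), (rhf9366b6a121593ef.shift 3 0)] (by decide +kernel))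
noncomputable def rh541019ff5751e5fd : CRef := CRef.mk (Pat.mk 0x4000000070000000000000000000000000 0x50000000500000007e000001fe000003b70000002000000020 9 10) 0 0 (step_sound _ 69 [(rh309e40d1bf39079f.shift 0 2), (rh3ac4f9f8de9b5641.shift 1 0), (rh3dd953df34b564af.shift 2 0), (rh5425f6111a084d6f.shift 1 0), (rhf9366b6a121593ef.shift 5 0)] (by decide +kernel))
noncomputable def rhf376a83a820aa330 : CRef := CRef.mk (Pat.mk 0x4000000070000000000000000000000000 0x180000007f0000007e0000003f0000001f0000001c 9 7) 0 0 (step_sound _ 99 [(rh21d582c147e7e118.shift 1 2), rh257a556c69ee4933, (rh5e601430b8bc2e39.shift 0 2), (rh7fb660bc21ce4329.shift 1 3)] (by decide +kernel))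
noncomputable def rh8d4853804b959281 : CRef := CRef.mk (Pat.mk 0x1000000038000000000000000000000000 0xc0000000c0000000c0000001e000000ff0000003f0000001c00000018 9 8) 0 0 (step_sound _ 131 [(rh253c7727954085aa.shift 2 0), rh7aa65f1654992f56, (rhe2b63c00a3d7bb73.shift 1 3)] (by decide +kernel))
noncomputable def rh51b9ec0f78332fe1 : CRef := CRef.mk (Pat.mk 0x2000000070000000000000000000000000 0x80000003b7000001fe000003fc0000004000000040 9 10) 0 0 (step_sound _ 70 [rh1b8e8101a4663efb, (rh4818442fd6d77c78.shift 4 0), (rhc21a95c499b3efdb.shift 3 2)] (by decide +kernel))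
noncomputable def rh94517f616f3ec81e : CRef := CRef.mk (Pat.mk 0x40000000e000000000000000000000000 0x30000000300000003000000770000003e000000770000000600000006 9 7) 0 0 (step_sound _ 100 [(rha93a5dd541ab8209.shift 1 2), rhc359ae14cfe16595, (rhe3060b190bc0bc78.shift 0 3)] (by decide +kernel))
noncomputable def rh6fc232e51495be97 : CRef := CRef.mk (Pat.mk 0x1000000038000000000000000000000000 0x44000001d7000000fe000001ff0000006c00000028 9 9) 0 0 (step_sound _ 67 [rh0fcb97f14f9443fb, (rh2820ca9a6c4f41b4.shift 0 2), (rh2854df0c701c4e5a.shift 2 0), (rhdc1641106d7e5aa2.shift 2 2)] (by decide +kernel))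
noncomputable def rh55e8f2b5fd790408 : CRef := CRef.mk (Pat.mk 0x1000000038000000000000000000000000 0xe0000000f0000001f0000003e0000007f0000006c00000028 9 7) 0 0 (step_sound _ 98 [(rh185f35b8bd8ec37f.shift 0 2), (rh3a835c9c24581dd0.shift 0 2), (rh58742d3a678a5da7.shift 1 0), (rh592c7139d2c44767.shift 0 2), (rhe0a2f640c8008c73.shift 0 1)] (by decide +kernel))
noncomputable def rh3029ec18495cb920 : CRef := CRef.mk (Pat.mk 0x40000000e000000000000000000000000 0x2000000770000003f0000007f0000000700000006 9 7) 0 0 (step_sound _ 100 [rh0c79f83acfcd8649, (rha93a5dd541ab8209.shift 1 2), (rhe3060b190bc0bc78.shift 0 3)] (by decide +kernel))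
noncomputable def rh13beb9f03bba3894 : CRef := CRef.mk (Pat.mk 0x2000000038000000000000000000000000 0x280000007c000003af000001f8000001fc0000005000000050 9 10) 0 0 (step_sound _ 68 [(rh2cb8437104de90cf.shift 2 0), rh61d0a2f344f50e6e, (rhcf80391c5046a495.shift 4 0), (rhdb209ca2faddcbda.shift 2 0)] (by decide +kernel))
noncomputable def rh98a51a0e62c1e1fa : CRef := CRef.mk (Pat.mk 0x200000003800000000000000000000000000000000 0x80000002c0000002f0000003e0000007f0000001e0000001e0000000a 9 7) 0 0 (step_sound _ 130 [(rh076cd4e18f7063e1.shift 1 0), (rh775ca1963e850b80.shift 0 3), (rh9483656c38360087.shift 1 1)] (by decide +kernel))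
noncomputable def rh6c651ddb625464e4 : CRef := CRef.mk (Pat.mk 0x80000000c0000000800000000000000000000000000000000 0x40000000c0000001f0000007b0000001f0000001e0000001c00000010 9 7) 0 0 (step_sound _ 132 [(rh4ca5dae25f5c14ff.shift 0 4), rh5f8078d122d19dab, (rhf72a0967ce6476f4.shift 0 1)] (by decide +kernel))
noncomputable def rh7c82a439beb1354c : CRef := CRef.mk (Pat.mk 0x10000000100000001800000000 0x80000003f0000007e000000ff0000001e0000007800000020 9 8) 0 0 (step_sound _ 132 [rh19cc2b19553767e3, (rh361b7d07b7d79d82.shift 1 0), (rhe62cab2ff5ad6fe2.shift 3 1)] (by decide +kernel))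
noncomputable def rh13439ed99afe3284 : CRef := CRef.mk (Pat.mk 0x80000000c0000000400000000 0x1e0000001f0000007f0000001f0000000c00000008 9 7) 0 0 (step_sound _ 131 [(rh5c5e593799055d58.shift 2 1), rh9a6e518fda4c151d] (by decide +kernel))
noncomputable def rha3d5b97bb6fd2364 : CRef := CRef.mk (Pat.mk 0x10000000180000000800000000 0xc0000005c000000fe000000ff000000fe0000006800000020 9 8) 0 0 (step_sound _ 132 [(rh5c5e593799055d58.shift 3 1), rhc81cbee1763309ac] (by decide +kernel))
noncomputable def rhc525dacc354c153b : CRef := CRef.mk (Pat.mk 0x80000000c000000040000000000000000 0x1400000016000000760000007f000000ff0000007c0000000400000004 9 8) 0 0 (step_sound _ 34 [(rh451881a82fcc8489.shift 0 1), (rh71222050f2c63a3a.shift 2 0)] (by decide +kernel))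
noncomputable def rha372503b77348d1c : CRef := CRef.mk (Pat.mk 0xc000000040000000400000000 0x80000000e0000000e0000001e0000007c0000000e0000003c0000000f0000000a 9 7) 0 0 (step_sound _ 130 [rh3ca4c10fdf355329, (rh5a860b5057e1e4c5.shift 1 1), rh9a2622a104cce83f, rhc7b7c9dcf089a3c8, (rhfc7504c63764a183.shift 1 0)] (by decide +kernel))
noncomputable def rhb14e69c65ac14819 : CRef := CRef.mk (Pat.mk 0x6000000020000000200000000000000000000000000000000 0x1000000070000001f000000060000000200000002000000070000000700000005 9 5) 0 0 (step_sound _ 97 [rh183dfa140b225452, (rh2f68792b6b779e96.shift 1 3)] (by decide +kernel))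
noncomputable def rhb82248bc966f56ef : CRef := CRef.mk (Pat.mk 0x1c00000008000000000000000000000000 0x1800000038000000fc000000ff00000078000000300000003000000030 9 8) 0 0 (step_sound _ 100 [rh8cd718e893fc59d5, (rhad5d8fc3675c15dd.shift 0 3), (rhd48d440cb11ecd47.shift 2 1)] (by decide +kernel))
noncomputable def rhc3c85f4f8a2d9f44 : CRef := CRef.mk (Pat.mk 0x3800000010000000000000000000000000 0x3000000030000000770000003e00000077000000600000006000000060 9 7) 0 0 (step_sound _ 130 [(rh2a10de59957b9e43.shift 0 3), (rh92eeac1c1b6d8178.shift 2 0), (rhb2432c16363a7e8d.shift 0 3)] (by decide +kernel))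
noncomputable def rh19bb708c5e5bb6cf : CRef := CRef.mk (Pat.mk 0xe0000000400000000 0x1a0000001f0000007f0000003e0000007c00000018 9 7) 0 0 (step_sound _ 68 [(rh3fc3a7fb6866dcd4.shift 1 1), rh6e2d99e18d1e2ff1, (rhb18e6c78a554867d.shift 0 2), (rhe401600d466b97cd.shift 0 1), rhe5624cc9140f5917] (by decide +kernel))
noncomputable def rh32bf501aae509e29 : CRef := CRef.mk (Pat.mk 0x2000000030000000100000000000000000 0x8000000d8000003ff000003fe000001f60000003c00000038 9 10) 0 0 (step_sound _ 36 [(rh71222050f2c63a3a.shift 4 0), rhc92ac8aee84656ab] (by decide +kernel))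
noncomputable def rhc5d60de2fb7762c3 : CRef := CRef.mk (Pat.mk 0x80000000c00000000000000000000000000000000 0x40000001c0000001c000000780000007f000000ff000000f80000003e0000001c00000004 9 8) 0 0 (step_sound _ 164 [(rh484d0f159a7bbf56.shift 1 0), (rh49bc5c1ce50ffeb3.shift 1 2), (rh53cb300bcb72518b.shift 0 1), (rh69012675dfdb1a5b.shift 0 4)] (by decide +kernel))
noncomputable def rhb3962d68b681fc5b : CRef := CRef.mk (Pat.mk 0x80000000e0000000000000000 0x1400000034000001ff000000fe000000eb0000000a 9 9) 0 0 (step_sound _ 68 [(rh096767d96a1b3292.shift 1 1), rh21460d2d48a35cb8, (rh29629de3cf8230ec.shift 0 1), rh86fee9423a6b38ba] (by decide +kernel))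
noncomputable def rhb3ab7d3ee045c6c1 : CRef := CRef.mk (Pat.mk 0x180000000c000000000000000000000000 0x4000000140000001f0000003f0000007b0000003f0000001e 9 7) 0 0 (step_sound _ 97 [rh294539d72efcc4ea, (rh53b3c253cb0c65f4.shift 0 3)] (by decide +kernel))
noncomputable def rhd34871406b35ece6 : CRef := CRef.mk (Pat.mk 0x80000000c000000000000000000000000 0x6000000360000007f0000007f0000007f000000730000003200000010 9 7) 0 0 (step_sound _ 132 [rh04561ea046c0cfb0, (rh0bb882ba86b2372d.shift 0 3), (rh35c891fdde68685c.shift 0 1), (rh574fdbf07bdd18b9.shift 0 3)] (by decide +kernel))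
noncomputable def rhb80e4fd21d0a286d : CRef := CRef.mk (Pat.mk 0x8000000080000000c000000000000000000000000 0x100000001c0000001c0000000c0000007f0000007c0000000f000000180000001800000010 9 7) 0 0 (step_sound _ 132 [(rh255316902b52f0fe.shift 1 2), rh6912df321cd2b57a, (rhaba50f5f0dc791b7.shift 0 2), (rhd69c262cd33b94b3.shift 0 3)] (by decide +kernel))
noncomputable def rh540bf8d98e2298c2 : CRef := CRef.mk (Pat.mk 0x8000000080000000c000000000000000000000000 0x140000007e0000007e0000000f000000180000001800000010 9 7) 0 0 (step_sound _ 67 [(rh04aabb2cf50b542e.shift 0 1), (rh0d0c5fe888da5ad6.shift 0 1), (rh305945700f20b255.shift 1 1), (rh8ff3dde5b1c639e0.shift 2 0)] (by decide +kernel))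
noncomputable def rhfed29cff0123a5be : CRef := CRef.mk (Pat.mk 0x10000000100000001000000000000000000000000000000000 0x80000002f000000fe000000ff000000300000001000000030000000380000003800000028 9 8) 0 0 (step_sound _ 227 [(rh114f4abf4ea101c9.shift 3 3), (rh19c4456947fbe32d.shift 1 3), (rh2fc971bc337245d8.shift 0 4), (rhad170aec7bd76d6f.shift 3 0), (rhbb58234f899084b7.shift 3 1), (rhbec796c3ea7a32e6.shift 2 3)] (by decide +kernel))
noncomputable def rhd88407d5523db5e1 : CRef := CRef.mk (Pat.mk 0x1000000018000000100000000000000000 0x1800000038000000ff000000ff000000f8000000100000001000000010 9 8) 0 0 (step_sound _ 131 [(rh310efc5b3d2b718c.shift 1 2), (rh3cb04db3dd2b6a55.shift 3 0), rhdeda6dfdbc7fee2e] (by decide +kernel))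
noncomputable def rh4933e2c3207bfe45 : CRef := CRef.mk (Pat.mk 0x40000000600000004000000000000000000000000 0x3a0000003f0000003e0000000c0000000e0000000e00000002 9 6) 0 0 (step_sound _ 66 [(rh63cfbb6101e13e7c.shift 0 1), (rhcab3157f7bdcba3e.shift 1 0), (rhe286c75f2739cce2.shift 1 1)] (by decide +kernel))
noncomputable def rh53f934957931ef94 : CRef := CRef.mk (Pat.mk 0x4000000060000000400000000 0xa0000000e0000003f0000003f0000001e0000003c00000018 9 6) 0 0 (step_sound _ 130 [rh14555ad4858fce7e, (rh87e1d7e6dc3a18b6.shift 1 0), rha1f9145d0e016d44, (rhc85cc95794737cf7.shift 1 1), (rhced6d86d2069808b.shift 2 0)] (by decide +kernel))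
noncomputable def rhaadc474b9c4eb321 : CRef := CRef.mk (Pat.mk 0x100000001000000018000000000000000000000000 0x70000000f00000003c000000f70000003e000000770000002000000020 9 8) 0 0 (step_sound _ 101 [(rh70e33bfdf511e144.shift 4 0), (rhae7d7522edfd7f18.shift 1 2), (rhf6e466063c388db3.shift 0 1)] (by decide +kernel))
noncomputable def rh975a8684b31e01ff : CRef := CRef.mk (Pat.mk 0x100000001000000018000000000000000000000000 0x38000000780000001e000000f70000003e000000770000002000000020 9 8) 0 0 (step_sound _ 101 [(rh2ec19195c4a3998f.shift 1 2), (rh70e33bfdf511e144.shift 4 0), (rhf6e466063c388db3.shift 0 1)] (by decide +kernel))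
noncomputable def rh84f041d04e18cba7 : CRef := CRef.mk (Pat.mk 0x10000000100000001000000000000000000000000000000000 0x80000002f000000fe000000ff000000300000001000000010000000380000003800000028 9 8) 0 0 (step_sound _ 227 [(rh114f4abf4ea101c9.shift 3 3), (rh19c4456947fbe32d.shift 1 3), (rh2fc971bc337245d8.shift 0 4), (rhad170aec7bd76d6f.shift 3 0), (rhbec796c3ea7a32e6.shift 2 3), (rhdc17cc499b796620.shift 3 3)] (by decide +kernel))
noncomputable def rhcd05a2b5c12db3b2 : CRef := CRef.mk (Pat.mk 0x8000000080000000c00000000000000000000000000000000 0x400000004000000160000001f0000007a0000001f0000007a0000001c0000001c00000004 9 7) 0 0 (step_sound _ 164 [(rh574fdbf07bdd18b9.shift 0 4), (rh989244dd23f3732c.shift 0 1), (rha1ac771c65ae9cf8.shift 0 2), (rhbaaf30bf3e29c8c8.shift 1 0)] (by decide +kernel))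
noncomputable def rh922977ca81f98f4f : CRef := CRef.mk (Pat.mk 0x10000000100000001800000000 0x280000003f0000007e000000ff000000f00000003c00000020 9 8) 0 0 (step_sound _ 132 [(rh1741680720c097b4.shift 3 1), (rh3038ab5f74634e6d.shift 2 0), rh8e24859a7037eb94] (by decide +kernel))
noncomputable def rh8e4d52a2c0d49f87 : CRef := CRef.mk (Pat.mk 0x80000000c00000008000000000000000000000000 0x40000000c0000001f0000007b0000001f0000001e00000014 9 7) 0 0 (step_sound _ 67 [(rh33a80a760172f154.shift 0 1), (rh5192e84255fe3228.shift 2 0), (rh6eff4158bb400f47.shift 2 0), (rhe286c75f2739cce2.shift 2 1)] (by decide +kernel))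
noncomputable def rha979033f4c98c6bb : CRef := CRef.mk (Pat.mk 0x1000000018000000000000000000000000 0x2000000038000000fe000000ff000000fe000000f70000003000000020 9 8) 0 0 (step_sound _ 134 [rh035fc791582cc7c9, (rh3628d031a7d3a1bb.shift 1 1), (rh45fc6d1d1312ce8b.shift 2 1), (rha9583e2127520dd3.shift 1 1), (rhcadd85ff2a73e8c7.shift 1 3)] (by decide +kernel))
noncomputable def rha7c5ba994ff3b3e3 : CRef := CRef.mk (Pat.mk 0x8000000080000000c000000000000000000000000 0x1000000018000000780000007f0000007f0000003c00000014 9 7) 0 0 (step_sound _ 132 [(rh574fdbf07bdd18b9.shift 0 3), (rh581510881ff0180c.shift 2 0), (rh78fa9c6aa576e5e9.shift 0 1)] (by decide +kernel))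
noncomputable def rhda2a449c36185d19 : CRef := CRef.mk (Pat.mk 0x180000000c0000000000000000 0x80000003c0000003e000000ff0000001b0000001f0000001c0000000c 9 8) 0 0 (step_sound _ 65 [(rh53b3c253cb0c65f4.shift 0 2), rhf0fa09f0ac651e57] (by decide +kernel))
noncomputable def rh9dfb187eb0583c69 : CRef := CRef.mk (Pat.mk 0xa0000000300000000000000000000000000000000 0x80000000c0000001c0000001c0000001e0000001f0000007e0000001e0000001c00000014 9 7) 0 0 (step_sound _ 164 [rhac03db5a5aa34237, (rhb2a0b9ccfb5cecd5.shift 0 4)] (by decide +kernel))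
noncomputable def rh86d75c1795895823 : CRef := CRef.mk (Pat.mk 0x2000000030000000100000000000000000 0x20000000200000076f000003fe000003df0000004000000040 9 11) 0 0 (step_sound _ 165 [rh0889731417eff742, (rh5c5e593799055d58.shift 4 2)] (by decide +kernel))
noncomputable def rh8496f0f4cca67aa6 : CRef := CRef.mk (Pat.mk 0x100000001800000008000000000000000000000000 0x4000000160000007f000000ff0000007f0000003c00000034 9 8) 0 0 (step_sound _ 67 [(rh71222050f2c63a3a.shift 3 1), rhf96a9a59b654dfcc] (by decide +kernel))
noncomputable def rhf941adc6ecc49447 : CRef := CRef.mk (Pat.mk 0x180000000c000000000000000000000000 0x140000001c0000001e0000001f0000007a0000000f0000000e0000000c00000004 9 7) 0 0 (step_sound _ 133 [(rh18965a982d73c794.shift 2 3), rhf25c5d08c7a26af8] (by decide +kernel))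
noncomputable def rhf3c4779a1866500f : CRef := CRef.mk (Pat.mk 0xc000000060000000000000000 0x1c0000003e0000001f0000003c0000007e0000007700000006 9 7) 0 0 (step_sound _ 100 [(rh18965a982d73c794.shift 1 2), rh74334d05f612b4c1] (by decide +kernel))
noncomputable def rh6ebb28a40c7a33d6 : CRef := CRef.mk (Pat.mk 0x180000000c0000000000000000 0x8000000080000001c0000001e0000007f0000001b0000003f0000002f0000000c 9 7) 0 0 (step_sound _ 65 [(rh53b3c253cb0c65f4.shift 0 2), rha93fc485f67f993a] (by decide +kernel))
noncomputable def rh43cb9b87087debbc : CRef := CRef.mk (Pat.mk 0x280000000c0000000000000000000000000000000000000000 0x140000001c0000001f000000780000000f0000007c000000180000001c0000001c00000004 9 7) 0 0 (step_sound _ 196 [(rh18965a982d73c794.shift 2 5), rhaefc91dd8c502a76] (by decide +kernel))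
noncomputable def rhdcb3b287552ee2e7 : CRef := CRef.mk (Pat.mk 0x100000001c000000000000000000000000 0x4000000340000003f0000003f0000000b0000000a 9 6) 0 0 (step_sound _ 97 [(rh33e738c4ed385b9f.shift 1 3), rh4471871c6e3d1cbe] (by decide +kernel))
noncomputable def rhb175df23a629fb3e : CRef := CRef.mk (Pat.mk 0x80000000e000000000000000000000000 0x3000000030000000320000003b0000003e0000007f0000001c0000001c 9 7) 0 0 (step_sound _ 100 [(rh06db8ceda6269a47.shift 0 2), rh22f53ba2f05af569, (rh7f83bd45b8e0f5e4.shift 1 0)] (by decide +kernel))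
noncomputable def rh58f639f68a22ed16 : CRef := CRef.mk (Pat.mk 0x10000000100000001000000000 0x280000003f000000fe000000ff000000300000003000000020 9 8) 0 0 (step_sound _ 132 [(rh1741680720c097b4.shift 3 1), (rh5a0926fb97031008.shift 0 1), (rh5abfc4c9d959be03.shift 3 0), (rhced6d86d2069808b.shift 4 0)] (by decide +kernel))
noncomputable def rh4ea54f50a7b21957 : CRef := CRef.mk (Pat.mk 0x1000000010000000180000000000000000 0x280000003c000000f0000000f8000000ff0000003f 9 8) 0 0 (step_sound _ 36 [rh592616b467fecf3e, (rh6311a353758d5f3a.shift 2 0), (rhab3c3f3ae8c9664f.shift 2 0)] (by decide +kernel))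
noncomputable def rh57b2f1c6608c1de3 : CRef := CRef.mk (Pat.mk 0x100000001c00000000000000000000000000000000 0x1000000014000000140000003f000000ff0000002b0000002a00000002 9 8) 0 0 (step_sound _ 100 [(rh74331b3d7dd6c890.shift 1 1), (rh7e8462b64b0bb05a.shift 2 2), (rh8ee80cc30e93a344.shift 1 3), (rha7b5014334a28e4d.shift 1 2), rhe72f90413ae7c9dd] (by decide +kernel))
noncomputable def rh9d0c382533e09a5f : CRef := CRef.mk (Pat.mk 0x100000001c000000000000000000000000 0x28000000380000003c0000003c000000170000003f0000007b0000002a00000008 9 7) 0 0 (step_sound _ 164 [(rh281c6819542c66e6.shift 3 0), (rh32431e66bbf434a4.shift 3 2), (rh8c4d54da64be7151.shift 1 1), (rhc4aaccc35df926d5.shift 0 1)] (by decide +kernel))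
noncomputable def rhd0eb5f1d0330ff2a : CRef := CRef.mk (Pat.mk 0x10000000100000001800000000 0x280000003f0000007e000000ff000000f00000003c00000020 9 8) 0 0 (step_sound _ 132 [(rh1741680720c097b4.shift 3 1), rh19cc2b19553767e3, (rh3038ab5f74634e6d.shift 2 0)] (by decide +kernel))
noncomputable def rh68a3acb25a4cb697 : CRef := CRef.mk (Pat.mk 0x80000000c000000040000000000000000 0x1000000010000000700000007e000001ff000000770000003c0000001c 9 9) 0 0 (step_sound _ 34 [rh0aeb73b3b7f746d9, (rh71222050f2c63a3a.shift 2 0)] (by decide +kernel))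
noncomputable def rh75b7816aea5eb733 : CRef := CRef.mk (Pat.mk 0x1000000018000000080000000000000000 0x1000000010000001f0000000fe000001ef0000007c00000028 9 9) 0 0 (step_sound _ 164 [rh04062858e25effcf, (rh5c5e593799055d58.shift 3 2)] (by decide +kernel))
noncomputable def rh4b6f765f1ba3c3d6 : CRef := CRef.mk (Pat.mk 0x80000000c000000040000000000000000 0x10000000160000007c000001ff000000770000003e0000001e 9 9) 0 0 (step_sound _ 34 [rh54731baf45f01efb, (rh71222050f2c63a3a.shift 2 0)] (by decide +kernel))
noncomputable def rhc25fd1a64bc8fdf8 : CRef := CRef.mk (Pat.mk 0x1800000008000000000000000000000000 0x3000000074000001f7000000fe000001ef000000e8000000e8000000a0 9 9) 0 0 (step_sound _ 133 [(rh2820ca9a6c4f41b4.shift 0 3), (rh4d7462d91f3de046.shift 1 1), rha602c15111dc9a57, (rhec89969cfdaf3653.shift 2 1), (rhfa35e196e150edb4.shift 2 3)] (by decide +kernel))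
noncomputable def rh3a18a042b76ecf01 : CRef := CRef.mk (Pat.mk 0x18000000080000000800000000 0x4000000fe000000ff0000001f0000000f0000003c00000014 9 8) 0 0 (step_sound _ 131 [rh26a641dd1ea9a7b1, rh44d930f2a4d2886a, (rh771d065bdc85bf2d.shift 2 0), (rhded4723d1e79ad9f.shift 0 1)] (by decide +kernel))
noncomputable def rhbe125b5173b0f695 : CRef := CRef.mk (Pat.mk 0x3800000008000000000000000000000000 0x1c0000001c0000007f0000003e0000006e000000260000000600000006 9 7) 0 0 (step_sound _ 130 [(rh4c622fddc53a5f99.shift 0 4), (rh814765acf06398ac.shift 1 2), (rhd79a59188b24ad76.shift 1 0)] (by decide +kernel))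
noncomputable def rh58f2495f770b4e21 : CRef := CRef.mk (Pat.mk 0x3000000014000000000000000000000000 0xa0000000e0000000e0000001e0000003e0000001f0000003e0000000e0000000e 9 6) 0 0 (step_sound _ 97 [(rh1c62b6193297d9e3.shift 1 3), rhfa84a0654bd30f60] (by decide +kernel))
noncomputable def rhdc7e334798138c83 : CRef := CRef.mk (Pat.mk 0x180000000a00000000000000000000000000000000 0x100000001c0000001e000000780000000f0000007f0000003c0000001c00000014 9 7) 0 0 (step_sound _ 130 [rh0fca759033c5d0b6, (rh53b3c253cb0c65f4.shift 0 4)] (by decide +kernel))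
noncomputable def rhea2f2bb7cb3ccd6e : CRef := CRef.mk (Pat.mk 0xc00000006000000000000000000000000 0x80000000c0000003e0000003f0000003e0000003f0000001e00000016 9 6) 0 0 (step_sound _ 65 [rh5461c4e81d18a928, (rhadf429772c25fde0.shift 1 0), rhda38e211aed6834c] (by decide +kernel))
noncomputable def rh829b3c0bc98191ec : CRef := CRef.mk (Pat.mk 0xc000000060000000000000000 0x1e0000003f0000007f0000003c0000000e0000000e00000006 9 7) 0 0 (step_sound _ 100 [(rh18965a982d73c794.shift 1 2), rhd9124a1d6ccddcd0] (by decide +kernel))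
noncomputable def rh7364a2573fcd3f46 : CRef := CRef.mk (Pat.mk 0x10000000100000001800000000000000000000000000000000 0x2f0000007e0000007f000000380000001800000018000000180000001000000010 9 7) 0 0 (step_sound _ 227 [(rh0169180638002a16.shift 0 3), (rhab39f1dcf7161280.shift 3 3), (rhbdd4e349c1dde679.shift 3 3), (rhe2351b2f0e4a32a8.shift 3 0)] (by decide +kernel))
noncomputable def rh60d32d9bd50fe749 : CRef := CRef.mk (Pat.mk 0x10000000100000001800000000 0x280000003f0000007e000000ff000000380000003800000020 9 8) 0 0 (step_sound _ 132 [(rh0d1a065a153564d2.shift 3 1), rh19cc2b19553767e3, (rhf3cdd189c46cffe9.shift 3 0)] (by decide +kernel))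
noncomputable def rhcae67b131701e822 : CRef := CRef.mk (Pat.mk 0x80000000c000000000000000000000000 0x40000001c0000001e0000003e0000000f0000003e0000007f0000001f0000001f 9 7) 0 0 (step_sound _ 67 [(rh0e2845dfa17f087f.shift 1 0), (rh48ce442b8e74e2d6.shift 0 1), rh7c4906a2093b9cee, (rh9354b7b2a570d770.shift 1 0), rhda7a54431dcdab9d, (rhed8a7363a3d11d93.shift 1 1)] (by decide +kernel))
noncomputable def rhc1854128e48f4897 : CRef := CRef.mk (Pat.mk 0x10000000180000000000000000 0x2000000038000000fe000000ff000000fe000000f000000070 9 8) 0 0 (step_sound _ 101 [(rh49bc5c1ce50ffeb3.shift 2 0), (rh574fdbf07bdd18b9.shift 1 2), rhaebbe109451149b0, (rhef761348cfba9e15.shift 1 0)] (by decide +kernel))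
noncomputable def rh4b1fbf527c56e1f3 : CRef := CRef.mk (Pat.mk 0x8000000080000000c0000000000000000 0x140000001c0000001e0000003f0000007f000000ff000000f000000010 9 8) 0 0 (step_sound _ 100 [(rh05daffe037e53296.shift 0 1), (rh0bb882ba86b2372d.shift 0 2), (rh31641351c0b0da60.shift 1 0), (rh399c914e74293040.shift 0 1)] (by decide +kernel))
noncomputable def rh5a932576a1b27c3d : CRef := CRef.mk (Pat.mk 0x3000000018000000000000000000000000 0x3000000034000000760000003f0000007e0000001e0000001800000008 9 7) 0 0 (step_sound _ 98 [rh075a21aecb60622e, (rh53b3c253cb0c65f4.shift 1 3)] (by decide +kernel))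
noncomputable def rh231c2f4fea12af33 : CRef := CRef.mk (Pat.mk 0x80000000c000000040000000000000000 0x1c0000001c000000780000007f000000fc0000007800000010 9 8) 0 0 (step_sound _ 163 [(rh5c5e593799055d58.shift 2 2), rhdd165234d5fb6a7b] (by decide +kernel))
noncomputable def rh12376ac168eb8d50 : CRef := CRef.mk (Pat.mk 0x4000000060000000200000000000000000 0x3f7000003fe000003bf000001e0000000e0 9 10) 0 0 (step_sound _ 37 [rh118289d44f19ffe3, (rh71222050f2c63a3a.shift 5 0)] (by decide +kernel))
noncomputable def rh40b828e533978e9b : CRef := CRef.mk (Pat.mk 0x3000000018000000000000000000000000 0x3000000038000000380000001e0000007f0000007c0000003c 9 7) 0 0 (step_sound _ 98 [(rh53b3c253cb0c65f4.shift 1 3), rhfe33e0bac87a5cdc] (by decide +kernel))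
noncomputable def rh4d6d879f677d78e3 : CRef := CRef.mk (Pat.mk 0xc00000006000000000000000000000000 0x80000000e0000001f0000003c0000003f0000003e0000000f0000000a00000002 9 6) 0 0 (step_sound _ 132 [(rh18965a982d73c794.shift 1 3), rh89f85c2a8b471f07] (by decide +kernel))
noncomputable def rhd7902f3ad1ed88da : CRef := CRef.mk (Pat.mk 0x3000000018000000000000000000000000 0x30000000370000003f0000001e0000007e0000007e0000003c 9 7) 0 0 (step_sound _ 98 [rh216af0ac0b5f7e04, (rh53b3c253cb0c65f4.shift 1 3)] (by decide +kernel))
noncomputable def rhbaca2e47b5eb4c17 : CRef := CRef.mk (Pat.mk 0x3000000018000000000000000000000000 0x3c0000003f000000fc000000fc000000d8000000480000000800000008 9 8) 0 0 (step_sound _ 134 [(rh18965a982d73c794.shift 3 3), rha33761987e536fae] (by decide +kernel))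
noncomputable def rh5dfe9d13e38e51fb : CRef := CRef.mk (Pat.mk 0x180000000c000000000000000000000000 0x8000000080000001c0000001e0000007f0000001b0000003f0000002f0000000c00000004 9 7) 0 0 (step_sound _ 97 [rh45fd3095f2ddb4cf, (rh53b3c253cb0c65f4.shift 0 3)] (by decide +kernel))
noncomputable def rh7c1ecc3fff9c5881 : CRef := CRef.mk (Pat.mk 0x180000000c000000000000000000000000 0x22000000330000001f0000003f0000003f0000003c00000018 9 6) 0 0 (step_sound _ 97 [(rh53b3c253cb0c65f4.shift 0 3), rh6de9c10402cb577c] (by decide +kernel))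
noncomputable def rh80df0ed9eb424ce8 : CRef := CRef.mk (Pat.mk 0x80000000c000000040000000000000000 0x1c0000001c0000003c0000007c0000007f0000007a00000010 9 7) 0 0 (step_sound _ 163 [rh104e9ac1ffcb8856, (rh5c5e593799055d58.shift 2 2)] (by decide +kernel))
noncomputable def rh2c7947ebd6a8f541 : CRef := CRef.mk (Pat.mk 0x1000000018000000080000000000000000 0xe0000000e0000000f000000ff0000001f0000000f0000003c0000001c 9 8) 0 0 (step_sound _ 35 [(rh71222050f2c63a3a.shift 3 0), rhec757957b689879c] (by decide +kernel))
noncomputable def rha069de78e17f0f6e : CRef := CRef.mk (Pat.mk 0x180000000c0000000000000000 0x100000001c0000001c0000001e0000001b0000001f000000ff000000f400000014 9 8) 0 0 (step_sound _ 65 [rh0e7134f760b1ef44, (rh53b3c253cb0c65f4.shift 0 2)] (by decide +kernel))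
noncomputable def rh88912ad0ac509f69 : CRef := CRef.mk (Pat.mk 0x18000000080000000800000000000000000000000000000000 0x2c0000006e0000007e0000007f0000003c000000180000001c0000001c00000004 9 7) 0 0 (step_sound _ 162 [(rh69012675dfdb1a5b.shift 0 5), rh8967441de5a72184, (rhfaaf361f0d26f9ac.shift 1 3)] (by decide +kernel))
noncomputable def rh448bdeb6ca9512d9 : CRef := CRef.mk (Pat.mk 0x180000000800000008000000000000000000000000 0xe70000007f000000ff0000000c0000001c0000001c00000010 9 8) 0 0 (step_sound _ 67 [(rh6775dd19ba725050.shift 0 1), (rh8c3839f9b9075f23.shift 3 0), (rh9aab2e37f490e5ca.shift 0 1)] (by decide +kernel))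
noncomputable def rh611f359e4d96ca87 : CRef := CRef.mk (Pat.mk 0x180000000c000000000000000000000000 0x380000007c0000003e0000001f000000ff0000001f0000000e00000004 9 8) 0 0 (step_sound _ 97 [(rh53b3c253cb0c65f4.shift 0 3), rhc8817a78c40c7818] (by decide +kernel))
noncomputable def rhcb47d198534baa8b : CRef := CRef.mk (Pat.mk 0xc00000006000000000000000000000000 0x80000000c0000003c0000003f0000003e0000003f0000001e00000006 9 6) 0 0 (step_sound _ 132 [(rh18965a982d73c794.shift 1 3), rh6bf1d4adb34fa2d0] (by decide +kernel))
noncomputable def rh6b72f3f65da758f3 : CRef := CRef.mk (Pat.mk 0x180000000c0000000000000000 0x380000007c0000003e0000001f000000ff000000ef0000000a 9 8) 0 0 (step_sound _ 65 [(rh53b3c253cb0c65f4.shift 0 2), rhbd9af9085874b57c] (by decide +kernel))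
noncomputable def rhaa794f2c037066f8 : CRef := CRef.mk (Pat.mk 0x180000000c000000000000000000000000 0x8000000180000001c0000003f0000003f0000007c0000003c 9 7) 0 0 (step_sound _ 97 [(rh53b3c253cb0c65f4.shift 0 3), rha332a7fb1a26bbae] (by decide +kernel))
noncomputable def rh69c3046fd3a11bd9 : CRef := CRef.mk (Pat.mk 0x8000000000000000c000000040000000000000000 0x1c0000001c000000780000007f000000fc0000007800000010 9 8) 0 0 (step_sound _ 131 [(rh5c5e593799055d58.shift 2 2), rhdd165234d5fb6a7b] (by decide +kernel))
noncomputable def rhe3594df60dc9fa63 : CRef := CRef.mk (Pat.mk 0x100000000000000018000000080000000000000000 0x30000000340000003c000000ef000000fe000001fc0000001800000008 9 9) 0 0 (step_sound _ 101 [rh21354bb3884402ac, (rhb02f9c2bd63f56db.shift 2 2), (rhbd0462959a10dfa4.shift 2 2)] (by decide +kernel))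
noncomputable def rh250ed4026b3b8db7 : CRef := CRef.mk (Pat.mk 0x180000000c000000000000000000000000 0x1000000010000000120000001b000000ff000000ff000000fc0000003c 9 8) 0 0 (step_sound _ 97 [(rh53b3c253cb0c65f4.shift 0 3), rh56ee8bb5b6f6a821] (by decide +kernel))
noncomputable def rhe9bb0e767b7b155e : CRef := CRef.mk (Pat.mk 0x180000000c000000000000000000000000 0x1000000050000000770000007e0000007c0000007c0000003e00000004 9 7) 0 0 (step_sound _ 133 [(rh18965a982d73c794.shift 2 3), rh2679bd399f9c3290] (by decide +kernel))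
noncomputable def rh2f253879b61bd692 : CRef := CRef.mk (Pat.mk 0xc00000006000000000000000000000000 0x1c0000003c0000001f0000003c0000007e0000007f0000001f00000002 9 7) 0 0 (step_sound _ 132 [(rh18965a982d73c794.shift 1 3), rh6336956d488b8509] (by decide +kernel))
noncomputable def rh745138e451d0b027 : CRef := CRef.mk (Pat.mk 0x4000000060000000200000000000000000 0x2000000030000001b0000001fc0000007f000001fe000000f800000070 9 9) 0 0 (step_sound _ 37 [rh221a28ec6cc5e6e4, (rh71222050f2c63a3a.shift 5 0)] (by decide +kernel))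
noncomputable def rh78098dbfc93bd0b2 : CRef := CRef.mk (Pat.mk 0xc00000006000000000000000000000000 0xe0000000e0000003f0000003f00000036000000130000000300000003 9 6) 0 0 (step_sound _ 132 [(rh18965a982d73c794.shift 1 3), rh929ef4889dadb5dd] (by decide +kernel))
noncomputable def rh1ed5213679099758 : CRef := CRef.mk (Pat.mk 0x180000000c000000000000000000000000 0x100000001c0000001c0000001c0000001a0000001f000000ff000000f70000001400000004 9 8) 0 0 (step_sound _ 97 [(rh53b3c253cb0c65f4.shift 0 3), rh98bee7c233643e75] (by decide +kernel))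
noncomputable def rh1f90d58d3e1dee25 : CRef := CRef.mk (Pat.mk 0x3800000000000000000000000000000000 0x2000000060000000f70000007e000001e0000000e0000000e0000000c0 9 9) 0 0 (step_sound _ 102 [(rh071a4f4fc4cb1f4a.shift 3 0), (rh0deb2ebc850de581.shift 2 2), (rh171acb83cceabd54.shift 2 1), (rh71185df907b4126f.shift 2 3), (rh71efda916732b25a.shift 2 3), (rhc88dbad8567ff01b.shift 0 3)] (by decide +kernel))
noncomputable def rh7e3b058dc2b23a0a : CRef := CRef.mk (Pat.mk 0x70000000100000000000000000 0x2800000028000000fe0000007e000003d7000000f800000050 9 10) 0 0 (step_sound _ 133 [(rh4821dcf828b9d7bf.shift 4 0), (rh82cc2deab149c31d.shift 2 0), (rhe288f728cf3077fd.shift 0 1), (rhfb18a167032585a6.shift 2 0)] (by decide +kernel))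
noncomputable def rhdb8538f02ff29e74 : CRef := CRef.mk (Pat.mk 0xe00000002000000000000000000000000 0xc0000001c0000007f0000003e0000007a0000003a0000003800000028 9 7) 0 0 (step_sound _ 132 [rh80a11814a1b1b4ca, (rha93a5dd541ab8209.shift 1 3), (rhaf661323c6e1d2ba.shift 0 2)] (by decide +kernel))
noncomputable def rh055942ffd39fdebb : CRef := CRef.mk (Pat.mk 0x300000001800000000000000000000000000000000 0x80000000c0000003f0000003f0000001e0000007e0000007e0000003c00000030 9 7) 0 0 (step_sound _ 130 [(rh53b3c253cb0c65f4.shift 1 4), rhae3cb78a1864c66d] (by decide +kernel))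
noncomputable def rhfbbaf1eea390c0fd : CRef := CRef.mk (Pat.mk 0x180000000c0000000000000000000000000000000000000000 0x10000000140000007e0000007e0000007c0000007f0000003e0000001c0000001c00000004 9 7) 0 0 (step_sound _ 197 [(rh18965a982d73c794.shift 2 5), rh7cd7388517474627] (by decide +kernel))
noncomputable def rh02d49e0241177709 : CRef := CRef.mk (Pat.mk 0x3000000018000000000000000000000000 0x30000000370000003f0000001e0000007e0000007e0000003c 9 7) 0 0 (step_sound _ 98 [(rh53b3c253cb0c65f4.shift 1 3), rhee75360ec27f9fa3] (by decide +kernel))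
noncomputable def rh23c7f30a131fcebf : CRef := CRef.mk (Pat.mk 0x1000000018000000080000000000000000 0x40000000e000000ff0000007f000000ec0000000c0000000c 9 8) 0 0 (step_sound _ 35 [rh05a5c2ed428c4210, (rh71222050f2c63a3a.shift 3 0)] (by decide +kernel))
noncomputable def rhc4afa0bbc4d430fa : CRef := CRef.mk (Pat.mk 0x180000000c000000000000000000000000 0x6000000070000001f0000003f0000003f0000003e00000038 9 6) 0 0 (step_sound _ 97 [rh00e3cc047375e4b0, (rh53b3c253cb0c65f4.shift 0 3)] (by decide +kernel))
noncomputable def rheea9fbdb433297ae : CRef := CRef.mk (Pat.mk 0x180000000c000000000000000000000000 0x1c0000005e000000770000007e0000007c0000007c0000003e00000004 9 7) 0 0 (step_sound _ 133 [(rh18965a982d73c794.shift 2 3), rhd94714a32d6be49e] (by decide +kernel))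
noncomputable def rh7b3d029f866a350d : CRef := CRef.mk (Pat.mk 0x10000000180000000800000000 0x1c0000001e00000078000000f8000000ff00000037 9 8) 0 0 (step_sound _ 132 [(rh5c5e593799055d58.shift 3 1), rhcb72378dabec4451] (by decide +kernel))
noncomputable def rhdf90a90e60e28b91 : CRef := CRef.mk (Pat.mk 0x3000000018000000000000000000000000 0x80000001c0000001f0000003f0000001e0000007f0000003c0000001c 9 7) 0 0 (step_sound _ 98 [(rh53b3c253cb0c65f4.shift 1 3), rha78cf5fb4780603b] (by decide +kernel))
noncomputable def rhd7c980b5c5aae1f0 : CRef := CRef.mk (Pat.mk 0x30000000100000000000000000 0x380000003c000001ff000000fc000001f60000007400000010 9 9) 0 0 (step_sound _ 133 [rha02aaa66d466c680, (rha173c2f44c64853d.shift 2 1), (rhcf80391c5046a495.shift 4 0)] (by decide +kernel))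
noncomputable def rhff90d23fe8fa5076 : CRef := CRef.mk (Pat.mk 0x1000000018000000080000000000000000 0x80000002800000028000000fc000000fe000000ff0000005e0000001c 9 8) 0 0 (step_sound _ 35 [rh30f011467d01e67a, (rh71222050f2c63a3a.shift 3 0)] (by decide +kernel))
noncomputable def rh888b4e1ceba24032 : CRef := CRef.mk (Pat.mk 0x2000000030000000100000000000000000 0x7000000074000000f6000000ff000001fe0000002e00000008 9 9) 0 0 (step_sound _ 165 [rh58c985762dc344d1, (rh5c5e593799055d58.shift 4 2)] (by decide +kernel))
noncomputable def rh34f43a0fcb31c0ea : CRef := CRef.mk (Pat.mk 0x10000000180000000800000000 0x38000000780000007e000000f8000000ff000000f7 9 8) 0 0 (step_sound _ 132 [(rh5c5e593799055d58.shift 3 1), rhbd6913b25d1ce1a4] (by decide +kernel))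
noncomputable def rh892e4a4eaaf26479 : CRef := CRef.mk (Pat.mk 0x1000000018000000080000000000000000 0x28000000fc000000f80000007f0000007f0000003c 9 8) 0 0 (step_sound _ 35 [rh5bfb3373dc8b77cb, (rh71222050f2c63a3a.shift 3 0)] (by decide +kernel))
noncomputable def rhec7c26a181e35258 : CRef := CRef.mk (Pat.mk 0x1000000018000000080000000000000000 0x28000000780000007e0000001f0000007c0000003c 9 7) 0 0 (step_sound _ 35 [(rh71222050f2c63a3a.shift 3 0), rheb1b065f824f3bb8] (by decide +kernel))
noncomputable def rhea25c5a25609a4c3 : CRef := CRef.mk (Pat.mk 0x400000006000000020000000000000000000000000 0xe0000001e8000000fc000001ff0000007c000000d0000000d0000000c0 9 9) 0 0 (step_sound _ 198 [rh18f2ebd2ae68766f, (rh5c5e593799055d58.shift 5 3)] (by decide +kernel))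
noncomputable def rhded5d9b6536d4c1d : CRef := CRef.mk (Pat.mk 0x4000000060000000200000000000000000 0x4000000040000007f7000003fe000003be0000008000000080 9 11) 0 0 (step_sound _ 166 [(rh5c5e593799055d58.shift 5 2), rh7302505379098ca4] (by decide +kernel))
noncomputable def rh820f8249febc57ee : CRef := CRef.mk (Pat.mk 0x1000000018000000080000000000000000 0x7f7000003ff000007ff0000006800000068 9 11) 0 0 (step_sound _ 35 [(rh71222050f2c63a3a.shift 3 0), rh88fc1fb9044a4e9b] (by decide +kernel))
noncomputable def rh2db85e4141d5226e : CRef := CRef.mk (Pat.mk 0x100000001800000008000000000000000000000000 0x120000007f000000ff0000007f0000003c00000034 9 8) 0 0 (step_sound _ 67 [(rh71222050f2c63a3a.shift 3 1), rhebb265931f1b602c] (by decide +kernel))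
noncomputable def rhfc701804b8bf0eb7 : CRef := CRef.mk (Pat.mk 0x100000001000000008000000080000000000000000 0x1000000010000000370000007e000001ef0000007c00000028 9 9) 0 0 (step_sound _ 100 [rh1383514d5f68fc40, (rh5c5e593799055d58.shift 3 2)] (by decide +kernel))
noncomputable def rha46f594bfc19ea4b : CRef := CRef.mk (Pat.mk 0x800000008000000040000000400000000 0x1800000018000000780000007f0000007e00000038 9 7) 0 0 (step_sound _ 67 [(rh5c5e593799055d58.shift 2 1), rh680841fb2ea52e8f] (by decide +kernel))
noncomputable def rhcc26fa07952b4acf : CRef := CRef.mk (Pat.mk 0x1000000010000000080000000800000000 0x1000000010000001f0000000fe000001ef0000007c00000028 9 9) 0 0 (step_sound _ 99 [(rh71222050f2c63a3a.shift 3 0), rhbaa8ac48754834e8] (by decide +kernel))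
noncomputable def rhf2f36e2dba8eccb5 : CRef := CRef.mk (Pat.mk 0x100000001000000008000000000000000000000000 0x800000038000000780000007e0000001e000000ff0000007e0000003c00000030 9 8) 0 0 (step_sound _ 131 [(rh317ca5d1b3fa5e7f.shift 1 0), (rhcf80391c5046a495.shift 3 1), (rhdf78b57f2d206388.shift 0 1), (rhf9366b6a121593ef.shift 3 1)] (by decide +kernel))
noncomputable def rh4b618e14aac18bb5 : CRef := CRef.mk (Pat.mk 0x2000000020000000200000001000000000 0x500000007000000070000003bf000001fe000003ee 9 10) 0 0 (step_sound _ 37 [(rh00c644645561e9be.shift 4 0), rhb32fd37f8e525c28] (by decide +kernel))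
noncomputable def rh61fc42580820eb24 : CRef := CRef.mk (Pat.mk 0x1000000010000000180000000000000000 0x2800000078000000fe0000007e000000ff0000001f 9 8) 0 0 (step_sound _ 36 [(rh2ad4304994e985b6.shift 1 0), (rh5ee4dc8825dcefa0.shift 1 0), rhc8467d85f1d6d55d] (by decide +kernel))
noncomputable def rh6cf529da83b839a5 : CRef := CRef.mk (Pat.mk 0x10000000100000001800000000000000000000000000000000 0x280000003800000038000000f8000000ff0000007f0000003800000010 9 8) 0 0 (step_sound _ 99 [(rh42548283029e2a39.shift 3 1), rhb6eaac655924f2f0, (rhf9af042da61fc652.shift 3 1)] (by decide +kernel))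
noncomputable def rhf49080576766fbe6 : CRef := CRef.mk (Pat.mk 0x8000000080000000c000000000000000000000000 0x1000000018000000780000007f0000007c0000003c00000014 9 7) 0 0 (step_sound _ 132 [(rh574fdbf07bdd18b9.shift 0 3), (rha1ac771c65ae9cf8.shift 0 1), (rhfabc58a7007e3cc3.shift 2 0)] (by decide +kernel))
noncomputable def rh6898644f602692ce : CRef := CRef.mk (Pat.mk 0x1000000010000000180000000000000000 0x2000000060000000f0000000ff000000fe0000006e00000028 9 8) 0 0 (step_sound _ 101 [(rh0bb882ba86b2372d.shift 1 2), (rh574fdbf07bdd18b9.shift 1 2), (rh5bc13e29350ad82f.shift 1 0), rh98a07c6869d8ba9a] (by decide +kernel))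
noncomputable def rh442cbd6ebb3abbee : CRef := CRef.mk (Pat.mk 0x100000001000000018000000000000000000000000 0x2000000030000000f8000000fe000000ff0000003f00000008 9 8) 0 0 (step_sound _ 67 [(rh0a31bb855c45a2d2.shift 0 1), (rh42548283029e2a39.shift 3 0), (rhf9af042da61fc652.shift 3 0)] (by decide +kernel))
noncomputable def rha9a926dbd8275175 : CRef := CRef.mk (Pat.mk 0x100000001000000008000000000000000000000000 0x28000000380000003c000003f7000001fe000001ff0000003800000028 9 10) 0 0 (step_sound _ 100 [(rha59ebd41904afde2.shift 1 0), (rhb99f8f6e6677b04f.shift 3 2), rhe8433327cad6df9d] (by decide +kernel))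
noncomputable def rh886af78766c44e51 : CRef := CRef.mk (Pat.mk 0x10000000180000000800000000 0x5000000050000001f7000001fe000003ef00000020 9 10) 0 0 (step_sound _ 132 [(rh5c5e593799055d58.shift 3 1), rhda137cce265b4db8] (by decide +kernel))
noncomputable def rhfaaab5179e86450b : CRef := CRef.mk (Pat.mk 0x800000008000000040000000000000000 0x1c0000001c0000001c0000001c0000001c0000003c0000001f0000001c0000001c00000018 9 6) 0 0 (step_sound _ 163 [(rh4f851ffacf16f80e.shift 2 0), rhb4035a90ff1f2e01, (rhb77bfac3e9efecea.shift 2 2)] (by decide +kernel))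
noncomputable def rh29e69e95f36ca53b : CRef := CRef.mk (Pat.mk 0x1000000018000000080000000000000000 0xc0000000c0000002c000000fc000000fc0000003f0000001f0000001c 9 8) 0 0 (step_sound _ 35 [(rh71222050f2c63a3a.shift 3 0), rha92c1028e06d8416] (by decide +kernel))
noncomputable def rh1ef71df0d72a95e8 : CRef := CRef.mk (Pat.mk 0x80000000c00000004000000000000000000000000 0x1f0000001f0000007e0000001f0000000e000000080000000800000008 9 7) 0 0 (step_sound _ 195 [(rh5c5e593799055d58.shift 2 3), rha5a96ab64d0c9139] (by decide +kernel))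
noncomputable def rh194b7700adef04d5 : CRef := CRef.mk (Pat.mk 0x1000000018000000080000000000000000 0x28000000780000007e0000001f0000007c0000003c 9 7) 0 0 (step_sound _ 35 [rh6e37f4bd4e1433d2, (rh71222050f2c63a3a.shift 3 0)] (by decide +kernel))
noncomputable def rha1a1c1d3c2377321 : CRef := CRef.mk (Pat.mk 0x1000000018000000080000000000000000 0xc0000007c0000007f000000ff000000ef0000002e 9 8) 0 0 (step_sound _ 35 [(rh71222050f2c63a3a.shift 3 0), rh841ef84fc8611fdb] (by decide +kernel))
noncomputable def rhc24e36b1d4b68e2c : CRef := CRef.mk (Pat.mk 0x100000001800000008000000000000000000000000 0x100000007f000000ff0000007f0000003800000030 9 8) 0 0 (step_sound _ 67 [rh258e9454a3a34b87, (rh71222050f2c63a3a.shift 3 1)] (by decide +kernel))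
noncomputable def rhde017d2777db7f29 : CRef := CRef.mk (Pat.mk 0x1000000018000000080000000000000000 0x1000000010000001f0000000fe000001ef0000007c00000028 9 9) 0 0 (step_sound _ 35 [(rh71222050f2c63a3a.shift 3 0), rhbaa8ac48754834e8] (by decide +kernel))
noncomputable def rh656bfe4e8b79dd42 : CRef := CRef.mk (Pat.mk 0x100000001800000008000000000000000000000000 0x64000000740000007f0000007f0000007f0000003e00000034 9 7) 0 0 (step_sound _ 67 [(rh71222050f2c63a3a.shift 3 1), rhec37a18e14e3c004] (by decide +kernel))
noncomputable def rh539193f08ef51f2a : CRef := CRef.mk (Pat.mk 0x8000000080000000800000000 0x140000007c0000007f0000003e000000180000001800000010 9 7) 0 0 (step_sound _ 131 [(rh1741680720c097b4.shift 2 1), (rh5abfc4c9d959be03.shift 2 0), rha5a7b16c420e91b3, (rhced6d86d2069808b.shift 3 0)] (by decide +kernel))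
noncomputable def rh2ac10a22dad815e3 : CRef := CRef.mk (Pat.mk 0x100000001800000008000000000000000000000000 0x80000000c0000004c0000007c0000007e0000006f0000007c0000003e00000004 9 7) 0 0 (step_sound _ 67 [rh38db12143cef5452, (rh71222050f2c63a3a.shift 3 1)] (by decide +kernel))
noncomputable def rhed1670dadb1fb9ea : CRef := CRef.mk (Pat.mk 0x80000000c0000000400000000 0x1e0000003f0000007f0000007f0000000e0000000a 9 7) 0 0 (step_sound _ 131 [rh15b2851ea4a8e088, (rh5c5e593799055d58.shift 2 1)] (by decide +kernel))
noncomputable def rha9404ef591e97c8e : CRef := CRef.mk (Pat.mk 0x2000000020000000100000000000000000 0x2800000068000001fe000000fe000001ff0000005400000010 9 9) 0 0 (step_sound _ 100 [(rh328a8a70e52ed906.shift 0 1), (rhadf429772c25fde0.shift 4 0), (rhc8b5fc8bafb7aab2.shift 2 0)] (by decide +kernel))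
noncomputable def rh0a90d72d5fbb7996 : CRef := CRef.mk (Pat.mk 0x200000003000000010000000000000000000000000 0x70000000f00000003e000000ff000000fe0000006e0000004800000008 9 8) 0 0 (step_sound _ 197 [(rh5c5e593799055d58.shift 4 3), rhfd0acefdd1427dcc] (by decide +kernel))
noncomputable def rhde737bd249003443 : CRef := CRef.mk (Pat.mk 0x1000000018000000080000000000000000 0x5000000050000001f7000001fe000003ef0000002000000020 9 10) 0 0 (step_sound _ 164 [rh14f52a6eedc54838, (rh5c5e593799055d58.shift 3 2)] (by decide +kernel))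
noncomputable def rh6b907d437090f844 : CRef := CRef.mk (Pat.mk 0x100000001800000008000000000000000000000000 0x6000000770000007f0000003f0000003f0000003c00000034 9 7) 0 0 (step_sound _ 67 [(rh71222050f2c63a3a.shift 3 1), rhebe4fba17030c01a] (by decide +kernel))
noncomputable def rh4c51365944773469 : CRef := CRef.mk (Pat.mk 0x80000000800000008000000040000000000000000 0x140000001c0000001c0000007f0000007e0000001b00000010 9 7) 0 0 (step_sound _ 67 [(rh00c644645561e9be.shift 2 1), (rh3bba0975853e579f.shift 0 1), (rh6c59ce14113da07f.shift 3 0)] (by decide +kernel))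
noncomputable def rhcfdea4488fcf8ca2 : CRef := CRef.mk (Pat.mk 0x100000001800000008000000000000000000000000 0x80000000800000028000000fc000000fe0000007f0000003e0000001c00000010 9 8) 0 0 (step_sound _ 67 [(rh71222050f2c63a3a.shift 3 1), rhd02640f2711470cb] (by decide +kernel))
noncomputable def rhd14ba44831a635a2 : CRef := CRef.mk (Pat.mk 0x80000000c00000004000000000000000000000000 0x600000006000000160000007c0000007f0000003e0000000f0000000e00000008 9 7) 0 0 (step_sound _ 66 [(rh71222050f2c63a3a.shift 2 1), rhf1eb2463b00b4658] (by decide +kernel))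
noncomputable def rh57cbb1cacfd008aa : CRef := CRef.mk (Pat.mk 0x1000000018000000080000000000000000 0x40000006e0000003f0000001f0000007f0000001e0000001c 9 7) 0 0 (step_sound _ 35 [(rh71222050f2c63a3a.shift 3 0), rhffc82b67260b9e53] (by decide +kernel))
noncomputable def rh1dbe39f379ef2320 : CRef := CRef.mk (Pat.mk 0x1000000018000000080000000000000000 0xe0000003f0000007f0000000f0000000c0000000c 9 7) 0 0 (step_sound _ 35 [rh10ed9f9472ecbbf4, (rh71222050f2c63a3a.shift 3 0)] (by decide +kernel))
noncomputable def rhd8d12af847ec92e1 : CRef := CRef.mk (Pat.mk 0x100000001800000008000000000000000000000000 0x24000000760000007f0000001f0000003f0000003a00000030 9 7) 0 0 (step_sound _ 67 [(rh71222050f2c63a3a.shift 3 1), rhcf259a3b70a2e4e7] (by decide +kernel))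
noncomputable def rhb489efbe28a1319b : CRef := CRef.mk (Pat.mk 0x100000001800000008000000000000000000000000 0xc0000000e0000007f0000007f0000007f000000370000001400000004 9 7) 0 0 (step_sound _ 98 [(rh0bb882ba86b2372d.shift 0 3), rh637ec5f0ca94cb2e, (rhf616c77757f6558e.shift 0 2)] (by decide +kernel))
noncomputable def rh6b279945f0ca7631 : CRef := CRef.mk (Pat.mk 0x1000000018000000080000000000000000 0x4000003f7000001fe000000fe0000000800000008 9 10) 0 0 (step_sound _ 35 [(rh71222050f2c63a3a.shift 3 0), (rh7495f5d7b99c33fc.shift 0 1)] (by decide +kernel))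
noncomputable def rh8d90cb8091a445a2 : CRef := CRef.mk (Pat.mk 0x80000000c0000000400000000 0x1e0000003f0000007f0000007f0000000e0000000a 9 7) 0 0 (step_sound _ 131 [rh0bea8e0e9a380a81, (rh5c5e593799055d58.shift 2 1)] (by decide +kernel))
noncomputable def rh21ff0e58722de02e : CRef := CRef.mk (Pat.mk 0x3000000018000000000000000000000000 0x2000000030000000fe000000ff000000d8000000f80000007c00000008 9 8) 0 0 (step_sound _ 134 [rh0cfb2bcb0a640487, (rh18965a982d73c794.shift 3 3)] (by decide +kernel))
noncomputable def rh919bef62412ea362 : CRef := CRef.mk (Pat.mk 0x180000000c000000000000000000000000 0x3800000038000000380000001f0000003f000000380000001800000018 9 6) 0 0 (step_sound _ 97 [rh23b990995ecf68d2, (rh53b3c253cb0c65f4.shift 0 3)] (by decide +kernel))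
noncomputable def rh1b8f9b7d56691145 : CRef := CRef.mk (Pat.mk 0xc00000006000000000000000000000000 0x80000000c0000003c0000003f0000003e0000003e0000001f00000002 9 6) 0 0 (step_sound _ 132 [(rh18965a982d73c794.shift 1 3), rhf260dec03cac3420] (by decide +kernel))
noncomputable def rh4747f7ca15718210 : CRef := CRef.mk (Pat.mk 0x8000000000000000c000000040000000000000000 0x180000001a0000001e000000770000007e000000fe0000000c00000004 9 8) 0 0 (step_sound _ 100 [(rhb02f9c2bd63f56db.shift 1 2), (rhbd0462959a10dfa4.shift 1 2), rhe362302fd279adb9] (by decide +kernel))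
noncomputable def rh15a801803474cff1 : CRef := CRef.mk (Pat.mk 0x180000000c00000000000000000000000000000000 0xe0000001f0000001f000000ff0000007c0000001c0000001c00000018 9 8) 0 0 (step_sound _ 129 [(rh53b3c253cb0c65f4.shift 0 4), rh8b3689d609092403] (by decide +kernel))
noncomputable def rh924cf84cd86e56fe : CRef := CRef.mk (Pat.mk 0x180000000c0000000000000000000000000000000000000000 0x600000036000000370000001f000000ff0000007c0000000c0000001c0000001c00000010 9 8) 0 0 (step_sound _ 161 [rh1770bf92608f5049, (rh53b3c253cb0c65f4.shift 0 5)] (by decide +kernel))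
noncomputable def rh4e803ceab90808df : CRef := CRef.mk (Pat.mk 0x10000000180000000800000000 0x3c0000007e0000007e000000f8000000ff00000074 9 8) 0 0 (step_sound _ 132 [rh1d1459e3ddd886e5, (rh5c5e593799055d58.shift 3 1)] (by decide +kernel))
noncomputable def rhc8c316ce4a68aaed : CRef := CRef.mk (Pat.mk 0x100000001800000008000000000000000000000000 0x80000000c0000000c0000003c000000780000007f0000007c0000003e00000004 9 7) 0 0 (step_sound _ 67 [rh6816fb81c12fb95c, (rh71222050f2c63a3a.shift 3 1)] (by decide +kernel))
noncomputable def rhc7ba14f12b74e529 : CRef := CRef.mk (Pat.mk 0x1c000000040000000000000000 0x80000000a000001df000000ff000000fc0000001400000004 9 9) 0 0 (step_sound _ 131 [rh76f634bbec592a54, (rha14dd116e552264d.shift 0 1), (rhadf429772c25fde0.shift 2 0)] (by decide +kernel))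
noncomputable def rh0297c95c8fd8417f : CRef := CRef.mk (Pat.mk 0x38000000080000000000000000 0x1c0000001e0000007e0000007f000000380000001800000008 9 7) 0 0 (step_sound _ 132 [(rh255704914a2d16ab.shift 1 0), (rhadf429772c25fde0.shift 3 0), (rhc0cf9b53896fc39b.shift 0 1)] (by decide +kernel))
noncomputable def rh2b5127ab84a72b98 : CRef := CRef.mk (Pat.mk 0xe00000002000000000000000000000000 0x8000000180000003f0000003e0000007e000000380000003800000028 9 7) 0 0 (step_sound _ 132 [(rh4c6d407c2048a5bb.shift 0 3), rh80a11814a1b1b4ca, (rhf3baec4a0a3dd35e.shift 1 3)] (by decide +kernel))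
noncomputable def rh4990b52ef66c7ea0 : CRef := CRef.mk (Pat.mk 0x1800000008000000000000000000000000 0x140000001c0000003e0000000f0000007f0000003f0000003c0000001c00000014 9 7) 0 0 (step_sound _ 98 [(rh137b2950371a78fe.shift 0 1), rh45058c318ab1c93b, (rh69012675dfdb1a5b.shift 0 3)] (by decide +kernel))
noncomputable def rhc99e5390d0dbc56f : CRef := CRef.mk (Pat.mk 0xc000000020000000000000000000000000 0x1000000010000000380000007c000003ef000000fe000000ff0000005000000010 9 10) 0 0 (step_sound _ 100 [(rha61ca71592d97c28.shift 0 2), (rhaff4d66ab2235e4f.shift 4 3), (rhd16d608df2aeaa62.shift 2 0), (rhfe7c844806756e31.shift 3 3)] (by decide +kernel))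
noncomputable def rhea071243f28bf07e : CRef := CRef.mk (Pat.mk 0x1c000000040000000000000000 0xe0000000f0000003f0000001f0000003c0000001c00000004 9 6) 0 0 (step_sound _ 131 [rh82cc2deab149c31d, (rh8e939982bd8565eb.shift 0 1), (rhadf429772c25fde0.shift 2 0)] (by decide +kernel))
noncomputable def rhcee7359fb69a24f1 : CRef := CRef.mk (Pat.mk 0x3800000008000000000000000000000000 0xc0000001c0000007e0000003e0000000f0000000e0000000e00000006 9 7) 0 0 (step_sound _ 130 [(rh21a92606aff61372.shift 1 1), (rh7654d7b92c96fe12.shift 0 3), (rhd79a59188b24ad76.shift 1 0)] (by decide +kernel))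
noncomputable def rhc7960e3922b07c7d : CRef := CRef.mk (Pat.mk 0xe0000000100000000000000000 0x280000003800000038000001ff000000fe000001f70000003000000020 9 9) 0 0 (step_sound _ 100 [(rh1ceff3ca0296086f.shift 3 0), (rha3d4104031ffed1d.shift 3 2), (rha7f6f8d2a8f50249.shift 0 2)] (by decide +kernel))
noncomputable def rhdda229d377e23d33 : CRef := CRef.mk (Pat.mk 0x3800000008000000000000000000000000 0xc0000000c0000000f0000003e0000007f000000060000000600000006 9 7) 0 0 (step_sound _ 98 [(rh1ed7a3503fa50fc8.shift 0 3), rh6e9901d18437ed64, (rheea1a90336e79c71.shift 0 3)] (by decide +kernel))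
noncomputable def rh1e2c8e98ef5c94b2 : CRef := CRef.mk (Pat.mk 0x3800000008000000000000000000000000 0x1c0000001e0000007e0000003e0000007f000000260000000600000006 9 7) 0 0 (step_sound _ 98 [(rh569def456e9fea77.shift 1 0), (rheea1a90336e79c71.shift 0 3)] (by decide +kernel))
noncomputable def rh4f06774921c6a0a9 : CRef := CRef.mk (Pat.mk 0x1c000000040000000000000000 0x60000001e0000001e0000001f0000001c0000007f0000003f0000000e 9 7) 0 0 (step_sound _ 131 [(rh2549c32e4b9e1f42.shift 0 1), (rh4821dcf828b9d7bf.shift 2 0), rh71c4e644d4aceb59, (rhadf429772c25fde0.shift 2 0)] (by decide +kernel))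
noncomputable def rh0bfb85a962eb17f4 : CRef := CRef.mk (Pat.mk 0x180000000c000000000000000000000000 0x140000001c0000001e0000001f0000007a0000000f0000000e0000000c00000004 9 7) 0 0 (step_sound _ 97 [(rh53b3c253cb0c65f4.shift 0 3), rh883e2980a8b66908] (by decide +kernel))
noncomputable def rh7fd2f1ca8505eca9 : CRef := CRef.mk (Pat.mk 0x180000000c0000000000000000 0x8000000080000001c0000001e0000007f0000001b0000003f0000002f0000000c 9 7) 0 0 (step_sound _ 65 [rh103ab8fd9f25fd14, (rh53b3c253cb0c65f4.shift 0 2)] (by decide +kernel))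
noncomputable def rh8cd9ca720afb03af : CRef := CRef.mk (Pat.mk 0xc000000060000000000000000 0x1e0000001f0000003f0000003c0000007e0000007700000006 9 7) 0 0 (step_sound _ 100 [(rh18965a982d73c794.shift 1 2), rh36ad3bc394d4f9ef] (by decide +kernel))
noncomputable def rh147315c10f881ee9 : CRef := CRef.mk (Pat.mk 0x70000000100000000000000000 0xa0000000a0000003fe000003fe000007d70000005000000010 9 11) 0 0 (step_sound _ 133 [(rh4821dcf828b9d7bf.shift 4 0), rh73a3f46298092c24, (rh98e3e23fa4dc3226.shift 1 1)] (by decide +kernel))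
noncomputable def rh234243448db8022d : CRef := CRef.mk (Pat.mk 0x7000000008000000000000000000000000 0x2000000060000000ef0000007f000000f8000000e0000000e0000000a0 9 8) 0 0 (step_sound _ 131 [(rh0d378fd9e8917c5a.shift 1 3), (rh61325f73ebf98108.shift 1 4), (rh80a11814a1b1b4ca.shift 2 0), (rh95461b835b3f00cd.shift 0 3), (rhf459621b93742302.shift 2 1)] (by decide +kernel))
noncomputable def rh434cb39e7f9e9342 : CRef := CRef.mk (Pat.mk 0x180000000c000000000000000000000000 0xb0000000b0000001f000000ff0000000f0000000400000004 9 8) 0 0 (step_sound _ 97 [(rh53b3c253cb0c65f4.shift 0 3), rhb929528e0f5ea0a8] (by decide +kernel))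
noncomputable def rh8521797ef3832041 : CRef := CRef.mk (Pat.mk 0x180000000c00000000000000000000000000000000 0x10000000370000001f0000007f0000007f0000003c0000003c00000004 9 7) 0 0 (step_sound _ 129 [rh51a19ddb7470fe83, (rh53b3c253cb0c65f4.shift 0 4)] (by decide +kernel))
noncomputable def rh1a05b109189c37b8 : CRef := CRef.mk (Pat.mk 0x180000000c000000000000000000000000 0x1a0000001a0000001b000000ff0000007f0000001c00000004 9 8) 0 0 (step_sound _ 97 [(rh53b3c253cb0c65f4.shift 0 3), rhdc28e5b35a57b79e] (by decide +kernel))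
noncomputable def rh9ebcd67f45deda61 : CRef := CRef.mk (Pat.mk 0x30000000180000000000000000 0x6000000070000000700000003f0000007e0000007000000030 9 7) 0 0 (step_sound _ 66 [rh3f8207a1e84f8984, (rh53b3c253cb0c65f4.shift 1 2)] (by decide +kernel))
noncomputable def rhb45ce41e8c7120a3 : CRef := CRef.mk (Pat.mk 0x180000000c000000000000000000000000 0xa0000000a0000001f000000ff000000f70000003e0000003e 9 8) 0 0 (step_sound _ 97 [rh4be538f110f025d4, (rh53b3c253cb0c65f4.shift 0 3)] (by decide +kernel))
noncomputable def rhe7f8514e9a965131 : CRef := CRef.mk (Pat.mk 0x3000000018000000000000000000000000 0x300000007e0000003f0000001e0000007c0000003e0000001c 9 7) 0 0 (step_sound _ 98 [(rh53b3c253cb0c65f4.shift 1 3), rh750c3480f061c361] (by decide +kernel))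
noncomputable def rh4c7f909225739567 : CRef := CRef.mk (Pat.mk 0x180000000c000000000000000000000000 0x180000001a0000001f0000007c0000007f0000007c0000003c 9 7) 0 0 (step_sound _ 66 [rh3686d4e36dc7a232, (rh4821dcf828b9d7bf.shift 2 0), (rhadf429772c25fde0.shift 2 0), (rhd801117444af86dd.shift 1 0)] (by decide +kernel))
noncomputable def rh4e385fc788b09585 : CRef := CRef.mk (Pat.mk 0x180000000c00000000000000000000000000000000 0x100000003c0000001f0000007f0000007f000000380000003800000010 9 7) 0 0 (step_sound _ 129 [(rh53b3c253cb0c65f4.shift 0 4), rhfb569ab2681674c1] (by decide +kernel))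
noncomputable def rh9c34b91402778d8d : CRef := CRef.mk (Pat.mk 0x180000000c000000000000000000000000 0x10000000380000003f0000003f0000003800000018 9 6) 0 0 (step_sound _ 97 [rh123e51219d7f7d8f, (rh53b3c253cb0c65f4.shift 0 3)] (by decide +kernel))
noncomputable def rh3de1c17e3b199934 : CRef := CRef.mk (Pat.mk 0x180000000c0000000000000000000000000000000000000000 0x100000001800000038000000780000002f0000007c0000003c0000001c0000001c00000004 9 7) 0 0 (step_sound _ 161 [(rh4c96199ade3ccb1f.shift 1 0), (rh53b3c253cb0c65f4.shift 0 5)] (by decide +kernel))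
noncomputable def rhbb544a75def9a3d1 : CRef := CRef.mk (Pat.mk 0x180000000c000000000000000000000000 0x800000018000000180000003f0000003f0000003c0000001c 9 6) 0 0 (step_sound _ 97 [(rh53b3c253cb0c65f4.shift 0 3), rhfd18efd5ca09cbdb] (by decide +kernel))
noncomputable def rh364afe42a37e9cf4 : CRef := CRef.mk (Pat.mk 0xc00000006000000000000000000000000 0xc0000001c0000001c0000003c0000007e0000003f0000001f0000000a 9 7) 0 0 (step_sound _ 132 [rh074d71c818862774, (rh18965a982d73c794.shift 1 3)] (by decide +kernel))
noncomputable def rhcb536530d718d8fb : CRef := CRef.mk (Pat.mk 0x38000000080000000000000000 0x3000000030000000770000003e00000078000000f800000070 9 8) 0 0 (step_sound _ 98 [(rh0d378fd9e8917c5a.shift 0 2), (rh4c622fddc53a5f99.shift 0 3), (rhe4c60c51ea0d2a5a.shift 2 0)] (by decide +kernel))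
noncomputable def rh2775cf3f0f4b953b : CRef := CRef.mk (Pat.mk 0xc00000006000000000000000000000000 0x2000000060000000e0000003e0000003e0000003e0000003f0000000e 9 6) 0 0 (step_sound _ 132 [(rh18965a982d73c794.shift 1 3), rh6f3af326e283fc0c] (by decide +kernel))
noncomputable def rh92f15e82158500dd : CRef := CRef.mk (Pat.mk 0x3000000018000000000000000000000000 0x200000007c0000003f0000003f0000001e0000007f0000001e0000001c 9 7) 0 0 (step_sound _ 98 [rh05c84a11045f632a, (rh53b3c253cb0c65f4.shift 1 3)] (by decide +kernel))
noncomputable def rh9b5798b8f04c7f77 : CRef := CRef.mk (Pat.mk 0x3000000018000000000000000000000000 0x8000000180000003e000000f8000000180000001f0000007c0000003c 9 8) 0 0 (step_sound _ 134 [(rh18965a982d73c794.shift 3 3), rhb84788f4f233571f] (by decide +kernel))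
noncomputable def rh6751e938a2993e5f : CRef := CRef.mk (Pat.mk 0x3000000018000000000000000000000000 0x3c0000003e0000003e0000007e0000001f0000001a00000008 9 7) 0 0 (step_sound _ 98 [rh016aa5f06141568a, (rh53b3c253cb0c65f4.shift 1 3)] (by decide +kernel))
noncomputable def rhbafd1d39e4f168a1 : CRef := CRef.mk (Pat.mk 0xc00000006000000000000000000000000 0x80000000c0000000c0000000c0000003f0000003e0000003e0000003e0000000a 9 6) 0 0 (step_sound _ 132 [(rh18965a982d73c794.shift 1 3), rh5af5c4a535cd9049] (by decide +kernel))
noncomputable def rhccec796aee1d41ea : CRef := CRef.mk (Pat.mk 0x180000000c000000000000000000000000 0x40000000c0000001c0000001f000000780000001c0000007c0000007c00000014 9 7) 0 0 (step_sound _ 133 [(rh18965a982d73c794.shift 2 3), rh628fefbbe566ac73] (by decide +kernel))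
noncomputable def rh8827384a8f9e4faf : CRef := CRef.mk (Pat.mk 0x300000001800000000000000000000000000000000 0x1c0000001f0000003f0000001e0000007f0000003c0000003c00000010 9 7) 0 0 (step_sound _ 130 [(rh53b3c253cb0c65f4.shift 1 4), rhe3334944bc026fbc] (by decide +kernel))
noncomputable def rhdc36b160a5607029 : CRef := CRef.mk (Pat.mk 0x1000000018000000080000000000000000 0x8000000080000000f0000001f0000001c0000007f0000007e0000003c 9 7) 0 0 (step_sound _ 35 [rh5802ee4bb8e5d024, (rh71222050f2c63a3a.shift 3 0)] (by decide +kernel))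
noncomputable def rhcfae55e19cb9deb6 : CRef := CRef.mk (Pat.mk 0x30000000180000000000000000 0x200000003c0000003f0000003e000000ff000000f80000002c0000000c 9 8) 0 0 (step_sound _ 102 [(rh18965a982d73c794.shift 3 2), rhb79593cf1bb4f52e] (by decide +kernel))
noncomputable def rh9fc86910c0c8f9e2 : CRef := CRef.mk (Pat.mk 0x80000000c00000004000000000000000000000000 0x1f0000001f0000007c0000001f0000000c000000080000000800000008 9 7) 0 0 (step_sound _ 195 [(rh5c5e593799055d58.shift 2 3), rh93522aa02102e786] (by decide +kernel))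
noncomputable def rhd349ca90ba1bdcb2 : CRef := CRef.mk (Pat.mk 0x1000000018000000080000000000000000 0x28000000780000007e0000001f0000007c0000003c 9 7) 0 0 (step_sound _ 35 [(rh71222050f2c63a3a.shift 3 0), rhcf999fb1fbbf5349] (by decide +kernel))
noncomputable def rhee010063fa85aa14 : CRef := CRef.mk (Pat.mk 0x80000000c00000004000000000000000000000000 0x1f0000001f0000007c0000001f0000000c000000080000000800000008 9 7) 0 0 (step_sound _ 195 [rh5b0904626909bb95, (rh5c5e593799055d58.shift 2 3)] (by decide +kernel))
noncomputable def rha8eeeb163ef43d63 : CRef := CRef.mk (Pat.mk 0x100000001800000008000000000000000000000000 0xa0000007b0000007f0000007f0000006f0000002c00000004 9 7) 0 0 (step_sound _ 67 [(rh71222050f2c63a3a.shift 3 1), rh8128df0d70bc15fe] (by decide +kernel))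
noncomputable def rhfe070999fe74f8c1 : CRef := CRef.mk (Pat.mk 0x100000001800000008000000000000000000000000 0x180000001800000018000000fc000000ff000000370000003000000030 9 8) 0 0 (step_sound _ 196 [rh1287c850604c28f1, (rh5c5e593799055d58.shift 3 3)] (by decide +kernel))
noncomputable def rhd9675c14a6833b70 : CRef := CRef.mk (Pat.mk 0x100000001800000008000000000000000000000000 0x80000000800000008000000180000007c0000007f0000007c0000003e00000004 9 7) 0 0 (step_sound _ 67 [rh406233a16079752d, (rh71222050f2c63a3a.shift 3 1)] (by decide +kernel))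
noncomputable def rhb6c1fb344ea6491a : CRef := CRef.mk (Pat.mk 0x1000000018000000080000000000000000 0xc0000000c0000002c000000780000001f0000007f000000fe0000003c 9 8) 0 0 (step_sound _ 35 [rh5bbf011a3a468285, (rh71222050f2c63a3a.shift 3 0)] (by decide +kernel))
noncomputable def rh56b34b49e30dca52 : CRef := CRef.mk (Pat.mk 0x1000000018000000080000000000000000 0x1000000010000001f0000000fe000001ef0000007c00000028 9 9) 0 0 (step_sound _ 164 [(rh5c5e593799055d58.shift 3 2), rh9b510577c553ce31] (by decide +kernel))
noncomputable def rhd2e88da05514922b : CRef := CRef.mk (Pat.mk 0x2000000030000000100000000000000000 0x3f7000001fe000003df000000f000000070 9 10) 0 0 (step_sound _ 36 [rh34f9467cb6c85a3b, (rh71222050f2c63a3a.shift 4 0)] (by decide +kernel))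
noncomputable def rhe1c5274aa4c17410 : CRef := CRef.mk (Pat.mk 0x1000000018000000080000000000000000 0xf0000001f0000007c0000000f0000000c0000000c 9 7) 0 0 (step_sound _ 35 [rh1679a34c73a06ebf, (rh71222050f2c63a3a.shift 3 0)] (by decide +kernel))
noncomputable def rh541a31bbcc1b7fa6 : CRef := CRef.mk (Pat.mk 0x1000000010000000080000000000000000 0xc0000003c0000003e000000fe0000007c0000001f0000007c00000038 9 8) 0 0 (step_sound _ 99 [(rh0ecec64930248e2a.shift 0 1), (rh4821dcf828b9d7bf.shift 3 0), (rh6bd5a66d4c46030a.shift 1 0), (rhcf80391c5046a495.shift 3 0)] (by decide +kernel))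
noncomputable def rhfb7addea7eb6b780 : CRef := CRef.mk (Pat.mk 0x80000000c0000000400000000 0x1e0000003f0000007f0000007c0000007c00000078 9 7) 0 0 (step_sound _ 131 [(rh5c5e593799055d58.shift 2 1), rha49876448236d2cd] (by decide +kernel))
noncomputable def rh5909f225d63b1c2b : CRef := CRef.mk (Pat.mk 0x100000001800000008000000000000000000000000 0x4000000160000007c000000ff0000007f0000003800000030 9 8) 0 0 (step_sound _ 67 [(rh71222050f2c63a3a.shift 3 1), rhbeb7a49731325e1e] (by decide +kernel))
noncomputable def rh9fd91924d5fe38e1 : CRef := CRef.mk (Pat.mk 0x10000000180000000800000000 0x60000000700000007e000000fe000000fc000000ef00000064 9 8) 0 0 (step_sound _ 132 [rh3866d612ba924ddc, (rh5c5e593799055d58.shift 3 1)] (by decide +kernel))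
noncomputable def rhb13821c6693136ef : CRef := CRef.mk (Pat.mk 0x400000006000000020000000000000000 0xe0000001f0000007c0000007e000000ff0000001c0000001c 9 8) 0 0 (step_sound _ 162 [(rh5c5e593799055d58.shift 1 2), rha622ea91adea8d90] (by decide +kernel))
noncomputable def rhe81a546c1d0a9049 : CRef := CRef.mk (Pat.mk 0x800000008000000040000000000000000 0x1c0000001c0000001c0000001c0000001f0000007c0000007e0000007f0000001b00000010 9 7) 0 0 (step_sound _ 163 [rh133df594d06516bf, (rhb77bfac3e9efecea.shift 2 2), rhc01f1059e94f1f10, (rhc23ec26ef2c84235.shift 2 2), (rhe16036ff578a11df.shift 2 2)] (by decide +kernel))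
noncomputable def rhdbde48c9d8143bbb : CRef := CRef.mk (Pat.mk 0x1000000018000000080000000000000000 0x28000000380000007c0000007f0000007c0000003e 9 7) 0 0 (step_sound _ 35 [(rh71222050f2c63a3a.shift 3 0), rha010982fc45f72f4] (by decide +kernel))
noncomputable def rh596e427de1e879e7 : CRef := CRef.mk (Pat.mk 0x1000000018000000080000000000000000 0x60000004e000000fe0000007c000000ff0000007700000070 9 8) 0 0 (step_sound _ 66 [(rh0bb882ba86b2372d.shift 0 2), (rh574fdbf07bdd18b9.shift 0 2), (rhc431fceb4c0acbf7.shift 1 0), rhdc6abb5934ea3318] (by decide +kernel))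
noncomputable def rhb346f02b60effc76 : CRef := CRef.mk (Pat.mk 0x1000000018000000080000000000000000 0xc0000002c0000003c0000007c0000007f0000007c0000003e 9 7) 0 0 (step_sound _ 35 [rh1b0def43ddad5009, (rh71222050f2c63a3a.shift 3 0)] (by decide +kernel))
noncomputable def rh6c3a510cfcf0153a : CRef := CRef.mk (Pat.mk 0x80000000c0000000400000000 0x30000000380000003f0000007f0000007e0000007600000032 9 7) 0 0 (step_sound _ 131 [(rh5c5e593799055d58.shift 2 1), rh90937bb857bca92a] (by decide +kernel))
noncomputable def rh852052d9701050ea : CRef := CRef.mk (Pat.mk 0x80000000800000008000000040000000000000000 0x140000001c0000001c0000007f0000007e0000001b00000010 9 7) 0 0 (step_sound _ 67 [(rh00c644645561e9be.shift 2 1), (rh3bba0975853e579f.shift 0 1), (rhc9de03f9731897d4.shift 3 0)] (by decide +kernel))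
noncomputable def rh0c43de7ecb58eafb : CRef := CRef.mk (Pat.mk 0x1000000018000000080000000000000000 0x8000000080000006f0000007f0000001f0000003c0000001c0000001c 9 7) 0 0 (step_sound _ 35 [rh18818eb6a5788289, (rh71222050f2c63a3a.shift 3 0)] (by decide +kernel))
noncomputable def rh4469cfb80902a12d : CRef := CRef.mk (Pat.mk 0x1000000018000000080000000000000000 0x40000007f7000003ff000007fc0000007800000078 9 11) 0 0 (step_sound _ 35 [(rh71222050f2c63a3a.shift 3 0), rhcc0c2ae0d3b24cf0] (by decide +kernel))
noncomputable def rh8c6e24724fadba68 : CRef := CRef.mk (Pat.mk 0x1000000018000000080000000000000000 0x2c0000006f000000ff000000fe000000f8000000f000000070 9 8) 0 0 (step_sound _ 133 [(rh22a2cfe39f5d8e58.shift 0 1), (rh68cb1a0deaa5c18d.shift 1 0), (rh69012675dfdb1a5b.shift 1 3), (rhd69c262cd33b94b3.shift 1 3)] (by decide +kernel))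
noncomputable def rhbeb480183e171164 : CRef := CRef.mk (Pat.mk 0x1000000018000000080000000000000000 0x200000002000000170000003f0000001f0000000c0000000800000008 9 6) 0 0 (step_sound _ 35 [(rh71222050f2c63a3a.shift 3 0), (rhc419c259d066d8e4.shift 0 1)] (by decide +kernel))
noncomputable def rhfdbcf8b13056a813 : CRef := CRef.mk (Pat.mk 0x1000000018000000080000000000000000 0x28000000fc000000fe0000003f0000001f0000001c 9 8) 0 0 (step_sound _ 35 [(rh71222050f2c63a3a.shift 3 0), rheb0dd631882cba3b] (by decide +kernel))
noncomputable def rh7b9d1e278e0197e4 : CRef := CRef.mk (Pat.mk 0x2000000030000000100000000000000000 0x1000000070000000f4000001fe000000ff0000007e0000002e00000008 9 9) 0 0 (step_sound _ 165 [(rh5c5e593799055d58.shift 4 2), rhd1ee866c3f687ff7] (by decide +kernel))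
noncomputable def rha91eff11e98e6e3d : CRef := CRef.mk (Pat.mk 0x3000000018000000000000000000000000 0x3000000070000000700000003f0000007e0000003e0000003800000008 9 7) 0 0 (step_sound _ 98 [rh1fd4ecd415105b04, (rh53b3c253cb0c65f4.shift 1 3)] (by decide +kernel))
noncomputable def rh2aa37336c1690a2d : CRef := CRef.mk (Pat.mk 0x180000000c000000000000000000000000 0x80000003c0000007e0000001f0000001b0000003f0000001f0000000c00000004 9 7) 0 0 (step_sound _ 97 [(rh53b3c253cb0c65f4.shift 0 3), rhb0d7af6f78ea1b59] (by decide +kernel))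
noncomputable def rh4cbefc102381cb7c : CRef := CRef.mk (Pat.mk 0x80000000c0000000400000000 0x1a0000003f0000007f0000007f0000006700000020 9 7) 0 0 (step_sound _ 131 [rh3c9620ebf55034ad, (rh5c5e593799055d58.shift 2 1)] (by decide +kernel))
noncomputable def rhfb58209a77dc9cc5 : CRef := CRef.mk (Pat.mk 0x1000000018000000080000000000000000 0x40000000c000000ff0000007f0000000f0000001c0000001c 9 8) 0 0 (step_sound _ 35 [(rh71222050f2c63a3a.shift 3 0), rh91c6c70284c0993d] (by decide +kernel))
noncomputable def rhb9528cb8c08131fc : CRef := CRef.mk (Pat.mk 0x80000000c00000004000000000000000000000000 0x1e0000003f0000007f0000007f0000000e0000000a0000000800000008 9 7) 0 0 (step_sound _ 195 [rh5a7dd799270a0a36, (rh5c5e593799055d58.shift 2 3)] (by decide +kernel))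
noncomputable def rha85512a03d803e47 : CRef := CRef.mk (Pat.mk 0x180000000c00000000000000000000000000000000 0x600000016000000370000001f000000ff0000001f0000007e0000001c00000004 9 8) 0 0 (step_sound _ 129 [rh0c81991b90f6c4a9, (rh53b3c253cb0c65f4.shift 0 4)] (by decide +kernel))
noncomputable def rhf67373e5896c1961 : CRef := CRef.mk (Pat.mk 0x100000001800000008000000000000000000000000 0x380000003c000000f8000000f8000000ff000000170000001000000010 9 8) 0 0 (step_sound _ 196 [(rh5c5e593799055d58.shift 3 3), rh832764a61e433510] (by decide +kernel))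
noncomputable def rhccd4b3e7d27f8514 : CRef := CRef.mk (Pat.mk 0x10000000180000000800000000 0x200000007e0000003e000000ff0000001e0000001f00000016 9 8) 0 0 (step_sound _ 132 [rh00dfeba44d986030, (rh5c5e593799055d58.shift 3 1)] (by decide +kernel))
noncomputable def rh82c1ae70d5b3a02f : CRef := CRef.mk (Pat.mk 0x70000000000000000000000000 0x4000000040000003e7000007fe00000fc70000008000000080 9 12) 0 0 (step_sound _ 71 [(rh0deb2ebc850de581.shift 3 1), (rh71185df907b4126f.shift 3 2), (rh7b93e260e30176fc.shift 3 2), (rhc4dc93e36b06de5b.shift 4 0), (rhcd7d2b841f4b65a7.shift 0 2)] (by decide +kernel))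
noncomputable def rh22b0851c67cae4a5 : CRef := CRef.mk (Pat.mk 0x3800000008000000000000000000000000 0xc0000002e0000007e0000003e0000007f000000160000001600000006 9 7) 0 0 (step_sound _ 98 [(rh1ed7a3503fa50fc8.shift 0 3), (rha96bc186f256422b.shift 1 0), (rheea1a90336e79c71.shift 0 3)] (by decide +kernel))
noncomputable def rh1942f004a389ebf1 : CRef := CRef.mk (Pat.mk 0x180000000a00000000000000000000000000000000 0x500000007000000070000000f0000001f0000000f00000007000000070000000700000002 9 5) 0 0 (step_sound _ 128 [(rh1c62b6193297d9e3.shift 0 4), rh3d8dd27a202ca64c] (by decide +kernel))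
noncomputable def rhf6db2ad856f0c39e : CRef := CRef.mk (Pat.mk 0xc000000050000000000000000 0x1200000016000000770000007e000000ff0000002c0000000c 9 8) 0 0 (step_sound _ 100 [rh03a74f500ba60daa, rh4bb84bbc7733c9c6, (rh67e5914ef7f4941c.shift 0 2)] (by decide +kernel))
noncomputable def rh43e69534f7ab980e : CRef := CRef.mk (Pat.mk 0x80000000c00000004000000000000000000000000 0x1e0000001f0000007f0000001f0000000c000000080000000800000008 9 7) 0 0 (step_sound _ 195 [(rh5c5e593799055d58.shift 2 3), rhcb7db7b1179d1664] (by decide +kernel))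
noncomputable def rh9693e6b0b0641240 : CRef := CRef.mk (Pat.mk 0x10000000180000000800000000 0x200000007e0000007e000000ff000000fe0000000f00000006 9 8) 0 0 (step_sound _ 132 [(rh5c5e593799055d58.shift 3 1), rhb853514444ada1da] (by decide +kernel))
noncomputable def rhf6564f3a100bdea6 : CRef := CRef.mk (Pat.mk 0x80000000c00000004000000000000000000000000 0x1e0000001f0000007f0000001f0000000c000000080000000800000008 9 7) 0 0 (step_sound _ 195 [(rh5c5e593799055d58.shift 2 3), rhf9c78a489fce0136] (by decide +kernel))
noncomputable def rhaec07209d79d61f6 : CRef := CRef.mk (Pat.mk 0x1000000010000000080000000000000000 0x80000003c0000007c0000001e000000fc000000ff0000007800000038 9 8) 0 0 (step_sound _ 99 [(rh1d40d3144405ec83.shift 1 0), rh34cf5cf651117d0b, (rhadf429772c25fde0.shift 3 0), (rhf9366b6a121593ef.shift 3 0)] (by decide +kernel))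
noncomputable def rh4ec6411ea3b1307c : CRef := CRef.mk (Pat.mk 0x4000000060000000200000000000000000 0x800000018000000bc000001fc0000007f000000fe000003e8000000e0 9 10) 0 0 (step_sound _ 37 [(rh71222050f2c63a3a.shift 5 0), rh73aebad379ce9208] (by decide +kernel))
noncomputable def rh9c997638298e1397 : CRef := CRef.mk (Pat.mk 0x200000002000000020000000100000000000000000 0x500000007000000070000001fe000000fe0000006700000040 9 9) 0 0 (step_sound _ 69 [(rh00c644645561e9be.shift 4 1), (rh5434a41c995b04ce.shift 0 1), (rhc9de03f9731897d4.shift 5 0)] (by decide +kernel))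
noncomputable def rhd5649e659d25992a : CRef := CRef.mk (Pat.mk 0x1000000018000000080000000000000000 0x8000000780000007f000000ff0000007b00000078 9 8) 0 0 (step_sound _ 35 [(rh71222050f2c63a3a.shift 3 0), rhc7d41790a3af8645] (by decide +kernel))
noncomputable def rhf515d43e87cdc9ab : CRef := CRef.mk (Pat.mk 0x1000000018000000080000000000000000 0xc0000001e0000007f000000ff0000007b0000001a 9 8) 0 0 (step_sound _ 35 [rh34ccd735c0bf592f, (rh71222050f2c63a3a.shift 3 0)] (by decide +kernel))
noncomputable def rh19e0d2dd1c1d5feb : CRef := CRef.mk (Pat.mk 0x1000000018000000080000000000000000 0x2000000060000002f0000007f0000001f0000003f000000fa00000038 9 8) 0 0 (step_sound _ 35 [rh56f50d95189695aa, (rh71222050f2c63a3a.shift 3 0)] (by decide +kernel))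
noncomputable def rh352856b8b6cf9e66 : CRef := CRef.mk (Pat.mk 0x80000000c000000040000000000000000 0x60000000600000006000000ff0000007c0000000f0000003c0000001c 9 8) 0 0 (step_sound _ 34 [(rh71222050f2c63a3a.shift 2 0), rhac82565d98237146] (by decide +kernel))
noncomputable def rh53cef2266ef24d88 : CRef := CRef.mk (Pat.mk 0x2000000020000000100000000000000000 0x20000000a8000003fe000003fe000007df0000005000000050 9 11) 0 0 (step_sound _ 100 [(rh4821dcf828b9d7bf.shift 4 0), rh5fdb2a0ea6e5e022, (rhb124aa9d0e7d5bf8.shift 1 0)] (by decide +kernel))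
noncomputable def rh77ed3cf44df26c0d : CRef := CRef.mk (Pat.mk 0x40000000600000002000000000 0x4000000040000001fc000003fe000003bf00000080 9 10) 0 0 (step_sound _ 134 [rh23086ec37c8e4638, (rh5c5e593799055d58.shift 5 1)] (by decide +kernel))
noncomputable def rhf119556d95fb5fe1 : CRef := CRef.mk (Pat.mk 0x100000001800000008000000000000000000000000 0xa0000007b0000007f0000007f0000006f0000002c00000004 9 7) 0 0 (step_sound _ 67 [rh1ca334a5cc47a8e8, (rh71222050f2c63a3a.shift 3 1)] (by decide +kernel))
noncomputable def rh3b15b754b48de606 : CRef := CRef.mk (Pat.mk 0x10000000180000000800000000 0x200000007e0000007e000000ff000000fe0000000f00000006 9 8) 0 0 (step_sound _ 132 [(rh5c5e593799055d58.shift 3 1), rh941d803075ecec8f] (by decide +kernel))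
noncomputable def rha7138c4634c58881 : CRef := CRef.mk (Pat.mk 0x80000000c000000040000000000000000 0x400000016000000160000007f000000ff0000007c0000002400000004 9 8) 0 0 (step_sound _ 34 [(rh71222050f2c63a3a.shift 2 0), (rhb2dc7ec77f1062f8.shift 0 1)] (by decide +kernel))
noncomputable def rhe99897ca1c023296 : CRef := CRef.mk (Pat.mk 0x1000000018000000080000000000000000 0xc0000000c000001df000000fc000000fe0000001c0000000c 9 9) 0 0 (step_sound _ 35 [rh35460702eb384bb3, (rh71222050f2c63a3a.shift 3 0)] (by decide +kernel))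
noncomputable def rhe35f66f1106f8af3 : CRef := CRef.mk (Pat.mk 0x100000001000000008000000000000000000000000 0x8000000180000001c00000014000001f7000000fe000001ff000000380000002800000008 9 9) 0 0 (step_sound _ 67 [(rh53c798c09177b7db.shift 3 0), (rha155c44d4c8233ee.shift 0 1), (rhe83f0679b86b6627.shift 3 0), (rhf2cdd83051d1963e.shift 3 2)] (by decide +kernel))
noncomputable def rh81081d25bb22b54d : CRef := CRef.mk (Pat.mk 0x4000000060000000200000000000000000 0x8000000380000003c000000fc0000007f000000fe0000007800000030 9 8) 0 0 (step_sound _ 37 [rh421e5b1058c0dae9, (rh71222050f2c63a3a.shift 5 0)] (by decide +kernel))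
noncomputable def rh2b4bec931d2bc8df : CRef := CRef.mk (Pat.mk 0x1000000018000000080000000000000000 0x28000000780000007f000000ff0000007f0000006c 9 8) 0 0 (step_sound _ 35 [(rh71222050f2c63a3a.shift 3 0), rhe5183191ee29866e] (by decide +kernel))
noncomputable def rhf0cae08e50a52baa : CRef := CRef.mk (Pat.mk 0x1000000018000000080000000000000000 0x4000007f7000003ff000007bf0000000800000008 9 11) 0 0 (step_sound _ 35 [(rh42eaa007e5697603.shift 0 1), (rh71222050f2c63a3a.shift 3 0)] (by decide +kernel))
noncomputable def rhb650ab34af4206da : CRef := CRef.mk (Pat.mk 0x1000000018000000080000000000000000 0x20000000e0000000f0000003f0000001f0000003f0000001e0000000c 9 6) 0 0 (step_sound _ 35 [(rh71222050f2c63a3a.shift 3 0), rh9629f59bcc078ca3] (by decide +kernel))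
noncomputable def rhf372dd7ca6d31616 : CRef := CRef.mk (Pat.mk 0x100000001800000008000000000000000000000000 0xc0000000e0000007f0000007f0000007f000000370000000400000004 9 7) 0 0 (step_sound _ 98 [(rh0bb882ba86b2372d.shift 0 3), (rh574fdbf07bdd18b9.shift 0 3), rhd723a5b5fae87d6b, (rhf616c77757f6558e.shift 0 2)] (by decide +kernel))
noncomputable def rh7f891ad2ed292dd4 : CRef := CRef.mk (Pat.mk 0x1000000018000000080000000000000000 0x80000000c0000000e0000007f0000007f0000000f0000000c0000000c 9 7) 0 0 (step_sound _ 35 [(rh71222050f2c63a3a.shift 3 0), rhd056b75375ab404e] (by decide +kernel))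
noncomputable def rh103df024a97882a2 : CRef := CRef.mk (Pat.mk 0x1000000010000000080000000000000000 0x1400000014000001fe000001fe000003ff0000002800000028 9 10) 0 0 (step_sound _ 99 [(rhc8b5fc8bafb7aab2.shift 1 0), rheb526220df426aaa, (rhf9366b6a121593ef.shift 3 0)] (by decide +kernel))
noncomputable def rh2e07fa3222f7b4c1 : CRef := CRef.mk (Pat.mk 0x10000000180000000800000000 0x3c0000003e000000f70000007f000000ff00000017 9 8) 0 0 (step_sound _ 132 [(rh5c5e593799055d58.shift 3 1), rhea10e2d69cbc59fe] (by decide +kernel))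
noncomputable def rh00633c78b7925b41 : CRef := CRef.mk (Pat.mk 0x2000000030000000100000000 0x6000000060000000e0000001f0000001f0000001d 9 5) 0 0 (step_sound _ 129 [rh30f3d598437f3498, (rh5c5e593799055d58.shift 0 1)] (by decide +kernel))
noncomputable def rhd865395ed9a90e9c : CRef := CRef.mk (Pat.mk 0x80000000c0000000400000000 0x1e0000003f0000007f0000007f0000003e00000012 9 7) 0 0 (step_sound _ 131 [rh12cc78143c57ee11, (rh5c5e593799055d58.shift 2 1)] (by decide +kernel))
noncomputable def rhd89a0769c409d3ab : CRef := CRef.mk (Pat.mk 0x1000000010000000080000000000000000 0x380000007c0000001f000000fc000000fe0000007800000038 9 8) 0 0 (step_sound _ 99 [rh06924997dfd07e71, (rh1d40d3144405ec83.shift 1 0), rh9586f1d20a33296b, (rhadf429772c25fde0.shift 3 0)] (by decide +kernel))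
noncomputable def rh6e64f5353a4853ba : CRef := CRef.mk (Pat.mk 0x1000000018000000080000000000000000 0x4000007f7000003ff000007fe0000000800000008 9 11) 0 0 (step_sound _ 35 [(rh3bc101fa75a9794d.shift 0 1), (rh71222050f2c63a3a.shift 3 0)] (by decide +kernel))
noncomputable def rh91c53059570bd2f7 : CRef := CRef.mk (Pat.mk 0x1000000018000000080000000000000000 0x6e0000003f0000001f0000001e0000007c0000003c 9 7) 0 0 (step_sound _ 35 [(rh71222050f2c63a3a.shift 3 0), rhcb721b1dcc44ed91] (by decide +kernel))
noncomputable def rhcaf81fb3a42d5469 : CRef := CRef.mk (Pat.mk 0x10000000180000000800000000 0x1e0000007e000000fe000000fe0000006f00000026 9 8) 0 0 (step_sound _ 132 [(rh5c5e593799055d58.shift 3 1), rh63024f05ed23ad7b] (by decide +kernel))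
noncomputable def rh7ed01bcd002edcbc : CRef := CRef.mk (Pat.mk 0x1000000018000000080000000000000000 0xc0000000e0000007f0000007f0000007f0000003400000014 9 7) 0 0 (step_sound _ 66 [(rh0bb882ba86b2372d.shift 0 2), (rh574fdbf07bdd18b9.shift 0 2), rhc38e68af590ec272, (rhf616c77757f6558e.shift 0 1)] (by decide +kernel))
noncomputable def rh32500b8ce00eacb2 : CRef := CRef.mk (Pat.mk 0x2000000020000000100000000000000000 0x6800000068000003fe000001fe000003df000000fc00000050 9 10) 0 0 (step_sound _ 100 [(rh328a8a70e52ed906.shift 0 1), (rh77813712618d889b.shift 1 0), (rhf9366b6a121593ef.shift 4 0)] (by decide +kernel))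
noncomputable def rh73610a3cb458acd9 : CRef := CRef.mk (Pat.mk 0x300000001800000000000000000000000000000000 0x1000000038000000380000001e0000007f0000007c0000003c00000030 9 7) 0 0 (step_sound _ 130 [(rh53b3c253cb0c65f4.shift 1 4), rhbde3c19b71498a92] (by decide +kernel))
noncomputable def rh890f5e6104996a80 : CRef := CRef.mk (Pat.mk 0xc0000000600000000000000000000000000000000 0x40000003c0000003f0000003e0000003f0000003e0000001e00000004 9 6) 0 0 (step_sound _ 164 [(rh18965a982d73c794.shift 1 4), rhc8377d54b9bf6449] (by decide +kernel))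
noncomputable def rhc2097e01c9b44231 : CRef := CRef.mk (Pat.mk 0x3000000018000000000000000000000000 0x8000000180000003e000000f8000000180000001f0000007c0000003c 9 8) 0 0 (step_sound _ 134 [(rh18965a982d73c794.shift 3 3), rhc7d0cce82f7f1bc3] (by decide +kernel))
noncomputable def rh8cf66d7944736ac1 : CRef := CRef.mk (Pat.mk 0x300000001800000000000000000000000000000000 0x10000000770000003f0000001e0000007c0000003e0000003c00000030 9 7) 0 0 (step_sound _ 130 [(rh53b3c253cb0c65f4.shift 1 4), rhc128e7b7cfeefcac] (by decide +kernel))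
noncomputable def rh55ecb6ca037dbbb7 : CRef := CRef.mk (Pat.mk 0x30000000180000000000000000000000000000000000000000 0x50000000f7000000ff000000f80000003e00000078000000380000001000000010 9 8) 0 0 (step_sound _ 198 [(rh18965a982d73c794.shift 3 5), rh22f5ab9ed1986d61] (by decide +kernel))
noncomputable def rh68f829b64e3a117a : CRef := CRef.mk (Pat.mk 0x3000000010000000000000000000000000 0x1c0000007e000000ff000001fe0000001e0000001800000018 9 9) 0 0 (step_sound _ 99 [(rh10d480ddd27d4efd.shift 1 0), rh2c9306438e7e4315, (rh69012675dfdb1a5b.shift 1 3)] (by decide +kernel))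
noncomputable def rhf03ee30d8fb5a3f8 : CRef := CRef.mk (Pat.mk 0x3000000018000000000000000000000000 0x1c0000001f0000003f0000001e0000007f0000003c0000001c 9 7) 0 0 (step_sound _ 98 [(rh53b3c253cb0c65f4.shift 1 3), rhff7471dbc248c7ae] (by decide +kernel))
noncomputable def rh120fff1605e3feb4 : CRef := CRef.mk (Pat.mk 0xc00000006000000000000000000000000 0x600000016000000370000003f0000007e0000000f0000000e00000006 9 7) 0 0 (step_sound _ 132 [(rh18965a982d73c794.shift 1 3), rh35042224bd380a26] (by decide +kernel))
noncomputable def rh187a1292069895ef : CRef := CRef.mk (Pat.mk 0xc00000006000000000000000000000000 0x6000000170000003f0000003f0000003e0000000b0000000b00000003 9 6) 0 0 (step_sound _ 132 [(rh18965a982d73c794.shift 1 3), rha96bc186f256422b] (by decide +kernel))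
noncomputable def rh96ea96029661a71c : CRef := CRef.mk (Pat.mk 0x180000000c00000000000000000000000000000000 0xe0000001f0000001b0000003f0000003f0000007c0000003c00000018 9 7) 0 0 (step_sound _ 129 [(rh53b3c253cb0c65f4.shift 0 4), rh6878a3f2f7e0a193] (by decide +kernel))
noncomputable def rh848aac13834a627f : CRef := CRef.mk (Pat.mk 0x180000000c000000000000000000000000 0x40000000c0000000c0000001f000000780000007c0000007c0000007c00000014 9 7) 0 0 (step_sound _ 133 [rh16d95ced518846cf, (rh18965a982d73c794.shift 2 3)] (by decide +kernel))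
noncomputable def rhf33c0ae1c5f5e5c3 : CRef := CRef.mk (Pat.mk 0x1800000008000000080000000000000000 0x1c0000001c0000000f0000003c0000000f0000000e 9 6) 0 0 (step_sound _ 35 [(rh2f68792b6b779e96.shift 3 1), rh7db9ee17ee9efc15] (by decide +kernel))
noncomputable def rhac8bee8abc5dc085 : CRef := CRef.mk (Pat.mk 0x18000000080000000800000000 0x40000000e0000000f0000001e0000007f0000003f00000014 9 7) 0 0 (step_sound _ 131 [(rh3ca4c10fdf355329.shift 1 0), (rh5abfc4c9d959be03.shift 2 0), (rh771d065bdc85bf2d.shift 2 0), rh97a1fcadaeaab608] (by decide +kernel))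
noncomputable def rh3bb6e63ef5288f53 : CRef := CRef.mk (Pat.mk 0x30000000100000001000000000 0x800000008000001df000001fe000003f70000001000000010 9 10) 0 0 (step_sound _ 99 [(rh9dab2eea143f77ee.shift 0 2), (rhb1a251d9bff81766.shift 3 0)] (by decide +kernel))
noncomputable def rh326f274b1c6cef14 : CRef := CRef.mk (Pat.mk 0x180000000c000000000000000000000000 0x300000003800000038000000180000003f0000003f0000001c0000001c 9 6) 0 0 (step_sound _ 97 [(rh53b3c253cb0c65f4.shift 0 3), rh7633ba16f0e7cc9d] (by decide +kernel))
noncomputable def rh4c4cc0ba3a70e016 : CRef := CRef.mk (Pat.mk 0x3000000018000000000000000000000000 0x50000000f7000000ff000000f80000007c0000003e0000001c 9 8) 0 0 (step_sound _ 134 [(rh18965a982d73c794.shift 3 3), rh96dd5f71b5f9b5db] (by decide +kernel))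
noncomputable def rh158f2c331d788bed : CRef := CRef.mk (Pat.mk 0x180000000c000000000000000000000000 0x8000000080000003c0000003e000000fb0000001f000000ff0000001f0000000c00000004 9 8) 0 0 (step_sound _ 97 [(rh53b3c253cb0c65f4.shift 0 3), rh9cd3ca1a0987dcbb] (by decide +kernel))
noncomputable def rh2b369a551a0742dd : CRef := CRef.mk (Pat.mk 0x30000000180000000000000000000000000000000000000000 0x50000000f7000000ff000000f80000003e00000078000000380000001000000010 9 8) 0 0 (step_sound _ 198 [(rh18965a982d73c794.shift 3 5), rhd5ce5fbc0207d366] (by decide +kernel))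
noncomputable def rh1ad9e0e4be41a70e : CRef := CRef.mk (Pat.mk 0x180000000c0000000000000000000000000000000000000000 0x40000001c0000001c000000380000007c0000006c0000007f0000003c0000001c0000001c00000010 9 7) 0 0 (step_sound _ 197 [(rh18965a982d73c794.shift 2 5), rhe5a9461f11686095] (by decide +kernel))
noncomputable def rhd23139c0d792a515 : CRef := CRef.mk (Pat.mk 0x180000000c000000000000000000000000 0xb0000000b0000001f000000ff0000000f0000000400000004 9 8) 0 0 (step_sound _ 97 [(rh53b3c253cb0c65f4.shift 0 3), rhf5c9283a6d39c6b3] (by decide +kernel))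
noncomputable def rhb66f69688055ef40 : CRef := CRef.mk (Pat.mk 0xc000000060000000000000000 0x1e0000001f0000003c0000003f0000007e0000007700000016 9 7) 0 0 (step_sound _ 100 [(rh18965a982d73c794.shift 1 2), rh71aff9f657148679] (by decide +kernel))
noncomputable def rh65479415b5d16f43 : CRef := CRef.mk (Pat.mk 0x1000000018000000080000000000000000 0x670000003f0000001f0000007e0000007e0000003c 9 7) 0 0 (step_sound _ 35 [(rh71222050f2c63a3a.shift 3 0), rhd55fc21d801ab046] (by decide +kernel))
noncomputable def rh66dec2498cabd0cf : CRef := CRef.mk (Pat.mk 0x1000000018000000000000000000000000 0x2000000074000000f4000000ff000000fe000000ee000000e800000008 9 8) 0 0 (step_sound _ 133 [(rh2425647de17d7261.shift 0 1), (rh69012675dfdb1a5b.shift 1 3), (rhaca4a649905e0169.shift 1 0), (rhd69c262cd33b94b3.shift 1 3)] (by decide +kernel))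
noncomputable def rhe0913625300ab829 : CRef := CRef.mk (Pat.mk 0x2000000030000000000000000000000000 0x60000000e8000003ee000001fe000003ff000000f800000050 9 10) 0 0 (step_sound _ 68 [(rh03b471bcb461a7d2.shift 1 0), rh3bbd3764a97116d1, (rhcf80391c5046a495.shift 4 0)] (by decide +kernel))
noncomputable def rh04adca24935e9ae8 : CRef := CRef.mk (Pat.mk 0x180000000c0000000000000000000000000000000000000000 0x3000000030000000320000001b0000003f0000007f0000003e0000001c0000000c00000008 9 7) 0 0 (step_sound _ 161 [rh25b5eff627b8366c, (rh53b3c253cb0c65f4.shift 0 5)] (by decide +kernel))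
noncomputable def rh26ef9a83bcacb92c : CRef := CRef.mk (Pat.mk 0x30000000180000000000000000 0x2000000060000000e0000000ff000000f8000000f000000070 9 8) 0 0 (step_sound _ 102 [(rh18965a982d73c794.shift 3 2), rhf96aeadb8ff5931b] (by decide +kernel))
noncomputable def rhf4045a4a1cbf4390 : CRef := CRef.mk (Pat.mk 0x80000000c00000000000000000000000000000000 0x180000001a000000ff0000007c0000007f0000007f0000001e00000008 9 8) 0 0 (step_sound _ 98 [(rh3f74e77d6c9ef85d.shift 1 0), (rhadf429772c25fde0.shift 2 1), (rhc5997b8545309636.shift 0 1), (rhf9366b6a121593ef.shift 2 1)] (by decide +kernel))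
noncomputable def rh263e854127ee6d4d : CRef := CRef.mk (Pat.mk 0x30000000180000000000000000 0x2000000020000000f0000000ff000000f8000000f000000070 9 8) 0 0 (step_sound _ 102 [(rh18965a982d73c794.shift 3 2), rh9ccfe3644c60ed0c] (by decide +kernel))
noncomputable def rh284e2e07efdd699a : CRef := CRef.mk (Pat.mk 0x100000001800000008000000000000000000000000 0x4000000160000007c000000ff0000007f0000003800000030 9 8) 0 0 (step_sound _ 67 [rh1124927df5c6d267, (rh71222050f2c63a3a.shift 3 1)] (by decide +kernel))
noncomputable def rhe58facf1dadb8a9e : CRef := CRef.mk (Pat.mk 0x2000000030000000100000000000000000 0x2000000020000003be000001fe000003ff0000004000000040 9 10) 0 0 (step_sound _ 165 [rh107e93477fb656a6, (rh5c5e593799055d58.shift 4 2)] (by decide +kernel))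
noncomputable def rhdeef2a7e4c125850 : CRef := CRef.mk (Pat.mk 0xc000000060000000000000000 0x80000000c0000003c0000003f0000003e0000003f0000001e 9 6) 0 0 (step_sound _ 100 [(rh18965a982d73c794.shift 1 2), rhea6fa8cf38d884c7] (by decide +kernel))
noncomputable def rhf9fa3c6bfadfa950 : CRef := CRef.mk (Pat.mk 0x4000000040000000200000002000000000 0x5000000050000003de000000fe000001b7000000a000000020 9 10) 0 0 (step_sound _ 101 [(rh71222050f2c63a3a.shift 5 0), (rhea847ab707a5355b.shift 0 1)] (by decide +kernel))
noncomputable def rhf0b035d11190b1c6 : CRef := CRef.mk (Pat.mk 0x100000001000000010000000080000000000000000 0x280000003800000038000003be000001fe000001f700000020 9 10) 0 0 (step_sound _ 68 [(rh00c644645561e9be.shift 3 1), (rh5a69c8914f0b82dc.shift 0 1), (rhc9de03f9731897d4.shift 4 0)] (by decide +kernel))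
noncomputable def rh306a978885d68259 : CRef := CRef.mk (Pat.mk 0x10000000100000001800000000000000000000000000000000 0x2c0000007e0000003e0000007e0000003f0000001f0000001000000010 9 7) 0 0 (step_sound _ 100 [(rh947229a28e85990d.shift 1 2), (rh9b55d31e0673a43a.shift 3 0), (rhc4055b4872d6fb38.shift 3 2), (rhe9722138ff9c2614.shift 1 2), (rhea658d2ba49827b3.shift 0 2)] (by decide +kernel))
noncomputable def rh69e33fe7c9e526dc : CRef := CRef.mk (Pat.mk 0x100000001000000018000000000000000000000000 0x80000001800000018000000f8000000ff0000003f00000028 9 8) 0 0 (step_sound _ 67 [(rh42548283029e2a39.shift 3 0), rh8887a3b8205280f6, (rhf9af042da61fc652.shift 3 0)] (by decide +kernel))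
noncomputable def rh2b35b0f916980bb6 : CRef := CRef.mk (Pat.mk 0x1000000010000000180000000000000000 0x280000003800000038000000f8000000ff0000007f 9 8) 0 0 (step_sound _ 36 [(rh0053ea9a2c9f98c9.shift 2 0), rh592616b467fecf3e, (rhc4055b4872d6fb38.shift 3 0)] (by decide +kernel))
noncomputable def rh1221adec5f7c5c8d : CRef := CRef.mk (Pat.mk 0x20000000200000003000000000000000000000000000000000 0x580000007c0000006f0000007e000001ff000000760000000400000004 9 9) 0 0 (step_sound _ 131 [(rh0ec941de9ee2c368.shift 1 0), (rh68ff5b358e9c25f0.shift 2 2), (rha4e887c2a2a0f60b.shift 0 3)] (by decide +kernel))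
noncomputable def rhcd3ae0972f3feebd : CRef := CRef.mk (Pat.mk 0x8000000080000000c000000000000000000000000 0x140000001c0000001c0000007f0000007f0000003e00000004 9 7) 0 0 (step_sound _ 66 [(rh42548283029e2a39.shift 2 0), (rh4df8d16fe7d42cce.shift 0 1), (rhf9af042da61fc652.shift 2 0)] (by decide +kernel))
noncomputable def rh91c8921f8c275609 : CRef := CRef.mk (Pat.mk 0x4000000060000000200000000000000000 0x5000000050000003de000000fe000001b7000000a000000020 9 10) 0 0 (step_sound _ 37 [(rh71222050f2c63a3a.shift 5 0), (rhea847ab707a5355b.shift 0 1)] (by decide +kernel))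
noncomputable def rhf4bae7dce03acc25 : CRef := CRef.mk (Pat.mk 0x20000000300000001000000000 0x3c0000007e000001ff0000007e000000df0000004c 9 9) 0 0 (step_sound _ 67 [(rh122d3bd0f32004a1.shift 1 0), (rha11dfd15f08f96e3.shift 2 2), (rhb12ffaec36122c99.shift 0 1), rhbd983731667c98fe] (by decide +kernel))
noncomputable def rh699aacf78406c1c0 : CRef := CRef.mk (Pat.mk 0x100000001000000010000000000000000000000000 0x80000002f0000007f000000fe0000003000000010000000300000003000000020 9 8) 0 0 (step_sound _ 195 [(rh114f4abf4ea101c9.shift 3 2), (rh68682f1a3dc26b66.shift 0 3), (rhbec796c3ea7a32e6.shift 2 2), (rhf435f65ca384ce7a.shift 3 0), (rhf567e284c2dbdd01.shift 3 2)] (by decide +kernel))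
noncomputable def rhd00de8091794632c : CRef := CRef.mk (Pat.mk 0x200000002000000030000000000000000000000000 0x1c0000003c0000006f000001fe000000ff0000005000000040 9 9) 0 0 (step_sound _ 99 [(rh37cf2ee957d1a4f3.shift 1 1), (rh6cf4c37417009e6c.shift 1 1), (rha4e887c2a2a0f60b.shift 0 2), (rha9c9240b2c92ec66.shift 2 0)] (by decide +kernel))
noncomputable def rh62e58bc7979ff40d : CRef := CRef.mk (Pat.mk 0x10000000180000000800000000 0x100000001000000010000000f8000000ff0000002f 9 8) 0 0 (step_sound _ 132 [rh20495c39bc614158, (rh5c5e593799055d58.shift 3 1)] (by decide +kernel))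
noncomputable def rh9d6422d8a32c36a1 : CRef := CRef.mk (Pat.mk 0x100000001800000008000000000000000000000000 0x8000000180000007c000000ff0000007f0000003c00000030 9 8) 0 0 (step_sound _ 67 [(rh71222050f2c63a3a.shift 3 1), rhcda306fc7d6fac97] (by decide +kernel))
noncomputable def rhff21cb8d55135eca : CRef := CRef.mk (Pat.mk 0x100000001800000008000000000000000000000000 0x20000000720000007f000000ff000000770000003400000014 9 8) 0 0 (step_sound _ 98 [(rh0723a97f373ad3eb.shift 1 1), (rh0bb882ba86b2372d.shift 0 3), rh2e1d503f94105a48, (rh574fdbf07bdd18b9.shift 0 3)] (by decide +kernel))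
noncomputable def rhab7e57b18333edbc : CRef := CRef.mk (Pat.mk 0x1000000018000000080000000000000000 0x1000000010000000700000007e000001ef0000007c00000028 9 9) 0 0 (step_sound _ 164 [rh3a104d81cb66ad5a, (rh5c5e593799055d58.shift 3 2)] (by decide +kernel))
noncomputable def rhbea59806976346a8 : CRef := CRef.mk (Pat.mk 0x80000000c0000000400000000 0x60000002e0000007e0000007c0000007f0000003700000012 9 7) 0 0 (step_sound _ 131 [(rh5c5e593799055d58.shift 2 1), rh91af0be30cbe12a0] (by decide +kernel))
noncomputable def rh3b78798ad549146b : CRef := CRef.mk (Pat.mk 0x800000008000000080000000000000000000000000000000000000000 0xc0000001e0000007f0000007f0000001f0000001e0000001c00000014 9 7) 0 0 (step_sound _ 131 [(rh0d69838d1abc92dd.shift 0 2), (rh6eff4158bb400f47.shift 2 2), (rh7a62c4b2780c02e6.shift 2 0), (rhe2e6c99f94cc8dc6.shift 1 2), (rhe84e00c98653ad0c.shift 2 1), (rheb401f6f12f2978e.shift 0 2), (rhff00f0830934413f.shift 2 0)] (by decide +kernel))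
noncomputable def rhd65113e9a767e2fc : CRef := CRef.mk (Pat.mk 0x10000000080000000800000008000000000000000000000000 0x100000001c0000001c0000000c000000780000001e0000007f0000003f000000170000000200000002 9 7) 0 0 (step_sound _ 195 [(rh00e7ef0bd5843001.shift 1 2), (rh283aa840d851d11c.shift 2 2), (rh3ca4c10fdf355329.shift 1 2), rh7967cbec474eb2f4, (rhdb991c49878b7ef7.shift 2 2)] (by decide +kernel))
noncomputable def rhadbedb623591ec76 : CRef := CRef.mk (Pat.mk 0x80000000c0000000400000000 0x1f0000001f0000007c0000001f0000000c00000008 9 7) 0 0 (step_sound _ 131 [rh0ca46578f66eeedd, (rh5c5e593799055d58.shift 2 1)] (by decide +kernel))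
noncomputable def rh2417397b6eaafb12 : CRef := CRef.mk (Pat.mk 0x20000000300000001000000000 0x3000000030000003b7000001fe000003fe00000068 9 10) 0 0 (step_sound _ 133 [(rh5c5e593799055d58.shift 4 1), rhbd4352fb152fe48b] (by decide +kernel))
noncomputable def rh29d2ecd8ca2cfc55 : CRef := CRef.mk (Pat.mk 0x80000000c000000040000000000000000 0x1c0000001c000000fc0000007c0000007f0000007a00000018 9 8) 0 0 (step_sound _ 163 [(rh5c5e593799055d58.shift 2 2), rh99f82da62e21a94c] (by decide +kernel))
noncomputable def rhca07e1e0f9ab8b72 : CRef := CRef.mk (Pat.mk 0x8000000080000000800000000000000000000000000000000 0x140000001c0000001c00000008000000080000000c0000003f0000003f000000170000001200000002 9 6) 0 0 (step_sound _ 100 [(rh2977b00063528966.shift 3 1), (rh37639814abe95979.shift 2 2), (rh7814e101873e2401.shift 2 3), rhd186afc7bd89801d, (rhfa80626feb4e9cb5.shift 0 2)] (by decide +kernel))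
noncomputable def rh140c021ce32a67ea : CRef := CRef.mk (Pat.mk 0x18000000080000000800000000 0x1c0000001e000000780000006f0000007c00000034 9 7) 0 0 (step_sound _ 131 [(rh1b866c4ae8b50bb9.shift 1 1), (rhbbf27135c8f1befc.shift 2 0), rhf0d38cf1e7116183] (by decide +kernel))
noncomputable def rhe21697ffba6d4a65 : CRef := CRef.mk (Pat.mk 0x3000000018000000000000000000000000 0x3000000038000000380000001e0000007f0000007c0000003c 9 7) 0 0 (step_sound _ 98 [(rh53b3c253cb0c65f4.shift 1 3), rhc6e5a41255a38fc6] (by decide +kernel))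
noncomputable def rhacb371d06e97985e : CRef := CRef.mk (Pat.mk 0xc000000060000000000000000 0x40000001c0000003c0000007f0000003f0000000e0000003e0000001e 9 7) 0 0 (step_sound _ 100 [(rh18965a982d73c794.shift 1 2), rhaa3f2e429df1c9c3] (by decide +kernel))
noncomputable def rhbebc8c4e8616f653 : CRef := CRef.mk (Pat.mk 0x60000000300000000000000000000000000000000 0x10000000700000007000000060000001f000000070000001f0000001f0000000700000001 9 5) 0 0 (step_sound _ 163 [rh0adc8d31cb0d3766, (rh18965a982d73c794.shift 0 4)] (by decide +kernel))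
noncomputable def rh4efaf835c8850dd6 : CRef := CRef.mk (Pat.mk 0x3000000018000000000000000000000000 0x30000000770000003f0000001e0000007c0000003e0000001c 9 7) 0 0 (step_sound _ 98 [(rh53b3c253cb0c65f4.shift 1 3), rhd00dcc73a8c77d31] (by decide +kernel))
noncomputable def rha96072d9346afe55 : CRef := CRef.mk (Pat.mk 0x3000000018000000000000000000000000 0x200000007e0000007e0000003e0000001e0000001f0000007e00000038 9 7) 0 0 (step_sound _ 98 [(rh53b3c253cb0c65f4.shift 1 3), rh53be0b116de6e943] (by decide +kernel))
noncomputable def rh7bdff5b4af14bcf3 : CRef := CRef.mk (Pat.mk 0x300000001800000000 0x380000007e000000fe000000ff0000003800000008 9 8) 0 0 (step_sound _ 70 [(rh18965a982d73c794.shift 3 1), rh90b6f09d5827dd1f] (by decide +kernel))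
noncomputable def rh3e5cded0052a43ab : CRef := CRef.mk (Pat.mk 0x180000000c000000000000000000000000 0xe0000000f0000001b0000001f0000003f0000003c0000003c 9 6) 0 0 (step_sound _ 97 [(rh53b3c253cb0c65f4.shift 0 3), rhf7c453b392519aab] (by decide +kernel))
noncomputable def rh6ca2d84b57b68296 : CRef := CRef.mk (Pat.mk 0x180000000c0000000000000000 0x1c0000001e0000007f0000007f0000001c0000000800000008 9 7) 0 0 (step_sound _ 101 [(rh18965a982d73c794.shift 2 2), rh8450a7b7c6245839] (by decide +kernel))
noncomputable def rh5bd14722684750ef : CRef := CRef.mk (Pat.mk 0x180000000c000000000000000000000000 0x40000000c0000001c0000001f000000780000001c0000007c0000007c00000014 9 7) 0 0 (step_sound _ 133 [(rh18965a982d73c794.shift 2 3), rhd496dc11c5e1191b] (by decide +kernel))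
noncomputable def rhbd57eb062806270a : CRef := CRef.mk (Pat.mk 0x180000000c000000000000000000000000 0xb0000001b0000001f0000001f0000003f0000003c0000003c 9 6) 0 0 (step_sound _ 97 [(rh53b3c253cb0c65f4.shift 0 3), rhf6646ae3a2ccf630] (by decide +kernel))
noncomputable def rhf911da6a691b0c81 : CRef := CRef.mk (Pat.mk 0x3000000018000000000000000000000000 0x3000000038000000380000003e0000007f0000007c0000003c 9 7) 0 0 (step_sound _ 98 [(rh53b3c253cb0c65f4.shift 1 3), rh877b6170862c2813] (by decide +kernel))
noncomputable def rh020ec8f472ec726a : CRef := CRef.mk (Pat.mk 0x3000000018000000000000000000000000 0x3c0000003f0000003f0000003e0000001c0000001c0000000c 9 6) 0 0 (step_sound _ 98 [rh01c0a5fba9cc3114, (rh53b3c253cb0c65f4.shift 1 3)] (by decide +kernel))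
noncomputable def rh626a3f08080ec58a : CRef := CRef.mk (Pat.mk 0x180000000c000000000000000000000000 0x26000000370000001f0000001f0000003f0000003e00000038 9 6) 0 0 (step_sound _ 97 [(rh53b3c253cb0c65f4.shift 0 3), rh859d9c61c7511ae0] (by decide +kernel))
noncomputable def rh395155a227e51d2e : CRef := CRef.mk (Pat.mk 0x180000000c0000000000000000 0x3e0000003f000000ff0000001f0000001c0000001c0000000c 9 8) 0 0 (step_sound _ 132 [rh7d93e400863b6e53, (rhbce7f4da0f59b014.shift 1 1), (rhcf80391c5046a495.shift 3 0)] (by decide +kernel))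
noncomputable def rhba3dccd74fbbefc5 : CRef := CRef.mk (Pat.mk 0x2000000018000000000000000000000000 0x2000000038000000380000003c000000fe000000ff0000001e0000007c0000003800000018 9 8) 0 0 (step_sound _ 132 [(rh25ee6338d76829c9.shift 1 0), rh2c9306438e7e4315, (rhd69c262cd33b94b3.shift 1 3)] (by decide +kernel))
noncomputable def rh89a36b3f75cc190b : CRef := CRef.mk (Pat.mk 0xc000000060000000000000000 0x1e0000001f0000007f0000003c0000000e0000000e00000006 9 7) 0 0 (step_sound _ 100 [(rh18965a982d73c794.shift 1 2), rhc6ebfe8338652514] (by decide +kernel))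
noncomputable def rh80c38ab93adef725 : CRef := CRef.mk (Pat.mk 0x180000000c0000000000000000 0x3e0000003f000000ff0000001f0000001c0000001c00000018 9 8) 0 0 (step_sound _ 132 [rh65829efd131c58b6, (rhbce7f4da0f59b014.shift 1 1), (rhcf80391c5046a495.shift 3 0), (rhf9366b6a121593ef.shift 3 0)] (by decide +kernel))
noncomputable def rhe8dedcfcd8e1426a : CRef := CRef.mk (Pat.mk 0x100000000e00000000000000000000000000000000 0x400000006000000370000001e00000037000000070000000700000005 9 6) 0 0 (step_sound _ 132 [(rh33e738c4ed385b9f.shift 1 4), rh70c0254fa924b082] (by decide +kernel))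
noncomputable def rh7f89a476551abc27 : CRef := CRef.mk (Pat.mk 0xe0000000000000000000000000 0x30000000300000007f000000fe000000ff0000007c00000078 9 8) 0 0 (step_sound _ 100 [(rh008ec883d4619f17.shift 0 2), (rh29ea58d77672456f.shift 0 2), (rh36f70bb591beb0da.shift 1 2), (rh592c7139d2c44767.shift 2 2), (rh74f9ae0ef221baee.shift 2 0), (rhb5327506c9733867.shift 2 0), (rhcfaee032bd45abc2.shift 2 0)] (by decide +kernel))
noncomputable def rh1831a9ae2a30d91e : CRef := CRef.mk (Pat.mk 0x2000000018000000000000000000000000 0x1c0000007e000000ff0000003e0000007e0000003c00000018 9 8) 0 0 (step_sound _ 132 [rh2c9306438e7e4315, (rh38774a83d7c573ef.shift 1 1), (rh69012675dfdb1a5b.shift 1 3)] (by decide +kernel))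
noncomputable def rh2a295959562b7880 : CRef := CRef.mk (Pat.mk 0x2000000030000000100000000000000000 0x800000008000001ef000001fe000003b80000001000000010 9 10) 0 0 (step_sound _ 36 [(rh71222050f2c63a3a.shift 4 0), (rhc56ba1ec5edd27c4.shift 0 1)] (by decide +kernel))
noncomputable def rhadafac50bdd2ec22 : CRef := CRef.mk (Pat.mk 0x800000008000000040000000000000000 0xa0000003f0000007f0000007f0000007e0000001600000004 9 7) 0 0 (step_sound _ 98 [(rh7708a7c8e70fbb78.shift 0 1), (rhadf429772c25fde0.shift 2 0), rhc8b5fc8bafb7aab2] (by decide +kernel))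
noncomputable def rh1fa89ad03cc19d8c : CRef := CRef.mk (Pat.mk 0x1000000018000000080000000000000000 0xf0000001f0000007c0000006c0000007c0000003c 9 7) 0 0 (step_sound _ 35 [(rh71222050f2c63a3a.shift 3 0), rhf4a8da3dd96bb447] (by decide +kernel))
noncomputable def rh9931e337b98d8858 : CRef := CRef.mk (Pat.mk 0x4000000040000000200000002000000000 0x5000000050000003de000001fe000003b7000000a000000020 9 10) 0 0 (step_sound _ 101 [(rh220b1b3b51fee473.shift 0 1), (rh71222050f2c63a3a.shift 5 0)] (by decide +kernel))
noncomputable def rhea9d5bb1e23b881b : CRef := CRef.mk (Pat.mk 0x4000000060000000200000000000000000 0x5000000050000003de000001fe000003b7000000a000000020 9 10) 0 0 (step_sound _ 166 [(rh5c5e593799055d58.shift 5 2), rhcf4f2fa7dca0f64d] (by decide +kernel))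
noncomputable def rhc4ee4340ca100c24 : CRef := CRef.mk (Pat.mk 0x80000000c000000040000000000000000 0x600000016000000160000007f0000007f000000f60000003e0000001e 9 8) 0 0 (step_sound _ 34 [(rh71222050f2c63a3a.shift 2 0), rh9e03641446ea1658] (by decide +kernel))
noncomputable def rh6b36e5aebe669dfe : CRef := CRef.mk (Pat.mk 0x1000000010000000180000000000000000 0x280000003c000000f0000000f8000000ff0000003f 9 8) 0 0 (step_sound _ 36 [rh592616b467fecf3e, (rh7724e98bb8eb6fba.shift 2 0), (rhbb9118e51d4d06f0.shift 2 0)] (by decide +kernel))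
noncomputable def rhcbdd8ee0246423a9 : CRef := CRef.mk (Pat.mk 0xc000000060000000000000000 0x80000000c0000003c0000003f0000003e0000003700000016 9 6) 0 0 (step_sound _ 100 [(rh18965a982d73c794.shift 1 2), rhe9163ca4fa3581d6] (by decide +kernel))
noncomputable def rhea3a1ff045a528f2 : CRef := CRef.mk (Pat.mk 0x180000000c0000000000000000 0x1c0000001e0000007c0000001f000000ff000000ef0000000a 9 8) 0 0 (step_sound _ 65 [(rh53b3c253cb0c65f4.shift 0 2), rhfb1802c0c7bfef5d] (by decide +kernel))
noncomputable def rh2ffe29638ef53e00 : CRef := CRef.mk (Pat.mk 0x180000000c000000000000000000000000 0xe0000000f0000001f000000ff0000000f0000000400000004 9 8) 0 0 (step_sound _ 97 [(rh53b3c253cb0c65f4.shift 0 3), rhc4b4f96cb89b9fcf] (by decide +kernel))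
noncomputable def rh0bb9e09c0309143d : CRef := CRef.mk (Pat.mk 0x3000000018000000000000000000000000 0x200000007c0000003f0000003f0000003e0000001c0000001c0000001c 9 7) 0 0 (step_sound _ 98 [(rh53b3c253cb0c65f4.shift 1 3), rh5e4297076f859b03] (by decide +kernel))
noncomputable def rhf7d4d0d76c30ae75 : CRef := CRef.mk (Pat.mk 0x3000000018000000000000000000000000 0x3c0000007e0000003e000000780000001f0000003c0000001c 9 7) 0 0 (step_sound _ 67 [(rh226a132f01051d42.shift 1 1), rh67956ff20dd854df, (rhadf429772c25fde0.shift 3 0)] (by decide +kernel))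
noncomputable def rhe847c3e349c9e8e3 : CRef := CRef.mk (Pat.mk 0x180000000c000000000000000000000000 0x4000000040000001e0000001f0000007a0000000f0000000e0000000c00000004 9 7) 0 0 (step_sound _ 133 [(rh18965a982d73c794.shift 2 3), rhd2ca79c76f68b457] (by decide +kernel))
noncomputable def rh36e73737b7ffd7f1 : CRef := CRef.mk (Pat.mk 0xc000000060000000000000000 0x1e0000003e0000001f0000003c0000007e0000007700000006 9 7) 0 0 (step_sound _ 100 [(rh18965a982d73c794.shift 1 2), rheab0cdeefd88ebfd] (by decide +kernel))
noncomputable def rhd6bd00ee0eaddafc : CRef := CRef.mk (Pat.mk 0x4000000038000000000000000000000000 0x50000000580000077c000003f8000003bc0000003f0000001c 9 11) 0 0 (step_sound _ 102 [(rh21460d2d48a35cb8.shift 2 1), rh257a556c69ee4933, (rh5f7b3bfbaf903d4f.shift 2 2), (rh625ad03eee6c8947.shift 2 1), (rh830476f8919f4a8e.shift 2 2), (rhd0c0061ffd79e485.shift 2 2)] (by decide +kernel))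
noncomputable def rh5c15b803a9c68aa7 : CRef := CRef.mk (Pat.mk 0xc000000060000000000000000 0x8000000080000003c0000003f0000003e0000003400000034 9 6) 0 0 (step_sound _ 100 [(rh18965a982d73c794.shift 1 2), rh27209e25bb9fb3a2] (by decide +kernel))
noncomputable def rh8325d77ee3da0739 : CRef := CRef.mk (Pat.mk 0x180000000c000000000000000000000000 0x100000003e0000001f0000001f0000000f0000000f0000003e0000001c 9 6) 0 0 (step_sound _ 97 [(rh53b3c253cb0c65f4.shift 0 3), rhf929f33d1bf153df] (by decide +kernel))
noncomputable def rhdfbd6339b97fba2d : CRef := CRef.mk (Pat.mk 0x70000000000000000000000000 0x180000071e000003f80000073c0000001f0000001c 9 11) 0 0 (step_sound _ 131 [(rh4df35fbc131eb4ae.shift 1 3), (rh6a789e94d4fd022c.shift 3 2), (rh8bb330ee5aea9f6b.shift 2 0), (rh8bf46c12d40f1a1c.shift 2 2), rh9f54117135443173] (by decide +kernel))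
noncomputable def rh3e0f0780af2f5018 : CRef := CRef.mk (Pat.mk 0x1800000006000000000000000000000000 0x600000006000000070000003e00000007000000030000000300000003 9 6) 0 0 (step_sound _ 130 [(rh18965a982d73c794.shift 1 3), rh2ed33e0369b30858] (by decide +kernel))
noncomputable def rhb41ef4a86a76e6e5 : CRef := CRef.mk (Pat.mk 0x18000000060000000000000000000000000000000000000000 0x140000001c0000001f000000780000000f0000007c000000180000001c0000001c00000004 9 7) 0 0 (step_sound _ 163 [(rh53b3c253cb0c65f4.shift 0 5), rhe6fee544f2ee197b] (by decide +kernel))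
noncomputable def rh18060de67bae3567 : CRef := CRef.mk (Pat.mk 0x38000000000000000000000000 0x280000002c000003ff000003fe000003f00000005000000050 9 10) 0 0 (step_sound _ 133 [(rh3e0b38310ac09007.shift 0 3), (rhb1558b51a4a5d1aa.shift 2 0), (rhca817d2917150f13.shift 2 0), (rhfefd7be2d273f2ab.shift 1 0)] (by decide +kernel))
noncomputable def rhc4dfe3be0915c068 : CRef := CRef.mk (Pat.mk 0x180000000c000000000000000000000000 0x10000000180000001c0000003c0000001f000000ff0000007f0000000a00000008 9 8) 0 0 (step_sound _ 97 [(rh53b3c253cb0c65f4.shift 0 3), rhcc59e65468ed313a] (by decide +kernel))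
noncomputable def rhc5bdc02c6d41fbd8 : CRef := CRef.mk (Pat.mk 0x180000000c00000000000000000000000000000000 0x1000000010000000380000001f0000007f0000007f000000380000003000000010 9 7) 0 0 (step_sound _ 129 [(rh53b3c253cb0c65f4.shift 0 4), rh91c6cd7c78565687] (by decide +kernel))
noncomputable def rh3d085526075b969e : CRef := CRef.mk (Pat.mk 0x180000000c00000000000000000000000000000000 0x10000000180000001c0000003c0000001f000000ff000000ef0000001a0000001800000010 9 8) 0 0 (step_sound _ 129 [(rh53b3c253cb0c65f4.shift 0 4), rhd2dc02e1937931c4] (by decide +kernel))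
noncomputable def rh0c68c3f4ad986318 : CRef := CRef.mk (Pat.mk 0x180000000c000000000000000000000000 0x10000000340000001f0000007f0000007f0000003800000038 9 7) 0 0 (step_sound _ 97 [(rh53b3c253cb0c65f4.shift 0 3), rh8f1004fa8f8d71bb] (by decide +kernel))
noncomputable def rh942cc63c2b8406b7 : CRef := CRef.mk (Pat.mk 0x180000000c000000000000000000000000 0xe0000000f0000001b000000ff000000f70000001000000010 9 8) 0 0 (step_sound _ 97 [(rh53b3c253cb0c65f4.shift 0 3), rhfa1c505adef5823c] (by decide +kernel))
noncomputable def rh4140b346949632ca : CRef := CRef.mk (Pat.mk 0x180000000c000000000000000000000000 0x40000001c0000001c0000001e0000001f0000007f0000001f0000001c0000001c0000001800000010 9 7) 0 0 (step_sound _ 163 [(rh64803747bd0423bc.shift 1 1), rhad21f95955b23e4d, (rhbb339bb7e4e96b38.shift 2 2)] (by decide +kernel))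
noncomputable def rh8bb12d73720d799b : CRef := CRef.mk (Pat.mk 0x180000000c0000000000000000000000000000000000000000 0x140000001c0000001f000000780000000f0000007c000000180000001c0000001c00000004 9 7) 0 0 (step_sound _ 197 [(rh18965a982d73c794.shift 2 5), rhaefc91dd8c502a76] (by decide +kernel))
noncomputable def rh71c7fde4aad7a0f5 : CRef := CRef.mk (Pat.mk 0xc00000006000000000000000000000000 0xe0000000f0000003f0000003c0000007e0000003f0000001c00000008 9 7) 0 0 (step_sound _ 132 [(rh18965a982d73c794.shift 1 3), rh89f0f262e7eeea98] (by decide +kernel))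
noncomputable def rh1889dad5a3c2d14d : CRef := CRef.mk (Pat.mk 0x3800000008000000000000000000000000 0x1c0000001c0000007f0000003e0000006e000000260000000600000006 9 7) 0 0 (step_sound _ 130 [(rh4c622fddc53a5f99.shift 0 4), (rh4e9101e89b88eb2f.shift 1 2), (rhd79a59188b24ad76.shift 1 0)] (by decide +kernel))
noncomputable def rh447ae373a1784d66 : CRef := CRef.mk (Pat.mk 0xc00000006000000000000000000000000 0x6000000070000003f0000007e000000070000000700000003 9 7) 0 0 (step_sound _ 132 [(rh18965a982d73c794.shift 1 3), rhf152e86047bf058a] (by decide +kernel))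
noncomputable def rhf0caf6cbc954d27c : CRef := CRef.mk (Pat.mk 0x180000000c00000000000000000000000000000000 0x120000001e0000003e0000000f0000001f0000001f0000000e0000001c0000001c00000014 9 6) 0 0 (step_sound _ 129 [(rh53b3c253cb0c65f4.shift 0 4), rha00af5ff4cb1e986] (by decide +kernel))
noncomputable def rhb96196c8e295272e : CRef := CRef.mk (Pat.mk 0x180000000c000000000000000000000000 0x120000001e0000003e0000000f0000001e0000000f0000003e0000001c00000014 9 6) 0 0 (step_sound _ 97 [(rh53b3c253cb0c65f4.shift 0 3), rhee9f30caec2dd239] (by decide +kernel))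
noncomputable def rhdd630b8704088c94 : CRef := CRef.mk (Pat.mk 0xe000000020000000000000000000000000 0x80000001ae000000fe000001ff000000580000005000000010 9 9) 0 0 (step_sound _ 132 [(rha43dac9d051bb5b2.shift 0 3), (rhd1ff8027c4c86c76.shift 1 3), (rhf459621b93742302.shift 3 1), (rhf4f1a03a19e2b36a.shift 3 0)] (by decide +kernel))
noncomputable def rh254894794a2d52fd : CRef := CRef.mk (Pat.mk 0xc000000060000000000000000 0x80000001e0000003e000000370000003f0000003e0000000a00000008 9 6) 0 0 (step_sound _ 100 [(rh18965a982d73c794.shift 1 2), rh7810a63a5144866a] (by decide +kernel))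
noncomputable def rh0f2d7e3ac2f4da14 : CRef := CRef.mk (Pat.mk 0x18000000080000000800000000000000000000000000000000 0x40000000c0000000c000000780000001f0000007c000000180000001c0000001c00000004 9 7) 0 0 (step_sound _ 162 [(rh31a713248702cbb2.shift 0 1), (rh69012675dfdb1a5b.shift 0 5), (rhbde007d47b9dc637.shift 0 3), (rhee0596fff4351edd.shift 2 0)] (by decide +kernel))
noncomputable def rhff06aa69c3d4708c : CRef := CRef.mk (Pat.mk 0x18000000080000000800000000 0x140000001c0000001c0000000c000000780000003f0000003f00000014 9 7) 0 0 (step_sound _ 131 [rh098bc7705ecc427a, (rh58921e956e31cc66.shift 2 0), rh9c061216ec097908, (rha087c6594f4bfb59.shift 2 0), (rhce9a49803a550f13.shift 2 0)] (by decide +kernel))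
noncomputable def rhc5a4b378befb3785 : CRef := CRef.mk (Pat.mk 0x8000000180000000800000000 0x100000001800000018000000080000001f000000ff000000f4 9 8) 0 0 (step_sound _ 131 [(rh22cde4a1aed087ae.shift 3 1), rh4e135e28bb1b8e89, (rhb7ee8905496f843d.shift 2 0)] (by decide +kernel))
noncomputable def rh26d922a825afb607 : CRef := CRef.mk (Pat.mk 0x80000001800000008000000000000000000000000 0x160000001e0000003e0000000f0000001e0000000f0000003e0000001c00000014 9 6) 0 0 (step_sound _ 98 [(rh281c6819542c66e6.shift 2 0), rh45c20753d9c7fead, (rh73fdbac7bf8ef5f3.shift 0 2), (rh7d4be646332fc08b.shift 2 2)] (by decide +kernel))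
noncomputable def rh56a75a68bc2e8027 : CRef := CRef.mk (Pat.mk 0x180000000800000008000000000000000000000000 0x100000001c0000001c0000002f0000007c0000002f0000007c000000340000001000000010 9 7) 0 0 (step_sound _ 130 [rh44f336f55b1192bd, (rh59934a8816c37478.shift 0 2), (rh8bfc49d28ab751de.shift 0 2), (rhd69c262cd33b94b3.shift 0 4)] (by decide +kernel))
noncomputable def rhf5fdf0340fd4f33d : CRef := CRef.mk (Pat.mk 0x38000000100000000000000000 0x800000008000001df000001fe000003b70000001000000010 9 10) 0 0 (step_sound _ 97 [rh7e5f673c32c8396b, (rhc4d60e5c12185eb6.shift 0 2), (rhf19e0695f4726955.shift 0 2)] (by decide +kernel))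
noncomputable def rhd999fd7700c9bb13 : CRef := CRef.mk (Pat.mk 0x38000000100000000000000000 0x8000000080000001f0000003e000000770000001e0000001c 9 7) 0 0 (step_sound _ 131 [rh111b5f898a7da0c7, (rh1c5294bdda4296d6.shift 1 1), (rhc2c7bae8f445c890.shift 3 0)] (by decide +kernel))
noncomputable def rh8f72efebe641a291 : CRef := CRef.mk (Pat.mk 0x3800000010 0x1c7000001fe000003f7 9 10) 0 0 (step_sound _ 34 [rh775ca1963e850b80, (rh9494f41c02e9b471.shift 1 0), (rha03f6e28ea70fc7d.shift 1 0)] (by decide +kernel))
noncomputable def rhe663a3e4198ef13a : CRef := CRef.mk (Pat.mk 0x3000000018000000000000000000000000 0x80000001c0000001f0000003f0000001e0000007f0000003c0000001c 9 7) 0 0 (step_sound _ 98 [(rh53b3c253cb0c65f4.shift 1 3), rhbae963b381f4bb6d] (by decide +kernel))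
noncomputable def rh8db0aee437f64a82 : CRef := CRef.mk (Pat.mk 0x180000000c0000000000000000 0x100000001c0000003c0000006f0000007e0000007c0000001c00000010 9 7) 0 0 (step_sound _ 101 [(rh18965a982d73c794.shift 2 2), rh2f6bfea3ce35db94] (by decide +kernel))
noncomputable def rhb92203c03f2a359c : CRef := CRef.mk (Pat.mk 0x1000000018000000000000000000000000 0xc0000001c0000005c000001d8000000fe000001ff0000007e0000003c 9 9) 0 0 (step_sound _ 67 [(rh4821dcf828b9d7bf.shift 3 0), rh8bcfdfe4426674ab, rhb1a6ac36c3256da2, (rhcf80391c5046a495.shift 3 0)] (by decide +kernel))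
noncomputable def rhd4f8dd7f7f302949 : CRef := CRef.mk (Pat.mk 0x8000000080000000c0000000000000000000000000000000000000000 0x140000003c0000000f0000003c0000000f0000001e0000001c0000001c00000004 9 6) 0 0 (step_sound _ 131 [(rh5ee4dc8825dcefa0.shift 0 3), (rh71c8507f95e236f3.shift 2 0), (rhb09150e634b21e64.shift 0 3), (rhed841d9ebc5dd0e1.shift 2 1)] (by decide +kernel))
noncomputable def rh804b8f59b15815bd : CRef := CRef.mk (Pat.mk 0x2000000030000000000000000000000000 0x7000000070000000f0000003bf000001fe000003ff0000006000000040 9 10) 0 0 (step_sound _ 165 [(rh6c3bef0e0bea66d7.shift 2 0), (rh93e86cbc3f876809.shift 0 2), (rhb99f8f6e6677b04f.shift 4 2)] (by decide +kernel))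
noncomputable def rhe91d405494c6da2c : CRef := CRef.mk (Pat.mk 0x80000000c000000040000000000000000 0x3c0000007c0000006f0000007c0000007e0000003800000010 9 7) 0 0 (step_sound _ 163 [rh2264d61affec2538, (rh5c5e593799055d58.shift 2 2)] (by decide +kernel))
noncomputable def rh34b4ba085142f05e : CRef := CRef.mk (Pat.mk 0x80000000c000000040000000000000000 0x40000000400000006000000ef0000007c0000007e0000000e0000000e 9 8) 0 0 (step_sound _ 34 [rh6c80169e899d1093, (rh71222050f2c63a3a.shift 2 0)] (by decide +kernel))
noncomputable def rh54b0ccb6ba4164e9 : CRef := CRef.mk (Pat.mk 0x1000000018000000080000000000000000 0xc0000000c0000000f0000001f0000001f0000001e0000007c0000003c 9 7) 0 0 (step_sound _ 35 [rh3fdc0c58dc95d510, (rh71222050f2c63a3a.shift 3 0)] (by decide +kernel))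
noncomputable def rh337b033922370ba3 : CRef := CRef.mk (Pat.mk 0x4000000070000000000000000000000000 0x50000000500000007e000001fe000003b70000002000000020 9 10) 0 0 (step_sound _ 69 [(rhd0f1f2f012ea106a.shift 0 2), (rhf9366b6a121593ef.shift 5 0), (rhfcf10e4e636fb502.shift 1 0)] (by decide +kernel))
noncomputable def rh223e1940761f4001 : CRef := CRef.mk (Pat.mk 0x40000000700000000000000000 0x40000000400000077f000003fe000007bf00000020 9 11) 0 0 (step_sound _ 71 [rh15ed0031272ca767, (rh45f730bcf36fcf64.shift 3 1), (rh592c7139d2c44767.shift 2 1)] (by decide +kernel))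
noncomputable def rh5d7b213d78c53728 : CRef := CRef.mk (Pat.mk 0x1000000038000000000000000000000000 0xc0000000c0000000c0000001f000000ff0000001f0000001c00000018 9 8) 0 0 (step_sound _ 131 [(rh253c7727954085aa.shift 2 0), (rh53daa803953ee8cc.shift 0 1), (rh79b3c29022acbdf3.shift 2 3)] (by decide +kernel))
noncomputable def rh67b00e89cb3aaebc : CRef := CRef.mk (Pat.mk 0x2000000070000000000000000000000000 0x80000003b7000001fe000003fe0000004000000040 9 10) 0 0 (step_sound _ 70 [(rh8ee80cc30e93a344.shift 3 2), (rh9909eeda0ef2ed2c.shift 3 2), (rha0ae8adeb1dbcf8d.shift 1 2), (rhdd7185ed3df2cdca.shift 3 0), rhe493faf8ab2a6783] (by decide +kernel))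
noncomputable def rh7c76de055d250694 : CRef := CRef.mk (Pat.mk 0x1000000038000000000000000000000000 0x44000001d7000000fe000001ff0000006c00000028 9 9) 0 0 (step_sound _ 67 [rh0fcb97f14f9443fb, (rh2820ca9a6c4f41b4.shift 0 2), (rh64654d9e9ee49587.shift 2 0), (rhdc1641106d7e5aa2.shift 2 2)] (by decide +kernel))
noncomputable def rh706e7a1be30966af : CRef := CRef.mk (Pat.mk 0x1000000038000000000000000000000000 0xe0000000f0000001f0000003e0000007f0000006c00000028 9 7) 0 0 (step_sound _ 98 [(rh0d378fd9e8917c5a.shift 0 2), (rh185f35b8bd8ec37f.shift 0 2), (rh58742d3a678a5da7.shift 1 0), (rh592c7139d2c44767.shift 0 2), (rhe0a2f640c8008c73.shift 0 1)] (by decide +kernel))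
noncomputable def rhe29af703e5908274 : CRef := CRef.mk (Pat.mk 0x40000000e000000000000000000000000 0x2000000770000003e0000003f0000000700000007 9 7) 0 0 (step_sound _ 100 [(rh3b00e9e9432b8f40.shift 0 2), rh5768a6622566c834, (rhe3060b190bc0bc78.shift 0 3)] (by decide +kernel))
noncomputable def rh4dcb624c3951b9f9 : CRef := CRef.mk (Pat.mk 0x100000001c00000000000000000000000000000000 0x8000000180000001c000000140000003f000000ff0000003b0000002a00000022 9 8) 0 0 (step_sound _ 100 [(rhb200f8a046f24278.shift 2 0), (rhc21a95c499b3efdb.shift 1 3), rhe72f90413ae7c9dd] (by decide +kernel))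
noncomputable def rheec39be0da5bb0f4 : CRef := CRef.mk (Pat.mk 0x100000001c000000000000000000000000 0x280000003c0000003c000000170000003f000000fb0000002a00000008 9 8) 0 0 (step_sound _ 68 [(rh8ee80cc30e93a344.shift 1 2), (rha634f858da7e466a.shift 2 1), rhd7de8e91b8b20177] (by decide +kernel))
noncomputable def rh2a30e31143d7eafb : CRef := CRef.mk (Pat.mk 0x2000000038000000000000000000000000 0x280000007c000003af000001f8000001fc0000005000000050 9 10) 0 0 (step_sound _ 68 [(rh2cb8437104de90cf.shift 2 0), rh70b28bfcda7eaad1, (rhcf80391c5046a495.shift 4 0), (rhdb209ca2faddcbda.shift 2 0)] (by decide +kernel))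
noncomputable def rh267d8855f30e6c12 : CRef := CRef.mk (Pat.mk 0x20000000380000000000000000000000000000000000000000 0x500000007000000070000000270000003e0000007f00000070000000700000007000000010 9 7) 0 0 (step_sound _ 162 [(rh3a835c9c24581dd0.shift 0 4), (rh775ca1963e850b80.shift 0 4), (rha16b82eed199cfa5.shift 1 0)] (by decide +kernel))
noncomputable def rh35a2d7ed0aa788d1 : CRef := CRef.mk (Pat.mk 0x80000000c00000008000000000000000000000000 0x40000001c0000001c000000180000000c0000001f000000780000001c0000001c00000014 9 7) 0 0 (step_sound _ 35 [(rh6bd371ebe506613d.shift 2 0), (rhce61447e7863f8dc.shift 2 0), rhd595a2d54ecffa85] (by decide +kernel))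
noncomputable def rh61ea970748d9d768 : CRef := CRef.mk (Pat.mk 0x80000000c00000008000000000000000000000000 0x40000000c0000001f0000007b0000001f0000001e00000014 9 7) 0 0 (step_sound _ 100 [(rh4ca5dae25f5c14ff.shift 0 3), (rhdd106b30880b68fa.shift 0 1), rhf79b86530721eba6] (by decide +kernel))
noncomputable def rhe294e7f53a5296b3 : CRef := CRef.mk (Pat.mk 0x20000000300000002000000000000000000000000 0x1000000070000000700000007000000030000000300000002000000070000000700000005 9 3) 0 0 (step_sound _ 65 [rh6eff4158bb400f47, (rha744b3eabd236a36.shift 0 1), (rhe286c75f2739cce2.shift 0 1)] (by decide +kernel))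
noncomputable def rh7fdf911901ff4358 : CRef := CRef.mk (Pat.mk 0x1000000018000000080000000000000000 0x80000000c0000000c0000001e0000007c0000000f0000007c0000001c 9 7) 0 0 (step_sound _ 35 [(rh71222050f2c63a3a.shift 3 0), rh992ae30883f1b01a] (by decide +kernel))
noncomputable def rh4f8ad4f2d2964f33 : CRef := CRef.mk (Pat.mk 0x3000000010000000000000000000000000 0x380000003c000000ff000000fc000001f00000007c0000003800000028 9 9) 0 0 (step_sound _ 197 [(rh02ef15e22aa7db92.shift 4 1), (rh16cbd58a1619e6a8.shift 4 1), (rh943279044f9b413f.shift 0 1), (rhbf87bec75859d826.shift 2 2), (rhe87125d2f409926d.shift 1 0)] (by decide +kernel))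
noncomputable def rh2d40c22620c1ed50 : CRef := CRef.mk (Pat.mk 0x80000000c000000040000000000000000 0x400000016000000160000007f000000ff0000007c0000002400000004 9 8) 0 0 (step_sound _ 34 [(rh71222050f2c63a3a.shift 2 0), (rhadb149cf443540db.shift 0 1)] (by decide +kernel))
noncomputable def rh2b077176b517716a : CRef := CRef.mk (Pat.mk 0xc00000004000000040000000000000000 0x80000000e0000000e0000001e0000007c0000007f0000007c0000007f0000001a00000008 9 7) 0 0 (step_sound _ 67 [(rh1d5eca661e6f4c56.shift 0 1), (rh330b1afeca33f8f0.shift 0 1), (rh35e3afbe6bb1f4f3.shift 1 0), (rh76a564c19d4fb3aa.shift 0 1), (rhe94c1eb9b099fd2a.shift 1 1)] (by decide +kernel))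
noncomputable def rha0efddddb8f4af4e : CRef := CRef.mk (Pat.mk 0x1000000018000000080000000000000000 0x40000000e0000003f0000001f0000007b0000001f0000001e 9 7) 0 0 (step_sound _ 35 [(rh71222050f2c63a3a.shift 3 0), rh8bfd196e626071b8] (by decide +kernel))
noncomputable def rh13e4c1f26335f48b : CRef := CRef.mk (Pat.mk 0x38000000080000000000000000 0x1000000010000003b7000001fe000001f80000002800000028 9 10) 0 0 (step_sound _ 132 [rh0901b48bfceb997d, (rhadf429772c25fde0.shift 3 0), rhc8ac56845541b594] (by decide +kernel))
noncomputable def rhc3a387fc8eeb5a40 : CRef := CRef.mk (Pat.mk 0x70000000100000000000000000 0x4000000040000003ee000001fe000003b70000002000000020 9 10) 0 0 (step_sound _ 103 [(rh35e918dd76851f8c.shift 4 2), (rh38bce10de678439d.shift 0 2), (rh9abacacaac0a63d4.shift 3 0), (rhf3baec4a0a3dd35e.shift 4 2)] (by decide +kernel))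
noncomputable def rhbcb0fff0b1af69bc : CRef := CRef.mk (Pat.mk 0x70000000100000000000000000 0x2000000060000000e70000007e000003f7000001f8000000f0 9 10) 0 0 (step_sound _ 133 [(rhadf429772c25fde0.shift 4 0), rhbd6210879e94c0f2, (rhfb18a167032585a6.shift 2 0)] (by decide +kernel))
noncomputable def rh79c977808b09105d : CRef := CRef.mk (Pat.mk 0x700000001000000000000000000000000 0x40000000c0000003c0000001f0000003f0000001c0000001c00000018 9 6) 0 0 (step_sound _ 131 [rhb30b2a807bdeb40b, (rhd584a578337d0023.shift 0 3), (rhf3baec4a0a3dd35e.shift 0 3)] (by decide +kernel))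
noncomputable def rhcb89e33d90f7ca25 : CRef := CRef.mk (Pat.mk 0x20000000300000001000000000 0x280000006c000000ff000000fe000001d700000044 9 9) 0 0 (step_sound _ 133 [(rh5c5e593799055d58.shift 4 1), rhf715fbd00cc3291e] (by decide +kernel))
noncomputable def rh7246b9d1c55ed2a1 : CRef := CRef.mk (Pat.mk 0x30000000100000000000000000 0x280000007c000000fe000000fe000001f70000007c00000038 9 9) 0 0 (step_sound _ 133 [(rh230e5e04a83f2d00.shift 0 1), rh67c06adb721de4f4, (rhadf429772c25fde0.shift 4 0)] (by decide +kernel))
noncomputable def rhaca5a1f10f294ae0 : CRef := CRef.mk (Pat.mk 0x400000007000000000000000000000000000000000 0x30000000380000007f0000007e000000df0000005c0000001c00000014 9 8) 0 0 (step_sound _ 131 [(rh4983c44f3a2eb597.shift 2 2), (rh5e601430b8bc2e39.shift 0 3), (rh70c0254fa924b082.shift 2 0)] (by decide +kernel))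
noncomputable def rh8ecee3a52307563f : CRef := CRef.mk (Pat.mk 0x30000000180000000000000000 0x2000000020000000f0000000ff000000f8000000f000000070 9 8) 0 0 (step_sound _ 102 [(rh18965a982d73c794.shift 3 2), rhc1b77af88d1fefaf] (by decide +kernel))
noncomputable def rh8651a465049c0737 : CRef := CRef.mk (Pat.mk 0xc000000060000000000000000 0xf0000000f0000003f0000003e000000360000003c0000001c 9 6) 0 0 (step_sound _ 100 [(rh18965a982d73c794.shift 1 2), rhd914e7c06242cee2] (by decide +kernel))
noncomputable def rhf2ae2118c9289b14 : CRef := CRef.mk (Pat.mk 0x180000000c00000000000000000000000000000000 0x100000001c0000001c0000001c0000001c0000001f00000078000000180000001800000010 9 7) 0 0 (step_sound _ 129 [(rh53b3c253cb0c65f4.shift 0 4), (rhacc0f22f4769cae9.shift 1 0)] (by decide +kernel))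
noncomputable def rh496ad5ec95f547e9 : CRef := CRef.mk (Pat.mk 0x80000000e0000000000000000 0x100000001400000034000001ff000000fe000000eb00000002 9 9) 0 0 (step_sound _ 68 [(rh096767d96a1b3292.shift 1 1), rh19bfc94557194d47, rh21460d2d48a35cb8, (rh29629de3cf8230ec.shift 0 1), rhb218ed1e2f167f52] (by decide +kernel))
noncomputable def rh09a024bc861da702 : CRef := CRef.mk (Pat.mk 0x180000000c000000000000000000000000 0x3000000034000000340000001f0000003f0000003b0000001a00000018 9 6) 0 0 (step_sound _ 97 [rh452803bcec2d6df0, (rh53b3c253cb0c65f4.shift 0 3)] (by decide +kernel))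
noncomputable def rh0ff7983a4cc4fb84 : CRef := CRef.mk (Pat.mk 0x30000000180000000000000000 0x3c0000003c000000ef000000ff000000f8000000c0000000c0 9 8) 0 0 (step_sound _ 102 [(rh18965a982d73c794.shift 3 2), rh1de8f71965aa1ce3] (by decide +kernel))
noncomputable def rh02db6bfe81901fce : CRef := CRef.mk (Pat.mk 0x8000000080000000c000000000000000000000000 0x100000001c0000001c0000000c0000001f0000007c0000000f000000180000001800000010 9 7) 0 0 (step_sound _ 132 [(rh0bb882ba86b2372d.shift 0 3), rh1a2de2c054e157ba, rh27934e6e4bbf8500] (by decide +kernel))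
noncomputable def rh275dde5d34b9abf3 : CRef := CRef.mk (Pat.mk 0x8000000080000000c00000000000000000000000000000000 0x140000001c0000001c0000003c0000000f0000000c0000000c000000180000001c0000001c00000004 9 6) 0 0 (step_sound _ 227 [(rh0a24f345b48152a3.shift 2 0), (rh245d56c915813f64.shift 0 3), (rh9a369cb82ea472da.shift 2 4), (rhb77bfac3e9efecea.shift 2 4), (rhe62cab2ff5ad6fe2.shift 2 4)] (by decide +kernel))
noncomputable def rhddd7d9916b46e467 : CRef := CRef.mk (Pat.mk 0x8000000080000000c00000000000000000000000000000000 0x140000001c0000001c000000180000003c0000007f0000000f000000180000001c0000001c00000004 9 7) 0 0 (step_sound _ 99 [(rh04aabb2cf50b542e.shift 0 2), (rh16aa8deac015341b.shift 2 1), (rh4b9b9c6351300e6f.shift 0 2), (rh6c59ce14113da07f.shift 3 1), (rhafd44d417107dbfd.shift 2 0)] (by decide +kernel))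
noncomputable def rh142bfce0b288ab65 : CRef := CRef.mk (Pat.mk 0x4000000040000000600000000000000000000000000000000 0xa0000000e0000000e0000000f0000003c00000006000000060000000c0000000e0000000e00000002 9 6) 0 0 (step_sound _ 226 [(rh9a369cb82ea472da.shift 1 4), (rhb77bfac3e9efecea.shift 1 4), (rhe62cab2ff5ad6fe2.shift 1 4), (rhf0b8c0601120d1bb.shift 1 0), (rhf149b0c20b930719.shift 0 3)] (by decide +kernel))
noncomputable def rh9cecb5ed68e86fa3 : CRef := CRef.mk (Pat.mk 0x8000000080000000c000000000000000000000000 0x140000007e0000007e0000000f000000180000001800000010 9 7) 0 0 (step_sound _ 67 [(rh027eba0a0823613a.shift 0 1), (rh08907ceb8a14f3c9.shift 0 1), (rh0d0c5fe888da5ad6.shift 0 1), (rh8ff3dde5b1c639e0.shift 2 0), (rhc4055b4872d6fb38.shift 2 1)] (by decide +kernel))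
noncomputable def rhbd6908471419b56f : CRef := CRef.mk (Pat.mk 0x100000001000000018 0x280000003f0000007f000000fe0000001800000018 9 8) 0 0 (step_sound _ 100 [rh836ccfc13695a6ef, (rh9a369cb82ea472da.shift 3 0), (rhacca379639ec5237.shift 3 0), (rhe62cab2ff5ad6fe2.shift 3 0)] (by decide +kernel))
noncomputable def rhc824923119576d9c : CRef := CRef.mk (Pat.mk 0x30000000180000000000000000 0x2000000020000000f0000000ff000000f8000000f000000070 9 8) 0 0 (step_sound _ 102 [(rh18965a982d73c794.shift 3 2), rhb30193f849c2dfda] (by decide +kernel))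
noncomputable def rhd63589b6d6f34053 : CRef := CRef.mk (Pat.mk 0x300000001800000000 0x3c0000003c000000ff000000ff000000f800000040 9 8) 0 0 (step_sound _ 70 [(rh18965a982d73c794.shift 3 1), rha51549b811bbc1b7] (by decide +kernel))
noncomputable def rh6747ab346acf3050 : CRef := CRef.mk (Pat.mk 0xc00000006000000000000000000000000 0x1c0000001e0000001f0000003c0000007e0000007c0000001c00000008 9 7) 0 0 (step_sound _ 132 [(rh18965a982d73c794.shift 1 3), rh62e8aa95d64159e3] (by decide +kernel))
noncomputable def rhc19807cee6f35a21 : CRef := CRef.mk (Pat.mk 0x180000000c0000000000000000 0x3a0000003f0000003f0000001f0000007c0000007800000038 9 7) 0 0 (step_sound _ 132 [rhbede89ab38c78f2a, (rhcf80391c5046a495.shift 3 0), (rhec2c9db5bfbd3874.shift 1 1), (rhf9366b6a121593ef.shift 3 0)] (by decide +kernel))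
noncomputable def rh0977ffb57441463b : CRef := CRef.mk (Pat.mk 0x100000001000000018000000000000000000000000 0x38000000780000001e000000f70000007e000001f40000002000000020 9 9) 0 0 (step_sound _ 101 [(rh046c5eb18e55a239.shift 4 0), rh4dc95c49ae01b68d, (rhda11cce8881fd0a0.shift 1 2)] (by decide +kernel))
noncomputable def rhc820e7dd54a75699 : CRef := CRef.mk (Pat.mk 0x100000001000000018000000000000000000000000 0x18000000180000003e000000f70000003e000000770000002000000020 9 8) 0 0 (step_sound _ 101 [(rh70e33bfdf511e144.shift 4 0), (rha43c3540a29ab277.shift 1 2), (rhf6e466063c388db3.shift 0 1)] (by decide +kernel))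
noncomputable def rh54682df2a0f0967d : CRef := CRef.mk (Pat.mk 0x8000000080000000c0000000000000000 0x40000001c0000001c0000001c0000001e0000007f000000780000001f0000000800000008 9 7) 0 0 (step_sound _ 100 [(rh574fdbf07bdd18b9.shift 0 2), (rh64803747bd0423bc.shift 1 0), (rhbfd74c5a00f25343.shift 0 1)] (by decide +kernel))
noncomputable def rh0eca8a9a6448363b : CRef := CRef.mk (Pat.mk 0x8000000080000000c00000000000000000000000000000000 0x400000004000000160000001f0000007a0000001f0000007a0000001c0000001c00000004 9 7) 0 0 (step_sound _ 164 [(rh574fdbf07bdd18b9.shift 0 4), (rh989244dd23f3732c.shift 0 1), (rha1ac771c65ae9cf8.shift 0 2), (rhc4bae21d94406425.shift 1 0)] (by decide +kernel))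
noncomputable def rhf09057449135e91b : CRef := CRef.mk (Pat.mk 0x10000000100000001800000000 0x28000000380000003e00000070000001f7000000fe000001e7 9 9) 0 0 (step_sound _ 132 [(rh1741680720c097b4.shift 3 1), (rh3038ab5f74634e6d.shift 2 0), rh8615e8b891cbfa46] (by decide +kernel))
noncomputable def rhf9a4e8905f2e9ff6 : CRef := CRef.mk (Pat.mk 0xc000000060000000000000000 0x1c0000001e0000001f0000003c0000007e0000007c0000001c 9 7) 0 0 (step_sound _ 100 [(rh18965a982d73c794.shift 1 2), rhc9a78bb6551551f4] (by decide +kernel))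
noncomputable def rh39a2b5db14bf0cdf : CRef := CRef.mk (Pat.mk 0x180000000c0000000000000000 0x8000000080000003c0000003e000000ff0000001b0000001f0000001c0000001c 9 8) 0 0 (step_sound _ 65 [(rh53b3c253cb0c65f4.shift 0 2), rhc6cfcc7b78feec74] (by decide +kernel))
noncomputable def rh065155b0577b47a1 : CRef := CRef.mk (Pat.mk 0x2000000030000000000000001000000000 0x2000000070000003fe000001ff000003fe 9 10) 0 0 (step_sound _ 4 [(rh04253f50b6dd0619.shift 4 0), rh817efa323d68cd7e] (by decide +kernel))
noncomputable def rhed4974690387bbba : CRef := CRef.mk (Pat.mk 0x1000000018000000000000000800000000 0x1000000010000000700000007e000001ef0000007c00000028 9 9) 0 0 (step_sound _ 67 [(rh71222050f2c63a3a.shift 3 0), rhfe167a277f8bdfaa] (by decide +kernel))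
noncomputable def rhcbc8638f77e99969 : CRef := CRef.mk (Pat.mk 0x1000000018000000080000000000000000 0x6000000370000007f0000007f0000007e0000000c 9 7) 0 0 (step_sound _ 35 [(rh71222050f2c63a3a.shift 3 0), rh91db624a4ad7dbbd] (by decide +kernel))
noncomputable def rh18888f9e0867ce57 : CRef := CRef.mk (Pat.mk 0x180000000c000000000000000000000000 0x140000001c0000001e0000001f0000007a0000000f0000000e0000000c00000004 9 7) 0 0 (step_sound _ 133 [(rh18965a982d73c794.shift 2 3), rhee44225003cdb108] (by decide +kernel))
noncomputable def rhbce92dd26fbcc3fd : CRef := CRef.mk (Pat.mk 0xa0000000300000000000000000000000000000000 0x40000000c0000001f0000007e0000001f0000007e0000001e0000001c00000014 9 7) 0 0 (step_sound _ 164 [rh7a1ed6490a517c2f, (rhb2a0b9ccfb5cecd5.shift 0 4)] (by decide +kernel))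
noncomputable def rh0dac1c29925951e0 : CRef := CRef.mk (Pat.mk 0x80000000e000000000000000000000000 0x3000000030000000320000003b000000fe000000ff0000001c0000001c 9 8) 0 0 (step_sound _ 100 [(rh06db8ceda6269a47.shift 0 2), (rh56dd591d88ccf185.shift 0 2), (rh7f83bd45b8e0f5e4.shift 1 0), rh8bb9bb0e7a77140d] (by decide +kernel))
noncomputable def rhe9f8430ca256b21f : CRef := CRef.mk (Pat.mk 0x100000001000000018000000000000000000000000 0x280000003c000000f0000000f8000000ff0000003f00000020 9 8) 0 0 (step_sound _ 68 [(rh592616b467fecf3e.shift 0 1), (rh6c59ce14113da07f.shift 4 0), (rhbb9118e51d4d06f0.shift 2 1)] (by decide +kernel))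
noncomputable def rh93f3f5dbf1d1ed62 : CRef := CRef.mk (Pat.mk 0x140000000600000000000000000000000000000000 0x8000000180000003e000000fc0000003e0000003e0000003f0000003800000028 9 8) 0 0 (step_sound _ 165 [(rhb2a0b9ccfb5cecd5.shift 1 4), rhca8f72d4d04ce306] (by decide +kernel))
noncomputable def rh897481ef0426b7be : CRef := CRef.mk (Pat.mk 0x180000000a000000000000000000000000 0x4000000040000001e0000001f0000007a0000000f0000001e0000001c00000014 9 7) 0 0 (step_sound _ 98 [(rh53b3c253cb0c65f4.shift 0 3), rh5b8ac91578eb4ccf] (by decide +kernel))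
noncomputable def rhd676e29efc80bda3 : CRef := CRef.mk (Pat.mk 0x180000000a0000000000000000 0x400000014000001ff000000fc000001ee0000000800000008 9 9) 0 0 (step_sound _ 101 [(rh4bb84bbc7733c9c6.shift 1 0), rhf58fa67567586aa1, (rhfa35e196e150edb4.shift 2 2)] (by decide +kernel))
noncomputable def rh5803866c4be77926 : CRef := CRef.mk (Pat.mk 0xc0000000600000000000000000000000000000000 0xa0000000e0000003e0000003f000000360000003f0000003f0000000f00000004 9 6) 0 0 (step_sound _ 164 [(rh18965a982d73c794.shift 1 4), rhacdf878639fa4daa] (by decide +kernel))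
noncomputable def rhe21aaba101e29d72 : CRef := CRef.mk (Pat.mk 0x180000000a00000000000000000000000000000000 0x400000006000000070000000f0000001f0000000f00000007000000070000000700000001 9 5) 0 0 (step_sound _ 128 [(rh1c62b6193297d9e3.shift 0 4), rhf152117fefcb63ef] (by decide +kernel))
noncomputable def rha6b857535ffa10de : CRef := CRef.mk (Pat.mk 0x180000000c00000000000000000000000000000000 0x100000001800000038000000780000002f0000007c0000003c0000001c00000014 9 7) 0 0 (step_sound _ 129 [(rh53b3c253cb0c65f4.shift 0 4), (rh7aecc4ca9032e6db.shift 1 0)] (by decide +kernel))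
noncomputable def rh6fc7337cb9cb7221 : CRef := CRef.mk (Pat.mk 0x180000000c0000000000000000000000000000000000000000 0x180000007a0000007e0000006c0000007f0000007c0000001c0000000800000008 9 7) 0 0 (step_sound _ 197 [(rh18965a982d73c794.shift 2 5), rhc433f5171edf55a1] (by decide +kernel))
noncomputable def rh0a8186594db83701 : CRef := CRef.mk (Pat.mk 0x400000000000000060000000200000000000000000 0x5000000050000003de000001fe000003b7000000a000000020 9 10) 0 0 (step_sound _ 134 [(rh5c5e593799055d58.shift 5 2), rhcf4f2fa7dca0f64d] (by decide +kernel))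
noncomputable def rh883b1f78c0ac70da : CRef := CRef.mk (Pat.mk 0x18000000080000000800000000 0x160000001e0000001f0000003f0000001f0000000f0000003c00000014 9 6) 0 0 (step_sound _ 131 [(rh193da7fc9e1674f1.shift 2 0), rh44d930f2a4d2886a, (rh5c2604daa0330ae7.shift 2 0), (rhe6f4d6fca8ddbfc7.shift 0 1), rhf0d38cf1e7116183] (by decide +kernel))
noncomputable def rh77ca028122cf85f2 : CRef := CRef.mk (Pat.mk 0x30000000100000000000000000 0x6800000068000003fe000001fe000003df000000fc00000050 9 10) 0 0 (step_sound _ 133 [(rh328a8a70e52ed906.shift 0 1), (rh77813712618d889b.shift 1 0), (rhf9366b6a121593ef.shift 4 0)] (by decide +kernel))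
noncomputable def rhdb56edcbd84ea306 : CRef := CRef.mk (Pat.mk 0x18000000080000000000000000 0x1400000014000001fe000001fe000003ff0000002800000028 9 10) 0 0 (step_sound _ 132 [(rh4821dcf828b9d7bf.shift 3 0), (rhc8b5fc8bafb7aab2.shift 1 0), rheb526220df426aaa] (by decide +kernel))
noncomputable def rhd325660dbf4d54e2 : CRef := CRef.mk (Pat.mk 0x180000000c0000000000000000000000000000000000000000 0x10000000180000007a0000007e0000007c0000007f0000003c0000001c0000000800000008 9 7) 0 0 (step_sound _ 197 [(rh18965a982d73c794.shift 2 5), rhdf49da5925d635d4] (by decide +kernel))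
noncomputable def rha1b629ed0a1b44e5 : CRef := CRef.mk (Pat.mk 0x18000000080000000000000000 0x1c0000003c0000007e000000ff000000fe000000fc0000003e0000003c 9 8) 0 0 (step_sound _ 131 [(rh2260acfdfb28323f.shift 1 1), (rh59c55acfccf2f7ea.shift 1 0), rh7a382e0cd203434f, (rhacdb575f9f99ec72.shift 1 0), rhc04c0fe44b0615fe, (rhd0e2d37131b64316.shift 1 0), (rhe5f091bebf5fc18e.shift 1 0)] (by decide +kernel))
noncomputable def rhe4572f6abcdbda02 : CRef := CRef.mk (Pat.mk 0x80000000c000000040000000000000000 0x60000000600000006000000ef0000007c0000007f0000003e0000001e 9 8) 0 0 (step_sound _ 34 [(rh71222050f2c63a3a.shift 2 0), rhb33b18e4851ac824] (by decide +kernel))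
noncomputable def rh63e7159581eaae65 : CRef := CRef.mk (Pat.mk 0x200000002000000030000000000000000000000000 0x80000007c000001ff000000fe000001df0000005000000010 9 9) 0 0 (step_sound _ 99 [(rha11dfd15f08f96e3.shift 2 3), (rhb12ffaec36122c99.shift 0 2), (rhc2a97e927ab5095e.shift 2 0), rhfc75424ba1bbf075] (by decide +kernel))
noncomputable def rhdc307fc160c4488d : CRef := CRef.mk (Pat.mk 0x200000002000000030000000000000000000000000 0x2000000020000003bf000001fe000003ee0000004000000040 9 10) 0 0 (step_sound _ 102 [(rh70e33bfdf511e144.shift 5 0), (rhb511e7778bb3ffba.shift 0 2)] (by decide +kernel))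
noncomputable def rh9430ce5852fa1c24 : CRef := CRef.mk (Pat.mk 0x400000004000000040000000000000000000000000 0x38000000b8000000ff000001fe000003ff000000fc000000780000002000000020 9 10) 0 0 (step_sound _ 165 [(rhb1a251d9bff81766.shift 5 2), (rhc931f01983b76fa0.shift 0 2), (rhde36f736955bfece.shift 3 0)] (by decide +kernel))
noncomputable def rhda59ee745960d09f : CRef := CRef.mk (Pat.mk 0xc000000080000000800000000000000000000000000000000 0x1800000018000000180000003f0000007f0000007c00000018000000180000001800000010 9 7) 0 0 (step_sound _ 164 [(rh1739d6b475c3379a.shift 0 2), (rh4ca5dae25f5c14ff.shift 0 5), (rhbef776ce40c58a3d.shift 1 0)] (by decide +kernel))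
noncomputable def rh49aed23c5c9cd2f7 : CRef := CRef.mk (Pat.mk 0x80000000800000008000000000000000000000000 0x14000000ff000001ff000000080000001c0000001c00000010 9 9) 0 0 (step_sound _ 67 [(rh5ad9898cc32ef511.shift 2 0), (rh6c59ce14113da07f.shift 3 0), (rhf1f44301771609fc.shift 0 1)] (by decide +kernel))
noncomputable def rhdae26eca114cb092 : CRef := CRef.mk (Pat.mk 0x80000000800000008000000000000000000000000 0x140000001c0000001c0000003f0000003f0000001f00000004 9 6) 0 0 (step_sound _ 67 [(rhc4055b4872d6fb38.shift 2 1), (rhc8c8ca90955b904b.shift 0 1), (rhcab3157f7bdcba3e.shift 2 0)] (by decide +kernel))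
noncomputable def rh2dc1689e1010e2f7 : CRef := CRef.mk (Pat.mk 0x1000000010000000100000001000000000 0x80000001800000010000003f7000001fe000001ef 9 10) 0 0 (step_sound _ 35 [(rh932754581e0f4330.shift 3 0), rhf186cc1d2a99a369] (by decide +kernel))
noncomputable def rh7f8163adf5ae5204 : CRef := CRef.mk (Pat.mk 0x100000001000000030000000000000000000000000 0x50000001ff000003fe000001ef0000002800000028 9 10) 0 0 (step_sound _ 69 [(rh08edf065357d68e5.shift 4 0), rh5f900895e56123c1, rh6cec14dc2b526e0d] (by decide +kernel))
noncomputable def rh8f927de3ee3614aa : CRef := CRef.mk (Pat.mk 0x400000008000000080000000800000000 0x140000001c0000001c0000001c0000001f00000038000000180000001c00000004 9 6) 0 0 (step_sound _ 131 [(rh50fbb5868c909700.shift 2 1), rhc33231a265c86952] (by decide +kernel))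
noncomputable def rh4298c65ec9c7d45a : CRef := CRef.mk (Pat.mk 0x100000001000000030000000000000000000000000 0x4000000070000003ff000003fe000003e70000006000000060 9 10) 0 0 (step_sound _ 102 [rh56c4a45e2e5556ac, rha49727a4938b30d0, (rha7edc60fc34bffff.shift 2 3), (rhae8d21abc86b555a.shift 3 2), (rhbf0d0487774a0f3e.shift 3 2)] (by decide +kernel))
noncomputable def rh7d760757b818a3dc : CRef := CRef.mk (Pat.mk 0x1000000010000000300000000000000000 0x20000000380000003c0000003f00000078000000fe000000fe0000001400000010 9 8) 0 0 (step_sound _ 99 [rh639a28b59b04da23, (rh9e328aefb9c457de.shift 1 1), (rhb0121edee88fe839.shift 1 2)] (by decide +kernel))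
noncomputable def rhd58565e5fd173196 : CRef := CRef.mk (Pat.mk 0x2000000020000000200000002000000000 0x100000003000000030000003bf000001fe000003de 9 10) 0 0 (step_sound _ 36 [(rh932754581e0f4330.shift 4 0), rheda6bafe4648bf92] (by decide +kernel))
noncomputable def rh079118b129da7b94 : CRef := CRef.mk (Pat.mk 0x1000000010000000100000001000000000 0x300000003000000030000001f7000000fe000001ef 9 9) 0 0 (step_sound _ 133 [(rh2f68792b6b779e96.shift 4 1), rha9a74f2ac3140ae3] (by decide +kernel))
noncomputable def rh6a5103bdca8794f1 : CRef := CRef.mk (Pat.mk 0x100000001000000030000000000000000000000000000000000000000000000000 0x20000000f80000001e000000ff0000003e0000001800000018000000380000003800000028 9 8) 0 0 (step_sound _ 227 [(rh3c3e23a02e82b2ed.shift 1 6), (rh6f8401fea56767d3.shift 0 2), (rh700922537fb35b2e.shift 1 3), (rhfd8aed70af99ce4a.shift 1 0)] (by decide +kernel))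
noncomputable def rh995b2b0ade836d19 : CRef := CRef.mk (Pat.mk 0x8000000080000001800000000000000000000000000000000 0x40000001c0000001c000000380000007c000001ff000000f8000001ec0000005c0000001c00000014 9 9) 0 0 (step_sound _ 133 [(rh9c94213f6896c74a.shift 2 3), rhaa769dd8cbe89d09, (rhf5c60b64983fa902.shift 2 2)] (by decide +kernel))
noncomputable def rh749dc48c9c567642 : CRef := CRef.mk (Pat.mk 0x80000000800000008000000000000000000000000 0x140000001c0000001c0000003f0000003f0000001f00000004 9 6) 0 0 (step_sound _ 67 [(rh32e32f03ae89b559.shift 2 1), (rhc8c8ca90955b904b.shift 0 1), (rhcab3157f7bdcba3e.shift 2 0)] (by decide +kernel))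
noncomputable def rh061e93e5f0d0f5e6 : CRef := CRef.mk (Pat.mk 0x100000001000000030000000000000000000000000 0x180000001e0000003e000000ff0000003e0000001f0000000800000008 9 8) 0 0 (step_sound _ 99 [(rh281c6819542c66e6.shift 3 0), (rh8514d96f2f693de0.shift 0 2), (rhf7fb70c9e7faca1a.shift 1 2)] (by decide +kernel))
noncomputable def rh4ec1fdaeed3308ba : CRef := CRef.mk (Pat.mk 0x8000000080000000800000004 0x180000001c0000001f0000007c000000180000001c00000004 9 7) 0 0 (step_sound _ 131 [(rh79877ebd3ef475dd.shift 2 0), (rhe67ada7b2e0d19a2.shift 0 1)] (by decide +kernel))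
noncomputable def rhb7b46d8b88ce24d1 : CRef := CRef.mk (Pat.mk 0x300000001000000010000000000000000000000000 0x8000000780000001e0000003e000000ff0000003e00000028 9 8) 0 0 (step_sound _ 68 [(rh8cdd36b03d57a2f6.shift 3 0), (rh9aab2e37f490e5ca.shift 1 1), (rhefe9178fd58c5174.shift 0 1)] (by decide +kernel))
noncomputable def rh8807560232ddff73 : CRef := CRef.mk (Pat.mk 0x6000000020000000200000000000000000 0x50000000f8000000df000001fe000003fe0000003c0000001800000010 9 10) 0 0 (step_sound _ 166 [(rh391e3510889ef10f.shift 1 0), (rh69755ef358ebfd54.shift 5 2), (rhaf66f99b1f832bd2.shift 0 2)] (by decide +kernel))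
noncomputable def rh4e32f5b808306e2f : CRef := CRef.mk (Pat.mk 0x2000000040000000400000004000000000 0x1000000090000000df000001fe000003ff000003fc0000007800000020 9 10) 0 0 (step_sound _ 134 [(rh20966da26a1c2ae8.shift 5 0), (rh214c3e2edaf822e6.shift 0 1), (rh77d69e8a032ded71.shift 2 0), (rha08eae271ab7141d.shift 2 0)] (by decide +kernel))
noncomputable def rh368a9cbdef90695e : CRef := CRef.mk (Pat.mk 0x2000000040000000400000004000000000 0x20000000b0000001bf000003fe000003fe000000f800000010 9 10) 0 0 (step_sound _ 101 [(rh0dbff6accb4adcf3.shift 2 1), (rhe072fffdd2fccf38.shift 5 1), rhf6191dbfa0fac0b8] (by decide +kernel))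
noncomputable def rh7c1207aa56ad385b : CRef := CRef.mk (Pat.mk 0x2000000020000000600000000000000000000000000000000000000000 0x5e000000fe0000003f000001f00000006000000070000000700000007000000040 9 9) 0 0 (step_sound _ 133 [(rh2b38f537d015ac94.shift 4 0), (rh543621ab84729abb.shift 0 3), (rh80de1d607ddeb133.shift 2 0), (rhb9ea9cf5d1b0852e.shift 2 3), (rhc850b49d039efae1.shift 4 1)] (by decide +kernel))
noncomputable def rhce9ee7ff41c3dcde : CRef := CRef.mk (Pat.mk 0x800000008000000080000000000000010 0x8000000080000000c0000000f0000003c0000001c0000001c0000001c 9 6) 0 0 (step_sound _ 35 [rh1d56faa248be04d4, (rhd3458b32566d63f7.shift 3 0)] (by decide +kernel))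
noncomputable def rh6f5579ba80493a5a : CRef := CRef.mk (Pat.mk 0x40000000400000004000000000000000800000000000000000000000000000000 0x4000000040000001c0000001c00000018000000ff0000007f000000fc00000014 9 8) 0 0 (step_sound _ 163 [rh4284ad60c3617061, (rhbe0e43a3bc50a43f.shift 2 4)] (by decide +kernel))
noncomputable def rh6479bc7cff2007d0 : CRef := CRef.mk (Pat.mk 0x80000000800000008000000000000001000000000 0x100000001c0000001c00000008000000ff0000007e000000f40000001000000010 9 8) 0 0 (step_sound _ 100 [(rh3b5346b2e316d790.shift 3 0), (rh9d021f793ef14721.shift 3 0), (rhf3b08d736b146a94.shift 0 2)] (by decide +kernel))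
noncomputable def rh0b16569382d755d2 : CRef := CRef.mk (Pat.mk 0x8000000080000000800000000 0x140000001f0000003f0000003f0000000c0000000c00000004 9 6) 0 0 (step_sound _ 131 [(rh1741680720c097b4.shift 2 1), (rh20966da26a1c2ae8.shift 2 0), (rh771d065bdc85bf2d.shift 2 0), rh96199f16815d842c] (by decide +kernel))
noncomputable def rha24df274976746b0 : CRef := CRef.mk (Pat.mk 0x200000002000000020000000000000000000000000 0x5f000000fe000001fc00000030000000700000007000000050 9 9) 0 0 (step_sound _ 69 [(rh8ff3dde5b1c639e0.shift 4 0), (rha78b327dad5d6a04.shift 4 0), (rhb8ce4b127cf21144.shift 0 1)] (by decide +kernel))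
noncomputable def rh92429956536b1bd1 : CRef := CRef.mk (Pat.mk 0x10000000100000001000000010 0x4000000040000002f0000007f0000007e0000001800000010 9 7) 0 0 (step_sound _ 101 [(rh2f68792b6b779e96.shift 4 0), rhd213b1bff5d2596b] (by decide +kernel))
noncomputable def rh18b5945d99173990 : CRef := CRef.mk (Pat.mk 0x80000000800000018000000000000000000000000 0x240000003f000003ff000001ff000001f60000007600000010 9 10) 0 0 (step_sound _ 68 [(rh08edf065357d68e5.shift 3 0), (rh4306681cdf2cfd50.shift 0 1), rhac2dc2547304c7ac] (by decide +kernel))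
noncomputable def rh4510783ac91e3300 : CRef := CRef.mk (Pat.mk 0x1000000010000000300000000000000000 0xc0000001c000000ff0000007f000000ff000000fa0000001800000018 9 8) 0 0 (step_sound _ 99 [rh49d3dba7f8539240, (rhb0121edee88fe839.shift 1 2), rhb8720713ac656219] (by decide +kernel))
noncomputable def rh791db6576927f7df : CRef := CRef.mk (Pat.mk 0x80000000800000018000000000000000000000000 0x10000000340000003f000003ff000001ff000001f60000007600000010 9 10) 0 0 (step_sound _ 68 [(rh08edf065357d68e5.shift 3 0), (rh76acb813c1b1652b.shift 0 1), rhac2dc2547304c7ac] (by decide +kernel))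
noncomputable def rh663d9dbec29197f7 : CRef := CRef.mk (Pat.mk 0x100000001000000030000000000000000000000000 0x2c0000006f0000007e000000fe000000fe000000e40000006000000060 9 8) 0 0 (step_sound _ 131 [(rh19b8f2dc6d7b979f.shift 1 1), (rh206a33f5d5c071c2.shift 1 3), (rh3c3e23a02e82b2ed.shift 1 3), rh4ee6478dacec3f2e, (rhb0121edee88fe839.shift 1 3)] (by decide +kernel))
noncomputable def rh883fa33b05ac21a1 : CRef := CRef.mk (Pat.mk 0x3000000010000000100000000000000000 0x280000003800000078000000f70000007f0000007e000000f00000006000000020 9 8) 0 0 (step_sound _ 99 [(rh701b29ffc96a05cf.shift 0 2), (rh763085980e23c60e.shift 1 0), (rhb7702162e34389e8.shift 1 2), (rhc12ab0240efcdb0b.shift 2 1)] (by decide +kernel))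
noncomputable def rhc5c210620c94c6d2 : CRef := CRef.mk (Pat.mk 0x80000000800000018000000000000000000000000 0x4000000240000003f000003ff000001ff000001f60000007400000010 9 10) 0 0 (step_sound _ 68 [(rh08edf065357d68e5.shift 3 0), rhac2dc2547304c7ac, (rhb2b4f6b2f26a9e5f.shift 0 1)] (by decide +kernel))
noncomputable def rh0d8042a934a6fb4a : CRef := CRef.mk (Pat.mk 0x8000000080000000c0000000000000000 0x140000001c0000001c0000001c0000001f000000380000007c0000000f0000000800000008 9 7) 0 0 (step_sound _ 100 [(rh0bb882ba86b2372d.shift 0 2), (rh31c5339b64ac857f.shift 0 1), rhc90ee1345b4b913d] (by decide +kernel))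
noncomputable def rh3bb55f6e93d96fa1 : CRef := CRef.mk (Pat.mk 0xc00000008000000080000000000000000000000000000000000000000 0x10000000300000001f00000078000000ff0000007e0000007c0000003c0000001c00000014 9 8) 0 0 (step_sound _ 196 [rh37aed40a00b16916, (rh37bb83c160b29f0c.shift 0 3), (rh4ca5dae25f5c14ff.shift 0 6)] (by decide +kernel))
noncomputable def rh2fa6670cfb58b980 : CRef := CRef.mk (Pat.mk 0x8000000080000001800000000 0x140000001f0000007f0000003f0000000f0000003c00000004 9 7) 0 0 (step_sound _ 131 [rh01b78e5ef59799ae, (rhc85cc95794737cf7.shift 2 1), rhee9567550f95b15b] (by decide +kernel))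
noncomputable def rhb3ae74282e00d930 : CRef := CRef.mk (Pat.mk 0x80000000800000018000000000000000000000000 0x14000000340000003f000003ff000001ff000001f60000007400000010 9 10) 0 0 (step_sound _ 68 [(rh08edf065357d68e5.shift 3 0), (rha931a1fabf10436a.shift 0 1), rhac2dc2547304c7ac] (by decide +kernel))
noncomputable def rh009307b2c3c269f5 : CRef := CRef.mk (Pat.mk 0x100000001000000030000000000000000000000000 0xe0000000e000000fe0000007e000000ff000000ef0000000c0000000c 9 8) 0 0 (step_sound _ 131 [(rh3c3e23a02e82b2ed.shift 1 3), (rh5c5a2014709044d0.shift 1 3), (rha26ae088b17d6732.shift 0 1), (rhb0121edee88fe839.shift 1 3), (rhd13c086d39a79c83.shift 1 0)] (by decide +kernel))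
noncomputable def rh833e41ddbb5c625c : CRef := CRef.mk (Pat.mk 0x8000000080000001800000000000000000000000000000000 0x140000001c0000001c0000000c0000001c0000001c000000780000000f0000001c0000001c00000014 9 7) 0 0 (step_sound _ 99 [(rh0839e5b8a73c45f7.shift 0 2), (rh6ed5e6501b92e21f.shift 2 1), (rhc850b49d039efae1.shift 2 0), (rheacedd262407fad2.shift 2 1)] (by decide +kernel))
noncomputable def rh786c0da67cf3adcd : CRef := CRef.mk (Pat.mk 0x100000001000000030000000000000000000000000 0xfe0000007e000000ff000001ef0000007c0000002c 9 9) 0 0 (step_sound _ 69 [(rh08edf065357d68e5.shift 4 0), rh0965fd42f7304e72, rhaf99fef13b78b542] (by decide +kernel))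
noncomputable def rh6fd69313e5466996 : CRef := CRef.mk (Pat.mk 0x800000008000000180000000000000000 0x38000000380000007f0000003f0000007f0000002f0000000e 9 7) 0 0 (step_sound _ 98 [(rh28c34f9629d5af14.shift 2 1), (rh3c3e23a02e82b2ed.shift 0 2), rhdd4a5b8e7522437c] (by decide +kernel))
noncomputable def rh81c7365fc489ef85 : CRef := CRef.mk (Pat.mk 0x60000000400000004000000000 0x20000000b0000001bf000001fe000001fe0000007c00000038 9 9) 0 0 (step_sound _ 133 [(rh1e31cc1a20b95230.shift 1 0), (rhe072fffdd2fccf38.shift 5 1), rhf6191dbfa0fac0b8] (by decide +kernel))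
noncomputable def rh2d9c36e0995d7532 : CRef := CRef.mk (Pat.mk 0x60000000400000004000000000 0x20000000a0000001bf000003fe000001fe0000005800000010 9 10) 0 0 (step_sound _ 133 [(rh848d286bd00bba50.shift 1 0), (rhe072fffdd2fccf38.shift 5 1), rhf6191dbfa0fac0b8] (by decide +kernel))
noncomputable def rh6b70f86f0268fe66 : CRef := CRef.mk (Pat.mk 0x8000000080000000800000000000000000000000000000000 0x40000000c0000000c0000003f0000003f0000001f0000001600000002 9 6) 0 0 (step_sound _ 99 [(rh5ad9898cc32ef511.shift 2 1), (rh6eff4158bb400f47.shift 2 1), rh77c3d0428458bb7e, (rhc4526fc8abf298b6.shift 2 1)] (by decide +kernel))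
noncomputable def rh6c2a325255d5de47 : CRef := CRef.mk (Pat.mk 0x80000000800000008000000000000000000000000 0x140000001c0000001c0000003f0000003f0000001f00000004 9 6) 0 0 (step_sound _ 67 [(rh373b7625e672cfd8.shift 2 1), (rhc8c8ca90955b904b.shift 0 1), (rhcab3157f7bdcba3e.shift 2 0)] (by decide +kernel))
noncomputable def rh268c7c52985ea0a1 : CRef := CRef.mk (Pat.mk 0x2000000020000000200000002000000000 0x40000000c0000001f000000fe000001ff000000ff0000003e0000001e 9 9) 0 0 (step_sound _ 132 [(rh50fbb5868c909700.shift 4 1), rhd95b3820939716df] (by decide +kernel))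
noncomputable def rhe564d2b5a80a82d0 : CRef := CRef.mk (Pat.mk 0x800000008000000080000000000000000 0x40000000c0000001c0000003f0000007f0000007e0000007f0000002e00000006 9 7) 0 0 (step_sound _ 130 [rh39b19d82547f1312, (rhb1a251d9bff81766.shift 2 1), (rhfedf23ddc071349f.shift 0 1)] (by decide +kernel))
noncomputable def rhdb84149b328dac21 : CRef := CRef.mk (Pat.mk 0x100000001000000030000000000000000000000000 0x4000000040000000d8000007fc000007ff00000fef000000c800000040 9 12) 0 0 (step_sound _ 102 [(rh04d98c6497dead16.shift 1 1), (rh11aa9ac9edf0878a.shift 2 1), (rh87650b9084aba30a.shift 1 0), (rh9c94213f6896c74a.shift 3 2), (rhba8c410163da4153.shift 0 2)] (by decide +kernel))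
noncomputable def rh4eea96ca918292bc : CRef := CRef.mk (Pat.mk 0x100000001000000010000000000000000000000000 0x300000003000000078000000fc000001fc000001ff0000007c00000028 9 9) 0 0 (step_sound _ 101 [(rh046c5eb18e55a239.shift 4 0), rh33ed3ccb2b6332e3, (rh9d7af430a069ae8e.shift 2 1)] (by decide +kernel))
noncomputable def rh817d7876ada3bbd5 : CRef := CRef.mk (Pat.mk 0xc000000080000000800000000000000000000000000000000 0x140000001c0000001c000000380000001f0000007c000000180000000c0000001c0000001800000010 9 7) 0 0 (step_sound _ 164 [(rh2b95545d416a6e42.shift 2 0), (rh75ea294132184f25.shift 1 5), (rh76b52f66b91f35b7.shift 0 3), (rhcf8e04ac2e2850fe.shift 0 4), (rhdeca8db941583de2.shift 0 5)] (by decide +kernel))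
noncomputable def rh7c47d822bc010682 : CRef := CRef.mk (Pat.mk 0xc000000080000000800000000 0x80000001c0000001c0000003f0000007f000000f8000000f800000030 9 8) 0 0 (step_sound _ 68 [(rh4ca5dae25f5c14ff.shift 0 2), (rhd15c4c1e7836621d.shift 0 1), rhedd5b6a80560899b, (rhf58d27940e49078d.shift 1 0)] (by decide +kernel))
noncomputable def rhb0d63b0f75c8f345 : CRef := CRef.mk (Pat.mk 0x4000000040000000c000000000000000000000000 0x1a0000007e0000007e0000007c000000ef0000000e00000008 9 8) 0 0 (step_sound _ 67 [(rh08edf065357d68e5.shift 2 0), (rh79ad7b82ec8c35e2.shift 2 0), (rh9590c301cfde3716.shift 0 1)] (by decide +kernel))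
noncomputable def rhb27ec647e6d5f51f : CRef := CRef.mk (Pat.mk 0x800000008000000080000000000000000000000000000000000000000 0x140000001c0000001c0000003f0000003f0000001f0000001c0000001c00000010 9 6) 0 0 (step_sound _ 131 [(rh78338646d438d761.shift 2 0), (rhc4055b4872d6fb38.shift 2 3), (rhc8c8ca90955b904b.shift 0 3)] (by decide +kernel))
noncomputable def rhf2b85199f03ae05a : CRef := CRef.mk (Pat.mk 0x4000000040000000c000000000000000000000000 0x2000000060000001e0000003e000000ff0000007f000000730000003200000010 9 8) 0 0 (step_sound _ 226 [(rha57dd671b2547de5.shift 1 2), (rhbfc6fbd9b44fb7fc.shift 1 3), rhe7daf1cf5d4bea89] (by decide +kernel))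
noncomputable def rhd63843119306b12a : CRef := CRef.mk (Pat.mk 0x8000000080000001000000010 0x14000000fc000000ff0000003f0000000c0000000c0000001c00000010 9 8) 0 0 (step_sound _ 131 [(rh99d5daf4db7598aa.shift 0 1), (rhbe0e43a3bc50a43f.shift 3 0)] (by decide +kernel))
noncomputable def rh3d14801c1c806efa : CRef := CRef.mk (Pat.mk 0x1000000010000000200000002000000000 0x1800000058000001df000000ff000001ef0000002400000024 9 9) 0 0 (step_sound _ 101 [(rh7b1f1fb55310c477.shift 4 0), rhd0fbf2513dc21a1f] (by decide +kernel))
noncomputable def rhee63c839aea47edf : CRef := CRef.mk (Pat.mk 0x40000000400000008000000080000000000000000 0x180000007e000000ff0000007e000001f80000003800000020 9 9) 0 0 (step_sound _ 131 [rh795b0462526c157a, (rh7b1f1fb55310c477.shift 2 1)] (by decide +kernel))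
noncomputable def rh5a7b1ea8a7e69463 : CRef := CRef.mk (Pat.mk 0x800000008000000080000000000000010 0x8000000180000001c0000001f0000003c000000180000001800000018 9 6) 0 0 (step_sound _ 35 [rh7e013a5cc35b1afd, (rhd3458b32566d63f7.shift 3 0)] (by decide +kernel))
noncomputable def rh062c0d9d3bdb6340 : CRef := CRef.mk (Pat.mk 0x200000002000000020000000400000000000000000 0xa0000003bf000001fe000003fe0000004000000040 9 10) 0 0 (step_sound _ 38 [(rhbe0e43a3bc50a43f.shift 5 1), rhed38ec936e964386] (by decide +kernel))
noncomputable def rh2fe73996758a3654 : CRef := CRef.mk (Pat.mk 0x8000000080000000800000000 0x2000000160000001f0000003f0000003f0000000c0000000c00000004 9 6) 0 0 (step_sound _ 131 [(rh1741680720c097b4.shift 2 1), (rh20966da26a1c2ae8.shift 2 0), (rh4fbe2ffbe3e7473a.shift 0 1), (rh771d065bdc85bf2d.shift 2 0)] (by decide +kernel))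
noncomputable def rh8d9f11362fa25952 : CRef := CRef.mk (Pat.mk 0x10000000100000000000000020000000200000000000000000 0x5800000058000007de000003fe000003f70000002400000020 9 11) 0 0 (step_sound _ 100 [rh3c1a3012cef12841, (rhff0f29cb645b05f7.shift 4 2)] (by decide +kernel))
noncomputable def rh2ea4d2646adde46b : CRef := CRef.mk (Pat.mk 0x1000000010000000100000002000000000 0x4000000040000000e000000fe000000ff0000001f0000003000000030 9 8) 0 0 (step_sound _ 36 [rh19bdd16ee48ae96c, (rh55afc6a59410cf00.shift 4 0)] (by decide +kernel))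
noncomputable def rh90177550d31846e4 : CRef := CRef.mk (Pat.mk 0x800000008000000080000001000000000 0x1000000078000000ff000000ef0000007800000038 9 8) 0 0 (step_sound _ 35 [(rh55afc6a59410cf00.shift 3 0), rhd368e384c46c6053] (by decide +kernel))
noncomputable def rh57957e2ee98f36a0 : CRef := CRef.mk (Pat.mk 0x800000018000000000000001000000000 0x300000003000000037000001ff000000f8000001f00000003c00000038 9 9) 0 0 (step_sound _ 68 [rh72e8aed936c15ce6, (rh7b1f1fb55310c477.shift 3 0)] (by decide +kernel))
noncomputable def rhadbb429812759763 : CRef := CRef.mk (Pat.mk 0x1000000030000000000000002000000000 0x1800000058000001df000000ff000001ef0000002400000024 9 9) 0 0 (step_sound _ 69 [(rh7b1f1fb55310c477.shift 4 0), rhd0fbf2513dc21a1f] (by decide +kernel))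
noncomputable def rhe92c97fc5c740557 : CRef := CRef.mk (Pat.mk 0x8000000180000000000000010 0x1000000018000000380000003f0000007f0000007e0000007400000030 9 7) 0 0 (step_sound _ 131 [(rh1779f98266d6b43c.shift 0 1), (rh5474108017af46b7.shift 0 1), rh6950f38ee2df7a2a, (rhfc77473044a95557.shift 3 0)] (by decide +kernel))
noncomputable def rh279f62297b598b40 : CRef := CRef.mk (Pat.mk 0x800000018000000000000001000000000 0x300000003e0000003f0000007f0000007f000000670000003700000012 9 7) 0 0 (step_sound _ 130 [(rh3a0eb0e1e2abe5aa.shift 1 0), (rh3c3e23a02e82b2ed.shift 0 3), (rh5c5a2014709044d0.shift 0 3), (rhb0121edee88fe839.shift 0 3), rhdc18b834683d9cb4] (by decide +kernel))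
noncomputable def rhd4ca3d7a1955088c : CRef := CRef.mk (Pat.mk 0x100000001000000030000000000000000000000000 0x18000001dc000001fc000001ff0000007c00000028 9 9) 0 0 (step_sound _ 69 [(rh62dd3fa8f62f153f.shift 2 0), (rh79ad7b82ec8c35e2.shift 4 0), rha5581da10004229e] (by decide +kernel))
noncomputable def rh7960257df44d2e8e : CRef := CRef.mk (Pat.mk 0x400000004000000060000000000000000000000000 0x1000000038000000f8000003ff000001ff0000003f0000001800000018 9 10) 0 0 (step_sound _ 100 [rh295c6e6b24d93973, (rh92bc8b90a17ff850.shift 2 1), (rha11dfd15f08f96e3.shift 3 3), (rhb12ffaec36122c99.shift 1 2)] (by decide +kernel))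
noncomputable def rh576beafab0af2183 : CRef := CRef.mk (Pat.mk 0x10000000000000002000000020000000200000000000000000 0x40000001c0000005c000000df0000007e000001fe000000260000002400000020 9 9) 0 0 (step_sound _ 132 [(rh35005f8f599cd382.shift 0 1), (rhc86e3ab3c2b165e9.shift 3 0), (rhdf6eda84f2eabc48.shift 4 2)] (by decide +kernel))
noncomputable def rh8a7fa77be07ec565 : CRef := CRef.mk (Pat.mk 0x18000000100000001000000000000000000000000000000000 0x20000000600000003e000000ff000000fe000000fe000000f80000003800000008 9 8) 0 0 (step_sound _ 165 [rh329d2d06385faf4f, (rh37bb83c160b29f0c.shift 1 2), (rh75ea294132184f25.shift 2 5)] (by decide +kernel))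
noncomputable def rha1248e38572d5f33 : CRef := CRef.mk (Pat.mk 0x3000000020000000200000000000000000 0x1000000050000000df0000007e000001ff000001fe0000001800000018 9 9) 0 0 (step_sound _ 164 [(rh067dde84e7b794cf.shift 0 1), (rh5133a47a4fc1600c.shift 1 0), (rhe072fffdd2fccf38.shift 4 2)] (by decide +kernel))
noncomputable def rh1e88a03b9c831577 : CRef := CRef.mk (Pat.mk 0x80000000800000018000000000000000000000000 0x2000000068000001ff000000fe000001f70000003400000030 9 9) 0 0 (step_sound _ 68 [(rh08edf065357d68e5.shift 3 0), rh48c4b9009e33f8bb, (rhddc9260be37904f8.shift 0 1)] (by decide +kernel))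
noncomputable def rh41d32c535725ae1f : CRef := CRef.mk (Pat.mk 0x800000008000000180000000000000000 0x800000018000000ff000000ff0000007f0000006f0000002e 9 8) 0 0 (step_sound _ 98 [rh2032abb13fd86be8, (rh3c3e23a02e82b2ed.shift 0 2), (rhfa13f0e952d589d4.shift 1 0)] (by decide +kernel))
noncomputable def rh263ed349f645023a : CRef := CRef.mk (Pat.mk 0x400000004000000040000000000000000000000000 0x3800000038000000ff000001fe000003ff000000fc000000780000006000000020 9 10) 0 0 (step_sound _ 165 [(rhac69da4249766354.shift 3 0), (rhb1a251d9bff81766.shift 5 2), (rhc931f01983b76fa0.shift 0 2)] (by decide +kernel))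
noncomputable def rhff51d1016a9e296d : CRef := CRef.mk (Pat.mk 0xc00000008000000080000000000000000 0x8000000180000003f0000007f0000007f0000007800000038 9 7) 0 0 (step_sound _ 100 [rh1739d6b475c3379a, (rh4ca5dae25f5c14ff.shift 0 3), (rh743e5d044996b0c1.shift 1 0), (rh75ea294132184f25.shift 1 3), rh7be2fe6c6edeff15] (by decide +kernel))
noncomputable def rh47f796131ee15c84 : CRef := CRef.mk (Pat.mk 0x80000000800000018000000000000000000000000 0x2000000068000001ef000000fe000001fe000000fc00000074 9 9) 0 0 (step_sound _ 68 [(rh0896d56a65394e8a.shift 1 0), rh48c4b9009e33f8bb, (rh79ad7b82ec8c35e2.shift 3 0)] (by decide +kernel))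
noncomputable def rhabe58de7db0883dd : CRef := CRef.mk (Pat.mk 0x1000000010000000300000000000000000 0x180000003c00000076000000fe000000ff000000df00000058 9 8) 0 0 (step_sound _ 99 [rh0edf07c401e4bff3, (rh3c3e23a02e82b2ed.shift 1 2), (rhb0121edee88fe839.shift 1 2), (rhfa13f0e952d589d4.shift 2 0), (rhfc37ecabf4856385.shift 1 0)] (by decide +kernel))
noncomputable def rh56b5238d1fcad1bb : CRef := CRef.mk (Pat.mk 0x8000000080000001800000000000000000000000000000000 0x340000007c000001ef000000f8000001ff000000ec000000e0000000a0 9 9) 0 0 (step_sound _ 133 [(rh14c69622e774a07a.shift 2 0), (rh6ff5f97fe4ba457f.shift 0 2), (rh9c94213f6896c74a.shift 2 3)] (by decide +kernel))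
noncomputable def rh2c53f2cd0dd9b653 : CRef := CRef.mk (Pat.mk 0x8000000080000001800000000000000000000000000000000 0x40000000c0000000c0000001f0000007e0000007f00000078000000280000003c0000001c00000014 9 7) 0 0 (step_sound _ 196 [(rh23c14eb9bbfebe82.shift 1 2), (rh3854429253eeadb4.shift 2 0), (rh6bc015b9268c8423.shift 0 2), (rh7ba1ffcc7cef7f93.shift 0 2), (rhcce22454bd854f5c.shift 0 2)] (by decide +kernel))
noncomputable def rh0f4a43aee6e5df7c : CRef := CRef.mk (Pat.mk 0x80000000800000008000000000000000000000000 0x140000001c0000001c0000003f0000003f0000001f00000004 9 6) 0 0 (step_sound _ 67 [(rh373b7625e672cfd8.shift 2 1), (rh8e5e76ccbe228894.shift 2 0), (rhc8c8ca90955b904b.shift 0 1)] (by decide +kernel))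
noncomputable def rhd3f9f6148a4379ff : CRef := CRef.mk (Pat.mk 0x1000000010000000180000000000000000 0x600000026000000fe000000ff000001fe000001ce000000c0 9 9) 0 0 (step_sound _ 101 [(rh0bb882ba86b2372d.shift 1 2), (rh35d70094fbeb909d.shift 0 1), (rh574fdbf07bdd18b9.shift 1 2), (rh61b7eaf2672382de.shift 1 0)] (by decide +kernel))
noncomputable def rhe235410cab228e3f : CRef := CRef.mk (Pat.mk 0x80000000800000018000000000000000000000000 0x340000007c000001ff000000ff000001f30000001200000010 9 9) 0 0 (step_sound _ 68 [rh04ae2acb71f5685e, (rh08edf065357d68e5.shift 3 0), (rh8fcc3d9a26c46f3c.shift 0 1)] (by decide +kernel))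
noncomputable def rh57527fe62eeb7160 : CRef := CRef.mk (Pat.mk 0x80000000800000018000000000000000000000000 0x10000000180000003c0000007c000001ff000000fc000001e80000006800000020 9 9) 0 0 (step_sound _ 101 [(rh39e640c1ce1835f4.shift 0 1), (rh9c94213f6896c74a.shift 2 2), (rha7edc60fc34bffff.shift 1 3), (rha9fbfd4bb8cf890b.shift 0 3), (rhaff3fab7b62e8808.shift 2 0)] (by decide +kernel))
noncomputable def rh69df6907a58ca3cb : CRef := CRef.mk (Pat.mk 0x2000000000000000100000001000000010000000000000000000000000 0x2000000020000000280000003c000000f0000000ff000000fe0000003f00000020 9 8) 0 0 (step_sound _ 165 [rh240747c8de30dbea, (rha5c1ac488360e009.shift 4 2), (rhb009278fdd334770.shift 4 3)] (by decide +kernel))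
noncomputable def rhdbca78618e1f5294 : CRef := CRef.mk (Pat.mk 0x100000001000000010000000000000000000000000 0x1000000030000003f7000001fe000001ff0000003800000038 9 10) 0 0 (step_sound _ 101 [(rh046c5eb18e55a239.shift 4 0), (rh556a45ec8ab0f70b.shift 2 1), (rh57c65a12466b8ef1.shift 1 0), rh8cca21028ba591bf] (by decide +kernel))
noncomputable def rhaaa9eafcd81b7d0e : CRef := CRef.mk (Pat.mk 0x80000000800000008000000000000000000000000 0x140000001c0000001c0000003f0000003f0000001f00000010 9 6) 0 0 (step_sound _ 67 [(rh00c644645561e9be.shift 2 1), (rh6c59ce14113da07f.shift 3 0), (rhc8c8ca90955b904b.shift 0 1)] (by decide +kernel))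
noncomputable def rhfe46df4bed9cca6b : CRef := CRef.mk (Pat.mk 0x20000000200000006000000000 0x40000000600000006000000020000003bf000001fe0000039e 9 10) 0 0 (step_sound _ 36 [(rh5d436cc74a115108.shift 3 0), (rh7a7e08304268422e.shift 4 0), rhb511e7778bb3ffba] (by decide +kernel))
noncomputable def rh8c30bc13eba30a5f : CRef := CRef.mk (Pat.mk 0x80000000800000018000000000000000000000000 0x340000007c000001ff000000ff000001f70000003600000030 9 9) 0 0 (step_sound _ 68 [(rh08edf065357d68e5.shift 3 0), rh48c4b9009e33f8bb, (rh8fcc3d9a26c46f3c.shift 0 1)] (by decide +kernel))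
noncomputable def rhb7a8904e68160cae : CRef := CRef.mk (Pat.mk 0x100000001000000030000000000000000000000000000000000000000000000000 0x8000000180000001e000000ff0000003e0000001c00000018000000380000003800000028 9 8) 0 0 (step_sound _ 227 [(rh23930f95c062681e.shift 1 0), (rh3c3e23a02e82b2ed.shift 1 6), (rh4414b14f1e03188e.shift 1 4), (rh6f8401fea56767d3.shift 0 2)] (by decide +kernel))
noncomputable def rhc92faccd87302c90 : CRef := CRef.mk (Pat.mk 0xc000000080000000800000000 0x1c0000001e0000001f0000007c000000fe0000001f00000006 9 8) 0 0 (step_sound _ 130 [rh2921af60a7d9c012, (rhc89253ff58c66167.shift 2 1), (rhe072fffdd2fccf38.shift 2 1)] (by decide +kernel))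
noncomputable def rhcbad6e33392c0786 : CRef := CRef.mk (Pat.mk 0x180000000800000008000000000000000000000000 0x40000002e0000007c0000007f0000007c000000180000001800000010 9 7) 0 0 (step_sound _ 130 [(rh69012675dfdb1a5b.shift 0 4), rh902b63fe11510fa0, (rhc12eea3329738904.shift 1 1)] (by decide +kernel))
noncomputable def rh72a72ec4df37f6f8 : CRef := CRef.mk (Pat.mk 0x100000001000000010000000000000000000000000 0x28000000780000001e000003f7000001fe000001ff00000028 9 10) 0 0 (step_sound _ 68 [(rh0716af5a17ff0fb0.shift 0 1), (rh245d56c915813f64.shift 1 1), (rh5ad9898cc32ef511.shift 3 0), (rh6eff4158bb400f47.shift 3 0)] (by decide +kernel))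
noncomputable def rh8ab87d8306f033fa : CRef := CRef.mk (Pat.mk 0x4000000000000000800000008000000000000000000000000 0x1000000018000000180000001c0000001f0000003c000000180000001c0000001c0000001c0000001c 9 6) 0 0 (step_sound _ 163 [(rh673204001332990d.shift 2 0), (rha5dc83e34999ae02.shift 0 2), (rhb1811788d5323cae.shift 2 0), (rhb94686d3eaf23fad.shift 2 0), (rhe9b748694220e21f.shift 0 2)] (by decide +kernel))
noncomputable def rh2c34b4859f98c0d7 : CRef := CRef.mk (Pat.mk 0x200000000000000060000000400000000000000000 0x20000000280000003f000001fe000000df000000f800000050 9 9) 0 0 (step_sound _ 133 [(rh2145e1d24b96a57e.shift 5 2), rha30f6c8037cf9622] (by decide +kernel))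
noncomputable def rhcba7be615818647c : CRef := CRef.mk (Pat.mk 0x800000000000000180000001000000000 0x60000000e0000000e0000001f0000007f0000003f0000000e 9 7) 0 0 (step_sound _ 99 [(rh2145e1d24b96a57e.shift 3 1), rhfea1d0560376fafd] (by decide +kernel))
noncomputable def rh92582cbc1b094d19 : CRef := CRef.mk (Pat.mk 0x8000000080000000800000000000000000000000000000000 0x1000000018000000180000001c0000001f0000007c0000007f0000001c0000001c00000008 9 7) 0 0 (step_sound _ 132 [(rh046c5eb18e55a239.shift 3 1), (rh94ca1203b22f7657.shift 1 1), rh9644cc72e3167030] (by decide +kernel))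
noncomputable def rhb8bb0e47c4f030dc : CRef := CRef.mk (Pat.mk 0x100000001000000010000000000000000000000000 0x4000000040000002f0000007f0000003e00000018000000380000003800000028 9 7) 0 0 (step_sound _ 68 [(rh102ff83374b12adf.shift 3 0), (rh2e024836a920abf0.shift 0 2), (rhda5b5ea9190c0809.shift 3 0)] (by decide +kernel))
noncomputable def rh5584df79e885d15a : CRef := CRef.mk (Pat.mk 0x40000000000000008000000080000000800000000 0x8000000080000001c0000003c0000001f0000001c0000001800000018 9 6) 0 0 (step_sound _ 131 [rh691d8a09c8de9c17, (rhffd04209dc8ea796.shift 2 1)] (by decide +kernel))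
noncomputable def rhc0105f35fa269ee1 : CRef := CRef.mk (Pat.mk 0x1000000010000000000000002000000020 0x80000000c000000fe000000ff000000fe0000007000000020 9 8) 0 0 (step_sound _ 101 [rh16245648d48e9586, (rh2613c889e411427e.shift 4 0)] (by decide +kernel))
noncomputable def rhbf7e24c8a45f6310 : CRef := CRef.mk (Pat.mk 0x800000008000000000000001000000010 0x140000001f0000003f0000003f0000000c0000000c0000001c00000010 9 6) 0 0 (step_sound _ 67 [(rh88f03c8283e447ad.shift 0 1), (rhbe0e43a3bc50a43f.shift 3 0)] (by decide +kernel))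
noncomputable def rhd429db869fad75eb : CRef := CRef.mk (Pat.mk 0x1000000010000000000000002000000020 0x8000000190000001ff000001fe000000ee0000006800000028 9 9) 0 0 (step_sound _ 101 [(rh2613c889e411427e.shift 4 0), rh490f9f3ff8617557] (by decide +kernel))
noncomputable def rh05b4363cbde8ac8d : CRef := CRef.mk (Pat.mk 0x100000002000000020000000200000000 0x50000000700000007000000030000000300000006000000070000000700000001 9 3) 0 0 (step_sound _ 129 [(rh50fbb5868c909700.shift 0 1), rhebc69df00e5e7f2e] (by decide +kernel))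
noncomputable def rh1add0d094fcd9b42 : CRef := CRef.mk (Pat.mk 0x80000000800000008000000000000000000000000 0x100000001800000018000001df000000ff000000fc00000014 9 9) 0 0 (step_sound _ 67 [(rh6c59ce14113da07f.shift 3 0), (rh6eff4158bb400f47.shift 2 0), (rha78b327dad5d6a04.shift 2 0), (rhc7d2b12e41c631a1.shift 0 1)] (by decide +kernel))
noncomputable def rh0b39326405431c3b : CRef := CRef.mk (Pat.mk 0x4000000000000000c0000000800000000000000000 0xe0000001e00000007f000003fe000001ff0000007000000020 9 10) 0 0 (step_sound _ 134 [(rh2145e1d24b96a57e.shift 6 2), rhdb84d2a04259ef25] (by decide +kernel))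
noncomputable def rh9b6053378e81bd17 : CRef := CRef.mk (Pat.mk 0x8000000000000001800000010000000000000000000000000000000000000000000000000 0xc0000000e0000007f0000003f0000007e0000007e0000003e000000380000003800000028 9 7) 0 0 (step_sound _ 164 [(rh3a1cc22ead2eadb0.shift 3 4), (rh56259dd1390eee46.shift 3 2), (rhc6a323ff64d607a1.shift 0 4), (rhccb771d83f719cdb.shift 1 0)] (by decide +kernel))
noncomputable def rh5af1f5824db6b3f1 : CRef := CRef.mk (Pat.mk 0x200000002000000020000000000000000000000000 0x100000003800000078000000ff000003fe000001f7000003fc000003f80000001000000010 9 10) 0 0 (step_sound _ 164 [(rh7e84937fe1a1aed0.shift 2 0), (rh86fc0ba6c8454a8a.shift 0 3), (rhb1a251d9bff81766.shift 4 2)] (by decide +kernel))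
noncomputable def rh7e53e18dd5c96776 : CRef := CRef.mk (Pat.mk 0x8000000080000000800000000000000000000000000000000 0x1000000018000000180000001c0000001c0000000f0000003c0000001c0000001c00000004 9 6) 0 0 (step_sound _ 228 [(rh5890386c1f942fa1.shift 3 4), (rh87d5e4118780fa3b.shift 3 3), (rheab8a4ec72298776.shift 0 2), (rhf8db5888bcb64fa6.shift 2 0)] (by decide +kernel))
noncomputable def rh66c40a139808c557 : CRef := CRef.mk (Pat.mk 0xc0000000800000008000000000000000000000000 0x40000000c0000003c000000380000003f0000007c0000003e000000f80000003800000008 9 8) 0 0 (step_sound _ 132 [(rh3bd67179baa79094.shift 1 0), (rh4c3cb02adb85fa7f.shift 1 1), (rh75ea294132184f25.shift 1 4), (rh76b52f66b91f35b7.shift 0 2), (rhdeca8db941583de2.shift 0 4)] (by decide +kernel))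
noncomputable def rh4c1d4de84875a043 : CRef := CRef.mk (Pat.mk 0x80000000800000008000000000000000000000000 0x140000001c0000001c0000003f0000003f0000001f00000004 9 6) 0 0 (step_sound _ 67 [(rh8e5e76ccbe228894.shift 2 0), (rhc4055b4872d6fb38.shift 2 1), (rhc8c8ca90955b904b.shift 0 1)] (by decide +kernel))
noncomputable def rh3b55603792b2d1a3 : CRef := CRef.mk (Pat.mk 0x10000000100000001000000000 0x280000003f0000007e000000ff000000180000001800000008 9 8) 0 0 (step_sound _ 132 [(rh20966da26a1c2ae8.shift 3 0), rh215290cdbd1c0f65, (rh771d065bdc85bf2d.shift 3 0), (rhc85cc95794737cf7.shift 3 1)] (by decide +kernel))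
noncomputable def rh3f1e74e1a2e41880 : CRef := CRef.mk (Pat.mk 0x30000000200000002000000000 0x100000003e000001ff000000ff000001ef0000007c0000005c 9 9) 0 0 (step_sound _ 132 [rh5fbe8c85f64e55a2, rhc7a05d29b250e1f5, (rhc89253ff58c66167.shift 4 1)] (by decide +kernel))
noncomputable def rh639dfdf94d3de5af : CRef := CRef.mk (Pat.mk 0xc0000000800000008000000000000000000000000 0x20000000a0000001b0000003f0000007f000000fe000000fe0000000c00000004 9 8) 0 0 (step_sound _ 132 [(rh75ea294132184f25.shift 1 4), (rh8667590e1d07e993.shift 1 0), (rhcb0cd31fbab6e283.shift 0 1)] (by decide +kernel))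
noncomputable def rhab233a97726fc165 : CRef := CRef.mk (Pat.mk 0x20000000200000003000000000000000000000000000000000 0xc0000006e000003ff000001fe0000039f0000001c0000001c00000014 9 10) 0 0 (step_sound _ 131 [(rh9b0328f66cb29082.shift 0 2), (rha11dfd15f08f96e3.shift 2 4), (rhcfe562306908bb0c.shift 2 0)] (by decide +kernel))
noncomputable def rh6ca653f01efccad1 : CRef := CRef.mk (Pat.mk 0x8000000080000000c0000000000000000 0x38000000f80000003e0000007f0000003f0000001800000008 9 8) 0 0 (step_sound _ 100 [(rh0bb882ba86b2372d.shift 0 2), (rh9e0bb501f66d6bab.shift 1 1), rhfe6bd397ccc50b11] (by decide +kernel))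
noncomputable def rhfe90cc0a90db7d1f : CRef := CRef.mk (Pat.mk 0xc00000008000000080000000000000000 0x18000000380000001f0000007f0000007f0000001800000008 9 7) 0 0 (step_sound _ 100 [(rh2efbb3071513816e.shift 0 1), (rh6e2edfaf702f3752.shift 1 1), (rh75ea294132184f25.shift 1 3), rhdd607ffafb6e6ad7] (by decide +kernel))
noncomputable def rhca6ab43732b00e52 : CRef := CRef.mk (Pat.mk 0xc000000080000000800000000 0x40000001c0000001c0000001c0000003c0000000f000000780000001e00000014 9 7) 0 0 (step_sound _ 131 [rh881d88294fdaab25, (rhced6d86d2069808b.shift 3 0), (rhe150bcf26c742db8.shift 1 0), (rhf572b0fd5157a6c0.shift 2 0)] (by decide +kernel))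
noncomputable def rh0edc3dc65f305cf0 : CRef := CRef.mk (Pat.mk 0x40000000400000004000000000000000000000000 0x80000001e0000003e0000000f0000000e0000007c0000001e0000000600000002 9 7) 0 0 (step_sound _ 195 [(rh08d50fe567eb1045.shift 2 2), (rh1725eba4bd36066a.shift 1 0), (rh30f8efb0aadee7cf.shift 0 2), (rh48909e19f358d85b.shift 0 2), (rh87d5e4118780fa3b.shift 2 2)] (by decide +kernel))
noncomputable def rh1785a08faf93a2a1 : CRef := CRef.mk (Pat.mk 0x300000001000000010000000000000000000000000 0xf0000007e0000003e000000fc0000003e0000001f00000008 9 8) 0 0 (step_sound _ 68 [(rh8aec56c4ee12918c.shift 3 0), (rh8c7e6c931af72977.shift 3 1), (rhe8118a66783dd4c3.shift 0 1)] (by decide +kernel))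
noncomputable def rhbfd0b74def34515d : CRef := CRef.mk (Pat.mk 0x30000000100000001000000000 0x280000006c000001ef0000007e000001ff000001fe00000048 9 9) 0 0 (step_sound _ 133 [(rh4b10ccfbfa128bfe.shift 1 0), (rh69755ef358ebfd54.shift 4 1), (rh71df4ed6f0445e6a.shift 0 1)] (by decide +kernel))
noncomputable def rh90bf092a33f13bac : CRef := CRef.mk (Pat.mk 0x20000000200000000000000040000000000000000 0x1000000070000000700000007000000030000000700000007000000060000000600000004 9 3) 0 0 (step_sound _ 97 [(rh475253e964ed1313.shift 1 0), (rhd203fc733727f58c.shift 0 2), (rhf618531dddc81bf4.shift 0 1)] (by decide +kernel))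
noncomputable def rhe6063226fc8eb702 : CRef := CRef.mk (Pat.mk 0x800000008000000080000001000000000000000000000000000000000 0x140000003f0000007f0000003f000000f80000002c0000001c0000001c00000010 9 8) 0 0 (step_sound _ 131 [(rh245d56c915813f64.shift 0 3), (rh373b7625e672cfd8.shift 2 3), (rh4280077b5cdd730b.shift 0 3), (rhc459c257272b9dd1.shift 2 1), (rhd46a4724c955c894.shift 2 0)] (by decide +kernel))
noncomputable def rh95c31f33e7b1ff29 : CRef := CRef.mk (Pat.mk 0x80000000800000008000000100000000000000000 0x340000007c000001ff000000ff000001f30000001200000010 9 9) 0 0 (step_sound _ 100 [rh04ae2acb71f5685e, (rh08edf065357d68e5.shift 3 0), (rh8fcc3d9a26c46f3c.shift 0 1)] (by decide +kernel))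
noncomputable def rh50e5147ac8911531 : CRef := CRef.mk (Pat.mk 0x80000000800000008 0x100000001a0000001e0000001f0000003f0000007f0000001f0000000c 9 7) 0 0 (step_sound _ 99 [(rh1741680720c097b4.shift 2 0), (rh1f25b33bbea643f0.shift 2 0), rh4fbe2ffbe3e7473a, rh8ae8c57f43eb5c7c, (rhf927af2b331f35d4.shift 2 0)] (by decide +kernel))
noncomputable def rh9edb6414168b48f1 : CRef := CRef.mk (Pat.mk 0x4000000040000000800000008000000000000000000000000000000000000000000000000 0x40000000c000000180000007c000000ff0000007f000000fc0000001c0000001c00000004 9 8) 0 0 (step_sound _ 163 [rha50c39c46651b86b, (rhcfdf45280693d3da.shift 2 5)] (by decide +kernel))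
noncomputable def rhfef19c2222cfdf07 : CRef := CRef.mk (Pat.mk 0x1000000000000000300000002000000000 0x300000003000000037000003fe000007ff00000058 9 11) 0 0 (step_sound _ 100 [(rh2145e1d24b96a57e.shift 4 1), rh782ae15da9a298b1] (by decide +kernel))
noncomputable def rhe16564f30f661bf9 : CRef := CRef.mk (Pat.mk 0x10000000000000003000000020000000000000000000000000 0x4000000040000000c000000ff000000fc0000003e000000fc00000074000000100000001000000010 9 8) 0 0 (step_sound _ 164 [(rh2145e1d24b96a57e.shift 4 3), rh615271bd5ebb334c] (by decide +kernel))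
noncomputable def rh869a0380397b4cc8 : CRef := CRef.mk (Pat.mk 0x8000000000000001800000010000000000000000000000000 0x1c0000001c0000001c0000001f0000003f0000006e0000000800000008 9 7) 0 0 (step_sound _ 163 [(rh2145e1d24b96a57e.shift 3 3), rh53c3fb305efcdd5a] (by decide +kernel))
noncomputable def rhe918e0a80914648a : CRef := CRef.mk (Pat.mk 0x20000000000000006000000040 0x1ff000001fc000001fe0000007e000000f8000003d0 9 10) 0 0 (step_sound _ 133 [rh1def2ae41bfda68e, (rhff0f29cb645b05f7.shift 5 0)] (by decide +kernel))
noncomputable def rh4a7562cfe4e6d423 : CRef := CRef.mk (Pat.mk 0x4000000000000000c00000008000000000000000000000000 0xc0000000f000000ff0000007f000000770000001700000005 9 8) 0 0 (step_sound _ 100 [(rh17672965ea3ef50a.shift 1 0), (rh4ca5dae25f5c14ff.shift 0 3), (rh75ea294132184f25.shift 1 3), rh9688a99f52fe2c53, (rhdb295ec562705fd3.shift 1 1)] (by decide +kernel))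
noncomputable def rh4ad8b6a7a578cd08 : CRef := CRef.mk (Pat.mk 0x10000000000000003000000020000000000000000000000000 0x10000000140000001c0000007c0000002f000001fc000001fc000001dc0000005000000010 9 9) 0 0 (step_sound _ 102 [(rh17672965ea3ef50a.shift 3 0), (rh4ca5dae25f5c14ff.shift 2 3), (rh75ea294132184f25.shift 3 3), (rh8ab4056739c1f433.shift 0 1), (rhdb295ec562705fd3.shift 3 1)] (by decide +kernel))
noncomputable def rhf904abd76b6bdb96 : CRef := CRef.mk (Pat.mk 0x20000000200000002000000000000000000000000000000000 0x2000000030000003ff000001fe000003fe000000780000007800000020 9 10) 0 0 (step_sound _ 134 [(rh046c5eb18e55a239.shift 5 1), (rh9644cc72e3167030.shift 2 0), (rhcee75444bd75fa7e.shift 0 1)] (by decide +kernel))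
noncomputable def rh298d071caac1c3ab : CRef := CRef.mk (Pat.mk 0x8000000000000001000000010000000100000000000000000000000000000000000000000 0xc0000000e0000007e000000ff000000fe0000007e0000003e000000380000003800000028 9 8) 0 0 (step_sound _ 227 [(rh3a1cc22ead2eadb0.shift 3 4), (rh56259dd1390eee46.shift 3 2), (rhbb31f729868e6d36.shift 0 4), (rhccb771d83f719cdb.shift 1 0)] (by decide +kernel))
noncomputable def rhe4b7743c2326b08a : CRef := CRef.mk (Pat.mk 0x100000003000000000000000000000000000000000 0x5000000050000003ff000003fe000007f0000000e0000000e000000080 9 11) 0 0 (step_sound _ 134 [(rh1aae126fdb0efa1d.shift 3 3), (rh7b712e79f4da140c.shift 0 1), (rhaa645fc71576e509.shift 1 0)] (by decide +kernel))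
noncomputable def rh387af8468456ce83 : CRef := CRef.mk (Pat.mk 0x1000000030000000000000000000000000 0x5000000050000001ff000000ff000001ef0000002800000028 9 9) 0 0 (step_sound _ 69 [(rh36eaef138a1aff90.shift 1 0), rh465275a6070469c6, (rhc2c7bae8f445c890.shift 4 0)] (by decide +kernel))
noncomputable def rh0bd66a70649f0145 : CRef := CRef.mk (Pat.mk 0x4000000000000000800000018000000000000000000000000 0xc0000000c000000280000006f0000007e0000007e0000001400000014 9 7) 0 0 (step_sound _ 163 [(rh43f392826a2ceb6c.shift 0 2), (rh6196b452c518de56.shift 2 2), (rh9f4707c211ca8a4f.shift 1 0)] (by decide +kernel))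
noncomputable def rhc13cf235323c12b0 : CRef := CRef.mk (Pat.mk 0x800000018000000000000000000000000 0x20000000ff000000ff000001ff0000001600000016 9 9) 0 0 (step_sound _ 101 [(rh1aae126fdb0efa1d.shift 2 2), rh35cfcb4ec55253be, (rh3f7fa8cb850fe088.shift 2 2), (rh74fdf8d82f05be69.shift 1 2), (rhaea0e5974a1b33d0.shift 1 2)] (by decide +kernel))
noncomputable def rhedf36681725411c2 : CRef := CRef.mk (Pat.mk 0x40000000000000008000000180000000000000000000000000000000000000000 0xc0000000c000000080000001c0000001f000000ff000000fc0000001c0000001c00000004 9 8) 0 0 (step_sound _ 227 [rh2e885cc5044a4ca9, (rh6196b452c518de56.shift 2 4), (rh62762e7b7ed01286.shift 2 4)] (by decide +kernel))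
noncomputable def rh22f71e40a33a69a5 : CRef := CRef.mk (Pat.mk 0x200000000000000040000000c0000000000000000000000000 0x10000000380000007c0000005f00000ff8000007f800000f780000003800000020 9 12) 0 0 (step_sound _ 132 [(rh1b5538303dde4040.shift 3 0), (rh9ebd639649ea671c.shift 3 3), (rhcc99ed0ef450dc41.shift 0 1), (rhec2f3f5ded687db0.shift 4 2), (rhf887e4ee05fd7803.shift 3 3)] (by decide +kernel))
noncomputable def rh0d41336126d8d49f : CRef := CRef.mk (Pat.mk 0x400000000000000080000001800000000000000000000000000000000 0xc0000000c000000080000001c0000007c0000001f0000001c0000001c0000000c 9 7) 0 0 (step_sound _ 195 [rh28773619bb70491a, (rh6196b452c518de56.shift 2 3), (rh62762e7b7ed01286.shift 2 3)] (by decide +kernel))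
noncomputable def rhb99b53345b8a127a : CRef := CRef.mk (Pat.mk 0x8000000000000001800000010000000000000000000000000 0x8000000080000000c0000001f0000003f000000170000000200000002 9 6) 0 0 (step_sound _ 163 [(rh2145e1d24b96a57e.shift 3 3), rhd2448908dd08bb16] (by decide +kernel))
noncomputable def rheb1ec1bb425a34cf : CRef := CRef.mk (Pat.mk 0x100000000000000030000000200000000000000000 0x10000000100000001f000000fe000001ef0000007c00000028 9 9) 0 0 (step_sound _ 132 [(rh2145e1d24b96a57e.shift 4 2), rh346f960ad62a92e5] (by decide +kernel))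
noncomputable def rh80e01ed80700d35e : CRef := CRef.mk (Pat.mk 0x8000000000000001800000010000000000000000000000000000000000000000000000000 0xc0000000e0000007e000000ff000000fe0000007e0000003e000000380000003800000028 9 8) 0 0 (step_sound _ 164 [(rh3a1cc22ead2eadb0.shift 3 4), (rh56259dd1390eee46.shift 3 2), (rhbb31f729868e6d36.shift 0 4), (rhccb771d83f719cdb.shift 1 0)] (by decide +kernel))
noncomputable def rhcb786366ceaf1005 : CRef := CRef.mk (Pat.mk 0x200000000000000060000000400000000000000000 0x28000000380000003c000000f80000001f000003fe000003ff0000003c00000028 9 10) 0 0 (step_sound _ 100 [rh44fa075451721cfa, (rh69f8c8c91f9032ff.shift 1 0), (rh799bcd04cdf8ef40.shift 2 1), (rh9909eeda0ef2ed2c.shift 3 2), (rha0ae8adeb1dbcf8d.shift 1 2), (rhf73729f581db6eae.shift 2 0)] (by decide +kernel))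
noncomputable def rhb0d5b7600119298b : CRef := CRef.mk (Pat.mk 0x10000000100000001000000000 0x20000000300000003000000010000000fe000000ff000001ef 9 9) 0 0 (step_sound _ 132 [rh1b2587197ee1d082, (rh5ef66011045fb859.shift 4 0), (rhb7ee8905496f843d.shift 3 0), (rhce9a49803a550f13.shift 3 0)] (by decide +kernel))
noncomputable def rhcb9b2f5102cf6875 : CRef := CRef.mk (Pat.mk 0x10000000100000001800000000 0x280000003f0000003e000000770000007e0000007e00000020 9 7) 0 0 (step_sound _ 132 [(rh1741680720c097b4.shift 3 1), (rh72ce697a3a7a83f7.shift 3 0), rhbd290cf49750310c] (by decide +kernel))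
noncomputable def rh684eaac2e9eebaac : CRef := CRef.mk (Pat.mk 0x200000002000000030000000000000000000000000 0xc0000006c000003fe000003ff0000077c0000007000000070 9 11) 0 0 (step_sound _ 68 [(rh42548283029e2a39.shift 4 0), rh6b2ba9771364dbf4, (rhf9af042da61fc652.shift 4 0)] (by decide +kernel))
noncomputable def rh21119b6ef9173245 : CRef := CRef.mk (Pat.mk 0x1000000010000000100000000800000000 0x200000003000000010000003f7000001fe000001ef 9 10) 0 0 (step_sound _ 36 [(rh932754581e0f4330.shift 3 0), rhdc69421fe49aeebf] (by decide +kernel))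
noncomputable def rh808b30f6f2f07931 : CRef := CRef.mk (Pat.mk 0x20000000200000006000000000 0x200000002000000020000007bf000003fe0000079e 9 11) 0 0 (step_sound _ 39 [(rh4a0cb3a9508b05dd.shift 4 0), rh6c40cd049e1091d9, (rhcacaf44833cd1d6d.shift 3 0), (rhd78783b377ff8bf8.shift 3 0)] (by decide +kernel))
noncomputable def rhef73007ff0de928c : CRef := CRef.mk (Pat.mk 0x800000008000000080000001000000000 0x1000000038000000ff000000ee0000007800000038 9 8) 0 0 (step_sound _ 35 [(rh55afc6a59410cf00.shift 3 0), rh80d83773471f08c9] (by decide +kernel))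
noncomputable def rh6e9750f7655c647e : CRef := CRef.mk (Pat.mk 0x4000000040000000c00000000000000000000000000000000 0x80000000c0000000e0000007c0000007f0000001e0000000e00000006 9 7) 0 0 (step_sound _ 99 [(rh08edf065357d68e5.shift 2 1), (rh79ad7b82ec8c35e2.shift 2 1), rhaa37a763b4c5c821] (by decide +kernel))
noncomputable def rh96e4859875e91a64 : CRef := CRef.mk (Pat.mk 0x8000000080000000c0000000000000000 0x140000001c0000001c0000001c0000001f000000380000007f0000006f0000007800000038 9 7) 0 0 (step_sound _ 100 [(rh0bb882ba86b2372d.shift 0 2), rhc493c2a03b994eb5, rhc90ee1345b4b913d] (by decide +kernel))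
noncomputable def rh48c05e3c485d10c8 : CRef := CRef.mk (Pat.mk 0x800000008000000080000000800000000 0x140000001c00000008000000ff0000007f000000f4 9 8) 0 0 (step_sound _ 36 [(rh55afc6a59410cf00.shift 3 0), rheecc32375b2ae117] (by decide +kernel))
noncomputable def rh294268eb1dee9f3e : CRef := CRef.mk (Pat.mk 0x400000004000000040000000000000000000000000 0x38000000380000007f000001fe000003ff0000007c000001f8000000e0000000a0 9 10) 0 0 (step_sound _ 165 [(rhb1a251d9bff81766.shift 5 2), (rhc931f01983b76fa0.shift 0 2), (rhf5087a0274320ca0.shift 3 0)] (by decide +kernel))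
noncomputable def rh321887767d50fbdb : CRef := CRef.mk (Pat.mk 0x180000001000000010000000000000000000000000 0x80000003c0000003c00000076000000fe000000ff0000001f000000300000003000000020 9 8) 0 0 (step_sound _ 133 [(rh4ca5dae25f5c14ff.shift 1 4), (rh75ea294132184f25.shift 2 4), (rhb87f6d5cb2464eb5.shift 1 1), rhbe3317df5c2b2322, (rhdeca8db941583de2.shift 1 4)] (by decide +kernel))
noncomputable def rhbec30e1c0d5fe1db : CRef := CRef.mk (Pat.mk 0x4000000040000000600000000000000000000000000000000 0xe0000000e0000000e0000000f0000003c0000000e000000060000000c0000000e0000000e00000002 9 6) 0 0 (step_sound _ 226 [(rh8dc2031d32064d45.shift 1 3), (rha390e8a1c4415e34.shift 1 1), (rhb77bfac3e9efecea.shift 1 4), (rhf0b8c0601120d1bb.shift 1 0), (rhf149b0c20b930719.shift 0 3)] (by decide +kernel))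
noncomputable def rh73f43504fcea9d1d : CRef := CRef.mk (Pat.mk 0x2000000020000000200000002000000000 0x100000003000000030000003bf000001fe000003de 9 10) 0 0 (step_sound _ 36 [(rh932754581e0f4330.shift 4 0), rhe8a3db3485bfaeae] (by decide +kernel))
noncomputable def rhb1833f40af8a1ebc : CRef := CRef.mk (Pat.mk 0x800000010000000100000001000000000 0x2f0000007f000000fe000000100000001800000008 9 8) 0 0 (step_sound _ 132 [(rh50fbb5868c909700.shift 3 1), rh77d69e8a032ded71] (by decide +kernel))
noncomputable def rhe54f36c01d9b6799 : CRef := CRef.mk (Pat.mk 0x1000000020000000200000002000000000 0x5000000050000000df000001fe000003ff0000002800000008 9 10) 0 0 (step_sound _ 100 [(rh51b32eca3c08415c.shift 0 1), rh79ab908b549378a3, (rhe072fffdd2fccf38.shift 4 1)] (by decide +kernel))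
noncomputable def rh0657c65e8127b5d5 : CRef := CRef.mk (Pat.mk 0x8000000080000001800000000000000000000000000000000 0x340000007c000001ef000000f8000001ff000000ec000000e0000000a0 9 9) 0 0 (step_sound _ 133 [(rh14c69622e774a07a.shift 2 0), (rh9c94213f6896c74a.shift 2 3), (rhe5ee21331d2714c1.shift 0 2)] (by decide +kernel))
noncomputable def rh22112c6766fe1f06 : CRef := CRef.mk (Pat.mk 0x180000000800000008000000000000000000000000 0x4000000ff000001ff000000080000001c0000001c00000004 9 9) 0 0 (step_sound _ 67 [(rh9aab2e37f490e5ca.shift 0 1), (rha8bc3cae4d77a08f.shift 2 0), (rhfb3744468e6c363e.shift 0 1)] (by decide +kernel))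
noncomputable def rh82b00ae5ac4cafa8 : CRef := CRef.mk (Pat.mk 0x60000000200000002000000000 0x5000000050000000ff000001fe000003fe000000a000000080 9 10) 0 0 (step_sound _ 134 [(rh4519934a3b573fe3.shift 2 0), (rha91c78ed50c36e63.shift 0 1), (rhbfb5770941270498.shift 5 1)] (by decide +kernel))
noncomputable def rh76af8a4a7c49f667 : CRef := CRef.mk (Pat.mk 0x40000000400000004000000000000000000000000 0x60000000e0000000e000001df000000fc000000ef0000003c0000001f0000000e0000000a 9 9) 0 0 (step_sound _ 163 [(rh274a837cd7eaa569.shift 1 0), (rh7b51cad72331c837.shift 0 2), rh87478d023b72c5ca, (rha7054fc384045257.shift 0 1)] (by decide +kernel))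
noncomputable def rha36b9e46a33226cd : CRef := CRef.mk (Pat.mk 0x60000000400000004000000000000000000000000 0x180000003f0000003f0000003c0000000f0000000e0000000a 9 6) 0 0 (step_sound _ 66 [(rh5858edbfbdff1a38.shift 0 1), (rh6eff4158bb400f47.shift 1 0), (rhd22616887d452319.shift 1 1)] (by decide +kernel))
noncomputable def rh9b5c6cd831cdbbae : CRef := CRef.mk (Pat.mk 0x3000000020000000200000000000000000 0x1000000050000000df000001fe000001ff000001ee000000c800000040 9 9) 0 0 (step_sound _ 164 [(rh117ea79e969d9bea.shift 1 0), (rh79ab908b549378a3.shift 0 1), (rhe072fffdd2fccf38.shift 4 2)] (by decide +kernel))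
noncomputable def rh9ac00eb647922d02 : CRef := CRef.mk (Pat.mk 0x800000008000000080000000800000000 0x740000003f0000007f0000003f0000007800000030 9 7) 0 0 (step_sound _ 130 [(rh50fbb5868c909700.shift 2 1), rhaf196020357023cc] (by decide +kernel))
noncomputable def rh970be16d7d183be6 : CRef := CRef.mk (Pat.mk 0xc00000008000000080000000000000000 0x2000000120000003b0000003f0000007f0000003f0000007800000038 9 7) 0 0 (step_sound _ 100 [(rh4c3cb02adb85fa7f.shift 1 0), (rh75ea294132184f25.shift 1 3), rh7be2fe6c6edeff15, (rh7ce7dd2c71ef673e.shift 0 2), rhb87f6d5cb2464eb5] (by decide +kernel))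
noncomputable def rh876800f703a51357 : CRef := CRef.mk (Pat.mk 0x200000002000000060000000000000000000000000 0x2000000020000003bf000001fe0000039e0000001000000010 9 10) 0 0 (step_sound _ 100 [(rh5d436cc74a115108.shift 3 2), (rhb511e7778bb3ffba.shift 0 2), (rhfafeb437ceb8396d.shift 4 0)] (by decide +kernel))
noncomputable def rh89c8b26762a735e1 : CRef := CRef.mk (Pat.mk 0x100000001000000030000000000000000000000000 0x4000000060000000f8000007de000007ff000007ef000000e8000000e0 9 11) 0 0 (step_sound _ 102 [(rh1c78cafbad4362d5.shift 3 0), rh8ec8c81fe07a9b83, (rh9c94213f6896c74a.shift 3 2), (rha9fbfd4bb8cf890b.shift 1 3)] (by decide +kernel))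
noncomputable def rhd88a1f0101c7a170 : CRef := CRef.mk (Pat.mk 0x1000000010000000100000002000000000 0x280000003c000000f0000001ff000000fe0000001f 9 9) 0 0 (step_sound _ 36 [(rh305945700f20b255.shift 2 0), rh344845370a0dc0fe, (rhc193874f8fd999cc.shift 2 0)] (by decide +kernel))
noncomputable def rh7bb0c0187b50b321 : CRef := CRef.mk (Pat.mk 0x80000000800000018000000000000000000000000 0x2000000068000003ef000001fe000001fe0000003400000034 9 10) 0 0 (step_sound _ 68 [(rh0785dbf80e025217.shift 1 0), rh48c4b9009e33f8bb, (rh79ad7b82ec8c35e2.shift 3 0)] (by decide +kernel))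
noncomputable def rh139f2dff84f47c6d : CRef := CRef.mk (Pat.mk 0x180000000800000008000000000000000000000000 0x40000003c0000000f0000003f0000003f0000001f00000014 9 6) 0 0 (step_sound _ 67 [(rh8cdd36b03d57a2f6.shift 2 0), (rh9aab2e37f490e5ca.shift 0 1), (rhea68146b2a9f7185.shift 0 1)] (by decide +kernel))
noncomputable def rh8dfc501edbff87a1 : CRef := CRef.mk (Pat.mk 0x18000000080000000800000000 0x1000000034000003b7000001ff000001ff000000fc00000060 9 10) 0 0 (step_sound _ 132 [rh1f8998098dc88236, (rh69755ef358ebfd54.shift 3 1), rhbc0e3a9e61c17477] (by decide +kernel))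
noncomputable def rhb48cccaac8558541 : CRef := CRef.mk (Pat.mk 0x4000000040000000400000000000000000 0xa0000001f0000007ff000001fe000003fe000000e0000000e0000000a0 9 11) 0 0 (step_sound _ 133 [(rh4fcd5642bab1de5f.shift 3 0), (rh8cc2d46503f25dce.shift 0 2), (rhb1a251d9bff81766.shift 5 1)] (by decide +kernel))
noncomputable def rh15489380981b0751 : CRef := CRef.mk (Pat.mk 0x8000000080000000c000000000000000000000000 0x38000000780000003e0000007f0000003f0000007b0000003200000002 9 7) 0 0 (step_sound _ 132 [(rh0bb882ba86b2372d.shift 0 3), (rh56a89fcaa9ae1490.shift 1 1), rhca11c2711b6f5df9] (by decide +kernel))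
noncomputable def rhc67640350bb853f3 : CRef := CRef.mk (Pat.mk 0x8000000080000000c000000000000000000000000 0x40000000c0000000c0000001e0000007f0000003f0000003b0000001200000002 9 7) 0 0 (step_sound _ 132 [(rh574fdbf07bdd18b9.shift 0 3), (rh6877aa1b25d6856a.shift 1 2), rhca11c2711b6f5df9] (by decide +kernel))
noncomputable def rh33ee02bf3b80d21c : CRef := CRef.mk (Pat.mk 0x400000004000000040000000000000000000000000 0x20000000b0000003ff000001fe000003fe00000078000000700000002000000020 9 10) 0 0 (step_sound _ 165 [(rh0e4d89d28eeb7c50.shift 0 2), (rhb1a251d9bff81766.shift 5 2), (rhf6baa05a1226f084.shift 3 0)] (by decide +kernel))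
noncomputable def rh483471970b3248ff : CRef := CRef.mk (Pat.mk 0x20000000200000002000000000 0x70000000f0000001ff000000fe000001ff0000006800000068 9 9) 0 0 (step_sound _ 100 [(rh35dd3ad27294975f.shift 2 0), (rhb1a251d9bff81766.shift 4 0), rhef1bef7c417d7c65] (by decide +kernel))
noncomputable def rh918500abb460ecb7 : CRef := CRef.mk (Pat.mk 0x1800000010000000100000000000000000 0x280000003800000010000000ff000000fe0000002f 9 8) 0 0 (step_sound _ 36 [(rh50fbb5868c909700.shift 3 1), rh60a65f0bd697216b] (by decide +kernel))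
noncomputable def rhfaf9cacc4ded1c5a : CRef := CRef.mk (Pat.mk 0xc00000008000000080000000000000000 0x12000000330000003f0000007f0000007e0000000e00000006 9 7) 0 0 (step_sound _ 100 [(rh4ca5dae25f5c14ff.shift 0 3), rh50f506bd5ed6af24, (rh71095cda9916d029.shift 0 1), (rhdeca8db941583de2.shift 0 3)] (by decide +kernel))
noncomputable def rh68ac10481e9292d1 : CRef := CRef.mk (Pat.mk 0x3000000020000000200000000000000000 0x1800000058000000df000000fe000001ff000001fc0000001800000018 9 9) 0 0 (step_sound _ 164 [(rh00d804076c6183a8.shift 0 1), (rh3d273072abc3755a.shift 2 0), (rhe072fffdd2fccf38.shift 4 2)] (by decide +kernel))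
noncomputable def rhd4ac18d5812d0f21 : CRef := CRef.mk (Pat.mk 0x200000002000000020000000000000000000000000 0x2000000030000003bf000001fe000003fe0000007800000078 9 10) 0 0 (step_sound _ 100 [(rh281c6819542c66e6.shift 4 0), rh5258bac2d5ef03a5, (rhd84af89415c37073.shift 2 0), (rhfafeb437ceb8396d.shift 4 0)] (by decide +kernel))
noncomputable def rhb88e122fbe5ef6b9 : CRef := CRef.mk (Pat.mk 0x800000008000000080000000000000000000000000000000000000000 0x100000001c0000000f0000007f0000003f0000001f0000001e0000001c00000014 9 7) 0 0 (step_sound _ 131 [(rh21c083c93d35d8c8.shift 2 0), (rh428bb786410034d0.shift 0 1), (rh6eff4158bb400f47.shift 2 2), (rh92cef2931c8684ee.shift 0 1), (rh934072b1b4ffbdde.shift 0 2), rhb2a2b18d4f413774] (by decide +kernel))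
noncomputable def rhcb9af7ab16da0010 : CRef := CRef.mk (Pat.mk 0x10000000100000003000000000000000000000000000000000 0xc0000000c000001ef0000007f000000df000000fe000000fe0000003c0000003800000028 9 9) 0 0 (step_sound _ 195 [(rh4bab342c0ce02530.shift 1 2), (rh5e25212b4bf4f7ec.shift 2 2), (rh60ae197a4baa0d0d.shift 0 2), (rh78e3c2c544856f7f.shift 0 2), (rh985335d5e81225b5.shift 3 0)] (by decide +kernel))
noncomputable def rhc36d2ed5d1f2c16d : CRef := CRef.mk (Pat.mk 0x100000001000000018000000000000000000000000 0x16000001f7000000ff000001ff0000003f0000002c 9 9) 0 0 (step_sound _ 67 [(rh42548283029e2a39.shift 3 0), rh8f79e853c636224a, rhef8a6b5071f02870] (by decide +kernel))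
noncomputable def rhf024fc54adeb70ce : CRef := CRef.mk (Pat.mk 0x800000010000000100000001000000000 0x1ef000001ff0000007f000000100000001800000008 9 9) 0 0 (step_sound _ 132 [(rh50fbb5868c909700.shift 3 1), rhed8adf82b3781fe2] (by decide +kernel))
noncomputable def rh081036e5c2aa108b : CRef := CRef.mk (Pat.mk 0x1000000010000000100000001000000000 0x1a0000000f00000007e000000f7000000fe000001ef 9 9) 0 0 (step_sound _ 133 [(rh2f68792b6b779e96.shift 4 1), rh73d9ed1b16d1e1c9] (by decide +kernel))
noncomputable def rh0469c7d739982b39 : CRef := CRef.mk (Pat.mk 0x10000000100000001000000000 0x280000003f0000007e000000ff000000180000001800000008 9 8) 0 0 (step_sound _ 132 [(rh20966da26a1c2ae8.shift 3 0), (rh771d065bdc85bf2d.shift 3 0), (rhc85cc95794737cf7.shift 3 1), rhd51929b940965c16] (by decide +kernel))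
noncomputable def rh982341bc6a703276 : CRef := CRef.mk (Pat.mk 0x80000000800000008000000000000000400000000 0x140000001c0000001c0000001c0000003c0000001f0000000c0000001c000000180000000c00000004 9 6) 0 0 (step_sound _ 196 [(rh09801475d705d836.shift 3 2), (rh1ad40cb49254b799.shift 2 0), (rh9b619a4ee2fb33a9.shift 0 2)] (by decide +kernel))
noncomputable def rh60f782c7c3c66305 : CRef := CRef.mk (Pat.mk 0x1000000010000000180000000000000000000000000000000000000000 0xc0000002c0000007c0000001f0000007f0000001f0000003c000000380000003800000008 9 7) 0 0 (step_sound _ 227 [(rh9308c1695399a218.shift 1 3), (rhb41dd6e6f208933d.shift 3 0), (rhc189904a255ed82e.shift 1 3), (rhd65830c2b1b88648.shift 0 2), (rhfd169ff154cc0e79.shift 0 3)] (by decide +kernel))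
noncomputable def rhee791800e6b283a7 : CRef := CRef.mk (Pat.mk 0x1000000010000000180000000000000000 0x28000000380000003c0000007f0000007e0000001f0000001f0000001400000010 9 7) 0 0 (step_sound _ 131 [(rh20ea680d4ccea101.shift 0 1), (rhb1a251d9bff81766.shift 3 1), (rhc189904a255ed82e.shift 1 0), (rhf7fa32c905637de6.shift 1 0), (rhf9a6286f1d5377a2.shift 3 1)] (by decide +kernel))
noncomputable def rh07b5912f3cd15cb6 : CRef := CRef.mk (Pat.mk 0x80000000800000008000000000000000000000000 0x140000003c0000000f0000003f0000003f0000001f00000014 9 6) 0 0 (step_sound _ 67 [(rh5ee4dc8825dcefa0.shift 0 1), (rh8cdd36b03d57a2f6.shift 2 0), (rhc8c8ca90955b904b.shift 0 1)] (by decide +kernel))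
noncomputable def rhbca003e2e15042b9 : CRef := CRef.mk (Pat.mk 0x8000000080000000800000000000000000000000000000000 0x1c0000001c0000001c0000000c0000001c000001dc000000f8000001df0000001c0000001c00000014 9 9) 0 0 (step_sound _ 132 [(rh046c5eb18e55a239.shift 3 1), rh218cc41ca8733c26, (rhadfef7546daeceb4.shift 2 1)] (by decide +kernel))
noncomputable def rha6ce08e3f1b9c5e2 : CRef := CRef.mk (Pat.mk 0x30000000200000002000000000000000000000000 0x1000000070000000700000006000000030000000300000006000000070000000700000005 9 3) 0 0 (step_sound _ 65 [rh3181373a30ceb9e3, (rh6663e5236fa75b9d.shift 0 1), rha613ffd40b6c9d24, rhe4441baab75a6f73] (by decide +kernel))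
noncomputable def rh996e281cf6c9bdd3 : CRef := CRef.mk (Pat.mk 0x300000001000000010000000000000000000000000 0xf0000007f000000fe00000010000000380000003800000028 9 8) 0 0 (step_sound _ 68 [(rh28d4e3a40640b4f5.shift 0 1), (rh8aec56c4ee12918c.shift 3 0), (rh8c7e6c931af72977.shift 3 1), (rh8ff3dde5b1c639e0.shift 3 0)] (by decide +kernel))
noncomputable def rh010af82807e56f25 : CRef := CRef.mk (Pat.mk 0x180000000c000000000000000000000000 0x30000000300000003000000018000000ff000000ff0000003c0000001c 9 8) 0 0 (step_sound _ 97 [(rh53b3c253cb0c65f4.shift 0 3), rhc53f5bb509a00219] (by decide +kernel))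
noncomputable def rh94775c9bcee94b17 : CRef := CRef.mk (Pat.mk 0xc00000006000000000000000000000000 0x80000000a0000000b0000003f0000003e000000370000001600000016 9 6) 0 0 (step_sound _ 132 [(rh18965a982d73c794.shift 1 3), rhdc08e0bf03510f64] (by decide +kernel))
noncomputable def rhbbbf3fdb0edc2f26 : CRef := CRef.mk (Pat.mk 0x180000000c00000000000000000000000000000000 0x6000000170000001f000000ff0000000f0000001e0000001c00000018 9 8) 0 0 (step_sound _ 129 [(rh53b3c253cb0c65f4.shift 0 4), rh5567f9cbab1846c3] (by decide +kernel))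
noncomputable def rh2e34865651a70c1c : CRef := CRef.mk (Pat.mk 0x3000000018000000000000000000000000 0x28000000280000006f000000ff000000380000001f0000007c0000003c 9 8) 0 0 (step_sound _ 134 [(rh18965a982d73c794.shift 3 3), rh9133d37e34d6b86b] (by decide +kernel))
noncomputable def rh979c9006532587ec : CRef := CRef.mk (Pat.mk 0x180000000c000000000000000000000000 0x2000000170000001f0000003f0000007c000000fe0000007c 9 8) 0 0 (step_sound _ 97 [rh164ea6f45c28ffbe, (rh53b3c253cb0c65f4.shift 0 3)] (by decide +kernel))
noncomputable def rhf8c836cd31a28668 : CRef := CRef.mk (Pat.mk 0x300000001800000000000000000000000000000000 0x20000000280000006e000000ff000000f8000000f8000000fe000000be00000020 9 8) 0 0 (step_sound _ 166 [(rh18965a982d73c794.shift 3 4), rha26f04ea69a36ef5] (by decide +kernel))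
noncomputable def rh163d9898f3df4757 : CRef := CRef.mk (Pat.mk 0x180000000c00000000000000000000000000000000 0x6000000170000001f000000ff000000ef0000001e0000001800000018 9 8) 0 0 (step_sound _ 129 [rh105afbb9577e454e, (rh53b3c253cb0c65f4.shift 0 4)] (by decide +kernel))
noncomputable def rh422790a4a0c69439 : CRef := CRef.mk (Pat.mk 0x180000000c00000000000000000000000000000000 0x30000000340000001f0000001f0000007f0000007e0000003c00000014 9 7) 0 0 (step_sound _ 129 [(rh53b3c253cb0c65f4.shift 0 4), rh88b08e87f5d90bc1] (by decide +kernel))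
noncomputable def rh2cec2db725b66848 : CRef := CRef.mk (Pat.mk 0xc00000006000000000000000000000000 0x180000001a0000001b0000003e0000007e0000003f0000003f00000022 9 7) 0 0 (step_sound _ 132 [(rh18965a982d73c794.shift 1 3), rh4bbd34bc4328234e] (by decide +kernel))
noncomputable def rh5e9196e7627f7a19 : CRef := CRef.mk (Pat.mk 0x5000000018000000000000000000000000 0x60000000e0000004f000000df000000ff000000ff0000002400000020 9 8) 0 0 (step_sound _ 101 [(rh834ef1c974e4840e.shift 2 0), (rhca6a4af813f68cee.shift 2 3), (rhe427a74efb961c4c.shift 0 1)] (by decide +kernel))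
noncomputable def rh4fb92b7633f16f8a : CRef := CRef.mk (Pat.mk 0x4000000060000000000000000000000000 0x3800000038000000ff000001fe000003ff0000003000000010 9 10) 0 0 (step_sound _ 100 [(rh11844d670e8821e5.shift 1 0), (rh56a193b8fd5b2f63.shift 3 1), (rhf7943763ae823400.shift 0 2)] (by decide +kernel))
noncomputable def rh02e0fd1ce0f14227 : CRef := CRef.mk (Pat.mk 0x80000000e000000000000000000000000 0x4000000140000007f0000003e0000007b0000003f0000001e 9 7) 0 0 (step_sound _ 132 [rh294539d72efcc4ea, (rh572132728df34c43.shift 1 3), (rh80f90a60d87caa0d.shift 1 3)] (by decide +kernel))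
noncomputable def rh9264bddf06e7a041 : CRef := CRef.mk (Pat.mk 0x70000000000000000000000000 0x180000003e000001f8000003bc0000001f0000001c 9 10) 0 0 (step_sound _ 131 [(rh15b4c7f64ffd8e41.shift 2 3), (rh8bb330ee5aea9f6b.shift 2 0), (rh8c12fdbbddc1e7ab.shift 1 3), rh9f54117135443173, (rhe79590487a395ecc.shift 3 2)] (by decide +kernel))
noncomputable def rh78033f07296e78b0 : CRef := CRef.mk (Pat.mk 0x80000000e000000000000000000000000 0x40000000700000007000000070000003f0000003e000000770000000600000002 9 7) 0 0 (step_sound _ 100 [(rh06db8ceda6269a47.shift 0 2), rh9d477ee6df2c192a, (rha7191f5d6d8736d9.shift 0 1)] (by decide +kernel))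
noncomputable def rh28ded346c30d74ac : CRef := CRef.mk (Pat.mk 0x1800000018000000000000000000000000 0xc0000000c0000001c0000001f0000007f0000007f0000003c 9 7) 0 0 (step_sound _ 68 [(rh3cb04db3dd2b6a55.shift 3 0), rh4dd9164e056e5600, (rhf351c68a885f5397.shift 1 0)] (by decide +kernel))
noncomputable def rhc467bb2a6dd2ee97 : CRef := CRef.mk (Pat.mk 0x1800000018000000000000000000000000 0x1c0000003e0000000f0000007f0000001f0000000f0000000e0000000c 9 7) 0 0 (step_sound _ 98 [rh05906928704ce572, (rhab2ad169e49f9c5e.shift 0 3), (rhd9b6067dacf5ff35.shift 0 1)] (by decide +kernel))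
noncomputable def rh4a36eeb7f8a47818 : CRef := CRef.mk (Pat.mk 0x180000001800000000000000000000000000000000 0x200000002400000067000000ff000000df000000f8000000fe000000be00000020 9 8) 0 0 (step_sound _ 165 [(rh3ddc0e158e65b458.shift 0 1), (rh4dc133ee0ba1420a.shift 1 4), (rhbc93124e31d97c82.shift 1 0)] (by decide +kernel))
noncomputable def rh1a1eb52641246b04 : CRef := CRef.mk (Pat.mk 0x80000000c0000001000000000000000000000000000000000 0x240000006c0000003f0000007c0000001f0000001f0000001c00000008 9 7) 0 0 (step_sound _ 100 [rh25cfa361f72d2f20, (rh2b795e827cf38bdb.shift 1 2), (rh5a9290fc5256404f.shift 0 2), (rh74a43b9a483760f6.shift 3 1)] (by decide +kernel))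
noncomputable def rh1cdba84c5d877877 : CRef := CRef.mk (Pat.mk 0x100000001800000020000000000000000000000000 0x100000003e000000ff000001ff000001f800000038 9 9) 0 0 (step_sound _ 100 [(rh4ca5dae25f5c14ff.shift 1 3), (rh57ceeaafbbbcec43.shift 1 0), rh8075efc01572ae5f] (by decide +kernel))
noncomputable def rh3786cefe09eb3c9f : CRef := CRef.mk (Pat.mk 0x1000000018000000200000000000000000 0x40000001df000001fe000003f70000002000000020 9 10) 0 0 (step_sound _ 101 [(rh193de8196b00d2cf.shift 2 0), rh7c38f39af91613a6, (rh8ee80cc30e93a344.shift 2 2), (rhb2afcb5db661472f.shift 0 2)] (by decide +kernel))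
noncomputable def rhffc685d1c01f5b1c : CRef := CRef.mk (Pat.mk 0x2000000030000000400000000000000000 0x180000001c000003bf000003fe0000007f000000fc00000058 9 10) 0 0 (step_sound _ 99 [(rh11a231e315a35f46.shift 2 0), (rh8b1e6093a28b6d98.shift 0 1), (rhae5cc6fc2408e265.shift 1 0), (rhcfe47c40aa7ead36.shift 0 2), (rhf771e1bb7545b213.shift 0 2)] (by decide +kernel))
noncomputable def rhea8c36f482e3c03b : CRef := CRef.mk (Pat.mk 0x100000001800000020000000000000000000000000 0x4c000000de000000f8000001ff000000fe000001ff00000020 9 9) 0 0 (step_sound _ 69 [(rh5d3cb440e0073c05.shift 2 1), (rh74a43b9a483760f6.shift 4 0), (rhe2a0f19f7db7bdb8.shift 2 1), (rhedcf64db457a7434.shift 0 1)] (by decide +kernel))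
noncomputable def rh76938616b83b2fdb : CRef := CRef.mk (Pat.mk 0x4000000070000000000000000000000000000000000000000000000000 0x80000075f000003fe000007ff000003f0000007f0000000e0000000c000000080 9 11) 0 0 (step_sound _ 166 [(rh0b01d292f713c566.shift 2 3), (rh363a0309de42c24f.shift 1 5), (rh8ce832b25e12a302.shift 3 0), (rh9909eeda0ef2ed2c.shift 3 5), (rhc59ba9a1f24cb412.shift 0 5)] (by decide +kernel))
noncomputable def rh72755e1a62f654b7 : CRef := CRef.mk (Pat.mk 0x80000000e000000000000000000000000 0x3000000030000000300000007b0000003e0000007f0000001800000018 9 7) 0 0 (step_sound _ 100 [(rh06db8ceda6269a47.shift 0 2), (rh7f83bd45b8e0f5e4.shift 1 0), (rhdfd366c8d9639428.shift 0 2)] (by decide +kernel))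
noncomputable def rhfaa6f6ac2e2ca807 : CRef := CRef.mk (Pat.mk 0x1800000018000000000000000000000000 0x8000000080000001e000000f80000007f000000ff0000007c 9 8) 0 0 (step_sound _ 101 [rh5b925b56610e0cc9, (rh79b3c29022acbdf3.shift 2 3), rh7eedfae0d2035a10] (by decide +kernel))
noncomputable def rh60f06ddecd1f49e5 : CRef := CRef.mk (Pat.mk 0xc0000000c000000000000000000000000 0x4000000060000000f0000007c0000007f0000003f0000001e 9 7) 0 0 (step_sound _ 67 [(rh3cb04db3dd2b6a55.shift 2 0), rhf351c68a885f5397, rhfd73b35d48f9bbe6] (by decide +kernel))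
noncomputable def rh9178dd798f0bcdc5 : CRef := CRef.mk (Pat.mk 0xc0000000c000000000000000000000000 0x400000006000000270000007f0000007c0000007e0000001600000016 9 7) 0 0 (step_sound _ 100 [(rh3f49fb746b0b9db9.shift 0 1), (rh79b3c29022acbdf3.shift 1 3), (rhd786018ca774079a.shift 1 0)] (by decide +kernel))
noncomputable def rheb1d5af9f3cc5fa8 : CRef := CRef.mk (Pat.mk 0x180000001800000000000000000000000000000000 0x200000002000000067000000ff000000f8000000fe000000fe000000fe00000020 9 8) 0 0 (step_sound _ 165 [(rh240ea196c381e9e6.shift 2 1), (rh293ce6877fb351b2.shift 0 1), (rh2ce69c8ad081e07c.shift 2 1), (rha8913c419c91a0e1.shift 0 2), (rhb1d8a7e321a4785e.shift 0 4), (rhbc93124e31d97c82.shift 1 0)] (by decide +kernel))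
noncomputable def rh679823a0df241fdd : CRef := CRef.mk (Pat.mk 0xc000000180000000000000000 0x180000003a0000003f0000003f0000001f0000003400000024 9 6) 0 0 (step_sound _ 97 [rha0aeb751c2a665e2, (rhb739f4f82bb681b4.shift 0 2)] (by decide +kernel))
noncomputable def rh35d91ebcd79fee1b : CRef := CRef.mk (Pat.mk 0x180000003000000000000000000000000000000000 0x18000000180000007c000000f8000000ff000000e8000000e0000000e0000000a0 9 8) 0 0 (step_sound _ 134 [rhd94b23737262b7b9, (rhf48373e13d2bc128.shift 3 4)] (by decide +kernel))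
noncomputable def rh2faa1c4011751363 : CRef := CRef.mk (Pat.mk 0x60000000c00000000000000000000000000000000 0x1c0000001c0000003e0000003e0000003b0000003a0000003800000028 9 6) 0 0 (step_sound _ 132 [rhcc2ab252af78a429, (rhf48373e13d2bc128.shift 1 4)] (by decide +kernel))
noncomputable def rhda27371149b1d3c2 : CRef := CRef.mk (Pat.mk 0xc00000018000000000000000000000000 0x140000001c0000001c0000003c0000003f0000001f000000330000003200000030 9 6) 0 0 (step_sound _ 129 [rh5ea5c109d510c216, (rhb739f4f82bb681b4.shift 0 3)] (by decide +kernel))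
noncomputable def rh8c464a5f2c066672 : CRef := CRef.mk (Pat.mk 0x30000000600000000000000000 0x50000000f8000000f8000000ff0000007c0000007e000000dc000000d0 9 8) 0 0 (step_sound _ 99 [rh52900672f4885679, (rhb739f4f82bb681b4.shift 2 2)] (by decide +kernel))
noncomputable def rh8bf8c7095bf3805c : CRef := CRef.mk (Pat.mk 0xc00000018000000000000000000000000 0x18000000180000003f000000ff0000001c000000300000003000000030 9 8) 0 0 (step_sound _ 129 [rh0190390f0364d325, (rhb739f4f82bb681b4.shift 0 3)] (by decide +kernel))
noncomputable def rh85ff64098bacd32e : CRef := CRef.mk (Pat.mk 0x3800000020000000000000000000000000 0x100000001c0000001f0000007e0000003f0000001c0000001c0000001c 9 7) 0 0 (step_sound _ 98 [(rh45beebce8c11cf6a.shift 0 3), (rh4c5c51b0ae60cece.shift 0 3), (rha7b1da87362785da.shift 1 0)] (by decide +kernel))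
noncomputable def rh96cd4aa0aa39e766 : CRef := CRef.mk (Pat.mk 0x1c00000010000000000000000000000000 0x2c0000007c0000007e0000007c0000003e0000000f0000000c00000008 9 7) 0 0 (step_sound _ 133 [(rh2fbddcf61b1cd260.shift 1 3), (rh44dd78dd79fc4e0b.shift 1 2), (rh51800c37e2c6dd50.shift 1 2), rh9d123016fe351213, (rhafa5a7051d37b143.shift 1 1)] (by decide +kernel))
noncomputable def rh99370bed037805ea : CRef := CRef.mk (Pat.mk 0x1c0000000800000000 0xe0000000f0000003e0000007c000000ee00000004 9 8) 0 0 (step_sound _ 69 [rh0544761372803696, (rhaf9f2efc81a8312b.shift 1 1), (rhe401600d466b97cd.shift 1 1)] (by decide +kernel))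
noncomputable def rh04a46a812478d667 : CRef := CRef.mk (Pat.mk 0x1c0000000800000000 0x1c0000003c0000000f0000003e0000000f00000006 9 6) 0 0 (step_sound _ 33 [(rh076be03eb7063320.shift 0 1), (rh72297cd55a503360.shift 0 1), rh73f5f7cdf41b5bc9, rhcabda6eb937717b5] (by decide +kernel))
noncomputable def rhc846f5cb25d73868 : CRef := CRef.mk (Pat.mk 0xe00000004000000000000000000000000 0x1c0000001c0000001c0000000f0000003e000000780000001e0000001c 9 7) 0 0 (step_sound _ 99 [rh2c235085dfb4c8ec, (rh6292bd8784ece55f.shift 0 3), (rhca5b227f24626cc1.shift 1 0)] (by decide +kernel))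
noncomputable def rh8332a96f5dad25a2 : CRef := CRef.mk (Pat.mk 0x38000000100000000000000000 0x780000007c0000077f000003fc000007f60000006400000040 9 11) 0 0 (step_sound _ 131 [(rh0b537d8cb0fe3a34.shift 1 1), (rh9891e13949dfd44e.shift 2 0), (rhf60aa8aede119d3b.shift 0 3)] (by decide +kernel))
noncomputable def rh0d9c29c34b95a06f : CRef := CRef.mk (Pat.mk 0x38000000100000000000000000 0x2c0000002c0000077f000003fc000007fe0000004c00000040 9 11) 0 0 (step_sound _ 131 [(rh2261439357d3814e.shift 0 1), (rh9891e13949dfd44e.shift 2 0), (rh9f93e2b24091a43d.shift 2 2)] (by decide +kernel))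
noncomputable def rh059ff69ab35c2b86 : CRef := CRef.mk (Pat.mk 0xc00000018000000000000000000000000 0x180000001a0000003b0000003f0000001f000000340000003400000030 9 6) 0 0 (step_sound _ 129 [rhb4c69a01bf6eb2d8, (rhb739f4f82bb681b4.shift 0 3)] (by decide +kernel))
noncomputable def rh439ce32b9ddbccc6 : CRef := CRef.mk (Pat.mk 0x18000000300000000000000000000000000000000000000000 0x300000007000000070000000f8000000ff000003ec000000f8000003f0000000e000000020 9 10) 0 0 (step_sound _ 166 [rhbb9b146381838eb2, (rhf48373e13d2bc128.shift 3 5)] (by decide +kernel))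
noncomputable def rh35c3a6d4f214115e : CRef := CRef.mk (Pat.mk 0x1800000018000000000000000000000000 0x1c0000001c0000005f000000df000000fc000000e80000002800000028 9 8) 0 0 (step_sound _ 67 [(rh370af384ddd2082c.shift 1 0), (rhea7a1800d6f053bd.shift 3 0), rhf1dcb0862000c712] (by decide +kernel))
noncomputable def rhcf6d76b59d05d021 : CRef := CRef.mk (Pat.mk 0x1800000018000000000000000000000000 0x1000000010000000100000001f000000ff000000ef0000000c0000000c 9 8) 0 0 (step_sound _ 164 [rh1f1bc8a28608af43, (rh503dd4575245365b.shift 3 2), (rhc355bcc39d2b9dce.shift 1 2)] (by decide +kernel))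
noncomputable def rh53d2ce2b75047b75 : CRef := CRef.mk (Pat.mk 0x1800000018000000000000000000000000 0xc0000001f0000003f0000001f0000001c0000000f0000003c0000001c 9 6) 0 0 (step_sound _ 67 [(rh68c3f3cea96f2850.shift 0 1), rh72b06522cc100222, (rhea7a1800d6f053bd.shift 3 0)] (by decide +kernel))
noncomputable def rh0a712c8957f6ac12 : CRef := CRef.mk (Pat.mk 0xe00000008000000000000000000000000 0x1c0000001c0000003f0000003e0000003b000000320000003000000030 9 6) 0 0 (step_sound _ 132 [(rh44dd78dd79fc4e0b.shift 0 2), (rh92eeac1c1b6d8178.shift 1 0)] (by decide +kernel))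
noncomputable def rh3482d20b1f9db469 : CRef := CRef.mk (Pat.mk 0x7000000020 0x4000000040000000f7000003fe000003be 9 10) 0 0 (step_sound _ 39 [(rhaf9f2efc81a8312b.shift 3 0), rhcfbabc456dc8155c, (rhd955a0402bd7b38f.shift 2 0)] (by decide +kernel))
noncomputable def rhf5ccad115e5d0ea6 : CRef := CRef.mk (Pat.mk 0x380000001000000000 0x2c0000007c0000007f0000003e0000001f0000000c 9 7) 0 0 (step_sound _ 66 [(rh4c622fddc53a5f99.shift 0 2), (rh51800c37e2c6dd50.shift 1 0), (rh7654d7b92c96fe12.shift 0 1), (rh775ca1963e850b80.shift 0 1), (rh8a7835817a1c7776.shift 0 1)] (by decide +kernel))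
noncomputable def rhe27e7ba67b32a80b : CRef := CRef.mk (Pat.mk 0xc0000000c00000000000000000000000000000000 0xc0000000c0000003e0000007c0000007f00000074000000700000007000000050 9 7) 0 0 (step_sound _ 132 [(rh2c11f6dacef44778.shift 1 3), (rh653a5a1b6d46e760.shift 2 0), (rh6c5f16568e2653cf.shift 1 1), (rh8c828fe770f0753c.shift 0 2), (rh989acc546a4ec333.shift 1 1), (rhb2aab52c6ed31dc5.shift 1 1)] (by decide +kernel))
noncomputable def rh5d4eca8943518b1f : CRef := CRef.mk (Pat.mk 0x180000001800000000000000000000000000000000 0x18000000180000007c000000f8000000ff000000e7000000e0000000e0000000a0 9 8) 0 0 (step_sound _ 133 [(rh4c15d144922a0c53.shift 1 1), (rh653a5a1b6d46e760.shift 3 0), (rh6c5f16568e2653cf.shift 2 1), (rh826342231b734fb6.shift 0 3), (rh989acc546a4ec333.shift 2 1), (rhfcc3a69daeb4e231.shift 2 3)] (by decide +kernel))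
noncomputable def rhf1e861ec4fa9edc3 : CRef := CRef.mk (Pat.mk 0xc0000001800000000 0x18000000380000003f0000003f0000003800000010 9 6) 0 0 (step_sound _ 65 [rh8498fdabe7ceb408, (rhb739f4f82bb681b4.shift 0 1)] (by decide +kernel))
noncomputable def rha844b3e1bfb97e10 : CRef := CRef.mk (Pat.mk 0x100000001000000030000000000000000000000000 0x40000000d0000003fe000001fe000003ef0000006800000068 9 10) 0 0 (step_sound _ 69 [(rh08edf065357d68e5.shift 4 0), (rh48c4b9009e33f8bb.shift 1 0), rh66c8af5ba55cd98c] (by decide +kernel))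
noncomputable def rhd462fa93b54f968f : CRef := CRef.mk (Pat.mk 0x1000000010000000300000000000000000 0x80000001f0000007f000000fe000000fe0000001e0000001c 9 8) 0 0 (step_sound _ 99 [(rh3c3e23a02e82b2ed.shift 1 2), (rhcbae5c1620a7e4bc.shift 2 0), rhcc044f9873f9ea6a] (by decide +kernel))
noncomputable def rhb83fe70e181a6f56 : CRef := CRef.mk (Pat.mk 0x800000008000000180000000000000000 0x1800000018000000ff000000ff0000007c0000002c00000008 9 8) 0 0 (step_sound _ 98 [(rh28c34f9629d5af14.shift 2 1), (rh3c3e23a02e82b2ed.shift 0 2), rh5919e748360bd3cf] (by decide +kernel))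
noncomputable def rhbf735d6e48f06e60 : CRef := CRef.mk (Pat.mk 0xc0000000800000008000000000000000000000000 0xa0000001a0000003b0000007f0000007f0000007f000000180000001800000010 9 7) 0 0 (step_sound _ 132 [rh338f6b4d2d052dbf, (rh4c3cb02adb85fa7f.shift 1 1), (rh6e2edfaf702f3752.shift 1 2), (rh75ea294132184f25.shift 1 4), (rhb87f6d5cb2464eb5.shift 0 1)] (by decide +kernel))
noncomputable def rh8f36f3c00d186fc8 : CRef := CRef.mk (Pat.mk 0x8000000080000001800000000 0x3c0000003e0000007c000001fc000000ff000001f7 9 9) 0 0 (step_sound _ 37 [rh7226b905a9ce90dd, (rh892a3a308d8a7ec9.shift 2 0), (rh8ec4e0d40874ea4b.shift 2 0)] (by decide +kernel))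
noncomputable def rh92bf5eb1987d3bea : CRef := CRef.mk (Pat.mk 0x1000000010000000300000000000000000 0x2c0000003c0000007f000000ff000000ff000000fe0000001e00000018 9 8) 0 0 (step_sound _ 131 [(rh1ce4f391a2b5187d.shift 1 0), (rhc6122d79db3d31ea.shift 1 0), rhfa8e94424ccffe52, (rhfda7f9ad76313d5e.shift 0 1)] (by decide +kernel))
noncomputable def rhd878704a81ae758f : CRef := CRef.mk (Pat.mk 0x200000002000000020000000100000000000000000000000000000000 0x40000000700000007000000030000000300000003000000070000000700000005 9 3) 0 0 (step_sound _ 129 [(rh932754581e0f4330.shift 0 3), rhf20fe48e614cbb07] (by decide +kernel))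
noncomputable def rh21e550b889eff11c : CRef := CRef.mk (Pat.mk 0x40000000400000004000000020000000000000000 0xc0000000c0000000e0000000f0000003c0000000e0000000600000004 9 6) 0 0 (step_sound _ 66 [rh31c72eb7a4215c81, (rh932754581e0f4330.shift 1 1)] (by decide +kernel))
noncomputable def rhdbdc50deb81b9a7c : CRef := CRef.mk (Pat.mk 0x800000008000000040000000000000000 0x100000001c0000001c0000001c000000180000001c0000001c0000001f0000003c0000001c0000001c 9 6) 0 0 (step_sound _ 163 [(rh544d3caba1e1e2bb.shift 2 0), rh5d72200df14134d4, (rh96efd60ea8018344.shift 2 0)] (by decide +kernel))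
noncomputable def rh37de7caed51a2d6f : CRef := CRef.mk (Pat.mk 0x8000000080000000c00000000000000000000000000000000 0x2000000170000007e0000007f0000000c000000180000001c0000001c00000014 9 7) 0 0 (step_sound _ 99 [(rh6c59ce14113da07f.shift 3 1), (rh9a8da976d7c183f9.shift 0 3), (rhc850b49d039efae1.shift 2 0)] (by decide +kernel))
noncomputable def rh3967a6987178999d : CRef := CRef.mk (Pat.mk 0x1000000010000000080000000000000000000000000000000000000000 0x10000000140000001e000001fe000000fc000001ef000000280000003c0000001c00000014 9 9) 0 0 (step_sound _ 131 [(rh1ca3eff66d43e5b6.shift 1 3), (rh3e5950ccac625272.shift 2 0), (rh751f91025c6ba4fe.shift 3 4), (rhb8e5b18824fc4c63.shift 3 3), (rhbab069099745da53.shift 0 2)] (by decide +kernel))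
noncomputable def rhe7e7de0708131dea : CRef := CRef.mk (Pat.mk 0x400000004000000020000000200000000 0xc0000000c0000000c0000003e0000003f0000001e 9 6) 0 0 (step_sound _ 66 [rh2ffa9545c46592e8, (rh5c5e593799055d58.shift 1 1)] (by decide +kernel))
noncomputable def rh7625cffd4ecdfd0b : CRef := CRef.mk (Pat.mk 0x8000000080000000c00000000000000000000000000000000 0x100000001c0000007e0000007e0000007f00000078000000380000003800000010 9 7) 0 0 (step_sound _ 164 [(rh0bb882ba86b2372d.shift 0 4), (rh77ec1c8f72d561e2.shift 1 1), rha6b2de51e0da4aa8] (by decide +kernel))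
noncomputable def rhf94a05d72d2baf92 : CRef := CRef.mk (Pat.mk 0x100000001000000008000000080000000000000000 0x1000000050000001d7000000fe000001ff0000007000000020 9 9) 0 0 (step_sound _ 100 [(rh5c5e593799055d58.shift 3 2), rh6f556a9d258d2ef4] (by decide +kernel))
noncomputable def rhc378e8c2638142fa : CRef := CRef.mk (Pat.mk 0x1000000010000000100000000800000000000000000000000000000000 0x200000003800000038000003ff000001fe000001f7000000780000003800000028 9 10) 0 0 (step_sound _ 132 [(rh0fd58fddcf5c4abe.shift 0 3), (rh15e36513d8f37690.shift 1 2), (rh2b6f3d735bfdbe30.shift 3 0), (rhf20fe48e614cbb07.shift 3 0), (rhfa19824103984e6d.shift 0 2)] (by decide +kernel))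
noncomputable def rh6ecad64dc7c48898 : CRef := CRef.mk (Pat.mk 0x1000000010000000180000000000000000 0x2800000078000000fe0000007f0000007f0000001e 9 8) 0 0 (step_sound _ 36 [(rh2ad4304994e985b6.shift 1 0), (rh5ee4dc8825dcefa0.shift 1 0), rhef7121e6f76d4d9b] (by decide +kernel))
noncomputable def rh8c6c6a9433862b44 : CRef := CRef.mk (Pat.mk 0x8000000080000000c00000000000000000000000000000000 0x140000003f0000007f0000001f0000000c0000001c0000001c00000014 9 7) 0 0 (step_sound _ 99 [(rh2ad4304994e985b6.shift 0 2), (rh9a07fabe4e103bc4.shift 0 3), (rhc850b49d039efae1.shift 2 0)] (by decide +kernel))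
noncomputable def rh39fa30b267173ead : CRef := CRef.mk (Pat.mk 0x8000000080000000c000000000000000000000000 0x10000000180000007c0000007f0000007e0000003c00000004 9 7) 0 0 (step_sound _ 66 [(rh42548283029e2a39.shift 2 0), (rh680841fb2ea52e8f.shift 0 1), (rhf9af042da61fc652.shift 2 0)] (by decide +kernel))
noncomputable def rh0cf5a7cf821aaa29 : CRef := CRef.mk (Pat.mk 0x8000000080000000c00000000000000000000000000000000 0x140000007e0000007c0000006f0000007c0000007c0000001c00000018 9 7) 0 0 (step_sound _ 165 [(rh1f116b55314dbe24.shift 1 1), (rhe33d9496e10d8eb0.shift 0 4), (rhf31f6c48349bf3e2.shift 1 0)] (by decide +kernel))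
noncomputable def rh0140d4a558ae1e31 : CRef := CRef.mk (Pat.mk 0x100000001000000018000000000000000000000000 0x280000003c000000f8000000f8000000ff0000007f00000008 9 8) 0 0 (step_sound _ 67 [(rh37a2dab74636ef75.shift 2 1), (rhf9af042da61fc652.shift 3 0), (rhfd70a5fba487736e.shift 0 1)] (by decide +kernel))
noncomputable def rhbe19b5ffa79c5f90 : CRef := CRef.mk (Pat.mk 0x8000000080000000c000000000000000000000000 0x10000000140000007f0000007f0000007f000000770000003600000030 9 7) 0 0 (step_sound _ 132 [(rh0bb882ba86b2372d.shift 0 3), (rh1aa43eac5796afc1.shift 0 1), rh27a1a8d50a30a521, (rh574fdbf07bdd18b9.shift 0 3)] (by decide +kernel))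
noncomputable def rhaa2e585f6991dd97 : CRef := CRef.mk (Pat.mk 0x40000000600000002000000000 0x4000000040000003f7000003fe000003be00000080 9 10) 0 0 (step_sound _ 134 [(rh5c5e593799055d58.shift 5 1), rh5f9a93944b61b580] (by decide +kernel))
noncomputable def rh5a9324b73f62489a : CRef := CRef.mk (Pat.mk 0x2000000020000000300000000 0x600000006000000060000003e0000003f0000000f 9 6) 0 0 (step_sound _ 129 [rh932754581e0f4330, rh999675b4114ee612] (by decide +kernel))
noncomputable def rhd7c07e4bd3f4f699 : CRef := CRef.mk (Pat.mk 0x800000008000000040000000000000000 0x1000000018000000180000001c0000001c0000007f0000003e0000001c0000000c 9 7) 0 0 (step_sound _ 163 [(rh0e6924d680f6455d.shift 2 0), (rh544d3caba1e1e2bb.shift 2 0), rh5d72200df14134d4, (rh86aa94d7c0c1e10d.shift 1 1), (rhc23ec26ef2c84235.shift 2 2)] (by decide +kernel))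
noncomputable def rhd2518ff72c0e52e1 : CRef := CRef.mk (Pat.mk 0x1000000010000000080000000000000000000000000000000000000000 0x10000000100000001c000001fe000000fc000001ef000000280000003c0000001c00000014 9 9) 0 0 (step_sound _ 131 [(rh3e5950ccac625272.shift 2 0), (rh751f91025c6ba4fe.shift 3 4), (rhb8e5b18824fc4c63.shift 3 3), (rhbab069099745da53.shift 0 2), (rhd918c3fd221dc9f8.shift 3 3)] (by decide +kernel))
noncomputable def rhff303f5b2a058de8 : CRef := CRef.mk (Pat.mk 0x1000000010000000100000000800000000000000000000000000000000 0x28000000380000003e000000ff0000007e00000036000000380000003800000008 9 8) 0 0 (step_sound _ 132 [(rh2b6f3d735bfdbe30.shift 3 0), (rh5518da451fe03a08.shift 1 3), (rh76afb5562a81f06c.shift 0 3), (rha3351b5409dc08fd.shift 3 2)] (by decide +kernel))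
noncomputable def rh1709f68f2d81ad68 : CRef := CRef.mk (Pat.mk 0x1000000018000000080000000000000000 0x28000000fc000001fe000000ef0000007c0000007c 9 9) 0 0 (step_sound _ 35 [rh05c6e52cb1c7256a, (rh71222050f2c63a3a.shift 3 0)] (by decide +kernel))
noncomputable def rhff93fb20e5e708e0 : CRef := CRef.mk (Pat.mk 0x2000000030000000100000000000000000 0x180000001800000058000001f8000001ff000000fe0000003c00000038 9 9) 0 0 (step_sound _ 36 [(rh71222050f2c63a3a.shift 4 0), rh97848e939a7fa8db] (by decide +kernel))
noncomputable def rh5b3ac4d1047f65dd : CRef := CRef.mk (Pat.mk 0x10000000180000000800000000 0x3c0000003e000000fc0000001e0000001f00000012 9 8) 0 0 (step_sound _ 132 [rh3a22c3df8b81ab69, (rh5c5e593799055d58.shift 3 1)] (by decide +kernel))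
noncomputable def rhb282062aa449f974 : CRef := CRef.mk (Pat.mk 0x1000000018000000080000000000000000 0x80000000c0000000c0000001c0000007c0000001f0000007c0000007c 9 7) 0 0 (step_sound _ 35 [rh5ab5abd478e2ef5f, (rh71222050f2c63a3a.shift 3 0)] (by decide +kernel))
noncomputable def rh4e5e126dc1721c6a : CRef := CRef.mk (Pat.mk 0x4000000040000000400000000 0xa0000007e0000007e000000ef0000000c0000000c0000000c 9 8) 0 0 (step_sound _ 130 [(rh5abfc4c9d959be03.shift 1 0), rhc75b0732c84ff08c, (rhced6d86d2069808b.shift 2 0)] (by decide +kernel))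
noncomputable def rh395deb412d81cada : CRef := CRef.mk (Pat.mk 0x1000000010000000100000000800000000000000000000000000000000 0x280000003800000038000003ff000001fe000001f7000000780000003800000008 9 10) 0 0 (step_sound _ 132 [(rh04c04748d8e723dd.shift 3 0), (rha3351b5409dc08fd.shift 3 2), (rhc4055b4872d6fb38.shift 3 3), (rhf16b1384490fe85a.shift 3 3), (rhfa19824103984e6d.shift 0 2)] (by decide +kernel))
noncomputable def rh4ad885ad0801799d : CRef := CRef.mk (Pat.mk 0x8000000080000000c0000000000000000 0x140000007e0000007f0000000f0000003c0000001c 9 7) 0 0 (step_sound _ 35 [rh0b0198cd56a23f60, rh0d0c5fe888da5ad6, rh5ee4dc8825dcefa0] (by decide +kernel))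
noncomputable def rh76a5650c747403ba : CRef := CRef.mk (Pat.mk 0x100000001000000018000000000000000000000000 0xc0000000c000000fc000000ff000000fe000000e60000006400000060 9 8) 0 0 (step_sound _ 133 [(rh0bb882ba86b2372d.shift 1 3), (rh1aa43eac5796afc1.shift 1 1), (rh574fdbf07bdd18b9.shift 1 3), rhf3b516d50f167149] (by decide +kernel))
noncomputable def rh0a59b57e5f4c4075 : CRef := CRef.mk (Pat.mk 0x1000000018000000080000000000000000 0x1000000010000001f0000000fe000001ef0000007c00000028 9 9) 0 0 (step_sound _ 35 [(rh71222050f2c63a3a.shift 3 0), rh7d96e679f34befbe] (by decide +kernel))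
noncomputable def rhb31b24d4077d7e72 : CRef := CRef.mk (Pat.mk 0x1000000018000000080000000000000000 0x80000000c0000000c0000003c0000007c0000006f0000007c0000003c 9 7) 0 0 (step_sound _ 35 [(rh71222050f2c63a3a.shift 3 0), rhdeee2e6ce0b0e37f] (by decide +kernel))
noncomputable def rh3f0feb52aeb7a472 : CRef := CRef.mk (Pat.mk 0x8000000080000000c00000000000000000000000000000000 0x10000000180000007c0000003f0000001f0000001f0000001a0000000a 9 7) 0 0 (step_sound _ 99 [(rh2ad4304994e985b6.shift 0 2), (rh55800e0decb9c023.shift 2 0), (rh6c59ce14113da07f.shift 3 1), rh8dc22b2d43c4b91d] (by decide +kernel))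
noncomputable def rh007aa35a7d771519 : CRef := CRef.mk (Pat.mk 0x1000000010000000080000000800000000 0x200000002000000170000003f0000001f0000000c0000000800000008 9 6) 0 0 (step_sound _ 99 [(rh71222050f2c63a3a.shift 3 0), (rhc419c259d066d8e4.shift 0 1)] (by decide +kernel))
noncomputable def rh350dcf04c906c724 : CRef := CRef.mk (Pat.mk 0x1000000018000000080000000000000000 0x80000000a0000002a000000ff0000003f0000007f0000003e0000003c 9 8) 0 0 (step_sound _ 35 [rh3494f2f80e71dc79, (rh71222050f2c63a3a.shift 3 0)] (by decide +kernel))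
noncomputable def rh9b24450bbec7a9d5 : CRef := CRef.mk (Pat.mk 0x2000000030000000100000000000000000 0x180000001800000058000000f70000007e000000ff0000007c00000038 9 8) 0 0 (step_sound _ 36 [rh37dd707aa716e928, (rh71222050f2c63a3a.shift 4 0)] (by decide +kernel))
noncomputable def rh61c3190877e6c154 : CRef := CRef.mk (Pat.mk 0x1000000018000000080000000000000000 0x2000000020000000f0000003f0000007f0000000f0000000c0000000c 9 7) 0 0 (step_sound _ 35 [(rh71222050f2c63a3a.shift 3 0), rhf4c5563327d46062] (by decide +kernel))
noncomputable def rhcc506dddf8ac4957 : CRef := CRef.mk (Pat.mk 0x80000000c000000040000000000000000 0x6000000ef0000007c0000003e0000000f0000000e 9 8) 0 0 (step_sound _ 34 [rh6f73a6047ec14f23, (rh71222050f2c63a3a.shift 2 0)] (by decide +kernel))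
noncomputable def rh87038755e88b67ec : CRef := CRef.mk (Pat.mk 0x2000000030000000100000000000000000 0x1c0000001e000000fc000000ff000000fe0000006800000020 9 8) 0 0 (step_sound _ 67 [(rh0bb882ba86b2372d.shift 1 2), (rh574fdbf07bdd18b9.shift 1 2), (rh599f8b48cb135a15.shift 1 0), (rh6420f7ced926d9cb.shift 0 1)] (by decide +kernel))
noncomputable def rhca3982e579cf771d : CRef := CRef.mk (Pat.mk 0x1000000018000000080000000000000000 0xa0000000a0000002f0000007f0000001f0000003c0000001c0000001c 9 7) 0 0 (step_sound _ 35 [rh0cddef9ee1cb0510, (rh71222050f2c63a3a.shift 3 0)] (by decide +kernel))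
noncomputable def rhd572e7b26600aeef : CRef := CRef.mk (Pat.mk 0x1000000018000000080000000000000000 0x60000000f0000003f0000007f0000000f0000000c0000000c 9 7) 0 0 (step_sound _ 35 [(rh71222050f2c63a3a.shift 3 0), rhbd015a01d7723d92] (by decide +kernel))
noncomputable def rhbb2636b86eb5dad1 : CRef := CRef.mk (Pat.mk 0x10000000180000000800000000 0x1e0000003e000000ff000000fe0000000f00000006 9 8) 0 0 (step_sound _ 132 [(rh5c5e593799055d58.shift 3 1), rhc533730e36272ef6] (by decide +kernel))
noncomputable def rh753234e0e2a824dc : CRef := CRef.mk (Pat.mk 0x8000000080000000c00000000000000000000000000000000 0x160000001f0000007b0000001f0000001c0000001c0000001c00000018 9 7) 0 0 (step_sound _ 164 [(rh574fdbf07bdd18b9.shift 0 4), (rh8e9e5cc0a473d397.shift 1 1), rhf6d0dc91d9d2cd29] (by decide +kernel))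
noncomputable def rh7381489bdd509a24 : CRef := CRef.mk (Pat.mk 0x80000000800000004000000000000000000000000 0x140000001c0000001e0000001f0000007e0000001f0000000c0000000c0000000c 9 7) 0 0 (step_sound _ 99 [(rh119cfe45decc468f.shift 0 1), rh97254faed1157909, (rhfafeb437ceb8396d.shift 2 0)] (by decide +kernel))
noncomputable def rh8b797fb58e175636 : CRef := CRef.mk (Pat.mk 0xc000000060000000000000000 0x1e0000001f0000007f0000003c0000000e0000000e00000006 9 7) 0 0 (step_sound _ 100 [(rh18965a982d73c794.shift 1 2), rh329f69f0defaa58a] (by decide +kernel))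
noncomputable def rh0102db89e07e15e4 : CRef := CRef.mk (Pat.mk 0x180000000c000000000000000000000000 0xa0000000f0000001f000000ff0000007c0000001400000004 9 8) 0 0 (step_sound _ 97 [(rh53b3c253cb0c65f4.shift 0 3), rhfc46b479041ce0b6] (by decide +kernel))
noncomputable def rhb98afeef0514d234 : CRef := CRef.mk (Pat.mk 0xc000000060000000000000000 0x1e0000001f0000003f0000003c0000007e0000007700000006 9 7) 0 0 (step_sound _ 100 [(rh18965a982d73c794.shift 1 2), rhfd3b0c7acb4c3da1] (by decide +kernel))
noncomputable def rh246b282717d5be18 : CRef := CRef.mk (Pat.mk 0x3000000018000000000000000000000000 0x2c0000007e0000007f0000003f0000001e0000001f0000000e0000000c 9 7) 0 0 (step_sound _ 98 [(rh53b3c253cb0c65f4.shift 1 3), rhd5ad80df2e685219] (by decide +kernel))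
noncomputable def rhed0b2bf5e224f4dc : CRef := CRef.mk (Pat.mk 0x180000000c000000000000000000000000 0x40000001c0000003e0000006f0000007e0000007c000000160000001600000006 9 7) 0 0 (step_sound _ 133 [(rh18965a982d73c794.shift 2 3), rh24d0829e714ac454] (by decide +kernel))
noncomputable def rh51d0428d7c87547a : CRef := CRef.mk (Pat.mk 0x3000000018000000000000000000000000 0x380000003c000000fe0000003f0000007e0000005e0000001800000008 9 8) 0 0 (step_sound _ 98 [rh4b5f47663c251117, (rh53b3c253cb0c65f4.shift 1 3)] (by decide +kernel))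
noncomputable def rhdbaeaef4c0f08b25 : CRef := CRef.mk (Pat.mk 0x60000000300000000000000000 0xc0000000f0000000fe0000007f000003fc000001ec00000068 9 10) 0 0 (step_sound _ 67 [rh3a4f0393967410cd, (rh53b3c253cb0c65f4.shift 2 2)] (by decide +kernel))
noncomputable def rhad8d6d4f826ab8c6 : CRef := CRef.mk (Pat.mk 0xc000000060000000000000000 0x1e0000001f0000003f0000003c0000007e0000007700000006 9 7) 0 0 (step_sound _ 100 [(rh18965a982d73c794.shift 1 2), rh2e2429fe8d16ba5f] (by decide +kernel))
noncomputable def rh1d8d03da99376233 : CRef := CRef.mk (Pat.mk 0x3000000018000000000000000000000000 0x1c0000001c0000003e0000007e0000006f0000003c0000003c 9 7) 0 0 (step_sound _ 98 [(rh53b3c253cb0c65f4.shift 1 3), rhf23af1b0a9b7574a] (by decide +kernel))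
noncomputable def rh43fbfa4285643273 : CRef := CRef.mk (Pat.mk 0x180000000c000000000000000000000000 0x1c0000001e0000007c0000007f0000007c0000007e0000000e00000004 9 7) 0 0 (step_sound _ 133 [rh0b02c0a80e793625, (rh18965a982d73c794.shift 2 3)] (by decide +kernel))
noncomputable def rhe3f3dd1fcd3292c1 : CRef := CRef.mk (Pat.mk 0x30000000180000000000000000 0x8000000380000003800000070000000f7000000ff000000f80000007c00000028 9 8) 0 0 (step_sound _ 102 [(rh18965a982d73c794.shift 3 2), rh26d923583339e5e7] (by decide +kernel))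
noncomputable def rh4090d5ea912d9691 : CRef := CRef.mk (Pat.mk 0x180000000c00000000000000000000000000000000 0x1c0000003c0000000f0000007e0000007c0000001e0000001c0000001800000008 9 7) 0 0 (step_sound _ 165 [(rh18965a982d73c794.shift 2 4), rh60a7f8654fd0a2d1] (by decide +kernel))
noncomputable def rhc05a499e415d1fb8 : CRef := CRef.mk (Pat.mk 0xc00000006000000000000000000000000 0xe0000000e0000003f0000003f00000006000000070000000700000003 9 6) 0 0 (step_sound _ 132 [(rh18965a982d73c794.shift 1 3), rhe4b89c7af62676ee] (by decide +kernel))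
noncomputable def rhf2e84005dfb227c2 : CRef := CRef.mk (Pat.mk 0x180000000c000000000000000000000000 0x1c0000001e0000007f0000001f0000001c0000001c0000001c00000010 9 7) 0 0 (step_sound _ 163 [(rh7833a938b615a64d.shift 1 2), (rhbb339bb7e4e96b38.shift 2 2), rhc3f10d7e4070e48a] (by decide +kernel))
noncomputable def rh93f87d1c75c22427 : CRef := CRef.mk (Pat.mk 0x40000000300000000000000000 0xe0000000e00000007f000000fe000001ff00000060 9 9) 0 0 (step_sound _ 67 [(rh5e601430b8bc2e39.shift 0 1), (rh85dc669d43c2a37b.shift 0 1), (rha2e182fd6274be10.shift 0 1), (rhb61ade19d028b468.shift 0 1), (rhdf2c28ef9950eae2.shift 2 0)] (by decide +kernel))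
noncomputable def rhf30336a899358e32 : CRef := CRef.mk (Pat.mk 0x180000000c00000000000000000000000000000000 0x100000001c0000001c0000000e0000001f0000001e0000000f0000007c000000180000001800000010 9 7) 0 0 (step_sound _ 129 [(rh53b3c253cb0c65f4.shift 0 4), rhdfce143c063d3ea7] (by decide +kernel))
noncomputable def rha4d1945e3f6a7147 : CRef := CRef.mk (Pat.mk 0xc00000006000000000000000000000000 0x6000000060000000f0000003f0000003e0000003e0000001c00000018 9 6) 0 0 (step_sound _ 132 [(rh18965a982d73c794.shift 1 3), rh7f2fdf70e71acd18] (by decide +kernel))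
noncomputable def rh2ff52c009bdbcd1e : CRef := CRef.mk (Pat.mk 0xc000000060000000000000000 0x1e0000001f0000007f0000003c0000000e0000000e0000000c 9 7) 0 0 (step_sound _ 100 [(rh18965a982d73c794.shift 1 2), rh691da253a7402ec8] (by decide +kernel))
noncomputable def rh367498c60419c878 : CRef := CRef.mk (Pat.mk 0x180000000c0000000000000000000000000000000000000000 0x1c0000001c0000001f0000001f0000001f0000001f0000001c000000180000001c0000000c00000004 9 5) 0 0 (step_sound _ 161 [(rh53b3c253cb0c65f4.shift 0 5), rhaf79d87c23aa0075] (by decide +kernel))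
noncomputable def rhc3845019cc79d747 : CRef := CRef.mk (Pat.mk 0x180000000c000000000000000000000000 0x200000016000000370000001f000000ff0000007f0000007a00000018 9 8) 0 0 (step_sound _ 97 [(rh53b3c253cb0c65f4.shift 0 3), rhd883b4eff9a749a9] (by decide +kernel))
noncomputable def rh6dadaa7f36b4718e : CRef := CRef.mk (Pat.mk 0xc00000006000000000000000000000000 0x80000001a0000003b0000003f0000003e0000000f0000000c00000004 9 6) 0 0 (step_sound _ 132 [(rh18965a982d73c794.shift 1 3), rhb4dc6d1f7f8dd9cb] (by decide +kernel))
noncomputable def rh9f7ab0e599791379 : CRef := CRef.mk (Pat.mk 0xc00000006000000000000000000000000 0x1c0000001e0000007f0000003c0000007e0000007c0000001c00000008 9 7) 0 0 (step_sound _ 132 [(rh18965a982d73c794.shift 1 3), rhbf11ad7c05f2a9d4] (by decide +kernel))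
noncomputable def rh05ce325d0f0ece12 : CRef := CRef.mk (Pat.mk 0x180000000c0000000000000000 0x300000003c0000003c0000001f000000ff0000007b0000001a 9 8) 0 0 (step_sound _ 65 [(rh53b3c253cb0c65f4.shift 0 2), rha53b4479dfe206a7] (by decide +kernel))
noncomputable def rh347848bad4539a32 : CRef := CRef.mk (Pat.mk 0xc000000060000000000000000 0x40000001e0000001f0000003f0000003c0000007e0000007700000004 9 7) 0 0 (step_sound _ 100 [(rh18965a982d73c794.shift 1 2), rh6508e2c70977cc70] (by decide +kernel))
noncomputable def rhb444b67150782f56 : CRef := CRef.mk (Pat.mk 0x180000000c0000000000000000 0x80000001c0000001f0000003f0000001f0000003f0000002f0000000a 9 6) 0 0 (step_sound _ 65 [(rh53b3c253cb0c65f4.shift 0 2), rhc346ca966a41ac3e] (by decide +kernel))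
noncomputable def rh16fc77129fed232e : CRef := CRef.mk (Pat.mk 0xc000000060000000000000000 0xe0000000f0000003f0000003f000000060000000600000004 9 6) 0 0 (step_sound _ 100 [(rh18965a982d73c794.shift 1 2), rhfa22f9d37c8a6d56] (by decide +kernel))
noncomputable def rhac11169acaa710d5 : CRef := CRef.mk (Pat.mk 0x180000000c000000000000000000000000 0x120000001e0000003e0000000f0000001e0000000f0000007e0000001800000010 9 7) 0 0 (step_sound _ 97 [rh0ceedd01d6066974, (rh53b3c253cb0c65f4.shift 0 3)] (by decide +kernel))
noncomputable def rh26a5c0cef042a585 : CRef := CRef.mk (Pat.mk 0x180000000c000000000000000000000000 0x1c0000003c0000000f0000007f0000007c0000007c0000003800000030 9 7) 0 0 (step_sound _ 133 [(rh18965a982d73c794.shift 2 3), rh196091e548e840f2] (by decide +kernel))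
noncomputable def rh2d3de79f4cfa2120 : CRef := CRef.mk (Pat.mk 0x6000000030000000000000000000000000000000000000000 0x700000007000000070000001e0000000f0000001f0000000e000000070000000300000001 9 5) 0 0 (step_sound _ 195 [(rh18965a982d73c794.shift 0 5), rh30dd8fbcef1f7c4c] (by decide +kernel))
noncomputable def rhcf847675bd7f1152 : CRef := CRef.mk (Pat.mk 0x180000000c000000000000000000000000 0x40000001c0000001e0000001e0000007f0000007f0000007c000000740000003000000030 9 7) 0 0 (step_sound _ 133 [rh171527978d830a20, (rh18965a982d73c794.shift 2 3)] (by decide +kernel))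
noncomputable def rh7b6a934b198df3c4 : CRef := CRef.mk (Pat.mk 0xc00000006000000000000000000000000 0xa0000000e0000001e0000003e0000003f0000003e0000003f0000001c00000004 9 6) 0 0 (step_sound _ 132 [(rh18965a982d73c794.shift 1 3), rh6418ff69e128d49f] (by decide +kernel))
noncomputable def rh464925b3a0fca3f6 : CRef := CRef.mk (Pat.mk 0x30000000180000000000000000000000000000000000000000 0x8000000380000003800000030000000ff000000ff00000078000000f800000070000000380000001800000008 9 8) 0 0 (step_sound _ 198 [(rh18965a982d73c794.shift 3 5), rh9ae7ce441a383001] (by decide +kernel))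
noncomputable def rh9b969a084434c70e : CRef := CRef.mk (Pat.mk 0x30000000180000000000000000000000000000000000000000 0x20000000380000003c000000f7000000ff00000078000000f800000070000000380000001800000008 9 8) 0 0 (step_sound _ 198 [(rh18965a982d73c794.shift 3 5), rh5acd827c14c9e224] (by decide +kernel))
noncomputable def rh6a2029e4052ddd21 : CRef := CRef.mk (Pat.mk 0xc00000006000000000000000000000000 0x1e0000001f0000003f0000003c0000007e0000007f0000001c00000008 9 7) 0 0 (step_sound _ 132 [(rh18965a982d73c794.shift 1 3), rh7998faab90295511] (by decide +kernel))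
noncomputable def rh361fe5238a16a888 : CRef := CRef.mk (Pat.mk 0x180000000c0000000000000000000000000000000000000000 0x140000001e0000001f0000003f0000001f0000001c0000001c000000180000001c0000000c00000004 9 6) 0 0 (step_sound _ 131 [(rh000637b5a81e86aa.shift 2 2), (rh3361bc9a2eace581.shift 0 3), (rh4aaccfe0bab503cb.shift 2 0)] (by decide +kernel))
noncomputable def rhb15009b282d9d1d0 : CRef := CRef.mk (Pat.mk 0x100000000c000000000000000000000000 0x28000000380000003c0000003c00000077000000ff000000ff0000002a00000008 9 8) 0 0 (step_sound _ 100 [(rh3f396fc471e867d8.shift 0 1), (rh9afc378c5309a9ff.shift 0 1), (rhb0da38cac4fca944.shift 1 0), rhfefd7be2d273f2ab] (by decide +kernel))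
noncomputable def rhfb220c9d8ea7f726 : CRef := CRef.mk (Pat.mk 0x180000000c0000000000000000000000000000000000000000 0x10000000140000001e000000780000000f0000007c000000180000001c0000001c00000004 9 7) 0 0 (step_sound _ 197 [(rh18965a982d73c794.shift 2 5), rh7867e231ab392173] (by decide +kernel))
noncomputable def rh0195977cb394eae6 : CRef := CRef.mk (Pat.mk 0x30000000180000000000000000 0x380000003c000000fe000000ff000000d8000000f000000070 9 8) 0 0 (step_sound _ 102 [rh054ed873e1c3db8f, (rh18965a982d73c794.shift 3 2)] (by decide +kernel))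
noncomputable def rh495098a614986834 : CRef := CRef.mk (Pat.mk 0x180000000c00000000000000000000000000000000 0x80000000c0000001f0000001f0000001f0000000f0000007c000000180000001800000010 9 7) 0 0 (step_sound _ 129 [rh4f1684d9e3dbee38, (rh53b3c253cb0c65f4.shift 0 4)] (by decide +kernel))
noncomputable def rh847375d9fa4563ba : CRef := CRef.mk (Pat.mk 0x2000000030000000100000000000000000 0x8000000080000076f000003fe000001ff0000001000000010 9 11) 0 0 (step_sound _ 36 [(rh181f6fea8d0159b4.shift 0 1), (rh71222050f2c63a3a.shift 4 0)] (by decide +kernel))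
noncomputable def rh3f1961d8964fc53e : CRef := CRef.mk (Pat.mk 0x80000000c0000000400000000 0x1c0000001c0000001c0000007e0000007f0000003a 9 7) 0 0 (step_sound _ 131 [(rh5c5e593799055d58.shift 2 1), rhccca5c35f148c981] (by decide +kernel))
noncomputable def rhc352a10b54abfbe1 : CRef := CRef.mk (Pat.mk 0x100000001800000008000000000000000000000000 0x700000007e000000ff0000007f0000003800000030 9 8) 0 0 (step_sound _ 67 [(rh71222050f2c63a3a.shift 3 1), rh9f84a80646631bd0] (by decide +kernel))
noncomputable def rh863dbba31c1d2edf : CRef := CRef.mk (Pat.mk 0x1000000018000000080000000000000000 0xec000000ff0000007f0000000f0000000c0000000c 9 8) 0 0 (step_sound _ 35 [(rh71222050f2c63a3a.shift 3 0), rhdef1d6e3b57748d2] (by decide +kernel))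
noncomputable def rhc967d10a54c3a09d : CRef := CRef.mk (Pat.mk 0x80000000c0000000400000000 0x60000001e0000007e0000007c0000007f0000007700000032 9 7) 0 0 (step_sound _ 131 [rh427ab52cc3fa83e6, (rh5c5e593799055d58.shift 2 1)] (by decide +kernel))
noncomputable def rh01cf6295e0c64e9c : CRef := CRef.mk (Pat.mk 0x2000000030000000100000000000000000 0x40000000c0000001f7000001fe000003fe000000f800000070 9 10) 0 0 (step_sound _ 36 [rh5b6bc401ba7a5d61, (rh71222050f2c63a3a.shift 4 0)] (by decide +kernel))
noncomputable def rh455a65f0e5271e54 : CRef := CRef.mk (Pat.mk 0x30000000100000001000000000 0x38000000ff000000ff000000fe000000f600000064 9 8) 0 0 (step_sound _ 67 [(rh69012675dfdb1a5b.shift 1 2), (rh7eec423674b95298.shift 1 0), rhb9fb3b586288ba32, (rhd69c262cd33b94b3.shift 1 2)] (by decide +kernel))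
noncomputable def rh2d3003a2ab10eb31 : CRef := CRef.mk (Pat.mk 0x18000000080000000800000000 0xc0000001e0000001f0000007f0000001f0000000c00000004 9 7) 0 0 (step_sound _ 66 [(rh69012675dfdb1a5b.shift 0 2), rh8b65982d411924df, rh8bfc49d28ab751de] (by decide +kernel))
noncomputable def rhe50aea03bcc52ce7 : CRef := CRef.mk (Pat.mk 0x600000002000000020000000000000000000000000 0x39e000001fe000003bf00000030000000700000007000000050 9 10) 0 0 (step_sound _ 69 [(rh17a501b38e7ecd48.shift 0 1), (rh8cdd36b03d57a2f6.shift 4 0), (rh8ff3dde5b1c639e0.shift 4 0)] (by decide +kernel))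
noncomputable def rh1937038f2421d529 : CRef := CRef.mk (Pat.mk 0x180000000800000008000000000000000000000000 0x40000001e00000078000000ff0000007e000000fc00000010 9 8) 0 0 (step_sound _ 67 [(rh099a4ec72b73d1a6.shift 1 1), (rh8c3839f9b9075f23.shift 3 0), (rhff71abaeb6008588.shift 0 1)] (by decide +kernel))
noncomputable def rh3d13bfb232eb31bc : CRef := CRef.mk (Pat.mk 0x3000000010000000100000000000000000 0x48000000cf000000ff000000fe000000fe0000006000000060 9 8) 0 0 (step_sound _ 99 [(rh0e2c86270dc05f81.shift 0 1), (rh69012675dfdb1a5b.shift 1 3), (rhb5df26e0716d136a.shift 1 0), (rhd69c262cd33b94b3.shift 1 3)] (by decide +kernel))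
noncomputable def rh8ab6185781c92367 : CRef := CRef.mk (Pat.mk 0x600000002000000020000000000000000000000000 0x39e000001fe000003ff00000030000000700000007000000040 9 10) 0 0 (step_sound _ 69 [(rh17a501b38e7ecd48.shift 0 1), (rh8c3839f9b9075f23.shift 5 0), (rhffd0ff6f60fa3c9a.shift 4 1)] (by decide +kernel))
noncomputable def rh44ff7a36cdb75c47 : CRef := CRef.mk (Pat.mk 0x10000000180000000800000000 0x1e0000001e000001ff000001fe0000039f00000010 9 10) 0 0 (step_sound _ 132 [rh13c42ac8afd1152a, (rh5c5e593799055d58.shift 3 1)] (by decide +kernel))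
end Crest.Agent.S0047.Helper85.Cert
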