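import Crest.Agent.Lib.S0047.Helper85CertPL8F0
import Crest.Agent.Lib.S0047.Helper85CertPL8F1
import Crest.Agent.Lib.S0047.Helper85CertPL8F2
import Crest.Agent.Lib.S0047.Helper85CertPL8F3
import Crest.Agent.Lib.S0047.Helper85CertPL8F4
import Crest.Agent.Lib.S0047.Helper85CertPL8F5
import Crest.Agent.Lib.S0047.Helper85CertPL8F6
import Crest.Agent.Lib.S0047.Helper85CertPL8F7
import Crest.Agent.Lib.S0047.Helper85CertPL8F8
set_option autoImplicit false
set_option linter.all false
set_option Elab.async false
namespace Crest.Agent.S0047.Helper85.Cert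
open Crest.Agent.S0047.Helper85

noncomputable def rh0a2ed8ce429d4a47 : CRef := CRef.mk (Pat.mk 0x200000003000000010 0x2c0000002c000003fe000003fe000007df 9 11) 0 0 (step_sound _ 101 [(rh5c5e593799055d58.shift 4 0), rh954ac968ba18bb32] (by decide +kernel))
noncomputable def rh1a1fd027c66ae89c : CRef := CRef.mk (Pat.mk 0x80000000c00000004000000000000000000000000 0xe0000002f0000007e0000007c0000007e000000780000007000000040 9 7) 0 0 (step_sound _ 195 [(rh5c5e593799055d58.shift 2 3), rh6f575a625d968147] (by decide +kernel))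
noncomputable def rh703bedfd46a671fb : CRef := CRef.mk (Pat.mk 0x1000000018000000080000000000000000 0x1000000012000000330000007f0000007f0000003400000024 9 7) 0 0 (step_sound _ 164 [(rh5c5e593799055d58.shift 3 2), rhce07391567fe63c7] (by decide +kernel))
noncomputable def rh1601cffb1703b0e0 : CRef := CRef.mk (Pat.mk 0x1000000018000000080000000000000000 0xe0000000f000003fe000001ff000001fe0000006400000060 9 10) 0 0 (step_sound _ 98 [(rh5dec5e73a267a1c4.shift 0 2), (rh7b3580b00ac1d9f0.shift 0 1), (rhc96e7fc75dcd696b.shift 1 0)] (by decide +kernel))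
noncomputable def rh7c2aab4360fe7eac : CRef := CRef.mk (Pat.mk 0x2000000030000000100000000000000000 0x7c0000007c000001ee000000ff0000007e0000002800000008 9 9) 0 0 (step_sound _ 165 [rh3b8da963ac0af599, (rh5c5e593799055d58.shift 4 2)] (by decide +kernel))
noncomputable def rh458dc08e5ff4aadc : CRef := CRef.mk (Pat.mk 0x100000000800000008000000000000000000000000 0x1c0000001e0000007c0000000f0000007c0000001e0000001c00000004 9 7) 0 0 (step_sound _ 163 [(rh6bc015b9268c8423.shift 0 1), rh7d88c99c88a13827, (rha7054fc384045257.shift 1 1), (rhc9cb3625ca5f3820.shift 0 2)] (by decide +kernel))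
noncomputable def rhfbf147c3ee837a49 : CRef := CRef.mk (Pat.mk 0x1800000008000000080000000000000000 0x40000000c0000000f0000007c0000007f0000007e0000007400000020 9 7) 0 0 (step_sound _ 98 [(rh6065c35a6452348e.shift 1 0), (rh69012675dfdb1a5b.shift 0 3), (rh8bfc49d28ab751de.shift 0 1)] (by decide +kernel))
noncomputable def rhf94c1ed35341d1e9 : CRef := CRef.mk (Pat.mk 0x10000000080000000800000000000000000000000000000000 0x10000000100000001c000001fe000000fc000001ef000000280000003c0000001c00000014 9 9) 0 0 (step_sound _ 228 [(rh3e5950ccac625272.shift 2 0), (rh751f91025c6ba4fe.shift 3 4), (rhb8e5b18824fc4c63.shift 3 3), (rhbab069099745da53.shift 0 2), (rhd918c3fd221dc9f8.shift 3 3)] (by decide +kernel))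
noncomputable def rh652a2b6e0e2d871b : CRef := CRef.mk (Pat.mk 0x2000000030000000100000000000000000 0x3c0000003c000000ee000000ff0000007e0000006800000008 9 8) 0 0 (step_sound _ 165 [(rh5c5e593799055d58.shift 4 2), rhf81e65e237512ed1] (by decide +kernel))
noncomputable def rh270dc5f9c9cad98c : CRef := CRef.mk (Pat.mk 0x100000000800000008000000000000000000000000 0x140000001c0000001c0000001e0000007c0000000f0000007c0000001e0000001c00000014 9 7) 0 0 (step_sound _ 163 [(rh19e48db1e9b4e625.shift 2 0), (rh6095e21d089c04b5.shift 1 0), (rha55207fd19a4eef9.shift 1 1), (rhc9cb3625ca5f3820.shift 0 2), (rhe223b9f3838155d3.shift 1 1)] (by decide +kernel))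
noncomputable def rhb248c13c8576a224 : CRef := CRef.mk (Pat.mk 0x4000000060000000200000000000000000 0x1000000010000007df000003fe000003fe0000002000000020 9 11) 0 0 (step_sound _ 37 [(rh0ca1d162cd72d7cf.shift 0 1), (rh71222050f2c63a3a.shift 5 0)] (by decide +kernel))
noncomputable def rh6e283bb7e2b432e4 : CRef := CRef.mk (Pat.mk 0x300000000c00000000000000000000000000000000 0x100000001800000038000000780000002f0000007c0000003c0000001c00000014 9 7) 0 0 (step_sound _ 163 [(rh18965a982d73c794.shift 2 4), rh19170502cc6f28cc] (by decide +kernel))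
noncomputable def rh5927b56d5483fc75 : CRef := CRef.mk (Pat.mk 0x180000000c00000000000000000000000000000000 0x40000001c0000003c000000380000001f0000003f000000780000001e0000001c00000014 9 7) 0 0 (step_sound _ 129 [rh388d734518c19634, (rh53b3c253cb0c65f4.shift 0 4)] (by decide +kernel))
noncomputable def rh574adb8090a15211 : CRef := CRef.mk (Pat.mk 0xc000000060000000000000000 0x8000000080000003c0000003f0000003e0000003c0000001c 9 6) 0 0 (step_sound _ 100 [(rh18965a982d73c794.shift 1 2), rhd4596f8d9455d517] (by decide +kernel))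
noncomputable def rh9b0464c3ef3b7fe1 : CRef := CRef.mk (Pat.mk 0x80000000e000000000000000000000000 0x1400000034000000ff000000fe000000ef0000000a00000008 9 8) 0 0 (step_sound _ 100 [(rh2ef78639b50b20cd.shift 0 2), (rh394e80a462af5b2f.shift 0 2), (rh86fee9423a6b38ba.shift 0 1), rha261e1caf97d5545, (rhab811305cf6ba46a.shift 0 2)] (by decide +kernel))
noncomputable def rha04aef939eeceb49 : CRef := CRef.mk (Pat.mk 0x80000000e000000000000000000000000 0x100000007f0000003e0000007f000000f800000038 9 8) 0 0 (step_sound _ 132 [rh4c127e35b486fd1b, (rh572132728df34c43.shift 1 3), (rh80f90a60d87caa0d.shift 1 3)] (by decide +kernel))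
noncomputable def rh3315ac1b68d994fe : CRef := CRef.mk (Pat.mk 0x80000000e000000000000000000000000 0x800000008000000780000003e0000007f0000003c0000001c 9 7) 0 0 (step_sound _ 66 [rh1aa4b2cdb404bb38, (rhcf80391c5046a495.shift 2 0), rhd20e06adf8e772b6] (by decide +kernel))
noncomputable def rh7a22a623eafb3ee7 : CRef := CRef.mk (Pat.mk 0x100000001c00000000000000000000000000000000 0x800000038000000780000007e0000001c0000007f0000003e0000003c00000030 9 7) 0 0 (step_sound _ 99 [(rh0c0a1ad3811273e5.shift 0 1), (rh974f3066342929f1.shift 1 0), (rhcf80391c5046a495.shift 3 1), (rhf9366b6a121593ef.shift 3 1)] (by decide +kernel))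
noncomputable def rh053b4129e818ede5 : CRef := CRef.mk (Pat.mk 0x100000000c000000000000000000000000 0x2800000038000000380000003a00000077000000ff000000ff0000002c0000000c 9 8) 0 0 (step_sound _ 100 [(rh9afc378c5309a9ff.shift 0 1), (rhb0da38cac4fca944.shift 1 0), rhb8253cd45d3e1e3b, rhe3afa6c0f229bb1f, rhfefd7be2d273f2ab] (by decide +kernel))
noncomputable def rhf34d171be2990deb : CRef := CRef.mk (Pat.mk 0x180000000c00000000000000000000000000000000 0x100000001800000038000000780000002f0000007c0000003c0000001c00000014 9 7) 0 0 (step_sound _ 129 [(rh53b3c253cb0c65f4.shift 0 4), (rh5f134c713dffeee4.shift 1 0)] (by decide +kernel))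
noncomputable def rhb073ba3846ab1aa6 : CRef := CRef.mk (Pat.mk 0x180000000c0000000000000000000000000000000000000000 0x180000007a0000007e0000006c0000007f0000007c0000001c0000000800000008 9 7) 0 0 (step_sound _ 197 [(rh18965a982d73c794.shift 2 5), rhbb2e8b0bdfb67dd8] (by decide +kernel))
noncomputable def rh7d9e99733c09ecd8 : CRef := CRef.mk (Pat.mk 0x180000000c0000000000000000 0x360000003e0000003f0000001f0000003f0000003800000018 9 6) 0 0 (step_sound _ 65 [(rh53b3c253cb0c65f4.shift 0 2), rh89722f58351336fd] (by decide +kernel))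
noncomputable def rh8ae039643f5cdd2c : CRef := CRef.mk (Pat.mk 0x30000000180000000000000000 0x380000003c000000fe000000ff000000f8000000f000000070 9 8) 0 0 (step_sound _ 102 [(rh18965a982d73c794.shift 3 2), rhce12a4051b579d17] (by decide +kernel))
noncomputable def rh8909603304e06231 : CRef := CRef.mk (Pat.mk 0xc000000060000000000000000 0x1e0000001f0000003c0000003c0000007e0000007f0000001e 9 7) 0 0 (step_sound _ 100 [(rh18965a982d73c794.shift 1 2), rhb09a3b4fcb0966a3] (by decide +kernel))
noncomputable def rh8b1e4cff90cee31c : CRef := CRef.mk (Pat.mk 0xc00000006000000000000000000000000 0x1c0000001c0000003c0000003f0000001e0000003f0000001e00000008 9 6) 0 0 (step_sound _ 132 [(rh18965a982d73c794.shift 1 3), rhea40b4e5600e53d2] (by decide +kernel))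
noncomputable def rha6dc463e05a72db6 : CRef := CRef.mk (Pat.mk 0x180000000c00000000000000000000000000000000 0xc0000000f0000007f0000003c0000001f0000003c0000001c00000008 9 7) 0 0 (step_sound _ 165 [(rh18965a982d73c794.shift 2 4), rhb63a6b0243d25530] (by decide +kernel))
noncomputable def rhe87fbb755ed1e0f4 : CRef := CRef.mk (Pat.mk 0xc00000006000000000000000000000000 0xe0000000f0000003f0000003c0000001e0000001e0000001e00000008 9 6) 0 0 (step_sound _ 132 [(rh18965a982d73c794.shift 1 3), rh35696d9bd123c3f2] (by decide +kernel))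
noncomputable def rh4257b45281b32ffb : CRef := CRef.mk (Pat.mk 0xc00000006000000000000000000000000 0x40000001e0000001f0000007c0000000e0000001e0000003e0000003f00000002 9 7) 0 0 (step_sound _ 163 [(rh7f49d6790189f123.shift 0 2), rhc53496f4fc223c8f, (rhcf80391c5046a495.shift 2 1), (rhf9366b6a121593ef.shift 2 1)] (by decide +kernel))
noncomputable def rh16364df4d9d2489c : CRef := CRef.mk (Pat.mk 0xe0000000000000000000000000 0x20000000200000007f000003fe000003ee0000004000000040 9 10) 0 0 (step_sound _ 72 [(rh6e2398998373ca95.shift 4 0), (rh782848cf5e4b1e5e.shift 4 2), (rh891286f34da8a6a8.shift 0 2)] (by decide +kernel))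
noncomputable def rh1dc348dad9187f7e : CRef := CRef.mk (Pat.mk 0x100000000e0000000000000000000000000000000000000000 0x280000003c0000003c000000170000003e0000007b0000003a000000380000003800000008 9 7) 0 0 (step_sound _ 164 [(rh3947d1dfff0afc6c.shift 0 4), (rh3cc3e986d9471888.shift 0 3), (rh3e87be60d35c7c8d.shift 1 0)] (by decide +kernel))
noncomputable def rhf1331084002bad05 : CRef := CRef.mk (Pat.mk 0x80000000c000000040000000000000000 0x400000016000000160000007e000001ff0000007e0000002f0000000e 9 9) 0 0 (step_sound _ 34 [(rh71222050f2c63a3a.shift 2 0), rhc682de5e498163aa] (by decide +kernel))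
noncomputable def rhef92cb2729a317b5 : CRef := CRef.mk (Pat.mk 0xc0000000600000000000000000000000000000000 0xc0000000c0000001c0000003c0000007e0000003f0000003f0000002a00000020 9 7) 0 0 (step_sound _ 164 [(rh18965a982d73c794.shift 1 4), rh2a9c2a28b91f50c4] (by decide +kernel))
noncomputable def rha43a2bc2387711ff : CRef := CRef.mk (Pat.mk 0x180000000c000000000000000000000000 0x18000000180000001c000000ff0000007f0000003c0000001c 9 8) 0 0 (step_sound _ 97 [(rh53b3c253cb0c65f4.shift 0 3), rh597a8a84a7c2ef09] (by decide +kernel))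
noncomputable def rh28801e1335bc91f6 : CRef := CRef.mk (Pat.mk 0xc0000000600000000000000000000000000000000 0x60000000e0000000e0000001c0000003c0000001e0000003e0000001f0000000e0000000a 9 6) 0 0 (step_sound _ 164 [(rh18965a982d73c794.shift 1 4), rh7a759994e5b2a1bb] (by decide +kernel))
noncomputable def rhac16125c510d3b5b : CRef := CRef.mk (Pat.mk 0x1000000018000000080000000000000000 0x1c0000001c000000780000000f0000003c0000001c 9 7) 0 0 (step_sound _ 35 [(rh71222050f2c63a3a.shift 3 0), rhb6a65c69339e2129] (by decide +kernel))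
noncomputable def rhb55edd686896bca6 : CRef := CRef.mk (Pat.mk 0x1000000018000000080000000000000000 0x8000000180000007c0000001f0000007c0000007c 9 7) 0 0 (step_sound _ 35 [(rh71222050f2c63a3a.shift 3 0), rhd791e450b44aefcc] (by decide +kernel))
noncomputable def rh203aba67e8d85931 : CRef := CRef.mk (Pat.mk 0x1000000018000000000000000000000000 0xc0000003c000000fe0000007c0000001e0000007f0000007e0000003c 9 8) 0 0 (step_sound _ 67 [(rh431e4f25aceb5b10.shift 1 1), rh5edab1448eea12fe, (rhcf80391c5046a495.shift 3 0), (rhf9366b6a121593ef.shift 3 0)] (by decide +kernel))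
noncomputable def rh5f42ff55f8509a69 : CRef := CRef.mk (Pat.mk 0x100000001000000018000000000000000000000000 0x280000003c000000f8000000f8000000ff0000003f00000008 9 8) 0 0 (step_sound _ 67 [(rh42548283029e2a39.shift 3 0), (rh87e28a740a85bf4d.shift 0 1), (rhf9af042da61fc652.shift 3 0)] (by decide +kernel))
noncomputable def rhea145a7a230a3567 : CRef := CRef.mk (Pat.mk 0x80000000c000000000000000000000000 0x140000001c0000001c0000007e0000007e000000ff000000f70000003000000020 9 8) 0 0 (step_sound _ 132 [(rh0bb882ba86b2372d.shift 0 3), (rh0befce310decf0a3.shift 1 0), (rh574fdbf07bdd18b9.shift 0 3), (rhf64cbaed4c8b2f80.shift 0 1)] (by decide +kernel))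
noncomputable def rh6e1b0c0e4844b1d1 : CRef := CRef.mk (Pat.mk 0x80000000c000000000000000000000000 0x140000001c0000001e0000007f00000078000000ff000000ff0000001c00000014 9 8) 0 0 (step_sound _ 132 [(rh69012675dfdb1a5b.shift 0 3), rhdaccbfc681c8d3c3, (rhfc75c7da523b0322.shift 0 1)] (by decide +kernel))
noncomputable def rh01ac25f99a074690 : CRef := CRef.mk (Pat.mk 0x180000000c00000000000000000000000000000000 0x10000000100000001c000000ff000000ff000000fc0000003c00000014 9 8) 0 0 (step_sound _ 129 [(rh53b3c253cb0c65f4.shift 0 4), rh68978c7fdec04a0f] (by decide +kernel))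
noncomputable def rh90e079309266c6d7 : CRef := CRef.mk (Pat.mk 0x100000001800000008000000000000000000000000 0x4000000140000007f000000ff0000007f0000003a00000030 9 8) 0 0 (step_sound _ 67 [rh36ad411377c93d7e, (rh71222050f2c63a3a.shift 3 1)] (by decide +kernel))
noncomputable def rhe79d1302b348e564 : CRef := CRef.mk (Pat.mk 0x80000000c000000000000000000000000 0x100000001c0000001c0000007e0000007e0000007f000000780000005800000018 9 7) 0 0 (step_sound _ 132 [(rh2da5358739ca2cfd.shift 1 2), (rh76d50900e97466be.shift 1 1), rhdbe81ec60db065ce, rhf4eb9795ea80005a] (by decide +kernel))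
noncomputable def rhc354542228ab225f : CRef := CRef.mk (Pat.mk 0x400000003000000000000000000000000000000000 0x400000007000000078000003e7000000fe000001f7000000700000007000000050 9 10) 0 0 (step_sound _ 167 [(rh7c2b97e7a52f6c07.shift 2 0), (rha61ca71592d97c28.shift 0 3), (rhaff4d66ab2235e4f.shift 4 4), (rhfe7c844806756e31.shift 3 4)] (by decide +kernel))
noncomputable def rh04eda49f3cb0b040 : CRef := CRef.mk (Pat.mk 0x3000000018000000000000000000000000 0x1800000018000000ff000000ff000000380000000c0000000c0000000c 9 8) 0 0 (step_sound _ 134 [(rh18965a982d73c794.shift 3 3), rh63b9151adf14829e] (by decide +kernel))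
noncomputable def rh8afa27c0ad27d325 : CRef := CRef.mk (Pat.mk 0x30000000180000000000000000 0x380000003c000000fe000000ff000000180000001000000010 9 8) 0 0 (step_sound _ 102 [(rh18965a982d73c794.shift 3 2), rh252d2fdb00cd1157] (by decide +kernel))
noncomputable def rheb4edfd4bd468719 : CRef := CRef.mk (Pat.mk 0x100000001800000008000000000000000000000000 0x700000007e000000ff0000007f0000003800000030 9 8) 0 0 (step_sound _ 67 [rh59c89379a4ba6f3b, (rh71222050f2c63a3a.shift 3 1)] (by decide +kernel))
noncomputable def rh401ae5aae035d678 : CRef := CRef.mk (Pat.mk 0x30000000180000000000000000 0x2000000030000000fe000000ff000000d8000000f800000078 9 8) 0 0 (step_sound _ 102 [(rh18965a982d73c794.shift 3 2), rh93664c30083105a4] (by decide +kernel))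
noncomputable def rh3f0ce58e7d17243a : CRef := CRef.mk (Pat.mk 0x80000000c000000000000000000000000 0x100000001c0000001c0000001e0000007f0000007c0000001f0000007c0000001c0000001c 9 7) 0 0 (step_sound _ 132 [(rh574fdbf07bdd18b9.shift 0 3), rhda548ebf8fb911b0, rhf4eb9795ea80005a] (by decide +kernel))
noncomputable def rh65c32e5bd78e1e1a : CRef := CRef.mk (Pat.mk 0x30000000180000000000000000 0x2000000038000000fe000000ff000000d80000005800000058 9 8) 0 0 (step_sound _ 102 [(rh18965a982d73c794.shift 3 2), rh7cb426032a0108f3] (by decide +kernel))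
noncomputable def rhc97a13106628f0ea : CRef := CRef.mk (Pat.mk 0x180000000c0000000000000000 0x8000000080000001c0000001f0000003f0000001b0000003f0000002f0000000c 9 6) 0 0 (step_sound _ 65 [rh0727d404dbeabd83, (rh53b3c253cb0c65f4.shift 0 2)] (by decide +kernel))
noncomputable def rh160034fec264ff65 : CRef := CRef.mk (Pat.mk 0x100000001000000018000000000000000000000000 0x280000003c000000f8000000f8000000ff0000007f00000008 9 8) 0 0 (step_sound _ 67 [(rh0f7b9fa100880a95.shift 0 1), (rh42548283029e2a39.shift 3 0), (rhf9af042da61fc652.shift 3 0)] (by decide +kernel))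
noncomputable def rh957d5f16a7e05ed0 : CRef := CRef.mk (Pat.mk 0x30000000180000000000000000 0x1800000038000000ff000000ff000000f8000000cc00000044 9 8) 0 0 (step_sound _ 102 [(rh18965a982d73c794.shift 3 2), rhc764ce90d92a24b6] (by decide +kernel))
noncomputable def rh0a834091b901c935 : CRef := CRef.mk (Pat.mk 0x8000000080000000c000000000000000000000000 0x100000001c0000001c0000000c0000001f0000007c0000000f000000180000001800000010 9 7) 0 0 (step_sound _ 132 [(rh6877aa1b25d6856a.shift 1 2), rh6912df321cd2b57a, (rh72f97b660f3d13c7.shift 1 2), (rhbfd74c5a00f25343.shift 0 2), (rhd69c262cd33b94b3.shift 0 3)] (by decide +kernel))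
noncomputable def rh38bc65d567a835ba : CRef := CRef.mk (Pat.mk 0x8000000080000000c00000000000000000000000000000000 0x140000007e0000007f0000000f000000180000001c0000001c00000014 9 7) 0 0 (step_sound _ 99 [(rh0d0c5fe888da5ad6.shift 0 2), (rh5ee4dc8825dcefa0.shift 0 2), (rh6c59ce14113da07f.shift 3 1), (rhc850b49d039efae1.shift 2 0)] (by decide +kernel))
noncomputable def rh3a54435cd254c743 : CRef := CRef.mk (Pat.mk 0x80000000800000008000000000000000000000000 0x40000000c0000001c0000001c0000001f0000007c0000001800000008000000180000001800000010 9 7) 0 0 (step_sound _ 194 [(rh114f4abf4ea101c9.shift 2 2), (rha5dc83e34999ae02.shift 0 2), (rhaf7d0dfe3cdb0aa7.shift 0 3), (rhf435f65ca384ce7a.shift 2 0)] (by decide +kernel))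
noncomputable def rh794721999cc6fbb6 : CRef := CRef.mk (Pat.mk 0x100000001000000018 0x28000000380000003f0000003e0000007f0000001c00000018 9 7) 0 0 (step_sound _ 100 [(rh7ef5fa5c39f1c762.shift 3 0), (rh9a369cb82ea472da.shift 3 0), (rhb77bfac3e9efecea.shift 3 0), rhd3d25ab0b094d51a, (rhe62cab2ff5ad6fe2.shift 3 0)] (by decide +kernel))
noncomputable def rh47ded8b24b61ac63 : CRef := CRef.mk (Pat.mk 0x180000000c000000000000000000000000 0x1000000014000000340000001f000000ff0000007b0000001a00000018 9 8) 0 0 (step_sound _ 97 [rh4ad19324603d1823, (rh53b3c253cb0c65f4.shift 0 3)] (by decide +kernel))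
noncomputable def rhbd3beeca14d9d47c : CRef := CRef.mk (Pat.mk 0x80000000c00000008000000000000000000000000 0x40000001c0000001c000000180000000c0000001f000000780000001c0000001c00000014 9 7) 0 0 (step_sound _ 35 [rh63d47bd98d38059d, (rh6bd371ebe506613d.shift 2 0), (rhce61447e7863f8dc.shift 2 0)] (by decide +kernel))
noncomputable def rhb47ca8562b529964 : CRef := CRef.mk (Pat.mk 0x80000000c00000008000000000000000000000000 0x40000000c0000001f0000007b0000001f0000001e00000014 9 7) 0 0 (step_sound _ 100 [(rh4ca5dae25f5c14ff.shift 0 3), rh959fd6730f8632cd, rhf72a0967ce6476f4] (by decide +kernel))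
noncomputable def rhcf994b9f9901d332 : CRef := CRef.mk (Pat.mk 0x20000000300000002000000000000000000000000 0x1000000070000000700000007000000030000000300000002000000070000000700000005 9 3) 0 0 (step_sound _ 65 [rh8cdd36b03d57a2f6, (rha744b3eabd236a36.shift 0 1), (rhe286c75f2739cce2.shift 0 1)] (by decide +kernel))
noncomputable def rh4f1358f74d05cf1d : CRef := CRef.mk (Pat.mk 0x100000001000000018000000000000000000000000 0x18000000180000001e000003f7000001fe000001f70000002000000020 9 10) 0 0 (step_sound _ 101 [(rh70e33bfdf511e144.shift 4 0), (rhc099844a9a2c6958.shift 0 2), (rhfca005486fcbe545.shift 0 2)] (by decide +kernel))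
noncomputable def rh0ff5dff7dbf78a62 : CRef := CRef.mk (Pat.mk 0x8000000080000000c00000000000000000000000000000000 0x400000004000000160000001f0000007a0000001f0000007a0000001c0000001c00000004 9 7) 0 0 (step_sound _ 164 [(rh574fdbf07bdd18b9.shift 0 4), (rh8548980f61e57ddc.shift 0 1), (rhbbc91edacdf47d59.shift 0 2), (rhc4bae21d94406425.shift 1 0)] (by decide +kernel))
noncomputable def rhfc60b16e27af0449 : CRef := CRef.mk (Pat.mk 0x1000000010000000180000000000000000 0x28000000380000003800000030000003f7000001fe000001e700000040 9 10) 0 0 (step_sound _ 164 [(rh6575bc1d3dcb7608.shift 2 1), (rh7ef5fa5c39f1c762.shift 3 2), rhfa19824103984e6d] (by decide +kernel))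
noncomputable def rh5c13e33ab89721a1 : CRef := CRef.mk (Pat.mk 0x10000000100000001800000000000000000000000000000000 0x20000000380000003800000038000003f7000001fe000001f7000000380000003800000028 9 10) 0 0 (step_sound _ 133 [(rh70e33bfdf511e144.shift 4 1), (rhdadb8b537185d84d.shift 3 0), (rhfca005486fcbe545.shift 0 3)] (by decide +kernel))
noncomputable def rh34bcc63c19c2f907 : CRef := CRef.mk (Pat.mk 0x180000000c00000000000000000000000000000000 0x140000003c0000001f000000ff000000ef0000003e0000001c00000010 9 8) 0 0 (step_sound _ 129 [rh2a8919f5289164f4, (rh53b3c253cb0c65f4.shift 0 4)] (by decide +kernel))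
noncomputable def rh030fe0f3d948c4ad : CRef := CRef.mk (Pat.mk 0xc000000060000000000000000 0x80000000c0000003c0000003f0000003e0000003700000036 9 6) 0 0 (step_sound _ 100 [(rh18965a982d73c794.shift 1 2), rh65e6357d8d3ab570] (by decide +kernel))
noncomputable def rh4aab338fbb7725cb : CRef := CRef.mk (Pat.mk 0x180000000c0000000000000000 0x8000000080000001c0000001f0000003c0000001f000000ff000000ef0000000a 9 8) 0 0 (step_sound _ 65 [(rh53b3c253cb0c65f4.shift 0 2), rh727c91ccc537356c] (by decide +kernel))
noncomputable def rheae5dc7663c5c5d2 : CRef := CRef.mk (Pat.mk 0x300000000c000000000000000000000000 0x4000000140000001e0000007f0000007a0000000f0000001e0000001c00000014 9 7) 0 0 (step_sound _ 131 [(rh18965a982d73c794.shift 2 3), rhe70b52054f5470ec] (by decide +kernel))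
noncomputable def rhb212558f9af06859 : CRef := CRef.mk (Pat.mk 0x7000000010000000000000000000000000 0x3800000038000000ff0000007f0000003e0000001c0000001c0000000c 9 8) 0 0 (step_sound _ 99 [(rh1ed7a3503fa50fc8.shift 1 3), rhc0ff0a976b46eeff, (rheea1a90336e79c71.shift 1 3)] (by decide +kernel))
noncomputable def rh24bf587adeb6a585 : CRef := CRef.mk (Pat.mk 0x30000000080000000000000000 0x1c0000001e000000ff000000ff000000fc0000001800000008 9 8) 0 0 (step_sound _ 99 [rh0a692ad6ea08024e, (rhbb67f86ec9825b9a.shift 2 1), (rhfba8a95c9d8d620d.shift 2 2)] (by decide +kernel))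
noncomputable def rhf930391a8c2bca31 : CRef := CRef.mk (Pat.mk 0x180000000c00000000000000000000000000000000 0x16000000370000001f000000ff000000ef0000001e0000001c00000010 9 8) 0 0 (step_sound _ 129 [(rh53b3c253cb0c65f4.shift 0 4), rh608891eaddccf352] (by decide +kernel))
noncomputable def rhb71f30d3745e4ca7 : CRef := CRef.mk (Pat.mk 0xe00000001000000000000000000000000 0x8000000380000003800000030000000380000001e0000003b000000380000003800000020 9 6) 0 0 (step_sound _ 132 [(rh80fcd6d0a18cb2dd.shift 0 3), (rhc095cafdb80f233d.shift 1 0)] (by decide +kernel))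
noncomputable def rh13eafc24bba8dd4c : CRef := CRef.mk (Pat.mk 0xe0000000100000000000000000 0x380000003800000078000001fe000000fe000001f70000009000000080 9 9) 0 0 (step_sound _ 100 [(rh1301ebdefe49082b.shift 0 2), (rh3658ebd6f233cdbb.shift 3 0), (rh3e1b7b343686dca1.shift 3 2), (rh61325f73ebf98108.shift 2 3), (rha3d4104031ffed1d.shift 3 2)] (by decide +kernel))
noncomputable def rh59c895b7f358e2bb : CRef := CRef.mk (Pat.mk 0x3800000008000000000000000000000000 0xc0000000e0000007e0000003e0000007f000000060000000600000006 9 7) 0 0 (step_sound _ 98 [(rh1ed7a3503fa50fc8.shift 0 3), (rheea1a90336e79c71.shift 0 3), (rhf021acb80727af01.shift 1 0)] (by decide +kernel))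
noncomputable def rha6bba8a7d79c4c5e : CRef := CRef.mk (Pat.mk 0x70000000100000000000000000 0x280000003c000000fc0000007e000000f70000001000000010 9 8) 0 0 (step_sound _ 133 [(rhadf429772c25fde0.shift 4 0), (rhbdaf8c74e7ba3287.shift 2 0), (rhc609b3c3b9b9ce4c.shift 0 2)] (by decide +kernel))
noncomputable def rh3802234e5845b0b1 : CRef := CRef.mk (Pat.mk 0x38000000080000000000000000 0x1c0000001e0000007f0000003e0000000f0000000800000008 9 7) 0 0 (step_sound _ 132 [(rh4821dcf828b9d7bf.shift 3 0), (rhb69cb41d41c058b4.shift 0 2), (rhbdaf8c74e7ba3287.shift 1 0)] (by decide +kernel))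
noncomputable def rhfb283df760d3d835 : CRef := CRef.mk (Pat.mk 0x1c00000004000000000000000000000000 0x1e0000001f0000007f0000001c0000000f0000000e0000000e00000008 9 7) 0 0 (step_sound _ 163 [rh479345418edacfc8, (rh4821dcf828b9d7bf.shift 2 1), (rh5c716ecc989daa21.shift 0 1), (rhadf429772c25fde0.shift 2 1)] (by decide +kernel))
noncomputable def rh64a02f8e56d8a189 : CRef := CRef.mk (Pat.mk 0x1c00000004000000000000000000000000 0x80000000e0000000e0000000f000000fe0000007c000000e40000000e0000000e0000000a 9 8) 0 0 (step_sound _ 133 [(rh0e6606a44d49538f.shift 1 2), rh2ba13a1eb1ee29f3, (rha93a5dd541ab8209.shift 2 3)] (by decide +kernel))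
noncomputable def rh56fa62bc1061c6be : CRef := CRef.mk (Pat.mk 0x38000000080000000000000000 0x1c0000001e0000007f0000003e0000000f0000000800000008 9 7) 0 0 (step_sound _ 132 [(rh4821dcf828b9d7bf.shift 3 0), (rh970a3843dff3cf6f.shift 0 2), (rhbdaf8c74e7ba3287.shift 1 0)] (by decide +kernel))
noncomputable def rheb6400f5a3abd72f : CRef := CRef.mk (Pat.mk 0x180000000c000000000000000000000000 0x100000001c0000001c0000001e0000001f0000007a0000000f0000000e0000000c00000004 9 7) 0 0 (step_sound _ 133 [(rh18965a982d73c794.shift 2 3), rhd5dc3f5096207db7] (by decide +kernel))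
noncomputable def rh9dac95677877f2d5 : CRef := CRef.mk (Pat.mk 0x180000000c000000000000000000000000 0x100000001c0000001c0000000e0000001f0000001e0000000f0000001c0000001c00000014 9 5) 0 0 (step_sound _ 97 [(rh53b3c253cb0c65f4.shift 0 3), rhc7e1659e0c655394] (by decide +kernel))
noncomputable def rh0745f26579185750 : CRef := CRef.mk (Pat.mk 0xc00000006000000000000000000000000 0x200000002000000330000003f0000003e0000003c0000001800000018 9 6) 0 0 (step_sound _ 132 [(rh18965a982d73c794.shift 1 3), rhdc63fee20d682617] (by decide +kernel))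
noncomputable def rh35ea1cb7ef78eff7 : CRef := CRef.mk (Pat.mk 0x180000000c000000000000000000000000 0xa0000000a0000000b0000001f000000ff000000fc0000001400000004 9 8) 0 0 (step_sound _ 97 [(rh53b3c253cb0c65f4.shift 0 3), rh9256531ca098c779] (by decide +kernel))
noncomputable def rh0de8197fe7e7276a : CRef := CRef.mk (Pat.mk 0x180000000c00000000000000000000000000000000 0x100000001c0000001e0000001f0000001e0000000f0000003c0000001c0000001c00000018 9 6) 0 0 (step_sound _ 129 [(rh53b3c253cb0c65f4.shift 0 4), rhebd8074b8742f499] (by decide +kernel))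
noncomputable def rh8f299c761058f2de : CRef := CRef.mk (Pat.mk 0x180000000c00000000000000000000000000000000 0x12000000370000001f000000ff0000007c000000fc0000003800000010 9 8) 0 0 (step_sound _ 129 [rh2a1531d2ee50ea7a, (rh53b3c253cb0c65f4.shift 0 4)] (by decide +kernel))
noncomputable def rh6d6a83dc6bea9179 : CRef := CRef.mk (Pat.mk 0x180000000c0000000000000000 0x80000001c0000001c0000001c0000001c000000ff0000003c00000018 9 8) 0 0 (step_sound _ 65 [(rh49393b91d88d92ae.shift 1 0), (rh53b3c253cb0c65f4.shift 0 2)] (by decide +kernel))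
noncomputable def rhe6ba0461fa0b765e : CRef := CRef.mk (Pat.mk 0x180000000c00000000000000000000000000000000 0x200000012000000330000001f0000003f0000007c000000fc0000003c00000014 9 8) 0 0 (step_sound _ 129 [rh2f5720dfb508d86b, (rh53b3c253cb0c65f4.shift 0 4)] (by decide +kernel))
noncomputable def rh48f682dae8e5e8f3 : CRef := CRef.mk (Pat.mk 0x3000000018000000000000000000000000 0x8000000380000003f0000007e000000340000003e000000780000003000000020 9 7) 0 0 (step_sound _ 98 [rh4d8f50e5cf17236a, (rh53b3c253cb0c65f4.shift 1 3)] (by decide +kernel))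
noncomputable def rh183bd06bd8e4e4b2 : CRef := CRef.mk (Pat.mk 0x180000000c000000000000000000000000 0x140000001e0000001f0000003f0000001f0000001c0000001c0000001c0000001c 9 6) 0 0 (step_sound _ 67 [(rh000637b5a81e86aa.shift 2 0), (rh163a458c14ee05a0.shift 2 0), (rhbc5a42fd130d8b18.shift 0 1)] (by decide +kernel))
noncomputable def rh0d06f92226e9229b : CRef := CRef.mk (Pat.mk 0x300000001800000000000000000000000000000000 0x8000000380000003f0000007e000000360000003e00000038000000380000003800000020 9 7) 0 0 (step_sound _ 130 [(rh53b3c253cb0c65f4.shift 1 4), rh9612b06e3d725a82] (by decide +kernel))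
noncomputable def rhc98004c30b5958ef : CRef := CRef.mk (Pat.mk 0x30000000080000000000000000 0x34000000340000007f000000fe000001ef0000006800000068 9 9) 0 0 (step_sound _ 99 [rh0ec84394f4486323, (rh2820ca9a6c4f41b4.shift 0 2), (rh480231ab31e80384.shift 2 1), (rh5793da7f8056b034.shift 1 0)] (by decide +kernel))
noncomputable def rheba55cd6c05a873c : CRef := CRef.mk (Pat.mk 0x4000000030000000000000000000000000 0x1000000010000000380000007c000003ef000000fe000001ff0000005000000010 9 10) 0 0 (step_sound _ 135 [(rha61ca71592d97c28.shift 0 2), (rhaff4d66ab2235e4f.shift 4 3), (rhb77726548920621f.shift 2 0), (rhfe7c844806756e31.shift 3 3)] (by decide +kernel))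
noncomputable def rh52cafd6532c2831d : CRef := CRef.mk (Pat.mk 0xc000000060000000000000000 0xc0000000c0000003c0000003f0000003e0000003e0000001c 9 6) 0 0 (step_sound _ 100 [(rh18965a982d73c794.shift 1 2), rh5c4d26f03886b90d] (by decide +kernel))
noncomputable def rh4b1e73b9054157cb : CRef := CRef.mk (Pat.mk 0xc000000060000000000000000 0x1e0000001f0000003c0000003f0000007e0000007f0000001c 9 7) 0 0 (step_sound _ 100 [(rh18965a982d73c794.shift 1 2), rh659b789b0405cd39] (by decide +kernel))
noncomputable def rhb429d7f60a568060 : CRef := CRef.mk (Pat.mk 0x30000000180000000000000000 0x280000003c0000003e000000fc000000ff000000f80000002c00000008 9 8) 0 0 (step_sound _ 102 [(rh18965a982d73c794.shift 3 2), rh84160caa18d776ad] (by decide +kernel))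
noncomputable def rh9402f710b71ad099 : CRef := CRef.mk (Pat.mk 0xc00000006000000000000000000000000 0xa0000000e0000000e0000000c0000003e0000003f0000003e00000010 9 6) 0 0 (step_sound _ 66 [(rh215e11e099257d75.shift 2 1), rh6065c35a6452348e, (rhb730ba14aa32bdb3.shift 2 1)] (by decide +kernel))
noncomputable def rhd642b3f59e3b50e9 : CRef := CRef.mk (Pat.mk 0x3000000018000000000000000000000000 0x2c0000007e0000007f0000003f0000001e0000001f0000000e0000000c 9 7) 0 0 (step_sound _ 98 [(rh53b3c253cb0c65f4.shift 1 3), rhc2864e410573ea47] (by decide +kernel))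
noncomputable def rh9a1ca3fcc2a1f654 : CRef := CRef.mk (Pat.mk 0x80000000e000000000000000000000000 0x18000000180000003b000000fe000000ff0000001c00000010 9 8) 0 0 (step_sound _ 100 [(rh06db8ceda6269a47.shift 0 2), (rh132ad1729ba2bbeb.shift 0 1), (rh2ef78639b50b20cd.shift 0 2), (rh84970c2ccb9fe470.shift 1 0), (rha8a5a5dab7e31fcc.shift 0 1)] (by decide +kernel))
noncomputable def rh6ff9c86399f4b15d : CRef := CRef.mk (Pat.mk 0x38000000080000000000000000 0x100000001c0000001c0000000c000001ff000000f8000000180000001800000018 9 9) 0 0 (step_sound _ 131 [(rh02f2af378e7c09d0.shift 2 1), (rh38791ac5737ed75e.shift 2 3), rh58918e02b60cf959, (rh8cda118e73192ffa.shift 2 2), (rhca328f2d319ec7fd.shift 2 0)] (by decide +kernel))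
noncomputable def rha962e706abc8eefb : CRef := CRef.mk (Pat.mk 0x300000001800000000000000000000000000000000 0xc0000001c0000003f0000003f0000001e0000001c0000001c0000001c00000010 9 6) 0 0 (step_sound _ 130 [(rh53b3c253cb0c65f4.shift 1 4), rh61c363d0e675b3a1] (by decide +kernel))
noncomputable def rh8013a37ff1de366f : CRef := CRef.mk (Pat.mk 0x300000001800000000000000000000000000000000 0x10000000770000003f0000001e0000007c0000003e0000001c00000010 9 7) 0 0 (step_sound _ 130 [(rh53b3c253cb0c65f4.shift 1 4), rhe173e287e1f5c09f] (by decide +kernel))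
noncomputable def rh80a346eaab440d0d : CRef := CRef.mk (Pat.mk 0x30000000180000000000000000000000000000000000000000 0x50000000f7000000ff000000f80000003e00000078000000380000001000000010 9 8) 0 0 (step_sound _ 198 [(rh18965a982d73c794.shift 3 5), rh5dce5d3386dd3f5d] (by decide +kernel))
noncomputable def rhf971a0eefd196cc1 : CRef := CRef.mk (Pat.mk 0x3000000018000000000000000000000000 0x1c0000001e0000003e0000007e0000001f0000001c0000001c 9 7) 0 0 (step_sound _ 98 [(rh53b3c253cb0c65f4.shift 1 3), rh808b195c6f05a13c] (by decide +kernel))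
noncomputable def rh272b64b32ebe9371 : CRef := CRef.mk (Pat.mk 0x8000000080000000800000000000000000000000000000000 0x40000000c0000000c000000080000000c0000007f0000003f000000170000001200000002 9 7) 0 0 (step_sound _ 100 [(rh2977b00063528966.shift 3 1), (rhaf349dd7709502bf.shift 2 3), (rhcb5a3ed276e314a0.shift 1 2), rhd186afc7bd89801d, (rhfa80626feb4e9cb5.shift 0 2)] (by decide +kernel))
noncomputable def rhfe0fbe7b3a411b7b : CRef := CRef.mk (Pat.mk 0x180000000c000000000000000000000000 0x6000000070000001f0000003f0000003f0000003e00000038 9 6) 0 0 (step_sound _ 97 [(rh53b3c253cb0c65f4.shift 0 3), rh7d3f2254ae659f82] (by decide +kernel))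
noncomputable def rh92844c5b4675d7e3 : CRef := CRef.mk (Pat.mk 0xc000000060000000000000000000000000000000000000000 0x120000003b0000003f0000003e0000000f0000000e0000000e0000000e00000008 9 6) 0 0 (step_sound _ 196 [(rh18965a982d73c794.shift 1 5), rhc7b59412c8bc51f2] (by decide +kernel))
noncomputable def rhed6b513ab8adfeeb : CRef := CRef.mk (Pat.mk 0xe00000002000000000000000000000000 0x20000007f0000003e0000007e0000003c0000003c00000028 9 7) 0 0 (step_sound _ 132 [(rhd584a578337d0023.shift 1 3), (rhe401600d466b97cd.shift 0 3), rhf19a0f948decf2d7] (by decide +kernel))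
noncomputable def rh653931dc793eedd3 : CRef := CRef.mk (Pat.mk 0x380000000800000000000000000000000000000000 0xc0000003f000000380000001f0000003e0000007c0000003c00000014 9 7) 0 0 (step_sound _ 99 [(rh274a837cd7eaa569.shift 2 0), (rh3f6737f1711fee08.shift 1 0), (rhbc7acccaa04e1483.shift 0 2), (rhcedf66a5a00af1eb.shift 1 1), (rhffb8e5993241bf15.shift 2 0)] (by decide +kernel))
noncomputable def rh74010d9ef843477d : CRef := CRef.mk (Pat.mk 0xc0000000400000000000000000000000000000000 0x2000000060000000e0000000f0000003f0000003f0000007e0000000e0000000a 9 7) 0 0 (step_sound _ 98 [rh93132d5d08907e33, (rh99149b8fa113f17a.shift 0 2), (rhd2b286e370d4a8f3.shift 1 1), (rhffb8e5993241bf15.shift 1 0)] (by decide +kernel))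
noncomputable def rh6dacd702e55982e8 : CRef := CRef.mk (Pat.mk 0x180000000c00000000000000000000000000000000 0x10000000180000001c0000000c0000001c0000001c0000000f0000007c0000001c0000001800000010 9 7) 0 0 (step_sound _ 129 [(rh53b3c253cb0c65f4.shift 0 4), (rhc7daa8d1f3096082.shift 1 0)] (by decide +kernel))
noncomputable def rh636959f46954f4c5 : CRef := CRef.mk (Pat.mk 0x1800000018000000000000000000000000 0xc0000002f000000fc000000180000007c0000003e0000003e 9 8) 0 0 (step_sound _ 68 [(rh3cb04db3dd2b6a55.shift 3 0), (rh9d50611360a342a6.shift 1 0), rhcbd75e843e9f1cf3] (by decide +kernel))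
noncomputable def rh98b9abb04bce08d9 : CRef := CRef.mk (Pat.mk 0x3000000018000000000000000000000000 0xc0000001c0000003f0000003f0000001e0000007c0000003c0000000c 9 7) 0 0 (step_sound _ 98 [(rh53b3c253cb0c65f4.shift 1 3), rh9ade084dddea24e4] (by decide +kernel))
noncomputable def rhe9f1a4f8d1f8db55 : CRef := CRef.mk (Pat.mk 0x30000000180000000000000000000000000000000000000000 0xc0000001c000000ff000000ff000000380000001e00000078000000380000001000000010 9 8) 0 0 (step_sound _ 198 [(rh18965a982d73c794.shift 3 5), rh8821c2bd9aef2490] (by decide +kernel))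
noncomputable def rh3bf5df795195e2a7 : CRef := CRef.mk (Pat.mk 0x100000001800000008000000000000000000000000 0x4000000740000007f0000007f0000007f0000003a00000030 9 7) 0 0 (step_sound _ 67 [(rh71222050f2c63a3a.shift 3 1), rha1c26a1eef72cd44] (by decide +kernel))
noncomputable def rh38dab74ff9e45985 : CRef := CRef.mk (Pat.mk 0x80000000c000000040000000000000000 0x18000000180000007c0000007f0000007c0000007800000018 9 7) 0 0 (step_sound _ 163 [(rh5c5e593799055d58.shift 2 2), rh738056410230bb09] (by decide +kernel))
noncomputable def rh8f16c721cf495afe : CRef := CRef.mk (Pat.mk 0x100000001800000008000000000000000000000000 0x6000000770000007f0000003f0000000f0000000c00000004 9 7) 0 0 (step_sound _ 67 [(rh71222050f2c63a3a.shift 3 1), rh8584be7a37828ff6] (by decide +kernel))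
noncomputable def rh18c7076893a0e901 : CRef := CRef.mk (Pat.mk 0x20000000300000001000000000 0x6c0000006c000003ff000003fe000007fc000000a0 9 11) 0 0 (step_sound _ 133 [(rh5c5e593799055d58.shift 4 1), rhca054f508c8ed480] (by decide +kernel))
noncomputable def rh558e95b38d1f6787 : CRef := CRef.mk (Pat.mk 0x1000000018000000080000000000000000 0x70000001f0000007f0000006f0000007c0000003c 9 7) 0 0 (step_sound _ 35 [rh06578888b54c1cbb, (rh71222050f2c63a3a.shift 3 0)] (by decide +kernel))
noncomputable def rh76ee5a7b6d8177ba : CRef := CRef.mk (Pat.mk 0x1000000018000000080000000000000000 0xe7000000ff0000001f0000007e0000007e0000003c 9 8) 0 0 (step_sound _ 35 [(rh71222050f2c63a3a.shift 3 0), rhd58439520543e079] (by decide +kernel))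
noncomputable def rh46449da90e7a78aa : CRef := CRef.mk (Pat.mk 0x100000001800000008000000000000000000000000 0x700000007f0000007f0000007f0000003800000030 9 7) 0 0 (step_sound _ 67 [(rh71222050f2c63a3a.shift 3 1), rhdc3e0d60bc552096] (by decide +kernel))
noncomputable def rh7dbaeac40021e7be : CRef := CRef.mk (Pat.mk 0x80000000c000000040000000000000000 0x18000000180000007c0000007f0000007c0000003800000018 9 7) 0 0 (step_sound _ 163 [(rh5c5e593799055d58.shift 2 2), rha54ff5f1469b926c] (by decide +kernel))
noncomputable def rhcdea38fde7143057 : CRef := CRef.mk (Pat.mk 0x10000000080000000800000000000000000000000000000000 0x28000000380000003800000014000001f7000001fe000001ff000001ef000000280000003c0000001c00000014 9 9) 0 0 (step_sound _ 228 [(rh3e5950ccac625272.shift 2 0), (rh6bd8f56ce05e09d3.shift 3 4), (rh73507e1ce6a5cba2.shift 0 3), (rhb8e5b18824fc4c63.shift 3 3), (rhbab069099745da53.shift 0 2)] (by decide +kernel))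
noncomputable def rhf2907490ae93766a : CRef := CRef.mk (Pat.mk 0x40000000600000002000000000000000000000000 0xc0000001c0000003f0000003e0000003f0000001c0000001c00000004 9 6) 0 0 (step_sound _ 194 [rh4aa536f5db4f4e84, (rh5c5e593799055d58.shift 1 3)] (by decide +kernel))
noncomputable def rha4ae34acd97b989f : CRef := CRef.mk (Pat.mk 0x2000000010000000100000000000000000 0x2800000028000003ef000003fe000007ff0000005000000050 9 11) 0 0 (step_sound _ 101 [(rh4e7bdb9570eba2a2.shift 1 0), rh986931bf4806d074, (rhcf80391c5046a495.shift 4 0)] (by decide +kernel))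
noncomputable def rhf62907259f9044a8 : CRef := CRef.mk (Pat.mk 0x100000001800000008 0x1600000016000001ff000001fe0000038f 9 10) 0 0 (step_sound _ 100 [rh3f961069627c6025, (rh5c5e593799055d58.shift 3 0)] (by decide +kernel))
noncomputable def rhf2ff441ffcf298f6 : CRef := CRef.mk (Pat.mk 0x10000000180000000800000000 0x3600000036000001ff000000fe000001df00000040 9 9) 0 0 (step_sound _ 132 [(rh5c5e593799055d58.shift 3 1), rhb4977aae2fd4ba1d] (by decide +kernel))
noncomputable def rh5d07dd39c13db33d : CRef := CRef.mk (Pat.mk 0x2000000030000000100000000000000000 0x2000000020000001be000001fe000001ff000000e000000040 9 9) 0 0 (step_sound _ 165 [(rh5c5e593799055d58.shift 4 2), rh5ea132b3d9131bda] (by decide +kernel))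
noncomputable def rhe9bb08d929fde39b : CRef := CRef.mk (Pat.mk 0x1000000018000000080000000000000000 0x16000000160000007f000000fe000001ef0000002000000020 9 9) 0 0 (step_sound _ 164 [(rh5c5e593799055d58.shift 3 2), rhbf85af3acabbf3e0] (by decide +kernel))
noncomputable def rh69534e111a75edab : CRef := CRef.mk (Pat.mk 0x1000000018000000080000000000000000 0x200000007f000000fe000000fe000000f000000070 9 8) 0 0 (step_sound _ 101 [(rh04048a4a2acf2c94.shift 2 2), rh8a69ee81990625dd, (rhcbb59bc309171cfe.shift 1 2)] (by decide +kernel))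
noncomputable def rh3115e5c752e50f9a : CRef := CRef.mk (Pat.mk 0x4000000020000000200000002000000000 0x3de000001fe000003bf000000300000003000000010 9 10) 0 0 (step_sound _ 133 [rh17a501b38e7ecd48, (rh2f68792b6b779e96.shift 5 1)] (by decide +kernel))
noncomputable def rhe5dcb514cb40ad9b : CRef := CRef.mk (Pat.mk 0x800000008000000080000000000000000000000000000000000000000 0xc0000001e0000007f0000007f0000001f0000001e0000001c00000010 9 7) 0 0 (step_sound _ 131 [(rh0d69838d1abc92dd.shift 0 2), (rh43000f16a4e76173.shift 2 1), (rh6eff4158bb400f47.shift 2 2), (rh7a62c4b2780c02e6.shift 2 0), (rhe2e6c99f94cc8dc6.shift 1 2), (rhe84e00c98653ad0c.shift 2 1), (rheb401f6f12f2978e.shift 0 2)] (by decide +kernel))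
noncomputable def rh5ccd3fa49bfe440e : CRef := CRef.mk (Pat.mk 0x4000000060000000200000000000000000 0x1000000190000000fe000001ff0000007e0000006000000060 9 9) 0 0 (step_sound _ 37 [rh31c4a879c19bd04c, (rh71222050f2c63a3a.shift 5 0)] (by decide +kernel))
noncomputable def rh24066bf006a33453 : CRef := CRef.mk (Pat.mk 0x100000000e000000000000000000000000 0x300000003000000030000000380000001f000000380000001800000018 9 6) 0 0 (step_sound _ 131 [(rh0de55685b0e71a1a.shift 1 0), (rh53b3c253cb0c65f4.shift 0 3)] (by decide +kernel))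
noncomputable def rh6310776df6edf86a : CRef := CRef.mk (Pat.mk 0x80000000e000000000000000000000000 0x800000008000001dc000000fe0000007f0000003c00000014 9 9) 0 0 (step_sound _ 66 [rh1aa4b2cdb404bb38, rhcc357acca802016d, (rhf9366b6a121593ef.shift 2 0)] (by decide +kernel))
noncomputable def rh2ed25abb4299060c : CRef := CRef.mk (Pat.mk 0x180000000c000000000000000000000000 0x1c0000003c0000003f0000000f0000000f0000003c0000001c 9 6) 0 0 (step_sound _ 97 [(rh53b3c253cb0c65f4.shift 0 3), rh74fd79af0c981a08] (by decide +kernel))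
noncomputable def rh0e8ccb1e962fbfb2 : CRef := CRef.mk (Pat.mk 0x3000000018000000000000000000000000 0x200000007e0000007e0000003f0000001e0000007f0000001e0000001c 9 7) 0 0 (step_sound _ 98 [(rh53b3c253cb0c65f4.shift 1 3), rhb9ed17ccdff3e9d0] (by decide +kernel))
noncomputable def rhf7ac99fb4b62530f : CRef := CRef.mk (Pat.mk 0x30000000180000000000000000 0x28000000280000007f0000007f0000001e0000001400000010 9 7) 0 0 (step_sound _ 66 [(rh53b3c253cb0c65f4.shift 1 2), rhced3c8b6c317fd2c] (by decide +kernel))
noncomputable def rhf78be5e591b64442 : CRef := CRef.mk (Pat.mk 0x180000000c000000000000000000000000 0x100000003e0000003f0000003e0000000c0000007e0000001e0000001e 9 7) 0 0 (step_sound _ 66 [rh011bde208c2ee97a, (rh06d571041eea8319.shift 1 0), (rh4821dcf828b9d7bf.shift 2 0), (rhe71f6c493eb09867.shift 0 1)] (by decide +kernel))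
noncomputable def rh0761ae1ebc74edd4 : CRef := CRef.mk (Pat.mk 0x2000000038000000000000000000000000 0x3c0000003f0000007c000000f80000003e0000001000000010 9 8) 0 0 (step_sound _ 68 [(rh75cc9f7832e14000.shift 0 2), (rh7b7667181d5c7dbe.shift 1 0), (rhcf80391c5046a495.shift 4 0), (rhf9366b6a121593ef.shift 4 0)] (by decide +kernel))
noncomputable def rh482ed9420b64b11a : CRef := CRef.mk (Pat.mk 0x2000000038000000000000000000000000 0x280000003f0000007c000000f8000000f00000007c00000078 9 8) 0 0 (step_sound _ 68 [(rh890283d8205227f4.shift 2 0), (rhcf80391c5046a495.shift 4 0), rheedb2b5c15b6c38d, (rhf9366b6a121593ef.shift 4 0)] (by decide +kernel))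
noncomputable def rh91ec4381d922e880 : CRef := CRef.mk (Pat.mk 0x2000000038000000000000000000000000 0x3c0000007c0000007f000000f8000001dc0000001000000010 9 9) 0 0 (step_sound _ 68 [rh70b28bfcda7eaad1, (rh8d2ba9de3dec7504.shift 2 2), (rha2accce389990510.shift 2 0), (rhf9366b6a121593ef.shift 4 0)] (by decide +kernel))
noncomputable def rh9832122a40749d15 : CRef := CRef.mk (Pat.mk 0x100000001c000000000000000000000000 0xa0000000e0000000e0000002f0000003e000001fc000001fe0000001400000014 9 9) 0 0 (step_sound _ 101 [(rh06db8ceda6269a47.shift 1 2), rh21b4844bd5da6de6, (rha261e1caf97d5545.shift 1 0)] (by decide +kernel))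
noncomputable def rh5d455d14c88e0c95 : CRef := CRef.mk (Pat.mk 0x2000000038000000000000000000000000 0x280000007c0000076f000003f8000001fc0000005000000050 9 11) 0 0 (step_sound _ 68 [(rh1aa4b2cdb404bb38.shift 2 0), (rh6855fb38cc5540f0.shift 2 0), rh70b28bfcda7eaad1, (rhcf80391c5046a495.shift 4 0)] (by decide +kernel))
noncomputable def rh93feb6bc77833c31 : CRef := CRef.mk (Pat.mk 0x100000001c000000000000000000000000 0x1c0000001f0000003f0000001c0000007f000000fe0000003c 9 8) 0 0 (step_sound _ 67 [(rh0e6d04aadba4cdff.shift 0 1), rhbf3814bfab5cccd9, (rhcf80391c5046a495.shift 3 0), (rhf9366b6a121593ef.shift 3 0)] (by decide +kernel))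
noncomputable def rh02bc00ae7352a0ed : CRef := CRef.mk (Pat.mk 0x80000000c0000000400000000 0x1f0000001f0000007c0000003f0000001f0000001a 9 7) 0 0 (step_sound _ 131 [(rh5c5e593799055d58.shift 2 1), rh7f4251fee00319a0] (by decide +kernel))
noncomputable def rh9b33c7f4f5522a41 : CRef := CRef.mk (Pat.mk 0x1000000018000000080000000000000000 0x8000000180000007c0000001f0000007c0000007c 9 7) 0 0 (step_sound _ 35 [(rh71222050f2c63a3a.shift 3 0), rhd8618c4358e2ef3d] (by decide +kernel))
noncomputable def rhb5311841534a9399 : CRef := CRef.mk (Pat.mk 0x80000000c00000004000000000000000000000000 0x60000001f0000007f0000007c0000007f0000006e0000002a0000000800000008 9 7) 0 0 (step_sound _ 195 [(rh5c5e593799055d58.shift 2 3), rhe5e425980db6b0c3] (by decide +kernel))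
noncomputable def rh1918d3bde075ffe1 : CRef := CRef.mk (Pat.mk 0x2000000030000000100000000000000000 0x80000001f7000001fe000001fe000000f000000070 9 9) 0 0 (step_sound _ 36 [rh57c3f06fcc0ee596, (rh71222050f2c63a3a.shift 4 0)] (by decide +kernel))
noncomputable def rh40626de435e4721d : CRef := CRef.mk (Pat.mk 0x1000000018000000080000000000000000 0xa0000007b0000007f0000007f0000006f0000006c 9 7) 0 0 (step_sound _ 35 [(rh71222050f2c63a3a.shift 3 0), rhacf2b900a4067360] (by decide +kernel))
noncomputable def rhd87b3a0c62826559 : CRef := CRef.mk (Pat.mk 0x80000000c0000000400000000000000000 0x110000003df00000ffe000007ff000007a0000003a0 9 12) 0 0 (step_sound _ 101 [(rh0da929f32bda1bf5.shift 4 0), (rh5dec5e73a267a1c4.shift 3 2), rhd3cf12e0b8c39258] (by decide +kernel))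
noncomputable def rh78915f497ef1fc94 : CRef := CRef.mk (Pat.mk 0x1000000018000000080000000000000000 0x1000000010000001f0000000fe000001ef0000007c00000028 9 9) 0 0 (step_sound _ 164 [(rh5c5e593799055d58.shift 3 2), rhe271434c4e95cfbd] (by decide +kernel))
noncomputable def rh79434c86b5fbbc6f : CRef := CRef.mk (Pat.mk 0x80000000c000000040000000000000000 0x10000000160000007c000001ff000000770000003e0000001e 9 9) 0 0 (step_sound _ 34 [(rh71222050f2c63a3a.shift 2 0), rhbcd7662f776837ff] (by decide +kernel))
noncomputable def rhc955d7cd5837b009 : CRef := CRef.mk (Pat.mk 0x80000000c00000004000000000000000000000000 0x1f0000001f0000007c0000001f0000000c000000080000000800000008 9 7) 0 0 (step_sound _ 195 [rh339c2597084ba50b, (rh5c5e593799055d58.shift 2 3)] (by decide +kernel))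
noncomputable def rh40c78e807f693bd9 : CRef := CRef.mk (Pat.mk 0x80000000c00000004000000000000000000000000 0x1c0000001f000000780000001f0000003c000000180000001800000008 9 7) 0 0 (step_sound _ 195 [rh087e2524b2b80f50, (rh5c5e593799055d58.shift 2 3)] (by decide +kernel))
noncomputable def rh20ed14c9c2186eda : CRef := CRef.mk (Pat.mk 0x80000000c00000004000000000000000000000000 0x1c0000001c000000fc0000007c0000007f0000007b0000001800000008 9 8) 0 0 (step_sound _ 195 [(rh5c5e593799055d58.shift 2 3), rhb5be537dd74ca260] (by decide +kernel))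
noncomputable def rh91b291f6c4f423a4 : CRef := CRef.mk (Pat.mk 0x80000000c0000000400000000000000000 0x110000003df000003fe000003ff000007a0000003a0 9 11) 0 0 (step_sound _ 101 [(rh2745c79427677cee.shift 4 0), (rh5dec5e73a267a1c4.shift 3 2), rhd3cf12e0b8c39258] (by decide +kernel))
noncomputable def rhfddba64e8ce86356 : CRef := CRef.mk (Pat.mk 0x80000000c00000004000000000000000000000000 0x1c0000001f00000078000000ff0000003e000000180000001800000008 9 8) 0 0 (step_sound _ 195 [rh3b8dd4c0895a4dc0, (rh5c5e593799055d58.shift 2 3)] (by decide +kernel))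
noncomputable def rhcb0aab56fc4b437b : CRef := CRef.mk (Pat.mk 0x800000008000000040000000400000000 0x600000006000000060000000f0000003c000000360000003e0000001e 9 6) 0 0 (step_sound _ 98 [rh5750a1e47e9fc816, (rh71222050f2c63a3a.shift 2 0)] (by decide +kernel))
noncomputable def rhb0ff435568afd074 : CRef := CRef.mk (Pat.mk 0x3000000018000000000000000000000000 0x200000007e0000007f0000003f0000001e0000007f0000001e0000001c 9 7) 0 0 (step_sound _ 98 [(rh53b3c253cb0c65f4.shift 1 3), rh6325f98de4c07283] (by decide +kernel))
noncomputable def rh080a7d01495a32ec : CRef := CRef.mk (Pat.mk 0x3000000018000000000000000000000000 0x8000000380000003800000030000000fe000000ff00000038000000f8000000f800000038 9 8) 0 0 (step_sound _ 134 [(rh18965a982d73c794.shift 3 3), rh33d890337ba0c142] (by decide +kernel))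
noncomputable def rhfd19610254c50338 : CRef := CRef.mk (Pat.mk 0x4000000060000000200000000000000000 0xd8000000d8000001fc000001ff0000007c000000d000000010 9 9) 0 0 (step_sound _ 166 [rh397974b86b5260cf, (rh5c5e593799055d58.shift 5 2)] (by decide +kernel))
noncomputable def rh556947440f375986 : CRef := CRef.mk (Pat.mk 0x100000001800000008000000000000000000000000 0x24000000770000007f0000001f0000003f0000003a00000030 9 7) 0 0 (step_sound _ 67 [rh4f7e13820c3a3cbc, (rh71222050f2c63a3a.shift 3 1)] (by decide +kernel))
noncomputable def rh1eb305341025d702 : CRef := CRef.mk (Pat.mk 0x1000000018000000080000000000000000 0x8000000180000007c0000001f0000007c0000007c 9 7) 0 0 (step_sound _ 35 [(rh71222050f2c63a3a.shift 3 0), rh911cc8ede2e6a26e] (by decide +kernel))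
noncomputable def rh3f881f45696867b9 : CRef := CRef.mk (Pat.mk 0x80000000c0000000400000000 0x40000001f0000001f0000007c0000001f0000000c00000008 9 7) 0 0 (step_sound _ 131 [(rh5c5e593799055d58.shift 2 1), rhd4b12a508f247d55] (by decide +kernel))
noncomputable def rh1829bd0a43b01967 : CRef := CRef.mk (Pat.mk 0x100000001800000008000000000000000000000000 0x3c0000003f0000007f000000780000001f000000340000003000000030 9 7) 0 0 (step_sound _ 196 [rh1d898b64d5795187, (rh5c5e593799055d58.shift 3 3)] (by decide +kernel))
noncomputable def rh0ddf7d1bf5f8fd3f : CRef := CRef.mk (Pat.mk 0x3000000010000000000000000000000000 0x28000000380000003c000000ff000000ff0000001e0000007c0000003800000008 9 8) 0 0 (step_sound _ 99 [(rh25efe895d4e37a89.shift 0 1), (rhd69c262cd33b94b3.shift 1 3), (rhfbaa94218b087b89.shift 1 0)] (by decide +kernel))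
noncomputable def rh3d7abdae3a1cfb48 : CRef := CRef.mk (Pat.mk 0x2000000030000000100000000000000000 0x40000000c0000001e0000007e0000003e0000001f0000007c00000038 9 7) 0 0 (step_sound _ 36 [rh442c0f48bb8093ae, (rh71222050f2c63a3a.shift 4 0)] (by decide +kernel))
noncomputable def rh240244faab929fca : CRef := CRef.mk (Pat.mk 0x80000000c0000000400000000 0x1e0000001f0000007e0000000f0000000e00000008 9 7) 0 0 (step_sound _ 131 [(rh5c5e593799055d58.shift 2 1), rh75e15fdb2704ef59] (by decide +kernel))
noncomputable def rhabf510eb79a74233 : CRef := CRef.mk (Pat.mk 0x180000000c000000000000000000000000 0x3000000036000000370000001f0000001f0000003f0000003e00000038 9 6) 0 0 (step_sound _ 97 [(rh53b3c253cb0c65f4.shift 0 3), rhd8e3d07b132af394] (by decide +kernel))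
noncomputable def rhbc7bd45bdfb436c9 : CRef := CRef.mk (Pat.mk 0x30000000180000000000000000 0x380000003c000000ee000000ff000000380000001000000010 9 8) 0 0 (step_sound _ 102 [(rh18965a982d73c794.shift 3 2), rhc9a993b650590e4c] (by decide +kernel))
noncomputable def rh8d2151f03198322d : CRef := CRef.mk (Pat.mk 0x18000000080000000000000000 0x80000001c0000003e000000ff0000007e000000180000001800000018 9 8) 0 0 (step_sound _ 132 [(rhb0f2ccc87a4be861.shift 0 1), (rhcf80391c5046a495.shift 3 0), (rhe05013472713b83b.shift 1 0), (rhf9366b6a121593ef.shift 3 0)] (by decide +kernel))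
noncomputable def rh33eaaf64e8d5d2ad : CRef := CRef.mk (Pat.mk 0x3000000018000000000000000000000000 0xc0000001c0000001f0000003f0000001e0000007c0000003c0000000c 9 7) 0 0 (step_sound _ 98 [rh4c179ba93d9b6e37, (rh53b3c253cb0c65f4.shift 1 3)] (by decide +kernel))
noncomputable def rhad0c452a602b7d1b : CRef := CRef.mk (Pat.mk 0x180000000c00000000000000000000000000000000 0x40000000c0000000c0000000f0000007c0000001c0000001c0000001c0000001c00000004 9 7) 0 0 (step_sound _ 165 [(rh18965a982d73c794.shift 2 4), rh4836c9c8d2f3a536] (by decide +kernel))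
noncomputable def rha40ce129b4b22ded : CRef := CRef.mk (Pat.mk 0x4000000040000000200000002000000000 0x5000000050000003de000001fe000003b7000000a000000020 9 10) 0 0 (step_sound _ 101 [(rh2d2c6491b71ee0c6.shift 0 1), (rh71222050f2c63a3a.shift 5 0)] (by decide +kernel))
noncomputable def rh3e11c8c699073438 : CRef := CRef.mk (Pat.mk 0x800000008000000080000000400000000000000000000000000000000 0x140000001f0000003c0000007e0000007e000000780000003c0000001c00000004 9 7) 0 0 (step_sound _ 131 [(rh04c04748d8e723dd.shift 2 0), (rh5b27c2e09512d685.shift 0 2), (rha3351b5409dc08fd.shift 2 2), (rhc4055b4872d6fb38.shift 2 3), (rhc9de03f9731897d4.shift 3 2), (rhf16b1384490fe85a.shift 2 3)] (by decide +kernel))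
noncomputable def rh0751f0bee56c491d : CRef := CRef.mk (Pat.mk 0x1000000018000000080000000000000000 0xc0000000c0000000c000003fc000001ff000000fc000000fc0000007c 9 10) 0 0 (step_sound _ 35 [(rh71222050f2c63a3a.shift 3 0), rhc0b77204d0e3835d] (by decide +kernel))
noncomputable def rh9741a37276cac3c3 : CRef := CRef.mk (Pat.mk 0x2000000030000000100000000000000000 0x180000001800000058000003f7000001fe000000f80000003c00000038 9 10) 0 0 (step_sound _ 36 [(rh71222050f2c63a3a.shift 4 0), rhb90ae800a40d2762] (by decide +kernel))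
noncomputable def rh236f503b34456405 : CRef := CRef.mk (Pat.mk 0x4000000060000000200000000000000000 0x80000007fc000003fe000007f7000003c0000001c0 9 11) 0 0 (step_sound _ 100 [(rh2bab36285f0a9b73.shift 0 2), (rh5dec5e73a267a1c4.shift 2 2), (rhe52cdbaf62b59648.shift 4 0)] (by decide +kernel))
noncomputable def rh53317a5be734a67f : CRef := CRef.mk (Pat.mk 0x4000000060000000200000000000000000 0x5000000050000003de000001fe000003b7000000a000000020 9 10) 0 0 (step_sound _ 166 [(rh5c5e593799055d58.shift 5 2), rh81a9389f1f5dc579] (by decide +kernel))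
noncomputable def rh9020c76c22e53739 : CRef := CRef.mk (Pat.mk 0x1000000018000000080000000000000000 0x20000000600000007000000ff0000007f0000000c0000000800000008 9 8) 0 0 (step_sound _ 35 [(rh0ae472aab0c06fcd.shift 0 1), (rh71222050f2c63a3a.shift 3 0)] (by decide +kernel))
noncomputable def rhcbf86b24944d991b : CRef := CRef.mk (Pat.mk 0x10000000180000000800000000 0x340000003e000000ff000000fe000000cc00000040 9 8) 0 0 (step_sound _ 132 [(rh5c5e593799055d58.shift 3 1), rh671862b15ef75ee6] (by decide +kernel))
noncomputable def rhed4055a04e1b5b02 : CRef := CRef.mk (Pat.mk 0x400000006000000020000000000000000 0x6000000060000001e0000001b0000001f0000000f 9 5) 0 0 (step_sound _ 33 [(rh71222050f2c63a3a.shift 1 0), rhbd6ba788bee806b0] (by decide +kernel))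
noncomputable def rh80a2b7303b437e0c : CRef := CRef.mk (Pat.mk 0x10000000100000001800000000000000000000000000000000 0x280000003c000000f0000000f8000000ff0000003f0000003000000030 9 8) 0 0 (step_sound _ 100 [(rh592616b467fecf3e.shift 0 2), (rh6311a353758d5f3a.shift 2 2), (rh6c59ce14113da07f.shift 4 1), (rh97592df7d5ebadcd.shift 3 0)] (by decide +kernel))
noncomputable def rh32dcda9829b4c309 : CRef := CRef.mk (Pat.mk 0xc000000060000000000000000 0x1e0000001f0000003c0000003f0000007e0000007700000034 9 7) 0 0 (step_sound _ 100 [rh17b312a09f581a0e, (rh18965a982d73c794.shift 1 2)] (by decide +kernel))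
noncomputable def rhafbb8e05c94a37fc : CRef := CRef.mk (Pat.mk 0x180000000c0000000000000000 0x1c0000001e0000007c0000001f000000ff000000ef0000000a 9 8) 0 0 (step_sound _ 65 [(rh53b3c253cb0c65f4.shift 0 2), rh7134d36bd79c7be4] (by decide +kernel))
noncomputable def rh5f7f4e84ffadfb33 : CRef := CRef.mk (Pat.mk 0x70000000100000000000000000 0x2000000020000000f70000007e000000fe000000d0000000d0 9 8) 0 0 (step_sound _ 133 [(rhadf429772c25fde0.shift 4 0), (rhc2bf1036b5227ef6.shift 2 0), (rhefd1b7782434d2d1.shift 0 1)] (by decide +kernel))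
noncomputable def rh4d6605bc2ec4eb77 : CRef := CRef.mk (Pat.mk 0x10000000180000000800000000 0x80000001e0000003e000000ff000000fe0000001f00000006 9 8) 0 0 (step_sound _ 132 [rh2b11313d1181cecc, (rh5c5e593799055d58.shift 3 1)] (by decide +kernel))
noncomputable def rh5cf6392ba09868a3 : CRef := CRef.mk (Pat.mk 0x70000000000000000000000000 0x4000000040000003e7000007fe00000fc70000008000000080 9 12) 0 0 (step_sound _ 71 [(rh2e55065c211d34ed.shift 3 0), (rh71efda916732b25a.shift 3 2), (rh723130cfc78dd78d.shift 4 0), (rhcd7d2b841f4b65a7.shift 0 2)] (by decide +kernel))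
noncomputable def rhd9d8fd3702cedceb : CRef := CRef.mk (Pat.mk 0x1000000018000000080000000000000000 0x1c0000001e000001f7000000fe000001ef0000002000000020 9 9) 0 0 (step_sound _ 164 [(rh5c5e593799055d58.shift 3 2), rhed075085dc98e0bc] (by decide +kernel))
noncomputable def rhbd028d509bd6fa5b : CRef := CRef.mk (Pat.mk 0x3000000018000000000000000000000000 0x3800000038000000ff000000ff000000d80000004c0000000c0000000c 9 8) 0 0 (step_sound _ 134 [(rh18965a982d73c794.shift 3 3), rh6b40f2f0c8f91763] (by decide +kernel))
noncomputable def rhe5dc471d096ddd8d : CRef := CRef.mk (Pat.mk 0x10000000180000000800000000 0x3e0000003e00000078000000f8000000ff00000027 9 8) 0 0 (step_sound _ 132 [rh22437f63d0b1151e, (rh5c5e593799055d58.shift 3 1)] (by decide +kernel))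
noncomputable def rh76f4e0a8f21ffd32 : CRef := CRef.mk (Pat.mk 0x10000000180000000800000000 0x3f0000003e0000007f0000001e0000007800000020 9 7) 0 0 (step_sound _ 132 [(rh5c5e593799055d58.shift 3 1), rhab5cef17dcc64b28] (by decide +kernel))
noncomputable def rhc4d73a301927610f : CRef := CRef.mk (Pat.mk 0x2000000030000000100000000000000000 0x140000001c0000001e000000fe0000003e0000007f0000001800000018 9 8) 0 0 (step_sound _ 36 [(rh71222050f2c63a3a.shift 4 0), rhbc23c024a2cbbe32] (by decide +kernel))
noncomputable def rh93b4f07a0165613d : CRef := CRef.mk (Pat.mk 0x80000000c000000040000000000000000 0x400000006000000160000007f000000ff0000007c0000002400000024 9 8) 0 0 (step_sound _ 34 [rh166d10523f25c18a, (rh71222050f2c63a3a.shift 2 0)] (by decide +kernel))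
noncomputable def rh151f02452a2c17ff : CRef := CRef.mk (Pat.mk 0x8000000080000000c00000000000000000000000000000000 0x200000002000000170000001f0000007f0000001f0000000c000000180000001800000010 9 7) 0 0 (step_sound _ 164 [(rh0bb882ba86b2372d.shift 0 4), (rh574fdbf07bdd18b9.shift 0 4), (rh8dfaabd96171a6f4.shift 1 2), rhf95a4466acfc297b] (by decide +kernel))
noncomputable def rhfb74650b571039c7 : CRef := CRef.mk (Pat.mk 0x8000000080000000c0000000000000000000000000000000000000000 0x10000000180000007c0000003f0000007c000000380000001c0000000c00000004 9 7) 0 0 (step_sound _ 196 [(rh0bb882ba86b2372d.shift 0 5), (rh8ee2a6f83e328992.shift 2 0), (rhe54355bc0aaf2ee4.shift 0 2)] (by decide +kernel))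
noncomputable def rh2593e3f7b1f2a32b : CRef := CRef.mk (Pat.mk 0x80000000800000008000000040000000000000000 0x140000001f0000003f0000007f0000007f0000007a00000030 9 7) 0 0 (step_sound _ 67 [(rh5518da451fe03a08.shift 0 1), rh5b27c2e09512d685, (rh8ff3dde5b1c639e0.shift 2 0), (rha3351b5409dc08fd.shift 2 0), (rhc9de03f9731897d4.shift 3 0)] (by decide +kernel))
noncomputable def rh51b2e8a1ed96b14c : CRef := CRef.mk (Pat.mk 0x8000000080000000c0000000000000000000000000000000000000000 0x400000004000000160000001f0000007a0000001f0000003e000000180000001c0000000c00000004 9 7) 0 0 (step_sound _ 196 [(rh574fdbf07bdd18b9.shift 0 5), (rh816370e7b3ab1167.shift 1 0), (rhbbc91edacdf47d59.shift 0 3), (rhe54355bc0aaf2ee4.shift 0 2)] (by decide +kernel))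
noncomputable def rhc977e1bf2d36a6f5 : CRef := CRef.mk (Pat.mk 0x8000000080000000c0000000000000000 0x200000002000000170000001f0000007f0000001f0000000c00000008 9 7) 0 0 (step_sound _ 100 [rh07fbd21a758b89f3, (rh574fdbf07bdd18b9.shift 0 2), (rh8dfaabd96171a6f4.shift 1 0)] (by decide +kernel))
noncomputable def rhe7c87a164a16c836 : CRef := CRef.mk (Pat.mk 0x8000000080000000c0000000000000000000000000000000000000000 0x2000000060000000f0000007f0000003f0000007c000000180000001c0000000c00000004 9 7) 0 0 (step_sound _ 196 [(rh0bb882ba86b2372d.shift 0 5), (rh574fdbf07bdd18b9.shift 0 5), rh662e8142c34758db, (rh76892d551264aa0e.shift 0 3)] (by decide +kernel))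
noncomputable def rh0458b03499fb23ee : CRef := CRef.mk (Pat.mk 0x8000000080000000c0000000000000000000000000000000000000000 0x1000000018000000780000003f0000007c000000380000001c0000000c00000004 9 7) 0 0 (step_sound _ 196 [(rh69012675dfdb1a5b.shift 0 5), (rh7ce20fb4f79b94b5.shift 0 2), (rh8ee2a6f83e328992.shift 2 0)] (by decide +kernel))
noncomputable def rh40560664baa911f8 : CRef := CRef.mk (Pat.mk 0x8000000080000000c000000000000000000000000 0x2000000170000007e0000007f0000000c000000180000001800000010 9 7) 0 0 (step_sound _ 67 [(rh6c59ce14113da07f.shift 3 0), (rh8ff3dde5b1c639e0.shift 2 0), (rh9a8da976d7c183f9.shift 0 2)] (by decide +kernel))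
noncomputable def rhfdeb493a4a1b3130 : CRef := CRef.mk (Pat.mk 0x10000000180000000800000000 0x3e0000003e000000ff000000fe000000cf00000046 9 8) 0 0 (step_sound _ 132 [rh3f83099c846409b0, (rh5c5e593799055d58.shift 3 1)] (by decide +kernel))
noncomputable def rh90c0b5a0aa25a821 : CRef := CRef.mk (Pat.mk 0x10000000180000000800000000 0xc0000001c0000003c0000001f0000007c0000000f0000000c 9 7) 0 0 (step_sound _ 132 [(rh5c5e593799055d58.shift 3 1), rhb21d25c9988ea204] (by decide +kernel))
noncomputable def rh2fb67f4943044562 : CRef := CRef.mk (Pat.mk 0x1800000008000000000000000000000000 0x100000001c0000003e0000000f0000007e0000001f0000003e0000001c00000014 9 7) 0 0 (step_sound _ 98 [(rh574fdbf07bdd18b9.shift 0 3), rh758b94a757721632, rhf9f638f94104d17b] (by decide +kernel))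
noncomputable def rh4d9e716459bcefbf : CRef := CRef.mk (Pat.mk 0x180000000c00000000000000000000000000000000 0x120000001e0000003e0000000f0000001e0000001f0000000e0000001c0000001c00000014 9 6) 0 0 (step_sound _ 129 [(rh53b3c253cb0c65f4.shift 0 4), rh8766ad15bf2b68ad] (by decide +kernel))
noncomputable def rh28d6b29d03b60942 : CRef := CRef.mk (Pat.mk 0xe000000020000000000000000000000000 0x80000001ae000000fe000001ff000000580000005000000010 9 9) 0 0 (step_sound _ 132 [(rh12a8fe794653971a.shift 0 3), (rh708c3bc8fe2f3084.shift 1 3), (rhd1ff8027c4c86c76.shift 1 3), (rhf459621b93742302.shift 3 1), (rhf4f1a03a19e2b36a.shift 3 0)] (by decide +kernel))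
noncomputable def rhb9b2972f58c6bbfc : CRef := CRef.mk (Pat.mk 0x18000000080000000800000000000000000000000000000000 0xc0000000c0000000c000000780000001f0000007c000000180000001c0000001c00000004 9 7) 0 0 (step_sound _ 162 [(rh313a8fcc04d2c040.shift 2 0), (rh69012675dfdb1a5b.shift 0 5), (rhbd8dff2a50231c67.shift 0 1), (rhbde007d47b9dc637.shift 0 3)] (by decide +kernel))
noncomputable def rhb64fa7c48065f1dc : CRef := CRef.mk (Pat.mk 0x18000000080000000800000000 0x140000001c0000001c0000000c000000780000003f0000003f00000014 9 7) 0 0 (step_sound _ 131 [rh098bc7705ecc427a, (rh5abfc4c9d959be03.shift 2 0), rh9c061216ec097908, (rha087c6594f4bfb59.shift 2 0), (rhce9a49803a550f13.shift 2 0), rhe08b45fbf94e34ce] (by decide +kernel))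
noncomputable def rh27905108af7989e0 : CRef := CRef.mk (Pat.mk 0x180000000800000008000000000000000000000000 0x40000000c0000000c00000078000000ff0000007e0000007c0000003000000010 9 8) 0 0 (step_sound _ 130 [(rh03bd3de0eda75619.shift 0 3), (rh6065c35a6452348e.shift 1 1), (rh69012675dfdb1a5b.shift 0 4), (rhbde007d47b9dc637.shift 0 2), rhd50e2621227fd617] (by decide +kernel))
noncomputable def rhf7f65d4793124bfc : CRef := CRef.mk (Pat.mk 0x18000000080000000800000000000000000000000000000000 0x100000001c0000001c0000000c0000001e0000007f0000007e000000780000003c0000001c00000014 9 7) 0 0 (step_sound _ 132 [(rh1fb66c4f2a829270.shift 2 3), (rh70e33bfdf511e144.shift 3 1), rhb9c806a260e53e28, (rhef8e86f5c8d8df08.shift 1 2)] (by decide +kernel))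
noncomputable def rh1a6a8bdf9dba289a : CRef := CRef.mk (Pat.mk 0x180000000800000008000000000000000000000000 0x40000001c0000001c000000ff0000007e000000fc00000004 9 8) 0 0 (step_sound _ 67 [(rh1f8272c5fda13dae.shift 0 1), (rha8bc3cae4d77a08f.shift 2 0), (rhffd0ff6f60fa3c9a.shift 2 1)] (by decide +kernel))
noncomputable def rhc0117486889ca05f : CRef := CRef.mk (Pat.mk 0x18000000080000000800000000 0x140000001c0000001e0000000f0000001e0000003f0000003f00000014 9 6) 0 0 (step_sound _ 131 [(rh5abfc4c9d959be03.shift 2 0), (rh89c6db6d247febc1.shift 2 0), rh97a1fcadaeaab608, (rha087c6594f4bfb59.shift 2 0), (rhce9a49803a550f13.shift 2 0), rhf3d11b058448e968] (by decide +kernel))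
noncomputable def rh3cfc8c917b5e6e0e : CRef := CRef.mk (Pat.mk 0x180000000800000008000000000000000000000000 0x100000001c0000001c0000002f0000007c0000002f0000007c000000340000001000000010 9 7) 0 0 (step_sound _ 130 [(rh4241b995bcd449e6.shift 0 2), rh62115c5e5d7c49d8, (rh8bfc49d28ab751de.shift 0 2), (rhd69c262cd33b94b3.shift 0 4)] (by decide +kernel))
noncomputable def rh867d539dc19f07ec : CRef := CRef.mk (Pat.mk 0x1800000008000000000000000000000000 0x100000001c0000003e0000000f0000007e0000007f0000003e0000001c00000014 9 7) 0 0 (step_sound _ 98 [(rh69012675dfdb1a5b.shift 0 3), (rha3c7ab18665de4e2.shift 1 1), rhb371a4282a47b4f9] (by decide +kernel))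
noncomputable def rh6cee58d0f1a87727 : CRef := CRef.mk (Pat.mk 0x200000003000000010000000000000000000000000 0x80000002e000000ff000000fe000000fe0000007400000060 9 8) 0 0 (step_sound _ 68 [(rh71222050f2c63a3a.shift 4 1), rh75118b1877231717] (by decide +kernel))
noncomputable def rha6962320404b690b : CRef := CRef.mk (Pat.mk 0x100000001800000008000000000000000000000000 0x8000000180000007f0000007f0000007f0000003c00000004 9 7) 0 0 (step_sound _ 67 [(rh71222050f2c63a3a.shift 3 1), rhb961676293c19df4] (by decide +kernel))
noncomputable def rhc8f43f9ea392a74d : CRef := CRef.mk (Pat.mk 0x1000000010000000180000000000000000000000000000000000000000 0x28000000780000001e000000380000001f0000003c000000380000003800000008 9 7) 0 0 (step_sound _ 132 [(rh520a12e6c4a32389.shift 0 3), (rh5ee4dc8825dcefa0.shift 1 3), (rh71c8507f95e236f3.shift 3 0), (rhed841d9ebc5dd0e1.shift 3 1)] (by decide +kernel))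
noncomputable def rhd25bc288147da41d : CRef := CRef.mk (Pat.mk 0x10000000100000001800000000 0x280000003c0000003f0000007f0000001f0000003f00000014 9 7) 0 0 (step_sound _ 131 [(rh0dbc8abee7ad42d4.shift 3 0), (rh114f4abf4ea101c9.shift 3 0), rh2ef62a437e325a7a, (rh466a2277bc06011f.shift 3 1), (rha5dc83e34999ae02.shift 1 0)] (by decide +kernel))
noncomputable def rhebb8831927da9fe0 : CRef := CRef.mk (Pat.mk 0x2000000030000000000000000000000000 0x500000007000000070000000f0000003bf000001fe000003fe0000006000000040 9 10) 0 0 (step_sound _ 165 [rh2930514e9600f400, (rh6c03a9ef5fb89cef.shift 4 2), (rhbf000823819f4c0d.shift 4 1), (rhc869f784f28ceae9.shift 2 1)] (by decide +kernel))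
noncomputable def rh148017f32e970c20 : CRef := CRef.mk (Pat.mk 0x1000000018000000000000000000000000 0x380000007c000001de000000f8000000ff0000007f0000001c 9 9) 0 0 (step_sound _ 67 [rh37f1a8ce4544eb11, (rh91317bda041b6848.shift 1 0), (rhadf429772c25fde0.shift 3 0), (rhe520ed8e517074dc.shift 0 1)] (by decide +kernel))
noncomputable def rh8afd548d94d4f1de : CRef := CRef.mk (Pat.mk 0x1000000018000000080000000000000000 0x170000001f0000001f0000000e0000000c0000000c 9 5) 0 0 (step_sound _ 35 [rh28c1bd4aed63d1bc, (rh71222050f2c63a3a.shift 3 0)] (by decide +kernel))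
noncomputable def rh1a6abc4cb2c4aae4 : CRef := CRef.mk (Pat.mk 0x1000000018000000080000000000000000 0x80000000f0000001f0000001f0000007e0000007e0000003c 9 7) 0 0 (step_sound _ 35 [(rh71222050f2c63a3a.shift 3 0), rh8e2a06557c8b21ec] (by decide +kernel))
noncomputable def rh416852a9415d04c5 : CRef := CRef.mk (Pat.mk 0x4000000070000000000000000000000000 0x50000000500000007e000003fe000003b70000002000000020 9 10) 0 0 (step_sound _ 69 [(rh456bd46ee780865d.shift 0 2), (rhf9366b6a121593ef.shift 5 0), (rhfcf10e4e636fb502.shift 1 0)] (by decide +kernel))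
noncomputable def rh76b243c31215b2b0 : CRef := CRef.mk (Pat.mk 0x4000000070000000000000000000000000 0x20000000280000076f000003fe000003bf0000001000000010 9 11) 0 0 (step_sound _ 99 [(rh43f347773e49e4e8.shift 2 0), (rh5e601430b8bc2e39.shift 0 2), (rh7fb660bc21ce4329.shift 1 3), (rh830476f8919f4a8e.shift 2 2), (rhe6f3c981f45ee7b2.shift 2 0)] (by decide +kernel))
noncomputable def rh6625e51cf26481e6 : CRef := CRef.mk (Pat.mk 0x70000000000000000000000000 0x10000000180000001e000001f8000003bc0000001f0000001c 9 10) 0 0 (step_sound _ 131 [(rh4df35fbc131eb4ae.shift 1 3), (rh8bb330ee5aea9f6b.shift 2 0), rh9f54117135443173, (rhe79590487a395ecc.shift 3 2), (rhf119fefe21067f2b.shift 2 1)] (by decide +kernel))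
noncomputable def rhd46f02e6a06a416e : CRef := CRef.mk (Pat.mk 0x2000000070000000000000000000000000 0x80000003bf000003fe000001f70000004000000040 9 10) 0 0 (step_sound _ 70 [(rh3dc85d4e0f820638.shift 3 0), (rh7d7468ac364f2a3c.shift 3 0), (rh9909eeda0ef2ed2c.shift 3 2), (rhb2afcb5db661472f.shift 1 2), rhd1e9dd252e2b6dca] (by decide +kernel))
noncomputable def rh71fe8b0d2a54be7b : CRef := CRef.mk (Pat.mk 0x2000000070000000000000000000000000 0x80000003b7000001fe000001ff000003f800000070 9 10) 0 0 (step_sound _ 68 [rh0549ab23737c8f5b, (rh29b61aa88390a269.shift 3 0), (rhdc1641106d7e5aa2.shift 3 2)] (by decide +kernel))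
noncomputable def rhf864d0ce545cd5a7 : CRef := CRef.mk (Pat.mk 0x1000000038000000000000000000000000 0x8000001dc000000f8000001fc0000001f0000001c 9 9) 0 0 (step_sound _ 102 [(rh3b00e9e9432b8f40.shift 2 2), (rh3fc3a7fb6866dcd4.shift 3 2), rh45da629abd89e1ab] (by decide +kernel))
noncomputable def rh6c1da8fae789e226 : CRef := CRef.mk (Pat.mk 0x1000000038000000000000000000000000 0x40000001f000000fe000000fe0000007c00000038 9 8) 0 0 (step_sound _ 67 [(rh04048a4a2acf2c94.shift 2 2), rh80a0ebe3a8491f16, (rhbb767f3223ea2dd1.shift 1 0)] (by decide +kernel))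
noncomputable def rhf9a986fc36560963 : CRef := CRef.mk (Pat.mk 0x100000001c00000000000000000000000000000000 0x8000000180000001c000000140000003f000000ff0000003b0000002a00000022 9 8) 0 0 (step_sound _ 100 [rh261394acaabdd456, (rhb200f8a046f24278.shift 2 0), (rhc21a95c499b3efdb.shift 1 3)] (by decide +kernel))
noncomputable def rhe0c2c833b9750f93 : CRef := CRef.mk (Pat.mk 0x100000001c000000000000000000000000 0x280000003c0000003c000000170000003f000000fb0000002a00000008 9 8) 0 0 (step_sound _ 68 [rh3336768fdb1a82e3, (rh8ee80cc30e93a344.shift 1 2), (rha634f858da7e466a.shift 2 1)] (by decide +kernel))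
noncomputable def rh6320ea0e21ea37ce : CRef := CRef.mk (Pat.mk 0x2000000038000000000000000000000000 0xa0000000e0000002e0000002f0000003e0000007f0000001c00000018 9 7) 0 0 (step_sound _ 98 [(rh02bc3e0d6c7f3f80.shift 1 0), (rh775ca1963e850b80.shift 0 2), (rh9483656c38360087.shift 1 0)] (by decide +kernel))
noncomputable def rhb9f8b559e4ed0f7d : CRef := CRef.mk (Pat.mk 0x1000000018000000000000000000000000 0x380000007f0000001f0000007e0000007f0000003c0000000c 9 7) 0 0 (step_sound _ 67 [rh6e0fc4ae5b088cc2, (rh8fa3e6caf2257465.shift 1 1), (rhcf80391c5046a495.shift 3 0)] (by decide +kernel))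
noncomputable def rh8b9dd394665b82b6 : CRef := CRef.mk (Pat.mk 0x18000000080000000000000000 0x1c0000003e000000ff0000007e000000180000001800000018 9 8) 0 0 (step_sound _ 132 [(rh51c030f37004a9c1.shift 0 1), (rhcf80391c5046a495.shift 3 0), (rhe05013472713b83b.shift 1 0), (rhf9366b6a121593ef.shift 3 0)] (by decide +kernel))
noncomputable def rh967558bb4e4a39f1 : CRef := CRef.mk (Pat.mk 0x300000001000000010000000000000000000000000 0x1cf000001fe000003f700000010000000380000003800000028 9 10) 0 0 (step_sound _ 68 [(rh3b1b252673256000.shift 0 1), (rh8c3839f9b9075f23.shift 4 0), (rh8cdd36b03d57a2f6.shift 3 0), (rhecf4cf49642b1cf9.shift 2 1)] (by decide +kernel))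
noncomputable def rh5fc685152b5f0b6a : CRef := CRef.mk (Pat.mk 0xc00000004000000040000000000000000 0x80000000e0000000e0000001e0000007c0000007f0000007c0000007f0000001a00000018 9 7) 0 0 (step_sound _ 67 [(rh14b9821616f990a3.shift 1 0), (rh330b1afeca33f8f0.shift 0 1), (rh76a564c19d4fb3aa.shift 0 1), (rha3b39134b535a08b.shift 0 1), (rhe94c1eb9b099fd2a.shift 1 1)] (by decide +kernel))
noncomputable def rh0672c9237f8b7afd : CRef := CRef.mk (Pat.mk 0x2000000030000000100000000000000000 0x180000007e0000003e000000f70000003e0000003c 9 8) 0 0 (step_sound _ 36 [(rh71222050f2c63a3a.shift 4 0), rhddf9d0f07d8458e3] (by decide +kernel))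
noncomputable def rhf0ca7b9598944971 : CRef := CRef.mk (Pat.mk 0xc00000004000000000000000000000000 0x1f0000001f0000003f0000003c0000007c0000007f0000001e00000018 9 7) 0 0 (step_sound _ 163 [(rh21b38f898b67523b.shift 0 1), (rh4821dcf828b9d7bf.shift 2 1), rh5b3a37c69359f40a, (rhadf429772c25fde0.shift 2 1)] (by decide +kernel))
noncomputable def rha2fd0e282b89f157 : CRef := CRef.mk (Pat.mk 0x38000000080000000000000000 0x1000000030000003b7000001fe000001f8000000ec00000068 9 10) 0 0 (step_sound _ 132 [(rh4d4af7a4d1ecf754.shift 2 0), (rhadf429772c25fde0.shift 3 0), rhc8ac56845541b594] (by decide +kernel))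
noncomputable def rh10c36ae14e3811dc : CRef := CRef.mk (Pat.mk 0x700000001000000000000000000000000 0x40000007c0000003f0000007f0000001e0000001c00000014 9 7) 0 0 (step_sound _ 131 [rh147182556a1f94bb, (rh3d54e7f933686048.shift 0 3), (rha93a5dd541ab8209.shift 0 3), (rhd584a578337d0023.shift 0 3), (rhf3baec4a0a3dd35e.shift 0 3)] (by decide +kernel))
noncomputable def rhe088509686abc7a6 : CRef := CRef.mk (Pat.mk 0x38000000080000000000000000 0x3000000030000003f7000001ff000001f80000007800000038 9 10) 0 0 (step_sound _ 132 [(rh113b7782ed76706f.shift 3 1), (rh2288baf270c8f823.shift 2 1), (rh4e538b1a5b7b5264.shift 1 0), rh5e1e2d6dcdb504a9, (rhadf429772c25fde0.shift 3 0), rhb56e0482b814de8c] (by decide +kernel))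
noncomputable def rhb4632218ebf8df89 : CRef := CRef.mk (Pat.mk 0x3800000010000000000000000000000000 0x3000000030000000700000003e00000077000000600000006000000060 9 7) 0 0 (step_sound _ 130 [(rh05b9ad096e06d11f.shift 0 3), (rh92eeac1c1b6d8178.shift 2 0), (rhb2432c16363a7e8d.shift 0 3)] (by decide +kernel))
noncomputable def rh2b6fc48140a2bc0a : CRef := CRef.mk (Pat.mk 0xe0000000400000000 0x1a0000001f0000007f0000003e0000007c00000018 9 7) 0 0 (step_sound _ 68 [(rh3fc3a7fb6866dcd4.shift 1 1), (rhb18e6c78a554867d.shift 0 2), (rhe401600d466b97cd.shift 0 1), rhe5624cc9140f5917] (by decide +kernel))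
noncomputable def rh502c81d6f7d1bcb7 : CRef := CRef.mk (Pat.mk 0x1c0000000400000000000000000000000000000000 0x80000000a0000000f0000007e000000f40000001e0000001e0000000e0000000a 9 8) 0 0 (step_sound _ 98 [(rh0a2c831c184a5d52.shift 0 2), (rh215e11e099257d75.shift 2 2), (rhe90a5e266d4684db.shift 1 0), (rhf47aaf50b8322cf6.shift 0 1)] (by decide +kernel))
noncomputable def rh2363d6b8ea807ffd : CRef := CRef.mk (Pat.mk 0x70000000100000000000000000 0x2800000028000000fe0000007e000003d7000000f800000050 9 10) 0 0 (step_sound _ 133 [(rh4821dcf828b9d7bf.shift 4 0), (rhbdaf8c74e7ba3287.shift 2 0), (rhe288f728cf3077fd.shift 0 1), (rhfb18a167032585a6.shift 2 0)] (by decide +kernel))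
noncomputable def rh59a286d117ba5322 : CRef := CRef.mk (Pat.mk 0x1800000008000000000000000000000000 0x1c0000003e0000007f0000007e000000780000003c0000003c00000034 9 7) 0 0 (step_sound _ 196 [(rh16cbd58a1619e6a8.shift 3 1), (rh31501b6cdb328657.shift 1 2), rh48c90d2d40e815c9, (rhc029edca28d9028d.shift 1 0), (rhfca50a465a3469f7.shift 1 2)] (by decide +kernel))
noncomputable def rh42d80e229b12b718 : CRef := CRef.mk (Pat.mk 0x4000000070000000000000000000000000 0x140000003c0000003c0000007f0000007e000000df0000005800000010 9 8) 0 0 (step_sound _ 99 [(rh4983c44f3a2eb597.shift 2 1), (rh5e601430b8bc2e39.shift 0 2), (rhfec7aac82304c0db.shift 2 0)] (by decide +kernel))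
noncomputable def rhf8c8f18113bb467c : CRef := CRef.mk (Pat.mk 0x80000000c000000000000000000000000 0x1000000010000000780000007f0000007f000000780000003800000010 9 7) 0 0 (step_sound _ 132 [rh3a2ef2ea38309b88, (rh3ae20d9d9cef5206.shift 1 1), (rh69012675dfdb1a5b.shift 0 3), (rhd69c262cd33b94b3.shift 0 3)] (by decide +kernel))
noncomputable def rh81058874d2d1abe4 : CRef := CRef.mk (Pat.mk 0x80000000c00000000000000000000000000000000 0x100000001c0000001c0000003e0000007c0000003f000000780000003c0000001c00000014 9 7) 0 0 (step_sound _ 164 [(rh0bb882ba86b2372d.shift 0 4), (rh5f8bf3449e48f429.shift 1 0), (rhf4eb9795ea80005a.shift 0 1)] (by decide +kernel))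
noncomputable def rhbe61e7082cea3179 : CRef := CRef.mk (Pat.mk 0x100000001c0000000000000000 0x1c0000003c0000007f000003ff000001fc000001d600000014 9 10) 0 0 (step_sound _ 98 [(rh3043f8a6a6b38f48.shift 1 0), (rh51182d92c4df7d7f.shift 1 0), (rh97e6ccf26cba4095.shift 1 1), (rha3ed21156e2bcae6.shift 0 1), (rhc285527e08d8cdd3.shift 1 0)] (by decide +kernel))
noncomputable def rh72d33c4893b80a58 : CRef := CRef.mk (Pat.mk 0x80000000c00000000000000000000000000000000 0x1000000054000000ff0000007f0000007f00000073000000720000005000000040 9 8) 0 0 (step_sound _ 164 [(rh04561ea046c0cfb0.shift 0 1), (rh0bb882ba86b2372d.shift 0 4), (rh574fdbf07bdd18b9.shift 0 4), rh738a231c700b3415] (by decide +kernel))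
noncomputable def rh96e447fa0a369afe : CRef := CRef.mk (Pat.mk 0x1000000018000000100000000000000000 0x30000000380000007f000000ff000000f8000000300000001000000010 9 8) 0 0 (step_sound _ 131 [(rhc1d9d5520f118042.shift 1 2), rhdeda6dfdbc7fee2e, (rhfc7c29d8e65d775f.shift 3 1)] (by decide +kernel))
noncomputable def rh54d72730b199f96f : CRef := CRef.mk (Pat.mk 0x100000001800000010000000000000000000000000 0x2f000000ff000000f800000010000000380000003800000028 9 8) 0 0 (step_sound _ 68 [(rh8cdd36b03d57a2f6.shift 3 0), (rh9cf53d219962c6e9.shift 0 2)] (by decide +kernel))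
noncomputable def rh3d94452a2fb32e7c : CRef := CRef.mk (Pat.mk 0x4000000060000000400000000 0xa0000000e0000003f0000003f0000001e0000003c00000018 9 6) 0 0 (step_sound _ 130 [(rh5abfc4c9d959be03.shift 1 0), rha1f9145d0e016d44, (rhc85cc95794737cf7.shift 1 1), (rhced6d86d2069808b.shift 2 0)] (by decide +kernel))
noncomputable def rh2446f3a8531e6acd : CRef := CRef.mk (Pat.mk 0xa0000000300000000000000000000000000000000 0x10000000140000001f0000003e0000001f0000007e0000001e0000001c00000014 9 7) 0 0 (step_sound _ 164 [rh6c412e381acbe481, (rhb2a0b9ccfb5cecd5.shift 0 4)] (by decide +kernel))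
noncomputable def rh29155dfec1348a8d : CRef := CRef.mk (Pat.mk 0x280000000c0000000000000000000000000000000000000000 0x140000001c0000001c000000780000000f0000007c0000001c0000001c0000001c00000004 9 7) 0 0 (step_sound _ 196 [(rh18965a982d73c794.shift 2 5), rh4a6edf4abcd50aa0] (by decide +kernel))
noncomputable def rh556f05fc988fab1c : CRef := CRef.mk (Pat.mk 0x8000000080000000c00000000000000000000000000000000 0x160000001f0000007b0000001f0000001c0000001c0000001c00000010 9 7) 0 0 (step_sound _ 164 [rh32bf982a9ca5b0a4, (rh574fdbf07bdd18b9.shift 0 4), (rh702ec5379705ccc9.shift 0 1)] (by decide +kernel))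
noncomputable def rh873bd9efae88f306 : CRef := CRef.mk (Pat.mk 0x200000003000000000000000100000000000000000 0x2800000078000003fe000001ff000003fe00000010 9 10) 0 0 (step_sound _ 36 [(rh04253f50b6dd0619.shift 4 1), rhd48f7eeb32f35c31] (by decide +kernel))
noncomputable def rh09c5b488e2054830 : CRef := CRef.mk (Pat.mk 0x1000000018000000080000000000000000 0x4000003b7000001fe000000ff0000000800000008 9 10) 0 0 (step_sound _ 35 [(rh553c78e58363607d.shift 0 1), (rh71222050f2c63a3a.shift 3 0)] (by decide +kernel))
noncomputable def rh460a433f40c0617a : CRef := CRef.mk (Pat.mk 0x280000000c0000000000000000000000000000000000000000 0x100000001c0000001e000000780000000f0000007c000000180000001c0000001c00000004 9 7) 0 0 (step_sound _ 196 [(rh18965a982d73c794.shift 2 5), rha80b175d410845d9] (by decide +kernel))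
noncomputable def rh715c5c4f9173fc73 : CRef := CRef.mk (Pat.mk 0x80000000e000000000000000000000000 0x10000000120000007b000000fe0000007f0000003c0000003c 9 8) 0 0 (step_sound _ 100 [(rh06db8ceda6269a47.shift 0 2), rh2395824d1086e2bc, rh7c8e6beafbf8114e, (rha8a5a5dab7e31fcc.shift 0 1), (rha93a5dd541ab8209.shift 1 2)] (by decide +kernel))
noncomputable def rh370fa11e5b2c6553 : CRef := CRef.mk (Pat.mk 0x280000000c000000000000000000000000 0x100000001c0000001c0000001e0000001f0000007a0000000f0000000e0000000c00000004 9 7) 0 0 (step_sound _ 132 [(rh18965a982d73c794.shift 2 3), rhd5dc3f5096207db7] (by decide +kernel))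
noncomputable def rh9a8448f7cbe7ab32 : CRef := CRef.mk (Pat.mk 0x5000000018000000000000000000000000 0x280000003c000000fc00000077000000fe000001ff000000f800000028 9 9) 0 0 (step_sound _ 164 [rh3300f053f4f1252b, (rh66ac29485c8cba5d.shift 2 2), (rhd91bb7dc99842b0d.shift 2 0)] (by decide +kernel))
noncomputable def rh9be259fd197827c5 : CRef := CRef.mk (Pat.mk 0x3000000014000000000000000000000000 0xa0000000e0000000e0000001e0000003e0000001f0000003e0000000e0000000e 9 6) 0 0 (step_sound _ 97 [rh02ab6acdafb65f31, (rh1c62b6193297d9e3.shift 1 3)] (by decide +kernel))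
noncomputable def rh7e162ae4b9567f73 : CRef := CRef.mk (Pat.mk 0x180000000a000000000000000000000000 0x4000000140000001e0000007f0000007a0000000f0000001e0000001c00000014 9 7) 0 0 (step_sound _ 98 [(rh53b3c253cb0c65f4.shift 0 3), rhe974c72cdab11fe2] (by decide +kernel))
noncomputable def rh589f8306b45c0137 : CRef := CRef.mk (Pat.mk 0x30000000180000000000000000000000000000000000000000 0x3000000038000000f8000000d8000000ff000000fc0000003c0000001000000010 9 8) 0 0 (step_sound _ 198 [(rh18965a982d73c794.shift 3 5), rhc53998b84295c748] (by decide +kernel))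
noncomputable def rhc8254e86b2cb59d5 : CRef := CRef.mk (Pat.mk 0x20000000000000003000000010 0x2000000020000001ff0000007e000000ff0000007c00000010 9 9) 0 0 (step_sound _ 133 [(rh3c88ce959c0e423f.shift 4 0), rhd3be3dea40426ecd] (by decide +kernel))
noncomputable def rh03dcc35e27895c8b : CRef := CRef.mk (Pat.mk 0x400000000000000060000000200000000000000000 0x5000000050000003de000001fe000003b7000000a000000020 9 10) 0 0 (step_sound _ 134 [(rh5c5e593799055d58.shift 5 2), rh81a9389f1f5dc579] (by decide +kernel))
noncomputable def rh1a2e6d57194f3059 : CRef := CRef.mk (Pat.mk 0x2000000000000000300000001000000000000000000000000000000000 0x280000003e000000f800000018000000380000003f0000003c00000028 9 8) 0 0 (step_sound _ 100 [(rh02b61373514f8551.shift 1 3), rh192f36cdf8bf65ea, (rh42a7bbf213dec003.shift 4 2), (rhb8c18aeece372d98.shift 3 0)] (by decide +kernel))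
noncomputable def rh5af1a2e609b00ebf : CRef := CRef.mk (Pat.mk 0x18000000080000000800000000 0x2000000160000001f0000003f0000001f0000000f0000003c00000014 9 6) 0 0 (step_sound _ 131 [(rh5c2604daa0330ae7.shift 2 0), (rhe6f4d6fca8ddbfc7.shift 0 1), rhf3d11b058448e968, rhf5601c515df07cd0] (by decide +kernel))
noncomputable def rhf7e2cbcffc0d71a8 : CRef := CRef.mk (Pat.mk 0x7000000010000000000000000000000000 0x3800000038000000ff0000007f000000dc0000004c0000000c0000000c 9 8) 0 0 (step_sound _ 131 [(rh4c622fddc53a5f99.shift 1 4), (rh4e9101e89b88eb2f.shift 2 2), (rhd050ea11a2b85eec.shift 0 3), (rhd79a59188b24ad76.shift 2 0)] (by decide +kernel))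
noncomputable def rh56c296bfcf9f2810 : CRef := CRef.mk (Pat.mk 0x8000000080000000c00000000000000000000000000000000 0x400000004000000160000001f0000007b0000001f0000000e0000001c0000001c00000010 9 7) 0 0 (step_sound _ 164 [rh32bf982a9ca5b0a4, (rh574fdbf07bdd18b9.shift 0 4), (rhbbc91edacdf47d59.shift 0 2), (rhca044724da5aa4b9.shift 1 0)] (by decide +kernel))
noncomputable def rhf10189e2d82521e0 : CRef := CRef.mk (Pat.mk 0x8000000080000000c00000000 0x140000001c0000001c0000001c0000001c0000001f0000007f0000001f0000000a 9 7) 0 0 (step_sound _ 131 [(rh01b2667fa3510c31.shift 2 0), rh5518da451fe03a08, (rhe62cab2ff5ad6fe2.shift 2 1)] (by decide +kernel))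
noncomputable def rhe1a3c9cb7b0f5338 : CRef := CRef.mk (Pat.mk 0x1000000018000000080000000000000000 0xe0000001f0000007f0000000f0000000c0000000c 9 7) 0 0 (step_sound _ 35 [rh4d78048a5a1b5190, (rh71222050f2c63a3a.shift 3 0)] (by decide +kernel))
noncomputable def rh2018a47de441e643 : CRef := CRef.mk (Pat.mk 0x10000000180000000800000000 0x380000003c000001f7000000ff000001fc00000030 9 9) 0 0 (step_sound _ 132 [rh304c8e484ff1376c, (rh5c5e593799055d58.shift 3 1)] (by decide +kernel))
noncomputable def rh004d7bdebbc32a4f : CRef := CRef.mk (Pat.mk 0x100000001800000008000000000000000000000000 0x20000000720000007f000000ff000000ff0000003c00000004 9 8) 0 0 (step_sound _ 67 [rh30258c882a5192cf, (rh71222050f2c63a3a.shift 3 1)] (by decide +kernel))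
noncomputable def rhda24218a4ea779a3 : CRef := CRef.mk (Pat.mk 0x1000000018000000080000000000000000 0x2000000020000000f0000003f0000001f0000003e0000007800000038 9 7) 0 0 (step_sound _ 35 [(rh71222050f2c63a3a.shift 3 0), rhb85cf95f6d9d0158] (by decide +kernel))
noncomputable def rh41084cd88909ec2e : CRef := CRef.mk (Pat.mk 0x8000000080000000c000000000000000000000000 0x140000001e0000007c0000007c0000007f0000003f00000004 9 7) 0 0 (step_sound _ 66 [(rh37a2dab74636ef75.shift 1 1), (rhb79a2b2290561fe7.shift 0 1), (rhf9af042da61fc652.shift 2 0)] (by decide +kernel))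
noncomputable def rh23ddabe560a9fd17 : CRef := CRef.mk (Pat.mk 0x8000000080000000c000000000000000000000000 0x6000000060000007f0000007f0000007f000000770000003400000030 9 7) 0 0 (step_sound _ 132 [(rh0bb882ba86b2372d.shift 0 3), (rh574fdbf07bdd18b9.shift 0 3), rha76eae133ab2d15c, (rhf6641e21fecad291.shift 0 1)] (by decide +kernel))
noncomputable def rhd6b46ef4d63f4f29 : CRef := CRef.mk (Pat.mk 0x8000000080000000c00000000000000000000000000000000 0x1c0000007f0000003f0000003c0000001c0000001c00000010 9 7) 0 0 (step_sound _ 66 [(rh06181a2dc624c6f8.shift 2 2), rh4135c882e9529957, (rhd5b92086fe7b06e3.shift 2 1), (rhdebc43b768884653.shift 2 1)] (by decide +kernel))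
noncomputable def rh4d2712b69654471c : CRef := CRef.mk (Pat.mk 0x1000000018000000080000000000000000 0x160000003f0000003f0000000f0000000c0000000c 9 6) 0 0 (step_sound _ 35 [rh3e0b4b03c72e8e85, (rh71222050f2c63a3a.shift 3 0)] (by decide +kernel))
noncomputable def rhfef93631424046d0 : CRef := CRef.mk (Pat.mk 0x1000000018000000000000000000000000 0x1c0000003c0000001f000000ff000000ff000000f80000003800000038 9 8) 0 0 (step_sound _ 131 [rh32b25a0950a1ec04, rh41439805cecdddf3, (rh77e93b8bac662a37.shift 1 0), (rhccf78e5d9aa6d10b.shift 0 1)] (by decide +kernel))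
noncomputable def rh041257c903dcdf27 : CRef := CRef.mk (Pat.mk 0x100000001800000000000000000000000000000000 0xc0000001c0000001c0000003800000078000000ff000000ff0000003c00000030 9 8) 0 0 (step_sound _ 99 [rh2963d5d995946267, (rhcf80391c5046a495.shift 3 1), (rhdf8c995f5568b9ec.shift 0 1), (rhf9366b6a121593ef.shift 3 1)] (by decide +kernel))
noncomputable def rhd9fae741b684096a : CRef := CRef.mk (Pat.mk 0x1000000018000000000000000000000000 0x1e0000001e0000001f000000ff000000ff0000001f0000007e0000001e 9 8) 0 0 (step_sound _ 131 [rh3b9cf22c625e7886, rh3c82c76931b548e0, rh4dd8ece1a845e992, rh5796260af93bf316, rhaffe25f6820585cb, (rhccf78e5d9aa6d10b.shift 0 1)] (by decide +kernel))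
noncomputable def rh32004359cc199f88 : CRef := CRef.mk (Pat.mk 0x100000001800000000000000000000000000000000 0xc0000001c0000001c0000001e0000007c000000ff0000007c0000003c00000030 9 8) 0 0 (step_sound _ 99 [(rh92c4f7a1f4a65363.shift 1 1), rh9b269f1017a1e841, (rhcf80391c5046a495.shift 3 1), (rhf9366b6a121593ef.shift 3 1)] (by decide +kernel))
noncomputable def rh23c1319be9904c3a : CRef := CRef.mk (Pat.mk 0x100000001800000000000000000000000000000000 0xc0000001c0000001e0000007c0000001c000000fc000000ff0000003c00000030 9 8) 0 0 (step_sound _ 99 [(rh18eb1acbf9e29f41.shift 1 0), (rha3b6e9249503a30a.shift 0 1), (rhcf80391c5046a495.shift 3 1), (rhf9366b6a121593ef.shift 3 1)] (by decide +kernel))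
noncomputable def rh107df9a6c443f1b7 : CRef := CRef.mk (Pat.mk 0x100000001800000000000000000000000000000000 0xc0000001c0000001c0000003e00000078000000ff0000007e0000003c00000030 9 8) 0 0 (step_sound _ 99 [rh2963d5d995946267, (rh92c4f7a1f4a65363.shift 1 1), (rhcf80391c5046a495.shift 3 1), (rhf9366b6a121593ef.shift 3 1)] (by decide +kernel))
noncomputable def rh059ffec2db449f2f : CRef := CRef.mk (Pat.mk 0x200000003000000000000000000000000000000000 0x380000003c000001ef000001ff000001ff000000fe000003fc00000068 9 10) 0 0 (step_sound _ 100 [rh83d630942b43ddcd, (rh887a54e0fe986f8e.shift 1 0), (rhcf80391c5046a495.shift 4 1), (rhf46f9cbf8f64f560.shift 0 1)] (by decide +kernel))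
noncomputable def rh083f1e2ed55ea8f3 : CRef := CRef.mk (Pat.mk 0x80000000800000008000000000000000000000000 0x140000001c0000001c000000180000001c0000001c0000007c0000001f0000000c0000000c 9 7) 0 0 (step_sound _ 195 [(rh12461e137161f2e1.shift 2 2), (rh367118e0bf0473e0.shift 2 1), (rh955015a71c1db4b8.shift 2 1), rhcea54c25d017684a, (rhdd4885de3c11a4cc.shift 2 2), (rhec40b1b9702b09ce.shift 2 0)] (by decide +kernel))
noncomputable def rh98f9594d29ea87e5 : CRef := CRef.mk (Pat.mk 0x80000000800000008000000000000000000000000 0x140000001c0000001c0000000c0000001c000000180000007c0000001f0000000c00000008 9 7) 0 0 (step_sound _ 195 [(rh42ccdbc5b0067310.shift 2 0), (rh6aa5625770489e83.shift 2 1), (rh955015a71c1db4b8.shift 2 1), rhcea54c25d017684a, (rhd7cb8ed87e2022d8.shift 2 2)] (by decide +kernel))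
noncomputable def rh818b39469c9ce443 : CRef := CRef.mk (Pat.mk 0x200000002000000020000000000000000 0x70000000700000007000000070000000700000007000000070000000600000002 9 3) 0 0 (step_sound _ 161 [(rh8b94f3fb7dd5497d.shift 0 1), (rhc17b7d8fab3dfe57.shift 0 1), (rhc4055b4872d6fb38.shift 0 1), rhce9487d7bd70535d, (rhdd4885de3c11a4cc.shift 0 1), (rhdd4c9993b616f443.shift 0 1)] (by decide +kernel))
noncomputable def rh557b92172e37c463 : CRef := CRef.mk (Pat.mk 0x100000001000000010000000000000000000000000 0x2f0000003e0000007f0000001c000000180000001800000008 9 7) 0 0 (step_sound _ 68 [(rh367118e0bf0473e0.shift 3 0), (rh6aa5625770489e83.shift 3 0), (rh98e17e8358eceaa2.shift 0 1), (rhc4055b4872d6fb38.shift 3 1)] (by decide +kernel))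
noncomputable def rh1a9e09f5a9602f9c : CRef := CRef.mk (Pat.mk 0x80000000800000008000000000000000000000000 0x140000001c0000001c000000180000001c0000001c0000001f0000007c0000001800000008 9 7) 0 0 (step_sound _ 195 [(rh12461e137161f2e1.shift 2 2), (rh4f39cd11514ea04a.shift 2 2), rh7c591bbbf1b6ccbd, (rhc9de03f9731897d4.shift 3 1), (rhe29f0676c21f9786.shift 2 0)] (by decide +kernel))
noncomputable def rhe8a670b7aec680ed : CRef := CRef.mk (Pat.mk 0x20000000200000002000000000000000000000000 0x7000000070000000700000003000000070000000700000007000000070000000600000006 9 3) 0 0 (step_sound _ 193 [rh42123b47b1238bbe, (rh46baee19951a66e7.shift 0 1), (rh4f39cd11514ea04a.shift 0 2), (rhd7cb8ed87e2022d8.shift 0 2), (rhe780389e20a6a7ac.shift 0 2), (rhfb812c0aa973830d.shift 0 2)] (by decide +kernel))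
noncomputable def rh8654ff227beb49f5 : CRef := CRef.mk (Pat.mk 0x80000000800000008000000000000000000000000 0x140000001f0000007f0000007f000000fe0000003800000010 9 8) 0 0 (step_sound _ 67 [(rh46baee19951a66e7.shift 2 0), (rh6682bb1542a1e99c.shift 0 1), (rhc4055b4872d6fb38.shift 2 1), (rhc9de03f9731897d4.shift 3 0)] (by decide +kernel))
noncomputable def rhd9ef6c6b989f76e8 : CRef := CRef.mk (Pat.mk 0x20000000200000000000000000000000000000000000000000 0x40000000600000006000000070000001ff000001ff000000ff0000007f0000007000000050 9 9) 0 0 (step_sound _ 133 [(rh088f357c2e4dac83.shift 0 3), (rh0bfcbc591bbec471.shift 4 0), (rh3a19160c6b0679e0.shift 0 1), (rh5e1465115ac307a9.shift 4 0), (rh659eb6aa1e5d49ed.shift 4 1), (rh9c31544c5db97ab1.shift 4 0), rhb912769947de1712, (rhfb24f9e5e729af53.shift 4 1)] (by decide +kernel))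
noncomputable def rhe5fc3a518128cb6e : CRef := CRef.mk (Pat.mk 0x100000001000000010000000000000000000000000 0x2f0000007e000000ff00000010000000380000003800000028 9 8) 0 0 (step_sound _ 68 [(rh46baee19951a66e7.shift 3 0), (rh6aa5625770489e83.shift 3 0), (rh8cdd36b03d57a2f6.shift 3 0), (rhf09f29b22888e770.shift 0 1)] (by decide +kernel))
noncomputable def rhd1eac5da36026ab9 : CRef := CRef.mk (Pat.mk 0x10000000100000001000000000 0x280000003f0000003e0000007f0000001c0000001800000008 9 7) 0 0 (step_sound _ 132 [(rh20966da26a1c2ae8.shift 3 0), (rh565a0c22519f57e9.shift 3 0), (rh762a1aeaf83c662a.shift 3 0), rh98e17e8358eceaa2, (rhc85cc95794737cf7.shift 3 1)] (by decide +kernel))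
noncomputable def rh3c4277356470454e : CRef := CRef.mk (Pat.mk 0x100000001000000010000000000000000000000000 0x2f0000007e000000ff00000010000000380000003800000028 9 8) 0 0 (step_sound _ 68 [(rh0bef15f6f142381f.shift 0 1), (rh46baee19951a66e7.shift 3 0), (rh6aa5625770489e83.shift 3 0), (rh8cdd36b03d57a2f6.shift 3 0)] (by decide +kernel))
noncomputable def rhec4b4543fa4d8e74 : CRef := CRef.mk (Pat.mk 0x1000000010000000100000000000000000 0x280000003c000000ff000000fe000003bf000001ff000001ff000001f60000006600000020 9 10) 0 0 (step_sound _ 133 [(rh1ffb41938490b159.shift 1 1), (rh3e96e85638f4f781.shift 1 1), (rh62632c8108f50d6d.shift 1 1), (rh65e23794d1f17fde.shift 1 1), (rhb42fcc0737288f79.shift 0 1), rhdb76bd9c60b0602d, (rhe198094e1288f217.shift 1 1), (rhed92c94d61031e96.shift 1 1)] (by decide +kernel))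
noncomputable def rh2ed7975a0c2f40ae : CRef := CRef.mk (Pat.mk 0x100000001000000010000000000000000000000000 0x2c0000003c000000fe000003ff000001fe000003ef000000ec0000000c 9 10) 0 0 (step_sound _ 99 [rh0675aa76af5ba2b7, (rh6d84eea8ffa7a943.shift 1 2), rha8f81ac901ece14a, (rhfafeb437ceb8396d.shift 3 0)] (by decide +kernel))
noncomputable def rh833f2fa0f35b1de8 : CRef := CRef.mk (Pat.mk 0x200000002000000020000000000000000 0x10000000700000007000000070000000300000003000000070000000600000006 9 3) 0 0 (step_sound _ 161 [rh46baee19951a66e7, (rh950167ce9f0ab7e5.shift 0 1), rhaf0c2377ff359e94, (rhc17b7d8fab3dfe57.shift 0 1), rhf517b930ee0bd92d] (by decide +kernel))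
noncomputable def rh3df3c68f2a7fa7d4 : CRef := CRef.mk (Pat.mk 0x400000004000000040000000000000000 0x80000000e0000000e0000000f0000003c0000000c0000000e0000000600000006 9 6) 0 0 (step_sound _ 162 [(rh148a561aade3387e.shift 1 0), (rh1bd0c14c4de1ef4d.shift 0 1), (rh367118e0bf0473e0.shift 1 0), (rh762a1aeaf83c662a.shift 1 1), (rhff6b27c9612d7353.shift 1 0)] (by decide +kernel))
noncomputable def rhafa1db3d6b6f1c91 : CRef := CRef.mk (Pat.mk 0x10000000100000001000000000 0x280000003f0000003e0000007f0000001c000000f800000028 9 8) 0 0 (step_sound _ 132 [(rh55a026e6f690bbaf.shift 3 0), rh5ac43b114349c8bc, (rh762a1aeaf83c662a.shift 3 0), (rh91429c40af715d36.shift 3 0), (rhaba26d7b21102469.shift 3 0), (rhc17b7d8fab3dfe57.shift 3 0)] (by decide +kernel))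
noncomputable def rhabf613505aca0e70 : CRef := CRef.mk (Pat.mk 0x8000000080000000800000000 0x140000001c0000001e00000078000001f8000000ff000001f4 9 9) 0 0 (step_sound _ 131 [(rh12461e137161f2e1.shift 2 0), (rh762a1aeaf83c662a.shift 2 0), rh930d12b1920f267c, (rhc17b7d8fab3dfe57.shift 2 0), (rhd7cb8ed87e2022d8.shift 2 0)] (by decide +kernel))
noncomputable def rh9d9c42549f83d3e7 : CRef := CRef.mk (Pat.mk 0x2000000030000000000000000000000000 0xc0000001c0000001e000001ff000000fe0000007f0000001800000018 9 9) 0 0 (step_sound _ 99 [rh2e3dadb7d7da9142, (rh3e0b38310ac09007.shift 0 3), (rh46f4e32c661b103a.shift 0 2), (rh473476a0a7c5f995.shift 1 0), (rh7f0f728c796044ac.shift 0 2)] (by decide +kernel))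
noncomputable def rh514ce025aec1096a : CRef := CRef.mk (Pat.mk 0x1000000018000000000000000000000000 0xe0000002e000000ff000001fe000000de0000005c0000005c 9 9) 0 0 (step_sound _ 133 [(rh69012675dfdb1a5b.shift 1 3), rha6d1edbc505876aa, (rhb7564fb17b98e6be.shift 1 0), (rhd69c262cd33b94b3.shift 1 3)] (by decide +kernel))
noncomputable def rhf356672fa4df665e : CRef := CRef.mk (Pat.mk 0x1000000018000000000000000000000000 0xc0000002e000000ff000001fe000001f80000007800000078 9 9) 0 0 (step_sound _ 133 [(rh27f4642f79069c08.shift 1 0), (rh557b120f072744ca.shift 1 3), (rh69012675dfdb1a5b.shift 1 3), rha6d1edbc505876aa, (rhd69c262cd33b94b3.shift 1 3)] (by decide +kernel))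
noncomputable def rhce298942c3869dfd : CRef := CRef.mk (Pat.mk 0x100000001800000000000000000000000000000000 0x80000002c000000f8000001fe000000fe000000ff000000fc000000a8 9 9) 0 0 (step_sound _ 165 [(rh3d1d11234d4a70bc.shift 1 1), (rh557b120f072744ca.shift 1 4), (rh69012675dfdb1a5b.shift 1 4), rhb6f93bd5044b3dbf, (rhd69c262cd33b94b3.shift 1 4)] (by decide +kernel))
noncomputable def rh42f8737493a4c79d : CRef := CRef.mk (Pat.mk 0x200000003000000000000000000000000000000000 0x40000001c0000001c0000005c000001ff0000007e000000ff0000003e0000003c00000018 9 9) 0 0 (step_sound _ 131 [rh2834944f5b5b921d, (rh3e0b38310ac09007.shift 0 4), (rh46f4e32c661b103a.shift 0 3), (rh614fd2fca82c548e.shift 0 3), (rh7f0f728c796044ac.shift 0 3)] (by decide +kernel))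
noncomputable def rh6a74500a6376fb87 : CRef := CRef.mk (Pat.mk 0x2000000030000000000000000000000000 0x40000001ff000000fe000001ff000000e0000000e0 9 9) 0 0 (step_sound _ 99 [(rh3e0b38310ac09007.shift 0 3), (rh46f4e32c661b103a.shift 0 2), (rh614fd2fca82c548e.shift 0 2), (rh7f0f728c796044ac.shift 0 2), (rh92f75b7340fec3b0.shift 2 0)] (by decide +kernel))
noncomputable def rha36e99895ceb90da : CRef := CRef.mk (Pat.mk 0x100000001800000000000000000000000000000000 0xc0000002c0000002e000001fe000001fc000001ff000000fe000001ff000000a4 9 9) 0 0 (step_sound _ 133 [(rh12e4225621695496.shift 2 0), rh61351b1e195af11c, (rh67d5a0f11a5ecaac.shift 2 1), (rh93858c5ef0d6eedf.shift 2 1), (rh9a53541e1c435424.shift 1 3), (rhc421ec5ee703980f.shift 0 1), (rhe4244e30a5b8ec23.shift 2 1)] (by decide +kernel))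
noncomputable def rh3aa824e2076fe185 : CRef := CRef.mk (Pat.mk 0x200000003000000000000000000000000000000000 0x50000001ff000000fe000001ef0000007c0000007800000010 9 9) 0 0 (step_sound _ 131 [(rh3e0b38310ac09007.shift 0 4), (rh464547a8f6e795ba.shift 2 0), (rh614fd2fca82c548e.shift 0 3), (rh7f0f728c796044ac.shift 0 3), (rhb12ffaec36122c99.shift 0 3)] (by decide +kernel))
noncomputable def rh0dae5ca4b0ce4254 : CRef := CRef.mk (Pat.mk 0x200000003000000000000000000000000000000000 0x380000007e0000005e000001fe000001be000001ff000001fe000001ff0000000a 9 9) 0 0 (step_sound _ 164 [(rh20fb29457d0d3dc9.shift 1 1), (rh2f46c813fe06b41b.shift 1 0), (rh6b89ded2eea190a1.shift 1 1), (rh6fad27bd7bb4698a.shift 1 1), (rh7c053e41d3387ce9.shift 1 1), (rh9758b2116812bfa2.shift 0 1), (rhadb0c89fb297686b.shift 1 1), (rhe040d437c78703b4.shift 1 1)] (by decide +kernel))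
noncomputable def rh371bb2f35f6c62aa : CRef := CRef.mk (Pat.mk 0x2000000030000000000000000000000000 0x48000001ef000001fe000001ff000000f0000000f0 9 9) 0 0 (step_sound _ 99 [(rh46f4e32c661b103a.shift 0 2), (rh51ba11d36511407e.shift 2 0), (rhaad8929a9b319b16.shift 1 0), (rhb12ffaec36122c99.shift 0 2), rhde622a93fb1549b5] (by decide +kernel))
noncomputable def rh7f8f49a85013fa22 : CRef := CRef.mk (Pat.mk 0x1000000018000000000000000000000000 0x50000001f0000003f0000000f0000001f000000ff000000ff000000ff0000007c 9 8) 0 0 (step_sound _ 131 [rh0babf50358e649f9, rh3b9cf22c625e7886, rh3c84d58188502a5c, rh47f7e6b0b85bc278, rh5fd0040cfbf72f21, rh8ef85b0caba361e4, (rh9ecf4f7da75f5185.shift 0 1)] (by decide +kernel))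
noncomputable def rhc91a8f744023af2e : CRef := CRef.mk (Pat.mk 0x10000000180000000000000000000000000000000000000000 0xc0000002c0000002f000001ff000000fb000001ff000000ff000001fe000000f400000054 9 9) 0 0 (step_sound _ 131 [(rh390667071659a826.shift 0 2), (rh69f2d3bd5b146481.shift 0 1), (rh92c4f7a1f4a65363.shift 1 2), (rha3b6e9249503a30a.shift 0 2), rhae74207800e81c80, (rhb8a0ff851ff37617.shift 1 2), (rhe52961a8e9e6081f.shift 0 2)] (by decide +kernel))
noncomputable def rh3a692dba7ea7c9d8 : CRef := CRef.mk (Pat.mk 0x28000000200000000000000000 0x140000001c0000001c0000077f000003fe000001ff0000001800000018 9 11) 0 0 (step_sound _ 100 [rh241f22264ae5a213, (rh8dffa966c2ca2f54.shift 2 0), (rh8ee80cc30e93a344.shift 2 2), (rhc21a95c499b3efdb.shift 2 2)] (by decide +kernel))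
noncomputable def rh918485f06a99e63e : CRef := CRef.mk (Pat.mk 0x2800000020000000000000000000000000 0x140000077f000003fe000001ff000000cc0000004c00000040 9 11) 0 0 (step_sound _ 132 [(rh241f22264ae5a213.shift 0 1), (rh4e3b625ea717494a.shift 2 0), (rh8ee80cc30e93a344.shift 2 3), (rhc21a95c499b3efdb.shift 2 3)] (by decide +kernel))
noncomputable def rh6f8f9eadf8c9637c : CRef := CRef.mk (Pat.mk 0x2800000020000000000000000000000000 0xc0000077f000003fe000001ff000000dc000000d8000000c8 9 11) 0 0 (step_sound _ 132 [(rh241f22264ae5a213.shift 0 1), (rh8ee80cc30e93a344.shift 2 3), (rhc21a95c499b3efdb.shift 2 3), (rhea313c48b0ad4b62.shift 2 0)] (by decide +kernel))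
noncomputable def rh44a5617e46c59099 : CRef := CRef.mk (Pat.mk 0x14000000100000000000000000 0xe000003bf000001fe000001ff0000000e0000000e 9 10) 0 0 (step_sound _ 99 [rh21bfc4a0675dc794, (rh8ee80cc30e93a344.shift 1 2), (rhc21a95c499b3efdb.shift 1 2), rhe36bd54e22f4ecd0, (rhf7b141b205d22c65.shift 1 0)] (by decide +kernel))
noncomputable def rh3689fcad572607e3 : CRef := CRef.mk (Pat.mk 0x2800000020000000000000000000000000 0x140000005c0000007e0000007c0000006f000001fe000001ff000000de0000005c00000044 9 9) 0 0 (step_sound _ 132 [(rh241f22264ae5a213.shift 0 1), (rh8ee80cc30e93a344.shift 2 3), (rhc21a95c499b3efdb.shift 2 3), rhf3baf27739434b37] (by decide +kernel))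
noncomputable def rh620004ab448bdbb4 : CRef := CRef.mk (Pat.mk 0x2800000020000000000000000000000000 0x100000003800000f78000007fe00000ffe000000df000000dc000000dc 9 12) 0 0 (step_sound _ 132 [(rh8ee80cc30e93a344.shift 2 3), rhaf1cfcd16fdcef91, (rhc21a95c499b3efdb.shift 2 3), (rhcace1ab7ddf807ab.shift 1 0)] (by decide +kernel))
noncomputable def rhba0d21eaf7079814 : CRef := CRef.mk (Pat.mk 0x2800000020000000000000000000000000 0x78000000780000007f000001fe000001f8000000de0000005800000058 9 9) 0 0 (step_sound _ 132 [(rh6cc3fe0ba547dda8.shift 0 1), (rh8ee80cc30e93a344.shift 2 3), (rha14909c81d8c0e52.shift 1 0), (rhc21a95c499b3efdb.shift 2 3)] (by decide +kernel))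
noncomputable def rh61a03e7697b2c73a : CRef := CRef.mk (Pat.mk 0x2800000020000000000000000000000000 0x500000007000000070000000780000007e00000777000003fe000003ff000000dc0000005800000008 9 11) 0 0 (step_sound _ 132 [(rh4ed021796d7d1315.shift 0 1), (rh8919f87d7b099a6c.shift 1 0), (rh8ee80cc30e93a344.shift 2 3), (rhc21a95c499b3efdb.shift 2 3)] (by decide +kernel))
noncomputable def rh4f8222ed6e316715 : CRef := CRef.mk (Pat.mk 0x280000002000000000000000000000000000000000 0x100000001e0000003e0000007f0000003f0000007f0000001f0000001c0000001c00000014 9 7) 0 0 (step_sound _ 162 [(rh24c9ad7c5863ef66.shift 1 2), (rh2f3528b40f3a9557.shift 0 2), (rhb34a67f8847d128f.shift 0 4), (rhb373d886f01d3e79.shift 1 2), rhe8a32e61ccf40fae] (by decide +kernel))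
noncomputable def rhd59a893fb1b38450 : CRef := CRef.mk (Pat.mk 0x28000000200000000000000000 0x64000001ff000000fe00000f7f000007fe00000ff70000005400000014 9 12) 0 0 (step_sound _ 100 [rh7bdcc4da4284e407, (rh8ee80cc30e93a344.shift 2 2), (rhc21a95c499b3efdb.shift 2 2), rhdd8937b2eeabab36] (by decide +kernel))
noncomputable def rh48a8dc30b4c30ee5 : CRef := CRef.mk (Pat.mk 0xa000000080000000000000000000000000 0x700000007000000378000001ff000003fe000001ff000007fe000007be000001780000007800000050 9 11) 0 0 (step_sound _ 165 [(rh00c135e211acf993.shift 2 3), rh1c3ea4aa6da38e71, (rh259ac3ecd3392e2f.shift 1 1), (rh264290905a901d9a.shift 2 1), (rh351cf76840ef9cf4.shift 2 1), (rh360b07c4aecfd8d7.shift 2 0), (rha73bc706a27ece73.shift 2 0), (rhcc739890c40eeec7.shift 1 1), (rhcd39ed1604d05736.shift 2 2), (rhe6db7c8b077bf950.shift 2 2)] (by decide +kernel))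
noncomputable def rhe80885fa6e9b2910 : CRef := CRef.mk (Pat.mk 0x2800000020000000000000000000000000 0x140000007e0000007e0000077f000003fe000003bf0000001e0000001c0000001c 9 11) 0 0 (step_sound _ 132 [(rh12db92d523aa5194.shift 0 1), (rh1c381d6fd284ebf3.shift 0 1), (rh241f22264ae5a213.shift 0 1), (rh4ed021796d7d1315.shift 0 1), (rh7bdcc4da4284e407.shift 0 1), (rh8ce2545147010b72.shift 2 1), (rha2a7b5e171b2626c.shift 0 1), (rhcace1ab7ddf807ab.shift 1 0)] (by decide +kernel))
noncomputable def rh071e6c6c1cf6c00f : CRef := CRef.mk (Pat.mk 0x500000004000000000000000000000000000000000 0x280000003800000038000000b8000000fe000003fe000000fe000007f7000007fe000001bf000000b8000000b800000028 9 11) 0 0 (step_sound _ 196 [(rh04507cd667117b78.shift 1 0), (rh4e79652e45d56b83.shift 1 1), (rh592f7491de53897c.shift 1 1), (rh636f4f242a7e4fac.shift 1 1), (rh7468d156108e1ba6.shift 1 2), (rh8cdc0a623c11ac65.shift 1 1), (rhcb742ac32cb0fceb.shift 1 1), (rhef85dbe3433aa2d6.shift 3 1), (rhf15d772f68195eaf.shift 2 1), (rhf38a606636f92432.shift 2 3), (rhfc628aceb891e67b.shift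 0 1), (rhfe279dd4c7178d62.shift 1 1)] (by decide +kernel))
noncomputable def rh7256c6a1332afe7d : CRef := CRef.mk (Pat.mk 0xa0000000800000000000000000000000000000000000000000 0x5000000070000001f0000001fc000001fc000007bf000003fe0000077e00000170000001700000007000000040 9 11) 0 0 (step_sound _ 165 [(rh076da49eb0ea4189.shift 2 1), (rh112dd31db144d735.shift 2 2), rh3e4f18fab0ec69dd, (rh81116fc3405ddf99.shift 0 2), (rh84a12ea5de0af63d.shift 2 2), (rh86dc73e7dd008f0e.shift 2 0), (rhd517ebcd131bbf76.shift 2 2), (rhe120bcce6b11dec4.shift 2 2)] (by decide +kernel))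
noncomputable def rhf81da16bf3435cb2 : CRef := CRef.mk (Pat.mk 0x34000000000000000000000000 0xc0000007e0000003e0000007f0000000e0000000e 9 7) 0 0 (step_sound _ 99 [(rh2381ca26b8b38d1e.shift 1 2), (rh7d954ee69b7ed51a.shift 1 0), (rh9e97bba44c1b13e4.shift 0 2)] (by decide +kernel))
noncomputable def rhb204d54719ade79a : CRef := CRef.mk (Pat.mk 0x1e00000010000000000000000000000000 0x8000000380000003800000038000000380000001e00000013000000380000003800000028 9 6) 0 0 (step_sound _ 164 [(rh33e738c4ed385b9f.shift 1 4), rh56750b85c931b1d5] (by decide +kernel))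
noncomputable def rhce605e8e2cc5a07c : CRef := CRef.mk (Pat.mk 0x1a000000020000000200000000000000000000000000000000 0x90000000b0000001f0000003b0000001f0000001700000016000000070000000700000001 9 6) 0 0 (step_sound _ 162 [rh16d689626723f9bc, (rh1f88aca2eabb5c06.shift 0 2), (rhf2f4335bff8b5899.shift 0 4)] (by decide +kernel))
noncomputable def rh5495182f3a3915a7 : CRef := CRef.mk (Pat.mk 0x3400000004000000040000000000000000000000000000000000000000 0x2000000160000001e000000760000003f0000007e000000260000000e0000000e0000000e0000000a 9 7) 0 0 (step_sound _ 195 [rh59112faf7f3f01b7, (rhcfd8f5a400d36470.shift 1 1), (rhf2f4335bff8b5899.shift 1 5)] (by decide +kernel))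
noncomputable def rha8153b4865300357 : CRef := CRef.mk (Pat.mk 0x1a000000020000000200000000000000000000000000000000 0xb0000000f0000003b0000003f0000000600000007000000070000000700000005 9 6) 0 0 (step_sound _ 163 [(rh252812771d70da16.shift 0 2), rh39a48000612aa06a, (rh60a781551e50bc18.shift 0 5), rhc39c9feb356c3dbe] (by decide +kernel))
noncomputable def rhdb8fb6a2b15b2e93 : CRef := CRef.mk (Pat.mk 0x34000000040000000400000000 0x2000000160000001e000000760000003e0000003f0000003a 9 7) 0 0 (step_sound _ 130 [(rh429656c4bdd004d9.shift 1 0), (rh771d065bdc85bf2d.shift 1 0), rhac13d16ea91712e4, rheacf4bbc4b569bd4] (by decide +kernel))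
noncomputable def rh33f7a40acc2d1639 : CRef := CRef.mk (Pat.mk 0x180000000a0000000000000000 0xc0000003c0000003c000000f8000000380000007e0000003f0000007c 9 8) 0 0 (step_sound _ 132 [(rh4821dcf828b9d7bf.shift 3 0), (rh50025ecc65780503.shift 0 1), (rhce548eb50878c72e.shift 1 0)] (by decide +kernel))
noncomputable def rhde06cb2bae39b80f : CRef := CRef.mk (Pat.mk 0x340000001400000000000000000000000000000000 0x800000038000000380000003400000034000000360000003e0000007f0000003800000028 9 7) 0 0 (step_sound _ 100 [(rh215e11e099257d75.shift 4 2), (rh5572c636538b3c75.shift 2 0), (rh56b05f3795e64f26.shift 3 0), (rh617de121c2f863b5.shift 0 2), (rhffb8e5993241bf15.shift 3 0)] (by decide +kernel))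
noncomputable def rh8623373d165444cc : CRef := CRef.mk (Pat.mk 0x80000001a000000020000000000000000 0x300000003c0000003e0000007f0000001b0000003f0000003e00000038 9 7) 0 0 (step_sound _ 68 [(rh00e7107a6d377529.shift 0 1), (rh5d54cb79a67f97ab.shift 3 0), (rha40d42a2e34c408d.shift 3 0), rhbe54ad6bbfa1b392] (by decide +kernel))
noncomputable def rh79e9bc281e576a1f : CRef := CRef.mk (Pat.mk 0x800000018000000020000000000000000 0x40000001c0000001c0000001c00000018000000380000001f0000003c00000018 9 6) 0 0 (step_sound _ 36 [rh2451dda11ef63e6a, (rh6e635cebce90425c.shift 0 1), (rh95a80f84f48ac358.shift 3 0), (rhb11d41c808e1ab4d.shift 3 0), rhd24bb8905cb209e4] (by decide +kernel))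
noncomputable def rhf4bedc3d2dd36cd3 : CRef := CRef.mk (Pat.mk 0x80000001a000000020000000000000000 0xc0000001c0000001c0000001e0000001f0000003b0000000f0000000e00000008 9 6) 0 0 (step_sound _ 130 [(rh06c96bdcdd06e437.shift 0 3), (rh780a5fd1e43fb1b8.shift 0 1), rhfdaaefc79a82823f] (by decide +kernel))
noncomputable def rh9a51e8e8346d3e9d : CRef := CRef.mk (Pat.mk 0x80000001a000000020000000000000000 0x50000001d0000000f0000001f0000003b000000130000000300000001 9 6) 0 0 (step_sound _ 129 [(rh052037c23179916b.shift 0 3), (rh519f933ad7bc219c.shift 0 1), rh86e0e67c84c5fbe3, (rh875eca000cce2350.shift 0 1), (rhd946de83b99086da.shift 0 1)] (by decide +kernel))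
noncomputable def rhddab9b3974c8d097 : CRef := CRef.mk (Pat.mk 0x6800000018000000000000000000000000 0x140000007e0000007e000000680000003f0000001f0000001c00000014 9 7) 0 0 (step_sound _ 98 [(rh3fc040e777f1679e.shift 2 3), rh5a9592663f8d31f1] (by decide +kernel))
noncomputable def rhd2387d7e08e16251 : CRef := CRef.mk (Pat.mk 0xd000000010000000000000000000000000 0x20000000e8000000fc000000fe000001df000000fe0000007f0000003800000028 9 9) 0 0 (step_sound _ 101 [rh27ccae92baedae9a, (rh51ff335405c97b2c.shift 3 3), (rhe55ad8582c811631.shift 1 0)] (by decide +kernel))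
noncomputable def rh6e840cb0780c1aff : CRef := CRef.mk (Pat.mk 0x180000000a000000000000000000000000 0x300000003000000030000000380000001f000000380000001800000018 9 6) 0 0 (step_sound _ 98 [(rh0de55685b0e71a1a.shift 1 0), (rh53b3c253cb0c65f4.shift 0 3)] (by decide +kernel))
noncomputable def rh2349d9d98ac40dd2 : CRef := CRef.mk (Pat.mk 0x180000000a0000000000000000 0xc0000003c0000003c00000038000000380000007e0000003f0000007c 9 7) 0 0 (step_sound _ 132 [(rh4821dcf828b9d7bf.shift 3 0), (rh757819123010274f.shift 0 1), (rhadf429772c25fde0.shift 3 0), (rhce548eb50878c72e.shift 1 0)] (by decide +kernel))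
noncomputable def rh2c9156e5e6fef1ea : CRef := CRef.mk (Pat.mk 0x340000001400000000000000000000000000000000 0x38000000380000003e00000074000000360000003e0000007f0000003800000028 9 7) 0 0 (step_sound _ 100 [(rh215e11e099257d75.shift 4 2), (rh56b05f3795e64f26.shift 3 0), (rh5ffedefe484cec3d.shift 0 2), (rh6cac877511e121ac.shift 1 0), (rhffb8e5993241bf15.shift 3 0)] (by decide +kernel))
noncomputable def rhd412be1c2e6c3340 : CRef := CRef.mk (Pat.mk 0x10000000d0000000100000000000000000 0x1ef000000fe000001be000000d0000000580000001800000008 9 9) 0 0 (step_sound _ 164 [(rhb337111b2045ea1b.shift 0 2), (rhc4526fc8abf298b6.shift 3 0), (rhcab3157f7bdcba3e.shift 3 0)] (by decide +kernel))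
noncomputable def rh8c9a360103627e58 : CRef := CRef.mk (Pat.mk 0x10000000d0000000100000000000000000 0x1ef000000fe000001be000000d0000000700000003000000020 9 9) 0 0 (step_sound _ 164 [(rh6c59ce14113da07f.shift 4 0), (rh8ff3dde5b1c639e0.shift 3 0), (rhb337111b2045ea1b.shift 0 2)] (by decide +kernel))
noncomputable def rhbb6d6649386ad258 : CRef := CRef.mk (Pat.mk 0x4000000040000000400000000000000000000000000000000 0xa0000000e0000000e00000006000000070000003e0000000e0000000e0000000a 9 6) 0 0 (step_sound _ 129 [rh22119c5029f24e17, (rh281c6819542c66e6.shift 1 1), (rh2a461e1b2a50e350.shift 1 0), (rh852eadb4da3f1beb.shift 1 3), (rhfafeb437ceb8396d.shift 1 1)] (by decide +kernel))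
noncomputable def rh702f36abea75d05a : CRef := CRef.mk (Pat.mk 0x400000034000000040000000000000000000000000000000000000000 0xa0000000e000000760000007f0000003f0000000e0000000e0000000e0000000a 9 7) 0 0 (step_sound _ 130 [(rh7e410a949fb5cf5b.shift 1 0), (rh8c78642fd966e7a1.shift 1 0), (rh8ff3dde5b1c639e0.shift 1 2), (rhb9db7b57d9459026.shift 0 3), (rhe251f7900272287e.shift 1 2)] (by decide +kernel))
noncomputable def rhb78e1cc0d3b973b2 : CRef := CRef.mk (Pat.mk 0x10000000d00000001000000000 0x1ef000000ff000001be000000d80000007800000028 9 9) 0 0 (step_sound _ 132 [rhae413adbe8644014, (rhb337111b2045ea1b.shift 0 1), (rhd630af2e39ca770f.shift 3 0)] (by decide +kernel))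
noncomputable def rh0f075b5c3993aa92 : CRef := CRef.mk (Pat.mk 0x800000068000000080000000000000000000000000000000000000000 0x8000000080000006c0000003f0000007c0000001c0000001c0000001800000010 9 7) 0 0 (step_sound _ 162 [(rh281c6819542c66e6.shift 2 2), rh353ea6d8e3873b9e, (rh762aa57f284f76f4.shift 2 4), (rhcfcd2037840c80a2.shift 2 2)] (by decide +kernel))
noncomputable def rh4988fc02517a5aa1 : CRef := CRef.mk (Pat.mk 0x20000001a000000020000000000000000000000000000000000000000 0x50000000f0000001b000000030000000300000007000000070000000700000001 9 5) 0 0 (step_sound _ 129 [(rh330a005829cdd297.shift 0 4), rh88eb7d833d5a1fd9, (rhe251f7900272287e.shift 0 2)] (by decide +kernel))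
noncomputable def rhd7d7c0e05673f92f : CRef := CRef.mk (Pat.mk 0x10000000d00000001000000000 0x1ef000000ff000001be000000d80000007800000028 9 9) 0 0 (step_sound _ 132 [(rh36e6bb6cca6188da.shift 3 0), (rh9ffcbf5e2fd63484.shift 0 1), rhc0f053b52ce1f170] (by decide +kernel))
noncomputable def rh06ce76e362484ad1 : CRef := CRef.mk (Pat.mk 0x1a0000000800000000000000000000000000000000 0x1c0000001c0000001f0000001b000000180000001c0000001c0000001c00000014 9 5) 0 0 (step_sound _ 99 [(rh215e11e099257d75.shift 3 2), (rh748051494f108b1c.shift 0 3), rhee640f974cfa8d6c, (rhffb8e5993241bf15.shift 2 0)] (by decide +kernel))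
noncomputable def rh01cb4c870e2eb265 : CRef := CRef.mk (Pat.mk 0x80000001a00000002000000000000000000000000 0x300000003c0000003e0000007f0000001b0000003e0000003c0000003c0000000c 9 7) 0 0 (step_sound _ 100 [(rh5d54cb79a67f97ab.shift 3 1), rh8073cd3c40eaf5c8, (rha40d42a2e34c408d.shift 3 1), (rhbe54ad6bbfa1b392.shift 0 1)] (by decide +kernel))
noncomputable def rh590c65dcf940716e : CRef := CRef.mk (Pat.mk 0x80000001a000000020000000000000000 0x300000003c0000003e0000007f0000003b0000003e0000003800000038 9 7) 0 0 (step_sound _ 68 [(rh3998dbe24ccbd38d.shift 0 1), (rh5d54cb79a67f97ab.shift 3 0), (rha40d42a2e34c408d.shift 3 0), rhbe54ad6bbfa1b392] (by decide +kernel))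
noncomputable def rh2f9dc738a7c3d488 : CRef := CRef.mk (Pat.mk 0x80000001a00000002000000000000000000000000 0x50000001d0000003f0000001f0000003b0000001a000000070000000700000005 9 6) 0 0 (step_sound _ 161 [(rh052037c23179916b.shift 0 4), rh373bcca2f78c4e30, (rhad3c97be03b58abf.shift 0 2), rhbd5aca5d260ddaa9, (rhbe5703805fd7fa8f.shift 0 2)] (by decide +kernel))
noncomputable def rh7dd41e745dd1255c : CRef := CRef.mk (Pat.mk 0x20000000680000000800000000000000000000000000000000 0x10000000140000001f0000007c000000ec000000780000001e0000001c0000001c0000000c 9 8) 0 0 (step_sound _ 195 [(rh052037c23179916b.shift 2 5), (rh545e6547c7a84455.shift 1 0), (rh6fbfe95e10184265.shift 0 1), (rhbe5703805fd7fa8f.shift 2 3)] (by decide +kernel))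
noncomputable def rh3add872259fe71b0 : CRef := CRef.mk (Pat.mk 0x100000003400000004000000000000000000000000 0x80000000a0000007f0000003f000000760000001c0000001e0000000e0000000a 9 7) 0 0 (step_sound _ 162 [(rh052037c23179916b.shift 1 4), (rh373bcca2f78c4e30.shift 1 0), rh44faa36f5ef6f668, rh9aca9a31004a9830, (rhbe5703805fd7fa8f.shift 1 2)] (by decide +kernel))
noncomputable def rh5630cc8cd8543fa1 : CRef := CRef.mk (Pat.mk 0x1a0000000a0000000000000000 0xc0000003c0000003c000000f80000003b0000007e0000003c0000007c 9 8) 0 0 (step_sound _ 132 [(rh4821dcf828b9d7bf.shift 3 0), (rhc114113e733f2342.shift 0 1), (rhce548eb50878c72e.shift 1 0)] (by decide +kernel))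
noncomputable def rheea0447be313e983 : CRef := CRef.mk (Pat.mk 0x300000001400000000000000000000000000000000 0x38000000380000003800000030000000360000003e0000007f0000003800000028 9 7) 0 0 (step_sound _ 100 [(rh215e11e099257d75.shift 4 2), (rh6cac877511e121ac.shift 1 0), (rh80114a7c4baccf67.shift 0 2), (rhffb8e5993241bf15.shift 3 0)] (by decide +kernel))
noncomputable def rhb862e7c9d612b01e : CRef := CRef.mk (Pat.mk 0x80000000800000008000000000000000000000000 0x1000000018000000180000000c0000000c0000001f0000007c0000001c0000001c 9 7) 0 0 (step_sound _ 68 [(rh2977b00063528966.shift 3 0), (rh33e98d0e97205a3e.shift 2 2), (rh37639814abe95979.shift 2 1), rhbe9da6e4914a1ce0, (rhfa80626feb4e9cb5.shift 0 1)] (by decide +kernel))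
noncomputable def rhb4eb12e434d69a35 : CRef := CRef.mk (Pat.mk 0x1a000000020000000200000000000000000000000000000000 0x4000000070000000f0000001b000000060000000600000007000000070000000700000004 9 5) 0 0 (step_sound _ 225 [(rh330a005829cdd297.shift 0 4), rh331cf710469fd4f9, (rhced6d86d2069808b.shift 1 3)] (by decide +kernel))
noncomputable def rh2987daf8455076da : CRef := CRef.mk (Pat.mk 0x1a000000020000000200000000000000000000000000000000 0x50000000f0000001b000000030000000300000007000000070000000700000001 9 5) 0 0 (step_sound _ 225 [(rh330a005829cdd297.shift 0 4), rh88eb7d833d5a1fd9, (rhe251f7900272287e.shift 0 2)] (by decide +kernel))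
noncomputable def rhffdd145bcaf8ba27 : CRef := CRef.mk (Pat.mk 0x340000001400000000000000000000000000000000 0x38000000380000003e00000036000000360000003e0000007f0000003800000028 9 7) 0 0 (step_sound _ 100 [(rh039ba0971ecf96ec.shift 0 2), (rh215e11e099257d75.shift 4 2), (rh45e580a9c783f7c0.shift 2 0), (rh56b05f3795e64f26.shift 3 0), (rhffb8e5993241bf15.shift 3 0)] (by decide +kernel))
noncomputable def rh1ca4d7c1783226ec : CRef := CRef.mk (Pat.mk 0x80000001c000000040000000000000000 0x380000003c000000f8000000f80000001f000000340000003000000030 9 8) 0 0 (step_sound _ 132 [(rh0286a6c47168a9eb.shift 2 0), (rh9e976f464b342636.shift 0 1), (rhf9d36e158778ce35.shift 1 3)] (by decide +kernel))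
noncomputable def rhfd85d249d51f3bd5 : CRef := CRef.mk (Pat.mk 0x70000000100000000000000000 0x2000000020000001f7000000fe000001f70000001000000010 9 9) 0 0 (step_sound _ 133 [(rh4821dcf828b9d7bf.shift 4 0), (rh748b76919f610d30.shift 0 2), rh85d914f416377520] (by decide +kernel))
noncomputable def rh46cd02f5d4ac962f : CRef := CRef.mk (Pat.mk 0x4000000040000001c000000000000000000000000 0x2800000038000000380000003c000000370000001e0000000f0000000e0000000e 9 6) 0 0 (step_sound _ 97 [rh1e8d6e1ef30e2d92, rh25e6029a8e3dc7c4, (rhae036cc4ef671676.shift 0 1)] (by decide +kernel))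
noncomputable def rh4a7027bf885367e8 : CRef := CRef.mk (Pat.mk 0x40000001c0000000800000000 0x7c0000007c0000001c0000001c0000001f00000016 9 7) 0 0 (step_sound _ 130 [(rh2145e1d24b96a57e.shift 2 1), rhe55e1b3c02328b09] (by decide +kernel))
noncomputable def rh2b172fe0c92822ec : CRef := CRef.mk (Pat.mk 0x1c000000060000000000000000000000000000000000000000 0x1c0000003c000000370000001f0000007e0000007f0000003e0000001e0000000e00000008 9 7) 0 0 (step_sound _ 226 [rh17e2aa9af4330d53, (rh281c6819542c66e6.shift 1 2), (rh6a97c80b9665774a.shift 0 3)] (by decide +kernel))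
noncomputable def rh66e7ddb664a43b2b : CRef := CRef.mk (Pat.mk 0xe0000000a000000000000000000000000 0x8000000080000001e0000007e0000003f0000001f00000017 9 7) 0 0 (step_sound _ 100 [(rh4a0b10776449c3e9.shift 1 3), (rh89ade209b3e28f13.shift 1 3), rh9fe4c8578d87e066, (rhae2edff970a530ce.shift 1 3)] (by decide +kernel))
noncomputable def rh377e25386d140c25 : CRef := CRef.mk (Pat.mk 0xf00000000000000000000000000000000 0x140000001c0000001c0000001c0000000f0000001c0000000c0000000c00000004 9 5) 0 0 (step_sound _ 163 [(rh33e738c4ed385b9f.shift 0 4), rheb1964e80d5a01b7] (by decide +kernel))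
noncomputable def rh46b54d84ea53b726 : CRef := CRef.mk (Pat.mk 0x70000000180000000000000000 0xe0000000e0000003e0000003fe0000007f000000d8000000f0000000f0 9 10) 0 0 (step_sound _ 133 [(rh4821dcf828b9d7bf.shift 4 0), rh604be9d25af07810, (rhc7f851f4b68746f3.shift 2 0)] (by decide +kernel))
noncomputable def rh186ffb1ee09b2760 : CRef := CRef.mk (Pat.mk 0x1000000070000000200000000000000000 0x60000000600000006000000030000000f8000003bf000001fe000003ff 9 10) 0 0 (step_sound _ 37 [rh7244d581316662ed, (rh7b1f1fb55310c477.shift 4 0)] (by decide +kernel))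
noncomputable def rh4e9ad071f9b133b6 : CRef := CRef.mk (Pat.mk 0x80000001c000000040000000000000000 0x1c0000001c0000001f0000003c0000007c0000007800000008 9 7) 0 0 (step_sound _ 163 [rh173c5ad28aa5c8b5, (rh5c5e593799055d58.shift 2 2)] (by decide +kernel))
noncomputable def rhb68fa3e039eca5da : CRef := CRef.mk (Pat.mk 0x80000001c000000040000000000000000 0x740000007f0000003c0000001c0000001c0000001c 9 7) 0 0 (step_sound _ 34 [rh2f45a727e0c8ee61, (rh71222050f2c63a3a.shift 2 0)] (by decide +kernel))
noncomputable def rhccd71378ffdd98cb : CRef := CRef.mk (Pat.mk 0x1c00000006000000000000000000000000 0x80000001c0000007c0000001f0000001c0000001e0000003e0000001e00000002 9 7) 0 0 (step_sound _ 162 [(rh218080ed8fc9d2e8.shift 0 1), (rh281c6819542c66e6.shift 1 0), (rh660ea19c86119cc0.shift 1 2)] (by decide +kernel))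
noncomputable def rh43cf76387227b704 : CRef := CRef.mk (Pat.mk 0x4000000078000000000000000000000000 0x140000007c0000007f000000ff0000007c00000078000000300000003000000010 9 8) 0 0 (step_sound _ 131 [(rh3244c3cc8379b070.shift 2 3), rh331d571a3bf33fa1] (by decide +kernel))
noncomputable def rh3f8336cb8cb5d15f : CRef := CRef.mk (Pat.mk 0xf0000000000000000000000000000000000000000 0x140000001c0000001c000000180000000f0000001c0000001c0000001c0000001c00000004 9 5) 0 0 (step_sound _ 131 [rh7d9dd9a5d30dae39, (rhe25b0a99195a5d59.shift 0 4)] (by decide +kernel))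
noncomputable def rhd92b60b04c58c673 : CRef := CRef.mk (Pat.mk 0x40000001c000000080000000000000000 0x18000000780000007c0000003c0000001f0000001c0000001c 9 7) 0 0 (step_sound _ 35 [rh564810be50981e36, (rh7b1f1fb55310c477.shift 2 0)] (by decide +kernel))
noncomputable def rh82cae8e256599625 : CRef := CRef.mk (Pat.mk 0x1800000070000000000000000000000000 0x28000000380000007f000000ff0000005e00000070000000700000003000000020 9 8) 0 0 (step_sound _ 130 [(rhb739f4f82bb681b4.shift 1 3), rhbbc46406497533b2] (by decide +kernel))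
noncomputable def rhb0715077b4f5a7a4 : CRef := CRef.mk (Pat.mk 0x60000001c000000000000000000000000 0x3e0000003e0000001e0000001c0000001f0000007c0000001c 9 7) 0 0 (step_sound _ 66 [rh09c692a8efdb21c3, (rh668fc65514a55b16.shift 1 0), rhf230164ba45f187c, (rhf56e08d6dceb88ed.shift 1 1)] (by decide +kernel))
noncomputable def rhdfff2be1c9329f93 : CRef := CRef.mk (Pat.mk 0x8000000080000000800000000000000000000000000000000 0x800000008000000f8000001ff000000fe000000fc0000001c00000008 9 9) 0 0 (step_sound _ 100 [(rh475253e964ed1313.shift 3 1), (rh47dece01c1595e79.shift 3 1), (rh5533f7f43ea71324.shift 1 0), (rhfa80626feb4e9cb5.shift 0 2)] (by decide +kernel))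
noncomputable def rhebafc6adaaf40015 : CRef := CRef.mk (Pat.mk 0x1c000000100000000000000000 0x20000001e0000003f000000ff0000003f0000001c0000001c0000001c 9 8) 0 0 (step_sound _ 132 [(rh338daaecda3b02ca.shift 1 0), (rha11dfd15f08f96e3.shift 1 3), (rhc1c6985560e2236d.shift 0 1)] (by decide +kernel))
noncomputable def rhef05a097fb30361b : CRef := CRef.mk (Pat.mk 0x20000001e000000000000000000000000 0x4000000070000000700000007000000060000001e000000370000000600000004 9 6) 0 0 (step_sound _ 65 [rhb9d9c916d53cab5f, (rheb0810cc63b001d8.shift 0 2)] (by decide +kernel))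
noncomputable def rh57cbba5a837a214e : CRef := CRef.mk (Pat.mk 0x4000000040000001c0000000000000000000000000000000000000000 0x500000007a0000007e000000740000003c0000007f0000007e000000780000007000000050 9 7) 0 0 (step_sound _ 197 [(rh06ecaba67d7a2f1e.shift 1 4), (rh610bd3b1174f05ee.shift 1 2), (rh75b8f36aa528fb98.shift 1 0), (rh8ccf4e67c7094a34.shift 2 1), (rhe05b249c14920ca2.shift 0 3), (rhe7f681e7ab54817b.shift 1 0)] (by decide +kernel))
noncomputable def rh016b54debfd356a6 : CRef := CRef.mk (Pat.mk 0x2000000020000000e0000000000000000 0x5000000370000003f0000003f0000007a0000001e0000000b00000001 9 7) 0 0 (step_sound _ 161 [(rh1741680720c097b4.shift 0 2), (rh32e32f03ae89b559.shift 0 1), rh64e0fd2bbd41bed7, (rha525cebd350bdcf3.shift 0 1)] (by decide +kernel))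
noncomputable def rh038a2f0e58a291cb : CRef := CRef.mk (Pat.mk 0x70000000c0000000000000000000000000000000000000000 0x80000000a0000003f0000003f000000070000003c0000000c0000000e0000000e0000000e00000008 9 6) 0 0 (step_sound _ 164 [(rhf48373e13d2bc128.shift 1 5), rhf645a25aa2b89bbd] (by decide +kernel))
noncomputable def rhcb7d3441b9caf7a6 : CRef := CRef.mk (Pat.mk 0xe0000001800000000000000000000000000000000 0x1c0000003c0000001e0000001b0000003f0000003f0000001c00000004 9 6) 0 0 (step_sound _ 99 [(rh668fc65514a55b16.shift 2 1), rh89fb6447caf08ad2, (rhb9e389b6b17858ba.shift 0 2)] (by decide +kernel))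
noncomputable def rh53786a9e48cfd43d : CRef := CRef.mk (Pat.mk 0x80000001c000000100000000000000000 0x3c000000fe0000007c0000001f0000001c0000000c0000000c 9 8) 0 0 (step_sound _ 163 [(rh2145e1d24b96a57e.shift 3 2), rh896e1f54a5a15eec] (by decide +kernel))
noncomputable def rh22e1977e178d5de6 : CRef := CRef.mk (Pat.mk 0x80000001c000000100000000000000000 0x30000000780000001f0000001c000000fc0000003c 9 8) 0 0 (step_sound _ 36 [(rh7b1f1fb55310c477.shift 3 0), rhafe1d94b8933acb7] (by decide +kernel))
noncomputable def rh504d42311766a87d : CRef := CRef.mk (Pat.mk 0xe0000000800000000000000000000000000000000 0x140000001c0000003c0000000e000000f80000007f000000ff0000001c00000014 9 8) 0 0 (step_sound _ 99 [(rh56259dd1390eee46.shift 2 0), (rh82064b552a8316fd.shift 1 2), rha44fb8efa5b3ba37, (rhb1a251d9bff81766.shift 2 2)] (by decide +kernel))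
noncomputable def rhfd9d2189cde3b815 : CRef := CRef.mk (Pat.mk 0x1e000000020000000000000000000000000000000000000000 0x4000000070000000700000007000000070000001e0000003e0000000300000003000000070000000700000005 9 6) 0 0 (step_sound _ 225 [(rh3244c3cc8379b070.shift 0 6), rh4423f6f5613c9700] (by decide +kernel))
noncomputable def rhac3eebd81b176d84 : CRef := CRef.mk (Pat.mk 0x20000001e00000000000000000000000000000000 0x4000000070000000700000007000000360000001e00000003000000070000000700000005 9 6) 0 0 (step_sound _ 97 [rh6778353749ad7f5f, (rheb0810cc63b001d8.shift 0 3)] (by decide +kernel))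
noncomputable def rh8304ee6af0832ecb : CRef := CRef.mk (Pat.mk 0x1c00000004000000040000000000000000 0x5000000070000000700000007a0000007f0000003c000000740000007e0000007a00000050 9 7) 0 0 (step_sound _ 101 [(rh01162063b4db99df.shift 1 1), (rh0464b219bc2457dd.shift 1 0), (rh37734a49dac79145.shift 0 1), (rh730cfe6aed0beeb8.shift 1 1), (rh94b8d845f334af88.shift 2 0), (rhc9a154a128845e69.shift 1 1)] (by decide +kernel))
noncomputable def rhc494255470982060 : CRef := CRef.mk (Pat.mk 0x380000000800000008000000000000000000000000 0x40000002c00000078000001e8000000ff000000fc000000dc00000014 9 9) 0 0 (step_sound _ 67 [(rh6720799bdc7f6a6c.shift 2 1), (rh69d74edc6ed8b1cb.shift 0 1), (rh6eff4158bb400f47.shift 2 0), (rh86824e119c2cbd69.shift 2 1)] (by decide +kernel))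
noncomputable def rh337acbd46267ebcc : CRef := CRef.mk (Pat.mk 0xe00000003000000000000000000000000 0x30000000f0000000f0000000e0000000e0000003f0000003f0000001f00000004 9 6) 0 0 (step_sound _ 162 [(rh3d497ce94bfd3bc0.shift 0 1), (rh4821dcf828b9d7bf.shift 1 1), (rha5baf8521d23b420.shift 1 0), rhd7030cc3274a24d1] (by decide +kernel))
noncomputable def rha9aaabd26cf40d39 : CRef := CRef.mk (Pat.mk 0xe0000001800000000000000000000000000000000 0x40000001c0000001c0000001c0000000e0000000e0000007a000000ff000000fe0000003000000030 9 8) 0 0 (step_sound _ 133 [rh78ff555c4725d134, (rhf48373e13d2bc128.shift 2 4)] (by decide +kernel))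
noncomputable def rh8cf1175ecb9f87d6 : CRef := CRef.mk (Pat.mk 0x1c000000300000000000000000000000000000000000000000 0x28000000380000007f000000ff0000001c000000f00000003000000038000000380000003800000020 9 8) 0 0 (step_sound _ 166 [rh79c1a50bf88b9624, (rhf48373e13d2bc128.shift 3 5)] (by decide +kernel))
noncomputable def rh37cf2709e392c4cb : CRef := CRef.mk (Pat.mk 0x1e00000002000000000000000000000000 0x4000000070000000700000007000000070000001e00000032000000070000000700000005 9 6) 0 0 (step_sound _ 161 [rh046f0af021435ef2, (rh3244c3cc8379b070.shift 0 4)] (by decide +kernel))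
noncomputable def rh951d465875853bec : CRef := CRef.mk (Pat.mk 0x1e00000002000000000000000000000000 0x28000000390000003f0000001f000000370000001e0000000a000000070000000700000005 9 6) 0 0 (step_sound _ 161 [(rh3244c3cc8379b070.shift 0 4), rhb4ab6e9f998d9e70] (by decide +kernel))
noncomputable def rhd14a27e388763757 : CRef := CRef.mk (Pat.mk 0x1c000000000000000000000000 0x22000000fb0000003f0000007f0000001400000014 9 8) 0 0 (step_sound _ 133 [(rh834ef1c974e4840e.shift 1 0), (rh90fcc1b0fe0017ad.shift 1 3), (rhba3fefaa894766da.shift 2 3), rhfcecaccfaa3a4dcd] (by decide +kernel))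
noncomputable def rh3282d04705a6d685 : CRef := CRef.mk (Pat.mk 0x70000000180000000000000000000000000000000000000000 0x20000000380000003c000000700000001e000000ff0000007f000000380000003800000008 9 8) 0 0 (step_sound _ 162 [(rh53b3c253cb0c65f4.shift 1 5), rh96e0f0b763efda4e] (by decide +kernel))
noncomputable def rhccd44ca82339b90d : CRef := CRef.mk (Pat.mk 0x380000000c00000000000000000000000000000000 0x40000001c0000003c0000007f0000003e000000380000001c0000001c0000001c0000001c00000010 9 7) 0 0 (step_sound _ 195 [(rh16963cdb05e86e47.shift 1 0), (rh281c6819542c66e6.shift 2 1), (rh8927e74cd88ed922.shift 0 3)] (by decide +kernel))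
noncomputable def rha8a46b79a442d67f : CRef := CRef.mk (Pat.mk 0x80000001c0000000400000000 0x30000000fe0000003f0000007f0000003f0000000c00000008 9 8) 0 0 (step_sound _ 131 [(rh5c5e593799055d58.shift 2 1), rhe1663e8df1bc5150] (by decide +kernel))
noncomputable def rh174b21be798eff4d : CRef := CRef.mk (Pat.mk 0x180000000e0000000000000000 0x140000001c0000001e0000007f000000780000000e0000003c0000001c 9 7) 0 0 (step_sound _ 101 [(rh18965a982d73c794.shift 2 2), rhbf49c84ebb8a1faf] (by decide +kernel))
noncomputable def rhe1acdccc2f70c743 : CRef := CRef.mk (Pat.mk 0x300000001c0000000000000000 0x2800000038000000380000003f0000007e000000fe0000003c0000001c0000007800000038 9 8) 0 0 (step_sound _ 132 [(rh232868484dcebaf4.shift 0 2), (rh976a48eb1c80a12f.shift 3 1), (rhc1b5d17a350cbb83.shift 2 0)] (by decide +kernel))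
noncomputable def rhc0d02dc204edf5d4 : CRef := CRef.mk (Pat.mk 0x1e00000000000000000000000000000000 0x4000000070000000700000007000000070000001e00000033000000070000000700000005 9 6) 0 0 (step_sound _ 161 [(rh3244c3cc8379b070.shift 0 4), rh9fb76a727a052f38] (by decide +kernel))
noncomputable def rh1de5f018e6410c20 : CRef := CRef.mk (Pat.mk 0x1e000000000000000000000000 0xe0000000e0000000f0000001f0000003e000000fc00000014 9 8) 0 0 (step_sound _ 68 [rh805cb333c6b1c7ba, (rhe25b0a99195a5d59.shift 1 2)] (by decide +kernel))
noncomputable def rhc35e41548bf9000c : CRef := CRef.mk (Pat.mk 0x78000000000000000000000000 0x1c0000001f0000003c000000780000003c0000003f0000003c 9 7) 0 0 (step_sound _ 67 [rh22e467db2512415c, (rheb0810cc63b001d8.shift 2 2)] (by decide +kernel))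
noncomputable def rh06b485b5c2a8be04 : CRef := CRef.mk (Pat.mk 0xe00000003000000000000000000000000 0x30000000f0000000f0000000e0000000e0000003f0000003f0000001f00000004 9 6) 0 0 (step_sound _ 162 [(rh3d497ce94bfd3bc0.shift 0 1), (rh4821dcf828b9d7bf.shift 1 1), (rhadf429772c25fde0.shift 1 1), rhd7030cc3274a24d1] (by decide +kernel))
noncomputable def rh83be88bbe8ebc2d2 : CRef := CRef.mk (Pat.mk 0x1c00000010 0x200000002000000330000003f0000003f00000034 9 6) 0 0 (step_sound _ 33 [rh52bdd2c35c4c50f6, (rhe25b0a99195a5d59.shift 1 0)] (by decide +kernel))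
noncomputable def rh8f5489b12ed3fc23 : CRef := CRef.mk (Pat.mk 0x1c000000300000000000000000 0x320000003a0000007f0000007f0000003c0000003c0000003e0000003c 9 7) 0 0 (step_sound _ 131 [(rh0ea98ce24a7337c3.shift 0 1), rh6e1ceed64807e6cb, (rhc38f566cab2818e5.shift 3 0)] (by decide +kernel))
noncomputable def rh2ea9597219e1901e : CRef := CRef.mk (Pat.mk 0x4000000040000001c0000000000000000000000000000000000000000 0x7a0000003e000000740000003c0000007f0000003e0000007e0000007200000010 9 7) 0 0 (step_sound _ 130 [(rh1409e9f995b4c970.shift 0 3), (rh157b220518f94713.shift 1 3), (rh2fa30d864e6aeed7.shift 1 0), (rhfbf2eae4035425b6.shift 0 3)] (by decide +kernel))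
noncomputable def rh9003690463378585 : CRef := CRef.mk (Pat.mk 0xe00000018000000000000000000000000 0x1c0000001c0000003c0000001e0000001b0000003f0000003e0000003c 9 6) 0 0 (step_sound _ 132 [(rh20aa4f45d68bc15e.shift 1 0), (rh34b1188e635efc8d.shift 1 1), rh56b310ea13bebf11] (by decide +kernel))
noncomputable def rha50d92b1184ff682 : CRef := CRef.mk (Pat.mk 0x380000000000000000 0x20000000e0000000e0000007f0000003e0000000f0000000c 9 7) 0 0 (step_sound _ 66 [(rh4c622fddc53a5f99.shift 0 2), (rh592c7139d2c44767.shift 0 1), (rh7656d2f476883096.shift 1 0), (rh9e97bba44c1b13e4.shift 0 1), (rhdd510ff8251b8a75.shift 0 1)] (by decide +kernel))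
noncomputable def rh3916944cf6ca2673 : CRef := CRef.mk (Pat.mk 0x70000000c0000000000000000 0xe0000003f0000001f000000070000000f0000000f0000000f 9 6) 0 0 (step_sound _ 129 [rh9ce69c879dc440b9, (rhc38f566cab2818e5.shift 1 0), rhfeda1832de5039c4] (by decide +kernel))
noncomputable def rh4963c8468eabd8d0 : CRef := CRef.mk (Pat.mk 0x80000001c0000000000000000 0xa0000000a0000007f0000007f0000003c0000001600000006 9 7) 0 0 (step_sound _ 98 [rh44b76bf554dd5ec3, rha1d878e50ad2e7cc, (rhe2b63c00a3d7bb73.shift 0 2)] (by decide +kernel))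
noncomputable def rhc3388d33946c6d26 : CRef := CRef.mk (Pat.mk 0x10000000380000002000000000 0x1c0000001f0000001f000000380000003800000038 9 6) 0 0 (step_sound _ 132 [rh0710773dd8b92bcc, (rh2145e1d24b96a57e.shift 4 1)] (by decide +kernel))
noncomputable def rh761d345321e64696 : CRef := CRef.mk (Pat.mk 0x100000003800000020000000000000000000000000 0x3c0000003f0000003f00000038000000fe000000dc0000001800000010 9 8) 0 0 (step_sound _ 196 [(rh2145e1d24b96a57e.shift 4 3), rhb883b6cfff766cab] (by decide +kernel))
noncomputable def rh9f1618b41d6cb1f1 : CRef := CRef.mk (Pat.mk 0xc0000001c0000000000000000 0x3c0000007c0000007f0000007c0000001c0000001800000018 9 7) 0 0 (step_sound _ 130 [(rh55a1f6c57a317ce6.shift 2 0), (rh5a28e73a7d733c36.shift 1 0), (rh8c2640c009b1e3a1.shift 0 1)] (by decide +kernel))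
noncomputable def rh391474862bffe443 : CRef := CRef.mk (Pat.mk 0x80000001c000000000000000000000000 0x16000000770000007f0000003c0000007e0000003e0000003e 9 7) 0 0 (step_sound _ 130 [rha0c214e79698e8d9, (rhe2b63c00a3d7bb73.shift 0 3), (rhf6bd4e6e1a120c4d.shift 1 0)] (by decide +kernel))
noncomputable def rh5d60a9e0ddf3152b : CRef := CRef.mk (Pat.mk 0x1a0000000a00000000000000000000000000000000 0x100000001c0000001c0000001f0000001a0000001b0000001f0000001f0000001800000010 9 5) 0 0 (step_sound _ 99 [(rh032088bc6e5fee0f.shift 0 2), (rh215e11e099257d75.shift 3 2), (rh3820f35d5e705bec.shift 3 0)] (by decide +kernel))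
noncomputable def rh8007fd6e8f66c2f8 : CRef := CRef.mk (Pat.mk 0x1a0000000a000000000000000000000000 0xc0000001c0000001c000000180000003b0000007e0000003c0000007c00000030 9 7) 0 0 (step_sound _ 164 [rh30c95b29b3f06d3c, (rh4821dcf828b9d7bf.shift 3 1), (rh5c56ff0e27521733.shift 0 2), (rhce548eb50878c72e.shift 1 1)] (by decide +kernel))
noncomputable def rh70d64d46643c5890 : CRef := CRef.mk (Pat.mk 0x34000000140000000000000000000000000000000000000000 0x800000038000000380000003400000034000000360000003f000000ff000000780000003800000028 9 8) 0 0 (step_sound _ 132 [(rh215e11e099257d75.shift 4 3), (rh56b05f3795e64f26.shift 3 1), (rh617de121c2f863b5.shift 0 3), rhb0550de9dd190266, (rhffb8e5993241bf15.shift 3 1)] (by decide +kernel))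
noncomputable def rh1263e621052a4dec : CRef := CRef.mk (Pat.mk 0x80000001a000000020000000000000000000000000000000000000000 0x140000001f0000003b0000001f0000007e000000180000001c0000001c00000004 9 7) 0 0 (step_sound _ 163 [(rh60a781551e50bc18.shift 0 5), rhe516ddf710b6c55a, (rhfad1d898301e6e67.shift 0 3)] (by decide +kernel))
noncomputable def rh837cabd6954c84a4 : CRef := CRef.mk (Pat.mk 0x80000001a000000020000000000000000 0x40000001c0000001c0000001c0000001f0000003b0000001e0000001a00000018 9 6) 0 0 (step_sound _ 163 [rh12db11de35d26def, (rh261acbd0633f8587.shift 0 1), (rh4e64b7e82c9211af.shift 2 2), (rh70e33bfdf511e144.shift 3 0)] (by decide +kernel))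
noncomputable def rh4429f1c59b8dd5ee : CRef := CRef.mk (Pat.mk 0x1a0000000200000000000000000000000000000000 0x150000001f0000001f0000001f0000003b0000001f0000003b0000001f0000001f00000014 9 6) 0 0 (step_sound _ 131 [(rh3c314ace9e06a5c5.shift 0 1), (rh60a781551e50bc18.shift 0 4), rh6c53af37a943a608, (rhd351b5165b050003.shift 0 2)] (by decide +kernel))
noncomputable def rhd64fb1eaf660f663 : CRef := CRef.mk (Pat.mk 0x80000006800000008000000000000000000000000 0x140000005c0000007c0000005f000000ec0000007c000000ec0000002c00000004 9 8) 0 0 (step_sound _ 101 [(rh60a781551e50bc18.shift 2 3), (rhca377c41582896f5.shift 2 2), rhcddfa3946ce8f377, (rhdeb52af3bc45e818.shift 2 0)] (by decide +kernel))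
noncomputable def rh3098c4a3bff7088a : CRef := CRef.mk (Pat.mk 0x40000003400000004000000000000000000000000 0x200000026000000760000003e0000007f0000007e0000006e 9 7) 0 0 (step_sound _ 100 [rh2f456b52cca59d1a, (rh60a781551e50bc18.shift 1 3), (rh6dde65a17eb5f373.shift 1 0), (rh74221a1ce8038979.shift 1 0)] (by decide +kernel))
noncomputable def rh2f5d0fe8da1cf95e : CRef := CRef.mk (Pat.mk 0x20000001a0000000200000000 0x100000007000000070000000700000007000000030000001b0000000f00000005 9 5) 0 0 (step_sound _ 129 [rh20966da26a1c2ae8, rh7657e5af8acea86b, rhd630af2e39ca770f] (by decide +kernel))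
noncomputable def rh8bcd939120e0214f : CRef := CRef.mk (Pat.mk 0x2000000020000000200000000000000000000000000000000 0x5000000070000000700000007000000030000000300000007000000070000000700000001 9 3) 0 0 (step_sound _ 225 [rh5f389281de5647f1, (rhc4526fc8abf298b6.shift 0 2), (rhc85cc95794737cf7.shift 0 4)] (by decide +kernel))
noncomputable def rhc1a174e7dc9dbeb2 : CRef := CRef.mk (Pat.mk 0x1a0000000a00000000000000000000000000000000 0x5000000170000001f0000001f0000003a0000000e0000003e0000001f0000001c00000014 9 6) 0 0 (step_sound _ 99 [(rh215e11e099257d75.shift 3 2), rh7221ca97259e6855, (rhf640e34cdd84f398.shift 0 2), (rhffb8e5993241bf15.shift 2 0)] (by decide +kernel))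
noncomputable def rhc4727a5316df72c8 : CRef := CRef.mk (Pat.mk 0x340000001400000000000000000000000000000000 0x2000000038000000380000003c00000034000000360000003e0000007f0000003800000028 9 7) 0 0 (step_sound _ 100 [(rh07e66cb937388242.shift 0 2), (rh215e11e099257d75.shift 4 2), (rh6cac877511e121ac.shift 1 0), (rhffb8e5993241bf15.shift 3 0)] (by decide +kernel))
noncomputable def rh7a71dfed531ef52e : CRef := CRef.mk (Pat.mk 0x20000001a000000020000000000000000000000000000000000000000 0x4000000070000000f0000001b000000060000000600000007000000070000000700000004 9 5) 0 0 (step_sound _ 129 [(rh330a005829cdd297.shift 0 4), rh331cf710469fd4f9, (rhced6d86d2069808b.shift 1 3)] (by decide +kernel))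
noncomputable def rh4df8cdda64581453 : CRef := CRef.mk (Pat.mk 0x20000001a0000000200000000 0x4000000070000000700000007000000060000000f0000001b0000000f00000005 9 5) 0 0 (step_sound _ 129 [rh36e6bb6cca6188da, (rh7e16d737931259cb.shift 0 1)] (by decide +kernel))
noncomputable def rhec6aa5f0eeb12249 : CRef := CRef.mk (Pat.mk 0x1a0000000200000000000000000000000000000000 0x140000001c0000001c0000001f0000003b0000001f0000007c0000001c0000001c00000014 9 7) 0 0 (step_sound _ 131 [rh225d159806ff43c9, (rh60a781551e50bc18.shift 0 4), rhdbd3faf214b8a5ad] (by decide +kernel))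
noncomputable def rh3ebda8305d8372a9 : CRef := CRef.mk (Pat.mk 0x80000001a00000002000000000000000000000000 0x50000000f0000000f0000001f0000003b000000160000001f0000001700000005 9 6) 0 0 (step_sound _ 161 [(rh052037c23179916b.shift 0 4), rh95014bec7e1b5e3a, rhf1d1ac747eec4e14] (by decide +kernel))
noncomputable def rh5567aa231d52384a : CRef := CRef.mk (Pat.mk 0x200000006800000008000000000000000000000000 0x140000001c0000003c0000007f0000003c000000ec000000780000007c0000005c00000014 9 8) 0 0 (step_sound _ 163 [(rh36aa3fb9b3ed560b.shift 2 2), (rh46990448042cc692.shift 2 2), (rhd77d65a258700acf.shift 0 1), (rhd8fe3eb986219fc8.shift 2 0), (rhf1d1ac747eec4e14.shift 2 0)] (by decide +kernel))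
noncomputable def rh92ed458b2a15017e : CRef := CRef.mk (Pat.mk 0x1a0000000a000000000000000000000000 0xc0000001c0000001c000000180000003b0000007e0000003c0000007c00000030 9 7) 0 0 (step_sound _ 164 [rh30c95b29b3f06d3c, (rh5c56ff0e27521733.shift 0 2), (rhce548eb50878c72e.shift 1 1), (rhf9366b6a121593ef.shift 3 1)] (by decide +kernel))
noncomputable def rh0dd95a04ad0509d6 : CRef := CRef.mk (Pat.mk 0x300000001400000000000000000000000000000000 0x38000000380000003800000030000000360000003e0000007f0000003800000028 9 7) 0 0 (step_sound _ 100 [(rh215e11e099257d75.shift 4 2), (rh56b05f3795e64f26.shift 3 0), (rh6cac877511e121ac.shift 1 0), (rh80114a7c4baccf67.shift 0 2), (rhffb8e5993241bf15.shift 3 0)] (by decide +kernel))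
noncomputable def rhad1fead50175451d : CRef := CRef.mk (Pat.mk 0x1a00000002000000020000000000000000 0x10000000700000007000000070000000f0000001b00000003000000030000000300000001 9 5) 0 0 (step_sound _ 161 [(rh20966da26a1c2ae8.shift 0 1), (rh330a005829cdd297.shift 0 2), rhe251f7900272287e, (rhff96651a0dddf3cc.shift 0 1)] (by decide +kernel))
noncomputable def rh07d6a436cf0eaa3c : CRef := CRef.mk (Pat.mk 0x1a00000002000000020000000000000000 0x10000000700000007000000070000000f0000001b00000003000000070000000700000004 9 5) 0 0 (step_sound _ 161 [(rh20966da26a1c2ae8.shift 0 1), rha7ecdcd6c41a7132, (rhff96651a0dddf3cc.shift 0 1)] (by decide +kernel))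
noncomputable def rhdba532430bc3d5b3 : CRef := CRef.mk (Pat.mk 0x40000000e00000008000000000000000000000000 0x1c0000003c0000003f0000001e0000003b000000320000003200000030 9 6) 0 0 (step_sound _ 194 [(rh2145e1d24b96a57e.shift 2 3), rh4b51b88ee6bc6e64] (by decide +kernel))
noncomputable def rh7a0d1612a1539ed5 : CRef := CRef.mk (Pat.mk 0x180000007000000000000000000000000000000000 0x6000000068000001ec000000f80000007f000000f8000001fc0000007800000008 9 9) 0 0 (step_sound _ 100 [(rh01483ff9cba2f6ac.shift 3 0), (rh30305ffece0d94e4.shift 2 1), (rh5753bc690dc6a0be.shift 0 1)] (by decide +kernel))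
noncomputable def rh503e3e30361a1003 : CRef := CRef.mk (Pat.mk 0xa0000000e00000000000000000000000000000000 0x140000001c0000003c0000007e0000000e0000007f0000003e0000001e0000001c 9 7) 0 0 (step_sound _ 164 [(rh80f90a60d87caa0d.shift 1 4), rh9bb43661962aaba8, (rha2e5125cc8a3c4e0.shift 1 0)] (by decide +kernel))
noncomputable def rh203fcf2d5f60c0e4 : CRef := CRef.mk (Pat.mk 0x140000001c00000000000000000000000000000000 0x38000000780000001c0000003f0000007e000000fc0000003800000038 9 8) 0 0 (step_sound _ 99 [(rh1242ab3253835243.shift 0 2), rh447e1124fa5c0f95, (rhf9366b6a121593ef.shift 3 1)] (by decide +kernel))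
noncomputable def rhfb39705ecca8d6b7 : CRef := CRef.mk (Pat.mk 0x1c000000060000000000000000 0x3800000038000000fa000000ff0000001f000000360000003400000034 9 8) 0 0 (step_sound _ 131 [rhc7f851f4b68746f3, rhdc564b97248c4913, (rhf9366b6a121593ef.shift 2 0)] (by decide +kernel))
noncomputable def rhf623ad399f04ad70 : CRef := CRef.mk (Pat.mk 0x70000000180000000000000000000000000000000000000000 0x20000000280000003c000000700000001e000000ff0000007f000000380000003800000008 9 8) 0 0 (step_sound _ 162 [rh203266b169a7de58, (rh53b3c253cb0c65f4.shift 1 5)] (by decide +kernel))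
noncomputable def rhbfd0d94e2c701200 : CRef := CRef.mk (Pat.mk 0x1e00000000000000000000000000000000 0x300000003000000070000001e0000003f000000070000000700000002 9 6) 0 0 (step_sound _ 161 [rh0a2c0b5dd5e63b5d, (rh3244c3cc8379b070.shift 0 4)] (by decide +kernel))
noncomputable def rh1ba3b2be3d7dfa7d : CRef := CRef.mk (Pat.mk 0x1c00000006000000000000000000000000 0x2000000038000000f8000000fc0000001c0000007e0000007f0000001e0000001a 9 8) 0 0 (step_sound _ 163 [rh99d19f4e5c6263a4, (rha80845b31cf07938.shift 2 0), (rhadf429772c25fde0.shift 2 1), (rhf9366b6a121593ef.shift 2 1)] (by decide +kernel))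
noncomputable def rh0b8f5bb48328c60c : CRef := CRef.mk (Pat.mk 0x38000000200000000000000000 0x20000000280000006f0000003e0000003f0000001600000016 9 7) 0 0 (step_sound _ 98 [(rh0de0633ca141d0f2.shift 1 0), (rh592c7139d2c44767.shift 0 2), (rh7d5bf828111ca202.shift 0 2), (rhba50fd7aca570c30.shift 1 0)] (by decide +kernel))
noncomputable def rhde11f9c3c83cd3d6 : CRef := CRef.mk (Pat.mk 0xa000000038000000000000000000000000 0x4000000070000001f0000001b00000003e000000770000003000000010 9 9) 0 0 (step_sound _ 98 [(rh1dc72d813c118618.shift 1 1), (rh2591032a0e7f4182.shift 0 2), (rh9483656c38360087.shift 1 0)] (by decide +kernel))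
noncomputable def rh29e1c8f55dd0a1ee : CRef := CRef.mk (Pat.mk 0xe0000000800000000000000000000000000000000 0x40000001c0000001c0000001c0000000c0000001e0000007f0000007c0000001e0000001c00000004 9 7) 0 0 (step_sound _ 99 [(rh01483ff9cba2f6ac.shift 2 0), (rh4dc63e5aeff20e3f.shift 1 1), (rh72f9a905bb27fee1.shift 1 1), (rhb1a251d9bff81766.shift 2 2), (rhc728a04131722001.shift 0 2)] (by decide +kernel))
noncomputable def rhfc5fe1e6cb33d77b : CRef := CRef.mk (Pat.mk 0x200000000e000000080000000000000000000000000 0x1e0000007e0000006e7000001fe000000ff000001d8000000d000000050 9 11) 0 0 (step_sound _ 166 [rh1f751c864a6327e0, (rhc2c7bae8f445c890.shift 6 1), (rhc38f566cab2818e5.shift 6 1), (rhc8b7a68c540f1db1.shift 0 1)] (by decide +kernel))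
noncomputable def rh27a278aa4a4c831e : CRef := CRef.mk (Pat.mk 0x20000000200000002000000000 0x50000003de000003fe000003fe000003b70000002000000020 9 10) 0 0 (step_sound _ 132 [(rh0dbc8abee7ad42d4.shift 4 0), (rh0ec84a1ddfb0e452.shift 1 1), (rha5dc83e34999ae02.shift 2 0), rhb755b31e5fd3fd77] (by decide +kernel))
noncomputable def rh592c5e4343ef6584 : CRef := CRef.mk (Pat.mk 0x4000000040000001c000000000000000000000000 0x3a0000003a000000fb000000ff000000f60000001c0000000f0000000a00000008 9 8) 0 0 (step_sound _ 163 [(rh95a0fbcf62c388a5.shift 0 2), (rhb2bdfbd0153d3403.shift 0 1), rhf01660f747925529, (rhf6c761520e7ab6dc.shift 1 2)] (by decide +kernel))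
noncomputable def rh389261f06bd3032b : CRef := CRef.mk (Pat.mk 0x10000000700000002000000000 0x3f0000007e000000f7000000780000003c00000008 9 8) 0 0 (step_sound _ 132 [rh1e2c8abc72097a05, (rh2145e1d24b96a57e.shift 4 1)] (by decide +kernel))
noncomputable def rhfbf50fe5ffe63618 : CRef := CRef.mk (Pat.mk 0x4000000040000001c0000000000000000000000000000000000000000 0x500000007a0000007e000000740000003c0000007f0000007a000000700000007000000050 9 7) 0 0 (step_sound _ 197 [(rh06ecaba67d7a2f1e.shift 1 4), (rh75b8f36aa528fb98.shift 1 0), (rh82cf1e595af8c193.shift 1 2), (rh8ccf4e67c7094a34.shift 2 1), (rhe05b249c14920ca2.shift 0 3), (rhe7f681e7ab54817b.shift 1 0)] (by decide +kernel))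
noncomputable def rh90a7f95ce1789fab : CRef := CRef.mk (Pat.mk 0x1800000070000000000000000000000000 0x2000000038000000380000007f0000007f0000001e000000700000003c0000002800000020 9 7) 0 0 (step_sound _ 130 [(rhb739f4f82bb681b4.shift 1 3), rhe4af1259a2ff4bbc] (by decide +kernel))
noncomputable def rh6f6440b3faaa0fc4 : CRef := CRef.mk (Pat.mk 0x3800000020000000000000000000000000 0xa0000000e0000002e0000006f0000003e0000003f0000001e0000001600000004 9 7) 0 0 (step_sound _ 130 [(rh592c7139d2c44767.shift 0 3), (rh7d5bf828111ca202.shift 0 3), (rhba50fd7aca570c30.shift 1 1), (rhe241b6fc823dc9a4.shift 1 0)] (by decide +kernel))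
noncomputable def rh0fce3ac7a51ec0eb : CRef := CRef.mk (Pat.mk 0x380000000c000000000000000000000000 0x100000001800000038000000780000003f0000007c0000007c0000003400000004 9 7) 0 0 (step_sound _ 163 [(rh281c6819542c66e6.shift 2 0), (rh660ea19c86119cc0.shift 2 2), (rh917f30b2dc26870a.shift 0 1)] (by decide +kernel))
noncomputable def rh7740381954884b82 : CRef := CRef.mk (Pat.mk 0x70000000500000000000000000 0x90000001b8000001f8000001f0000000fe00000077000001f0000000e0 9 9) 0 0 (step_sound _ 133 [(rh1a02c109dfb229e5.shift 3 1), rh3d752e17cb293741, (rha27517c04db185d6.shift 4 1)] (by decide +kernel))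
noncomputable def rhce0dbaf0e28988d7 : CRef := CRef.mk (Pat.mk 0x100000001000000010000000000000000000000000 0x20000001ef000001fe000001fe0000001800000010000000180000001800000008 9 9) 0 0 (step_sound _ 197 [(rh08d50fe567eb1045.shift 4 2), (rh1725eba4bd36066a.shift 3 0), (rh22d86f446f3de558.shift 1 2), (rh35f50cf06e21c4a2.shift 3 2), (rhb74ca14f2ecc0f11.shift 1 2), (rhdabd7faf88880e09.shift 0 3)] (by decide +kernel))
noncomputable def rh08aad692b049ab9f : CRef := CRef.mk (Pat.mk 0x2000000020000000e0000000000000000000000000 0x150000007de000003fe000007bf000000e0000000780000007000000010 9 11) 0 0 (step_sound _ 166 [rh1ff89deba51fc857, (rh62a423a29f15e06c.shift 2 2), (rh6bc015b9268c8423.shift 2 1), (rhb2bdfbd0153d3403.shift 3 1)] (by decide +kernel))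
noncomputable def rh24096d3a66899723 : CRef := CRef.mk (Pat.mk 0x40000001c000000000000000000000000 0x800000008000000fc0000003e000000fc0000003e0000000f0000000e00000008 9 8) 0 0 (step_sound _ 67 [(rh5d54cb79a67f97ab.shift 2 0), (rh86e87edf7a950fde.shift 1 0), (rh9fa5cf8648ced13b.shift 0 1), (rha40d42a2e34c408d.shift 2 0)] (by decide +kernel))
noncomputable def rh0a1a9682e5ba63ae : CRef := CRef.mk (Pat.mk 0x4000000040000001c0000000000000000000000000000000000000000 0x500000007a0000007e000000740000003c0000007f0000007e0000007a0000007000000050 9 7) 0 0 (step_sound _ 197 [(rh32db1b658e2cb8f1.shift 1 2), (rh75b8f36aa528fb98.shift 1 0), (rh8ccf4e67c7094a34.shift 2 1), (rha428e52c00fa2746.shift 1 4), (rhd89e687811801a5a.shift 1 0), (rhe05b249c14920ca2.shift 0 3)] (by decide +kernel))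
noncomputable def rh4785ef24b36e1b2d : CRef := CRef.mk (Pat.mk 0x1c00000004000000000000000000000000 0x2c0000002c0000007e0000007c0000001f000000f60000003e0000007c00000020 9 8) 0 0 (step_sound _ 163 [rh1a3ace50b41aa9b3, (rh4821dcf828b9d7bf.shift 2 1), (rhd586caa8d7cfeffd.shift 0 2)] (by decide +kernel))
noncomputable def rhe0960b2c8c7225c9 : CRef := CRef.mk (Pat.mk 0x18000000700000000000000000000000000000000000000000 0x80000001a0000001f0000001e000000740000003e0000003f0000003a0000003800000020 9 7) 0 0 (step_sound _ 194 [rh33020f8a9bdfc234, (rhb739f4f82bb681b4.shift 1 5)] (by decide +kernel))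
noncomputable def rha82394195734f768 : CRef := CRef.mk (Pat.mk 0x28000000e0000000000000000000000000 0xb7000003fe000003ef000000e0000001f8000003f8000000f0 9 10) 0 0 (step_sound _ 70 [(rh432ef854ee24ce59.shift 3 0), (rh5d54cb79a67f97ab.shift 5 0), (rha40d42a2e34c408d.shift 5 0), (rha443cf1b27575836.shift 0 1)] (by decide +kernel))
noncomputable def rh1a4ffbc6e00d148d : CRef := CRef.mk (Pat.mk 0x38000000a000000000000000000000000000000000 0x70000000f80000003e000001bf000001f0000000700000007000000040 9 9) 0 0 (step_sound _ 129 [(rh125aeb9f03398307.shift 0 4), (rh19100921be684ebf.shift 1 0), (rh374662b577d717d1.shift 0 4), (rh924261c6fc757ac5.shift 0 2)] (by decide +kernel))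
noncomputable def rh1ea354ed4246a050 : CRef := CRef.mk (Pat.mk 0x2000000038000000000000000000000000 0xec000000fc000001fc000000380000003e0000007f0000003c 9 9) 0 0 (step_sound _ 68 [rhbc65c351ee101350, (rhcf80391c5046a495.shift 4 0), (rhe82ac6a170091c68.shift 1 0), (rhf9366b6a121593ef.shift 4 0)] (by decide +kernel))
noncomputable def rh15086894a90631c4 : CRef := CRef.mk (Pat.mk 0x400000007000000000000000000000000000000000 0x400000007800000078000000fc0000007c000000ff0000007800000018 9 8) 0 0 (step_sound _ 101 [(rh6bd1cd64f43b6052.shift 2 0), rh89f45013278d9a57, (rhf9366b6a121593ef.shift 5 1)] (by decide +kernel))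
noncomputable def rh264fcb90e9280a1c : CRef := CRef.mk (Pat.mk 0x100000001c00000000000000000000000000000000 0x3000000038000000180000001f0000007f000000780000003800000018 9 7) 0 0 (step_sound _ 99 [(rh1358a36a0be22561.shift 0 1), rh2199b3f569c088bc, (rhf9366b6a121593ef.shift 3 1)] (by decide +kernel))
noncomputable def rh0d2cfc6b081b5b25 : CRef := CRef.mk (Pat.mk 0xe000000080000000000000000000000000000000000000000 0x10000000180000001c0000000e0000001e0000007f0000007f0000003f0000001c0000001c00000004 9 7) 0 0 (step_sound _ 164 [(rh09c9021386eaf601.shift 0 1), (rhae2edff970a530ce.shift 1 5), rheb94ba9a52a9bcef] (by decide +kernel))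
noncomputable def rhe6befb8a81049afc : CRef := CRef.mk (Pat.mk 0x70000000400000000000000000 0x3000000077000000fe0000007e000000fc00000078 9 8) 0 0 (step_sound _ 67 [(rh0689d9d8d07c97bc.shift 0 2), (rh3cc5c7fb74c49f61.shift 1 2), (rh5f518925dd30f386.shift 2 0), (rhc7405c1d24553638.shift 2 0)] (by decide +kernel))
noncomputable def rhf932a137c0e56c04 : CRef := CRef.mk (Pat.mk 0xf0000000000000000000000000000000000000000 0x40000001c0000001c000000180000001c0000000f0000001c0000001c0000001c0000001c00000004 9 5) 0 0 (step_sound _ 195 [(rh33e738c4ed385b9f.shift 0 5), rhd111b82533d0e5cf] (by decide +kernel))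
noncomputable def rh57e0a2c0d32fb29c : CRef := CRef.mk (Pat.mk 0x20000000e0000000200000000000000000000000000000000 0x8000000380000003a0000003a0000003a0000001e0000007e0000003f0000003f0000003f00000005 9 7) 0 0 (step_sound _ 132 [(rh0d3c8bf4bf97ae4a.shift 1 4), (rh76f9528848def1b2.shift 1 1), rhb3576623d8821f47] (by decide +kernel))
noncomputable def rh2401a36a2d74fd25 : CRef := CRef.mk (Pat.mk 0x180000000e000000000000000000000000 0x3d0000003f0000001f0000001e0000003b0000001a00000018 9 6) 0 0 (step_sound _ 100 [(rh25688e6eb96f335c.shift 0 1), rh96be28324f4d1c3c, (rhea719cc8bd0bdd28.shift 1 1)] (by decide +kernel))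
noncomputable def rh621d5d105a890919 : CRef := CRef.mk (Pat.mk 0xe0000000800000000000000000000000000000000 0x40000001c0000001c0000001c0000000c0000000e000000fa0000007f000000ff0000001c00000014 9 8) 0 0 (step_sound _ 99 [(rh56259dd1390eee46.shift 2 0), rha44fb8efa5b3ba37, (rhb1a251d9bff81766.shift 2 2), (rhec59d5528fb4a666.shift 0 2)] (by decide +kernel))
noncomputable def rha3cf5f63dc5c7c82 : CRef := CRef.mk (Pat.mk 0x1c000000100000000000000000 0x60000001e0000003e0000001f0000003f0000001e0000001e00000014 9 6) 0 0 (step_sound _ 131 [rh2ba124b1e3af2825, (rhc2c7bae8f445c890.shift 3 0), (rhd29d8182902c06c4.shift 0 1)] (by decide +kernel))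
noncomputable def rhd5311f2d475a4f35 : CRef := CRef.mk (Pat.mk 0xc000000180000000000000000000000000000000000000000 0x140000001c0000001c0000001c0000003c0000003f0000000f00000018000000180000001c0000001c0000001c00000010 9 6) 0 0 (step_sound _ 193 [rh1d88ef6ef01b0534, (rhb739f4f82bb681b4.shift 0 5)] (by decide +kernel))
noncomputable def rh2c203d75202fab70 : CRef := CRef.mk (Pat.mk 0x60000000c00000000000000000000000000000000 0x4000000040000003e0000003e0000000e0000000f0000007e0000007f0000000e00000004 9 7) 0 0 (step_sound _ 98 [(rh668fc65514a55b16.shift 1 1), rhf521b83fc1e04810, (rhf6c6d1e6d2dcb9d7.shift 1 2)] (by decide +kernel))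
noncomputable def rh9faffeb4e4e67cb8 : CRef := CRef.mk (Pat.mk 0x40000001c0000001000000000000000000000000000000000 0xa0000000e0000000e0000007f0000007e0000006c0000003c0000001c0000001e0000000e0000000e00000008 9 7) 0 0 (step_sound _ 226 [(rh046c5eb18e55a239.shift 2 2), (rh51f4e8213ceae501.shift 1 0), (rh70e33bfdf511e144.shift 2 2), (rhab534de19aad5334.shift 0 4)] (by decide +kernel))
noncomputable def rh839144991dbdc839 : CRef := CRef.mk (Pat.mk 0x2000000020000000e0000000000000000000000000000000000000000 0x280000003d0000003f0000003a0000001e0000003f0000003f0000003f0000002700000004 9 6) 0 0 (step_sound _ 164 [(rha7b99b35de51fc0f.shift 1 1), (rhd9a0812e29dc7b13.shift 0 4), rhfd4798d59a0e8d51] (by decide +kernel))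
noncomputable def rh630af0346ed8b9af : CRef := CRef.mk (Pat.mk 0x60000000c00000000000000000000000000000000 0x10000000100000003e0000003f0000003e0000000c0000000c0000000e0000000e0000000e 9 6) 0 0 (step_sound _ 98 [(rh337efc9fbda80c1a.shift 1 0), (rh51d63757d58839cf.shift 0 2), (rh668fc65514a55b16.shift 1 1), (rh7cf68dc7e62595c7.shift 1 0), (rha8adb4d897afdcc6.shift 1 0)] (by decide +kernel))
noncomputable def rh76b0173561f13a3a : CRef := CRef.mk (Pat.mk 0x3800000020000000000000000000000000 0x100000001c0000007f0000007f000000ff000000780000002c0000002c0000002c00000004 9 8) 0 0 (step_sound _ 163 [(rh6505af074ed5e1f9.shift 0 1), (rh67ef5ee083c840f2.shift 2 0), (rh967a45ef8206f4a8.shift 2 1), (rhf60aa8aede119d3b.shift 0 4)] (by decide +kernel))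
noncomputable def rhfc9986c06a779249 : CRef := CRef.mk (Pat.mk 0x20000000700000004000000000 0x98000007f8000001ff000001fc000000f80000005000000010 9 11) 0 0 (step_sound _ 133 [(rh2145e1d24b96a57e.shift 5 1), rh33ec72d9fe59152a] (by decide +kernel))
noncomputable def rhc7419529367c802b : CRef := CRef.mk (Pat.mk 0x80000001c000000100000000000000000 0x14000000360000007f0000003e0000001f000000f800000030 9 8) 0 0 (step_sound _ 36 [rh000318503cfd96e9, (rh7b1f1fb55310c477.shift 3 0)] (by decide +kernel))
noncomputable def rhb36b82c67c51173e : CRef := CRef.mk (Pat.mk 0x20000000e0000000200000000000000000000000000000000 0x50000003f0000003f0000003f0000007e0000001e0000003a0000003a0000003a0000003800000008 9 7) 0 0 (step_sound _ 196 [(rh362e5730358db935.shift 0 2), (rhba3fefaa894766da.shift 1 5), (rhbf93d1655f0c9a70.shift 1 0)] (by decide +kernel))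
noncomputable def rh6ef713856e032bbe : CRef := CRef.mk (Pat.mk 0x1c000000060000000000000000 0x3800000038000000fe000000ff0000001f000000360000003600000036 9 8) 0 0 (step_sound _ 131 [(rh4821dcf828b9d7bf.shift 2 0), rhbe253d1426d5780c, rhc7f851f4b68746f3] (by decide +kernel))
noncomputable def rh49880dae3501b459 : CRef := CRef.mk (Pat.mk 0x7000000018000000000000000000000000 0x8000000380000003a0000003f0000003e000000740000001e0000001f0000001a00000008 9 7) 0 0 (step_sound _ 98 [(rh53b3c253cb0c65f4.shift 1 3), rh5c17efda7b5d6861] (by decide +kernel))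
noncomputable def rh2c2715cd92ffe81d : CRef := CRef.mk (Pat.mk 0x1c000000060000000000000000 0x1c0000001e0000001f0000001c0000007e0000007700000016 9 7) 0 0 (step_sound _ 131 [rh8c9637765ab1b949, (rhadf429772c25fde0.shift 2 0), rhbe253d1426d5780c] (by decide +kernel))
noncomputable def rh908f375a6db16047 : CRef := CRef.mk (Pat.mk 0x200000002000000020000000000000000000000000 0x200000002000000030000003ff000001fe000003de00000010 9 10) 0 0 (step_sound _ 68 [(rh0e6924d680f6455d.shift 4 0), (rh1246ce46fe147f6c.shift 0 1), (rh544d3caba1e1e2bb.shift 4 0), (rh83a7550584cadcf8.shift 1 1), (rhac4b4763407a46df.shift 2 1)] (by decide +kernel))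
noncomputable def rh70c4d2b1d830633a : CRef := CRef.mk (Pat.mk 0xc0000003800000000000000000000000000000000 0x140000001c0000001c0000001c0000003c0000000f0000000f000000380000001f0000001c0000001c00000014 9 6) 0 0 (step_sound _ 161 [(rhb739f4f82bb681b4.shift 0 4), rhfb4b491ed11d9cc5] (by decide +kernel))
noncomputable def rh27ba08add0e259d3 : CRef := CRef.mk (Pat.mk 0x70000000c0000000000000000000000000000000000000000 0xe0000000e0000003e0000003e000000070000000e0000000e0000000c0000000e0000000e0000000a 9 6) 0 0 (step_sound _ 226 [rh2781b8f9c5383818, (rhae734a6347f2da98.shift 0 3), (rhb23658ecdd7ce5df.shift 1 4)] (by decide +kernel))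
noncomputable def rhd096b1ac1da4c257 : CRef := CRef.mk (Pat.mk 0x1e0000000000000000000000000000000000000000 0x50000000700000007000000330000001e0000000700000007000000070000000700000004 9 6) 0 0 (step_sound _ 129 [rh06d29b3cd58d110b, (rheb0810cc63b001d8.shift 0 4)] (by decide +kernel))
noncomputable def rh263d69a8836dd695 : CRef := CRef.mk (Pat.mk 0xe00000006000000000000000000000000 0xc0000001c0000003c0000000e0000003e0000000f0000000e0000000c 9 6) 0 0 (step_sound _ 162 [rh1e5b644e4a2a4036, (rh503dd4575245365b.shift 1 2), (rh642e50382fd7f7a3.shift 1 0)] (by decide +kernel))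
noncomputable def rhc37a3a69d48941c2 : CRef := CRef.mk (Pat.mk 0x1c00000008000000000000000000000000 0x800000038000000780000003c0000001f0000007c0000003800000018 9 7) 0 0 (step_sound _ 98 [(rh4901b6d7440cf70b.shift 2 0), (rh4dc133ee0ba1420a.shift 0 3)] (by decide +kernel))
noncomputable def rh52f182f1cf4c1b73 : CRef := CRef.mk (Pat.mk 0x1c0000000c000000000000000000000000 0x8000000180000001c0000007f0000007f0000000f0000000e 9 7) 0 0 (step_sound _ 97 [(rh53b3c253cb0c65f4.shift 0 3), rha5a8efa9b36d04e8] (by decide +kernel))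
noncomputable def rh94540f749735353b : CRef := CRef.mk (Pat.mk 0x3800000018000000000000000000000000 0x20000000e0000000e0000000f0000000f000000078000000f8000000fc0000005f0000005c 9 8) 0 0 (step_sound _ 102 [rh0404c400f39985dc, (rhd5041491555e8d86.shift 3 3), (rhf74f014197d18cc6.shift 3 1)] (by decide +kernel))
noncomputable def rhb250f11fd476f15d : CRef := CRef.mk (Pat.mk 0x1c00000008000000000000000000000000 0x1800000038000000780000003c0000001f000000780000003e0000001c 9 7) 0 0 (step_sound _ 98 [(rh4dc133ee0ba1420a.shift 0 3), (rhbff85a5d3c686bee.shift 1 0)] (by decide +kernel))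
noncomputable def rhe8b0870ed1038143 : CRef := CRef.mk (Pat.mk 0xe000000140000000000000000 0x80000003800000038000000380000003c0000001e000000370000001400000014 9 6) 0 0 (step_sound _ 100 [rh66d417cd590c2c01, (rhe25b0a99195a5d59.shift 1 2)] (by decide +kernel))
noncomputable def rhafef0e17e7c1df0c : CRef := CRef.mk (Pat.mk 0x3800000050000000000000000000000000 0x3000000030000000780000007f000000df0000007800000078 9 8) 0 0 (step_sound _ 99 [(rh170f8047aa9e0718.shift 1 0), (rh4dc133ee0ba1420a.shift 1 3), rh53a49d8436a90acd] (by decide +kernel))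
noncomputable def rh6c78199793232d4b : CRef := CRef.mk (Pat.mk 0x1c0000000c0000000000000000 0x1c0000001c000000180000001c0000007f0000007700000014 9 7) 0 0 (step_sound _ 65 [(rh53b3c253cb0c65f4.shift 0 2), rhbee6dcf564a1ab50] (by decide +kernel))
noncomputable def rhc19b4746fc72ffe0 : CRef := CRef.mk (Pat.mk 0x700000003000000000000000000000000 0x60000000e0000001e00000007000000070000001f0000000f00000006 9 5) 0 0 (step_sound _ 161 [rh28ca7a8ff6dddf3b, (rh503dd4575245365b.shift 0 2), rh642e50382fd7f7a3] (by decide +kernel))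
noncomputable def rh869e0d4245d0d791 : CRef := CRef.mk (Pat.mk 0x3800000018000000000000000000000000 0x20000000e000000078000000f8000000fc000000ff0000005c 9 8) 0 0 (step_sound _ 102 [(rh6ec780babe35b220.shift 3 1), (rh7614c74f0cfeb46e.shift 2 0), (rhd5041491555e8d86.shift 3 3), rhd523c42c9e05b39d] (by decide +kernel))
noncomputable def rh4a33c0d8c425c9c0 : CRef := CRef.mk (Pat.mk 0xe00000014000000000000000000000000 0x200000003c0000003e0000003c0000001e000000370000003a0000003800000028 9 6) 0 0 (step_sound _ 132 [rh719ca00d0cf162c5, (rhe25b0a99195a5d59.shift 1 3)] (by decide +kernel))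
noncomputable def rh410534fe9ee50f46 : CRef := CRef.mk (Pat.mk 0xe00000004000000000000000000000000 0x60000000e0000001f0000003c0000000e0000003e0000001f0000001e00000018 9 6) 0 0 (step_sound _ 163 [(rh1aafd8961bf02dd3.shift 0 1), (rh4821dcf828b9d7bf.shift 2 1), rh4ca5d7462671a1d3, (rhcf80391c5046a495.shift 2 1)] (by decide +kernel))
noncomputable def rh2a48209be788bf1a : CRef := CRef.mk (Pat.mk 0x3800000018000000000000000000000000 0x10000000100000001000000038000000f8000000fe000000ff0000007e 9 8) 0 0 (step_sound _ 68 [(rh1864e4c677b30864.shift 1 0), (rh267543c1c418c231.shift 3 0), (rh2bcd01745e1bd7fe.shift 1 0), (rh7bf9f9b2f3f08994.shift 2 0), rh9ff0730869ee77e8, (rhe2de5260b188f0f4.shift 1 0)] (by decide +kernel))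
noncomputable def rh124d32585ce22c6c : CRef := CRef.mk (Pat.mk 0x700000003000000000000000000000000 0x600000006000000060000000f0000001b0000001f0000001f00000006 9 5) 0 0 (step_sound _ 161 [(rh503dd4575245365b.shift 0 2), rh642e50382fd7f7a3, rhbe7a0147fb31face] (by decide +kernel))
noncomputable def rhb8a3df6ac636a8e2 : CRef := CRef.mk (Pat.mk 0xe000000040000000400000000 0x80000000e0000000e0000001e0000003c0000000e0000003c0000000f0000000a 9 6) 0 0 (step_sound _ 130 [(rh5a860b5057e1e4c5.shift 1 1), rh5c19ed9579a1fa6e, rh957e3bb4c843b184, (rha6dec7cbd82e07d9.shift 1 0)] (by decide +kernel))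
noncomputable def rhd04aa5a4cbee6f23 : CRef := CRef.mk (Pat.mk 0xe0000000400000004000000000000000000000000 0x340000001e0000003c0000003f0000003f0000003e00000002 9 6) 0 0 (step_sound _ 132 [(rh10aa878c8a80b2b3.shift 0 1), rh6e5f397fb81bb665, (rhd5041491555e8d86.shift 1 4)] (by decide +kernel))
noncomputable def rh76d8cb5ee0ff15ba : CRef := CRef.mk (Pat.mk 0x200000003000000010000000100000000000000000 0x48000001e80000007f000001ff000000f8000000ec00000048 9 9) 0 0 (step_sound _ 99 [(rh03bd3de0eda75619.shift 1 2), (rh557b120f072744ca.shift 1 3), (rh6847b991c3555125.shift 0 3), (rhb92dcb7a9ed3ce27.shift 1 2), (rhc7b5285d762b4b41.shift 1 0)] (by decide +kernel))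
noncomputable def rh97276c1696b931f8 : CRef := CRef.mk (Pat.mk 0x8000000080000000c0000000400000000 0x3000000030000000f4000000ff000000fc0000004f0000003c00000018 9 8) 0 0 (step_sound _ 100 [rh02f99bbc1f377c55, (rh0bb882ba86b2372d.shift 0 2), rhf4277f9b7820e91a] (by decide +kernel))
noncomputable def rhb015026092286517 : CRef := CRef.mk (Pat.mk 0x8000000080000000c0000000400000000 0x2000000030000000f0000000fc0000007e0000001f0000007c00000078 9 8) 0 0 (step_sound _ 100 [rh02f99bbc1f377c55, (rh0a3321a14891e7e1.shift 1 0), (rh0bb882ba86b2372d.shift 0 2)] (by decide +kernel))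
noncomputable def rh5a300d38aabc11db : CRef := CRef.mk (Pat.mk 0x200000003000000010000000100000000000000000 0x10000001f00000007e000000fe000000fc000000ef0000000c 9 9) 0 0 (step_sound _ 131 [(rh5dec5e73a267a1c4.shift 1 3), rh6421756fd6fcdcb6, (rha11dfd15f08f96e3.shift 2 4)] (by decide +kernel))
noncomputable def rh3f6d7afb35da12f5 : CRef := CRef.mk (Pat.mk 0xc00000006000000020000000000000000 0x1c0000001c0000007c0000007c0000000f0000001a0000001800000018 9 7) 0 0 (step_sound _ 99 [(rh0398cb284fad3d95.shift 0 1), (rh23dfbe441c32af81.shift 1 0), (rhf9d36e158778ce35.shift 0 3)] (by decide +kernel))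
noncomputable def rh2524814c2ad4e67e : CRef := CRef.mk (Pat.mk 0xc0000000600000002 0x800000038000000fe0000003f000000ff0000003f0000000e0000000a 9 8) 0 0 (step_sound _ 68 [(rh18965a982d73c794.shift 1 1), rh31f44f150dd80214] (by decide +kernel))
noncomputable def rh9677b9c8f6bd19b6 : CRef := CRef.mk (Pat.mk 0x100000001800000008000000080000000000000000 0xc0000002c000000fc0000003f0000007f000000fb0000003200000010 9 8) 0 0 (step_sound _ 130 [(rh5dec5e73a267a1c4.shift 0 3), rh6c76a20b510ab647, (rha11dfd15f08f96e3.shift 1 4), (rha14cbef28f7fbc3d.shift 0 1)] (by decide +kernel))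
noncomputable def rh7085f8a6bd829594 : CRef := CRef.mk (Pat.mk 0x20000000300000001800000000000000000000000000000000 0x8000000080000002800000078000000df000000ff000000ff0000001c0000000c 9 8) 0 0 (step_sound _ 99 [(rh093f26955c594481.shift 0 1), (rh44ba3727d720a474.shift 1 1), (rh4d5a6e4207309989.shift 1 1), rh55f60e4c7e7bade5, (rh57e062555a319246.shift 1 1), (rha60a573111957bb4.shift 0 1), (rhdd00f304475e066d.shift 0 2)] (by decide +kernel))
noncomputable def rh77523f3e8d1159d2 : CRef := CRef.mk (Pat.mk 0x10000000180000000c0000000000000000000000000000000000000000 0x60000000f40000003c000001fc0000007f0000007e000000760000007200000050 9 9) 0 0 (step_sound _ 131 [(rh71222050f2c63a3a.shift 3 3), rhf12e82e1e8d7b56e] (by decide +kernel))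
noncomputable def rhc4d70854ca67dde2 : CRef := CRef.mk (Pat.mk 0x8000000080000000c0000000400000000 0x3000000030000000f4000000ff000000fc0000005e0000007c00000078 9 8) 0 0 (step_sound _ 100 [(rh3a020e182dfd1d54.shift 1 2), rh8f7afe26d74474f8, rhf4277f9b7820e91a] (by decide +kernel))
noncomputable def rhdeaaf56d69c0283f : CRef := CRef.mk (Pat.mk 0x10000000180000000c000000000000000000000000 0x4000000f40000003f0000007c0000007e0000007e00000024 9 8) 0 0 (step_sound _ 67 [rh3c10b5e940e8285f, (rh71222050f2c63a3a.shift 3 1)] (by decide +kernel))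
noncomputable def rhd35c06597565c090 : CRef := CRef.mk (Pat.mk 0x80000000c000000040000000000000000000000000 0x2000000020000007a7000001fe000000ff0000007c000000f000000070 9 11) 0 0 (step_sound _ 133 [(rh164a19a2a1fd28fe.shift 0 3), (rh78c94d788837041e.shift 2 0), (rha11dfd15f08f96e3.shift 4 4)] (by decide +kernel))
noncomputable def rh32ff629855eb733b : CRef := CRef.mk (Pat.mk 0x1000000010000000180000000800000000 0x6000000060000001ec000001fe000001fc000000be0000001f00000014 9 9) 0 0 (step_sound _ 101 [rh38a17cf34b16806c, (rh574fdbf07bdd18b9.shift 1 2), (rhf4277f9b7820e91a.shift 1 0)] (by decide +kernel))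
noncomputable def rh8906c265f75747d5 : CRef := CRef.mk (Pat.mk 0x8000000080000000c0000000400000000 0x170000001f0000007a0000001f0000007c00000070 9 7) 0 0 (step_sound _ 35 [(rh0f36cf587c3d5a72.shift 1 0), (rhd10436d602f5ad6b.shift 0 1), rhfe557af9112f51d6] (by decide +kernel))
noncomputable def rhb3a993491ce0893b : CRef := CRef.mk (Pat.mk 0x80000000c000000040000000400000000000000000 0x2000000060000007e7000001fe000001ff0000007c0000003000000030 9 11) 0 0 (step_sound _ 133 [(rh312fd5f39b307bc4.shift 2 0), (rha11dfd15f08f96e3.shift 4 4), (rhe29db3b2a7682218.shift 0 1)] (by decide +kernel))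
noncomputable def rh569769b7d589d3ae : CRef := CRef.mk (Pat.mk 0x100000001800000008000000080000000000000000 0x80000000c0000002c000000fc0000003f0000007c000000fe0000003400000030 9 8) 0 0 (step_sound _ 130 [(rh5dec5e73a267a1c4.shift 0 3), (rha11dfd15f08f96e3.shift 1 4), rha1304125892595f8, (rhefe5216cf3d35273.shift 1 0)] (by decide +kernel))
noncomputable def rh0844ac88dc47cc2a : CRef := CRef.mk (Pat.mk 0x8000000080000000c0000000400000000 0x3000000030000000f4000000ff000000f80000005f0000003c00000018 9 8) 0 0 (step_sound _ 100 [rh02f99bbc1f377c55, (rh574fdbf07bdd18b9.shift 0 2), rhf4277f9b7820e91a] (by decide +kernel))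
noncomputable def rhaba870608dfb3747 : CRef := CRef.mk (Pat.mk 0x300000001c0000000000000000 0x3800000038000000780000007e0000001c0000001f0000000c 9 7) 0 0 (step_sound _ 99 [(rh18965a982d73c794.shift 2 2), rh75d5fbff9db4ea9e] (by decide +kernel))
noncomputable def rh635e736f0c3bf565 : CRef := CRef.mk (Pat.mk 0x180000000c0000000400000000000000000000000000000000 0x1000000030000000300000003f000000fc0000007f00000037000000360000000200000002 9 8) 0 0 (step_sound _ 98 [(rh71222050f2c63a3a.shift 2 2), rh9e2214a63ca152c7] (by decide +kernel))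
noncomputable def rhdff8a3dd10a6161a : CRef := CRef.mk (Pat.mk 0x200000003000000010000000100000000000000000 0x1000000018000001d8000001f80000007c000000f70000007e000000ef00000060 9 9) 0 0 (step_sound _ 166 [(rh69012675dfdb1a5b.shift 2 4), rh8d6fc335def79d7d, (rha80fa6bdebf20e2a.shift 3 1)] (by decide +kernel))
noncomputable def rh6a72bd1c09378eda : CRef := CRef.mk (Pat.mk 0x180000000e00000000000000000000000000000000 0x14000000340000001f000000fe0000007f0000003e0000001c00000014 9 8) 0 0 (step_sound _ 99 [(rh000637b5a81e86aa.shift 2 1), rh3f0978f70d48f52a, (rh7bd0b0f8e51c7229.shift 0 1)] (by decide +kernel))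
noncomputable def rh1cacc180ee14230b : CRef := CRef.mk (Pat.mk 0x300000001800000008000000000000000000000000 0x20000000300000001f000000ff000000ff0000003c0000001c 9 8) 0 0 (step_sound _ 35 [rh3da9f8b0e4bad326, (rh9e3edb185cc347de.shift 3 1)] (by decide +kernel))
noncomputable def rhcc3128727e4d29c8 : CRef := CRef.mk (Pat.mk 0xc0000000e000000000000000000000000 0xf0000007e0000003f0000000f00000007 9 7) 0 0 (step_sound _ 100 [rh3427004e31a35b31, (rh8a88abf038d31fd2.shift 0 2), (rhe3060b190bc0bc78.shift 0 3)] (by decide +kernel))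
noncomputable def rhb2129c1137b74b9c : CRef := CRef.mk (Pat.mk 0x180000001c000000000000000000000000 0x30000000340000003f0000001c0000007c0000003f0000001f 9 7) 0 0 (step_sound _ 67 [rhe158e5c0a9aba7f2, (rhe704ed0ef686f3fc.shift 2 0), (rhea7a1800d6f053bd.shift 3 0)] (by decide +kernel))
noncomputable def rhcc38a09cdd9a7f95 : CRef := CRef.mk (Pat.mk 0x4000000040000000600000002000000000000000000000000 0xa0000000f0000003e0000000e0000003e0000003c0000000c00000004 9 6) 0 0 (step_sound _ 98 [(rh3724468151636231.shift 1 1), (rh8ff3dde5b1c639e0.shift 1 1), (rhf7f7a6a2f276bb4b.shift 0 2), (rhfc3fc51f4c1cda06.shift 1 0)] (by decide +kernel))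
noncomputable def rh1185ccc39417202e : CRef := CRef.mk (Pat.mk 0x40000000600000002000000020000000000000000000000000 0x100000003000000070000000e8000003ff000001fe000003df0000005000000050 9 10) 0 0 (step_sound _ 100 [(rh5c462388eaeccdb2.shift 0 1), rh89a2a1a8a4ecea16, (rh976a48eb1c80a12f.shift 4 2)] (by decide +kernel))
noncomputable def rh4429e38411189b30 : CRef := CRef.mk (Pat.mk 0xe0000000c000000000000000000000000 0x4000000140000001e0000003f0000003b0000000f0000000e 9 6) 0 0 (step_sound _ 100 [rh3dc1609a87989285, (rhf48373e13d2bc128.shift 1 3)] (by decide +kernel))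
noncomputable def rh726eabb9531a750c : CRef := CRef.mk (Pat.mk 0x1c00000008000000000000000000000000 0x1800000038000000780000001f00000078000000700000003e00000038 9 7) 0 0 (step_sound _ 100 [(rh6292bd8784ece55f.shift 1 3), rh8cd718e893fc59d5, (rhc491afaf6e0c9cc9.shift 1 0)] (by decide +kernel))
noncomputable def rhb4cbe5490688833d : CRef := CRef.mk (Pat.mk 0x3800000010000000000000000000000000 0x3000000030000000700000003e00000077000000600000006000000060 9 7) 0 0 (step_sound _ 130 [(rh05b9ad096e06d11f.shift 0 3), (rh92eeac1c1b6d8178.shift 2 0), (rha03f6e28ea70fc7d.shift 1 3)] (by decide +kernel))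
noncomputable def rh451bf24e1f077197 : CRef := CRef.mk (Pat.mk 0x1c000000280000000000000000 0x1c0000001c000000180000001c0000007f0000007600000014 9 7) 0 0 (step_sound _ 68 [rh154325ef3989c892, (rhf48373e13d2bc128.shift 2 2)] (by decide +kernel))
noncomputable def rhf7f7f91a4ee2713a : CRef := CRef.mk (Pat.mk 0x180000000c00000004000000000000000000000000 0xc0000000c0000001e000000fc000000ff0000007b0000003800000020 9 8) 0 0 (step_sound _ 195 [rh411db4e3026169af, (rh5c5e593799055d58.shift 2 3)] (by decide +kernel))
noncomputable def rh58f7563fb63b5cca : CRef := CRef.mk (Pat.mk 0x600000003000000010000000000000000000000000 0x1000000070000000f0000000fe000000ff000000ff00000028 9 8) 0 0 (step_sound _ 68 [rh4e348764771c40bd, (rh71222050f2c63a3a.shift 4 1)] (by decide +kernel))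
noncomputable def rhae8cf54fb44d6beb : CRef := CRef.mk (Pat.mk 0x1000000030000000100000001000000000 0x28000000f80000003c000001df000000fe000001ef 9 9) 0 0 (step_sound _ 133 [(rh2f68792b6b779e96.shift 4 1), rhde6471958206a304] (by decide +kernel))
noncomputable def rh9e0f7fac96fd34f0 : CRef := CRef.mk (Pat.mk 0x1000000010000000180000000800000000 0x6000000060000001ec000001fe000001fc000000be0000001f00000014 9 9) 0 0 (step_sound _ 101 [rh38a17cf34b16806c, (rh574fdbf07bdd18b9.shift 1 2), (rh5ee33121959b792f.shift 1 0)] (by decide +kernel))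
noncomputable def rh472f978379929ad7 : CRef := CRef.mk (Pat.mk 0x80000000f00000000000000000000000000000000 0x140000001c0000001c0000000c0000000f0000001c0000001c0000001c00000008 9 5) 0 0 (step_sound _ 99 [(rha1d524f446bf3d24.shift 2 0), (rhe25b0a99195a5d59.shift 0 3)] (by decide +kernel))
noncomputable def rh76322a43e544c421 : CRef := CRef.mk (Pat.mk 0xe0000001800000000000000000000000000000000 0x180000007c0000001e000000180000003f000000ff0000003c00000004 9 8) 0 0 (step_sound _ 99 [(rh668fc65514a55b16.shift 2 1), rh89fb6447caf08ad2, (rha63b6180cfd6843d.shift 1 1)] (by decide +kernel))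
noncomputable def rh2676f81605dc5088 : CRef := CRef.mk (Pat.mk 0x60000000e000000000000000000000000 0xc0000000e0000000f0000003e0000000e0000003c0000001c0000000c 9 6) 0 0 (step_sound _ 66 [(rh272ba9a3f666c7eb.shift 0 1), (rh3cb04db3dd2b6a55.shift 1 0), (rh4ee84d7f73540b6b.shift 1 0)] (by decide +kernel))
noncomputable def rh55a673e9ab26d651 : CRef := CRef.mk (Pat.mk 0x80000001c000000000000000000000000 0x18000000380000007c0000001f0000003c000000780000003800000008 9 7) 0 0 (step_sound _ 130 [(rhe2b63c00a3d7bb73.shift 0 3), (rhf9ef97ed53eff047.shift 2 0)] (by decide +kernel))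
noncomputable def rhf61641ba8be3f123 : CRef := CRef.mk (Pat.mk 0xc0000001c0000000000000000 0xe0000000f0000007f0000007f0000001c0000001800000008 9 7) 0 0 (step_sound _ 97 [(rhb739f4f82bb681b4.shift 0 2), rhed8c4918710f8617] (by decide +kernel))
noncomputable def rhfa4ea57fef3b18b4 : CRef := CRef.mk (Pat.mk 0x60000000e0000000000000000000000000000000000000000 0x12000000160000003f0000003e0000001e0000003c00000038000000380000003800000008 9 6) 0 0 (step_sound _ 196 [(rh6870ff15d3813450.shift 1 5), (rha58ce28639129630.shift 0 3), (rhe19df29417b93977.shift 1 0)] (by decide +kernel))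
noncomputable def rhe761eea3e4836a2c : CRef := CRef.mk (Pat.mk 0x80000001c000000000000000000000000 0x1c0000003e000000780000001f0000003c000000780000003800000018 9 7) 0 0 (step_sound _ 130 [(rh7c69b01d6b06fcc5.shift 1 0), (rhe2b63c00a3d7bb73.shift 0 3)] (by decide +kernel))
noncomputable def rh7d442f0866f8f568 : CRef := CRef.mk (Pat.mk 0x140000000e0000000000000000000000000000000000000000 0x1400000014000000370000001e0000003c00000038000000380000003800000008 9 6) 0 0 (step_sound _ 164 [(rh33e738c4ed385b9f.shift 1 5), rhe5ad459c9232f8c5] (by decide +kernel))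
noncomputable def rhd2344ec398f0b1d2 : CRef := CRef.mk (Pat.mk 0x50000000380000000000000000 0x7800000078000000df0000007f000000780000003000000030 9 8) 0 0 (step_sound _ 99 [rh7bb6ebc239066d24, (rhc8987b3cc94d3a7b.shift 1 0), (rhe2b63c00a3d7bb73.shift 1 2)] (by decide +kernel))
noncomputable def rh00b51f3089dfef77 : CRef := CRef.mk (Pat.mk 0x300000007000000000000000000000000 0x60000000f0000001f00000007000000070000001e0000000e00000006 9 5) 0 0 (step_sound _ 65 [rh3cb04db3dd2b6a55, rh4ee84d7f73540b6b, (rh509bb976fc4e1e80.shift 0 1)] (by decide +kernel))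
noncomputable def rhff4e8b836a77bf61 : CRef := CRef.mk (Pat.mk 0x18000000380000000000000000 0x5c000000ff000000fc000000f800000078000000e000000020 9 8) 0 0 (step_sound _ 102 [(rh01277b18f7422269.shift 3 0), (rh364f3b3e5af318e4.shift 3 0), (rh6870ff15d3813450.shift 3 2), rhdc5853d8cf493901] (by decide +kernel))
noncomputable def rha521a9908f253aef : CRef := CRef.mk (Pat.mk 0x140000000e00000000000000000000000000000000 0x28000000380000003a000000370000001e0000003c0000003e0000003c00000020 9 6) 0 0 (step_sound _ 132 [rh1c6b14e1eef5bd68, (rh33e738c4ed385b9f.shift 1 4)] (by decide +kernel))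
noncomputable def rh149c9fe0b168effe : CRef := CRef.mk (Pat.mk 0x80000001c0000001000000000 0x40000003e000000fe000000ff0000001c0000007800000028 9 8) 0 0 (step_sound _ 131 [rh1aa34fb511dba10b, (rh2145e1d24b96a57e.shift 3 1)] (by decide +kernel))
noncomputable def rh8fa03fd98886174e : CRef := CRef.mk (Pat.mk 0xc0000001c000000000000000000000000 0x3f0000007f0000007f0000007c0000001c000000080000000800000008 9 7) 0 0 (step_sound _ 163 [(rh6609c8b2261018fb.shift 0 2), (rh799d8dd471fa94d2.shift 0 2), (rh86542c313e3c55a0.shift 1 2), (rh9dbc063ae34b2487.shift 0 3), (rhec4dedb547770e26.shift 1 0), (rhf53bfbcd8330112c.shift 2 0)] (by decide +kernel))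
noncomputable def rh4a0c443977dceb7d : CRef := CRef.mk (Pat.mk 0x300000007000000000000000000000000 0x60000001f0000001f0000001b0000000f000000060000000600000006 9 5) 0 0 (step_sound _ 65 [rh3cb04db3dd2b6a55, rh4ee84d7f73540b6b, (rh66adc933beb8c2a2.shift 0 1)] (by decide +kernel))
noncomputable def rh2e605f7329a87d11 : CRef := CRef.mk (Pat.mk 0x4000000040000000e0000000000000000000000000000000000000000 0x1a0000007f0000007c0000000e0000003c0000001e0000000e0000000e00000008 9 7) 0 0 (step_sound _ 130 [(rh110602f8af9497f9.shift 1 0), (rh6707a7d9a5e2262e.shift 1 3), (rh95311890f436bcdc.shift 1 1), (rh9f15cace915e145a.shift 1 3), (rhab3c3f3ae8c9664f.shift 0 3), (rhb72c6d3b8f00eaae.shift 1 1)] (by decide +kernel))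
noncomputable def rh9889c73149ac941e : CRef := CRef.mk (Pat.mk 0x8000000080000001c00000000 0x40000003c0000007c0000007f000000780000003c00000068 9 7) 0 0 (step_sound _ 69 [(rh6870ff15d3813450.shift 2 1), rh7175503ca809160d, (rha71d8812cc1ad326.shift 1 0)] (by decide +kernel))
noncomputable def rh277c859a086d4f64 : CRef := CRef.mk (Pat.mk 0x60000000e000000000000000000000000 0x140000003e0000003f0000003e0000000e0000000c0000000c0000000c 9 6) 0 0 (step_sound _ 66 [(rh22c1f3f3d176ad6f.shift 1 0), (rh2e89ac824286d8a3.shift 0 1), (rh3cb04db3dd2b6a55.shift 1 0)] (by decide +kernel))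
noncomputable def rh8237cbe33088c1fb : CRef := CRef.mk (Pat.mk 0x2000000070000000400000000000000000 0x70000000f00000003e000000fe000000770000003000000030 9 8) 0 0 (step_sound _ 165 [(rh2145e1d24b96a57e.shift 5 2), rh5c7793d5897c7eb7] (by decide +kernel))
noncomputable def rh27fe47b07a04e68c : CRef := CRef.mk (Pat.mk 0x2000000070000000400000000000000000 0x8000000080000005c0000007e000000fe000000770000006000000060 9 8) 0 0 (step_sound _ 38 [(rh7b1f1fb55310c477.shift 5 0), rh7f3a287f9f75f432] (by decide +kernel))
noncomputable def rh20aaf61296e8852e : CRef := CRef.mk (Pat.mk 0x700000004000000000000000000000000 0x80000000e0000000f0000003c0000000f0000003e0000003e0000001f0000001a 9 6) 0 0 (step_sound _ 99 [rh4a8ae7031dca9151, (rh89ade209b3e28f13.shift 0 3), (rhae2edff970a530ce.shift 0 3)] (by decide +kernel))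
noncomputable def rh8798aed3f677fd89 : CRef := CRef.mk (Pat.mk 0x1e00000010000000000000000000000000 0x800000018000000180000003b0000001e00000018000000380000003800000028 9 6) 0 0 (step_sound _ 164 [(rh33e738c4ed385b9f.shift 1 4), rh9e4945ebb1029c37] (by decide +kernel))
noncomputable def rh1d7635860d6eb37b : CRef := CRef.mk (Pat.mk 0x80000003800000000000000000000000000000000 0x1000000010000001ff0000007e000001f80000007c000000180000001c0000001c0000000c 9 9) 0 0 (step_sound _ 100 [(rh5d54cb79a67f97ab.shift 3 1), (rh86e87edf7a950fde.shift 2 1), rha7900e57fff82553] (by decide +kernel))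
noncomputable def rh9df165c46a9b9b15 : CRef := CRef.mk (Pat.mk 0x800000008000000380000000000000000 0x140000001c0000001c0000001c0000003c0000003f0000001f0000003c0000000800000008 9 6) 0 0 (step_sound _ 98 [rh80b92d244c4907e1, (rhd8e93bbc8568df99.shift 1 2), (rhdfbdb88f661f3471.shift 2 1)] (by decide +kernel))
noncomputable def rh8a5265175588d55d : CRef := CRef.mk (Pat.mk 0x1000000010000000700000000000000000000000000000000000000000 0xc000000ef000000fc0000003e0000007c000000f400000038000000380000003800000020 9 8) 0 0 (step_sound _ 195 [(rh6f2a9c97a78bbd72.shift 1 0), (rh70b33c37ee549dc0.shift 0 2), (rhd8e93bbc8568df99.shift 2 5)] (by decide +kernel))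
noncomputable def rh04b8fe065591782f : CRef := CRef.mk (Pat.mk 0x800000008000000380000000000000000000000000000000000000000 0x1000000054000001f6000000fe000001ef00000038000000380000001c0000001c0000001c00000010 9 9) 0 0 (step_sound _ 228 [(rh1b28938233f43bcc.shift 0 2), (rh62a423a29f15e06c.shift 0 4), (rh6bc015b9268c8423.shift 0 3), (rh9d4bde602558bb05.shift 2 0), (rhbbdd8e53e5c39835.shift 2 4)] (by decide +kernel))
noncomputable def rh8333c134d7a1b37a : CRef := CRef.mk (Pat.mk 0x20000000200000002000000000 0x2000000070000003fe000003fe000003ff0000003e0000002000000020 9 10) 0 0 (step_sound _ 132 [(rh0dbc8abee7ad42d4.shift 4 0), (rh0ec84a1ddfb0e452.shift 1 1), rh91ced0ab3692d57d, (rha5dc83e34999ae02.shift 2 0)] (by decide +kernel))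
noncomputable def rhb66b2feed22d8dd1 : CRef := CRef.mk (Pat.mk 0x100000007000000020000000000000000 0x2000000060000001e0000001f0000000f0000001f0000001f0000001f 9 5) 0 0 (step_sound _ 33 [rh7b1f1fb55310c477, rhc85b8d13b2465876] (by decide +kernel))
noncomputable def rh90144ae0a3a36f02 : CRef := CRef.mk (Pat.mk 0x40000001c00000008000000000000000000000000 0x600000007f0000007e000000fc0000003c0000007c000000300000003000000030 9 8) 0 0 (step_sound _ 194 [(rh2145e1d24b96a57e.shift 2 3), rh5223208d64314000] (by decide +kernel))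
noncomputable def rh2b3c35784ea584fd : CRef := CRef.mk (Pat.mk 0x7000000018000000000000000000000000 0xe0000001e0000007f8000001f00000007f000000f80000003c0000003800000008 9 11) 0 0 (step_sound _ 165 [rh377c10af9125cde3, (rh4f839f7e701ce77b.shift 2 2), (rhadf429772c25fde0.shift 4 1)] (by decide +kernel))
noncomputable def rha5829d8a56d9db7b : CRef := CRef.mk (Pat.mk 0x10000000e000000000 0x1df000000fe000000e7 9 9) 0 0 (step_sound _ 36 [(rh3244c3cc8379b070.shift 3 1), rhf59475f55942f1fa] (by decide +kernel))
noncomputable def rhab18fa8083e0ce2e : CRef := CRef.mk (Pat.mk 0x20000001e00000000000000000000000000000000 0x40000000700000007000000060000001e00000007000000070000000700000005 9 5) 0 0 (step_sound _ 97 [rha45781b3814b0e67, (rheb0810cc63b001d8.shift 0 3)] (by decide +kernel))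
noncomputable def rh063fec094b95526c : CRef := CRef.mk (Pat.mk 0xc000000180000000000000000000000000000000000000000 0x140000001c0000001c0000001c0000003c0000003f0000000f000000180000001c0000001c0000001c0000001c00000010 9 6) 0 0 (step_sound _ 193 [rh17d45fb72a6d619b, (rhb739f4f82bb681b4.shift 0 5)] (by decide +kernel))
noncomputable def rh21e1f907246ae682 : CRef := CRef.mk (Pat.mk 0x1c000000500000000000000000000000000000000000000000 0x28000000380000007f000000ff0000001c000000f00000003000000038000000380000003800000020 9 8) 0 0 (step_sound _ 165 [rh79c1a50bf88b9624, (rhf48373e13d2bc128.shift 3 5)] (by decide +kernel))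
noncomputable def rh80f9767143108c5e : CRef := CRef.mk (Pat.mk 0x1000000038000000200000000000000000 0xc0000000c0000000c0000001e0000007c0000002f0000002c0000002c 9 7) 0 0 (step_sound _ 37 [(rh7b1f1fb55310c477.shift 4 0), rhddc457c797739260] (by decide +kernel))
noncomputable def rh4fa4a750b8a07221 : CRef := CRef.mk (Pat.mk 0x1e00000002000000000000000000000000 0x40000000700000007000000070000001e00000006000000070000000700000005 9 5) 0 0 (step_sound _ 161 [(rh3244c3cc8379b070.shift 0 4), rha45781b3814b0e67] (by decide +kernel))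
noncomputable def rh66f6486ccca341f1 : CRef := CRef.mk (Pat.mk 0x70000000400000000000000000 0x18000000380000003f0000007c000000fc000000780000005800000050 9 8) 0 0 (step_sound _ 133 [(rh2ba124b1e3af2825.shift 2 0), (rh437dd67dee1d4c9b.shift 0 1), (rhc38f566cab2818e5.shift 5 0)] (by decide +kernel))
noncomputable def rh105ea94b66ac3a6a : CRef := CRef.mk (Pat.mk 0xe0000000800000000000000000 0x4000000040000000e7000001fe000000ff000001e0000000a0 9 9) 0 0 (step_sound _ 134 [(rh62428058b16a24ae.shift 2 0), rha16193b540deb2bb, (rhc2c7bae8f445c890.shift 6 0)] (by decide +kernel))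
noncomputable def rha56de7c48c25707a : CRef := CRef.mk (Pat.mk 0x20000000600000002000000000000000000000000 0x4000000070000000700000007000000060000000600000002000000070000000700000005 9 3) 0 0 (step_sound _ 65 [rh6eff4158bb400f47, (rh72da8922a137008a.shift 0 1), (rha707fb719e87fe6e.shift 1 1)] (by decide +kernel))
noncomputable def rh8f33f782395493f2 : CRef := CRef.mk (Pat.mk 0x20000000e000000080000000000000000 0x1e0000003e0000000e0000001e0000007c0000001f0000001e 9 7) 0 0 (step_sound _ 68 [(rh4a0b10776449c3e9.shift 1 2), (rhae2edff970a530ce.shift 1 2), rhffd087a338e71b4d] (by decide +kernel))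
noncomputable def rh69a1910ba7c56987 : CRef := CRef.mk (Pat.mk 0x100000007000000040000000000000000000000000 0x3000000030000000770000007e0000006e000001f80000007c00000020 9 9) 0 0 (step_sound _ 131 [(rh0de499e0455c9c14.shift 1 3), (rh816fd429a35c92eb.shift 1 3), (rh897526ff818b2231.shift 2 0), (rhab6f55bc99585f19.shift 0 3)] (by decide +kernel))
noncomputable def rh9c37146b9d5ffea0 : CRef := CRef.mk (Pat.mk 0xe000000180000000000000000000000000000000000000000 0x40000001c0000001c0000001c0000000e0000000e0000007a0000007f0000001e0000001c0000001c00000004 9 7) 0 0 (step_sound _ 165 [rh88aea3e0cdef34ce, (rhf48373e13d2bc128.shift 2 5)] (by decide +kernel))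
noncomputable def rhb4fae2a35f2d0761 : CRef := CRef.mk (Pat.mk 0xe00000018000000000000000000000000 0x1c0000007e0000000e0000000e0000001f0000003f0000003e00000010 9 7) 0 0 (step_sound _ 162 [(rhc2c7bae8f445c890.shift 2 1), (rhc38f566cab2818e5.shift 2 1), rhce01b97c0e4c1760, (rhfeda1832de5039c4.shift 1 1)] (by decide +kernel))
noncomputable def rh81388747ce38ab8a : CRef := CRef.mk (Pat.mk 0x1e00000000000000000000000000000000 0x50000000700000007000000070000001e00000007000000060000000600000002 9 5) 0 0 (step_sound _ 161 [(rh3244c3cc8379b070.shift 0 4), rhf396833d8156b764] (by decide +kernel))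
noncomputable def rh47388e5afbca72b2 : CRef := CRef.mk (Pat.mk 0x1e000000000000000000000000000000000 0x6000000060000000ef000001fe000000ff000000e0000000e0000000a0 9 9) 0 0 (step_sound _ 132 [(rh0b846c84734c1eeb.shift 2 1), (rh667f1caecc84c768.shift 1 3), (rheae1728ff4a56756.shift 3 3), rhfa0b1666c7136297] (by decide +kernel))
noncomputable def rhdeafe2bbb76028b4 : CRef := CRef.mk (Pat.mk 0x1e000000000000000000000000000000000 0x2000000060000000ff000001fe000000ef000000e0000000e0000000a0 9 9) 0 0 (step_sound _ 132 [(rh6fe6141069a793fd.shift 1 3), (rhd5eb272e07a4e288.shift 3 4), rhfa0b1666c7136297] (by decide +kernel))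
noncomputable def rh6ebe84b28863371b : CRef := CRef.mk (Pat.mk 0x40000001c0000000800000000 0x1c0000001c0000001c0000001c0000007f00000076 9 7) 0 0 (step_sound _ 130 [(rh2145e1d24b96a57e.shift 2 1), rh6196cdd17bafcd2f] (by decide +kernel))
noncomputable def rhe8df5a27f91594d3 : CRef := CRef.mk (Pat.mk 0x100000001a0000000800000000 0x6800000068000003fe000001fe000001f80000009b0000001f00000014 9 10) 0 0 (step_sound _ 132 [(rh5c5e593799055d58.shift 3 1), rhe4ad72d688cde446] (by decide +kernel))
noncomputable def rhfc09cc3dd17a9ab1 : CRef := CRef.mk (Pat.mk 0x200000003c000000000000000000000000 0x40000000c0000002c0000007f0000003f0000001800000010 9 7) 0 0 (step_sound _ 65 [rh086894870c2c04ca, (rh80fcd6d0a18cb2dd.shift 1 2)] (by decide +kernel))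
noncomputable def rh144d7e93122d3fbb : CRef := CRef.mk (Pat.mk 0x100000001a00000008000000000000000000000000 0xc0000003e0000003e0000007e0000003b0000001f000000360000003400000034 9 7) 0 0 (step_sound _ 196 [(rh5c5e593799055d58.shift 3 3), rhc2c57e492591d511] (by decide +kernel))
noncomputable def rh8b5df671699ec40d : CRef := CRef.mk (Pat.mk 0x10000000d000000000 0x1df000000fe000000e7 9 9) 0 0 (step_sound _ 37 [(rh3244c3cc8379b070.shift 3 1), rhf59475f55942f1fa] (by decide +kernel))
noncomputable def rh7382cbe3efc30823 : CRef := CRef.mk (Pat.mk 0x10000000d0000000000000000000000000 0x20000000b0000001b8000003f7000001fe000000f70000006000000060 9 10) 0 0 (step_sound _ 101 [(rh4a123942ee53ce13.shift 3 1), (rh74848dc4936d59a8.shift 3 1), (rh790acd67f4fffd04.shift 4 3), (rhaa5169ff3b13091a.shift 2 0), (rhf59475f55942f1fa.shift 0 2)] (by decide +kernel))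
noncomputable def rh4481fbe4777aae53 : CRef := CRef.mk (Pat.mk 0xa0000001a00000000000000000000000000000000 0x140000001c000000ff0000007e000000ee0000001a0000001e0000001f0000001700000005 9 8) 0 0 (step_sound _ 195 [(rh14e0829dc73b6804.shift 2 3), (rh70e33bfdf511e144.shift 3 1), rh869a24b5b79d0476, (rhb8045564a62a042e.shift 1 1)] (by decide +kernel))
noncomputable def rhbcfff6ff44d5b38b : CRef := CRef.mk (Pat.mk 0x34000000000000000000000000 0x400000004000000ee0000007f0000003f0000000800000008 9 8) 0 0 (step_sound _ 99 [(rh22b38309c56a80eb.shift 1 3), (rh6cc0f305be0098c0.shift 1 2), rhcfaee032bd45abc2, (rhd52e3929053d9d5f.shift 1 2)] (by decide +kernel))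
noncomputable def rh37a29303dae11418 : CRef := CRef.mk (Pat.mk 0x7800000008000000000000000000000000 0x3000000036000000ff00000078000000f80000007800000018 9 8) 0 0 (step_sound _ 100 [(rh18965a982d73c794.shift 3 3), rh7dbcf459fda0f5f6] (by decide +kernel))
noncomputable def rh1ef270d12ce49980 : CRef := CRef.mk (Pat.mk 0x1e000000000000000000000000 0xc0000003c000000fc0000003c0000001f000000180000001800000018 9 8) 0 0 (step_sound _ 132 [(rh33e738c4ed385b9f.shift 1 3), rhcd4c4e4a9ce50741] (by decide +kernel))
noncomputable def rh70d2aaea1b6b8d6b : CRef := CRef.mk (Pat.mk 0x680000002800000000000000000000000000000000 0x20000000f8000000f8000001f0000000680000006f000000fc000000fe000000d400000014 9 9) 0 0 (step_sound _ 198 [(rha98baae81e2cebf0.shift 3 1), (rhadf429772c25fde0.shift 5 2), rhb2ebaf265d49b318, (rhf9366b6a121593ef.shift 5 2)] (by decide +kernel))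
noncomputable def rhd0ef808aa260e65c : CRef := CRef.mk (Pat.mk 0xd000000000 0x3ff000001fe000000ef 9 10) 0 0 (step_sound _ 37 [(rh04797e9e06425c4e.shift 1 0), (rh22b38309c56a80eb.shift 3 1), (rh4c622fddc53a5f99.shift 2 1), rhf59475f55942f1fa] (by decide +kernel))
noncomputable def rh8986f1959d033ac4 : CRef := CRef.mk (Pat.mk 0xe000000010 0xe7000000fe000001df 9 9) 0 0 (step_sound _ 36 [rha7f6f8d2a8f50249, (rheb0810cc63b001d8.shift 3 0)] (by decide +kernel))
noncomputable def rh27338a2569843b0d : CRef := CRef.mk (Pat.mk 0x340000000400000004000000000000000000000000 0x20000002600000036000000740000003e0000007f0000007e0000007a0000000a 9 7) 0 0 (step_sound _ 132 [(rh388f7e2a4406db03.shift 1 0), (rh3f53283d24678c0e.shift 1 1), rh518971a4afa7de09, (rhdb11e2ee87c104a9.shift 1 3)] (by decide +kernel))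
noncomputable def rh3e436aafaf341b4e : CRef := CRef.mk (Pat.mk 0x1a000000020000000200000000000000000000000000000000 0x10000000b0000000f0000003b0000001f0000003700000013000000070000000700000004 9 6) 0 0 (step_sound _ 162 [rha9bba33727ebe867, rhcfd8f5a400d36470, (rhf2f4335bff8b5899.shift 0 4)] (by decide +kernel))
noncomputable def rhf1e36c7ded60206e : CRef := CRef.mk (Pat.mk 0x1a000000020000000200000000000000000000000000000000 0xb0000000f0000003b0000001f0000003e0000003f0000003f0000000700000005 9 6) 0 0 (step_sound _ 163 [rh39a48000612aa06a, (rh3f53283d24678c0e.shift 0 2), (rh60a781551e50bc18.shift 0 5), rhc39c9feb356c3dbe] (by decide +kernel))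
noncomputable def rh370b9ac2bb5e62f2 : CRef := CRef.mk (Pat.mk 0x340000001400000000000000000000000000000000 0x800000038000000380000003400000034000000360000003e0000007f0000003800000028 9 7) 0 0 (step_sound _ 100 [(rh215e11e099257d75.shift 4 2), (rh5572c636538b3c75.shift 2 0), (rh56b05f3795e64f26.shift 3 0), (rh644b22783f3730f8.shift 0 2), (rhffb8e5993241bf15.shift 3 0)] (by decide +kernel))
noncomputable def rh2e67f0e2df8db188 : CRef := CRef.mk (Pat.mk 0x80000001a000000020000000000000000 0x40000001c0000001c0000001c0000001f0000003b0000001e0000001e00000018 9 6) 0 0 (step_sound _ 163 [rh12db11de35d26def, (rh4e64b7e82c9211af.shift 2 2), (rh6251d061324e2271.shift 0 1), (rh70e33bfdf511e144.shift 3 0), (rhae88f600f33b586c.shift 2 2)] (by decide +kernel))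
noncomputable def rh13d5cd919b33e131 : CRef := CRef.mk (Pat.mk 0x80000001a00000002000000000000000000000000 0x5000000070000000f0000000f0000003b0000001f0000003f0000001300000001 9 6) 0 0 (step_sound _ 98 [(rh10b77e1eac635185.shift 0 1), (rh51ff335405c97b2c.shift 0 3), rh5f1bc75ac6b16f54] (by decide +kernel))
noncomputable def rh96624f3a3fc9f857 : CRef := CRef.mk (Pat.mk 0x1a0000000200000000000000000000000000000000 0x150000001f0000001f0000001f0000003b0000001f0000001b0000001f0000001f00000014 9 6) 0 0 (step_sound _ 131 [(rh60a781551e50bc18.shift 0 4), rh64d3d6a9afd6d4cb, rhc0c50312a54a68ce] (by decide +kernel))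
noncomputable def rhf06ed64c1e0bf66d : CRef := CRef.mk (Pat.mk 0x1a0000000800000000000000000000000000000000 0xc0000001c0000001c0000001f0000001b000000180000001c0000001c0000001c00000014 9 5) 0 0 (step_sound _ 99 [(rh4599fb45e22e642b.shift 0 2), (rhb730ba14aa32bdb3.shift 3 2), rhee640f974cfa8d6c, (rhffb8e5993241bf15.shift 2 0)] (by decide +kernel))
noncomputable def rh6a0461b741e751c5 : CRef := CRef.mk (Pat.mk 0x100000003400000004000000000000000000000000 0x10000000160000003e000000760000003c0000007f0000002e0000000a 9 7) 0 0 (step_sound _ 162 [(rh052037c23179916b.shift 1 4), rh908665df60ad5099, (rhd593e43e9a32512b.shift 1 0)] (by decide +kernel))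
noncomputable def rh3821736fb1a0ba11 : CRef := CRef.mk (Pat.mk 0x40000000600000002000000000000000000000000 0xc0000000c0000003e0000000f0000003e0000003c0000000c00000004 9 6) 0 0 (step_sound _ 194 [rh228f71d241ebf3c4, (rh5c5e593799055d58.shift 1 3)] (by decide +kernel))
noncomputable def rh9b6498a41d92bb15 : CRef := CRef.mk (Pat.mk 0x200000003000000010000000100000000000000000 0xc0000000c0000001d0000001fc00000078000001fe000001fe000000ef0000006c 9 9) 0 0 (step_sound _ 98 [(rh1983b292f70a8c6c.shift 2 0), (rh34b05d289fc205cb.shift 1 0), (rh7615b022cfa3a38b.shift 1 0), (rha60af7b7eca27efb.shift 1 3), (rha7669746846de340.shift 1 1), rhbb42e32d2f99166f] (by decide +kernel))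
noncomputable def rheb946e21518e5dae : CRef := CRef.mk (Pat.mk 0x200000003000000010000000100000000000000000 0x10000000100000001e0000003e000000780000007e0000003f0000002f0000000c 9 7) 0 0 (step_sound _ 99 [(rh19dce625cf00b403.shift 1 1), rh39f6ac8a4881b7dd, (rh557b120f072744ca.shift 1 3), (rhbefe217e0150025d.shift 1 0), (rhda33afbf46f54479.shift 1 1)] (by decide +kernel))
noncomputable def rh91284060757915b1 : CRef := CRef.mk (Pat.mk 0x10000000100000001800000008000000000000000000000000 0x6000000068000001ee000001ff000000ff0000003c0000007f000000170000000600000006 9 9) 0 0 (step_sound _ 166 [rh4f67cf93b1438e34, (rh53816620e7cb70b9.shift 2 2), (rh694c9440bfa0aa91.shift 0 2), (rhb40ea67d868c9330.shift 2 4), (rhfbda802fcbc00d3b.shift 2 2)] (by decide +kernel))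
noncomputable def rh8bc6c073e14e6054 : CRef := CRef.mk (Pat.mk 0x200000003000000018000000000000000000000000 0x80000000c0000002c000000780000001f0000001f0000003c0000001c 9 7) 0 0 (step_sound _ 131 [(rh4c38d4eb85ee05be.shift 2 0), (rh4dc133ee0ba1420a.shift 1 3), rhd43faf7d10360ec8] (by decide +kernel))
noncomputable def rh1991636121d8236c : CRef := CRef.mk (Pat.mk 0x80000000c00000006000000000000000000000000 0x20000000b0000001e0000003e0000003f000000ff00000013 9 8) 0 0 (step_sound _ 66 [rh289e0af59d73a369, (rh71222050f2c63a3a.shift 2 1)] (by decide +kernel))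
noncomputable def rha720cf6462d6b2cc : CRef := CRef.mk (Pat.mk 0x10000000100000001800000008000000000000000000000000 0xc0000001f0000007e0000003c000000fe000000360000002600000006 9 8) 0 0 (step_sound _ 101 [(rh300bda96c26f04d5.shift 0 2), (rh72c0183b1155e373.shift 0 2), (rh8869e59ae3158564.shift 2 2), (rhfc1c97ee1a398f8a.shift 1 0)] (by decide +kernel))
noncomputable def rhbdf8633b60c8e358 : CRef := CRef.mk (Pat.mk 0x8000000080000000c00000004000000000000000000000000 0x3000000030000000f4000000ff000000fc0000005e0000007c000000180000001800000008 9 8) 0 0 (step_sound _ 164 [(rh3a020e182dfd1d54.shift 1 4), (rh5ee33121959b792f.shift 0 2), (rhf10296a67cedf7f2.shift 1 0)] (by decide +kernel))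
noncomputable def rh8990be8631dbe960 : CRef := CRef.mk (Pat.mk 0x400000006000000020000000200000000000000000 0x3000000030000000b0000000e0000000e0000001fe000001fe000001df00000040 9 9) 0 0 (step_sound _ 68 [rh457c49f5d796cc5a, (rh64afaa346b99ec3a.shift 3 1), (rhacd011400179983b.shift 4 1), (rhcb7c35715d50de8d.shift 3 1), (rhdafc1c6c23dfd84d.shift 2 1)] (by decide +kernel))
noncomputable def rh848265988b731069 : CRef := CRef.mk (Pat.mk 0x8000000080000000c00000004000000000000000000000000 0x3000000030000000f6000000ff000000ff0000005e0000000c000000080000000800000008 9 8) 0 0 (step_sound _ 164 [(rh3a020e182dfd1d54.shift 1 4), (rh5ee33121959b792f.shift 0 2), rh7278c28a9f63cd15] (by decide +kernel))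
noncomputable def rhb0cda13961b370f1 : CRef := CRef.mk (Pat.mk 0x2000000010000000100000001800000000 0x1df000000fe000001fe000000f00000003c00000020 9 9) 0 0 (step_sound _ 132 [(rh3038ab5f74634e6d.shift 2 0), (rhcc073bb620c59dbe.shift 0 1), (rheafbbacb2d90c3c4.shift 2 0)] (by decide +kernel))
noncomputable def rh4c854bee22ab9f2b : CRef := CRef.mk (Pat.mk 0x2000000020000000300000000000000000 0x600000007000000078000000ff000001fe000001fc000000380000002000000020 9 9) 0 0 (step_sound _ 132 [(rh7fa09285116a7587.shift 0 2), (rhb189033fa758febb.shift 2 0), (rhb1a251d9bff81766.shift 4 1)] (by decide +kernel))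
noncomputable def rh4057d3d7c5d068be : CRef := CRef.mk (Pat.mk 0xc00000006000000000000000000000000 0x8000000180000003c0000000f0000003c0000001f0000000e 9 6) 0 0 (step_sound _ 132 [(rh18965a982d73c794.shift 1 3), rha8371be82895c910] (by decide +kernel))
noncomputable def rha8658e87e735215a : CRef := CRef.mk (Pat.mk 0x20000000300000001800000000000000000000000000000000 0x7c0000003c0000001c000000ff0000007f0000000c00000004 9 8) 0 0 (step_sound _ 100 [(rh71222050f2c63a3a.shift 4 2), rh721169991aacc23c] (by decide +kernel))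
noncomputable def rhd8c2940d95b84964 : CRef := CRef.mk (Pat.mk 0x200000003000000018000000000000000000000000 0x40000000400000006c000000ec000000fe0000003f0000003c0000006c0000006c00000028 9 8) 0 0 (step_sound _ 197 [(rh5c5e593799055d58.shift 4 3), rh7191bccfe2b8c86e] (by decide +kernel))
noncomputable def rhf5f1567ce759f425 : CRef := CRef.mk (Pat.mk 0x7000000018000000000000000000000000 0x3e000000ff000000fe0000007f000000380000002c0000000c0000000c 9 8) 0 0 (step_sound _ 163 [(rh2ca06285ff862dc8.shift 1 2), (rh7216b11a01123c74.shift 0 2), (rh8fde29cd8677ed61.shift 0 2), (rha1e90cdd7a3bb451.shift 2 0), (rhbd90872730db07ce.shift 0 3)] (by decide +kernel))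
noncomputable def rh292877efce8ad133 : CRef := CRef.mk (Pat.mk 0x700000001800000000 0x3c0000003f0000003c000000780000001c00000008 9 7) 0 0 (step_sound _ 67 [rh4d583257c409d699, (rheb0810cc63b001d8.shift 2 1)] (by decide +kernel))
noncomputable def rh37c13bee3dd7ef88 : CRef := CRef.mk (Pat.mk 0xc00000006000000000000000000000000 0x1c0000001c0000007c0000007c0000000f0000001a0000001800000018 9 7) 0 0 (step_sound _ 99 [(rhb8a4cefd5479c0c2.shift 1 0), (rheca3463cf9123ece.shift 0 1), (rhf9d36e158778ce35.shift 0 3)] (by decide +kernel))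
noncomputable def rh283aa312fb7dd3b8 : CRef := CRef.mk (Pat.mk 0x380000001800000000000000000000000000000000 0x3800000038000000780000003e0000003c0000000f0000003c0000001c00000004 9 7) 0 0 (step_sound _ 99 [rh4965d89d24be5f1f, (rh59884d4b0b1c90ac.shift 0 1), (rh84d1c02a8954c6a8.shift 3 2)] (by decide +kernel))
noncomputable def rhb5eb03994615239f : CRef := CRef.mk (Pat.mk 0x38000000180000000000000000 0x1c0000001e000000760000003f0000003c0000002800000008 9 7) 0 0 (step_sound _ 132 [(rh503dd4575245365b.shift 3 1), rh84a20e363d095667, (rhb0dcd6cf0050e052.shift 1 1)] (by decide +kernel))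
noncomputable def rh196d35a8ebe1d4ae : CRef := CRef.mk (Pat.mk 0x380000001800000000 0x7c0000007e0000007e0000003f0000003800000020 9 7) 0 0 (step_sound _ 66 [(rh527171535892909f.shift 1 0), (rhad5d8fc3675c15dd.shift 0 1), (rhe25191970535449e.shift 0 1)] (by decide +kernel))
noncomputable def rhdafe50555a185756 : CRef := CRef.mk (Pat.mk 0x1c0000000c0000000000000000 0x1e0000003f0000003f0000001c0000001e0000001600000006 9 6) 0 0 (step_sound _ 131 [(rh503dd4575245365b.shift 2 1), rh537bb2b4dd82ae35, (rh922387a55ce9139b.shift 0 1)] (by decide +kernel))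
noncomputable def rhbce45149dfb7f08d : CRef := CRef.mk (Pat.mk 0x3000000020000000300000000000000000 0x40000000cf0000007e000001ef00000070000001f0000001f0 9 9) 0 0 (step_sound _ 131 [(rh8ee80cc30e93a344.shift 2 3), (rhb1688bf6da1a7843.shift 1 1), (rhc92c11e8da6c894f.shift 0 3), (rhff5b049f9b68f99e.shift 3 0)] (by decide +kernel))
noncomputable def rhf8e06a87649cc99f : CRef := CRef.mk (Pat.mk 0x600000004000000060000000000000000000000000 0x28000000a8000007bf000007ff000003df000000f00000003c0000003800000020 9 11) 0 0 (step_sound _ 164 [(rh3c6d69ba6c18d03e.shift 0 1), (rh4a523eb66313f1ef.shift 2 0), (rh8ee80cc30e93a344.shift 3 4), (rhc92c11e8da6c894f.shift 1 4)] (by decide +kernel))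
noncomputable def rhd7915c8f2ebdd6c4 : CRef := CRef.mk (Pat.mk 0xc00000006000000000000000000000000 0x1800000018000000180000003c0000000f0000003c0000001c00000018 9 6) 0 0 (step_sound _ 132 [(rh18965a982d73c794.shift 1 3), rh691b09bf5b74e012] (by decide +kernel))
noncomputable def rh06cd298a32559e23 : CRef := CRef.mk (Pat.mk 0x2000000030000000180000000000000000 0x1fe000001fe000001fe0000003f0000003c0000006000000040 9 9) 0 0 (step_sound _ 165 [(rh5c5e593799055d58.shift 4 2), rh77db92a34762124b] (by decide +kernel))
noncomputable def rhb405571a56e3f771 : CRef := CRef.mk (Pat.mk 0x3800000018000000000000000000000000 0x20000000280000006e0000003f0000003c0000001f0000001f00000010 9 7) 0 0 (step_sound _ 68 [(rh3cb04db3dd2b6a55.shift 3 0), (rh460c1f0e9458911d.shift 0 1), (rhb0c1e7919d9be92d.shift 3 0)] (by decide +kernel))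
noncomputable def rh3a893c1ac1fcc088 : CRef := CRef.mk (Pat.mk 0x8000000080000001c000000000000000000000000 0x400000036000000fe000000ff0000001c000000780000003800000018 9 8) 0 0 (step_sound _ 68 [(rh08edf065357d68e5.shift 3 0), rh681d6c45a1bb6457, (rh79ad7b82ec8c35e2.shift 3 0)] (by decide +kernel))
noncomputable def rh6ccdf16c2c65d48e : CRef := CRef.mk (Pat.mk 0x10000000100000001800000008000000000000000000000000 0x280000003c000000f800000038000000ff000000f40000001000000010 9 8) 0 0 (step_sound _ 100 [(rh2386d7c29ba9e7c7.shift 0 2), (rh3724468151636231.shift 3 1), (rhf7f7a6a2f276bb4b.shift 2 2), (rhfc3fc51f4c1cda06.shift 3 0)] (by decide +kernel))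
noncomputable def rh3d0115037d24fd56 : CRef := CRef.mk (Pat.mk 0x1000000018000000080000000800000000 0xc0000000c000000ee000000ff0000001f0000000f0000001c00000014 9 8) 0 0 (step_sound _ 131 [(rh0ef6c71ce89c1c36.shift 2 0), rh4922a8410443b826, (rh92645babed6d6d29.shift 0 1)] (by decide +kernel))
noncomputable def rh319c1544cee1b6e9 : CRef := CRef.mk (Pat.mk 0x8000000080000000c0000000400000000 0x3000000030000000f6000000ff000000fe0000004f0000000c00000008 9 8) 0 0 (step_sound _ 100 [rh5ee33121959b792f, rhbffd4221055bdc84, (rhd69c262cd33b94b3.shift 0 2)] (by decide +kernel))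
noncomputable def rh73a7f30b759b12e9 : CRef := CRef.mk (Pat.mk 0x80000000c000000040000000400000000000000000 0x400000004000000150000003ff000000fe000001ff000003fc000000be00000038 9 10) 0 0 (step_sound _ 133 [(rh5dec5e73a267a1c4.shift 3 3), (rhab5680824de22db3.shift 1 0), rhe98200c54791a8ef] (by decide +kernel))
noncomputable def rh01e39be08666d481 : CRef := CRef.mk (Pat.mk 0xc000000040000000000000000 0x60000001e0000001e0000007c0000000f0000003f0000003f0000001e 9 7) 0 0 (step_sound _ 131 [rh3e5039998f8d5fcd, (rhcf80391c5046a495.shift 2 0), (rhf9366b6a121593ef.shift 2 0), (rhfc21af46f874e92f.shift 0 1)] (by decide +kernel))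
noncomputable def rh2373df08c726c618 : CRef := CRef.mk (Pat.mk 0x200000003000000010000000100000000000000000 0x8000000ce000000ff0000003e000000ff0000007f0000002c0000000c 9 8) 0 0 (step_sound _ 131 [rh162a91d4a904755f, (rh5dec5e73a267a1c4.shift 1 3), (rhf453086abd763e19.shift 1 1)] (by decide +kernel))
noncomputable def rh443808bba1b8dda1 : CRef := CRef.mk (Pat.mk 0x1000000018000000080000000000000000 0x800000008000000ec000000ff0000001f0000001c0000000c0000000c 9 8) 0 0 (step_sound _ 35 [rh23cf017ae5350095, (rh71222050f2c63a3a.shift 3 0)] (by decide +kernel))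
noncomputable def rh10abded420ae0fe9 : CRef := CRef.mk (Pat.mk 0x2000000020000000200000002000000000 0x2000000020000003bf000001fe000003de 9 10) 0 0 (step_sound _ 38 [(rh55afc6a59410cf00.shift 5 0), rhb1830a4026bb2f46] (by decide +kernel))
noncomputable def rh9c5f8e0698f982a3 : CRef := CRef.mk (Pat.mk 0x8000000080000000c00000004000000000 0x70000001f8000003ff000000fe000003ff000001b0 9 10) 0 0 (step_sound _ 69 [(rh5dec5e73a267a1c4.shift 3 1), (rh7acb273e489d9f09.shift 4 0), rh7c6769cfb28e3966] (by decide +kernel))
noncomputable def rh2e36ec97119778e7 : CRef := CRef.mk (Pat.mk 0x80000000c0000000400000000 0x60000000e0000007f0000007f0000000f0000000400000004 9 7) 0 0 (step_sound _ 131 [(rh5c5e593799055d58.shift 2 1), rh9dffd7f31b6012cd] (by decide +kernel))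
noncomputable def rh7685fdec5701f5b2 : CRef := CRef.mk (Pat.mk 0x100000001a00000008000000000000000000000000 0x40000000c0000000e0000001f0000001b0000003f0000007f0000007400000004 9 7) 0 0 (step_sound _ 98 [rh1d7200e53afd6d8e, rhadd04132630b4b6f, (rhbac5b7fa9b9137f7.shift 0 1), (rhc9af77495191c21a.shift 0 1), rhd42708f73eb32aab] (by decide +kernel))
noncomputable def rh5bc87aa43f0e4902 : CRef := CRef.mk (Pat.mk 0x1000000018000000080000000000000000 0xf4000000ff0000001f000000080000000800000008 9 8) 0 0 (step_sound _ 35 [(rh71222050f2c63a3a.shift 3 0), (rha0a6a6f50beb526f.shift 0 1)] (by decide +kernel))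
noncomputable def rh1f3d44c7c5d62846 : CRef := CRef.mk (Pat.mk 0x1000000018000000080000000000000000 0xc0000000c000000ec000000ff0000001f000000180000001800000018 9 8) 0 0 (step_sound _ 35 [(rh71222050f2c63a3a.shift 3 0), rhda50c4b5d0c27ff9] (by decide +kernel))
noncomputable def rh5a9edc3126445053 : CRef := CRef.mk (Pat.mk 0x1000000018000000080000000000000000 0x3c0000007f0000007e00000018000000380000003000000030 9 7) 0 0 (step_sound _ 164 [(rh5c5e593799055d58.shift 3 2), rh857bde69c19d8cbc] (by decide +kernel))
noncomputable def rh11c013958dd50004 : CRef := CRef.mk (Pat.mk 0x40000000600000002000000020000000000000000000000000 0x2000000030000000300000007000000068000003fe000001fe000003df0000005000000050 9 10) 0 0 (step_sound _ 100 [rh89a2a1a8a4ecea16, (rh976a48eb1c80a12f.shift 4 2), (rhabdfc09812cebbb7.shift 2 2), (rhacd011400179983b.shift 4 2), (rhcb7c35715d50de8d.shift 3 2)] (by decide +kernel))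
noncomputable def rh83494f4c10701f88 : CRef := CRef.mk (Pat.mk 0x100000001800000018000000000000000000000000 0x2000000330000001f0000007f0000001f0000003c0000001c 9 7) 0 0 (step_sound _ 35 [(rh9e3edb185cc347de.shift 3 1), rhf2db81199509a0e6] (by decide +kernel))
noncomputable def rh556fc65472c81028 : CRef := CRef.mk (Pat.mk 0x1800000018000000000000000000000000 0x400000006000000070000001f0000007f0000007f0000000e0000000e 9 7) 0 0 (step_sound _ 130 [rh3b5bcacd25a71c18, (rh79faea80ad1a7eec.shift 0 1), (rhad5d8fc3675c15dd.shift 0 3)] (by decide +kernel))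
noncomputable def rh5651ddd344c7bab1 : CRef := CRef.mk (Pat.mk 0x1c000000180000000000000000 0x180000001c000000370000001f0000001f0000000300000003 9 6) 0 0 (step_sound _ 97 [(rhb739f4f82bb681b4.shift 0 2), rhe7de20f8dc61f1cc] (by decide +kernel))
noncomputable def rh51fad6a755964f8f : CRef := CRef.mk (Pat.mk 0x1800000018000000000000000000000000 0x3000000030000000300000001f000000f8000000f80000003800000038 9 8) 0 0 (step_sound _ 130 [(rh3f4d08e8f69cf215.shift 2 0), (rh8d364617c03d6975.shift 0 1), (rhad5d8fc3675c15dd.shift 0 3)] (by decide +kernel))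
noncomputable def rh334095361a798718 : CRef := CRef.mk (Pat.mk 0x18000000080000000800000000 0xfc000000ff0000001f0000000f0000007c00000014 9 8) 0 0 (step_sound _ 131 [(rh1904b52b42aee148.shift 1 0), rhc994cb3f8c6ded4d, (rhded4723d1e79ad9f.shift 0 1)] (by decide +kernel))
noncomputable def rh579c29cf6b33cced : CRef := CRef.mk (Pat.mk 0x40000000c00000004000000000000000000000000 0x600000006000000060000000f0000007c0000007f0000000e00000006 9 7) 0 0 (step_sound _ 99 [rh200955e2e6748358, (rh3e595262c1b737ad.shift 2 2), (rhb3e5613249985042.shift 1 0)] (by decide +kernel))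
noncomputable def rh08e5dc8f14e55610 : CRef := CRef.mk (Pat.mk 0x800000008000000180000000800000000 0x140000001c0000000c0000001f0000003f00000017 9 6) 0 0 (step_sound _ 36 [(rh55afc6a59410cf00.shift 3 0), rhd5814f3bdb22a12e] (by decide +kernel))
noncomputable def rh1e04270788712520 : CRef := CRef.mk (Pat.mk 0x1000000030000000100000002000000000000000000000000000000000 0xc0000001e00000038000001ff000000fe0000001f000000380000003800000028 9 9) 0 0 (step_sound _ 132 [(rh344845370a0dc0fe.shift 0 3), (rh7c73cc281167db77.shift 1 3), (rhc3ee11b83e13621e.shift 3 0)] (by decide +kernel))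
noncomputable def rhcc1063ef40861987 : CRef := CRef.mk (Pat.mk 0x180000000e0000000000000000 0x140000003c0000003e0000003f0000001f0000003e0000003400000014 9 6) 0 0 (step_sound _ 131 [(rh508af3a280c39e9d.shift 0 1), (rh68a777751bfeafdf.shift 2 1), rh6a3b8c58e2bd072d] (by decide +kernel))
noncomputable def rhc67c466f9c37a745 : CRef := CRef.mk (Pat.mk 0x60000000380000000000000000000000000000000000000000 0x40000001c0000003c0000003c0000007e000000f8000000cf0000007c0000001e0000001c00000014 9 8) 0 0 (step_sound _ 131 [(rh5bf746ecd15c6274.shift 2 3), (rha4fb043ad7a9cbb2.shift 2 1), rhdb3434cc460aaf75] (by decide +kernel))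
noncomputable def rha5ae74e011cadc32 : CRef := CRef.mk (Pat.mk 0x60000000380000000000000000000000000000000000000000 0x1c0000001c0000007e000003f8000003df0000003c0000001c0000001c00000004 9 10) 0 0 (step_sound _ 131 [(rh1605544a64f55ac1.shift 2 2), (rh480231ab31e80384.shift 2 3), (rh62de6fbe1f317b59.shift 2 4), (rh78e882cbbc8e57d1.shift 2 4), (rh7c6cd9ac57dbe4c2.shift 2 2), rhe0b431dc4b59830d] (by decide +kernel))
noncomputable def rh32a8a14bd49ce871 : CRef := CRef.mk (Pat.mk 0x60000000380000000000000000000000000000000000000000 0x7000000074000000fc0000007f0000006c000003f8000003dc0000005c0000001c0000001c00000010 9 10) 0 0 (step_sound _ 195 [(rh0eba255d854412ca.shift 2 3), (rhb936bbc1411c8f69.shift 0 2), (rhe181d91c0260100d.shift 2 0)] (by decide +kernel))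
noncomputable def rh45e7d612962c67a1 : CRef := CRef.mk (Pat.mk 0x300000001c000000000000000000000000 0x28000000380000003a000001fe000000ff000001fe0000003e0000001c0000000f0000000e0000000a 9 9) 0 0 (step_sound _ 164 [rh60cfc3a44986ba15, (rh68a777751bfeafdf.shift 3 2), (rh7a7e08304268422e.shift 3 2), (rhf102eaf5a922b5a9.shift 1 3), (rhfafeb437ceb8396d.shift 3 0)] (by decide +kernel))
noncomputable def rh37305a32d35ea0c5 : CRef := CRef.mk (Pat.mk 0x1000000018000000080000000000000000 0x60000000e0000003f0000001f0000003f0000003e0000001c 9 6) 0 0 (step_sound _ 35 [rh2d3c09d7df3cca98, (rh71222050f2c63a3a.shift 3 0)] (by decide +kernel))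
noncomputable def rh1fe623616d2caa97 : CRef := CRef.mk (Pat.mk 0x60000000c0000000000000000000000000000000000000000 0xa0000000e0000001f0000003c0000000e0000000e0000007c0000001e0000000e0000000e0000000a 9 7) 0 0 (step_sound _ 226 [(rh0fa4a62bba50784f.shift 1 4), (rh5a2ad3526921ce6a.shift 1 0), (rha4666164837ebbed.shift 0 4), (rhbcb5fa244bf81ec7.shift 1 4)] (by decide +kernel))
noncomputable def rh7b04a34830ed67aa : CRef := CRef.mk (Pat.mk 0xe00000009000000000000000000000000000000000 0x2800000038000000b8000001be000000fe000000f700000078000000780000003000000020 9 9) 0 0 (step_sound _ 164 [(rh399ed785045a9621.shift 3 2), (rh5c83b75cbf212171.shift 0 4), (rh9daf3b6bc2d9e3f6.shift 3 0), (rhba50fd7aca570c30.shift 3 2), (rhd1d05263fabc0227.shift 2 4)] (by decide +kernel))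
noncomputable def rhc13478f370f6082b : CRef := CRef.mk (Pat.mk 0xe0000001800000000000000000000000000000000 0x1f0000001f0000003b0000001e0000001f0000000f0000000f0000000700000001 9 6) 0 0 (step_sound _ 164 [(rh103748c1b446070b.shift 0 3), (rh34b1188e635efc8d.shift 1 2), rhb7cffa4b410dd66d] (by decide +kernel))
noncomputable def rhab939494f8cae963 : CRef := CRef.mk (Pat.mk 0xe0000001800000000000000000000000000000000 0x10000000180000007b0000001e0000001c0000007e0000003e0000003c00000008 9 7) 0 0 (step_sound _ 100 [(rh6715039f51a50ffa.shift 1 0), (rh815177df59876d24.shift 0 1), (rhc2c7bae8f445c890.shift 3 1), (rhc38f566cab2818e5.shift 3 1)] (by decide +kernel))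
noncomputable def rh1f7e83878a023d26 : CRef := CRef.mk (Pat.mk 0xe0000001800000000000000000000000000000000 0x10000000180000007b0000001e0000001e0000007f0000003e0000003e00000008 9 7) 0 0 (step_sound _ 100 [rh2e0473b70c35149b, (rh3d7563c49d89fa00.shift 0 1), (rhc2c7bae8f445c890.shift 3 1), (rhc38f566cab2818e5.shift 3 1)] (by decide +kernel))
noncomputable def rh2d9283a5c2905eea : CRef := CRef.mk (Pat.mk 0x3000000020000000000000000000000000 0x80000004c000000ef0000007e000001ff000000fe0000006e00000040 9 9) 0 0 (step_sound _ 131 [(rh73f91cdd0297e709.shift 2 0), (rh8ee80cc30e93a344.shift 2 3), (rhcdc83bb2f7a78cad.shift 0 1)] (by decide +kernel))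
noncomputable def rh0bc7c8527bd67b59 : CRef := CRef.mk (Pat.mk 0xc00000018000000000000000000000000 0x1800000018000000380000001f00000038000000300000003000000030 9 6) 0 0 (step_sound _ 129 [(rh01114522008b96e1.shift 1 0), (rhb739f4f82bb681b4.shift 0 3)] (by decide +kernel))
noncomputable def rhf133c02e7a4b8fd0 : CRef := CRef.mk (Pat.mk 0x380000006000000000000000000000000000000000 0x64000001ec000000780000007f000000ee000000fc000000fc00000004 9 9) 0 0 (step_sound _ 102 [rh33adaade49cb0671, (rh5d54cb79a67f97ab.shift 5 1), (rh95f1e0b11dd46dd8.shift 1 1)] (by decide +kernel))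
noncomputable def rhfda90eb4dc40424c : CRef := CRef.mk (Pat.mk 0x60000000c000000000000000000000000 0x400000004000000060000003f0000003f0000000f0000000f 9 6) 0 0 (step_sound _ 100 [rhd880f976f4ae0568, (rhf48373e13d2bc128.shift 1 3)] (by decide +kernel))
noncomputable def rh85072b5a5fa9024d : CRef := CRef.mk (Pat.mk 0x1c00000030000000000000000000000000 0xa0000000e0000001e000000160000003c0000003f000001ff0000007e0000003e 9 9) 0 0 (step_sound _ 69 [rh2f31e4292e549bf6, rh3a61836f3da8470f, (rhc2c7bae8f445c890.shift 4 0)] (by decide +kernel))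
noncomputable def rh531c61de825e979f : CRef := CRef.mk (Pat.mk 0xe00000008000000080000000000000000 0x1000000018000000180000000e0000007f0000007f0000001700000002 9 7) 0 0 (step_sound _ 163 [(rh20966da26a1c2ae8.shift 2 1), rh27655c92b2f641a9, (rhced6d86d2069808b.shift 3 1)] (by decide +kernel))
noncomputable def rh57c4fd68812abfd4 : CRef := CRef.mk (Pat.mk 0xe0000000800000008000000000000000000000000 0x10000000180000001a0000000e0000007f0000003f000000170000000600000004 9 7) 0 0 (step_sound _ 132 [(rh89ade209b3e28f13.shift 1 4), rh9ee3cfdbff0fa69b, (rhc348b6ae077394e8.shift 0 1)] (by decide +kernel))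
noncomputable def rhab68bc3d7d3caea9 : CRef := CRef.mk (Pat.mk 0x1c0000001000000010000000000000000000000000 0x1c0000007f000000ff000000ff0000003f00000028 9 8) 0 0 (step_sound _ 68 [(rh144804072ab251fc.shift 0 1), (rh6eff4158bb400f47.shift 3 0), (rhedd082af6caf43cd.shift 0 1)] (by decide +kernel))
noncomputable def rhd67cff5336b3e58f : CRef := CRef.mk (Pat.mk 0xe0000001800000000000000000000000000000000 0x40000001e0000001f0000003b0000001e0000001f00000017000000070000000700000004 9 6) 0 0 (step_sound _ 227 [(rh9d02787c2a23a167.shift 0 3), (rha68cb1e01b1f0d4d.shift 2 3), rhdb896ff65da65f48] (by decide +kernel))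
noncomputable def rh80c4ea117324393f : CRef := CRef.mk (Pat.mk 0xe0000001800000000000000000000000000000000 0x50000000700000017000000330000001e0000001f0000000f0000000f0000000700000001 9 6) 0 0 (step_sound _ 164 [(rh34b1188e635efc8d.shift 1 2), rhb7cffa4b410dd66d, (rhe2b9d89d3852aaea.shift 0 1)] (by decide +kernel))
noncomputable def rh3309835e9ba2302d : CRef := CRef.mk (Pat.mk 0x1800000030000000000000000000000000 0x38000000ff000000fe0000003c0000001c 9 8) 0 0 (step_sound _ 102 [rhaf19957fb0c2b200, (rhf48373e13d2bc128.shift 3 3)] (by decide +kernel))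
noncomputable def rh9cb69fdef1cb5dd4 : CRef := CRef.mk (Pat.mk 0xe00000008000000080000000000000000 0x10000000100000003b0000001e0000000b0000003f0000001f00000015 9 6) 0 0 (step_sound _ 132 [(rh49606a42a30c7ac4.shift 1 2), rhb9512055687e9554, (rhd4d36b4007f546b1.shift 1 1)] (by decide +kernel))
noncomputable def rhf5737d99539e8273 : CRef := CRef.mk (Pat.mk 0x1c00000010000000100000000000000000 0x20000000660000003c000000760000003f0000003f0000003f 9 7) 0 0 (step_sound _ 133 [rh4718a3e42c8a0f6a, (rhbbda3e5cf400e6dd.shift 2 2), (rhd4d36b4007f546b1.shift 2 1)] (by decide +kernel))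
noncomputable def rhb46c5de3262124cc : CRef := CRef.mk (Pat.mk 0x1800000010000000100000000800000000000000000000000000000000 0x20000000380000001e000000fe0000007f00000037000000380000003800000008 9 8) 0 0 (step_sound _ 132 [(rh248783b885999ea2.shift 3 0), (rh47080e640eb328ce.shift 1 3), (rha613ffd40b6c9d24.shift 3 2), (rhf01e1e8fc14f1b8f.shift 1 3), (rhf65010eab0c06ea5.shift 0 3)] (by decide +kernel))
noncomputable def rh65e1f408ec212917 : CRef := CRef.mk (Pat.mk 0xc000000080000000c00000000000000000000000000000000 0x140000001c0000001c000000180000001c0000001c0000000f000000180000001c0000001c00000014 9 5) 0 0 (step_sound _ 99 [(rh1205a6aa72d92e21.shift 2 2), (rh3afabca9f0cb1007.shift 0 2), (rh95311890f436bcdc.shift 2 0), (rhc05d451ce3dd5e48.shift 2 0)] (by decide +kernel))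
noncomputable def rhec0bfd7246e9bce9 : CRef := CRef.mk (Pat.mk 0x600000004000000040000000000000000000000000000000000000000 0x20000000e0000000e0000000c0000000e0000000e0000003c0000000f0000000e0000000e0000000e0000000a 9 6) 0 0 (step_sound _ 163 [(rh0c14f84f6205c5d6.shift 0 2), (rh70e33bfdf511e144.shift 2 2), (rh8599f462953abc6e.shift 2 4), (rha2523e235f4a53eb.shift 1 0)] (by decide +kernel))
noncomputable def rhb0974ed19162b895 : CRef := CRef.mk (Pat.mk 0x400000006000000040000000400000000 0x180000003c0000000e0000003f0000003f0000001a 9 6) 0 0 (step_sound _ 33 [(rh932754581e0f4330.shift 1 0), rha641f60dd3477363] (by decide +kernel))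
noncomputable def rh5ab1f42b53110912 : CRef := CRef.mk (Pat.mk 0x20000000300000002000000000000000000000000000000000 0x200000002c000000ee0000007c0000003f000001fe0000007c0000007400000010 9 9) 0 0 (step_sound _ 163 [(rh4d72501e9a1677d5.shift 3 0), (rh72a53ccab2fa8473.shift 1 2), rh8085c0369c6a135e] (by decide +kernel))
noncomputable def rh7e62080924a3e033 : CRef := CRef.mk (Pat.mk 0x100000001800000010000000000000000000000000 0x3e0000003e000000f60000003f0000001f0000000f0000000a00000002 9 8) 0 0 (step_sound _ 99 [(rh503dd4575245365b.shift 3 2), (rh7cb508bb11bec835.shift 1 3), rhf947048397a8babf] (by decide +kernel))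
noncomputable def rhba88bc9ff3a06280 : CRef := CRef.mk (Pat.mk 0x2000000030000000200000000000000000000000000000000 0x5000000070000000700000002000000030000000300000007000000070000000700000001 9 3) 0 0 (step_sound _ 225 [(rh03dfdf12d5937476.shift 0 3), (rh1741680720c097b4.shift 0 4), rh6102227559b23512] (by decide +kernel))
noncomputable def rh0b03bd704974da61 : CRef := CRef.mk (Pat.mk 0x20000000300000002000000000000000100000000000000000 0x4000000ee0000007e0000003f0000001c0000001c0000001400000010 9 8) 0 0 (step_sound _ 163 [(rh1ed96fec3f239918.shift 1 2), (rh4f70f95db94cd261.shift 1 2), rhf11b3caca35dcb8c, (rhf5183d55e2daca0a.shift 1 2)] (by decide +kernel))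
noncomputable def rh8a034a4a4067f89d : CRef := CRef.mk (Pat.mk 0xc000000180000000000000000000000000000000000000000 0x1c0000001e000000780000000c0000001f0000003f0000001f0000001e0000001c00000014 9 7) 0 0 (step_sound _ 227 [(rhb23658ecdd7ce5df.shift 2 4), rhde7440c5fe238155, (rhf870ecfbcb2c3afc.shift 1 1), (rhf936b98f373260c2.shift 1 4)] (by decide +kernel))
noncomputable def rh8f3463babc7ab034 : CRef := CRef.mk (Pat.mk 0x3c00000008000000000000000000000000 0xc0000006c0000003e0000006f0000007e0000007e0000001c 9 7) 0 0 (step_sound _ 101 [rhb981e12a69039e03, (rhe25b0a99195a5d59.shift 2 3)] (by decide +kernel))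
noncomputable def rhb33d28e09672f37e : CRef := CRef.mk (Pat.mk 0x80000000e00000000000000000000000000000000 0x140000003c0000003c0000003c0000007c0000001e000000780000001f0000001c00000010 9 7) 0 0 (step_sound _ 164 [rh0645b6630216d6c6, (rh572132728df34c43.shift 1 4), (rh80f90a60d87caa0d.shift 1 4)] (by decide +kernel))
noncomputable def rhef7fcd8843a7daa4 : CRef := CRef.mk (Pat.mk 0x3800000008000000080000000000000000 0x4000000060000003c0000006e0000003c0000001f0000001f 9 7) 0 0 (step_sound _ 130 [(rh132883a60cd8aed8.shift 1 1), rh2dfc702e322cd298, (rhe4f9133a81c1dbc5.shift 1 2)] (by decide +kernel))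
noncomputable def rh8c7ae6458d3e00ae : CRef := CRef.mk (Pat.mk 0x18000000700000000000000000 0x1c0000007c000000ff000000ff0000007b0000007a0000005e00000018 9 8) 0 0 (step_sound _ 131 [(rh5d54cb79a67f97ab.shift 3 0), (rh6aa0f6f3fbaa8e03.shift 0 1), (rha40d42a2e34c408d.shift 3 0), (rhcf483003b89e3189.shift 1 0)] (by decide +kernel))
noncomputable def rh274f391bfb400c5c : CRef := CRef.mk (Pat.mk 0x20000000e00000010000000000000000000000000 0x4000000070000000700000007000000060000001e00000033000000070000000700000005 9 6) 0 0 (step_sound _ 132 [rhcb70a6bd093e18a3, (rhe25b0a99195a5d59.shift 1 3)] (by decide +kernel))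
noncomputable def rhccea4a81276020a2 : CRef := CRef.mk (Pat.mk 0x1e00000000000000000000000000000000 0x200000003800000038000000380000001e0000003b000000380000003800000028 9 6) 0 0 (step_sound _ 164 [(rh33e738c4ed385b9f.shift 1 4), rha6127129cbf922dc] (by decide +kernel))
noncomputable def rhc33b26f0d2268b52 : CRef := CRef.mk (Pat.mk 0xe00000002000000000000000000000000 0x200000003800000038000000380000001e0000003b000000380000003800000028 9 6) 0 0 (step_sound _ 132 [(rh413e109c840b3815.shift 1 0), (rheb0810cc63b001d8.shift 0 3)] (by decide +kernel))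
noncomputable def rh9cc388a6d8f060be : CRef := CRef.mk (Pat.mk 0x80000000800000038000000000000000000000000 0x20000000740000007f0000007f000000380000000c0000000c00000004 9 7) 0 0 (step_sound _ 67 [(rhabe85ef2c0fc340b.shift 0 2), (rhc4526fc8abf298b6.shift 2 0), (rhcab3157f7bdcba3e.shift 2 0)] (by decide +kernel))
noncomputable def rhd9f9474fb454d8f4 : CRef := CRef.mk (Pat.mk 0x8000000080000003800000000000000000000000000000000 0x40000001c0000001c000000180000007c0000003f000000380000002c0000001c0000001c00000014 9 7) 0 0 (step_sound _ 162 [(rh27acb52e4711b1c0.shift 2 1), (rhc02b3aee7ab87ee1.shift 0 4), rhfaf8a3b6b7b2818b] (by decide +kernel))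
noncomputable def rh6ab13829772c7201 : CRef := CRef.mk (Pat.mk 0x4000000040000001c00000000 0xa0000000e000000ff0000007c000000ff0000001c00000014 9 8) 0 0 (step_sound _ 131 [(rh5caf3f22e0f1b1b8.shift 1 0), (rh739b1d2a1da9317d.shift 1 1), (rhaace14975fb582e7.shift 2 0), rhacf1818e0d2ee236] (by decide +kernel))
noncomputable def rh621edf68a79a818d : CRef := CRef.mk (Pat.mk 0x80000000800000038000000000000000000000000 0x1000000030000000740000007e0000007f000000380000002c0000000c00000004 9 7) 0 0 (step_sound _ 130 [(rh0f4422bfeb8a984e.shift 1 0), (rhc02b3aee7ab87ee1.shift 0 3), (rhd5cba93dd47f4229.shift 0 1)] (by decide +kernel))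
noncomputable def rhfa9cf3b05e7f298d : CRef := CRef.mk (Pat.mk 0x4000000040000001c00000000 0xa0000003e0000007f0000007f0000007f0000001c00000010 9 7) 0 0 (step_sound _ 130 [(rh326ac82c358d7e45.shift 0 1), rhbcd3e96d5391dc8c, (rhc85cc95794737cf7.shift 1 1)] (by decide +kernel))
noncomputable def rh018bd7ba5b9fdcee : CRef := CRef.mk (Pat.mk 0x80000000800000038000000000000000000000000 0x10000000300000007c0000007e0000007f000000380000002c0000000c00000004 9 7) 0 0 (step_sound _ 130 [(rh0f4422bfeb8a984e.shift 1 0), (rhc02b3aee7ab87ee1.shift 0 3), (rhde0d3be00b08efa8.shift 0 1)] (by decide +kernel))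
noncomputable def rhd45d22231f5021b8 : CRef := CRef.mk (Pat.mk 0x20000001e0000000000000000000000000000000000000000 0x50000000700000007000000320000001e0000003700000007000000070000000700000004 9 6) 0 0 (step_sound _ 129 [rhde579537be256d87, (rheb0810cc63b001d8.shift 0 4)] (by decide +kernel))
noncomputable def rhd67b9da0472ba59a : CRef := CRef.mk (Pat.mk 0x1800000070000000000000000000000000 0x1c0000003f0000007f000000380000007c000001f80000007c00000078 9 9) 0 0 (step_sound _ 69 [rh2dac9a2b349f393d, (rh89b48399c7576386.shift 2 0), (rhc38f566cab2818e5.shift 4 0)] (by decide +kernel))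
noncomputable def rhdcc9ef14b2d970c7 : CRef := CRef.mk (Pat.mk 0x30000000180000000000000000000000000000000000000000 0x2000000038000000380000003800000030000000300000001e0000007f0000007f000000380000003800000008 9 7) 0 0 (step_sound _ 162 [(rh53b3c253cb0c65f4.shift 1 5), rh6ef6eb0e5d43ad54] (by decide +kernel))
noncomputable def rh81d57862a6d13d96 : CRef := CRef.mk (Pat.mk 0xc00000006000000000000000000000000 0xa0000000e0000000e0000000c0000000c0000003e0000003f0000003e00000016 9 6) 0 0 (step_sound _ 162 [rh1a7ca1f2fd24d9e8, (rh240d91d7c7d65ea5.shift 1 0), (rh281c6819542c66e6.shift 1 0), (rh660ea19c86119cc0.shift 1 2)] (by decide +kernel))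
noncomputable def rh88bc5692a6d7528b : CRef := CRef.mk (Pat.mk 0x40000000e00000002000000000000000000000000 0x3e0000003e000000360000001f0000003e0000000c0000000c0000000c 9 6) 0 0 (step_sound _ 194 [rh03ae42b1862fb4b8, (rh5c5e593799055d58.shift 1 3)] (by decide +kernel))
noncomputable def rhdc523afd8b522c7a : CRef := CRef.mk (Pat.mk 0x1000000030000000080000000000000000000000000000000000000000 0x200000003800000038000000180000003800000038000000ff0000003e000000380000003800000008 9 8) 0 0 (step_sound _ 164 [(rh281c6819542c66e6.shift 3 2), (rh660ea19c86119cc0.shift 3 4), (rhb9dcd71d075898ef.shift 3 3), rhc74acf5e4597151d] (by decide +kernel))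
noncomputable def rh34cf05b5e3cd7d3c : CRef := CRef.mk (Pat.mk 0x10000000100000007000000000 0x28000000f8000000fc000000fc000000370000007e0000000e 9 8) 0 0 (step_sound _ 35 [(rh070520f24e83b492.shift 2 1), (rh1ae4704ae86cb9a8.shift 2 0), rhab6f55bc99585f19] (by decide +kernel))
noncomputable def rhad686df263cbf635 : CRef := CRef.mk (Pat.mk 0x380000000c0000000000000000000000000000000000000000 0x40000001c0000007c0000007c0000001f000000380000007c0000007e0000007c0000003c0000001c00000014 9 7) 0 0 (step_sound _ 227 [(rh281c6819542c66e6.shift 2 2), rhad0f350951bd5744, (rhb3b2d410932e613c.shift 0 4)] (by decide +kernel))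
noncomputable def rh956fad060d8f0c31 : CRef := CRef.mk (Pat.mk 0x380000000c00000000000000000000000000000000 0x140000003c0000007c0000006f0000003c0000001c0000001c0000001c0000001c00000008 9 7) 0 0 (step_sound _ 195 [(rh255892cc2978bd95.shift 0 3), (rh281c6819542c66e6.shift 2 1), rh523a54872a6739c6] (by decide +kernel))
noncomputable def rhbe2a9b7ef53a6edc : CRef := CRef.mk (Pat.mk 0x20000000200000002000000000 0x2000000070000003fe000003fe000003ff0000003e0000002000000020 9 10) 0 0 (step_sound _ 132 [(rh0dbc8abee7ad42d4.shift 4 0), (rh0ec84a1ddfb0e452.shift 1 1), rh91ced0ab3692d57d, (rh9a17dc36f7181934.shift 4 0), (rha5dc83e34999ae02.shift 2 0)] (by decide +kernel))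
noncomputable def rhc383f466fe96410b : CRef := CRef.mk (Pat.mk 0x80000003800000000000000000000000000000000 0x1000000010000001ff0000007e000001f80000007c000000180000001c0000001c0000000c 9 9) 0 0 (step_sound _ 100 [(rh5d54cb79a67f97ab.shift 3 1), (rh86e87edf7a950fde.shift 2 1), (rha40d42a2e34c408d.shift 3 1), rha7900e57fff82553] (by decide +kernel))
noncomputable def rh2e364a8d8483e4cf : CRef := CRef.mk (Pat.mk 0xc00000006000000000000000000000000 0x60000001e0000001f0000003c0000000c0000000e0000003e0000003e00000018 9 6) 0 0 (step_sound _ 163 [(rh3d497ce94bfd3bc0.shift 1 1), (rh4821dcf828b9d7bf.shift 2 1), rh57d5185c70309560, (rhcf80391c5046a495.shift 2 1)] (by decide +kernel))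
noncomputable def rh8a21c58704b1177a : CRef := CRef.mk (Pat.mk 0xe000000020000000200000000 0x400000007000000070000000f0000007e0000001f000000360000003e0000003c 9 7) 0 0 (step_sound _ 131 [(rha11dfd15f08f96e3.shift 0 3), rhf7379330303e612d, (rhff7d63dcb3cf9f74.shift 0 3)] (by decide +kernel))
noncomputable def rh270bda6cbb762371 : CRef := CRef.mk (Pat.mk 0x380000000c00000000000000000000000000000000 0x40000001c0000003c0000007c0000007f000000380000001c0000007c0000007c0000001c00000014 9 7) 0 0 (step_sound _ 195 [(rh281c6819542c66e6.shift 2 1), rhac78d7f3583950fb, (rhefc2930f7167aff6.shift 0 3)] (by decide +kernel))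
noncomputable def rhf5aa328f58c5513f : CRef := CRef.mk (Pat.mk 0x20000000600000002000000000000000000000000 0x4000000070000000700000007000000060000000600000006000000070000000700000001 9 3) 0 0 (step_sound _ 65 [(rh20be64791ddfe8ef.shift 0 1), rh979f834cf1abb80e, (rha707fb719e87fe6e.shift 1 1)] (by decide +kernel))
noncomputable def rh0b7fd83a52bc0633 : CRef := CRef.mk (Pat.mk 0x1000000010000000000000002000000020 0x180000001c0000001c000003ff000001fe000003af0000002000000020 9 10) 0 0 (step_sound _ 101 [(rh2613c889e411427e.shift 4 0), (rh74d827b0615116d8.shift 0 2)] (by decide +kernel))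
noncomputable def rhd26ea4ff9d1b8a86 : CRef := CRef.mk (Pat.mk 0x8000000000000001800000010000000000000000000000000 0x340000007e0000007f000000180000001f0000001c0000001800000008 9 7) 0 0 (step_sound _ 163 [(rh08edf065357d68e5.shift 3 1), rh17ee4d40c3c2005b, (rh79ad7b82ec8c35e2.shift 3 1)] (by decide +kernel))
noncomputable def rh74ea168a1daf144c : CRef := CRef.mk (Pat.mk 0x8000000100000001000000010 0x1ef000001fe000003f70000001000000010 9 10) 0 0 (step_sound _ 100 [rh1d2c0101e9794173, (rh50fbb5868c909700.shift 3 0)] (by decide +kernel))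
noncomputable def rh2176e6ef60746b39 : CRef := CRef.mk (Pat.mk 0x80000000c000000080000000000000000000000000000000000000000 0x10000000780000000c0000007f0000003f0000001f0000001e0000001c00000014 9 7) 0 0 (step_sound _ 131 [(rh233e61dc7c0a9319.shift 2 0), rh4a276f5ba5034070, (rh89cf5152879421f3.shift 2 1), (rh8cdd36b03d57a2f6.shift 2 2), (rhba30c314e68de89f.shift 0 2), (rhbaff7ec0fcc038ba.shift 2 1)] (by decide +kernel))
noncomputable def rh07e4953a45fdd6ab : CRef := CRef.mk (Pat.mk 0x1000000010000000000000002000000020 0x6000000068000001fe000001fe000000ff000000e70000006600000024 9 9) 0 0 (step_sound _ 101 [(rh2613c889e411427e.shift 4 0), rhb3ed64a503a0ef49] (by decide +kernel))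
noncomputable def rhdcfeb2add2ed8952 : CRef := CRef.mk (Pat.mk 0x80000000c00000008000000000000000000000000 0x30000000780000001c000001f8000000ff000001fc00000014 9 9) 0 0 (step_sound _ 67 [(rh274ab1c87b8cf264.shift 0 1), (rh6c59ce14113da07f.shift 3 0), (rh8cdd36b03d57a2f6.shift 2 0), (rhcab3157f7bdcba3e.shift 2 0)] (by decide +kernel))
noncomputable def rhd7c5baf3388ef193 : CRef := CRef.mk (Pat.mk 0x800000000000000180000001000000000 0x1ef000000fe000001ff00000038000000f000000060 9 9) 0 0 (step_sound _ 163 [rha9ddd6cec8d23a1f, (rhff0f29cb645b05f7.shift 3 1)] (by decide +kernel))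
noncomputable def rh81fbd91f0d0a4c9e : CRef := CRef.mk (Pat.mk 0x80000000c000000080000000000000000000000000000000000000000 0x10000000780000001c0000003f0000003f0000001f0000001e0000001800000010 9 7) 0 0 (step_sound _ 131 [(rh8cdd36b03d57a2f6.shift 2 2), (rhba30c314e68de89f.shift 0 2), (rhcab3157f7bdcba3e.shift 2 2), (rhf92ea1fb071052c3.shift 2 0)] (by decide +kernel))
noncomputable def rhea57bde72c73aefe : CRef := CRef.mk (Pat.mk 0x10000000100000001000000010 0x2f000000fe000001ff0000001000000010 9 9) 0 0 (step_sound _ 101 [(rh2f68792b6b779e96.shift 4 0), rhc7fe684a4482ed03] (by decide +kernel))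
noncomputable def rhcb06ee2dce2fae1f : CRef := CRef.mk (Pat.mk 0x8000000080000000800000000 0x140000001c0000001c000000080000007f000000ff000000f4 9 8) 0 0 (step_sound _ 131 [(rh44203f618ea442d8.shift 2 0), rh5302e16663abe02a, (rhb2dc5819a19df02e.shift 2 0)] (by decide +kernel))
noncomputable def rhc2abfa85078319d8 : CRef := CRef.mk (Pat.mk 0x800000018000000000000001000000000 0x6800000068000001ef000000fe000001f70000003000000010 9 9) 0 0 (step_sound _ 68 [(rh7b1f1fb55310c477.shift 3 0), (rh923f78b431c6f871.shift 0 1)] (by decide +kernel))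
noncomputable def rh97563a1086c82de7 : CRef := CRef.mk (Pat.mk 0x8000000180000000000000010 0x340000003c0000007f0000007f0000007f0000007200000010 9 7) 0 0 (step_sound _ 98 [rh1e96d01bd0825247, (rh3c3e23a02e82b2ed.shift 0 2), (rhb8334ce262edecaf.shift 1 0)] (by decide +kernel))
noncomputable def rhd54e666b2cc83f9d : CRef := CRef.mk (Pat.mk 0x20000000100000001000000010 0x2f000000fe000001ff0000001000000010 9 9) 0 0 (step_sound _ 100 [(rh2f68792b6b779e96.shift 4 0), rhc7fe684a4482ed03] (by decide +kernel))
noncomputable def rhf27f4cfee173cfa4 : CRef := CRef.mk (Pat.mk 0x8000000000000001800000010000000100000000000000000 0x80000000800000038000000ff000000fe0000006600000024 9 8) 0 0 (step_sound _ 99 [(rh6f1cbe15c631ee70.shift 3 2), rhb0438dfcad771e2b] (by decide +kernel))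
noncomputable def rhdb166a4c77dab147 : CRef := CRef.mk (Pat.mk 0x4000000000000000c00000008000000080000000000000000 0x1000000018000000180000001c000000780000001c0000007f0000003f0000001700000002 9 7) 0 0 (step_sound _ 163 [(rh1defae62372cd258.shift 2 1), (rh20966da26a1c2ae8.shift 2 1), rhba30c314e68de89f, (rhbf5b792126ec9b29.shift 1 1), (rhed79e5c5ffee0217.shift 2 1)] (by decide +kernel))
noncomputable def rhad8bb132ac84bcb2 : CRef := CRef.mk (Pat.mk 0x60000000400000004000000000000000000000000 0xc0000000e0000003c0000000f0000003e0000001e00000002 9 6) 0 0 (step_sound _ 66 [(rh02648e727012dea2.shift 0 1), (rhcab3157f7bdcba3e.shift 1 0), (rhce9a49803a550f13.shift 1 1)] (by decide +kernel))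
noncomputable def rhb60afcb33fe46b8f : CRef := CRef.mk (Pat.mk 0x800000000000000180000001800000000 0x340000003c000000ff00000038000000f8000000e8 9 8) 0 0 (step_sound _ 132 [rh2d55c6a7f1c1aeb9, (rh7d7eaefe27cdd7b0.shift 3 1), (rhb8fddd58ad9026ec.shift 3 0), (rhbc5b4405f2a67068.shift 2 0)] (by decide +kernel))
noncomputable def rh269d7405d929ef3e : CRef := CRef.mk (Pat.mk 0x800000000000000180000001800000000 0x300000003c000000f800000038000000ff000000ec 9 8) 0 0 (step_sound _ 132 [rh848867ba30e8c9fb, (rhb8fddd58ad9026ec.shift 3 0), (rhbc5b4405f2a67068.shift 2 0)] (by decide +kernel))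
noncomputable def rh19c0a905a90fcf38 : CRef := CRef.mk (Pat.mk 0x1000000008000000000000001800000000000000000000000000000000 0x100000003800000078000000fe000000ff000000380000000c0000001c0000001c00000010 9 8) 0 0 (step_sound _ 163 [(rh08d50fe567eb1045.shift 3 3), (rh642a79c6aa321b73.shift 0 4), (rhb10ebbd9973953c9.shift 2 0)] (by decide +kernel))
noncomputable def rh67a856a427ce9b0d : CRef := CRef.mk (Pat.mk 0x80000000c000000000000000c 0x3000000030000000370000007f0000007f0000003f0000000c 9 7) 0 0 (step_sound _ 100 [rh3bbdde589384d0fe, rh44a0b0645e159a0b, (rhd69c262cd33b94b3.shift 0 2)] (by decide +kernel))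
noncomputable def rhaab8f41331677a53 : CRef := CRef.mk (Pat.mk 0xc000000040000000000000004 0x1e0000003f0000003f0000000f0000003c0000001400000004 9 6) 0 0 (step_sound _ 131 [(rh4667e711860e7283.shift 0 1), (rh9e3edb185cc347de.shift 2 0)] (by decide +kernel))
noncomputable def rhfbbce06132c75019 : CRef := CRef.mk (Pat.mk 0x30000000100000000000000020 0x3000000030000007fe000003ff000007de0000006800000060 9 11) 0 0 (step_sound _ 102 [(rh0ba61214d031d41a.shift 3 2), (rh15815aa9452e9695.shift 3 2), rhb1b58aecc9c90218, (rhe85b72ef599eee0f.shift 1 1)] (by decide +kernel))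
noncomputable def rh63f557a9db44d0b2 : CRef := CRef.mk (Pat.mk 0x20000000300000000000000000 0x2800000028000001ff000003fe000003cf00000044 9 10) 0 0 (step_sound _ 67 [(rh8f229c06d46b02ca.shift 2 0), (rhb103f40a53fe1424.shift 0 1), rhc4bdf0b738480462, (rhd7c0a18f92b59752.shift 1 1)] (by decide +kernel))
noncomputable def rhacea22585f8cfed5 : CRef := CRef.mk (Pat.mk 0x1000000008000000000000001800000000 0x1000000034000001f6000000fe000001ff0000003800000028 9 9) 0 0 (step_sound _ 100 [(rh03ff72220b1946bd.shift 1 0), (rh0d1bca49b936c475.shift 1 0), (rhecb97fed8c7f1286.shift 3 0), rhf70a9a2e3cc5e59e] (by decide +kernel))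
noncomputable def rhf01fb3c15eae94f1 : CRef := CRef.mk (Pat.mk 0x3800000000000000300000000000000000 0x40000000cf0000007e000001ef00000070000001f0000001f0 9 9) 0 0 (step_sound _ 101 [(rh8ee80cc30e93a344.shift 2 3), (rhb1688bf6da1a7843.shift 1 1), (rhc92c11e8da6c894f.shift 0 3), (rhff5b049f9b68f99e.shift 3 0)] (by decide +kernel))
noncomputable def rh3ec9249463890fd0 : CRef := CRef.mk (Pat.mk 0x380000000000000020000000000000000000000000 0xa0000000e0000000e0000000d00000007c000000ef00000020000000700000007000000050 9 8) 0 0 (step_sound _ 130 [(rh3cc5c7fb74c49f61.shift 0 4), (rh5d4c473c922c63f9.shift 2 3), (rh7ed6cdaaaea6be97.shift 1 0)] (by decide +kernel))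
noncomputable def rhe4fbe77d4a1a4300 : CRef := CRef.mk (Pat.mk 0x3800000000000000300000000000000000 0x20000000e0000000e000001de000000fc0000000f000000360000001e0000000a 9 9) 0 0 (step_sound _ 98 [(rh3cc5c7fb74c49f61.shift 0 3), (rh472dabcf3553e8ad.shift 1 3), (rh73f5f7cdf41b5bc9.shift 1 2), (rhbc5ecd314dbe835e.shift 1 0), (rhc083815ec94cd2b2.shift 2 3)] (by decide +kernel))
noncomputable def rhc85c69f7ba99ebc9 : CRef := CRef.mk (Pat.mk 0x380000000000000000 0x60000000e0000001e0000007f0000003e0000000f00000004 9 7) 0 0 (step_sound _ 66 [(rh4c622fddc53a5f99.shift 0 2), (rh592c7139d2c44767.shift 0 1), (rh9e97bba44c1b13e4.shift 0 1), (rhe07bd1e897d5d2b9.shift 1 0)] (by decide +kernel))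
noncomputable def rh0bcb871449e259d8 : CRef := CRef.mk (Pat.mk 0x1000000030000000000000003000000000 0x60000000e0000000fe000000fe000000ff000000ef0000003000000010 9 8) 0 0 (step_sound _ 131 [(rh0ca9724cea81216e.shift 1 0), (rh3c3e23a02e82b2ed.shift 1 3), (rhb6e324aa74434849.shift 0 1)] (by decide +kernel))
noncomputable def rh90d41c558b4987da : CRef := CRef.mk (Pat.mk 0x1000000030000000000000002000000000 0x20000007ff000003ff000007ce0000006000000060 9 11) 0 0 (step_sound _ 102 [(rh061ce3acc07d2ab1.shift 0 2), rh0c9020b434a8db42, (rh47aee474a240d3ee.shift 3 3), (rha9fbfd4bb8cf890b.shift 1 3)] (by decide +kernel))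
noncomputable def rh7f367d233bfbd0b8 : CRef := CRef.mk (Pat.mk 0xe0000000a00000000000000000000000000000000 0x180000001a0000003b0000001e0000007e0000003f0000002f0000000700000001 9 7) 0 0 (step_sound _ 132 [rh49ec57afcc6059e3, (rh4a0b10776449c3e9.shift 1 4), (rh89ade209b3e28f13.shift 1 4), (rhae2edff970a530ce.shift 1 4)] (by decide +kernel))
noncomputable def rhdef651453cc06379 : CRef := CRef.mk (Pat.mk 0x380000002800000000000000000000000000000000 0x540000007c0000007c0000006f0000007e00000038000000f8000000700000007000000010 9 8) 0 0 (step_sound _ 193 [(rh128e27bbf904bd5d.shift 0 5), rhb57a8083f8ca7560, (rhf15ad8283c8e1df8.shift 1 0)] (by decide +kernel))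
noncomputable def rh318586dd28765f42 : CRef := CRef.mk (Pat.mk 0xe0000000c000000000000000000000000 0x4000000040000000e0000003f0000007f0000001f0000001f 9 7) 0 0 (step_sound _ 100 [rh0f5e74ddd23738c8, (rhf48373e13d2bc128.shift 1 3)] (by decide +kernel))
noncomputable def rha536be879703071c : CRef := CRef.mk (Pat.mk 0x40000000c00000000000000080000000000000000 0x40000001e0000003f0000007f0000007e0000007c0000001400000010 9 7) 0 0 (step_sound _ 99 [rh9a078673de4b4ca9, (rhc89253ff58c66167.shift 2 2), (rhe072fffdd2fccf38.shift 2 2)] (by decide +kernel))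
noncomputable def rhd54cf7f2c92a600d : CRef := CRef.mk (Pat.mk 0x20000000600000000000000040000000000000000000000000 0x140000001c0000001ff000001fe0000078e000001c0000001c0000001c000000140 9 11) 0 0 (step_sound _ 167 [rh37092c14f25b08e2, (rha7edc60fc34bffff.shift 3 5), (rha9fbfd4bb8cf890b.shift 2 5), (rhce36d1d0a12d83b5.shift 4 0), (rhf60aa8aede119d3b.shift 2 5)] (by decide +kernel))
noncomputable def rhf0470912dd9fa6ad : CRef := CRef.mk (Pat.mk 0x400000004000000000000000800000008000000000000000000000000 0x40000001c0000001800000018000000ff0000007e000000fc00000014 9 8) 0 0 (step_sound _ 163 [rh4c3a74a63355e0d0, (rhcfdf45280693d3da.shift 2 3)] (by decide +kernel))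
noncomputable def rhc79cba6e01a09a40 : CRef := CRef.mk (Pat.mk 0x10000000100000000000000020000000200000000000000000 0x540000005c000001df000001fe000001fe0000002e00000004 9 9) 0 0 (step_sound _ 100 [rhdbc7fcd3e84b5372, (rhff0f29cb645b05f7.shift 4 2)] (by decide +kernel))
noncomputable def rhda06ac844a39428a : CRef := CRef.mk (Pat.mk 0x4000000040000000000000008000000080000000000000000000000000000000000000000 0x40000000c000000180000007c000000ff0000007e000000fc0000001c0000001c00000004 9 8) 0 0 (step_sound _ 227 [rh60066787a863c77a, (rhcfdf45280693d3da.shift 2 5)] (by decide +kernel))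
noncomputable def rh900184c84ea946a4 : CRef := CRef.mk (Pat.mk 0x100000001000000010000000000000002000000000 0x200000003800000038000000180000007e000000fe0000002f0000007c00000008 9 8) 0 0 (step_sound _ 99 [(rh7a7e08304268422e.shift 3 2), (rh958ac04a5d3bcb36.shift 3 2), (rha20d9977403a32c0.shift 1 2), rhe62a1d2b4d8a34e1] (by decide +kernel))
noncomputable def rh7168ac0cbd0a8d0d : CRef := CRef.mk (Pat.mk 0x200000002000000000000000400000004000000000 0x1f7000003fe000007dc000003d0000000f800000080 9 11) 0 0 (step_sound _ 134 [(rh2613c889e411427e.shift 5 1), rh309b34fccf54b9ad] (by decide +kernel))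
noncomputable def rh7bb3397172a4bd53 : CRef := CRef.mk (Pat.mk 0x8000000080000000800000000 0x14000000fc000000ff0000007f0000000c0000000c00000004 9 8) 0 0 (step_sound _ 131 [(rh1741680720c097b4.shift 2 1), (rh20966da26a1c2ae8.shift 2 0), rh3dc5318d255e5c67, (rh771d065bdc85bf2d.shift 2 0)] (by decide +kernel))
noncomputable def rh29dd3c721b94d407 : CRef := CRef.mk (Pat.mk 0x2000000060000000000000004000000000 0x30000000b0000001bf000001fe000003ce0000004800000040 9 10) 0 0 (step_sound _ 70 [(rh7b1f1fb55310c477.shift 5 0), (rha3c4926d0ea64b77.shift 0 1)] (by decide +kernel))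
noncomputable def rhdf63c40fddec9e17 : CRef := CRef.mk (Pat.mk 0x8000000180000000000000010 0x140000003c0000003c0000003f0000007f0000007f0000001700000016 9 7) 0 0 (step_sound _ 131 [rh1b16bcde06c74493, rh7e5f782aaf69462a, (rhfb9fb48a5e63ed80.shift 2 1), (rhfc77473044a95557.shift 3 0)] (by decide +kernel))
noncomputable def rhcd81f9b5329bc49d : CRef := CRef.mk (Pat.mk 0x1000000030000000000000002000000000 0xc0000002e000000fe000000ff0000007e0000007400000070 9 8) 0 0 (step_sound _ 69 [rh57b22969f1c4c483, (rh7b1f1fb55310c477.shift 4 0)] (by decide +kernel))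
noncomputable def rhdfb6a1fad7423005 : CRef := CRef.mk (Pat.mk 0x800000018000000000000001000000000 0x80000001e0000007e000000ff0000007e0000007800000028 9 8) 0 0 (step_sound _ 68 [rh267d4f454d0a8fa2, (rhc89253ff58c66167.shift 3 1), (rhe072fffdd2fccf38.shift 3 1)] (by decide +kernel))
noncomputable def rhafb9bc650633ada4 : CRef := CRef.mk (Pat.mk 0x10000000300000000000000020000000000000000000000000 0x800000028000000be000000fe000000ff000003de000000f4000000e0000000e0000000a0 9 10) 0 0 (step_sound _ 195 [(rh3c3e23a02e82b2ed.shift 1 5), (rh5c5a2014709044d0.shift 1 5), (rhb0121edee88fe839.shift 1 5), (rhc80d32fec497d993.shift 1 3), rhf201c3fa62396f62] (by decide +kernel))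
noncomputable def rhbc555f7678e5e4f7 : CRef := CRef.mk (Pat.mk 0x8000000080000000000000010000000100000000000000000 0x8000000080000000c000000cc000000ee000001fe000000ff000000ee00000020 9 9) 0 0 (step_sound _ 99 [rhbe954891e32593cc, (rhff0f29cb645b05f7.shift 3 2)] (by decide +kernel))
noncomputable def rhe4bba266ab2ffc70 : CRef := CRef.mk (Pat.mk 0x10000000100000001000000000 0x280000003e000000ff0000003e000000180000001800000008 9 8) 0 0 (step_sound _ 132 [rh041e63f8383302ef, (rh20966da26a1c2ae8.shift 3 0), (rh771d065bdc85bf2d.shift 3 0), (rhc85cc95794737cf7.shift 3 1)] (by decide +kernel))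
noncomputable def rh8d30415f2aede268 : CRef := CRef.mk (Pat.mk 0x100000001000000010000000000000002000000000 0x200000003800000038000000180000007e000000fe0000002f0000007c00000008 9 8) 0 0 (step_sound _ 99 [(rh7a7e08304268422e.shift 3 2), (rh958ac04a5d3bcb36.shift 3 2), (rha20d9977403a32c0.shift 1 2), rhe62a1d2b4d8a34e1, (rhee179f52d21ca1dd.shift 3 2)] (by decide +kernel))
noncomputable def rha364134fa6c8d704 : CRef := CRef.mk (Pat.mk 0x10000000100000001000000000 0x280000003f0000003e0000007f0000001c0000001800000008 9 7) 0 0 (step_sound _ 132 [(rh1741680720c097b4.shift 3 1), (rh20966da26a1c2ae8.shift 3 0), (rh771d065bdc85bf2d.shift 3 0), rh98e17e8358eceaa2] (by decide +kernel))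
noncomputable def rheea46d45d111f182 : CRef := CRef.mk (Pat.mk 0x1000000030000000000000002000000000 0x400000024000000fe000000fe000000ef0000007c00000078 9 8) 0 0 (step_sound _ 69 [rh02c476f52854392c, (rh7b1f1fb55310c477.shift 4 0)] (by decide +kernel))
noncomputable def rh297d9bd9942a533c : CRef := CRef.mk (Pat.mk 0x2000000060000000000000004000000000 0x20000000200000003f000001fe000003de000000f800000050 9 10) 0 0 (step_sound _ 70 [(rh7b1f1fb55310c477.shift 5 0), rh94fbbb509efbe882] (by decide +kernel))
noncomputable def rh0a5d8e16fec27a1d : CRef := CRef.mk (Pat.mk 0x800000018000000000000001000000000 0x40000000c0000001f0000007f0000007f000000f70000003e0000002c 9 8) 0 0 (step_sound _ 130 [(rh3c3e23a02e82b2ed.shift 0 3), rh4207c341bfc07264, rhb5d396ebd9494462] (by decide +kernel))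
noncomputable def rh92756ea4bcdb4243 : CRef := CRef.mk (Pat.mk 0x1000000030000000000000002000000000 0xa0000001e0000003e000000fe000000ff000000cf0000006e00000020 9 8) 0 0 (step_sound _ 131 [(rh1b49cf5f240859b5.shift 1 1), (rh3c3e23a02e82b2ed.shift 1 3), (rh5c5a2014709044d0.shift 1 3), rhdb342a9f8f831ff7] (by decide +kernel))
noncomputable def rh03e4fbece7c43171 : CRef := CRef.mk (Pat.mk 0x10000000100000001000000000000000000000000000000000 0x80000001800000038000003f7000001fe000001ff0000006800000040 9 10) 0 0 (step_sound _ 100 [rh0628b4214409415e, (rh5ad9898cc32ef511.shift 3 1), (rh6eff4158bb400f47.shift 3 1), (rhc4526fc8abf298b6.shift 3 1)] (by decide +kernel))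
noncomputable def rhbd83c65812941fce : CRef := CRef.mk (Pat.mk 0x80000000800000008000000000000000000000000 0x40000000c0000000c0000003f0000007f0000001f00000014 9 7) 0 0 (step_sound _ 67 [(rh5e5afe9bb6262be6.shift 0 1), (rh6eff4158bb400f47.shift 2 0), (rh8ff3dde5b1c639e0.shift 2 0), (rhc4526fc8abf298b6.shift 2 0)] (by decide +kernel))
noncomputable def rha37a68f5a639059c : CRef := CRef.mk (Pat.mk 0x2000000000000000100000001000000010000000000000000000000000 0x60000000e0000000fc000001fe000001ff000000fe0000003f00000028 9 9) 0 0 (step_sound _ 165 [(rh514fa720804abbca.shift 4 2), (rh6b6aba7b667f3a30.shift 1 2), rhb4337a23074ac302, (rhffb8e5993241bf15.shift 3 0)] (by decide +kernel))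
noncomputable def rh7b0738bda60602f4 : CRef := CRef.mk (Pat.mk 0x40000000000000002000000020000000200000000000000000000000000000000 0x50000000700000003000000030000000300000007000000070000000700000001 9 3) 0 0 (step_sound _ 225 [rh7e410a949fb5cf5b, (rhbaefcd01e0a8bca3.shift 1 4)] (by decide +kernel))
noncomputable def rhe1e174314381acb3 : CRef := CRef.mk (Pat.mk 0x1000000010000000000000000800000008 0x60000000fe000001fe000001f80000007f0000007f 9 9) 0 0 (step_sound _ 99 [(rh04253f50b6dd0619.shift 3 0), rh9b52ac4fe5b68b47] (by decide +kernel))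
noncomputable def rh21d9577c7fa7cf03 : CRef := CRef.mk (Pat.mk 0x1000000010000000000000000800000008 0x2000000060000000fe000000ff000001fe000001f80000006800000028 9 9) 0 0 (step_sound _ 99 [(rh04253f50b6dd0619.shift 3 0), rh4b8dfca85d673651] (by decide +kernel))
noncomputable def rhf586853559587d25 : CRef := CRef.mk (Pat.mk 0x400000004000000000000000200000002 0xa0000003e0000003f0000003f0000000c0000000c0000000e00000002 9 6) 0 0 (step_sound _ 66 [(rheea67dfebd0f8008.shift 1 0), (rhfc34a5580ed8bb4f.shift 0 1)] (by decide +kernel))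
noncomputable def rh7923c28a5ac3c549 : CRef := CRef.mk (Pat.mk 0x2000000020000000000000001000000010 0x20000003ff000001fe000003d80000007c000000f8 9 10) 0 0 (step_sound _ 100 [(rh04253f50b6dd0619.shift 4 0), rh89d31a2740357fb2] (by decide +kernel))
noncomputable def rh98458a3c45501d72 : CRef := CRef.mk (Pat.mk 0x8000000000000000c0000000400000000 0x300000003800000038000000780000003f0000007f00000078 9 7) 0 0 (step_sound _ 99 [(rh5c5e593799055d58.shift 2 1), rhfd0ccaa93c80fb5f] (by decide +kernel))
noncomputable def rh555cbb91242e3b3c : CRef := CRef.mk (Pat.mk 0x100000000000000018000000080000000000000000 0x1000000010000000700000007e000001ef0000007c00000028 9 9) 0 0 (step_sound _ 132 [rh3a104d81cb66ad5a, (rh5c5e593799055d58.shift 3 2)] (by decide +kernel))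
noncomputable def rhc858f29db662cee9 : CRef := CRef.mk (Pat.mk 0x10000000000000001800000008000000000000000000000000 0x280000003c000000f00000007e000000ff000000ff0000003000000030 9 8) 0 0 (step_sound _ 98 [rh3644b3642b6250d7, (rhc3a9a7f975145828.shift 1 1), (rhd69c262cd33b94b3.shift 0 3)] (by decide +kernel))
noncomputable def rh35a5bdba78617102 : CRef := CRef.mk (Pat.mk 0x40000000000000006000000020000000000000000000000000 0x340000003d0000003f000000797000001fe000003fe000001e0000000c000000040 9 11) 0 0 (step_sound _ 135 [(rh2820ca9a6c4f41b4.shift 2 3), (rh2cf78355ed2993e9.shift 0 2), (rh44485c6db8be2b6c.shift 4 0), (rhf0f55c4504412200.shift 2 3)] (by decide +kernel))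
noncomputable def rh3b527f975c154e6b : CRef := CRef.mk (Pat.mk 0x4000000040000000400000000 0xa0000000e0000003e0000003f0000003f0000000e0000000e0000000a 9 6) 0 0 (step_sound _ 130 [rh0882c4ea0eba73dd, (rh27b052a1db720fef.shift 1 1), (rh3ce012580aa39743.shift 1 1), (rh968ba7b0df7e4096.shift 1 0), (rhce9a49803a550f13.shift 1 0)] (by decide +kernel))
noncomputable def rh3cc259109f65132a : CRef := CRef.mk (Pat.mk 0x8000000080000000800000000 0x14000000ff000000fe0000007e0000000c0000000c00000004 9 8) 0 0 (step_sound _ 131 [(rh20966da26a1c2ae8.shift 2 0), rh3a78ef9d535450f1, (rh771d065bdc85bf2d.shift 2 0), (rh7ef5fa5c39f1c762.shift 2 1)] (by decide +kernel))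
noncomputable def rh48e8be196ceb46df : CRef := CRef.mk (Pat.mk 0x800000018000000000000001000000000 0x140000001c0000001c0000007c0000007e0000007e0000007c000000ff000000f70000003000000020 9 8) 0 0 (step_sound _ 163 [(rh1ba1a52c6e4373d2.shift 1 3), rh5dc35b0fd3465ba2, (rhfb9fb48a5e63ed80.shift 2 2), (rhfc77473044a95557.shift 3 1)] (by decide +kernel))
noncomputable def rhd57b8f6651690285 : CRef := CRef.mk (Pat.mk 0x40000000400000002000000020000000000000000000000000 0x5000000058000003df000000fe000001be000000b80000003800000018 9 10) 0 0 (step_sound _ 134 [(rh5c5e593799055d58.shift 5 3), rha63755de940dbc39] (by decide +kernel))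
noncomputable def rh79d50bdf67fa742a : CRef := CRef.mk (Pat.mk 0x2000000020000000100000001000000000 0x280000007c000001ef000000fc0000001c0000001000000010 9 9) 0 0 (step_sound _ 100 [(rh71222050f2c63a3a.shift 4 0), (rhe6ff3de661e6b7ad.shift 0 1)] (by decide +kernel))
noncomputable def rhcb3e38b3aaeb4e3f : CRef := CRef.mk (Pat.mk 0x4000000040000000400000000 0xa0000003e0000003f0000003f0000000c0000000c00000008 9 6) 0 0 (step_sound _ 130 [(rh1741680720c097b4.shift 1 1), (rh5abfc4c9d959be03.shift 1 0), rh92c059ee1b599eba, (rhced6d86d2069808b.shift 2 0)] (by decide +kernel))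
noncomputable def rh1e99c2d4a6659bb2 : CRef := CRef.mk (Pat.mk 0x4000000040000000400000000 0x80000003e0000003f0000003f0000000e0000000e0000000a 9 6) 0 0 (step_sound _ 130 [(rh1fcaf8cebe283679.shift 1 0), rh92c059ee1b599eba, (rhc9ac229b3c77cd55.shift 1 0)] (by decide +kernel))
noncomputable def rhd6022d4543077773 : CRef := CRef.mk (Pat.mk 0x200000002000000020000000000000001 0x40000000700000007000000070000000600000006000000060000000700000005 9 3) 0 0 (step_sound _ 33 [rh35e491fddc499c49, rh79877ebd3ef475dd] (by decide +kernel))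
noncomputable def rh3efb9a01396ebf1d : CRef := CRef.mk (Pat.mk 0x200000002000000000000000100000001000000000 0x1fe000000fe0000003f000000ff000000fe00000004 9 9) 0 0 (step_sound _ 132 [(rh04253f50b6dd0619.shift 4 1), rh5753f2f5edd045b6] (by decide +kernel))
noncomputable def rh4ea12dfe6cf032f3 : CRef := CRef.mk (Pat.mk 0x2000000020000000000000001000000010000000000000000000000000 0x20000000280000003f000000ff000001fe000000fe0000003800000028 9 9) 0 0 (step_sound _ 133 [(rh3c88ce959c0e423f.shift 4 3), rhe7f27eab3b4920ad] (by decide +kernel))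
noncomputable def rh95bd821a053f6c3d : CRef := CRef.mk (Pat.mk 0x2000000020000000000000001000000010000000000000000000000000 0x20000000380000001800000018000000ff000000fe0000003f00000028 9 8) 0 0 (step_sound _ 164 [(rh1006c02ae4212ff0.shift 4 3), rh810cc872e7913612] (by decide +kernel))
noncomputable def rh9a67eeba1889ef35 : CRef := CRef.mk (Pat.mk 0x20000000200000000000000010000000100000000000000000 0x7c000000f80000006f000001ff000003ff0000001000000010 9 10) 0 0 (step_sound _ 101 [(rh3c88ce959c0e423f.shift 4 2), rh91a0b721b813a9d5] (by decide +kernel))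
noncomputable def rh1476ac63767531cf : CRef := CRef.mk (Pat.mk 0x10000000100000001000000000 0x2800000038000000380000003f0000007e000000ff000000380000003000000020 9 8) 0 0 (step_sound _ 132 [(rh2c1551b6c97e944e.shift 3 1), rh2ee6c078b145a547, (rh5abfc4c9d959be03.shift 3 0), (rh8687888ae319dcfb.shift 3 0), (rhced6d86d2069808b.shift 4 0), (rhed7a7a244e950ca9.shift 3 1)] (by decide +kernel))
noncomputable def rhaa3b50e53036807a : CRef := CRef.mk (Pat.mk 0x2000000030000000000000001000000000000000000000000000000000 0x180000007c000000fc0000001e0000007c0000003f0000000c0000000400000004 9 8) 0 0 (step_sound _ 164 [rh4f170d9d63bde4b7, (rh71222050f2c63a3a.shift 4 3)] (by decide +kernel))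
noncomputable def rhc516513932b4235f : CRef := CRef.mk (Pat.mk 0x2000000030000000000000001000000000 0x280000007c000001ef000000fc0000001c0000001000000010 9 9) 0 0 (step_sound _ 68 [(rh71222050f2c63a3a.shift 4 0), (rhe6ff3de661e6b7ad.shift 0 1)] (by decide +kernel))
noncomputable def rhf24a5d4104195587 : CRef := CRef.mk (Pat.mk 0x1000000018000000000000000800000000 0x280000003c0000003c000000fc000000ff0000007e0000002e0000000c00000004 9 8) 0 0 (step_sound _ 133 [(rh0bb882ba86b2372d.shift 1 3), (rh1d039af9ad0d2573.shift 0 1), (rh69012675dfdb1a5b.shift 1 3), (rhfdd378db7824bcea.shift 1 0)] (by decide +kernel))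
noncomputable def rhdde2abfde3a398b1 : CRef := CRef.mk (Pat.mk 0x40000000600000000000000020000000000000000000000000 0x380000007c000003ff000001fe0000009f000000f8000000be0000003800000028 9 10) 0 0 (step_sound _ 164 [(rh4ca1c89d5a72fd47.shift 1 0), (rha11dfd15f08f96e3.shift 3 5), (rhc3507ba7645bbff2.shift 0 2), (rhdda18f14314c6e63.shift 0 4), (rhe3b9ae591612b554.shift 2 3)] (by decide +kernel))
noncomputable def rh95b3fbdae8c28aa9 : CRef := CRef.mk (Pat.mk 0x400000008000000080000000800000000000000000000000000000000 0x40000001c0000001c0000001c0000001f0000001c0000001800000008 9 5) 0 0 (step_sound _ 99 [rhfc559b900e4b909a, (rhffd04209dc8ea796.shift 2 3)] (by decide +kernel))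
noncomputable def rhdb1dd28417af940b : CRef := CRef.mk (Pat.mk 0x3000000010000000100000000000000000 0x20000000300000007c000000df000000fc000000fe000000f80000003000000030 9 8) 0 0 (step_sound _ 99 [rh361e9eb3a41b2c44, (rh5263137a31aba65f.shift 1 1), (rh69012675dfdb1a5b.shift 1 3)] (by decide +kernel))
noncomputable def rhbf313311ee4ad040 : CRef := CRef.mk (Pat.mk 0x400000004000000040000000400000000 0x7a0000007f0000003f0000000c0000000c00000008 9 7) 0 0 (step_sound _ 131 [(rh2f68792b6b779e96.shift 2 1), rhafcdfbbe69e6301e] (by decide +kernel))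
noncomputable def rhfd1941529bd4b34c : CRef := CRef.mk (Pat.mk 0x2000000020000000200000002000000000 0x100000003000000020000001f7000001fe000003de 9 10) 0 0 (step_sound _ 36 [rh78e315a98112eac6, (rh932754581e0f4330.shift 4 0)] (by decide +kernel))
noncomputable def rh2d08f09ebdca139e : CRef := CRef.mk (Pat.mk 0x4000000040000000000000002000000020000000000000000000000000 0x40000001c0000007c7000003fe000007fe000003800000018000000100 9 11) 0 0 (step_sound _ 134 [(rh3c88ce959c0e423f.shift 5 3), rhdeaf1cc1b4b8791f] (by decide +kernel))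
noncomputable def rh3de8f417101ecada : CRef := CRef.mk (Pat.mk 0x10000000100000001000000000 0x2000000038000000380000003f0000007e000000ff000000300000003000000020 9 8) 0 0 (step_sound _ 132 [rh2ee6c078b145a547, (rh5abfc4c9d959be03.shift 3 0), (rhced6d86d2069808b.shift 4 0), (rhed7a7a244e950ca9.shift 3 1)] (by decide +kernel))
noncomputable def rh2df78adbaa2bbff9 : CRef := CRef.mk (Pat.mk 0x1000000018000000000000000800000000 0xf4000000ff0000001f000000080000000800000008 9 8) 0 0 (step_sound _ 67 [(rh71222050f2c63a3a.shift 3 0), (rha0a6a6f50beb526f.shift 0 1)] (by decide +kernel))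
noncomputable def rhc0cce4142983bf3b : CRef := CRef.mk (Pat.mk 0x1000000018000000000000000800000000 0xc0000000c0000000c000000ff0000007f0000000c0000000c0000000c 9 8) 0 0 (step_sound _ 67 [(rh71222050f2c63a3a.shift 3 0), rha926caedf19da5b6] (by decide +kernel))
noncomputable def rh4d84806a2a59992b : CRef := CRef.mk (Pat.mk 0x1000000018000000000000000800000000 0x280000003800000038000000fe000000ff000001fe000001ec0000002c00000004 9 9) 0 0 (step_sound _ 133 [(rh21a89099263c2760.shift 1 0), (rh4d2b8d73fbf8d523.shift 0 1), (rh574fdbf07bdd18b9.shift 1 3)] (by decide +kernel))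
noncomputable def rha85b8905bca11d1a : CRef := CRef.mk (Pat.mk 0x1000000018000000000000000800000000 0xc0000003c000000fe000000ff000001fe000001e4000000ec0000000c 9 9) 0 0 (step_sound _ 133 [(rh574fdbf07bdd18b9.shift 1 3), (rha74c67ef57cef2cc.shift 1 0), (rhdffab1ad31680306.shift 0 1), (rhec695a7f3a8f949f.shift 1 3), (rhee572bdaecb5714d.shift 2 3)] (by decide +kernel))
noncomputable def rh98720657c22acfec : CRef := CRef.mk (Pat.mk 0x8000000080000000c000000000000000000000000 0x140000001c0000001c0000000c0000001c0000003c0000001f000000180000001800000018 9 6) 0 0 (step_sound _ 195 [rh36f76fa08fe31c6d, (rh54968f8c0e71a67e.shift 0 2), (rhb77bfac3e9efecea.shift 2 3), (rhf3cdd189c46cffe9.shift 2 2)] (by decide +kernel))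
noncomputable def rh3aee117dff14ea2f : CRef := CRef.mk (Pat.mk 0x100000001000000030000000000000000000000000 0x60000000640000007e0000003f000000fe000001ef0000007c00000028 9 9) 0 0 (step_sound _ 69 [(rh08edf065357d68e5.shift 4 0), (rh3d4a2972c1712414.shift 1 1), rh76c9124f8ac7d024] (by decide +kernel))
noncomputable def rhb150d29db1d46f49 : CRef := CRef.mk (Pat.mk 0x80000000800000008000000000000000000000000 0x6000000170000003f0000007f0000001c0000000c000000180000001800000010 9 7) 0 0 (step_sound _ 194 [(rh0dbc8abee7ad42d4.shift 2 2), (rh114f4abf4ea101c9.shift 2 2), (rh5b0552d861d930ad.shift 0 3), (rhbec796c3ea7a32e6.shift 1 2), (rhf435f65ca384ce7a.shift 2 0)] (by decide +kernel))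
noncomputable def rh953b6b823cadbd70 : CRef := CRef.mk (Pat.mk 0x8000000080000000800000000 0x100000001800000018000000080000003f000000ff000000f4 9 8) 0 0 (step_sound _ 131 [(rh3b734c5288922837.shift 2 0), rh5dab0d94ea966c82, (rh5ef66011045fb859.shift 3 0), rh69d74edc6ed8b1cb, rh834e75af2e3bd78e] (by decide +kernel))
noncomputable def rh9ae448616b194e12 : CRef := CRef.mk (Pat.mk 0x200000002000000020000000000000000000000000 0x400000006000000060000003bf000001fe000003fe00000050 9 10) 0 0 (step_sound _ 69 [(rh6c59ce14113da07f.shift 5 0), (rh8cdd36b03d57a2f6.shift 4 0), (rhc2cfd9278499c975.shift 0 1), (rhcab3157f7bdcba3e.shift 4 0)] (by decide +kernel))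
noncomputable def rhd9b688a83982a453 : CRef := CRef.mk (Pat.mk 0x1000000010000000100000001000000000 0x1ef000000fe000000f70000007e000000f0000001a0 9 9) 0 0 (step_sound _ 37 [rh4fe49759c930b494, (rh55afc6a59410cf00.shift 4 0)] (by decide +kernel))
noncomputable def rh4033da14edae9dba : CRef := CRef.mk (Pat.mk 0x10000000100000001000000010000000000000000000000000 0x2000000030000000180000007f0000007e0000002f0000000400000004 9 7) 0 0 (step_sound _ 101 [(rh55afc6a59410cf00.shift 4 2), rh72f61e2f0d2de44e] (by decide +kernel))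
noncomputable def rhffd478464d8ad1ce : CRef := CRef.mk (Pat.mk 0x4000000040000000600000000 0x20000007e0000007f0000003e0000000e0000000e00000008 9 7) 0 0 (step_sound _ 130 [rhcdc5dbba47dccc7e, (rhe62cab2ff5ad6fe2.shift 1 1), (rhf3cdd189c46cffe9.shift 1 0)] (by decide +kernel))
noncomputable def rh2bafbd31069253c4 : CRef := CRef.mk (Pat.mk 0x100000001800000008000000000000000000000000 0x6000000770000007f0000007f0000000f0000000c00000004 9 7) 0 0 (step_sound _ 67 [rh46bfeac12989f258, (rh71222050f2c63a3a.shift 3 1)] (by decide +kernel))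
noncomputable def rh15e8292744d6fee5 : CRef := CRef.mk (Pat.mk 0x100000001800000008000000000000000000000000 0x6000000370000007f000000ff0000007f0000003e00000012 9 8) 0 0 (step_sound _ 67 [rh041f157b4a96073e, (rh71222050f2c63a3a.shift 3 1)] (by decide +kernel))
noncomputable def rh40babe7caac5898f : CRef := CRef.mk (Pat.mk 0x80000000c00000004000000000000000000000000 0x1c0000003c0000007f000000fe000000ef0000003a0000001800000018 9 8) 0 0 (step_sound _ 195 [rh424d938adeacf699, (rh5c5e593799055d58.shift 2 3)] (by decide +kernel))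
noncomputable def rh920ec8f36d5beca2 : CRef := CRef.mk (Pat.mk 0x80000000c000000040000000000000000 0x6000000760000007f0000003f0000003c0000000f0000000e 9 7) 0 0 (step_sound _ 34 [(rh71222050f2c63a3a.shift 2 0), rh7a508e2e0ce0ae8d] (by decide +kernel))
noncomputable def rhb46d9e884122668b : CRef := CRef.mk (Pat.mk 0x4000000060000000200000000000000000 0x10000003b8000003ff0000007e0000003e000000f800000070 9 10) 0 0 (step_sound _ 37 [(rh71222050f2c63a3a.shift 5 0), rhc54beeae6290c0c8] (by decide +kernel))
noncomputable def rh8e9524bc069bc45f : CRef := CRef.mk (Pat.mk 0x100000001800000008000000000000000000000000 0x6000000064000000f60000007e000001ef000000e8000000e8000000a0 9 9) 0 0 (step_sound _ 67 [(rh71222050f2c63a3a.shift 3 1), rhdcd0df241792dd6e] (by decide +kernel))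
noncomputable def rh7acf51d71321c5a3 : CRef := CRef.mk (Pat.mk 0x100000001000000010000000080000000000000000 0x2e0000007e000000ff000000fe000001ff0000007000000060 9 9) 0 0 (step_sound _ 37 [(rh150f178fd744486c.shift 1 0), (rh66430f2257c5d3de.shift 4 0), (rh700bedf92a002ef8.shift 3 0), (rh8b395df8357265de.shift 1 1), rhcb2b43c5ca85b512] (by decide +kernel))
noncomputable def rh832adf6e6cea5970 : CRef := CRef.mk (Pat.mk 0x200000002000000018000000000000000000000000 0xc0000001c0000007e000000ff0000001f0000001f0000001c0000001c 9 8) 0 0 (step_sound _ 132 [(rh0bb882ba86b2372d.shift 1 3), rh84a503cf86a9fc4c, (rh999938b976058e1c.shift 2 1)] (by decide +kernel))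
noncomputable def rh9346c506b57c5340 : CRef := CRef.mk (Pat.mk 0x200000002000000018000000000000000000000000 0xc0000000c0000006e000000ff000000ff000000df0000005c0000001c 9 8) 0 0 (step_sound _ 132 [(rh574fdbf07bdd18b9.shift 1 3), rh84a503cf86a9fc4c, (rhb807442f17cf460d.shift 2 1)] (by decide +kernel))
noncomputable def rh68c3b6ebec729627 : CRef := CRef.mk (Pat.mk 0x10000000100000000c000000000000000000000000 0x2800000038000000f80000003f0000007f0000003800000028 9 8) 0 0 (step_sound _ 100 [(rh79356c9f5994ef5c.shift 2 1), (rha11dfd15f08f96e3.shift 1 3), rhb547ff4e707ab09f] (by decide +kernel))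
noncomputable def rh1985be329fb1c83b : CRef := CRef.mk (Pat.mk 0x10000000100000000c000000000000000000000000 0xe0000000f0000007f0000007f0000007f000000370000001400000004 9 7) 0 0 (step_sound _ 131 [(rh0bb882ba86b2372d.shift 0 3), rh637ec5f0ca94cb2e, (rhbce293094b561f9f.shift 0 2)] (by decide +kernel))
noncomputable def rh6595830873078df7 : CRef := CRef.mk (Pat.mk 0x2000000020000000180000000000000000000000000000000000000000 0x5c000001fc0000003f000001fe000000ff0000007f000000380000003000000020 9 9) 0 0 (step_sound _ 132 [(rh150b5e6478b3d7c3.shift 0 2), (rh1ecc252676ecc754.shift 3 2), (rh53c798c09177b7db.shift 4 2), (rh90fac272eb7fa08e.shift 0 2), (rha9fe710bdcac5192.shift 3 0)] (by decide +kernel))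
noncomputable def rhdd93fbd28436f6fb : CRef := CRef.mk (Pat.mk 0x10000000100000000c0000000000000000000000000000000000000000 0x8000000280000006e0000003e000000fe0000007c0000007f0000003e000000180000001800000010 9 8) 0 0 (step_sound _ 197 [(rh573ff139b71e3d26.shift 1 3), (rh6005e0450f616558.shift 1 5), rha0946dc7933b126f, (rhaff4d66ab2235e4f.shift 2 5)] (by decide +kernel))
noncomputable def rhfcc077ccf8c69996 : CRef := CRef.mk (Pat.mk 0x40000000400000003000000000000000000000000000000000 0x20000000300000003c0000007c000001ff0000003e000000ff0000007e0000000e0000000a 9 9) 0 0 (step_sound _ 131 [rh4ce68f04a07b6612, (rh90fcc1b0fe0017ad.shift 2 4), (rhc22044805d4dd6fa.shift 3 2)] (by decide +kernel))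
noncomputable def rh1c5c985466e56c20 : CRef := CRef.mk (Pat.mk 0x200000002000000018000000000000000000000000 0x80000007c000001ef000000fe000000fc0000005000000050 9 9) 0 0 (step_sound _ 101 [(rh6cf4c37417009e6c.shift 1 1), (rha11dfd15f08f96e3.shift 2 3), rheba37ead179ed931] (by decide +kernel))
noncomputable def rh0e3375dce6f1c205 : CRef := CRef.mk (Pat.mk 0x1000000018000000080000000000000000 0x1c0000003e000000ff000000fe000000cf0000004600000040 9 8) 0 0 (step_sound _ 164 [rh2f3a3db59fc22a10, (rh5c5e593799055d58.shift 3 2)] (by decide +kernel))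
noncomputable def rh8335e0cf70f61262 : CRef := CRef.mk (Pat.mk 0x100000001000000018000000000000000000000000 0x1000000010000003f7000001fe000001e70000002000000020 9 10) 0 0 (step_sound _ 101 [(rh046c5eb18e55a239.shift 4 0), (rh7b15a2cbe75b7772.shift 0 2), (rhd5979d9ced4acd89.shift 2 2)] (by decide +kernel))
noncomputable def rh0ae96ce48c114afa : CRef := CRef.mk (Pat.mk 0x100000001000000008000000080000000000000000 0x1000000010000000700000007e000001ef0000007c00000028 9 9) 0 0 (step_sound _ 100 [rh3a104d81cb66ad5a, (rh5c5e593799055d58.shift 3 2)] (by decide +kernel))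
noncomputable def rh92082a27065224e1 : CRef := CRef.mk (Pat.mk 0x400000004000000020000000200000000000000000 0xc0000000c8000000cc000001ff000001fc000000d000000090 9 9) 0 0 (step_sound _ 102 [rh391c8afdabd79fa7, (rh5c5e593799055d58.shift 5 2)] (by decide +kernel))
noncomputable def rh35b0acee8db960e4 : CRef := CRef.mk (Pat.mk 0x20000000200000001000000010000000000000000000000000000000000000000000000000 0x2000000030000000180000003c000000ff000000fe0000003f000000380000003800000020 9 8) 0 0 (step_sound _ 164 [(rh1006c02ae4212ff0.shift 4 5), rhd5cd81c85547b78b] (by decide +kernel))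
noncomputable def rhb9b4ac77b2662539 : CRef := CRef.mk (Pat.mk 0x8000000080000000800000000000000000000000000000000 0xe0000000f0000003f0000007f0000001f0000001e0000001c00000008 9 7) 0 0 (step_sound _ 99 [(rh42ccdbc5b0067310.shift 2 0), (rh6eff4158bb400f47.shift 2 1), (rhf586216b53ca888d.shift 0 2)] (by decide +kernel))
noncomputable def rh48c42b392ad0ea50 : CRef := CRef.mk (Pat.mk 0x200000002000000000000000100000001000000000 0xe0000000e0000001ee000000fe000001ff000000c0 9 9) 0 0 (step_sound _ 69 [(rh3c88ce959c0e423f.shift 4 1), rhe109a3e62780303c] (by decide +kernel))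
noncomputable def rh1598ce99a52102bb : CRef := CRef.mk (Pat.mk 0x2000000020000000000000001000000010 0x2000000024000007f7000003fe000007df0000005800000058 9 11) 0 0 (step_sound _ 100 [(rh04253f50b6dd0619.shift 4 0), rh1b0acbfa0f0c4b78] (by decide +kernel))
noncomputable def rh86296e8207b29bc5 : CRef := CRef.mk (Pat.mk 0x20000000100000001000000010000000000000000000000000 0x30000000300000001f000000ff000000fe0000000e0000000400000004 9 8) 0 0 (step_sound _ 196 [(rh2f68792b6b779e96.shift 4 3), rh50404f2406e84f85] (by decide +kernel))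
noncomputable def rh01712bd2d2354871 : CRef := CRef.mk (Pat.mk 0x40000000000000006000000020000000000000000000000000 0x20000000380000003e0000003de000001fe000007bf000001c0000001c000000140 9 11) 0 0 (step_sound _ 135 [rh21fab61c870bd1ac, (rh27d59b3dd0f2fea1.shift 2 1), (rh2820ca9a6c4f41b4.shift 2 3), (rheefb295621f115c7.shift 4 1)] (by decide +kernel))
noncomputable def rhcf5e088641458cc1 : CRef := CRef.mk (Pat.mk 0x20000000000000003000000010000000000000000000000000 0xa0000000e0000000e0000000f6000003cf000000ff000000fe000000fe000000e800000060 9 10) 0 0 (step_sound _ 99 [(rh3e20570c3b8a7909.shift 1 0), (rh69012675dfdb1a5b.shift 1 3), (rha6741c8e0eb96d2e.shift 0 1), (rhd69c262cd33b94b3.shift 1 3)] (by decide +kernel))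
noncomputable def rh54a6c33b776e9697 : CRef := CRef.mk (Pat.mk 0x1000000010000000000000002000000020 0x200000003800000038000001ff000000ff000000fc0000003e000000180000003000000020 9 9) 0 0 (step_sound _ 68 [(rhb118997f4013549b.shift 0 2), (rhbe0e43a3bc50a43f.shift 4 0)] (by decide +kernel))
noncomputable def rh607e40636d5f4898 : CRef := CRef.mk (Pat.mk 0x10000000100000001000000000 0x280000003c0000003f000000ff000000fe000000180000001800000008 9 8) 0 0 (step_sound _ 132 [(rh1f25b33bbea643f0.shift 3 1), (rh20966da26a1c2ae8.shift 3 0), (rh27b052a1db720fef.shift 3 1), (rh968ba7b0df7e4096.shift 3 0), (rhc85cc95794737cf7.shift 3 1), (rhd881631c7c1ed932.shift 0 1)] (by decide +kernel))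
noncomputable def rh2baf535c4e12e961 : CRef := CRef.mk (Pat.mk 0x800000008000000080000000000000000 0x1c0000001c0000003f0000003f0000007c0000001f0000000c00000004 9 7) 0 0 (step_sound _ 130 [(rh37556232599a8c98.shift 0 1), rh500f96bd67a31441, (rhf9a6286f1d5377a2.shift 2 1)] (by decide +kernel))
noncomputable def rh0fe4031a1163d6c2 : CRef := CRef.mk (Pat.mk 0x80000000800000008000000000000001000000000 0x140000001c0000001c0000003c0000007e0000007e0000007c000000ff000000f70000003000000020 9 8) 0 0 (step_sound _ 132 [(rh291c00562ed26269.shift 1 1), (rh569cba7c8a2929f2.shift 1 1), (rh5c9cfe07c087a679.shift 0 2), rh9517357b38d6099f] (by decide +kernel))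
noncomputable def rh869ce3375206f39a : CRef := CRef.mk (Pat.mk 0x100000001000000000000000200000002000000000 0xfc000001ff000003ee000000600000006000000040 9 10) 0 0 (step_sound _ 133 [rh1853e448bad272b4, (rh2613c889e411427e.shift 4 1)] (by decide +kernel))
noncomputable def rhb74834e80c2b83d3 : CRef := CRef.mk (Pat.mk 0x8000000080000000800000000 0x14000000ff000000fe0000007e0000000c0000000c00000004 9 8) 0 0 (step_sound _ 131 [(rh20966da26a1c2ae8.shift 2 0), (rh771d065bdc85bf2d.shift 2 0), (rh7ef5fa5c39f1c762.shift 2 1), rhf1c6d7ddbd329cc7] (by decide +kernel))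
noncomputable def rhfc48474ddf3222e5 : CRef := CRef.mk (Pat.mk 0x40000000c00000000000000080000000000000000 0x180000003e0000003f0000007b0000003f0000003e00000030 9 7) 0 0 (step_sound _ 99 [(rh7b1f1fb55310c477.shift 2 1), rhe306cb1967357f1d] (by decide +kernel))
noncomputable def rh6fcbca24b5c8d642 : CRef := CRef.mk (Pat.mk 0x100000003000000000000000200000000000000000 0x6000000070000000f0000000f8000001ff000003cf000000f8000001e8000001c0 9 10) 0 0 (step_sound _ 134 [(rh44e732ece18b944c.shift 1 0), (rh81af83aecffad337.shift 2 3), (rhadc65333656de586.shift 3 0), (rhae8d21abc86b555a.shift 3 3), (rhd0f494f4dbb8a5b6.shift 0 1), (rhda951f2cfb8ccfba.shift 2 1)] (by decide +kernel))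
noncomputable def rh12bba293d7caae5e : CRef := CRef.mk (Pat.mk 0x30000000100000001000000000 0x280000002c000001ff000000fe000000df0000005800000008 9 9) 0 0 (step_sound _ 133 [rh15d5d2a0363c0bc9, (rh448c185d2cf81b25.shift 1 1), (rhbfb5770941270498.shift 4 1)] (by decide +kernel))
noncomputable def rh482e11812a6d5f7d : CRef := CRef.mk (Pat.mk 0x1800000008000000080000000000000000 0x4000000040000000f0000007e0000007f0000003e0000000f0000000e 9 7) 0 0 (step_sound _ 130 [(rhb1a251d9bff81766.shift 2 1), (rhba59ce4edc3cac8e.shift 0 2), rhf1b13113bdaf34ba] (by decide +kernel))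
noncomputable def rhe859b41fdcdeda4f : CRef := CRef.mk (Pat.mk 0x1000000008000000080000000800000000 0x4000001fc000000f8000001ee0000007f0000007800000010 9 9) 0 0 (step_sound _ 131 [rh2342c59e096a8581, (rh2f68792b6b779e96.shift 3 1)] (by decide +kernel))
noncomputable def rh88d2999e6d9ce78f : CRef := CRef.mk (Pat.mk 0xc000000080000000800000000 0x80000001c0000003c0000007c0000006f0000007c0000001800000010 9 7) 0 0 (step_sound _ 130 [rh74e46e9cef886f55, (rhc89253ff58c66167.shift 2 1), (rhe072fffdd2fccf38.shift 2 1)] (by decide +kernel))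
noncomputable def rhf38d8e5734bdac9b : CRef := CRef.mk (Pat.mk 0x8000000080000000800000000000000000000000000000000 0x100000001c0000001c0000001f000000780000001f0000003e0000007c0000001c0000001800000018 9 7) 0 0 (step_sound _ 196 [(rh61ef610ed3f62c42.shift 0 3), (rhb730ba14aa32bdb3.shift 3 3), (rhde7079fa9bb9c7d9.shift 1 0)] (by decide +kernel))
noncomputable def rh274ede569a900641 : CRef := CRef.mk (Pat.mk 0x800000008000000080000000800000000 0x30000000780000003e0000007f0000007e00000074 9 7) 0 0 (step_sound _ 36 [(rh55afc6a59410cf00.shift 3 0), rhc47d282b097c0241] (by decide +kernel))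
noncomputable def rh9e186871ac04ebc5 : CRef := CRef.mk (Pat.mk 0x800000008000000080000000000000000000000000000000000000000 0x40000000c0000000c0000003e0000007f0000001f0000001c0000001c00000004 9 7) 0 0 (step_sound _ 131 [(rh2b5e6160d966e60c.shift 0 3), (rh5ad9898cc32ef511.shift 2 2), (rh7e410a949fb5cf5b.shift 2 0), (rh8cdd36b03d57a2f6.shift 2 2), (rhc4526fc8abf298b6.shift 2 2)] (by decide +kernel))
noncomputable def rh5a3cc51575fa4456 : CRef := CRef.mk (Pat.mk 0x2000000010000000100000001000000000 0x28000000ec000001ef000000fe000000ff000000fc000003e8 9 10) 0 0 (step_sound _ 101 [rh15d5d2a0363c0bc9, (rh69755ef358ebfd54.shift 4 1), (rhe3210dad0b0928ed.shift 1 0)] (by decide +kernel))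
noncomputable def rh5911d205ca913906 : CRef := CRef.mk (Pat.mk 0x200000002000000000000000100000000000000000 0x5000000070000000780000007c000001ef000000fc000000fc000000700000001000000010 9 9) 0 0 (step_sound _ 100 [(rh513ea1b645a188dc.shift 0 1), (rh53c798c09177b7db.shift 4 0), (rh6bd8f56ce05e09d3.shift 4 2), (rh81604a196d691a11.shift 4 0), (rhe83f0679b86b6627.shift 4 0)] (by decide +kernel))
noncomputable def rh496b9857cfb9b895 : CRef := CRef.mk (Pat.mk 0x400000004000000020000000200000000000000000 0x50000000f8000003df000001fe0000003e0000003000000030 9 10) 0 0 (step_sound _ 102 [rh193bd13f6db4eafb, (rh5c5e593799055d58.shift 5 2)] (by decide +kernel))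
noncomputable def rh7e6f3f00866469c4 : CRef := CRef.mk (Pat.mk 0x800000008000000080000000000000004 0xc0000000f0000003f000000380000001c0000001c 9 6) 0 0 (step_sound _ 35 [(rh79877ebd3ef475dd.shift 2 0), rhb092099331071b18] (by decide +kernel))
noncomputable def rh4fe54de23e59d5cb : CRef := CRef.mk (Pat.mk 0x2000000020000000200000001 0x40000000700000007000000070000000600000006000000060000000700000005 9 3) 0 0 (step_sound _ 129 [rh35e491fddc499c49, rh79877ebd3ef475dd] (by decide +kernel))
noncomputable def rhc5125d230af9c57b : CRef := CRef.mk (Pat.mk 0x2000000020000000000000001000000010 0x400000006000001ff000001fe000001df0000001800000010 9 9) 0 0 (step_sound _ 100 [(rh04253f50b6dd0619.shift 4 0), rh2dcc7203a6ae7020] (by decide +kernel))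
noncomputable def rh75a2a4e084c86050 : CRef := CRef.mk (Pat.mk 0x40000000400000000000000020000000200000000000000000 0xd0000000d0000007df000003fe0000077e0000012000000020 9 11) 0 0 (step_sound _ 102 [rh3479e184ffc0c7bc, (rh3c88ce959c0e423f.shift 5 2)] (by decide +kernel))
noncomputable def rh4d6ac29ea467d737 : CRef := CRef.mk (Pat.mk 0x40000000400000004000000020000000000000000 0xc0000000c0000000e0000000f0000003c0000000e0000000600000004 9 6) 0 0 (step_sound _ 66 [rh7c9eb675a8dac123, (rh932754581e0f4330.shift 1 1)] (by decide +kernel))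
noncomputable def rhac184e1f3b0426b7 : CRef := CRef.mk (Pat.mk 0x4000000060000000000000002000000000 0x380000003800000038000003df000001ff000003bf0000003800000008 9 10) 0 0 (step_sound _ 100 [rh053d0b003dc7dcc3, (rh6112f9cbc5d5e03c.shift 3 1), (rha11dfd15f08f96e3.shift 3 3), (rhb12ffaec36122c99.shift 1 2), (rhd7c0a18f92b59752.shift 2 2)] (by decide +kernel))
noncomputable def rh2630d0c629a4eb76 : CRef := CRef.mk (Pat.mk 0x20000000300000000000000010000000000000000000000000 0x1800000078000001fc000001fe000003fc000003cf000001fc0000001e0000001400000010 9 10) 0 0 (step_sound _ 198 [(rh0bb882ba86b2372d.shift 2 5), (rh69012675dfdb1a5b.shift 2 5), rh94ee88126e4788d0, (rhdffab1ad31680306.shift 1 3)] (by decide +kernel))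
noncomputable def rha09a45910e7d8b21 : CRef := CRef.mk (Pat.mk 0x2000000020000000000000001000000010 0x28000003fe000001fe000001df0000005400000054 9 10) 0 0 (step_sound _ 100 [(rh04253f50b6dd0619.shift 4 0), rhd2673ace869681ac] (by decide +kernel))
noncomputable def rh3230d86c0a1fec37 : CRef := CRef.mk (Pat.mk 0x2000000020000000100000001000000000 0x280000002c000001ef000000fe000000df0000005800000018 9 9) 0 0 (step_sound _ 100 [rh15d5d2a0363c0bc9, (rh71222050f2c63a3a.shift 4 0)] (by decide +kernel))
noncomputable def rh4e2cdebf2d4ec102 : CRef := CRef.mk (Pat.mk 0x200000001000000010000000100000000000000000 0x8000000180000003c000000ff000000ff000001fe000001ee000000a0 9 9) 0 0 (step_sound _ 67 [rh0de355a1f8f590f0, (rh23aad281f166fc15.shift 2 1), (rh976a48eb1c80a12f.shift 3 1), rhb366d1d75ae30840] (by decide +kernel))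
noncomputable def rh29c9b1322ad230b7 : CRef := CRef.mk (Pat.mk 0x400000002000000020000000200000000 0x40000000700000007000000070000000600000006000000030000000700000005 9 3) 0 0 (step_sound _ 129 [rh283aa840d851d11c, (rh2f68792b6b779e96.shift 1 1)] (by decide +kernel))
noncomputable def rhf768a620e3b9bcbe : CRef := CRef.mk (Pat.mk 0x10000000100000001000000000000000000000000000000000 0xc0000001e000000fe000003ff000001fe000001ff0000006000000040 9 10) 0 0 (step_sound _ 100 [rh0628b4214409415e, (rh5ad9898cc32ef511.shift 3 1), (rh8fb77ae9862602fc.shift 1 2)] (by decide +kernel))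
noncomputable def rh5987200f92fb5ebf : CRef := CRef.mk (Pat.mk 0x10000000000000001800000008000000000000000000000000 0x80000000e0000000f8000000f70000007e000001ef000000700000007000000050 9 9) 0 0 (step_sound _ 133 [(rh27d59b3dd0f2fea1.shift 0 1), (rh2820ca9a6c4f41b4.shift 0 3), rh5e30485a68e4a8a2, (rhd87b4f8c6f0ee2c4.shift 2 2), (rheefb295621f115c7.shift 2 1)] (by decide +kernel))
noncomputable def rh2eb9cf04e04807b6 : CRef := CRef.mk (Pat.mk 0x10000000000000001800000008000000000000000000000000 0x90000000f4000000fc000001e60000007f000000ff000000780000003000000010 9 9) 0 0 (step_sound _ 133 [(rh2820ca9a6c4f41b4.shift 0 3), (rh363cab4f10eaa2ab.shift 0 2), (rh44485c6db8be2b6c.shift 2 0), (rhf0f55c4504412200.shift 0 3)] (by decide +kernel))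
noncomputable def rh962b1345f607d45e : CRef := CRef.mk (Pat.mk 0x80000000000000010000000100000000000000000 0x1000000018000000380000007c000001ef0000007c0000003e0000001c0000001000000010 9 9) 0 0 (step_sound _ 131 [(rh55f7723b8b306d34.shift 3 0), (rh74a43b9a483760f6.shift 3 0), (rhdf6c7091301c991e.shift 0 1), (rhe482ee30a2733b5f.shift 3 0), (rheea87a15177a5006.shift 2 2)] (by decide +kernel))
noncomputable def rh1ca5d8814de8cbb7 : CRef := CRef.mk (Pat.mk 0x800000010000000100000001000000000 0x1ef000001fe000003f7000000100000001800000008 9 10) 0 0 (step_sound _ 132 [(rh50fbb5868c909700.shift 3 1), rh60dbb4a9e00d6c89] (by decide +kernel))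
noncomputable def rh5460b56682a2be2b : CRef := CRef.mk (Pat.mk 0x200000002000000020000000000000000000000000 0x400000006000000060000003bf000001fe000003fe00000050 9 10) 0 0 (step_sound _ 69 [(rh3ab931031846c706.shift 4 0), (rh6c59ce14113da07f.shift 5 0), (rh8cdd36b03d57a2f6.shift 4 0), (rha78b327dad5d6a04.shift 4 0), (rhc2cfd9278499c975.shift 0 1)] (by decide +kernel))
noncomputable def rh4adbc7ca5220ba59 : CRef := CRef.mk (Pat.mk 0x80000000800000008000000000000000000000000 0x140000001c0000001c0000003f0000003f0000001f00000004 9 6) 0 0 (step_sound _ 67 [(rhc4055b4872d6fb38.shift 2 1), (rhc8c8ca90955b904b.shift 0 1), (rhceaabac02e703afb.shift 2 0)] (by decide +kernel))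
noncomputable def rha8ea3afa1f9312ff : CRef := CRef.mk (Pat.mk 0x400000000000000080000000800000008000000000000000000000000 0x40000001c0000001c0000001c0000001f0000001c0000001800000008 9 5) 0 0 (step_sound _ 195 [rhfc559b900e4b909a, (rhffd04209dc8ea796.shift 2 3)] (by decide +kernel))
noncomputable def rhcc058e0aef347db0 : CRef := CRef.mk (Pat.mk 0x1000000010000000000000002000000020 0x3fc000001ff000003fe0000007000000020 9 10) 0 0 (step_sound _ 101 [(rh2613c889e411427e.shift 4 0), rhe048af0ff3d87d56] (by decide +kernel))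
noncomputable def rh18d7d878a125a681 : CRef := CRef.mk (Pat.mk 0x1000000010000000000000002000000020 0x280000003f0000007e000000ff00000018000000180000003800000020 9 8) 0 0 (step_sound _ 68 [(rh2720e64e31b0b0b5.shift 0 1), (rhbe0e43a3bc50a43f.shift 4 0)] (by decide +kernel))
noncomputable def rh268cd9853c5b608a : CRef := CRef.mk (Pat.mk 0x800000008000000000000001000000010 0x8000001ff000000ff000000f70000003400000014 9 9) 0 0 (step_sound _ 100 [rh1891ba058456cc78, (rh2613c889e411427e.shift 3 0)] (by decide +kernel))
noncomputable def rh4e8d96d8aaebec6d : CRef := CRef.mk (Pat.mk 0x800000000000000180000001000000000 0x1c0000003c0000000f0000001f000000ff000000ec 9 8) 0 0 (step_sound _ 99 [(rh2145e1d24b96a57e.shift 3 1), rhe78326fa3c839711] (by decide +kernel))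
noncomputable def rh541215751b5fa84e : CRef := CRef.mk (Pat.mk 0x100000000000000030000000200000000000000000 0xc0000005c0000005c000000df0000007e000001ef0000002c00000028 9 9) 0 0 (step_sound _ 132 [(rh2145e1d24b96a57e.shift 4 2), rhb08d4a0eefb6364e] (by decide +kernel))
noncomputable def rh1c12d2623cd03f41 : CRef := CRef.mk (Pat.mk 0x8000000000000001800000010000000000000000000000000 0x40000002c0000006e0000003e000000ff000000fe0000001c0000001c 9 8) 0 0 (step_sound _ 101 [(rh3c3e23a02e82b2ed.shift 1 3), (rh5c5a2014709044d0.shift 1 3), rhb06e8270b8c86028, (rhec5c4f19ae83eb49.shift 0 1)] (by decide +kernel))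
noncomputable def rhc4db3cc047de2844 : CRef := CRef.mk (Pat.mk 0x200000000000000060000000400000000000000000 0x30000000b80000019f000000fe000003ff0000007c0000005c 9 10) 0 0 (step_sound _ 100 [(rh5a484d68156900b5.shift 3 0), (rh8ee80cc30e93a344.shift 3 2), rhbf87377bec2ff835] (by decide +kernel))
noncomputable def rh653eb872e4ecfb9f : CRef := CRef.mk (Pat.mk 0x100000001000000030000000000000000000000000 0x60000000640000007e0000003f000000fe000001ef0000007c00000028 9 9) 0 0 (step_sound _ 69 [(rh08edf065357d68e5.shift 4 0), (rh65356f2b1a9a4d5f.shift 1 1), rh76c9124f8ac7d024] (by decide +kernel))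
noncomputable def rh8c1a720845b17248 : CRef := CRef.mk (Pat.mk 0x10000000100000001000000000 0x20000000300000003000000010000003be000001fe000001ef 9 10) 0 0 (step_sound _ 132 [(rh3b734c5288922837.shift 3 0), rh4c8b9e2055be5462, (rh5ef66011045fb859.shift 4 0), (rh69d74edc6ed8b1cb.shift 1 0)] (by decide +kernel))
noncomputable def rh155bfa54da17fcbd : CRef := CRef.mk (Pat.mk 0x200000001000000010000000100000000000000000 0x8000001d8000001fe000000fe000003bf000001fe000003ee00000008 9 10) 0 0 (step_sound _ 69 [(rh0fa4a62bba50784f.shift 3 1), rh98b8239e2bbc542f, (rhfe75b0c9d53cc51e.shift 1 1)] (by decide +kernel))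
noncomputable def rha8378d11cc4f3845 : CRef := CRef.mk (Pat.mk 0x200000001000000010000000100000000000000000 0x280000007c000001ef000000fe0000003f0000007e0000006400000060 9 9) 0 0 (step_sound _ 133 [(rh1d485ae795a886b2.shift 1 0), (rh69755ef358ebfd54.shift 4 2), (rhf95f53205ad3ae84.shift 0 2)] (by decide +kernel))
noncomputable def rh56d088cf4ead674c : CRef := CRef.mk (Pat.mk 0x800000008000000080000000000000000 0x6000000170000003f0000007f0000000c0000000c0000000c00000004 9 7) 0 0 (step_sound _ 162 [(rh0dbc8abee7ad42d4.shift 2 1), (rh114f4abf4ea101c9.shift 2 1), (rh37816854459689de.shift 2 0), (rh5b0552d861d930ad.shift 0 2), (rhbec796c3ea7a32e6.shift 1 1)] (by decide +kernel))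
noncomputable def rhb6ecaddb58cefb16 : CRef := CRef.mk (Pat.mk 0x100000001000000020000000200000000000000000 0x18000000180000001f000000fe000001ef0000007c00000028 9 9) 0 0 (step_sound _ 100 [(rh2145e1d24b96a57e.shift 4 2), rh444129799b23acdd] (by decide +kernel))
noncomputable def rh530b80a30abce58a : CRef := CRef.mk (Pat.mk 0x8000000080000000800000000000000000000000000000000 0x18000000380000007f0000003f0000007c0000003c0000001c00000004 9 7) 0 0 (step_sound _ 130 [(rhd8a77b0f6300e24f.shift 0 1), rhe76b3180508aee1c, (rhfafeb437ceb8396d.shift 2 1)] (by decide +kernel))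
noncomputable def rhf29f606cd0d24452 : CRef := CRef.mk (Pat.mk 0x4000000080000000800000008000000000000000000000000 0x40000001c0000001c000000180000000c0000001c0000007f0000007e000000740000002000000020 9 7) 0 0 (step_sound _ 195 [(rh4499a881ca1b068f.shift 2 2), (rh4a795cfa244d2373.shift 1 0), (rh5153e833f798250b.shift 2 2), (rh641b5241be04eec6.shift 0 2), (rh6663e5236fa75b9d.shift 2 2), (rhed79e5c5ffee0217.shift 2 2)] (by decide +kernel))
noncomputable def rh127e6922b3d3439c : CRef := CRef.mk (Pat.mk 0x1000000020000000200000002000000000 0x18000000180000001f000000fe000000ff0000007c00000018 9 8) 0 0 (step_sound _ 100 [rh4419d81eb17d2149, rhd48b84fa58bd8dd8, (rhe072fffdd2fccf38.shift 4 1)] (by decide +kernel))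
noncomputable def rh32b908245f6e0cc4 : CRef := CRef.mk (Pat.mk 0x4000000080000000800000008000000000000000000000000 0xc0000000c000000f80000007f000000ff000000700000002000000020 9 8) 0 0 (step_sound _ 195 [(rh50fbb5868c909700.shift 2 3), rh7f8773e38318465c] (by decide +kernel))
noncomputable def rh8374a7eb8cff44b6 : CRef := CRef.mk (Pat.mk 0x800000010000000100000001000000000 0x1c0000001e000000f7000000ff0000001f00000008 9 8) 0 0 (step_sound _ 132 [(rh50fbb5868c909700.shift 3 1), rh9e8c2939eb566350] (by decide +kernel))
noncomputable def rha91a474dd5ddeddb : CRef := CRef.mk (Pat.mk 0x2000000020000000200000000000000000000000000000000000000000 0x60000001f0000003ff000001fe000003fe000000700000007000000010 9 10) 0 0 (step_sound _ 133 [(rh5f1c7693341f5f3e.shift 4 0), (rh90a315350f5b6a97.shift 4 1), (rha93e9a4013aee350.shift 2 2), (rhc2cfd9278499c975.shift 0 3), (rhebc79cecc058da43.shift 4 1), (rhfc559b900e4b909a.shift 2 1)] (by decide +kernel))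
noncomputable def rh7dff1061ccb583b5 : CRef := CRef.mk (Pat.mk 0x20000000000000006000000040000000000000000000000000 0x800000038000003bf000001ff000003df000000380000003800000038 9 10) 0 0 (step_sound _ 132 [(rh8ee80cc30e93a344.shift 3 3), (rha6372574c74a067d.shift 3 0), rha8da474a24ad6bf0, (rhc92c11e8da6c894f.shift 1 3), (rhe77cdbae63d92bd9.shift 2 3)] (by decide +kernel))
noncomputable def rh8aec81ebf4a8e7cc : CRef := CRef.mk (Pat.mk 0x100000000000000030000000200000000000000000 0x1800000018000001cf000001fe000001ff0000001600000004 9 9) 0 0 (step_sound _ 99 [(rh0ff5c44908a5ffcd.shift 2 1), (rh72bd11db4720d9b8.shift 0 1), (rh9909eeda0ef2ed2c.shift 2 2), (rha0ae8adeb1dbcf8d.shift 0 2), (rhe77cdbae63d92bd9.shift 1 2), (rhf73729f581db6eae.shift 1 0)] (by decide +kernel))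
noncomputable def rh64fba117378fad54 : CRef := CRef.mk (Pat.mk 0x10000000000000000800000008000000080000000000000000 0x100000001c0000000c0000001f0000007c0000001c0000000c 9 7) 0 0 (step_sound _ 163 [rh0d69838d1abc92dd, (rhbaefcd01e0a8bca3.shift 3 2)] (by decide +kernel))
noncomputable def rh6a5abedaa935b435 : CRef := CRef.mk (Pat.mk 0x1800000000000000080000000800000000 0x1000000018000000180000007f000000ff000000f4 9 8) 0 0 (step_sound _ 99 [(rh2f68792b6b779e96.shift 3 1), rhfa77e0cbb23183b4] (by decide +kernel))
noncomputable def rh3fb99eef2695e7e2 : CRef := CRef.mk (Pat.mk 0xc00000000000000040000000400000000 0x6000000060000000e0000003c0000000f0000000e0000000c00000008 9 6) 0 0 (step_sound _ 98 [rh00e7ef0bd5843001, (rh2f68792b6b779e96.shift 2 1)] (by decide +kernel))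
noncomputable def rh2e6b1260b05906ef : CRef := CRef.mk (Pat.mk 0x600000000000000020000000200000000 0x40000000700000007000000070000000600000006000000030000000700000005 9 3) 0 0 (step_sound _ 97 [rh283aa840d851d11c, (rh2f68792b6b779e96.shift 1 1)] (by decide +kernel))
noncomputable def rh5892cc411840bbc9 : CRef := CRef.mk (Pat.mk 0x1800000000000000080000000800000000 0x100000001c0000001c0000000c000000780000001e0000007f000000ff000000f4 9 8) 0 0 (step_sound _ 99 [(rh00e7ef0bd5843001.shift 1 0), (rh283aa840d851d11c.shift 2 0), (rh7133a7a78d762f91.shift 1 0), (rhdb991c49878b7ef7.shift 2 0), rhfa77e0cbb23183b4] (by decide +kernel))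
noncomputable def rh7fbcc199cc9b1398 : CRef := CRef.mk (Pat.mk 0x30000000000000001000000010000000000000000000000000 0x70000000f0000001ef000000ff000003ff000001ee000000c800000008 9 10) 0 0 (step_sound _ 133 [(rh05228d967304fec2.shift 4 2), (rh21ac22ab7b811b03.shift 2 2), (rh92f97e0e5a248f9f.shift 0 2), rhd996d77d821361f7, (rhdfb50a50b16b1891.shift 2 2), (rhf63247da5fae3a9d.shift 1 1)] (by decide +kernel))
noncomputable def rh70318016e4b4063e : CRef := CRef.mk (Pat.mk 0x10000000080000000800000008000000000000000000000000 0x100000001c0000000c0000001f0000007c0000001c0000000c 9 7) 0 0 (step_sound _ 67 [rh0d69838d1abc92dd, (rhbaefcd01e0a8bca3.shift 3 2)] (by decide +kernel))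
noncomputable def rh81d4f6eb0f9dfed6 : CRef := CRef.mk (Pat.mk 0x1000000010000000100000000000000000000000000000000000000000 0x180000003e000003ff000001fe000001ff000000780000007800000020 9 10) 0 0 (step_sound _ 132 [(rh0628b4214409415e.shift 0 1), (rh0d69838d1abc92dd.shift 1 2), (rh1da7e7424d68f1ae.shift 1 2), (rh43000f16a4e76173.shift 3 1), (rh7a62c4b2780c02e6.shift 3 0), (rhe84e00c98653ad0c.shift 3 1)] (by decide +kernel))
noncomputable def rhb79d944f61474144 : CRef := CRef.mk (Pat.mk 0x40000000000000006000000020000000000000000000000000 0x20000000380000003e0000003ce000001fe000007bf000001c0000001c000000140 9 11) 0 0 (step_sound _ 135 [(rh2820ca9a6c4f41b4.shift 2 3), (rh3d797bc51dc7233d.shift 1 1), rh3f8a21866c4395cf, (rheefb295621f115c7.shift 4 1)] (by decide +kernel))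
noncomputable def rh4c22dacdbf550721 : CRef := CRef.mk (Pat.mk 0x2000000020000000000000004000000040 0x400000007000000070000003fe000001fe000001f70000007c000000300000006000000040 9 10) 0 0 (step_sound _ 69 [(rhbe0e43a3bc50a43f.shift 5 0), (rhfe8497f409d2494f.shift 0 2)] (by decide +kernel))
noncomputable def rh735b675c380a7f33 : CRef := CRef.mk (Pat.mk 0x8000000080000000000000010000000100000000000000000 0x28000000ec000001ee000001fe000000ff000000fe00000020 9 9) 0 0 (step_sound _ 99 [rha794d491e3ccc936, (rhff0f29cb645b05f7.shift 3 2)] (by decide +kernel))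
noncomputable def rh4d0d3497493227de : CRef := CRef.mk (Pat.mk 0x200000002000000020000000000000004 0x10000000700000007000000070000000300000003000000030000000700000005 9 3) 0 0 (step_sound _ 33 [(rhd3458b32566d63f7.shift 1 0), rhff96651a0dddf3cc] (by decide +kernel))
noncomputable def rh5492b0f18cbdd795 : CRef := CRef.mk (Pat.mk 0x40000000400000004000000000000000800000000 0xa0000000e0000000e0000003e0000003f0000003f0000000e0000000e000000080000000800000008 9 6) 0 0 (step_sound _ 99 [(rh1ba1a52c6e4373d2.shift 0 3), (rh3b5346b2e316d790.shift 2 0), (rhfb9fb48a5e63ed80.shift 1 2)] (by decide +kernel))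
noncomputable def rhb258e17d842d00ac : CRef := CRef.mk (Pat.mk 0x20000000200000002000000000 0x500000007e000001fe000001f7000000300000003000000010 9 9) 0 0 (step_sound _ 133 [(rh20966da26a1c2ae8.shift 4 0), (rh771d065bdc85bf2d.shift 4 0), (rh7ef5fa5c39f1c762.shift 4 1), rha0c16d98b5965f9f] (by decide +kernel))
noncomputable def rh0b08b7eb8652b435 : CRef := CRef.mk (Pat.mk 0x2000000060000000000000004000000000 0x20000000a0000001b7000000fe000003de000000f800000050 9 10) 0 0 (step_sound _ 70 [rh3c9f86c9e5b08f3f, (rh7b1f1fb55310c477.shift 5 0)] (by decide +kernel))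
noncomputable def rhf7a27b74d706ef6a : CRef := CRef.mk (Pat.mk 0x1800000008000000080000000000000000 0x200000002e0000006f0000007e0000007f0000003c0000000f0000000e 9 7) 0 0 (step_sound _ 98 [(rh301c55723b40d16c.shift 1 0), (rh69012675dfdb1a5b.shift 0 3), rh80a469df1b7ddcbd] (by decide +kernel))
noncomputable def rhbcd882ecb4abcdcd : CRef := CRef.mk (Pat.mk 0x20000000200000002000000000000000000000000000000000 0x100000007000000070000001f7000001fe0000007e0000007000000020 9 9) 0 0 (step_sound _ 101 [(rh209f667ae5d74c3e.shift 0 2), (rh2626bf2cd7609b56.shift 4 1), (rh8ff3dde5b1c639e0.shift 4 1), (rhc4526fc8abf298b6.shift 4 1), (rhfc559b900e4b909a.shift 2 0)] (by decide +kernel))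
noncomputable def rh74e0ce35ce2ed90a : CRef := CRef.mk (Pat.mk 0x1800000008000000080000000000000000000000000000000000000000 0xc0000000c0000000c000000780000001f0000007c0000007e0000001c0000001c0000000c00000004 9 7) 0 0 (step_sound _ 194 [(rh31878aa17df5ac83.shift 0 2), (rh69012675dfdb1a5b.shift 0 6), (rhd37e158773780479.shift 1 0)] (by decide +kernel))
noncomputable def rh8a8003629a3d7f4f : CRef := CRef.mk (Pat.mk 0x20000000000000004000000040000000400000000 0xa0000000e0000000c0000001c0000003f0000003e0000003a 9 6) 0 0 (step_sound _ 130 [(rhab6c47cc6555dc65.shift 1 0), (rhae372274d1226efc.shift 1 1), rhe6969c7aac48200a] (by decide +kernel))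
noncomputable def rh81eb359c6241da19 : CRef := CRef.mk (Pat.mk 0x100000000000000020000000200000002000000000 0x58000000f8000003df000000fe000001ff000001e600000004 9 10) 0 0 (step_sound _ 100 [rh447bfdde75c690dc, (rh788316e9177d60df.shift 1 1), (rh9c6961379ec89e2c.shift 1 1), (rhdf6eda84f2eabc48.shift 4 1)] (by decide +kernel))
noncomputable def rhe832ac7d749a30b6 : CRef := CRef.mk (Pat.mk 0x800000008000000080000000800000000 0x140000001c000000180000007c000000ff00000074 9 8) 0 0 (step_sound _ 36 [rh0ff1120f5721a07c, (rh55afc6a59410cf00.shift 3 0)] (by decide +kernel))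
noncomputable def rh5c27bfd5be9f8bfe : CRef := CRef.mk (Pat.mk 0x400000004000000060000000000000000000000000 0x98000000f8000003df000001ff0000007e000000f000000030 9 10) 0 0 (step_sound _ 69 [rh05eeef5b5e156a36, rh193bd13f6db4eafb, (rh42548283029e2a39.shift 5 0)] (by decide +kernel))
noncomputable def rhe0d7795d40999d76 : CRef := CRef.mk (Pat.mk 0x8000000080000000c00000000 0x140000003c0000003c0000003c000000780000007f0000007f0000007f00000028 9 7) 0 0 (step_sound _ 68 [rh1919140171614d82, (rh574fdbf07bdd18b9.shift 0 1), rh9a12221d9799ab02] (by decide +kernel))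
noncomputable def rh5f5247c6f2b597b6 : CRef := CRef.mk (Pat.mk 0xc00000008000000080000000000000000 0x2200000032000000730000007f0000007f0000007f0000000800000008 9 7) 0 0 (step_sound _ 100 [(rh75ea294132184f25.shift 1 3), rh787ccaa3a42cf750, (rh7ce7dd2c71ef673e.shift 0 2), (rhd0b83c1e2e4f8bc2.shift 1 1), rheafc06e3e15461f8] (by decide +kernel))
noncomputable def rh1d3aaceaaa1b7e66 : CRef := CRef.mk (Pat.mk 0x180000000800000008000000000000000000000000 0x100000003c0000003c0000006c0000007f000000ff000000f80000000c0000000c00000004 9 8) 0 0 (step_sound _ 130 [(rh038f641e42ea6471.shift 1 0), (rh69012675dfdb1a5b.shift 0 4), rhcbb15956deb3f51c, (rhf838ddcb6dc5cb64.shift 0 2)] (by decide +kernel))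
noncomputable def rh0ae168d870cbe998 : CRef := CRef.mk (Pat.mk 0x400000004000000060000000000000000000000000 0x3c0000007c000007ff000003fe0000073f0000003800000030 9 11) 0 0 (step_sound _ 100 [(rh19ffd2707a6ee27e.shift 0 1), (rha11dfd15f08f96e3.shift 3 3), (rhe26b33ceee48c83c.shift 1 0)] (by decide +kernel))
noncomputable def rh0272568b8a3cf228 : CRef := CRef.mk (Pat.mk 0x8000000080000000c 0x140000001c0000003c0000007c0000007e0000007f000000780000001f 9 7) 0 0 (step_sound _ 36 [(rh2d2e9dbe4ffa55b6.shift 1 0), rh574fdbf07bdd18b9, rh870036adffa0448c] (by decide +kernel))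
noncomputable def rh5571bf05f33ab1b9 : CRef := CRef.mk (Pat.mk 0x400000004000000060000000000000000000000000 0x30000000f8000003ff000001fe0000003e0000003000000030 9 10) 0 0 (step_sound _ 69 [rh193bd13f6db4eafb, (rheb4cd2748b65bd4e.shift 1 0), (rhf9af042da61fc652.shift 5 0)] (by decide +kernel))
noncomputable def rh6dd06b7a3cf801bf : CRef := CRef.mk (Pat.mk 0x8000000080000000800000008 0x2200000022000000770000007f0000007f0000007c00000008 9 7) 0 0 (step_sound _ 98 [(rh50fbb5868c909700.shift 2 0), rha50c6719029e9f80] (by decide +kernel))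
noncomputable def rhec9c891138a7d63b : CRef := CRef.mk (Pat.mk 0x180000000a00000000000000000000000000000000 0x1c0000001c0000007c0000007c0000001f0000003b00000018000000180000001800000010 9 7) 0 0 (step_sound _ 162 [(rhac7be1a507539d5d.shift 2 0), (rhc5a5777137d2c728.shift 0 3), (rhd526f9b20c752965.shift 0 4)] (by decide +kernel))
noncomputable def rh20aa34e4e9745eac : CRef := CRef.mk (Pat.mk 0xc000000050000000000000000 0x5000000078000000780000007c0000003f000000f70000003e00000034 9 8) 0 0 (step_sound _ 100 [(rh5d01b68503f8e14c.shift 1 0), rh600c9340046891c9, (rh7a8ae798ab71c72e.shift 0 1), (rh9c0ab0af19c4d8a6.shift 0 2)] (by decide +kernel))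
noncomputable def rheb33f54d8a48f144 : CRef := CRef.mk (Pat.mk 0x80000000e000000000000000000000000 0x8000000080000007f000000fe000001ff0000001000000010 9 9) 0 0 (step_sound _ 100 [(rh0af46ddd73526378.shift 1 0), (rh48933d5594e3deb8.shift 0 2), (rh5f7b3bfbaf903d4f.shift 0 2)] (by decide +kernel))
noncomputable def rh14b3094035c2337c : CRef := CRef.mk (Pat.mk 0x3000000014000000000000000000000000 0xa0000000e0000003e0000001f0000003e0000001e000000160000000600000006 9 6) 0 0 (step_sound _ 97 [(rh1c62b6193297d9e3.shift 1 3), rh2dd2526fc438b269] (by decide +kernel))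
noncomputable def rh00b82dee82872095 : CRef := CRef.mk (Pat.mk 0xc000000050000000000000000 0x120000001a0000007f0000003e000000ff0000007400000034 9 8) 0 0 (step_sound _ 100 [rh4904a019878e6edb, (rh67e5914ef7f4941c.shift 0 2), rh8f84ec562d25be5d] (by decide +kernel))
noncomputable def rhdb7e8634d6e3b714 : CRef := CRef.mk (Pat.mk 0x180000000a000000000000000000000000 0x40000001c0000001c000000180000001f0000007c000000f800000038 9 8) 0 0 (step_sound _ 98 [(rh53b3c253cb0c65f4.shift 0 3), (rhf1e43d060ff08a2a.shift 1 0)] (by decide +kernel))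
noncomputable def rhd445bb159633c76f : CRef := CRef.mk (Pat.mk 0x80000000e000000000000000000000000 0x200000006000000170000007f000000fe000000ff000000fa00000038 9 8) 0 0 (step_sound _ 132 [(rh572132728df34c43.shift 1 3), (rh80f90a60d87caa0d.shift 1 3), rhd39220660507814e] (by decide +kernel))
noncomputable def rh71b555baa53c81f4 : CRef := CRef.mk (Pat.mk 0x180000000a0000000000000000000000000000000000000000 0x50000001f0000001f0000000f0000001f0000001f0000001300000003000000070000000700000004 9 5) 0 0 (step_sound _ 160 [(rh1c62b6193297d9e3.shift 0 5), rh496d970b35934780] (by decide +kernel))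
noncomputable def rhae6e55cb240ddc0f : CRef := CRef.mk (Pat.mk 0x180000000a0000000000000000 0x500000007400000074000000ff0000007f000000fb0000003200000010 9 8) 0 0 (step_sound _ 98 [(rh73f5f7cdf41b5bc9.shift 0 1), (rhbe579671e43f410e.shift 1 0), (rhd526f9b20c752965.shift 0 2)] (by decide +kernel))
noncomputable def rh977aba444621d326 : CRef := CRef.mk (Pat.mk 0x180000000a0000000000000000000000000000000000000000 0x10000000140000001e000000780000000f0000007c000000180000001c0000001c00000004 9 7) 0 0 (step_sound _ 162 [(rh53b3c253cb0c65f4.shift 0 5), (rhb8d85dd316c7687e.shift 1 0)] (by decide +kernel))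
noncomputable def rhd798540db137bee8 : CRef := CRef.mk (Pat.mk 0xc000000050000000000000000 0x500000007a0000007a0000007f0000003f000000f70000003400000034 9 8) 0 0 (step_sound _ 100 [rh0e14558a751ba979, rh4904a019878e6edb, (rh5d01b68503f8e14c.shift 1 0), (rh9c0ab0af19c4d8a6.shift 0 2)] (by decide +kernel))
noncomputable def rhbd550cd8fa844ca0 : CRef := CRef.mk (Pat.mk 0x180000000a0000000000000000 0xe0000000f0000001b000000ff000000f700000010 9 8) 0 0 (step_sound _ 66 [(rh53b3c253cb0c65f4.shift 0 2), rh865b581923e018a5] (by decide +kernel))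
noncomputable def rh92898492dca769be : CRef := CRef.mk (Pat.mk 0xc00000005000000000000000000000000 0x560000007e0000007e0000007f0000003c0000007f0000007f0000003c0000001c 9 7) 0 0 (step_sound _ 132 [rh0e49bb9623784b65, (rh5d01b68503f8e14c.shift 1 1), (rh67e5914ef7f4941c.shift 0 3), rh85f253f915f862ff] (by decide +kernel))
noncomputable def rh3ed158102bf2f42f : CRef := CRef.mk (Pat.mk 0x180000000a000000000000000000000000 0xc0000003c0000007e000000ff00000038000000fb000000ff0000003800000010 9 8) 0 0 (step_sound _ 164 [(rh4821dcf828b9d7bf.shift 3 1), (rh4b6ebf5889371815.shift 1 0), (rhadf429772c25fde0.shift 3 1), (rhe66554ee188fef9c.shift 0 1)] (by decide +kernel))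
noncomputable def rh94f7f2f96cfd6a73 : CRef := CRef.mk (Pat.mk 0x2000000010000000140000000000000000 0x2c0000002c000000ff000000fe000001fc000000f800000010 9 9) 0 0 (step_sound _ 101 [(rh8805c5e3c4f6ea7b.shift 0 2), (rh97661798c8f34ed0.shift 1 0), (rhf9366b6a121593ef.shift 4 0)] (by decide +kernel))
noncomputable def rhe7edfcf957d29562 : CRef := CRef.mk (Pat.mk 0x2000000010000000140000000000000000 0x180000003c0000007c000001ff000000fc000000dc000000fc00000034 9 9) 0 0 (step_sound _ 101 [(rh13063e8237fd1e54.shift 2 0), rh45a61eb7505ae794, (rh4821dcf828b9d7bf.shift 4 0)] (by decide +kernel))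
noncomputable def rh24441fffc7fbb558 : CRef := CRef.mk (Pat.mk 0x200000001000000014000000000000000000000000000000000000000000000000 0x180000001f0000007e000000fe0000007c0000007e0000003000000038000000380000003800000020 9 8) 0 0 (step_sound _ 164 [(rh077442e4b18ce09e.shift 0 4), (rh32132564e9463a56.shift 3 0), (rh610000747ee1c669.shift 3 1), (rh641693c48794ae7c.shift 1 4), (rh8dd9f845b93871d9.shift 3 2)] (by decide +kernel))
noncomputable def rh33496af4aa941f7e : CRef := CRef.mk (Pat.mk 0x80000000400000005000000000 0x1e0000003f0000007ff000003fe000007f7000001b8 9 11) 0 0 (step_sound _ 71 [(rh5cd2e8fb5249a6d5.shift 4 0), (rh8805c5e3c4f6ea7b.shift 2 1), (rh97443e32ee46657e.shift 3 0), (rha3ec63ab969e1eb4.shift 3 0), rhbc12735ca8d23537, (rhefa9db84b40c3c75.shift 4 0), (rhfab461fcd726514c.shift 2 1)] (by decide +kernel))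
noncomputable def rh09ad43d40d62cff0 : CRef := CRef.mk (Pat.mk 0x2000000010000000140000000000000000 0x3c0000007c000001ef000000fe000001fc000000fc00000014 9 9) 0 0 (step_sound _ 101 [rh45a61eb7505ae794, (rh97661798c8f34ed0.shift 1 0), (rhadf429772c25fde0.shift 4 0)] (by decide +kernel))
noncomputable def rhf1ec25591af62f0a : CRef := CRef.mk (Pat.mk 0x80000000a00000010000000000 0xe0000000f8000000f8000000fe000007fe0000037f00000030 9 11) 0 0 (step_sound _ 70 [(rh04158c6564b35924.shift 4 1), (rh28aff7be52228428.shift 2 1), rh2c26bbad14baf124, (rh5fe04502b8ec54b1.shift 3 0), (rh7b870d4443ff7afa.shift 2 1), (rhfbd771d936c6609a.shift 4 1), (rhfc49ace0fb47c1b9.shift 3 1)] (by decide +kernel))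
noncomputable def rh9479ed1d78bbabd2 : CRef := CRef.mk (Pat.mk 0xc0000000a0000000000000000 0x500000007400000074000000ff0000007f000000fb0000003200000010 9 8) 0 0 (step_sound _ 100 [(rh572c1bafe3a60457.shift 0 1), (rhbe579671e43f410e.shift 1 0), (rhd526f9b20c752965.shift 0 2)] (by decide +kernel))
noncomputable def rh41e50fb3d4c65f57 : CRef := CRef.mk (Pat.mk 0x30000000280000000000000000 0x140000005e000001fe000001fe0000002f0000002800000028 9 9) 0 0 (step_sound _ 132 [rh62147b20ce599723, (rhc2c7bae8f445c890.shift 4 0), (rhd98a0ed303b1df42.shift 1 0)] (by decide +kernel))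
noncomputable def rhf13bbe9fd50bec71 : CRef := CRef.mk (Pat.mk 0x30000000280000000000000000 0x600000007000000070000000ff0000003e0000006f0000007c00000068 9 8) 0 0 (step_sound _ 132 [rhae347707fb7bc75c, (rhc2c7bae8f445c890.shift 4 0), (rhd90b118a9b5e02bf.shift 2 0)] (by decide +kernel))
noncomputable def rh0ca9946cc40c6b43 : CRef := CRef.mk (Pat.mk 0x60000000400000000000000000000000000000000 0xe0000000e0000003e0000003f0000003e0000000c0000000c0000000c0000000c00000008 9 6) 0 0 (step_sound _ 98 [(rh10dd86fe0f994b37.shift 0 2), (rh9cb1baa24be679bc.shift 1 0), (rhb1a251d9bff81766.shift 1 2), (rhe6716def49487a6e.shift 1 0)] (by decide +kernel))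
noncomputable def rha785a76e919a988f : CRef := CRef.mk (Pat.mk 0x80000000e000000000000000000000000 0x8000000080000007c0000003e0000003f0000003c0000001c 9 7) 0 0 (step_sound _ 132 [rh4fcecf91ab74f2a6, (rh572132728df34c43.shift 1 3), (rh80f90a60d87caa0d.shift 1 3)] (by decide +kernel))
noncomputable def rhf50c8a852b546533 : CRef := CRef.mk (Pat.mk 0x6000000028000000000000000000000000 0x380000003c0000007c000000fc0000003e0000001f0000001c 9 8) 0 0 (step_sound _ 100 [(rh53b3c253cb0c65f4.shift 2 3), rhbbda111800c1e3b1] (by decide +kernel))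
noncomputable def rhb6ba02f1269b8695 : CRef := CRef.mk (Pat.mk 0x180000000a000000000000000000000000 0xe0000000f0000007f0000003e0000000f0000000400000004 9 7) 0 0 (step_sound _ 98 [(rh572132728df34c43.shift 1 3), (rh80f90a60d87caa0d.shift 1 3), rhf104f18e21a7ff3e] (by decide +kernel))
noncomputable def rh06d0361f8fca12be : CRef := CRef.mk (Pat.mk 0x180000000a00000000000000000000000000000000 0x50000001f0000001f0000000f0000001f0000001f00000013000000070000000700000004 9 5) 0 0 (step_sound _ 128 [(rh1c62b6193297d9e3.shift 0 4), rh824ed98d39823343] (by decide +kernel))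
noncomputable def rhe2f1c268b7125242 : CRef := CRef.mk (Pat.mk 0x180000000a000000000000000000000000 0xe0000000e0000001f0000003f0000003c0000001f0000000e 9 6) 0 0 (step_sound _ 98 [(rh53b3c253cb0c65f4.shift 0 3), rhe63706d2547aaa82] (by decide +kernel))
noncomputable def rhc8441a30ab3f6f9d : CRef := CRef.mk (Pat.mk 0x20000000380000000000000000000000000000000000000000 0x24000000260000007e000001ff00000078000000780000007000000040 9 9) 0 0 (step_sound _ 133 [rh86b54264601488da, (rhc21a95c499b3efdb.shift 2 4), (rhdb2e4137de40ce04.shift 3 1)] (by decide +kernel))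
noncomputable def rhd6b6143f73ac7a28 : CRef := CRef.mk (Pat.mk 0x100000001c00000000000000000000000000000000 0x400000004000000170000007f0000007f000000fa0000003800000038 9 8) 0 0 (step_sound _ 161 [(rhcf17fb64cfd29263.shift 1 1), rheeda606863340da2, (rhf119fefe21067f2b.shift 0 2)] (by decide +kernel))
noncomputable def rh8c4c61d22b3d2c78 : CRef := CRef.mk (Pat.mk 0x80000000e000000000000000000000000 0x50000000700000007000000070000007f0000003e000000370000003f0000003d 9 7) 0 0 (step_sound _ 132 [rh53957cf67fdf6958, rh6b85ca8a6eeb1580, (rh80f90a60d87caa0d.shift 1 3)] (by decide +kernel))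
noncomputable def rhb6538064c4127579 : CRef := CRef.mk (Pat.mk 0x100000001c000000000000000000000000 0x1e0000001f000000ff0000007c0000006e0000002c0000000c 9 8) 0 0 (step_sound _ 133 [(rh572132728df34c43.shift 2 3), (rh80f90a60d87caa0d.shift 2 3), rh8426602fc00093d6] (by decide +kernel))
noncomputable def rh2ebafd2af8c15c3a : CRef := CRef.mk (Pat.mk 0x400000004000000050000000000000000000000000 0x5c0000005c0000007f0000007e0000007f0000003800000020 9 7) 0 0 (step_sound _ 101 [(rh19ffd2707a6ee27e.shift 0 1), (rh281c6819542c66e6.shift 5 0)] (by decide +kernel))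
noncomputable def rh67d63cdcce639d4e : CRef := CRef.mk (Pat.mk 0x400000004000000050000000000000000000000000 0x80000000e0000000fc0000007c0000007f0000007e000000ff000000b800000020 9 8) 0 0 (step_sound _ 101 [(rh19ffd2707a6ee27e.shift 0 1), (rh281c6819542c66e6.shift 5 0), (rh4d1d2132774a7e45.shift 3 1)] (by decide +kernel))
noncomputable def rh0096c58fabcf040a : CRef := CRef.mk (Pat.mk 0x200000002000000028000000000000000000000000 0x40000000740000007c0000003c0000003f000001fe000003bf0000001800000010 9 10) 0 0 (step_sound _ 100 [(rh9ca6ddfaa6d1ebfd.shift 0 1), rhb68a85a2896b0542, (rhfafeb437ceb8396d.shift 4 0)] (by decide +kernel))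
noncomputable def rhedeea6bc98bcb1f8 : CRef := CRef.mk (Pat.mk 0x2000000020000000280000000000000000 0x100000007000000070000000f00000003e0000003f000001fe000001ee00000020 9 9) 0 0 (step_sound _ 70 [(rh0a1fd909c95eb75e.shift 2 1), (rhc30a87c4ef9f49cf.shift 0 1), (rhd68306d2bc65f307.shift 1 0)] (by decide +kernel))
noncomputable def rhdaca1eb4e01514de : CRef := CRef.mk (Pat.mk 0x100000001000000014000000000000000000000000 0x80000000c0000000f0000001f0000001f000000ff000000fe0000003c00000028 9 8) 0 0 (step_sound _ 163 [(rhc4b38bd1b2cdf635.shift 1 1), (rhc651e1b27e17349f.shift 0 1), (rhc6bbd0f7fd4fbb7b.shift 1 0), (rhd1779d7de7f8215b.shift 3 0), (rhf9a6286f1d5377a2.shift 3 2)] (by decide +kernel))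
noncomputable def rh99dd2a0a66189677 : CRef := CRef.mk (Pat.mk 0x100000001c0000000000000000000000000000000000000000 0x1000000014000000140000001f000000ff0000007b0000003a0000003800000028 9 8) 0 0 (step_sound _ 132 [rh2abd89871daf426d, (rh46884caf55fc9ea5.shift 1 1), (rh5a8abb721f11b584.shift 1 1), (rhc21a95c499b3efdb.shift 1 4)] (by decide +kernel))
noncomputable def rh3bce6f04498d69cf : CRef := CRef.mk (Pat.mk 0x100000001c000000000000000000000000 0x80000001c0000001f0000007f0000001c0000007c0000003e0000001c 9 7) 0 0 (step_sound _ 67 [rh637757a03cef7680, (rh7a81a98a4b405ba3.shift 1 1), (rhcf80391c5046a495.shift 3 0), (rhf9366b6a121593ef.shift 3 0)] (by decide +kernel))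
noncomputable def rhafc1e2c616c48000 : CRef := CRef.mk (Pat.mk 0x80000000e000000000000000000000000 0x800000008000000780000003e0000007f0000003c0000001c 9 7) 0 0 (step_sound _ 66 [rh2cb8437104de90cf, rh4e6eb99d0c0389b1, (rhcf80391c5046a495.shift 2 0)] (by decide +kernel))
noncomputable def rh612080f68649a8d3 : CRef := CRef.mk (Pat.mk 0x80000000a000000080000000000000000 0x100000001c0000001c0000000e0000001f0000007e0000007f0000000e0000000c 9 7) 0 0 (step_sound _ 130 [rh74d56c9269e8b5d3, (rh9b96ed3fdd4e171a.shift 0 1), (rhf9a6286f1d5377a2.shift 2 1)] (by decide +kernel))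
noncomputable def rh4f849fc92a518aba : CRef := CRef.mk (Pat.mk 0x80000000a00000008000000000000000000000000 0xb0000000b0000003f0000007e0000003f0000007e0000001c0000001c 9 7) 0 0 (step_sound _ 98 [(rh7c940b55f5c11b02.shift 0 2), rhe82b73219aa1ef1f, (rhfafeb437ceb8396d.shift 2 0)] (by decide +kernel))
noncomputable def rh44ecf28552bcc392 : CRef := CRef.mk (Pat.mk 0x80000000a000000080000000000000000 0x6000000060000000f0000003f0000007e0000007f0000001800000010 9 7) 0 0 (step_sound _ 130 [rh6e1e1faab7ce9a6e, (rhb1a251d9bff81766.shift 2 1), (rhf9a6286f1d5377a2.shift 2 1)] (by decide +kernel))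
noncomputable def rhc9c33beee25b2619 : CRef := CRef.mk (Pat.mk 0x80000000a00000008000000000000000000000000 0x40000000e0000000f0000003f0000003e0000000f0000001c0000001c00000014 9 6) 0 0 (step_sound _ 194 [(rh114f4abf4ea101c9.shift 2 2), (rhc05d451ce3dd5e48.shift 2 0), (rhec7c4ff488aa3e24.shift 0 2)] (by decide +kernel))
noncomputable def rh943bd88417152cf4 : CRef := CRef.mk (Pat.mk 0x20000000200000002000000000000000000000000 0x100000007000000070000000700000003000000070000000600000006000000070000000700000007 9 3) 0 0 (step_sound _ 192 [(rh114f4abf4ea101c9.shift 0 2), rh63ecc18afd7e62c0, (rh7b9655bc627f8e15.shift 0 2), rhc05d451ce3dd5e48] (by decide +kernel))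
noncomputable def rh78207ff94f7ae800 : CRef := CRef.mk (Pat.mk 0x10000000100000001000000000000000000000000000000000 0x80000003800000038000000ff000000fe000001ff0000007800000008 9 9) 0 0 (step_sound _ 100 [(rh165cdb78240e1819.shift 3 0), (rh6eff4158bb400f47.shift 3 1), (rh8ff3dde5b1c639e0.shift 3 1), (rha3f1bde4906978fe.shift 1 1), (rhefe5710bb904ce59.shift 0 1)] (by decide +kernel))
noncomputable def rh61634eff8569bfde : CRef := CRef.mk (Pat.mk 0x80000000a00000008000000000000000000000000 0x40000000e0000000f0000003f0000007e0000007f0000003c0000001c0000001c 9 7) 0 0 (step_sound _ 98 [rh03c00182870d4521, (rh281c6819542c66e6.shift 2 0), (rh36bb62fc7f890e8c.shift 0 1)] (by decide +kernel))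
noncomputable def rhbe9fa85bd33ec5f8 : CRef := CRef.mk (Pat.mk 0x200000002800000020000000000000000000000000 0x10000000170000003e0000007f0000002c0000007c0000007e0000007000000050 9 7) 0 0 (step_sound _ 196 [(rh114f4abf4ea101c9.shift 4 2), (rh8da583d121f4424b.shift 0 2), (rhc05d451ce3dd5e48.shift 4 0)] (by decide +kernel))
noncomputable def rhf9f523c99699fa3d : CRef := CRef.mk (Pat.mk 0x200000002800000020000000000000000000000000 0x140000003e000000fe000000ef00000068000000680000006000000040 9 8) 0 0 (step_sound _ 70 [(rh2f7ef8ef5c94975a.shift 5 0), (rh47dece01c1595e79.shift 5 0), (rh67227fb79e7e3fbb.shift 0 1), (rhf2d6c7c7981007e0.shift 1 2)] (by decide +kernel))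
noncomputable def rh5ec485e6072ae23b : CRef := CRef.mk (Pat.mk 0x2000000028000000200000000000000000 0x14000000140000003e000000fc000001ef0000003c0000003800000030 9 9) 0 0 (step_sound _ 132 [rh58012a1549e037fa, (rh768457b68d1e6eec.shift 1 1), (rhb1a251d9bff81766.shift 4 1)] (by decide +kernel))
noncomputable def rhc7b966d6b7526075 : CRef := CRef.mk (Pat.mk 0x20000000280000002000000000000000000000000000000000 0x4000000160000007c000000ef000001fe000001fc000003fe000000f000000050 9 10) 0 0 (step_sound _ 101 [(rh165cdb78240e1819.shift 4 0), (rh35db6702b4624818.shift 0 2), (rh6eff4158bb400f47.shift 4 1), (rh9c21d629fe6db953.shift 0 2), (rhaa69388c2b9877bd.shift 1 1), (rhad2aff06028f06b3.shift 4 0)] (by decide +kernel))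
noncomputable def rhdde247ef5d49e4b8 : CRef := CRef.mk (Pat.mk 0x200000002800000020000000000000000000000000 0x10000000360000003c000001f8000000ef000000fe000000df0000005400000010 9 9) 0 0 (step_sound _ 100 [(rh186920cf64505637.shift 1 2), (rh72b68a77e9600268.shift 2 2), (rh7f867edf5e198b6e.shift 0 1), rhb81b7858644abb41, rhdf7b93ff9cb86f5e, (rhf0561682bb684ebc.shift 4 2)] (by decide +kernel))
noncomputable def rh6828643ae639187c : CRef := CRef.mk (Pat.mk 0x4000000040000000000000002000000020000000000000000000000000 0x40000001c0000007ce000001fe000003ff000001c0000001c000000140 9 11) 0 0 (step_sound _ 134 [(rh3c88ce959c0e423f.shift 5 3), rh77b9537d9d415eaf] (by decide +kernel))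
end Crest.Agent.S0047.Helper85.Cert
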