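import Crest.Agent.Lib.S0047.Helper85CertPL8F0
import Crest.Agent.Lib.S0047.Helper85CertPL8F1
import Crest.Agent.Lib.S0047.Helper85CertPL8F2
import Crest.Agent.Lib.S0047.Helper85CertPL8F3
import Crest.Agent.Lib.S0047.Helper85CertPL8F4
import Crest.Agent.Lib.S0047.Helper85CertPL8F5
import Crest.Agent.Lib.S0047.Helper85CertPL8F6
import Crest.Agent.Lib.S0047.Helper85CertPL8F7
import Crest.Agent.Lib.S0047.Helper85CertPL8F8
set_option autoImplicit false
set_option linter.all false
set_option Elab.async false
namespace Crest.Agent.S0047.Helper85.Cert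
open Crest.Agent.S0047.Helper85

noncomputable def rh778f789b5d9848c2 : CRef := CRef.mk (Pat.mk 0x200000002000000020000000000000000000000000 0x28000001fc000003ff000001fe000003fe000000d000000050 9 10) 0 0 (step_sound _ 102 [(rh3d7f8cbc57d04f80.shift 1 0), (rh70e33bfdf511e144.shift 5 0), rhec8b30d84b76479c] (by decide +kernel))
noncomputable def rhf6f0dc19d76550d1 : CRef := CRef.mk (Pat.mk 0x1000000000000000080000000c0000000000000000000000000000000000000000 0x1800000018000000080000007c0000003f0000001f0000001f0000001e0000001e00000014 9 7) 0 0 (step_sound _ 227 [(rh9c729286c00415e0.shift 1 4), rhc85d4110771a2fc9, (rhd6ece6133e39c38f.shift 2 4)] (by decide +kernel))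
noncomputable def rhc1398114b9f33fd4 : CRef := CRef.mk (Pat.mk 0x1000000018000000000000000000000000 0x1600000016000000ff000001ff000001df0000000800000008 9 9) 0 0 (step_sound _ 67 [rh2bf93dfc2a1a08b3, (rh2fadd4bbdbc455b9.shift 0 2), (rhadf429772c25fde0.shift 3 0)] (by decide +kernel))
noncomputable def rhfff0b9842eb09ede : CRef := CRef.mk (Pat.mk 0x20000000000000001000000018000000000000000000000000 0x300000003000000014000000f60000007f0000007e0000002800000028 9 8) 0 0 (step_sound _ 164 [(rh9c729286c00415e0.shift 2 2), (rhd6ece6133e39c38f.shift 3 2), rhfcc14db138c4770f] (by decide +kernel))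
noncomputable def rhdc914f7856b3a267 : CRef := CRef.mk (Pat.mk 0x1000000000000000080000000c000000000000000000000000 0x70000000700000006a0000007f000000ff000000ff0000007400000034 9 8) 0 0 (step_sound _ 132 [(rh7eeba08036e76531.shift 1 0), rh90bcc6760930a3fb, (rhd69c262cd33b94b3.shift 0 3)] (by decide +kernel))
noncomputable def rhb8cb09326598c2b2 : CRef := CRef.mk (Pat.mk 0x20000000000000001000000018000000000000000000000000 0xa0000000e2000001e6000000fe000003c7000000ff000000fe000000ef0000002a00000008 9 10) 0 0 (step_sound _ 133 [(rh3b820c2eeb6e3ee2.shift 0 1), (rh69012675dfdb1a5b.shift 1 3), rh8090fb974693a9ce, (rhd69c262cd33b94b3.shift 1 3)] (by decide +kernel))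
noncomputable def rhcb576ad9789961b1 : CRef := CRef.mk (Pat.mk 0x200000000000000010000000180000000000000000000000000000000000000000 0x800000038000000380000001000000038000000f8000000ff0000003f000000380000003800000020 9 8) 0 0 (step_sound _ 228 [rh5feff34b764c5a32, (rh8fb96b2877771c9d.shift 3 5), (rhd6ece6133e39c38f.shift 3 4)] (by decide +kernel))
noncomputable def rh6516703c306d131d : CRef := CRef.mk (Pat.mk 0x40000000000000002000000030000000000000000000000000 0x80000001c4000003e400000fa6000001fe000001fe000001ef000001c000000040 9 12) 0 0 (step_sound _ 135 [(rh52a08d951d30f13d.shift 1 0), rh94514ee4dc6cc6f0, (rh9fe5e7ab1ea65746.shift 4 1), (rhcadd85ff2a73e8c7.shift 2 3), (rhe33d9496e10d8eb0.shift 2 3)] (by decide +kernel))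
noncomputable def rh070bdb1d5efed650 : CRef := CRef.mk (Pat.mk 0x1000000000000000080000000c00000000000000000000000000000000 0x1800000018000000080000007c0000001f0000007c0000001c0000001c00000018 9 7) 0 0 (step_sound _ 195 [(rh9c729286c00415e0.shift 1 3), rhad318b49e500dae1, (rhd6ece6133e39c38f.shift 2 3)] (by decide +kernel))
noncomputable def rh023af8fbb4f702fa : CRef := CRef.mk (Pat.mk 0x20000000000000003000000010000000000000000000000000 0xa0000000e0000001e0000000fe000003c7000000ff000000fe000000fe0000006800000060 9 10) 0 0 (step_sound _ 99 [(rh3b820c2eeb6e3ee2.shift 0 1), (rh3e20570c3b8a7909.shift 1 0), (rh69012675dfdb1a5b.shift 1 3), (rhd69c262cd33b94b3.shift 1 3)] (by decide +kernel))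
noncomputable def rhb940f46bda8127fb : CRef := CRef.mk (Pat.mk 0x80000000800000008000000000000000000000000 0xc0000000c0000001c0000001f0000007c0000000f0000003c0000001c00000014 9 7) 0 0 (step_sound _ 98 [(rh281c6819542c66e6.shift 2 0), (rh976a48eb1c80a12f.shift 2 2), rhb889f4f25b86c814, rhd4fa209d3d732fe6] (by decide +kernel))
noncomputable def rh15977c0cf3782908 : CRef := CRef.mk (Pat.mk 0x200000002000000030000000000000000000000000 0x180000003c000000f60000003e000000ff0000007000000050 9 8) 0 0 (step_sound _ 68 [rh15b3e2f9b4f93510, (rh42548283029e2a39.shift 4 0), (rhf9af042da61fc652.shift 4 0)] (by decide +kernel))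
noncomputable def rh2ecdc1df8966cba8 : CRef := CRef.mk (Pat.mk 0x8000000080000000c00000000000000000000000000000000 0x100000001c0000001c0000000c0000001f0000007c0000000f000000180000001c0000001c00000014 9 7) 0 0 (step_sound _ 164 [(rh0bb882ba86b2372d.shift 0 4), (rh1a2de2c054e157ba.shift 0 1), rhe487971419b54f87] (by decide +kernel))
noncomputable def rh007ddefb9d2ff593 : CRef := CRef.mk (Pat.mk 0x8000000080000000800000000 0x140000001e0000001f0000003f0000003f0000000c0000000c00000004 9 6) 0 0 (step_sound _ 131 [(rh0fcd25af66600f50.shift 2 0), (rh1741680720c097b4.shift 2 1), (rh193da7fc9e1674f1.shift 2 0), (rh20966da26a1c2ae8.shift 2 0), (rh771d065bdc85bf2d.shift 2 0), (rhc940dcd71d4c6188.shift 0 1)] (by decide +kernel))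
noncomputable def rh6a2504d32debcd6c : CRef := CRef.mk (Pat.mk 0x80000000800000008000000000000000000000000 0x6000000170000003f0000007f0000001c0000000c0000000c0000000c00000004 9 7) 0 0 (step_sound _ 194 [(rh0dbc8abee7ad42d4.shift 2 2), (rh114f4abf4ea101c9.shift 2 2), (rh374ae440e8011597.shift 2 0), (rh5b0552d861d930ad.shift 0 3), (rhbec796c3ea7a32e6.shift 1 2)] (by decide +kernel))
noncomputable def rh802a84fc9bf4f860 : CRef := CRef.mk (Pat.mk 0x100000001000000000000000200000002000000000 0x5400000054000001d7000001fe000001fe00000028 9 9) 0 0 (step_sound _ 68 [rhd4a66334095dc78e, (rhff0f29cb645b05f7.shift 4 1)] (by decide +kernel))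
noncomputable def rh61899e45fc95fa04 : CRef := CRef.mk (Pat.mk 0x1000000010000000000000002000000020 0xa0000000e0000000e0000000ff000001fe000003e7000000e000000020 9 10) 0 0 (step_sound _ 101 [(rh2613c889e411427e.shift 4 0), rh8fd5339685e2a82f] (by decide +kernel))
noncomputable def rh8a12ec1015e015a6 : CRef := CRef.mk (Pat.mk 0x20000000200000002000000000 0x5000000050000003fe000001ff0000003e0000002000000020 9 10) 0 0 (step_sound _ 132 [(rh0dbc8abee7ad42d4.shift 4 0), rh61747027f91f76ce, (rhbab796f6dafe9186.shift 4 1), (rhbec796c3ea7a32e6.shift 3 0)] (by decide +kernel))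
noncomputable def rhf434c943197213e0 : CRef := CRef.mk (Pat.mk 0x800000008000000080000000000000010 0x140000001c0000001c0000007c0000007e0000007f0000007f0000007e0000007000000030 9 7) 0 0 (step_sound _ 68 [(rh1ba1a52c6e4373d2.shift 1 2), rh4448ba2646aa73c9, (rhfb9fb48a5e63ed80.shift 2 1), (rhfc77473044a95557.shift 3 0)] (by decide +kernel))
noncomputable def rhf8d27c90a16f9a30 : CRef := CRef.mk (Pat.mk 0x10000000100000001000000000000000200000000000000000 0x28000000380000003800000018000000ff000000fe0000003f00000010000000380000003800000008 9 8) 0 0 (step_sound _ 228 [(rh08468e75aab8e03d.shift 0 4), (rh1f25b33bbea643f0.shift 3 4), (rh954185ca08f45d84.shift 1 4), (rh982db90d48a4f8a2.shift 1 1), (rh9b748f8143295222.shift 3 0)] (by decide +kernel))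
noncomputable def rha0095e9b4e2a5252 : CRef := CRef.mk (Pat.mk 0x10000000100000001000000000000000200000000000000000 0x28000000380000003800000030000000ff000000fe0000003f00000010000000380000003800000008 9 8) 0 0 (step_sound _ 228 [(rh08468e75aab8e03d.shift 0 4), (rh27b052a1db720fef.shift 3 4), (rh556bfb5935d2f49f.shift 3 0), (rh63704e89b8eb14e0.shift 1 1), (rh6d09739f568e9449.shift 3 4), (rhcc23c4ead179ac0d.shift 3 1)] (by decide +kernel))
noncomputable def rh6b47f3efb97a32bd : CRef := CRef.mk (Pat.mk 0x80000000800000008000000000000001000000000 0x200000002000000170000003f0000003f0000000c000000080000001800000010 9 6) 0 0 (step_sound _ 67 [(rh46137ff9626501bb.shift 2 0), (rh9f113608394b30d0.shift 3 0), (rhc6489ec47b00a9e4.shift 0 2)] (by decide +kernel))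
noncomputable def rh21654f62fd0c214c : CRef := CRef.mk (Pat.mk 0x100000001000000010 0x280000003c0000003f000000ff000000fe0000007e00000038 9 8) 0 0 (step_sound _ 100 [(rh1741680720c097b4.shift 3 0), (rh27b052a1db720fef.shift 3 0), (rh3ce012580aa39743.shift 3 0), (rh63903c93fd7baa8d.shift 2 0), (rh69d01bb507981895.shift 1 0), (rh954185ca08f45d84.shift 1 0), rhd881631c7c1ed932] (by decide +kernel))
noncomputable def rh58df37a6b7bf6668 : CRef := CRef.mk (Pat.mk 0x8000000180000000000000010 0x140000001c0000001c0000007c0000007e0000007f0000007f0000007e0000007000000030 9 7) 0 0 (step_sound _ 131 [(rh1ba1a52c6e4373d2.shift 1 2), rh4448ba2646aa73c9, (rhfb9fb48a5e63ed80.shift 2 1), (rhfc77473044a95557.shift 3 0)] (by decide +kernel))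
noncomputable def rh882a6d1e3f0e8711 : CRef := CRef.mk (Pat.mk 0x80000000800000018000000000000000000000000 0x240000007c000001ff000001ff000001f30000001200000010 9 9) 0 0 (step_sound _ 68 [(rh08edf065357d68e5.shift 3 0), (rh6df8ec062484ca0b.shift 0 1), rhffe7687e448b216f] (by decide +kernel))
noncomputable def rh1268edd22b308ad9 : CRef := CRef.mk (Pat.mk 0x1000000010000000300000000000000000 0x200000002c0000003f000000ff000000fe000000fc0000001400000010 9 8) 0 0 (step_sound _ 99 [(rh3c3e23a02e82b2ed.shift 1 2), (rh45df595d1ad06a3d.shift 1 1), rh79b9a820b1275599] (by decide +kernel))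
noncomputable def rha1bf8c8c15060960 : CRef := CRef.mk (Pat.mk 0x800000010000000100000001000000000 0x280000003c000000f0000001f7000000fe000001ef 9 9) 0 0 (step_sound _ 132 [rh2bc78c6bbc69c966, (rh50fbb5868c909700.shift 3 1)] (by decide +kernel))
noncomputable def rhc236464251baa3a3 : CRef := CRef.mk (Pat.mk 0x8000000080000000c00000000 0x4000000040000000c0000000f0000007f000000ff000000fa 9 8) 0 0 (step_sound _ 68 [(rh69012675dfdb1a5b.shift 0 1), rh9f0f972b3c6a7c5a, rhbd0f434f0aed84cb] (by decide +kernel))
noncomputable def rh73aefb943d9cedfb : CRef := CRef.mk (Pat.mk 0x100000001000000030000000000000000000000000 0x4000000050000003df000001fe000003ff000001e800000028 9 10) 0 0 (step_sound _ 69 [rh0757c7b2eed96030, (rh4276788e5755a9c5.shift 1 0), (rh79ad7b82ec8c35e2.shift 4 0)] (by decide +kernel))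
noncomputable def rhc0fff738f39710e4 : CRef := CRef.mk (Pat.mk 0x2000000020000000600000000000000000 0x5e000000fc000001fe000003bf000001fe0000039e00000010 9 10) 0 0 (step_sound _ 68 [(rh62646291a870a8bb.shift 2 0), (rh7751722d938a8dae.shift 0 1), (rhcf119aa3055b2879.shift 1 1)] (by decide +kernel))
noncomputable def rh29e7957465a35810 : CRef := CRef.mk (Pat.mk 0x18000000100000001000000000 0x300000003800000038000000780000001f000000fb0000001e0000000c 9 8) 0 0 (step_sound _ 131 [rh7cd87a07a829ab74, (rhc89253ff58c66167.shift 3 1), (rhe072fffdd2fccf38.shift 3 1)] (by decide +kernel))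
noncomputable def rhcb7beb2c29474bd9 : CRef := CRef.mk (Pat.mk 0x18000000080000000800000000 0x80000001c0000001e0000001f0000007b0000001f0000000c00000004 9 7) 0 0 (step_sound _ 132 [(rh69755ef358ebfd54.shift 3 1), (rhbfb5770941270498.shift 3 1), rhcb6403ff291d0648] (by decide +kernel))
noncomputable def rhb0cde1b0940295d4 : CRef := CRef.mk (Pat.mk 0x10000000100000001000000010 0x1ef000000fe000000ff0000001000000010 9 9) 0 0 (step_sound _ 101 [(rh2f68792b6b779e96.shift 4 0), rh3b4aa1475d8f5c82] (by decide +kernel))
noncomputable def rhba7575016301e561 : CRef := CRef.mk (Pat.mk 0x10000000100000001800000000 0x80000003c0000007e000000ff000000ff0000001f00000010 9 8) 0 0 (step_sound _ 131 [(rh0a9d766b5340c0e0.shift 1 0), (rh0dbc8abee7ad42d4.shift 3 0), rh7e0685e0760bf932, (rhc10df8d62d3f6a35.shift 0 1), (rhdf8ca1a4b734c826.shift 1 0)] (by decide +kernel))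
noncomputable def rh8f1b6e50763026de : CRef := CRef.mk (Pat.mk 0x100000001000000010000000000000000000000000 0x20000000300000003000000070000000df000000fe000000ff0000002800000028 9 8) 0 0 (step_sound _ 99 [(rh281c6819542c66e6.shift 3 0), (rh392f0d2e5cba5850.shift 1 1), rh4b5768da77da5376, (rh6dba9c436c8cba71.shift 1 2)] (by decide +kernel))
noncomputable def rh97850410b0905a10 : CRef := CRef.mk (Pat.mk 0x1000000010000000100000001000000000 0x1000000010000000ff000000fe000001ef 9 9) 0 0 (step_sound _ 35 [(rh932754581e0f4330.shift 3 0), rhc7a2a1b712f5b53e] (by decide +kernel))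
noncomputable def rh1a2a8b6bfe595051 : CRef := CRef.mk (Pat.mk 0x40000000400000004000000040000000000000000000000000 0x40000000600000007f000003fe000000bf0000001000000010 9 10) 0 0 (step_sound _ 101 [(rh932754581e0f4330.shift 5 2), rhdc47d536b3d69141] (by decide +kernel))
noncomputable def rhc37558fb0a20efbd : CRef := CRef.mk (Pat.mk 0x4000000040000000c00000000 0xa000000fe0000007e000000f70000003c0000003f00000072 9 8) 0 0 (step_sound _ 130 [rh7edd0fb57b3764a0, rh9657c25562dad1df, (rhc85cc95794737cf7.shift 1 1)] (by decide +kernel))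
noncomputable def rh70ceca9b490fcdaf : CRef := CRef.mk (Pat.mk 0x2000000020000000200000002000000000 0x170000003e0000007c000000ee0000007c0000005e 9 8) 0 0 (step_sound _ 132 [(rh50fbb5868c909700.shift 4 1), rhdfab6ec297236c63] (by decide +kernel))
noncomputable def rhce4754e3752a4761 : CRef := CRef.mk (Pat.mk 0x60000000400000004000000000000000000000000 0x20000000e0000000e0000000c00000006000000060000003c0000000f0000000e0000000a 9 6) 0 0 (step_sound _ 66 [(rh6663e5236fa75b9d.shift 1 1), (rh7133a7a78d762f91.shift 0 1), (rha613ffd40b6c9d24.shift 1 0), (rhe4441baab75a6f73.shift 1 0)] (by decide +kernel))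
noncomputable def rh7c27da910ebbc97f : CRef := CRef.mk (Pat.mk 0x1000000010000000100000001000000000 0x200000003000000030000003f7000001fe000001ef 9 10) 0 0 (step_sound _ 133 [(rh2f68792b6b779e96.shift 4 1), rh5693721f84391bf5] (by decide +kernel))
noncomputable def rhce6e0096503d366a : CRef := CRef.mk (Pat.mk 0x180000000c0000000000000000000000000000000000000000 0x1000000018000000ff000000ff000000fe000000fc0000001c00000010 9 8) 0 0 (step_sound _ 161 [rh31ade9886d238913, (rh53b3c253cb0c65f4.shift 0 5)] (by decide +kernel))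
noncomputable def rhc60a854d4315122d : CRef := CRef.mk (Pat.mk 0xc00000006000000000000000000000000 0x800000038000000780000003f0000003e0000003f0000003f00000002 9 7) 0 0 (step_sound _ 132 [(rh18965a982d73c794.shift 1 3), rha45102ea3c8afd47] (by decide +kernel))
noncomputable def rh7240e7c0b9915c4a : CRef := CRef.mk (Pat.mk 0x30000000180000000000000000000000000000000000000000 0xc0000002c0000006f0000003f000001fe0000001e0000003c000000380000003800000020 9 9) 0 0 (step_sound _ 162 [rh193671f3b618cc50, (rh53b3c253cb0c65f4.shift 1 5)] (by decide +kernel))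
noncomputable def rhce5c1eef105b43d5 : CRef := CRef.mk (Pat.mk 0x180000000c000000000000000000000000000000000000000000000000 0x200000032000000370000001f000000ff0000007c0000007e000000fc0000001c0000001c00000014 9 8) 0 0 (step_sound _ 193 [(rh53b3c253cb0c65f4.shift 0 6), rhdbbf68eb463d5af6] (by decide +kernel))
noncomputable def rh6261b36c7faeee87 : CRef := CRef.mk (Pat.mk 0x80000000c0000000000000000 0x1000000017000000770000007f000000ff000000ef0000000e 9 8) 0 0 (step_sound _ 100 [(rh1086a548292901e5.shift 1 0), (rh69012675dfdb1a5b.shift 0 2), (rhd69c262cd33b94b3.shift 0 2), rhf555f384a46eb39e] (by decide +kernel))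
noncomputable def rh0857967ab9f65280 : CRef := CRef.mk (Pat.mk 0x30000000180000000000000000000000000000000000000000 0x680000006f0000003f0000003e000000fe0000007e0000007c0000003800000020 9 8) 0 0 (step_sound _ 162 [rh12eb5dd9d5e5bdf1, (rh53b3c253cb0c65f4.shift 1 5)] (by decide +kernel))
noncomputable def rh53679f57cdd158c0 : CRef := CRef.mk (Pat.mk 0x180000000c000000000000000000000000 0x20000003b0000003f000000370000001400000014 9 6) 0 0 (step_sound _ 97 [(rh53b3c253cb0c65f4.shift 0 3), rhad5b57035329c175] (by decide +kernel))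
noncomputable def rhd451f8edca502578 : CRef := CRef.mk (Pat.mk 0x180000000c000000000000000000000000 0x1000000030000000320000001f0000003f0000003f0000003400000034 9 6) 0 0 (step_sound _ 97 [(rh53b3c253cb0c65f4.shift 0 3), rhbb28fae148a4d438] (by decide +kernel))
noncomputable def rhfaefdaba06cd7b88 : CRef := CRef.mk (Pat.mk 0x180000000c000000000000000000000000 0x3000000030000000300000001c000000ff0000003f000000f800000038 9 8) 0 0 (step_sound _ 97 [(rh53b3c253cb0c65f4.shift 0 3), rhb086467b7377c326] (by decide +kernel))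
noncomputable def rh39b16c61b027d623 : CRef := CRef.mk (Pat.mk 0x3000000018000000000000000000000000 0xc0000002c0000002f0000003f000000fe000000fe000000f400000070 9 8) 0 0 (step_sound _ 98 [(rh53b3c253cb0c65f4.shift 1 3), rhd24497e1e767e37a] (by decide +kernel))
noncomputable def rh6fc3b60831003a94 : CRef := CRef.mk (Pat.mk 0xc00000006000000000000000000000000 0x1800000018000000180000003c0000007f0000003c0000001c00000008 9 7) 0 0 (step_sound _ 132 [(rh18965a982d73c794.shift 1 3), rhc56b75a9fef7eb6e] (by decide +kernel))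
noncomputable def rh4bd0c77b3aab850d : CRef := CRef.mk (Pat.mk 0xc00000006000000000000000000000000 0x80000000a0000000f0000007f0000007f0000003f0000001f 9 7) 0 0 (step_sound _ 99 [rh3486d0cfdfda2aef, (rh49b95b9d667c2387.shift 0 1), rh525437f8b959ec5b, rhddc97c03fa63e686] (by decide +kernel))
noncomputable def rh6f1ab082d10dadca : CRef := CRef.mk (Pat.mk 0x180000000c000000000000000000000000 0x140000001f0000003f0000007b0000003f0000001e 9 7) 0 0 (step_sound _ 97 [(rh53b3c253cb0c65f4.shift 0 3), rhb28c9d87d55087f0] (by decide +kernel))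
noncomputable def rh8905127da3480c56 : CRef := CRef.mk (Pat.mk 0x180000000c000000000000000000000000 0x7000000070000001f0000003f000000370000003e00000038 9 6) 0 0 (step_sound _ 97 [(rh53b3c253cb0c65f4.shift 0 3), rhdab250e0cc9a0d79] (by decide +kernel))
noncomputable def rh6f2dce760555c886 : CRef := CRef.mk (Pat.mk 0x1800000018000000000000000000000000 0x2800000028000000e8000000fc000000df0000005f0000001c0000001c 9 8) 0 0 (step_sound _ 163 [(rh3e595262c1b737ad.shift 3 2), rh96acc0cc51f94844, (rhe2d7daae1577d340.shift 0 2)] (by decide +kernel))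
noncomputable def rh00eeda4981d839a8 : CRef := CRef.mk (Pat.mk 0x1800000018000000000000000000000000 0xc0000000c000000ef000000ff0000001f000000100000001000000010 9 8) 0 0 (step_sound _ 68 [(rh3cb04db3dd2b6a55.shift 3 0), (rh677e6fbb651585de.shift 1 0), (rh826fe248a99cf337.shift 0 2)] (by decide +kernel))
noncomputable def rh4bee1a087d7a798a : CRef := CRef.mk (Pat.mk 0x1800000018000000000000000000000000 0x1c0000003c0000000f0000001c0000001f0000003f0000001f0000000c 9 6) 0 0 (step_sound _ 163 [(rh28152048bc8b598f.shift 0 2), (rh3e595262c1b737ad.shift 3 2), rhc6fce6e3a7428711] (by decide +kernel))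
noncomputable def rh6a5c1409aae8e013 : CRef := CRef.mk (Pat.mk 0x1800000018000000000000000000000000 0x3c0000003c000000ef000000fc000000d80000005c0000001c0000000c 9 8) 0 0 (step_sound _ 163 [(rh28152048bc8b598f.shift 0 2), (rh55a1f6c57a317ce6.shift 3 1), rh5abec70f7a8a4b9d] (by decide +kernel))
noncomputable def rh74049d2216e8da9b : CRef := CRef.mk (Pat.mk 0x1800000018000000000000000000000000 0xc0000000c000000ef000000ff0000001f000000780000003e0000003e 9 8) 0 0 (step_sound _ 68 [(rh3cb04db3dd2b6a55.shift 3 0), (rh826fe248a99cf337.shift 0 2), (rh9d50611360a342a6.shift 1 0)] (by decide +kernel))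
noncomputable def rhff82237f4f028ea9 : CRef := CRef.mk (Pat.mk 0x4000000070000000000000000000000000 0x8000000180000003c0000007f000001fe000003f70000007000000060 9 10) 0 0 (step_sound _ 132 [(rh0cb2d4cad10f99be.shift 1 0), rh90e89d3900eef196, (rha9fbfd4bb8cf890b.shift 1 3), (rhae8d21abc86b555a.shift 3 2)] (by decide +kernel))
noncomputable def rheff0b0af00d3c246 : CRef := CRef.mk (Pat.mk 0x4000000070000000000000000000000000 0x2800000038000000380000003c0000007f000001fe0000007f0000007f00000028 9 9) 0 0 (step_sound _ 132 [(rh5c0c350034c81fe1.shift 2 0), rh8d4c9c20a908d33b, (rha9fbfd4bb8cf890b.shift 1 3)] (by decide +kernel))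
noncomputable def rh7a15720c401fc00b : CRef := CRef.mk (Pat.mk 0x400000007000000000000000000000000000000000 0x1000000030000000300000007e000001ff000003ef000000f8000000f0000000a0 9 10) 0 0 (step_sound _ 164 [(rha978320ccc39971f.shift 0 2), (rha9fbfd4bb8cf890b.shift 1 4), (rhae8d21abc86b555a.shift 3 3), (rhbce8a01a6672718a.shift 2 0)] (by decide +kernel))
noncomputable def rh88a1a5e979ea3934 : CRef := CRef.mk (Pat.mk 0x2000000038000000000000000000000000 0x1c0000001e0000003f000001fe000001df0000001800000010 9 9) 0 0 (step_sound _ 129 [(rh2db347626dabd8fb.shift 0 2), (rh6b03ce8443ac6040.shift 0 3), (rh876086c78aa9d0e6.shift 0 2), (rhf96d18b2dd926dff.shift 1 0)] (by decide +kernel))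
noncomputable def rh0d44926e791670f3 : CRef := CRef.mk (Pat.mk 0x2000000038000000000000000000000000 0x40000000c0000003e0000003e0000007f0000000e0000000e 9 7) 0 0 (step_sound _ 98 [(rh21d582c147e7e118.shift 0 2), (rh7170cc1370c66062.shift 1 2), (rh76a5874def1a29c4.shift 1 0)] (by decide +kernel))
noncomputable def rh07105c453cfb0948 : CRef := CRef.mk (Pat.mk 0x200000003800000000000000000000000000000000 0x1c0000001e0000003c000000f8000001fc0000001f0000001c00000008 9 9) 0 0 (step_sound _ 134 [(rh06db8ceda6269a47.shift 2 3), (rh5f7b3bfbaf903d4f.shift 2 3), (rhe401600d466b97cd.shift 2 3), rhe9728339b906606e] (by decide +kernel))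
noncomputable def rhdb17f9d65a91b251 : CRef := CRef.mk (Pat.mk 0x80000000e000000000000000000000000 0x3000000030000000320000003b0000003e0000003f0000001c0000001c 9 6) 0 0 (step_sound _ 100 [rh5f27e0477c371a96, (rh7f83bd45b8e0f5e4.shift 1 0)] (by decide +kernel))
noncomputable def rh4a849ae4723e598b : CRef := CRef.mk (Pat.mk 0xc0000000c000000000000000000000000 0x1000000034000000740000007f0000007c0000007c0000007f0000003f 9 7) 0 0 (step_sound _ 67 [rh245a83f3c17e8bb0, (rh3cb04db3dd2b6a55.shift 2 0), rh9d50611360a342a6] (by decide +kernel))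
noncomputable def rhc06ad09d29e34cca : CRef := CRef.mk (Pat.mk 0xc0000000c000000000000000000000000 0x34000000770000007f0000007c000000780000003800000018 9 7) 0 0 (step_sound _ 100 [(rh79b3c29022acbdf3.shift 1 3), (rh9df87456f67e84e5.shift 2 1), rhb16a73b17f508dd1] (by decide +kernel))
noncomputable def rh357fbb7a21dfe169 : CRef := CRef.mk (Pat.mk 0x1800000018000000000000000000000000 0x200000002c000000ef000000fc000000d80000007c0000003e0000003e 9 8) 0 0 (step_sound _ 68 [(rh3cb04db3dd2b6a55.shift 3 0), (rh9d50611360a342a6.shift 1 0), rhb8b0231886cb7716] (by decide +kernel))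
noncomputable def rhb1968f7b81e4968d : CRef := CRef.mk (Pat.mk 0x180000000c000000000000000000000000 0x24000000340000001f0000003f0000003f0000003e00000038 9 6) 0 0 (step_sound _ 97 [(rh53b3c253cb0c65f4.shift 0 3), rh5e651343a16111b1] (by decide +kernel))
noncomputable def rh960a6d587b8b4cda : CRef := CRef.mk (Pat.mk 0x3000000060000000000000000000000000 0x1c0000007c000000ff000000fc000000fc0000006c000000c0000000c0000000c0 9 8) 0 0 (step_sound _ 131 [rh80ddf3b13611208a, (rhb739f4f82bb681b4.shift 2 3)] (by decide +kernel))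
noncomputable def rhe741dc8654cad4e9 : CRef := CRef.mk (Pat.mk 0x60000000c000000000000000000000000 0x1c0000003e0000003e0000003f000000380000000800000008 9 6) 0 0 (step_sound _ 100 [rh0c7bddc3748e9e86, (rhf48373e13d2bc128.shift 1 3)] (by decide +kernel))
noncomputable def rh361e3604aca8c3f4 : CRef := CRef.mk (Pat.mk 0xc0000001800000000000000000000000000000000 0x1e0000003e0000000f0000003f0000001f00000017000000070000000700000004 9 6) 0 0 (step_sound _ 161 [rh5fc9219076aa41ad, (rhb739f4f82bb681b4.shift 0 4)] (by decide +kernel))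
noncomputable def rh875bbac55023815e : CRef := CRef.mk (Pat.mk 0xc00000018000000000000000000000000 0x180000001c0000003c0000003f0000001f000000330000003200000030 9 6) 0 0 (step_sound _ 129 [(rhb739f4f82bb681b4.shift 0 3), rhfdd9c0c9d7ade82a] (by decide +kernel))
noncomputable def rha8459d2c4b64189d : CRef := CRef.mk (Pat.mk 0xc0000001800000000000000000000000000000000 0x60000000e000000ef0000007f0000001f00000037000000170000000700000004 9 8) 0 0 (step_sound _ 161 [rh257211536db277f3, (rhb739f4f82bb681b4.shift 0 4)] (by decide +kernel))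
noncomputable def rhc80759879746b47b : CRef := CRef.mk (Pat.mk 0x18000000100000000000000000 0x8000000380000007c0000007c000000fe0000003e000000ff000000ef0000006c 9 8) 0 0 (step_sound _ 69 [(rh3c3e23a02e82b2ed.shift 1 2), (rh5c5a2014709044d0.shift 1 2), rhc156fb3ec0abed94, rhe707fc7634527bb4] (by decide +kernel))
noncomputable def rh8a788bd0ac70215c : CRef := CRef.mk (Pat.mk 0xc0000001800000000000000000000000000000000 0x32000000360000003f0000003f0000001f00000007000000070000000700000004 9 6) 0 0 (step_sound _ 161 [rh6fc8cb74e2006f3a, (rhb739f4f82bb681b4.shift 0 4)] (by decide +kernel))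
noncomputable def rh008e852f7e9e2f3e : CRef := CRef.mk (Pat.mk 0xc0000001800000000 0x40000001c0000001f0000001f000000ff0000007f0000001c00000014 9 8) 0 0 (step_sound _ 65 [rh92c327dbc7203f5c, (rhb739f4f82bb681b4.shift 0 1)] (by decide +kernel))
noncomputable def rhb6727264509afb50 : CRef := CRef.mk (Pat.mk 0x38000000200000000000000000 0x40000001c0000007c000000ff000000ff000000f80000003e0000001c00000010 9 8) 0 0 (step_sound _ 131 [rh035bc65b2dad60c7, rhab232e3015c66f2f, (rhae8c41a72f3ea647.shift 2 1), (rhea3c36b66d54eaf8.shift 2 0), (rhfcb3bbbfd6e690db.shift 2 2)] (by decide +kernel))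
noncomputable def rhd080829967d16b2a : CRef := CRef.mk (Pat.mk 0x60000000c0000000000000000 0x20000002e0000002e0000003f0000003f0000003e0000003f0000001b0000000a 9 6) 0 0 (step_sound _ 68 [rh80cd5915113dc756, (rhf48373e13d2bc128.shift 1 2)] (by decide +kernel))
noncomputable def rhe6d18e8eb343bdea : CRef := CRef.mk (Pat.mk 0xc0000001800000000000000000000000000000000 0x1a0000001a0000003b0000003f0000001f00000037000000370000003700000004 9 6) 0 0 (step_sound _ 161 [rh1853dd3af8da44f9, (rhb739f4f82bb681b4.shift 0 4)] (by decide +kernel))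
noncomputable def rh249d8b84525652fa : CRef := CRef.mk (Pat.mk 0xc0000001800000000000000000000000000000000 0x1e0000003e000000370000003f0000001f00000007000000070000000700000004 9 6) 0 0 (step_sound _ 161 [(rhb739f4f82bb681b4.shift 0 4), rhbe17c3732f970a90] (by decide +kernel))
noncomputable def rh8e8abd6ba079adb7 : CRef := CRef.mk (Pat.mk 0x1800000018000000000000000000000000 0x1c0000001c0000005f000000df000000fc000000e80000002800000028 9 8) 0 0 (step_sound _ 67 [rhbd41c87a1e695cf8, rhc24ef288f4895ae7, (rhea7a1800d6f053bd.shift 3 0)] (by decide +kernel))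
noncomputable def rh0496789963a892ce : CRef := CRef.mk (Pat.mk 0x1800000018000000000000000000000000 0x100000001000000050000000df000000ff000000ef0000002c0000002c 9 8) 0 0 (step_sound _ 164 [(rh503dd4575245365b.shift 3 2), (rhc355bcc39d2b9dce.shift 1 2), rhe2672fa076b01d53] (by decide +kernel))
noncomputable def rhbf452253f699ef24 : CRef := CRef.mk (Pat.mk 0x1800000018000000000000000000000000 0xc0000001f0000003f0000001f0000001c0000000c0000000c0000000c 9 6) 0 0 (step_sound _ 67 [(rh4da5b91604be97a6.shift 0 1), (rh9954101f0efffb9e.shift 2 0), (rhea7a1800d6f053bd.shift 3 0)] (by decide +kernel))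
noncomputable def rhaa644370d44a8b9c : CRef := CRef.mk (Pat.mk 0x3800000010000000000000000000000000 0x3c0000007c000001ff000000fc000001d8000000480000000800000008 9 9) 0 0 (step_sound _ 163 [rh6e577222dc2a6858, (rha9fbfd4bb8cf890b.shift 0 4), (rhf60aa8aede119d3b.shift 0 4), (rhfe8117f69c40e9bb.shift 2 2)] (by decide +kernel))
noncomputable def rh92b0caa514b39a22 : CRef := CRef.mk (Pat.mk 0x3800000010000000000000000000000000 0x14000000f7000000ff0000001e0000000c0000000c0000000c 9 8) 0 0 (step_sound _ 99 [(rh2612b4f73ba7c3b3.shift 2 3), (rh30b1045e318f0560.shift 0 3), rh8f14b2945177a222] (by decide +kernel))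
noncomputable def rh8da368902fea0612 : CRef := CRef.mk (Pat.mk 0xe00000004000000000000000000000000 0x600000006000000070000003e00000077000000030000000300000003 9 7) 0 0 (step_sound _ 132 [(rhaf9f2efc81a8312b.shift 0 3), rhd79a59188b24ad76, (rhe401600d466b97cd.shift 0 3)] (by decide +kernel))
noncomputable def rh5250b75544e595f0 : CRef := CRef.mk (Pat.mk 0x380000001000000000 0x280000006c000001ff000000fe000001d600000044 9 9) 0 0 (step_sound _ 99 [(rha9fbfd4bb8cf890b.shift 0 2), rhb7195d76ec998de3, (rhf60aa8aede119d3b.shift 0 2), (rhfe8117f69c40e9bb.shift 2 0)] (by decide +kernel))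
noncomputable def rh78f1bc07316387b2 : CRef := CRef.mk (Pat.mk 0xe000000040000000000000000000000000 0xb0000001f0000001ff000000fe0000007f0000003c0000003800000030 9 9) 0 0 (step_sound _ 100 [(rh076be03eb7063320.shift 3 3), (rh7940a50a7592030f.shift 3 2), (rh8d4c873bf5a2b448.shift 0 1), (rhf68c507a132accef.shift 3 0)] (by decide +kernel))
noncomputable def rh305c9b0c016ce9bb : CRef := CRef.mk (Pat.mk 0xe0000000400000000 0x6000000070000003f0000003f0000000700000002 9 6) 0 0 (step_sound _ 68 [rh34d9484da156b64e, (rhaf9f2efc81a8312b.shift 0 1), (rhd4818950408b9032.shift 0 1)] (by decide +kernel))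
noncomputable def rhaf9843ced5136cd2 : CRef := CRef.mk (Pat.mk 0x1c000000100000000000000000 0x3800000038000000f8000000fc000000ff000000770000002000000020 9 8) 0 0 (step_sound _ 65 [(rha66e987b57d7b6a5.shift 1 0), (rhc8b21ffc3825c72d.shift 0 2), (rhf21df264e002a026.shift 0 2)] (by decide +kernel))
noncomputable def rh60c323e8c53e543d : CRef := CRef.mk (Pat.mk 0x1c000000100000000000000000 0x3800000038000000fa000001ff000000ff000001d70000000400000004 9 9) 0 0 (step_sound _ 65 [rh31ec6f084612c9e8, (rhe39023751549729f.shift 1 2), (rhf21df264e002a026.shift 0 2)] (by decide +kernel))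
noncomputable def rhcc685291c4c7d597 : CRef := CRef.mk (Pat.mk 0xe00000008000000000000000000000000 0x1c0000001c0000003f0000003e0000003b000000320000003000000030 9 6) 0 0 (step_sound _ 132 [(rh3cc3e986d9471888.shift 0 2), (rh92eeac1c1b6d8178.shift 1 0)] (by decide +kernel))
noncomputable def rh033eae1db6c483df : CRef := CRef.mk (Pat.mk 0xc0000000c000000000000000000000000 0x3800000078000000780000007c0000007f000000740000003400000010 9 7) 0 0 (step_sound _ 163 [(rh503dd4575245365b.shift 2 2), rh8cb6bf24ea4a6889, (rhb0cd061e88776087.shift 1 2)] (by decide +kernel))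
noncomputable def rh66e2578a3b67b253 : CRef := CRef.mk (Pat.mk 0xc0000000c0000000000000000 0x1800000038000000780000007c0000007f0000007600000034 9 7) 0 0 (step_sound _ 100 [(rh063984de564f46f2.shift 2 0), (rh2612b4f73ba7c3b3.shift 1 2), rhaf95df0d36d4cc41] (by decide +kernel))
noncomputable def rh5399cc7a53e3bd03 : CRef := CRef.mk (Pat.mk 0x1800000018000000000000000000000000 0x1c0000003c0000000f0000007b000000ff000000ef0000000400000004 9 8) 0 0 (step_sound _ 98 [rh6ea323944a4cae5f, rhbc3058e3cdb07978, (rhf9d36e158778ce35.shift 1 3)] (by decide +kernel))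
noncomputable def rhddbc2ac596079975 : CRef := CRef.mk (Pat.mk 0xc0000001800000000 0x18000000380000003f0000003f0000003800000010 9 6) 0 0 (step_sound _ 65 [rh681490eb5080e3cd, (rhb739f4f82bb681b4.shift 0 1)] (by decide +kernel))
noncomputable def rha6ea4e5497611205 : CRef := CRef.mk (Pat.mk 0xc00000018000000000000000000000000 0x140000003c0000003e0000007f0000003f0000001f000000340000003400000030 9 7) 0 0 (step_sound _ 129 [rh5aa170680b67ceee, (rhb739f4f82bb681b4.shift 0 3)] (by decide +kernel))
noncomputable def rhb53b3c20d510f743 : CRef := CRef.mk (Pat.mk 0x8000000080000000c0000000000000000 0xc0000000c0000001f0000007f0000003f0000003a00000018 9 7) 0 0 (step_sound _ 100 [rh017e4b43d934c206, (rh0bb882ba86b2372d.shift 0 2), rh3b1265350d0df04d] (by decide +kernel))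
noncomputable def rh5a10b4f7ca279946 : CRef := CRef.mk (Pat.mk 0x800000008000000180000000000000000 0x40000001c0000001c000000180000007c0000007f0000007e0000006e00000024 9 7) 0 0 (step_sound _ 98 [(rh3699c555d107ef6a.shift 1 0), (rh3c3e23a02e82b2ed.shift 0 2), (rh45df595d1ad06a3d.shift 0 1)] (by decide +kernel))
noncomputable def rh1898030ce7222015 : CRef := CRef.mk (Pat.mk 0x200000002000000030000000000000000000000000 0x2000000020000003ff000001fe000003ee0000004000000040 9 10) 0 0 (step_sound _ 102 [(rh1d0f71ab3af2f6cf.shift 0 2), (rh70e33bfdf511e144.shift 5 0)] (by decide +kernel))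
noncomputable def rh2dcb70cef80ae3cf : CRef := CRef.mk (Pat.mk 0x100000001000000030000000000000000000000000 0x380000003c000000f00000001f000000ff0000001f0000000c0000000c 9 8) 0 0 (step_sound _ 99 [(rh207f2ad74c7b3996.shift 1 2), (rh281c6819542c66e6.shift 3 0), rhff2feacb250fd5b8] (by decide +kernel))
noncomputable def rhaceecdc14555f89a : CRef := CRef.mk (Pat.mk 0x4000000040000000c000000000000000000000000 0x80000001c0000007f0000007f0000007f0000007a00000060 9 7) 0 0 (step_sound _ 100 [(rh49da656b2d03af26.shift 0 1), (rha7edc60fc34bffff.shift 0 3), rhd022b4831ce5c031] (by decide +kernel))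
noncomputable def rhe977bb18bb02c222 : CRef := CRef.mk (Pat.mk 0x8000000080000000c00000000 0x8000000380000007c0000007e0000007f0000007c0000001f00000010 9 7) 0 0 (step_sound _ 68 [(rh0bb882ba86b2372d.shift 0 1), (rhc62531948acd8eff.shift 1 0), rhf184e32ec8c39c4d] (by decide +kernel))
noncomputable def rh95a5826a1b373fec : CRef := CRef.mk (Pat.mk 0xc00000008000000080000000000000000000000000000000000000000 0x40000000c0000000c000000180000001f0000001f0000003c0000001f0000001c0000001c0000001c00000004 9 6) 0 0 (step_sound _ 130 [(rh1568b0aab31faa19.shift 2 0), (rh2636e543b9443f52.shift 0 3), (rhd023ec3f5681df44.shift 2 4)] (by decide +kernel))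
noncomputable def rhd5ab70764877306a : CRef := CRef.mk (Pat.mk 0x80000000800000000000000000000000000000000 0x40000000c0000001c0000001c0000003e0000007f0000007f0000001f00000014 9 7) 0 0 (step_sound _ 99 [(rh020140c103c93fec.shift 2 0), (rh47549b073e35a8c4.shift 2 0), (rh64bd489bba78bf42.shift 0 2), (rh7c2afc4d9bcfa653.shift 2 0), (rhd7fa1d58bcc187de.shift 2 0), (rhdddd600131b6e356.shift 2 0), rhf9e59c824f3b0204] (by decide +kernel))
noncomputable def rhbfc0e4d9c249c6c2 : CRef := CRef.mk (Pat.mk 0x80000000800000000000000000000000000000000 0x10000000180000001c0000001c0000003e0000007f0000007f0000001f00000014 9 7) 0 0 (step_sound _ 99 [(rh1096075aba1667fa.shift 2 0), (rhade579e70daceb87.shift 0 2), (rhb83e383ceeba9cfb.shift 2 0), (rhc62a46e58eaea6df.shift 2 0), (rhd29dbdc868406425.shift 2 0), rhf9e59c824f3b0204, (rhfb24f9e5e729af53.shift 2 0)] (by decide +kernel))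
noncomputable def rh2214d93bc190689e : CRef := CRef.mk (Pat.mk 0x800000008000000000000000000000000 0x140000001c0000001f0000003f0000003f0000003f0000001c0000001f0000000c0000000c 9 6) 0 0 (step_sound _ 163 [rh0de675b9b2df5438, rh1ae0e2a711db5be9, (rh3e53d14085adc43a.shift 2 1), (rh86402423187d4754.shift 2 0), (rh94e5492cee408f62.shift 2 1), (rha06b660268fc1c59.shift 2 0), (rha76abe68ac1648db.shift 0 2), rhcb2ac1a164deb6d5, (rhe3fd10b0286a4407.shift 2 1)] (by decide +kernel))
noncomputable def rhf7d07eb29a39252a : CRef := CRef.mk (Pat.mk 0x800000008000000000000000000000000 0x140000001c0000001f0000007f0000007f0000007e0000001c0000007c0000001800000018 9 7) 0 0 (step_sound _ 163 [(rh341941acc7fc9c20.shift 2 0), (rh4894811cc1c146d7.shift 2 0), (rh4bc8c7616bb67a25.shift 2 0), (rh83f7ba4d1a8a7c4d.shift 1 0), (rh8a7ef488ab906f98.shift 2 1), (rha76abe68ac1648db.shift 0 2), (rhc27a151b71f5a4ec.shift 2 0), (rhe3d633f659155c01.shift 2 1), (rhfc60e486baaa63e2.shift 2 1)] (by decide +kernel))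
noncomputable def rh8bf2aad0e3bc79fb : CRef := CRef.mk (Pat.mk 0x200000002000000000000000000000000000000000 0x3800000078000000be000001ff000001fe000003ff000001ff000000fc00000068 9 10) 0 0 (step_sound _ 132 [rh0a07fb48b19c18f5, (rh336fa6460b092621.shift 1 1), (rh568d5b5b202ff10e.shift 0 1), (rh6351ff4b1a1ab878.shift 2 0), (rh6fc3e9801e685b7a.shift 0 1), (rh873a73e773ca398b.shift 1 1), (rha5d8553e941f48f8.shift 1 0), (rhb6492e3f5132a212.shift 1 1), (rhcc807e0ab36ff40c.shift 1 0), (rhd08c5fcbd5b3590f.shift 0 1)] (by decide +kernel))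
noncomputable def rh2d66cdc9d4c64ed2 : CRef := CRef.mk (Pat.mk 0x80000000800000000000000000000000000000000 0x380000007f000000fb000001ff000000ff000001ff000000ff0000007e0000007c 9 9) 0 0 (step_sound _ 132 [(rh05ff66de35398d63.shift 0 1), rh220a209fe36a3bd2, (rh2729675db4655a7e.shift 0 1), rh4c6bfd6262424519, (rh602cf20b4ff36b8e.shift 0 1), rh6110e3a09bf4623b, (rhb03da0185267911d.shift 0 1), (rhb41791288256f303.shift 0 1), rhd4d70ebe85a309dd, (rhdc468552333fe454.shift 0 1), rhf1a6b67977901a9d, (rhf2fc0b62c8d6b4bd.shift 0 1)] (by decide +kernel))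
noncomputable def rhdcb93ced35a36c7d : CRef := CRef.mk (Pat.mk 0x2000000020000000000000000000000000 0x20000000fc000000fe000003ff000003ff000003ff000001be000001fc00000078 9 10) 0 0 (step_sound _ 132 [(rh007b31a7d5f08a75.shift 1 0), (rh16bc33bf164d2759.shift 1 0), (rh2f04d32f949da2fa.shift 1 0), (rh3de713b2d82dfbd1.shift 0 1), (rh618a3ab6fca46800.shift 1 0), (rh63c51576422a7221.shift 1 0), rh8b0c77621d4beec6, (rh934a9338f601cd47.shift 1 0), rh9dd1ffef0adcb1e2, (rha9fa4366f9b9eab4.shift 1 0), (rhb05b6b2839239ea5.shift 1 0), (rhbaa8e6f7d34b61f9.shift 0 1)] (by decide +kernel))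
noncomputable def rh723db9fe2767360f : CRef := CRef.mk (Pat.mk 0x800000008000000000000000000000000 0x580000007e000000fe000001ff000000ff000001ff000000fb0000007f00000038 9 9) 0 0 (step_sound _ 132 [rh094a7ce42905fd01, (rh0e0b01686e56d7be.shift 1 0), (rh1bc6cf4b287a3074.shift 0 1), (rh27a730c7e0a48b04.shift 1 0), rh43dca0641defcd37, (rh7549bfce21096111.shift 1 0), (rh9a0dd4efe3ff5978.shift 1 0), (rha27a178318e755a6.shift 0 1), rhc4be0ed6f6032b94, (rhc698aa87b1b20c96.shift 1 1), (rhe5d1a82d26fef883.shift 0 1)] (by decide +kernel))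
noncomputable def rha42649ed2de08f41 : CRef := CRef.mk (Pat.mk 0x8000000080000000000000000 0x140000001f0000007f0000007f0000007f0000003e0000007f00000077 9 7) 0 0 (step_sound _ 131 [rh37c5d8117132061b, (rh3e53d14085adc43a.shift 2 0), (rh7c4e65f468a3415f.shift 2 0), (rh94e5492cee408f62.shift 2 0), (rha76abe68ac1648db.shift 0 1), (rhef4211d0c904e20a.shift 2 0), (rhfc60e486baaa63e2.shift 2 0), (rhfdc52892caee784c.shift 2 0)] (by decide +kernel))
noncomputable def rh7236853e11f05bf7 : CRef := CRef.mk (Pat.mk 0x80000000800000000000000000000000000000000 0x140000001f0000003f0000003f0000000c0000003e0000007f0000001f0000001c00000014 9 7) 0 0 (step_sound _ 195 [(rh0bfcbc591bbec471.shift 2 0), (rh0d8722375899aa21.shift 0 3), (rh3e53d14085adc43a.shift 2 2), (rhef4211d0c904e20a.shift 2 2), (rhf9e59c824f3b0204.shift 0 1), (rhfc60e486baaa63e2.shift 2 2)] (by decide +kernel))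
noncomputable def rh0593f0d8a4601370 : CRef := CRef.mk (Pat.mk 0x80000000800000000000000000000000000000000 0x140000007c0000007e0000007e000000180000003e0000007f0000007c0000001c00000014 9 7) 0 0 (step_sound _ 195 [(rh2a35df86be462918.shift 2 0), (rh3e53d14085adc43a.shift 2 2), (rh882b8301160d4c0f.shift 0 1), (rh94e5492cee408f62.shift 2 2), (rh9c14bebec089f6fb.shift 1 3), (rhd62be3748eb48185.shift 2 1), (rhfc60e486baaa63e2.shift 2 2)] (by decide +kernel))
noncomputable def rhf34c4e2e53417a6a : CRef := CRef.mk (Pat.mk 0x8000000080000000000000000000000000000000000000000 0x140000001f0000003f0000003f0000000c0000003e0000007f0000001f0000001c00000014 9 7) 0 0 (step_sound _ 131 [(rh020140c103c93fec.shift 2 1), (rh0bfcbc591bbec471.shift 2 0), (rh0d8722375899aa21.shift 0 3), (rh3e53d14085adc43a.shift 2 2), (rhef4211d0c904e20a.shift 2 2), (rhf9e59c824f3b0204.shift 0 1), (rhfc60e486baaa63e2.shift 2 2)] (by decide +kernel))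
noncomputable def rhd1008913703b9b00 : CRef := CRef.mk (Pat.mk 0x8000000080000000000000000000000000000000000000000 0x140000007c0000007e0000007e000000180000003e0000007f0000007c0000001c00000014 9 7) 0 0 (step_sound _ 131 [(rh2a35df86be462918.shift 2 0), (rh3e53d14085adc43a.shift 2 2), (rh882b8301160d4c0f.shift 0 1), (rha809b4647c0c62be.shift 1 3), (rhcd38772cceaf9e75.shift 2 2), (rhd62be3748eb48185.shift 2 1), (rhfc60e486baaa63e2.shift 2 2)] (by decide +kernel))
noncomputable def rh9d0a6ba72aa88caf : CRef := CRef.mk (Pat.mk 0x200000002000000000000000000000000000000000 0x4000000dc000000dc000001de000003ff000003fe000003ff000001fe000000fc0000001c 9 10) 0 0 (step_sound _ 132 [(rh1fd3ca3faafb6404.shift 0 1), (rh2166dd8680ca3773.shift 1 1), rh37ba98f974ac5a4e, (rh3b168c4b88ac0352.shift 1 1), (rh4c39853121fdd09d.shift 2 1), (rh6fc3e9801e685b7a.shift 0 1), rh701c12b087b9f1a7, (rh8681ff38b1e5ea59.shift 2 1), (rh87576c8072575422.shift 1 1), (rha4f1e42b022a1648.shift 1 1), (rha801b8dbe8dbe86a.shift 1 1), (rhb571029d6ca0caa9.shift 1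 1), (rhb94ec00ebd6c01ae.shift 0 1), rhd737ad59582b2580] (by decide +kernel))
noncomputable def rh72378ca4854ca59d : CRef := CRef.mk (Pat.mk 0x200000002000000000000000000000000000000000 0xfc000001fe000003ff000003fe000001ff000001de000000fc000000fc00000014 9 10) 0 0 (step_sound _ 164 [rh07de3c16f9f8004b, (rh234d9cf4394353e2.shift 0 1), (rh5574c3e02ac99d1f.shift 1 1), (rh59604e8eb9613db1.shift 2 1), (rh69c6f69ff3d89fbc.shift 1 1), (rh8b0c77621d4beec6.shift 0 1), (rh9dd1ffef0adcb1e2.shift 0 1), (rhae4cba51bc6037c6.shift 1 0), (rhbbd191d8ba3fca91.shift 1 1), rhbf09acdf2e068648, (rhceb1afad826de4fd.shift 2 0), (rhfc374d0779754224.shift 1 1)] (by decide +kernel))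
end Crest.Agent.S0047.Helper85.Cert
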