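import Crest.Agent.Lib.S0047.Helper85CertPL9F0
import Crest.Agent.Lib.S0047.Helper85CertPL9F1
import Crest.Agent.Lib.S0047.Helper85CertPL9F2
import Crest.Agent.Lib.S0047.Helper85CertPL9F3
import Crest.Agent.Lib.S0047.Helper85CertPL9F4
import Crest.Agent.Lib.S0047.Helper85CertPL9F5
import Crest.Agent.Lib.S0047.Helper85CertPL9F6
set_option autoImplicit false
set_option linter.all false
set_option Elab.async false
namespace Crest.Agent.S0047.Helper85.Cert
open Crest.Agent.S0047.Helper85

noncomputable def rhe2c24440905e1c2c : CRef := CRef.mk (Pat.mk 0x100000001000000050000000000000000000000000 0x280000003800000038000000770000003e0000003f00000020 10 7) 0 0 (step_sound _ 68 [(rh373b7625e672cfd8.shift 3 1), (rh6c59ce14113da07f.shift 4 0), (rh8ff3dde5b1c639e0.shift 3 0), (rhaa888255046f4cf0.shift 0 1)] (by decide +kernel))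
noncomputable def rh1191921b8898c443 : CRef := CRef.mk (Pat.mk 0x800000008000000080000002800000000 0x140000001f0000007f0000007f0000003800000030 10 7) 0 0 (step_sound _ 130 [(rh50fbb5868c909700.shift 2 1), rhbf323f01c0fc819b] (by decide +kernel))
noncomputable def rh971f41511bd3a7b8 : CRef := CRef.mk (Pat.mk 0x10000000100000005000000000 0x28000001ff000001fe000003be000000300000007000000060 10 10) 0 0 (step_sound _ 132 [(rh1741680720c097b4.shift 3 1), (rh5abfc4c9d959be03.shift 3 0), (rh95a595f69c3fdc53.shift 0 1), (rhc084dc44956ba4bb.shift 2 0)] (by decide +kernel))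
noncomputable def rh2e4a14ffce9b24de : CRef := CRef.mk (Pat.mk 0x800000008000000080000002800000000 0x74000000ff0000007f0000003f0000003800000010 10 8) 0 0 (step_sound _ 130 [(rh50fbb5868c909700.shift 2 1), rhccb2c52b045fb720] (by decide +kernel))
noncomputable def rh27076ce864096de5 : CRef := CRef.mk (Pat.mk 0x100000001000000050000000000000000000000000 0x280000003800000038000000770000003e0000003f00000028 10 7) 0 0 (step_sound _ 68 [(rh43cb184e902e5902.shift 0 1), (rh6c59ce14113da07f.shift 4 0), (rhc4526fc8abf298b6.shift 3 0)] (by decide +kernel))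
noncomputable def rh0b4d5ca2b621a449 : CRef := CRef.mk (Pat.mk 0x2000000020000000a0000000000000000000000000 0x10000000100000007de000003fe000007ff000000a0000000b00000003000000010 10 11) 0 0 (step_sound _ 69 [(rhc4055b4872d6fb38.shift 4 1), (rhc4526fc8abf298b6.shift 4 0), (rhcab3157f7bdcba3e.shift 4 0), (rhf8d90cf890be5891.shift 0 2)] (by decide +kernel))
noncomputable def rh4066231165975f9b : CRef := CRef.mk (Pat.mk 0xa000000020000000a0000000000000000000000000 0x800000018000001bf000001fe000001f7000003e4000000e0000001c00000018000000180 10 10) 0 0 (step_sound _ 197 [(rh377cf2e686332010.shift 0 3), (rh5abfc4c9d959be03.shift 4 2), (rh8785c6180af7a50d.shift 4 0)] (by decide +kernel))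
noncomputable def rh582109742dd3e578 : CRef := CRef.mk (Pat.mk 0x28000000080000002800000000000000000000000000000000 0x6c0000007c000003ef000001fe000003b8000000f0000000700000007000000010 10 10) 0 0 (step_sound _ 165 [(rh04d632eb6ebaea8f.shift 0 4), (rh057314d76133c074.shift 2 1), rh77124603720f6fed, (rh7b3748940e4fced1.shift 3 1), (rhefb997691363717d.shift 0 1)] (by decide +kernel))
noncomputable def rh76bc3e01c6e83c24 : CRef := CRef.mk (Pat.mk 0x100000001000000050000000000000000000000000 0x280000003800000038000000770000003e0000003f00000008 10 7) 0 0 (step_sound _ 68 [(rh43cb184e902e5902.shift 0 1), (rhc4055b4872d6fb38.shift 3 1), (rhc4526fc8abf298b6.shift 3 0), (rhcab3157f7bdcba3e.shift 3 0)] (by decide +kernel))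
noncomputable def rh5e1639f7f74a5de2 : CRef := CRef.mk (Pat.mk 0x100000001000000070000000000000000000000000 0x2f000000ff000000fe00000070000000180000001800000008 10 8) 0 0 (step_sound _ 68 [(rh3bf7f2e0caae78ff.shift 0 2), (rhc4055b4872d6fb38.shift 3 1), (rhc4526fc8abf298b6.shift 3 0), (rhcab3157f7bdcba3e.shift 3 0)] (by decide +kernel))
noncomputable def rh6dc6369470812c85 : CRef := CRef.mk (Pat.mk 0x100000001000000050000000000000000000000000 0x280000003800000018000000770000003e0000003f00000028 10 7) 0 0 (step_sound _ 68 [(rh43cb184e902e5902.shift 0 1), (rh6eff4158bb400f47.shift 3 0), (rh8ff3dde5b1c639e0.shift 3 0), (rhc4526fc8abf298b6.shift 3 0)] (by decide +kernel))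
noncomputable def rh0f34cb17fa1e50af : CRef := CRef.mk (Pat.mk 0x400000004000000140000000000000000 0x20000000e0000000e0000003e000000360000007f0000007f0000001c0000000c00000008 10 7) 0 0 (step_sound _ 162 [(rh20e56a1196e70fcc.shift 1 1), (rh3b31f37766e4cb85.shift 1 1), (rh5abfc4c9d959be03.shift 1 1), (rh5ad9898cc32ef511.shift 1 0), (rh85608fea03c74af2.shift 0 1), (rh916fd83c93fa81d6.shift 1 2)] (by decide +kernel))
noncomputable def rh4da87348060446ce : CRef := CRef.mk (Pat.mk 0xc0000002800000028000000000000000000000000 0xe00000007c0000006e00000028000001ff000000fe000001ff 10 9) 0 0 (step_sound _ 36 [(rh94c7fd09ab010950.shift 1 0), (rha657070f4efcd1c9.shift 2 0), rhd03a4a49349f4b84, (rhff763b75cad9671b.shift 2 0)] (by decide +kernel))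
noncomputable def rh7026ae958fd0d99c : CRef := CRef.mk (Pat.mk 0x2000000060000000400000010000000000 0x140000001c0000001c00000f7f000007fe00000fff0000011800000118 10 12) 0 0 (step_sound _ 103 [(rh11c0d30a130f4f38.shift 3 0), rh6221b0f5dca2390f, (rh7af882bee0289bdd.shift 4 2), (rhe2f93f751a1b2a86.shift 4 0)] (by decide +kernel))
noncomputable def rhc36cc9c38c1af9c1 : CRef := CRef.mk (Pat.mk 0x10000000000000003000000020000000a000000000 0x4000000070000001f0000003a7000001fe000001ff000000e0000000c0 10 10) 0 0 (step_sound _ 133 [(rh41b8be278618af7d.shift 4 2), rh8661f9d68f18787f, (rh90b558dcae53cbf1.shift 4 1), (rhab6c47cc6555dc65.shift 4 0), (rhd4b6b9892a6b2a26.shift 3 0)] (by decide +kernel))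
noncomputable def rhb5f8565f5ebda1d7 : CRef := CRef.mk (Pat.mk 0x2c000000080000002800000000000000000000000000000000 0x68000000680000006f0000007c000003b8000001f0000003f00000007000000010 10 10) 0 0 (step_sound _ 165 [(rh6dd02677ad6e89f6.shift 2 0), (rh6fbc1776ad95426d.shift 2 1), (rh8c25cb665ab79ec0.shift 0 5), (rhe634133f32aad99b.shift 2 0), (rhf2122432506f5158.shift 3 1)] (by decide +kernel))
noncomputable def rh5432060bdf8cee78 : CRef := CRef.mk (Pat.mk 0xc0000001800000010000000100000000000000000 0x3000000034000000370000001f0000001f0000003b000000370000002700000005 10 6) 0 0 (step_sound _ 161 [rh18ed72313ed88b00, (rhb739f4f82bb681b4.shift 0 4)] (by decide +kernel))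
noncomputable def rha040a1a727b058b2 : CRef := CRef.mk (Pat.mk 0x10000000d000000080000000000000000000000000 0x800000038000000380000003800000018000000dc000000ff0000003e0000003f00000028 10 8) 0 0 (step_sound _ 100 [rh3c9e0b3716fdbd0d, (rh4e2b5ea0a9027acd.shift 3 1), (rh5b07087ef1733ff9.shift 3 0), (rh9a7cc2dbc0c1b964.shift 3 0), (rhb1127bace8588ebe.shift 3 2), (rhecbbb221a43cdaac.shift 3 2), (rhefcbe7532e5bbfa6.shift 3 2)] (by decide +kernel))
noncomputable def rh9873b41f3c8bad1b : CRef := CRef.mk (Pat.mk 0x100000001000000010000000000000000000000000 0x8000000180000001c0000007f0000003e0000003f00000028 10 7) 0 0 (step_sound _ 68 [(rh051ffbf115d10406.shift 0 1), (rh46baee19951a66e7.shift 3 0), (rh6eff4158bb400f47.shift 3 0), (rhc4526fc8abf298b6.shift 3 0)] (by decide +kernel))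
noncomputable def rh44db5328aa831181 : CRef := CRef.mk (Pat.mk 0xe000000180000000000000000 0x3e0000003e000000370000001e0000001b0000000f00000007 10 6) 0 0 (step_sound _ 100 [rh2e7d4dac8c353942, (rh5ba2d67652840f34.shift 1 1), (rhab2c53c47d2bd20d.shift 0 2)] (by decide +kernel))
noncomputable def rh592c1975d0380ab1 : CRef := CRef.mk (Pat.mk 0x10000000380000002000000000 0xc0000000c0000001c0000001c0000001f000000fc0000002f0000000c 10 8) 0 0 (step_sound _ 132 [rh1f3be57e84bf30c2, (rh2145e1d24b96a57e.shift 4 1)] (by decide +kernel))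
noncomputable def rh8ae8a1ae5e711bfb : CRef := CRef.mk (Pat.mk 0x1e000000080000000800000000 0x10000000f0000001f0000000f0000001e0000003b0000001a00000010 10 6) 0 0 (step_sound _ 162 [(rh3abbcec94d8897a0.shift 0 1), (rhd085fda4eebe4cce.shift 1 0), (rhf02b481d084920bc.shift 0 1), (rhf4bcdf19b6922e31.shift 2 1)] (by decide +kernel))
noncomputable def rh8bc6dab553977be3 : CRef := CRef.mk (Pat.mk 0x58000000100000005000000000000000000000000000000000 0x80000000d0000000d0000003d8000000ff00000777000003e0000007e0000000e000000020 10 11) 0 0 (step_sound _ 166 [(rh5d91ec4eb06a1f14.shift 3 3), (rh6dd02677ad6e89f6.shift 3 0), (rhe634133f32aad99b.shift 3 0), (rhe65802a23c5fff7a.shift 0 4), (rhf2122432506f5158.shift 4 1)] (by decide +kernel))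
noncomputable def rh0a9dcd3f8a14b74e : CRef := CRef.mk (Pat.mk 0xc0000001800000000000000000000000000000000 0xe7000000ff0000001f00000003000000070000000700000004 10 8) 0 0 (step_sound _ 161 [rh0151de16fedc93e3, (rhb739f4f82bb681b4.shift 0 4)] (by decide +kernel))
noncomputable def rhc5bc25a50fa28a78 : CRef := CRef.mk (Pat.mk 0x3800000020000000a00000003000000000 0x388000003f8000007fc000000ef000000be0000000f 10 11) 0 0 (step_sound _ 35 [rh46ed69140c9a6fa8, rhb12ffaec36122c99, (rhca629e66a8b72841.shift 2 0), (rhe8fbb80a53dcfec6.shift 1 0)] (by decide +kernel))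
noncomputable def rh2e172346f825f4ef : CRef := CRef.mk (Pat.mk 0x800000008000000280000000000000000000000000000000000000000 0x40000001c0000001c0000001c0000000c0000001c0000001c000000380000001f0000000c0000001c0000001c00000014 10 6) 0 0 (step_sound _ 259 [(rh20e56a1196e70fcc.shift 2 4), (rh3b31f37766e4cb85.shift 2 4), (rh66ee4e4e1313f0fc.shift 2 5), rh7de6d156408aa48a, (rh916fd83c93fa81d6.shift 2 5)] (by decide +kernel))
noncomputable def rh6e93893397f42e5b : CRef := CRef.mk (Pat.mk 0x1000000010000000500000000000000000 0x80000003800000038000000f8000000d8000001fc000001fc000000770000003e0000002f 10 9) 0 0 (step_sound _ 164 [(rh3b31f37766e4cb85.shift 3 1), (rh5abfc4c9d959be03.shift 3 1), (rh66ee4e4e1313f0fc.shift 3 2), (rh85608fea03c74af2.shift 2 1), (rh916fd83c93fa81d6.shift 3 2), rh98206e597e425467] (by decide +kernel))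
noncomputable def rha8dd4fe2013a35ff : CRef := CRef.mk (Pat.mk 0x1c0000001000000040000000000000003000000000000000000000000000000000 0xa0000000f0000000dc000000f800000040000003ce000001fe000003ff000001c0000001c000000140 10 10) 0 0 (step_sound _ 230 [rh2ad2172e3cf2a144, (rh68691964b29f233d.shift 2 7)] (by decide +kernel))
noncomputable def rhbd5585e56b08b904 : CRef := CRef.mk (Pat.mk 0x20000000200000001000000010000000000000000000000000000000000000000000000000 0x20000000300000001800000038000000ff000000fe0000003f000000380000003800000028 10 8) 0 0 (step_sound _ 164 [(rh1006c02ae4212ff0.shift 4 5), rh6e92fbf156249ebf] (by decide +kernel))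
noncomputable def rha9628422bce4c73f : CRef := CRef.mk (Pat.mk 0x80000000800000028000000000000001c00000000 0x3cc000001f8000003b8000000e70000007e000000f0 10 10) 0 0 (step_sound _ 37 [rh0d378fd9e8917c5a, (rh3fc3a7fb6866dcd4.shift 2 0), (rh88e993a798b2fb1d.shift 2 0)] (by decide +kernel))
noncomputable def rh71c4718db646c800 : CRef := CRef.mk (Pat.mk 0xe0000000400000000000000000000000000000000 0x700000003e0000007f00000038000000380000003800000020 10 7) 0 0 (step_sound _ 164 [rh5d4520359f65dede, (rha93a5dd541ab8209.shift 1 4), (rhaf9f2efc81a8312b.shift 0 4)] (by decide +kernel))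
noncomputable def rh0692f2057e3370dc : CRef := CRef.mk (Pat.mk 0x100000001000000050000000000000007000000000 0x798000003f000000770000000ce000000fe000001f7 10 11) 0 0 (step_sound _ 35 [rh598c96e05d977516, (rh7618364b9b53dd13.shift 3 0), (rh88e993a798b2fb1d.shift 3 0)] (by decide +kernel))
noncomputable def rha096a81150b01aff : CRef := CRef.mk (Pat.mk 0x200000000000000038000000000000000000000000000000000 0x200000002200000067f000003fe000003ff000001700000017000000020 10 11) 0 0 (step_sound _ 134 [(rh3927159016129638.shift 6 1), (rh775ca1963e850b80.shift 4 3), rha10b0f8874ebe3ae] (by decide +kernel))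
noncomputable def rhd74bb3bc4ff8d3e6 : CRef := CRef.mk (Pat.mk 0x3800000020000000000000000000000000 0x6000000060000000f0000003e0000003f0000000e0000000e00000006 10 6) 0 0 (step_sound _ 130 [(rh0de499e0455c9c14.shift 0 3), (rh775ca1963e850b80.shift 0 3), (rhaba6d9a8917e807f.shift 1 0), (rhd1d05263fabc0227.shift 0 3)] (by decide +kernel))
noncomputable def rh778247b0f47f9b13 : CRef := CRef.mk (Pat.mk 0x100000001000000010000000000000000000000000000000000000000000000000 0x100000003f000000ff000000ff0000003f00000038000000380000003800000028 10 8) 0 0 (step_sound _ 164 [(rh205c0e7b51974562.shift 0 1), (rh7e5e05fe8b88cbeb.shift 0 4), rh89bb75cc4b094d9b, (rh8c3964c7e5ef9e0f.shift 3 1), (rh8cdd36b03d57a2f6.shift 3 3), (rhcf247c81eb259d78.shift 1 1)] (by decide +kernel))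
noncomputable def rh8fa8434912cf37bb : CRef := CRef.mk (Pat.mk 0x70000000000000000000000000 0x4000000040000003f7000007fe00000fce0000008000000080 10 12) 0 0 (step_sound _ 71 [(rh0deb2ebc850de581.shift 3 1), (rh190d949639737c5d.shift 0 2), (rh2d0bc67ea3ebe7bf.shift 4 0), (rh71efda916732b25a.shift 3 2)] (by decide +kernel))
noncomputable def rh75b8c67102b969b0 : CRef := CRef.mk (Pat.mk 0x8000000080000001c000000000000000000000000 0x600000006000000068000000f8000000ff000000f00000003000000030 10 8) 0 0 (step_sound _ 132 [(rh1357d49ef66cf2d8.shift 0 1), (rhcb8ca8f27c2c9709.shift 2 0), (rhf9d36e158778ce35.shift 1 3)] (by decide +kernel))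
noncomputable def rh20e9c771a70657a1 : CRef := CRef.mk (Pat.mk 0x20000000000000001000000010000000000000000000000000000000000000000000000000 0x2000000020000000300000003800000038000000ff000000fe0000003f000000380000003800000028 10 8) 0 0 (step_sound _ 164 [(rh2d9fb7ccdcfc0559.shift 4 4), rh6e92fbf156249ebf, (rh9c1db2c8967fb481.shift 4 5)] (by decide +kernel))
noncomputable def rhba05194098db1a39 : CRef := CRef.mk (Pat.mk 0x20000000000000001000000010000000000000000000000000000000000000000000000000 0x200000003000000038000000ff000000ff000000ff0000003f000000380000003800000028 10 8) 0 0 (step_sound _ 164 [rh6e92fbf156249ebf, (rha91a00b542328b7c.shift 4 4), (rhad720eccae6656cf.shift 3 3), (rhf882baaa6b0c0ea3.shift 0 4)] (by decide +kernel))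
noncomputable def rh0b4b70be62215122 : CRef := CRef.mk (Pat.mk 0x6000000070000000400000010000000000000000000000000 0xa0000000e0000000e000000340000003e000000370000003e00000018000000300000003000000030 10 6) 0 0 (step_sound _ 196 [(rh361cc68994bd8a63.shift 0 5), rh911ac4e1dacbd724] (by decide +kernel))
noncomputable def rh41f3b2531f84bc22 : CRef := CRef.mk (Pat.mk 0x400000002000000020000000a0000000800000000 0x770000003e0000007b0000007a0000001f0000000c00000008 10 7) 0 0 (step_sound _ 161 [(rh2f68792b6b779e96.shift 1 2), rh7cc28d2a247e2c29] (by decide +kernel))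
noncomputable def rhfd4f43320c091382 : CRef := CRef.mk (Pat.mk 0x24000000240000002000000020000000000000000000000000 0xa0000000e0000000e0000000e0000002600000026000000670000003e0000001f0000000e0000000a 10 7) 0 0 (step_sound _ 100 [rh85b01d9584f512bf, (rh932754581e0f4330.shift 4 2)] (by decide +kernel))
noncomputable def rh34c0dc43c7a68784 : CRef := CRef.mk (Pat.mk 0x8000000080000000800000000 0x140000007c0000007f000000ff0000007c000000180000001800000010 10 8) 0 0 (step_sound _ 131 [(rh5abfc4c9d959be03.shift 2 0), (rh9325dbf7239a344b.shift 1 1), rh9b2988a4b28705cf, (rhc85cc95794737cf7.shift 2 1), (rhced6d86d2069808b.shift 3 0)] (by decide +kernel))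
noncomputable def rhfcb2054b994b665b : CRef := CRef.mk (Pat.mk 0x4000000040000000200000002 0xa0000003e0000003f0000003f0000000c0000000c0000000e00000002 10 6) 0 0 (step_sound _ 130 [(rh9325dbf7239a344b.shift 0 1), (rheea67dfebd0f8008.shift 1 0)] (by decide +kernel))
noncomputable def rhdeec3a0543b3de95 : CRef := CRef.mk (Pat.mk 0x20000000a0000000a0000000a000000000000000000000000000000000 0x12000000160000001e0000001bf000000fe000000ee000001a0000001e0000001c000000040 10 9) 0 0 (step_sound _ 230 [(rh2f68792b6b779e96.shift 5 4), rh8aec352348d38d0e] (by decide +kernel))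
noncomputable def rh2f2c0929e2e08300 : CRef := CRef.mk (Pat.mk 0x80000000a0000000a000000080 0x40000000c0000000c0000001bf000000fe000000ce 10 9) 0 0 (step_sound _ 134 [rh1e30a2fbacc1c632, (rhffd04209dc8ea796.shift 6 0)] (by decide +kernel))
noncomputable def rh839093b1409ed775 : CRef := CRef.mk (Pat.mk 0xa0000000a0000000a00000008 0x10000003f0000001f0000003f0000001a0000000b0000000f0000000c 10 6) 0 0 (step_sound _ 129 [(rh1741680720c097b4.shift 0 1), rh1fc2e2f6d96d147d, rh57c9c96ef1b80664, rh5b87d4a288b0815e, rh613e10745af1c384, rhfcdb6927db14af1b] (by decide +kernel))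
noncomputable def rhf0d44f97a053c7d4 : CRef := CRef.mk (Pat.mk 0x20000000a0000000a000000020 0x400000006000000060000001bf000000fe0000006e 10 9) 0 0 (step_sound _ 134 [(rhbaefcd01e0a8bca3.shift 5 0), rhc479c29c136303c7] (by decide +kernel))
noncomputable def rha3c433945bd4ffeb : CRef := CRef.mk (Pat.mk 0x2000000020000000a0000000e0000002000000000 0x3d0000005f000000fa0000007e0000002e0000002000000020 10 8) 0 0 (step_sound _ 162 [(rh2f68792b6b779e96.shift 1 2), rh8a8cec1e081b70ce] (by decide +kernel))
noncomputable def rh5a78679ff74b95b2 : CRef := CRef.mk (Pat.mk 0x40000001400000000000000180000000800000000 0x1c0000001c00000018000000f8000000ff00000027 10 8) 0 0 (step_sound _ 131 [(rh2613c889e411427e.shift 2 1), rhe4aaa8a948caed0b] (by decide +kernel))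
noncomputable def rh43f8d91c52a7bd75 : CRef := CRef.mk (Pat.mk 0xe00000002000000000000000000000000000000000 0x4000000040000018e000000fe000001ff000001c8000001c8000001c000000100 10 9) 0 0 (step_sound _ 164 [(rh46e0714526103aca.shift 0 4), (rh5d4520359f65dede.shift 3 0), (rh7c446a5779c6be66.shift 0 4), (rhbb13f9e1d387f64a.shift 1 4), (rhcd9ef1231b0bde49.shift 1 2)] (by decide +kernel))
noncomputable def rh8fc171977aa410fe : CRef := CRef.mk (Pat.mk 0x400000000000000020000000200000002000000000 0x400000006000000020000003ff000001fe000003d7 10 10) 0 0 (step_sound _ 133 [(rhbaefcd01e0a8bca3.shift 5 1), rhd0fa2a17490a5abb] (by decide +kernel))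
noncomputable def rh949095b30c3e0b8a : CRef := CRef.mk (Pat.mk 0x100000001000000010000000000000000000000000000000000000000000000000 0x100000003f000000ff000000ff0000003f00000038000000380000003800000028 10 8) 0 0 (step_sound _ 164 [(rh16632f1119031042.shift 3 1), (rh2eb10c7e3a3a9b8f.shift 1 2), (rh5c7e58494a2980ac.shift 0 1), (rh61cedbc46ecc4102.shift 0 4), rh89bb75cc4b094d9b, (rh8cdd36b03d57a2f6.shift 3 3)] (by decide +kernel))
noncomputable def rh0beb57aeb9b7a753 : CRef := CRef.mk (Pat.mk 0xe0000000400000000000000000000000000000000 0xf00000007e000000ff00000038000000380000003800000020 10 8) 0 0 (step_sound _ 164 [(rh352b7f91eba0c81f.shift 1 4), rh5d4520359f65dede, (rhaf9f2efc81a8312b.shift 0 4), (rhdbe30b89b8872db3.shift 1 4)] (by decide +kernel))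
noncomputable def rh263fba80d91f9897 : CRef := CRef.mk (Pat.mk 0x10000000100000001000000070 0x1ef000000fe000001de0000003e00000074 10 9) 0 0 (step_sound _ 101 [(rh2f68792b6b779e96.shift 4 0), rhebf92a14d849ab81] (by decide +kernel))
noncomputable def rh7cc0287deada829a : CRef := CRef.mk (Pat.mk 0x20000000e0000000400000000000000000 0x180000001800000018000001ff000000fe0000007f0000001800000018 10 9) 0 0 (step_sound _ 100 [(rh15b856e33c69f807.shift 1 2), (rh367bf2d234260c9c.shift 0 2), (rh775ca1963e850b80.shift 2 2), (rhb571f2abe18c03ed.shift 0 2), (rhef05a465ca648b3b.shift 3 0)] (by decide +kernel))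
noncomputable def rhec5553bf46c8eedb : CRef := CRef.mk (Pat.mk 0x180000000000000050000000000000000000000000 0x28000000380000003800000038000000380000007f0000007e00000018000000770000003e0000003f00000028 10 7) 0 0 (step_sound _ 132 [(rh546e0e4132b4fd3d.shift 0 3), rha321187b1b18b0a1, (rhb1a251d9bff81766.shift 3 2)] (by decide +kernel))
noncomputable def rh7679ee4327fa1124 : CRef := CRef.mk (Pat.mk 0xc0000000c000000080000002800000000 0x20000000200000013000001df000000ff000001ef0000003800000030 10 9) 0 0 (step_sound _ 132 [(rh2f68792b6b779e96.shift 3 1), rh56afbd62fb0ef66e] (by decide +kernel))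
noncomputable def rh46db19d9364aebc6 : CRef := CRef.mk (Pat.mk 0x10000000380000000000000000 0x3c0000003f0000007f0000003f000000fc0000001800000008 10 8) 0 0 (step_sound _ 99 [(rh5c5a2014709044d0.shift 1 2), (rh79b3c29022acbdf3.shift 2 2), rh7e53074b0f9ceec1, (rha9fbfd4bb8cf890b.shift 0 2), rhea2130d68f7199bf] (by decide +kernel))
noncomputable def rh02f438dd9c55f41f : CRef := CRef.mk (Pat.mk 0x2000000030000000100000014000000040000000000000000000000000 0x200000003000000010000001de000001ff000001fe000001e0000000a0 10 9) 0 0 (step_sound _ 100 [rh05209a6010a853be, (rh9e3edb185cc347de.shift 4 3)] (by decide +kernel))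
noncomputable def rh0ee7c13b7c1a37d1 : CRef := CRef.mk (Pat.mk 0xe0000000000000028000000000000000000000000 0x1000000010000001ff000000fe000001e800000028000000780000007000000050 10 9) 0 0 (step_sound _ 164 [rh18e39bc34e431067, (rh2a535ce68d5cfc5d.shift 0 2), (rha3cd6e417638cbd6.shift 1 0), (rhb705031692dfe65f.shift 1 2), (rheb0f9d555ed888e9.shift 1 2)] (by decide +kernel))
noncomputable def rh7006d034acc484f3 : CRef := CRef.mk (Pat.mk 0x180000000000000050000000000000000000000000 0x2800000038000000380000003800000038000000fc000000f8000000d8000000770000007e0000003f00000028 10 8) 0 0 (step_sound _ 132 [rha321187b1b18b0a1, (rhb1a251d9bff81766.shift 3 2), (rhe8ed4a60f97eb95a.shift 2 2)] (by decide +kernel))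
noncomputable def rh0f9c30bc5d168230 : CRef := CRef.mk (Pat.mk 0x1e0000000100000008000000000 0x377000001fe000000df0000008000000080 10 10) 0 0 (step_sound _ 136 [rh1e11cfbacd396af1, (rh33e738c4ed385b9f.shift 5 3)] (by decide +kernel))
noncomputable def rh0072bdce1b7039e6 : CRef := CRef.mk (Pat.mk 0x800000018000000100000014000000040000000000000000000000000 0x80000001800000010000001de000001ff000001fe000001e0000000a0 10 9) 0 0 (step_sound _ 100 [rh05209a6010a853be, (rh9e07f76261b05888.shift 3 3)] (by decide +kernel))
noncomputable def rh4cd13b25e9458eac : CRef := CRef.mk (Pat.mk 0x780000000000000020000000000000000000000000 0x170000007e0000003e00000020000000700000007000000050 10 7) 0 0 (step_sound _ 130 [(rh80fcd6d0a18cb2dd.shift 2 4), rhc1cdb717631e51b6] (by decide +kernel))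
noncomputable def rh6fa74b591035993a : CRef := CRef.mk (Pat.mk 0x7800000000000000500000000000000000 0xf80000001c000000770000003e0000003f 10 8) 0 0 (step_sound _ 99 [rh21b4edfe567084cf, (rheb0810cc63b001d8.shift 2 3)] (by decide +kernel))
noncomputable def rh9c211e958d948911 : CRef := CRef.mk (Pat.mk 0x3800000000000000a0000000000000000000000000 0x4000000050000007de000003fe000007b7000000a0000001e0000001c000000140 10 11) 0 0 (step_sound _ 166 [(rh1597be57f2f4e72d.shift 0 2), (rh18e39bc34e431067.shift 2 0), (rh2a535ce68d5cfc5d.shift 2 2), (rha3cd6e417638cbd6.shift 3 0), (rhb61ad485c4336967.shift 3 2)] (by decide +kernel))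
noncomputable def rhbcff1745f95e591b : CRef := CRef.mk (Pat.mk 0x380000000000000040000000000000000000000000 0x8000000080000003bf000001fe000003cf00000040000000e0000000e0000000a0 10 10) 0 0 (step_sound _ 162 [(rh18e39bc34e431067.shift 1 0), (rh54337a3e93086c81.shift 1 2), (rh775ca1963e850b80.shift 0 4)] (by decide +kernel))
noncomputable def rhf03d44b182dcee0d : CRef := CRef.mk (Pat.mk 0x7800000000000000000000003000000020 0xc70000007e0000000e000000040000003e00000077 10 8) 0 0 (step_sound _ 166 [(rh33e738c4ed385b9f.shift 3 4), rh7f8d226f8f3f7d29] (by decide +kernel))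
noncomputable def rhd5c8c3c53a192053 : CRef := CRef.mk (Pat.mk 0x400000004000000060000000400000004000000000 0x2000000078000000f8000003df0000007e0000007f000000dc0000001c 10 10) 0 0 (step_sound _ 100 [(rh1775efe41f56ac70.shift 5 1), rh9cf22e794dde129c, (rhb12ffaec36122c99.shift 1 2)] (by decide +kernel))
noncomputable def rhda6b6bc60ffc8152 : CRef := CRef.mk (Pat.mk 0x3000000000000000a000000000 0x15000000150000007ff000003fe000007bf000000a0000000a0 10 11) 0 0 (step_sound _ 69 [(rh7b24c4ccc068b0b2.shift 4 0), rha93e7f24c48cc3e2, (rhb1a251d9bff81766.shift 4 0), rhc3a1e4c133a28ddb, rhd62cf25b3bad2193] (by decide +kernel))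
noncomputable def rh18d920784454853f : CRef := CRef.mk (Pat.mk 0x80000000e000000000000001000000000000000000000000000000000 0x140000001f0000003f0000003f0000000c0000001e000000380000001000000010000000380000003800000028 10 6) 0 0 (step_sound _ 164 [(rh03e51a76ac91cc9f.shift 3 0), (rh1b8d735d1ec00cd4.shift 1 3), (rh73fc4ee54d7791f6.shift 3 3), (rh92ad2395f211b1ca.shift 0 4)] (by decide +kernel))
noncomputable def rha266b74441f512ef : CRef := CRef.mk (Pat.mk 0x40000000f000000000000000000000001 0x30000000f0000003f000000070000003f000000070000000700000001 10 6) 0 0 (step_sound _ 129 [rh283e838c127dc5e8, rh489612c7fc5d3fc7, rh48ef9bec5fdb65bd, (rh79b3c29022acbdf3.shift 0 3)] (by decide +kernel))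
noncomputable def rha19530e04ceccd54 : CRef := CRef.mk (Pat.mk 0x80000003800000018 0x180000003f000000ff000000fe0000003800000038 10 8) 0 0 (step_sound _ 68 [rh030d18d4526240d6, (rh1d23965cd75bf21d.shift 1 0), (rh1f89b6ee77b3dad5.shift 1 0), (rh8d10fc5cbb36834f.shift 1 0), (rh95d5c216e4ccb56c.shift 1 0), (rhb37989436cb0d1fb.shift 1 0)] (by decide +kernel))
noncomputable def rhcf7ea911c0c84035 : CRef := CRef.mk (Pat.mk 0x20000000600000005000000000 0x280000003980000039800000f9800000fff000007fe00000ff7000001a0 10 12) 0 0 (step_sound _ 71 [(rh1e581fcebcca7a34.shift 4 1), (rh2ca9e2afd3b62ea9.shift 5 0), (rh38791ac5737ed75e.shift 4 2), rhcda524d7d78b846e, (rhf2b3bcf1454375d8.shift 4 1)] (by decide +kernel))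
noncomputable def rha95b6e88bf83a8ec : CRef := CRef.mk (Pat.mk 0xc00000002000000000000000a00000000 0x180000001c0000003c0000003f0000007e0000007f0000000a0000000a 10 7) 0 0 (step_sound _ 98 [rh1739e0a8db423824, rh1dc94430b0561ce1, (rh580df77fe152422b.shift 1 0), rhc065ce05e4db385f] (by decide +kernel))
noncomputable def rhd907ba83f67dbeb5 : CRef := CRef.mk (Pat.mk 0x200000006000000010000000000000004 0xf0000001f0000001b0000001e000000070000000700000004 10 5) 0 0 (step_sound _ 66 [(rh9e07f76261b05888.shift 1 0), (rhb2ebb3552c03abf4.shift 0 1)] (by decide +kernel))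
noncomputable def rh529ec30bcc041704 : CRef := CRef.mk (Pat.mk 0x1000000010000000300000002800000000 0x6e000001ff000001f8000000fc000001f8000001d0 10 9) 0 0 (step_sound _ 36 [(rh273de0f74ff4268c.shift 1 0), (rhb46da5e6eafa99d6.shift 3 0), rhe24f7e56675c23a1, (rhe3d4fd193b7dc56e.shift 2 0), (rhf38d464a7fbe212d.shift 2 0)] (by decide +kernel))
noncomputable def rhf62fd789b874bcd8 : CRef := CRef.mk (Pat.mk 0x8000000080000001c000000040000000000000010 0x62000000620000007f0000007f0000007e000000140000001000000010 10 7) 0 0 (step_sound _ 36 [(rh2613c889e411427e.shift 3 0), (rh566e60ad7acb0f99.shift 0 2)] (by decide +kernel))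
noncomputable def rh9e5aee0b17156d24 : CRef := CRef.mk (Pat.mk 0x800000008000000180000001400000000 0x37000000ff000000ff0000007c0000001c00000008 10 8) 0 0 (step_sound _ 35 [rh273de0f74ff4268c, (rh32e32f03ae89b559.shift 2 0), (rhbd4c773563fdbad3.shift 1 0), (rhc5b6ec687d13b121.shift 0 1), (rhe1bcd80b5c7d4f4c.shift 1 0), rhf93140e65523c557] (by decide +kernel))
noncomputable def rh252d2b79a9776521 : CRef := CRef.mk (Pat.mk 0x800000018000000040000000000000010 0x1c0000007c0000001f0000007e000000fc000000f800000010 10 8) 0 0 (step_sound _ 68 [(rh78368606192af159.shift 0 1), (rh9e07f76261b05888.shift 3 0)] (by decide +kernel))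
noncomputable def rhf0b309febaccae9f : CRef := CRef.mk (Pat.mk 0x20000000600000005000000000 0x1f0000001f0000007bf000003fe000007f700000020 10 11) 0 0 (step_sound _ 68 [(rh1c5e426035d52e9a.shift 3 1), (rh31b1095844829a95.shift 3 1), (rh8ee80cc30e93a344.shift 3 1), (rh96fa80bd57fa3caf.shift 0 1), rhebb5820f6eb3fe9c] (by decide +kernel))
noncomputable def rhc88e1e309e589821 : CRef := CRef.mk (Pat.mk 0x1000000030000000080000000000000020 0x3e000000ff0000007e0000003c000000f80000007000000020 10 8) 0 0 (step_sound _ 69 [(rh5a7cbc297b3dbb5f.shift 0 1), (rh9e07f76261b05888.shift 4 0)] (by decide +kernel))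
noncomputable def rhf02fe338b0949524 : CRef := CRef.mk (Pat.mk 0xe00000002000000000000000a 0x34000000340000007f0000007e000000fa0000000a0000000a 10 8) 0 0 (step_sound _ 130 [rh491933ef68eb578f, (rh9e3edb185cc347de.shift 1 0)] (by decide +kernel))
noncomputable def rh1a95ae732a4fadc1 : CRef := CRef.mk (Pat.mk 0x80000000c000000000000001000000000000000000000000000000000 0x140000001f0000003f0000003f0000001c0000001c000000180000001000000010000000380000003800000028 10 6) 0 0 (step_sound _ 164 [(rh03e51a76ac91cc9f.shift 3 0), (rh4d760d0d70847451.shift 3 3), (rh92ad2395f211b1ca.shift 0 4)] (by decide +kernel))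
noncomputable def rh040ec35e4e6abb9c : CRef := CRef.mk (Pat.mk 0x1000000018000000000000002000000000000000000000000000000000 0x280000003e0000007e0000007e0000001f0000003e000001f70000002000000020000000700000007000000050 10 9) 0 0 (step_sound _ 165 [(rh03e51a76ac91cc9f.shift 4 0), (rh4f828ba34ace724d.shift 2 3), (rh77424619898a0c29.shift 0 3), (rh92ad2395f211b1ca.shift 1 4)] (by decide +kernel))
noncomputable def rh800b979c50e34ea1 : CRef := CRef.mk (Pat.mk 0x180000001800000000 0x2800000068000000ff000000ff000000df00000054 10 8) 0 0 (step_sound _ 69 [(rh113e957afa7c17ad.shift 2 0), (rh3c004dd0a2e87afb.shift 2 0), rhad2087c6ea64dad5] (by decide +kernel))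
noncomputable def rh361081ff853b2379 : CRef := CRef.mk (Pat.mk 0x180000001800000000 0x2e0000002e000000ff000000ff000000de00000044 10 8) 0 0 (step_sound _ 69 [(rh2612b4f73ba7c3b3.shift 2 1), (rh3c004dd0a2e87afb.shift 2 0), rha11d463422d801c9] (by decide +kernel))
noncomputable def rhff257a4c7be08207 : CRef := CRef.mk (Pat.mk 0x180000001800000000 0x2400000066000000ff000000ff000000de00000050 10 8) 0 0 (step_sound _ 69 [(rh2612b4f73ba7c3b3.shift 2 1), (rh3c004dd0a2e87afb.shift 2 0), rhf07a80ac774c33a0] (by decide +kernel))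
noncomputable def rh8d06b787ce6d8851 : CRef := CRef.mk (Pat.mk 0x380000001800000000 0x3c0000003e000000770000003f0000001e00000010 10 7) 0 0 (step_sound _ 33 [(rh24ae073cf30720c4.shift 1 1), rh502ebe4528afa123] (by decide +kernel))
noncomputable def rh7854431dc46f5634 : CRef := CRef.mk (Pat.mk 0x80000000e00000000 0x280000003e0000003e000000ff000001ff000000fe000000ea 10 9) 0 0 (step_sound _ 36 [rh3b25217cebd6199e, rh45f730bcf36fcf64, (rh8d33df7ee954b6ed.shift 1 0), rh9a91d8f32e6bd95b] (by decide +kernel))
noncomputable def rh1da975612a8179ce : CRef := CRef.mk (Pat.mk 0x20000000300000004000000040 0x500000007c000000fc000000fc000000700000003e0000006700000040 10 8) 0 0 (step_sound _ 67 [(rh6765e7960b108c8d.shift 2 1), (rh92ad2395f211b1ca.shift 2 0), (rhb103f40a53fe1424.shift 0 1)] (by decide +kernel))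
noncomputable def rh5d660642c57d3c14 : CRef := CRef.mk (Pat.mk 0xc000000020000000000000002000000000 0x380000007800000f3e000007fe00000f7f000000380000002000000020 10 12) 0 0 (step_sound _ 133 [rh0863c667dc067013, (rh352b7f91eba0c81f.shift 4 3), (rh56fd73e6ab161f47.shift 3 1)] (by decide +kernel))
noncomputable def rh030c003e388f4659 : CRef := CRef.mk (Pat.mk 0x1e0000000600000000 0x3f0000003f000000370000001e0000000e00000002 10 6) 0 0 (step_sound _ 97 [(rh3244c3cc8379b070.shift 0 2), rhc08d54fc844db899] (by decide +kernel))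
noncomputable def rheb369745b6a69491 : CRef := CRef.mk (Pat.mk 0x1000000018000000080000000000000020 0x3c000000fc000000ff000001ff000000f8000001ec0000002000000020 10 9) 0 0 (step_sound _ 131 [rh0789b2ccc6bf2041, (rh0e5d5c3937caa2ec.shift 1 2), (rh3fdafafa20f0f4e5.shift 1 2), (rh9d9962228ee1b88c.shift 0 2), (rha472b618d9ded202.shift 1 0)] (by decide +kernel))
noncomputable def rhada71de82abc3bdd : CRef := CRef.mk (Pat.mk 0x30000000100000000000000050 0x280000003c000001ff000000fc000001d00000005000000050 10 9) 0 0 (step_sound _ 99 [rh8578a1184370ad23, (rh8da2e9a224dd46c2.shift 2 0), (rhd1f9989d6034576a.shift 3 0), (rhfb3464debfd4cf1e.shift 2 0)] (by decide +kernel))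
noncomputable def rh195acc5d3c78874d : CRef := CRef.mk (Pat.mk 0x38000000080000000000000020 0x140000001e0000007f0000003e0000006f0000002000000020 10 7) 0 0 (step_sound _ 98 [(rh775ca1963e850b80.shift 0 2), (rhdac8bbfddbb129b2.shift 1 0), (rhea2ba495190a41d9.shift 1 0)] (by decide +kernel))
noncomputable def rh2d638b58643e2dbd : CRef := CRef.mk (Pat.mk 0x2000000010000000000000005000000000 0xa0000000a0000007ef000003fe000003ff0000005000000050 10 11) 0 0 (step_sound _ 101 [(rh0e90cfc3f4561eb9.shift 3 0), (rh580df77fe152422b.shift 4 0), rha520aa44ef536577, (rhd98fd69e946f3c61.shift 3 0)] (by decide +kernel))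
noncomputable def rh39043eae2282047b : CRef := CRef.mk (Pat.mk 0xc0000001800000000000000000000000000000000 0x60000000600000007000000ff0000001f0000000f000000070000000700000005 10 8) 0 0 (step_sound _ 161 [rh91008cbe81795929, (rhb739f4f82bb681b4.shift 0 4)] (by decide +kernel))
noncomputable def rh1161126bc67eaa28 : CRef := CRef.mk (Pat.mk 0x8000000080000001800000000 0x140000001f0000003f0000003f0000000c0000000c0000001c00000010 10 6) 0 0 (step_sound _ 131 [(rh55afc6a59410cf00.shift 3 0), (rh8dc3840b1b211ab7.shift 0 1)] (by decide +kernel))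
noncomputable def rhdbd0a3c6751bab41 : CRef := CRef.mk (Pat.mk 0x200000006000000000000001400000000000000000 0x180000001800000fff000007fe00000fff000001dc0000015c00000014 10 12) 0 0 (step_sound _ 102 [(rh7b1f1fb55310c477.shift 5 1), rhb4d9c7cfc7ae1653] (by decide +kernel))
noncomputable def rhfcb4dca7eb69d1a5 : CRef := CRef.mk (Pat.mk 0x1c00000008000000080000002000000000 0x20000004a0000004b000003ff000003ff000007ff0000003000000020 10 11) 0 0 (step_sound _ 100 [(rh6292bd8784ece55f.shift 1 3), (rh7876ea52724da128.shift 2 0), (rhcdfcb474973a5786.shift 0 2), (rhfbc118f2871b1c9d.shift 0 1)] (by decide +kernel))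
noncomputable def rh129ad9219ced47ee : CRef := CRef.mk (Pat.mk 0x1000000010000000180000003800000000 0x2f0000003e0000007700000038000000f8000000c0 10 8) 0 0 (step_sound _ 131 [rh4b7ec831af7df170, (rh50fbb5868c909700.shift 3 1)] (by decide +kernel))
noncomputable def rhc1ec0ebf97825e98 : CRef := CRef.mk (Pat.mk 0x40000000c000000000000002800000000 0x500000007000000070000000e7000001ff0000007f0000003b0000002a 10 9) 0 0 (step_sound _ 67 [(rh7b1f1fb55310c477.shift 2 0), rhb925458b0041c7ff] (by decide +kernel))
noncomputable def rh3fd2d51467c42c9d : CRef := CRef.mk (Pat.mk 0x18000000100000000000000050 0x280000003c000003ff000001fe000003d00000005000000050 10 10) 0 0 (step_sound _ 101 [rh51373e140f002442, (rh52dce483c4240cd8.shift 2 0), (rhcb28190bac0fc28e.shift 2 0), (rhd1f9989d6034576a.shift 3 0)] (by decide +kernel))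
noncomputable def rh5f6d468375297b0e : CRef := CRef.mk (Pat.mk 0x700000002000000000 0x58000000fc000000fe0000007e0000003f00000018 10 8) 0 0 (step_sound _ 67 [(rh0bb0878927975bcc.shift 0 1), (rh4c622fddc53a5f99.shift 1 2), (rh775ca1963e850b80.shift 1 1), (rhdc1b9eef1fe59768.shift 2 0)] (by decide +kernel))
noncomputable def rhe44dac9fb89bbdf2 : CRef := CRef.mk (Pat.mk 0x800000018000000100000000000000000 0x1c0000003c0000001f0000001f0000001f0000000f00000004 10 6) 0 0 (step_sound _ 163 [(rh2145e1d24b96a57e.shift 3 2), rh3b76f64de0a0f3e8] (by decide +kernel))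
noncomputable def rh0e56675454d4f557 : CRef := CRef.mk (Pat.mk 0x18000000100000000000000010 0x3c000000ff0000007f00000078000000180000001800000010 10 8) 0 0 (step_sound _ 131 [(rh7fafa38d284ba744.shift 0 1), (rh9e07f76261b05888.shift 3 0)] (by decide +kernel))
noncomputable def rhd4dbfbae754b5cd9 : CRef := CRef.mk (Pat.mk 0x8000000080000001800000010000000000000004000000000 0x40000000c0000001f000001ff000000ff000000ec0000004000000040 10 9) 0 0 (step_sound _ 99 [(rh6fae963f33cfdfd7.shift 0 2), (rh82dcfa9962ac4e49.shift 0 2), rhe9078f4ea52f96b0] (by decide +kernel))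
noncomputable def rhcffd5f674ea5bb54 : CRef := CRef.mk (Pat.mk 0x1800000018000000100000000000000000 0xc0000000c000001cf000000ff000001df000000160000000600000006 10 9) 0 0 (step_sound _ 133 [(rh352b7f91eba0c81f.shift 2 3), (rh4dc133ee0ba1420a.shift 1 3), (rh73da6960e7937a09.shift 2 2), rhd12d34199b2ae564] (by decide +kernel))
noncomputable def rh640b55d3c042aa7c : CRef := CRef.mk (Pat.mk 0x800000018000000100000000000000000 0x300000003c0000007f0000001f0000007f000000770000002600000002 10 7) 0 0 (step_sound _ 163 [(rh2145e1d24b96a57e.shift 3 2), rhf4ab106f55040ec2] (by decide +kernel))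
noncomputable def rh3a46b2200673a6fe : CRef := CRef.mk (Pat.mk 0x40000000c00000000000000280000000000000000 0x10000001df000000ff000001ff0000003b0000002a00000020 10 9) 0 0 (step_sound _ 99 [(rh7b1f1fb55310c477.shift 2 1), rhe5f532e6778f6df4] (by decide +kernel))
noncomputable def rh09261e4e200c919c : CRef := CRef.mk (Pat.mk 0x200000006000000040000001400000000000000000 0x980000009800000fff000007fe00000f7f0000015c0000011c00000014 10 12) 0 0 (step_sound _ 135 [(rh1e581fcebcca7a34.shift 4 3), rh4c5707b71b997e38, (rha9fbfd4bb8cf890b.shift 2 4), (rhc794fbc1c29a23e2.shift 3 1)] (by decide +kernel))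
noncomputable def rhcd9525f6c27d02c3 : CRef := CRef.mk (Pat.mk 0x200000006000000000000001400000000000000000 0x9800000098000001ff000000fe000001ff000001dc0000005c00000014 10 9) 0 0 (step_sound _ 102 [rh42039d63e14b8725, (rh7b1f1fb55310c477.shift 5 1)] (by decide +kernel))
noncomputable def rha1fcc3049efbe560 : CRef := CRef.mk (Pat.mk 0x800000018000000100000005000000000 0x34000000b4000000f7000000ff000000fb000000fa0000007000000040 10 8) 0 0 (step_sound _ 132 [rh0cd5fedcc3eba98a, (rh392a866a6f2bc66d.shift 1 0), (rh60caaf96997f0fe3.shift 3 1), (rhcb705c5d12ba6a2c.shift 0 1)] (by decide +kernel))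
noncomputable def rhfac2233388ad3823 : CRef := CRef.mk (Pat.mk 0xc0000000c0000001800000020000000000000000000000000 0x680000007c0000006f0000007800000030000000600000006000000060 10 7) 0 0 (step_sound _ 100 [(rh2145e1d24b96a57e.shift 3 3), rhc42c93de32193a68] (by decide +kernel))
noncomputable def rhb148891ce4f8f990 : CRef := CRef.mk (Pat.mk 0x100000003000000000000000a000000000 0xa0000000e0000000e0000001fe000000fe000001ff000000a000000080 10 9) 0 0 (step_sound _ 102 [(rh23e6605cc8d1a6a0.shift 2 0), (rha9fbfd4bb8cf890b.shift 1 3), (rhed36f541567aa280.shift 3 0), (rheecce81cd6fa2e82.shift 0 1)] (by decide +kernel))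
noncomputable def rhcd23bef35b9867e2 : CRef := CRef.mk (Pat.mk 0x100000003000000000000000a00000000000000000 0xa0000001ec000001ec000007ff000003fe000007cf000000ee000000ae0000000a 10 11) 0 0 (step_sound _ 131 [(rh71a2e738c38db4d4.shift 3 1), (rh7e8fb9fb3378508f.shift 1 1), rhf3e94c63d54b2887, (rhf51732ec74f316b5.shift 0 1)] (by decide +kernel))
noncomputable def rh60bd0ec26cde1ae5 : CRef := CRef.mk (Pat.mk 0xe000000080000000000000020 0x340000003e000001ff000000fe000001fb0000003200000030 10 9) 0 0 (step_sound _ 100 [(rh44dd78dd79fc4e0b.shift 0 1), (rh52dce483c4240cd8.shift 1 0), (rh56242b2463d35484.shift 1 0), (rh66c438da7fa185e0.shift 1 0)] (by decide +kernel))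
noncomputable def rhaafd004c656ece77 : CRef := CRef.mk (Pat.mk 0x38000000200000000000000080 0x5000000078000007ff000003fe000007af0000008800000080 10 11) 0 0 (step_sound _ 102 [(rh15b856e33c69f807.shift 0 2), (rh44dd78dd79fc4e0b.shift 2 1), (rh52dce483c4240cd8.shift 3 0)] (by decide +kernel))
noncomputable def rh5b8158ef4e59c8d7 : CRef := CRef.mk (Pat.mk 0x600000004000000000000001400000000 0xe0000000f000000ff0000007e000000fc0000001c0000001c00000014 10 8) 0 0 (step_sound _ 131 [(rh248c66a1e315f94c.shift 1 0), (rh52dce483c4240cd8.shift 0 1), (rhcb28190bac0fc28e.shift 0 1), (rhd1f9989d6034576a.shift 1 1)] (by decide +kernel))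
noncomputable def rhbbecd3f8025dbe78 : CRef := CRef.mk (Pat.mk 0x300000000000000010000000000000000000000000 0x280000003800000038000003ff000001fe000003bf00000030000000380000001800000008 10 10) 0 0 (step_sound _ 166 [(rh4d8114ee4aff13cc.shift 2 4), (rh5f8257fb2f7cbf59.shift 3 2), (rh85dff66d8fa57533.shift 1 0), (rh895d8c53fa9ed3ab.shift 3 2), (rha07cc0c22391837e.shift 1 2), (rhc7fd152addba3303.shift 0 2)] (by decide +kernel))
noncomputable def rh9a743f7f2188ad19 : CRef := CRef.mk (Pat.mk 0x18000000000000002800000000 0x140000005c0000007c000001ee000000fe000001ff0000003800000038 10 9) 0 0 (step_sound _ 101 [rh1f4b2b0b7609346d, (rh6e6b5b7cf818a6af.shift 1 0), rh85920e6f292dc8fe, (rhb13ecdd6d8e2cfbe.shift 2 0), (rhc1be6f43375112bd.shift 2 0), (rhd4d6bd0801aca29c.shift 1 0), (rhdf07e0d5c2c3a82e.shift 1 2), (rhf70d9dcc8fa1ff4b.shift 1 0)] (by decide +kernel))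
noncomputable def rhdcefbea72346ab1a : CRef := CRef.mk (Pat.mk 0x80000000800000008000000000000000000000000 0x1f4000000fe000001ff000000080000000c0000000c00000004 10 9) 0 0 (step_sound _ 67 [(rh373b7625e672cfd8.shift 2 1), (rh3e099eb8f3146e2a.shift 0 1), (rhc4526fc8abf298b6.shift 2 0), (rhcab3157f7bdcba3e.shift 2 0)] (by decide +kernel))
noncomputable def rh1c3dbcd0666d60d1 : CRef := CRef.mk (Pat.mk 0xa000000020000000a000000000000000000000000000000000 0x140000001d0000003df000001fe000000ff00000ee0000007c000000fc0000001c000000140 10 12) 0 0 (step_sound _ 198 [(rh2820ca9a6c4f41b4.shift 2 5), (rh811879258ec07936.shift 5 0), (rh81d03a4c34a33e1b.shift 0 4)] (by decide +kernel))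
noncomputable def rh96f91f41b0201817 : CRef := CRef.mk (Pat.mk 0x50000000100000005000000000000000000000000000000000 0x200000002f000001fe000003ff00000770000003e0000007e0000000e0000000a0 10 11) 0 0 (step_sound _ 197 [(rh2820ca9a6c4f41b4.shift 1 5), (rha68a661fca447d92.shift 2 0), (rhb02f9c2bd63f56db.shift 3 5), (rhbda31292011ed31c.shift 0 1)] (by decide +kernel))
noncomputable def rh4ccec85f5cdf5eeb : CRef := CRef.mk (Pat.mk 0x50000000100000005000000000 0x48000003cf000001fe000003ff0000007000000060 10 10) 0 0 (step_sound _ 101 [(rh2820ca9a6c4f41b4.shift 1 2), (rh352b7f91eba0c81f.shift 3 2), rh3b0cf57d2383f530, rha41401a7cc3555ce, (rhb02f9c2bd63f56db.shift 3 2)] (by decide +kernel))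
noncomputable def rhb4878e7b9b848fdc : CRef := CRef.mk (Pat.mk 0x50000000100000005000000000000000000000000000000000 0x20000003af000001fe000003ff00000770000003e0000007e0000000e0000000a0 10 11) 0 0 (step_sound _ 197 [(rh2820ca9a6c4f41b4.shift 1 5), (rh352b7f91eba0c81f.shift 3 5), (rha68a661fca447d92.shift 2 0), (rhb02f9c2bd63f56db.shift 3 5), (rhbda31292011ed31c.shift 0 1)] (by decide +kernel))
noncomputable def rh7f7f7abb685bb92d : CRef := CRef.mk (Pat.mk 0xa000000020000000a00000000000000000000000000000000 0x140000001c0000007c0000003e0000007f000000ee0000007c000000fc0000001c00000014 10 8) 0 0 (step_sound _ 194 [(rh352b7f91eba0c81f.shift 0 5), (rh811879258ec07936.shift 1 0), (rh8a07daf359dc93eb.shift 1 1), (rhb02f9c2bd63f56db.shift 0 5)] (by decide +kernel))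
noncomputable def rhbe7b968eae445e4c : CRef := CRef.mk (Pat.mk 0x70000000400000004000000000 0x18000000380000003f0000007e0000007f000000dc0000001c 10 8) 0 0 (step_sound _ 99 [(rh0de499e0455c9c14.shift 1 2), (rh775ca1963e850b80.shift 1 2), (rh88c620441a3a17ea.shift 0 2), (rhd1d05263fabc0227.shift 1 2), (rhf2709668cd0fcafc.shift 2 0)] (by decide +kernel))
noncomputable def rha3a8a3d84a5eda4a : CRef := CRef.mk (Pat.mk 0x50000000100000005000000000000000000000000000000000 0xa0000000e0000000e0000007df000003fe00000777000001e0000000e0000000e000000020 10 11) 0 0 (step_sound _ 166 [(rh2d656a718982b7af.shift 3 1), (rh3e29bb4200de43d2.shift 1 0), (rh702302886dfe922e.shift 2 3), (rh78bf6bc37ec794d0.shift 1 0), (rh8711b5c3d5a9a00f.shift 5 2), (rh9eee994c11eeb71f.shift 0 4), (rha144af756f8ec5e0.shift 4 1)] (by decide +kernel))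
noncomputable def rh519af60b17c25946 : CRef := CRef.mk (Pat.mk 0x280000000000000028000000000000000000000000 0x50000003f0000001f7000003fe00000077000003b8000001f0000003f000000050 10 10) 0 0 (step_sound _ 133 [rh3de4f3a02fb67263, (rha32f38d62fab7886.shift 3 2), (rhde6380c7d0dbe181.shift 0 2), (rhe62d1be7a4319d87.shift 3 0)] (by decide +kernel))
noncomputable def rhdfe6754d37e4801a : CRef := CRef.mk (Pat.mk 0x100000001000000050000000000000000000000000 0x48000000ef000000ff000000fe000000760000003c0000003800000028 10 8) 0 0 (step_sound _ 68 [(rh373b7625e672cfd8.shift 3 1), (rh46baee19951a66e7.shift 3 0), (rhcab3157f7bdcba3e.shift 3 0), (rhea2ba74c72eaf5cf.shift 0 2)] (by decide +kernel))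
noncomputable def rh908fec1434bf4673 : CRef := CRef.mk (Pat.mk 0x80000000800000008000000000000000000000000 0x1f4000000fe000001ff000000080000001c0000001c00000014 10 9) 0 0 (step_sound _ 67 [(rh3e099eb8f3146e2a.shift 0 1), (rh6c59ce14113da07f.shift 3 0), (rhc4526fc8abf298b6.shift 2 0), (rhcab3157f7bdcba3e.shift 2 0)] (by decide +kernel))
noncomputable def rh68ca115e9f12d142 : CRef := CRef.mk (Pat.mk 0x280000000000000028000000000000000000000000 0x500000007000000070000003b0000003ff000001fe000001f700000038000000f80000007000000040 10 10) 0 0 (step_sound _ 166 [(rh0996a3b29459eab5.shift 0 2), (rh3ebc67f11921f5ed.shift 0 4), (rh4635bd4be286847e.shift 2 1), (rh51246a81cfa0f661.shift 0 2), (rh5866b6d89cad942b.shift 0 1), (rh92ae3f573ab0ceec.shift 0 4), (rhb6b6ad1bee977733.shift 0 4), (rhddad7f96365a0eb2.shift 2 0), (rhdf608f1428508d5a.shift 2 2), rhef9cf8a777c9956a] (by decide +kernel))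
noncomputable def rhb14b0c3f434a20a8 : CRef := CRef.mk (Pat.mk 0x3800000000000000280000000000000000 0x1f0000007e000000e7000003b8000001f0000003d0 10 10) 0 0 (step_sound _ 130 [(rh6bae3fa3cdc703b8.shift 2 0), (rh775ca1963e850b80.shift 0 3), (rhe401600d466b97cd.shift 1 3)] (by decide +kernel))
noncomputable def rh267112a29e3f49f7 : CRef := CRef.mk (Pat.mk 0x7800000000 0x3c0000007c0000001f0000007c000000f80000002c 10 8) 0 0 (step_sound _ 3 [rh25624a63347a2bad, (rheb0810cc63b001d8.shift 2 0)] (by decide +kernel))
noncomputable def rh2f9fb36c8732446b : CRef := CRef.mk (Pat.mk 0x2000000020000001e00000002 0x21000000370000003e000000160000003e0000001e0000000a 10 6) 0 0 (step_sound _ 130 [rh05fb646b315bad6b, (rhbaefcd01e0a8bca3.shift 1 0)] (by decide +kernel))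
noncomputable def rhe71410c1df2955f8 : CRef := CRef.mk (Pat.mk 0x280000000000000028000000000000000000000000 0x500000007000000070000001fe0000007e0000003700000038000000f80000007000000050 10 9) 0 0 (step_sound _ 133 [(rh140e84d8531e408b.shift 2 0), (rh35816c002109ae9e.shift 2 0), (rh44f9bf97e6e786d5.shift 1 2), rh8a81c2cececf7016, (rhc8256abfb6210b3a.shift 3 0), (rhcbc9bd9c10afba4b.shift 2 0), (rhfa4d26132d0c3219.shift 1 2)] (by decide +kernel))
noncomputable def rhf37057131391be0a : CRef := CRef.mk (Pat.mk 0x280000000000000028000000000000000000000000 0x40000001df000001fe000003f7000003b8000001f0000003f000000050 10 10) 0 0 (step_sound _ 133 [(rh02870a84ce3cac76.shift 0 3), rh5b92dde1f4dbdd2c, (rh8d1864f19db3e45a.shift 2 0), rhbf0e5b4a6c481b57, (rhe62d1be7a4319d87.shift 3 0)] (by decide +kernel))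
noncomputable def rh207b6fd731493f0f : CRef := CRef.mk (Pat.mk 0x800000000000000100000001e000000000000000a000000000 0xa0000001e00000017f000001fe0000035f000000e0000000a0 10 10) 0 0 (step_sound _ 100 [(rh326f6f1b4724abd2.shift 0 1), (rh592c7139d2c44767.shift 2 2), (rhbc884cd6b2f4d5ca.shift 1 0), (rhd5eb272e07a4e288.shift 3 3)] (by decide +kernel))
noncomputable def rh03fd63e952d89938 : CRef := CRef.mk (Pat.mk 0x40000000000000000000000078000000000000005000000000 0x500000007000000070000000370000007e0000002e0000007000000050 10 7) 0 0 (step_sound _ 66 [(rh80fcd6d0a18cb2dd.shift 2 2), rhad5725d305857d70] (by decide +kernel))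
noncomputable def rh99777fad7eefa1cd : CRef := CRef.mk (Pat.mk 0x6000000000000000440000007c00000000 0x20000000200000007c000001ff0000005c000000540000007e00000007 10 9) 0 0 (step_sound _ 165 [(rh2613c889e411427e.shift 5 1), rh9c396e67d16488c5] (by decide +kernel))
noncomputable def rh31360ed77236e21b : CRef := CRef.mk (Pat.mk 0x6000000000000000440000007800000000 0x3de000001fc000003de000000460000007e000000c7 10 10) 0 0 (step_sound _ 34 [rh045df984d142a049, (rh3244c3cc8379b070.shift 1 1)] (by decide +kernel))
noncomputable def rh61ca003a709ba163 : CRef := CRef.mk (Pat.mk 0x1a000000000000000000000004 0x70000000f000000ff0000007e000000e70000000400000004 10 8) 0 0 (step_sound _ 98 [rh1182f4eba70209eb, (rh394e80a462af5b2f.shift 0 2), (rh3b00e9e9432b8f40.shift 0 2), rh91b534ad72ec4b0e] (by decide +kernel))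
noncomputable def rh2d565dc9c7674746 : CRef := CRef.mk (Pat.mk 0x3400000000000000020000001c 0x140000001e000000fe000001fe000001cc0000000b0000001e 10 9) 0 0 (step_sound _ 1 [rh3244c3cc8379b070, (rhade32c46069ec829.shift 1 0)] (by decide +kernel))
noncomputable def rh8da8c153294fb23d : CRef := CRef.mk (Pat.mk 0x6000000000000000400000007c00000000 0xe00000007c0000005c0000005c0000007f000000d7 10 8) 0 0 (step_sound _ 1 [rh71d5d9dafbd00c55, (rh80fcd6d0a18cb2dd.shift 1 0)] (by decide +kernel))
noncomputable def rhc1e1d6f4148d1c1b : CRef := CRef.mk (Pat.mk 0x1a00000000000000100000001f000000000 0x3b0000001e0000003400000016f000001fe0000001f 10 10) 0 0 (step_sound _ 104 [(rh50fbb5868c909700.shift 7 1), rh71068f89da094bbd] (by decide +kernel))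
noncomputable def rh950bb586f5508cff : CRef := CRef.mk (Pat.mk 0xd000000000000000000000007800000000 0x2800000078000000d800000010000000370000007e0000002e 10 8) 0 0 (step_sound _ 2 [rh40370607ccd579e7, (rh80fcd6d0a18cb2dd.shift 2 0)] (by decide +kernel))
noncomputable def rhfaa69a5417a46e76 : CRef := CRef.mk (Pat.mk 0x100000000000000000000001e000000100000000500000000 0x50000002700000027000000760000003e000000120000001700000015 10 7) 0 0 (step_sound _ 133 [rh0c5633dc8178b6f4, (rh428265de8cd3cd2d.shift 1 3)] (by decide +kernel))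
noncomputable def rhd6ef360aa93c0eb8 : CRef := CRef.mk (Pat.mk 0x100000000000000040000001f8000000000000005000000000 0x1ff000000fe000001ef0000006c000003f80000002c0000007000000050 10 10) 0 0 (step_sound _ 133 [rh9c2eb78e4e5584a8, (rhf48373e13d2bc128.shift 5 3)] (by decide +kernel))
noncomputable def rhf9c58181f488be4c : CRef := CRef.mk (Pat.mk 0x100000000000000200000001f8000000000000005000000000 0x40000001ff000000fe000001ef0000066c000003f80000002c0000007000000050 10 11) 0 0 (step_sound _ 133 [rh6b744d2682882a7b, rh9c2eb78e4e5584a8, (rhfb55dd75ab83ac48.shift 5 3)] (by decide +kernel))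
noncomputable def rh3b7e3c34d0b1529c : CRef := CRef.mk (Pat.mk 0x800000000000000000000003c00000000 0x20000000250000007f0000007f000000eb000000fe000001d7 10 9) 0 0 (step_sound _ 70 [(rh428265de8cd3cd2d.shift 2 1), rhb1349aa1b9bef081] (by decide +kernel))
noncomputable def rhaab46d25cf48b100 : CRef := CRef.mk (Pat.mk 0x200000002000000020000000e00000000 0x740000003f0000007f0000007a0000003f00000071 10 7) 0 0 (step_sound _ 32 [rh932754581e0f4330, rhb7bb0e5286b8297f] (by decide +kernel))
noncomputable def rh782c4bba66a8f733 : CRef := CRef.mk (Pat.mk 0x1000000000000000000000007000000000 0x400000006f000000fe000000ff000003de000001fc000003ae 10 10) 0 0 (step_sound _ 35 [(rh1d03ec6859586f19.shift 2 0), (rh394e80a462af5b2f.shift 2 0), (rh592c7139d2c44767.shift 1 0), rh87d3f480906643fc] (by decide +kernel))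
noncomputable def rh0ac1df80bab6e43c : CRef := CRef.mk (Pat.mk 0x280000002000000000000000f000000000 0xa0000000e0000015e000001ff000001be000001ff00000180000000f000000040 10 9) 0 0 (step_sound _ 132 [(rh515d09333d0c5f97.shift 3 0), (rh9213876b576aa1f5.shift 0 3), (rhb2afcb5db661472f.shift 0 3), (rhf7f30f4125541383.shift 0 3)] (by decide +kernel))
noncomputable def rheda588da90e4692b : CRef := CRef.mk (Pat.mk 0x280000002000000080000000c000000000 0xa0000000e0000015e000001ff000001be000001ff00000080000000c000000040 10 9) 0 0 (step_sound _ 132 [(rh249ad7131d54cb23.shift 3 0), (rh9213876b576aa1f5.shift 0 3), (rhb2afcb5db661472f.shift 0 3)] (by decide +kernel))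
noncomputable def rhe459bde7488a5de0 : CRef := CRef.mk (Pat.mk 0x200000002000000100000001e00000000 0x3d0000001f0000003b00000012000000120000003e00000074 10 7) 0 0 (step_sound _ 5 [rh10d5de7a802bf432, (rh96851dee118c1ba3.shift 1 0)] (by decide +kernel))
noncomputable def rh374ac93676df4ab5 : CRef := CRef.mk (Pat.mk 0x60000000200000002000000020000000f00000000 0x390000001f0000003a000000120000003a0000003f00000070 10 7) 0 0 (step_sound _ 68 [(rh428265de8cd3cd2d.shift 0 1), rhea70dd32bcecdfd7] (by decide +kernel))
noncomputable def rhaa71322216afb057 : CRef := CRef.mk (Pat.mk 0x800000008000000000000003c00000004 0x70000007f0000007f000001e4000000fc000001c4 10 9) 0 0 (step_sound _ 38 [rh08d3e3a9583442f4, (rh9890f9d77740bbed.shift 2 1), (rha93a5dd541ab8209.shift 3 0)] (by decide +kernel))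
noncomputable def rh66d3dc736bf9e8f2 : CRef := CRef.mk (Pat.mk 0xc00000000000000400000003e00000002 0x40000007e00000077000000c3000000fe000001c2 10 9) 0 0 (step_sound _ 38 [(rh33e738c4ed385b9f.shift 3 1), rha01132ba9679020b] (by decide +kernel))
noncomputable def rh26e38b11d848fc1f : CRef := CRef.mk (Pat.mk 0x40000000c00000000000000000000001c00000002 0xa0000000e0000000e0000003e0000003e0000000f0000000c0000000e0000000b0000001e00000003 10 6) 0 0 (step_sound _ 33 [(rhcb7e1b4cad5f0408.shift 0 1), rheb0810cc63b001d8] (by decide +kernel))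
noncomputable def rhc9aa9684071e23f8 : CRef := CRef.mk (Pat.mk 0x80000001800000000000000800000007800000004 0x1400000014000000370000017f000001fb000001ce00000186000000fc00000186 10 9) 0 0 (step_sound _ 34 [rh494e19837eefd001, (rheb0810cc63b001d8.shift 1 0)] (by decide +kernel))
noncomputable def rh289c6f3190eb7cb5 : CRef := CRef.mk (Pat.mk 0x300000000000000000 0x1e0000001e0000001e000001ff000000fe000001df00000008 10 9) 0 0 (step_sound _ 67 [(rh5cf7c461bdd0bb27.shift 1 1), (rh8adf3e63048ba3cf.shift 1 1), (rh9213876b576aa1f5.shift 0 1), (rh9ffa5089f48f0a9f.shift 2 0), (rha9ceffcd8583f456.shift 1 1), (rhcd042805d4311913.shift 1 1)] (by decide +kernel))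
noncomputable def rh913012cd9531b008 : CRef := CRef.mk (Pat.mk 0xe000000000000000000000008 0x380000003c0000003f0000003e0000007f0000000800000008 10 7) 0 0 (step_sound _ 100 [(rh06db8ceda6269a47.shift 0 2), (rh47c07cd0cc865f65.shift 0 2), rh5b0bc1cb02827bf2, (rhe401600d466b97cd.shift 0 2)] (by decide +kernel))
noncomputable def rh3793918b351e905b : CRef := CRef.mk (Pat.mk 0xc00000000000000000000003c00000002 0x390000003f00000077000000230000003e00000003 10 7) 0 0 (step_sound _ 33 [rh703cb031b2368e93, rheb0810cc63b001d8] (by decide +kernel))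
noncomputable def rh67fd481b9b1a9fa3 : CRef := CRef.mk (Pat.mk 0x1800000000000000000000007800000000 0xa0000007ff000003fe000003e7000000c00000007800000020 10 11) 0 0 (step_sound _ 70 [rh00685b67778e3e5e, (rh33e738c4ed385b9f.shift 3 1)] (by decide +kernel))
noncomputable def rhde2d2a9d706f4536 : CRef := CRef.mk (Pat.mk 0x5800000000000000000000007c00000000 0x1dc000000f800000080000001c7000001fe00000380 10 10) 0 0 (step_sound _ 65 [(rh3f8766e6ecb455ce.shift 1 1), rhf3dbdd77a4b5bcd0] (by decide +kernel))
noncomputable def rhb6208ca830585397 : CRef := CRef.mk (Pat.mk 0x30000000000000000000000000 0x100000001de000001de000001fe000003ff000001fe000003df0000000c0000000c 10 10) 0 0 (step_sound _ 102 [(rh0c306175c21a176f.shift 1 2), (rh6668c88653940ad5.shift 2 2), (rh6751015dfcbdc85d.shift 3 2), rh7e2a1c6ffe812e02] (by decide +kernel))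
noncomputable def rhe5bc284bcfc683a2 : CRef := CRef.mk (Pat.mk 0x3800000000 0xa0000001e0000001e0000007f0000003e0000006f 10 7) 0 0 (step_sound _ 34 [(rh4c622fddc53a5f99.shift 0 1), (rh4ecc4482b3424888.shift 1 0), rh775ca1963e850b80, rh9e97bba44c1b13e4] (by decide +kernel))
noncomputable def rh0cc30eefda29d3e2 : CRef := CRef.mk (Pat.mk 0x200000002000000000000000e00000000 0x8000000090000001f0000001e0000003a0000003f00000075 10 7) 0 0 (step_sound _ 65 [(rh55afc6a59410cf00.shift 1 0), rh63f21671f1ecc769] (by decide +kernel))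
noncomputable def rh7fa91500a39c2ef7 : CRef := CRef.mk (Pat.mk 0x200000002000000000000001f000000000 0x14000001ff000000ff000001ff0000008e000001fc0000031e 10 10) 0 0 (step_sound _ 35 [(rh592c7139d2c44767.shift 1 0), rhb3b1d512942a53b2, (rheae1728ff4a56756.shift 2 0)] (by decide +kernel))
noncomputable def rh60b69dc9c301c295 : CRef := CRef.mk (Pat.mk 0x1800000008000000000000003c 0x140000001e0000007f0000003e0000002f000000680000003c 10 7) 0 0 (step_sound _ 132 [rh531a2dcadbf12e2f, (rh9e3edb185cc347de.shift 3 0)] (by decide +kernel))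
noncomputable def rh803a84c7316e091d : CRef := CRef.mk (Pat.mk 0x18000000080000000000000020 0x2000000070000001f0000001ff000000fe000001ff0000002000000020 10 9) 0 0 (step_sound _ 101 [rh24b767d1f7a981dd, (rh2820ca9a6c4f41b4.shift 0 2), (rh796d3db90fc004ad.shift 2 2), (rhcd042805d4311913.shift 1 2)] (by decide +kernel))
noncomputable def rhb9c8d668c3335771 : CRef := CRef.mk (Pat.mk 0x2800000008 0xe0000001e000001ff000000fe000001df 10 9) 0 0 (step_sound _ 36 [rh0cf91e2fd451cbe7, rh22d326bdf3fdc35e, (rhb02f9c2bd63f56db.shift 2 0), (rhcd042805d4311913.shift 1 0)] (by decide +kernel))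
noncomputable def rh8a061d88a80f225b : CRef := CRef.mk (Pat.mk 0x30000000200000002000000020000000f00000000 0x3c0000001f0000003a000000120000003a0000003f00000070 10 7) 0 0 (step_sound _ 68 [(rh428265de8cd3cd2d.shift 0 1), rhe965f83822c1691e] (by decide +kernel))
noncomputable def rhfcaa779777735728 : CRef := CRef.mk (Pat.mk 0x2800000000 0xa0000000e0000001e0000001e0000003e000001ff000000fe000001df 10 9) 0 0 (step_sound _ 36 [(rh1c5bc4af64696739.shift 1 0), rh22d326bdf3fdc35e, rh39f125fc24374e90, (rha1367861cfa5662a.shift 1 0), (rhcd042805d4311913.shift 1 0), (rhe107ca3c5ab37a55.shift 2 0)] (by decide +kernel))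
noncomputable def rh185dd998403af86c : CRef := CRef.mk (Pat.mk 0x2000000000000000000000007800000000 0x50000000700000007000000020000000370000007e0000004e 10 7) 0 0 (step_sound _ 2 [rh3e7564e334cd6e27, (rh80fcd6d0a18cb2dd.shift 2 0)] (by decide +kernel))
noncomputable def rh3e5e819d955c7548 : CRef := CRef.mk (Pat.mk 0x1c0000000c000000000000000a00000000 0x7e0000003e0000007f0000001c0000000c000000040000000e0000000a 10 7) 0 0 (step_sound _ 66 [(rh2818863d77d69ed0.shift 1 0), (rha66e402f67392012.shift 0 2)] (by decide +kernel))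
noncomputable def rh0b015542f53d9d2d : CRef := CRef.mk (Pat.mk 0x7800000000 0x7c0000007c0000001f0000007c000000f80000000c 10 8) 0 0 (step_sound _ 67 [(rh3244c3cc8379b070.shift 2 1), rh37d74995d23ae592] (by decide +kernel))
noncomputable def rh8bb334baa29c29dd : CRef := CRef.mk (Pat.mk 0x3c000000020000000800000000 0x3800000038000000780000003c0000007f000000130000001800000018 10 7) 0 0 (step_sound _ 97 [rhe6a1ffcf7d66535d, (rheb0810cc63b001d8.shift 0 2)] (by decide +kernel))
noncomputable def rh713a114fc7d0e175 : CRef := CRef.mk (Pat.mk 0x1000000000000000100000001c00000000 0x1ef000000fe000001de000000140000001c00000008 10 9) 0 0 (step_sound _ 100 [(rh39e90de3d144e37b.shift 0 1), (rh932754581e0f4330.shift 3 0)] (by decide +kernel))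
noncomputable def rhf79ed76f3c4e9130 : CRef := CRef.mk (Pat.mk 0x10000000100000001e00000010 0x210000003b0000001f0000001a0000001f0000001e00000014 10 6) 0 0 (step_sound _ 131 [rh54030528928a0efb, (rhffd04209dc8ea796.shift 3 0)] (by decide +kernel))
noncomputable def rhd45a113d3ea47aec : CRef := CRef.mk (Pat.mk 0x2000000010000000100000001e000000000000000000000000 0xc0000003e000000f60000001e0000001f0000001e000000040000000400000004 10 8) 0 0 (step_sound _ 196 [(rh2f68792b6b779e96.shift 4 3), rhc944cd2cfc78062d] (by decide +kernel))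
noncomputable def rh6f3455084c2197b0 : CRef := CRef.mk (Pat.mk 0x28000000000000002000000000 0x6000000070000001ff000000ff000001f70000003000000030 10 9) 0 0 (step_sound _ 100 [(rh1317c6ea28e6bacd.shift 2 0), rh179e77d3803a19da, rh2300f02e5a5d5cf0, (rh3007d8ad512cec11.shift 0 1), (rh30d4c68134598f9f.shift 2 0), (rh58d5c56560dc8b66.shift 0 1), rh6059e180a2ba3b20, rh6a6bf4338dbcc9d2] (by decide +kernel))
noncomputable def rh12301dadb9fda929 : CRef := CRef.mk (Pat.mk 0x280000000000000020000000000000000000000000 0x6000000060000001fe000000ff000001f700000030000000300000003000000010 10 9) 0 0 (step_sound _ 164 [(rh1292bb9f88d62877.shift 0 2), (rh1317c6ea28e6bacd.shift 2 2), (rh1ff6608a7af1be04.shift 0 1), (rh30d4c68134598f9f.shift 2 2), (rh690dcb20da11cb1b.shift 0 3), (rhb5ea0e6f29bfedaa.shift 0 4), rhca62805a13ad6125, rhef00fd3705be924f] (by decide +kernel))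
noncomputable def rhe3eafd77196b64a0 : CRef := CRef.mk (Pat.mk 0x280000000000000028000000000000000000000000 0x500000007000000070000007ef000003fe000001f7000003b8000001f0000003f000000040 10 11) 0 0 (step_sound _ 133 [(rh106f75bfcadfc4e5.shift 2 2), (rh5da4028eb3f5533a.shift 2 0), rh7c2082ca27fd285e, (rh8dc8f8b5c39f830b.shift 0 2), (rh8eb0f41acde5812c.shift 3 0), (rhb5c1d5bcb6bfcd95.shift 2 0), rhc9f150a1a2770a60] (by decide +kernel))
noncomputable def rhfc0cc9a4b2751b8c : CRef := CRef.mk (Pat.mk 0x100000000200000012000000020000000200000000 0x280000003c0000003f000000370000007b000003fe000001fa000001fa00000028 10 10) 0 0 (step_sound _ 132 [(rh0784c8c5fc411f63.shift 0 1), (rh117e8735385cd20a.shift 3 0), (rh7822f39691d9fa76.shift 0 1), (rhe002ea7e82322165.shift 3 0), (rhecf3680bb57b3285.shift 0 1)] (by decide +kernel))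
noncomputable def rhbdfbf4119de2660c : CRef := CRef.mk (Pat.mk 0x4000000000000000400000000000000000000000000000000 0xa0000007e0000007e0000007f0000007e0000000c0000000e0000000e0000000e0000000a 10 7) 0 0 (step_sound _ 162 [(rh117e8735385cd20a.shift 1 1), (rh79833d36382e321e.shift 1 0), (rh921250f1c4155b7c.shift 1 3), (rhc344d70ca8d80280.shift 0 1), (rhfe8a7d80a39dff9a.shift 1 1)] (by decide +kernel))
noncomputable def rhf0654b3d57fb175c : CRef := CRef.mk (Pat.mk 0x100000000200000012000000020000000200000000 0x2000000038000001f8000000f8000001f90000007b000003fe000001fa000001fa00000028 10 10) 0 0 (step_sound _ 132 [(rh0784c8c5fc411f63.shift 0 1), (rh117e8735385cd20a.shift 3 0), (rh48b776ad86852eb8.shift 3 2), (rhc8efe632eb26fc62.shift 3 0), (rhecf3680bb57b3285.shift 0 1)] (by decide +kernel))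
noncomputable def rh669e600f9efad4d4 : CRef := CRef.mk (Pat.mk 0x20000000200000012000000060000000300000002000000000000000000000000 0xc0000003e0000003b000000320000003e000000330000003e0000003c0000003800000028 10 6) 0 0 (step_sound _ 164 [(rh361cc68994bd8a63.shift 0 4), rh394540f84b1687a9] (by decide +kernel))
noncomputable def rh56798eeb35e1a7af : CRef := CRef.mk (Pat.mk 0x20000000200000012000000060000000200000002000000000000000000000000 0x2c0000003e0000003b000000360000003e0000007b0000003e0000007c0000003800000028 10 7) 0 0 (step_sound _ 164 [rh1b9192da3dbac079, (rh1dc3e866f7ab4752.shift 0 4), (rh1fdcfe071c3d1b68.shift 0 4), (rh330468c08919f344.shift 1 2)] (by decide +kernel))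
noncomputable def rhd549305626bf4d1e : CRef := CRef.mk (Pat.mk 0x12000000160000000200000002000000000000000000000000 0x10000000120000001e0000003b0000001e0000001f0000000f00000001 10 6) 0 0 (step_sound _ 163 [rh46d5d64dc638990b, (rheb0810cc63b001d8.shift 0 4)] (by decide +kernel))
noncomputable def rh151fc6167f2ec302 : CRef := CRef.mk (Pat.mk 0x200000012000000120000000200000002000000000000000000000000 0x50000002f0000003f0000003b00000032000000320000007b0000003e0000007c0000003800000028 10 7) 0 0 (step_sound _ 257 [rh1b9192da3dbac079, (rh3ca48e2a6d60153d.shift 0 4), (rhc85cc95794737cf7.shift 0 5)] (by decide +kernel))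
noncomputable def rhb274fff21168a506 : CRef := CRef.mk (Pat.mk 0x4400000008000000480000000800000000 0x80000000d0000000fc000000df000000c8000000e8000000f800000020 10 8) 0 0 (step_sound _ 131 [(rh50fbb5868c909700.shift 2 1), rh551c9788a16f2e59] (by decide +kernel))
noncomputable def rh6879d95c39bee3c4 : CRef := CRef.mk (Pat.mk 0x1000000002000000120000000200000002000000020000000000000000 0x50000000f0000001f0000003b000000120000001a0000001a0000000e0000000600000004 10 6) 0 0 (step_sound _ 34 [rh0afa86867cf1f68e, (rhd3458b32566d63f7.shift 1 1)] (by decide +kernel))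
noncomputable def rhed423986c2f53d73 : CRef := CRef.mk (Pat.mk 0x80000000000000008000000010000000000000000 0x100000001c000000fc0000007c000000fc000000fc0000007c0000001f0000001c00000014 10 8) 0 0 (step_sound _ 131 [(rh117e8735385cd20a.shift 2 0), rh4563e094c6f42837, (rh48b776ad86852eb8.shift 2 2), (rh4bf5d56caf201bfe.shift 2 1), rh4d5b06b284cce693, (rhd66ed75619ca3da7.shift 1 0), (rhdee8fb68b4003a40.shift 2 0)] (by decide +kernel))
noncomputable def rh518960fcf3dbe6bb : CRef := CRef.mk (Pat.mk 0x120000001200000002000000010000000000000000 0x3e0000001e00000032000000370000003f00000024 10 6) 0 0 (step_sound _ 65 [(rh932754581e0f4330.shift 0 1), rhb8fbfad1bf87afe2] (by decide +kernel))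
noncomputable def rhd0fed9a58a9a7bc3 : CRef := CRef.mk (Pat.mk 0x10000000120000001200000002000000010000000000000000 0x28000000380000003800000010000000360000001e0000000a000000070000000700000004 10 6) 0 0 (step_sound _ 65 [(rh726ec40df15dbc78.shift 1 0), (rh932754581e0f4330.shift 0 1)] (by decide +kernel))
noncomputable def rh30066e061615c9f2 : CRef := CRef.mk (Pat.mk 0x90000000900000001000000010000000000000000 0x40000000c0000001c0000000f0000001f0000001d0000001f0000001f00000006 10 5) 0 0 (step_sound _ 33 [rhb66bf574ab92bae8, (rhd3458b32566d63f7.shift 0 1)] (by decide +kernel))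
noncomputable def rh4d7c944ec3f9c72e : CRef := CRef.mk (Pat.mk 0x120000001200000002000000010000000000000000 0x200000003000000030000000300000003e000000360000003a0000003f0000002f00000004 10 6) 0 0 (step_sound _ 65 [(rh932754581e0f4330.shift 0 1), (rhce1b50de119e89db.shift 1 0)] (by decide +kernel))
noncomputable def rh937305be31862c03 : CRef := CRef.mk (Pat.mk 0x90000000900000001000000010000000200000000 0x40000000c0000001c0000001f0000001f0000000d0000001d0000001f00000016 10 5) 0 0 (step_sound _ 32 [rh55afc6a59410cf00, rhca3fa98ce2dab132] (by decide +kernel))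
noncomputable def rh98d066b949f5ecde : CRef := CRef.mk (Pat.mk 0x40000000400000000000000000000000000000000 0xa0000007e0000003f0000007e0000001c0000007e0000003e0000007e0000000e00000008 10 7) 0 0 (step_sound _ 194 [(rh0384e1f1238ccd9c.shift 1 1), (rh1c883fadeb5a7808.shift 1 0), (rh304d4080d4e0f6a5.shift 1 1), (rh4171c0915f58a82e.shift 1 1), (rh4b3fdda238748c4a.shift 1 2), (rh5cf56675acef2a4b.shift 1 2), (rheb0604e873b76a8a.shift 0 3)] (by decide +kernel))
noncomputable def rhd55930eb5c3e9d78 : CRef := CRef.mk (Pat.mk 0x200000012000000160000000300000000000000000000000000000000 0x2b0000003e00000036000001fb000000fe000001fe0000003800000028 10 9) 0 0 (step_sound _ 100 [(rh3040ee3cbf7b2863.shift 0 2), (rhbdc9bb3684621056.shift 2 1), rhe551db116598e6b3, (rhea4b2a0de401f0a4.shift 0 2)] (by decide +kernel))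
noncomputable def rhf1e7e06c189b7430 : CRef := CRef.mk (Pat.mk 0x20000000000000003000000000000000000000000 0x4000000070000000700000007000000060000000e0000001f0000001f0000001f00000005 10 5) 0 0 (step_sound _ 129 [rh117e8735385cd20a, (rh32431e66bbf434a4.shift 0 2), (rh4c0c8c4280c0a8f8.shift 0 2), rh6e4d49ee4edb95ab, (rh7e07cd48c5ac7541.shift 0 1)] (by decide +kernel))
noncomputable def rhf3a3ffe485363a8d : CRef := CRef.mk (Pat.mk 0x4000000240000000400000005000000000000000000000000 0x4000000240000003c0000003e000000170000003e0000003c0000002c 10 6) 0 0 (step_sound _ 97 [rh1f375fa23778ceca, (rh932754581e0f4330.shift 1 2)] (by decide +kernel))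
noncomputable def rhba86149670504284 : CRef := CRef.mk (Pat.mk 0x2000000120000000200000002000000000000000000000000 0x730000003e0000007600000003000000070000000700000004 10 7) 0 0 (step_sound _ 64 [rh59b591ae1044ce7b, (rh79877ebd3ef475dd.shift 0 2)] (by decide +kernel))
noncomputable def rh111ae09220e2a8ce : CRef := CRef.mk (Pat.mk 0x2000000020000001200000006000000030000000000000000 0x28000000380000007c0000003e0000007b000000320000003e0000003b0000003800000028 10 7) 0 0 (step_sound _ 100 [(rh361cc68994bd8a63.shift 0 2), rhea878feee2aca591] (by decide +kernel))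
noncomputable def rh3e6f0329cd6b2321 : CRef := CRef.mk (Pat.mk 0x20000000200000012000000060000000300000000000000000000000000000000 0x2a0000003a0000003a000000360000003e0000003b0000003e0000003f0000003f0000002d 10 6) 0 0 (step_sound _ 164 [(rh361cc68994bd8a63.shift 0 4), rh36a395922248ccca] (by decide +kernel))
noncomputable def rh5066fd73349e34cf : CRef := CRef.mk (Pat.mk 0x20000000300000000000000000000000000000000 0x50000000700000007000000070000000e0000001f0000001f0000001f0000000700000005 10 5) 0 0 (step_sound _ 193 [rh13be592e82206b07, (rh32431e66bbf434a4.shift 0 3), (rh36938655dd43f618.shift 0 1), (rh8bf99f042330a7dc.shift 0 3)] (by decide +kernel))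
noncomputable def rhc49d89284dfb5791 : CRef := CRef.mk (Pat.mk 0x20000000000000003000000000000000000000000 0x5000000070000000700000006000000060000000f0000001f0000001f0000001f00000005 10 5) 0 0 (step_sound _ 129 [rh36938655dd43f618, (rh7a7e08304268422e.shift 0 2), (rh82c8bf644f05d182.shift 0 1), rhfafeb437ceb8396d] (by decide +kernel))
noncomputable def rh5d9de47ede433ff0 : CRef := CRef.mk (Pat.mk 0x400000004000000040000001c000000050000000000000000 0x400000004000000040000000c0000001e000000f70000007c000000fc 10 8) 0 0 (step_sound _ 131 [(rh2145e1d24b96a57e.shift 2 3), rhf6bb009bd8456816] (by decide +kernel))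
noncomputable def rh02b77586da1d48e0 : CRef := CRef.mk (Pat.mk 0x2000000020000001200000006000000020000000000000000 0x28000000380000007c0000003e0000007b000000320000003f0000003b0000003800000028 10 7) 0 0 (step_sound _ 196 [(rh0346534b6d09535f.shift 0 3), (rh10c45420489fc1ce.shift 0 1), (rh275adacb0e2a009e.shift 0 2), rh3c2dc8c3c3cf95a2, (rh6f4ad6eabbe0731a.shift 0 1)] (by decide +kernel))
noncomputable def rh84b51cd5247c85e4 : CRef := CRef.mk (Pat.mk 0x1200000002000000120000000200000000 0x21000000370000003f000000360000003a0000003a0000003a00000008 10 6) 0 0 (step_sound _ 162 [rhb618d92c8ad5e1f0, (rhbaefcd01e0a8bca3.shift 1 1)] (by decide +kernel))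
noncomputable def rh552fe875efbebbf5 : CRef := CRef.mk (Pat.mk 0x100000000000000010000000030000000000000000 0x28000001f8000000f8000001f800000078000000380000003f0000003800000028 10 9) 0 0 (step_sound _ 132 [(rh168fed7625321222.shift 3 0), (rh1774ddf4135e1306.shift 0 1), (rh4ac3705679d4fc94.shift 3 0), rh835af3e7fbb5686c, (rh895960a8d60b102d.shift 3 0), (rhf6452db69911b7bf.shift 3 2)] (by decide +kernel))
noncomputable def rhd311e4b0f9086587 : CRef := CRef.mk (Pat.mk 0x20000000200000012000000020000000000000000 0x740000003e0000007b0000001e0000000f0000000900000008 10 7) 0 0 (step_sound _ 64 [(rh932754581e0f4330.shift 0 1), rhb3cf4ad290383e67] (by decide +kernel))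
noncomputable def rh554cda0d83767376 : CRef := CRef.mk (Pat.mk 0x20000001200000002000000020000000200000000 0x7b0000007e0000007f0000003a0000001f0000003d 10 7) 0 0 (step_sound _ 32 [rh932754581e0f4330, rh970c74f43af7ded3] (by decide +kernel))
noncomputable def rha5589e1ff442b6fb : CRef := CRef.mk (Pat.mk 0x200000002000000120000000200000002000000000 0x140000001f7000001be000001e7000000f0000000b000000080 10 9) 0 0 (step_sound _ 132 [(rh50fbb5868c909700.shift 4 1), rhfc0f1336f6c55368] (by decide +kernel))
noncomputable def rhd35706c1bd5e818c : CRef := CRef.mk (Pat.mk 0x80000000800000048000000480000000800000000 0xb0000000f8000000ff000000ec000000d8000000d8000000c800000080 10 8) 0 0 (step_sound _ 166 [(rh3ba0785dfc34cc4e.shift 5 0), (rh64615109d910cd4d.shift 0 1), (rh934fac0f6c2e83a8.shift 2 1)] (by decide +kernel))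
noncomputable def rh1ad355b1c1cceff1 : CRef := CRef.mk (Pat.mk 0x400000004000000000000000000000000 0xa0000007e0000003f0000007e0000001c0000007e0000003e0000007e0000000a 10 7) 0 0 (step_sound _ 162 [(rh25a7b95659bfbe65.shift 1 0), (rh45562cf244c73875.shift 0 2), (rh470ff633790fa3af.shift 1 0), (rh4b3fdda238748c4a.shift 1 1), (rhbfbe0dbc7479c78f.shift 1 0), (rhf474df3b81236ff6.shift 1 0)] (by decide +kernel))
noncomputable def rh418c97a69b893261 : CRef := CRef.mk (Pat.mk 0x20000000200000012000000120000000300000000000000000000000000000000 0x2a0000003a0000003a000000360000003e0000003b0000003e0000003e0000003c00000028 10 6) 0 0 (step_sound _ 162 [(rh361cc68994bd8a63.shift 0 4), rh515666b242b035a9] (by decide +kernel))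
noncomputable def rh7d68c78d7e70804b : CRef := CRef.mk (Pat.mk 0x4000000040000002c0000000400000005000000000000000000000000 0x400000004000000240000006c0000007e000000f70000003c0000007c00000020 10 8) 0 0 (step_sound _ 131 [(rh2145e1d24b96a57e.shift 2 4), rh53ac6395e79a04a9] (by decide +kernel))
noncomputable def rh12ced68d4dfaa82a : CRef := CRef.mk (Pat.mk 0x80000000800000048000000680000000800000000 0x20000000e0000000f0000000fc000000cf000000e8000000e8000000c800000080 10 8) 0 0 (step_sound _ 164 [(rh2f68792b6b779e96.shift 3 2), rhdd463df38d033ffa] (by decide +kernel))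
noncomputable def rh09fcfcabafae732b : CRef := CRef.mk (Pat.mk 0x200000002000000120000000a0000000200000000 0x240000003f00000033000000120000003f0000003b00000020 10 6) 0 0 (step_sound _ 162 [(rh2f68792b6b779e96.shift 1 2), rh4ea8f5d28ad8f66a] (by decide +kernel))
noncomputable def rha95e0fa82a1336a6 : CRef := CRef.mk (Pat.mk 0x200000002000000120000000a0000000200000000 0x28000000380000003c0000003f000000330000003a0000003b0000003b00000020 10 6) 0 0 (step_sound _ 64 [rh400ed575eb1e61c2, (rh932754581e0f4330.shift 0 1)] (by decide +kernel))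
noncomputable def rhaebf895d3f07b42e : CRef := CRef.mk (Pat.mk 0x200000002000000120000000a0000000000000000000000000000000000000000 0x740000003e0000007b0000007a0000001f0000003800000038000000380000003800000008 10 7) 0 0 (step_sound _ 162 [(rh834ef1c974e4840e.shift 0 2), (rhb8022f71dc28021b.shift 0 5), (rhe304aa53754a96e3.shift 0 3), (rhed92615b1200cd11.shift 1 0)] (by decide +kernel))
noncomputable def rh6e97f11c1c12b6ea : CRef := CRef.mk (Pat.mk 0x40000000200000002000000120000001a0000000200000000000000000000000000000000 0x40000001e0000001b0000001b0000001a0000001e0000003b00000018000000380000003800000028 10 6) 0 0 (step_sound _ 162 [rh0d5561b8141f5755, (rheb0810cc63b001d8.shift 0 4)] (by decide +kernel))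
noncomputable def rhbc4e18284fd83d3e : CRef := CRef.mk (Pat.mk 0x20000000000000003000000000000000000000000 0x50000000700000007000000070000000f0000001f0000001f0000001f00000005 10 5) 0 0 (step_sound _ 129 [rh09191afbd71d6a2f, rh168fed7625321222, rh36938655dd43f618, (rh7a7e08304268422e.shift 0 2)] (by decide +kernel))
noncomputable def rhb8226ab22f89206c : CRef := CRef.mk (Pat.mk 0x10000001200000002000000120000000200000002000000020000000000000000 0x2800000038000000390000003b0000003e0000003a0000003e0000003b0000003a0000003e0000002600000004 10 6) 0 0 (step_sound _ 196 [(rh168fed7625321222.shift 3 2), (rh1a77390c8dd58c37.shift 0 2), (rh2dca5b13a3f7016f.shift 1 0), (rh579d22b0d0d3542a.shift 0 4), (rh68700e15a28fd743.shift 1 0), (rh793eb10cafbc71e3.shift 3 1), (rhcd44cb4a3552705b.shift 1 0)] (by decide +kernel))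
noncomputable def rh84c658ebba2eb2d8 : CRef := CRef.mk (Pat.mk 0x120000000200000012000000020000000000000000 0x200000003c0000003e0000003f0000003a0000003a0000003a0000003800000020 10 6) 0 0 (step_sound _ 194 [(rhbaefcd01e0a8bca3.shift 1 2), rhd5660c4ff705507b] (by decide +kernel))
noncomputable def rh748600f9d4075be9 : CRef := CRef.mk (Pat.mk 0x1000000002000000120000000200000002 0x20000000340000003f000000370000003b0000003a0000003a0000000a 10 6) 0 0 (step_sound _ 128 [rh032820e79f73202f, rhffd04209dc8ea796] (by decide +kernel))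
noncomputable def rh99f8d5a2b6c1c051 : CRef := CRef.mk (Pat.mk 0x110000001200000012000000020000000000000000 0x240000003f0000003700000012000000120000003e0000003800000020 10 6) 0 0 (step_sound _ 161 [(rh50fbb5868c909700.shift 0 2), rhd8d255a57609ea7d] (by decide +kernel))
noncomputable def rhdd1f7dce9b092aba : CRef := CRef.mk (Pat.mk 0x11000000120000001200000002 0x28000000380000003c0000001f00000017000000320000003200000022 10 6) 0 0 (step_sound _ 97 [rh267f365d229f52c0, rh50fbb5868c909700] (by decide +kernel))
noncomputable def rhe8dbeb600ab695c8 : CRef := CRef.mk (Pat.mk 0x11000000020000001200000002000000000000000000000000 0x2d0000003f0000003a000000360000003e000000380000003800000020 10 6) 0 0 (step_sound _ 193 [(rh50fbb5868c909700.shift 0 3), rhf016f36053b61700] (by decide +kernel))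
noncomputable def rh70e10ab69a6267b7 : CRef := CRef.mk (Pat.mk 0x9000000080000000800000000 0x140000007c0000007c0000007f000000380000001800000010 10 7) 0 0 (step_sound _ 131 [(rh1741680720c097b4.shift 2 1), rh780785a24c8baaf8, (rh7eb4a07d72ad7934.shift 2 0), (rhced6d86d2069808b.shift 3 0)] (by decide +kernel))
noncomputable def rh468092fe94881311 : CRef := CRef.mk (Pat.mk 0x13000000000000001200000002000000000000000000000000 0x28000001f8000000fe000000fb00000038000000360000003e000000380000003800000020 10 9) 0 0 (step_sound _ 164 [(rh09191afbd71d6a2f.shift 3 1), (rh168fed7625321222.shift 3 1), (rh767ae4bed8f13527.shift 1 1), (rh793eb10cafbc71e3.shift 3 0), (rhab1f09f154e392a1.shift 0 3), (rhc5e89a5691ea14f2.shift 3 1), (rhd60a9635b04b5467.shift 3 1)] (by decide +kernel))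
noncomputable def rhdee583b821064f04 : CRef := CRef.mk (Pat.mk 0x8000000000000000900000001000000000000000000000000 0x140000007c0000007e0000007e0000001c0000001b0000001f0000001c0000001c00000010 10 7) 0 0 (step_sound _ 163 [(rh09191afbd71d6a2f.shift 2 1), (rh168fed7625321222.shift 2 1), (rh767ae4bed8f13527.shift 0 1), (rh793eb10cafbc71e3.shift 2 0), (rhc5e89a5691ea14f2.shift 2 1), (rhd60a9635b04b5467.shift 2 1), (rhe1cc67bf9939dde5.shift 1 3)] (by decide +kernel))
noncomputable def rheeac48e91837af71 : CRef := CRef.mk (Pat.mk 0x800000000000000090000000100000001000000010000000200000000 0x140000007c0000007e0000007e0000001c0000001b0000001f0000001d0000001d0000001300000002 10 7) 0 0 (step_sound _ 195 [(rh09191afbd71d6a2f.shift 2 2), rh4adacaafccab99e8, rh6155e415fa9b9a49, (rh767ae4bed8f13527.shift 0 2), (rhc5e89a5691ea14f2.shift 2 2), (rhd60a9635b04b5467.shift 2 2), (rhe1cc67bf9939dde5.shift 1 4), (rhe3f21d896db8758a.shift 0 1)] (by decide +kernel))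
noncomputable def rh42e91f4e4bd7f83a : CRef := CRef.mk (Pat.mk 0x1100000002000000120000000200000002000000000000000000000000 0x20000000350000003f0000003a0000003a0000003e0000003a0000002f0000000700000005 10 6) 0 0 (step_sound _ 225 [rh490a71534ac14742, (rh50fbb5868c909700.shift 0 4)] (by decide +kernel))
noncomputable def rh64baeef8609297bc : CRef := CRef.mk (Pat.mk 0x1100000002000000120000000200000002000000000000000000000000 0x28000000380000003d0000001f0000003a0000003a0000003e0000003a0000002f0000000700000005 10 6) 0 0 (step_sound _ 225 [(rh50fbb5868c909700.shift 0 4), rha2eb6e78fb577e13] (by decide +kernel))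
noncomputable def rhe2ce0e2148fae60f : CRef := CRef.mk (Pat.mk 0x130000000200000012000000020000000000000000 0x2c0000003f0000003a0000003a000001fe000000f800000028 10 9) 0 0 (step_sound _ 162 [(rh2f68792b6b779e96.shift 1 2), rh806115297c6424d2] (by decide +kernel))
noncomputable def rhf86145b89c5a3480 : CRef := CRef.mk (Pat.mk 0x2000000020000000200000000 0x50000003f0000001f0000003f0000000f0000000700000005 10 6) 0 0 (step_sound _ 129 [(rh1741680720c097b4.shift 0 1), rhc4ec57a3756c3a6c, rhde7de826561b7a3e] (by decide +kernel))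
noncomputable def rh2bbc9773ea5adc10 : CRef := CRef.mk (Pat.mk 0x13000000000000001000000002000000000000000000000000 0x1000000038000001f8000000fe000000fb0000003800000038000001fe000000f80000003800000020 10 9) 0 0 (step_sound _ 164 [(rh0515df9305f7b8bc.shift 1 2), (rh09191afbd71d6a2f.shift 3 1), (rh657a1db8e51f65d6.shift 1 1), (rh97e546f54c9b66db.shift 3 2), (rhb954f8826de0114f.shift 0 3), (rhc5e89a5691ea14f2.shift 3 1), (rhe3f21d896db8758a.shift 1 0)] (by decide +kernel))
noncomputable def rh1caf50800004911d : CRef := CRef.mk (Pat.mk 0x1300000000000000120000000200000002000000020000000000000000 0x1000000038000001f8000000fe000000fb000000380000003a000001fe000000fa0000003e0000002600000004 10 9) 0 0 (step_sound _ 196 [(rh0515df9305f7b8bc.shift 1 3), (rh2dca5b13a3f7016f.shift 1 0), (rh657a1db8e51f65d6.shift 1 2), (rh68700e15a28fd743.shift 1 0), (rh97e546f54c9b66db.shift 3 3), (rhb954f8826de0114f.shift 0 4), (rhe3f21d896db8758a.shift 1 1)] (by decide +kernel))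
noncomputable def rh48a3c4a916b22e2d : CRef := CRef.mk (Pat.mk 0x8000000000000000800000001000000000000000000000000 0x80000001c0000007c0000007e0000007e0000001c0000001c000000ff0000007c0000001c00000010 10 8) 0 0 (step_sound _ 163 [(rh0515df9305f7b8bc.shift 0 2), (rh657a1db8e51f65d6.shift 0 1), (rh97e546f54c9b66db.shift 2 2), (rhc5e89a5691ea14f2.shift 2 1), (rhe1cc67bf9939dde5.shift 1 3), rhe3f21d896db8758a] (by decide +kernel))
noncomputable def rhce730be683b2bf09 : CRef := CRef.mk (Pat.mk 0x200000002000000120000000200000000 0x3d0000001f0000007a0000007e0000007f00000008 10 7) 0 0 (step_sound _ 67 [rh8ddcedac4a07ffb5, (rh9d2601f81d2812aa.shift 0 1), (rhc42297b4a2656f14.shift 0 1), (rhc6338602faf8e7de.shift 0 1), (rhd2bf3b2053d4a342.shift 0 1), (rhdacff0e0b97ba728.shift 0 1)] (by decide +kernel))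
noncomputable def rh553842820ee0f203 : CRef := CRef.mk (Pat.mk 0x120000000200000002000000030000000000000000 0x1800000018000000780000007e0000007f0000003a0000003f0000003c00000020 10 7) 0 0 (step_sound _ 163 [(rh4a1271cc7ee72461.shift 0 1), rh709cb7832460a264, (rhc42297b4a2656f14.shift 0 4), (rhc6338602faf8e7de.shift 0 4), (rhdacff0e0b97ba728.shift 0 4), rhed02c010aa8c2538] (by decide +kernel))
noncomputable def rh9669dbd08e52855f : CRef := CRef.mk (Pat.mk 0x2000000020000000e0000000200000000 0x28000000390000003b0000003e0000003f0000003a00000008 10 6) 0 0 (step_sound _ 128 [rh009f223673506971, (rh50fbb5868c909700.shift 0 1)] (by decide +kernel))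
noncomputable def rhc32d14f628071338 : CRef := CRef.mk (Pat.mk 0x6000000040000000c0000000500000004000000000000000000000000 0x500000007000000076000000fc0000007e000000f70000007c000000f80000003800000028 10 8) 0 0 (step_sound _ 164 [(rh009f223673506971.shift 1 3), rh0d90cab399c6527a, (rh34290afd4148b42f.shift 1 4), (rh352b7f91eba0c81f.shift 1 4), (rh9c0ab0af19c4d8a6.shift 0 4)] (by decide +kernel))
noncomputable def rhe1f49f92fb66316b : CRef := CRef.mk (Pat.mk 0xc0000000500000004000000080000000000000000 0x10000000f00000007e000000f7000001f4000000fe000001fe00000002 10 9) 0 0 (step_sound _ 164 [rh4b2fa90264316c66, (rh542d2d174726cbe7.shift 1 0), (rh9c0ab0af19c4d8a6.shift 0 4), (rhbf0e2729f946a807.shift 1 0)] (by decide +kernel))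
noncomputable def rh25c51f2550397a72 : CRef := CRef.mk (Pat.mk 0x10000000100000001000000010 0x180000001800000018000000770000003e0000003f 10 7) 0 0 (step_sound _ 131 [rh8cf80b17881022f8, (rhffd04209dc8ea796.shift 3 0)] (by decide +kernel))
noncomputable def rhd80fea93a6d14fbb : CRef := CRef.mk (Pat.mk 0x1000000010000000100000001000000010 0x28000000380000003800000030000000180000007f000000fe0000003f00000010 10 8) 0 0 (step_sound _ 99 [(rh50fbb5868c909700.shift 3 0), (rh5c98447450ab0bb0.shift 0 1)] (by decide +kernel))
noncomputable def rh45176feb9ae59a22 : CRef := CRef.mk (Pat.mk 0x1000000010000000100000001800000000 0x280000003800000010000001ff000000fe000001e7 10 9) 0 0 (step_sound _ 37 [(rh55afc6a59410cf00.shift 4 0), rhf9f2ece05253ad41] (by decide +kernel))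
noncomputable def rhaf6254849ebaff5c : CRef := CRef.mk (Pat.mk 0x1e00000004000000000000000000000000 0x1e0000001f0000003b0000001e0000003c000000380000003000000030 10 6) 0 0 (step_sound _ 195 [rh634e51356066b621, (rh65dc9ac2eea86f24.shift 1 2), (rh96a7d59fee64d21c.shift 0 2), (rhe81e43b7b0027fd6.shift 1 1), (rhfd0f5594b61bce04.shift 1 1)] (by decide +kernel))
noncomputable def rh18dc86be075ab705 : CRef := CRef.mk (Pat.mk 0x800000008000000280000002800000000 0x140000003c0000003c000000f8000000ff0000003f000000f8000001ec00000004 10 9) 0 0 (step_sound _ 68 [rh0d9af7ba6955f82c, (rh157b220518f94713.shift 2 0), (rh1aae126fdb0efa1d.shift 2 1)] (by decide +kernel))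
noncomputable def rhae2bdb3c46edd9bf : CRef := CRef.mk (Pat.mk 0x20000000e0000000a00000000 0x1a0000003f0000003e0000001f0000003e0000003a00000010 10 6) 0 0 (step_sound _ 68 [(rh3244c3cc8379b070.shift 0 2), rh724ce3824aaac864] (by decide +kernel))
noncomputable def rhd56a4a5877d51392 : CRef := CRef.mk (Pat.mk 0x4000000140000001400000000 0xa0000003e0000007f0000003e000000360000003600000022 10 7) 0 0 (step_sound _ 130 [(rh20966da26a1c2ae8.shift 1 0), (rh968ba7b0df7e4096.shift 1 0), (rhc85cc95794737cf7.shift 1 1), rhfeab431f3a3df3cf] (by decide +kernel))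
noncomputable def rh4340e91599d73a17 : CRef := CRef.mk (Pat.mk 0x2000000020000000a0000000a000000000 0x1de000001fe000001f7000000a0000000b000000010 10 9) 0 0 (step_sound _ 134 [rh104091c9a6cd0fcc, (rh2f68792b6b779e96.shift 5 1)] (by decide +kernel))
noncomputable def rhddddb297fd6e297f : CRef := CRef.mk (Pat.mk 0x10000000c000000040000000000000000000000000 0x3000000030700001ffe00000fe700001fc0000007000000070000000500 10 13) 0 0 (step_sound _ 165 [(rh3e55a5642f206aaa.shift 3 4), (rh83ec37ff6e78b01f.shift 3 4), (rhc3042aa4759624de.shift 0 4), (rhd4f2f9f1049fd380.shift 4 0)] (by decide +kernel))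
noncomputable def rhf443821dde1fafe8 : CRef := CRef.mk (Pat.mk 0x700000002000000000000000000000000 0x1c0000001c000001fc000000ff000001fe0000003c0000003800000038 10 9) 0 0 (step_sound _ 131 [(rh13c831a31e00735f.shift 1 0), rh377c6eee367306bd, (rh7cd55773ce0ce062.shift 0 1), (rh7f19faacb25ccadc.shift 0 3), (rha93a5dd541ab8209.shift 0 3), (rhb8de41a89a9d4634.shift 0 3), (rhdbe30b89b8872db3.shift 0 3)] (by decide +kernel))
noncomputable def rhcfe0483b91c2bac3 : CRef := CRef.mk (Pat.mk 0x4000000300000001400000000 0x40000007e0000007c000001ff0000003e000000f600000060 10 9) 0 0 (step_sound _ 67 [rh0115001eecc541d4, (rh50cd11c9ca068ca2.shift 1 1), (rhcb763b151dc90fdc.shift 1 1), (rhd526f9b20c752965.shift 1 1), (rhe0b35af09c3d563c.shift 1 0)] (by decide +kernel))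
noncomputable def rh2a07d2080a0ad71e : CRef := CRef.mk (Pat.mk 0x2000000180000000800000000 0x14000000fc0000007e000000ff000000780000001800000010 10 8) 0 0 (step_sound _ 99 [(rh9ebd639649ea671c.shift 0 2), (rhcbd2411023dbfaa2.shift 1 0), rhddcd7d52d5cf0fa8] (by decide +kernel))
noncomputable def rhca9ffbacb5566d2f : CRef := CRef.mk (Pat.mk 0x800000008000000380000002800000000 0x140000001c0000007c00000078000001ff000000fc000000380000002c00000004 10 9) 0 0 (step_sound _ 34 [(rh932754581e0f4330.shift 2 0), (rhcfa4f94ec29b47f5.shift 0 1)] (by decide +kernel))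
noncomputable def rhe26015cc553e23ab : CRef := CRef.mk (Pat.mk 0x280000003c00000028 0x60000000f7000000ff0000003c0000003e00000028 10 8) 0 0 (step_sound _ 68 [(rh53b3c253cb0c65f4.shift 1 1), rhf140e636b2a5b0c1] (by decide +kernel))
noncomputable def rh359bed9350504dcd : CRef := CRef.mk (Pat.mk 0x800000008000000280000002800000000 0x140000003c0000003c000000f8000000ff000003bf000001f8000003ac00000004 10 10) 0 0 (step_sound _ 68 [rh0d9af7ba6955f82c, (rh157b220518f94713.shift 2 0), (rhe3f612f8f5dcfdf1.shift 2 1)] (by decide +kernel))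
noncomputable def rhbfd51b6e96300e58 : CRef := CRef.mk (Pat.mk 0x4000000040000000400000004000000000 0xbf000001fe000000ff000000600000006000000020 10 9) 0 0 (step_sound _ 135 [(rh2f68792b6b779e96.shift 6 1), rh7afae663994167fb] (by decide +kernel))
noncomputable def rh0b8037bf163fee66 : CRef := CRef.mk (Pat.mk 0x2000000020000001a00000002000000000 0x1de000000fe000001bf000001a00000013000000010 10 9) 0 0 (step_sound _ 132 [(rh50fbb5868c909700.shift 4 1), rhdaf27697920aa2f2] (by decide +kernel))
noncomputable def rh8e11b862e23c118b : CRef := CRef.mk (Pat.mk 0x400000004000000300000001400000000 0x60000000e0000001e0000001f0000003e000000f60000003600000022 10 8) 0 0 (step_sound _ 66 [(rh1741680720c097b4.shift 1 1), rh36cc26a12291dbf3, (rh3b734c5288922837.shift 1 0), (rh4a614fd7f0458c43.shift 1 0), (rh968ba7b0df7e4096.shift 1 0)] (by decide +kernel))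
noncomputable def rhf0797a1dd5ea0166 : CRef := CRef.mk (Pat.mk 0x2000000020000001a0000000b000000000 0xee000000fe000001ff000007b0000001b000000100 10 11) 0 0 (step_sound _ 103 [(rh9ebd639649ea671c.shift 4 2), (rha77077d3387739d7.shift 4 0), rhcd2860e2c89e9c5d, (rhf18b059d0293de8d.shift 2 0)] (by decide +kernel))
noncomputable def rhcc26e19be369589b : CRef := CRef.mk (Pat.mk 0x2000000020000001a0000000a000000000 0x9e000000fe000001ff000001a0000001a000000100 10 9) 0 0 (step_sound _ 132 [(rh50fbb5868c909700.shift 4 1), rh832347b9d6666db9] (by decide +kernel))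
noncomputable def rhe0952df1dada1713 : CRef := CRef.mk (Pat.mk 0x4000000040000000400000004000000000 0xbf000001fe000000ff000000600000006000000020 10 9) 0 0 (step_sound _ 133 [rh09760273efc37d63, (rh50fbb5868c909700.shift 5 1)] (by decide +kernel))
noncomputable def rhd5715bc805f89c0a : CRef := CRef.mk (Pat.mk 0x2000000020000001800000008000000000 0x100000001f0000001ee000000fe000003ff000007900000018000000100 10 11) 0 0 (step_sound _ 103 [rh61995f3f36265d3b, (rh61b40d7ddef7f60a.shift 4 0), (rh6d3a2c23724e267f.shift 2 2), (rh723d5ecc7085e0c6.shift 2 0), (rh9ebd639649ea671c.shift 4 2)] (by decide +kernel))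
noncomputable def rh342846ed04b66387 : CRef := CRef.mk (Pat.mk 0x1000000010000000000000001000000000 0x28000000380000003f000000fe000000ff0000001800000018000000180000001800000008 10 8) 0 0 (step_sound _ 164 [(rh20b46f0d67e9d230.shift 0 1), (rh2320f057f73a4cfc.shift 3 0), (rh2e803d2a68b77fc5.shift 3 0), (rh576a263695f5bb82.shift 3 0), (rhc48b162cc725b300.shift 0 2), (rhcdc77637d67b71ee.shift 1 0)] (by decide +kernel))
noncomputable def rhe9a9455e9d8d4648 : CRef := CRef.mk (Pat.mk 0x8000000280000006000000020000000000000000000000000 0x100000007000000070000001f0000001bc000007bf000003e0000007e0000003c00000038000000280 10 11) 0 0 (step_sound _ 197 [(rh5ac30fbd88f4eca3.shift 2 3), rh8e9cd547f7d25ecd, (rhd4b4beefcd67f51e.shift 5 2)] (by decide +kernel))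
noncomputable def rh823b16802d718a31 : CRef := CRef.mk (Pat.mk 0x1000000018000000c0 0x20000000600000006000000060000007f0000007e000000cf 10 8) 0 0 (step_sound _ 37 [rh3b06a77c36898faf, (rhd6e447e81774439e.shift 3 0)] (by decide +kernel))
noncomputable def rh6dc9cbcfd33bc69d : CRef := CRef.mk (Pat.mk 0x200000003000000180000000100000000000000000 0x140000001c0000001c000000ff000000fe0000019f0000001e0000000e0000000a 10 9) 0 0 (step_sound _ 134 [rh86a5c1b7696c298c, (rhd6e447e81774439e.shift 4 3)] (by decide +kernel))
noncomputable def rhe5e417626bf374c0 : CRef := CRef.mk (Pat.mk 0x1800000018000000c000000010 0x7c0000007c0000001f0000007e00000078000000d000000010 10 8) 0 0 (step_sound _ 69 [rh75e1de0d168295b9, (rhd6e447e81774439e.shift 3 1)] (by decide +kernel))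
noncomputable def rh73ae3128c082cda9 : CRef := CRef.mk (Pat.mk 0x200000003000000180000000100000000000000000 0x2c0000002c0000007f000000fe000001bf0000001e0000000e0000000a 10 9) 0 0 (step_sound _ 134 [rh9b2271b8e043f7e8, (rhd6e447e81774439e.shift 4 3)] (by decide +kernel))
noncomputable def rha2c614b2064a383e : CRef := CRef.mk (Pat.mk 0x2000000020000000000000002000000000 0x500000007f0000007e000000fe000000380000003000000010 10 8) 0 0 (step_sound _ 69 [(rh3b734c5288922837.shift 4 0), (rh968ba7b0df7e4096.shift 4 0), rhbee6b38b538d7f6c, (rhc85cc95794737cf7.shift 4 1)] (by decide +kernel))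
noncomputable def rh0441515447a0c637 : CRef := CRef.mk (Pat.mk 0x2000000020000001a0000000a00000000 0x3f0000001f000000ff0000007e000000ff0000001a0000001a00000010 10 8) 0 0 (step_sound _ 161 [(rh1741680720c097b4.shift 0 2), (rh44f453b84f013105.shift 1 1), (rh7f1d8a9ee86abb38.shift 0 1), rh831918ec37e6b140] (by decide +kernel))
noncomputable def rhb10e278d3b513310 : CRef := CRef.mk (Pat.mk 0x200000002000000020000001a0000000a00000000 0x10000003f0000001f0000003e0000007b0000001f0000001a0000001b00000011 10 7) 0 0 (step_sound _ 194 [rhb334f16b68211afc, (rhbaefcd01e0a8bca3.shift 1 2)] (by decide +kernel))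
noncomputable def rhd8983fe52c825997 : CRef := CRef.mk (Pat.mk 0xd0000000c0000000400000000 0xc0000006c0000006c0000007f0000007c0000007c00000018 10 7) 0 0 (step_sound _ 130 [(rh2ddd6c94c59240f8.shift 2 1), (rhd4b4beefcd67f51e.shift 2 0), rhe99651033129f31f] (by decide +kernel))
noncomputable def rh2fcd984922253877 : CRef := CRef.mk (Pat.mk 0x3000000014000000300000001400000000 0x7c7000003fe000007f6000001b4000001f4000001e0 10 11) 0 0 (step_sound _ 37 [rh32850ca9821febc7, (rh55afc6a59410cf00.shift 4 0)] (by decide +kernel))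
noncomputable def rh473b1a12bfb90c13 : CRef := CRef.mk (Pat.mk 0x80000003000000028 0xc0000001c000000ff000000ff0000003f000000ff000001e8 10 9) 0 0 (step_sound _ 68 [rh52d9468ba1fd2695, (rh5c5a2014709044d0.shift 1 1), rhbc589f8107a30eff] (by decide +kernel))
noncomputable def rh40e9152650ee259d : CRef := CRef.mk (Pat.mk 0xc0000001800000010 0x60000003e0000003f000000ff000000ff0000001800000010 10 8) 0 0 (step_sound _ 68 [(rh223f44b90c070373.shift 2 0), rh3d1eac8d6644b400, rh9b676eb1e0063305, (rha14478d91faf3ae3.shift 0 1)] (by decide +kernel))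
noncomputable def rh8ab2644579203e88 : CRef := CRef.mk (Pat.mk 0x100000003000000070000000500000000000000000 0x10000002b0000003f000000370000007f000000d70000000700000005 10 8) 0 0 (step_sound _ 99 [rhcc94f4c922311f06, (rhe25b0a99195a5d59.shift 3 2)] (by decide +kernel))
noncomputable def rhaea158035eebf034 : CRef := CRef.mk (Pat.mk 0xc0000001800000014 0x6000000160000003f0000001f0000003f0000001f00000034 10 6) 0 0 (step_sound _ 99 [(rh2145e1d24b96a57e.shift 3 0), rhceaf5cc33f956dc7] (by decide +kernel))
noncomputable def rh4bb5aa060aebbbf3 : CRef := CRef.mk (Pat.mk 0x10000000020000001c00000008 0x50000000700000007000001fb000000fe000000fe0000001c00000008 10 9) 0 0 (step_sound _ 132 [(rh3c88ce959c0e423f.shift 3 0), rh8d156d05d98f5d75] (by decide +kernel))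
noncomputable def rh882f14d602d371fa : CRef := CRef.mk (Pat.mk 0x4000000040000003400000014000000000 0x28000000388000003880000032f00000ffe000007ff000003500000036000000220 10 12) 0 0 (step_sound _ 133 [(rh50fbb5868c909700.shift 5 1), rha1c437843a0b2b61] (by decide +kernel))
noncomputable def rh02de12a5369ab4b4 : CRef := CRef.mk (Pat.mk 0x2000000020000001a00000009 0x3f0000001f0000003b0000003e0000001f0000001b00000009 10 6) 0 0 (step_sound _ 129 [rh79877ebd3ef475dd, rh7f1d8a9ee86abb38] (by decide +kernel))
noncomputable def rh54e1d849273c0586 : CRef := CRef.mk (Pat.mk 0x2000000020000001a0000000a0000000000000000 0x1000000fb000000ff000000ff0000001b0000003a0000003000000020 10 8) 0 0 (step_sound _ 192 [rh47c02ea38af98a60, (rhffd04209dc8ea796.shift 0 2)] (by decide +kernel))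
noncomputable def rh4845ef54654f8111 : CRef := CRef.mk (Pat.mk 0x7800000000000000200000000000000000 0x140000001c0000001c0000001c000000dc000000780000001c0000003c0000001f00000004 10 8) 0 0 (step_sound _ 163 [rh2b605128fb777884, (rh3244c3cc8379b070.shift 2 4)] (by decide +kernel))
noncomputable def rh3f4aa9e2bdee90f7 : CRef := CRef.mk (Pat.mk 0x20000000a00000002000000000 0x5000000070000000700000007e0000007e000007ff000007e00000073c00000010 10 11) 0 0 (step_sound _ 133 [(rh1e6b4cbeee7f35ff.shift 4 1), rh54731e519da5c0a7, (rh6a209b4f2eb5c02f.shift 2 0), (rh7a38aa8d9605e9d8.shift 4 1), (rhc85cc95794737cf7.shift 4 1), (rhf30f040d08330f4f.shift 2 0)] (by decide +kernel))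
noncomputable def rh0b22bd13248ed21e : CRef := CRef.mk (Pat.mk 0x160000001c000000000000000000000000 0x800000038000000380000003a0000003b0000003e000000360000001c000000f80000003000000020 10 8) 0 0 (step_sound _ 164 [(rh32431e66bbf434a4.shift 3 2), (rh647ba378746d00e5.shift 0 2), (rh7af5cdb4678e4582.shift 1 0), (rhc7478261c0110095.shift 1 2), (rhcb71867aaceb14f4.shift 3 2)] (by decide +kernel))
noncomputable def rh97d3506cb8b5193f : CRef := CRef.mk (Pat.mk 0x10000000100000001000000000 0x280000003f0000003e0000007f0000001c0000001800000008 10 7) 0 0 (step_sound _ 132 [(rh3b734c5288922837.shift 3 0), rh5b98a983f484c0f7, (rh968ba7b0df7e4096.shift 3 0), (rhc85cc95794737cf7.shift 3 1)] (by decide +kernel))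
noncomputable def rh91d87c54e639c7ea : CRef := CRef.mk (Pat.mk 0x3800000010000000500000001000000000 0x7000000ff000000fe000000f00000001e00000008 10 8) 0 0 (step_sound _ 35 [(rh932754581e0f4330.shift 3 0), (rh934e1f6ad2bef15c.shift 0 1)] (by decide +kernel))
noncomputable def rh6ce2ca770341e756 : CRef := CRef.mk (Pat.mk 0x100000000800000008000000280000000c 0x3800000078000000ee000000fe000000780000000f 10 8) 0 0 (step_sound _ 36 [(rh18965a982d73c794.shift 2 0), rh265b88005cf52942] (by decide +kernel))
noncomputable def rhe3163775dd44001e : CRef := CRef.mk (Pat.mk 0x800000010000000100000005000000040 0x2000000030000000fa0000009e000007f7000003fe000007f700000040 10 11) 0 0 (step_sound _ 69 [rh77b275d3994047e5, (rh7b76803feb6d9243.shift 0 1), (rh806f9faf6621977e.shift 2 1), (rhc5febebb7babee24.shift 3 1)] (by decide +kernel))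
noncomputable def rh73f244cb123fbd51 : CRef := CRef.mk (Pat.mk 0x2000000020000000a0000000a 0x100000003000000170000001e0000001f0000007f0000001f0000000a 10 7) 0 0 (step_sound _ 130 [(rhbaefcd01e0a8bca3.shift 1 0), rhe1b11de4d3d31816] (by decide +kernel))
noncomputable def rh1c824048914489cb : CRef := CRef.mk (Pat.mk 0x100000002000000020000000a0 0x4000000060000001f000000130000003e7000001fe000001f7 10 10) 0 0 (step_sound _ 101 [(rh50fbb5868c909700.shift 4 0), rh8336fa4509209a4d] (by decide +kernel))
noncomputable def rh43a32bc1fed752dc : CRef := CRef.mk (Pat.mk 0x100000005000000050 0x80000000e0000000e0000000e0000000fe000000ff0000005e 10 8) 0 0 (step_sound _ 37 [(rh2820ca9a6c4f41b4.shift 1 0), rh365d01bc6912ea11, (rha9fbfd4bb8cf890b.shift 1 1), (rhd9106766b9ff53c0.shift 3 0)] (by decide +kernel))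
noncomputable def rh40dd638581946403 : CRef := CRef.mk (Pat.mk 0xf00000002000000020000000200000000 0x600000003f0000003e000000170000003e00000074 10 7) 0 0 (step_sound _ 100 [(rh96851dee118c1ba3.shift 0 3), rhdbecf6e82b4a78ac] (by decide +kernel))
noncomputable def rhae58c5f3be28ab5c : CRef := CRef.mk (Pat.mk 0x2000000120000000a0000000a0000000000000000 0x3c0000003e000001f6000001fe000000fb000001f100000020 10 9) 0 0 (step_sound _ 100 [(rh5710f30ba40ee3ec.shift 0 1), (rh7327fb624f9525c0.shift 1 2), (rh772cfa6a575bdf5d.shift 1 2), (rhc0017de48d353459.shift 2 0)] (by decide +kernel))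
noncomputable def rha8716ee0b850be36 : CRef := CRef.mk (Pat.mk 0x2000000120000000a0000000a00000000 0x770000003e0000007f0000003e0000003e000000fa00000030 10 8) 0 0 (step_sound _ 162 [rh6da3f0b814478e0a, (rhbaefcd01e0a8bca3.shift 1 1)] (by decide +kernel))
noncomputable def rhdbc40339b2f69c46 : CRef := CRef.mk (Pat.mk 0x100000000a0000000b0000000000000000 0x380000003800000078000000fe000000fb000000f000000020 10 8) 0 0 (step_sound _ 100 [(rhb2a0b9ccfb5cecd5.shift 0 2), (rhbe37b956991eb9b3.shift 3 0)] (by decide +kernel))
noncomputable def rhd6966d14ea9c35d7 : CRef := CRef.mk (Pat.mk 0x2000000020000000e0000000a 0x4000000070000001b0000001f000000f60000007e000000fa 10 8) 0 0 (step_sound _ 128 [rh0c7fb373f2e16ee2, rhffd04209dc8ea796] (by decide +kernel))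
noncomputable def rhc3f5f17c14b47146 : CRef := CRef.mk (Pat.mk 0x200000001000000010000000500000004000000000 0xb0000000f0000001d8000007f7000003fe000007c700000080 10 11) 0 0 (step_sound _ 164 [(rh2f68792b6b779e96.shift 4 2), rh5f87670a0c35cc29] (by decide +kernel))
noncomputable def rh3a4858a4eef44ef2 : CRef := CRef.mk (Pat.mk 0x800000010000000100000005000000040 0x20000000b8000000d8000001f0000007f7000003fe000007c7 10 11) 0 0 (step_sound _ 132 [(rh50fbb5868c909700.shift 3 1), rhe0ead8196299825b] (by decide +kernel))
noncomputable def rh816f802baa33c5a5 : CRef := CRef.mk (Pat.mk 0x20000000a0000000a000000000 0x50000001ff000001fe000001ef000000b0000000b000000010 10 9) 0 0 (step_sound _ 133 [(rh1741680720c097b4.shift 4 1), (rh3b734c5288922837.shift 4 0), (rh968ba7b0df7e4096.shift 4 0), rhcbde3f6b5aae5a95] (by decide +kernel))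
noncomputable def rh2397a20f14b89e20 : CRef := CRef.mk (Pat.mk 0x10000000500000001000000000 0x2800000038000000380000003f000000fe000007be000003f00000079800000008 10 11) 0 0 (step_sound _ 69 [rh4164cb854d599f9e, (rh9c94213f6896c74a.shift 3 1), (rhed089e533d29058f.shift 3 1)] (by decide +kernel))
noncomputable def rhad17d5ce0aa2dbb4 : CRef := CRef.mk (Pat.mk 0xe00000004000000140000001400000000 0x280000003800000038000001f0000000ff000001ff0000001c0000001600000002 10 9) 0 0 (step_sound _ 33 [(rh932754581e0f4330.shift 1 0), (rhdf2b45be7a8e6fdc.shift 0 1)] (by decide +kernel))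
noncomputable def rh8fa17edb0a5742a5 : CRef := CRef.mk (Pat.mk 0x18000000100000005000000058000000000000000000000000 0x40000001f0000007f0000007f000000df000000070000000200000002 10 8) 0 0 (step_sound _ 131 [rh991092217beaee6b, (rhcaa7ba44a31c4370.shift 2 3), (rhd8b6318ad2cccf28.shift 0 3)] (by decide +kernel))
noncomputable def rhb7e85cf2364d802f : CRef := CRef.mk (Pat.mk 0x2000000010000000100000005000000010 0x1000000030000000f80000001e0000007f0000007f00000010 10 8) 0 0 (step_sound _ 132 [rh17b8e30e669e54a0, (rh2f68792b6b779e96.shift 4 1)] (by decide +kernel))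
noncomputable def rh3491dac3031831bc : CRef := CRef.mk (Pat.mk 0xc000000040000001400000004000000000 0x140000003c0000003c000003ff000003fe000001df0000005800000018 10 10) 0 0 (step_sound _ 101 [(rh0bb882ba86b2372d.shift 3 3), (rh39d80319ffd007ae.shift 2 1), (rh69012675dfdb1a5b.shift 3 3), rh7d554b7ee4fde594] (by decide +kernel))
noncomputable def rhb56913a33a057c44 : CRef := CRef.mk (Pat.mk 0x2000000020000000a000000030000000000000000000000000 0x20000005e0000007e0000003e000000ff0000003e0000000f0000000c0000000c 10 8) 0 0 (step_sound _ 196 [(rh50fbb5868c909700.shift 4 3), rhe8d13608ca197954] (by decide +kernel))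
noncomputable def rh8e09ad4dde25dbfc : CRef := CRef.mk (Pat.mk 0x800000008000000280000002800000000 0x770000007e0000006f0000003e0000006e00000004 10 7) 0 0 (step_sound _ 132 [(rh2f68792b6b779e96.shift 3 1), rha533a3b68ab3d5d2] (by decide +kernel))
noncomputable def rhdb6a99ef6393f171 : CRef := CRef.mk (Pat.mk 0x200000002000000080000000a000000000 0x50000001ff000001fe000001ef000000f0000001b800000010 10 9) 0 0 (step_sound _ 69 [(rh9f0212359c7333ba.shift 3 0), (rhc85cc95794737cf7.shift 4 1), rhcbde3f6b5aae5a95] (by decide +kernel))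
noncomputable def rha07f74d781ebe6d1 : CRef := CRef.mk (Pat.mk 0x100000001800000018 0x3e0000003e000000f7000000ff0000001f 10 8) 0 0 (step_sound _ 37 [rh25811a0dc9b48c40, (rh2612b4f73ba7c3b3.shift 2 0), rh2820ca9a6c4f41b4, rh30b1045e318f0560] (by decide +kernel))
noncomputable def rh3212f2140e93399a : CRef := CRef.mk (Pat.mk 0x30000000180000000000000010 0xa0000000e0000000e0000000cf000000ff000000f80000003000000010 10 8) 0 0 (step_sound _ 102 [(rh18965a982d73c794.shift 3 2), rhe62f67010eafc473] (by decide +kernel))
noncomputable def rha445085d632a9040 : CRef := CRef.mk (Pat.mk 0x40000000400000004000000040000001000000000000000000 0x140000005c0000005c000003ff000003fe000001bf0000001800000018 10 10) 0 0 (step_sound _ 101 [rh43ccc41834552a6b, (rh932754581e0f4330.shift 5 2)] (by decide +kernel))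
noncomputable def rh25c6e38466d8f65e : CRef := CRef.mk (Pat.mk 0x1000000010000000100000004000000040 0x280000003800000038000000380000001000000018000000ff0000007e000000cf 10 8) 0 0 (step_sound _ 164 [(rh193da7fc9e1674f1.shift 3 1), (rh20966da26a1c2ae8.shift 3 1), (rh771d065bdc85bf2d.shift 3 1), (rhc85cc95794737cf7.shift 3 2), rheeb232cfd22c46b1] (by decide +kernel))
noncomputable def rhc3f24256494b42ed : CRef := CRef.mk (Pat.mk 0x1000000010000000100000004000000040 0x2800000038000000380000001000000070000000ff0000007e000000cf 10 8) 0 0 (step_sound _ 164 [(rh589345da44c3b4b3.shift 1 1), (rhc85cc95794737cf7.shift 3 2), rheeb232cfd22c46b1] (by decide +kernel))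
noncomputable def rhb7fa7f50744d4621 : CRef := CRef.mk (Pat.mk 0x1000000010000000100000004000000040 0x2000000030000000300000001000000078000000ff0000007e000000cf 10 8) 0 0 (step_sound _ 164 [(rh20966da26a1c2ae8.shift 3 1), (rh25208373db83e521.shift 4 1), (rh589345da44c3b4b3.shift 1 1), rheeb232cfd22c46b1] (by decide +kernel))
noncomputable def rh41f24a9770a538f4 : CRef := CRef.mk (Pat.mk 0x10000000100000005000000050 0x800000018000000f8000000f0000001fc000001ff0000007e000000d7 10 9) 0 0 (step_sound _ 133 [(rhbaefcd01e0a8bca3.shift 4 0), rhe9fea304b342d764] (by decide +kernel))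
noncomputable def rh88b185e3ce36059b : CRef := CRef.mk (Pat.mk 0x2000000020000000300000002000000000 0x3c0000003e000001fe000001ff0000003e0000002f00000008 10 9) 0 0 (step_sound _ 100 [(rh3c2f6aff010acda4.shift 1 2), rh61256dc498b13311, (rh7f9f3607ee25a93b.shift 4 1), (rhad6e678329670f10.shift 1 1)] (by decide +kernel))
noncomputable def rh907eb815e74ce3d5 : CRef := CRef.mk (Pat.mk 0x800000008000000080000000c00000000 0xf70000007e000000ef0000001f0000000f00000001 10 8) 0 0 (step_sound _ 130 [(rh50fbb5868c909700.shift 2 1), rh852df7cd22e202b0] (by decide +kernel))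
noncomputable def rhd02fe64ad940c860 : CRef := CRef.mk (Pat.mk 0x1000000010000000100000004000000040 0x2f000000fe000000ff00000010000000ff0000007e000000cf 10 8) 0 0 (step_sound _ 164 [(rhe1b9fa042009f4b7.shift 0 2), rheeb232cfd22c46b1] (by decide +kernel))
noncomputable def rh51cd2981f2bece89 : CRef := CRef.mk (Pat.mk 0x30000000100000004000000040 0x7f000001fe000003fe000001f0000003f80000006000000040 10 10) 0 0 (step_sound _ 133 [(rh9025032b20cf095e.shift 3 0), (rhb0e53d8c2bdf7515.shift 4 0), rhe1f06a53300c5e51] (by decide +kernel))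
noncomputable def rh970a9e32a933cbaf : CRef := CRef.mk (Pat.mk 0x7000000018000000400000004000000000 0x7c0000007c000000ff0000007f000000380000006c0000004c0000000c 10 8) 0 0 (step_sound _ 131 [(rh644a4cb3391c5195.shift 0 4), (rh89a182a5c191c2c5.shift 2 0), (rh944de33657f45c08.shift 1 0), (rha58ddf8813c4b875.shift 0 3), (rhb486c36514eb1572.shift 2 1)] (by decide +kernel))
noncomputable def rh5825f0eede15229d : CRef := CRef.mk (Pat.mk 0x30000000100000004000000040 0x7f000001fe000003fe000001f8000003f00000006000000040 10 10) 0 0 (step_sound _ 133 [(rh3ae08e1a71f2acc8.shift 2 0), (rh6dc0a05e5bacf185.shift 2 0), (rhb0e53d8c2bdf7515.shift 4 0), rhe1f06a53300c5e51] (by decide +kernel))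
noncomputable def rh56e74f4b92f8b044 : CRef := CRef.mk (Pat.mk 0x3000000010000000400000000000000000 0x1c0000001c0000001f000000ff000000fe0000006c0000000c0000000c 10 8) 0 0 (step_sound _ 99 [(rh0bb882ba86b2372d.shift 1 3), rh369b8455ad0ead07, (rh3b915a8446bc88cf.shift 1 2), (rhb9979863ef5af40a.shift 1 2)] (by decide +kernel))
noncomputable def rhf63b1c5436300acc : CRef := CRef.mk (Pat.mk 0x60000000600000008000000080 0x5000000070000000ff000003fe000000fe0000007800000070000000d000000080 10 10) 0 0 (step_sound _ 133 [(rh35fe13560c5f630b.shift 3 0), (rh3e595262c1b737ad.shift 5 1), (rh46a0f7870e65bd4d.shift 0 1)] (by decide +kernel))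
noncomputable def rhcc6a332d34c97659 : CRef := CRef.mk (Pat.mk 0x1800000018000000000000000000000000 0xe0000000e0000000f0000001f000000ff000000070000000600000006 10 8) 0 0 (step_sound _ 98 [(rh3e272846154dff99.shift 0 1), (rh7086dde1051b4ad4.shift 0 1), (rhd1f7c2d511dd814f.shift 0 2), rhd3bad48da87daf97, (rhe62dad4106b3ff88.shift 0 2), (rhfbc7abfae4ffc46c.shift 0 1)] (by decide +kernel))
noncomputable def rhe9395212fbbe20e0 : CRef := CRef.mk (Pat.mk 0x1000000010000000500000005000000000 0xef000000fe000000ff000000500000005800000008 10 8) 0 0 (step_sound _ 133 [rh2224b98d94401a3b, (rh2f68792b6b779e96.shift 4 1)] (by decide +kernel))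
noncomputable def rhf04d71ab4e6323ad : CRef := CRef.mk (Pat.mk 0x1800000008000000280000002800000000 0x670000007e0000006f000000680000006c00000044 10 7) 0 0 (step_sound _ 130 [rh339c3cddfc657521, (rh50fbb5868c909700.shift 2 1)] (by decide +kernel))
noncomputable def rh4e8f789bb0ee14c1 : CRef := CRef.mk (Pat.mk 0xa0000000200000002000000020 0x1de000000fe000001bf0000002000000020 10 9) 0 0 (step_sound _ 102 [(rh2f68792b6b779e96.shift 5 0), rh435a3cb4400b8d27] (by decide +kernel))
noncomputable def rhcd82cfdc640cd188 : CRef := CRef.mk (Pat.mk 0x8000000020000001a0000000a00000000 0x2000000020000000f70000007f000000fb0000003a000000fa000000f0 10 8) 0 0 (step_sound _ 132 [rh69a35ea19953c2b7, (rh7d7eaefe27cdd7b0.shift 3 1), (rhe8d69ee8b04cfa92.shift 0 1)] (by decide +kernel))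
noncomputable def rh9facba5c2666603a : CRef := CRef.mk (Pat.mk 0x10000000a000000020000000a0000000a0000000000000000 0x10000002b0000003e0000007b0000003e0000007b0000003100000020 10 7) 0 0 (step_sound _ 193 [(rh50fbb5868c909700.shift 0 3), rh8b5f9dc65a2a03ad] (by decide +kernel))
noncomputable def rh73d255c1c427e665 : CRef := CRef.mk (Pat.mk 0x80000000a0000000a0000000a00000000 0x770000003f0000007a0000003e0000001b00000011 10 7) 0 0 (step_sound _ 130 [rh500ee6eca7384204, (rh50fbb5868c909700.shift 2 1)] (by decide +kernel))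
noncomputable def rh42172cdd5b3a4df5 : CRef := CRef.mk (Pat.mk 0x60000000a000000020000000a0000000200000000 0x140000001f0000001b0000001f0000000a0000007b0000003e0000007300000001 10 7) 0 0 (step_sound _ 68 [rh5710f30ba40ee3ec, (rh6aa61af91cff1d72.shift 0 1), (rh92804a1c675173ab.shift 0 1)] (by decide +kernel))
noncomputable def rhff6dff88646a8766 : CRef := CRef.mk (Pat.mk 0x40000000a000000020000001a00000000 0x140000001c0000007c0000003e0000006b0000007a0000007a00000050 10 7) 0 0 (step_sound _ 131 [(rh19fd61ba939dc992.shift 1 1), (rh9c8f00d278e046ae.shift 3 0), (rhadd570ecb99b15d2.shift 2 0), rhf1f64de8edf28271] (by decide +kernel))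
noncomputable def rh58fa94d280cdd308 : CRef := CRef.mk (Pat.mk 0x800000002000000020000001200000002 0x5000000770000003f00000063000000720000007200000052 10 7) 0 0 (step_sound _ 129 [(rh1741680720c097b4.shift 0 1), rh3ca48e2a6d60153d, rh7ab5ff745eee22b1] (by decide +kernel))
noncomputable def rhcac6d3edc23318a1 : CRef := CRef.mk (Pat.mk 0xa000000020000000a000000020 0x140000001c0000001c00000019e000000fe000007bf000003e000000730 10 11) 0 0 (step_sound _ 40 [(rh01e48cd9f335aa73.shift 4 0), rh79eff9a8f0cc7408, (rh92804a1c675173ab.shift 4 0), (rhdacff0e0b97ba728.shift 4 0)] (by decide +kernel))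
noncomputable def rh0aa86d0d16ff1301 : CRef := CRef.mk (Pat.mk 0x8000000020000000a0000000a0000000000000000 0x38000000380000007b0000003e000000fb000000f000000020 10 8) 0 0 (step_sound _ 100 [(rh01e48cd9f335aa73.shift 0 2), (rh2126bca40e396666.shift 3 0), (rh92804a1c675173ab.shift 0 2)] (by decide +kernel))
noncomputable def rh337895a57f0b07dc : CRef := CRef.mk (Pat.mk 0xa000000020000000a0000000a0 0x39e000001fe000001bf000000a0000000a0 10 10) 0 0 (step_sound _ 102 [(rh17ac3f020170dd36.shift 4 0), (rh1a73e645d9e9563b.shift 4 0), rh435a3cb4400b8d27, (rhe991b0a7f5491f5b.shift 3 0)] (by decide +kernel))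
noncomputable def rh831255680288ebf0 : CRef := CRef.mk (Pat.mk 0x8000000020000001a0000000a00000000 0x2000000025000000ff0000007f000000f30000003a000000fa000000f0 10 8) 0 0 (step_sound _ 132 [(rh53c9cc5df98e7fd9.shift 1 0), rh69a35ea19953c2b7, (rhea9bcd8b661c6e9e.shift 0 1), (rhef38121e2db1533d.shift 3 0)] (by decide +kernel))
noncomputable def rh26a034b85a3a5a5b : CRef := CRef.mk (Pat.mk 0x18000000020000000a0000000a00000000 0x3800000038000000f3000000fe000000fb00000070 10 8) 0 0 (step_sound _ 68 [(rh01e48cd9f335aa73.shift 0 1), (rh103c430155319631.shift 3 0), (rh92804a1c675173ab.shift 0 1), (rhdacff0e0b97ba728.shift 0 1)] (by decide +kernel))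
noncomputable def rh2b4a824cd219d78c : CRef := CRef.mk (Pat.mk 0x700000000000000010000000100000000 0xc0000007e0000003f0000007f0000001d0000001f00000002 10 7) 0 0 (step_sound _ 96 [(rh2f68792b6b779e96.shift 0 1), rhf847d5d22aa3ed6e] (by decide +kernel))
noncomputable def rh974322ba49d49102 : CRef := CRef.mk (Pat.mk 0xa000000020000000a0000000a 0x1000000130000003f0000007b0000003e0000007a 10 7) 0 0 (step_sound _ 128 [rhf197c41d58be72af, rhffd04209dc8ea796] (by decide +kernel))
noncomputable def rhda013643f001220b : CRef := CRef.mk (Pat.mk 0x30000000c0000000400000000000000000000000000000000 0xf30000007e000000fc00000078000000700000007000000050 10 8) 0 0 (step_sound _ 164 [(rh09d4dfe75d4407d6.shift 0 5), (rhc5aa910fb6c62d6f.shift 2 0)] (by decide +kernel))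
noncomputable def rh65b7a2dc2c4933e7 : CRef := CRef.mk (Pat.mk 0x1c000000000000000800000000000000000 0x10000000300000007000000070000003fc000001fe0000007f000000f80000003800000008 10 10) 0 0 (step_sound _ 133 [(rh1a138814b2521829.shift 4 2), (rh4c622fddc53a5f99.shift 3 4), (rh775ca1963e850b80.shift 3 3), (rh9e97bba44c1b13e4.shift 3 3), rhc63fbf9f15d8e212] (by decide +kernel))
noncomputable def rh74e088836a9bd0e1 : CRef := CRef.mk (Pat.mk 0x2000000180000000800000000 0x140000001c0000001c0000003f0000001f0000007c000000f800000030 10 8) 0 0 (step_sound _ 99 [rh06492cc5cdc11bb8, (rh360d7defbd9dbc9c.shift 1 0), rh4864c628c62a3cc2, (rh9ebd639649ea671c.shift 0 2)] (by decide +kernel))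
noncomputable def rh5cd7d2e3c9555616 : CRef := CRef.mk (Pat.mk 0x10000000100000001000000000 0x28000003ef000001ff000003fc000000300000001000000010 10 10) 0 0 (step_sound _ 133 [(rh23d0e80c801fc3e0.shift 2 0), rh3d5314ba4f42a18b, (rh5890386c1f942fa1.shift 4 1), (rh87d5e4118780fa3b.shift 4 0)] (by decide +kernel))
noncomputable def rhfdd7deadf65189bd : CRef := CRef.mk (Pat.mk 0x10000001c00000004000000000000000000000000 0x18000000180000003b0000001e0000003c000000380000003000000030 10 6) 0 0 (step_sound _ 129 [(rh3f8766e6ecb455ce.shift 0 4), (rh9f436463298f9da7.shift 1 0)] (by decide +kernel))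
noncomputable def rh769b7ce4845b4458 : CRef := CRef.mk (Pat.mk 0xe00000002000000000000000000000000 0x1c0000001c000001fe000000ff000001fa000000380000003800000028 10 9) 0 0 (step_sound _ 132 [(rh50ecda6336d32a1e.shift 0 3), (rh54c1c23e7f82c3d4.shift 1 0), rh5969f0bde7114a9c, (rha4cf9251629f1722.shift 0 2), (rhdf0bfbb649669892.shift 0 1)] (by decide +kernel))
noncomputable def rh24b9526284fb00b5 : CRef := CRef.mk (Pat.mk 0x10000000c000000040000000000000000000000000 0x3000000030700000ffe000007e700000fc0000007000000070000000500 10 12) 0 0 (step_sound _ 165 [(rh4c1da394ff107098.shift 0 4), (rh83ec37ff6e78b01f.shift 3 4), (rhcb314c62841a3e20.shift 4 0)] (by decide +kernel))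
noncomputable def rhed0ac8cb83eeaea2 : CRef := CRef.mk (Pat.mk 0x1000000002000000180000000800000000 0x1c000001df000000ff000001dc0000001800000010 10 9) 0 0 (step_sound _ 99 [(rh4dec404a6c0e229a.shift 3 0), (rh9ace774d995a3d2b.shift 0 1), rha76c508c88edc1d4] (by decide +kernel))
noncomputable def rhc79b29f86218bef4 : CRef := CRef.mk (Pat.mk 0x1000000002000000180000000800000000 0xec000001ff000000ff000001dc0000001800000010 10 9) 0 0 (step_sound _ 99 [(rh37190fdbbbf66000.shift 0 2), rh4eb4cc03f0449d82, (rha74ab8aa688f87b9.shift 1 0), rha76c508c88edc1d4] (by decide +kernel))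
noncomputable def rh61dd7a43c077bcae : CRef := CRef.mk (Pat.mk 0x20000000200000000c0000001000000010 0x140000001c0000001f0000007c000001fc0000000f0000001800000010 10 9) 0 0 (step_sound _ 99 [rh0aa071f715596e8c, (rh4556bbf5bfc484ff.shift 1 0), (rh964b41f82b4d0128.shift 2 0), (rhe33d9496e10d8eb0.shift 0 2)] (by decide +kernel))
noncomputable def rha80da23c72f9ddc6 : CRef := CRef.mk (Pat.mk 0x80000000800000009000000000000000000000000 0x1000000018000000180000007f0000007e0000007c00000014 10 7) 0 0 (step_sound _ 67 [(rh39c4dac85e6334e1.shift 0 1), (rh6c59ce14113da07f.shift 3 0), (rh8cdd36b03d57a2f6.shift 2 0), (rhcab3157f7bdcba3e.shift 2 0)] (by decide +kernel))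
noncomputable def rh30a646f93b6a2830 : CRef := CRef.mk (Pat.mk 0x40000000600000002000000000000000000000000 0x1c0000001c000000fc000001fe000000ff000001fa000000380000003800000028 10 9) 0 0 (step_sound _ 131 [(rh054eec66bdc88820.shift 0 1), rh1652ac943c61eb59, (rh3779920618a66b3d.shift 0 1), (rh5307fb575e7a83b0.shift 0 1), (rhaabfdb379b856816.shift 0 2), (rhb514fd121f0ff209.shift 0 2), rhcceef60d939f6fab, (rhe3cb97eeeaa29970.shift 1 0)] (by decide +kernel))
noncomputable def rh15deb61af2ac18ad : CRef := CRef.mk (Pat.mk 0x180000001c000000100000001000000000 0xa0000000e0000000e000000070000007f0000007c000000180000003000000020 10 7) 0 0 (step_sound _ 133 [(rh18965a982d73c794.shift 2 3), rha616231e71a6ba37] (by decide +kernel))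
noncomputable def rh0223dd7dc184316d : CRef := CRef.mk (Pat.mk 0x20000000280000002000000028 0xa0000000e0000039e000001fe000003bf0000006e00000028 10 10) 0 0 (step_sound _ 100 [(rh50fbb5868c909700.shift 4 0), rha30c358bb2d0b915] (by decide +kernel))
noncomputable def rhc75459b5a1471987 : CRef := CRef.mk (Pat.mk 0x10000000380000000000000008 0x1c0000003c0000000f0000003e000000ff0000000e0000000c 10 8) 0 0 (step_sound _ 99 [(rh06309941c37f521d.shift 0 1), rh4a37fcc05bf4b929, (rhe2b63c00a3d7bb73.shift 1 2)] (by decide +kernel))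
noncomputable def rhb5ed605c0753e267 : CRef := CRef.mk (Pat.mk 0x1e0000000800000002 0x10000000f0000001f0000000f0000001e0000003b00000012 10 6) 0 0 (step_sound _ 36 [rh31504761ffee3e1b, (rhe25b0a99195a5d59.shift 1 1)] (by decide +kernel))
noncomputable def rh4d1b4a14b2837a43 : CRef := CRef.mk (Pat.mk 0x1c0000001000000014 0x5000000070000002f0000007b0000001f0000001700000014 10 7) 0 0 (step_sound _ 100 [(rh4017de503635a93b.shift 2 0), rh6a87e52bf395dfbc, (rhdab32775f5c78fcf.shift 1 0)] (by decide +kernel))
noncomputable def rhb2d74f9ae6111727 : CRef := CRef.mk (Pat.mk 0x1c0000001000000014 0x50000002f0000003f000000ff000000ff0000001700000014 10 8) 0 0 (step_sound _ 100 [(rh1741680720c097b4.shift 3 0), (rh4017de503635a93b.shift 2 0), (rh684e729394fba19d.shift 2 0), rh6a87e52bf395dfbc, rh9cf53d219962c6e9] (by decide +kernel))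
noncomputable def rhaf8a3b43050ac034 : CRef := CRef.mk (Pat.mk 0x30000001c0000000800000000 0x40000001c0000003c000000f8000000ff0000001c0000007800000030 10 8) 0 0 (step_sound _ 99 [(rh5a26aba7ad6b4fee.shift 2 0), (rhc10214bf3fe8094a.shift 0 2)] (by decide +kernel))
noncomputable def rh0fea2e709dbabdc5 : CRef := CRef.mk (Pat.mk 0x70000000200000000 0x100000001c0000001c0000007c000001fe000000ff000001fe0000000c 10 9) 0 0 (step_sound _ 67 [(rh343e6a8ac8e426ac.shift 0 1), (rh3fc3a7fb6866dcd4.shift 0 1), (rh515034c0afbd1f9d.shift 0 1), rh7f4e5aa53559cacc, (rhb8de41a89a9d4634.shift 0 1)] (by decide +kernel))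
noncomputable def rhfdfd28c81f66f20d : CRef := CRef.mk (Pat.mk 0x70000000800000008000000000000000000000000 0x6000000060000003ef000001fc000003f8000000e0000000e0000000a0 10 10) 0 0 (step_sound _ 132 [(rhd4f2f9f1049fd380.shift 1 0), (rhd6e447e81774439e.shift 0 4)] (by decide +kernel))
noncomputable def rh312cec4677e3a0ec : CRef := CRef.mk (Pat.mk 0x780000000000000010 0x3c000000ff0000003c0000001c000000f80000001000000010 10 8) 0 0 (step_sound _ 99 [rh0690e09a9568ed2d, (rh3244c3cc8379b070.shift 2 2)] (by decide +kernel))
noncomputable def rh845749c14cd20ed8 : CRef := CRef.mk (Pat.mk 0x80000000b0000000a00000018000000000000000000000000 0xf0000000f8000000fb000001fe000000f8000001e00000006000000060 10 9) 0 0 (step_sound _ 101 [(rh296529a57eadbeb0.shift 2 0), (rh3111b854098e5d9a.shift 3 0), (rh4a0cb3a9508b05dd.shift 2 2), (rh980ba5e64a46d0f0.shift 0 2), (rhde90b4c280e75d95.shift 0 3)] (by decide +kernel))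
noncomputable def rha50339d54c1b718b : CRef := CRef.mk (Pat.mk 0x18000000500000001000000000 0x800000038000000380000003c0000001e000000f8000000df0000001f0000000c 10 8) 0 0 (step_sound _ 132 [(rh193da7fc9e1674f1.shift 3 0), (rh2fd3c82e8124b6af.shift 3 0), rh66206545663ce75c, (rhd91b73d7ee353e95.shift 3 1)] (by decide +kernel))
noncomputable def rh1a1c7044ba201c88 : CRef := CRef.mk (Pat.mk 0xe0000001000000000 0x340000003c000000370000003f0000003a00000002 10 6) 0 0 (step_sound _ 68 [rh81abde10d1631cda, (rhe25b0a99195a5d59.shift 1 1)] (by decide +kernel))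
noncomputable def rh3d390ec1a9997004 : CRef := CRef.mk (Pat.mk 0x90000000f00000008000000000 0x2800000178000001f8000001f0000001f8000000b7000001fe0000009f00000010 10 9) 0 0 (step_sound _ 135 [(rh19b47f8f78473e2a.shift 2 1), rh2c883658a05a83c6, (rhaa66aaf36a477a2e.shift 2 1), (rhbbc1ffe0dcbef1ff.shift 2 1), (rhc85cc95794737cf7.shift 6 1)] (by decide +kernel))
noncomputable def rhe64a235f1bdbe845 : CRef := CRef.mk (Pat.mk 0x100000001e000000100000001000000000 0x28000000380000003c0000003c000000170000003e0000001b0000003000000020 10 6) 0 0 (step_sound _ 129 [(rh3244c3cc8379b070.shift 0 3), rh64a2a70c6bec3c46] (by decide +kernel))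
noncomputable def rhc0b8e32196875817 : CRef := CRef.mk (Pat.mk 0xc000000200000000000000000000000000 0x50000000700000007000000070000000ff000001fe000003ff000000780000007800000028 10 10) 0 0 (step_sound _ 133 [(rh6fc4ab7f79db0319.shift 4 3), (rhcb43428bb87ea4d7.shift 3 3), (rhd5db50bcd5e16af9.shift 4 1), rhdf82111f076675e3] (by decide +kernel))
noncomputable def rh82318997fc77e05e : CRef := CRef.mk (Pat.mk 0x3c0000000000000008 0x3e0000003e0000000f0000006e0000007c0000000800000008 10 7) 0 0 (step_sound _ 101 [rh27c114630095723f, (rh33e738c4ed385b9f.shift 2 2)] (by decide +kernel))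
noncomputable def rh4f7f962dd18bfa38 : CRef := CRef.mk (Pat.mk 0x1c0000000000000000000000000 0xf8000000f8000000f8000000ff000001fe000000ff0000007000000070 10 9) 0 0 (step_sound _ 101 [(rh166312432f80e23a.shift 4 0), (rh4738aadfadb2d01a.shift 0 2), (rh592c7139d2c44767.shift 3 2), (rh5aab47f611b02709.shift 2 1), (rh72826c7472a6d18f.shift 1 0), rh8f4230d2bb6fb591, (rhda16565f48725a35.shift 1 0)] (by decide +kernel))
noncomputable def rh0ea13e2571c2ffa0 : CRef := CRef.mk (Pat.mk 0x800000018000000180000001000000000000000000000000000000000 0x500000007000000170000001f0000001b0000001f0000001f0000000f000000070000000400000004 10 5) 0 0 (step_sound _ 131 [(rh503dd4575245365b.shift 3 3), (rh96bbcf655fa21584.shift 0 3), rhef8eb3b515126df8] (by decide +kernel))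
noncomputable def rh09394ddf47a8cae2 : CRef := CRef.mk (Pat.mk 0x8000000080000001800000000 0x140000001f0000003f0000003f0000000c0000000c0000001c00000010 10 6) 0 0 (step_sound _ 131 [(rh55afc6a59410cf00.shift 3 0), (rhc42d113393796eba.shift 0 1)] (by decide +kernel))
noncomputable def rhd56aebe36fb3e5e8 : CRef := CRef.mk (Pat.mk 0x180000003c0000000000000000 0x3f000000ff000000ff0000001c0000003f0000006c0000000c 10 8) 0 0 (step_sound _ 132 [rh18edc56de38101d9, (rh42b7bfc600da31dd.shift 0 1), (rh503dd4575245365b.shift 3 1)] (by decide +kernel))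
noncomputable def rh91cb09bea1119845 : CRef := CRef.mk (Pat.mk 0x180000003c000000000000000000000000 0xc0000001f0000007f0000001b0000003f0000006c0000000c0000000c 10 7) 0 0 (step_sound _ 69 [(rhe25b0a99195a5d59.shift 2 2), rhe79bdd8180e84326] (by decide +kernel))
noncomputable def rhc9f5da2815d3390f : CRef := CRef.mk (Pat.mk 0x180000003c000000000000000000000000 0xc0000001f0000007f0000001e0000003c0000006c0000000c0000000c 10 7) 0 0 (step_sound _ 130 [(rh3244c3cc8379b070.shift 1 3), rhbd2fff31164335a4] (by decide +kernel))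
noncomputable def rhab936c86cd69fe5e : CRef := CRef.mk (Pat.mk 0x20000000200000006800000100000000400000000000000000 0x14000000dc000000df000000ff0000007f0000006c000003dc0000007c0000001c00000004 10 10) 0 0 (step_sound _ 163 [(rh12520275854adb82.shift 0 2), rh4862c9578b44db48, (rh5b41ccf8cfa656f9.shift 2 2), (rhdb54fd31e80d373c.shift 2 2), (rhe6ae9ea0141c940f.shift 2 2), rhf04564436056a1f8] (by decide +kernel))
noncomputable def rh99a3e4a7c602d0aa : CRef := CRef.mk (Pat.mk 0x80000001a0000000000000010000000000 0x3000000033000000330000001ff000001fe000003ff000001c000000080 10 10) 0 0 (step_sound _ 102 [(rh01d64f4b25e9d366.shift 4 2), (rh52d73c7a54ff9084.shift 0 2), (rha3676cb6b15c7319.shift 1 2), (rhbd2f63518e230f9f.shift 0 2), (rhcc32fffe7af92505.shift 4 0)] (by decide +kernel))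
noncomputable def rhb58a40eead6e74d8 : CRef := CRef.mk (Pat.mk 0x2000000078000000000000000000000000 0x4c0000005c000000df0000007c000000780000003c0000000c0000000c 10 8) 0 0 (step_sound _ 132 [(rh640b58c26ccf7566.shift 0 2), (rh88129595a1b18399.shift 2 0), (rhcfde16a7ff36af03.shift 2 0), (rhf519c3f723b208bc.shift 2 0)] (by decide +kernel))
noncomputable def rh242a147d435a4757 : CRef := CRef.mk (Pat.mk 0xa0000001a000000100000001000000000 0x3e0000003e000000370000001e0000001f000000180000001800000008 10 6) 0 0 (step_sound _ 132 [(rh1a8d474f2f190ef6.shift 0 3), (rh312db2f1e4a01342.shift 1 2), (rhbe6a11bbb961c2b9.shift 3 0), (rhda02c4ce0b224328.shift 0 3)] (by decide +kernel))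
noncomputable def rh8d19adb83cb0fd3a : CRef := CRef.mk (Pat.mk 0x80000001a00000000000000100000000000000000000000000 0x500000007000000070000000ff000001fe000003ff000001f0000000700000007000000050 10 10) 0 0 (step_sound _ 166 [(rh2b2976d7da997dae.shift 4 0), (rh52d73c7a54ff9084.shift 0 4), (rha3676cb6b15c7319.shift 1 4), (rhb3e46d160c5090e3.shift 4 1)] (by decide +kernel))
noncomputable def rh610498e3fd089ef0 : CRef := CRef.mk (Pat.mk 0xa0000001a000000100000001000000000 0x3e0000003e000000370000001f0000001a0000001a0000001a00000008 10 6) 0 0 (step_sound _ 130 [rh3e7172690c709385, (rhb739f4f82bb681b4.shift 0 3)] (by decide +kernel))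
noncomputable def rh50fe8a0497185ed4 : CRef := CRef.mk (Pat.mk 0x40000000d000000200000002800000000000000000 0xa0000000f7000000fe000007ff000006f80000007800000020 10 11) 0 0 (step_sound _ 103 [(rh36cf33ca80b33456.shift 4 3), (rh39721980bec152d6.shift 5 1), rh4a86b4d24d30d64d] (by decide +kernel))
noncomputable def rh8299e498021c1e03 : CRef := CRef.mk (Pat.mk 0x40000000d000000200000002800000000000000000 0xa0000000ef000000fe000007ff000006f80000007800000020 10 11) 0 0 (step_sound _ 103 [(rh36cf33ca80b33456.shift 4 3), (rh39721980bec152d6.shift 5 1), (rh4b687b01c54530ec.shift 5 2), rh8bd8338849b30a9b] (by decide +kernel))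
noncomputable def rh10ffd61acd546a07 : CRef := CRef.mk (Pat.mk 0xa0000001a 0x3e0000003e000000370000001f0000001b 10 6) 0 0 (step_sound _ 34 [rhb739f4f82bb681b4, rhfc75c186be107521] (by decide +kernel))
noncomputable def rhdae13ec796e7a11f : CRef := CRef.mk (Pat.mk 0x280000006800000000000000400000000000000000 0x140000005c0000005c000000df000000780000006c0000003c0000007c0000001c00000014 10 8) 0 0 (step_sound _ 99 [(rh30a977e7346b65b5.shift 2 0), (rh58bc5b635b65859d.shift 2 0), (rh823dec6b0a4c3fe8.shift 2 2), (rh8346ce1b329d02fa.shift 2 0), (rhb21e222e50122da5.shift 2 0), (rhc9980783718588ac.shift 2 1), (rhfd7a169c3554f0b5.shift 0 1)] (by decide +kernel))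
noncomputable def rh48cdcb9f361609b6 : CRef := CRef.mk (Pat.mk 0x80000006800000000000000400000000000000000 0x140000001c0000001c0000001c0000000c0000006c0000003f0000007f0000001f00000016 10 7) 0 0 (step_sound _ 99 [(rh04bc0bc315096e76.shift 2 1), rh3656176dffcbe3d2, (rh823dec6b0a4c3fe8.shift 2 2), (rh8346ce1b329d02fa.shift 2 0), (rha5b6e8eaac5a56bd.shift 2 1), (rha64bdfda5676b9f5.shift 2 0)] (by decide +kernel))
noncomputable def rh7b9907b777b93cda : CRef := CRef.mk (Pat.mk 0xc0000003000000000000000000 0x280000003800000038000000fc000001fe0000037f0000003000000030 10 10) 0 0 (step_sound _ 101 [rh8f4230d2bb6fb591, (rhd6e447e81774439e.shift 5 2)] (by decide +kernel))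
noncomputable def rh63d8ab9fde333f42 : CRef := CRef.mk (Pat.mk 0x2000000060000000200000000 0x1000000070000007f0000003f0000003e000000060000000600000004 10 7) 0 0 (step_sound _ 129 [(rh1741680720c097b4.shift 0 1), (rhccb3a79fd989e123.shift 0 1), (rhd4b4beefcd67f51e.shift 1 0), rhea40a8e3f819e452] (by decide +kernel))
noncomputable def rh3ffcd97c982c95c9 : CRef := CRef.mk (Pat.mk 0x180000000a0000000000000008 0x10000000100000003f000000ff000000eb0000000800000008 10 8) 0 0 (step_sound _ 98 [rh02c669351ff79c08, (rh0d5016f56fe25621.shift 0 2), rhb5a0a51a8e5939c5, (rhd1f9989d6034576a.shift 2 0)] (by decide +kernel))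
noncomputable def rh9fdd2b2a6256ef29 : CRef := CRef.mk (Pat.mk 0xe000000040000000000000000 0x3800000038000001ff000000fe000001fc0000003800000030 10 9) 0 0 (step_sound _ 100 [(rh3947d1dfff0afc6c.shift 0 2), (rh3fc3a7fb6866dcd4.shift 1 2), (rh56a24c72f1c55520.shift 0 3), (rhac921b9699887f1f.shift 0 2), rhbd30bdb383425db0] (by decide +kernel))
noncomputable def rhf8bc223456244c8a : CRef := CRef.mk (Pat.mk 0x2000000020000000700000000000000000000000000000000 0xc0000000e0000007f0000003f0000007c0000001c0000001c00000018 10 7) 0 0 (step_sound _ 131 [rh320e6b949c52ef05, (rh3fc3a7fb6866dcd4.shift 0 3), (rh4a0cb3a9508b05dd.shift 0 3), (rh75c6fff53e4cbd6e.shift 0 3), (rhb6f72982232a8164.shift 0 4)] (by decide +kernel))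
noncomputable def rhcb1fd546cf37b90b : CRef := CRef.mk (Pat.mk 0x40000000180000001a0000000800000004 0xa0000000e8000000e8000000c8000000ff000000fb000000cc00000084 10 8) 0 0 (step_sound _ 131 [(rh79877ebd3ef475dd.shift 2 0), rha91d10702d308d10] (by decide +kernel))
noncomputable def rhb272b73ad09ef519 : CRef := CRef.mk (Pat.mk 0x100000000600000006000000000000000200000000 0x3f0000001f0000003a0000000600000006000000030000000300000003 10 6) 0 0 (step_sound _ 65 [(rh71222050f2c63a3a.shift 1 0), rha4feeb4d1020219e] (by decide +kernel))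
noncomputable def rh856338e71b3353bf : CRef := CRef.mk (Pat.mk 0xe00000004000000000000000000000000 0x80000007c0000001f000001fc000000fe000001fc000000380000003000000030 10 9) 0 0 (step_sound _ 132 [rh3f7776e2f2a592ca, (rh3fc3a7fb6866dcd4.shift 1 3), (rhb8de41a89a9d4634.shift 1 3), (rhe23f0669d5a6bf31.shift 1 3), (rhf42a7a2a906fe7c0.shift 1 3)] (by decide +kernel))
noncomputable def rh07c849dd2522cd1d : CRef := CRef.mk (Pat.mk 0x1000000008000000080000000a000000000000000800000000 0x28000000780000007f000000ff0000007b000000380000000800000008 10 8) 0 0 (step_sound _ 132 [(rh1704642ef30bb35f.shift 0 2), (rh38c4f86c0727dd31.shift 0 1), (rh833641646b600e66.shift 3 0), rhfcdf16689f8efda5, rhfe58cc2885f021cc] (by decide +kernel))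
noncomputable def rhae22312bdf0198a3 : CRef := CRef.mk (Pat.mk 0x10000000140000001000000010000000000000000000000000 0x2f0000003e000000360000001000000010000000380000003800000028 10 6) 0 0 (step_sound _ 197 [(rh2f68792b6b779e96.shift 4 3), rh3c405defb7733e0f] (by decide +kernel))
noncomputable def rh84d0c0480d9cfced : CRef := CRef.mk (Pat.mk 0x2800000000000000200000000000000000 0x200000006000000070000001ff000000fe000001f7000000200000002000000020 10 9) 0 0 (step_sound _ 132 [(rh1317c6ea28e6bacd.shift 2 1), (rh1a9c05f6eefc2e42.shift 0 3), (rh30d4c68134598f9f.shift 2 1), rh44f8cb5ad1b3583c, rh4c3c6fa81e4efaea, (rh7d33f85242d52be3.shift 0 3), (rha33e15d7860b849b.shift 0 1)] (by decide +kernel))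
noncomputable def rha98e25b7e69c80f3 : CRef := CRef.mk (Pat.mk 0x2800000000000000200000000000000000 0x6000000070000001ff000000fe000001f7000000300000002000000020 10 9) 0 0 (step_sound _ 132 [(rh1317c6ea28e6bacd.shift 2 1), (rh29acc7bffd853119.shift 0 2), (rh3007d8ad512cec11.shift 0 2), (rh30d4c68134598f9f.shift 2 1), rh55d37381f60dd4e9, (rh75053f7bff468579.shift 0 1), (rha33e15d7860b849b.shift 0 1)] (by decide +kernel))
noncomputable def rhb28d4e9aa6d2fc9a : CRef := CRef.mk (Pat.mk 0xa000000000000000a000000000000000000000000 0x140000001c0000007c0000001f0000007c0000000e0000003c0000001c00000010 10 7) 0 0 (step_sound _ 131 [rh17ad8f48124116eb, rh587dfab8891a3581, (rh5c3910cf570ed7d1.shift 1 0), (rhc10ead4194dbdc10.shift 0 2), (rhf89ce9d7f313966a.shift 0 1), (rhfb76df4b358b3fb0.shift 1 0)] (by decide +kernel))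
noncomputable def rh262621a11d84f4d9 : CRef := CRef.mk (Pat.mk 0xa000000000000000a000000000000000000000000 0x20000000340000007e000000ff0000007e0000007c0000000e0000003e0000001c00000014 10 8) 0 0 (step_sound _ 131 [(rh3f625ebad7211f27.shift 1 0), (rh4ec6bb9391b3c474.shift 2 0), (rh4fcb12ec6d32da54.shift 1 0), (rh5d51f0cb27f90eb5.shift 1 0), (rhc8256abfb6210b3a.shift 1 0), (rhdf3284aa7c4c5a0c.shift 0 2)] (by decide +kernel))
noncomputable def rh86230bbff62ae136 : CRef := CRef.mk (Pat.mk 0x2800000000000000200000000000000000 0x7000000070000001ff000000ff000001f7000000300000003000000020 10 9) 0 0 (step_sound _ 132 [(rh1317c6ea28e6bacd.shift 2 1), (rh179e77d3803a19da.shift 0 1), (rh3007d8ad512cec11.shift 0 2), (rh30d4c68134598f9f.shift 2 1), (rh58d5c56560dc8b66.shift 0 2), rh70ae1a473ea9b592, (rhb91335287086cf76.shift 2 1), rhc79841b22b8a8d43] (by decide +kernel))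
noncomputable def rh56361ecf47c1e21c : CRef := CRef.mk (Pat.mk 0x4000000040000000400000014000000000000000000000000 0x780000007c0000007f0000007f0000001c000000380000003000000030 10 7) 0 0 (step_sound _ 195 [(rh2f68792b6b779e96.shift 2 3), rh88963db6dd1e71c9] (by decide +kernel))
noncomputable def rh28ca3cd17e964e5e : CRef := CRef.mk (Pat.mk 0x10000000100000001000000070 0x1ef000000fe000001de0000003e00000074 10 9) 0 0 (step_sound _ 99 [rh0aabccbb1f849353, (rh50fbb5868c909700.shift 3 0)] (by decide +kernel))
noncomputable def rh85cdc2f2342666d2 : CRef := CRef.mk (Pat.mk 0x18000000080000000000000008 0x140000001c0000001c0000000c0000001c0000007c0000001f0000000c00000008 10 7) 0 0 (step_sound _ 35 [(rh2f68792b6b779e96.shift 3 0), rh3e4e08eac35cb0a4] (by decide +kernel))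
noncomputable def rhdca79a1b33d9fffe : CRef := CRef.mk (Pat.mk 0x700000002000000000 0x58000000dc000000ff0000007e0000003e00000018 10 8) 0 0 (step_sound _ 67 [(rh775ca1963e850b80.shift 1 1), (rh9e97bba44c1b13e4.shift 1 1), (rha2283e44254f7544.shift 2 0), (rhf01b8fb4e8ab9fa8.shift 0 1)] (by decide +kernel))
noncomputable def rhae3692b409ffab93 : CRef := CRef.mk (Pat.mk 0x3000000010000000000000005000000000 0x20000000a0000007e7000003fe000007ff000000d00000005000000040 10 11) 0 0 (step_sound _ 165 [rh87ebf31130753293, (rh9e3edb185cc347de.shift 4 1)] (by decide +kernel))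
noncomputable def rh9f9ff4e1a52e6406 : CRef := CRef.mk (Pat.mk 0x1c00000008000000000000002800000000 0xc0000000c0000000c0000007e0000007f0000006e0000002800000020 10 7) 0 0 (step_sound _ 162 [rh30ccf5721cbc4bf2, (rh9e07f76261b05888.shift 2 1)] (by decide +kernel))
noncomputable def rh355f6b0dd38d58d7 : CRef := CRef.mk (Pat.mk 0x1000000010000000000000005000000000 0x2800000038000001ff000000fe000000f7000000700000007000000020 10 9) 0 0 (step_sound _ 68 [(rh1741680720c097b4.shift 3 1), (rh5abfc4c9d959be03.shift 3 0), (rha087c6594f4bfb59.shift 3 0), (rhced6d86d2069808b.shift 4 0), rhf5ff7163cec1ca85] (by decide +kernel))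
noncomputable def rh66ccce025332e556 : CRef := CRef.mk (Pat.mk 0x10000000100000001000000010 0x2800000038000000380000003800000038000000770000003e0000003f00000010 10 7) 0 0 (step_sound _ 132 [(rh44f453b84f013105.shift 4 0), rh4b28f426cd4a9b08, (rhc85cc95794737cf7.shift 3 1), (rhd9c1e4fd1769baf3.shift 3 1)] (by decide +kernel))
noncomputable def rh76cfb5260dc15fcc : CRef := CRef.mk (Pat.mk 0x10000000100000001000000010 0x20000000300000003000000010000003ff000001fe000003bf 10 10) 0 0 (step_sound _ 132 [(rh20966da26a1c2ae8.shift 3 0), (rhc4ec57a3756c3a6c.shift 3 0), (rhced6d86d2069808b.shift 4 0), rhda98c6b2e0ab7b18] (by decide +kernel))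
noncomputable def rh42e88bc8a423e014 : CRef := CRef.mk (Pat.mk 0xc000000040000000000000014000000000000000000000000 0x780000007c0000007f0000007f0000001c000000380000003000000030 10 7) 0 0 (step_sound _ 130 [(rh2f68792b6b779e96.shift 2 3), rh88963db6dd1e71c9] (by decide +kernel))
noncomputable def rh902c2e1a031c1f14 : CRef := CRef.mk (Pat.mk 0x3000000010000000000000005000000000 0x200000002000007ef000003fe0000073e000000340000007400000060 10 11) 0 0 (step_sound _ 68 [(rh2f68792b6b779e96.shift 4 1), rha444322710ed9504] (by decide +kernel))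
noncomputable def rh8e9d21beb3abf0df : CRef := CRef.mk (Pat.mk 0xc00000004000000040000001400000000 0x720000007f0000007e0000003c0000001c00000018 10 7) 0 0 (step_sound _ 129 [(rh50fbb5868c909700.shift 1 1), rh6c0d42cf59e774d9] (by decide +kernel))
noncomputable def rhedb5dfd8ecce1641 : CRef := CRef.mk (Pat.mk 0x3000000010000000100000005000000000 0x1cf000000fe000001de0000003e0000007400000020 10 9) 0 0 (step_sound _ 131 [(rh50fbb5868c909700.shift 3 1), rh9b9ca67d285c237a] (by decide +kernel))
noncomputable def rhb0a768a6b1ee6221 : CRef := CRef.mk (Pat.mk 0x1e00000008000000080000002800000000 0x5000000070000000700000007000000030000001e0000003f0000001f0000003800000010 10 6) 0 0 (step_sound _ 101 [rh3f1d1994594ba9a5, (rh96851dee118c1ba3.shift 1 3)] (by decide +kernel))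
noncomputable def rh9d7136f310a6612d : CRef := CRef.mk (Pat.mk 0x8000000080000000800000000 0x10000000180000001800000008000001ff000000fe000001d4 10 9) 0 0 (step_sound _ 131 [(rh20966da26a1c2ae8.shift 2 0), rh42f5c90eaeec7b1c, (rhc4ec57a3756c3a6c.shift 2 0), (rhced6d86d2069808b.shift 3 0)] (by decide +kernel))
noncomputable def rh4a9a36c85ebb9e7a : CRef := CRef.mk (Pat.mk 0x800000008000000080000000800000000 0x140000001c00000008000001ff000000fe000001d4 10 9) 0 0 (step_sound _ 36 [(rh55afc6a59410cf00.shift 3 0), rh80f534633a717011] (by decide +kernel))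
noncomputable def rhfb814f879d38649d : CRef := CRef.mk (Pat.mk 0x800000010000000100000001000000040000000000000000000000000 0x2000000030000000ba0000009a000003f7000001fe000003ff00000044000000e4000000e0000000a0 10 10) 0 0 (step_sound _ 165 [rh00aab137d548847e, (rh358eeca2bd395639.shift 1 4), rh845474cc3558894c, (rhc5febebb7babee24.shift 3 4)] (by decide +kernel))
noncomputable def rh7ab05995045277ae : CRef := CRef.mk (Pat.mk 0x8000000080000000800000008 0x140000001f0000003f0000003f0000000c0000000c0000000c00000008 10 6) 0 0 (step_sound _ 131 [(rh3ca48e2a6d60153d.shift 2 0), (rh3e4d7fe503ccc40b.shift 0 1), (rhc85cc95794737cf7.shift 2 1), (rhd534da25a9e1909f.shift 2 0), (rhe01cfd8f0577defd.shift 2 1)] (by decide +kernel))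
noncomputable def rh9bd30bafdc0b025d : CRef := CRef.mk (Pat.mk 0x1000000010000000100000001000000000 0xe8000001fe000000fe000000770000003e0000002f 10 9) 0 0 (step_sound _ 101 [rh04611074f205119f, (rh215fef6ef21eb5a3.shift 1 1), (rhf5107ec99ddc9dbe.shift 1 0), (rhfc21d93c70905a0f.shift 2 1)] (by decide +kernel))
noncomputable def rhea5e4de8d1095203 : CRef := CRef.mk (Pat.mk 0x180000000c000000000000002000000000 0x280000003e0000003f0000001b0000003f000000770000003000000030 10 7) 0 0 (step_sound _ 100 [(rh15115c16165f7f79.shift 3 0), rh325c05698cedaa51, (rh3464c1b609444672.shift 0 1)] (by decide +kernel))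
noncomputable def rhe3a58a53c330a740 : CRef := CRef.mk (Pat.mk 0xc0000000c000000000000001000000000 0x1e0000003f0000003f0000000f0000003c000000080000001800000018 10 6) 0 0 (step_sound _ 67 [(rh3cb04db3dd2b6a55.shift 2 0), (rh5b7cd96a91c00004.shift 0 2), (rh7bed6280d5711866.shift 2 0)] (by decide +kernel))
noncomputable def rh47ec1b468f1f9303 : CRef := CRef.mk (Pat.mk 0x40000003c0000000c00000000 0x3e0000007e0000006c0000003f0000001c00000014 10 7) 0 0 (step_sound _ 130 [rh197397f0fb1ebc82, (rh2145e1d24b96a57e.shift 2 1)] (by decide +kernel))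
noncomputable def rh2a3c9de1e1d41a43 : CRef := CRef.mk (Pat.mk 0x16000000020000000000000008 0x38000000380000003f0000001e0000003b0000001800000008 10 6) 0 0 (step_sound _ 99 [rh5aaab6754f512267, (rheb0810cc63b001d8.shift 0 2)] (by decide +kernel))
noncomputable def rhee3ceee05362554c : CRef := CRef.mk (Pat.mk 0x16000000020000000000000008 0x3800000038000000ff0000007e000000fe0000001800000008 10 8) 0 0 (step_sound _ 99 [(rh4c6d407c2048a5bb.shift 0 2), rh5aaab6754f512267, (rhf2b3bcf1454375d8.shift 1 2)] (by decide +kernel))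
noncomputable def rh507f34993183e23d : CRef := CRef.mk (Pat.mk 0xc0000000c000000000000001000000000 0x1e0000003f0000003f0000000f0000003c000000180000001800000008 10 6) 0 0 (step_sound _ 67 [(rh3cb04db3dd2b6a55.shift 2 0), (rh5b7cd96a91c00004.shift 0 2), (rhba97f7f4ade5e136.shift 2 1), (rhdc29ce31a7530d3c.shift 2 1)] (by decide +kernel))
noncomputable def rh1f0d49808fbc6c54 : CRef := CRef.mk (Pat.mk 0x1800000008000000000000002000000000 0x4e000000cf000000ff000000fe000001ef000000240000002000000020 10 9) 0 0 (step_sound _ 133 [(rh551f2e378d429d2a.shift 2 3), (rh6e7807b7fd7eb5f5.shift 2 1), (rhb4787b9ea3baf2c6.shift 2 0), (rhd17f457aadd3fcce.shift 0 2)] (by decide +kernel))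
noncomputable def rh81fc382ae2298095 : CRef := CRef.mk (Pat.mk 0x18000000080000000000000020 0xe0000000f000001ff000000fe000001ff0000002400000020 10 9) 0 0 (step_sound _ 101 [(rh1f12bf24ea3ddf13.shift 2 0), (rh551f2e378d429d2a.shift 2 2), (rh6e7807b7fd7eb5f5.shift 2 0), (rhd17f457aadd3fcce.shift 0 1)] (by decide +kernel))
noncomputable def rh695a4242ad0d274f : CRef := CRef.mk (Pat.mk 0x800000008000000000000000800000000 0x140000001f0000003f0000007f0000000c0000001c0000001c0000001800000010 10 7) 0 0 (step_sound _ 163 [(rh2fcd99b2f163ef01.shift 1 0), (rh3e4d7fe503ccc40b.shift 0 2), (rh8188273ca5b1fdda.shift 2 0), (rh8f94fa36ae1e9d19.shift 2 0), (rhc108617956a6b971.shift 1 2)] (by decide +kernel))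
noncomputable def rh58f18c95dfe65d0f : CRef := CRef.mk (Pat.mk 0x1000000010000000500000000000000000 0x200000003800000038000000f8000000f0000001fc000001fc000000770000003e0000002f 10 9) 0 0 (step_sound _ 164 [(rh20e56a1196e70fcc.shift 3 1), (rh4386dacc8ca8390e.shift 3 1), (rh54f5c44d3864cbf9.shift 2 1), (rh90f723a47a6af75d.shift 3 2), rhddb9c5eee6c488ff] (by decide +kernel))
noncomputable def rhf07d06d8067d9419 : CRef := CRef.mk (Pat.mk 0x1000000010000000500000000000000000 0x80000003800000038000000f8000000d8000001fc000001fc000000770000003e0000002f 10 9) 0 0 (step_sound _ 164 [(rh20e56a1196e70fcc.shift 3 1), (rh54f5c44d3864cbf9.shift 2 1), rh98206e597e425467, (rhc949bef7ce52bf39.shift 3 1)] (by decide +kernel))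
noncomputable def rhf41dbcb3d331f5d3 : CRef := CRef.mk (Pat.mk 0x1000000010000000500000000000000000 0x28000000380000003800000010000000770000003e0000002f 10 7) 0 0 (step_sound _ 36 [(rh15f443a9a462a99b.shift 2 0), (rh1741680720c097b4.shift 3 1), rhaa888255046f4cf0, (rhced6d86d2069808b.shift 4 0)] (by decide +kernel))
noncomputable def rh32bf1dcf781b6aec : CRef := CRef.mk (Pat.mk 0x8000000080000002800000000 0x140000003c0000007f0000007e0000001e0000003800000030 10 7) 0 0 (step_sound _ 131 [rh1192961775e0a372, (rh1741680720c097b4.shift 2 1), (rh5abfc4c9d959be03.shift 2 0), (rhe79b379be7af4928.shift 1 0)] (by decide +kernel))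
noncomputable def rh9157b4ce5c9a47da : CRef := CRef.mk (Pat.mk 0x1000000010000000500000000000000000 0x280000003800000038000000380000003000000030000000770000003e0000002f 10 7) 0 0 (step_sound _ 164 [(rh1741680720c097b4.shift 3 2), (rh20e56a1196e70fcc.shift 3 1), (rh5abfc4c9d959be03.shift 3 1), rhddb9c5eee6c488ff] (by decide +kernel))
noncomputable def rh5ab2de56e0224e22 : CRef := CRef.mk (Pat.mk 0x1000000010000000500000000000000000 0x280000003800000038000000380000001800000030000000770000003e0000002f 10 7) 0 0 (step_sound _ 164 [(rh1741680720c097b4.shift 3 2), (rh20e56a1196e70fcc.shift 3 1), rh98206e597e425467, (rhced6d86d2069808b.shift 4 1)] (by decide +kernel))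
noncomputable def rh00e0f83c9f111848 : CRef := CRef.mk (Pat.mk 0x1000000010000000500000000000000000 0x1e8000001fc000000fe000000770000003e0000002f 10 9) 0 0 (step_sound _ 36 [rh23bebe0e285dcedc, (rh5edb78e436218eb5.shift 2 0), (rh98d57711d47e689d.shift 1 0), rhaa888255046f4cf0, rhd92f1551f0fdfa3f] (by decide +kernel))
noncomputable def rh1636f16471bda428 : CRef := CRef.mk (Pat.mk 0x80000000c000000080000002800000000 0x200000002000000170000001f0000007f0000006f0000003800000030 10 7) 0 0 (step_sound _ 130 [(rh50fbb5868c909700.shift 2 1), rhf64af9225b2a979d] (by decide +kernel))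
noncomputable def rha105a9ed874ba437 : CRef := CRef.mk (Pat.mk 0xc0000000c000000080000002800000000 0x8000000180000001f0000007f0000007f0000002b00000023 10 7) 0 0 (step_sound _ 132 [(rh2f68792b6b779e96.shift 3 1), rhe09774b9bf1e6720] (by decide +kernel))
noncomputable def rh9de39dd7316d23ce : CRef := CRef.mk (Pat.mk 0x180000001000000010000000000000000000000000 0x3a7000001fe000003ff00000010000000180000001800000008 10 10) 0 0 (step_sound _ 68 [(rh360e7ef4c686fe69.shift 0 1), (rhcab3157f7bdcba3e.shift 3 0), (rhd5f3672bdd02e5db.shift 2 1), (rhe4441baab75a6f73.shift 3 0)] (by decide +kernel))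
noncomputable def rh5e0810cfbc8df032 : CRef := CRef.mk (Pat.mk 0x1800000010000000100000001000000000 0x3a7000001fe000003ff000000100000003800000028 10 10) 0 0 (step_sound _ 133 [(rh2f68792b6b779e96.shift 4 1), rh866783ec810c60b4] (by decide +kernel))
noncomputable def rh9eb3d5c21fe88732 : CRef := CRef.mk (Pat.mk 0xe00000000000000140000000000000000 0x2000000034000000f60000007f000000ff0000001c0000001f0000000a 10 8) 0 0 (step_sound _ 132 [(rh0837bf74ccc9ef48.shift 0 1), (rh3b00e9e9432b8f40.shift 0 3), (rh4c6fa5356a4905b7.shift 1 1), rh54cd72eae0f9ffb7] (by decide +kernel))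
noncomputable def rha28e0db9e79379bd : CRef := CRef.mk (Pat.mk 0x380000000000000050000000000000000000000000 0x100000001f0000003e0000007f000000700000003c0000003800000008 10 7) 0 0 (step_sound _ 162 [(rh04612f1597389aa0.shift 1 0), (rh1fae3a7637244807.shift 1 1), (rh592c7139d2c44767.shift 0 4)] (by decide +kernel))
noncomputable def rh70cbb75d4ee38ef2 : CRef := CRef.mk (Pat.mk 0x180000000000000050000000000000000000000000 0x100000003000000038000000fc000000f8000000fc000000770000007e0000003f00000028 10 8) 0 0 (step_sound _ 132 [(rh01483ff9cba2f6ac.shift 3 0), rh310d8c1897d86d09, (rh5eb41dae3b4c76bd.shift 2 2), (rh9b323ef5a488003e.shift 3 0)] (by decide +kernel))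
noncomputable def rhc558f0574168f5bd : CRef := CRef.mk (Pat.mk 0x60000000c00000014000000000000000000000000 0xa0000000e0000000e0000000c0000000e0000003e0000003f0000001c000000380000003000000030 10 6) 0 0 (step_sound _ 194 [rh27b4f8fc0394455c, (rh7c90ebdd31e24436.shift 1 3), (rhd4b4beefcd67f51e.shift 2 2)] (by decide +kernel))
noncomputable def rhb66deb8f04088d21 : CRef := CRef.mk (Pat.mk 0x180000000000000050000000000000000000000000 0x2000000070000001fe000001fe000000f000000077000001fe000000ff000000e8 10 9) 0 0 (step_sound _ 132 [rh62df4ca4cb2581ec, (rh9b323ef5a488003e.shift 3 0), (rhad1ca36b18ae3f16.shift 0 1), (rhce051de4cdae7e42.shift 1 0), (rhdc59ba418ff98db2.shift 2 1)] (by decide +kernel))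
noncomputable def rha77fe45deddd9da7 : CRef := CRef.mk (Pat.mk 0xc00000008000000280000000000000000 0x60000000ef000000ff0000007f000000380000001000000010 10 8) 0 0 (step_sound _ 100 [(rh4ca5dae25f5c14ff.shift 0 3), (rh691cd1c09c151b66.shift 1 0), rhbc2c148c24437511, (rhdeca8db941583de2.shift 0 3)] (by decide +kernel))
noncomputable def rh4a02df25eb76d7c5 : CRef := CRef.mk (Pat.mk 0x180000000000000050000000000000000000000000 0x60000000e8000001fe000000fe00000077000001fe000000ff00000008 10 9) 0 0 (step_sound _ 132 [(rh01483ff9cba2f6ac.shift 3 0), (rhad1ca36b18ae3f16.shift 0 1), (rhdd125fd7a83ce7de.shift 1 1)] (by decide +kernel))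
noncomputable def rh87701f8b023a41f9 : CRef := CRef.mk (Pat.mk 0xc000000060000000400000014000000000000000000000000 0x100000003e0000003e0000003f0000001c000000380000003000000030 10 6) 0 0 (step_sound _ 99 [(rh55afc6a59410cf00.shift 2 2), rhb8577a9c05db876d] (by decide +kernel))
noncomputable def rh7967a028c4b5a763 : CRef := CRef.mk (Pat.mk 0x180000000000000050000000000000000000000000 0xa0000000e0000000e0000003ff000001fe000003ef00000070000001f0000000e000000080 10 10) 0 0 (step_sound _ 165 [(rh02978aa229b7dd6d.shift 0 2), (rh1260a033a9ffa8a4.shift 0 2), (rh20238e41a74040ab.shift 0 4), (rh29cdd0712f7a9dc2.shift 2 1), (rh86ef9fb48b8a989e.shift 1 0), rhe3f3498bf0110c70] (by decide +kernel))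
noncomputable def rh6b958dd16ab9c148 : CRef := CRef.mk (Pat.mk 0x180000000000000050000000000000000000000000 0xa0000000f0000000f0000003ff000001fe000003ff00000070000001e0000000e000000080 10 10) 0 0 (step_sound _ 165 [(rh02978aa229b7dd6d.shift 0 2), (rh20238e41a74040ab.shift 0 4), (rh29cdd0712f7a9dc2.shift 2 1), (rh40c10ee78eb47d23.shift 0 2), (rh86ef9fb48b8a989e.shift 1 0), (rhc03a2b50de6ada44.shift 0 2), rhe3f3498bf0110c70] (by decide +kernel))
noncomputable def rh4c6c701e9d985463 : CRef := CRef.mk (Pat.mk 0x400000007000000000000000800000000 0x20000000380000003800000018000000fe0000007f000000780000000800000008 10 8) 0 0 (step_sound _ 99 [rh2bbc4934553ffbfd, (rh84d1614f5efa9132.shift 0 2), (rh856cf79165ebf3f0.shift 0 2), (rhd075f00dbfdf21bc.shift 0 3), (rhd2fecc6c0af6720b.shift 0 2), (rhf9d7fdd3574cf503.shift 1 1), rhfcffa0a9e99c8fd4] (by decide +kernel))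
noncomputable def rhf8ae5f363b7a872a : CRef := CRef.mk (Pat.mk 0x300000000000000050000000000000000000000000 0x200000002000000030000001fe000003fe000000770000007e0000003f00000028 10 10) 0 0 (step_sound _ 132 [(rh091eb79b39659a60.shift 1 0), (rh215e11e099257d75.shift 4 2), rh66d42483be47dcf1, (rhd19d31b13e48b44b.shift 0 1)] (by decide +kernel))
noncomputable def rh2e0a460e68f3a647 : CRef := CRef.mk (Pat.mk 0x400000007000000000000000c00000000 0x20000000380000003800000018000000fe0000007f000000780000000c00000004 10 8) 0 0 (step_sound _ 99 [(rh096767d96a1b3292.shift 0 2), (rh84d1614f5efa9132.shift 0 2), (rh856cf79165ebf3f0.shift 0 2), (rhd075f00dbfdf21bc.shift 0 3), (rhd2fecc6c0af6720b.shift 0 2), rhf209f58e82193771, (rhf9d7fdd3574cf503.shift 1 1)] (by decide +kernel))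
noncomputable def rh8e17b3649e33c45c : CRef := CRef.mk (Pat.mk 0x20000000200000003000000000 0x40000000600000006000000020000003f7000001fe000003ce 10 10) 0 0 (step_sound _ 133 [rh1a3dbcdce035de4a, (rh3038ab5f74634e6d.shift 3 0), (rh9a369cb82ea472da.shift 4 1), (rhf3cdd189c46cffe9.shift 4 0)] (by decide +kernel))
noncomputable def rha6068d7ce29c3f18 : CRef := CRef.mk (Pat.mk 0x780000000000000050000000000000000000000000 0xf80000003c000000770000003e0000003f00000028 10 8) 0 0 (step_sound _ 131 [rh8d5a093b815655d8, (rheb0810cc63b001d8.shift 2 4)] (by decide +kernel))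
noncomputable def rh2537d4e6153cc87b : CRef := CRef.mk (Pat.mk 0x7000000008000000000000006000000040 0xe0000007c0000000c0000000f0000007e000000e7 10 8) 0 0 (step_sound _ 131 [(rheb0810cc63b001d8.shift 2 3), rhfe0708495464dbab] (by decide +kernel))
noncomputable def rhb2946cc8526c117e : CRef := CRef.mk (Pat.mk 0x1e000000000000000a0000000000000000 0x1f00000038000000ee0000007c000000fc 10 8) 0 0 (step_sound _ 100 [rh585f7513960984aa, (rhe25b0a99195a5d59.shift 1 3)] (by decide +kernel))
noncomputable def rha8da8493e42cf82f : CRef := CRef.mk (Pat.mk 0x300000000000000050000000000000000000000000 0xa0000000e0000007f7000003fe000003ef00000070000000f0000000e0000000a0 10 11) 0 0 (step_sound _ 163 [rh0cb5e592f3c6a269, (rh132cb3774cdf6de8.shift 2 0), (rh548693f3c5bfc69e.shift 0 2), (rh675f0335dbced7dd.shift 0 4), rh8060b30c34762a50, (rhe60907c7f9669ed4.shift 0 2)] (by decide +kernel))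
noncomputable def rh09de0bc8905419b0 : CRef := CRef.mk (Pat.mk 0xf0000000200000002000000000 0xc0000000f000000fe0000003f0000006e0000000c 10 8) 0 0 (step_sound _ 99 [(rh2efad3051cff7df1.shift 0 2), (rh70543c5e7e75eabe.shift 1 2), (rh775ca1963e850b80.shift 1 2), (rheae1728ff4a56756.shift 2 2), rheee6a25c0893118f] (by decide +kernel))
noncomputable def rhe6fba04273f45a8f : CRef := CRef.mk (Pat.mk 0xc0000000800000014000000000000000000000000 0x40000003e0000007c0000007f0000007c0000001c000000080000000800000008 10 7) 0 0 (step_sound _ 132 [(rh4ca5dae25f5c14ff.shift 0 4), (rh5909ad334199027e.shift 1 0), (rhb18a96ed57ec5bfb.shift 0 2), (rhdeca8db941583de2.shift 0 4)] (by decide +kernel))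
noncomputable def rh90afd846fec90ac6 : CRef := CRef.mk (Pat.mk 0x300000000000000050000000000000000000000000 0x20000000380000003800000078000000f0000000fc0000003c000000770000007e0000003f00000028 10 8) 0 0 (step_sound _ 132 [(rh215e11e099257d75.shift 4 2), rh66d42483be47dcf1, (rh8b3123f3aa99ac30.shift 2 2), (rhd19d31b13e48b44b.shift 0 1)] (by decide +kernel))
noncomputable def rhfbb017645cf80f24 : CRef := CRef.mk (Pat.mk 0xc0000000400000014000000000000000000000000 0x80000007c000000fc0000007c000000ff0000001c000000180000000800000008 10 8) 0 0 (step_sound _ 195 [(rh69755ef358ebfd54.shift 2 3), (rhbfb5770941270498.shift 2 3), rhd0a36ce0036b4cd7] (by decide +kernel))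
noncomputable def rh1ed17e8b1f0b5145 : CRef := CRef.mk (Pat.mk 0x1800000000000000280000000000000000 0x280000003800000038000001f0000000fe000001ff00000038000000f800000070 10 9) 0 0 (step_sound _ 164 [(rh580df77fe152422b.shift 3 1), (rh794078ab81e5aa27.shift 1 0), (rh95d733ec5ab570d3.shift 0 1), (rhfb630a9910c2b812.shift 1 0)] (by decide +kernel))
noncomputable def rh8cdb253dfd9239ff : CRef := CRef.mk (Pat.mk 0x8000000080000000400000004 0x140000001c0000001c000000fc0000007f000000ff0000001c000000180000000c00000004 10 8) 0 0 (step_sound _ 131 [(rh02419bc004784cc1.shift 0 2), (rheea67dfebd0f8008.shift 2 0)] (by decide +kernel))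
noncomputable def rh35182b5f590c2d9c : CRef := CRef.mk (Pat.mk 0x1e00000000000000000000000c00000004 0xe30000007e00000070000000200000007c000000ee 10 8) 0 0 (step_sound _ 161 [(rh3244c3cc8379b070.shift 0 4), (rha9c10c78bdcd1727.shift 1 0)] (by decide +kernel))
noncomputable def rh63fc0c670516005c : CRef := CRef.mk (Pat.mk 0x1a000000020000000a00000004000000000000000000000000 0x100000001a0000001a0000000a0000001f0000001f0000001f00000014 10 5) 0 0 (step_sound _ 97 [rh314a595113154e7b, (rh55afc6a59410cf00.shift 1 2)] (by decide +kernel))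
noncomputable def rh190d2be3e099fc6d : CRef := CRef.mk (Pat.mk 0x2000000020000000200000000000000000000000000000000000000000 0x200000007e000001fe000001fe0000007f000000700000007000000050 10 9) 0 0 (step_sound _ 133 [(rh131333499c9413e3.shift 2 1), (rh5e4e2335aef614c4.shift 4 0), (rh8cdd36b03d57a2f6.shift 4 2), (rh9e136f9d388428d5.shift 0 3), (rha7c2ea00567839ec.shift 1 0), (rhfc5525e782ece1a0.shift 1 0)] (by decide +kernel))
noncomputable def rh0f43ae2d40d85119 : CRef := CRef.mk (Pat.mk 0x4000000000000000a000000020000000a00000006000000000000000000000000 0x40000001e0000001a0000001a0000000a0000001f0000001b0000001f00000014 10 5) 0 0 (step_sound _ 163 [(rh0caf077b5a27aa2e.shift 1 4), rh6898776eae8b744a] (by decide +kernel))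
noncomputable def rhcf5ca4b4f4ba73ee : CRef := CRef.mk (Pat.mk 0x3000000000000000400000000000000040 0xa0000000a0000007ff000003fe000007ce000000400000004000000040 10 11) 0 0 (step_sound _ 134 [(rh00d6233c7395182f.shift 3 0), (rh1916aa416d0e972e.shift 0 1), (rh1f6ff5d3352e2267.shift 1 3), (rha26dce99bee8b61a.shift 0 1), (rhc34eeb5d230f7f3e.shift 0 1), (rhea82fcf81d6ec641.shift 2 3), (rhfae129319be76921.shift 1 3)] (by decide +kernel))
noncomputable def rhe8f1d3787e0285b3 : CRef := CRef.mk (Pat.mk 0x100000001000000050000000000000002000000000000000000000000000000000 0x20000000300000007000000050000003de000001fe000003ff000001e0000001e000000140 10 10) 0 0 (step_sound _ 132 [(rh2e87ce83aebd21d7.shift 4 3), (rha3711ed12866f068.shift 3 3), rhc9631a87621cfe63, (rhd1b81f45d5409315.shift 1 3)] (by decide +kernel))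
noncomputable def rhdf8e010e37f1ec4d : CRef := CRef.mk (Pat.mk 0x380000001000000000000000000000000000000000 0x70000003e000000ff0000000e0000000e0000000e00000002 10 8) 0 0 (step_sound _ 162 [(rh592c7139d2c44767.shift 0 4), (rhc21a95c499b3efdb.shift 1 4), (rhdda58b3e3d1675fc.shift 1 0)] (by decide +kernel))
noncomputable def rha56347a8e8d44bc7 : CRef := CRef.mk (Pat.mk 0x1c000000000000001400000010 0x1e0000003f0000003f0000001f0000007c000000140000001400000010 10 7) 0 0 (step_sound _ 131 [(rh2613c889e411427e.shift 3 0), (rh76f8c896ff136f98.shift 0 1)] (by decide +kernel))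
noncomputable def rh4fd9902ec0ab769c : CRef := CRef.mk (Pat.mk 0x2000000020000000a0000000a000000060000000000000000 0x3d0000001f0000007a0000001f0000000a0000001f0000000b00000001 10 7) 0 0 (step_sound _ 32 [(rh79877ebd3ef475dd.shift 0 1), rh9eb27f90d7e19687] (by decide +kernel))
noncomputable def rhdc5b80dfc687b44e : CRef := CRef.mk (Pat.mk 0xa000000020000000a0000000a00000000000000000000000000000000 0x40000000d0000000f0000007a0000003f0000000e00000007000000070000000700000004 10 7) 0 0 (step_sound _ 195 [(rh08684cd56c1cb78e.shift 0 4), rh4eefc641c5187074, (rh565a0c22519f57e9.shift 2 3)] (by decide +kernel))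
noncomputable def rhe2c3cad886edde82 : CRef := CRef.mk (Pat.mk 0xa000000020000000a0000000a00000000000000000000000000000000 0x140000001c0000001d0000000f0000007a0000003f0000000e00000007000000070000000700000004 10 7) 0 0 (step_sound _ 195 [(rh08684cd56c1cb78e.shift 0 4), (rh1726a00b0a8befd0.shift 2 3), rh4eefc641c5187074] (by decide +kernel))
noncomputable def rhaf07d1b336a18296 : CRef := CRef.mk (Pat.mk 0x1000000004000000140000001400000000000000000000000000000000 0x280000003800000038000000380000003800000030000000f40000007f0000001c0000000e0000000e0000000e00000008 10 8) 0 0 (step_sound _ 196 [(rh1726a00b0a8befd0.shift 3 3), (rh4eefc641c5187074.shift 1 0), (rha94490687c60c4d4.shift 0 3), (rhbb408a8736c6d724.shift 3 4)] (by decide +kernel))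
noncomputable def rh1d355069ad853247 : CRef := CRef.mk (Pat.mk 0x400000004000000000000000200000002 0xa0000007e0000007f0000007e0000001c0000000c0000000e00000002 10 7) 0 0 (step_sound _ 66 [(rh8f1607b908ab9e6b.shift 0 1), (rheea67dfebd0f8008.shift 1 0)] (by decide +kernel))
noncomputable def rhdaffb9646ae767f9 : CRef := CRef.mk (Pat.mk 0x4000000010000000500000005000000000000000000000000000000000 0xa0000000e0000000e0000003d0000000fc000000770000003e0000003f0000003800000020 10 10) 0 0 (step_sound _ 198 [(rh771d065bdc85bf2d.shift 5 3), (rha94490687c60c4d4.shift 2 3), rhb50a76a39a8fb986, (rhc85cc95794737cf7.shift 5 4), (rhc8b5c0b6f7f78ee4.shift 3 4)] (by decide +kernel))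
noncomputable def rh85689fdf82ca0855 : CRef := CRef.mk (Pat.mk 0xa000000020000000a0000000a000000000000000000000000 0x3d0000001f000000320000001a0000000e000000070000000700000001 10 6) 0 0 (step_sound _ 66 [rh36b282e82a09fce5, (rhd3458b32566d63f7.shift 1 2)] (by decide +kernel))
noncomputable def rh9f92e6731b01fae9 : CRef := CRef.mk (Pat.mk 0xe00000002000000000000000000000000000000000 0x4000000040000018e000000fe000001ff000001c8000001c8000001c000000100 10 9) 0 0 (step_sound _ 164 [(rh185f35b8bd8ec37f.shift 2 4), (rh5d4520359f65dede.shift 3 0), (rh708c3bc8fe2f3084.shift 1 4), (rh7c446a5779c6be66.shift 0 4), (rh8f4304bb10e591a3.shift 0 4), (rhcd9ef1231b0bde49.shift 1 2), (rhe52307a01c64ddb7.shift 0 4)] (by decide +kernel))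
noncomputable def rha304ed6cc32254ea : CRef := CRef.mk (Pat.mk 0xe0000000000000000 0x280000003800000078000000fc000000ff0000007e000000f800000038 10 8) 0 0 (step_sound _ 68 [(rh0fd246131828dcf9.shift 1 0), (rh3fc3a7fb6866dcd4.shift 1 1), (rh45f730bcf36fcf64.shift 0 1), rh89b82199254f0082, (rhb18e6c78a554867d.shift 0 2), (rhe401600d466b97cd.shift 0 1)] (by decide +kernel))
noncomputable def rhb5667cad809e41b1 : CRef := CRef.mk (Pat.mk 0x400000000000000000000000a0000000a0000000000000000000000000000000000000000 0x140000001c0000001c000000780000001f0000000e0000007c000000180000001c0000001c00000014 10 7) 0 0 (step_sound _ 227 [(rh07ff884a7eb6c0ed.shift 2 5), (rh5d91ec4eb06a1f14.shift 0 4), rh839aea38fed32398, (rhdf2a78e00ecc2be4.shift 2 4)] (by decide +kernel))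
noncomputable def rhc647fa9fab64b0e9 : CRef := CRef.mk (Pat.mk 0xe0000000400000000000000000000000000000000 0x700000003e0000007f00000038000000380000003800000020 10 7) 0 0 (step_sound _ 164 [rh175d921f0f393839, (rha93a5dd541ab8209.shift 1 4), (rhaf9f2efc81a8312b.shift 0 4)] (by decide +kernel))
noncomputable def rhc8a868d185606470 : CRef := CRef.mk (Pat.mk 0xe0000000400000000000000000000000000000000 0x20000000f00000007e000000ff00000078000000780000007800000020 10 8) 0 0 (step_sound _ 164 [(rh352b7f91eba0c81f.shift 1 4), (rh3fc3a7fb6866dcd4.shift 1 4), rh5d4520359f65dede, (rhaf9f2efc81a8312b.shift 0 4), (rhe62b1c5762fa02bb.shift 2 1)] (by decide +kernel))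
noncomputable def rh9fb69c8b84e034c6 : CRef := CRef.mk (Pat.mk 0x40000000400000002000000020000000000000000000000000000000000000000000000000 0x40000000600000003000000070000000ff000000fe0000007f000000780000007000000050 10 8) 0 0 (step_sound _ 165 [(rh1006c02ae4212ff0.shift 5 5), rhc286e09ed42d29f0] (by decide +kernel))
noncomputable def rh525719bd09809781 : CRef := CRef.mk (Pat.mk 0x10000000100000001000000000 0x28000001ff000001fe000003f7000000300000003000000020 10 10) 0 0 (step_sound _ 132 [(rh1741680720c097b4.shift 3 1), (rh5abfc4c9d959be03.shift 3 0), (rh5ef66011045fb859.shift 4 0), (rh8a3ab46205ae8109.shift 0 1)] (by decide +kernel))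
noncomputable def rhf782fdc940293990 : CRef := CRef.mk (Pat.mk 0x1000000010000000500000000000000000 0x2800000038000000380000001800000030000000770000003e0000002f 10 7) 0 0 (step_sound _ 164 [(rh1741680720c097b4.shift 3 2), rh4b906adbca148bfb, (rh5abfc4c9d959be03.shift 3 1), (rhced6d86d2069808b.shift 4 1)] (by decide +kernel))
noncomputable def rh4fbf8492de6446b7 : CRef := CRef.mk (Pat.mk 0x8000000080000000800000000000000000000000000000000 0x40000001c0000001c0000007c0000001f00000018000000180000000c0000001c0000001c00000010 10 7) 0 0 (step_sound _ 227 [(rh1741680720c097b4.shift 2 4), (rh313ed65a49c3075f.shift 2 2), rh3f7cbe01a7c77e67, (rh421ab6ed7422d33d.shift 2 0)] (by decide +kernel))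
noncomputable def rh7e1813badea3d85a : CRef := CRef.mk (Pat.mk 0x8000000080000002800000000 0x140000003c0000007f0000007e0000001e0000003800000030 10 7) 0 0 (step_sound _ 131 [rh0836cde4f02512f5, (rh1741680720c097b4.shift 2 1), (rh5abfc4c9d959be03.shift 2 0), (rhe79b379be7af4928.shift 1 0)] (by decide +kernel))
noncomputable def rhe56e24c4d2d4c995 : CRef := CRef.mk (Pat.mk 0x1000000010000000500000000000000000 0x2800000038000000380000001800000030000000770000003e0000002f 10 7) 0 0 (step_sound _ 164 [(rh1741680720c097b4.shift 3 2), (rh5abfc4c9d959be03.shift 3 1), rh98206e597e425467, (rhced6d86d2069808b.shift 4 1)] (by decide +kernel))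
noncomputable def rhc13f3f7c46dbedec : CRef := CRef.mk (Pat.mk 0x1000000010000000500000000000000000 0x280000003800000038000000380000003000000030000000770000003e0000003f 10 7) 0 0 (step_sound _ 164 [(rh1374383510406736.shift 3 2), (rh1741680720c097b4.shift 3 2), (rh5abfc4c9d959be03.shift 3 1), (rhdc64ca37ff5f0440.shift 3 0), rhddb9c5eee6c488ff] (by decide +kernel))
noncomputable def rh489ab27b9299905a : CRef := CRef.mk (Pat.mk 0x1000000010000000500000000000000000 0x28000000380000003800000010000000770000003e0000002f 10 7) 0 0 (step_sound _ 36 [(rh1741680720c097b4.shift 3 1), rh23bebe0e285dcedc, rhaa888255046f4cf0, rhd92f1551f0fdfa3f] (by decide +kernel))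
noncomputable def rh28382acb8568db5c : CRef := CRef.mk (Pat.mk 0x100000001000000050000000000000000000000000 0x280000003800000038000000770000003e0000003f00000028 10 7) 0 0 (step_sound _ 68 [(rh373b7625e672cfd8.shift 3 1), (rh6c59ce14113da07f.shift 4 0), (rhaa888255046f4cf0.shift 0 1), (rhc4526fc8abf298b6.shift 3 0)] (by decide +kernel))
noncomputable def rhdb3f01ce4e3324d2 : CRef := CRef.mk (Pat.mk 0x4000000040000001400000000 0xa000000fe0000007e0000007f0000001f0000001c00000018 10 8) 0 0 (step_sound _ 130 [(rh5abfc4c9d959be03.shift 1 0), (rhc85cc95794737cf7.shift 1 1), rhe79b379be7af4928, rhf22fc25c71a224dd] (by decide +kernel))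
noncomputable def rhc8a3697d74d20f16 : CRef := CRef.mk (Pat.mk 0x100000001000000050000000000000000000000000 0x280000003800000038000000770000003e0000003f00000020 10 7) 0 0 (step_sound _ 68 [(rh373b7625e672cfd8.shift 3 1), (rh46baee19951a66e7.shift 3 0), (rh6c59ce14113da07f.shift 4 0), (rhaa888255046f4cf0.shift 0 1)] (by decide +kernel))
noncomputable def rh4bb6d968d72b861b : CRef := CRef.mk (Pat.mk 0x4000000040000001400000000 0xa0000001e0000007f0000003e0000000f0000001c00000018 10 7) 0 0 (step_sound _ 130 [(rh1741680720c097b4.shift 1 1), (rh5abfc4c9d959be03.shift 1 0), rh5eea36df15175d94, rhbcdf1b753f9eba28] (by decide +kernel))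
noncomputable def rh7a005c8ef556774f : CRef := CRef.mk (Pat.mk 0x4000000040000001400000000 0xa0000001e0000003f0000003f0000000f0000001c00000018 10 6) 0 0 (step_sound _ 130 [(rh1741680720c097b4.shift 1 1), rh3c9f0033f50e1e99, (rh5abfc4c9d959be03.shift 1 0), rhe79b379be7af4928] (by decide +kernel))
noncomputable def rhc7629baa6e4455ab : CRef := CRef.mk (Pat.mk 0x3000000010000000500000001000000000 0x80000003e00000074000000760000003e0000002f 10 7) 0 0 (step_sound _ 131 [(rh50fbb5868c909700.shift 3 1), rhfe33ee40825e2468] (by decide +kernel))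
noncomputable def rh968f2b362179c77b : CRef := CRef.mk (Pat.mk 0x3000000010000000500000001000000000 0x80000003e0000001e000000770000003e0000002e 10 7) 0 0 (step_sound _ 131 [(rh50fbb5868c909700.shift 3 1), rhb3c0bcd00f33ef79] (by decide +kernel))
noncomputable def rhae00c62f34035e04 : CRef := CRef.mk (Pat.mk 0x38000000000000000000000000 0x50000000700000007000000070000000700000003e000000770000003000000030 10 7) 0 0 (step_sound _ 98 [(rh185f35b8bd8ec37f.shift 0 2), (rh3e1b7b343686dca1.shift 1 2), (rh5a323c8afe011494.shift 1 0), (rh5dffc5561274dae0.shift 1 0), (rh9e97bba44c1b13e4.shift 0 2)] (by decide +kernel))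
noncomputable def rh89e21b9b8170dd62 : CRef := CRef.mk (Pat.mk 0x380000000000000000000000000000000000000000 0x3000000030000000770000003e0000007000000030000000700000007000000040 10 7) 0 0 (step_sound _ 162 [(rh0d378fd9e8917c5a.shift 0 4), (rh3e1b7b343686dca1.shift 1 4), (rh4c622fddc53a5f99.shift 0 5), (rh6494d2218c61f414.shift 1 0)] (by decide +kernel))
noncomputable def rh3d356b96b026e2be : CRef := CRef.mk (Pat.mk 0x380000000000000000000000000000000000000000 0xa0000000e0000000e0000000e000000770000003e0000000f0000000e0000000e0000000e00000008 10 7) 0 0 (step_sound _ 162 [(rh05b9ad096e06d11f.shift 0 4), (rh4c622fddc53a5f99.shift 0 5), (rhb407b8deba0f2e35.shift 1 0)] (by decide +kernel))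
noncomputable def rh49f43361b9dcd7bb : CRef := CRef.mk (Pat.mk 0x100000001c00000010000000100000000800000000 0x20000000f00000001c0000007f000000770000001e0000001c 10 8) 0 0 (step_sound _ 99 [rh3bb5ab68e077f59f, rhd5f9a0a424c6560f, (rhe437f081bfcdb831.shift 3 0)] (by decide +kernel))
noncomputable def rh16321e3936144445 : CRef := CRef.mk (Pat.mk 0x1c00000000000000100000000000000000 0x280000003800000038000000380000001c000000fe000000ff000000fe000001ff 10 9) 0 0 (step_sound _ 100 [(rh4d4c23457c449f34.shift 2 0), rh9f997e7ca6a2f73c, (rhe19d603631964c3c.shift 1 0), (rhf9a6286f1d5377a2.shift 3 1)] (by decide +kernel))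
noncomputable def rhe5333322058ea447 : CRef := CRef.mk (Pat.mk 0xe00000000000000080000000000000000 0x140000001c0000001c0000003c0000000e0000007f0000003f0000003f0000001a 10 7) 0 0 (step_sound _ 99 [(rh4d4c23457c449f34.shift 1 0), (rh7b24c4ccc068b0b2.shift 2 1), (rh82064b552a8316fd.shift 1 1), rhe19d603631964c3c, (rhf9a6286f1d5377a2.shift 2 1)] (by decide +kernel))
noncomputable def rh329c620c547b732a : CRef := CRef.mk (Pat.mk 0x1c0000000000000010000000000000000000000000 0x280000003800000038000000780000001c000000fe000000ff000000fe000001ef00000004 10 9) 0 0 (step_sound _ 132 [(rh7b24c4ccc068b0b2.shift 3 2), (rh82064b552a8316fd.shift 2 2), (rh9f997e7ca6a2f73c.shift 0 1), (rhb1a251d9bff81766.shift 3 2), (rhe19d603631964c3c.shift 1 1), (rhf8ffff819bbdc349.shift 1 0), (rhf9a6286f1d5377a2.shift 3 2)] (by decide +kernel))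
noncomputable def rh522bf57a2779c6cd : CRef := CRef.mk (Pat.mk 0x1c000000100000001000000000 0x28000000380000003f000000fe000000ff000000f80000001c000000180000001800000008 10 8) 0 0 (step_sound _ 132 [(rh20966da26a1c2ae8.shift 3 0), (rh4017de503635a93b.shift 2 1), (rh4aca2306f4bc1fb1.shift 0 1), (rh771d065bdc85bf2d.shift 3 0), (rhc85cc95794737cf7.shift 3 1)] (by decide +kernel))
noncomputable def rhb1d11c1aded7cb73 : CRef := CRef.mk (Pat.mk 0x1c00000010000000100000000000000000 0x3000000030000000300000001c0000007f0000007f0000001e0000001e 10 7) 0 0 (step_sound _ 99 [rh364b101ee937e6c3, (rh985294ffbed587a6.shift 3 0), rhc6fc4cf4d9a30d64] (by decide +kernel))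
noncomputable def rh288a24945c52f827 : CRef := CRef.mk (Pat.mk 0x1c000000100000001000000000000000000000000000000000 0x28000000380000003800000038000000f00000001c000000ff0000007f000000360000003e0000003800000028 10 8) 0 0 (step_sound _ 228 [(rh63107cf1f03b249d.shift 3 4), (rh6f235c76ee6d9186.shift 2 3), (rhced6d86d2069808b.shift 4 3), rhe8c05e670a1ba354] (by decide +kernel))
noncomputable def rh97deca324b807a60 : CRef := CRef.mk (Pat.mk 0x1c000000000000001000000000000000000000000000000000 0x2800000038000000780000001c0000007f000000f70000003c000000380000003800000028 10 8) 0 0 (step_sound _ 164 [(rh7b24c4ccc068b0b2.shift 3 3), (rh82064b552a8316fd.shift 2 3), rh94a06ce0ffcca136, (rhb1a251d9bff81766.shift 3 3), (rhc46b61bcbcf6c641.shift 3 0)] (by decide +kernel))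
noncomputable def rh763ba28bc2c1e17c : CRef := CRef.mk (Pat.mk 0x1c0000000000000010000000000000000000000000 0x280000003800000038000000780000001c000000f4000000ff000000fe0000003f00000028 10 8) 0 0 (step_sound _ 132 [(rh0a6888916bcef86b.shift 3 0), rh5b00b7576ab0ca1f, (rhb1a251d9bff81766.shift 3 2), (rhf9c24750b968eb06.shift 2 2)] (by decide +kernel))
noncomputable def rh37770f7dcc39cd32 : CRef := CRef.mk (Pat.mk 0xe00000000000000080000000800000000 0x40000000e0000003f0000007f0000001f0000000f 10 7) 0 0 (step_sound _ 99 [(rh50fbb5868c909700.shift 2 1), rhb0856ce6e2198223] (by decide +kernel))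
noncomputable def rh08552446727a9e55 : CRef := CRef.mk (Pat.mk 0x3000000030000000000000000000000000 0xf7000001fe000001ff000000f0000000e0 10 9) 0 0 (step_sound _ 99 [(rh32fcc7c28a4afa4a.shift 2 0), (rhab2ad169e49f9c5e.shift 1 3), (rhfa6156345f526d69.shift 0 2)] (by decide +kernel))
noncomputable def rh21a8e97c97ff1599 : CRef := CRef.mk (Pat.mk 0x2000000030000000000000000000000000 0x40000003e7000001fe000003ff000003e0000000e0 10 10) 0 0 (step_sound _ 99 [(rhb12ffaec36122c99.shift 0 2), (rhdbca931a5c7a10e6.shift 2 0), (rhfa6156345f526d69.shift 0 2), (rhfd01510815188b45.shift 0 2)] (by decide +kernel))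
noncomputable def rh1df93ad07065808b : CRef := CRef.mk (Pat.mk 0x6000000000000000c0000000800000000000000000000000000000000 0x240000002600000073000000ff0000007f0000007f000000700000007000000030 10 8) 0 0 (step_sound _ 132 [(rh09311c1428274f63.shift 0 2), rh3c4fc70a20600f15, (rh4ca5dae25f5c14ff.shift 0 4), (rhdeca8db941583de2.shift 0 4)] (by decide +kernel))
noncomputable def rh52b030722b817e10 : CRef := CRef.mk (Pat.mk 0x1400000000000000180000000800000000000000000000000000000000 0x140000001c0000001c0000000c000001ff000000ff000001fc00000014 10 9) 0 0 (step_sound _ 99 [(rh269647d82b3acda8.shift 2 2), (rh42a7bbf213dec003.shift 3 2), rhba24dec837f045d3, (rheb6f629f45b04d8c.shift 2 3)] (by decide +kernel))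
noncomputable def rhab97f66a0bf09b10 : CRef := CRef.mk (Pat.mk 0x70000000200000006000000000000000000000000000000000 0x50000000700000007000000070000001e000000070000003bf000001fe0000039e0000001c0000001c00000014 10 10) 0 0 (step_sound _ 229 [(rh0515b5377c905995.shift 1 3), (rh076ec28aa0e5437e.shift 4 4), (rh1726a00b0a8befd0.shift 4 3), (rh5b85ac987260870e.shift 4 4), rha78d3b26888ffad8] (by decide +kernel))
noncomputable def rh726c8b96f75457cb : CRef := CRef.mk (Pat.mk 0x2000000038000000000000003000000000 0x50000000700000007000000070000003ff000001fe000001f700000038000000200000003000000010 10 10) 0 0 (step_sound _ 69 [(rh932754581e0f4330.shift 4 0), (rhcbd021497221bf65.shift 0 2)] (by decide +kernel))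
noncomputable def rh75d356368853a2f4 : CRef := CRef.mk (Pat.mk 0x20000000300000000000000010 0x500000007f000000fe000001ff00000030000000300000003000000010 10 9) 0 0 (step_sound _ 133 [(rh06181a2dc624c6f8.shift 4 0), (rh44d5c8273d6e6e84.shift 0 1), (rhafc7c29c56b35801.shift 0 2)] (by decide +kernel))
noncomputable def rh466bcf7c3eeeaf23 : CRef := CRef.mk (Pat.mk 0x3000000020000001e00000000 0x28000000380000003c0000001e000000130000003a0000001e0000000c 10 6) 0 0 (step_sound _ 129 [(rh55afc6a59410cf00.shift 1 0), rh64a43c5fdaaa5b6a] (by decide +kernel))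
noncomputable def rhc0ecd7996045652c : CRef := CRef.mk (Pat.mk 0x700000000000000000000000000000000 0x100000001c0000001c000001ff000000ff000001fe0000001c0000001c00000014 10 9) 0 0 (step_sound _ 131 [(rh3adb66774aea85eb.shift 0 3), (rh3fc3a7fb6866dcd4.shift 0 3), (rhb6df8b8dcb7e8542.shift 0 3), (rhc09fc587550364d7.shift 0 3), rhf4763e3956dc3913] (by decide +kernel))
noncomputable def rh05c95b9827e03232 : CRef := CRef.mk (Pat.mk 0x4000000000000003c00000004000000000000000000000000 0x4000000240000007e0000007c000000380000001f0000001c 10 7) 0 0 (step_sound _ 99 [(rh18965a982d73c794.shift 2 3), rhf3a9064f15d701f7] (by decide +kernel))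
noncomputable def rh15fe1dc05343eb00 : CRef := CRef.mk (Pat.mk 0xe00000000000000000000000000000000 0x30000000f80000007e000000ff000000780000007800000010 10 8) 0 0 (step_sound _ 132 [(rh06db8ceda6269a47.shift 0 3), rh179d880c24d4cbfe, (rh3b00e9e9432b8f40.shift 0 3), (rha93a5dd541ab8209.shift 1 3), (rhc0e9feef636ff611.shift 1 1)] (by decide +kernel))
noncomputable def rh96508bc538d9b00b : CRef := CRef.mk (Pat.mk 0x2000000000000001e0000000000000000000000000000000000000000 0x2000000330000001e0000003f0000003c000000380000003800000020 10 6) 0 0 (step_sound _ 129 [rha8ffdd741da4eeb1, (rheb0810cc63b001d8.shift 0 4)] (by decide +kernel))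
noncomputable def rh453ad57f1acd219d : CRef := CRef.mk (Pat.mk 0x380000000000000000000000000000000000000000 0xa0000000e0000000e0000000e000000070000003e0000007f0000000e0000000e0000000e00000008 10 7) 0 0 (step_sound _ 162 [(rh0d378fd9e8917c5a.shift 0 4), (rh185f35b8bd8ec37f.shift 0 4), (rh775ca1963e850b80.shift 0 4), (rhb407b8deba0f2e35.shift 1 0)] (by decide +kernel))
noncomputable def rh9c35055d5c8de25f : CRef := CRef.mk (Pat.mk 0x700000000000000000000000000000000000000000 0x6000000060000000ef0000007e000000e700000060000000e0000000e000000080 10 8) 0 0 (step_sound _ 163 [(rh4c622fddc53a5f99.shift 1 5), (rh5dffc5561274dae0.shift 2 2), (rh6494d2218c61f414.shift 2 0), (rhbb13f9e1d387f64a.shift 0 4)] (by decide +kernel))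
noncomputable def rhe451e6b4b8e29b52 : CRef := CRef.mk (Pat.mk 0x70000000000000000000000000 0xa0000000e0000000e0000000e0000000e70000007e000000ef0000006000000060 10 8) 0 0 (step_sound _ 99 [(rh5a323c8afe011494.shift 2 0), (rh5dffc5561274dae0.shift 2 0), (rh988dac8d009f9f77.shift 0 2), (rhbb13f9e1d387f64a.shift 0 2)] (by decide +kernel))
noncomputable def rh2df92d988b6a0e3d : CRef := CRef.mk (Pat.mk 0x1e00000000000000000000000000000000 0x80000000c0000000c0000001f0000003e0000001f0000001e0000000c 10 6) 0 0 (step_sound _ 100 [rh86a1705888b81ef9, (rhe25b0a99195a5d59.shift 1 3)] (by decide +kernel))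
noncomputable def rh392a4c9400b5f532 : CRef := CRef.mk (Pat.mk 0x100000001e000000120000000000000000000000000000000000000000 0x280000003c0000003e0000001c0000001e0000001e000000320000003f0000003b0000003900000028 10 6) 0 0 (step_sound _ 132 [(rh6e41144ddd0bdce9.shift 1 3), rhc07ac98f7a7dc75f, (rhc46b61bcbcf6c641.shift 3 0), (rhe286c75f2739cce2.shift 3 3)] (by decide +kernel))
noncomputable def rhe8cfa6ccac24dcd4 : CRef := CRef.mk (Pat.mk 0x100000001e00000010000000000000000000000000 0x280000003c0000003c0000001c0000001e0000001f0000001f0000000200000002 10 6) 0 0 (step_sound _ 97 [rhbab07c5e1942c563, (rheb0810cc63b001d8.shift 0 3)] (by decide +kernel))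
noncomputable def rhe4f81265b8d9c77d : CRef := CRef.mk (Pat.mk 0x80000000f000000090000000000000000 0x14000000ff0000007e000000ee0000000f0000000f0000000500000001 10 8) 0 0 (step_sound _ 163 [(rh03dfdf12d5937476.shift 2 1), rh6e83f90ed53d4e3b, (rhc85cc95794737cf7.shift 2 2)] (by decide +kernel))
noncomputable def rhdc0970333a4ee8d1 : CRef := CRef.mk (Pat.mk 0x38000000200000002000000000 0x5000000070000000700000006800000038000001ff000001fe0000005f 10 9) 0 0 (step_sound _ 133 [(rh1726a00b0a8befd0.shift 4 0), (rh20966da26a1c2ae8.shift 4 0), (rh45a544b226141825.shift 2 0), rh6342e0c28aee927c, (rh88c7fcda31cba4dd.shift 4 1), (rhced6d86d2069808b.shift 5 0)] (by decide +kernel))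
noncomputable def rh6aeb0c5aaad6aab2 : CRef := CRef.mk (Pat.mk 0x3c0000002200000020000000100000000000000000 0x30000003e00000023000000270000007f0000007500000040 10 7) 0 0 (step_sound _ 69 [rh2e2f8d34d59363e7, (rh932754581e0f4330.shift 4 1)] (by decide +kernel))
noncomputable def rh134e75ac27905a16 : CRef := CRef.mk (Pat.mk 0x1c00000010000000100000000000000000000000000000000000000000 0x1e000000f4000001fe000000fe000001ff000000380000003800000028 10 9) 0 0 (step_sound _ 132 [(rh15ffc8334253bb1f.shift 1 0), (rh298cbf142da2ab86.shift 1 1), (rh6b56a7cdab9f0280.shift 0 3), (rh6eff4158bb400f47.shift 3 2), (rhde6449dc5e3693c2.shift 1 0)] (by decide +kernel))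
noncomputable def rhc18821b5148ee6bb : CRef := CRef.mk (Pat.mk 0x10000000100000001000000000000000000000000000000000 0x28000000380000003f0000003e0000003f0000003c000000180000001800000030000000380000003800000008 10 6) 0 0 (step_sound _ 228 [(rh0f984e6c3e75f6d1.shift 3 3), (rh1741680720c097b4.shift 3 4), (rh4bec836d4b33641f.shift 3 4), (rh74a6cf3eab3a39f3.shift 0 4), (rhaa560afa73e1278e.shift 3 0)] (by decide +kernel))
noncomputable def rhaa9565b62b1c4431 : CRef := CRef.mk (Pat.mk 0x2000000042000000580000004000000040000000000000000000000000 0x28000000b8000000ff000000fe000000570000005800000058000000f8000000b80000003800000008 10 8) 0 0 (step_sound _ 228 [(rh419cc16c179c2123.shift 3 0), (rh84e6ffcef4228e0e.shift 0 2), (rh8a7159cc6254a4c8.shift 3 4), (rhb21ad5351866bb94.shift 0 2)] (by decide +kernel))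
noncomputable def rh501ef582c471162c : CRef := CRef.mk (Pat.mk 0x60000001c00000004000000000000000000000000 0x12000000160000001c0000007f0000007f0000007c0000003c 10 7) 0 0 (step_sound _ 66 [rh115906f0ab6ad407, (rh50fbb5868c909700.shift 1 2)] (by decide +kernel))
noncomputable def rhb5b51bf4baf51a55 : CRef := CRef.mk (Pat.mk 0x100000001c000000100000000000000000 0x3800000038000000f80000001c0000001f000000170000003e0000003f 10 8) 0 0 (step_sound _ 131 [rh44e87b08b7a4d286, (rhdaea1c71e873e3e0.shift 2 2), (rhfc7c29d8e65d775f.shift 3 1)] (by decide +kernel))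
noncomputable def rh67be9803d340090f : CRef := CRef.mk (Pat.mk 0x1c0000001000000000000000000000000000000000 0x280000003800000038000000780000001c00000070000000ff000000ff0000003f00000028 10 8) 0 0 (step_sound _ 100 [(rh0a6888916bcef86b.shift 3 0), rh91f1fa2aa9b3d59c, (rhb1a251d9bff81766.shift 3 2), (rhda15aafdd18cda96.shift 1 2)] (by decide +kernel))
noncomputable def rh1d377e1378edf1ee : CRef := CRef.mk (Pat.mk 0xe0000000d00000000000000000000000000000000 0x4000000060000002e0000006f0000007f0000007e0000001e00000014 10 7) 0 0 (step_sound _ 99 [(rh3cb04db3dd2b6a55.shift 2 1), (rh56259dd1390eee46.shift 2 0), rh61a568097c81f82a, (rhace72e7b6ae46a25.shift 0 1)] (by decide +kernel))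
noncomputable def rh879b344a521d3a6e : CRef := CRef.mk (Pat.mk 0xe0000000d00000000000000000000000000000000 0x4000000060000002e0000006f0000007e0000007f0000001e00000014 10 7) 0 0 (step_sound _ 99 [(rh3cb04db3dd2b6a55.shift 2 1), (rh56259dd1390eee46.shift 2 0), rh61a568097c81f82a, (rhd673f1c91a323839.shift 0 1)] (by decide +kernel))
noncomputable def rhb1b1acde61edbe35 : CRef := CRef.mk (Pat.mk 0x1c0000001800000000000000000000000000000000 0x8000000080000001f0000001f000000ff0000003f0000003b00000028 10 8) 0 0 (step_sound _ 161 [(rhb739f4f82bb681b4.shift 0 4), rheab2e1620c070c5e] (by decide +kernel))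
noncomputable def rhfbbcf74d4a0e1fc3 : CRef := CRef.mk (Pat.mk 0x1c000000180000000000000000000000000000000000000000 0xc0000000c0000000c0000001f0000001c0000001f0000001f0000001c0000001c00000014 10 5) 0 0 (step_sound _ 192 [rh2b5bc960ecada80b, (rhab22b5b56e7b3243.shift 0 5)] (by decide +kernel))
noncomputable def rh50ebe921f62fdd5b : CRef := CRef.mk (Pat.mk 0xc0000000d000000040000000000000000 0xc0000000f000000ff0000007e000000fe 10 8) 0 0 (step_sound _ 34 [(rh71222050f2c63a3a.shift 2 0), rhf56b56a7b068d0d3] (by decide +kernel))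
noncomputable def rh3482853f8f968b55 : CRef := CRef.mk (Pat.mk 0x1c00000018000000000000000000000000 0xc0000000c0000001c0000007f0000007f0000007a0000002a 10 7) 0 0 (step_sound _ 101 [rh7d5803255c6dddb7, (rhf48373e13d2bc128.shift 2 3)] (by decide +kernel))
noncomputable def rh676080c78b26eeca : CRef := CRef.mk (Pat.mk 0xe0000000c00000000000000000000000000000000 0x60000000e0000003c000000fc0000007f000000ff00000020 10 8) 0 0 (step_sound _ 132 [(rhf48373e13d2bc128.shift 1 4), rhf5ea3d4abfc2ef74] (by decide +kernel))
noncomputable def rh9be70fe1e0b2e78e : CRef := CRef.mk (Pat.mk 0x1c00000018000000000000000000000000 0x1c0000007f000000770000003e0000003e 10 7) 0 0 (step_sound _ 101 [rh53accf02d6881fd3, (rhf48373e13d2bc128.shift 2 3)] (by decide +kernel))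
noncomputable def rh35f07104cbd8c339 : CRef := CRef.mk (Pat.mk 0x100000001c000000100000001000000000 0x20000000f40000001c000003de000001fe000003ef 10 10) 0 0 (step_sound _ 35 [rh817309205487a270, (rh932754581e0f4330.shift 3 0)] (by decide +kernel))
noncomputable def rh74f924e26bca33ec : CRef := CRef.mk (Pat.mk 0x1c000000000000001000000000000000000000000000000000 0x380000003c000000fc0000001c0000007f0000007f0000001f0000003e0000003800000028 10 8) 0 0 (step_sound _ 164 [(rh6802be5813006fd7.shift 0 2), (rh76c97a59937af444.shift 2 3), (rh985335d5e81225b5.shift 3 0), (rh9c2c94a8857d67c1.shift 0 2), (rhb1a251d9bff81766.shift 3 3), (rhf9a6286f1d5377a2.shift 3 3)] (by decide +kernel))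
noncomputable def rh1d9bd194482dcbcf : CRef := CRef.mk (Pat.mk 0x1c000000100000001000000000000000000000000000000000 0x40000001c0000001c000000fe000000ff0000003f0000003800000028 10 8) 0 0 (step_sound _ 100 [(rh6eff4158bb400f47.shift 3 1), (rha613ffd40b6c9d24.shift 3 1), (rhc05d451ce3dd5e48.shift 3 0), (rhe4441baab75a6f73.shift 3 1), (rhf7e01237a9c69f95.shift 0 2)] (by decide +kernel))
noncomputable def rh614d064fcda3b085 : CRef := CRef.mk (Pat.mk 0x1c0000000000000010000000000000000000000000 0x280000003800000038000000780000001c00000070000000ff000000ff0000003f00000028 10 8) 0 0 (step_sound _ 132 [(rh0a6888916bcef86b.shift 3 0), rh91f1fa2aa9b3d59c, (rhb1a251d9bff81766.shift 3 2), (rhda15aafdd18cda96.shift 1 2)] (by decide +kernel))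
noncomputable def rh48e08b8a229f669f : CRef := CRef.mk (Pat.mk 0x38000000000000003000000000000000000000000000000000 0x140000001c0000001c0000003c0000003f0000007800000038000001df000000fc000001dc0000001c0000001c00000014 10 9) 0 0 (step_sound _ 131 [(rh21adf76e7fb969bc.shift 2 1), (rha1eaceb720b7f9f3.shift 3 1), (rhb37728899d61323f.shift 2 0), (rhca502ca6bc67fc1f.shift 0 2), (rhe5721a472965e4ca.shift 2 3), (rhf693d8a006a811bf.shift 0 3)] (by decide +kernel))
noncomputable def rhcf4c94282153829f : CRef := CRef.mk (Pat.mk 0x800000007000000000000000000000000 0x800000008000001fc000000ff000001fe0000000400000004 10 9) 0 0 (step_sound _ 99 [rh226dfa1171403a44, (rh33e738c4ed385b9f.shift 0 3)] (by decide +kernel))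
noncomputable def rh4ae1ed63dfe3a398 : CRef := CRef.mk (Pat.mk 0x180000000c0000000000000000000000000000000000000000 0x20000001f0000003f0000007f00000007000000070000000700000004 10 7) 0 0 (step_sound _ 161 [(rh53b3c253cb0c65f4.shift 0 5), rh677ed436af43e43b] (by decide +kernel))
noncomputable def rh181e39c244b72564 : CRef := CRef.mk (Pat.mk 0x2000000018000000000000000000000000 0x1e7000001fe000003ff000000f0000000e0 10 10) 0 0 (step_sound _ 101 [(rh1420a8e454ba040d.shift 0 2), (rh2c67d8db4cee0050.shift 2 0), (rhb12ffaec36122c99.shift 0 2), (rhfd01510815188b45.shift 0 2)] (by decide +kernel))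
noncomputable def rh3a55ea830922e418 : CRef := CRef.mk (Pat.mk 0x5000000010 0x1c0000003c000007ff000003fe0000079e 10 11) 0 0 (step_sound _ 37 [rh33002d29a435046a, (rh352b7f91eba0c81f.shift 3 0), (rh551f2e378d429d2a.shift 3 0), (rhda0726d55627da7a.shift 2 0), (rhe5becdb3d3049bde.shift 2 0)] (by decide +kernel))
noncomputable def rha7ad2ca92ad837ca : CRef := CRef.mk (Pat.mk 0x180000001e 0x3e0000003e000000370000001f0000003e 10 6) 0 0 (step_sound _ 33 [rh3244c3cc8379b070, rh4d0a33d493bd4ab6] (by decide +kernel))
noncomputable def rh3fc518ddb23c627f : CRef := CRef.mk (Pat.mk 0x3000000010 0x1c0000003c000007ff000003fe0000079e 10 11) 0 0 (step_sound _ 38 [rh33002d29a435046a, (rh352b7f91eba0c81f.shift 3 0), (rh551f2e378d429d2a.shift 3 0), (rhda0726d55627da7a.shift 2 0), (rhe5becdb3d3049bde.shift 2 0)] (by decide +kernel))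
noncomputable def rh880dc79d55649aee : CRef := CRef.mk (Pat.mk 0x40000000300000001c00000000000000000000000000000000 0x20000000380000003f0000003e00000077000000340000001c0000007f0000007f0000003a0000002a 10 7) 0 0 (step_sound _ 100 [(rh215e11e099257d75.shift 4 2), (rh87fe0fbee15231c3.shift 0 2), rheeb404af256b29ed, (rhffb8e5993241bf15.shift 3 0)] (by decide +kernel))
noncomputable def rha36beb96eb16ad34 : CRef := CRef.mk (Pat.mk 0x40000000700000001400000000000000000000000000000000 0x20000000380000003800000038000000700000007400000036000001fe000000ff000001ff00000028 10 9) 0 0 (step_sound _ 100 [(rh215e11e099257d75.shift 4 2), (rh73942b5b32e86a86.shift 0 1), (rhbdd2bab514871eac.shift 0 2), (rhffb8e5993241bf15.shift 3 0)] (by decide +kernel))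
noncomputable def rh2b48935e0a4e3312 : CRef := CRef.mk (Pat.mk 0x30000000000000000000000008 0x80000009e000001de000001df000003ff000001fe000003cf0000008800000008 10 10) 0 0 (step_sound _ 99 [rh294f437b75b561d4, (rh4fe885bb951b079c.shift 1 2), (rh7a25592782e88fe5.shift 0 2), rh85eade325de943c1, (rhc502eac36df96f07.shift 1 2), (rhea3e9fa9f1c23f4d.shift 0 2), (rhfb716cc484d0d1aa.shift 1 0)] (by decide +kernel))
noncomputable def rh6fac5d0f2197d8da : CRef := CRef.mk (Pat.mk 0x800000009000000090000000900000000000000000 0x8000000980000009800000090000001ff0000017e0000002f 10 9) 0 0 (step_sound _ 70 [rh06d4356bb66d4b2e, (rh932754581e0f4330.shift 6 1)] (by decide +kernel))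
noncomputable def rhab4b50d121079d63 : CRef := CRef.mk (Pat.mk 0x80000000900000009000000080000000000000000000000000 0x80000003800000038000000380000009800000098000000dc000001ff0000007e0000003f00000028 10 9) 0 0 (step_sound _ 102 [rh8a7814ed1858e1f9, (rh932754581e0f4330.shift 6 2)] (by decide +kernel))
noncomputable def rhcbf92cc2cc5b552a : CRef := CRef.mk (Pat.mk 0x400000022000000020000001a000000120000000000000000 0x40000001e0000007b0000001b0000001a0000001b0000000f00000005 10 7) 0 0 (step_sound _ 32 [(rh79877ebd3ef475dd.shift 0 1), rhbd7ac2e2e21eac71] (by decide +kernel))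
noncomputable def rh0500c6cb6798baa0 : CRef := CRef.mk (Pat.mk 0x220000003a00000012000000000000000000000000 0x40000003f0000007f0000003b0000003b00000012000000070000000700000005 10 7) 0 0 (step_sound _ 197 [(rh5c5e593799055d58.shift 4 3), rhc18c831a9e0ab112] (by decide +kernel))
noncomputable def rh1a734044ab00d7be : CRef := CRef.mk (Pat.mk 0x2000000220000003a000000120000000000000000 0x3d0000003f0000003a0000003a0000001b0000000f00000005 10 6) 0 0 (step_sound _ 197 [(rhee230b994cc8b773.shift 4 2), rhf16357032d7d14b7] (by decide +kernel))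
noncomputable def rhe6f55cd455b0acdd : CRef := CRef.mk (Pat.mk 0x20000000020000001a000000120000000200000000 0x1000000070000001f0000007e0000001a0000001a000000130000000300000001 10 7) 0 0 (step_sound _ 32 [(rh3c8207611faa18c4.shift 0 1), rh932754581e0f4330] (by decide +kernel))
noncomputable def rhef741aebe8001770 : CRef := CRef.mk (Pat.mk 0x2000000020000001200000000000000000000000000000000000000000 0x100000003000000030000001bf000000fe000000fe0000007c0000007000000050 10 9) 0 0 (step_sound _ 133 [(rh576667a0fe1af1f2.shift 0 3), (rh62395aebb6e654b0.shift 2 0), (rh8cdd36b03d57a2f6.shift 4 2), (rh8ff3dde5b1c639e0.shift 4 2), (rhc4526fc8abf298b6.shift 4 2)] (by decide +kernel))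
noncomputable def rh5ba3a73e3b3d6030 : CRef := CRef.mk (Pat.mk 0x2000000080000000e8000000480000004000000000000000000000000000000000 0x40000001c000000fc000000fc0000008c000000ec0000006c000000ff0000003e0000001c0000001c00000014 10 8) 0 0 (step_sound _ 131 [(rh2dd41b998c5485fc.shift 2 0), (rh2e7f20a8aba3fbfd.shift 2 1), (rh753aa2775ceafc40.shift 1 1), (rh8603dc7c7820c13d.shift 2 3), (rhbaa0b7eadbf990b0.shift 2 2), (rhc72aca1629e66c02.shift 0 1), (rhe95a2e51b0ee5fdb.shift 2 1)] (by decide +kernel))
noncomputable def rhf60ba85d43d207d5 : CRef := CRef.mk (Pat.mk 0x80000000c8000000480000000800000000000000000000000000000000 0x800000008000000084000000cc0000004c0000003f0000003f0000001f0000001c00000014 10 8) 0 0 (step_sound _ 263 [(rh5c5e593799055d58.shift 6 5), rh62395aebb6e654b0] (by decide +kernel))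
noncomputable def rhf80f1e5c8c8f2ad1 : CRef := CRef.mk (Pat.mk 0x5000000010 0x1c0000003c000003ff000001fe0000039f 10 10) 0 0 (step_sound _ 37 [rh2d5c9aaef6207afe, (rh4fe885bb951b079c.shift 2 0), (rh796d3db90fc004ad.shift 3 0), (rhfa35e196e150edb4.shift 3 0)] (by decide +kernel))
noncomputable def rhd670095a3bedec85 : CRef := CRef.mk (Pat.mk 0x30000000240000000000000000000000000000000000000000 0x1000000070000001f00000007c000000300000003000000036000001fe000001ff0000007e0000007000000050 10 9) 0 0 (step_sound _ 133 [(rh87fc64625fdb6f38.shift 0 3), (rhb1a251d9bff81766.shift 4 3), (rhd1779d7de7f8215b.shift 4 1), (rhd4fbc3dcb9085c11.shift 1 0)] (by decide +kernel))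
noncomputable def rhbc9997d46549d74b : CRef := CRef.mk (Pat.mk 0x18000000060000000000000000000000000 0x180000019e000000fc000000fe0000001f0000001c 10 9) 0 0 (step_sound _ 100 [(rh3fc040e777f1679e.shift 4 3), rhbc84f03f4fdb8804] (by decide +kernel))
noncomputable def rh88b557091e20df2e : CRef := CRef.mk (Pat.mk 0xe000000000000000000000000000000000 0x18000000180000001cf000000fe000001ff000001c0000001c0000000c0 10 9) 0 0 (step_sound _ 132 [(rh15b856e33c69f807.shift 1 3), (rh3dc22596326f3236.shift 0 3), (rh64624c3911aa90d4.shift 1 3), (rha683599be3e69071.shift 0 3), (rhd69e7ed8ed9ab244.shift 3 0)] (by decide +kernel))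
noncomputable def rha0f3417ccc3999b9 : CRef := CRef.mk (Pat.mk 0x3c00000020000000000000003800000000 0x640000003e00000027000000630000003e00000077 10 7) 0 0 (step_sound _ 97 [(rh80fcd6d0a18cb2dd.shift 1 3), rhc6fb026027c14cc6] (by decide +kernel))
noncomputable def rhce38425d4e2829b9 : CRef := CRef.mk (Pat.mk 0x10000000000000000e00000018000000000000000000000000 0x10000000700000003e0000001f0000003f0000000f00000007 10 7) 0 0 (step_sound _ 132 [(rh3b00e9e9432b8f40.shift 0 3), rh72a3777a5685ab9e, (rhf004865f08a1b0e3.shift 1 2)] (by decide +kernel))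
noncomputable def rh47a45f5fe0ea34a3 : CRef := CRef.mk (Pat.mk 0xe0000000a00000000000000000 0x5000000050000000ff000000fe000000a7000000a0000000a0 10 8) 0 0 (step_sound _ 134 [(rh4821dcf828b9d7bf.shift 5 0), rhe5b3a5c23d43c89c, (rhf71cb1a94bedb48c.shift 5 0)] (by decide +kernel))
noncomputable def rh53d09f8f3c219c98 : CRef := CRef.mk (Pat.mk 0x1c0000001400000000000000000000000000000000 0x8000000380000003800000038000000f80000003f000000140000003c0000003c0000003800000028 10 8) 0 0 (step_sound _ 196 [rh23b1c2a192034dd9, (rha11dfd15f08f96e3.shift 1 5), (rhb447be62e606bd33.shift 2 3)] (by decide +kernel))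
noncomputable def rha2be28babbf1930c : CRef := CRef.mk (Pat.mk 0x20000001c00000014000000000000000800000000 0x730000003e00000014000000f40000007e000000ff 10 8) 0 0 (step_sound _ 129 [(rh3244c3cc8379b070.shift 0 4), rh47a3e17081f11fda] (by decide +kernel))
noncomputable def rh984333f8db26a9cb : CRef := CRef.mk (Pat.mk 0x28000000000000001000000010000000000000000000000000000000000000000000000000 0x28000000380000003000000038000000ff000000fe0000003f000000380000003800000028 10 8) 0 0 (step_sound _ 164 [(rha91a00b542328b7c.shift 4 4), rhbb57abe2ba0af9f3, (rheb6f629f45b04d8c.shift 3 5)] (by decide +kernel))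
noncomputable def rh01f6d66665498dec : CRef := CRef.mk (Pat.mk 0x8000000080000001000000010000000000000000000000000000000000000000000000000 0x8000000180000003000000038000000ff000000fe0000003f000000380000003800000028 10 8) 0 0 (step_sound _ 164 [rhbb57abe2ba0af9f3, (rhcfdf45280693d3da.shift 3 5)] (by decide +kernel))
noncomputable def rh2dbc64f0640ec064 : CRef := CRef.mk (Pat.mk 0x20000000200000001000000010000000000000000000000000000000000000000000000000 0x20000000300000001800000038000000ff000000fe0000003f000000380000003000000020 10 8) 0 0 (step_sound _ 164 [rh031602b4b6ced2bf, (rh1006c02ae4212ff0.shift 4 5)] (by decide +kernel))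
noncomputable def rh9b23085674443771 : CRef := CRef.mk (Pat.mk 0x1c0000001400000000000000000000000000000000 0x8000000380000003f000000ff000000fb0000001f000000160000003c0000003c0000003800000028 10 8) 0 0 (step_sound _ 196 [(rh0838f67ba62d9801.shift 0 2), rh23b1c2a192034dd9, (rh90b4aa62dcf5a5be.shift 0 2)] (by decide +kernel))
noncomputable def rh0511e255df884c44 : CRef := CRef.mk (Pat.mk 0xa0000000a000000000 0x780000007800000ffe00000ffe00000ebf00000080 10 12) 0 0 (step_sound _ 70 [(rh09e3b3c49517183d.shift 4 1), (rh26e4b8188f39da75.shift 1 1), (rh2820ca9a6c4f41b4.shift 2 1), rhbcb0df43dd5050ab] (by decide +kernel))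
noncomputable def rh0eae33882592b77b : CRef := CRef.mk (Pat.mk 0x1e00000008 0x5000000070000003f0000001f0000003b0000001e0000000f 10 6) 0 0 (step_sound _ 1 [rh71b0e788a42d8d15, rheb0810cc63b001d8] (by decide +kernel))
noncomputable def rh983e2a0a31e7dce2 : CRef := CRef.mk (Pat.mk 0x3c000000080 0x77f000003fe000000cf 10 11) 0 0 (step_sound _ 73 [(rh33e738c4ed385b9f.shift 6 1), rh5e225c3f3f84ea87] (by decide +kernel))
noncomputable def rhb4803f58a1b62a94 : CRef := CRef.mk (Pat.mk 0x20000000a0000000a000000000000000000000000 0x100000001d0000001d0000001f0000001f0000001e0000000a0000001e0000001c00000014 10 5) 0 0 (step_sound _ 160 [(rhb1a251d9bff81766.shift 0 2), rheca099133ce59417] (by decide +kernel))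
noncomputable def rh16021e06828da2d4 : CRef := CRef.mk (Pat.mk 0x200000006000000140000001400000000000000000 0x980000009800000fff000007fe00000f7f0000015c0000011c00000014 10 12) 0 0 (step_sound _ 135 [(rh639c5d61b5ce9eea.shift 4 3), (rh7af882bee0289bdd.shift 4 3), (rha738643d04a076d5.shift 5 1), rha89778b790db0670] (by decide +kernel))
noncomputable def rhf6c84a21d373695a : CRef := CRef.mk (Pat.mk 0xa0000000a000000020000000000000000000000000 0x4000000040000000c0000000e0000000e000000eb0000007ef00000ffe000001ff00000010 10 12) 0 0 (step_sound _ 69 [(rh16f92f1c149db50f.shift 5 2), (rh3a40cfe198d8ea4a.shift 1 1), (rh72d1384198daac4f.shift 3 1), (rhb140435063fee806.shift 4 1), (rhbd2413bb4cc1fe3b.shift 4 0), (rhe0c2c7aba54ff101.shift 0 1)] (by decide +kernel))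
noncomputable def rh8803862c010976ab : CRef := CRef.mk (Pat.mk 0x6000000140000000400000004000000000 0x18000000180000001f000000fe000001ff0000005c000000dc00000094 10 9) 0 0 (step_sound _ 39 [(rh55afc6a59410cf00.shift 6 0), rh6dfd0ef4b898c1ed] (by decide +kernel))
noncomputable def rhfd5a0a4edb543b6b : CRef := CRef.mk (Pat.mk 0x300000004000000050000000500000000000000000 0x140000001c0000001c0000001c000001dc000000fc0000005f0000005c000000580000001000000010 10 9) 0 0 (step_sound _ 163 [(rh17340301d3befb66.shift 0 2), (rh81bb991d0b64e3e7.shift 2 2), rhcdaa3be5a252d206, (rhd74d37817ec9d4e4.shift 2 2)] (by decide +kernel))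
noncomputable def rha2219a5852b9dcdd : CRef := CRef.mk (Pat.mk 0x800000008000000000000001000000010 0x140000001f0000003f0000003f0000000c0000000c0000001c00000010 10 6) 0 0 (step_sound _ 67 [(rhbe0e43a3bc50a43f.shift 3 0), (rhc42d113393796eba.shift 0 1)] (by decide +kernel))
noncomputable def rhd69d3066ba9e2dc4 : CRef := CRef.mk (Pat.mk 0x10000000140000001400000010000000000000000000000000 0x80000001e0000001e00000016000000160000003c0000002f0000000e0000000a 10 6) 0 0 (step_sound _ 227 [rhb8f9c4b925cd799d, (rhffd04209dc8ea796.shift 3 3)] (by decide +kernel))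
noncomputable def rh4fdc6f52013f1505 : CRef := CRef.mk (Pat.mk 0x80000000a0000000a0000000800000000 0x140000001f0000001b0000000b0000000b0000001e00000017 10 5) 0 0 (step_sound _ 164 [(rhbaefcd01e0a8bca3.shift 3 1), rhf602b71397e9b727] (by decide +kernel))
noncomputable def rhd6bd908d2c3f307d : CRef := CRef.mk (Pat.mk 0x80000000a0000000a000000000000000000000000 0x10000000190000001f0000001b0000000b0000001e0000001f00000014 10 5) 0 0 (step_sound _ 67 [(rh367118e0bf0473e0.shift 2 0), (rh44d819a529f1e8a0.shift 0 1), (rh6c59ce14113da07f.shift 3 0), (rh8cdd36b03d57a2f6.shift 2 0)] (by decide +kernel))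
noncomputable def rh39394771218a70a3 : CRef := CRef.mk (Pat.mk 0x20000000280000002800000000000000000000000000000000 0x140000001c0000001c0000007c000003fe000003fc000007ef0000002c000000180000001c0000001c00000004 10 11) 0 0 (step_sound _ 195 [(rh1bd63633a0fe6776.shift 1 0), (rh61a2c639fbf7f45b.shift 1 3), (rh8225856b068764f0.shift 1 3), (rhbaef15c91a9a949d.shift 2 3), (rhcb3c331a13123d81.shift 0 4), (rhd72bd88edc0a5758.shift 2 2), (rhea502fff4bdf6fac.shift 1 4)] (by decide +kernel))
noncomputable def rhb7a56f3b94ab4eb9 : CRef := CRef.mk (Pat.mk 0x8000000280000000800000008 0x100000001c0000001c0000001c00000398000001fc0000038f00000008 10 10) 0 0 (step_sound _ 131 [(rh2e657435a898be47.shift 2 1), rh399298fd978f1bcc, (rh44f453b84f013105.shift 3 0), (rhc85cc95794737cf7.shift 2 1)] (by decide +kernel))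
noncomputable def rh609661b4decca647 : CRef := CRef.mk (Pat.mk 0x20000001a0000000a00000002000000060000000000000000 0x40000001f00000017000000130000001a0000000a0000000a0000001f0000000300000001 10 5) 0 0 (step_sound _ 32 [rh5e673d31bee54663, (rh79877ebd3ef475dd.shift 0 1)] (by decide +kernel))
noncomputable def rh8e935d472878a1ec : CRef := CRef.mk (Pat.mk 0x2000000020000000a000000030000000000000000000000000 0x1e0000003e0000003e000000ff0000003e0000000f0000000800000008 10 8) 0 0 (step_sound _ 196 [(rh50fbb5868c909700.shift 4 3), rh641775949594cdb0] (by decide +kernel))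
noncomputable def rh2110c7efbc730447 : CRef := CRef.mk (Pat.mk 0x70000000000000002000000020000000280000002000000000 0x1ef000000fe000001cf00000020000000200000002c0000007800000050 10 9) 0 0 (step_sound _ 36 [rh0a105c425b12a1ba, (rh932754581e0f4330.shift 4 0)] (by decide +kernel))
noncomputable def rh9807377e128dab9d : CRef := CRef.mk (Pat.mk 0xe000000000000000200000002000000020000000200000000 0x38000000380000007f0000003e000000780000001a00000002000000020000000600000004 10 7) 0 0 (step_sound _ 34 [(rh55afc6a59410cf00.shift 1 0), (rhf17eae8af7e96b40.shift 0 4)] (by decide +kernel))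
noncomputable def rh21ed75f35d05e163 : CRef := CRef.mk (Pat.mk 0x20000000280000000800000070 0x140000001c0000001c0000038f000003fc000007ef0000000c0000007c 10 11) 0 0 (step_sound _ 34 [(rh09d4dfe75d4407d6.shift 2 0), rhec19641fba9f1e5a] (by decide +kernel))
noncomputable def rh447ac240b95e4617 : CRef := CRef.mk (Pat.mk 0x4000000050000000400000004 0x500000007000000070000001f8000000fe000001ff0000003400000034 10 9) 0 0 (step_sound _ 99 [(rh2f68792b6b779e96.shift 2 0), rhf6ba6a468fba9a5a] (by decide +kernel))
noncomputable def rh3f097b26678f6259 : CRef := CRef.mk (Pat.mk 0x10000000100000005000000000000000000000000000000000 0x800000038000000380000001e000000ff000000ff0000001f0000001c00000004 10 8) 0 0 (step_sound _ 100 [rh56509aeaa47fa8b0, (rh771d065bdc85bf2d.shift 3 2), (rh92ed3525f919a568.shift 1 2), (rhc4526fc8abf298b6.shift 3 1), (rhe8775f4a901009e3.shift 2 1)] (by decide +kernel))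
noncomputable def rh2c39ad5224ea3032 : CRef := CRef.mk (Pat.mk 0x400000008000000280000002800000008000000000000000000000000 0x40000003f00000078000000280000007c000001f8000000600000004000000040 10 9) 0 0 (step_sound _ 227 [(rh50fbb5868c909700.shift 2 4), rha10bc693ecf8e890] (by decide +kernel))
noncomputable def rh5d87272bacbf7dbb : CRef := CRef.mk (Pat.mk 0x1800000018000000400000004000000000 0xa0000000e0000000e00000006000000fe000000ff0000004f0000004000000040 10 8) 0 0 (step_sound _ 101 [(rh79b3c29022acbdf3.shift 2 3), (rh960ee4811140405f.shift 0 2), (rhc670e222906b9586.shift 2 0)] (by decide +kernel))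
noncomputable def rh84f031888f985ddb : CRef := CRef.mk (Pat.mk 0x10000000100000005000000000000000000000000000000000 0x800000038000000f80000001c000000df000000ff0000001f0000000400000004 10 8) 0 0 (step_sound _ 100 [rh56509aeaa47fa8b0, (rh771d065bdc85bf2d.shift 3 2), (rhe1bcd80b5c7d4f4c.shift 2 2)] (by decide +kernel))
noncomputable def rh49fecbedc7b14b6f : CRef := CRef.mk (Pat.mk 0x8000000080000002800000028000000000000000000000000 0x50000003f0000007f0000002f0000007e000000e70000004000000040 10 8) 0 0 (step_sound _ 98 [rh42012008c81ce08f, (rh932754581e0f4330.shift 2 2)] (by decide +kernel))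
noncomputable def rhe2189dcdfddcb2d1 : CRef := CRef.mk (Pat.mk 0x30000000200000008000000080000000b0000000000000000 0xc0000000d3000000fe000000f8000000e80000003f0000001800000010 10 8) 0 0 (step_sound _ 163 [(rh92849c133feb679d.shift 0 2), (rhce9bf345ac50ae86.shift 1 1), rhd8fc2fe14131b89c] (by decide +kernel))
noncomputable def rhac540468aa89905e : CRef := CRef.mk (Pat.mk 0x400000008000000080000002c00000028000000000000000000000000 0x100000007c0000004f000000780000007c0000002c00000078000000600000004000000040 10 7) 0 0 (step_sound _ 227 [rh3e7288b83fe20306, (rh50fbb5868c909700.shift 2 4)] (by decide +kernel))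
noncomputable def rh6601768196b8ce00 : CRef := CRef.mk (Pat.mk 0x2000000020000000300000002000000000 0x3c0000003c000001fe000001ff0000003e0000002f0000000c 10 9) 0 0 (step_sound _ 100 [rh74bc750c9ad9ed87, (rh79b9bf4a66eff567.shift 1 2), (rh7f9f3607ee25a93b.shift 4 1), (rhac2c6b1b39e7ea97.shift 1 2)] (by decide +kernel))
noncomputable def rhfc1af852580fe1cb : CRef := CRef.mk (Pat.mk 0x300000003000000030000000a00000000000000000 0xa0000000e0000000f0000007e0000003e0000003e000001ee0000000e0000000a 10 9) 0 0 (step_sound _ 130 [(rh7ae81a4244b92688.shift 1 1), (rh7dcc577706dd2abd.shift 1 3), rh90b8a06ab1b39b1f, (rhcf839cdbe694bacd.shift 1 1)] (by decide +kernel))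
noncomputable def rh4e0fe334b2f480a9 : CRef := CRef.mk (Pat.mk 0x800000010000000100000001800000050 0x1c0000001e000000770000007f0000001e000000f0 10 8) 0 0 (step_sound _ 5 [rh26794863da0883be, (rhf48373e13d2bc128.shift 3 0)] (by decide +kernel))
noncomputable def rh7226006b43d922d9 : CRef := CRef.mk (Pat.mk 0xe000000080000002800000020000000000000000000000000 0x40000003e0000003fe000007ff0000002f00000030000000700000007000000050 10 11) 0 0 (step_sound _ 165 [(rh028b73e3b7973375.shift 2 2), rh06f2148f998ff904, (rh7e61343ba649ce05.shift 2 2), (rhc84dbe89ac4dad8d.shift 2 0), (rhe28dc3223a412fc9.shift 1 5), (rhf489ee14e90850d6.shift 0 1)] (by decide +kernel))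
noncomputable def rh3706313137cb9351 : CRef := CRef.mk (Pat.mk 0x20000000a000000080000001e00000000 0x1b0000001e0000000b000001f8000000fe000000e3 10 9) 0 0 (step_sound _ 37 [rh3d4987890bcaefd8, (rh3fc3a7fb6866dcd4.shift 2 0), (rh9890f9d77740bbed.shift 1 1), (rhf5fa5e48e0784de2.shift 2 0)] (by decide +kernel))
noncomputable def rhe2d5d430f2eaeab7 : CRef := CRef.mk (Pat.mk 0x20000000a0000000a00000002000000000000000000000000 0x80000000a0000000b0000001f0000001e0000001f0000001700000001 10 5) 0 0 (step_sound _ 66 [(rhd3458b32566d63f7.shift 1 2), rhd871cdb9fe1c1959] (by decide +kernel))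
noncomputable def rhc31081148da403cc : CRef := CRef.mk (Pat.mk 0x2000000020000000e0000000000000000000000000 0x100000003a0000003e0000002e0000003f000000fe0000003f0000001c00000018 10 8) 0 0 (step_sound _ 100 [rh19672fd93d7abac7, (rh1e8d6e1ef30e2d92.shift 3 0), (rh976a48eb1c80a12f.shift 4 2)] (by decide +kernel))
noncomputable def rhf72e794c6d2123d7 : CRef := CRef.mk (Pat.mk 0x400000007000000050000000400000000000000000 0x18000000180000007f0000007e0000005f0000006c0000002c0000000c 10 7) 0 0 (step_sound _ 69 [rh71123fe5dbd5a694, (rh932754581e0f4330.shift 5 1)] (by decide +kernel))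
noncomputable def rh606a077064ec8983 : CRef := CRef.mk (Pat.mk 0x6800000028000000200000002000000000 0xe0000007c0000002c0000006f0000003e00000017 10 7) 0 0 (step_sound _ 132 [rhc1178822fceeba93, (rheb0810cc63b001d8.shift 2 3)] (by decide +kernel))
noncomputable def rhf71290cdca47bb72 : CRef := CRef.mk (Pat.mk 0x30000000040000000400000010000000180000000000000000 0x20000000e0000000e0000000e000000070000003e0000000600000006000000370000001e0000000300000002 10 6) 0 0 (step_sound _ 65 [(rh26acb339ebd8d28a.shift 1 0), (rh4657d6bf491c09a2.shift 0 1), (rha087ba316146066f.shift 0 2), (rhb96e2ebcd9921083.shift 0 1), (rhd63f27c9f495911e.shift 0 1)] (by decide +kernel))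
noncomputable def rhfd9ad8845faa4749 : CRef := CRef.mk (Pat.mk 0xa0000000a000000080000000800000008000000000 0x3000000030000001fe000000fe000000bf000000b8000000f8000001b800000100 10 9) 0 0 (step_sound _ 166 [rh4118652576a4c9f8, (rh50fbb5868c909700.shift 6 2)] (by decide +kernel))
noncomputable def rh392ef6bd1388ece2 : CRef := CRef.mk (Pat.mk 0xe0000000a0000000800000008000000000 0x3000000030000001be000000fe000000bf000001b8000001f800000038 10 9) 0 0 (step_sound _ 132 [(rhd5889c99d29bf7d6.shift 3 1), (rhe15c56d4137cf69b.shift 0 3), (rhfe7fe68ed4b22aac.shift 3 0)] (by decide +kernel))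
noncomputable def rhafc330fa94b625c0 : CRef := CRef.mk (Pat.mk 0x300000001400000004000000000000000000000000000000000000000000000000 0x20000000e0000000e0000000e000001c7000001fe000003f700000006000000060000000e0000000e0000000e0000000e00000002 10 10) 0 0 (step_sound _ 258 [(rh6fc7e6f139979602.shift 0 5), rh7eb749f43a213449, (rhd890e4315e855f62.shift 1 0), (rhe0cd8340a632436e.shift 1 7), (rhe32601bd65ae7334.shift 1 7)] (by decide +kernel))
noncomputable def rh4ff01b819e804d23 : CRef := CRef.mk (Pat.mk 0x1800000018000000100000001000000000 0x170000001f0000001b0000001f0000001f0000000c 10 5) 0 0 (step_sound _ 35 [rh03ae9f42c545fa07, (rh932754581e0f4330.shift 3 0)] (by decide +kernel))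
noncomputable def rhd6ccb4d6ffaa9651 : CRef := CRef.mk (Pat.mk 0x1800000018000000100000000000000000 0x140000001c0000001e0000001f0000001f0000001f 10 5) 0 0 (step_sound _ 36 [(rh7b1f1fb55310c477.shift 3 0), rhfe2f8c7c5b229ed2] (by decide +kernel))
noncomputable def rh579b5e7b6de617a8 : CRef := CRef.mk (Pat.mk 0x30000000c000000000000000000000000 0x30000000f30000007e000000fe0000007000000070 10 8) 0 0 (step_sound _ 100 [(rh09d4dfe75d4407d6.shift 0 3), (rhc0e9feef636ff611.shift 1 0)] (by decide +kernel))
noncomputable def rh1abf0c62171971e1 : CRef := CRef.mk (Pat.mk 0x2000000020000000a0000000a000000110000000000000000000000000000000000000000 0x700000003e0000007f0000000a0000003a0000003b0000003900000010000000180000001800000008 10 7) 0 0 (step_sound _ 161 [(rh932754581e0f4330.shift 0 4), rha540927a1cc9349a] (by decide +kernel))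
noncomputable def rh84b572e6e744bf19 : CRef := CRef.mk (Pat.mk 0x2000000020000000a0000000a0000001000000000 0x700000003e0000007f0000000a0000001f0000001300000001 10 7) 0 0 (step_sound _ 32 [(rh79877ebd3ef475dd.shift 0 1), rh81218345ebb6e9de] (by decide +kernel))
noncomputable def rhb2922a825c141f9f : CRef := CRef.mk (Pat.mk 0x2000000020000000a0000000a000000110000000000000000 0x700000003e0000007f0000000a0000001e000000130000001100000010 10 7) 0 0 (step_sound _ 65 [(rh932754581e0f4330.shift 0 1), rhb6369e4a04ed7f96] (by decide +kernel))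
noncomputable def rhdaad837b8ec7bb4b : CRef := CRef.mk (Pat.mk 0x2000000020000000a0000001a000000100000000000000000 0x700000003e0000007f0000000a0000001e000000f30000001f00000015 10 8) 0 0 (step_sound _ 69 [rh6feaf5c2e7458fa4, (rhab22b5b56e7b3243.shift 1 2)] (by decide +kernel))
noncomputable def rhf41b6a577c1f3b29 : CRef := CRef.mk (Pat.mk 0x2000000060000001c000000000000000000000000 0x30000000320000003e0000001e0000003f0000001f0000003f 10 6) 0 0 (step_sound _ 97 [(rh245928b0a8b00d1d.shift 1 1), rh698018db68c59b67, rh76ade6e409ca008f] (by decide +kernel))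
noncomputable def rh1dd4fde481bdd1db : CRef := CRef.mk (Pat.mk 0x2000000020000001a000000320000000000000000 0xc2000000c2000000fa000000fb000000ef00000025 10 8) 0 0 (step_sound _ 70 [rh889ae7912b23410c, (rhf48373e13d2bc128.shift 3 2)] (by decide +kernel))
noncomputable def rh6ae02b164d671836 : CRef := CRef.mk (Pat.mk 0x60000000400000005000000000000000000000000 0x600000066000000640000007f0000007c0000007800000010 10 7) 0 0 (step_sound _ 66 [(rh50fbb5868c909700.shift 1 2), rhc8c154d3435159c0] (by decide +kernel))
noncomputable def rh75ccc833f6e37610 : CRef := CRef.mk (Pat.mk 0x18000000100000005000000050000000000000000000000000 0x10000000130000005b0000007f0000005f000000ff000000d40000008000000080 10 8) 0 0 (step_sound _ 163 [rh24e9c1c8c56c16c2, (rh7b1f1fb55310c477.shift 3 2)] (by decide +kernel))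
noncomputable def rh5dea37153fd55553 : CRef := CRef.mk (Pat.mk 0x3000000030000000b0000000a0000000000000000000000000 0xa0000000e0000000e00000007000000be000000ff000000be000001ee000001880000010000000100 10 9) 0 0 (step_sound _ 131 [rh6dfc0fa9ca4e4cd2, (rhbb7213d4724395ac.shift 1 2), (rhd5b85d579310c48e.shift 2 3)] (by decide +kernel))
noncomputable def rh417be6dbf8974397 : CRef := CRef.mk (Pat.mk 0x10000000100000005000000050000000000000000000000000 0x800000098000003fc000000f70000005f000000ff000000d30000008300000080 10 10) 0 0 (step_sound _ 227 [rhd4a2bc2ea1230495, (rhffd04209dc8ea796.shift 3 3)] (by decide +kernel))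
noncomputable def rh0313c4c37c54c0dc : CRef := CRef.mk (Pat.mk 0x1000000010000000500000005000000000000000000000000000000000 0x2800000038000000380000001000000034000000ff0000005f000000ff000000530000003b0000003800000028 10 8) 0 0 (step_sound _ 163 [(rh02c20ba4563c4e9b.shift 1 0), (rh038de9f6952c0fd9.shift 3 4), (rh2e56d16230636d71.shift 0 2)] (by decide +kernel))
noncomputable def rh822b83cf42501aa5 : CRef := CRef.mk (Pat.mk 0x1000000010000000500000005000000000000000000000000000000000 0x8000000180000001800000034000000ff0000005f000000ff000000530000003b0000003800000028 10 8) 0 0 (step_sound _ 163 [(rh02c20ba4563c4e9b.shift 1 0), (rh2e56d16230636d71.shift 0 2), (rh8c25cb665ab79ec0.shift 1 4), (rh976a48eb1c80a12f.shift 3 4)] (by decide +kernel))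
noncomputable def rh3c2258341d967ee6 : CRef := CRef.mk (Pat.mk 0x200000003000000020000000000000000000000000 0x1000000030000000300000003e0000007e0000007f00000050 10 7) 0 0 (step_sound _ 69 [(rh6eff4158bb400f47.shift 4 0), (rhe209853fe64cdce0.shift 0 1), (rhe286c75f2739cce2.shift 4 1)] (by decide +kernel))
noncomputable def rhdd46fb357a4d0dd3 : CRef := CRef.mk (Pat.mk 0x40000000400000004000000040000000000000000 0x7e0000003e000000770000000c0000000c0000000c 10 7) 0 0 (step_sound _ 35 [rh7d0983e4ae6bf1e9, (rhd3458b32566d63f7.shift 2 1)] (by decide +kernel))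
noncomputable def rh78e696782b8570d4 : CRef := CRef.mk (Pat.mk 0x4000000040000000400000004000000000000000000000000000000000 0x7e7000003fe000007ff00000040000000e0000000e0000000e0000000a0 10 11) 0 0 (step_sound _ 102 [(rh437709403a318eb1.shift 0 3), (rh49759b6975f15643.shift 5 0), (rh6c59ce14113da07f.shift 6 1), (rh8cdd36b03d57a2f6.shift 5 1), (rhcab3157f7bdcba3e.shift 5 1)] (by decide +kernel))
noncomputable def rhc200b8b63cec070b : CRef := CRef.mk (Pat.mk 0x100000001000000050000000000000000000000000000000000000000000000000 0x40000000c0000003f0000003f0000001f000000f8000000380000003000000038000000380000003800000028 10 8) 0 0 (step_sound _ 164 [(rh098c9ae918f31a59.shift 1 4), (rh3682506ad92a92ce.shift 0 4), (rh7eb4a07d72ad7934.shift 3 4), (rh825b8ab1ed182b05.shift 3 0)] (by decide +kernel))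
noncomputable def rh458e939c0ef63551 : CRef := CRef.mk (Pat.mk 0x80000000800000028000000000000000000000000000000000000000000000000 0x80000000c0000000f0000007c0000001f0000001c0000001c0000001c0000001c00000014 10 7) 0 0 (step_sound _ 163 [(rh098c9ae918f31a59.shift 0 4), (rh4f71fa61affe4b7c.shift 1 4), (rh6eff4158bb400f47.shift 2 3), (rh825b8ab1ed182b05.shift 2 0), (rhc8fd50c44a2112a0.shift 0 4)] (by decide +kernel))
noncomputable def rh0e2f91ed1c4fb12e : CRef := CRef.mk (Pat.mk 0x1000000018000000100000000000000000 0x1c0000003f000000ff0000001f0000001e0000000c0000000c 10 8) 0 0 (step_sound _ 67 [(rh19c1de7b39f72ad6.shift 1 2), (rh1e309b005ffa1b36.shift 3 0), rh7d334f82edc5a357] (by decide +kernel))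
noncomputable def rh3c1d48e9c80e9494 : CRef := CRef.mk (Pat.mk 0x2000000020000000200000002000000000 0x1000000030000000300000007f000001fe0000005f 10 9) 0 0 (step_sound _ 36 [rh1845c9ca2e4010f7, (rh932754581e0f4330.shift 4 0)] (by decide +kernel))
noncomputable def rhe3094f8076c2f4c6 : CRef := CRef.mk (Pat.mk 0x2800000028000000200000002000000020000000400000000000000000 0x5e0000007c000000280000007f0000003e00000027000000700000007000000010 10 7) 0 0 (step_sound _ 131 [(rh4fe60c4082c5f52d.shift 1 0), rh80ebefe1c51febd1, (rh83d0b9849dedb501.shift 1 4)] (by decide +kernel))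
noncomputable def rh662357ae368565a2 : CRef := CRef.mk (Pat.mk 0x280000002800000020000000200000000000000000 0x40000003f0000037c00000328000007f8000003e8000007c000000080 10 11) 0 0 (step_sound _ 70 [(rh55afc6a59410cf00.shift 5 1), rhadbd135657bb7f78] (by decide +kernel))
noncomputable def rhec3b04ee07c6d421 : CRef := CRef.mk (Pat.mk 0x2800000028000000200000002000000000 0x40000003f0000007c000000280000007c000001f800000040 10 9) 0 0 (step_sound _ 38 [(rh034afa28124329a2.shift 0 1), (rh55afc6a59410cf00.shift 5 0)] (by decide +kernel))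
noncomputable def rh610697237aa0f099 : CRef := CRef.mk (Pat.mk 0x80000002800000020000000200000000000000000 0x440000007f0000007c000000280000007c000001ff0000003c00000010 10 9) 0 0 (step_sound _ 165 [(rh2c718f29f451ad95.shift 2 2), rh3460e3bd3e58bc78, (rh7ccf3cdb050d375d.shift 2 1), (rhb7ee8905496f843d.shift 4 1)] (by decide +kernel))
noncomputable def rha52595e6c7ca9c34 : CRef := CRef.mk (Pat.mk 0xc000000030000000000000000000000000 0xc000000cf0000007e0000007f0000000e0000000e 10 8) 0 0 (step_sound _ 99 [rh22c733cdbbe2e25a, (rh3fc040e777f1679e.shift 3 3)] (by decide +kernel))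
noncomputable def rh77054c4d4cd35619 : CRef := CRef.mk (Pat.mk 0x30000000c000000000 0xe0000000e0000007f0000007e000000cf0000000c 10 8) 0 0 (step_sound _ 67 [rh6037b2a7b664cf96, (rhd6e447e81774439e.shift 3 1)] (by decide +kernel))
noncomputable def rh7a21a23a3e1b3ab7 : CRef := CRef.mk (Pat.mk 0x40000000e000000080000000000000000000000000 0x60000000780000007c0000007f000000fe000000bf000000380000003800000028 10 8) 0 0 (step_sound _ 230 [rh4cc2f4cac6fb4cc3, (rh6f1cbe15c631ee70.shift 6 3)] (by decide +kernel))
noncomputable def rh76f1d833527443c9 : CRef := CRef.mk (Pat.mk 0x180000005800000010000000000000000000000000 0xa0000000f8000000e8000000f80000005f000000f8000000e0000000e0000000a0 10 8) 0 0 (step_sound _ 130 [(rh7f642198d05ed3e0.shift 2 0), (rhab2ad169e49f9c5e.shift 0 4), (rhcf86d050071af9b3.shift 1 3), (rhf56e6bc5d2f7fe77.shift 0 3)] (by decide +kernel))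
noncomputable def rh37503d0bd5fa51fe : CRef := CRef.mk (Pat.mk 0xf00000008000000020000000000000000 0x40000001c0000001c0000001c0000001c0000000f000000080000001f0000001c00000010 10 5) 0 0 (step_sound _ 163 [(rh33e738c4ed385b9f.shift 0 4), rh4e1e8e5e8bfbccfa] (by decide +kernel))
noncomputable def rh2f2ef65ea98d3cdc : CRef := CRef.mk (Pat.mk 0x1c0000005800000010000000000000000000000000 0xa0000000f8000000e8000000fc0000005f000000f8000000e0000000e0000000a0 10 8) 0 0 (step_sound _ 227 [(rh6f1cbe15c631ee70.shift 3 3), rh7a21fd7bc487a90b] (by decide +kernel))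
noncomputable def rhe44064147ce1f025 : CRef := CRef.mk (Pat.mk 0xe0000000c00000008 0x1000000170000001f000000770000007e0000000f00000008 10 7) 0 0 (step_sound _ 68 [(rh226655e3fe6b4a8a.shift 1 1), (rh2612b4f73ba7c3b3.shift 1 1), rha8eceb9a9ff333fb] (by decide +kernel))
noncomputable def rheeb4e593f89f937e : CRef := CRef.mk (Pat.mk 0x3c00000050000000100000000000000000 0xc0000000ff0000005f000000f8000000f0000000b0 10 8) 0 0 (step_sound _ 99 [(rhaf9f2efc81a8312b.shift 1 3), (rhb14e2588a8d71db8.shift 0 3), rhda5b0be0b599c8fd] (by decide +kernel))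
noncomputable def rh32ea076c6f97df04 : CRef := CRef.mk (Pat.mk 0xe000000280000000800000000 0x1200000012000003f3000001fe000003af0000007c00000028 10 10) 0 0 (step_sound _ 100 [rh143ea9a065a4adfe, (rh3a69dc315759d1b4.shift 0 1), (rh3b00e9e9432b8f40.shift 0 2), (rhd4d36b4007f546b1.shift 1 0)] (by decide +kernel))
noncomputable def rhaa009a6c766d865d : CRef := CRef.mk (Pat.mk 0x18000000100000001a000000500000000000000000 0x15000000170000003f0000001f0000001b000000f70000001700000005 10 8) 0 0 (step_sound _ 131 [rh1e390c6b54499abb, (rh7b1f1fb55310c477.shift 3 1)] (by decide +kernel))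
noncomputable def rh354494b699415cbd : CRef := CRef.mk (Pat.mk 0x8000000100000001a0000001000000000 0x100000007000000070000000f0000001f0000001f0000001300000010 10 5) 0 0 (step_sound _ 99 [(rh7b1f1fb55310c477.shift 3 0), (rhaa4ef98d5f141e7e.shift 0 1)] (by decide +kernel))
noncomputable def rh15d469b93028534c : CRef := CRef.mk (Pat.mk 0x100000001000000018 0x2800000038000000ff000000ff0000003f0000001800000018 10 8) 0 0 (step_sound _ 100 [(rh1741680720c097b4.shift 3 0), (rh9a369cb82ea472da.shift 3 0), (rh9fb9dc683e09b5f3.shift 3 0), rhc731dd3350f5a32e, (rhe62cab2ff5ad6fe2.shift 3 0)] (by decide +kernel))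
noncomputable def rha89fdb7714735dde : CRef := CRef.mk (Pat.mk 0x200000002000000030000000a00000000000000000 0xa0000000e0000005e0000007e0000003f0000003e000001ef0000002e0000000a 10 9) 0 0 (step_sound _ 164 [(rh50fbb5868c909700.shift 4 2), rhcf3c6f77d02941ec] (by decide +kernel))
noncomputable def rh6a049b1be3759e47 : CRef := CRef.mk (Pat.mk 0x500000001a00000010000000180000000000000000 0x500000017000000f70000001b0000001f0000003f0000001700000015 10 8) 0 0 (step_sound _ 99 [rh262883f10717b1a2, (rh5c5e593799055d58.shift 3 2)] (by decide +kernel))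
noncomputable def rh7551d0bd36016173 : CRef := CRef.mk (Pat.mk 0x100000001a0000001000000008000000000000000000000000 0x10000000130000001f0000001f0000000f000000070000000700000001 10 5) 0 0 (step_sound _ 131 [(rh5c5e593799055d58.shift 3 3), rhc658a46ce4a6acfc] (by decide +kernel))
noncomputable def rhdf13e44449ce2706 : CRef := CRef.mk (Pat.mk 0x18000000100000001000000000000000000000000000000000 0x18000000180000003f000000ff000000ff0000003800000028 10 8) 0 0 (step_sound _ 100 [(rh6eff4158bb400f47.shift 3 1), (rha0aea814e7f51fb2.shift 0 2), (rha613ffd40b6c9d24.shift 3 1), (rhbba7d23481996066.shift 3 0), (rhe4441baab75a6f73.shift 3 1)] (by decide +kernel))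
noncomputable def rhb870d6be9feaa3b5 : CRef := CRef.mk (Pat.mk 0xa0000000300000002000000020000000000000000000000000 0xa0000002e000001ef0000003e0000003f0000007e0000005e0000000e0000000a 10 9) 0 0 (step_sound _ 100 [rh141e98b3b8560617, (rh932754581e0f4330.shift 4 2)] (by decide +kernel))
noncomputable def rh9cca237aac7b4235 : CRef := CRef.mk (Pat.mk 0x30000000600000003800000000 0x1c0000003c0000001f0000001c0000003c000000780000003800000010 10 7) 0 0 (step_sound _ 99 [rh98d8286ef8959523, (rhb739f4f82bb681b4.shift 2 2)] (by decide +kernel))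
noncomputable def rh035135cb4492b28a : CRef := CRef.mk (Pat.mk 0x100000009000000018 0x28000000380000003f0000003e00000077000000fe0000001e 10 8) 0 0 (step_sound _ 37 [(rh361cc68994bd8a63.shift 3 0), rh5dec8d68b5194427] (by decide +kernel))
noncomputable def rhfa45c037778cc15a : CRef := CRef.mk (Pat.mk 0x900000009a000000c000000000000000000000000000000000 0x40000000c0000002f000000ff000000db000000d800000078000000780000007800000020 10 8) 0 0 (step_sound _ 197 [(rh361cc68994bd8a63.shift 3 5), rh5820e26ee479d796] (by decide +kernel))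
noncomputable def rh3dd05366b2cb124c : CRef := CRef.mk (Pat.mk 0x180000005000000018000000000000000000000000 0xa0000000fc000000ec000000f800000058000000fc000000ef000000ec000000a0 10 8) 0 0 (step_sound _ 131 [(rh0c64dc0f4698397c.shift 2 0), (rh29e0362802793f45.shift 2 1), (rha6f802784adb25e2.shift 0 1), (rhb78a9c4a3a7ccce0.shift 2 0)] (by decide +kernel))
noncomputable def rhc9613b64f97b2b97 : CRef := CRef.mk (Pat.mk 0x120000005300000050000000000000000000000000 0x80000000e8000000f8000001ec000000fe0000005b000000d0000000e0000000e0000000a0 10 9) 0 0 (step_sound _ 163 [(rh66c9db40a3d5ed92.shift 2 0), (rhb2a0b9ccfb5cecd5.shift 0 4)] (by decide +kernel))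
noncomputable def rh0fa3978fcca1633b : CRef := CRef.mk (Pat.mk 0x1200000053000000580000000000000000 0xa0000000e8000000ec000000fe0000005b000000fc0000002c0000000c 10 8) 0 0 (step_sound _ 99 [(rh7e73d3fa32e00ba8.shift 0 1), (rhc28dd09875fb2825.shift 2 0), rhe3a0397bc25c036f] (by decide +kernel))
noncomputable def rh34982d97c762414c : CRef := CRef.mk (Pat.mk 0x100000001e0000000000000000000000000000000000000000 0x5000000070000000700000007000000070000001f0000001e0000000300000007000000070000000700000005 10 5) 0 0 (step_sound _ 193 [(rh3244c3cc8379b070.shift 0 5), rhbc5c2f309f23c253] (by decide +kernel))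
noncomputable def rhb5f659d04345d5b9 : CRef := CRef.mk (Pat.mk 0x12000000030000000000000000000000000 0x500000007f000000fe000000fe000001fc00000030000000300000003000000030 10 9) 0 0 (step_sound _ 134 [(rh361cc68994bd8a63.shift 4 3), rhce9f296714da2daa] (by decide +kernel))
noncomputable def rh311621d3ecaf757a : CRef := CRef.mk (Pat.mk 0x38000000600000003000000000000000000000000000000000 0x1000000038000000780000003c0000001c0000001f0000003c0000001c 10 7) 0 0 (step_sound _ 131 [rh213fa62c06bc935c, (rh53b3c253cb0c65f4.shift 2 4)] (by decide +kernel))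
noncomputable def rhf027e97003782b3f : CRef := CRef.mk (Pat.mk 0x18000000900000001000000000000000000000000000000000 0x1e000000fe000000770000003e0000003f0000003800000028 10 8) 0 0 (step_sound _ 165 [rh171d3ccfd1c4d123, (rh2fe78cc5ca4405d8.shift 3 5)] (by decide +kernel))
noncomputable def rhf3875cf0825f2c7b : CRef := CRef.mk (Pat.mk 0xc00000009a00000090000000000000000000000000 0x20000000780000007800000078000000d8000000db000000ff0000002f0000000c00000004 10 8) 0 0 (step_sound _ 101 [rh2a15bad9dd190b02, (rh2fe78cc5ca4405d8.shift 3 3)] (by decide +kernel))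
noncomputable def rh482664d5b1c7deab : CRef := CRef.mk (Pat.mk 0x180000005000000018000000000000000000000000 0xa0000000ec000000ef000000fc00000058000000f8000000ec000000fc000000a0 10 8) 0 0 (step_sound _ 131 [(rh01ff8e29f1e0af53.shift 0 3), (rh119413da59a818ff.shift 2 0), (rh57b9c88e37466b8b.shift 2 0), (rhb6428504fe0baec6.shift 2 1)] (by decide +kernel))
noncomputable def rh4db9872ba4da4394 : CRef := CRef.mk (Pat.mk 0x50000000530000001200000000000000000000000000000000 0xa0000000e0000000e0000000d00000005b000000fe000001ec000000f8000000e800000080 10 9) 0 0 (step_sound _ 131 [(rh37e5e75fbd82561b.shift 2 0), (rh5419adcd928dba20.shift 0 4)] (by decide +kernel))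
noncomputable def rh1d3c741c8e74a03e : CRef := CRef.mk (Pat.mk 0x580000005300000012000000000000000000000000 0xc0000002c000000fc0000005b000000fe000000ec000000e8000000a0 10 8) 0 0 (step_sound _ 131 [(rh044f4d195f658110.shift 0 1), (rhd6c5c8b1c02f21f5.shift 2 3), rhdc059bbfc35a17a0] (by decide +kernel))
noncomputable def rh01ee6523ba01286a : CRef := CRef.mk (Pat.mk 0x1e000000100000000000000000000000000000000000000000 0x5000000070000000700000007000000030000001e0000001f0000000700000007000000070000000700000005 10 5) 0 0 (step_sound _ 161 [rh9eac783c4eec200d, (rheb0810cc63b001d8.shift 0 5)] (by decide +kernel))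
noncomputable def rh2b886ea428fdaaf8 : CRef := CRef.mk (Pat.mk 0x300000012000000000000000000000000000000000 0x30000000300000003000000030000001fc000000fe000000fe0000007f00000050 10 9) 0 0 (step_sound _ 134 [rh251c0f0c87da70db, (rh2fe78cc5ca4405d8.shift 4 4)] (by decide +kernel))
noncomputable def rh9372c357ed29dbc7 : CRef := CRef.mk (Pat.mk 0x10000000530000005200000042000000000000000000000000 0xa0000000e0000000f8000000530000007e0000006f000000f8000000e800000080 10 8) 0 0 (step_sound _ 131 [(rh5419adcd928dba20.shift 0 4), rh56031d3be2fe7669] (by decide +kernel))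
noncomputable def rh4c1470585eeb62a8 : CRef := CRef.mk (Pat.mk 0x10000000530000005200000002000000000000000000000000 0x20000000e0000000e8000000e8000007ec000007fc0000075b000000de000000ef000000fc000000e800000080 10 11) 0 0 (step_sound _ 198 [(rh434c8c5524d05458.shift 2 3), (rh4ff759c4086950aa.shift 0 1), (rh6264b41fa8064b76.shift 3 1), (rh87da00773181b0d5.shift 0 1), (rh9b578cfc7d2906a4.shift 3 1), rhaf4918c203c0bc09, rhc19d30c3a9a04a01, (rhe72c52b2249ebb1c.shift 0 2)] (by decide +kernel))
noncomputable def rhf12bda883cc5b111 : CRef := CRef.mk (Pat.mk 0x4000000140000001600000000000000000000000000000000 0x2800000038000000380000003e000000160000001e0000003b0000003e0000003a00000020 10 6) 0 0 (step_sound _ 131 [(rh84cba109f4747302.shift 1 2), rh89c60b1ada5d1951, (rhd1474a84c69f0140.shift 0 1)] (by decide +kernel))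
noncomputable def rh064c68f904137edb : CRef := CRef.mk (Pat.mk 0x10000000130000001a00000002000000000000000000000000000000000000000000000000 0x110000001b0000001a0000000f0000000b0000000f00000007000000070000000700000005 10 5) 0 0 (step_sound _ 161 [(rh50fbb5868c909700.shift 0 5), rhd01362c5da025252] (by decide +kernel))
noncomputable def rh805915b4e9fd2b90 : CRef := CRef.mk (Pat.mk 0x18000000c000000000 0xe0000000e0000007f0000007e000000cf0000000c 10 8) 0 0 (step_sound _ 69 [rh6037b2a7b664cf96, (rhd6e447e81774439e.shift 3 1)] (by decide +kernel))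
noncomputable def rhb1ae3d315d3b5fca : CRef := CRef.mk (Pat.mk 0x20000001a000000000000000000000000000000000000000000000000000000000 0x50000000700000007e000000fe000000ff000001b000000070000000700000007000000070000000700000007000000050 10 9) 0 0 (step_sound _ 197 [(rh1139d6bf4d5e5990.shift 4 0), (rh20283759a95f39c9.shift 4 0), (rh7a3105e5f8daf74a.shift 4 4), (rh8dd0ce43d96e5fed.shift 0 5), (rheb40d71ad4cca9bd.shift 4 3), (rhf4d9888e5a4fa608.shift 4 3)] (by decide +kernel))
noncomputable def rh8dbc737b6b00a005 : CRef := CRef.mk (Pat.mk 0x10000000100000001000000000000000000000000000000000 0x180000001800000018000000380000007e0000007e0000003f00000028 10 7) 0 0 (step_sound _ 100 [rh17094cdda5667e1e, (rh6eff4158bb400f47.shift 3 1), (rh8ff3dde5b1c639e0.shift 3 1), (rhc4526fc8abf298b6.shift 3 1), (rhc9ac229b3c77cd55.shift 3 2)] (by decide +kernel))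
noncomputable def rhcce989334ed6a24d : CRef := CRef.mk (Pat.mk 0x8000000680000000800000000 0x140000001f0000003f0000003f0000006c0000001c00000014 10 7) 0 0 (step_sound _ 131 [(rh1741680720c097b4.shift 2 1), (rh20966da26a1c2ae8.shift 2 0), (rh771d065bdc85bf2d.shift 2 0), rhc8f539a77ddbcae9] (by decide +kernel))
noncomputable def rhbb092c1341d9d4ee : CRef := CRef.mk (Pat.mk 0x10000000100000001000000000000000000000000000000000 0x20000000300000003800000018000000380000007e0000007e0000003f00000028 10 7) 0 0 (step_sound _ 100 [rh17094cdda5667e1e, (rh20966da26a1c2ae8.shift 3 2), (rh6eff4158bb400f47.shift 3 1), (rhced6d86d2069808b.shift 4 2)] (by decide +kernel))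
noncomputable def rhcfd9c2706f07f9e1 : CRef := CRef.mk (Pat.mk 0x10000000530000005a00000040000000000000000000000000 0xa0000000e0000000f9000000530000007b0000006f000000ff000000ef00000085 10 8) 0 0 (step_sound _ 97 [rh01483ff9cba2f6ac, rh0a6888916bcef86b, rh56031d3be2fe7669, rhd1779d7de7f8215b] (by decide +kernel))
noncomputable def rh9d72c88d90e399a3 : CRef := CRef.mk (Pat.mk 0x100000011000000130000001a0000000000000000000000000 0x2f000000fe000001de000001b4000001be00000098000000f8000000b0 10 9) 0 0 (step_sound _ 100 [(rh7743a1de053d9a28.shift 3 0), (rh900a894640be090c.shift 1 2), (rh9044579a921e2f6a.shift 0 2), (rhc4526fc8abf298b6.shift 3 1)] (by decide +kernel))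
noncomputable def rh0fcd8707215cdd65 : CRef := CRef.mk (Pat.mk 0x10000000500000005800000002000000000000000000000000 0x20000000e0000000e8000000e8000007ec000007fc00000758000000d8000000ef000000fc000000e800000080 10 11) 0 0 (step_sound _ 198 [(rh24d7a0c8a456afd9.shift 3 2), (rh434c8c5524d05458.shift 2 3), (rh4de917f2331580f9.shift 0 2), (rh5ab2b369f8ed4068.shift 3 0), (rh6264b41fa8064b76.shift 3 1), (rh9b578cfc7d2906a4.shift 3 1), (rhc02d852f5797995b.shift 2 1), rhc97d122e381eb1e2] (by decide +kernel))
noncomputable def rh612fc7ba20e3435a : CRef := CRef.mk (Pat.mk 0x1000000018000001000000003000000120 0x280000003c0000003e000000ff000000ff000000fe000001ce00000038000001e0 10 9) 0 0 (step_sound _ 7 [(rh5419adcd928dba20.shift 4 0), (rh6f0a164fd07ed42f.shift 0 1)] (by decide +kernel))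
noncomputable def rh8cd7489d546681e3 : CRef := CRef.mk (Pat.mk 0x2000000030000002000000007000000240 0x2800000028000001ef000001fe0000039f00000074000003d0 10 10) 0 0 (step_sound _ 99 [(rh6eea909b0c1bec7b.shift 2 0), rh8616cf226e3de709, rh8c7b14d7723dacc4, (rha4e887c2a2a0f60b.shift 0 2), (rhd87c5e15275c3d7f.shift 2 0)] (by decide +kernel))
noncomputable def rhe26288d3ca1f5593 : CRef := CRef.mk (Pat.mk 0x2000000200000000600000024000000000 0x7e000001fe000003bf0000007c000003fc0000001c 10 10) 0 0 (step_sound _ 101 [(rh2145e1d24b96a57e.shift 5 1), rh5fc0f045c856198c] (by decide +kernel))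
noncomputable def rh9a5f10fe31ba67ef : CRef := CRef.mk (Pat.mk 0x280000020000000068000000c000000000000000000000000000000000 0x140000001c0000001c000001cf000001fc0000039f0000006f000000fc000001dc0000001c0000001c00000014 10 10) 0 0 (step_sound _ 195 [(rh36dad60d83bd79ff.shift 2 0), (rh4291f80c62395165.shift 0 4), (rh50f5746c855e5dd3.shift 0 1), (rh674ae8d1927570ae.shift 1 3), (rha8736d66892c8c62.shift 2 1), (rhac4faa7dad03c348.shift 1 1), (rhc7722668aa2d0f98.shift 2 1), (rhfbbabc305a51a822.shift 2 3)] (by decide +kernel))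
noncomputable def rh6d4e4c3840669ae3 : CRef := CRef.mk (Pat.mk 0x5000000400000000d000000180000000000000000000000000 0x2800000038000000380000003f000003be000003f700000738000000de000001f8000003b80000003800000038 10 11) 0 0 (step_sound _ 164 [(rh1bd8c05544934544.shift 3 2), (rh3b0356a21c767370.shift 3 3), (rh50f5746c855e5dd3.shift 1 0), (rh77fd67cf7d418f10.shift 3 0), (rha42f102edfb2d060.shift 0 3), (rhc8fe1e77c2dd44a1.shift 3 1), (rhefe6e5e7209ee476.shift 3 2)] (by decide +kernel))
noncomputable def rh207b61bdf96fe804 : CRef := CRef.mk (Pat.mk 0x280000020000000070000000c0000000000000000000000000 0x1ff000001fe0000039000000070000000fc000001dc000000f8000000f8 10 10) 0 0 (step_sound _ 100 [(rhd3758b743300477a.shift 0 3), (rhdd277f1d3be75ee5.shift 2 0)] (by decide +kernel))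
noncomputable def rhd1788fea4fe75689 : CRef := CRef.mk (Pat.mk 0x2000000000000001a000000100000000000000000000000000 0x500000007e000000fe0000007f00000070000001b0000001f0000000700000007000000050 10 9) 0 0 (step_sound _ 165 [(rh3b6da4ffa73d5ee4.shift 4 1), (rh84704b884b5d4bbc.shift 0 3), (rh92730112edfa1a7d.shift 4 2), (rhb1691dc24319721b.shift 4 0), (rhc8fe1e77c2dd44a1.shift 4 1)] (by decide +kernel))
noncomputable def rha0d973b9f92da4ec : CRef := CRef.mk (Pat.mk 0x14000000000000003000000060000000000000000000000000 0x20000000e0000000e0000003e00000037000000060000003e0000007e000000ee0000000e0000000a 10 8) 0 0 (step_sound _ 130 [(rhab22b5b56e7b3243.shift 2 3), rhdd94c6fbbc655c99] (by decide +kernel))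
noncomputable def rha124d905d8d1625e : CRef := CRef.mk (Pat.mk 0x28000002000000000000000000 0xa0000001e0000001e000001ff000001fe0000039f0000000c0000000c 10 10) 0 0 (step_sound _ 100 [(rh16f04c9d7fe4feb3.shift 1 2), (rh1fa77d469e93fa64.shift 1 2), (rh33f26072e0c5c9bf.shift 1 2), (rh43547bf3236f664a.shift 1 2), rh4a966d1376555245, (rhba0466855112442a.shift 0 1), (rhfd20bf8e1547d7b2.shift 2 0)] (by decide +kernel))
noncomputable def rh41220747ddf1f4e2 : CRef := CRef.mk (Pat.mk 0xe000000800000000800000000 0x400000007000000070000000f0000007f0000007e000000e70000000c0000000c 10 8) 0 0 (step_sound _ 100 [(rh0f1f75917d11acd2.shift 1 2), (rh4189d026c588653f.shift 0 2), (rh8696cb3ef01233ff.shift 1 0), (rhb0f4e20aaf0af4c9.shift 0 1)] (by decide +kernel))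
noncomputable def rh513ff84736ede446 : CRef := CRef.mk (Pat.mk 0x5000000400000000c0000001800000000000000000 0x6000000060000003ee000003fe0000073f000000f0000001fc000003b800000028 10 11) 0 0 (step_sound _ 165 [(rh0840c6cc2eab6d70.shift 1 0), (rh3c929a276fab5616.shift 0 2), (rh5463fb2f987f55b9.shift 1 4), (rh9f52acd5c7c25880.shift 2 1), (rhe33f29982466edaf.shift 1 2), (rhf25fc1647ac5a3be.shift 1 2)] (by decide +kernel))
noncomputable def rh5419bc9b2708b087 : CRef := CRef.mk (Pat.mk 0x200000020000000070000000e000000000 0x1de000001fe000003bf00000070000000fc0000001c 10 10) 0 0 (step_sound _ 36 [(rh02c8900a4bb2aee3.shift 1 0), (rh981be6707e4d9088.shift 3 0), rhb85412c3674fda72, (rhcc2be1f880c5ea3e.shift 2 0)] (by decide +kernel))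
noncomputable def rh4f944cb3974d01ff : CRef := CRef.mk (Pat.mk 0x200000002000000060000000000000000000000000000000000000000 0x5000000070000000700000006000000070000000700000007000000060000000300000007000000070000000700000005 10 3) 0 0 (step_sound _ 129 [(rh373b7625e672cfd8.shift 0 3), (rh632f603f79ac3553.shift 0 4), rh667bb06ee5773080, (rh9e174856810c5f95.shift 0 1)] (by decide +kernel))
noncomputable def rh2aab05ef75a2ecec : CRef := CRef.mk (Pat.mk 0x100000001000000070000000c000000000000000000000000000000000 0xe8000000fc0000003f00000070000000f0000001b8000000b8000000b800000028 10 9) 0 0 (step_sound _ 132 [(rh49759b6975f15643.shift 3 1), (rh4994faa1b93dabed.shift 3 0), (rh7e3e36bcf939d2ae.shift 3 2), (rh84a994e387d68e2f.shift 3 1), (rhfa3776b8b12972d6.shift 0 1)] (by decide +kernel))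
noncomputable def rh9bf2bff6e5952f41 : CRef := CRef.mk (Pat.mk 0x800000000000000300000006000000000000000000000000000000000 0x140000001c0000001c000000180000007c0000001f0000003c0000007f0000001c0000001c0000001c00000014 10 7) 0 0 (step_sound _ 163 [(rhb739f4f82bb681b4.shift 2 4), rhbfa40473e9914112] (by decide +kernel))
noncomputable def rh3f1cf80fae075308 : CRef := CRef.mk (Pat.mk 0x300000020000000060000000c000000000 0x80000000c000001ef000001fe000003af0000007c000000fc0000001c 10 10) 0 0 (step_sound _ 67 [rh2d55b6f5f9909d1b, (rhab22b5b56e7b3243.shift 3 1)] (by decide +kernel))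
noncomputable def rh32ee455dbf038758 : CRef := CRef.mk (Pat.mk 0x18000001000000003000000060000000000000000000000000 0x2000000ef000000fe000001d70000003e0000007e0000001e0000000800000008 10 9) 0 0 (step_sound _ 130 [rh5d29b8698bc5603a, (rhab22b5b56e7b3243.shift 2 3)] (by decide +kernel))
noncomputable def rhce6db692d8ff3ea9 : CRef := CRef.mk (Pat.mk 0x6000000400000000c00000018000000000 0x80000003c0000003c000003ff000003fe0000071f000000f80000019800000008 10 11) 0 0 (step_sound _ 68 [rh40a62fb43984b0d6, (rhab22b5b56e7b3243.shift 4 1)] (by decide +kernel))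
noncomputable def rha0b43024f8325ddc : CRef := CRef.mk (Pat.mk 0x8000000000000003800000000000000000000000000000000 0x140000001c0000001c0000001c0000001c0000000c0000001c000000380000001f0000001c0000001c00000014 10 6) 0 0 (step_sound _ 163 [(rh1dad4622b44b500b.shift 2 0), rh54fb0311328a422b, (rh697682f290203ad5.shift 2 3), (rh70e33bfdf511e144.shift 3 1)] (by decide +kernel))
noncomputable def rhb08ecb800557cf42 : CRef := CRef.mk (Pat.mk 0x1000000010000000700000000000000000000000000000000000000000 0x2f000000fe0000003e000000740000001e00000038000000380000003800000028 10 8) 0 0 (step_sound _ 132 [(rh170ec49f9f5a07f5.shift 0 3), (rh68869c06f0be1da0.shift 1 1), (rhc4526fc8abf298b6.shift 3 2), (rhcba2557ba2a81cae.shift 3 0), (rhd716e2ab31203e19.shift 1 3)] (by decide +kernel))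
noncomputable def rhc6fb4954afe41a7a : CRef := CRef.mk (Pat.mk 0x20000000300000020000000200 0x380000003c000003ff000001fe000001ff0000039c00000210 10 10) 0 0 (step_sound _ 102 [(rh0bb882ba86b2372d.shift 2 2), (rh1c470a944acb319b.shift 2 0), (rh574fdbf07bdd18b9.shift 2 2), (rhcdad6ad63f3d333d.shift 2 1), rhf38c8f4ab95bfb18] (by decide +kernel))
noncomputable def rh718de98ad7ead14f : CRef := CRef.mk (Pat.mk 0x30000002000000002000000000 0x100000001c0000001e0000003e000003ff000001fe0000039f0000003400000030 10 10) 0 0 (step_sound _ 102 [(rh3e4afc855cf09eb7.shift 1 2), (rh52f62baa2bd577f6.shift 3 0), (rh64ba6e7e541da84c.shift 0 1), (rh8696cb3ef01233ff.shift 3 0), (rh981e53b33f264963.shift 2 2), (rhc3ddb7a8f33c453a.shift 2 2)] (by decide +kernel))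
noncomputable def rh9975f8136031744b : CRef := CRef.mk (Pat.mk 0x6000000400000000c000000180000000000000000000000000 0x3000000030000003bf000003fe0000077f000000e0000001f8000000780000004000000040 10 11) 0 0 (step_sound _ 165 [(rh3655b017e048a835.shift 5 0), (rh47c5f47df814b7f9.shift 0 2), (rh622246f824e31842.shift 2 2), (rhacfdbe2d70239ed4.shift 0 3), (rhb8f9fa9db0507437.shift 2 2), (rhd9b623ab05c3e9e7.shift 0 1)] (by decide +kernel))
noncomputable def rh01f9765f4ae61421 : CRef := CRef.mk (Pat.mk 0x6000000400000000c000000000 0x80000003800000038000003bf000003ff0000077f000000d000000050 10 11) 0 0 (step_sound _ 70 [(rh6f6f1e21e018fde9.shift 1 0), rh7afde92a36ebdf7f, (rha0a71f416b3c80b0.shift 2 0), (rhf9a6286f1d5377a2.shift 5 0)] (by decide +kernel))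
noncomputable def rh2b1c5dde715fb1bb : CRef := CRef.mk (Pat.mk 0x300000020000000000 0x100000001c0000001e0000003e000001ff000001fe0000039f0000000c 10 10) 0 0 (step_sound _ 67 [rh015be9f830d3e6a6, (rh16f04c9d7fe4feb3.shift 1 1), (rh20238e41a74040ab.shift 0 1), (rh30f88917ca897635.shift 1 1), (rh7823967849a352dd.shift 2 1), (rhc967000a799847f7.shift 1 1)] (by decide +kernel))
noncomputable def rha645ef21700d76bc : CRef := CRef.mk (Pat.mk 0x30000002000000006000000040 0x100000001c0000001e0000003e000001ff000001fe000003bf0000006400000040 10 10) 0 0 (step_sound _ 102 [(rh64ba6e7e541da84c.shift 0 1), (rh981e53b33f264963.shift 2 2), (rhbbcb91e4e69473d1.shift 3 0), (rhc3ddb7a8f33c453a.shift 2 2)] (by decide +kernel))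
noncomputable def rh14ae4ace2944d8da : CRef := CRef.mk (Pat.mk 0x1000000008000000680000004000000000 0xc0000000c000000ee000000ff0000003f0000006f0000007c0000002c 10 8) 0 0 (step_sound _ 100 [(rh3a186a5175d49afe.shift 2 0), rhad9967df9efa1b91, (rhc55f41ccd8b45a01.shift 2 0), (rhd9342f5793789f9a.shift 2 0)] (by decide +kernel))
noncomputable def rhe5cc4c6a7a23adcc : CRef := CRef.mk (Pat.mk 0x100000000800000060000000c000000000000000000000000000000000 0xc0000000c000000ef000000ff0000003f00000078000000f000000030000000380000003800000028 10 8) 0 0 (step_sound _ 164 [rh668f8121f5786575, (rhb739f4f82bb681b4.shift 3 4)] (by decide +kernel))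
noncomputable def rh84a65f84abb47fd7 : CRef := CRef.mk (Pat.mk 0x4000000020000001a00000010000000000000000000000000000000000 0x40000003c0000003c000001be000001ff000000fe000001bf0000013800000038000000700000007000000050 10 9) 0 0 (step_sound _ 196 [(rh0e6ce4471099e5f6.shift 1 3), (rh139779e570dced32.shift 0 3), (rh2b5cae87044724f5.shift 1 0), (rh57ddaa285bda962e.shift 1 5), (rhe09d9c8007b25d47.shift 4 3)] (by decide +kernel))
noncomputable def rh3bd2199e0c2379d4 : CRef := CRef.mk (Pat.mk 0x4000000020000001a0000001000000000000000000 0x40000003c0000003c000001be000001ff000000fe000001bf000001780000007800000050 10 9) 0 0 (step_sound _ 132 [(rh0e6ce4471099e5f6.shift 1 1), (rh139779e570dced32.shift 0 1), (rh57ddaa285bda962e.shift 1 3), (rh7efb8452582d0b28.shift 1 0), (rhe09d9c8007b25d47.shift 4 1)] (by decide +kernel))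
noncomputable def rhec973f06c1dbc480 : CRef := CRef.mk (Pat.mk 0x40000000200000018000000300000000000000000000000000000000000000000 0x1000000030000000f0000000e0000001f0000003f0000000f00000007000000070000000700000005 10 6) 0 0 (step_sound _ 193 [rh1816782a5f15bd4c, (rhab22b5b56e7b3243.shift 1 5)] (by decide +kernel))
noncomputable def rhe8d69a61828228e5 : CRef := CRef.mk (Pat.mk 0x2000000010000000d000000180000000000000000000000000 0x800000018000000780000005e000000df000001ff0000007f0000003c0000002c 10 9) 0 0 (step_sound _ 100 [(rh3361ff6d52333ad4.shift 3 0), (rh841bfdd31e40da95.shift 3 0), (rh847662810e4e0cac.shift 3 0), (rh90b958828706c85d.shift 3 1), (rhe2f7c1de7fd100cf.shift 3 0), rhe4d29ea3095d0b88] (by decide +kernel))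
noncomputable def rhb38fac54101acf68 : CRef := CRef.mk (Pat.mk 0x4000000020000001a00000030000000000000000000000000 0x400000006000000070000000300000007000000070000001b0000003f0000000f0000000700000005 10 6) 0 0 (step_sound _ 97 [rh1725eba4bd36066a, (rh461be3c9208b29b4.shift 0 2), (rh5a5d3607c6105e7b.shift 0 1), rh841bfdd31e40da95, rhe2f7c1de7fd100cf] (by decide +kernel))
noncomputable def rh8a427499bb8e305f : CRef := CRef.mk (Pat.mk 0x80000010000000030000000600000000000000000 0x140000001c0000007e000000fe000001cf0000003c0000007e0000001c00000010 10 9) 0 0 (step_sound _ 99 [rh30226732175edb26, (rhb739f4f82bb681b4.shift 2 2)] (by decide +kernel))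
noncomputable def rh4a13297de5160b45 : CRef := CRef.mk (Pat.mk 0x800000000000000380000000000000000000000000000000000000000 0x140000001c0000001c0000001c0000000c0000001c0000001f000000380000001f0000001c0000001c0000001c00000014 10 6) 0 0 (step_sound _ 195 [rh155e15ebc05dcabe, (rh54fb0311328a422b.shift 0 1), (rh697682f290203ad5.shift 2 4), (rh70e33bfdf511e144.shift 3 2)] (by decide +kernel))
noncomputable def rhe586d2d758663a33 : CRef := CRef.mk (Pat.mk 0x1800000038000000000000000000000000 0x1c0000007e0000000f0000001e0000003e0000007c0000001c0000000c 10 7) 0 0 (step_sound _ 130 [rh719a6453141b1b61, (rhb739f4f82bb681b4.shift 1 3)] (by decide +kernel))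
noncomputable def rhdb02de0f4d26f910 : CRef := CRef.mk (Pat.mk 0x8800000098000000d8000000000000000000000000 0x40000008f000000df000000df0000007b0000005a00000048 10 8) 0 0 (step_sound _ 68 [rh38146517a2dfdba0, (rh7b1f1fb55310c477.shift 3 1)] (by decide +kernel))
noncomputable def rhddf64fc248fc4dc2 : CRef := CRef.mk (Pat.mk 0x1800000098000000000000000000000000 0x600000006000000060000001e000000ff0000007f0000000c0000000c 10 8) 0 0 (step_sound _ 101 [(rh2fe78cc5ca4405d8.shift 3 3), rh6df361b1a908bc3e] (by decide +kernel))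
noncomputable def rhf0146f287a4e891e : CRef := CRef.mk (Pat.mk 0x1800000018000000000000000000000000 0x1c0000003c0000000f0000001c0000001e0000007f0000001f0000000c 10 7) 0 0 (step_sound _ 163 [(rh3e595262c1b737ad.shift 3 2), (rh57c2f33d7db628c6.shift 0 2), rhafecf3165f6f3745] (by decide +kernel))
noncomputable def rhd18db02feb94dc52 : CRef := CRef.mk (Pat.mk 0x1800000018000000000000000000000000 0xc0000000c0000000c0000001c0000001f0000007f0000001f0000000c 10 7) 0 0 (step_sound _ 163 [(rh05607e02b2ff73f6.shift 0 2), (rh3e595262c1b737ad.shift 3 2), rhafecf3165f6f3745] (by decide +kernel))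
noncomputable def rh5b3d05cb1be31281 : CRef := CRef.mk (Pat.mk 0x1800000098000000100000000000000000 0xe0000000f0000001e000000fe0000007c0000006c00000020 10 8) 0 0 (step_sound _ 101 [rh2d6f3dc42ca048c9, (rh2fe78cc5ca4405d8.shift 3 3)] (by decide +kernel))
noncomputable def rhdbee3bef1c4e3ea9 : CRef := CRef.mk (Pat.mk 0x1800000098000000100000000000000000 0xc0000000f0000001f000000df0000007f000000ef00000008 10 8) 0 0 (step_sound _ 163 [(rh2145e1d24b96a57e.shift 3 2), rh296d9894f5ab38d6] (by decide +kernel))
noncomputable def rhf1ad2062da72bdd9 : CRef := CRef.mk (Pat.mk 0x8000000098000000d8000000000000000000000000 0x1c0000007c0000008f000000df000000df000000780000005c0000004c 10 8) 0 0 (step_sound _ 163 [(rh3e595262c1b737ad.shift 3 2), (rh57c2f33d7db628c6.shift 0 2), (rh9607ace265ad3036.shift 1 2), rha23119798702f62f] (by decide +kernel))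
noncomputable def rh3887d3ade0122d59 : CRef := CRef.mk (Pat.mk 0x88000000180000001800000000 0x1c0000007e000000ef0000001f0000001f00000004 10 8) 0 0 (step_sound _ 131 [(rh2145e1d24b96a57e.shift 3 1), rh227452084ca0c62d] (by decide +kernel))
noncomputable def rhced47df7e052ada4 : CRef := CRef.mk (Pat.mk 0x1800000098000000000000000000000000 0x80000000c0000000c0000001f000000ff0000007c0000007c0000002c 10 8) 0 0 (step_sound _ 163 [(rh3e595262c1b737ad.shift 3 2), (rh6bdbc1cbcf6cfe17.shift 1 0), (rh9d1ac8f1fefd998b.shift 0 2)] (by decide +kernel))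
noncomputable def rh2c9421166c149f25 : CRef := CRef.mk (Pat.mk 0x180000003800000000000000000000000000000000 0xc0000000c0000001e0000003f0000007f000000780000003800000028 10 7) 0 0 (step_sound _ 162 [rh2932fd705e944654, (rhb739f4f82bb681b4.shift 1 4)] (by decide +kernel))
noncomputable def rh89eaee7c446d67a4 : CRef := CRef.mk (Pat.mk 0x800000009800000090000000100000000000000000 0xc0000008c000000dc000000ff0000007f0000006f0000006c 10 8) 0 0 (step_sound _ 99 [rh552181e1518816ab, rh77737e3cf784e2f5, rh8ccb459d17dc2974, rhb647b3f6aec79f61, (rhfecf5583f0d8e00d.shift 2 0), rhffb04a672f106342] (by decide +kernel))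
noncomputable def rhbe09cb6432a99104 : CRef := CRef.mk (Pat.mk 0x1800000010000000180000000000000000 0xc0000000c0000000f0000001f0000001b0000007f0000000f0000000c 10 7) 0 0 (step_sound _ 99 [(rh0f993b23aacd2dfd.shift 0 1), (rh9954101f0efffb9e.shift 2 0), rha6f802784adb25e2, (rhb6428504fe0baec6.shift 2 0), rhbf6eda89728e3bda] (by decide +kernel))
noncomputable def rh55ca989805c7ec60 : CRef := CRef.mk (Pat.mk 0x3800000030000000200000000000000000 0x1c0000003c0000001f00000038000000fe0000003e0000001c0000000c 10 8) 0 0 (step_sound _ 103 [rh06a3890a042eac4d, (rh2fe78cc5ca4405d8.shift 3 3)] (by decide +kernel))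
noncomputable def rh65f11cc7f94d1d6e : CRef := CRef.mk (Pat.mk 0x80000001800000018000000000000000000000000 0x60000000f0000001f0000001f0000003f0000000f0000000c 10 6) 0 0 (step_sound _ 67 [(rh46530d756bdf8511.shift 2 0), (rh92d5c54060cf05da.shift 0 1), (rhdf997f77704b6375.shift 2 0)] (by decide +kernel))
noncomputable def rha666e25fa22d2776 : CRef := CRef.mk (Pat.mk 0x100000003000000030000000000000000000000000 0xa0000000e0000000e0000000f0000001f0000003e0000007f000000660000002600000002 10 7) 0 0 (step_sound _ 69 [rh7344eff2072b3908, (rh7b1f1fb55310c477.shift 4 1)] (by decide +kernel))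
noncomputable def rh51ffab36a542e5c4 : CRef := CRef.mk (Pat.mk 0x80000001800000018000000000000000000000000 0x40000000f0000001f0000001f0000001f0000001f0000001c 10 5) 0 0 (step_sound _ 67 [(rh023a5485d0bafa14.shift 0 1), (rh4053c12da95c0aa0.shift 3 0), rhcbe3dfa1e329b282, (rhdf997f77704b6375.shift 2 0)] (by decide +kernel))
noncomputable def rhffc9385e84db0aca : CRef := CRef.mk (Pat.mk 0x30000001200000000000000000000000000000000000000000 0x100000001c0000001f0000003c000001f8000000fc000001ff0000007c0000007000000040 10 9) 0 0 (step_sound _ 166 [(rh2fe78cc5ca4405d8.shift 4 5), rha7aeec1c5101d6ff] (by decide +kernel))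
noncomputable def rhb3e1ce33d5351fde : CRef := CRef.mk (Pat.mk 0x3000000060000000000000000000000000000000000000000000000000 0x1000000010000000180000003c0000007e0000007e000001ff0000007c000000740000007000000050 10 9) 0 0 (step_sound _ 165 [(rh01483ff9cba2f6ac.shift 4 2), (rh32a427049fd021cb.shift 4 1), (rh497cab162966f1f5.shift 0 2), (rh7dfa5d39e0ebe298.shift 1 0), (rhd1779d7de7f8215b.shift 4 2), (rhf98fa66b1765731a.shift 4 1)] (by decide +kernel))
noncomputable def rhaae70f72dec4c0c8 : CRef := CRef.mk (Pat.mk 0x300000012000000020000000000000000000000000 0x30000001f8000000ff0000007e0000007f00000050 10 9) 0 0 (step_sound _ 134 [(rh2fe78cc5ca4405d8.shift 4 4), rh91dbd11959ec5074] (by decide +kernel))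
noncomputable def rh887e9d0f6f08a8ad : CRef := CRef.mk (Pat.mk 0x10000000130000001200000002000000000000000000000000000000000 0x100000001b0000001f0000000ef000000fe000000ff0000007000000050 10 9) 0 0 (step_sound _ 167 [(rh5419adcd928dba20.shift 4 5), rhfc2b53509ce5fc98] (by decide +kernel))
noncomputable def rh6ed61943dc999346 : CRef := CRef.mk (Pat.mk 0x1c00000038000000000000000000000000 0x1e0000007e0000000f0000001c0000003f0000007c0000002400000020 10 7) 0 0 (step_sound _ 98 [rh12799aacb43635cd, (rh2faa4fd6e0870582.shift 0 1), (rhe153806bfe3acc65.shift 0 2)] (by decide +kernel))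
noncomputable def rh73a1aa973486864d : CRef := CRef.mk (Pat.mk 0x1000000003000000070000000000000000000000000 0xa0000003e000000ff000001de0000003e0000007e000000f60000000600000002 10 9) 0 0 (step_sound _ 130 [rh57f6d5b69d641baa, (rhab22b5b56e7b3243.shift 2 3)] (by decide +kernel))
noncomputable def rhcdfeb5224eacff6f : CRef := CRef.mk (Pat.mk 0x38000000000000000800000000000000000000000000000000 0x140000001c0000001c0000001c0000001f0000003800000018000000180000001c0000001c0000001c00000014 10 6) 0 0 (step_sound _ 163 [(rh1b9022be4f7af407.shift 2 1), (rh215e11e099257d75.shift 3 3), (rh40f89b50b8dbc3d9.shift 2 0), (rhff89e49644faa596.shift 0 3)] (by decide +kernel))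
noncomputable def rh4a27b7771027f174 : CRef := CRef.mk (Pat.mk 0x38000000000000000800000000000000000000000000000000 0x140000001c0000001c0000001c0000001e000000380000001f0000003c0000001c0000001c0000001c00000014 10 6) 0 0 (step_sound _ 163 [(rh1b9022be4f7af407.shift 2 1), (rh215e11e099257d75.shift 3 3), (rh2315d2171edc4a9b.shift 0 3), (rh40f89b50b8dbc3d9.shift 2 0)] (by decide +kernel))
noncomputable def rhc6154a72398b29ec : CRef := CRef.mk (Pat.mk 0xc000000480000000a00000000000000000000000000000000 0xc0000007f0000001f00000033000000170000000700000005 10 7) 0 0 (step_sound _ 164 [(rh2fe78cc5ca4405d8.shift 2 5), rh8ade55f3fbba0f16] (by decide +kernel))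
noncomputable def rhcb422f98e6287499 : CRef := CRef.mk (Pat.mk 0x8000001000000013000000130000000000000000000000000 0x1800000118000001b8000001be000000f8000001fe000001ff 10 9) 0 0 (step_sound _ 164 [(rh000f75110575adc4.shift 3 0), (rh55a1f6c57a317ce6.shift 4 1), rhcfad47845f3d27a7] (by decide +kernel))
noncomputable def rh80d6d88d2c89867a : CRef := CRef.mk (Pat.mk 0x8000001000000013000000130000000000000000000000000 0x180000001800000110000001b8000001be000000f8000001fe000001ff 10 9) 0 0 (step_sound _ 164 [(rh55a1f6c57a317ce6.shift 4 1), rhcfad47845f3d27a7, (rhf627eb01e9e8db9a.shift 3 3)] (by decide +kernel))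
noncomputable def rh67613b5455c75571 : CRef := CRef.mk (Pat.mk 0x1000000200000000600000006000000000 0x140000001c0000001c000003ff000001fe000003bf0000007c0000007c00000040 10 10) 0 0 (step_sound _ 133 [(rh07f2ca48cf330ae8.shift 4 1), (rhad0261652e4a9c11.shift 0 1), (rhc5351dabd90740aa.shift 4 0), (rhda6cc5da102e1723.shift 5 0)] (by decide +kernel))
noncomputable def rh6e3123f5e325b3d4 : CRef := CRef.mk (Pat.mk 0x80000001800000098000000000000000000000000 0x40000000f0000001f000000df0000007e000000ff0000000c 10 8) 0 0 (step_sound _ 68 [(rh7b1f1fb55310c477.shift 3 1), rhd99684bddccfcc5b] (by decide +kernel))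
noncomputable def rhc25cfd4084c184c3 : CRef := CRef.mk (Pat.mk 0x3000000034000000000000000000000000 0xa0000003e000000ff0000001e0000003e000000360000003e0000003600000032 10 8) 0 0 (step_sound _ 164 [rh37fe7fdf24a01b25, (rh55a1f6c57a317ce6.shift 4 1), (rh9607ace265ad3036.shift 2 2)] (by decide +kernel))
noncomputable def rhf412f26a673a1e39 : CRef := CRef.mk (Pat.mk 0x180000001a0000000000000000 0x1e0000003f0000000f0000001f0000001e0000003f00000012 10 6) 0 0 (step_sound _ 131 [rh0f7755f3a7b4c084, (rh3e595262c1b737ad.shift 3 1), (rh55a1f6c57a317ce6.shift 3 0), (rh57c2f33d7db628c6.shift 0 1)] (by decide +kernel))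
noncomputable def rh260a8f1280168aaa : CRef := CRef.mk (Pat.mk 0x1800000098000000000000000000000000 0x8000000080000000800000018000000df0000007f000000ff0000007c 10 8) 0 0 (step_sound _ 67 [(rh362104532586ff12.shift 1 0), (rh4f4c4c1027c971e0.shift 2 0), (rh6037292288450d9d.shift 0 1), rh8a81244b44d96c38, (rhd694cd1ab59225e7.shift 1 0), rhf59a6115c1be017f] (by decide +kernel))
noncomputable def rh47b31ac0182b6322 : CRef := CRef.mk (Pat.mk 0x180000001a00000010000000000000000000000000 0x4000000040000000c0000000f0000001f0000001e0000003b000000070000000700000005 10 6) 0 0 (step_sound _ 130 [rh92ff1b21d37fdfca, (rhe25b0a99195a5d59.shift 1 3)] (by decide +kernel))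
noncomputable def rh9d05b35de45e3f37 : CRef := CRef.mk (Pat.mk 0x3000000030000000000000000000000000 0x800000038000000fc0000001e0000003e0000003e0000007f0000002c00000008 10 8) 0 0 (step_sound _ 164 [rh0f91612f33ed8d38, (rh3e595262c1b737ad.shift 4 2), (rh55a1f6c57a317ce6.shift 4 1), (rh9607ace265ad3036.shift 2 2)] (by decide +kernel))
noncomputable def rhf5ef507c264cf1ec : CRef := CRef.mk (Pat.mk 0x1800000098000000000000000000000000 0x1c0000007c0000000e00000018000000df0000007f000000fc0000001c 10 8) 0 0 (step_sound _ 163 [(rh3e595262c1b737ad.shift 3 2), (rh9607ace265ad3036.shift 1 2), rhe140dbcb7e2278fc] (by decide +kernel))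
noncomputable def rhe5b345379eba8d20 : CRef := CRef.mk (Pat.mk 0x80000001800000018000000000000000000000000 0x40000000f0000001f0000001b0000001f0000001f00000018 10 5) 0 0 (step_sound _ 67 [(rh12e2832848112dba.shift 0 1), (rh4053c12da95c0aa0.shift 3 0), (rhdf997f77704b6375.shift 2 0)] (by decide +kernel))
noncomputable def rh6d5c144488a76d86 : CRef := CRef.mk (Pat.mk 0x180000001a00000000000000000000000000000000 0x5000000070000000f0000000b0000001f0000001e00000037000000380000003800000028 10 6) 0 0 (step_sound _ 100 [(rh56259dd1390eee46.shift 3 0), (rhed8e494255ecb68f.shift 0 3), (rhfc7c29d8e65d775f.shift 3 2)] (by decide +kernel))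
noncomputable def rh8b956398171780c3 : CRef := CRef.mk (Pat.mk 0x1000000003000000034000000000000000000000000 0xa000001fe000000ff000001de0000003e000000360000002e0000002e0000000a 10 9) 0 0 (step_sound _ 130 [(rh086f6046fa319626.shift 1 3), (rh732d6483cf7ecd78.shift 1 0), (rhb7f3ce0a7fff2021.shift 1 0), rhd32758c6adfbff79] (by decide +kernel))
noncomputable def rhc0f7e0d500300501 : CRef := CRef.mk (Pat.mk 0x180000001800000000000000000000000000000000 0x50000001f0000007f0000000f0000001f0000001f0000000f0000000f0000000f00000005 10 7) 0 0 (step_sound _ 130 [(rh520f39470412ec4c.shift 0 1), (rh5c7ef2f530f7e1bd.shift 0 1), rhaf86b24cc6ab6e2a, rhbff73d468f0c5061, (rhc8fc149925d4759b.shift 0 1), (rhd2a710af57663921.shift 0 3), (rhe2fc8567d7e4b793.shift 0 1)] (by decide +kernel))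
noncomputable def rhb6ec980e4db75945 : CRef := CRef.mk (Pat.mk 0x1c00000018000000080000000800000000 0x50000000700000007000000030000001f0000001f0000001f0000007800000010 10 7) 0 0 (step_sound _ 36 [(rh2d9f86b90a91e02d.shift 0 1), (rh55afc6a59410cf00.shift 3 0)] (by decide +kernel))
noncomputable def rh5eec8dd53909ee3a : CRef := CRef.mk (Pat.mk 0x18000000180000000800000018 0x50000000700000007000000070000001f0000001f0000000f0000007c 10 7) 0 0 (step_sound _ 98 [rh1881e4b2a53ddb49, (rh50fbb5868c909700.shift 2 0)] (by decide +kernel))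
noncomputable def rhda180998261e7d05 : CRef := CRef.mk (Pat.mk 0x1800000018000000080000000800000000 0x40000001f0000001f0000007b0000003f00000037 10 7) 0 0 (step_sound _ 36 [(rh55afc6a59410cf00.shift 3 0), rh86c6fd3c24e57415] (by decide +kernel))
noncomputable def rh585d3e68867fb9af : CRef := CRef.mk (Pat.mk 0x2200000022000000220000000000000006000000000000000000000000000000000 0x22000000330000003300000019f000003fe000003ff0000003c0000001c00000004 10 10) 0 0 (step_sound _ 132 [(rh51b28b2d01c673dd.shift 1 3), (rh6ee9f03ce922b713.shift 3 3), (rhb2418f599583a5f5.shift 1 3), (rhb987434dca143016.shift 3 3), (rhc59618609f69dd24.shift 1 3), (rhe88f6e1835de12b1.shift 1 3), rhfdf5140d8f11417f] (by decide +kernel))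
noncomputable def rhb4ade5676c67b813 : CRef := CRef.mk (Pat.mk 0x800000018000000180000000800000000 0x40000000f0000001f0000001f0000003f00000017 10 6) 0 0 (step_sound _ 36 [rh6959a3d1a0a56e84, (rh7b1f1fb55310c477.shift 3 0)] (by decide +kernel))
noncomputable def rhc3f3a0da4e5d645b : CRef := CRef.mk (Pat.mk 0x100000020000000060000000e000000000 0x4000001ff000001fe000003af0000007c000000fc00000014 10 10) 0 0 (step_sound _ 67 [rha959e72add8e3393, (rhab22b5b56e7b3243.shift 3 1)] (by decide +kernel))
noncomputable def rh0beec28bf9f27fe1 : CRef := CRef.mk (Pat.mk 0x1800000098000000000000000000000000 0x800000008000000080000001f000000ff0000007c0000007c0000003c 10 8) 0 0 (step_sound _ 101 [rh08fb8fa3ecebf6e0, (rh2fe78cc5ca4405d8.shift 3 3)] (by decide +kernel))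
noncomputable def rh3fe4de0288901bd1 : CRef := CRef.mk (Pat.mk 0x1800000038000000000000000000000000 0xe0000000e0000000f0000001f0000003f000000740000003e0000003e 10 7) 0 0 (step_sound _ 98 [rhad28b7bcdbfaeafa, (rhcda410b351c20b9b.shift 0 3), (rhe153806bfe3acc65.shift 0 2)] (by decide +kernel))
noncomputable def rh8d909b2850c34bdb : CRef := CRef.mk (Pat.mk 0x1800000038000000000000000000000000 0x40000001f0000003f0000007c0000003e000000ff 10 8) 0 0 (step_sound _ 98 [(rhbe5fc5902345a0b9.shift 0 3), (rhe153806bfe3acc65.shift 0 2), rhf97a045aa546dbf6] (by decide +kernel))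
noncomputable def rh5c1c29f31372737a : CRef := CRef.mk (Pat.mk 0x420000005200000053000000100000000000000000 0x80000000e8000000f80000006f0000007e00000053000000f8000000e0000000a0 10 8) 0 0 (step_sound _ 131 [rh7a40e319671996a6, (rhb2a0b9ccfb5cecd5.shift 0 3)] (by decide +kernel))
noncomputable def rh6ae89e41a044f30e : CRef := CRef.mk (Pat.mk 0x20000005200000053000000100000000000000000000000000000000000000000 0x80000000e8000000fc000000ef000000de0000075b000007fc000007ec000000e8000000e8000000e000000020 10 11) 0 0 (step_sound _ 166 [(rh0e6995540b929101.shift 0 3), rh268c5e317205f685, (rh4c461be7b7b39b2d.shift 3 4), (rh6610980f531298df.shift 3 3), (rh666baf91b3445600.shift 0 2), (rhb071d60fc8bb1e89.shift 2 2), (rheb87f0eec40a2a63.shift 0 3), (rhecc6e65e59638623.shift 0 3)] (by decide +kernel))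
noncomputable def rh4ef25dfc35592ecd : CRef := CRef.mk (Pat.mk 0x160000001400000004000000000000000000000000 0x200000003a0000003e0000003b0000001e000000160000003e000000380000003800000028 10 6) 0 0 (step_sound _ 163 [rh0da2ebddb60f03f4, (rh768a472a1ebe455c.shift 0 3), (rh8ff7de88444805b5.shift 1 2)] (by decide +kernel))
noncomputable def rhd7a7f894d5349121 : CRef := CRef.mk (Pat.mk 0x20000001a0000001300000010 0x50000000700000007000000070000000f0000000b0000000f0000001a0000001b00000011 10 5) 0 0 (step_sound _ 129 [rh932754581e0f4330, rhbaec7a9758354cd3] (by decide +kernel))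
noncomputable def rh951646e778c28188 : CRef := CRef.mk (Pat.mk 0xc000000018000000000000000000000000 0xc000000cf0000007e0000007f0000000e0000000e 10 8) 0 0 (step_sound _ 101 [(rh3fc040e777f1679e.shift 3 3), rh6f115afe44033480] (by decide +kernel))
noncomputable def rh6adcf94510243ab5 : CRef := CRef.mk (Pat.mk 0x1a00000002000000000000000000000000000000000 0x50000000700000007000000070000000700000007000000070000001b0000000ff000000fe0000007e0000007000000050 10 9) 0 0 (step_sound _ 197 [(rh078710ab19e54544.shift 4 1), (rh1dd12dbc2b4733ab.shift 4 2), (rh7c5ac3871bb5b078.shift 4 3), (rhc5e22b757115ea30.shift 4 3), rhc6d05dcf9b2f3bd6, (rhdee67538b8dccf39.shift 4 1)] (by decide +kernel))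
noncomputable def rh219c4c489d480265 : CRef := CRef.mk (Pat.mk 0x10000000100000001000000000 0x280000003f0000007e0000007e00000038000000180000001800000018 10 7) 0 0 (step_sound _ 132 [(rh00c644645561e9be.shift 3 0), (rh1741680720c097b4.shift 3 1), (rh20966da26a1c2ae8.shift 3 0), (rh6dd3c3785f8ac8d6.shift 0 1), (rh771d065bdc85bf2d.shift 3 0)] (by decide +kernel))
noncomputable def rh020e7f4030ce0854 : CRef := CRef.mk (Pat.mk 0x80000006800000008000000000000000000000000 0x140000001c0000006c0000003f0000003f0000001f00000014 10 7) 0 0 (step_sound _ 67 [(rh6eff4158bb400f47.shift 2 0), (rh8ff3dde5b1c639e0.shift 2 0), (rhc4526fc8abf298b6.shift 2 0), (rhfbbc7d690930cc0c.shift 0 1)] (by decide +kernel))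
noncomputable def rh5a8d2816e4d2b751 : CRef := CRef.mk (Pat.mk 0x1000000010000000100000000000000000 0x280000003f0000007e0000007e0000003800000018000000380000003000000020 10 7) 0 0 (step_sound _ 164 [(rh1741680720c097b4.shift 3 2), (rh6c59ce14113da07f.shift 4 0), (rh6dd3c3785f8ac8d6.shift 0 2), (rh8ff3dde5b1c639e0.shift 3 0)] (by decide +kernel))
noncomputable def rhe372a1dc59c4f701 : CRef := CRef.mk (Pat.mk 0x400000005a00000053000000100000000000000000 0x85000000ef000000ff0000006f0000007b00000053000000f9000000e0000000a0 10 8) 0 0 (step_sound _ 161 [(rh32431e66bbf434a4.shift 0 2), rh7a40e319671996a6, (rh7a7e08304268422e.shift 0 2), (rh976a48eb1c80a12f.shift 0 2)] (by decide +kernel))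
noncomputable def rhd9912f4c9e77498f : CRef := CRef.mk (Pat.mk 0x1a000000130000001100000001000000000 0xb0000000f800000098000001be000001b4000001de000000fe0000002f 10 9) 0 0 (step_sound _ 132 [(rh1ef2fb8c15e0974a.shift 3 1), (rh771d065bdc85bf2d.shift 3 0), rh9a4d8c053d2d5834, (rhf3d11b058448e968.shift 1 0)] (by decide +kernel))
noncomputable def rh9455f0c76bfc5a1e : CRef := CRef.mk (Pat.mk 0x20000005800000050000000100000000000000000000000000000000000000000 0x80000000e8000000fc000000ef000000d800000758000007fc000007ec000000e8000000e8000000e000000020 10 11) 0 0 (step_sound _ 166 [(rh189827e7e6f12117.shift 2 2), (rh24d54ffed2f04580.shift 3 2), (rh440524ee67b83256.shift 0 3), (rh4c461be7b7b39b2d.shift 3 4), rh6554ddd907c112f5, (rh6610980f531298df.shift 3 3), (rh6b1199a96e15d834.shift 3 3), (rhb071d60fc8bb1e89.shift 2 2)] (by decide +kernel))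
noncomputable def rhf641ab52ef7374c6 : CRef := CRef.mk (Pat.mk 0x1200000003000000100000000180000001000000000000000000000000000000000 0x1e000000038000001ce000000fe000000ff000000ff0000003e0000003c00000028 10 9) 0 0 (step_sound _ 263 [rh2878602d1663b8b2, (rhb2a0b9ccfb5cecd5.shift 4 7)] (by decide +kernel))
noncomputable def rh230fb582342574f1 : CRef := CRef.mk (Pat.mk 0x240000000700000020000000030000000200000000000000000 0x3d0000000740000039f000001fe000001ef0000002800000028 10 10) 0 0 (step_sound _ 99 [(rh3918eeb6c53434d8.shift 0 2), rh50061033fa196840, rh58d54f102ab270ae, (rhc04b850ee3af86a8.shift 2 2), (rhf2ac07775104a208.shift 2 0)] (by decide +kernel))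
noncomputable def rhb61b7af033e20bce : CRef := CRef.mk (Pat.mk 0x24000000060000002000000002000000000 0x1c000003fc0000007c000003bf000001fe0000007e 10 10) 0 0 (step_sound _ 69 [rh045081cd2214a308, (rh71222050f2c63a3a.shift 5 0)] (by decide +kernel))
noncomputable def rh405f879112ad096e : CRef := CRef.mk (Pat.mk 0xc000000068000002000000002800000000000000000000000000000000 0x140000001c0000001c000001dc000000fc0000006f0000039f000001fc000001cf0000001c0000001c00000014 10 10) 0 0 (step_sound _ 163 [(rh68c69a0849955020.shift 0 3), (rh74249c1e49477e8a.shift 1 3), (rh77b2662185882dd1.shift 2 2), (rh9ce555a7caaffaf7.shift 2 2), (rhc4fe7eb023ee3c03.shift 2 2), (rhcb2946326fc789ce.shift 1 3), rhce06afc75d167ddd, (rhd6c1d3ae6c7836d9.shift 2 3)] (by decide +kernel))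
noncomputable def rh9114e23d38999422 : CRef := CRef.mk (Pat.mk 0x180000000d000000400000000500000000000000000000000000000000000000000 0x3800000038000003b8000001f8000000de00000738000003f7000003be0000003f000000380000003800000028 10 11) 0 0 (step_sound _ 196 [(rh2e84606ae67e73ec.shift 3 3), rh4cca2c2774c7a65d, (rh68c69a0849955020.shift 1 4), (rh8b238d43cf1abc77.shift 3 4), (rhc36d181a5544240c.shift 3 3), (rhdbc90423906501a3.shift 3 2), (rhf7b6f5f5273b3e3a.shift 3 2)] (by decide +kernel))
noncomputable def rh8d73cdbede91099e : CRef := CRef.mk (Pat.mk 0xc000000070000002000000002800000000 0xf8000000f8000001dc000000fc0000007000000390000001fe000001ff 10 10) 0 0 (step_sound _ 132 [(rh608da7126fe9334c.shift 2 3), rh85d61f8c6275c6a3] (by decide +kernel))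
noncomputable def rh508f1ea381d979ef : CRef := CRef.mk (Pat.mk 0x100000001a00000000000000020000000000000000000000000 0x500000007000000070000001f0000001b0000000700000007f000000fe0000007e00000050 10 9) 0 0 (step_sound _ 133 [(rh2e84606ae67e73ec.shift 4 1), (rhb15965421efe1c21.shift 4 1), rhc650e9f1dc3a5f34, (rhe9d6dee13fb537c8.shift 4 2), (rhf06cbf6be0bdc83c.shift 4 1)] (by decide +kernel))
noncomputable def rhba99150d4b8bb9b4 : CRef := CRef.mk (Pat.mk 0x6000000030000000000000001400000000000000000000000000000000 0xa0000000e000000ee0000007e0000003e00000006000000370000003e0000000e0000000e00000002 10 8) 0 0 (step_sound _ 194 [(rh24ae073cf30720c4.shift 2 6), rhef66253ba0d72db0] (by decide +kernel))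
noncomputable def rh794852bfd7eef465 : CRef := CRef.mk (Pat.mk 0x2000000002800000000000000000000000000000000 0xc0000000c0000039f000001fe000001ff0000001e0000001e0000000a 10 10) 0 0 (step_sound _ 132 [(rh21c58d57e7f99cd1.shift 1 3), rh5347f62ab5068d31, (rh61a7e658b710b9f2.shift 2 0), (rhcb80472e20cd3872.shift 1 3), (rhcc2b60f0e2d6a7d9.shift 1 3), (rhdaf7e75b3fe424a4.shift 0 1), (rhe5a9f5da05e448ca.shift 1 3)] (by decide +kernel))
noncomputable def rh72aeed295660e07e : CRef := CRef.mk (Pat.mk 0x8000000800000000e0000000000000000000000000000000000000000 0xc0000000c000000e70000007e0000007f0000000f000000070000000700000004 10 8) 0 0 (step_sound _ 164 [(rh32fd9ea87dd7a68c.shift 1 3), (rh3e2531436cb70ef7.shift 0 5), (rh6dd26613a1ae639b.shift 1 4), rh8862b2129d821252] (by decide +kernel))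
noncomputable def rhac34fe30a936d9ed : CRef := CRef.mk (Pat.mk 0x180000000c00000040000000050000000000000000000000000 0x28000003b8000001fc000000f00000073f000003fe000003ee0000006000000060 10 11) 0 0 (step_sound _ 101 [(rh617ff78e4d14a24f.shift 1 2), (rh8d28bd6f899222e3.shift 2 0), (rha7382a671dd0958b.shift 1 0), (rhadc41b7569f6bedd.shift 0 2), (rhda43b8224550ae6c.shift 1 2), (rhf741f5489ebbdacc.shift 1 1)] (by decide +kernel))
noncomputable def rha9e1dc8c38c3c0f9 : CRef := CRef.mk (Pat.mk 0xe000000070000002000000002000000000 0x1c000000fc00000070000003bf000001fe000001de 10 10) 0 0 (step_sound _ 132 [(rh004f594a355a6240.shift 1 0), (rh0da3f8d18d3a0dfd.shift 3 1), (rhba89ab7cb81bcc90.shift 2 3), rhf7cbcbdb231a67e5] (by decide +kernel))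
noncomputable def rh4d15f17881099817 : CRef := CRef.mk (Pat.mk 0x600000002000000020000000000000000000000000000000000000000 0x5000000070000000700000007000000030000000600000007000000070000000700000006000000070000000700000005 10 3) 0 0 (step_sound _ 257 [rh207b8fdde5d3aa8d, (rh3d48cb4e7e716da9.shift 0 4), (rh96b1cb1531b718a3.shift 0 5), (rhc4ec57a3756c3a6c.shift 0 4)] (by decide +kernel))
noncomputable def rhf7b1045a5252272f : CRef := CRef.mk (Pat.mk 0xc000000070000000100000001000000000 0x28000000b8000000b8000001b8000000f0000000700000003f000000fc000000e8 10 9) 0 0 (step_sound _ 132 [(rh20e56a1196e70fcc.shift 3 0), rh5755bb2186c3b32f, (rh7d762c380b7df881.shift 3 1), (rhba38a9dc25b1541b.shift 3 0), (rhcc733c6eb332fe88.shift 3 1)] (by decide +kernel))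
noncomputable def rh14680044d1062391 : CRef := CRef.mk (Pat.mk 0x6000000030000000000000000800000000000000000000000000000000 0x140000001c0000001c0000001c0000007f0000003c0000001f0000007c000000180000001c0000001c00000014 10 7) 0 0 (step_sound _ 195 [(rh53b3c253cb0c65f4.shift 2 6), rh919268fa4f845016] (by decide +kernel))
noncomputable def rhe39713d254460f5f : CRef := CRef.mk (Pat.mk 0xc0000000600000020000000030000000000000000000000000 0x1c000000fc0000007c000003af000001fe000001ef0000000c00000008 10 10) 0 0 (step_sound _ 163 [(rh24ae073cf30720c4.shift 3 5), rh8c5ab6d476fa06ad] (by decide +kernel))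
noncomputable def rh11134214925c0234 : CRef := CRef.mk (Pat.mk 0x600000003000000100000000180000000000000000 0x8000000080000001e0000007e0000003e000001d7000000fe000000ef00000002 10 9) 0 0 (step_sound _ 130 [rh1f3f4c1f19a2627e, (rh24ae073cf30720c4.shift 2 4)] (by decide +kernel))
noncomputable def rhad308749af40192a : CRef := CRef.mk (Pat.mk 0x180000000c0000004000000006000000000000000000000000000000000 0x800000198000000f80000071f000003fe000003ff0000003c0000003c00000008 10 11) 0 0 (step_sound _ 196 [(rh24ae073cf30720c4.shift 4 6), rh3a00439dad2c9289] (by decide +kernel))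
noncomputable def rh8462978cd0882edc : CRef := CRef.mk (Pat.mk 0x3800000000000000080000000000000000000000000000000000000000 0x140000001c0000001c0000001f000000380000001c0000000c0000001c0000001c0000001c0000001c00000014 10 6) 0 0 (step_sound _ 195 [(rh0f2f6c116e4d6a4c.shift 0 4), (rh215e11e099257d75.shift 3 4), (rh7892838aec40c3e1.shift 2 1), (rhebbe10d3cc837498.shift 2 0)] (by decide +kernel))
noncomputable def rhdcfe39d6ffe9af6c : CRef := CRef.mk (Pat.mk 0x70000000100000001000000000 0x280000003800000038000000380000001e000000740000003e000000fe0000002f 10 8) 0 0 (step_sound _ 132 [(rh771d065bdc85bf2d.shift 3 0), (rh8cd6fc04f4bbf7ba.shift 3 1), rhc50812af2f60ad5d, (rhd1c1bbf10d9d7a4b.shift 1 1), (rhde807367643436d4.shift 1 0)] (by decide +kernel))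
noncomputable def rh9eb3294345270165 : CRef := CRef.mk (Pat.mk 0x200000002000000003000000020000000000000000000000000 0x2100000039c000001ff000001fe000003ff0000003c00000038 10 10) 0 0 (step_sound _ 102 [(rh30489006e9e074dd.shift 2 0), (rh4ca5dae25f5c14ff.shift 2 3), rh765afb4c4c69d08d, (rhabdb05be14147126.shift 2 1), (rhdeca8db941583de2.shift 2 3)] (by decide +kernel))
noncomputable def rh10508c92b6b834b0 : CRef := CRef.mk (Pat.mk 0x2000000200000000300000000000000000000000000000000000000000 0x30000000340000039f000001fe000003ff0000003e0000001e0000001c00000010 10 10) 0 0 (step_sound _ 166 [(rh32fd9ea87dd7a68c.shift 3 3), (rh36c0fb010e405737.shift 2 4), (rh55e6ab2924d2cde2.shift 1 4), (rh8f13cca74c435a72.shift 2 4), rh9fb6887c8f2c3196, (rhf5a56d1d3da40461.shift 3 3)] (by decide +kernel))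
noncomputable def rh88fa35f6963e64a3 : CRef := CRef.mk (Pat.mk 0x180000000c00000040000000060000000000000000000000000 0x400000004000000078000001f8000000e00000077f000003fe000003bf0000003000000030 10 11) 0 0 (step_sound _ 133 [(rh44e3a696c68bdf71.shift 2 0), (rh4ac2b63e4dd76562.shift 5 2), rhb6189c4896f90cbe, (rhe2fecfd23a14b663.shift 2 2), rhfe1f622cbb3754fd, rhfea4b8f8f554645a] (by decide +kernel))
noncomputable def rhf8286d0e4b15d00c : CRef := CRef.mk (Pat.mk 0xc0000004000000006000000000000000000000000000000000 0x50000000d00000077f000003ff000003bf000000380000003800000008 10 11) 0 0 (step_sound _ 166 [(rh383b059e93639bb9.shift 2 3), rh78e731f597c7246e, (rhdeeda52dcb26d28e.shift 1 2), (rhfafeb437ceb8396d.shift 5 1)] (by decide +kernel))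
noncomputable def rh50cd906cb8012e60 : CRef := CRef.mk (Pat.mk 0x200000000300000000000000000000000000000000000000000 0xc0000039f000001fe000001ff0000003e0000001e0000001c00000010 10 10) 0 0 (step_sound _ 163 [(rh160ea79b42883ba9.shift 1 4), (rh8603a65758fd1166.shift 0 2), (rhcb9d6d247dad7efa.shift 2 0), (rhd858f25f2ab2a781.shift 1 4), (rhe5a9f5da05e448ca.shift 1 4), (rhfa6156345f526d69.shift 0 4)] (by decide +kernel))
noncomputable def rhd65cfe46482e31da : CRef := CRef.mk (Pat.mk 0x400000006000000200000000300000000000000000000000000000000000000000 0x4000000064000003bf000001fe000001ff0000003e0000001e0000001c00000010 10 10) 0 0 (step_sound _ 166 [(rh36c0fb010e405737.shift 2 4), (rh6368a6616c0ddb23.shift 3 3), (rh8f13cca74c435a72.shift 2 4), rh9fb6887c8f2c3196] (by decide +kernel))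
noncomputable def rhe48cf2ee08925386 : CRef := CRef.mk (Pat.mk 0x40000000680000000800000010000000000000000000000000 0x2c0000007c0000006f0000003f000000ff000000ee0000000c0000000c 10 8) 0 0 (step_sound _ 132 [rh52085ec742c1b63e, (rhbbd9e14f32dff073.shift 2 2), (rhbbe114f0deb83c44.shift 2 3), (rhd9dc0eaf263b17a6.shift 2 2)] (by decide +kernel))
noncomputable def rhb88eeee885d5edc0 : CRef := CRef.mk (Pat.mk 0xc0000000600000000800000010000000000000000000000000 0x28000000380000003800000030000000f0000000780000003f000000ff000000ef0000000c0000000c 10 8) 0 0 (step_sound _ 164 [rh00e6cc17507d0810, (rh53b3c253cb0c65f4.shift 3 5)] (by decide +kernel))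
noncomputable def rhf832df4217ee9573 : CRef := CRef.mk (Pat.mk 0x100000001a0000000200000004000000000000000000000000000000000 0x5000000070000000700000003800000138000001bf000000fe000001ff000001be0000003c0000003c00000004 10 9) 0 0 (step_sound _ 164 [rh2f22e9d995af1f0f, (rh4d9d9682e91d884e.shift 1 4), (rh74b7acafecb441b1.shift 4 2), (rh9d6678cc56105574.shift 1 1), (rhe10bf887de8b406d.shift 1 1)] (by decide +kernel))
noncomputable def rhbc4370e05320c4f7 : CRef := CRef.mk (Pat.mk 0x100000001a0000000200000004000000000000000000000000000000000 0x500000007800000178000001bf000000fe000001ff000001be0000003c0000003c00000004 10 9) 0 0 (step_sound _ 164 [rh2f22e9d995af1f0f, (rh4d9d9682e91d884e.shift 1 4), (rh74b7acafecb441b1.shift 4 2), (rh9d6678cc56105574.shift 1 1), (rhebf86b465e583687.shift 1 1)] (by decide +kernel))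
noncomputable def rha6e7dfc97e040c27 : CRef := CRef.mk (Pat.mk 0x300000001800000002000000040000000000000000 0x50000000700000007000000070000000f0000003f0000001f0000000e0000000f0000000300000001 10 6) 0 0 (step_sound _ 129 [(rh24ae073cf30720c4.shift 1 4), rhb6bc7707092ae57f] (by decide +kernel))
noncomputable def rha863d1389ac1818e : CRef := CRef.mk (Pat.mk 0x180000000d000000010000000200000000000000000 0x2c0000003c0000007f000001ff000000df0000005e000000780000001800000008 10 9) 0 0 (step_sound _ 164 [(rh35c52047b207528b.shift 3 2), (rh98b677f6f0365f5e.shift 3 2), (rha19b78461a10c4a2.shift 3 1), (rhaadf7d6cd4f29883.shift 3 1), (rhac92e73f66399522.shift 3 0), rhad2ce8a8983d89d3] (by decide +kernel))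
noncomputable def rh947ba66dba122fe0 : CRef := CRef.mk (Pat.mk 0x300000001a000000020000000400000000000000000000000000000000 0x5000000070000000f0000003f0000001b000000070000000700000003000000070000000600000004 10 6) 0 0 (step_sound _ 225 [(rh35c52047b207528b.shift 0 4), (rh98b677f6f0365f5e.shift 0 4), (rhaf349dd7709502bf.shift 0 4), rhb1e146aac626c448, (rhb762589b1bfc4883.shift 0 4)] (by decide +kernel))
noncomputable def rh4ff36874f13a7d34 : CRef := CRef.mk (Pat.mk 0x60000000300000010000000008000000000000000000000000 0x100000001c0000007e0000003c000001cf000000fe0000007e0000001c00000014 10 9) 0 0 (step_sound _ 163 [(rh53b3c253cb0c65f4.shift 2 5), rh95298940dc670781] (by decide +kernel))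
noncomputable def rha62fa7c6bc99a4f4 : CRef := CRef.mk (Pat.mk 0x3800000000000000080000000000000000000000000000000000000000 0x140000001c0000001c0000001c0000001f000000380000001f0000001c0000000c0000001c0000001c0000001c00000014 10 6) 0 0 (step_sound _ 195 [(rh0f2f6c116e4d6a4c.shift 0 4), (rh215e11e099257d75.shift 3 4), rh51ca07a546da8971, (rh7892838aec40c3e1.shift 2 1)] (by decide +kernel))
noncomputable def rhe4e1eb37f7675b59 : CRef := CRef.mk (Pat.mk 0x3800000018000000000000000000000000 0xc0000001c0000007c0000003e0000001e0000000f0000007e0000001c 10 7) 0 0 (step_sound _ 98 [(rh53b3c253cb0c65f4.shift 1 3), rh861f0d55eda0c58a] (by decide +kernel))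
noncomputable def rh44b9c313859deb90 : CRef := CRef.mk (Pat.mk 0xd8000000980000008800000000 0x480000005a0000007b000000df000000df0000008f00000004 10 8) 0 0 (step_sound _ 132 [(rh5c5e593799055d58.shift 3 1), rhd6107452463755f7] (by decide +kernel))
noncomputable def rhac8449fb18bd7b5e : CRef := CRef.mk (Pat.mk 0x9800000018000000000000000000000000 0xc0000000c0000007f000000ff0000001e000000060000000600000006 10 8) 0 0 (step_sound _ 133 [(rh361cc68994bd8a63.shift 3 3), rh3f0d3218faa61ad6] (by decide +kernel))
noncomputable def rha742118129b80cc4 : CRef := CRef.mk (Pat.mk 0x1800000018000000000000000000000000 0xc0000001f0000007f0000001e0000001c0000000f0000003c0000001c 10 7) 0 0 (step_sound _ 67 [rh72b06522cc100222, (rh8252618a2d9156c7.shift 0 1), (rhea7a1800d6f053bd.shift 3 0)] (by decide +kernel))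
noncomputable def rh15c1cacd9baaa5cf : CRef := CRef.mk (Pat.mk 0x1800000018000000000000000000000000 0xc0000001f0000007f0000001f0000001c0000000c0000000c0000000c 10 7) 0 0 (step_sound _ 67 [(rh8252618a2d9156c7.shift 0 1), rh89fdf87e8478868f, (rhea7a1800d6f053bd.shift 3 0)] (by decide +kernel))
noncomputable def rh5c067f23dc981b00 : CRef := CRef.mk (Pat.mk 0x1000000098000000180000000000000000 0x200000006c0000007c000000fe0000001e0000000f0000000e 10 8) 0 0 (step_sound _ 101 [(rh361cc68994bd8a63.shift 3 2), rh489e964f1f18743e] (by decide +kernel))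
noncomputable def rh67f2113018289d23 : CRef := CRef.mk (Pat.mk 0x1000000098000000180000000000000000 0x8000000ef0000007f000000df0000001f0000000f0000000c 10 8) 0 0 (step_sound _ 35 [rh00319cfa22d9c81d, (rh71222050f2c63a3a.shift 3 0)] (by decide +kernel))
noncomputable def rh89290c838bbe6e6a : CRef := CRef.mk (Pat.mk 0xd800000098000000800000000000000000 0x4c0000005c00000078000000df000000df0000008f0000007c0000001c 10 8) 0 0 (step_sound _ 67 [(rh0bb3bf9cae16a8bf.shift 1 0), rh72b06522cc100222, (rh8f1d1c64979c8df5.shift 0 1), (rhea7a1800d6f053bd.shift 3 0)] (by decide +kernel))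
noncomputable def rhb7e2989563844cba : CRef := CRef.mk (Pat.mk 0x1800000018000000880000000000000000 0x40000001f0000001f000000ef0000007e0000001c 10 8) 0 0 (step_sound _ 35 [(rh71222050f2c63a3a.shift 3 0), rhdc3e9f46d74af1fc] (by decide +kernel))
noncomputable def rh0c649fe6d8cc821f : CRef := CRef.mk (Pat.mk 0x9800000018000000000000000000000000 0x2c0000007c0000007c000000ff0000001f0000000c0000000c00000008 10 8) 0 0 (step_sound _ 67 [rhbaf68cdff4196fb6, (rhd2012393683592cc.shift 1 1), (rhea7a1800d6f053bd.shift 3 0)] (by decide +kernel))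
noncomputable def rha14c2b9714264759 : CRef := CRef.mk (Pat.mk 0x38000000180000000000000000 0x2800000038000000780000007f0000003f0000001e0000000c0000000c 10 7) 0 0 (step_sound _ 66 [(rh53b3c253cb0c65f4.shift 1 2), rhe876941ea9f46aaa] (by decide +kernel))
noncomputable def rh307cfb036978c820 : CRef := CRef.mk (Pat.mk 0x1000000090000000980000008000000000 0x6c0000006f0000007f000000ff000000dc0000008c0000000c 10 8) 0 0 (step_sound _ 99 [rh19d86e0e6100e54a, (rh48f0f2a388c47970.shift 2 0), (rh622e057eef4d3aff.shift 0 2), rh66c7c83a7c9c6108, rh93be59ca78d88c12, rhaf2fa9cc7c8459c0] (by decide +kernel))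
noncomputable def rha268e490b831f7fa : CRef := CRef.mk (Pat.mk 0x180000001000000018000000000000000000000000 0xc0000000f0000007f0000001b0000001f0000000f0000000c0000000c 10 7) 0 0 (step_sound _ 131 [(rh01ff8e29f1e0af53.shift 0 3), (rh0f993b23aacd2dfd.shift 0 2), (rh29e0362802793f45.shift 2 1), (rhb3e5613249985042.shift 2 0), (rhbf6eda89728e3bda.shift 0 1)] (by decide +kernel))
noncomputable def rh4e571ac04d875ce5 : CRef := CRef.mk (Pat.mk 0x200000003000000038000000000000000000000000 0xc0000001c0000003e000000fe000000380000001f0000003c0000001c 10 8) 0 0 (step_sound _ 135 [rh2dd510f1a704e8f1, (rh361cc68994bd8a63.shift 3 3)] (by decide +kernel))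
noncomputable def rhf22114a5e6576c41 : CRef := CRef.mk (Pat.mk 0x18000000180000000800000000 0xc0000000f0000003f0000001f0000001f0000000f00000006 10 6) 0 0 (step_sound _ 131 [(rh7b9fbdf6d2d059e4.shift 2 1), rh86e85d3f03e30ebe, (rh925a1628dd8a50da.shift 2 0)] (by decide +kernel))
noncomputable def rh2ec9bec26513eaac : CRef := CRef.mk (Pat.mk 0x30000000300000001000000000000000000000000000000000 0x200000026000000660000007f0000003e0000001f0000000f0000000e0000000e0000000a 10 7) 0 0 (step_sound _ 229 [rh5a18ebe5df45e349, (rh5c5e593799055d58.shift 4 4)] (by decide +kernel))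
noncomputable def rhcb31140cc6786bc7 : CRef := CRef.mk (Pat.mk 0x18000000180000000800000000 0x1c0000001f0000001f0000001f0000001f0000000f00000004 10 5) 0 0 (step_sound _ 131 [(rh2220c3fe63b3f14d.shift 0 1), (rh2ddd6c94c59240f8.shift 3 1), rh439879a7f613b890, (rh925a1628dd8a50da.shift 2 0)] (by decide +kernel))
noncomputable def rh4c6d715c33ecb120 : CRef := CRef.mk (Pat.mk 0x12000000030000000000000000000000000 0x40000000700000007c000001ff000000fc000001f80000003c0000001f0000001c00000010 10 9) 0 0 (step_sound _ 134 [(rh361cc68994bd8a63.shift 4 3), rh9ab1cb24f0cec02c] (by decide +kernel))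
noncomputable def rh8aa57fc5ecb2b738 : CRef := CRef.mk (Pat.mk 0x6000000030000000000000000000000000 0x5000000070000000740000007c000001ff0000007e0000007e0000003c000000180000001000000010 10 9) 0 0 (step_sound _ 165 [rh40cc1c2032b1b727, (rh7a7e08304268422e.shift 4 2), (rh976a48eb1c80a12f.shift 4 2), (rha06f5f4dbccd0dcd.shift 1 2), (rha8241f37c79477a8.shift 4 2), (rhb2d999c672507e3f.shift 4 2)] (by decide +kernel))
noncomputable def rh57aa3fd6fed9606e : CRef := CRef.mk (Pat.mk 0x200000012000000030 0x500000007f0000007e000000ff000001f800000030 10 9) 0 0 (step_sound _ 38 [(rh361cc68994bd8a63.shift 4 0), rh8f284da0c306aa50] (by decide +kernel))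
noncomputable def rhb30ac121d1713613 : CRef := CRef.mk (Pat.mk 0x20000001200000013000000100 0x5000000070000000ff000000fe000000ef000001f0000001b000000100 10 9) 0 0 (step_sound _ 71 [rh4c65bbc0c1cc9ff3, (rhb2a0b9ccfb5cecd5.shift 4 1)] (by decide +kernel))
noncomputable def rh49e900ce8c120465 : CRef := CRef.mk (Pat.mk 0x380000001c000000000000000000000000 0x20000000240000007c0000003f0000001c0000000f0000007e0000001e 10 7) 0 0 (step_sound _ 130 [rh2b6da0ce21b405c1, rhc15735730e2b7394, (rhe25191970535449e.shift 0 3)] (by decide +kernel))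
noncomputable def rhb4c5fa652687eb25 : CRef := CRef.mk (Pat.mk 0x700000003000000100000000000000000000000000 0x200000006000000f60000007e0000003e000001de000000ff0000003e0000000a 10 9) 0 0 (step_sound _ 130 [(rh24ae073cf30720c4.shift 2 4), rhf8421d0c3b407630] (by decide +kernel))
noncomputable def rh98da1e0657fbd66a : CRef := CRef.mk (Pat.mk 0x800000000000000380000000000000000000000000000000000000000 0x140000001c0000001c0000001c0000001800000018000000380000001f0000001c0000001c0000001c00000014 10 6) 0 0 (step_sound _ 195 [(rh098a1cd4f713e728.shift 2 0), (rh3622f5286c42fd05.shift 0 1), (rh70e33bfdf511e144.shift 3 2), (rhfb9fb48a5e63ed80.shift 2 4)] (by decide +kernel))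
noncomputable def rha3c927d637f04d80 : CRef := CRef.mk (Pat.mk 0x800000000000000380000000000000000000000000000000000000000 0x140000001c0000001c0000001c0000003c0000001f000000380000001e0000001c0000001c0000001c00000014 10 6) 0 0 (step_sound _ 195 [(rh098a1cd4f713e728.shift 2 0), (rh29717898c79560a6.shift 0 2), (rh70e33bfdf511e144.shift 3 2), (rhfb9fb48a5e63ed80.shift 2 4)] (by decide +kernel))
noncomputable def rh31fe8b3434106052 : CRef := CRef.mk (Pat.mk 0xa000000480000000c 0x50000000700000017000000330000001f0000007f0000000c 10 7) 0 0 (step_sound _ 36 [(rh361cc68994bd8a63.shift 2 0), rhc81ac6213a0ebb16] (by decide +kernel))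
noncomputable def rh323ae5e6f1c52cc0 : CRef := CRef.mk (Pat.mk 0x130000001300000010000000008 0x1ff000001fe000000f8000001be000001b80000011800000018 10 9) 0 0 (step_sound _ 36 [(rh4f01fe223ae1129c.shift 3 0), (rh84d1c02a8954c6a8.shift 4 0), (rhaf3ceb19e2e0452c.shift 0 1)] (by decide +kernel))
noncomputable def rha924d3a44abce706 : CRef := CRef.mk (Pat.mk 0x13000000130000001000000000800000000 0x1ff000001fe000000f8000001be000001b8000001100000001800000018 10 9) 0 0 (step_sound _ 68 [(rh5769ed4fe2fe4c14.shift 3 0), (rh84d1c02a8954c6a8.shift 4 1), (rhaf3ceb19e2e0452c.shift 0 2)] (by decide +kernel))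
noncomputable def rhaca9071dad644d9d : CRef := CRef.mk (Pat.mk 0x6000000060000002000000001000000000000000000000000000000000 0x400000007c0000007c000003bf000001fe000003ff0000001c0000001c00000014 10 10) 0 0 (step_sound _ 133 [(rh12cda698427604cb.shift 4 3), (rh2c7fc7a7cc8a47be.shift 5 3), rh3f1c3094f1beb9f7, (rhd24b9aa3f1cc01cd.shift 4 3)] (by decide +kernel))
noncomputable def rh58aa5b6c63757ef2 : CRef := CRef.mk (Pat.mk 0x98000000180000000800000000 0xc000000ff0000007e000000df0000001f0000000f00000004 10 8) 0 0 (step_sound _ 132 [rh45b4e65023faaa03, (rh5c5e593799055d58.shift 3 1)] (by decide +kernel))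
noncomputable def rh6b437b38cf380395 : CRef := CRef.mk (Pat.mk 0x340000003000000000000000000000000000000000 0x32000000360000003e000000360000003e0000001e000000ff0000003e0000000a 10 8) 0 0 (step_sound _ 100 [(rh0bb3bf9cae16a8bf.shift 2 1), (rh84d1c02a8954c6a8.shift 4 2), rhd34e26d317361b5e] (by decide +kernel))
noncomputable def rhaf64c2d177688631 : CRef := CRef.mk (Pat.mk 0x1a00000018000000000000000000000000 0x120000003f0000001e0000001f0000000f0000003f0000001e 10 6) 0 0 (step_sound _ 67 [rh01fe902849058546, rh72b06522cc100222, (rh84d1c02a8954c6a8.shift 3 1), (rhea7a1800d6f053bd.shift 3 0)] (by decide +kernel))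
noncomputable def rh88ac45524b40bc1a : CRef := CRef.mk (Pat.mk 0x9800000018000000000000000000000000 0x7c000000ff0000007f000000df00000018000000080000000800000008 10 8) 0 0 (step_sound _ 163 [(rh2b4f3c0785538b0e.shift 0 2), (rh3a4a3279d1203ea1.shift 1 2), (rh495a39b8a06d7922.shift 1 3), (rhaf1889c8c18df41b.shift 0 2), rhc567c20df076dea3, (rhf7c77fe48087fd5b.shift 2 0)] (by decide +kernel))
noncomputable def rh4a06101f9b0851f6 : CRef := CRef.mk (Pat.mk 0x100000001a0000001800000000000000000000000000000000 0x500000007000000070000003b0000001e0000001f0000000f0000000c0000000400000004 10 6) 0 0 (step_sound _ 162 [(rh33e738c4ed385b9f.shift 1 5), rhdae0e248a81e3578] (by decide +kernel))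
noncomputable def rh6251c70a315e5de4 : CRef := CRef.mk (Pat.mk 0x300000003000000000000000000000000000000000 0x80000002c0000007f0000003e0000003e0000001e000000fc0000003800000008 10 8) 0 0 (step_sound _ 100 [(rh0bb3bf9cae16a8bf.shift 2 1), rh726169cf7aa257d7, (rh84d1c02a8954c6a8.shift 4 2), (rhea7a1800d6f053bd.shift 4 1)] (by decide +kernel))
noncomputable def rh27b18d292ed76d6d : CRef := CRef.mk (Pat.mk 0x9800000018000000000000000000000000 0x1c000000fc0000007f000000df000000180000000e0000007c0000001c 10 8) 0 0 (step_sound _ 67 [(rh0bb3bf9cae16a8bf.shift 1 0), (rh6919d3368f73c4bc.shift 0 2), (rhea7a1800d6f053bd.shift 3 0)] (by decide +kernel))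
noncomputable def rh3091e8c1b6132e4c : CRef := CRef.mk (Pat.mk 0x18000000180000000800000000 0x180000001f0000001f0000001b0000001f0000000f00000004 10 5) 0 0 (step_sound _ 131 [(rh2ddd6c94c59240f8.shift 3 1), (rh925a1628dd8a50da.shift 2 0), rhc5aac8a1aa3b6603] (by decide +kernel))
noncomputable def rhe8169dd67fe0da8d : CRef := CRef.mk (Pat.mk 0x1a0000001800000000000000000000000000000000 0x280000003800000038000000370000001e0000001f0000000b0000000f0000000700000005 10 6) 0 0 (step_sound _ 196 [rh13d845aeb91d49e2, (rh1e309b005ffa1b36.shift 3 2), (rh68a777751bfeafdf.shift 3 3)] (by decide +kernel))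
noncomputable def rh023cc353334a8e25 : CRef := CRef.mk (Pat.mk 0x340000003000000100000000000000000000000000 0xa0000002e0000002e000000360000003e000001de000000ff000001fe0000000a 10 9) 0 0 (step_sound _ 130 [(rh101923d671912dfc.shift 1 0), (rh6e1685e3533aff0e.shift 1 4), (rh81d3e098f5111260.shift 1 0), rh8a68740ef5534d68] (by decide +kernel))
noncomputable def rh3d2bdf77cccfa7d0 : CRef := CRef.mk (Pat.mk 0x180000001800000000000000000000000000000000 0x50000000f0000000f0000000f0000001f0000001f0000000f0000007f0000001f00000005 10 7) 0 0 (step_sound _ 162 [(rh00a147244f7b7e41.shift 0 2), (rh045096250a64bcbe.shift 0 2), (rh12df48c1c58dbe54.shift 0 1), rh1c76fd46a49d2897, (rh22601b998b71ca07.shift 0 1), (rh6a5d3ce692ce17b5.shift 0 2), (rhe3d222c665b7b717.shift 0 1)] (by decide +kernel))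
noncomputable def rh01539ed7ad259daf : CRef := CRef.mk (Pat.mk 0x800000008000000180000001c00000000000000000000000000000000 0x10000000780000001f0000001f0000001f00000003000000070000000700000005 10 7) 0 0 (step_sound _ 228 [(rh2f68792b6b779e96.shift 3 4), rha199bb7c4a597087] (by decide +kernel))
noncomputable def rh3a80149b67bb3b83 : CRef := CRef.mk (Pat.mk 0x1800000008000000180000001800000000000000000000000000000000 0x7c0000000f0000001f0000001f00000007000000070000000700000005 10 7) 0 0 (step_sound _ 130 [(rh932754581e0f4330.shift 2 3), rhf9db0121480cbc9e] (by decide +kernel))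
noncomputable def rh50e5c06b96678ecb : CRef := CRef.mk (Pat.mk 0x800000008000000180000001800000000 0x370000003f0000007b0000001f0000001f00000004 10 7) 0 0 (step_sound _ 132 [rh0b949e096ec05f1b, (rh2f68792b6b779e96.shift 3 1)] (by decide +kernel))
noncomputable def rh195e6cef759c37f2 : CRef := CRef.mk (Pat.mk 0x6000000000000002200000022000000220 0x40000001c0000003c000003ff000003fe0000019f000003300000033000000220 10 10) 0 0 (step_sound _ 132 [(rh00434d7a9333a626.shift 0 2), (rh04d703198b112d6f.shift 1 0), (rh1d8aa7886cae32db.shift 1 0), (rh4b438368611ab3a7.shift 3 0), (rh8670158281ccbe0c.shift 1 3), (rh8f4c6c555c1e1dff.shift 1 1), (rhfae44cc232ea374e.shift 3 0)] (by decide +kernel))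
noncomputable def rh539c81030335efaf : CRef := CRef.mk (Pat.mk 0x800000018000000180000000800000000 0x170000003f0000001f0000001f0000000f00000004 10 6) 0 0 (step_sound _ 132 [rh39db3a24f3956efa, (rh5c5e593799055d58.shift 3 1)] (by decide +kernel))
noncomputable def rh68dffe739d2f7874 : CRef := CRef.mk (Pat.mk 0xe00000006000000200000000100000000000000000 0x14000000fc0000007c000003af000001fe000001ff00000004 10 10) 0 0 (step_sound _ 131 [(rh24ae073cf30720c4.shift 3 4), rhf9297ffddc668125] (by decide +kernel))
noncomputable def rh4135b4e4b0cee55c : CRef := CRef.mk (Pat.mk 0x9800000018000000000000000000000000 0x3c0000007c0000007c000000ff0000001f000000080000000800000008 10 8) 0 0 (step_sound _ 133 [(rh361cc68994bd8a63.shift 3 3), rh730e2e13584cd635] (by decide +kernel))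
noncomputable def rhbfb91f3cc31a773e : CRef := CRef.mk (Pat.mk 0x3800000018000000000000000000000000 0x3e0000003e000000740000003f0000001f0000000f0000000e0000000e 10 7) 0 0 (step_sound _ 130 [rh41eb870cec285b3b, (rhbba28ad09dff246e.shift 0 3), (rhe25191970535449e.shift 0 3)] (by decide +kernel))
noncomputable def rh749224aef82538f0 : CRef := CRef.mk (Pat.mk 0x380000001800000000 0xff0000003e0000007c0000003f0000001f00000004 10 8) 0 0 (step_sound _ 66 [rh419275fa5c5b9dec, (rhb14e2588a8d71db8.shift 0 1), (rhe25191970535449e.shift 0 1)] (by decide +kernel))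
noncomputable def rh0ea3d6cbc51cea60 : CRef := CRef.mk (Pat.mk 0x10000000100000001800000092000000000000000000000000 0x500000017000000170000001f000000fb0000001f0000000b00000001 10 8) 0 0 (step_sound _ 67 [(rh79877ebd3ef475dd.shift 3 2), rhea86c95d93746660] (by decide +kernel))
noncomputable def rh2caae751c885d864 : CRef := CRef.mk (Pat.mk 0x80000000c00000001000000000000000000000000000000000 0x280000003e0000007f000001be000000f80000003e0000007f0000003e0000003800000028 10 9) 0 0 (step_sound _ 164 [(rh37b4266f71a5b9e2.shift 1 0), (rh760717e835f8c2f3.shift 3 4), rhba1a96bc6ad53bd7] (by decide +kernel))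
noncomputable def rhf1ebe39139409e50 : CRef := CRef.mk (Pat.mk 0x20000001200000003000000130000000000000000000000000 0x1df000000fe000001af0000003e000001fe0000000e0000000400000004 10 9) 0 0 (step_sound _ 196 [(rh50fbb5868c909700.shift 4 3), rh6ac5a057c14a3a7d] (by decide +kernel))
noncomputable def rhbf25028bd003c2fb : CRef := CRef.mk (Pat.mk 0x1800000098000000000000000000000000 0x600000006000000060000001f000000ff0000000f0000000c0000000c 10 8) 0 0 (step_sound _ 101 [(rh2fe78cc5ca4405d8.shift 3 3), rhf442e13edaff9dbd] (by decide +kernel))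
noncomputable def rhb0097c94de2e9b0e : CRef := CRef.mk (Pat.mk 0x120000001300000012 0x50000007f0000003f0000006f0000003e0000001b00000012 10 7) 0 0 (step_sound _ 67 [(rhb2a0b9ccfb5cecd5.shift 0 1), rhf2af14e627130ee3] (by decide +kernel))
noncomputable def rh9186c01de5c9f8d6 : CRef := CRef.mk (Pat.mk 0x6000000160000000600000000000000000000000000000000 0x280000003b0000003b0000003e000000160000003e0000003a0000003e0000003800000020 10 6) 0 0 (step_sound _ 225 [(rh2145e1d24b96a57e.shift 1 4), rh2d9d2f9240a561a4] (by decide +kernel))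
noncomputable def rhfb832b2ac5042e07 : CRef := CRef.mk (Pat.mk 0x6000000160000000600000000000000000000000000000000 0x8000000380000003800000038000000380000003e000000160000003e0000003b0000003f0000003800000020 10 6) 0 0 (step_sound _ 132 [(rh18d511e648aabc8c.shift 1 1), (rh5610213daa1b6928.shift 0 2), (rh921148ed382302eb.shift 1 0)] (by decide +kernel))
noncomputable def rhfcae62fd61c85f97 : CRef := CRef.mk (Pat.mk 0x600000016000000060000000000000000000000000000000000000000 0x20000000380000003f0000003b0000003e000000160000003e0000003800000038000000380000003800000008 10 6) 0 0 (step_sound _ 228 [(rh3e4f775a4c1b3a1b.shift 1 2), rh7f559f703e0492dc, (rh8ebc15871c473b31.shift 0 5)] (by decide +kernel))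
noncomputable def rhdbbcbf2be800a0a4 : CRef := CRef.mk (Pat.mk 0x100000001300000016000000000000000000000000000000000000000000000000 0xd0000000f0000000f0000001e0000001b00000017000000070000000300000003000000070000000700000005 10 5) 0 0 (step_sound _ 257 [(rh375a6ec7f1a70276.shift 0 6), (rh7ff002cb0ecfac78.shift 0 5), rh83da00bae85761d9, (rh8b45a73eaadf2a53.shift 0 5), (rhfb9fb48a5e63ed80.shift 0 5)] (by decide +kernel))
noncomputable def rhe30632ef3b921b54 : CRef := CRef.mk (Pat.mk 0x180000003000000010000000000000000000000000 0x40000001e0000003e0000007f0000003f0000003f00000030 10 7) 0 0 (step_sound _ 162 [rh9d03109e53104fc0, (rhb739f4f82bb681b4.shift 1 4)] (by decide +kernel))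
noncomputable def rhcea0d3155bf82293 : CRef := CRef.mk (Pat.mk 0x18000000900000001000000000000000000000000000000000 0x1e000000fe000000770000003e0000003f0000003800000020 10 8) 0 0 (step_sound _ 165 [(rh2fe78cc5ca4405d8.shift 3 5), rh7c89909c26b9739d] (by decide +kernel))
noncomputable def rhf785395473d8d5ae : CRef := CRef.mk (Pat.mk 0x400000004c00000048000000080000000800000000 0x420000006f0000007b0000003f0000007f00000034 10 7) 0 0 (step_sound _ 66 [(rh0fbbb92589a12005.shift 2 0), rh5e9811923b52aea7, rh7fe11f484215afaf] (by decide +kernel))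
noncomputable def rh465c3fc2e2dd03e5 : CRef := CRef.mk (Pat.mk 0x300000002000000030000000000000000000000000 0xe0000000e0000000e0000003e0000003e000000fe0000001f0000001e0000000a 10 8) 0 0 (step_sound _ 132 [(rh09c96eda5b1b2f67.shift 1 1), (rh310e4bcdb236de4b.shift 1 1), rh6d5e29ea8bf39a1b, (rh810a7e070d8a4f93.shift 1 1), (rh859b26fea1b82014.shift 1 1), (rha6f802784adb25e2.shift 1 1), (rhdc17d41c3cb86e14.shift 1 1), (rhfcc1a345080d960d.shift 1 1)] (by decide +kernel))
noncomputable def rh447d825f69f6cd0d : CRef := CRef.mk (Pat.mk 0x9200000018000000100000001000000000 0x10000000b0000001f000000fb0000001f000000170000001700000005 10 8) 0 0 (step_sound _ 163 [rhab507c24d2adc00a, (rhffd04209dc8ea796.shift 3 1)] (by decide +kernel))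
noncomputable def rh9685487160fc204f : CRef := CRef.mk (Pat.mk 0x10000000c000000080000000000000000000000000 0x28000000380000003e0000007f0000003e000000f8000001be0000007f0000003e00000028 10 9) 0 0 (step_sound _ 132 [(rh1a6046b48d6847cb.shift 1 0), (rh7174a5174d2fbf5b.shift 3 3), rhc69ad55ef0353580] (by decide +kernel))
noncomputable def rh8ac93a77fd07b191 : CRef := CRef.mk (Pat.mk 0x13000000030000001200000002000000000 0x4000000040000000e000001fe0000003e000001af000000fe000001df 10 9) 0 0 (step_sound _ 36 [rh7c514de57a6cb00c, (rh932754581e0f4330.shift 4 0)] (by decide +kernel))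
noncomputable def rh325280b87a035fde : CRef := CRef.mk (Pat.mk 0x9800000018000000000000000000000000 0xc0000000c0000000f000000ff0000001f000000060000000600000006 10 8) 0 0 (step_sound _ 133 [rh1344a0c43c800e0b, (rh361cc68994bd8a63.shift 3 3)] (by decide +kernel))
noncomputable def rh087463af8fb1450f : CRef := CRef.mk (Pat.mk 0x12000000130000001200000000000000000000000000000000 0x120000001b0000003e0000006f0000003f0000007f00000005 10 7) 0 0 (step_sound _ 131 [rh4414b01931835843, (rh5419adcd928dba20.shift 0 4)] (by decide +kernel))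
noncomputable def rhcc8170b99db4d29b : CRef := CRef.mk (Pat.mk 0x60000001600000006000000000000000000000000 0x20000000380000003e0000003a0000003e000000160000003e0000003b0000003b00000028 10 6) 0 0 (step_sound _ 65 [(rh71222050f2c63a3a.shift 1 1), rh7d002ff5e84317d9] (by decide +kernel))
noncomputable def rh2fb729f63f5551ca : CRef := CRef.mk (Pat.mk 0x600000016000000060000000000000000000000000000000000000000 0x20000000380000003f0000003b0000003e000000160000003e0000003800000038000000380000003800000008 10 6) 0 0 (step_sound _ 228 [(rh3e4f775a4c1b3a1b.shift 1 2), (rh8ebc15871c473b31.shift 0 5), (rhfdf48ebe068ff928.shift 1 0)] (by decide +kernel))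
noncomputable def rh3dc4058870a99848 : CRef := CRef.mk (Pat.mk 0x6000000160000000600000000000000000000000000000000 0x8000000380000003800000038000000380000003e000000160000003e0000003b0000003f0000003800000020 10 6) 0 0 (step_sound _ 132 [(rh18d511e648aabc8c.shift 1 1), (rh5610213daa1b6928.shift 0 2), rhf65e59f71c4595d1] (by decide +kernel))
noncomputable def rh30927b22468634ad : CRef := CRef.mk (Pat.mk 0x160000001300000010000000000000000000000000 0x50000000700000007000000030000000300000007000000170000001b0000001e0000000f0000000f0000000d 10 5) 0 0 (step_sound _ 97 [rh1b9022be4f7af407, rh241710870b8fdee6, rh35b3e8f23ae0e21b, (rha9da6163b4996af0.shift 0 2), rhf6237156212ce777] (by decide +kernel))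
noncomputable def rhc3f641f5eb4080d1 : CRef := CRef.mk (Pat.mk 0x10000000300000001800000000 0x300000003f0000003f0000007f0000003e0000001e00000004 10 7) 0 0 (step_sound _ 34 [rh165e185db28660bb, (rh53b3c253cb0c65f4.shift 1 1)] (by decide +kernel))
noncomputable def rh2036a9ac73bbb822 : CRef := CRef.mk (Pat.mk 0x100000009000000018 0x20000000380000003f0000003e00000077000000fe0000001e 10 8) 0 0 (step_sound _ 37 [(rh361cc68994bd8a63.shift 3 0), rhd33adde18348db1a] (by decide +kernel))
noncomputable def rh357b9c672587cd84 : CRef := CRef.mk (Pat.mk 0x800000008000000480000004c00000040 0x340000007f0000003f0000007b0000006f00000042 10 7) 0 0 (step_sound _ 98 [(rh0f88566f1a09c677.shift 0 1), (rh6a6060c6b6bde3df.shift 2 0), rh758f6556af108548] (by decide +kernel))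
noncomputable def rh0155fe3b33f0166f : CRef := CRef.mk (Pat.mk 0x300000002000000030000000000000000000000000 0xa0000001e0000001f000000fe0000003e0000003e0000000e0000000e0000000e 10 8) 0 0 (step_sound _ 132 [(rh01ff8e29f1e0af53.shift 1 3), (rh700e47a8e48208df.shift 1 2), rh70d51e8d9429a5af, (rh8847e56c0a18d977.shift 1 2), (rh8e1d5b012c51c5f4.shift 1 2), (rh94ff33f556947075.shift 1 2), (rha56f3cd8833a2103.shift 1 0), (rha6a27f667eb860a4.shift 1 2)] (by decide +kernel))
noncomputable def rhd79f87ddfcd82202 : CRef := CRef.mk (Pat.mk 0x300000000600000000000000000000000000000000 0x140000001c0000001c0000003c0000000f0000007c0000007c0000001c0000001c 10 7) 0 0 (step_sound _ 163 [rh43da226ec0ce4b79, (rhca9569cc80abfe76.shift 1 4)] (by decide +kernel))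
noncomputable def rh1e9f113a71b5ee3b : CRef := CRef.mk (Pat.mk 0x680000001c000000000000000000000000000000000000000000000000 0x140000001c0000001c0000003c0000003f0000006c0000001c0000001c0000000c0000000c0000001c0000001c00000014 10 7) 0 0 (step_sound _ 259 [(rh7a7e08304268422e.shift 2 5), (rhc784ae48e2c4ae7e.shift 0 5), (rhd339fe7e6cc5b1d9.shift 2 0), (rhde10baa3043a2b46.shift 2 5), (rhfb9fb48a5e63ed80.shift 2 5)] (by decide +kernel))
noncomputable def rh3ddcd74eb48bb311 : CRef := CRef.mk (Pat.mk 0xc000000018000000000000000000000000 0xc000000cf0000007e0000007f0000000e0000000e 10 8) 0 0 (step_sound _ 101 [(rh3fc040e777f1679e.shift 3 3), rh82ee01296f101fea] (by decide +kernel))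
noncomputable def rh07d46695a29f51c9 : CRef := CRef.mk (Pat.mk 0x20000001a0000000300000001000000000 0x5f000000fe000001be0000003e0000003e0000002e 10 9) 0 0 (step_sound _ 132 [(rh8b62aaa6fa573660.shift 0 1), (rhd2c7feb2528f83cf.shift 1 0), (rhf43630dd991c80b6.shift 4 1)] (by decide +kernel))
noncomputable def rh1312039aa32adc11 : CRef := CRef.mk (Pat.mk 0x1a0000000300000001000000000 0x7f000001fe000001be000001b0000001f0000001c0 10 9) 0 0 (step_sound _ 133 [(rh5c5e593799055d58.shift 4 1), rhd7e67b06c9d1af69] (by decide +kernel))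
noncomputable def rh92fcce1eb30b23fe : CRef := CRef.mk (Pat.mk 0xc000000030000000000000000000000000 0xc000000cf0000007e0000007f0000000e0000000e 10 8) 0 0 (step_sound _ 99 [(rh3fc040e777f1679e.shift 3 3), rh82ee01296f101fea] (by decide +kernel))
noncomputable def rha334c4d7dc168003 : CRef := CRef.mk (Pat.mk 0x680000000c00000008000000080000000000000000 0x640000006c0000006f0000007b0000007f0000007600000040 10 7) 0 0 (step_sound _ 162 [(rh50fbb5868c909700.shift 2 2), rhdb51e8c53379a603] (by decide +kernel))
noncomputable def rh17f9c7eb2b378887 : CRef := CRef.mk (Pat.mk 0x820000009a0000008300000002000000000000000000000000 0x800000028000000fa000000da000000fb0000007e000000ff0000007f00000029 10 8) 0 0 (step_sound _ 100 [rh559c9f5aac0e8ac8, (rh7c9dc12249790b96.shift 3 0), (rh8308117fcfc4a40c.shift 2 0), (rhf8edb192cdea7ada.shift 0 2)] (by decide +kernel))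
noncomputable def rhd46fe2ebec66b80a : CRef := CRef.mk (Pat.mk 0x200000002680000022c00000000000000000000000000000000 0x3a0000027e0000036e000003ec000001ef0000017e0000017e00000050 10 10) 0 0 (step_sound _ 98 [(rh419cb66763634e10.shift 0 1), (rh8d58ed9fec4adef0.shift 2 0), (rhcf80391c5046a495.shift 2 1)] (by decide +kernel))
noncomputable def rhb1d67fc1961ad803 : CRef := CRef.mk (Pat.mk 0x102000001300000011600000010000000000000000000000000 0x500000007000000170000011f000001b7000001f7000000f7000000a70000008700000005 10 9) 0 0 (step_sound _ 161 [(rh04bc0bc315096e76.shift 0 2), rh11ad28080149bc80, (rh8599f462953abc6e.shift 1 3), (rh85fe8bf98f55243d.shift 0 3)] (by decide +kernel))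
noncomputable def rh9b201febc664e1f0 : CRef := CRef.mk (Pat.mk 0x80000000000000018000000000000000000000000 0x140000001c0000003c0000000f0000000e0000001f0000001f0000001f00000014 10 6) 0 0 (step_sound _ 131 [(rh04bc0bc315096e76.shift 2 1), (rh0a1fd909c95eb75e.shift 0 2), (rh9fecc968bced2cac.shift 2 2), rhb41d816190790f34, (rhe380c42df720a63d.shift 2 2)] (by decide +kernel))
noncomputable def rh21e37028b25b9b71 : CRef := CRef.mk (Pat.mk 0x1a00000003000000010000000000000000000000000 0x3f000001fe000001be000001b0000001f0000001e00000006000000020 10 9) 0 0 (step_sound _ 197 [(rh5c5e593799055d58.shift 4 3), rha78335691c48bcc5] (by decide +kernel))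
noncomputable def rh8ce288e297c98be7 : CRef := CRef.mk (Pat.mk 0x300000000600000000000000000000000000000000 0x140000001c0000001c0000003c0000000f0000003e0000007c0000001c0000001c 10 7) 0 0 (step_sound _ 163 [(rhca9569cc80abfe76.shift 1 4), rhd86629417cdf930c] (by decide +kernel))
noncomputable def rh32706befdc48ca59 : CRef := CRef.mk (Pat.mk 0x2000000820000001a000000830000000000000000000000000000000000000000 0xc0000002e000000fe0000001b000000f30000007e0000003f0000003f0000002f00000005 10 8) 0 0 (step_sound _ 258 [rh1314a7ed02d6e452, (rh2f68792b6b779e96.shift 1 5)] (by decide +kernel))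
noncomputable def rh3b98e4e94e21440c : CRef := CRef.mk (Pat.mk 0x1a0000008a000000000000000000000000 0xc0000000e0000001f0000001b000000ff0000000c0000000c0000000c 10 8) 0 0 (step_sound _ 98 [(rh53b3c253cb0c65f4.shift 0 3), rh809b914b7c4c5566] (by decide +kernel))
noncomputable def rh3258de4c99bac8dd : CRef := CRef.mk (Pat.mk 0x800000009a0000008a000000000000000000000000 0xc0000002e000000ff000000da000000ff0000007c0000005c0000005c 10 8) 0 0 (step_sound _ 98 [(rh53b3c253cb0c65f4.shift 0 3), rh6e5233fdb1a79da4] (by decide +kernel))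
noncomputable def rhdda086268259557e : CRef := CRef.mk (Pat.mk 0x800000009a0000008a00000000000000000000000000000000 0xc0000002e000000ff000000db000000fe0000007c0000007c0000007c00000028 10 8) 0 0 (step_sound _ 132 [(rh4c1dde01eb9b3868.shift 0 3), (rh9e086e2a41e8f3a8.shift 0 2), (rhaf355b722930d125.shift 0 1), (rhaf79bcbd018a0177.shift 0 1), (rhb0daf349861163a7.shift 2 1), (rhb8b28e74105c53a5.shift 3 0)] (by decide +kernel))
noncomputable def rhfe2b17b9d852adf5 : CRef := CRef.mk (Pat.mk 0x800000009a0000008a00000000000000000000000000000000 0x10000000180000001c0000002c000000fc000000da000000fb0000007f000000ff0000007c00000014 10 8) 0 0 (step_sound _ 99 [(rh1b9022be4f7af407.shift 2 0), (rh274a837cd7eaa569.shift 2 0), (rh34d9b17979bf3570.shift 0 1), (rh3820f35d5e705bec.shift 3 0), (rh7caa74351b452a23.shift 0 1)] (by decide +kernel))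
noncomputable def rh74eafca2790cf938 : CRef := CRef.mk (Pat.mk 0x800000009a0000008a00000000000000000000000000000000 0xc0000002c000000fc000000db000000fe0000007f0000007f0000007c00000028 10 8) 0 0 (step_sound _ 132 [(rh0a7efba8c3b9bf77.shift 1 0), (rh9e086e2a41e8f3a8.shift 0 2), (rhb170006ac14812fb.shift 0 1), (rhb8b28e74105c53a5.shift 3 0), (rhbc6e779f94b51e64.shift 0 1), (rhdd70a67b9f6e1957.shift 0 1), (rhe38b0e2d00685855.shift 1 1)] (by decide +kernel))
noncomputable def rh28c83b49a2811bf9 : CRef := CRef.mk (Pat.mk 0x680000000c000000000000000000000000 0x140000001c0000001c0000000c0000006c0000003c0000007f0000001f00000014 10 7) 0 0 (step_sound _ 100 [(rh3fc040e777f1679e.shift 2 3), rh7bc92b3c9088da94] (by decide +kernel))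
noncomputable def rh590f99e31ac51683 : CRef := CRef.mk (Pat.mk 0x100000001e00000012000000000000000000000000 0x40000000c0000001f0000001e0000001a0000003f0000003f00000028 10 6) 0 0 (step_sound _ 161 [(rh3244c3cc8379b070.shift 0 4), rhc2ead2e2bed3b787] (by decide +kernel))
noncomputable def rh5199192ddcdb5437 : CRef := CRef.mk (Pat.mk 0x10000000134000001040000000000000000000000000000000000000000 0xa0000000e0000001e0000005f000001fe000001b6000001f6000000fe000000fe000000fe0000007a00000050 10 9) 0 0 (step_sound _ 165 [(rh3b0d0c8a37241a87.shift 0 2), (rh6b2c1649c6fc8f4c.shift 3 0), (rhe4662fe8dd51d66c.shift 0 1), (rhec8e258b8e00c7b4.shift 4 1)] (by decide +kernel))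
noncomputable def rheef59bf9490c3af8 : CRef := CRef.mk (Pat.mk 0x8000000080000000800000000 0x140000001f0000003f0000003f0000000c0000001c00000014 10 6) 0 0 (step_sound _ 131 [(rh1741680720c097b4.shift 2 1), (rh20966da26a1c2ae8.shift 2 0), (rh771d065bdc85bf2d.shift 2 0), rhd4de90522ff9bae9] (by decide +kernel))
noncomputable def rh4641d5417c88831f : CRef := CRef.mk (Pat.mk 0x180000008e000000000000000000000000 0xe0000000f0000001c000000fe0000007f0000000e0000000c 10 8) 0 0 (step_sound _ 100 [rh2a51b324027df434, (rh4d075da104d1d80d.shift 1 0), (rhb8546cc3e1ee40c7.shift 1 2), (rhd89ac809456b9f74.shift 0 2), rhe79bc0c5fd005583] (by decide +kernel))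
noncomputable def rhb86e2aa155f10c64 : CRef := CRef.mk (Pat.mk 0x6000000038000000000000000000000000 0x3f0000007c00000070000000f80000003e000000f800000078 10 8) 0 0 (step_sound _ 68 [rh0caaa75467fd36c3, (rh1e4952eb5e5cc56e.shift 1 0), (rhadf429772c25fde0.shift 4 0), (rhf9366b6a121593ef.shift 4 0)] (by decide +kernel))
noncomputable def rh70186197807e9c1d : CRef := CRef.mk (Pat.mk 0x80000000180000008e000000000000000000000000 0x20000000f000000018000000fe0000007f0000003e0000003c 10 8) 0 0 (step_sound _ 100 [(rh84cadcd2156b2a3e.shift 1 0), (rhb7d1994e40090570.shift 1 0), (rhd89ac809456b9f74.shift 0 2)] (by decide +kernel))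
noncomputable def rhdc02cdb6ba10a529 : CRef := CRef.mk (Pat.mk 0x180000000a00000000000000000000000000000000 0x60000000e0000001e0000001c0000000f0000003f0000007e0000001e00000018 10 7) 0 0 (step_sound _ 130 [(rh53b3c253cb0c65f4.shift 0 4), rhae208d24c727d6c8] (by decide +kernel))
noncomputable def rh46ab0c2a9b9b319e : CRef := CRef.mk (Pat.mk 0x180000001a00000000000000000000000000000000 0xe0000000f0000001c0000001e0000007f0000007e0000003c00000028 10 7) 0 0 (step_sound _ 100 [(rh3cb04db3dd2b6a55.shift 3 1), (rh56259dd1390eee46.shift 3 0), (rhab85a39653b60af7.shift 0 1), (rhf351c68a885f5397.shift 1 1)] (by decide +kernel))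
noncomputable def rh86f9f6fa2c199e04 : CRef := CRef.mk (Pat.mk 0x80000000980000008a00000000000000000000000000000000 0x10000000180000001c0000002c000000fc000000dc000000fb0000007f000000ff0000007c00000014 10 8) 0 0 (step_sound _ 99 [(rh1b9022be4f7af407.shift 2 0), (rh274a837cd7eaa569.shift 2 0), (rh67e68e733fb290f2.shift 2 1), (rha9722cf4fd668a76.shift 0 1), rhfcbb194b8c53153b] (by decide +kernel))
noncomputable def rha2b2cab58841e619 : CRef := CRef.mk (Pat.mk 0x80000000980000008c00000000000000000000000000000000 0xc0000002c000000fc000000d8000000fc0000007e0000007f0000007c00000028 10 8) 0 0 (step_sound _ 132 [(rh1fc543b83a6f897a.shift 0 1), (rh4d075da104d1d80d.shift 1 1), (rhb7d1994e40090570.shift 1 1), (rhec8e258b8e00c7b4.shift 3 0)] (by decide +kernel))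
noncomputable def rh50ea659c5a13b7a6 : CRef := CRef.mk (Pat.mk 0x800000001800000032000000000000000000000000 0x50000000f0000002f000000ff0000001f0000003e0000003f0000003f00000005 10 8) 0 0 (step_sound _ 129 [rh683746ab080b38b2, (rhab22b5b56e7b3243.shift 1 3)] (by decide +kernel))
noncomputable def rh38a984a8f4da7107 : CRef := CRef.mk (Pat.mk 0x800000001800000032000000000000000000000000000000000000000000000000 0x80000002a000000ff0000001f0000003e00000036000000340000003c000000380000003800000028 10 8) 0 0 (step_sound _ 225 [(rhab22b5b56e7b3243.shift 1 6), rhe09d2463de1337ad] (by decide +kernel))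
noncomputable def rh6a8e5cbccb060a66 : CRef := CRef.mk (Pat.mk 0x800000009a00000092000000000000000000000000 0xc0000000c0000008c000000db000000fe0000007f0000005f0000004c 10 8) 0 0 (step_sound _ 99 [(rh72c11a6b449660d4.shift 0 2), rh79c450e3576a9778, (rh9e086e2a41e8f3a8.shift 0 1), rhb170006ac14812fb] (by decide +kernel))
noncomputable def rh5e34f11c52116384 : CRef := CRef.mk (Pat.mk 0x1a00000092000000020000000000000000 0x100000007000000070000000f0000001b000000f2000000070000000700000005 10 8) 0 0 (step_sound _ 102 [(rh5419adcd928dba20.shift 3 3), rh8a809a72e61aa963] (by decide +kernel))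
noncomputable def rha9745e06398f7c24 : CRef := CRef.mk (Pat.mk 0x180000009e00000000000000000000000000000000 0xc0000000e0000001f0000001b000000fe0000006c0000001c0000001c00000014 10 8) 0 0 (step_sound _ 133 [(rh2fe78cc5ca4405d8.shift 3 4), rh485ab4b64446dde8] (by decide +kernel))
noncomputable def rh36f3e860d4b4dbe6 : CRef := CRef.mk (Pat.mk 0x180000008a000000000000000000000000 0xb0000001f0000001b000000ff0000007f0000000c0000000c 10 8) 0 0 (step_sound _ 98 [(rh53b3c253cb0c65f4.shift 0 3), rh696b54a20dc23da4] (by decide +kernel))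
noncomputable def rh644a26da51ca3a63 : CRef := CRef.mk (Pat.mk 0x300000011c00000000000000000000000000000000 0x1e0000003e00000036000001fc0000001f0000007f0000003a00000002 10 9) 0 0 (step_sound _ 99 [(rh07e7ecd0f3fca5f7.shift 1 1), rh55f85f2c25794781, (rhbfbf48a4e1344535.shift 1 1), (rhcf80391c5046a495.shift 3 1)] (by decide +kernel))
noncomputable def rh3f2ba84d663c4bfc : CRef := CRef.mk (Pat.mk 0x30000001140000000000000000000000000000000000000000 0x180000003e00000034000001de000000fe000000ff000000380000003800000008 10 9) 0 0 (step_sound _ 132 [(rh144b706311123356.shift 1 2), (rh1b9022be4f7af407.shift 3 1), (rh6fe0bce197c5095f.shift 1 0), (rhac057c3649b8bb00.shift 0 2)] (by decide +kernel))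
noncomputable def rhe8b4441de656021c : CRef := CRef.mk (Pat.mk 0x80000000980000008a00000000000000000000000000000000 0xc0000002f000000ff000000db000000fe0000007f0000007e0000007c00000028 10 8) 0 0 (step_sound _ 132 [(rh261621c8b72adfe9.shift 0 1), (rh39c5152c7ef1ece7.shift 0 1), (rhaccdba7baad01112.shift 0 1), (rhcfdc7354c1575105.shift 0 1), (rhd3f17668cbdbc349.shift 1 1), (rhec8e258b8e00c7b4.shift 3 0)] (by decide +kernel))
noncomputable def rh8b41e08f589ba38b : CRef := CRef.mk (Pat.mk 0x80000000980000008a00000000000000000000000000000000 0x10000000180000001c0000002c000000fc000000d8000000fb0000007f000000ff0000007c00000014 10 8) 0 0 (step_sound _ 99 [(rh1b9022be4f7af407.shift 2 0), (rh274a837cd7eaa569.shift 2 0), (rh3820f35d5e705bec.shift 3 0), (rha9722cf4fd668a76.shift 0 1), rhfcbb194b8c53153b] (by decide +kernel))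
noncomputable def rh1460cc66e5c90c7e : CRef := CRef.mk (Pat.mk 0x8000000180000009e00000000 0xd0000000f0000001f0000001b000000fe00000063 10 8) 0 0 (step_sound _ 37 [(rh2fe78cc5ca4405d8.shift 3 1), rhdbb6ac29c57f6840] (by decide +kernel))
noncomputable def rh92f9d0d45b5b8cde : CRef := CRef.mk (Pat.mk 0x80000000000000018000000000000000000000000 0x140000001c0000001c0000000c0000001e0000001f0000001f0000001f00000014 10 5) 0 0 (step_sound _ 131 [(rh04bc0bc315096e76.shift 2 1), (rh8599f462953abc6e.shift 3 2), rhb41d816190790f34, (rhe380c42df720a63d.shift 2 2)] (by decide +kernel))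
noncomputable def rh34504ae126c5d9d5 : CRef := CRef.mk (Pat.mk 0x600000030000000000000000000000000 0x1c0000001c0000007c0000007c0000000f0000003c0000001c0000001c00000014 10 7) 0 0 (step_sound _ 99 [(rh09d4dfe75d4407d6.shift 1 3), rh4089800d48005743] (by decide +kernel))
noncomputable def rhb3ae00103589d4de : CRef := CRef.mk (Pat.mk 0x1c000000680000000000000000000000000000000000000000 0x140000001c0000001c0000000c0000000c0000001c0000001c0000006c0000003f0000003c0000001c0000001c00000014 10 7) 0 0 (step_sound _ 131 [(rh1b9022be4f7af407.shift 2 1), (rh261f868a429ae0e3.shift 2 3), rh777dd4b4667f225f, (rhcf9591f4497d4872.shift 2 3), (rhd1779d7de7f8215b.shift 2 1)] (by decide +kernel))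
noncomputable def rhee0dd698f306bede : CRef := CRef.mk (Pat.mk 0x18000000c000000000 0xe0000000e0000007f0000007e000000cf0000000c 10 8) 0 0 (step_sound _ 69 [rh262517e2c925a6fe, (rhd6e447e81774439e.shift 3 1)] (by decide +kernel))
noncomputable def rhd798ef74f959d1d1 : CRef := CRef.mk (Pat.mk 0x1000000030000001a00000002000000000 0x2e0000003e0000003e000001be000000fe0000005f 10 9) 0 0 (step_sound _ 36 [rh426ba0b2b4907369, (rh762aa57f284f76f4.shift 4 0), (rh7c446e0f53cc8f2c.shift 1 0)] (by decide +kernel))
noncomputable def rhf4db68b9f29d9cf4 : CRef := CRef.mk (Pat.mk 0x1000000030000001a00000000000000000 0x1c0000001f0000001b0000001be000001fe0000007f 10 9) 0 0 (step_sound _ 37 [rh777b9bda97f69bab, (rh7b1f1fb55310c477.shift 4 0)] (by decide +kernel))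
noncomputable def rh9c411d2b2e3d0c6d : CRef := CRef.mk (Pat.mk 0x30000000c000000000 0xe0000000e0000007f0000007e000000cf0000000c 10 8) 0 0 (step_sound _ 67 [rh262517e2c925a6fe, (rhd6e447e81774439e.shift 3 1)] (by decide +kernel))
noncomputable def rhaa074bc79cbd73ab : CRef := CRef.mk (Pat.mk 0x8000000080000000c0000006800000000 0x40000000760000007f0000007b0000006f0000006c00000064 10 7) 0 0 (step_sound _ 34 [(rh932754581e0f4330.shift 2 0), rhcbf025f0320da715] (by decide +kernel))
noncomputable def rhb0c0caaae9278097 : CRef := CRef.mk (Pat.mk 0x2000000830000009a000000820000000000000000 0x290000007f000000ff0000007e000000fb000000da000000fa0000002800000008 10 8) 0 0 (step_sound _ 164 [(rh04e571695666b5c1.shift 0 2), (rh39edbc2707e147d4.shift 2 1), (rh49dffc97f3af0245.shift 0 2), (rhe2f17fec58496afd.shift 3 0)] (by decide +kernel))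
noncomputable def rhc0239ae2c177fbc9 : CRef := CRef.mk (Pat.mk 0x22c000002680000020000000000 0x500000017e0000017e000001ef000003ec0000036e0000027e0000003a 10 10) 0 0 (step_sound _ 130 [rh12308c6a50d19d02, (rh1b9b6cfe612a1233.shift 2 0), (rhc2c7bae8f445c890.shift 2 0)] (by decide +kernel))
noncomputable def rh443239dc925135e3 : CRef := CRef.mk (Pat.mk 0x10000001160000013000000102000000000000000000000000 0x500000087000000a7000000f7000001f7000001b70000011f000000170000000700000005 10 9) 0 0 (step_sound _ 129 [(rh3820f35d5e705bec.shift 1 0), (rhc6fe31673e54c5fe.shift 0 2), (rhd2b286e370d4a8f3.shift 0 1), rhe95a2e51b0ee5fdb] (by decide +kernel))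
noncomputable def rh22da7bfa02527236 : CRef := CRef.mk (Pat.mk 0x180000000000000008000000000000000000000000 0x140000001f0000001f0000001f0000000e0000000f0000003c0000001c00000014 10 6) 0 0 (step_sound _ 131 [(rh19e48db1e9b4e625.shift 2 0), (rh429d19b7247fe8fb.shift 0 2), (rhd8480aedf4075c15.shift 2 0), (rhe0cbc6fe9ebbddec.shift 0 1), (rhe95a2e51b0ee5fdb.shift 2 0)] (by decide +kernel))
noncomputable def rhb7b6bcee7ef4e0aa : CRef := CRef.mk (Pat.mk 0x1000000030000001a00000000000000000 0x2000000060000001e0000001f0000001b0000001be000001fe0000003f 10 9) 0 0 (step_sound _ 37 [rh63080b9386eb016f, (rh7b1f1fb55310c477.shift 4 0)] (by decide +kernel))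
noncomputable def rhcab69dc4527dbc14 : CRef := CRef.mk (Pat.mk 0x600000030000000000000000000000000 0x1c0000001c0000007c0000003e0000000f0000003c0000001c0000001c00000014 10 7) 0 0 (step_sound _ 99 [(rh09d4dfe75d4407d6.shift 1 3), rh48ab553543eaa8b0] (by decide +kernel))
noncomputable def rh06ddc8bd010ad99c : CRef := CRef.mk (Pat.mk 0x830000001a000000820000000200000000 0x50000002f0000003f0000003f0000007e000000f30000001b000000fe0000002e0000000c 10 8) 0 0 (step_sound _ 34 [(rh55afc6a59410cf00.shift 1 0), rhc2e3b5f24a54749e] (by decide +kernel))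
noncomputable def rh04d899bdc6923101 : CRef := CRef.mk (Pat.mk 0x8a0000001a000000000000000000000000 0xc0000000c0000000c000000ff0000001b0000001f0000000e0000000c 10 8) 0 0 (step_sound _ 130 [rh560b1cef9383d2e2, (rhb739f4f82bb681b4.shift 0 3)] (by decide +kernel))
noncomputable def rh281da4ebeab7dbf4 : CRef := CRef.mk (Pat.mk 0x8a0000009a000000800000000000000000 0x5c0000005c0000007c000000ff000000da000000ff0000002e0000000c 10 8) 0 0 (step_sound _ 130 [rha6114db7e5bf5cce, (rhb739f4f82bb681b4.shift 0 3)] (by decide +kernel))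
noncomputable def rh9707a54741bc1ea1 : CRef := CRef.mk (Pat.mk 0x8a0000009a000000800000000000000000 0x280000007c0000007c0000007c000000fe000000db000000ff0000002e0000000c 10 8) 0 0 (step_sound _ 132 [(rh261712888e79039c.shift 3 0), (rh2bffe42818799cc9.shift 0 3), rh82c30767fac832a5, rh90dbbabb338a2226, (rh95b8e0c093d5ee59.shift 2 0), (rha7ce9b621bac07ab.shift 0 1)] (by decide +kernel))
noncomputable def rh5044f69ea7942337 : CRef := CRef.mk (Pat.mk 0x8a0000009a0000008000000000000000000000000000000000 0x140000007c000000ff0000007f000000fb000000da000000fc0000002c0000001c0000001800000010 10 8) 0 0 (step_sound _ 227 [(rh0fa4a62bba50784f.shift 2 4), rh3c1dabe2d88100ca, (rh4ddade8495dec673.shift 0 2), (rh8599f462953abc6e.shift 3 4), (rhfb9fb48a5e63ed80.shift 2 4)] (by decide +kernel))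
noncomputable def rhad9f103db8ba9058 : CRef := CRef.mk (Pat.mk 0x8a0000009a000000800000000000000000 0x280000007c0000007f0000007f000000fe000000db000000fc0000002c0000000c 10 8) 0 0 (step_sound _ 132 [(rh0891dfdb1cc63347.shift 0 1), (rh187da8fb71e75d78.shift 1 0), (rh261712888e79039c.shift 3 0), (rh99980c94e15b7a86.shift 0 3), (rha7ce9b621bac07ab.shift 0 1), (rhdcef8191df21adf8.shift 1 0), rhf79878c57ce9baa0] (by decide +kernel))
noncomputable def rha453364a09cfcd2b : CRef := CRef.mk (Pat.mk 0xc0000006800000000000000000000000000000000 0x140000001f0000007f0000003c0000006c0000000c0000001c0000001c00000014 10 7) 0 0 (step_sound _ 164 [rhd1c7d191b63d8050, (rhd6e447e81774439e.shift 2 4)] (by decide +kernel))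
noncomputable def rhc958543207087f44 : CRef := CRef.mk (Pat.mk 0x120000001e000000100000000000000000 0x280000003f0000003f0000001a0000001e0000001f0000000c00000004 10 6) 0 0 (step_sound _ 65 [rhd3806b5a8325d5c4, (rheb0810cc63b001d8.shift 0 2)] (by decide +kernel))
noncomputable def rh2dd356877aa18ecd : CRef := CRef.mk (Pat.mk 0x104000001340000010000000000000000000000000000000000 0x500000007a000000fe000000fe000000fe000001f6000001b6000001fe0000005f0000001e0000000e0000000a 10 9) 0 0 (step_sound _ 197 [rhbc640c4ed00ddd04, (rhbcde47e7dc71a931.shift 4 2), (rhe028dda05b456f2a.shift 3 3), (rhe2fad46ac445cad6.shift 0 1)] (by decide +kernel))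
noncomputable def rh68ae1f970aee6840 : CRef := CRef.mk (Pat.mk 0x80000000800000008000000000000000000000000 0x140000001c0000000c0000003f0000003f0000001f00000014 10 6) 0 0 (step_sound _ 67 [(rh39a5f9b23db30fdb.shift 0 1), (rh6eff4158bb400f47.shift 2 0), (rh8ff3dde5b1c639e0.shift 2 0), (rhc4526fc8abf298b6.shift 2 0)] (by decide +kernel))
noncomputable def rhe41d4a35f747dace : CRef := CRef.mk (Pat.mk 0x8e000000180000000000000000 0xc0000000e0000007f000000fe0000001c0000000f0000000e 10 8) 0 0 (step_sound _ 100 [(rh048a568a71929d31.shift 0 2), (rh1134327336d3a48e.shift 1 0), (rh361215bab1155e5e.shift 1 2), rh6166e12b4845748b, rhc495c7abd6a5eafa] (by decide +kernel))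
noncomputable def rh8f62f24ee490e84a : CRef := CRef.mk (Pat.mk 0x38000000600000000000000000 0x78000000f80000003e000000f8000000700000007c0000003f 10 8) 0 0 (step_sound _ 132 [(rh53e8740f4ae901e6.shift 1 0), rh86ab566745c2369d, (rha40d42a2e34c408d.shift 4 0), (rhc38f566cab2818e5.shift 4 0)] (by decide +kernel))
noncomputable def rh867cad3b24fbb13a : CRef := CRef.mk (Pat.mk 0x8e000000180000008000000000 0x3c0000003e0000007f000000fe00000018000000f000000020 10 8) 0 0 (step_sound _ 100 [(rh048a568a71929d31.shift 0 2), (rh0f46d994b415db7f.shift 1 0), (rh11f8b7d1d12c8ca9.shift 1 1)] (by decide +kernel))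
noncomputable def rh5d3ae0958ebee2d0 : CRef := CRef.mk (Pat.mk 0xa00000018000000000000000000000000 0x180000001e0000007e0000003f0000000f0000001c0000001e0000000e00000006 10 7) 0 0 (step_sound _ 130 [rh58a978bb1f360635, (rhb739f4f82bb681b4.shift 0 3)] (by decide +kernel))
noncomputable def rh3537eeea6d3a9085 : CRef := CRef.mk (Pat.mk 0x1a000000180000000000000000 0x280000003c0000007e0000007f0000001e0000001c0000000f0000000e 10 7) 0 0 (step_sound _ 132 [(rh503dd4575245365b.shift 3 1), (rh68a777751bfeafdf.shift 3 1), (rhb54a06ec479fcef8.shift 1 2), rhe919283ada59ae52] (by decide +kernel))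
noncomputable def rh73049dd20718e319 : CRef := CRef.mk (Pat.mk 0x8a000000980000008000000000000000000000000000000000 0x140000007c000000ff0000007f000000fb000000dc000000fc0000002c0000001c0000001800000010 10 8) 0 0 (step_sound _ 227 [(rh0fa4a62bba50784f.shift 2 4), rh22562c41f0e2b7e4, (rh53287dc308810e87.shift 2 3), (rhd98f850c0bd2fe54.shift 0 4), (rhfb9fb48a5e63ed80.shift 2 4)] (by decide +kernel))
noncomputable def rh97d114dade78781e : CRef := CRef.mk (Pat.mk 0x8c00000098000000800000000000000000 0x280000007c0000007f0000007e000000fc000000d8000000fc0000002c0000000c 10 8) 0 0 (step_sound _ 132 [(rh1134327336d3a48e.shift 1 1), (rh11f8b7d1d12c8ca9.shift 1 2), rh84f1e2371b19fba5, (rhbcde47e7dc71a931.shift 3 0)] (by decide +kernel))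
noncomputable def rh8ae4ebadcf947405 : CRef := CRef.mk (Pat.mk 0x320000001800000080000000000000000000000000 0x50000003f0000003f0000003e0000001f000000ff0000002f0000000f00000005 10 8) 0 0 (step_sound _ 129 [(rh24ae073cf30720c4.shift 1 4), rh295ad7da4ff96e5a] (by decide +kernel))
noncomputable def rh70984efee0ec0098 : CRef := CRef.mk (Pat.mk 0x3200000018000000800000000000000000 0x2800000038000000380000003c00000034000000360000003e0000001f000000ff0000002a00000008 10 8) 0 0 (step_sound _ 97 [(rh24ae073cf30720c4.shift 1 3), rhf374e772a63bd170] (by decide +kernel))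
noncomputable def rh967aefb26a03770f : CRef := CRef.mk (Pat.mk 0x920000009a000000800000000000000000 0x4c0000005f0000007f000000fe000000db0000008c0000000c0000000c 10 8) 0 0 (step_sound _ 131 [(rh8142cb80c7cc6ba9.shift 0 3), (rh8c2cef739e796b6b.shift 0 1), (rha7ce9b621bac07ab.shift 0 1), rhf79878c57ce9baa0] (by decide +kernel))
noncomputable def rhae524631be56ac83 : CRef := CRef.mk (Pat.mk 0x2000000920000001a00000000000000000000000000000000 0x50000000700000007000000f20000001b0000000f000000070000000700000001 10 8) 0 0 (step_sound _ 166 [(rhb2a0b9ccfb5cecd5.shift 3 4), rhc70d6ac6cf6b8c39] (by decide +kernel))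
noncomputable def rhb2e4c02625a00096 : CRef := CRef.mk (Pat.mk 0x9e00000018000000000000000000000000 0x140000001c0000001c0000006c000000fe0000001b0000001f0000000e0000000c 10 8) 0 0 (step_sound _ 133 [rh1f9063794c5da279, (rh361cc68994bd8a63.shift 3 3)] (by decide +kernel))
noncomputable def rhf08c82a25e0f7291 : CRef := CRef.mk (Pat.mk 0x8a000000180000000000000000 0xc0000000c0000007f000000ff0000001b0000001f0000000b 10 8) 0 0 (step_sound _ 98 [rh2d173763316c0cdd, (rhb739f4f82bb681b4.shift 0 2)] (by decide +kernel))
noncomputable def rh54091e9a6430fdf9 : CRef := CRef.mk (Pat.mk 0x11c000000300000000000000000 0x20000003a0000007f0000001f000001fc000000360000003e0000001e 10 9) 0 0 (step_sound _ 131 [(rh1f88ddd64e5d4105.shift 1 0), (rh248f9f3b9dfebb81.shift 0 1), (rh2f738bc5a06b636b.shift 1 0), (rhc2c7bae8f445c890.shift 3 0)] (by decide +kernel))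
noncomputable def rh9199b6f4b93274f0 : CRef := CRef.mk (Pat.mk 0x114000000300000000000000000 0x80000003800000038000000ff000000fe000001de000000340000003e00000018 10 9) 0 0 (step_sound _ 132 [(rh976cd9b90b304704.shift 1 0), (rhc79d8e4c006bb434.shift 1 1), rhee1ced0b6235da1e, (rhfb9fb48a5e63ed80.shift 3 1)] (by decide +kernel))
noncomputable def rha6f02ae565bbabac : CRef := CRef.mk (Pat.mk 0x8a00000098000000800000000000000000 0x280000007c0000007e0000007f000000fe000000db000000ff0000002f0000000c 10 8) 0 0 (step_sound _ 132 [(rh1ce77944fa708344.shift 0 1), (rh22872bc44033e90b.shift 0 1), (rh4c8a13d81ff46705.shift 1 1), rh53ccc6d2fd87d9c1, (rhbcde47e7dc71a931.shift 3 0), (rhcb63864de3ca432b.shift 0 1)] (by decide +kernel))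
noncomputable def rh58e556083d2898f7 : CRef := CRef.mk (Pat.mk 0x8a000000980000008000000000000000000000000000000000 0x140000007c000000ff0000007f000000fb000000d8000000fc0000002c0000001c0000001800000010 10 8) 0 0 (step_sound _ 227 [(rh0fa4a62bba50784f.shift 2 4), rh22562c41f0e2b7e4, (rh8599f462953abc6e.shift 3 4), (rhd98f850c0bd2fe54.shift 0 4), (rhfb9fb48a5e63ed80.shift 2 4)] (by decide +kernel))
noncomputable def rh7476e0c8eef8682e : CRef := CRef.mk (Pat.mk 0x9e00000018000000080000000000000000 0x63000000fe0000001b0000001f0000000f0000000d 10 8) 0 0 (step_sound _ 133 [rh32009619bea38dae, (rh361cc68994bd8a63.shift 3 3)] (by decide +kernel))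
noncomputable def rh1e60a8eb99e71d69 : CRef := CRef.mk (Pat.mk 0x180000000000000008000000000000000000000000 0x140000001f0000001f0000001f0000001e0000000c0000001c0000001c00000014 10 5) 0 0 (step_sound _ 131 [(rh3820f35d5e705bec.shift 3 0), (rh429d19b7247fe8fb.shift 0 2), (rhd8480aedf4075c15.shift 2 0), (rhe95a2e51b0ee5fdb.shift 2 0)] (by decide +kernel))
noncomputable def rhcc249fb6f854e811 : CRef := CRef.mk (Pat.mk 0x8000000880000009800000080000000000000000000000000 0x40000000500000007a000000ff000000de000000fe0000007e0000007e00000028 10 8) 0 0 (step_sound _ 100 [(rh08edf065357d68e5.shift 3 1), (rh94153e735cd682a7.shift 1 0), rhb592d46129d82bbc] (by decide +kernel))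
noncomputable def rh1b41d27cfd59ec1e : CRef := CRef.mk (Pat.mk 0x180000001800000030000000000000000000000000 0xc0000000f0000001f0000001f0000003e0000000f0000000c0000000c 10 6) 0 0 (step_sound _ 195 [(rh2145e1d24b96a57e.shift 3 3), rhc4470d30197fee4c] (by decide +kernel))
noncomputable def rh83e0ea970ce6b27c : CRef := CRef.mk (Pat.mk 0x9800000018000000000000000000000000 0xc0000000c0000000f000000ff0000001f000000060000000600000006 10 8) 0 0 (step_sound _ 133 [(rh361cc68994bd8a63.shift 3 3), rh5387d96437f41030] (by decide +kernel))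
noncomputable def rhb60019bf24e8e2f7 : CRef := CRef.mk (Pat.mk 0x800000008000000180000009800000000 0x50000000f0000001f0000001f000000fe00000007 10 8) 0 0 (step_sound _ 37 [(rh2fe78cc5ca4405d8.shift 3 1), rhb2fa4486e6508c55] (by decide +kernel))
noncomputable def rh1fe34a1840558858 : CRef := CRef.mk (Pat.mk 0x800000008000000180000009800000000 0x140000001f0000000f0000001f000000fe00000007 10 8) 0 0 (step_sound _ 37 [(rh2fe78cc5ca4405d8.shift 3 1), rhbcd1b0f199fc2c2e] (by decide +kernel))
noncomputable def rh30f9dad3c4f651b5 : CRef := CRef.mk (Pat.mk 0x98000000180000000000000000 0x3c000000fe0000007f000000df0000001c0000000c0000000c 10 8) 0 0 (step_sound _ 132 [(rh503dd4575245365b.shift 3 1), (rh9b8fea266a2cfe24.shift 1 2), rhb55f7c2655039b7a] (by decide +kernel))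
noncomputable def rh6c3665f7258cf5b7 : CRef := CRef.mk (Pat.mk 0x38000000180000000000000000 0x28000000780000007f0000003f0000001e0000000c00000008 10 7) 0 0 (step_sound _ 66 [(rh53b3c253cb0c65f4.shift 1 2), rh7d74a97389bd5075] (by decide +kernel))
end Crest.Agent.S0047.Helper85.Cert
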