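import Crest.Agent.Lib.S0047.Helper85CertPL9F0
import Crest.Agent.Lib.S0047.Helper85CertPL9F1
import Crest.Agent.Lib.S0047.Helper85CertPL9F2
import Crest.Agent.Lib.S0047.Helper85CertPL9F3
import Crest.Agent.Lib.S0047.Helper85CertPL9F4
import Crest.Agent.Lib.S0047.Helper85CertPL9F5
import Crest.Agent.Lib.S0047.Helper85CertPL9F6
set_option autoImplicit false
set_option linter.all false
set_option Elab.async false
namespace Crest.Agent.S0047.Helper85.Cert
open Crest.Agent.S0047.Helper85

noncomputable def rh9297a8d28bcced9d : CRef := CRef.mk (Pat.mk 0x98000000980000008000000000 0x7e0000007e0000007b000000ff000000df0000008c00000008 10 8) 0 0 (step_sound _ 132 [rh434966f7f09b7259, (rh503dd4575245365b.shift 3 1), (rhe9b87f9b1b1854d2.shift 1 1)] (by decide +kernel))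
noncomputable def rh2a0293148cd86a75 : CRef := CRef.mk (Pat.mk 0x800000009800000088000000080000000000000000 0x280000007e0000007e000000fe000000de000000ff0000007a0000005000000040 10 8) 0 0 (step_sound _ 164 [(rh5554349e0f397d88.shift 0 2), (rh69755ef358ebfd54.shift 3 2), (rh6ffe6ae87b9cb737.shift 1 0)] (by decide +kernel))
noncomputable def rhb37d14f122c088ac : CRef := CRef.mk (Pat.mk 0x3000000018000000180000000000000000 0xc0000000c0000000f0000003e0000001f0000001f0000000f0000000c 10 6) 0 0 (step_sound _ 35 [(rh71222050f2c63a3a.shift 3 0), rh7a5f36f9adf7ce43] (by decide +kernel))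
noncomputable def rhe38b68c8ab6caeed : CRef := CRef.mk (Pat.mk 0x1800000098000000000000000000000000 0x600000006000000060000001f000000ff0000000f0000000c0000000c 10 8) 0 0 (step_sound _ 101 [(rh2fe78cc5ca4405d8.shift 3 3), rhaaf3dac907d404b5] (by decide +kernel))
noncomputable def rh0d8136bd6128e270 : CRef := CRef.mk (Pat.mk 0x9800000018000000080000000800000000 0x7000000fe0000001f0000001f0000000f00000005 10 8) 0 0 (step_sound _ 133 [(rh361cc68994bd8a63.shift 3 3), rhf95a219af4cadbb1] (by decide +kernel))
noncomputable def rh18e79115a2337ea7 : CRef := CRef.mk (Pat.mk 0x9800000018000000080000000800000000 0x7000000fe0000001f0000000f0000001f00000014 10 8) 0 0 (step_sound _ 133 [(rh361cc68994bd8a63.shift 3 3), rhbe7d0ce69869dbdb] (by decide +kernel))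
noncomputable def rh9ed074d906653d58 : CRef := CRef.mk (Pat.mk 0x1800000098000000000000000000000000 0xc0000000c0000001c000000df0000007f000000fe0000003c 10 8) 0 0 (step_sound _ 68 [(rh3cb04db3dd2b6a55.shift 3 0), (rh87fb231a5bb8610f.shift 1 0), rhe1c372636a1a114b] (by decide +kernel))
noncomputable def rh0c9a0b8509243af2 : CRef := CRef.mk (Pat.mk 0x1800000038000000000000000000000000 0x80000000c0000001e0000003f0000007f0000007800000028 10 7) 0 0 (step_sound _ 130 [rh00b3b694dc079418, (rhb739f4f82bb681b4.shift 1 3)] (by decide +kernel))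
noncomputable def rh5f0f1f9cf8faf219 : CRef := CRef.mk (Pat.mk 0x800000009800000098000000000000000000000000 0x80000008c000000df000000ff0000007b0000007e0000007e 10 8) 0 0 (step_sound _ 68 [rh298aa8a4028fa32d, (rh3cb04db3dd2b6a55.shift 3 0), (rhcfdb7946090de03f.shift 1 0)] (by decide +kernel))
noncomputable def rhad21234594a447e7 : CRef := CRef.mk (Pat.mk 0x180000000c00000044000000080000000000000000 0x100000001a0000000f0000007c0000003c0000001f0000001e 10 7) 0 0 (step_sound _ 99 [(rh2f68792b6b779e96.shift 3 2), rh6863421a6347e34a] (by decide +kernel))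
noncomputable def rheb0c59a1644ce103 : CRef := CRef.mk (Pat.mk 0x800000009800000088000000000000000000000000 0x80000003800000078000000fe000000d8000000fe0000007f000000fc00000040 10 8) 0 0 (step_sound _ 164 [(rh37235d0a647eab3b.shift 3 2), rh62530a3de3213b77, (rh6da45e36b67121b0.shift 1 2), (rh9cdee070315fb032.shift 3 2), (rhf9366b6a121593ef.shift 3 1)] (by decide +kernel))
noncomputable def rh09e1e07911c947ac : CRef := CRef.mk (Pat.mk 0x800000009800000088000000000000000000000000 0x300000003c000000ff000000df000000f80000007f0000005c00000040 10 8) 0 0 (step_sound _ 164 [rh5fb83811badd6a97, (rh6610a29b67230cd4.shift 1 2), (rh9cdee070315fb032.shift 3 2), (rhf9366b6a121593ef.shift 3 1)] (by decide +kernel))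
noncomputable def rh263fac02a271e3fd : CRef := CRef.mk (Pat.mk 0x80000000180000000800000000000000000000000000000000 0x100000001c000000ff0000001f0000000e0000007f0000003f0000001f00000014 10 8) 0 0 (step_sound _ 99 [rh1900c1bad7e860ae, (rh215e11e099257d75.shift 3 2), (rh67e68e733fb290f2.shift 2 1), (rha6928b683ed26e13.shift 0 2), (rhea8ff04f2dae8ce0.shift 0 1)] (by decide +kernel))
noncomputable def rhbc740a9bd804b559 : CRef := CRef.mk (Pat.mk 0x1800000038000000000000000000000000 0x40000001c0000003f0000007f0000007e0000003e 10 7) 0 0 (step_sound _ 98 [(rh9d2cfa1582ad8925.shift 1 0), (rhcc2be1f880c5ea3e.shift 0 2), (rhe153806bfe3acc65.shift 0 2)] (by decide +kernel))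
noncomputable def rh8decb7cd999ad66c : CRef := CRef.mk (Pat.mk 0x1800000098000000000000000000000000 0x40000001e000000ff0000007f0000000e0000000e 10 8) 0 0 (step_sound _ 101 [(rh2fe78cc5ca4405d8.shift 3 3), rhf2f81dfa57cd0cf9] (by decide +kernel))
noncomputable def rhca91724c46c4bf27 : CRef := CRef.mk (Pat.mk 0x1800000098000000100000000000000000 0xe0000000f0000001e000000ff0000007c0000000f0000000c 10 8) 0 0 (step_sound _ 101 [(rh2fe78cc5ca4405d8.shift 3 3), rha5e0c2f6ce1ec477] (by decide +kernel))
noncomputable def rhd0206cdf68da559d : CRef := CRef.mk (Pat.mk 0x1800000018000000000000000000000000 0x80000000c0000000c0000001c0000001e0000007f0000001f0000000c 10 7) 0 0 (step_sound _ 163 [(rh3e595262c1b737ad.shift 3 2), (rh56c4d967d40da13a.shift 2 0), rhe6ce55b9acb097d9] (by decide +kernel))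
noncomputable def rhee5afb2893b9472c : CRef := CRef.mk (Pat.mk 0x8000000098000000980000000000000000000000000000000000000000 0xc0000008c000000df000000ff0000007b0000007e0000007e0000003800000008 10 8) 0 0 (step_sound _ 132 [(rh1864e4c677b30864.shift 1 2), (rh374f969bc1712915.shift 3 0), (rh3cb04db3dd2b6a55.shift 3 2), (rh6863421a6347e34a.shift 1 2), (rh8fe7b194326bff87.shift 0 2)] (by decide +kernel))
noncomputable def rhd7aa0111bfec533c : CRef := CRef.mk (Pat.mk 0xc0000004c0000000000000000000000000000000000000000 0x4000000060000000f0000007c0000001f0000007e0000001e0000001c00000004 10 7) 0 0 (step_sound _ 131 [(rh2679e93df8ea655e.shift 0 2), (rh374f969bc1712915.shift 2 0), (rh3cb04db3dd2b6a55.shift 2 2), (rhb9d85aad953dd529.shift 0 2), (rhfc7c29d8e65d775f.shift 2 3)] (by decide +kernel))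
noncomputable def rh1984326cfb65449e : CRef := CRef.mk (Pat.mk 0x1800000038000000000000000000000000 0xc0000000c0000001e0000003f0000007f0000007a0000002a 10 7) 0 0 (step_sound _ 130 [rh414372eb8e119cbd, (rhb739f4f82bb681b4.shift 1 3)] (by decide +kernel))
noncomputable def rh6c8167589800f476 : CRef := CRef.mk (Pat.mk 0x8000000440000000c0000001800000000 0x1e0000001f0000003c0000007c0000000f0000001a00000010 10 7) 0 0 (step_sound _ 99 [(rh55afc6a59410cf00.shift 3 0), (rh802f2cf61dd9852b.shift 0 1)] (by decide +kernel))
noncomputable def rhae5ca070f686698e : CRef := CRef.mk (Pat.mk 0x880000009800000080000000000000000000000000 0x40000000fc0000007f000000fe000000d8000000fe000000780000003800000008 10 8) 0 0 (step_sound _ 100 [(rh7e1098702e50f2b0.shift 3 1), (rh990fd10f5c71e5ea.shift 3 1), (rhc38f566cab2818e5.shift 3 1), rhd0ffd2bde57e6e1f, (rhdb979701e2373415.shift 1 1)] (by decide +kernel))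
noncomputable def rhdd00a17c90c898c9 : CRef := CRef.mk (Pat.mk 0x8800000098000000800000000000000000 0x400000005c0000007f000000f8000000df000000ff0000003c00000030 10 8) 0 0 (step_sound _ 68 [(rh7e1098702e50f2b0.shift 3 0), (rh83aef45cdbd4f3ab.shift 1 0), (rh8b475b508608ef07.shift 0 1), (rhc38f566cab2818e5.shift 3 0)] (by decide +kernel))
noncomputable def rhbc4ef545190063d6 : CRef := CRef.mk (Pat.mk 0x800000018000000800000000000000000 0x140000001f0000003f0000007f0000000e0000001f000000ff0000001c00000010 10 8) 0 0 (step_sound _ 163 [(rh53287dc308810e87.shift 2 1), (rh55062ee754f0a1e3.shift 0 2), (rh70e33bfdf511e144.shift 3 0), (rhc42d113393796eba.shift 0 2), (rhe1e323b7c97a3ef5.shift 0 1)] (by decide +kernel))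
noncomputable def rh95a94dab6b2ebe5b : CRef := CRef.mk (Pat.mk 0x380000001800000000 0x3e0000007e0000007f0000003f0000001c00000004 10 7) 0 0 (step_sound _ 66 [(rh46cdcd508882dcca.shift 1 0), (rhba89ab7cb81bcc90.shift 0 1), (rhe25191970535449e.shift 0 1)] (by decide +kernel))
noncomputable def rhb2155e26bd351a50 : CRef := CRef.mk (Pat.mk 0x980000001800000000 0xe0000000e0000007f000000ff0000001e00000004 10 8) 0 0 (step_sound _ 69 [(rh361cc68994bd8a63.shift 3 1), rh665881483872f49d] (by decide +kernel))
noncomputable def rhfcea001bcbe5521c : CRef := CRef.mk (Pat.mk 0x1000000098000000180000000000000000 0xc0000000f0000007c000000ff0000001e0000000f0000000e 10 8) 0 0 (step_sound _ 101 [(rh361cc68994bd8a63.shift 3 2), rha693c6881fea7b59] (by decide +kernel))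
noncomputable def rh8fde4cdccd3e899f : CRef := CRef.mk (Pat.mk 0x1800000018000000000000000000000000 0xc0000001f0000007f0000001e0000001c0000000c0000000c00000008 10 7) 0 0 (step_sound _ 67 [(rh4224daa486c73048.shift 2 0), (rh8e77edae91edbe13.shift 0 1), (rhea7a1800d6f053bd.shift 3 0)] (by decide +kernel))
noncomputable def rh3d2220da2274a1a5 : CRef := CRef.mk (Pat.mk 0x98000000980000008000000000 0x8000000380000007e0000007e0000007b000000ff000000df0000008c0000000c 10 8) 0 0 (step_sound _ 132 [(rh0e0b417350209c69.shift 3 1), rh3d9652a46b5afaaf, (rh503dd4575245365b.shift 3 1), (rh802f2cf61dd9852b.shift 1 1), (rh9dbc063ae34b2487.shift 1 2)] (by decide +kernel))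
noncomputable def rh1d5c82b34dbe998d : CRef := CRef.mk (Pat.mk 0x4c0000000c0000000000000000 0x40000001c0000001e0000007e0000001f0000007c0000000f0000000600000004 10 7) 0 0 (step_sound _ 131 [(rh0e0b417350209c69.shift 2 1), (rh1d01428565a91be3.shift 0 1), (rh1e309b005ffa1b36.shift 2 0), (rh503dd4575245365b.shift 2 1), rhabcff902e6668b20] (by decide +kernel))
noncomputable def rhad8bc96c530e2248 : CRef := CRef.mk (Pat.mk 0x38000000180000000000000000 0x2a0000007a0000007f0000003f0000001e0000000c0000000c 10 7) 0 0 (step_sound _ 66 [(rh53b3c253cb0c65f4.shift 1 2), rh68fbc6e72d8657e9] (by decide +kernel))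
noncomputable def rha87271071b4420c4 : CRef := CRef.mk (Pat.mk 0x880000009800000080000000000000000000000000 0x7c000000fc0000007f000000ff000000de000000bc0000003c0000003c00000028 10 8) 0 0 (step_sound _ 164 [(rh20277466cec22ba9.shift 1 1), (rh45933d6a9168fb6a.shift 0 1), rha8283d89e419fa81, (rhd6462a555c5a1f5d.shift 1 1), (rhe055638bb88dfdce.shift 0 2), (rhf6a3776b7cfca2ba.shift 1 1)] (by decide +kernel))
noncomputable def rhb83153b422032711 : CRef := CRef.mk (Pat.mk 0x180000001800000008000000000000000000000000 0x800000018000000180000001c0000001f0000003f000000170000000200000002 10 6) 0 0 (step_sound _ 195 [(rh55a1f6c57a317ce6.shift 3 2), (rh925a1628dd8a50da.shift 2 2), rhbefa170d204f187d] (by decide +kernel))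
noncomputable def rhd76a106ffd3063e5 : CRef := CRef.mk (Pat.mk 0x38000000180000000000000000 0x20000000380000007f0000003f0000001e0000000f0000000e 10 7) 0 0 (step_sound _ 66 [(rh53b3c253cb0c65f4.shift 1 2), rhd625ba0c46031fe9] (by decide +kernel))
noncomputable def rhe50916ebc372b94f : CRef := CRef.mk (Pat.mk 0x9800000018000000000000000000000000 0x80000002f000000ff0000001f0000003f0000007f0000003c 10 8) 0 0 (step_sound _ 133 [(rh361cc68994bd8a63.shift 3 3), rh418fc2c151112ccd] (by decide +kernel))
noncomputable def rh2a1fd7fed73c117a : CRef := CRef.mk (Pat.mk 0x100000009800000098000000800000000000000000 0x50000004f0000004f0000007b000000ff000000df000000870000000400000004 10 8) 0 0 (step_sound _ 98 [(rh21357a2533224916.shift 0 2), (rh2b3584ef0f05e9c2.shift 1 3), rh3505f2f91438b57d, (rha235d9c8b0766a92.shift 2 2)] (by decide +kernel))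
noncomputable def rh05c7b11d0956b2e5 : CRef := CRef.mk (Pat.mk 0x980000001800000000000000000000000000000000 0x40000000c0000000c00000008000000fc0000001f0000003f0000001f0000001e00000002 10 8) 0 0 (step_sound _ 195 [(rh55a1f6c57a317ce6.shift 3 2), (rh8689dfc46ad8ea14.shift 1 3), rh8843564cd6577c7f, (rhe380c42df720a63d.shift 2 3)] (by decide +kernel))
noncomputable def rhf6563e1c14d6cdcd : CRef := CRef.mk (Pat.mk 0x8800000098000000800000000000000000 0x7c000000fe0000007f000000ff000000df000000bb0000003b00000038 10 8) 0 0 (step_sound _ 132 [(rh3f59e6a013622bb8.shift 0 1), (rhad87b0763af9651c.shift 1 0), (rhd6462a555c5a1f5d.shift 1 0), (rhe055638bb88dfdce.shift 0 1), (rhf6a3776b7cfca2ba.shift 1 0)] (by decide +kernel))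
noncomputable def rhc7bb724af1b99250 : CRef := CRef.mk (Pat.mk 0x1800000018000000100000001000000000 0x40000001c0000001e0000003f0000007f0000002f 10 7) 0 0 (step_sound _ 35 [(rh932754581e0f4330.shift 3 0), rhdab6572807aa35fd] (by decide +kernel))
noncomputable def rh18a6c5132bf7b5f9 : CRef := CRef.mk (Pat.mk 0x180000001800000000000000000000000000000000 0x140000001f0000003f0000003f0000001c0000001f0000003f0000001f0000001600000002 10 6) 0 0 (step_sound _ 195 [(rh55a1f6c57a317ce6.shift 3 2), (rhc42d113393796eba.shift 0 3), rhc464197ce592b6ee] (by decide +kernel))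
noncomputable def rh43ff0f3d226ab0a1 : CRef := CRef.mk (Pat.mk 0x4c0000000c000000000000000000000000 0x1e0000001e0000003f0000007e0000000f000000080000000800000008 10 7) 0 0 (step_sound _ 132 [(rh361cc68994bd8a63.shift 2 3), rh750b9e76c52aaf72] (by decide +kernel))
noncomputable def rh750849ca8b439a15 : CRef := CRef.mk (Pat.mk 0x880000001800000000000000000000000000000000 0x10000000fc0000007c000000ff000000180000003f0000003c0000003c0000000c 10 8) 0 0 (step_sound _ 100 [(rh9c2a72697f2d208f.shift 3 1), rhac7560f1acf2078e, (rhc2c7bae8f445c890.shift 3 1), (rhc38f566cab2818e5.shift 3 1)] (by decide +kernel))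
noncomputable def rh802733d91df2925f : CRef := CRef.mk (Pat.mk 0x13000000130000001000000000000000000 0xe0000001f0000000fc000001f7000001be000001670000006000000060 10 9) 0 0 (step_sound _ 69 [(rh3cb04db3dd2b6a55.shift 4 0), (rh47fa5c87a0439ef3.shift 0 2), (rh4ee84d7f73540b6b.shift 4 0)] (by decide +kernel))
noncomputable def rh11a24f01974d17ff : CRef := CRef.mk (Pat.mk 0x800000018000000180000000800000000 0x60000000f0000001b0000001f0000003f00000017 10 6) 0 0 (step_sound _ 36 [(rh7b1f1fb55310c477.shift 3 0), rha9b0dbb92523ed99] (by decide +kernel))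
noncomputable def rh2ff17fcc4643d715 : CRef := CRef.mk (Pat.mk 0x80000001800000018000000000000000000000000 0x170000001f0000001b0000001f0000000f0000000c0000000c 10 5) 0 0 (step_sound _ 67 [(rh46530d756bdf8511.shift 2 0), (rhc5aac8a1aa3b6603.shift 0 1), (rhea7a1800d6f053bd.shift 3 0)] (by decide +kernel))
noncomputable def rh6183a1c9b6b1e071 : CRef := CRef.mk (Pat.mk 0x8800000018000000000000000000000000 0x340000003400000077000000ff0000001f0000003f0000003f0000003c 10 8) 0 0 (step_sound _ 132 [rh2a6f1d245b226674, (rh3f59e6a013622bb8.shift 0 1), rhc7ee9b345b80c973, (rhe055638bb88dfdce.shift 0 1)] (by decide +kernel))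
noncomputable def rhc61d8300ede75370 : CRef := CRef.mk (Pat.mk 0x8800000018000000000000000000000000 0x3e0000003e00000077000000ff0000001f0000003f0000003f0000003c 10 8) 0 0 (step_sound _ 132 [rh2a6f1d245b226674, (rh3f59e6a013622bb8.shift 0 1), rh6aa60ec1858dcc2b, (rhe055638bb88dfdce.shift 0 1), (rhed22d6b9375844d9.shift 0 1)] (by decide +kernel))
noncomputable def rh5b2f4a670329848a : CRef := CRef.mk (Pat.mk 0x9800000018000000000000000000000000 0xc000000fc0000007f000000df0000001c0000000c0000000c0000000c 10 8) 0 0 (step_sound _ 67 [rh89fdf87e8478868f, (rhea7a1800d6f053bd.shift 3 0), (rhf0d6b9d574336390.shift 0 1)] (by decide +kernel))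
noncomputable def rh4399dfdfd21c8439 : CRef := CRef.mk (Pat.mk 0x80000001800000000000000000000000000000000 0xc0000001c0000001c0000001c0000000f0000001f0000001f0000001f0000001c00000014 10 5) 0 0 (step_sound _ 195 [(rh70e33bfdf511e144.shift 3 1), (rh8084a1dab3b7b6c1.shift 0 1), rhb6253e9002b1da89, (rhe380c42df720a63d.shift 2 3)] (by decide +kernel))
noncomputable def rhd938cdd7904ec712 : CRef := CRef.mk (Pat.mk 0x80000000800000018000000000000000000000000 0x140000003c0000000f0000001c0000001f0000001f00000014 10 6) 0 0 (step_sound _ 67 [(rh3a61644a128cd4ab.shift 0 1), (rh6eff4158bb400f47.shift 2 0), (rh6fad83ad57b27f59.shift 0 1)] (by decide +kernel))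
noncomputable def rhc8da3ab4cdde8b50 : CRef := CRef.mk (Pat.mk 0x800000009800000088000000000000000000000000 0x280000003c0000003c000000bc000000de000000ff0000007f000000fc0000007c 10 8) 0 0 (step_sound _ 100 [(rh4e3d17ed4e0bd162.shift 1 0), rh695e4327c06d4c46, rh85d77ecd2c80b326, (rh94c5fc1c0baff1ef.shift 0 1), (rh9ab9340be25a56d2.shift 1 0), (rhc4ef6306db5f37fa.shift 1 0)] (by decide +kernel))
noncomputable def rhdc88b98d162f9d3e : CRef := CRef.mk (Pat.mk 0x80000001800000018000000000000000000000000 0x200000002000000170000003f0000001f0000001c000000180000001800000008 10 6) 0 0 (step_sound _ 67 [(rh5bed7c9796b057f5.shift 0 1), (rh84d1c02a8954c6a8.shift 3 1), (rhdf997f77704b6375.shift 2 0)] (by decide +kernel))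
noncomputable def rhc22b258d349666c3 : CRef := CRef.mk (Pat.mk 0x1800000038000000000000000000000000 0xe0000000f0000001e0000003f0000007f0000003800000020 10 7) 0 0 (step_sound _ 130 [rh71f295951b0bbc82, (rhb739f4f82bb681b4.shift 1 3)] (by decide +kernel))
noncomputable def rh3e0b5a22380f97db : CRef := CRef.mk (Pat.mk 0x18000000980000000000000000 0x3c0000007f0000003f0000001f000000ff0000002f00000008 10 8) 0 0 (step_sound _ 69 [rh13c0b3e8771b4a82, (rh2fe78cc5ca4405d8.shift 3 2)] (by decide +kernel))
noncomputable def rh89e078b72c74d685 : CRef := CRef.mk (Pat.mk 0x80000000980000009800000010000000000000000000000000 0x40000000400000087000000df000000ff0000007b0000004f0000004f00000005 10 8) 0 0 (step_sound _ 162 [(rh39b258f71cdd1414.shift 2 1), (rh5bb78067c54b222b.shift 1 4), (rh7992eb0daa364fff.shift 0 2), rhab9248efcb37edea] (by decide +kernel))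
noncomputable def rh6dc5d7245d17f809 : CRef := CRef.mk (Pat.mk 0x180000009800000000000000000000000000000000 0x20000001e0000001f0000003f0000001f000000fc000000080000000c0000000c00000004 10 8) 0 0 (step_sound _ 99 [(rh318e5b950165f28b.shift 0 3), (rh84d1c02a8954c6a8.shift 3 2), (rha5be3a9dbf35f82f.shift 1 1), (rhd8480aedf4075c15.shift 2 0)] (by decide +kernel))
noncomputable def rh73498bf16c34e2ac : CRef := CRef.mk (Pat.mk 0x800000009800000088000000000000000000000000 0x380000003b000000bb000000df000000ff0000007f000000fe0000007c 10 8) 0 0 (step_sound _ 100 [(rh4e3d17ed4e0bd162.shift 1 0), rh695e4327c06d4c46, (rh9ab9340be25a56d2.shift 1 0), rhc22507c45ae387cb, (rhf1b842122e2826b8.shift 1 0)] (by decide +kernel))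
noncomputable def rh745b51dea8c0dbab : CRef := CRef.mk (Pat.mk 0x1000000010000000180000001800000000 0x2f0000007f0000003f0000001e0000001c00000004 10 7) 0 0 (step_sound _ 131 [(rh50fbb5868c909700.shift 3 1), rh7284f30d62973384] (by decide +kernel))
noncomputable def rh9d3183d7ed960406 : CRef := CRef.mk (Pat.mk 0x180000001800000000000000000000000000000000 0x2000000160000001f0000003f0000001f0000001c0000003f0000003f0000001f00000014 10 6) 0 0 (step_sound _ 99 [rh1900c1bad7e860ae, (rh50a2cbb91928b3e0.shift 0 2), (rh84d1c02a8954c6a8.shift 3 2)] (by decide +kernel))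
noncomputable def rh849ec24df820f59e : CRef := CRef.mk (Pat.mk 0xc0000004c000000000000000000000000 0x800000008000000080000000f0000007e0000003f0000001e0000001e 10 7) 0 0 (step_sound _ 100 [rh181727a1ac765062, (rh2fe78cc5ca4405d8.shift 2 3)] (by decide +kernel))
noncomputable def rhfe42ebfaae0fdc37 : CRef := CRef.mk (Pat.mk 0x1800000088000000000000000000000000 0xc0000003c0000003c0000003f00000018000000ff0000007c000000fc00000010 10 8) 0 0 (step_sound _ 164 [(rh2dd22f5816e93e8b.shift 3 0), (rh657060f229c018dd.shift 0 1), (rhcf80391c5046a495.shift 3 1), (rhf9366b6a121593ef.shift 3 1)] (by decide +kernel))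
noncomputable def rh77e4e9dbf97023ce : CRef := CRef.mk (Pat.mk 0x1000000013000000130000000000000000000000000 0x600000006000000167000001be000001f7000000fc000001f0000000e0 10 9) 0 0 (step_sound _ 165 [(rh503dd4575245365b.shift 4 2), (rh642e50382fd7f7a3.shift 4 0), rh95cbd18cd20a4e94] (by decide +kernel))
noncomputable def rh885294b399fd80ba : CRef := CRef.mk (Pat.mk 0x800000018000000180000000800000000 0x170000003f0000001f0000001b0000000f00000006 10 6) 0 0 (step_sound _ 132 [(rh5c5e593799055d58.shift 3 1), rhf308c9de3c00d211] (by decide +kernel))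
noncomputable def rh91c784c502e01b6d : CRef := CRef.mk (Pat.mk 0x18000000180000000800000000 0xc0000000c0000000f0000001f0000001b0000001f00000017 10 5) 0 0 (step_sound _ 131 [rh12e2832848112dba, (rh3e595262c1b737ad.shift 3 1), (rh7b9fbdf6d2d059e4.shift 2 1)] (by decide +kernel))
noncomputable def rhbd704fd3354d045e : CRef := CRef.mk (Pat.mk 0x1800000088000000000000000000000000 0x3c0000003f0000003f0000001f000000ff000000770000003400000034 10 8) 0 0 (step_sound _ 100 [rh695e4327c06d4c46, rh9d152bbdfc5208e7, rhc22507c45ae387cb, rhd5e7e24ce050b165] (by decide +kernel))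
noncomputable def rhaf1df2b74be7c930 : CRef := CRef.mk (Pat.mk 0x1800000088000000000000000000000000 0x3c0000003f0000003f0000001f000000ff000000770000003e0000003e 10 8) 0 0 (step_sound _ 100 [rh57c259a384730b86, rh695e4327c06d4c46, (rha2235b38e25e7461.shift 0 1), rhc22507c45ae387cb, rhd5e7e24ce050b165] (by decide +kernel))
noncomputable def rh0c86248c45473289 : CRef := CRef.mk (Pat.mk 0x1800000098000000000000000000000000 0xc0000000c0000000c0000001c000000df0000007f000000fc0000000c 10 8) 0 0 (step_sound _ 163 [(rh05607e02b2ff73f6.shift 0 2), rh2d7398385dc76692, (rh3e595262c1b737ad.shift 3 2)] (by decide +kernel))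
noncomputable def rh8535306488ce432c : CRef := CRef.mk (Pat.mk 0x180000000800000000000000000000000000000000 0x140000001c0000001f0000001f0000001f0000000f0000001c0000001c0000001c0000000c 10 5) 0 0 (step_sound _ 99 [(rh215e11e099257d75.shift 3 2), (rh2223fef7a805e379.shift 0 2), rh790a6e0b3d6507f9, (rhd8480aedf4075c15.shift 2 0)] (by decide +kernel))
noncomputable def rhdb4a5c205b7a376d : CRef := CRef.mk (Pat.mk 0x18000000080000000800000000 0x140000001f0000001f0000001c0000000f0000003c00000014 10 6) 0 0 (step_sound _ 131 [(rh1741680720c097b4.shift 2 1), rhe7a41b5fa138926c, rhf0d38cf1e7116183] (by decide +kernel))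
noncomputable def rhe6e63a779abd1172 : CRef := CRef.mk (Pat.mk 0x120000000300000011000000000000000000000000000000000 0x80000001c000001ff0000003e000001ff0000001f0000001e0000000e0000000a 10 9) 0 0 (step_sound _ 162 [(rh0109c1f5b269e043.shift 0 5), (rh751b21eaa34973da.shift 1 2), (rh90982cf581ae3e69.shift 2 5), rhd469d186518a52c3] (by decide +kernel))
noncomputable def rha35b8a202b16b558 : CRef := CRef.mk (Pat.mk 0x400000004c00000044000000000000000000000000 0x1a0000001e0000007e0000006c0000007f0000003e0000007e00000038 10 7) 0 0 (step_sound _ 163 [rh2408f241a744f9d6, (rh9cdee070315fb032.shift 2 2), (rhae9f8046dbe91b1e.shift 0 1), (rhcf80391c5046a495.shift 2 1), (rhdc3d9be1e8b9b02a.shift 2 0), (rhf9366b6a121593ef.shift 2 1)] (by decide +kernel))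
noncomputable def rh3d1460994116117f : CRef := CRef.mk (Pat.mk 0x800000009800000088000000000000000000000000 0x340000003f000000ff000000df000000f8000000780000007800000070 10 8) 0 0 (step_sound _ 164 [rh0196c833be1eafb0, (rh9cdee070315fb032.shift 3 2), (rhcf80391c5046a495.shift 3 1), (rhdc3d9be1e8b9b02a.shift 3 0), (rhf9366b6a121593ef.shift 3 1)] (by decide +kernel))
noncomputable def rhc96e7d51c9393d9d : CRef := CRef.mk (Pat.mk 0x800000001800000088000000000000000000000000 0x20000000760000003e000000fc0000001f000000ff0000003f0000003400000034 10 8) 0 0 (step_sound _ 164 [(rh10bd3878568a60dd.shift 0 2), (rh9cdee070315fb032.shift 3 2), (rhdc3d9be1e8b9b02a.shift 3 0), rhe2ec7081a4bdc2db] (by decide +kernel))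
noncomputable def rhabea99c895985add : CRef := CRef.mk (Pat.mk 0x1800000098000000000000000000000000 0x600000006000000060000001e000000ff0000007e0000000c0000000c 10 8) 0 0 (step_sound _ 101 [(rh2fe78cc5ca4405d8.shift 3 3), rh319e69aa992e117c] (by decide +kernel))
noncomputable def rh8870bb265f6a1cd2 : CRef := CRef.mk (Pat.mk 0x80000000180000000800000000000000000000000000000000 0x140000001f000000ff0000001f0000000f0000003f0000003f0000001f00000014 10 8) 0 0 (step_sound _ 99 [(rh16ece0601b2866b3.shift 0 2), rh1900c1bad7e860ae, (rh215e11e099257d75.shift 3 2), (rhffb8e5993241bf15.shift 2 0)] (by decide +kernel))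
noncomputable def rhc95f5c4a53049308 : CRef := CRef.mk (Pat.mk 0x1800000038000000000000000000000000 0x80000000c0000001e0000003f0000007f0000007800000028 10 7) 0 0 (step_sound _ 130 [rh0ad8fef4458d641e, (rhb739f4f82bb681b4.shift 1 3)] (by decide +kernel))
noncomputable def rh26fc3e56364a2a1f : CRef := CRef.mk (Pat.mk 0x1800000098000000100000000000000000 0x80000000c0000001f000000ff0000007c0000006c00000028 10 8) 0 0 (step_sound _ 101 [(rh2fe78cc5ca4405d8.shift 3 3), rhf072bef6c35af98a] (by decide +kernel))
noncomputable def rha5466266ae6fdb6a : CRef := CRef.mk (Pat.mk 0x8000000180000001800000010000000000000000000000000 0x2000000020000000f0000001f0000001f0000007f0000000f0000000e00000002 10 7) 0 0 (step_sound _ 99 [(rh46530d756bdf8511.shift 2 1), (rh64457c840c5ab4ef.shift 0 1), (rh941ec8a88442757d.shift 0 1), (rhbf6eda89728e3bda.shift 0 1), rhc9e4d546eaf1f4ab] (by decide +kernel))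
noncomputable def rhdb2481e9b51b6822 : CRef := CRef.mk (Pat.mk 0x18000000180000001800000000 0x360000007f0000001e0000001c0000001f00000006 10 7) 0 0 (step_sound _ 132 [(rh5c5e593799055d58.shift 3 1), rhc3d715b0e55db222] (by decide +kernel))
noncomputable def rhd50d7aa19036034f : CRef := CRef.mk (Pat.mk 0x180000001800000018000000000000000000000000 0x50000000700000037000000370000001f0000001f0000001f000000370000003700000005 10 6) 0 0 (step_sound _ 129 [(rh035774280e268466.shift 0 1), (rh0765abb9d1cf6d53.shift 0 1), (rh163698142955249c.shift 0 2), (rh45eb7bbcbb132cb8.shift 0 1), rhaf77160d00c42114, (rhda1cb877a2b193c5.shift 0 1)] (by decide +kernel))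
noncomputable def rhf43bcee5f5875b16 : CRef := CRef.mk (Pat.mk 0x1800000038000000000000000000000000 0x80000001c0000003f000000770000003e0000003e 10 7) 0 0 (step_sound _ 98 [(rh2b165c86f1b8dc27.shift 1 0), (rhcc2be1f880c5ea3e.shift 0 2), (rhe153806bfe3acc65.shift 0 2)] (by decide +kernel))
noncomputable def rha02277b61c6d0e4d : CRef := CRef.mk (Pat.mk 0x400000000c0000004c000000000000000000000000 0x140000001c0000001c00000018000000180000007c0000000f0000007c000000180000001800000018 10 7) 0 0 (step_sound _ 100 [(rh2fe78cc5ca4405d8.shift 2 3), rh8c893c3969bbdaca] (by decide +kernel))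
noncomputable def rha0e0e817cff0766c : CRef := CRef.mk (Pat.mk 0x120000000300000010000000000000000000000000 0x5000000070000000700000006000000060000001f000000030000001e000000070000000700000005 10 5) 0 0 (step_sound _ 162 [(rh361cc68994bd8a63.shift 0 4), rh97a78f72d342e82a] (by decide +kernel))
noncomputable def rh5cbfe98b9393b9aa : CRef := CRef.mk (Pat.mk 0x8000000018000000080000000000000000 0x20000000760000007e000000fc0000001e0000001f0000001e0000001c 10 8) 0 0 (step_sound _ 132 [(rh10bd3878568a60dd.shift 0 1), (rh4821dcf828b9d7bf.shift 3 0), (rh66b3d590724d05d1.shift 2 0), (rhcf80391c5046a495.shift 3 0)] (by decide +kernel))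
noncomputable def rh0deeb12e87690a34 : CRef := CRef.mk (Pat.mk 0x11000000030000001200000000000000000 0xa0000000e0000001e0000001f000001ff0000003e000001ff0000001c00000008 10 9) 0 0 (step_sound _ 98 [(rh41955519f857d4d5.shift 2 2), (rh473b2f7acaa88f87.shift 0 2), (rh73a980d9b100e497.shift 1 0), (rh86b810cb588d8f67.shift 0 1)] (by decide +kernel))
noncomputable def rh9c79001833cb1556 : CRef := CRef.mk (Pat.mk 0x440000004c000000400000000000000000 0x380000007e0000003e0000007f0000006c0000007e0000001e0000001a 10 7) 0 0 (step_sound _ 67 [rh17a427616d5cb206, (rh246b9880e0d0c2e0.shift 0 1), (rh711cedfac771e4e0.shift 2 0), (rh7e1098702e50f2b0.shift 2 0), (rhc2c7bae8f445c890.shift 2 0), (rhc38f566cab2818e5.shift 2 0)] (by decide +kernel))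
noncomputable def rhcd6fa17133ed146a : CRef := CRef.mk (Pat.mk 0x8800000098000000800000000000000000 0x700000007800000078000000f8000000df000000ff0000003f00000034 10 8) 0 0 (step_sound _ 68 [rh0fd30a2d45d65fb0, (rh711cedfac771e4e0.shift 3 0), (rh7e1098702e50f2b0.shift 3 0), (rhc2c7bae8f445c890.shift 3 0), (rhc38f566cab2818e5.shift 3 0)] (by decide +kernel))
noncomputable def rhbbd4d2afcc18df7e : CRef := CRef.mk (Pat.mk 0x880000001800000080000000000000000000000000 0x34000000340000003f000000ff0000001f000000fc0000003e0000007600000020 10 8) 0 0 (step_sound _ 100 [(rh711cedfac771e4e0.shift 3 1), (rh7e1098702e50f2b0.shift 3 1), (rhc41352f5c78d4ab1.shift 0 2), rhe506fe9683aa44bd] (by decide +kernel))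
noncomputable def rh999751bc28d9bdfc : CRef := CRef.mk (Pat.mk 0x9800000018000000000000000000000000 0xc0000000c0000007e000000ff0000001e000000060000000600000006 10 8) 0 0 (step_sound _ 133 [(rh361cc68994bd8a63.shift 3 3), rhd87d9ca36e5da2f6] (by decide +kernel))
noncomputable def rh88e8330cfa612e6e : CRef := CRef.mk (Pat.mk 0x800000018000000800000000000000000 0x140000001f0000003f0000003f0000000f0000001f000000ff0000001f00000014 10 8) 0 0 (step_sound _ 163 [rh12079da8f848d88f, (rh14e0829dc73b6804.shift 2 2), (rh70e33bfdf511e144.shift 3 0), (rhc42d113393796eba.shift 0 2)] (by decide +kernel))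
noncomputable def rh8fb48b72223b6dd4 : CRef := CRef.mk (Pat.mk 0x38000000180000000000000000 0x28000000780000007f0000003f0000001e0000000c00000008 10 7) 0 0 (step_sound _ 66 [rh14a838e2c2cb47c7, (rh53b3c253cb0c65f4.shift 1 2)] (by decide +kernel))
noncomputable def rha278d84bed714c47 : CRef := CRef.mk (Pat.mk 0x1000000098000000180000000000000000 0x280000006c0000007c000000ff0000001f0000000c00000008 10 8) 0 0 (step_sound _ 101 [(rh361cc68994bd8a63.shift 3 2), rh3bb005aca5d9603a] (by decide +kernel))
noncomputable def rhac2c4bad895d7af0 : CRef := CRef.mk (Pat.mk 0x100000001800000018000000080000000000000000 0x20000000e0000000f0000007f0000001f0000001f0000000f0000000200000002 10 7) 0 0 (step_sound _ 163 [(rh0f993b23aacd2dfd.shift 0 2), rh52a9478baf11e69f, (rh7b9fbdf6d2d059e4.shift 2 2), (rh863dbea2bef7647b.shift 0 2), (rhc7469040363f06d7.shift 0 2)] (by decide +kernel))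
noncomputable def rh19b5534be8b89873 : CRef := CRef.mk (Pat.mk 0x1800000018000000180000000000000000 0x60000001f0000001c0000001e0000007f00000036 10 7) 0 0 (step_sound _ 36 [rh5b2a6c0ebf7e7964, (rh7b1f1fb55310c477.shift 3 0)] (by decide +kernel))
noncomputable def rhdbcf65c6a222b644 : CRef := CRef.mk (Pat.mk 0x18000000180000001800000000000000000000000000000000 0x500000037000000370000001f0000001f0000001f00000037000000370000000700000005 10 6) 0 0 (step_sound _ 161 [(rh58fdead755fbff10.shift 0 2), rh861d7aec6505c419, (rh86edc4f4325a51ed.shift 0 1), (rh8f8b4cc2601047b3.shift 0 2), (rhcfc32c0662b2105e.shift 0 4), (rhd063fbfa4e70b9bf.shift 0 1)] (by decide +kernel))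
noncomputable def rhab72004c7ab4433a : CRef := CRef.mk (Pat.mk 0x380000001800000000 0x3e0000003e000000770000003f0000001c00000008 10 7) 0 0 (step_sound _ 66 [(rh2b6826d48ff31fe0.shift 1 0), (rhba89ab7cb81bcc90.shift 0 1), (rhe25191970535449e.shift 0 1)] (by decide +kernel))
noncomputable def rh6cc5152a31bfb62a : CRef := CRef.mk (Pat.mk 0x4c0000000c000000400000000000000000000000000000000000000000 0x1800000018000000180000007c0000000f0000007c00000018000000180000001c0000001c00000014 10 7) 0 0 (step_sound _ 228 [(rh361cc68994bd8a63.shift 2 6), rhe1488588450dec98] (by decide +kernel))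
noncomputable def rh2fb375efb6f30777 : CRef := CRef.mk (Pat.mk 0x1000000003000000120000000000000000000000000000000000000000 0x500000007000000070000001e000000030000001f0000000600000006000000070000000700000005 10 5) 0 0 (step_sound _ 162 [(rh2fe78cc5ca4405d8.shift 0 5), rh789fc0e98b5d755c] (by decide +kernel))
noncomputable def rh4a30900feb3b8899 : CRef := CRef.mk (Pat.mk 0x80000001800000080000000000000000000000000 0x1c0000001e0000001f0000001e000000fc0000007e0000007600000020 10 8) 0 0 (step_sound _ 100 [(rh5d54cb79a67f97ab.shift 3 1), (rhc2c7bae8f445c890.shift 3 1), rhe506fe9683aa44bd, (rhf657f5b2ca680928.shift 2 1)] (by decide +kernel))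
noncomputable def rhd8c022ec3f101323 : CRef := CRef.mk (Pat.mk 0x180000001c000000100000000000000000 0x60000007f0000001c0000001e0000007c0000003c 10 7) 0 0 (step_sound _ 133 [(rh18965a982d73c794.shift 2 3), rh230c353c6b05dace] (by decide +kernel))
noncomputable def rh17c4d40f6ee5bd2b : CRef := CRef.mk (Pat.mk 0x1200000013000000120000000000000000 0xe0000001f0000000b0000001f0000001b000000130000000300000003 10 5) 0 0 (step_sound _ 131 [rh06441a9c1a9531b8, (rhb2a0b9ccfb5cecd5.shift 0 3)] (by decide +kernel))
noncomputable def rhf3f3e1046e72d057 : CRef := CRef.mk (Pat.mk 0x1c00000030000000000000000000000000 0x28000000380000003c0000001c0000007c0000001c0000003f0000003f0000001c0000000c 10 7) 0 0 (step_sound _ 163 [(rh30e21091d75a08e4.shift 1 1), (rh6713bf05d0fcc377.shift 0 2), (rh7e1098702e50f2b0.shift 3 1), rh860b754a6362ccb4, (rhc2c7bae8f445c890.shift 3 1)] (by decide +kernel))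
noncomputable def rh7e10c24fd59f9f35 : CRef := CRef.mk (Pat.mk 0x800000001800000030000000000000000000000000 0x280000003c0000003c0000001f000000ff0000001f0000003b000000330000002000000020 10 8) 0 0 (step_sound _ 164 [(rh70e33bfdf511e144.shift 4 0), (rhd41e22297caaa522.shift 0 2), (rhfa3205aafd2af0b3.shift 3 2)] (by decide +kernel))
noncomputable def rhed346f6a8bcd737d : CRef := CRef.mk (Pat.mk 0x9000000018000000080000000000000000 0xc0000000c0000000e000000ff0000001f0000000f0000000c0000000c 10 8) 0 0 (step_sound _ 133 [rh10b8414d1b4dcc42, (rh361cc68994bd8a63.shift 3 3)] (by decide +kernel))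
noncomputable def rh5ee484cd30aed5fd : CRef := CRef.mk (Pat.mk 0x9000000018000000100000000000000000 0xc0000001c0000001f000000ff0000001e0000001c0000000c0000000c 10 8) 0 0 (step_sound _ 133 [(rh361cc68994bd8a63.shift 3 3), rh3babc670b21a67af] (by decide +kernel))
noncomputable def rh2dca028fa74b9146 : CRef := CRef.mk (Pat.mk 0x2000000030000000200000000000000000000000000000000000000000 0x1000000030000000300000003e000000fe000000ff0000007c0000007000000050 10 8) 0 0 (step_sound _ 133 [(rh412229cdb1cd8fa9.shift 2 0), (rh6697e8f90c0f460b.shift 0 3), (rhe286c75f2739cce2.shift 4 3)] (by decide +kernel))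
noncomputable def rh7ba4d9afd65100cc : CRef := CRef.mk (Pat.mk 0x80000000980000009000000000000000000000000000000000 0x80000001a0000009f000000de000000f40000007e000001fe0000007800000028 10 9) 0 0 (step_sound _ 100 [(rh0a6888916bcef86b.shift 3 0), (rh6cb812f95378008a.shift 3 0), (rh6e58f8ea9dbc0f3c.shift 0 1), (rhb1a251d9bff81766.shift 3 2)] (by decide +kernel))
noncomputable def rh3ad7748a38bc8561 : CRef := CRef.mk (Pat.mk 0x8000000018000000100000001000000000 0x280000003c0000003c0000001f000000ff0000001f0000003f0000007b00000028 10 8) 0 0 (step_sound _ 132 [(rh3eab6097335fa778.shift 0 1), (rh59bb51e777297d1c.shift 3 1), (rh641b5241be04eec6.shift 1 0), (rh7eb4a07d72ad7934.shift 3 0)] (by decide +kernel))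
noncomputable def rha8fb67dbb98f8cb3 : CRef := CRef.mk (Pat.mk 0x800000018000000180000001800000000 0x140000001f0000001f0000001b0000003f00000027 10 6) 0 0 (step_sound _ 132 [(rh5c5e593799055d58.shift 3 1), rhc785f7fce48ed164] (by decide +kernel))
noncomputable def rh6e31a49a06f80b55 : CRef := CRef.mk (Pat.mk 0x8000000018000000180000000800000000 0xc0000001e000000ff0000001e0000001c0000000f00000006 10 8) 0 0 (step_sound _ 132 [(rh5c5e593799055d58.shift 3 1), rh634adcfb1b9b2380] (by decide +kernel))
noncomputable def rhc9a0546ad5a0f0e0 : CRef := CRef.mk (Pat.mk 0x9000000018000000180000000800000000 0x40000000f000000ff0000001f0000001f0000000f00000004 10 8) 0 0 (step_sound _ 133 [(rh361cc68994bd8a63.shift 3 3), rhfc555640b11289e0] (by decide +kernel))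
noncomputable def rhfff1851188ddc2b9 : CRef := CRef.mk (Pat.mk 0x800000009800000090000000100000000000000000 0xc0000008c000000df000000ff0000007f0000006f0000006e 10 8) 0 0 (step_sound _ 99 [(rh2aaddab9c85bffae.shift 1 0), rh9e141fa6bc2add05, rha88a296af148b25e, (rhb3931bc9328fa679.shift 2 0), rhe12ff0f25e7e8188] (by decide +kernel))
noncomputable def rhe9cca8dea0611666 : CRef := CRef.mk (Pat.mk 0x1800000030000000000000000000000000 0x28000000380000003c0000001c0000001c0000001f0000003f0000007e0000007e0000002c 10 7) 0 0 (step_sound _ 129 [rh33594b2a9a4ae82d, (rhab22b5b56e7b3243.shift 1 3)] (by decide +kernel))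
noncomputable def rh813ca14480bbb9b2 : CRef := CRef.mk (Pat.mk 0x100000001c0000001800000000 0x3c0000007c0000001e0000001c0000007f00000006 10 7) 0 0 (step_sound _ 37 [rh6de8e9541b24fa7a, (rhf48373e13d2bc128.shift 2 1)] (by decide +kernel))
noncomputable def rh103d3624dacc023c : CRef := CRef.mk (Pat.mk 0x120000001300000012000000000000000000000000 0x300000003000000130000001b0000001f0000000b0000001f0000000e 10 5) 0 0 (step_sound _ 99 [(rh5419adcd928dba20.shift 0 3), rhb294a30dc510ceed] (by decide +kernel))
noncomputable def rhf3b1dbed8bb728bd : CRef := CRef.mk (Pat.mk 0x300000001c0000000000000000000000000000000000000000 0xc0000001c0000003f0000003f0000001c0000007c0000001c0000003c0000003800000028 10 7) 0 0 (step_sound _ 131 [(rh1fd5746e30de88bb.shift 0 2), (rh6fa73c7546047943.shift 1 0), (rh9cdee070315fb032.shift 3 3), (rhce067b16947af382.shift 0 2), (rhcf80391c5046a495.shift 3 2)] (by decide +kernel))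
noncomputable def rh792b977b15424bfb : CRef := CRef.mk (Pat.mk 0x30000000180000008000000000000000000000000000000000 0x2000000020000000330000003b0000001f000000ff0000001f0000003c0000003c00000028 10 8) 0 0 (step_sound _ 132 [(rh13e48573a363522a.shift 0 1), (rh215e11e099257d75.shift 4 3), (rhe8826dab31f3e5a9.shift 3 0)] (by decide +kernel))
noncomputable def rhc080c164e26de3fc : CRef := CRef.mk (Pat.mk 0x80000001800000090000000000000000000000000 0xc0000000c0000000f0000001f000000ff0000000e0000000c0000000c 10 8) 0 0 (step_sound _ 101 [(rh2fe78cc5ca4405d8.shift 3 3), rha2120f9f3f7d0fe5] (by decide +kernel))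
noncomputable def rh78870b9e67e42722 : CRef := CRef.mk (Pat.mk 0x100000001800000090000000000000000000000000 0xc0000000c0000001c0000001e000000ff0000001f0000001c0000000c 10 8) 0 0 (step_sound _ 101 [(rh2fe78cc5ca4405d8.shift 3 3), rhe7bb9456b9b76c51] (by decide +kernel))
noncomputable def rh006876c1e6309827 : CRef := CRef.mk (Pat.mk 0x20000000300000002000000000 0x50000000700000007c000000ff000000fe0000003e000000300000003000000010 10 8) 0 0 (step_sound _ 133 [(rh03dfdf12d5937476.shift 4 0), rh25c138e5a7f4ea57, (rhe145bdbd45fce79b.shift 2 2)] (by decide +kernel))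
noncomputable def rhfa4905e859a20cb0 : CRef := CRef.mk (Pat.mk 0x9000000098000000800000000000000000 0x2800000078000001fe0000007e000000f4000000de0000009f0000001a00000008 10 9) 0 0 (step_sound _ 164 [(rh281c6819542c66e6.shift 3 0), (rh32431e66bbf434a4.shift 3 2), rh646134a20f695378, (rhdb1409eef7bb21d4.shift 3 2)] (by decide +kernel))
noncomputable def rh621c8e6e4c382761 : CRef := CRef.mk (Pat.mk 0x1000000010000000180000008000000000000000000000000000000000 0x280000007b0000003f0000001f000000ff0000001f0000003c0000003c00000028 10 8) 0 0 (step_sound _ 132 [(rh247bd96aefa1d313.shift 0 1), (rh367118e0bf0473e0.shift 3 2), (rh5ee4dc8825dcefa0.shift 1 3), (rhca1e5f2f2b4e1c3d.shift 3 0)] (by decide +kernel))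
noncomputable def rh984d0bb33cb7a1e4 : CRef := CRef.mk (Pat.mk 0x1800000018000000180000000800000000 0x270000003f0000001b0000001f0000001f00000014 10 6) 0 0 (step_sound _ 36 [rh084b553d40b759b0, (rh7b1f1fb55310c477.shift 3 0)] (by decide +kernel))
noncomputable def rhc22f9159d6a5ce2c : CRef := CRef.mk (Pat.mk 0x80000001800000018000000800000000000000000 0x60000000f0000001c0000001e000000ff0000001e0000000c 10 8) 0 0 (step_sound _ 68 [(rh7b1f1fb55310c477.shift 3 1), rhbd7fa17432affa14] (by decide +kernel))
noncomputable def rh7e470994962646e0 : CRef := CRef.mk (Pat.mk 0x80000001800000018000000900000000000000000 0x40000000f0000001f0000001f000000ff0000000f00000004 10 8) 0 0 (step_sound _ 69 [rh14719e5f07e586c9, (rh2fe78cc5ca4405d8.shift 3 2)] (by decide +kernel))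
noncomputable def rh1ef0b1baa5117ea5 : CRef := CRef.mk (Pat.mk 0x1000000090000000980000008000000000 0x6e0000006f0000007f000000ff000000df0000008c0000000c 10 8) 0 0 (step_sound _ 99 [(rh0c21e182c3fcca9c.shift 2 0), (rh26ffcb37093465b4.shift 0 1), (rh45461180feb6e135.shift 1 1), rh8461123c7f4d655f, rhafda2fa2e018255f] (by decide +kernel))
noncomputable def rhdfbfe4045a3cb2d4 : CRef := CRef.mk (Pat.mk 0x30000000180000000000000000000000000000000000000000 0x2c0000007e0000007e0000003f0000001f0000001c0000001c0000003c0000003800000028 10 7) 0 0 (step_sound _ 161 [(rh24ae073cf30720c4.shift 1 5), rh275437562d1b032d] (by decide +kernel))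
noncomputable def rhb87517dacb3a932e : CRef := CRef.mk (Pat.mk 0x800000018000000300000000000000000 0x280000003e0000003e000000760000001f0000001f0000003e0000007800000038 10 7) 0 0 (step_sound _ 36 [(rh7b1f1fb55310c477.shift 3 0), rhaf9876fdc1559582] (by decide +kernel))
noncomputable def rh2659dcb3a9fa0a38 : CRef := CRef.mk (Pat.mk 0xc00000018000000000000000000000000 0x140000001c0000001e0000003e0000000f0000000f0000001c0000001f0000003f00000016 10 6) 0 0 (step_sound _ 129 [rh2f4bf160388ba3ec, (rhb739f4f82bb681b4.shift 0 3)] (by decide +kernel))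
noncomputable def rhb92090e8511d837d : CRef := CRef.mk (Pat.mk 0x1c0000003000000000000000000000000000000000 0x1c0000001e0000001f0000001c0000003f0000001f0000001f0000000e00000008 10 6) 0 0 (step_sound _ 195 [(rh5d54cb79a67f97ab.shift 3 2), (rh860b754a6362ccb4.shift 0 1), rh8e84ccf8b5ad51ae, (rhc2c7bae8f445c890.shift 3 2)] (by decide +kernel))
noncomputable def rh0388966cb86147a0 : CRef := CRef.mk (Pat.mk 0x800000001800000030000000000000000000000000 0xfc0000007c000000df0000001e0000003f0000007f0000003400000020 10 8) 0 0 (step_sound _ 130 [(rhb739f4f82bb681b4.shift 1 3), rhf5232f49bd5cabd3] (by decide +kernel))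
noncomputable def rh4f629e741eaf2f2f : CRef := CRef.mk (Pat.mk 0x18000000380000000000000000 0x2000000038000000380000001e0000001f0000001f0000003f0000006f00000008 10 7) 0 0 (step_sound _ 66 [rh82e5c46eb4189e34, (rhcc2be1f880c5ea3e.shift 0 1), rhd9023ddd859faecd] (by decide +kernel))
noncomputable def rh206a32ea8cc0a26d : CRef := CRef.mk (Pat.mk 0x180000000800000000000000000000000000000000 0x100000001c0000001c0000001f0000001f0000001e0000000f0000000f0000003c0000001c00000014 10 6) 0 0 (step_sound _ 99 [(rh19e48db1e9b4e625.shift 2 0), (rh6f1378fbb010df8f.shift 0 2), rh947bd97204899808, (rhd8480aedf4075c15.shift 2 0), (rhffb8e5993241bf15.shift 2 0)] (by decide +kernel))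
noncomputable def rh34f5a062295e93c8 : CRef := CRef.mk (Pat.mk 0x100000001300000013000000010000000000000000000000000 0x280000012f000001be000001f7000000fe000001ee000000ee0000000a 10 9) 0 0 (step_sound _ 163 [(rh5bb78067c54b222b.shift 2 4), (rh8296ee936f711373.shift 2 1), (rhad5d8fc3675c15dd.shift 1 4), (rhc92c11e8da6c894f.shift 0 4), (rhfab4306191dbaa1e.shift 1 0)] (by decide +kernel))
noncomputable def rh9a3dc9c5ba421121 : CRef := CRef.mk (Pat.mk 0x1800000018000000100000000000000000 0x170000001f0000001c0000003c0000001f0000001c 10 6) 0 0 (step_sound _ 36 [(rh7b1f1fb55310c477.shift 3 0), rhfa7baccc762df71e] (by decide +kernel))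
noncomputable def rhb1630857686cadbd : CRef := CRef.mk (Pat.mk 0x30000000200000002000000000 0x1000000070000000700000007000000030000000300000003e0000007e0000005f 10 7) 0 0 (step_sound _ 133 [(rh1726a00b0a8befd0.shift 4 0), (rh1dffa6d8a02b5f3a.shift 4 1), (rh2fd3c82e8124b6af.shift 4 0), rh6697e8f90c0f460b, (rhd91b73d7ee353e95.shift 4 1)] (by decide +kernel))
noncomputable def rh77c0985422bb6b3a : CRef := CRef.mk (Pat.mk 0x3000000030000000600000002000000000 0xc0000000c0000000e0000003e0000003e0000007f000000ee0000004e 10 8) 0 0 (step_sound _ 131 [(rh2df8dad3d617ff4d.shift 1 0), (rh2fa3ea750dceac9b.shift 1 1), rh5b31ef0438c74f80, (rh7f8587f47b3a1e86.shift 1 0), (rha8cb8bda553d7637.shift 1 0), (rhace16348de435294.shift 1 2), (rhcd4d16d28964fbaf.shift 1 1)] (by decide +kernel))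
noncomputable def rhb98b1e1bf6b81df2 : CRef := CRef.mk (Pat.mk 0x1000000003000000070000000000000000000000000 0x4000000074000001ff000000fe000001bf0000003c0000007e000000740000001000000010 10 9) 0 0 (step_sound _ 131 [(rhb739f4f82bb681b4.shift 2 3), rhebc99d555d93bad3] (by decide +kernel))
noncomputable def rh0352652a150262a7 : CRef := CRef.mk (Pat.mk 0x30000000180000000800000000000000000000000000000000 0x38000000780000003e0000001f0000001f000000760000003e0000003e00000028 10 7) 0 0 (step_sound _ 228 [(rh5c5e593799055d58.shift 3 4), rhc87bec32b1ce8edb] (by decide +kernel))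
noncomputable def rh7e848efb8d982501 : CRef := CRef.mk (Pat.mk 0x180000000c0000000000000000000000000000000000000000 0x160000003f0000001f0000001c0000000f0000000f0000003e0000001e0000001c00000014 10 6) 0 0 (step_sound _ 161 [(rh53b3c253cb0c65f4.shift 0 5), rhedccbc722d31ec2a] (by decide +kernel))
noncomputable def rh65b38700463f72d8 : CRef := CRef.mk (Pat.mk 0x300000001c000000000000000000000000 0x80000000e0000001f0000001f0000003f0000001c0000001f0000001e0000001c 10 6) 0 0 (step_sound _ 67 [(rh243c01d0df54f82c.shift 0 1), (rh4821dcf828b9d7bf.shift 3 0), rhce067b16947af382, (rhcf80391c5046a495.shift 3 0)] (by decide +kernel))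
noncomputable def rh629f428e265e84f2 : CRef := CRef.mk (Pat.mk 0x3000000018000000800000000000000000 0x20000000340000007f0000003f0000001e000000df0000007c000000fc 10 8) 0 0 (step_sound _ 98 [(rh53b3c253cb0c65f4.shift 1 3), rh75b830a78de665e8] (by decide +kernel))
noncomputable def rh13fa413d3c505cf4 : CRef := CRef.mk (Pat.mk 0x38000000180000000000000000000000000000000000000000 0x80000006f0000003f0000001f0000001f0000001e000000380000003800000020 10 7) 0 0 (step_sound _ 194 [(rh265ccf2fb6ab288a.shift 0 3), rh5942faf723e664d1, (rhba89ab7cb81bcc90.shift 0 5)] (by decide +kernel))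
noncomputable def rhb9e4e3def7889e05 : CRef := CRef.mk (Pat.mk 0x8000000180000000000000000000000000000000000000000 0x140000001c0000003c0000000f0000000f0000001e0000001f0000001f0000001c0000001c00000010 10 6) 0 0 (step_sound _ 227 [(rh14e0829dc73b6804.shift 2 4), (rh8f0f977dc5aee7e7.shift 0 4), (rh9fecc968bced2cac.shift 2 4), rhad8225cc492a9e17, (rhe380c42df720a63d.shift 2 4)] (by decide +kernel))
noncomputable def rh76cfc3ef0abb6ecd : CRef := CRef.mk (Pat.mk 0x1000000130000001300000010000000000 0xa000000ee000001ee000000fe000001f7000001be0000012f00000028 10 9) 0 0 (step_sound _ 67 [(rh2b3584ef0f05e9c2.shift 2 2), (rhab2ad169e49f9c5e.shift 1 2), (rhb12ffaec36122c99.shift 0 1), (rhe32fe32ea832a12e.shift 2 0), (rhf6e7400a43dd8e84.shift 1 0)] (by decide +kernel))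
noncomputable def rh2f863cf429200cdd : CRef := CRef.mk (Pat.mk 0x10000000180000001800000000 0x1c0000001f0000003c0000001c0000001f00000017 10 6) 0 0 (step_sound _ 132 [rh08e855694d2d9aba, (rh5c5e593799055d58.shift 3 1)] (by decide +kernel))
noncomputable def rh7aa38ad90b8e122c : CRef := CRef.mk (Pat.mk 0x2000000020000000300000000000000000000000000000000000000000 0x5f0000007e0000003e000000300000003000000070000000700000007000000010 10 7) 0 0 (step_sound _ 133 [(rh25c138e5a7f4ea57.shift 0 3), (rh47992774edf9829f.shift 4 1), (rhe08b3642bf78c2d5.shift 4 0), (rhe6e15c94901d6426.shift 4 0), (rhed841d9ebc5dd0e1.shift 4 1)] (by decide +kernel))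
noncomputable def rhb6302070114b5712 : CRef := CRef.mk (Pat.mk 0x20000000600000003000000030000000000000000000000000 0x4e000000ee0000007f0000003e0000003e0000000e0000000c0000000c 10 8) 0 0 (step_sound _ 99 [(rh1a1e27864a65d223.shift 1 0), (rh87fb4af8316b9600.shift 1 3), (rh9c15e487984ef507.shift 1 0), (rhbb7213d4724395ac.shift 1 1), rhc06aaa0134469ce0, (rhef42bb2d21d1d981.shift 1 0), (rhf269e48977dcfb13.shift 1 1)] (by decide +kernel))
noncomputable def rhefeb556baf70b91f : CRef := CRef.mk (Pat.mk 0x70000000300000010000000000000000000000000000000000 0x1000000010000000740000007e0000003c000001bf000000fe000001ff0000007400000040 10 9) 0 0 (step_sound _ 163 [(rh53b3c253cb0c65f4.shift 2 5), rha16cb422f6b33789] (by decide +kernel))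
noncomputable def rh69632e06fe7cd677 : CRef := CRef.mk (Pat.mk 0x10000000130000001000000002000000000000000000000000 0x50000000f0000000f0000000f0000001f0000001b0000001f0000000f0000000b0000000b00000001 10 5) 0 0 (step_sound _ 129 [rh43d8dfd721575dfb, (rh6b23697e3f4667e7.shift 0 2), (rh790dd60b33a05df0.shift 0 2), (rha0b68b90090a22a8.shift 0 1), (rhb1a251d9bff81766.shift 0 2)] (by decide +kernel))
noncomputable def rh4ab93fe584b32b4f : CRef := CRef.mk (Pat.mk 0x400000000c000000400000000800000000000000000000000000000000 0x180000007c0000000c0000007f0000003f0000003f0000001f0000001c00000014 10 7) 0 0 (step_sound _ 163 [(rh0a6888916bcef86b.shift 2 1), (rh0d44b57544dae185.shift 0 3), (rh0ecdf52cf151ee42.shift 0 3), rh320b6e92173490e3, (rh43d8dfd721575dfb.shift 2 1), (rhd1779d7de7f8215b.shift 2 1)] (by decide +kernel))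
noncomputable def rhba429d274b59eaba : CRef := CRef.mk (Pat.mk 0x10000000130000001000000002000000000000000000000000 0x50000000f0000000f0000000f0000001f0000001b0000001f0000000b0000001f0000000e00000004 10 5) 0 0 (step_sound _ 129 [(rh68a5ce3c121116b7.shift 0 1), (rh6b23697e3f4667e7.shift 0 2), (rh790dd60b33a05df0.shift 0 2), (rhb1a251d9bff81766.shift 0 2), rhd1779d7de7f8215b] (by decide +kernel))
noncomputable def rhcec4d3c3cb7c5520 : CRef := CRef.mk (Pat.mk 0x800000009800000090000000100000000000000000 0xc0000008c000000dc000000ff0000007f0000006f0000006c 10 8) 0 0 (step_sound _ 99 [rh77737e3cf784e2f5, rhbb33178ae52f4cf1, rhe12ff0f25e7e8188, (rhfecf5583f0d8e00d.shift 2 0), rhffb04a672f106342] (by decide +kernel))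
noncomputable def rh486d5936ba9f156c : CRef := CRef.mk (Pat.mk 0x400000004c000000400000000800000000000000000000000000000000 0x140000001c0000001c000000780000006c0000007f0000003f0000007f0000003f0000001c00000014 10 7) 0 0 (step_sound _ 163 [(rh0d44b57544dae185.shift 0 3), rh320b6e92173490e3, (rh4ee8738dfb755be0.shift 0 3), (rh68a5ce3c121116b7.shift 2 2), (rha0b68b90090a22a8.shift 2 2), (rhd65e234e33e3a1b6.shift 2 3)] (by decide +kernel))
noncomputable def rh45c4a0d10231175c : CRef := CRef.mk (Pat.mk 0x11000000030000000100000003000000000 0x2e000001fe000000380000001f0000007c00000008 10 9) 0 0 (step_sound _ 133 [rh1986c71cbfe895cc, (rh2f68792b6b779e96.shift 4 1)] (by decide +kernel))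
noncomputable def rhd9252e2b1c0e17c9 : CRef := CRef.mk (Pat.mk 0x180000000000000018000000000000000000000000 0x140000001c0000001c0000001c0000000f0000001f000000ff000000fe00000014 10 8) 0 0 (step_sound _ 131 [(rh215e11e099257d75.shift 3 2), rh2ded14948e6bf0ad, (rhf849c8472bff4b9d.shift 2 0), (rhfb9fb48a5e63ed80.shift 2 2)] (by decide +kernel))
noncomputable def rh77ad0e2373d51fe3 : CRef := CRef.mk (Pat.mk 0x7000000000000000000000000000000000 0x100000001e0000007e000000ff0000003c0000001c00000014 10 8) 0 0 (step_sound _ 131 [(rh04797e9e06425c4e.shift 0 3), (rh0d378fd9e8917c5a.shift 1 3), (rh185f35b8bd8ec37f.shift 1 3), (rh592c7139d2c44767.shift 1 3), (rh6783a1228c72cc85.shift 2 0)] (by decide +kernel))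
noncomputable def rhac4e9abaaefda36e : CRef := CRef.mk (Pat.mk 0x18000000800000001800000000000000000000000000000000 0x140000001c000001ef0000007f000000ff000000fe0000001c00000014 10 9) 0 0 (step_sound _ 163 [(rh2ded14948e6bf0ad.shift 0 1), (rh4a68914b8a155f3e.shift 2 0), (rhb740cefa1088d8c7.shift 0 1), (rhd8480aedf4075c15.shift 2 1), (rhf849c8472bff4b9d.shift 2 1), (rhffb8e5993241bf15.shift 2 1)] (by decide +kernel))
noncomputable def rhb5ded66e2d29789e : CRef := CRef.mk (Pat.mk 0x100000000300000010000000020000000000000000000000000 0x1000000070000001f80000003c000001fe000000fc000000df0000005c00000014 10 9) 0 0 (step_sound _ 133 [(rh36b93069b258c830.shift 2 2), (rh612f35418d67476f.shift 2 2), rh69ed07e680c2677e, (rhf69bb057b946b622.shift 4 2)] (by decide +kernel))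
noncomputable def rhfe41e2d469dbe29a : CRef := CRef.mk (Pat.mk 0x30000001000000002000000000000000000000000000000000 0x1000000010000000180000003c000001fe000000fc000000ff0000007c0000007400000050 10 9) 0 0 (step_sound _ 165 [(rh3e51582bc5cbc7e1.shift 4 1), (rh412229cdb1cd8fa9.shift 2 0), (rh43d8dfd721575dfb.shift 4 1), (rh69ed07e680c2677e.shift 0 1), (rh8bde8539a28334ec.shift 4 1)] (by decide +kernel))
noncomputable def rhe321103aa6877baa : CRef := CRef.mk (Pat.mk 0x10000000000000007000000000000000000000000000000000 0x180000001f0000007e000000ff0000001e0000001e0000001e 10 8) 0 0 (step_sound _ 131 [(rh0d378fd9e8917c5a.shift 1 3), (rh185f35b8bd8ec37f.shift 1 3), rh30d57f6d51fe6301, (rh775ca1963e850b80.shift 1 3), (rhf356c5bf1a286bb3.shift 2 0)] (by decide +kernel))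
noncomputable def rhf654fc57a7b98602 : CRef := CRef.mk (Pat.mk 0x200000010000000030000001000000000000000000 0x140000005c000000df000000fc000001fe0000003c000001f80000007000000010 10 9) 0 0 (step_sound _ 133 [rh03e0ba4033b726fa, (rh2f51ab36adc3e505.shift 2 1), (rh355dcdb377faff3b.shift 2 1), (rhd9b34bbb86b10264.shift 4 0)] (by decide +kernel))
noncomputable def rhaec1c3338b3f09f9 : CRef := CRef.mk (Pat.mk 0x200000010000000030000000000000000000000000 0x50000000740000007c000000ff000000fc000001fe0000003c000000180000001000000010 10 9) 0 0 (step_sound _ 133 [rh03e0ba4033b726fa, (rh37f183b9ca321db4.shift 4 2), (rhc9b7a010d6829066.shift 4 2), (rhd58048618f3d6a40.shift 4 2), (rhe145bdbd45fce79b.shift 2 3)] (by decide +kernel))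
noncomputable def rh8bf81726e45dde6c : CRef := CRef.mk (Pat.mk 0x700000000000000010 0x1e0000001e0000001e000000ff0000007e0000001f00000018 10 8) 0 0 (step_sound _ 67 [rh1747aec2b848bd03, (rh31e1bc69abf86ee5.shift 2 0), (rh4c622fddc53a5f99.shift 1 2), (rh592c7139d2c44767.shift 1 1), (rh9e97bba44c1b13e4.shift 1 1)] (by decide +kernel))
noncomputable def rh159afff2322e29cb : CRef := CRef.mk (Pat.mk 0x700000000000000000 0x140000001c0000003c000000ff0000007e0000001e00000010 10 8) 0 0 (step_sound _ 67 [(rh4c622fddc53a5f99.shift 1 2), (rh775ca1963e850b80.shift 1 1), (rh9e97bba44c1b13e4.shift 1 1), (rhaeac014a58998cf3.shift 0 1), (rhf67e5d16d82794ee.shift 2 0)] (by decide +kernel))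
noncomputable def rh74170d2a42f2543d : CRef := CRef.mk (Pat.mk 0x8000000400000000c0000004000000000 0x140000001c0000001f0000003f0000003f0000007f0000000c0000007c00000018 10 7) 0 0 (step_sound _ 99 [(rh32431e66bbf434a4.shift 2 1), rh64961f51db74bf28, (rh7a7e08304268422e.shift 2 1), (rhc9b7a010d6829066.shift 2 1), (rheb556026af80b0a3.shift 0 2), rhee161f7d9a712d26] (by decide +kernel))
noncomputable def rhd2f94996606a518c : CRef := CRef.mk (Pat.mk 0x10000000530000005a000000000000000000000000 0x85000000ef000000ff000000ef000000ff0000005b000000fb000001cd0000008800000088 10 9) 0 0 (step_sound _ 166 [(rh24e28f3acaf6acc7.shift 2 0), (rh3db5f7178a0e5bc6.shift 3 1), (rh6fdf43a88718b318.shift 3 0), (rh82c2d9707249a320.shift 0 2)] (by decide +kernel))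
noncomputable def rh33e7a495eac38d87 : CRef := CRef.mk (Pat.mk 0x20000000300000002000000000 0x500000007f0000007e0000003e000000300000003000000010 10 7) 0 0 (step_sound _ 133 [(rh03dfdf12d5937476.shift 4 0), rh25c138e5a7f4ea57, (rhc85cc95794737cf7.shift 4 1)] (by decide +kernel))
noncomputable def rhba6e370ccc42cc9e : CRef := CRef.mk (Pat.mk 0x10000000530000005a00000000000000000000000000000000 0x5000000a7000000ef000000ef000000fe0000005b000000fb0000002f0000000f0000000c00000004 10 8) 0 0 (step_sound _ 99 [(rh851e94ef3f859365.shift 0 2), rh99cd86723e95b124, (rhf9af042da61fc652.shift 3 1)] (by decide +kernel))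
noncomputable def rha43034eb51ef7ac2 : CRef := CRef.mk (Pat.mk 0x30000000a6000000ac0000000000000000 0xa0000015e000001df000001df000000f7000000b6000001ef0000014b00000001 10 9) 0 0 (step_sound _ 164 [(rh2abaf7b3095088db.shift 1 1), (rh9fe447593fbe7fbe.shift 1 1), rha52ac6af14ca1cca, (rhe072fffdd2fccf38.shift 4 2)] (by decide +kernel))
noncomputable def rhde5eb1a8b116c960 : CRef := CRef.mk (Pat.mk 0x100000001000000018000000800000000000000000000000000000000000000000 0x8000000180000001800000018000000fe0000007f0000007e0000003e0000003800000028 10 8) 0 0 (step_sound _ 164 [(rh2f10812183a53f25.shift 3 1), (rh47992774edf9829f.shift 3 2), rhba7e6621ddefe3d0, (rhd1fa8140a3eb151f.shift 3 3), (rhf8edb192cdea7ada.shift 3 4)] (by decide +kernel))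
noncomputable def rh45c05a24016b9b7d : CRef := CRef.mk (Pat.mk 0x800000018000000030000000000000000000000000000000000000000 0x400000004000000060000000f0000001f000000030000000300000007000000070000000700000005 10 5) 0 0 (step_sound _ 193 [rh449022d3d59c914b, (rhb2a0b9ccfb5cecd5.shift 0 5)] (by decide +kernel))
noncomputable def rh5fa9d562b6da9f52 : CRef := CRef.mk (Pat.mk 0xb0000000a0000000a00000008000000040000000000000000 0x50000001f0000001d0000001b0000000b0000000a000000080000001c0000001c00000010 10 5) 0 0 (step_sound _ 67 [(rh932754581e0f4330.shift 2 1), rhaa5291f50dd93f18] (by decide +kernel))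
noncomputable def rh15a79ab9d9fb4852 : CRef := CRef.mk (Pat.mk 0x20000005200000058000000010000000100000000000000000000000000000000 0xa0000000e0000000e200000052000000fa000000ef000000f9000000e8000000e0000000e000000020 10 8) 0 0 (step_sound _ 163 [(rh0fdc5259f2d0fcef.shift 3 0), (rh6a63694b978e6cfd.shift 0 5), (rhbb6cda9a50da7dc6.shift 0 4)] (by decide +kernel))
noncomputable def rh924440236f79521c : CRef := CRef.mk (Pat.mk 0x500000005800000001000000000000000000000000 0xa0000000e0000000e000000050000000fc000000ef000000f8000000e800000080 10 8) 0 0 (step_sound _ 102 [(rh0640759f80205b45.shift 5 1), rh9acd5f4503dd6ee2, (rhbf5d9e90d56c2a5f.shift 1 3), (rhfbe326b7d97c2972.shift 3 2)] (by decide +kernel))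
noncomputable def rhc65a161322ea38e8 : CRef := CRef.mk (Pat.mk 0x4300000058000000000000000000000000 0xa0000000e0000000e00000004300000ffe000007e000000fe0000000a0 10 12) 0 0 (step_sound _ 98 [(rh09d4dfe75d4407d6.shift 0 3), (rh743d870d1c52f5a2.shift 2 0)] (by decide +kernel))
noncomputable def rh95181d652f1b2c34 : CRef := CRef.mk (Pat.mk 0x90000000180000000000000008 0x280000003e0000007e0000007f000000ff000000180000000800000008 10 8) 0 0 (step_sound _ 132 [(rh09bd02f02f9a14da.shift 1 2), (rh319673309b7ac683.shift 3 0), (rh68a777751bfeafdf.shift 3 1), rhdec5a1bdd1418881] (by decide +kernel))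
noncomputable def rh5b24428cf47ab41a : CRef := CRef.mk (Pat.mk 0x22000000220000000200000003000000000 0x22000000320000001fc000001fe000003cf 10 10) 0 0 (step_sound _ 38 [(rh55afc6a59410cf00.shift 5 0), rhbfcbb4b782060313] (by decide +kernel))
noncomputable def rh3c36a67773760226 : CRef := CRef.mk (Pat.mk 0x100000005300000059000000010000000000000000000000000000000000000000 0xa0000000e6000000fe00000053000000fb000000ef000000fe000000ee000000e0000000e000000020 10 8) 0 0 (step_sound _ 163 [(rh0fdc5259f2d0fcef.shift 3 0), (rh6a63694b978e6cfd.shift 0 5), (rhe215ced92e20fd8a.shift 0 3)] (by decide +kernel))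
noncomputable def rh4c66494152f7b888 : CRef := CRef.mk (Pat.mk 0x1000000018000000080000000800000000 0x140000001c0000001c0000000f0000001f0000001b0000001f0000000f00000005 10 5) 0 0 (step_sound _ 131 [rh0546205ead752f7b, (rh0ef6c71ce89c1c36.shift 2 0), (rh30c061e58ebf1ac8.shift 2 0), (rh771d065bdc85bf2d.shift 2 0), (rhcee1a2e826d13404.shift 2 1)] (by decide +kernel))
noncomputable def rh36f14af10f5cbc65 : CRef := CRef.mk (Pat.mk 0x400000004c0000006000000024000000000000000000000000 0x180000007c0000004c0000006e0000003f0000007a0000003f0000000a 10 7) 0 0 (step_sound _ 99 [(rh1c62b6193297d9e3.shift 2 3), rhc5e66e3d1c7ab1f6] (by decide +kernel))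
noncomputable def rh409f2fb3048749e4 : CRef := CRef.mk (Pat.mk 0xa0000000b000000010000000000000000000000000000000000000000 0x140000001c0000001c0000001c0000000a0000001f0000001d0000001f0000001d0000001c0000001c00000014 10 5) 0 0 (step_sound _ 128 [(rh71222050f2c63a3a.shift 0 3), rhf66df9e0e4a72efc] (by decide +kernel))
noncomputable def rhb04e9ea3a24e37dc : CRef := CRef.mk (Pat.mk 0x800000018000000080000000800000000 0x170000001f0000001b0000000f0000001f00000014 10 5) 0 0 (step_sound _ 132 [(rh2f68792b6b779e96.shift 3 1), rh5c2ce1fa343145b7] (by decide +kernel))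
noncomputable def rhf88af106cced78d5 : CRef := CRef.mk (Pat.mk 0x44000000600000000c000000000000000000000000 0x400000044000000660000003f0000007e0000003f0000000a 10 7) 0 0 (step_sound _ 101 [(rh1c62b6193297d9e3.shift 2 3), rh69eaa8f72a6945f8] (by decide +kernel))
noncomputable def rh947def519bf6b50f : CRef := CRef.mk (Pat.mk 0x440000006000000024000000000000000000000000 0x400000044000000660000003f0000007e0000003f0000000a 10 7) 0 0 (step_sound _ 99 [(rh1c62b6193297d9e3.shift 2 3), rh69eaa8f72a6945f8] (by decide +kernel))
noncomputable def rhbb05b70f2cc6adab : CRef := CRef.mk (Pat.mk 0x1000000017000000000000000000000000 0x28000000380000003800000010000003ff000001f8000003f800000028 10 10) 0 0 (step_sound _ 68 [(rh0640759f80205b45.shift 3 0), (rh163e1aad45935486.shift 2 1), (rh45009313f1dc1cd3.shift 0 1), (rh92758c3412962234.shift 1 1), (rhc13e87f7835e0776.shift 0 2)] (by decide +kernel))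
noncomputable def rh9c0034e6ceb4a021 : CRef := CRef.mk (Pat.mk 0x10000000530000005000000041000000000000000000000000 0xa1000000e5000000ff000000530000007e0000006f000000ff000000ef00000085 10 8) 0 0 (step_sound _ 131 [(rh25c8cf2c0b699319.shift 0 2), rh9acd5f4503dd6ee2, (rhb89be806f5e541fe.shift 0 3), rhd2e923d0ef5ea452] (by decide +kernel))
noncomputable def rhcfce211eb30c3960 : CRef := CRef.mk (Pat.mk 0x530000005000000040000000000000000000000000000000000000000000000000 0x5300000ffe000007ee00000ff8000007fc000000e0000000e0000000e0000000a0 10 12) 0 0 (step_sound _ 166 [(rh374baecead7cd8a9.shift 3 2), (rh3c1bfe158ed8b439.shift 3 1), (rh5ef71b3c80bd65ad.shift 3 0), (rh8cdd36b03d57a2f6.shift 5 3), (rhf96d0140d12c9e1a.shift 0 4)] (by decide +kernel))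
noncomputable def rh1eda6d15c44d682a : CRef := CRef.mk (Pat.mk 0x10000000130000001200000000000000000000000000000000 0x50000000f0000001f0000000f0000001f0000001b0000001300000003000000070000000700000004 10 5) 0 0 (step_sound _ 193 [(rh0cb07b01b241e5bb.shift 0 2), (rh387519ea8780f7e9.shift 0 2), (rh566659606c8abe04.shift 0 3), (rh6c1e14971d560b91.shift 0 3), rhbffa7d433fd798c9, (rhc47fe1bc6b175f77.shift 0 2)] (by decide +kernel))
noncomputable def rheeb4b76775751baa : CRef := CRef.mk (Pat.mk 0x100000001300000058000000000000000000000000 0x1000001f1b00000ffe00001fec0000000800000008 10 13) 0 0 (step_sound _ 101 [(rh2e85ec7b47efa312.shift 0 2), (rh695f888db18ad7c7.shift 3 2), (rh873513404ad9d24b.shift 3 2), (rhd1474a84c69f0140.shift 2 0)] (by decide +kernel))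
noncomputable def rh4bc178e208f1e207 : CRef := CRef.mk (Pat.mk 0x1000000053000000580000000000000000000000000000000000000000 0xa0000000e0000000e4000000ff0000005b0000007b000000ef000000ff000000eb000000e100000020 10 8) 0 0 (step_sound _ 131 [(rh2ca1500e879a3c28.shift 2 0), (rh726fe2d8bfa746d1.shift 0 1), (rhe757a7284fc1c5ca.shift 2 1), (rhf9af042da61fc652.shift 3 2)] (by decide +kernel))
noncomputable def rha05497a58fc36755 : CRef := CRef.mk (Pat.mk 0x120000000300000011000000008000000000000000000000000 0xc0000000e000001ee0000003e000001fe0000001f0000003f0000001e00000002 10 9) 0 0 (step_sound _ 131 [rh09ec8ebd8125d5e7, (rh3dfa9d87ac050990.shift 0 1), (rha18a0865670cd0c9.shift 1 3), (rhdc68795c32a03d79.shift 1 3), (rhf07892d9b8f1a789.shift 2 1)] (by decide +kernel))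
noncomputable def rh69a7013e8d8e1999 : CRef := CRef.mk (Pat.mk 0x900000009800000088000000000000000000000000 0x24000000ff000000df000000ff0000007f0000006c00000044 10 8) 0 0 (step_sound _ 165 [(rh361cc68994bd8a63.shift 3 4), rh6b0291ed71551829] (by decide +kernel))
noncomputable def rha397e7b26d2c6e1a : CRef := CRef.mk (Pat.mk 0x90000000180000008c00000000 0x3000000074000000fe0000001e000000ff00000023 10 8) 0 0 (step_sound _ 101 [(rh361cc68994bd8a63.shift 3 2), rh3b457029118d9900] (by decide +kernel))
noncomputable def rh4f35efc39788383b : CRef := CRef.mk (Pat.mk 0x1200000003000000018000000000000000000000000 0x2c0000002c000001ff0000003c0000001e0000000c0000000c0000000c 10 9) 0 0 (step_sound _ 166 [(rh361cc68994bd8a63.shift 4 4), rh418b75e5b9fc9cc3] (by decide +kernel))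
noncomputable def rhc6042348dd477019 : CRef := CRef.mk (Pat.mk 0x600000003800000118000000000000000000000000 0x6c000000ec0000007f00000038000001f80000004c0000000c0000000c 10 9) 0 0 (step_sound _ 197 [(rh5c5e593799055d58.shift 4 3), rh7874488d84c3f62f] (by decide +kernel))
noncomputable def rh409ccaf9a656e9bc : CRef := CRef.mk (Pat.mk 0x10000000180000008c00000000 0x35000000370000001f0000001b000000ff00000027 10 8) 0 0 (step_sound _ 33 [(rh53b3c253cb0c65f4.shift 0 1), rhb9cf444f7ff92274] (by decide +kernel))
noncomputable def rhb0b535abe4248c60 : CRef := CRef.mk (Pat.mk 0x90000000180000008c000000000000000000000000 0x1000000010000000fc0000001e000000ff000000270000000600000006 10 8) 0 0 (step_sound _ 165 [(rh361cc68994bd8a63.shift 3 4), rh6dfac56aa340ba01] (by decide +kernel))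
noncomputable def rh701ea76d6eb01e92 : CRef := CRef.mk (Pat.mk 0x80000000980000008800000000000000000000000000000000 0x3000000030000000f8000000d8000001ff0000007e0000007f0000005400000010 10 9) 0 0 (step_sound _ 196 [rh2e62b62755839230, (rh358736babf21756e.shift 3 3), (rh9cdee070315fb032.shift 3 3), (rhcf80391c5046a495.shift 3 2), (rhf9366b6a121593ef.shift 3 2)] (by decide +kernel))
noncomputable def rh3710c7699ec5290d : CRef := CRef.mk (Pat.mk 0x1800000098000000000000000000000000 0x600000007000000070000001f000000ff0000000f0000000c0000000c 10 8) 0 0 (step_sound _ 101 [(rh2fe78cc5ca4405d8.shift 3 3), rh37f2313aad020ba0] (by decide +kernel))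
noncomputable def rh7f641414983bfe26 : CRef := CRef.mk (Pat.mk 0x1800000098000000000000000000000000 0x40000001e000000ff0000007f0000007e0000007c 10 8) 0 0 (step_sound _ 101 [rh1a8dd197fbf93e7f, (rh2fe78cc5ca4405d8.shift 3 3)] (by decide +kernel))
noncomputable def rhb59c2a4cbf1ca445 : CRef := CRef.mk (Pat.mk 0x800000009800000088000000000000000000000000 0x3400000037000000ff000000df000000f8000000780000005800000040 10 8) 0 0 (step_sound _ 164 [(rh358736babf21756e.shift 3 2), (rh422d1427940f8e6a.shift 0 2), (rhcf80391c5046a495.shift 3 1), rhd0549d47e0c723f2] (by decide +kernel))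
noncomputable def rh6cdc1ee8d9ae9908 : CRef := CRef.mk (Pat.mk 0x3800000018000000080000000800000000 0x670000003f0000001b0000000f0000001f00000014 10 7) 0 0 (step_sound _ 130 [(rh50fbb5868c909700.shift 2 1), rh948e2eeed12cd59e] (by decide +kernel))
noncomputable def rh55f8136c35677b47 : CRef := CRef.mk (Pat.mk 0x480000000d000000010000000000000000000000000 0x28000000380000003f0000003e000007ff000000dc00000018000000380000003800000028 10 11) 0 0 (step_sound _ 164 [(rh27b2c04616a36fec.shift 0 2), (rh2915a4f5aa0492ea.shift 3 0), (rh42af8a755b2bcce5.shift 3 2), (rh5a30d2353dbd5b74.shift 3 1), (rh5f452f890cbd7cd4.shift 3 1), (rhe95a2e51b0ee5fdb.shift 3 0)] (by decide +kernel))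
noncomputable def rhddb3592de0d1598e : CRef := CRef.mk (Pat.mk 0x200000003400000010000000000000000000000000 0xa0000000e0000000e0000003f0000003e0000003f0000000e0000000e0000000a 10 6) 0 0 (step_sound _ 131 [(rh775ca1963e850b80.shift 0 3), (rhdff8ee49a40a6b22.shift 1 0), (rhe3dc93746cbe6e7c.shift 1 3)] (by decide +kernel))
noncomputable def rh0ccd981584f546e3 : CRef := CRef.mk (Pat.mk 0x80000000d000000050000000000000000000000000 0x2800000038000000bf000000be000000ff000000dc00000058000000380000003800000028 10 8) 0 0 (step_sound _ 164 [(rh04bc0bc315096e76.shift 3 1), (rh27b2c04616a36fec.shift 0 2), (rh28b3bf37c937e8c2.shift 3 0), (rh2915a4f5aa0492ea.shift 3 0), (rh35c52047b207528b.shift 3 2), (rh5a30d2353dbd5b74.shift 3 1), (rh5f452f890cbd7cd4.shift 3 1)] (by decide +kernel))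
noncomputable def rhc62a1d83eae365bc : CRef := CRef.mk (Pat.mk 0x3400000010000000000000000000000000 0xa0000000e0000000e0000000f0000003e0000007f0000000e0000000e0000000a 10 7) 0 0 (step_sound _ 131 [(rh775ca1963e850b80.shift 0 3), (rha03f6e28ea70fc7d.shift 1 3), (rhdff8ee49a40a6b22.shift 1 0)] (by decide +kernel))
noncomputable def rh62207ab9a9027373 : CRef := CRef.mk (Pat.mk 0x100000000300000001000000070000000000000000000000000 0x2000000028000001fe0000003e0000001e0000007e0000000f0000000200000002 10 9) 0 0 (step_sound _ 99 [(rh1ae4704ae86cb9a8.shift 2 2), rh5f9066cea604717b, (rh775ca1963e850b80.shift 1 2), (rh9f67e100387e83a3.shift 1 2)] (by decide +kernel))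
noncomputable def rha0cb42e04dcc001b : CRef := CRef.mk (Pat.mk 0x400000000c0000004c00000000000000000000000000000000 0x40000001c0000001c000000180000007c0000000f0000007c000000180000001c0000001c00000014 10 7) 0 0 (step_sound _ 132 [(rh2fe78cc5ca4405d8.shift 2 4), rhb2585ae04cb39e9e] (by decide +kernel))
noncomputable def rhfbb2112bee4cb407 : CRef := CRef.mk (Pat.mk 0x80000000d000000010000000000000000000000000 0x28000000380000003f0000003e000000ff000000dc00000018000000380000003800000028 10 8) 0 0 (step_sound _ 164 [(rh27b2c04616a36fec.shift 0 2), (rh2915a4f5aa0492ea.shift 3 0), (rh35c52047b207528b.shift 3 2), (rh5a30d2353dbd5b74.shift 3 1), (rh5f452f890cbd7cd4.shift 3 1), (rhae268b90781990cd.shift 3 0), (rhe95a2e51b0ee5fdb.shift 3 0)] (by decide +kernel))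
noncomputable def rh9618aebb3254c159 : CRef := CRef.mk (Pat.mk 0xd00000001800000000000000000000000000000000 0x80000003c0000007f000000df0000001f0000001e0000003c0000003c00000030 10 8) 0 0 (step_sound _ 99 [(rh312dabc1cbb423b3.shift 0 1), rh83ce26c69b07ec87, (rhcf80391c5046a495.shift 3 1), (rhf9366b6a121593ef.shift 3 1)] (by decide +kernel))
noncomputable def rhd427a325b56eb3f3 : CRef := CRef.mk (Pat.mk 0x3000000030000000000000000000000000 0xa0000000e0000000e0000001f0000003e0000007f0000007e000001fc0000007c 10 9) 0 0 (step_sound _ 131 [(rh10661bc2ae381af4.shift 1 1), (rhad5d8fc3675c15dd.shift 1 3), (rhc92c11e8da6c894f.shift 0 3), (rhceb8ed986c1341a7.shift 1 1), rhd7959e60b8e94a3b] (by decide +kernel))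
noncomputable def rh799c2abe711505b9 : CRef := CRef.mk (Pat.mk 0x180000009800000010000000000000000000000000 0x2000000060000000f0000001f000000df0000007f000000ee0000000c00000004 10 8) 0 0 (step_sound _ 99 [rh01720cfce81426f2, (rh64457c840c5ab4ef.shift 0 1), (rh8838b43a888e502e.shift 2 1), (rh941ec8a88442757d.shift 0 1)] (by decide +kernel))
noncomputable def rh22f1f92f6501bdc8 : CRef := CRef.mk (Pat.mk 0x80000011000000030000001200000000000000000 0x20000001e0000003f0000001f000001fe0000003e000001ee0000000e0000000c 10 9) 0 0 (step_sound _ 131 [(rh0eeabcc14891bbd5.shift 0 2), (rh34acd496cde8ee25.shift 1 1), (rh36977a2b8622bef5.shift 1 2), (rhabb8eebead9d9f96.shift 2 0), (rhc6c98f257caf9470.shift 0 2)] (by decide +kernel))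
noncomputable def rhd18c3c4b00e3c471 : CRef := CRef.mk (Pat.mk 0x88000000980000009000000000 0x440000006c0000007f000000ff000000df000000ff00000024 10 8) 0 0 (step_sound _ 37 [(rh2fe78cc5ca4405d8.shift 3 1), rhc05206e4f349df6d] (by decide +kernel))
noncomputable def rhd7b2121de08cf994 : CRef := CRef.mk (Pat.mk 0x8c00000018000000900000000000000000 0x23000000ff0000001e000000fe0000007400000030 10 8) 0 0 (step_sound _ 69 [(rh2fe78cc5ca4405d8.shift 3 2), rhd4893d3ef287fca6] (by decide +kernel))
noncomputable def rh2cde94190fea62c1 : CRef := CRef.mk (Pat.mk 0x1800000030000001200000000000000000 0xc0000000c0000000c0000001e0000003c000001ff0000002c0000002c 10 9) 0 0 (step_sound _ 70 [rh1422c583598a92f3, (rh2fe78cc5ca4405d8.shift 4 2)] (by decide +kernel))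
noncomputable def rhb02af54323d2bd4e : CRef := CRef.mk (Pat.mk 0x11800000038000000600000000000000000 0xc0000000c0000004c000001f8000000380000007f000000ec0000006c 10 9) 0 0 (step_sound _ 37 [(rh7b1f1fb55310c477.shift 4 0), rhaf98fef387977846] (by decide +kernel))
noncomputable def rh197f3fb51be67eed : CRef := CRef.mk (Pat.mk 0x8c00000018000000100000000000000000 0x27000000ff0000001b0000001f0000003700000035 10 8) 0 0 (step_sound _ 129 [(rhb739f4f82bb681b4.shift 0 3), rhe4cf5c9f9d09700b] (by decide +kernel))
noncomputable def rh9247b6475afda4c5 : CRef := CRef.mk (Pat.mk 0x8c00000018000000900000000000000000 0x60000000600000027000000ff0000001e000000fc0000001000000010 10 8) 0 0 (step_sound _ 69 [(rh2fe78cc5ca4405d8.shift 3 2), rh3d3bc1a0fd0375df] (by decide +kernel))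
noncomputable def rh5a33687e326ff01e : CRef := CRef.mk (Pat.mk 0x8800000098000000800000000000000000 0x10000000540000007f0000007e000001ff000000d8000000f80000003000000030 10 9) 0 0 (step_sound _ 68 [(rh4d5ec4caa1ea9a2e.shift 3 0), (rh7e1098702e50f2b0.shift 3 0), (rhb6dd251735550394.shift 0 1), (rhc2c7bae8f445c890.shift 3 0), (rhc38f566cab2818e5.shift 3 0)] (by decide +kernel))
noncomputable def rh3f9dea3242f3564d : CRef := CRef.mk (Pat.mk 0x9800000018000000000000000000000000 0xc0000000c0000000f000000ff0000001f000000070000000700000006 10 8) 0 0 (step_sound _ 133 [rh05a2cd34b7a6e80e, (rh361cc68994bd8a63.shift 3 3)] (by decide +kernel))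
noncomputable def rhf84a849e5c39836f : CRef := CRef.mk (Pat.mk 0x980000001800000000 0x7c0000007e0000007f000000ff0000001e00000004 10 8) 0 0 (step_sound _ 69 [rh2efd9b6ae0d18ff5, (rh361cc68994bd8a63.shift 3 1)] (by decide +kernel))
noncomputable def rhaeda3369b559229e : CRef := CRef.mk (Pat.mk 0x8800000098000000800000000000000000 0x400000005800000078000000f8000000df000000ff0000003700000034 10 8) 0 0 (step_sound _ 68 [(rh4d5ec4caa1ea9a2e.shift 3 0), (rhc2c7bae8f445c890.shift 3 0), rhd4ee616373a69375, rhe24f1daa0ef6e12c] (by decide +kernel))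
noncomputable def rhb01d4968ebaf11af : CRef := CRef.mk (Pat.mk 0x800000008000000180000003800000000 0x140000001f0000000f0000001b0000003f00000067 10 7) 0 0 (step_sound _ 34 [(rh932754581e0f4330.shift 2 0), rha3207dec93f774ce] (by decide +kernel))
noncomputable def rh34b115b9abe9c016 : CRef := CRef.mk (Pat.mk 0x10000000d00000048000000000000000000000000000000000 0x28000000380000003800000018000000dc000007ff0000003e0000003f0000003800000028 10 11) 0 0 (step_sound _ 132 [(rh04bc0bc315096e76.shift 3 2), (rh168fed7625321222.shift 3 1), rh29046fa91b9b5148, (rh3e2df2ceeb32d6b8.shift 3 1), (rh823dec6b0a4c3fe8.shift 3 3), (rhbf662421d2f80df0.shift 3 2)] (by decide +kernel))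
noncomputable def rh43dce542505a5e0e : CRef := CRef.mk (Pat.mk 0x100000003400000020000000000000000000000000 0xa0000000e0000000e0000003f0000003e0000003f0000000e0000000e0000000a 10 6) 0 0 (step_sound _ 131 [(rh4e334009c4c4278c.shift 1 0), (rh592c7139d2c44767.shift 0 3), (rh6765e7960b108c8d.shift 1 3)] (by decide +kernel))
noncomputable def rhb2867f2798b48bca : CRef := CRef.mk (Pat.mk 0x50000000d00000008000000000000000000000000000000000 0x28000000380000003800000058000000dc000000ff000000be000000bf0000003800000028 10 8) 0 0 (step_sound _ 132 [(rh168fed7625321222.shift 3 1), rh29046fa91b9b5148, (rh823dec6b0a4c3fe8.shift 3 3), (rh841bfdd31e40da95.shift 3 1), (rh8cb865a95958292c.shift 3 2), (rhbf662421d2f80df0.shift 3 2), (rhe95a2e51b0ee5fdb.shift 3 1)] (by decide +kernel))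
noncomputable def rh69c8a47e87efe918 : CRef := CRef.mk (Pat.mk 0x100000003400000000000000000000000000000000 0xa0000000e0000000e0000007f0000003e0000000f0000000e0000000e0000000a 10 7) 0 0 (step_sound _ 131 [(rh4e334009c4c4278c.shift 1 0), (rh592c7139d2c44767.shift 0 3), (rhec46bd5500c722c9.shift 1 4)] (by decide +kernel))
noncomputable def rh2a0e5cf53a4f9ae0 : CRef := CRef.mk (Pat.mk 0x700000001000000030000001000000000000000000 0x2000000020000000f0000007e0000001e0000003e000001fe0000002800000020 10 9) 0 0 (step_sound _ 163 [(rh132883a60cd8aed8.shift 2 2), rh20c667e3d5c5db6a, (rh46ff3243d27be826.shift 1 1), (rh592c7139d2c44767.shift 1 4)] (by decide +kernel))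
noncomputable def rh6ac4b2e369bb6930 : CRef := CRef.mk (Pat.mk 0x4c0000000c0000004000000000000000000000000000000000 0x140000001c0000001c000000180000007c0000000f0000007c000000180000001c0000001c00000004 10 7) 0 0 (step_sound _ 196 [(rh361cc68994bd8a63.shift 2 5), rh443c9a60bc3e82ff] (by decide +kernel))
noncomputable def rh5cc81fc46cef30c9 : CRef := CRef.mk (Pat.mk 0x10000000d00000008000000000000000000000000000000000 0x28000000380000003800000018000000dc000000ff0000003e0000003f0000003800000028 10 8) 0 0 (step_sound _ 132 [(rh04bc0bc315096e76.shift 3 2), (rh168fed7625321222.shift 3 1), rh29046fa91b9b5148, (rh823dec6b0a4c3fe8.shift 3 3), (rh841bfdd31e40da95.shift 3 1), (rha9112902e137cb97.shift 3 2), (rhbf662421d2f80df0.shift 3 2)] (by decide +kernel))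
noncomputable def rh35dc10967ca0d078 : CRef := CRef.mk (Pat.mk 0x18000000d0000000000000000000000000 0x300000003c0000003c0000001e0000001f000000df0000007f0000003c00000008 10 8) 0 0 (step_sound _ 163 [rh719ad152a87e379e, rh874b5bc8ddb3396a, (rhc2c7bae8f445c890.shift 3 1), (rhc38f566cab2818e5.shift 3 1)] (by decide +kernel))
noncomputable def rhc1fdcfa0d463f3e6 : CRef := CRef.mk (Pat.mk 0x300000003000000000000000000000000000000000 0x7c000001fc0000007e0000007f0000003e0000001f0000000e0000000e0000000a 10 9) 0 0 (step_sound _ 131 [(rh27477c82a1ffa23c.shift 1 0), (rhab2ad169e49f9c5e.shift 1 4), (rhaf244288f4c5c93e.shift 0 2), (rhb12ffaec36122c99.shift 0 3), (rhd9b6067dacf5ff35.shift 1 2)] (by decide +kernel))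
noncomputable def rhcab9ceebcc02058a : CRef := CRef.mk (Pat.mk 0x100000009800000018000000000000000000000000 0x40000000c000000ee0000007f000000df0000001f0000000f0000000600000002 10 8) 0 0 (step_sound _ 163 [rh52a9478baf11e69f, (rh63028c7995a5d373.shift 0 2), (rhc7469040363f06d7.shift 0 2), (rhdeffc169d2474e23.shift 2 1)] (by decide +kernel))
noncomputable def rhde56c9224da190cb : CRef := CRef.mk (Pat.mk 0x1400000014c000000480000000000000000000000000 0x140000001c0000003c0000023fc000033f800003fce000016fe00003fff00007b4000003a0000002800 10 15) 0 0 (step_sound _ 167 [(rh01242416325952f7.shift 6 2), (rh12452934acb847d5.shift 6 2), (rh1ce8fb1c4a9f647b.shift 2 2), (rh2e6caaa45a559674.shift 6 2), rhc6a781b022d74355] (by decide +kernel))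
noncomputable def rh8f106a36f781de98 : CRef := CRef.mk (Pat.mk 0x38000000600000000000000000000000000000000000000000 0x100000001000000018000000380000007e000000ff000000ff0000007f0000007400000050 10 8) 0 0 (step_sound _ 133 [(rh01483ff9cba2f6ac.shift 4 1), (rh0a6888916bcef86b.shift 4 1), (rh83692b69a36621d2.shift 0 1), (rh899aa131991e1e11.shift 2 0), (rhc8a0e5144fa25221.shift 0 1), (rhd1779d7de7f8215b.shift 4 1)] (by decide +kernel))
noncomputable def rh9f388a47a3932113 : CRef := CRef.mk (Pat.mk 0x400000000c000000180000000000000000000000000000000000000000 0x100000001800000018000000780000000c0000001f0000003f0000001f0000001e0000001c00000014 10 7) 0 0 (step_sound _ 227 [(rh566659606c8abe04.shift 2 4), rh88726f9b8ae45453, (rh99f26731b215bf54.shift 2 0), (rhaac6df22c4ef4a49.shift 2 2), (rhb23658ecdd7ce5df.shift 2 4), (rhed12c7be3d20c175.shift 0 2)] (by decide +kernel))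
noncomputable def rh62e055f989dbc89e : CRef := CRef.mk (Pat.mk 0x900000001e000000100000000000000000 0x20000000380000003c0000007c000000dc0000001e0000001f0000000a00000002 10 8) 0 0 (step_sound _ 65 [(rhda6d4138a62ba995.shift 1 0), (rheb0810cc63b001d8.shift 0 2)] (by decide +kernel))
noncomputable def rh785da59ea9079958 : CRef := CRef.mk (Pat.mk 0x400000000c0000004800000000000000000000000000000000 0x140000001c0000001c000000180000007c0000000f0000007c000000180000001c0000001c00000014 10 7) 0 0 (step_sound _ 132 [(rh2fe78cc5ca4405d8.shift 2 4), rhf14690b5ab5bf131] (by decide +kernel))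
noncomputable def rh79ae2c44f7a47ff7 : CRef := CRef.mk (Pat.mk 0x80000005800000053000000120000000000000000 0x80000000e8000000f8000000ec0000007800000053000000fe000000e0000000a0 10 8) 0 0 (step_sound _ 133 [rh0397c05dfe96f207, (rh3244c3cc8379b070.shift 2 4)] (by decide +kernel))
noncomputable def rh66217879edf29139 : CRef := CRef.mk (Pat.mk 0x880000001800000010000000000000000000000000 0x3e0000003e0000007f000000fc0000001e0000001c0000000c0000000c0000000c 10 8) 0 0 (step_sound _ 164 [(rh1cb2cfd7037c011c.shift 1 3), rh5d9989211af9d7d6, (rh8ba2aa402370793e.shift 3 2), (rhcd8f1cf8d3adaf40.shift 1 2), (rhe92b9caae1839385.shift 2 0), (rhfb551547993b9852.shift 0 1)] (by decide +kernel))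
noncomputable def rhba274d6e590d481b : CRef := CRef.mk (Pat.mk 0x18000000300000000000000000000000000000000000000000 0x4000000140000001c0000001e0000003f0000007f0000007f0000003e0000003a00000028 10 7) 0 0 (step_sound _ 194 [rh2b5ae7b2a196cdc2, (rhb739f4f82bb681b4.shift 1 5)] (by decide +kernel))
noncomputable def rh23309c12ea1b770a : CRef := CRef.mk (Pat.mk 0x200000003000000020000000000000000000000000 0x1000000030000000300000003e0000007e0000007f00000050 10 7) 0 0 (step_sound _ 69 [(rh8cdd36b03d57a2f6.shift 4 0), (rhe209853fe64cdce0.shift 0 1), (rhe286c75f2739cce2.shift 4 1)] (by decide +kernel))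
noncomputable def rh8737852ae1b667cd : CRef := CRef.mk (Pat.mk 0x1800000038000000000000000000000000 0xc0000000c0000000c0000001e0000003e0000007c000000ff0000002c 10 8) 0 0 (step_sound _ 130 [rh8cb19ab572662beb, (rhb739f4f82bb681b4.shift 1 3)] (by decide +kernel))
noncomputable def rh15bafa484cffe81c : CRef := CRef.mk (Pat.mk 0x3000000070000000000000000000000000 0x80000003c0000007e000000fe0000007f0000007c 10 8) 0 0 (step_sound _ 131 [rh79e8415602b59adc, (rhb739f4f82bb681b4.shift 2 3)] (by decide +kernel))
noncomputable def rhd95ba3170563076a : CRef := CRef.mk (Pat.mk 0x1800000018000000000000000000000000 0xc0000000c0000000c0000001e0000001f0000001f0000001f0000000c 10 5) 0 0 (step_sound _ 163 [(rh3e595262c1b737ad.shift 3 2), rh86570a14527af3c5, (rhb3e5613249985042.shift 2 0)] (by decide +kernel))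
noncomputable def rheb5cf9d9fc904106 : CRef := CRef.mk (Pat.mk 0x1800000098000000000000000000000000 0xc0000000c0000000c00000018000000df0000007f000000fc0000001c 10 8) 0 0 (step_sound _ 163 [(rh3e595262c1b737ad.shift 3 2), rh523884895dbd0349, (rhb3e5613249985042.shift 2 0)] (by decide +kernel))
noncomputable def rh0e046421f1faabc6 : CRef := CRef.mk (Pat.mk 0x100000001800000080000000000000000000000000 0x1c0000001c0000001c0000001f000000ff0000007f0000003c00000034 10 8) 0 0 (step_sound _ 99 [rh09196501705d2386, (rh43e13d2b24b8230b.shift 1 1), (rhcf80391c5046a495.shift 3 1), (rhf9366b6a121593ef.shift 3 1)] (by decide +kernel))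
noncomputable def rh4bff7a57d5d2fae7 : CRef := CRef.mk (Pat.mk 0x80000000c000000480000000000000000000000000000000000000000 0xc0000000c0000007c0000003f0000003f0000001f0000001c00000014 10 7) 0 0 (step_sound _ 165 [(rh5419adcd928dba20.shift 2 5), rh72f4fa4c6501986f] (by decide +kernel))
noncomputable def rh6c5ab5ad4f00c453 : CRef := CRef.mk (Pat.mk 0x100000001800000000000000000000000000000000 0x2800000038000000380000003800000038000000180000001f0000003f0000003f0000003c0000000c 10 6) 0 0 (step_sound _ 196 [(rh281c6819542c66e6.shift 3 1), rh33662ae0fd178e68, (rh68a777751bfeafdf.shift 3 3), (rhb070b81d3ed3d6c1.shift 3 0), (rhfafeb437ceb8396d.shift 3 1)] (by decide +kernel))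
noncomputable def rhf2166cfa65fe6d40 : CRef := CRef.mk (Pat.mk 0x14000000140000000600000000000000000000000000000000 0x28000000380000003800000034000000160000003e0000007b0000003e0000003a00000020 10 7) 0 0 (step_sound _ 132 [(rh2d4fff601779b65f.shift 1 1), (rh3db5f7178a0e5bc6.shift 1 2), (rh5ab2b369f8ed4068.shift 1 0), rh8709a8d5cbb13fd6, (rhe83dfcda1ee8ff4e.shift 0 1)] (by decide +kernel))
noncomputable def rh210a94cddf6d6963 : CRef := CRef.mk (Pat.mk 0x800000080000000180000009000000000 0x280000003c0000003c0000007e0000007f000000fc0000001f000000ff00000024 10 8) 0 0 (step_sound _ 100 [(rh01242416325952f7.shift 3 0), (rh3ea8aa306a93cd67.shift 0 1), (rh616c75d1b5542aee.shift 3 1), rhb2a95bb7ae3bdff7, (rhe1f1aab5318cd34b.shift 3 1)] (by decide +kernel))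
noncomputable def rh58a6d5105500aeae : CRef := CRef.mk (Pat.mk 0x80000008000000018000000900000000000000000 0x340000007c000000fc0000001e000000ff0000003700000014 10 8) 0 0 (step_sound _ 69 [rh2bd13ad897859d7b, (rh2fe78cc5ca4405d8.shift 3 2)] (by decide +kernel))
noncomputable def rh3a43ec8eb95ed998 : CRef := CRef.mk (Pat.mk 0x4000000400000000c000000180000000000000000000000000000000000000000 0x140000003c000000780000000f0000001c00000018000000180000001c0000001c00000014 10 7) 0 0 (step_sound _ 193 [(rhb739f4f82bb681b4.shift 0 5), (rhce27654737584e92.shift 2 0)] (by decide +kernel))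
noncomputable def rh2f7923464dfebbd6 : CRef := CRef.mk (Pat.mk 0x400000000c00000048000000080000000000000000 0x10000000780000000f0000007f0000003f0000001700000002 10 7) 0 0 (step_sound _ 100 [(rh2fe78cc5ca4405d8.shift 2 3), rh40843b252af69935] (by decide +kernel))
noncomputable def rhcc4c470e0293ae77 : CRef := CRef.mk (Pat.mk 0x80000000a60000002400000004000000040000000000000000 0x140000001c0000001c0000001c0000000a6000001fc000003df000001fe000001da00000100 10 10) 0 0 (step_sound _ 132 [(rh5419adcd928dba20.shift 1 4), rhb57758181049d199] (by decide +kernel))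
noncomputable def rhdf7831faa4719673 : CRef := CRef.mk (Pat.mk 0x100000000000000038000000600000000000000000000000000000000000000000 0x10000000380000003800000078000000ff000000fe0000007f0000007000000050 10 8) 0 0 (step_sound _ 133 [(rh01483ff9cba2f6ac.shift 4 1), (rh0a6888916bcef86b.shift 4 1), (rh83692b69a36621d2.shift 0 1), (rh899aa131991e1e11.shift 2 0), (rh92d527fd57e151ef.shift 4 4), (rhd1779d7de7f8215b.shift 4 1)] (by decide +kernel))
noncomputable def rhf31f88904adf0a50 : CRef := CRef.mk (Pat.mk 0x82000000b0000000a6000000000000000000000000 0x700000057000000ff000001df000000f7000000a7000001c5000001c000000140 10 9) 0 0 (step_sound _ 71 [(rh240ea8fb23f6808e.shift 0 2), (rh6eff4158bb400f47.shift 6 0), (rh8ff3dde5b1c639e0.shift 6 0), (rhc4526fc8abf298b6.shift 6 0)] (by decide +kernel))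
noncomputable def rh1e3402c4d7921992 : CRef := CRef.mk (Pat.mk 0x90000000b0000000a 0x40000000c0000001c0000001d0000001f0000001d0000001f0000000a 10 5) 0 0 (step_sound _ 68 [(rh1c62b6193297d9e3.shift 0 1), rha21684b98af2c6f4] (by decide +kernel))
noncomputable def rhb4d07b480f5f4269 : CRef := CRef.mk (Pat.mk 0x10000005800000050000000000000000000000000 0x80000000e800000ff8000007ef00000ffc00000050000000e0000000e0000000a0 10 12) 0 0 (step_sound _ 166 [rh1df22c63ef4be1b5, (rh2231434a217bd613.shift 1 4), (rh59b11acd61470a21.shift 5 0), (rhb8f84d5e7eac8322.shift 4 0), (rhd2f81451d7df0686.shift 3 2)] (by decide +kernel))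
noncomputable def rh3658121b6a5f7e09 : CRef := CRef.mk (Pat.mk 0x4000000000000000c000000180000000000000000000000000000000000000000 0xc0000000c000000080000000f0000001f0000003f0000001f0000001e0000001c00000014 10 6) 0 0 (step_sound _ 193 [(rhb739f4f82bb681b4.shift 0 5), rhcb17e3a0f213aed1] (by decide +kernel))
noncomputable def rhc2a561e044383ce0 : CRef := CRef.mk (Pat.mk 0x4000000180000000c0000004000000000 0x140000001c0000001c000000180000001c0000001c0000000f0000007c0000001c 10 7) 0 0 (step_sound _ 65 [(rh53b3c253cb0c65f4.shift 0 2), (rh751ab56a6d6cdd62.shift 2 0)] (by decide +kernel))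
noncomputable def rh01fc812f6b471bce : CRef := CRef.mk (Pat.mk 0x4000000180000000c0000004000000000000000000000000000000000 0x140000001c0000001c000000180000001c0000001c0000000f0000007c000000180000001c0000001c00000004 10 7) 0 0 (step_sound _ 161 [(rh53b3c253cb0c65f4.shift 0 5), (rhea295a63eadec6e1.shift 2 0)] (by decide +kernel))
noncomputable def rhaedbbc3f2252824b : CRef := CRef.mk (Pat.mk 0x4000000180000000c00000040000000000000000000000000 0x140000001c0000001c000000180000001c0000001c0000000f000000780000001c0000001c00000014 10 7) 0 0 (step_sound _ 129 [(rh53b3c253cb0c65f4.shift 0 4), (rh66bcdea7755dce09.shift 2 0)] (by decide +kernel))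
noncomputable def rhb8c5ea82d58bbc37 : CRef := CRef.mk (Pat.mk 0x8000000900000001800000080000000000000000000000000 0x40000002f000000fc0000001f000000ff0000007f0000003c0000003c 10 8) 0 0 (step_sound _ 165 [(rh361cc68994bd8a63.shift 3 4), rhd75964fda5e1ef2c] (by decide +kernel))
noncomputable def rhff2b1a830073009a : CRef := CRef.mk (Pat.mk 0x4000000080000000c000000400000000000000000000000000000000000000000 0x80000000c0000000c0000000c0000007f0000003f0000001f0000001e0000001c00000014 10 7) 0 0 (step_sound _ 163 [(rh0ac2c7be15b134d5.shift 2 1), rh10358f26b5d9b703, (rh12452934acb847d5.shift 2 4), (rhc05d451ce3dd5e48.shift 2 2), (rhcb677da7e76f9c96.shift 2 1)] (by decide +kernel))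
noncomputable def rhf0c92708795ef30f : CRef := CRef.mk (Pat.mk 0x2000000020000002200000022000000000 0x3df000001fe000001fe000003200000023000000010 10 10) 0 0 (step_sound _ 132 [(rh50fbb5868c909700.shift 4 1), rhd27ba24d0e899fd0] (by decide +kernel))
noncomputable def rh2798b22e65a7c35a : CRef := CRef.mk (Pat.mk 0x200000022000000260 0x5000000070000003ff000001fe000001fe0000036000000260 10 10) 0 0 (step_sound _ 101 [(rh5bd4bc0c2c48140c.shift 4 0), rh6baf06259829d08a, (rh73f605273a09a9d0.shift 5 0), (rhba97f7f4ade5e136.shift 4 0)] (by decide +kernel))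
noncomputable def rh61a779bfb851b8b9 : CRef := CRef.mk (Pat.mk 0x200000022000000060000000000000000000000000 0x3de000001fe000003f700000060000000300000003000000010 10 10) 0 0 (step_sound _ 69 [(rhb49ddddc37b5f7cb.shift 0 2), (rhc4526fc8abf298b6.shift 4 0), (rhcab3157f7bdcba3e.shift 4 0)] (by decide +kernel))
noncomputable def rh6937afd581633bb3 : CRef := CRef.mk (Pat.mk 0x410000005000000053000000100000000000000000 0x50000002f0000007f000000ef0000007e00000053000000ff000000e5000000a1 10 8) 0 0 (step_sound _ 70 [(rh6eff4158bb400f47.shift 5 0), (rh8ff3dde5b1c639e0.shift 5 0), (rhc4526fc8abf298b6.shift 5 0), rhf7625b4186c7df3e] (by decide +kernel))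
noncomputable def rh07071eb8e736d321 : CRef := CRef.mk (Pat.mk 0x410000005000000053000000500000000000000000 0x85000000ef000000ff0000006f0000007e00000053000000df0000008500000001 10 8) 0 0 (step_sound _ 39 [rh7e14e553bf12cb32, (rhd3458b32566d63f7.shift 6 1)] (by decide +kernel))
noncomputable def rh43330323687aa57d : CRef := CRef.mk (Pat.mk 0x4000000400000000c00000018000000000000000000000000 0x180000003c0000007c0000000c0000001f0000003f0000001700000002 10 7) 0 0 (step_sound _ 163 [(rh4d3be515c742e03b.shift 2 1), (rha231d15fdff27146.shift 2 2), (rhb23658ecdd7ce5df.shift 2 2), rhed12c7be3d20c175] (by decide +kernel))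
noncomputable def rh8ad65fd891c3780e : CRef := CRef.mk (Pat.mk 0x4000000400000000c00000018000000000000000000000000 0x1c0000003c000000780000000c0000001f0000003f0000001700000002 10 7) 0 0 (step_sound _ 163 [(rh6196b452c518de56.shift 2 2), (rha231d15fdff27146.shift 2 2), (rhb23658ecdd7ce5df.shift 2 2), rhed12c7be3d20c175] (by decide +kernel))
noncomputable def rhe7f0b2c148c21a1b : CRef := CRef.mk (Pat.mk 0x480000014c0000014000000000000000000000000000000000000000000 0x280000003a0000007b4000003fff000016fe00003fce000033f8000023fc000003c0000001c000000140 10 15) 0 0 (step_sound _ 167 [(rh09378e915c84f1be.shift 2 1), (rh4e520f12e938eac9.shift 0 3), (rh576ac54ab1059997.shift 6 0), (rhb3257eb51b6bc229.shift 6 2), (rhc47fe1bc6b175f77.shift 6 3)] (by decide +kernel))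
noncomputable def rhcff18c04c2722163 : CRef := CRef.mk (Pat.mk 0x6000000038000000000000000000000000 0x50000000740000007f000000ff000000ff0000007e00000038000000180000001000000010 10 8) 0 0 (step_sound _ 165 [(rh2ae074037f032728.shift 2 2), (rh32431e66bbf434a4.shift 4 2), (rh7a7e08304268422e.shift 4 2), (rh976a48eb1c80a12f.shift 4 2), (rhe631278183080db2.shift 0 3), rheae17d1130039ec7] (by decide +kernel))
noncomputable def rhdebb09b1385fd0ad : CRef := CRef.mk (Pat.mk 0x180000000c00000040000000000000000000000000 0x140000001c0000001e0000001f0000003f0000001f0000000c00000078000000180000001800000010 10 7) 0 0 (step_sound _ 99 [(rh000637b5a81e86aa.shift 2 1), (rh4c145d583973abd2.shift 2 0), (rh6b9e510cdd796283.shift 0 3), (rhadc87d160dfd77a4.shift 0 2), (rhccd3548d55d62cb7.shift 2 2), (rhf7acaebcded2f86e.shift 2 2)] (by decide +kernel))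
noncomputable def rh0ba522a57a5909fc : CRef := CRef.mk (Pat.mk 0x100000001e0000009000000000000000000000000000000000 0x20000000a0000001f0000001e000000dc0000007c0000003c0000003800000020 10 8) 0 0 (step_sound _ 193 [(rh3244c3cc8379b070.shift 0 5), (rh4aae853d14b3fd76.shift 1 0)] (by decide +kernel))
noncomputable def rha4d337777db5cfa0 : CRef := CRef.mk (Pat.mk 0x480000000c0000004000000000000000000000000000000000 0x140000001c0000001c000000180000007c0000000f0000007c000000180000001c0000001c00000014 10 7) 0 0 (step_sound _ 196 [(rh361cc68994bd8a63.shift 2 5), rh53b1bd3b0f5d6ff2] (by decide +kernel))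
noncomputable def rh4203fa5c42bc6e1c : CRef := CRef.mk (Pat.mk 0x12000000530000005800000008000000000000000000000000 0xa0000000e0000000fe0000005300000078000000ec000000f8000000e800000080 10 8) 0 0 (step_sound _ 133 [rh92264d2e867dea1f, (rheb0810cc63b001d8.shift 2 3)] (by decide +kernel))
noncomputable def rh947bef5a59fde51d : CRef := CRef.mk (Pat.mk 0x100000001800000088000000000000000000000000 0xc0000000c0000000c0000001c0000001e000000fc0000007f0000003e0000003e 10 8) 0 0 (step_sound _ 100 [(rh17a2ffbb6c901f86.shift 1 0), (rh4c4f1f8a139336b8.shift 3 0), (rh5998dcdfd0b03cdd.shift 0 1), (rh64129c8b2639a558.shift 0 1), (rh748f64a74f67a47c.shift 2 1), (rhc8e846e7295b45af.shift 1 0)] (by decide +kernel))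
noncomputable def rh45d94834518128a6 : CRef := CRef.mk (Pat.mk 0x10000000180000001800000000 0x1f0000001f0000001f0000001e0000001c00000014 10 5) 0 0 (step_sound _ 132 [(rh5c5e593799055d58.shift 3 1), rhac321df1c267a6f0] (by decide +kernel))
noncomputable def rh5a8b383049b3966d : CRef := CRef.mk (Pat.mk 0x3000000018000000000000000000000000 0x280000003a0000003e0000007f0000007f0000003f0000001e0000001c0000001400000004 10 7) 0 0 (step_sound _ 98 [(rh53b3c253cb0c65f4.shift 1 3), rh9e4b3ad25ac578f2] (by decide +kernel))
noncomputable def rh868f0daa384fb195 : CRef := CRef.mk (Pat.mk 0x20000000300000002000000000 0x500000007f0000007e0000003e000000300000003000000010 10 7) 0 0 (step_sound _ 133 [(rh03dfdf12d5937476.shift 4 0), rh9e4ac041e6a5ca9b, (rhc85cc95794737cf7.shift 4 1)] (by decide +kernel))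
noncomputable def rhb0c37e4cd180c315 : CRef := CRef.mk (Pat.mk 0x3800000018000000000000000000000000 0x2c000000ff0000007c0000003e0000001e0000000c0000000c0000000c 10 8) 0 0 (step_sound _ 98 [(rh53b3c253cb0c65f4.shift 1 3), rhfca0e8b25e410148] (by decide +kernel))
noncomputable def rhda15d54c38faf237 : CRef := CRef.mk (Pat.mk 0x700000003000000000 0x7c0000007f000000fe0000007e0000003c00000008 10 8) 0 0 (step_sound _ 35 [(rh53b3c253cb0c65f4.shift 2 1), rh69a64589013b6cba] (by decide +kernel))
noncomputable def rhc82f5aef5cd1059b : CRef := CRef.mk (Pat.mk 0x1800000018000000000000000000000000 0xc0000001f0000001f0000001f0000001e0000000c0000000c0000000c 10 5) 0 0 (step_sound _ 67 [(rh9954101f0efffb9e.shift 2 0), (rhea7a1800d6f053bd.shift 3 0), (rhf54ffb9e12259174.shift 0 1)] (by decide +kernel))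
noncomputable def rhde266388c5cdf3fc : CRef := CRef.mk (Pat.mk 0x9800000018000000000000000000000000 0x1c000000fc0000007f000000df000000180000000c0000000c0000000c 10 8) 0 0 (step_sound _ 67 [(rh08da2e49f6a50423.shift 0 2), (rh9954101f0efffb9e.shift 2 0), (rhea7a1800d6f053bd.shift 3 0)] (by decide +kernel))
noncomputable def rhcdc39d7fefdeafac : CRef := CRef.mk (Pat.mk 0x8000000018000000100000000000000000 0x340000003c0000007f000000ff0000001f0000001c0000001c0000001c 10 8) 0 0 (step_sound _ 131 [(rh200fa942fdc91528.shift 1 0), rh2bc514c438513f59, (rhc2c7bae8f445c890.shift 3 0), (rhc38f566cab2818e5.shift 3 0)] (by decide +kernel))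
noncomputable def rhdca10c114ac8d0d1 : CRef := CRef.mk (Pat.mk 0x480000000c00000008 0x140000001c0000001f0000003f0000003f0000007c0000000c0000000c 10 7) 0 0 (step_sound _ 69 [(rhb2a0b9ccfb5cecd5.shift 2 1), rhf2958d9b6c80988b] (by decide +kernel))
noncomputable def rh1c224babb4d88e7b : CRef := CRef.mk (Pat.mk 0x18000000100000000000000000000000000000000000000000 0xc0000003c0000003f0000003f0000001f000000180000003800000038000000380000003800000028 10 6) 0 0 (step_sound _ 132 [(rh56259dd1390eee46.shift 3 1), (rhb128789f71b4b6dc.shift 3 0), (rhb1a251d9bff81766.shift 3 3), (rhc8a5c9ff10761614.shift 0 3), (rhf9a6286f1d5377a2.shift 3 3)] (by decide +kernel))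
noncomputable def rhae6bc65f567384e5 : CRef := CRef.mk (Pat.mk 0x60000001400000014000000000000000000000000 0x200000003a0000003e0000007b0000003e0000001600000034000000380000003800000028 10 7) 0 0 (step_sound _ 164 [(rh00e164d6cde6a508.shift 0 2), (rh30d276a602de0690.shift 1 2), (rh6b1199a96e15d834.shift 1 1), rhafc826b821ea4cd4, (rhbdce13b1f10ed42c.shift 1 0)] (by decide +kernel))
noncomputable def rh30e81bbe64d3d437 : CRef := CRef.mk (Pat.mk 0x9000000018000000800000000800000000000000000000000000000000 0x24000000ff0000001f000000fc0000007f0000007e0000003c0000003c00000028 10 8) 0 0 (step_sound _ 164 [(rh0a71188c1f0ad4ab.shift 0 1), (rh576ac54ab1059997.shift 3 0), (rh5ddbeed5d869bf16.shift 3 3), (rh75bd2b7f2bf50fe2.shift 3 3), (rhe090211cafa56e57.shift 0 1)] (by decide +kernel))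
noncomputable def rh989ab516f660daf0 : CRef := CRef.mk (Pat.mk 0x9000000018000000800000000800000000 0x1400000037000000ff0000001e000000fc0000007c00000034 10 8) 0 0 (step_sound _ 133 [rh1c119999e6fd888d, (rh361cc68994bd8a63.shift 3 3)] (by decide +kernel))
noncomputable def rh1248be38b77a506d : CRef := CRef.mk (Pat.mk 0x180000000c000000400000000400000000 0x140000001c0000001c00000018000000180000001c0000000f000000780000003c00000014 10 7) 0 0 (step_sound _ 97 [(rh53b3c253cb0c65f4.shift 0 3), (rh57aa0a9ff1a5fec3.shift 2 0)] (by decide +kernel))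
noncomputable def rheb56812b4b5ee7c9 : CRef := CRef.mk (Pat.mk 0x8000000480000000c0000004000000000 0x2000000170000003f0000007f0000000f0000007800000010 10 7) 0 0 (step_sound _ 100 [(rh361cc68994bd8a63.shift 2 2), rhac0b40ee4a0fce64] (by decide +kernel))
noncomputable def rh7d411ba98e3a93d9 : CRef := CRef.mk (Pat.mk 0x40000000400000024000000a600000080000000000000000000000000 0x100000001da000001fe000003df000001fc000000a6000001c0000001c0000001c000000140 10 10) 0 0 (step_sound _ 164 [rh11c6e5cdb4e793c9, (rhb2a0b9ccfb5cecd5.shift 1 4)] (by decide +kernel))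
noncomputable def rh877b7d5e9e713ec3 : CRef := CRef.mk (Pat.mk 0x60000000380000000000000010 0x50000000700000007f000000fe000000ff00000078000000380000003800000010 10 8) 0 0 (step_sound _ 133 [(rh06181a2dc624c6f8.shift 4 0), (rh2ae074037f032728.shift 2 1), (rh32431e66bbf434a4.shift 4 1), (rh7a7e08304268422e.shift 4 1), (rh976a48eb1c80a12f.shift 4 1), (rhe631278183080db2.shift 0 2)] (by decide +kernel))
noncomputable def rhfd45fe3bd547384d : CRef := CRef.mk (Pat.mk 0xa6000000b000000082000000000000000000000000 0x140000001c0000001c5000000a7000000f7000001df000000ff0000005700000007 10 9) 0 0 (step_sound _ 199 [(rh1741680720c097b4.shift 6 3), (rh20966da26a1c2ae8.shift 6 2), (rh771d065bdc85bf2d.shift 6 2), rhceffe67de0550c6c] (by decide +kernel))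
noncomputable def rh3a361e0a6d352e99 : CRef := CRef.mk (Pat.mk 0xa0000000b000000090000000000000000000000000000000000000000 0xa0000001f0000001d0000001f0000001d0000001c0000000c00000004 10 5) 0 0 (step_sound _ 164 [(rhc10214bf3fe8094a.shift 0 5), rhef3df91a691508ca] (by decide +kernel))
noncomputable def rh0677d5d5cc3a157c : CRef := CRef.mk (Pat.mk 0x500000005800000001000000000000000000000000 0xa0000000e0000000e00000005000000ffc000007ef00000ff8000000e800000080 10 12) 0 0 (step_sound _ 102 [(rh2ee329c40df4056f.shift 3 0), (rh5ce65ffe000b43dc.shift 4 2), rh9acd5f4503dd6ee2, (rhbf5d9e90d56c2a5f.shift 1 3), (rhc2c0f24096bccdca.shift 5 1)] (by decide +kernel))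
noncomputable def rhdccf2ef9f7ef7b09 : CRef := CRef.mk (Pat.mk 0x180000000c000000000000000400000000 0x140000001c0000001e0000001f0000003f0000001f0000000f000000080000000c0000000c 10 6) 0 0 (step_sound _ 97 [rh38c98af93e3ad97f, (rh53b3c253cb0c65f4.shift 0 3)] (by decide +kernel))
noncomputable def rh150d4f5f78eded93 : CRef := CRef.mk (Pat.mk 0x400000000c000000180000000400000000000000000000000000000000 0x1c0000007c0000000f0000001c0000001c000000180000001c0000001c00000014 10 7) 0 0 (step_sound _ 193 [(rhaccb182d074ee4fc.shift 2 0), (rhb739f4f82bb681b4.shift 0 5)] (by decide +kernel))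
noncomputable def rh59fca6dfe442a80e : CRef := CRef.mk (Pat.mk 0x400000000c000000180000000400000000000000000000000000000000 0x40000001c0000001c000000180000007c0000000f0000001c0000001c000000180000001c0000001c00000014 10 7) 0 0 (step_sound _ 193 [(rhaa582c20f65bbb57.shift 2 0), (rhb739f4f82bb681b4.shift 0 5)] (by decide +kernel))
noncomputable def rh10b87ce7d0e57930 : CRef := CRef.mk (Pat.mk 0x400000000c000000180000000400000000000000000000000000000000 0x140000001c0000001c000000780000000f0000001c0000001c000000180000001c0000001c00000014 10 7) 0 0 (step_sound _ 193 [(rh03f232b8e32862fd.shift 2 0), (rhb739f4f82bb681b4.shift 0 5)] (by decide +kernel))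
noncomputable def rh6a0fcc43d6e2ac16 : CRef := CRef.mk (Pat.mk 0x8000000018000000900000000800000000 0x3c0000003c0000007f000000ff0000001f000000fc0000002f00000004 10 8) 0 0 (step_sound _ 69 [(rh2fe78cc5ca4405d8.shift 3 2), rh6be3d27afd269e80] (by decide +kernel))
noncomputable def rh2a8c515f2d77d849 : CRef := CRef.mk (Pat.mk 0x400000000c000000080000000400000000 0x140000001c0000001e0000001f0000003f0000007f0000000c0000000c0000000c00000008 10 7) 0 0 (step_sound _ 131 [(rh40e1ca449fc7ebc6.shift 2 1), (rh90c3ff0071edb3ca.shift 0 2), (rhaa5f50da654bc74e.shift 2 1), (rhb77bfac3e9efecea.shift 2 1), (rhc47fe1bc6b175f77.shift 2 0)] (by decide +kernel))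
noncomputable def rh98c791f5356d08f7 : CRef := CRef.mk (Pat.mk 0x22000000220000000200000002000000000 0x100000023000000320000001fe000001fe000003df 10 10) 0 0 (step_sound _ 36 [(rh932754581e0f4330.shift 4 0), rhacc93257545b9f25] (by decide +kernel))
noncomputable def rh6b2ad0c1b8f8881a : CRef := CRef.mk (Pat.mk 0x260000002200000002000000000000000000000000000000000 0x26000000360000001fe000001fe000003ff0000007000000050 10 10) 0 0 (step_sound _ 101 [(rh214b65f1b5b7514c.shift 0 2), (rh8c3839f9b9075f23.shift 5 1), (rha8bc3cae4d77a08f.shift 4 1), (rhc94dfb5f501cb051.shift 4 0)] (by decide +kernel))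
noncomputable def rh8cc9108bcf0f5ed4 : CRef := CRef.mk (Pat.mk 0x60000002200000002000000000 0x10000000300000003000000060000003f7000001fe000003de 10 10) 0 0 (step_sound _ 133 [(rh5abfc4c9d959be03.shift 4 0), (rh771d065bdc85bf2d.shift 4 0), rhd3a8b63fc08f7810] (by decide +kernel))
noncomputable def rh1e242beaacce17ea : CRef := CRef.mk (Pat.mk 0x10000000530000005000000041000000000000000000000000 0xa1000000e5000000ff000000530000007e000000ef0000007f0000002f00000005 10 8) 0 0 (step_sound _ 198 [(rh1741680720c097b4.shift 5 3), (rh20966da26a1c2ae8.shift 5 2), rh3ab3d23cc3cf4078, (rh771d065bdc85bf2d.shift 5 2)] (by decide +kernel))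
noncomputable def rhf98c79e97886cea8 : CRef := CRef.mk (Pat.mk 0x50000000530000005000000041000000000000000000000000 0x100000085000000df000000530000007e0000006f000000ff000000ef00000085 10 8) 0 0 (step_sound _ 231 [rhb0614c570cea5ab4, (rhbaefcd01e0a8bca3.shift 6 3)] (by decide +kernel))
noncomputable def rh2a54feb32e287a2a : CRef := CRef.mk (Pat.mk 0x180000000c000000400000000400000000 0x2000000170000003f0000001f0000000c0000007c0000003c00000018 10 7) 0 0 (step_sound _ 67 [(rh000637b5a81e86aa.shift 2 0), (rh2b2e2610b580dbe9.shift 2 0), (rhadc87d160dfd77a4.shift 0 1), (rhfe0afd2be4be9ab4.shift 2 1)] (by decide +kernel))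
noncomputable def rhd3e048f6f2700d78 : CRef := CRef.mk (Pat.mk 0x180000000c000000400000000400000000 0x2000000170000003f0000001f0000000c000000780000003c0000001c 10 7) 0 0 (step_sound _ 67 [(rh000637b5a81e86aa.shift 2 0), (rh2b2e2610b580dbe9.shift 2 0), (rh8c01e5409b730b8b.shift 2 0), (rhadc87d160dfd77a4.shift 0 1)] (by decide +kernel))
noncomputable def rhe77c671bbf8af64e : CRef := CRef.mk (Pat.mk 0x480000004c0000004400000004000000000000000000000000 0x140000007c0000006f0000007f0000003e0000007a0000003800000008 10 7) 0 0 (step_sound _ 196 [(rh361cc68994bd8a63.shift 2 5), rh75feb4ebc696eed3] (by decide +kernel))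
noncomputable def rh8317021edfdb6cb2 : CRef := CRef.mk (Pat.mk 0x480000004c00000040000000040000000000000000 0x40000001c0000001c000000180000007c0000006f000000780000003c0000003400000030 10 7) 0 0 (step_sound _ 164 [(rh361cc68994bd8a63.shift 2 4), rhae38375ee1383dd9] (by decide +kernel))
noncomputable def rh24779c11ceac1faf : CRef := CRef.mk (Pat.mk 0x480000004c00000040000000040000000000000000 0x40000001c0000001c000000180000007c0000006f0000007c0000003c0000003000000030 10 7) 0 0 (step_sound _ 164 [(rh361cc68994bd8a63.shift 2 4), rhc4b12ad3e89c59d0] (by decide +kernel))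
noncomputable def rha14815315220948e : CRef := CRef.mk (Pat.mk 0x24000000060000000000000002000000020000000000000002000000000 0x3c0000000600000005f000000fe000001ff000003fc000001fc000003d0 10 10) 0 0 (step_sound _ 134 [(rh3c88ce959c0e423f.shift 5 3), rhd31e2f76b1878c29] (by decide +kernel))
noncomputable def rh06ce298a3fe16b1e : CRef := CRef.mk (Pat.mk 0xc0000000600000020000000060000000200000000000000000 0xd0000000780000079e000001fe0000003f0000002000000020 10 11) 0 0 (step_sound _ 164 [rh291f12979c72f5ad, (rh53b3c253cb0c65f4.shift 3 5)] (by decide +kernel))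
noncomputable def rh245461de05104160 : CRef := CRef.mk (Pat.mk 0x90000000180000008000000008000000000000000000000000 0xf40000001e000000fe0000007e000000ff0000000800000008 10 8) 0 0 (step_sound _ 67 [(rh04253f50b6dd0619.shift 3 2), rh3cab28ef9206de59] (by decide +kernel))
noncomputable def rh66d7d957262451f6 : CRef := CRef.mk (Pat.mk 0x480000004c0000004400000004000000000000000000000000 0x140000007c0000006f000000fe0000003f000000fb0000003a0000000a 10 8) 0 0 (step_sound _ 196 [(rh361cc68994bd8a63.shift 2 5), rh4083776e9f366a21] (by decide +kernel))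
noncomputable def rhda7d023048e1c25d : CRef := CRef.mk (Pat.mk 0x120000001300000011000000010000000000000000000000000 0x50000001f0000001bc000001f7000000fe000001ef000000e000000020 10 9) 0 0 (step_sound _ 198 [(rh361cc68994bd8a63.shift 4 5), rhade36893feb5ff7c] (by decide +kernel))
noncomputable def rhb7e0e88acbd91ebd : CRef := CRef.mk (Pat.mk 0x60000000300000010000000010000000000000000000000000 0x10000000740000003c000003ff000000fe000000f70000002000000020 10 10) 0 0 (step_sound _ 101 [(rh42ba3e706da39527.shift 2 2), rh9253b389a70b1cee, (rhecb97fed8c7f1286.shift 4 2)] (by decide +kernel))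
noncomputable def rhdbfe0ac61c7ad8ea : CRef := CRef.mk (Pat.mk 0x100000001300000011000000010000000000000000000000000 0x28000000380000003800000070000001ff000001be000001fe000000f6000000e6000000a600000002 10 9) 0 0 (step_sound _ 163 [(rh257c3a82ce84288a.shift 1 0), (rh4ee7b71777ff37da.shift 3 1), (rh62c48efa4720617a.shift 1 0), (rhacac90aa3c848399.shift 0 3)] (by decide +kernel))
noncomputable def rhe0fb486e1d67251b : CRef := CRef.mk (Pat.mk 0xc000000180000000c00000000000000000000000000000000 0x80000000f0000001f0000001f0000001b000000170000001700000005 10 5) 0 0 (step_sound _ 129 [rh4c5c7a830b4f920a, (rh53b3c253cb0c65f4.shift 0 4)] (by decide +kernel))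
noncomputable def rha4ede06beaea1436 : CRef := CRef.mk (Pat.mk 0x240000000700000000000000060000000000000000000000000 0x3d0000000700000003f000000fe000001ff0000002800000020 10 10) 0 0 (step_sound _ 69 [(rh04253f50b6dd0619.shift 5 2), rhac6089e0fbe43770] (by decide +kernel))
noncomputable def rh9dd4ddf5252c2eaa : CRef := CRef.mk (Pat.mk 0x80000000f000000000000000c00000000000000000 0x97000000fe0000007f000003fc000003fc00000030 10 10) 0 0 (step_sound _ 102 [(rh71222050f2c63a3a.shift 6 1), rh85d9fecb4e9c1901] (by decide +kernel))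
noncomputable def rh58019a51ab997b73 : CRef := CRef.mk (Pat.mk 0xc000000440000000c000000000000000000000000000000000 0x38000000f80000077f000003fe000007bf000000380000003800000028 10 11) 0 0 (step_sound _ 133 [(rh12a0abf7001a24f5.shift 4 2), (rh3596b36e97c776d4.shift 3 3), (rh36c0fb010e405737.shift 3 3), rh59659260346ddc64, (rha00addd61e2d7f53.shift 2 1), (rhc1d9d95268728087.shift 3 3)] (by decide +kernel))
noncomputable def rhffa4ec467ff93e15 : CRef := CRef.mk (Pat.mk 0x480000000c0000000000000004 0x140000001c0000001c0000001f0000003c0000007c0000000f0000000c0000000c 10 7) 0 0 (step_sound _ 100 [rh2a1e4a46d37973e6, (rh361cc68994bd8a63.shift 2 2)] (by decide +kernel))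
noncomputable def rh3e58fe2d2921fb54 : CRef := CRef.mk (Pat.mk 0x6000000038000000000000001000000000000000000000000000000000 0x10000000540000007f000000380000002f0000007e000000ff0000001e0000001e0000000a 10 8) 0 0 (step_sound _ 133 [(rh12cda698427604cb.shift 4 3), (rh5a7dce561d0bf78d.shift 4 3), rhaadd7877553d969a] (by decide +kernel))
noncomputable def rh8c13758325b96cc6 : CRef := CRef.mk (Pat.mk 0x400000000c000000400000000c00000000000000000000000000000000 0x140000001c0000007c0000000f000000780000001f000000380000001c0000001c00000004 10 7) 0 0 (step_sound _ 163 [(rh231570c0eeabc6f0.shift 2 0), (rh8464c34b4eba5e43.shift 0 2), (rh99a16be9f9729963.shift 0 2), (rhb1a251d9bff81766.shift 2 3)] (by decide +kernel))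
noncomputable def rh419eabb636029f58 : CRef := CRef.mk (Pat.mk 0x200000002600000020000000060000000000000000 0x80000000e0000000e0000000e0000003e000000360000007e0000001f0000001000000010 10 7) 0 0 (step_sound _ 100 [(rh1d42c312ab680e51.shift 1 2), (rh4aaae8bb96ffc877.shift 0 2), (rhc13ae28137ba9813.shift 0 2), (rhc4713ca36c943a51.shift 1 0)] (by decide +kernel))
noncomputable def rh7ff24e9910814271 : CRef := CRef.mk (Pat.mk 0xc000000400000000c000000000000000000000000000000000 0x1f8000000f80000077f000003fe000007bf000000380000003800000028 10 11) 0 0 (step_sound _ 133 [(rh36c0fb010e405737.shift 3 3), (rh3a4656a0a86062f4.shift 3 2), rh71ca6dd446a7edd0, (rh925ec17f5b254f51.shift 4 1), (rhc1d9d95268728087.shift 3 3)] (by decide +kernel))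
noncomputable def rh75fdf9d2ef09ef47 : CRef := CRef.mk (Pat.mk 0xc000000400000000e00000000000000000000000000000000 0xa0000000e0000000e0000000c0000000e0000000e000000770000003e0000000c0000000e0000000e00000006 10 7) 0 0 (step_sound _ 132 [(rh186400995b27b60f.shift 0 3), (rh45e9dfbd6bd5d256.shift 1 4), (rh9f7e4a240a60a242.shift 0 1), rha089aa043aa9a898] (by decide +kernel))
noncomputable def rhdf16344ac6c1ceaf : CRef := CRef.mk (Pat.mk 0xc0000004000000006000000000000000000000000000000000 0x1f8000000f80000077f000003fe000007bf000000380000003800000028 10 11) 0 0 (step_sound _ 135 [(rh36c0fb010e405737.shift 3 3), (rh3a4656a0a86062f4.shift 3 2), rh71ca6dd446a7edd0, (rh925ec17f5b254f51.shift 4 1), (rhc1d9d95268728087.shift 3 3)] (by decide +kernel))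
noncomputable def rhf6f4cc80c3e1b70c : CRef := CRef.mk (Pat.mk 0x10000001000000001800000000000000000000000000000000 0x1800000018000001cf000000fe000001ff0000001e0000000e0000000a 10 9) 0 0 (step_sound _ 133 [(rh38dd4840086d1986.shift 1 3), (rh406a63d33438bd46.shift 1 2), (rhc1d9d95268728087.shift 1 3), rheb96031e1b17fae6, (rhf5a56d1d3da40461.shift 2 2)] (by decide +kernel))
noncomputable def rhf4dab9b0399f5ba5 : CRef := CRef.mk (Pat.mk 0x800000000e00000000000000000000000000000000 0x300000003000000e70000007e0000003f000000070000000300000002 10 8) 0 0 (step_sound _ 132 [(rh3e2531436cb70ef7.shift 0 4), rh7b9cc5c5acef6d51, (rhf0e41d6fe90b727a.shift 0 3)] (by decide +kernel))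
noncomputable def rhffc7a7eca813047e : CRef := CRef.mk (Pat.mk 0x80000000180000008000000018000000000000000000000000 0x80000002a000000ff0000001e000000f40000001e0000001e0000000e0000000a 10 8) 0 0 (step_sound _ 132 [rh148d2fed99fbb7df, (rh8ca74fa25325e393.shift 3 2), (rhb1a251d9bff81766.shift 3 2)] (by decide +kernel))
noncomputable def rh85554d215de2c664 : CRef := CRef.mk (Pat.mk 0x80000000180000008000000018000000000000000000000000 0x280000003a000000ff0000001e000000f40000003e0000006e0000002e0000000a 10 8) 0 0 (step_sound _ 132 [rh148d2fed99fbb7df, (rh8ca74fa25325e393.shift 3 2), (rh99a16be9f9729963.shift 1 1)] (by decide +kernel))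
noncomputable def rh9db06bba7090f27b : CRef := CRef.mk (Pat.mk 0x100000001e00000000000000080000000000000000 0x200000003c0000003f0000007b0000001f0000001e000000370000000f0000000f00000001 10 7) 0 0 (step_sound _ 100 [rh0e44b348acabacdf, (rhe25b0a99195a5d59.shift 1 3)] (by decide +kernel))
noncomputable def rh25a66fcb9fe4b58b : CRef := CRef.mk (Pat.mk 0x680000000000000020000000000000000000000000 0xc0000000c0000005e0000007c000000fe0000003f0000007c0000007c00000050 10 8) 0 0 (step_sound _ 164 [(rh0d378fd9e8917c5a.shift 1 4), (rh775ca1963e850b80.shift 1 4), (rh9887616343b87ff1.shift 2 0), (rhd000277421b81087.shift 0 1)] (by decide +kernel))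
noncomputable def rhd47c07bbfc81acde : CRef := CRef.mk (Pat.mk 0x6800000000000000000000000000000000 0xc0000000c000000fe0000007c000000fe0000001f0000001c0000000c 10 8) 0 0 (step_sound _ 132 [(rh0d378fd9e8917c5a.shift 1 3), (rh9e97bba44c1b13e4.shift 1 3), rhd000277421b81087] (by decide +kernel))
noncomputable def rhdd90ce3c8870b139 : CRef := CRef.mk (Pat.mk 0x6800000000000000200000000000000000 0xc0000000c0000003e0000007c000000fe0000003f000000fc0000007c 10 8) 0 0 (step_sound _ 132 [(rh0d378fd9e8917c5a.shift 1 3), (rh47395bb7c99a0fd7.shift 2 0), (rh775ca1963e850b80.shift 1 3), rhd000277421b81087] (by decide +kernel))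
noncomputable def rhbfc2f3e41b58f00c : CRef := CRef.mk (Pat.mk 0x1100000003400000010000000100000000000000000 0x20000000600000026000001fe000000360000003f0000001f0000000e0000000a 10 9) 0 0 (step_sound _ 165 [(rh2f68792b6b779e96.shift 4 2), rh962328cfb9f4162a] (by decide +kernel))
noncomputable def rha77af79271140777 : CRef := CRef.mk (Pat.mk 0x1200000003000000100000000000000000 0x5000000070000000700000007000000070000001f000000030000001e0000000600000002 10 5) 0 0 (step_sound _ 130 [(rh361cc68994bd8a63.shift 0 3), rh74d2f13123eb70b1] (by decide +kernel))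
noncomputable def rhf0766f5ace6379e3 : CRef := CRef.mk (Pat.mk 0x20000000260000002000000002000000000000000000000000000000000 0x200000022000000378000007ff000001fe000003fe000001fc000000fc00000014 10 11) 0 0 (step_sound _ 134 [(rh144efba816aea87b.shift 5 1), (rh2b584295016b327a.shift 5 1), (rh5344fb6eab389bb7.shift 5 1), (rh655cb6dd8ee3fe8d.shift 5 1), (rh769b84ab3ace55ae.shift 2 1), rhb46c93a6910f1292, (rheeaae9d7dbec9e2a.shift 2 1)] (by decide +kernel))
noncomputable def rhb12cbe4add7d2278 : CRef := CRef.mk (Pat.mk 0x4000000440000004c0000004800000000 0x8000000380000007a0000003e0000007f0000006f0000007c00000014 10 7) 0 0 (step_sound _ 36 [(rh2fe78cc5ca4405d8.shift 2 1), rhe60c8e3a602adb78] (by decide +kernel))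
noncomputable def rh95777c629f8983d8 : CRef := CRef.mk (Pat.mk 0x4000000400000004c0000004800000000000000000000000000000000 0x30000000340000003c000000780000006f0000007c000000180000001c0000001c00000004 10 7) 0 0 (step_sound _ 132 [(rh2fe78cc5ca4405d8.shift 2 4), rh7a6e38ed5f93de8d] (by decide +kernel))
noncomputable def rh8f7c17d472f362b4 : CRef := CRef.mk (Pat.mk 0x4000000400000004c0000004800000000000000000000000000000000 0x30000000300000003c0000007c0000006f0000007c000000180000001c0000001c00000004 10 7) 0 0 (step_sound _ 132 [rh17d97aae1a2326e6, (rh2fe78cc5ca4405d8.shift 2 4)] (by decide +kernel))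
noncomputable def rhb5c8bdec0f3bc692 : CRef := CRef.mk (Pat.mk 0x20000000000000002000000020000000000000006000000240 0x3d0000001fc000003fc000001ff000000fe0000005f00000060000003c0 10 10) 0 0 (step_sound _ 102 [(rh2613c889e411427e.shift 5 0), rh7b21fa8e621c69c2] (by decide +kernel))
noncomputable def rh95b5369a1a05bbc0 : CRef := CRef.mk (Pat.mk 0x20000000600000020000000060000000c0 0x20000000200000003f000001fe0000079e00000078000000d0 10 11) 0 0 (step_sound _ 36 [rh3d42b8cc321ec606, (rhb739f4f82bb681b4.shift 3 0)] (by decide +kernel))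
noncomputable def rh6336d1d21e31726a : CRef := CRef.mk (Pat.mk 0x8000000800000001800000090 0x800000008000000ff0000007e000000fe0000001e000000f4 10 8) 0 0 (step_sound _ 131 [rh82b026e9747e5ff3, (rhff0f29cb645b05f7.shift 3 0)] (by decide +kernel))
noncomputable def rhc3a6f30cdb6b2e19 : CRef := CRef.mk (Pat.mk 0x4000000440000004c0000004800000000 0xa0000003a000000fb0000003f000000fe0000006f0000007c00000014 10 8) 0 0 (step_sound _ 36 [(rh2fe78cc5ca4405d8.shift 2 1), rh43d81f3ea8efd648] (by decide +kernel))
noncomputable def rha6e58571f34b8ac6 : CRef := CRef.mk (Pat.mk 0x1000000110000001300000012000000000 0x20000000e0000001ef000000fe000001f7000001bc000001f000000050 10 9) 0 0 (step_sound _ 38 [(rh2fe78cc5ca4405d8.shift 4 1), rh9fc615074d781324] (by decide +kernel))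
noncomputable def rh955722fc2f2efa01 : CRef := CRef.mk (Pat.mk 0x1000000100000000300000006000000000 0x2000000020000000f7000000fe000003ff0000003c0000007400000010 10 10) 0 0 (step_sound _ 133 [rh99ef63d27b283bdd, (rhdaa3bf5eb98f4fd8.shift 2 0), (rhdb2909ac5c854515.shift 4 1)] (by decide +kernel))
noncomputable def rhea2d14b08f62e087 : CRef := CRef.mk (Pat.mk 0x1000000110000001300000010000000000000000000000000000000000 0x2000000a6000000e6000000f6000001fe000001be000001ff00000070000000380000003800000028 10 9) 0 0 (step_sound _ 163 [(rh1a3e42f9a1ef7daa.shift 1 4), (rh2a07ce201804340d.shift 0 2), (rh7f225f60f37dabc7.shift 3 0), (rhdef0db35383bf8ca.shift 1 3)] (by decide +kernel))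
noncomputable def rh9a458d5acd6e929b : CRef := CRef.mk (Pat.mk 0xc000000180000000c00000000 0x500000017000000170000001b0000001f0000001f0000000f00000008 10 5) 0 0 (step_sound _ 97 [rh712086319626166f, (rhb739f4f82bb681b4.shift 0 2)] (by decide +kernel))
noncomputable def rha692355d74c700e3 : CRef := CRef.mk (Pat.mk 0x60000000000000007000000240 0x2000000028000001ff000000fe0000003f00000070000003d0 10 10) 0 0 (step_sound _ 133 [rh2f0b4bbc9835a72e, (rhff0f29cb645b05f7.shift 5 0)] (by decide +kernel))
noncomputable def rh73faee46f37747b5 : CRef := CRef.mk (Pat.mk 0xc000000000000000f000000080 0x30000003fc000003fc0000007f000000fe00000097 10 10) 0 0 (step_sound _ 70 [(rh2145e1d24b96a57e.shift 6 0), rhb75b6bedc1ccae47] (by decide +kernel))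
noncomputable def rhdae95ac0e3a52249 : CRef := CRef.mk (Pat.mk 0xc000000440000000c000000000 0x280000003800000038000007bf000003fe0000077f000000f800000038 10 11) 0 0 (step_sound _ 101 [(rh29ae7a2b4f5dbf8e.shift 3 2), rh5a63e63506b59eda, (rh699f7f0fd337dfda.shift 2 1), (rh981e53b33f264963.shift 3 2), (rhf0f41e2e6ee52468.shift 3 2), (rhf4f867732b231e78.shift 4 1)] (by decide +kernel))
noncomputable def rh2fd5ab6ce81fc9cd : CRef := CRef.mk (Pat.mk 0x4000000000000000c000000480000000000000000000000000000000000000000 0xc0000000c0000000f0000007c0000003c0000001f0000001c0000001c00000014 10 7) 0 0 (step_sound _ 164 [(rh2fe78cc5ca4405d8.shift 2 5), rhd9848a1d617c45b3] (by decide +kernel))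
noncomputable def rh5296067face89885 : CRef := CRef.mk (Pat.mk 0x100000000000000038000000600000000000000000 0xa0000001e0000001e000000ff0000007e0000002f000000380000007f0000005400000010 10 8) 0 0 (step_sound _ 165 [rh995fc4ab36efa221, (rha7e5b30d6e5612d1.shift 4 1), (rhc5351dabd90740aa.shift 4 1)] (by decide +kernel))
noncomputable def rh8ee2377f4e4c5111 : CRef := CRef.mk (Pat.mk 0xc000000400000000c000000400000000000000000 0x40000001c0000001c000000380000001f000000780000000f0000007c0000001c00000014 10 7) 0 0 (step_sound _ 131 [(rh281c6819542c66e6.shift 2 0), rh8df11686789c7ef5, (rh9bf6ac8dea9c2a25.shift 0 1), (rhf6d82f1f6c96273d.shift 2 2)] (by decide +kernel))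
noncomputable def rh465a7f904eca742d : CRef := CRef.mk (Pat.mk 0x600000020000000260000002000000000000000000000000000000000 0x10000000100000001f0000007e000000360000003e0000000e0000000e0000000e00000008 10 7) 0 0 (step_sound _ 196 [(rh130c4691a5653274.shift 0 6), (rh14a23a289611aafb.shift 0 6), (rh15f54fc0bfae2a6d.shift 1 0), (rh23625f181fa295a9.shift 1 4)] (by decide +kernel))
noncomputable def rhfaff0a5379d4fb26 : CRef := CRef.mk (Pat.mk 0xc000000400000000c000000000 0x280000003800000038000007bf000003fe0000077f000000f8000001f8 10 11) 0 0 (step_sound _ 101 [(rh29ae7a2b4f5dbf8e.shift 3 2), (rh981e53b33f264963.shift 3 2), (rhc27dd28f5c2fd039.shift 4 0), (rhf4747517e0ee467b.shift 3 1), rhfb9e01390821c059] (by decide +kernel))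
noncomputable def rh16748337a2d58898 : CRef := CRef.mk (Pat.mk 0xe000000400000000c0000000000000000000000000000000000000000 0x60000000e0000000e0000000c0000003e000000770000000e0000000e0000000c0000000e0000000e0000000a 10 7) 0 0 (step_sound _ 228 [(rh451cbccbd4bad72e.shift 0 4), rhc81eed30a9f3b193, (rheaa91b92daf0efc8.shift 1 6), (rhf9ab2d41f5effb32.shift 0 2)] (by decide +kernel))
noncomputable def rh22dbd469f092b658 : CRef := CRef.mk (Pat.mk 0x6000000400000000c000000000 0x280000003800000038000007bf000003fe0000077f000000f8000001f8 10 11) 0 0 (step_sound _ 103 [(rh29ae7a2b4f5dbf8e.shift 3 2), (rh981e53b33f264963.shift 3 2), (rhc27dd28f5c2fd039.shift 4 0), (rhf4747517e0ee467b.shift 3 1), rhfb9e01390821c059] (by decide +kernel))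
noncomputable def rh598c81ddda654a84 : CRef := CRef.mk (Pat.mk 0x18000001000000001000000000 0xa0000000e0000001e000001ff000000fe000001cf0000001800000018 10 9) 0 0 (step_sound _ 101 [(rh29ae7a2b4f5dbf8e.shift 1 2), (rh3a652aecf1f4722c.shift 1 2), (rh52f62baa2bd577f6.shift 2 0), (rhd3d466ce98008df6.shift 1 0), (rhe986cafad7244fd7.shift 0 1)] (by decide +kernel))
noncomputable def rh09fc92316032eb8e : CRef := CRef.mk (Pat.mk 0xe000000800000000000000000 0x200000003000000070000003f0000007e000000e70000000300000003 10 8) 0 0 (step_sound _ 100 [(rh4189d026c588653f.shift 0 2), (rhc078b3dae8bdb359.shift 0 2), rhdd23029110ea28a4] (by decide +kernel))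
noncomputable def rhfa0177f78dd4f8b6 : CRef := CRef.mk (Pat.mk 0x180000008000000018000000800000000000000000 0xa0000000e0000001e0000001e000000f40000001e000000ff0000002a00000008 10 8) 0 0 (step_sound _ 132 [(rh281c6819542c66e6.shift 3 0), (rhb7ec845def264386.shift 3 1), rhf4525d986a139460] (by decide +kernel))
noncomputable def rhea40c50fc8074582 : CRef := CRef.mk (Pat.mk 0x180000008000000018000000800000000000000000 0xa0000002e0000006e0000003e000000f40000001e000000ff0000003a00000028 10 8) 0 0 (step_sound _ 132 [(rh8df11686789c7ef5.shift 1 0), (rhb7ec845def264386.shift 3 1), rhf4525d986a139460] (by decide +kernel))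
noncomputable def rh4f75e53833bf940c : CRef := CRef.mk (Pat.mk 0x8000000000000001e0000001000000000000000000000000000000000 0x10000000f0000000f000000370000001e0000001f0000007b0000003f0000003c00000020 10 7) 0 0 (step_sound _ 196 [(rh33e738c4ed385b9f.shift 1 5), rhb45f5c57be7f52ab] (by decide +kernel))
noncomputable def rh2e189c881704a9b3 : CRef := CRef.mk (Pat.mk 0x200000000000000068000000000000000000000000 0x500000007c0000007c0000003f000000fe0000007c0000005e0000000c0000000c 10 8) 0 0 (step_sound _ 100 [(rh592c7139d2c44767.shift 1 2), (rh9e97bba44c1b13e4.shift 1 2), rha0faa2db2c5b26f7, (rhecee3631ccd53610.shift 2 2)] (by decide +kernel))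
noncomputable def rh2e33302b1206122c : CRef := CRef.mk (Pat.mk 0x68000000000000000000000000 0xc0000001c0000001f000000fe0000007c000000fe0000000c0000000c 10 8) 0 0 (step_sound _ 100 [(rh0d378fd9e8917c5a.shift 1 2), (rh9e97bba44c1b13e4.shift 1 2), rha0faa2db2c5b26f7] (by decide +kernel))
noncomputable def rh3a8ba331af2bedcd : CRef := CRef.mk (Pat.mk 0x200000000000000068000000000000000000000000 0x7c000000fc0000003f000000fe0000007c0000003e0000000c0000000c 10 8) 0 0 (step_sound _ 100 [(rh592c7139d2c44767.shift 1 2), (rh5fe3e239c7f00e2b.shift 2 2), (rh9e97bba44c1b13e4.shift 1 2), rha0faa2db2c5b26f7] (by decide +kernel))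
noncomputable def rh7be43c0ff37a6d8f : CRef := CRef.mk (Pat.mk 0x10000000100000003400000110000000000000000000000000 0xa0000000e0000001f0000003f00000036000001fe000000260000000600000002 10 9) 0 0 (step_sound _ 101 [(rh55afc6a59410cf00.shift 4 2), rh59767b2ab65b192e] (by decide +kernel))
noncomputable def rh0422659553463b6c : CRef := CRef.mk (Pat.mk 0x1000000003000000120000000000000000000000000000000000000000 0x2000000060000001e000000030000001f0000000700000007000000070000000700000005 10 5) 0 0 (step_sound _ 162 [(rh2fe78cc5ca4405d8.shift 0 5), rhea2b902a15c579ee] (by decide +kernel))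
noncomputable def rh46e28832bf773319 : CRef := CRef.mk (Pat.mk 0x2000000200000002600000020000000000 0x14000000fc000001fc000003fe000001fe000007ff000003780000022000000020 10 11) 0 0 (step_sound _ 134 [(rh0e6bb57ffa8c4a2c.shift 5 1), rh33f7e76a8a7f7c0e, (rh51323e3d015f6cf2.shift 5 1), (rh51ef15b4aa4066a5.shift 5 1), (rh801fc955b618a30c.shift 2 1), (rh904acdbd7790e72d.shift 2 1), (rhdfaef89462a27ee3.shift 5 1)] (by decide +kernel))
noncomputable def rhb0ef7ff0a327c555 : CRef := CRef.mk (Pat.mk 0x4000000000000000c0000002800000000000000000000000000000000 0xc0000000c0000000c0000007c0000001e0000001f0000001f0000000c 10 7) 0 0 (step_sound _ 132 [rh14da0beb887ba650, (rhf48373e13d2bc128.shift 2 4)] (by decide +kernel))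
noncomputable def rh7187f5e688d8c92c : CRef := CRef.mk (Pat.mk 0x38000001800000001000000000 0x2800000038000000ff0000007e0000003f00000038000001f80000001000000010 10 9) 0 0 (step_sound _ 69 [rh393b9e818eca099a, (rh5419adcd928dba20.shift 4 2)] (by decide +kernel))
noncomputable def rhebbbeb02baf329b7 : CRef := CRef.mk (Pat.mk 0xc0000000000000004000000000 0x18000000b8000000b8000003ff000001fe000000ff0000005000000050 10 10) 0 0 (step_sound _ 101 [(rh12d9e0f7f83c5840.shift 2 0), (rh252d91a4ec30bcff.shift 2 0), (rh26f7a43ad8c3d28e.shift 2 0), (rh6789ec82474e95b6.shift 2 2), (rh8c786e1f2e764b93.shift 2 0), (rhab1a9ca8a4af84de.shift 2 0), (rhac33eef3adcbbdb3.shift 1 0), rhbef556ba51f4410a] (by decide +kernel))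
noncomputable def rh68a186acfea4da16 : CRef := CRef.mk (Pat.mk 0x200000012000000020000000000000000000000000 0x5e000000fe000001bf00000020000000700000007000000050 10 9) 0 0 (step_sound _ 69 [(rh5ad9898cc32ef511.shift 4 0), (rh6eff4158bb400f47.shift 4 0), (rhc4526fc8abf298b6.shift 4 0), (rhca7b6d491368171a.shift 0 2)] (by decide +kernel))
noncomputable def rha61a6c25b28d01ff : CRef := CRef.mk (Pat.mk 0x10000000580000007000000000000000000000000000000000 0x10000000580000007f000000ef000000fc000000fc000000e0 10 8) 0 0 (step_sound _ 131 [(rh525d8949d0af3587.shift 2 0), (rh5b460b71d8952ca9.shift 0 3), (rh9c40a739b57d6d20.shift 2 2)] (by decide +kernel))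
noncomputable def rh05d0835eee0f2b5e : CRef := CRef.mk (Pat.mk 0x80000004800000018000000700000000000000000 0x40000000f0000007f0000001b0000007f0000000f0000000c 10 7) 0 0 (step_sound _ 67 [(rha37779f9238271b6.shift 2 1), (rhc4526fc8abf298b6.shift 2 0), (rhf7cf00a000bca404.shift 0 1), (rhfc9a4267b53187c3.shift 2 0)] (by decide +kernel))
noncomputable def rh5a486e801b4cc36e : CRef := CRef.mk (Pat.mk 0x80000001c000000000000001800000050 0x140000001e0000001e0000007f0000007f0000003f0000000400000018000000f0 10 8) 0 0 (step_sound _ 5 [(rhce323160a9dd10ed.shift 0 2), (rhf48373e13d2bc128.shift 3 0)] (by decide +kernel))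
noncomputable def rh517ff4d206a7b5f1 : CRef := CRef.mk (Pat.mk 0x2000000070000000000000006000000140 0x100000001c0000001c0000000c000000ff0000007e0000001f00000060000003c0 10 10) 0 0 (step_sound _ 7 [(rhb80b9c50b8d6a707.shift 0 2), (rhf48373e13d2bc128.shift 5 0)] (by decide +kernel))
noncomputable def rh575a795d9cc3fe68 : CRef := CRef.mk (Pat.mk 0x2000000070000000000000000000000000 0x380000003c0000003e0000003f000000fe0000001f0000000800000008 10 8) 0 0 (step_sound _ 99 [(rh1f9701c4cf497514.shift 0 2), (rh592c7139d2c44767.shift 1 2), (rh5b2ce1e5aa4a4edd.shift 0 2), (rhaeebc73f5a9c796a.shift 2 2), (rhddee6100c3f018ca.shift 2 0), (rhf8f73b255217880d.shift 1 1)] (by decide +kernel))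
noncomputable def rh4a990e61cab69f22 : CRef := CRef.mk (Pat.mk 0x10000000380000000000000030000000a0 0x7c000001fc000000ff000000fe000000780000000c00000034000001e0 10 9) 0 0 (step_sound _ 131 [rh356fb9d71b793b0d, (rhb8ec66daf742d649.shift 1 2), (rhe2b63c00a3d7bb73.shift 1 3), (rhf4c158652ae61942.shift 1 3)] (by decide +kernel))
noncomputable def rha190517b642f9bd8 : CRef := CRef.mk (Pat.mk 0x10000000100000001000000010 0x28000000380000003800000030000000ff0000007e0000003f00000010 10 8) 0 0 (step_sound _ 132 [(rh44f453b84f013105.shift 4 0), (rh6fa8dd4bf0561bd9.shift 3 1), (rh7f087df5357cf790.shift 1 0), (rha0982572811bf6a0.shift 0 1)] (by decide +kernel))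
noncomputable def rh75f1962798d6c55a : CRef := CRef.mk (Pat.mk 0x10000000100000001000000010 0x20000000380000003800000018000000ff0000007e0000003f00000010 10 8) 0 0 (step_sound _ 132 [(rh3ca48e2a6d60153d.shift 3 0), (rh4435914d744d4f96.shift 1 0), (rha0982572811bf6a0.shift 0 1), (rhb2e9f9e85c9ec8af.shift 2 1)] (by decide +kernel))
noncomputable def rh94c96b535956cd72 : CRef := CRef.mk (Pat.mk 0x10000000100000001000000000 0x2800000038000000380000003800000010000000ff0000007e0000002f 10 8) 0 0 (step_sound _ 132 [(rh20e56a1196e70fcc.shift 3 0), (rh771d065bdc85bf2d.shift 3 0), rhc4f02fd1c1ca2b61, (rhc85cc95794737cf7.shift 3 1), (rhced6d86d2069808b.shift 4 0)] (by decide +kernel))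
noncomputable def rhab14947a4a0f4693 : CRef := CRef.mk (Pat.mk 0x20000001e00000022000000a400000020000000000000000000000000 0x50000000700000037000000370000003f0000003e0000001e000000e2000000bc000001f8000001d80000005000000040 10 9) 0 0 (step_sound _ 228 [(rh33e738c4ed385b9f.shift 1 6), rh5a50c0b29e922fec] (by decide +kernel))
noncomputable def rh2dfc1c827c175a7b : CRef := CRef.mk (Pat.mk 0x30000000c00000020000000000000000000000000 0x10000000700000007000000070000000770000003e00000020000000700000007000000050 10 7) 0 0 (step_sound _ 132 [(rh09d4dfe75d4407d6.shift 0 4), (rha7f6f86892668f1d.shift 1 0)] (by decide +kernel))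
noncomputable def rh04aab6b0444f1dac : CRef := CRef.mk (Pat.mk 0x100000001e00000000 0x50000002f0000003f0000003f0000003f0000001f0000001e0000000b 10 6) 0 0 (step_sound _ 65 [(rh3244c3cc8379b070.shift 0 1), rh581c062deb03aeda] (by decide +kernel))
noncomputable def rh88b7cc1325ff4fa7 : CRef := CRef.mk (Pat.mk 0x80000004000000018000000400000000000000000 0x3c0000003f0000003c000000fc00000018000000fc0000003c00000010 10 8) 0 0 (step_sound _ 131 [(rh046c5eb18e55a239.shift 3 0), (rh1de59408abff17ad.shift 0 2), (rh626cbed1c0a2a8da.shift 2 1), (rh70e33bfdf511e144.shift 3 0)] (by decide +kernel))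
noncomputable def rh3bcf40cad6265f9d : CRef := CRef.mk (Pat.mk 0x18000000080000004800000048 0x200000002000000270000007f0000003f0000007f00000048 10 7) 0 0 (step_sound _ 66 [(rh26573b44c6125f29.shift 2 0), rh3b796f43bac1c5ff, (rh69012675dfdb1a5b.shift 0 2), rha02d33ba7ce23b39] (by decide +kernel))
noncomputable def rh74283201576614cd : CRef := CRef.mk (Pat.mk 0x30000001200000002000000000 0x2c0000003c0000007c0000003e0000007c000001ff0000002c0000000c 10 9) 0 0 (step_sound _ 70 [(rh2fe78cc5ca4405d8.shift 4 2), rh3124eab6fb94a8dd] (by decide +kernel))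
noncomputable def rh439ec4f7293ce112 : CRef := CRef.mk (Pat.mk 0x300000010000000120000001000000000000000000 0x80000000de000000fe000001ff000001a0000001700000007000000050 10 9) 0 0 (step_sound _ 133 [(rh01483ff9cba2f6ac.shift 4 0), rh35ee0669004f7c68, (rh6a6060c6b6bde3df.shift 4 2)] (by decide +kernel))
noncomputable def rh62a9f24d25c92eb4 : CRef := CRef.mk (Pat.mk 0x300000010000000020000000000000000000000000 0x5000000050000000fe000000fe000001bf00000020000000700000007000000050 10 9) 0 0 (step_sound _ 133 [rh35ee0669004f7c68, (rh544629f9993b9a36.shift 1 3), (rhb1a251d9bff81766.shift 4 2)] (by decide +kernel))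
noncomputable def rh9d4ef337a2a45595 : CRef := CRef.mk (Pat.mk 0x1e000000000000000000000000 0x300000007000000070000003f0000001e000000070000000300000003 10 6) 0 0 (step_sound _ 129 [(rh3244c3cc8379b070.shift 0 3), rhe56b2e751eefe68e] (by decide +kernel))
noncomputable def rhe8b8def904fbed69 : CRef := CRef.mk (Pat.mk 0x100000001000000010000000000000000000000000 0x8000000180000001c0000007f0000003e0000003f00000028 10 7) 0 0 (step_sound _ 68 [(rh051ffbf115d10406.shift 0 1), (rh8cdd36b03d57a2f6.shift 3 0), (rh8ff3dde5b1c639e0.shift 3 0), (rhc4526fc8abf298b6.shift 3 0)] (by decide +kernel))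
noncomputable def rh702c622b4ed85d09 : CRef := CRef.mk (Pat.mk 0xa0000001a000000820000001000000000 0x10000000700000007000000060000000b0000001b000000ff0000001500000010 10 8) 0 0 (step_sound _ 68 [(rh7b1f1fb55310c477.shift 3 0), (rh9cf66fbf0072f524.shift 0 1)] (by decide +kernel))
noncomputable def rhb9988305d84344f9 : CRef := CRef.mk (Pat.mk 0x80000001800000030000000000000000000000000 0x770000007f0000001f0000003f0000001f0000000c00000008 10 7) 0 0 (step_sound _ 99 [rh628aa53c229f135e, (rh66308995486c6adc.shift 0 1), (rh7481ff37f0ea658b.shift 0 1)] (by decide +kernel))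
noncomputable def rh9c6999c04f9c8f1f : CRef := CRef.mk (Pat.mk 0x20000000300000006000000000 0x40000000700000007000000030000000770000007e0000001f 10 7) 0 0 (step_sound _ 133 [(rh03dfdf12d5937476.shift 4 0), (rh73f605273a09a9d0.shift 5 1), rhadb4facb2f6fc005] (by decide +kernel))
noncomputable def rhaaf2c07d9f4fe4fc : CRef := CRef.mk (Pat.mk 0x4000000018000000100000000000000000 0x300000003c0000003f000000ff0000001c0000001f0000003f0000003c 10 8) 0 0 (step_sound _ 131 [rh87491f8605a16bbc, (rh945d31abe92af6d6.shift 0 1), (rhc2c7bae8f445c890.shift 3 0), (rhc38f566cab2818e5.shift 3 0)] (by decide +kernel))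
noncomputable def rhe4a9f2b3c647e2c8 : CRef := CRef.mk (Pat.mk 0x1000000018000000100000001000000000 0x1c0000001c0000001c0000001f0000003f0000000f 10 6) 0 0 (step_sound _ 35 [(rh932754581e0f4330.shift 3 0), rh9dcfe95529112d00] (by decide +kernel))
noncomputable def rh07d1eef3f16e05f3 : CRef := CRef.mk (Pat.mk 0x1000000010000000180000001000000000 0xf0000003f0000001f0000001c0000001c0000001c 10 6) 0 0 (step_sound _ 131 [(rh50fbb5868c909700.shift 3 1), rhfb6d97fe0a9673a4] (by decide +kernel))
noncomputable def rhab4495bbbbdf0ef6 : CRef := CRef.mk (Pat.mk 0x200000000c00000020000000000000000000000000 0x40000001c0000001c000000180000007c0000000f0000007c0000001c0000001c00000014 10 7) 0 0 (step_sound _ 163 [(rh935837544d9a3a55.shift 0 2), rh97ca6f776a25d864, (rhe33d9496e10d8eb0.shift 0 4), (rhe3b3bebffea4ebcf.shift 2 0)] (by decide +kernel))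
noncomputable def rhebe0e9e497976780 : CRef := CRef.mk (Pat.mk 0x200000000c0000002000000000000000000000000000000000 0x140000001c0000001c0000007c0000000f0000007c000000180000001c0000001c00000004 10 7) 0 0 (step_sound _ 131 [(rh8c25cb665ab79ec0.shift 0 4), (rh9048c0e2d3f65199.shift 2 0), (rhc4db8a39eb79d68c.shift 0 1), rheaa525cab2814556] (by decide +kernel))
noncomputable def rhb6357239fc538462 : CRef := CRef.mk (Pat.mk 0x10000000160000001000000000000000000000000000000000 0x50000000700000007000000370000001e0000001f0000000f0000000f0000000700000005 10 6) 0 0 (step_sound _ 163 [(rh33e738c4ed385b9f.shift 1 5), rh4d8175640a1c5542] (by decide +kernel))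
noncomputable def rh2f0c720f45a6cf72 : CRef := CRef.mk (Pat.mk 0x200000002c0000002000000000000000000000000000000000 0xa0000000e0000000e0000003e0000003e0000003f0000001e0000001e0000000e0000000a 10 6) 0 0 (step_sound _ 164 [(rh21d582c147e7e118.shift 0 4), (rh4d8175640a1c5542.shift 1 0), (rhef7515d0e7cb1d2b.shift 1 4)] (by decide +kernel))
noncomputable def rh1d2e5e4940811c71 : CRef := CRef.mk (Pat.mk 0x1000000010000000180000001800000000 0xc0000001f0000001f0000001b0000001f00000017 10 5) 0 0 (step_sound _ 131 [rh3c8824623a8e8753, (rh50fbb5868c909700.shift 3 1)] (by decide +kernel))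
noncomputable def rhc29ec9c58e066831 : CRef := CRef.mk (Pat.mk 0x100000001600000010000000000000000000000000 0x5000000070000000f0000000f0000001f0000001e00000037000000070000000700000005 10 6) 0 0 (step_sound _ 131 [rh1b2e4b814ba28c31, (rhe25b0a99195a5d59.shift 1 3)] (by decide +kernel))
noncomputable def rh719426a26e95c21c : CRef := CRef.mk (Pat.mk 0x200000002c00000020000000000000000000000000 0xa0000000e0000001e0000001e0000003f0000003e0000003e0000000e0000000e0000000a 10 6) 0 0 (step_sound _ 132 [(rh1b2e4b814ba28c31.shift 1 0), (rhd1d05263fabc0227.shift 0 3), (rhef7515d0e7cb1d2b.shift 1 3)] (by decide +kernel))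
noncomputable def rhdf0a79c0cd399351 : CRef := CRef.mk (Pat.mk 0x1800000018000000100000001000000000 0x170000001f0000001b0000001f0000001f0000000c 10 5) 0 0 (step_sound _ 35 [rh909315b6cf949fd9, (rh932754581e0f4330.shift 3 0)] (by decide +kernel))
noncomputable def rhc80d5f14d605f5ad : CRef := CRef.mk (Pat.mk 0x8000000030000000200000002000000000 0x50000001f0000000300000003e0000007e0000005f 10 9) 0 0 (step_sound _ 133 [(rh8797c67fe3ac847a.shift 4 1), rhe209853fe64cdce0] (by decide +kernel))
noncomputable def rh2e0c11363345b2a8 : CRef := CRef.mk (Pat.mk 0x8000000030000000200000002000000000 0x50000001f00000003c0000003e0000007e0000005f 10 9) 0 0 (step_sound _ 133 [(rh8797c67fe3ac847a.shift 4 1), rhe209853fe64cdce0, (rhe33d9496e10d8eb0.shift 2 3)] (by decide +kernel))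
noncomputable def rhe016deb2a7cf74c4 : CRef := CRef.mk (Pat.mk 0x2000000020000000300000008000000000 0x5f0000007e0000003e00000030000001f000000050 10 9) 0 0 (step_sound _ 37 [(rh6a56790be92093bf.shift 4 0), rh9e4ac041e6a5ca9b] (by decide +kernel))
noncomputable def rh2bfccbb2e18ed84f : CRef := CRef.mk (Pat.mk 0x2000000020000000300000008000000000 0x5f0000007e0000003e0000003c000001f000000050 10 9) 0 0 (step_sound _ 37 [(rh6a56790be92093bf.shift 4 0), (rh8c25cb665ab79ec0.shift 2 1), rh9e4ac041e6a5ca9b] (by decide +kernel))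
noncomputable def rh3ff339273fa6abe7 : CRef := CRef.mk (Pat.mk 0x80000001800000018000000100000000000000000 0x30000000390000001f0000001f0000001f0000000f0000000c 10 6) 0 0 (step_sound _ 67 [(rh02be826f3f0ce423.shift 0 1), (rh46530d756bdf8511.shift 2 0), (rh84d1c02a8954c6a8.shift 3 1)] (by decide +kernel))
noncomputable def rh51dce1adcca208e9 : CRef := CRef.mk (Pat.mk 0x80000001800000018000000100000000000000000 0x170000001f0000001b0000001f0000001f0000000c0000000c 10 5) 0 0 (step_sound _ 67 [(rh46530d756bdf8511.shift 2 0), (rha707fb719e87fe6e.shift 3 1), (rhb20533638eff840a.shift 0 1)] (by decide +kernel))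
noncomputable def rhb67c8be048ec0d92 : CRef := CRef.mk (Pat.mk 0x8000000080000001800000018000000000000000000000000 0x10000000180000001f0000001f0000001f0000000e0000000c0000000c 10 5) 0 0 (step_sound _ 196 [rh2c7fe63d5a32bc91, (rh2f68792b6b779e96.shift 3 3)] (by decide +kernel))
noncomputable def rh0231ec99e46fa749 : CRef := CRef.mk (Pat.mk 0x80000004000000018000000000000000000000000 0x140000001c0000001c0000000c0000000c000000ff0000001f0000001f0000001f00000014 10 8) 0 0 (step_sound _ 131 [(rh1662f65ed666287e.shift 2 2), (rh70e33bfdf511e144.shift 3 0), rh81e47a00abaf9e2a, (rhce17c3e2129fe20e.shift 0 2)] (by decide +kernel))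
noncomputable def rhef65897c658ee376 : CRef := CRef.mk (Pat.mk 0x80000004000000018000000000000000000000000 0x140000001c0000003f0000003f000000ff0000001c000000180000001800000018 10 8) 0 0 (step_sound _ 131 [(rh14e0829dc73b6804.shift 2 2), (rh46105479cc697833.shift 0 2), (rh70e33bfdf511e144.shift 3 0), rh7a2881502ef9f6ab] (by decide +kernel))
noncomputable def rh156b32dda5c9496d : CRef := CRef.mk (Pat.mk 0x80000004000000018000000000000000000000000 0x140000001c0000001c0000000c000000fe0000001f0000001f0000001f00000014 10 8) 0 0 (step_sound _ 131 [(rh14e0829dc73b6804.shift 2 2), (rh2dc561e49bec8d67.shift 2 1), (rh70e33bfdf511e144.shift 3 0), rh81e47a00abaf9e2a] (by decide +kernel))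
noncomputable def rhcf61ddbe58455c74 : CRef := CRef.mk (Pat.mk 0x800000008000000180000001800000000 0x160000007f0000003f0000001f0000001f00000006 10 7) 0 0 (step_sound _ 132 [rh05fdecfb8be517ea, (rh2f68792b6b779e96.shift 3 1)] (by decide +kernel))
noncomputable def rhc598be0c13e68085 : CRef := CRef.mk (Pat.mk 0x80000000000000018000000000000000000000000 0x140000001c0000001c0000003c0000000f0000001f0000001f0000001f00000014 10 6) 0 0 (step_sound _ 131 [(rh04bc0bc315096e76.shift 2 1), (rh14e0829dc73b6804.shift 2 2), rh359f80cdeb4b35b0, (rh53287dc308810e87.shift 2 1), (rhe380c42df720a63d.shift 2 2)] (by decide +kernel))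
noncomputable def rh8bf9aae77d1af9ce : CRef := CRef.mk (Pat.mk 0x1000000010000000100000000000000000000000000000000000000000 0x8000000180000001800000018000000180000003f0000007e0000003f0000003800000028 10 7) 0 0 (step_sound _ 132 [(rh771d065bdc85bf2d.shift 3 3), (rh8cdd36b03d57a2f6.shift 3 2), (rh8ff3dde5b1c639e0.shift 3 2), rha58aac1f517ae841, (rhc4526fc8abf298b6.shift 3 2)] (by decide +kernel))
noncomputable def rh3a84ceaebb2079b6 : CRef := CRef.mk (Pat.mk 0x30000000c0000002900000008000000000000000000000000 0x5000000070000000730000007e0000002f00000078000000700000007000000050 10 7) 0 0 (step_sound _ 164 [(rh09d4dfe75d4407d6.shift 0 5), rh84707d9684a1f08b] (by decide +kernel))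
noncomputable def rh70f602e15b4a6978 : CRef := CRef.mk (Pat.mk 0x30000000800000001000000000 0xe0000001e000000ff0000007e000000cf0000001c00000018 10 8) 0 0 (step_sound _ 99 [(rh31d55dd32e48ae3d.shift 1 2), (rh4289945f12cd42bb.shift 2 0), (rh5462687512824031.shift 0 1), (rh5b4b3af11d136d4c.shift 0 2), (rhadc58f335021d7cb.shift 1 2)] (by decide +kernel))
noncomputable def rhba5a1343c115d474 : CRef := CRef.mk (Pat.mk 0x20000001000000012000000100000000000000000000000000 0x50000000ff000000fe000000fc000003f0000001b000000170000000700000007000000050 10 10) 0 0 (step_sound _ 165 [(rh04bc0bc315096e76.shift 4 2), (rh232f62be4d8f334e.shift 4 3), (rh26fc79a6e7fea15b.shift 4 1), (rh663a636482f535f0.shift 4 0), (rh6b639d2e6d6507ed.shift 4 1), (rh7a88106dc30ace7c.shift 4 1), (rh8a348cd0146fd655.shift 4 0), (rh9471088d8f494770.shift 4 0), (rhdc979c27d69a796c.shift 0 3)] (by decide +kernel))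
noncomputable def rh423ae7b60df2f96f : CRef := CRef.mk (Pat.mk 0x70000000000000006000000000000000000000000000000000 0x58000000780000003e0000007e0000007f0000007c0000007c00000014 10 7) 0 0 (step_sound _ 101 [rh135a7cfdf280a0d6, (rh5a4df29f20c07a62.shift 4 3), (rh769c4338c227ba0a.shift 4 1), (rhab082d0eddee63da.shift 4 1), (rhcbbabd6e55c46fe9.shift 4 1)] (by decide +kernel))
noncomputable def rh0697000f3b535ce6 : CRef := CRef.mk (Pat.mk 0x3000000000000000600000000000000000000000000000000000000000 0x18000000380000007e0000007e0000007f0000007c0000007c0000007400000050 10 7) 0 0 (step_sound _ 133 [(rh0b5a0d988777eb72.shift 4 0), (rh135a7cfdf280a0d6.shift 0 1), (rh4f99cffbd657d358.shift 2 0), (rh502c745d53c803fe.shift 2 3), (rhab082d0eddee63da.shift 4 2), (rhcbbabd6e55c46fe9.shift 4 2)] (by decide +kernel))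
noncomputable def rh3336ae87369c75a7 : CRef := CRef.mk (Pat.mk 0x3000000000000000600000000000000000000000000000000000000000 0x58000000780000007e0000007e0000007f0000007c0000007c0000007400000050 10 7) 0 0 (step_sound _ 133 [(rh135a7cfdf280a0d6.shift 0 1), (rh4bce375e26d0c8b1.shift 4 2), (rh4f99cffbd657d358.shift 2 0), (rh502c745d53c803fe.shift 2 3), (rhab082d0eddee63da.shift 4 2), (rhcbbabd6e55c46fe9.shift 4 2)] (by decide +kernel))
noncomputable def rh7908a9d34a127dd9 : CRef := CRef.mk (Pat.mk 0x8000000180000000800000000000000000000000000000000 0x1a0000001e0000001f0000003f0000001f0000001f000000080000001c0000001c00000014 10 6) 0 0 (step_sound _ 196 [(rh215e11e099257d75.shift 3 3), (rh3be629ef940a5308.shift 0 2), (rha2d608bbf475f0c5.shift 2 0), (rhda71ec438b693a85.shift 0 4)] (by decide +kernel))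
noncomputable def rh0d118e66e2b84d4c : CRef := CRef.mk (Pat.mk 0x1000000018000000180000000800000000 0xc0000000f0000001f0000001f0000001f0000003900000030 10 6) 0 0 (step_sound _ 131 [rh19ffed9c3ea5a1ac, (rh55a1f6c57a317ce6.shift 3 0), (rh7b9fbdf6d2d059e4.shift 2 1)] (by decide +kernel))
noncomputable def rh6f7ec10b9eb63278 : CRef := CRef.mk (Pat.mk 0x1000000018000000180000000800000000 0xc0000000c0000001f0000001f0000001b0000001f00000017 10 5) 0 0 (step_sound _ 131 [(rh7b9fbdf6d2d059e4.shift 2 1), (rhd4b4beefcd67f51e.shift 3 0), rhde344759d710a47f] (by decide +kernel))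
noncomputable def rh211ee05fdeebdd03 : CRef := CRef.mk (Pat.mk 0x1800000018000000080000000800000000 0xc0000000c0000000e0000001f0000001f0000001f0000001800000010 10 5) 0 0 (step_sound _ 36 [(rh2fe6753515f3af4c.shift 0 1), (rh55afc6a59410cf00.shift 3 0)] (by decide +kernel))
noncomputable def rh13400fc696ce1b53 : CRef := CRef.mk (Pat.mk 0x18000000400000000800000000000000000000000000000000 0x140000001f0000001f0000001f000000ff0000000c0000000c0000001c0000001c00000014 10 8) 0 0 (step_sound _ 163 [(rh0ef2eb06f97dc5d2.shift 0 3), (rh215e11e099257d75.shift 3 3), (rh4bde0bac72aeb239.shift 0 2), (rha2d608bbf475f0c5.shift 2 0)] (by decide +kernel))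
noncomputable def rh3e6a8df52d1564fe : CRef := CRef.mk (Pat.mk 0x180000004000000008000000000000000000000000 0x1800000018000000180000001c000000ff0000003f0000003f0000001c00000014 10 8) 0 0 (step_sound _ 131 [(rh215e11e099257d75.shift 3 2), (rha0f7c4258975106c.shift 0 2), (rhb5a72d8a8a00877e.shift 0 1), (rhffb8e5993241bf15.shift 2 0)] (by decide +kernel))
noncomputable def rh65cb7595cdf1abd5 : CRef := CRef.mk (Pat.mk 0x180000004000000008000000000000000000000000 0x140000001f0000001f0000001f000000fe0000000c0000001c0000001c00000014 10 8) 0 0 (step_sound _ 131 [(rh0ef2eb06f97dc5d2.shift 0 2), (rh215e11e099257d75.shift 3 2), (rhbc1988a7f05b7ccd.shift 2 0), (rhffb8e5993241bf15.shift 2 0)] (by decide +kernel))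
noncomputable def rh0c8050c70725ca58 : CRef := CRef.mk (Pat.mk 0x1800000018000000080000000800000000 0x60000001f0000001f0000003f0000007f00000016 10 7) 0 0 (step_sound _ 36 [(rh55afc6a59410cf00.shift 3 0), rh81d3e369b048b3aa] (by decide +kernel))
noncomputable def rh8b532b5433ea91d8 : CRef := CRef.mk (Pat.mk 0x180000000000000008000000000000000000000000 0x140000001f0000001f0000001f0000000f0000003c0000001c0000001c00000014 10 6) 0 0 (step_sound _ 131 [(rh0e0def5dff4a1a23.shift 0 2), (rh67e68e733fb290f2.shift 2 1), (rhd8480aedf4075c15.shift 2 0), (rhe95a2e51b0ee5fdb.shift 2 0), (rhffb8e5993241bf15.shift 2 0)] (by decide +kernel))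
noncomputable def rhb01947e4a4d2653d : CRef := CRef.mk (Pat.mk 0x1000000010000000100000000000000000 0x28000000380000003f0000007e0000003f0000001800000018000000180000001800000008 10 7) 0 0 (step_sound _ 164 [(rh20966da26a1c2ae8.shift 3 1), (rh33ff55aac87c59b5.shift 0 2), (rh771d065bdc85bf2d.shift 3 1), (rhc4526fc8abf298b6.shift 3 0), (rhc85cc95794737cf7.shift 3 2)] (by decide +kernel))
noncomputable def rh325f472a813d525a : CRef := CRef.mk (Pat.mk 0x8000000290000000c000000030000000000000000 0x500000007000000070000000780000002f0000007e000000730000007000000050 10 7) 0 0 (step_sound _ 100 [rh01bb8b0d5e61b9c8, (rhca9569cc80abfe76.shift 0 2)] (by decide +kernel))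
noncomputable def rh4fc9a4a8d1ec0890 : CRef := CRef.mk (Pat.mk 0x100000008000000030000000000000000000000000 0x180000001c000000cf0000007e000000ff0000001e0000000e 10 8) 0 0 (step_sound _ 99 [(rh481de1e06b1f0f40.shift 0 2), (rh6fba981bb8ec7da0.shift 1 2), (rh85e15437377fb5e9.shift 2 1), rh87f60db4e743d546, (rhefb19ffaaa7a0748.shift 1 2)] (by decide +kernel))
noncomputable def rhf8cf9e882a57d812 : CRef := CRef.mk (Pat.mk 0x100000001200000010000000020000000000000000000000000 0x50000000700000007000000170000001b0000003f0000000fc000000fe000000ff00000050 10 10) 0 0 (step_sound _ 133 [(rh1458d64dfab1e1fa.shift 4 1), (rh3ef5ad1d089d1133.shift 4 1), (rh4777911c697a36c8.shift 4 1), (rh5620272feb6af862.shift 4 1), (rh60066c4bcf4ccbe4.shift 4 0), (rh89be7a39d5d4be01.shift 4 0), rhbd8cbd59b47ede63, (rhe95a2e51b0ee5fdb.shift 4 0), (rhf1bf3d0f19e115bc.shift 4 2)] (by decide +kernel))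
noncomputable def rh76a1a383dec59852 : CRef := CRef.mk (Pat.mk 0x60000000000000007000000000 0x140000007c0000007c0000007f0000007e0000003e0000007800000058 10 7) 0 0 (step_sound _ 133 [(rh1336b731aace5bfc.shift 4 0), (rh1d3d5ccf5bd9eaf1.shift 4 0), (rh6299d1722b6e1507.shift 4 0), (rhbf726fa7097229f2.shift 4 0), rhffba68c9b3a1d383] (by decide +kernel))
noncomputable def rh2cc8c383450f0fb2 : CRef := CRef.mk (Pat.mk 0x60000000000000003000000000 0x50000000740000007c0000007c0000007f0000007e0000007e0000003800000018 10 7) 0 0 (step_sound _ 133 [(rh1336b731aace5bfc.shift 4 0), (rh2dcaf53458c5c627.shift 4 0), (rh6299d1722b6e1507.shift 4 0), (rhc808ef50a185a442.shift 2 1), (rhe383be776ef489d9.shift 2 0), rhffba68c9b3a1d383] (by decide +kernel))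
noncomputable def rhfc5f126f3d086340 : CRef := CRef.mk (Pat.mk 0x60000000000000003000000000 0x50000000740000007c0000007c0000007f0000007e0000007e0000007800000058 10 7) 0 0 (step_sound _ 133 [(rh1336b731aace5bfc.shift 4 0), (rh5e8a9627c87c793f.shift 4 0), (rh6299d1722b6e1507.shift 4 0), (rhc808ef50a185a442.shift 2 1), (rhe383be776ef489d9.shift 2 0), rhffba68c9b3a1d383] (by decide +kernel))
noncomputable def rh3cd50a6c9d499178 : CRef := CRef.mk (Pat.mk 0x80000001800000008000000000000000000000000 0x140000001c0000001c000000080000001f0000001f0000003f0000001f0000001e0000001a 10 6) 0 0 (step_sound _ 100 [(rh1662f65ed666287e.shift 2 2), (rh70e33bfdf511e144.shift 3 0), rha1d0df255320463f, rhd85439d95e22a9c5] (by decide +kernel))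
noncomputable def rhe711ab32b97f2a93 : CRef := CRef.mk (Pat.mk 0x600000016000000040000000000000000000000000000000000000000 0x280000003e0000003b0000003e000000160000003e0000007800000038000000380000003800000008 10 7) 0 0 (step_sound _ 228 [(rh1947b29e836b9cc4.shift 1 0), (rh3e4f775a4c1b3a1b.shift 1 2), (rhd6c5c8b1c02f21f5.shift 0 5), (rhdeae4c6a132a690b.shift 1 0)] (by decide +kernel))
noncomputable def rhffab62ae2f7daf49 : CRef := CRef.mk (Pat.mk 0x180000001e00000010000000000000000000000000 0x4000000040000000e0000000f0000001f0000001e0000001b000000070000000700000005 10 5) 0 0 (step_sound _ 195 [(rh2145e1d24b96a57e.shift 3 3), rh9d4310bf546bd60d] (by decide +kernel))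
noncomputable def rh2f9b69af3b9ae98a : CRef := CRef.mk (Pat.mk 0x30000000040000000000000000000000000000000000000000 0x20000000e0000000e000001de000000fc0000000f000000060000000e0000000e0000000e0000000a 10 9) 0 0 (step_sound _ 195 [(rh3cc5c7fb74c49f61.shift 0 5), (rh5ce7e2c1297839a1.shift 1 0), (rh73f5f7cdf41b5bc9.shift 1 4), (rhc083815ec94cd2b2.shift 2 5), (rhc277914c2ed71bf6.shift 1 5)] (by decide +kernel))
noncomputable def rh4c2c5aed8d6bbe86 : CRef := CRef.mk (Pat.mk 0x200000018000000020000000000000000000000000 0x50000000700000007f000000fe000001fc00000038000000300000003000000010 10 9) 0 0 (step_sound _ 133 [(rh01e48cd9f335aa73.shift 4 3), (rh5f452f890cbd7cd4.shift 4 1), rh9e60a1e4df18b28f, (rhca161cd30e405913.shift 4 2), (rhdd17fd55617d70f9.shift 4 2)] (by decide +kernel))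
noncomputable def rh79ff9215affe8d90 : CRef := CRef.mk (Pat.mk 0x10000000c0000000d00000008000000000 0x20000000380000003f0000007e00000077000000f8000000d8000000d800000008 10 8) 0 0 (step_sound _ 134 [(rh2145e1d24b96a57e.shift 6 1), rh56f1a242ae0a5cf8] (by decide +kernel))
noncomputable def rhd237ec9025fa3782 : CRef := CRef.mk (Pat.mk 0x40000001600000006000000000000000000000000 0x8000000380000003800000038000000780000003e000000160000003e0000003b0000003e00000028 10 7) 0 0 (step_sound _ 100 [(rh18d511e648aabc8c.shift 1 0), (rh2b2fcf6a86bfd82a.shift 1 0), (rh9ebab77a65661bd5.shift 1 0), (rhc28dd09875fb2825.shift 0 1)] (by decide +kernel))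
noncomputable def rh123d23770c8246c3 : CRef := CRef.mk (Pat.mk 0x100000001e0000001800000000000000000000000000000000 0x500000007000000070000001b0000001e0000001f0000000f0000000e0000000400000004 10 5) 0 0 (step_sound _ 99 [(rh71222050f2c63a3a.shift 3 2), rha6e14fa9ed4b239b] (by decide +kernel))
noncomputable def rh2feefb6530565394 : CRef := CRef.mk (Pat.mk 0x40000003000000000000000000000000000000000 0xa0000000e0000000e0000000e000000060000000f000000fc000001de0000000e0000000e00000002 10 9) 0 0 (step_sound _ 131 [(rh23fd7296fcffc998.shift 1 0), (rh4df35fbc131eb4ae.shift 0 4), (rh6dbcdca4faa24dea.shift 1 3), (rh8bb330ee5aea9f6b.shift 1 1), (rhe79590487a395ecc.shift 2 3)] (by decide +kernel))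
noncomputable def rh45f5798f3a9db39a : CRef := CRef.mk (Pat.mk 0x200000018000000020000000000000000000000000 0x10000000300000003000000038000001fc000000fe0000007f0000007000000050 10 9) 0 0 (step_sound _ 133 [(rh01e48cd9f335aa73.shift 4 3), (rh168fed7625321222.shift 4 0), (rh712b6e7d90bff97a.shift 4 0), (rh8e33a2bc88b0ddeb.shift 0 2), (rhfc7a679450f55fe7.shift 4 0)] (by decide +kernel))
noncomputable def rh3b58d44778ab34ea : CRef := CRef.mk (Pat.mk 0x80000000d0000000c00000001000000000000000000000000000000000 0x8000000d8000000d8000000f8000000770000007e0000003f0000003800000020 10 8) 0 0 (step_sound _ 134 [(rh71222050f2c63a3a.shift 6 3), rha6995b46c59b693c] (by decide +kernel))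
noncomputable def rha946fad2fc4bfc18 : CRef := CRef.mk (Pat.mk 0x180000001e0000000000000000 0x17000000170000003f0000001f0000001e0000000b00000008 10 6) 0 0 (step_sound _ 97 [(rh3244c3cc8379b070.shift 0 2), rh583928ee4103e4fe] (by decide +kernel))
noncomputable def rhcaf6b0cfda18e649 : CRef := CRef.mk (Pat.mk 0x180000001e000000000000000000000000 0x3000000030000001f0000001e000000370000003c00000038 10 6) 0 0 (step_sound _ 68 [rhc8bd1b27db699f3f, (rhe25b0a99195a5d59.shift 1 2)] (by decide +kernel))
noncomputable def rh491d564e0654bc4c : CRef := CRef.mk (Pat.mk 0x10000000180000009000000000000000000000000000000000 0xc0000001f0000003e000000fe00000078000000380000003800000028 10 8) 0 0 (step_sound _ 133 [(rh2fe78cc5ca4405d8.shift 3 4), rh91a4a4960910a5cd] (by decide +kernel))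
noncomputable def rh5a881d1013c063aa : CRef := CRef.mk (Pat.mk 0x180000000e000000000000000000000000 0x300000003b0000003f0000001f0000001e0000003f0000003400000034 10 6) 0 0 (step_sound _ 100 [rh296efd781cdbe563, rh571324f3faacc069, rh84d30f004d60fc45, (rhea719cc8bd0bdd28.shift 1 1)] (by decide +kernel))
noncomputable def rh16d6cacb0bf125e1 : CRef := CRef.mk (Pat.mk 0x1e00000018000000000000000000000000 0x80000000b0000001e0000001f0000003f0000001700000017 10 6) 0 0 (step_sound _ 97 [rha713ff12ba9a2e56, (rheb0810cc63b001d8.shift 0 3)] (by decide +kernel))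
noncomputable def rhc88fbed68430372d : CRef := CRef.mk (Pat.mk 0x1e000000180000000000000000 0x380000003c000000370000001e0000001f0000000300000003 10 6) 0 0 (step_sound _ 132 [(rh33e738c4ed385b9f.shift 1 3), rh822d2174eb95b3ee] (by decide +kernel))
noncomputable def rhf74fec80e14cc60c : CRef := CRef.mk (Pat.mk 0x90000000180000001000000000 0x28000000380000003800000078000000fe0000003e0000001f0000000c 10 8) 0 0 (step_sound _ 101 [(rh361cc68994bd8a63.shift 3 2), rh7e8e75f29e5ab55a] (by decide +kernel))
noncomputable def rhd28f9afb4cdfe2b4 : CRef := CRef.mk (Pat.mk 0xe00000018000000000000000000000000 0x34000000340000003f0000001e0000001f0000003f0000003b00000030 10 6) 0 0 (step_sound _ 132 [(rh34b1188e635efc8d.shift 1 1), (rh4e0e32e3c9a864dd.shift 0 1), (rh5326fe1f47529aba.shift 0 1), rhd32d93bb27bf5ea3] (by decide +kernel))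
noncomputable def rhce294d208f6d939d : CRef := CRef.mk (Pat.mk 0x90000000180000008000000000000000000000000000000000 0x280000003800000038000000f80000003e000000ff0000001e000000340000003400000020 10 8) 0 0 (step_sound _ 197 [(rh361cc68994bd8a63.shift 3 5), rh7d011b8a65747178] (by decide +kernel))
noncomputable def rhfc942743fe200943 : CRef := CRef.mk (Pat.mk 0x180000001e000000000000000000000000 0x180000003c0000003f0000001f0000001e000000070000000600000002 10 6) 0 0 (step_sound _ 129 [(rh3244c3cc8379b070.shift 0 3), rhdc0f07ac451df9ce] (by decide +kernel))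
noncomputable def rh1db441d980c86e58 : CRef := CRef.mk (Pat.mk 0x1a0000001e000000000000000000000000 0x2800000038000000380000003a0000001e0000001e0000000f0000000600000006 10 6) 0 0 (step_sound _ 65 [(rh3e3b9ef6949e4d0a.shift 1 0), (rheb0810cc63b001d8.shift 0 2)] (by decide +kernel))
noncomputable def rh95d77b23a67733e9 : CRef := CRef.mk (Pat.mk 0x30000000180000008000000000000000000000000000000000 0x38000000380000003e000000ff0000003e0000007f0000003e00000028 10 8) 0 0 (step_sound _ 162 [rh40206885dd9770d2, (rh53b3c253cb0c65f4.shift 1 5)] (by decide +kernel))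
noncomputable def rhc5f1ce49ef2a953b : CRef := CRef.mk (Pat.mk 0x300000001800000008000000000000000000000000 0x380000007e0000003e000000380000001f000000340000003000000030 10 7) 0 0 (step_sound _ 196 [(rh5c5e593799055d58.shift 3 3), rhac4738885f7416ed] (by decide +kernel))
noncomputable def rhd345c0e03812d7e5 : CRef := CRef.mk (Pat.mk 0x180000001e000000000000000000000000 0x4000000070000001f0000001e0000003b0000001f0000001f 10 6) 0 0 (step_sound _ 68 [rh7edb124f30e9ebf9, (rhe25b0a99195a5d59.shift 1 2)] (by decide +kernel))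
noncomputable def rhf1fd33c505c7091a : CRef := CRef.mk (Pat.mk 0x180000000c0000004000000000000000000000000000000000 0x2800000038000000380000003c0000001f0000001f000000fb0000003a0000003a0000003800000008 10 8) 0 0 (step_sound _ 161 [(rh53b3c253cb0c65f4.shift 0 5), rh786c0e711647b40a] (by decide +kernel))
noncomputable def rhdd402864450199d0 : CRef := CRef.mk (Pat.mk 0x30000000180000008000000000000000000000000000000000 0x20000000300000003000000038000000380000001e000000f80000003e0000007f0000003e00000028 10 8) 0 0 (step_sound _ 162 [(rh53b3c253cb0c65f4.shift 1 5), rhcf1590048e70ded1] (by decide +kernel))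
noncomputable def rhc0182c8d0b054a6a : CRef := CRef.mk (Pat.mk 0x180000000e0000000000000000000000000000000000000000 0xc0000001e0000001f0000001e0000003b0000001f0000001f0000000700000005 10 6) 0 0 (step_sound _ 164 [rh6c75f75cc965fff4, (rhd939aa97ba4e7577.shift 0 2), (rhea719cc8bd0bdd28.shift 1 3)] (by decide +kernel))
noncomputable def rhd9d5bde26e8a467c : CRef := CRef.mk (Pat.mk 0x800000001800000090000000000000000000000000 0x2000000034000000340000001e000000ff0000003e000000f8000000380000003800000028 10 8) 0 0 (step_sound _ 101 [(rh2fe78cc5ca4405d8.shift 3 3), rh56191e8983a36a2d] (by decide +kernel))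
noncomputable def rh427cbdb3921c467d : CRef := CRef.mk (Pat.mk 0x1e00000018000000000000000000000000 0x200000006000000070000001e0000001f0000003f0000003c00000018 10 6) 0 0 (step_sound _ 97 [rh3ae682456ad7f403, (rheb0810cc63b001d8.shift 0 3)] (by decide +kernel))
noncomputable def rh888af1acddc56e31 : CRef := CRef.mk (Pat.mk 0x1e0000001a00000000000000000000000000000000 0x6000000060000000f0000001e0000001e0000003a000000380000003800000028 10 6) 0 0 (step_sound _ 193 [(rh3244c3cc8379b070.shift 0 5), (rhaa0d630fd2f0b93e.shift 1 0)] (by decide +kernel))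
noncomputable def rh50b051aa7c694ba5 : CRef := CRef.mk (Pat.mk 0x80000000180000003000000000 0x280000003e0000007f0000003e000000ff0000003e0000003800000038 10 8) 0 0 (step_sound _ 66 [rh2ab2cdb91d7c7106, (rhb739f4f82bb681b4.shift 1 1)] (by decide +kernel))
noncomputable def rhb76fdee70b40c51d : CRef := CRef.mk (Pat.mk 0x800000018000000300000000000000000 0x3000000030000000340000001f000000380000003e0000007e00000038 10 7) 0 0 (step_sound _ 36 [(rh7b1f1fb55310c477.shift 3 0), rh812eb73653b728c5] (by decide +kernel))
noncomputable def rhfa0b9f2ac7f35f1c : CRef := CRef.mk (Pat.mk 0x1e000000180000000000000000 0x1f0000001f0000003b0000001e0000001f0000000700000004 10 6) 0 0 (step_sound _ 132 [(rh33e738c4ed385b9f.shift 1 3), rhf4e989b633a5042d] (by decide +kernel))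
noncomputable def rh46ea978e73a63d93 : CRef := CRef.mk (Pat.mk 0x400000000c0000001800000000000000000000000000000000 0x8000000380000003a0000003a000000fb0000001f0000001f0000003c000000380000003800000028 10 8) 0 0 (step_sound _ 161 [rh74907f5728c9e5ed, (rhb739f4f82bb681b4.shift 0 4)] (by decide +kernel))
noncomputable def rhf55f896d9ee6c18c : CRef := CRef.mk (Pat.mk 0x80000000180000003000000000000000000000000000000000 0x280000003e0000007f0000003e000000f80000001e0000003800000038000000300000003000000020 10 8) 0 0 (step_sound _ 162 [(rhb739f4f82bb681b4.shift 1 4), rhe1d2de4a6f0ce3b4] (by decide +kernel))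
noncomputable def rh5e09765efed1d665 : CRef := CRef.mk (Pat.mk 0xe000000180000000000000000 0x5000000070000001f0000001f0000003b0000001e0000001f0000001e0000000c 10 6) 0 0 (step_sound _ 100 [(rh34b1188e635efc8d.shift 1 0), (rh6f5dc7a7c826c52a.shift 0 1), rhbd05343ab39b824a] (by decide +kernel))
noncomputable def rhf050ce75faee0819 : CRef := CRef.mk (Pat.mk 0x1e000000180000000000000000 0x40000000c0000003f0000001e0000001c0000001f0000001f 10 6) 0 0 (step_sound _ 132 [(rh33e738c4ed385b9f.shift 1 3), rh3e9887aa21e4ab45] (by decide +kernel))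
noncomputable def rh47ab4e093dedf82b : CRef := CRef.mk (Pat.mk 0x1e00000000000000000000000000000000 0x50000000700000007000000370000001e00000007000000070000000700000005 10 6) 0 0 (step_sound _ 165 [(rh428265de8cd3cd2d.shift 1 4), rha42c44bab2555fff] (by decide +kernel))
noncomputable def rh904dde34019d6263 : CRef := CRef.mk (Pat.mk 0x1e00000018000000000000000000000000 0x2f0000003e0000003f0000001e0000001c000000300000003000000030 10 6) 0 0 (step_sound _ 164 [rh3208049472f238e2, (rh33e738c4ed385b9f.shift 1 4)] (by decide +kernel))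
noncomputable def rh7b6a14114925bc07 : CRef := CRef.mk (Pat.mk 0x1e00000018000000000000000000000000 0x2e0000003e0000003f0000001e0000001b000000300000003000000030 10 6) 0 0 (step_sound _ 164 [(rh33e738c4ed385b9f.shift 1 4), rhafee2ac54f679b95] (by decide +kernel))
noncomputable def rh045f01a00b6956e6 : CRef := CRef.mk (Pat.mk 0x800000001c0000003000000000000000000000000000000000 0x180000003e000000ff0000001c0000003e0000007e0000007f0000003e0000002a 10 8) 0 0 (step_sound _ 196 [(rh170b8ca624304747.shift 1 1), rh3d89b6e6bed8f797, rh43cc7ca75760bcf8, (rh715bb0b4ad87df65.shift 3 1), (rh807a3fca9b5109b0.shift 3 0), (rhb23658ecdd7ce5df.shift 3 3)] (by decide +kernel))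
noncomputable def rh0c503b406e4a39bf : CRef := CRef.mk (Pat.mk 0x800000001c0000003000000000000000000000000000000000 0x8000000180000003e000000ff0000003c0000003f0000003e0000006e0000002600000002 10 8) 0 0 (step_sound _ 196 [(rh0fa4a62bba50784f.shift 3 3), rh3d89b6e6bed8f797, (rh683cfd9f29dd7e3a.shift 0 1), (rhded9ff1cbe86b6ca.shift 0 1), (rhea6bef6447d37a6a.shift 3 3)] (by decide +kernel))
noncomputable def rh86e45a544be4fc86 : CRef := CRef.mk (Pat.mk 0x3000000120000000000000000000000000 0x380000007c0000003e0000007c000001fe0000007c0000003f00000018 10 9) 0 0 (step_sound _ 102 [rh0251e9748d405450, (rh2fe78cc5ca4405d8.shift 4 3)] (by decide +kernel))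
noncomputable def rhce3f203d8ba3bf0f : CRef := CRef.mk (Pat.mk 0x80000000180000003000000000000000000000000000000000 0x80000001800000038000000f800000038000000380000003e0000007f0000003e00000028 10 8) 0 0 (step_sound _ 196 [(rh0fa4a62bba50784f.shift 3 3), rh43cc7ca75760bcf8, (rh51698cea9087386d.shift 3 2), (rh807a3fca9b5109b0.shift 3 0)] (by decide +kernel))
noncomputable def rh9349d0740061acb4 : CRef := CRef.mk (Pat.mk 0x8800000018000000100000001000000000 0x34000000fc0000001e0000001f0000001f0000000f 10 8) 0 0 (step_sound _ 132 [(rh04e571695666b5c1.shift 3 1), rhfe2f8c7c5b229ed2] (by decide +kernel))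
noncomputable def rh334f6f19eb2bfde8 : CRef := CRef.mk (Pat.mk 0x800000001c0000003000000000000000000000000000000000 0x80000001800000038000000f80000003c0000003f0000003e0000007f0000003e00000028 10 8) 0 0 (step_sound _ 196 [rh43cc7ca75760bcf8, (rh51698cea9087386d.shift 3 2), (rh683cfd9f29dd7e3a.shift 0 1), (rh807a3fca9b5109b0.shift 3 0), (rhded9ff1cbe86b6ca.shift 0 1)] (by decide +kernel))
noncomputable def rh3ae1006c02f45f5c : CRef := CRef.mk (Pat.mk 0x180000001e000000000000000000000000 0x1f0000001f0000001c0000001e0000003f0000000c00000004 10 6) 0 0 (step_sound _ 68 [rh5a0953e291570f3b, (rhe25b0a99195a5d59.shift 1 2)] (by decide +kernel))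
noncomputable def rhd2f5c8a2a41ced53 : CRef := CRef.mk (Pat.mk 0x1e00000000000000000000000000000000 0x50000000700000007000000070000001e00000037000000070000000700000005 10 6) 0 0 (step_sound _ 101 [rh90ec1f2afa9b016c, (rh96851dee118c1ba3.shift 1 3)] (by decide +kernel))
noncomputable def rhb1fcd5cb009a8ef9 : CRef := CRef.mk (Pat.mk 0x180000001e000000000000000000000000 0x3000000030000000300000001c0000001e0000003f0000003e0000002f 10 6) 0 0 (step_sound _ 68 [(rhe25b0a99195a5d59.shift 1 2), rhe6ed3378a808fc70] (by decide +kernel))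
noncomputable def rh82c0aabd175b4f5d : CRef := CRef.mk (Pat.mk 0x180000001e000000000000000000000000 0x3000000030000000300000001b0000001e0000003f0000003e0000002e 10 6) 0 0 (step_sound _ 68 [rhd93bc801439f6044, (rhe25b0a99195a5d59.shift 1 2)] (by decide +kernel))
noncomputable def rhc7147b2ad9196ba8 : CRef := CRef.mk (Pat.mk 0x300000001c000000800000000000000000 0x2a0000003e0000007f0000007e0000003e0000001c000000ff0000003e00000018 10 8) 0 0 (step_sound _ 68 [(rh000637b5a81e86aa.shift 3 0), (rh0ea2c8d80b882457.shift 0 1), (rh2333d5e575238ae4.shift 3 0), (rh399e79f70837a3e7.shift 0 1), (rh8ee247f2e00e2063.shift 1 1), (rhb2c24aa65dd14528.shift 3 1)] (by decide +kernel))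
noncomputable def rh692f9bc9de004ce9 : CRef := CRef.mk (Pat.mk 0x300000001c00000080000000000000000000000000 0x2000000260000006e0000003e0000003f0000003c000000ff0000003e0000001800000008 10 8) 0 0 (step_sound _ 100 [(rh0ea2c8d80b882457.shift 0 2), (rh274a837cd7eaa569.shift 3 0), rh294d952f834204d8, rh79e18c7f0bd74a50, (rh9bb5c7e5c08d4582.shift 3 1)] (by decide +kernel))
noncomputable def rh38e3ae9b48190866 : CRef := CRef.mk (Pat.mk 0x12000000030000000000000000000000000 0x180000003f0000007c000001fe0000007c0000003e0000007c00000038 10 9) 0 0 (step_sound _ 134 [rh1a0d91ab6d25a03b, (rh361cc68994bd8a63.shift 4 3)] (by decide +kernel))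
noncomputable def rh7942f5f980a7f671 : CRef := CRef.mk (Pat.mk 0x300000001800000080000000000000000000000000 0x280000003e0000007f0000003e0000003800000038000000f8000000380000001800000008 10 8) 0 0 (step_sound _ 100 [(rh274a837cd7eaa569.shift 3 0), (rh399e79f70837a3e7.shift 0 2), (rh9c2924c8c4127d86.shift 3 2), (rhb2c24aa65dd14528.shift 3 2)] (by decide +kernel))
noncomputable def rh744abc307a93f0b2 : CRef := CRef.mk (Pat.mk 0x1000000010000000180000008800000000 0xf0000001f0000001f0000001e000000fc00000034 10 8) 0 0 (step_sound _ 36 [rhac321df1c267a6f0, (rhf8edb192cdea7ada.shift 3 0)] (by decide +kernel))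
noncomputable def rhed67f212fb009fa6 : CRef := CRef.mk (Pat.mk 0x300000001c00000080000000000000000000000000 0x280000003e0000007f0000003e0000003f0000003c000000f8000000380000001800000008 10 8) 0 0 (step_sound _ 100 [rh294d952f834204d8, (rh399e79f70837a3e7.shift 0 2), rh79e18c7f0bd74a50, (rh9c2924c8c4127d86.shift 3 2), (rhb2c24aa65dd14528.shift 3 2)] (by decide +kernel))
noncomputable def rh496edddf92f724c9 : CRef := CRef.mk (Pat.mk 0x300000001c00000080000000000000000000000000 0x8000000080000001c0000001e0000003c0000003c000000ff0000007f0000003c00000030 10 8) 0 0 (step_sound _ 99 [rh5671b10472da9848, (rh9e3ee33c7e250c13.shift 0 1), (rhcf80391c5046a495.shift 3 1), (rhd3d458da9b6d39df.shift 1 3), (rhf9366b6a121593ef.shift 3 1)] (by decide +kernel))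
noncomputable def rhf68b21f01f436072 : CRef := CRef.mk (Pat.mk 0x300000001800000080000000000000000000000000 0x80000001c0000001f0000003f0000001e000000fe0000007e0000003c00000030 10 8) 0 0 (step_sound _ 130 [(rh53b3c253cb0c65f4.shift 1 4), rhccf38a96731db11a] (by decide +kernel))
noncomputable def rh22a0c9ea420e0993 : CRef := CRef.mk (Pat.mk 0x180000000e0000000000000000000000000000000000000000 0x7000000070000000f0000001f0000001e0000003f0000003f0000003f0000000700000005 10 6) 0 0 (step_sound _ 164 [rh17c5c960d4b2ac6b, (rhbbe16ff26f7822db.shift 1 2), (rhd409a37f822dd92f.shift 0 2), (rhe5d09daf39286758.shift 0 2), (rhed9575cdee0ab1ad.shift 0 2)] (by decide +kernel))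
noncomputable def rhf1ce017301ab642c : CRef := CRef.mk (Pat.mk 0x1c0000001e000000400000000000000000 0x600000006000000070000001f0000001e000000780000003c0000001c 10 7) 0 0 (step_sound _ 129 [(rh3244c3cc8379b070.shift 0 3), rhda12134df2b0a1d0] (by decide +kernel))
noncomputable def rha1634b822c96efb0 : CRef := CRef.mk (Pat.mk 0x1c0000001e000000000000000000000000 0xe0000003e000000070000001c0000001e0000003c0000001800000018 10 6) 0 0 (step_sound _ 68 [rh6dcc101a01879d64, (rhe25b0a99195a5d59.shift 1 2)] (by decide +kernel))
noncomputable def rh0ef8ce2735b84788 : CRef := CRef.mk (Pat.mk 0x180000001e000000000000000000000000 0x1f0000001e000000370000003e0000003f 10 6) 0 0 (step_sound _ 68 [rh9e5b44c361a7248d, (rhe25b0a99195a5d59.shift 1 2)] (by decide +kernel))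
noncomputable def rh910fae6541ccf194 : CRef := CRef.mk (Pat.mk 0x480000000c000000000000000000000000 0xb0000000f0000007b0000001f0000003f0000003c0000003c 10 7) 0 0 (step_sound _ 132 [(rh361cc68994bd8a63.shift 2 3), rh3aa51519481e89c9] (by decide +kernel))
noncomputable def rh81d82b1e25193e51 : CRef := CRef.mk (Pat.mk 0x800000001c0000003000000000000000000000000000000000 0x300000003c0000007f000000ff0000003c0000003c0000001e0000001c0000000800000008 10 8) 0 0 (step_sound _ 195 [(rh8b1a4197a7bd1ecb.shift 1 0), (rhc2c7bae8f445c890.shift 3 2), (rhc38f566cab2818e5.shift 3 2), (rhf36b7fdefc9f591f.shift 0 2), (rhff6926d28ba2653c.shift 0 1)] (by decide +kernel))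
noncomputable def rh12e321b6dac0b365 : CRef := CRef.mk (Pat.mk 0x800000001800000030000000000000000000000000 0x300000003c0000007e000000fe0000001e0000003f0000001f0000001c00000008 10 8) 0 0 (step_sound _ 130 [rh5e96d950589d686a, (rhb739f4f82bb681b4.shift 1 3)] (by decide +kernel))
noncomputable def rh236de1b73a857414 : CRef := CRef.mk (Pat.mk 0xe00000018000000000000000000000000 0x5000000070000003f0000003f0000003f0000001e0000001f0000000f0000000700000007 10 6) 0 0 (step_sound _ 132 [rh453dea99e34b074c, (rh5ba2d67652840f34.shift 1 2), (rh7b99c5f05d8bab31.shift 0 3), (rh8c7c8a0d99f0a4c8.shift 0 3), rha89c43eb2e8e4595] (by decide +kernel))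
noncomputable def rh8bf61a7d74ffd669 : CRef := CRef.mk (Pat.mk 0x400000001e0000001c000000000000000000000000 0x1c0000003c000000780000001e0000001f000000070000000600000006 10 7) 0 0 (step_sound _ 97 [rh2b1591e22530177e, (rheb0810cc63b001d8.shift 0 3)] (by decide +kernel))
noncomputable def rh08b1006b68c2c230 : CRef := CRef.mk (Pat.mk 0x1e0000001c000000000000000000000000 0x18000000180000003c0000001e0000001c000000070000003e0000000e 10 6) 0 0 (step_sound _ 164 [(rh33e738c4ed385b9f.shift 1 4), rh937eaaddf2c7b643] (by decide +kernel))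
noncomputable def rhc84da098c5c30e18 : CRef := CRef.mk (Pat.mk 0x1e00000018 0x3f0000003e000000370000001e0000001f 10 6) 0 0 (step_sound _ 68 [(rh33e738c4ed385b9f.shift 1 1), rhd51370b1d42a8fa8] (by decide +kernel))
noncomputable def rhbee11a86370cb732 : CRef := CRef.mk (Pat.mk 0xc000000480000000000000000 0x3c0000003c0000003f0000001f0000007b0000000f0000000b 10 7) 0 0 (step_sound _ 68 [(rh2fe78cc5ca4405d8.shift 2 2), rh57b77b331eec858c] (by decide +kernel))
noncomputable def rhdf4967501ae7db6e : CRef := CRef.mk (Pat.mk 0x180000000c00000040000000080000000000000000 0x140000001c0000000c0000007f0000003f0000003700000012 10 7) 0 0 (step_sound _ 99 [(rh2f68792b6b779e96.shift 3 2), rh343e412b577609a8] (by decide +kernel))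
noncomputable def rh35660859d754aa44 : CRef := CRef.mk (Pat.mk 0x80000000c0000004000000008000000000000000000000000 0x40000000c0000000c0000007f0000003f0000003f0000001e00000004 10 7) 0 0 (step_sound _ 131 [(rh343e412b577609a8.shift 0 1), (rhbaff7ec0fcc038ba.shift 2 0), (rhe286c75f2739cce2.shift 2 2)] (by decide +kernel))
noncomputable def rhfc6072163a3253a6 : CRef := CRef.mk (Pat.mk 0x12000000030000000000000000000000000 0x40000000680000007c000001ff0000007c000000380000003000000010 10 9) 0 0 (step_sound _ 134 [(rh361cc68994bd8a63.shift 4 3), rh700a37990d331cd0] (by decide +kernel))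
noncomputable def rhe0155425c36a088d : CRef := CRef.mk (Pat.mk 0x8000000400000000c0000001800000000 0x12000000370000003f0000007f0000000c0000001c00000014 10 7) 0 0 (step_sound _ 99 [rh49855af54517db0c, (rh55afc6a59410cf00.shift 3 0)] (by decide +kernel))
noncomputable def rhe40a94b4fea11b97 : CRef := CRef.mk (Pat.mk 0x8000000400000000c0000000800000000 0x40000001e0000003f0000003f0000007f0000000c0000000c00000004 10 7) 0 0 (step_sound _ 99 [(rh03dfdf12d5937476.shift 2 0), (rh42ab489a1be3958e.shift 2 1), rh49855af54517db0c] (by decide +kernel))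
noncomputable def rhac33ceb461162656 : CRef := CRef.mk (Pat.mk 0x3000000120000000000000000000000000 0x1000000030000000380000007c000001ff0000007c0000006800000040 10 9) 0 0 (step_sound _ 102 [rh03195be266148887, (rh2fe78cc5ca4405d8.shift 4 3)] (by decide +kernel))
noncomputable def rh9aab5f5284d74efc : CRef := CRef.mk (Pat.mk 0x20000000200000003000000030000000000000000000000000 0x4a000000fe0000003e0000007f0000003e0000006f0000002e0000000a 10 8) 0 0 (step_sound _ 198 [(rh2f68792b6b779e96.shift 5 3), rh8e059bad3e0a3792] (by decide +kernel))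
noncomputable def rhda752323107a17fa : CRef := CRef.mk (Pat.mk 0x3000000030000000200000002000000000 0xa0000002e0000006f0000003e0000007f0000003e000000fe0000004a 10 8) 0 0 (step_sound _ 38 [rh461f943bc24400e5, (rh55afc6a59410cf00.shift 5 0)] (by decide +kernel))
noncomputable def rhff298fa34b9130d4 : CRef := CRef.mk (Pat.mk 0xc0000001800000000000000000000000000000000 0x14000000140000003f0000001f0000001f0000000b0000000f0000000700000005 10 6) 0 0 (step_sound _ 161 [(rhb739f4f82bb681b4.shift 0 4), rhcc9ce359a88eaad0] (by decide +kernel))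
noncomputable def rh5e28a09da46f2adf : CRef := CRef.mk (Pat.mk 0x3000000120000000000000000000000000 0x100000003c0000003e0000007c000001ff000000ec0000006c00000040 10 9) 0 0 (step_sound _ 102 [(rh2fe78cc5ca4405d8.shift 4 3), rhd52edfad25e393b3] (by decide +kernel))
noncomputable def rh36208e3d15ca56f9 : CRef := CRef.mk (Pat.mk 0x400000000e0000001800000000000000000000000000000000 0x3e0000003e000000ff0000001e0000001f00000033000000370000003700000005 10 8) 0 0 (step_sound _ 164 [(rh20aa4f45d68bc15e.shift 1 1), (rh832afe40d6b04f58.shift 2 1), (rh8bc8a7c1307abfa4.shift 0 4), rh97cfa51bbec4ec42] (by decide +kernel))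
noncomputable def rhe941ea76d235780e : CRef := CRef.mk (Pat.mk 0x400000000e00000018000000000000000000000000 0x200000003e0000003e000000f70000001e0000001f0000003b0000003b00000030 10 8) 0 0 (step_sound _ 132 [(rh035797bacd70b8d7.shift 3 0), (rh8bc8a7c1307abfa4.shift 0 3), (rhfc2bf04274467006.shift 0 1)] (by decide +kernel))
noncomputable def rhccf451b3d32157e7 : CRef := CRef.mk (Pat.mk 0x400000000c000000180000000000000000000000000000000000000000 0x100000001800000018000000780000001f0000001c00000018000000180000001c0000001c00000014 10 7) 0 0 (step_sound _ 193 [(rh9fe0141ba87a3ac5.shift 2 0), (rhb739f4f82bb681b4.shift 0 5)] (by decide +kernel))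
noncomputable def rh380af03c606c0198 : CRef := CRef.mk (Pat.mk 0x180000000c000000000000000000000000 0x5000000070000000f0000000b0000001f0000001f0000003f0000001400000014 10 6) 0 0 (step_sound _ 97 [rh0b369f634113c1e2, (rh53b3c253cb0c65f4.shift 0 3)] (by decide +kernel))
noncomputable def rhe12f1c348428db71 : CRef := CRef.mk (Pat.mk 0x12000000030000000000000000000000000 0x400000006c000000ec000001ff0000007c0000003e0000003c00000010 10 9) 0 0 (step_sound _ 134 [(rh361cc68994bd8a63.shift 4 3), rhc8fd67e1ce9f4b56] (by decide +kernel))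
noncomputable def rhdf2d4f2624c24339 : CRef := CRef.mk (Pat.mk 0x180000000e000000400000000000000000 0x50000003700000037000000330000001f0000001e000000ff0000003e0000003e 10 8) 0 0 (step_sound _ 100 [(rh612003c16d254781.shift 1 0), rhcbaf3b120543c03e, (rheaef37d0961f23e1.shift 2 0), (rhf4c78ed7abc84f21.shift 0 1)] (by decide +kernel))
noncomputable def rh153f4a188994e5ae : CRef := CRef.mk (Pat.mk 0x180000000e00000040000000000000000000000000 0x300000003b0000003b0000001f0000001e000000f70000003e0000003e00000020 10 8) 0 0 (step_sound _ 132 [(rh1e331d1fbd537005.shift 3 0), (rhc6a9ed8537595237.shift 0 1), (rhcbaf3b120543c03e.shift 0 1)] (by decide +kernel))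
noncomputable def rh52575ee6251432ed : CRef := CRef.mk (Pat.mk 0x180000000c00000040000000000000000000000000 0x140000001c0000001c00000018000000180000001c0000001f00000078000000180000001800000010 10 7) 0 0 (step_sound _ 129 [(rh53b3c253cb0c65f4.shift 0 4), (rhae5b8ad9d0097f2f.shift 2 0)] (by decide +kernel))
noncomputable def rhe7fcf800cddab5e6 : CRef := CRef.mk (Pat.mk 0x180000000e000000000000000000000000 0x10000000100000003c0000001f0000001e0000003b0000003200000032 10 6) 0 0 (step_sound _ 100 [rh402ff2dc9138d2da, (rhbbe16ff26f7822db.shift 1 0), rhf5e1b45733236866] (by decide +kernel))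
noncomputable def rha12d907a2aee9964 : CRef := CRef.mk (Pat.mk 0x60000000300000010000000000 0x50000000fe000000fe000000ff0000007000000070000001f000000050 10 9) 0 0 (step_sound _ 133 [(rh1d1fc9d7fd86ede8.shift 0 1), (rh703c8f6407983e4e.shift 2 0), (rh7a7e08304268422e.shift 4 1), (rhbb339bb7e4e96b38.shift 4 1), (rhf26678cbbb095e02.shift 2 2)] (by decide +kernel))
noncomputable def rh05efa24174829a5a : CRef := CRef.mk (Pat.mk 0x180000000c000000000000000000000000 0x100000001a0000003b0000001f0000001f0000003f0000003400000034 10 6) 0 0 (step_sound _ 97 [(rh53b3c253cb0c65f4.shift 0 3), rhe7a76828858867ce] (by decide +kernel))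
noncomputable def rh0c18011abe29da27 : CRef := CRef.mk (Pat.mk 0x180000000e000000000000000000000000 0x12000000160000003f0000001f0000001e0000003f0000003200000032 10 6) 0 0 (step_sound _ 100 [(rhbbe16ff26f7822db.shift 1 0), rhe5d09daf39286758, rhf5e1b45733236866] (by decide +kernel))
noncomputable def rheb673eff2b1e7ce1 : CRef := CRef.mk (Pat.mk 0x6000000038000000000000000000000000 0xfe000000fe000000ff0000006c00000078000000fc000000d0000000d0 10 8) 0 0 (step_sound _ 102 [(rh457b8fe904b690c2.shift 2 0), (rhbbe16ff26f7822db.shift 3 0), (rhdf9e4f553424071f.shift 0 1)] (by decide +kernel))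
noncomputable def rh59dccf8b901e9a13 : CRef := CRef.mk (Pat.mk 0x80000001e00000000000000000000000000000000 0x10000000f0000001f0000000f0000001e00000033000000070000000700000005 10 6) 0 0 (step_sound _ 100 [rh4320a23892b14136, (rhe25b0a99195a5d59.shift 1 3)] (by decide +kernel))
noncomputable def rhfce4aa27df554617 : CRef := CRef.mk (Pat.mk 0x4a0000000c000000000000000000000000 0x20000007b0000001f0000003f0000003400000034 10 7) 0 0 (step_sound _ 132 [(rh361cc68994bd8a63.shift 2 3), rh7f7b1a9a374408dd] (by decide +kernel))
noncomputable def rh737500550cf114a0 : CRef := CRef.mk (Pat.mk 0x900000001800000080000000000000000000000000 0xc0000003c0000007c000000df0000003f000000ff0000006f0000002c00000024 10 8) 0 0 (step_sound _ 99 [(rh2fb2abca57e1419c.shift 0 1), rh48984dda3dd6c68b, (rhadf429772c25fde0.shift 3 1), (rhf9366b6a121593ef.shift 3 1)] (by decide +kernel))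
noncomputable def rh307d3bd6eeebd30e : CRef := CRef.mk (Pat.mk 0x20000000700000003000000000000000000000000000000000 0x200000006000000660000007e0000003e0000001e0000001f0000000e0000000a 10 7) 0 0 (step_sound _ 130 [(rh24ae073cf30720c4.shift 2 4), rhd7146f15699a63b1] (by decide +kernel))
noncomputable def rh010d64595b166c7e : CRef := CRef.mk (Pat.mk 0x8000000180000000c00000008 0x50000000700000007000000170000001f0000001f0000000c00000008 10 5) 0 0 (step_sound _ 100 [(rh2f68792b6b779e96.shift 3 0), rh507d17f7715b8616] (by decide +kernel))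
noncomputable def rhd25b7cb33bfae79b : CRef := CRef.mk (Pat.mk 0xe00000018000000000000000000000000 0x32000000320000003b0000001e0000001f0000003c0000001000000010 10 6) 0 0 (step_sound _ 132 [(rh5ba2d67652840f34.shift 1 2), rh7041bb97b1a8f4cc, rh81026b1e290fdb89] (by decide +kernel))
noncomputable def rhdf6036b464d8644a : CRef := CRef.mk (Pat.mk 0x100000000300000006000000000000000000000000000000000 0x50000001f00000007000000070000000ff000000fe000000fe00000050 10 9) 0 0 (step_sound _ 101 [(rh668fc65514a55b16.shift 4 1), (rh70e2db778ce43bdb.shift 2 0), rhbc11b99e9dd6c4eb, (rhd1779d7de7f8215b.shift 4 0), (rhfb1c18d1b9d9fae2.shift 2 2)] (by decide +kernel))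
noncomputable def rh3d1b39d6cb648e17 : CRef := CRef.mk (Pat.mk 0xc00000018000000000000000000000000 0x34000000340000003f0000001f0000001f0000003b0000001a00000010 10 6) 0 0 (step_sound _ 129 [rh344eb94ba5a16f84, (rhb739f4f82bb681b4.shift 0 3)] (by decide +kernel))
noncomputable def rh23b5418887e9bd84 : CRef := CRef.mk (Pat.mk 0xe00000018000000000000000000000000 0x32000000320000003f0000001e0000001f0000003f0000001600000012 10 6) 0 0 (step_sound _ 132 [(rh5ba2d67652840f34.shift 1 2), rh81026b1e290fdb89, rha89c43eb2e8e4595] (by decide +kernel))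
noncomputable def rhe59dd96a841f4b3d : CRef := CRef.mk (Pat.mk 0x3800000060000000000000000000000000 0xd0000000d0000000fc000000780000006c000000ff000000fe000000fe 10 8) 0 0 (step_sound _ 134 [(rh5ba2d67652840f34.shift 3 2), (rh6e4a74575a998d00.shift 2 2), rh9e3ad1ab18760e6b] (by decide +kernel))
noncomputable def rha370f42b5e8577d7 : CRef := CRef.mk (Pat.mk 0x1e00000008000000000000000000000000 0x50000000700000007000000330000001e0000000f0000001f0000000f00000001 10 6) 0 0 (step_sound _ 164 [(rh33e738c4ed385b9f.shift 1 4), rh3938616a3947f2c5] (by decide +kernel))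
noncomputable def rh7d798db8909d0d7c : CRef := CRef.mk (Pat.mk 0xc0000004a00000000 0x34000000340000003f0000001f0000007b00000002 10 7) 0 0 (step_sound _ 36 [(rh2fe78cc5ca4405d8.shift 2 1), rhb8abf14f22d3edc6] (by decide +kernel))
noncomputable def rhef14ce4c44eab4ee : CRef := CRef.mk (Pat.mk 0x800000001800000090000000000000000000000000 0x240000002c0000006f000000ff0000003f000000df0000007c0000003c0000000c 10 8) 0 0 (step_sound _ 163 [(rh8e58269983fcff57.shift 0 1), (rha40d42a2e34c408d.shift 3 1), rhb471e6dda963c9fc, (rhc38f566cab2818e5.shift 3 1)] (by decide +kernel))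
noncomputable def rh1eb5fe95185378c3 : CRef := CRef.mk (Pat.mk 0x3000000070000000200000000000000000 0xa0000000e0000001f0000001e0000003e0000007e000000660000000600000002 10 7) 0 0 (step_sound _ 130 [rh7c63b5bd22c678b5, (rhab22b5b56e7b3243.shift 2 3)] (by decide +kernel))
noncomputable def rhaf29efc83d985d94 : CRef := CRef.mk (Pat.mk 0x80000000c000000180000000800000000000000000000000000000000 0x80000000c0000001f0000001f00000017000000070000000700000005 10 5) 0 0 (step_sound _ 132 [rh311e84c0cd025a95, (rh55afc6a59410cf00.shift 3 3)] (by decide +kernel))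
noncomputable def rh0b3a6b8996b64a24 : CRef := CRef.mk (Pat.mk 0x400000000c0000001800000000000000000000000000000000 0x140000001c0000001c0000000c0000007c0000001f0000001f0000001f0000001e0000001c00000014 10 7) 0 0 (step_sound _ 161 [rh23f073829d3e947b, (rhb739f4f82bb681b4.shift 0 4)] (by decide +kernel))
noncomputable def rha38de66d52c03900 : CRef := CRef.mk (Pat.mk 0x100000000380000006000000000000000000000000000000000 0x1800000058000001f8000000780000007f00000038000000380000003800000028 10 9) 0 0 (step_sound _ 196 [(rh0ea6ccce9923b6f7.shift 0 2), (rh5a3c8a6ee50ab5d8.shift 1 0), (rh66f5162a0455f5fc.shift 3 2), (rhc2c7bae8f445c890.shift 4 2), (rhc38f566cab2818e5.shift 4 2)] (by decide +kernel))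
noncomputable def rh4901a2d77b080ae4 : CRef := CRef.mk (Pat.mk 0x800000001c00000030000000000000000000000000 0x280000003e0000007e0000007f000000f80000003c0000003f0000003e0000002c00000020 10 8) 0 0 (step_sound _ 164 [(rh53add0a816e2f5e7.shift 0 2), (rh70e33bfdf511e144.shift 4 0), (rhd743aab01efa0d94.shift 1 1)] (by decide +kernel))
noncomputable def rh04299c629ad76e66 : CRef := CRef.mk (Pat.mk 0x380000006000000000000000000000000000000000 0x60000000780000007800000038000000780000007f000000fc000000fc0000007800000028 10 8) 0 0 (step_sound _ 196 [(rh0ea6ccce9923b6f7.shift 0 2), (rh28fcc5200c665908.shift 2 1), (rh5a3c8a6ee50ab5d8.shift 1 0), (rhc2c7bae8f445c890.shift 4 2), (rhc38f566cab2818e5.shift 4 2)] (by decide +kernel))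
noncomputable def rh7d304e9995cb3768 : CRef := CRef.mk (Pat.mk 0x400000000c0000004800000000000000000000000000000000 0x40000001c0000001c0000001c0000007c0000001f000000780000001c0000001c0000001c00000014 10 7) 0 0 (step_sound _ 132 [rh124f48cc6ee88fae, (rh2fe78cc5ca4405d8.shift 2 4)] (by decide +kernel))
noncomputable def rh0e0ceee7b172bc4c : CRef := CRef.mk (Pat.mk 0x80000000180000009000000000000000000000000000000000 0x2c0000003e0000007f000000fc0000003f000000ff0000006f0000003c0000003c00000014 10 8) 0 0 (step_sound _ 131 [(rh4595c50536dc5a54.shift 0 2), (rh5f30f0c59d95945e.shift 0 1), (rh682ae951eef2ec3f.shift 2 0), (rh9e141fa6bc2add05.shift 0 1), (rhdd369ea035efea71.shift 0 1)] (by decide +kernel))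
noncomputable def rh96287fd3c73c90f7 : CRef := CRef.mk (Pat.mk 0x1000000003800000060000000000000000000000000 0x10000000d0000003d8000000780000007f000000fc000000e8000000c0 10 10) 0 0 (step_sound _ 164 [(rh0ea6ccce9923b6f7.shift 0 1), (rh67cce10698f0a95d.shift 2 0), (rh9373cab9105f6862.shift 2 0), (rhc38f566cab2818e5.shift 4 1)] (by decide +kernel))
noncomputable def rh5c145698d57e124e : CRef := CRef.mk (Pat.mk 0x90000000180000001000000000000000000000000000000000 0x8000000f80000001e0000003e0000007f0000007f0000003e00000028 10 8) 0 0 (step_sound _ 197 [(rh361cc68994bd8a63.shift 3 5), rh4963de23fc0e5a95] (by decide +kernel))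
noncomputable def rhbb2d6aeabd67d9ef : CRef := CRef.mk (Pat.mk 0x180000000c0000000800000000 0x140000001f0000003f0000003f0000001c0000000f0000000c00000004 10 6) 0 0 (step_sound _ 65 [(rh53b3c253cb0c65f4.shift 0 2), rhcfa85849a635be6b] (by decide +kernel))
noncomputable def rhf168f925de8de80f : CRef := CRef.mk (Pat.mk 0x90000000180000009000000000000000000000000000000000 0x8000000f80000001e000000de0000007e0000007f0000003e00000028 10 8) 0 0 (step_sound _ 197 [(rh361cc68994bd8a63.shift 3 5), rh5a47a683548e3079] (by decide +kernel))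
noncomputable def rhbc101b091c75acb5 : CRef := CRef.mk (Pat.mk 0x8000000018000000900000000000000000000000000000000000000000 0x400000004000000060000001f000000038000000f80000007e0000007f0000007e0000003800000028 10 9) 0 0 (step_sound _ 165 [(rh2fe78cc5ca4405d8.shift 3 5), rhdf07977f043a3332] (by decide +kernel))
noncomputable def rh030c6bed5c408727 : CRef := CRef.mk (Pat.mk 0x180000000c0000004000000000000000000000000000000000 0x140000001c0000001e0000001f0000001f0000001f0000007c0000000c0000001c0000001c00000014 10 7) 0 0 (step_sound _ 161 [(rh53b3c253cb0c65f4.shift 0 5), rh86ebdeac0356b9ae] (by decide +kernel))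
noncomputable def rh4f8abe6408e85f42 : CRef := CRef.mk (Pat.mk 0x6000000038000001000000000000000000 0x280000003800000038000000380000007f00000078000001f80000005800000018 10 9) 0 0 (step_sound _ 68 [rh1ee8417e25c598ff, (rhae7273f7fe0bd606.shift 1 0), (rhcf80391c5046a495.shift 4 0), (rhf581dbec858cde0b.shift 3 1), (rhf9366b6a121593ef.shift 4 0)] (by decide +kernel))
noncomputable def rh9089da2fbf3ae453 : CRef := CRef.mk (Pat.mk 0x300000001c0000008000000000000000000000000000000000 0x200000002c0000003e0000003f0000003c000000f80000007f0000007e0000003e00000028 10 8) 0 0 (step_sound _ 132 [(rh09fb7a7c0aac9423.shift 1 3), (rh215e11e099257d75.shift 4 3), rhf0c88dddd9db10b4] (by decide +kernel))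
noncomputable def rhbf4fc524e3fae0da : CRef := CRef.mk (Pat.mk 0x600000003800000000000000000000000000000000 0x2800000078000000fc000000fc0000007f0000007800000038000000780000007800000060 10 8) 0 0 (step_sound _ 100 [(rh163436530c5549dc.shift 2 0), (rh1ee8417e25c598ff.shift 0 1), (rhae7273f7fe0bd606.shift 1 1), (rhcf80391c5046a495.shift 4 1), (rhf9366b6a121593ef.shift 4 1)] (by decide +kernel))
noncomputable def rh2969f9aabe7d3284 : CRef := CRef.mk (Pat.mk 0x480000000c0000004000000000000000000000000000000000 0x140000001c0000001c0000001c000000780000001f0000007c0000001c0000001c0000001c00000004 10 7) 0 0 (step_sound _ 196 [(rh361cc68994bd8a63.shift 2 5), rh51cf0a84bcdbf535] (by decide +kernel))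
noncomputable def rhaec53285b82f57a2 : CRef := CRef.mk (Pat.mk 0x900000001800000080000000000000000000000000 0x140000003c0000003c0000006f000000ff0000003f000000fc0000007f0000003e0000002c 10 8) 0 0 (step_sound _ 163 [(rh0df4b899cb5e42d9.shift 0 2), (rh26ffcb37093465b4.shift 0 3), (rh327536faaaa74c81.shift 2 0), rh75ad5ecd8209b0d7, (rhafacf8fd42000585.shift 0 1)] (by decide +kernel))
noncomputable def rhd65f2c0d4e8b6a92 : CRef := CRef.mk (Pat.mk 0x6000000038000001000000000000000000 0xc0000000e8000000fc0000007f00000078000003d8000000d000000010 10 10) 0 0 (step_sound _ 68 [rh1ee8417e25c598ff, (rh790ca7b8903fe9b6.shift 2 0), (rhdc2285bbee7d535e.shift 2 1), (rhf9366b6a121593ef.shift 4 0)] (by decide +kernel))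
noncomputable def rh65b6f5a1e8eeae4a : CRef := CRef.mk (Pat.mk 0x10000000180000009000000000 0x280000003e0000007f0000007f0000003e0000001e000000f800000008 10 8) 0 0 (step_sound _ 37 [(rh2fe78cc5ca4405d8.shift 3 1), rhc15d972654a603d4] (by decide +kernel))
noncomputable def rh282f3ca4f92ae578 : CRef := CRef.mk (Pat.mk 0x80000000c0000001800000000000000000000000000000000 0x40000000c0000000f0000001c0000003f0000003f0000001f00000014 10 6) 0 0 (step_sound _ 161 [rh50c70271ddf702de, (rhb739f4f82bb681b4.shift 0 4)] (by decide +kernel))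
noncomputable def rh41d57fbaedd9a61c : CRef := CRef.mk (Pat.mk 0x90000000180000009000000000 0x280000003e0000007f0000007e000000de0000001e000000f800000008 10 8) 0 0 (step_sound _ 37 [(rh2fe78cc5ca4405d8.shift 3 1), rh4a37eb86bd1c2c55] (by decide +kernel))
noncomputable def rhe512756101d0a81f : CRef := CRef.mk (Pat.mk 0x900000001800000080000000000000000000000000 0x28000000380000007e0000007f0000007e000000f800000038000001f0000000600000004000000040 10 9) 0 0 (step_sound _ 165 [(rh361cc68994bd8a63.shift 3 4), rh67b1ff97d3096e92] (by decide +kernel))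
noncomputable def rhbb3e34ef282e9fc3 : CRef := CRef.mk (Pat.mk 0x8000000018000000900000000000000000 0x300000003c0000007f000000ff00000038000000ff0000001c00000018 10 8) 0 0 (step_sound _ 70 [(rh5419adcd928dba20.shift 3 2), rhe95c2b07ef3402a3] (by decide +kernel))
noncomputable def rhb95d787c958ae93f : CRef := CRef.mk (Pat.mk 0x1800000090000000000000000000000000 0x1c0000003c0000001f00000038000000ff0000007e0000003c0000000c 10 8) 0 0 (step_sound _ 101 [(rh2fe78cc5ca4405d8.shift 3 3), rhcf065ede5d872f92] (by decide +kernel))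
noncomputable def rh7aae4a9e4ea5d4dd : CRef := CRef.mk (Pat.mk 0x1800000038000000000000000000000000 0x1c0000003c0000000f0000003c0000003e000000780000003800000038 10 7) 0 0 (step_sound _ 163 [rh0a504f64ff2e544e, (rh3e595262c1b737ad.shift 3 2), (rh57c2f33d7db628c6.shift 0 2)] (by decide +kernel))
noncomputable def rh99a1478ea677def6 : CRef := CRef.mk (Pat.mk 0x1800000038000000000000000000000000 0x20000000380000003f0000007e0000007e0000007c 10 7) 0 0 (step_sound _ 98 [(rh4cec1ed8e48973ae.shift 1 0), (rhab2ad169e49f9c5e.shift 0 3), (rhe153806bfe3acc65.shift 0 2)] (by decide +kernel))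
noncomputable def rh8dbcad73e967949d : CRef := CRef.mk (Pat.mk 0x700000000000000000000000000000000000000000 0x20000000e0000000e0000000e0000000ff000000fe000001c7000000e0000000e0000000e0000000a0 10 9) 0 0 (step_sound _ 163 [(rh0d388319206c8337.shift 0 4), (rh3947d1dfff0afc6c.shift 2 4), (rh4c622fddc53a5f99.shift 1 5), (rhb26aee321c9b38e7.shift 3 0)] (by decide +kernel))
noncomputable def rh5d1aa9ef13560b15 : CRef := CRef.mk (Pat.mk 0x80000001e0000000000000008000000000000000000000000 0x40000000f0000001e0000003b0000001f000000170000000700000005 10 6) 0 0 (step_sound _ 132 [rh98e4f251c2228c4c, (rhe25b0a99195a5d59.shift 1 4)] (by decide +kernel))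
noncomputable def rh744c25782f3050f9 : CRef := CRef.mk (Pat.mk 0x1e0000000000000008000000000000000000000000 0x4000000370000001e0000000b0000000f0000001f0000000700000005 10 6) 0 0 (step_sound _ 196 [rh148dc9b744c3eef2, (rh33e738c4ed385b9f.shift 1 5)] (by decide +kernel))
noncomputable def rhdfa0cdb47a9c01b3 : CRef := CRef.mk (Pat.mk 0x1e000000000000000000000000 0x34000000340000003f0000001e0000003b0000000f0000000e 10 6) 0 0 (step_sound _ 132 [(rh33e738c4ed385b9f.shift 1 3), rh5480e9f451ad2555] (by decide +kernel))
noncomputable def rh14eb95dd45d59e78 : CRef := CRef.mk (Pat.mk 0x100000001e00000000000000000000000000000000 0x1d0000001f0000001f0000001e00000033000000070000000700000005 10 6) 0 0 (step_sound _ 100 [rh4d122a5bbe0af927, (rhe25b0a99195a5d59.shift 1 3)] (by decide +kernel))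
noncomputable def rh7c5fde83caa4deec : CRef := CRef.mk (Pat.mk 0x100000001e00000010000000000000000000000000 0x28000000380000003c000000170000001e0000001b0000003e0000003a00000020 10 6) 0 0 (step_sound _ 97 [rhaa2ac33c27877a0d, (rheb0810cc63b001d8.shift 0 3)] (by decide +kernel))
noncomputable def rhe57ef2155c8e2288 : CRef := CRef.mk (Pat.mk 0x100000001e0000000000000000000000000000000000000000 0x3d0000001f0000001f0000001e0000000b00000007000000070000000700000005 10 6) 0 0 (step_sound _ 193 [(rh3244c3cc8379b070.shift 0 5), rhdc98d15928a9da03] (by decide +kernel))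
noncomputable def rh82d32f9d766adbc0 : CRef := CRef.mk (Pat.mk 0x20000001e0000001000000000000000000000000000000000 0x10000000f0000001f0000000e0000001e0000001b00000017000000170000000700000005 10 5) 0 0 (step_sound _ 129 [rh6262c496468931f0, (rheb0810cc63b001d8.shift 0 4)] (by decide +kernel))
noncomputable def rh5fd5a6ccc4bb3aca : CRef := CRef.mk (Pat.mk 0x700000000000000000000000000000000000000000 0xa0000000e0000000e0000000e0000001c7000000fe000000ff000000e0000000e0000000e000000020 10 9) 0 0 (step_sound _ 163 [(rh185f35b8bd8ec37f.shift 1 4), (rh27ce058b59d72f64.shift 2 4), (rh55f3dc8812bf5b74.shift 0 4), (rhc4d3b4475505d224.shift 3 0)] (by decide +kernel))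
noncomputable def rh34400af5ddfdd0c3 : CRef := CRef.mk (Pat.mk 0x8000000000000001e0000000800000000 0x500000007000000170000001f0000003b0000001e0000000f00000004 10 6) 0 0 (step_sound _ 100 [(rh33e738c4ed385b9f.shift 1 2), rh72a51ac2ca001cc6] (by decide +kernel))
noncomputable def rh56919480e3b69379 : CRef := CRef.mk (Pat.mk 0x8000000000000001e0000000000000000 0x5000000070000001f0000000f0000000b0000001e0000003700000004 10 6) 0 0 (step_sound _ 36 [rh10f4724316488a31, (rhe25b0a99195a5d59.shift 1 1)] (by decide +kernel))
noncomputable def rh22bea4207645462e : CRef := CRef.mk (Pat.mk 0x1e000000000000000000000000 0xe0000000f0000003b0000001e0000003f0000003400000034 10 6) 0 0 (step_sound _ 68 [rh16a007eeb67bc56e, (rhe25b0a99195a5d59.shift 1 2)] (by decide +kernel))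
noncomputable def rh63ffc985bf14f4e6 : CRef := CRef.mk (Pat.mk 0x1e000000100000000000000000 0x50000000700000007000000330000001e0000001f0000001f0000001d 10 6) 0 0 (step_sound _ 132 [(rh33e738c4ed385b9f.shift 1 3), rh8973b2fef200d840] (by decide +kernel))
noncomputable def rh34290cae350c1386 : CRef := CRef.mk (Pat.mk 0x100000001e00000010000000000000000000000000 0x200000003a0000003e0000001b0000001e000000170000003c0000003800000028 10 6) 0 0 (step_sound _ 161 [(rh3244c3cc8379b070.shift 0 4), rh72b08afb7b1ce7ad] (by decide +kernel))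
noncomputable def rh4393c22de2396d83 : CRef := CRef.mk (Pat.mk 0x1e000000100000000000000000 0x50000000700000007000000070000000b0000001e0000001f0000001f0000003d 10 6) 0 0 (step_sound _ 65 [rh89774618d69f7321, (rheb0810cc63b001d8.shift 0 2)] (by decide +kernel))
noncomputable def rhf18c3d20371bd060 : CRef := CRef.mk (Pat.mk 0x100000001e00000002000000000000000000000000 0x50000000700000017000000170000001b0000001e0000000e0000001f0000000f00000001 10 5) 0 0 (step_sound _ 161 [(rh3244c3cc8379b070.shift 0 4), rhfcf5b286094731cb] (by decide +kernel))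
noncomputable def rh45d7679e9bcbf258 : CRef := CRef.mk (Pat.mk 0x9000000018000000180000000000000000 0xc0000000e000000ff0000001e0000001c0000000f0000000e 10 8) 0 0 (step_sound _ 35 [rh634adcfb1b9b2380, (rh71222050f2c63a3a.shift 3 0)] (by decide +kernel))
noncomputable def rh99720c05613369c0 : CRef := CRef.mk (Pat.mk 0x400000000c00000018000000000000000000000000 0x140000001c0000001f0000001f0000007c0000000f0000001c0000001c0000001c00000014 10 7) 0 0 (step_sound _ 129 [rh3a9126fdd58fb5ae, (rhb739f4f82bb681b4.shift 0 3)] (by decide +kernel))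
noncomputable def rh9d2923fa1db00f1a : CRef := CRef.mk (Pat.mk 0x1800000088000000080000000800000000 0x2800000038000000ff00000078000000f800000078 10 8) 0 0 (step_sound _ 100 [(rh71222050f2c63a3a.shift 3 0), rhcb4c4bd527709581] (by decide +kernel))
noncomputable def rhab71d927b394ad46 : CRef := CRef.mk (Pat.mk 0x1000000030000001100000001000000000 0x80000001e000000340000019e000000fe000001ef 10 9) 0 0 (step_sound _ 37 [(rh55afc6a59410cf00.shift 4 0), rh767d499670ef2007] (by decide +kernel))
noncomputable def rhd4a56ae6a8c8936a : CRef := CRef.mk (Pat.mk 0x8800000018000000880000001800000000 0x20000000200000006f000000ff00000038000000fe0000007800000020 10 8) 0 0 (step_sound _ 68 [(rh2145e1d24b96a57e.shift 3 1), rh309d467122a16519] (by decide +kernel))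
noncomputable def rh8584503a2bd6a5f4 : CRef := CRef.mk (Pat.mk 0x1000000003000000120000000100000000000000000 0xa0000003e000000077000001fe000000ff000003f0000000c0 10 10) 0 0 (step_sound _ 102 [(rh2fe78cc5ca4405d8.shift 4 3), rh5e235ff96d3e0cd7] (by decide +kernel))
noncomputable def rhe39c2bd21caac77a : CRef := CRef.mk (Pat.mk 0x1000000003000000120000000100000000000000000 0x500000007000000070000001e000000077000001fe000000df0000005000000040 10 9) 0 0 (step_sound _ 102 [(rh2fe78cc5ca4405d8.shift 4 3), rh8723acfbbe80c5f4] (by decide +kernel))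
noncomputable def rh9e35efc064b47c7a : CRef := CRef.mk (Pat.mk 0x18000000900000001800000000000000000000000000000000 0x18000001fe0000007e0000000f0000000e0000000e0000000a 10 9) 0 0 (step_sound _ 133 [(rh07bdb9fd7da2852c.shift 1 0), (rh1a724b3b6a917092.shift 0 2), (rh1f36686c55693598.shift 2 4), (rhd5e3c8f7bcc6884c.shift 2 2), (rhfbf320ca8ea44173.shift 3 4)] (by decide +kernel))
noncomputable def rhcaee53deed70b456 : CRef := CRef.mk (Pat.mk 0x400000000c00000048000000040000000000000000 0x140000001c0000001c000000780000000c0000007f0000003f0000003300000012 10 7) 0 0 (step_sound _ 100 [(rh2fe78cc5ca4405d8.shift 2 3), rh906e61d78990b8c2] (by decide +kernel))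
noncomputable def rh61628f55c6672d20 : CRef := CRef.mk (Pat.mk 0x9000000018000000000000000800000000 0x140000001c0000001c0000000c000000ff000000380000001c0000000c0000000c 10 8) 0 0 (step_sound _ 67 [rh1d4f6a1252a20145, (rh71222050f2c63a3a.shift 3 0)] (by decide +kernel))
noncomputable def rh5b0049d2743bc7d8 : CRef := CRef.mk (Pat.mk 0x400000000c0000001800000004000000000000000000000000 0x10000000180000007c0000001f0000007c0000001c0000001c0000000f000000180000001800000010 10 7) 0 0 (step_sound _ 99 [rh0c1c9fcda34d35cd, (rh668fc65514a55b16.shift 2 1), (rhb1a251d9bff81766.shift 2 2), (rhcd5f593130de0d29.shift 0 3)] (by decide +kernel))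
noncomputable def rhfa45937ddd3f10ba : CRef := CRef.mk (Pat.mk 0x8000000018000000900000000800000000 0x28000000380000003c000001ff0000007e000001ff00000038000000ff0000002f00000004 10 9) 0 0 (step_sound _ 69 [(rh2fe78cc5ca4405d8.shift 3 2), rh9125f795d844973f] (by decide +kernel))
noncomputable def rh6c707cfac57fd39a : CRef := CRef.mk (Pat.mk 0x3000000010000000100000000000000000000000000000000000000000 0x2800000038000000380000003800000018000000770000003e0000003f0000001800000038000000380000003800000028 10 7) 0 0 (step_sound _ 260 [(rh30c061e58ebf1ac8.shift 3 4), (rh771d065bdc85bf2d.shift 3 4), (rhbac28d392c520207.shift 0 5), (rhcf8583fad85285df.shift 3 5), (rhd2ef6afb83ee6db9.shift 3 0)] (by decide +kernel))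
noncomputable def rhb72d907032be3c74 : CRef := CRef.mk (Pat.mk 0x30000001100000001000000000 0x2800000038000000380000001800000070000001fe000000ff0000002f 10 9) 0 0 (step_sound _ 132 [rh33b5c7b8113300ab, (rh771d065bdc85bf2d.shift 3 0), (rha087c6594f4bfb59.shift 3 0)] (by decide +kernel))
noncomputable def rh7a2eb42ebbbe12ed : CRef := CRef.mk (Pat.mk 0x30000001100000001000000000000000000000000000000000 0x70000001fe000000ff000000fe000000ff0000003800000028 10 9) 0 0 (step_sound _ 100 [(rh5a1fcbec4dbe4925.shift 1 2), (rh8c3839f9b9075f23.shift 4 1), (rh8cdd36b03d57a2f6.shift 3 1), (rh984bfc6de6c2c524.shift 3 0), (rhb51f27eceb40133f.shift 0 2)] (by decide +kernel))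
noncomputable def rhcdeff3e0b53e1aa2 : CRef := CRef.mk (Pat.mk 0x180000000800000008000000000000000000000000 0x140000001c0000001c0000000c0000000f000000180000001f0000003c0000001c0000001c00000004 10 6) 0 0 (step_sound _ 195 [(rh5abfc4c9d959be03.shift 2 2), (rha52e1acf7ed5511e.shift 2 0), (rhf3d11b058448e968.shift 0 2), (rhfdaeea1f72775220.shift 0 2)] (by decide +kernel))
noncomputable def rh69ca04b937b6e319 : CRef := CRef.mk (Pat.mk 0x800000001c00000000000000000000000000000000 0xe0000000e000000ff0000003e0000000e0000000e0000000e0000000a 10 8) 0 0 (step_sound _ 165 [(rh64727f5681d9c3cc.shift 0 1), (rhdbc499d4eea25e71.shift 1 0), (rhf2aa2b7422c8d0e8.shift 1 4)] (by decide +kernel))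
noncomputable def rh9aac8893672b7542 : CRef := CRef.mk (Pat.mk 0x800000001c00000000000000000000000000000000 0xc0000077c000003fe0000003e0000000f0000000e0000000e0000000a 10 11) 0 0 (step_sound _ 165 [(rh04cebd6aea8322c4.shift 3 4), (rhd3105106a854c430.shift 0 1), (rhdbc499d4eea25e71.shift 1 0), (rhf2aa2b7422c8d0e8.shift 1 4)] (by decide +kernel))
noncomputable def rh9a1b2bdd1128b436 : CRef := CRef.mk (Pat.mk 0x10000000d00000009c0000000800000000 0x80000004c0000006f0000007f000000df0000009c0000001f00000006 10 8) 0 0 (step_sound _ 131 [rh41288eff854f0cdd, (rh56e0a0be54e1894f.shift 0 1), (rhf9a6286f1d5377a2.shift 3 1)] (by decide +kernel))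
noncomputable def rh3b7821dc02172101 : CRef := CRef.mk (Pat.mk 0x80000003800000000000000000000000000000000 0x180000003800000038000000780000003f000000fc000000fc0000001c 10 8) 0 0 (step_sound _ 100 [(rh5d54cb79a67f97ab.shift 3 1), (rha40d42a2e34c408d.shift 3 1), (rhc80ba0a8a87c5874.shift 1 0), rhe2424f25a98a0066] (by decide +kernel))
noncomputable def rhe7ce041322d34453 : CRef := CRef.mk (Pat.mk 0x1e000000000000000000000000 0xc0000001f0000001f0000003e0000003f0000000c0000000c0000000c 10 6) 0 0 (step_sound _ 132 [(rh33e738c4ed385b9f.shift 1 3), rh384689dbbf11135f] (by decide +kernel))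
noncomputable def rh5e680aec5abf9fa7 : CRef := CRef.mk (Pat.mk 0x3c00000000000000000000000000000000 0x8000000380000003f00000037000000380000003800000028 10 6) 0 0 (step_sound _ 97 [(rh80fcd6d0a18cb2dd.shift 1 3), rhba36076a145524e7] (by decide +kernel))
noncomputable def rhd3f58f515de24028 : CRef := CRef.mk (Pat.mk 0x1c000000800000000000000000 0xa0000000e0000000e0000000e0000003e000000ff0000000e0000000e 10 8) 0 0 (step_sound _ 69 [(rh21d82f3c45cf1426.shift 1 0), (rhce89915a24cc0d0a.shift 1 2), rhf0404cb07e588b21] (by decide +kernel))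
noncomputable def rhca37bc460a38cb95 : CRef := CRef.mk (Pat.mk 0x1c000000800000000000000000 0xa0000000e0000000e0000000f0000003e000003fe0000077c0000000c 10 11) 0 0 (step_sound _ 69 [(rh21d82f3c45cf1426.shift 1 0), rh411655eae4bb2b7f, (rh576627fa4a25cc06.shift 3 1), (rhce89915a24cc0d0a.shift 1 2)] (by decide +kernel))
noncomputable def rh5f22729d34fd96b7 : CRef := CRef.mk (Pat.mk 0x80000009c000000d000000010000000000000000000000000 0x60000001f0000009c000000df0000007f0000006f0000004c00000008 10 8) 0 0 (step_sound _ 99 [(rhc2a85810f541903c.shift 0 1), (rhccdc418c5a37a28d.shift 0 2), (rhfafeb437ceb8396d.shift 3 0)] (by decide +kernel))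
noncomputable def rh830e05547fcb0a5f : CRef := CRef.mk (Pat.mk 0x38000000080000000000000000 0x1c000000fc000000fc0000003f00000078000000380000003800000018 10 8) 0 0 (step_sound _ 132 [rh28c41e6fdc46828f, (rh4821dcf828b9d7bf.shift 3 0), (rh99ba061c30dc4c31.shift 1 0), (rhadf429772c25fde0.shift 3 0)] (by decide +kernel))
noncomputable def rha582ef2e7d93533e : CRef := CRef.mk (Pat.mk 0x1e00000000000000000000000000000000 0xc0000000c0000000c0000003f0000003e0000001f0000001f0000000c 10 6) 0 0 (step_sound _ 100 [rhd47920a6fa63e992, (rhe25b0a99195a5d59.shift 1 3)] (by decide +kernel))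
noncomputable def rh3fb0a128b2bc958c : CRef := CRef.mk (Pat.mk 0x3c0000000000000000 0x280000003800000038000000370000003f0000003800000008 10 6) 0 0 (step_sound _ 97 [(rh3f8766e6ecb455ce.shift 1 2), rh5fe46803b3e61d40] (by decide +kernel))
noncomputable def rh7deea0bc0ad27682 : CRef := CRef.mk (Pat.mk 0x1e00000000000000000000000000000000 0x80000003800000038000000380000003b0000001e00000030000000380000003800000028 10 6) 0 0 (step_sound _ 161 [(rh1e76e860f18c0fc2.shift 1 0), (rh3244c3cc8379b070.shift 0 4)] (by decide +kernel))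
noncomputable def rh4750a98b821d72ba : CRef := CRef.mk (Pat.mk 0x1e00000000000000000000000000000000 0x40000000600000006000000070000001e00000037000000070000000700000005 10 6) 0 0 (step_sound _ 101 [(rh96851dee118c1ba3.shift 1 3), rhb157e94e1c6ae8c9] (by decide +kernel))
noncomputable def rh3c137172e8bf67cd : CRef := CRef.mk (Pat.mk 0x100000001e00000010000000000000000000000000 0x200000003c0000003e0000001c0000001e000000170000003a0000003a00000028 10 6) 0 0 (step_sound _ 97 [(rhe7f343ade2260b1e.shift 1 0), (rheb0810cc63b001d8.shift 0 3)] (by decide +kernel))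
noncomputable def rh093923d1bb159634 : CRef := CRef.mk (Pat.mk 0x1e0000000000000000000000000000000000000000 0x280000003800000038000000300000001e0000003b00000038000000380000003800000008 10 6) 0 0 (step_sound _ 129 [(rhc28945803c694115.shift 1 0), (rheb0810cc63b001d8.shift 0 4)] (by decide +kernel))
noncomputable def rh9bed141511751992 : CRef := CRef.mk (Pat.mk 0x1e00000000000000000000000000000000 0x50000000700000007000000370000001e00000007000000060000000600000004 10 6) 0 0 (step_sound _ 165 [rh1dd9bafc81214674, (rh428265de8cd3cd2d.shift 1 4)] (by decide +kernel))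
noncomputable def rh4edcab1042ad8413 : CRef := CRef.mk (Pat.mk 0x100000001e00000010000000000000000000000000 0x280000003a0000003a000000170000001e0000001c0000003e0000003c00000020 10 6) 0 0 (step_sound _ 161 [(rh3244c3cc8379b070.shift 0 4), (rha800ac1be5edcad2.shift 1 0)] (by decide +kernel))
noncomputable def rhf47cac560d14befd : CRef := CRef.mk (Pat.mk 0x800000001800000030000000000000000000000000 0x20000000380000003800000018000000f80000003e0000003f0000007e0000007e00000024 10 8) 0 0 (step_sound _ 130 [(rhb739f4f82bb681b4.shift 1 3), rhe78263d30bab0277] (by decide +kernel))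
noncomputable def rh94fae7140a55804b : CRef := CRef.mk (Pat.mk 0x400000000e00000018000000000000000000000000 0x1f0000003f0000007c0000001e0000001f0000000f0000000a00000002 10 7) 0 0 (step_sound _ 132 [(rh5ba2d67652840f34.shift 1 2), (rh9b6d7c3a28947468.shift 0 1), rhee42ed6b15a60e4a] (by decide +kernel))
noncomputable def rh045c317711053cbf : CRef := CRef.mk (Pat.mk 0x400000000e00000018000000000000000000000000 0x200000003000000030000000fc0000001e0000001f0000003f0000003e0000003f 10 8) 0 0 (step_sound _ 132 [(rh031be943a81a99cb.shift 3 0), (rh5ba2d67652840f34.shift 1 2), rh5df458f217f5fa5d] (by decide +kernel))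
noncomputable def rh1a4f0ca0d1e7f52b : CRef := CRef.mk (Pat.mk 0x80000000180000003000000000000000000000000000000000 0x280000003800000038000000f000000038000000380000003e0000007f0000003e00000028 10 8) 0 0 (step_sound _ 196 [(rh0fa4a62bba50784f.shift 3 3), rh43cc7ca75760bcf8, (rh566659606c8abe04.shift 3 3)] (by decide +kernel))
noncomputable def rhe285b3e39c6850e0 : CRef := CRef.mk (Pat.mk 0x400000000c0000001a000000000000000000000000 0x100000001c0000001f0000001f0000007c0000001f0000001e000000370000001600000012 10 7) 0 0 (step_sound _ 129 [rh2106f9ed3879f3dc, (rhb739f4f82bb681b4.shift 0 3)] (by decide +kernel))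
noncomputable def rh5fcc55c5b26d6546 : CRef := CRef.mk (Pat.mk 0x20000000300000002000000000000000000000000000000000 0x100000001000000030000000380000003e0000007e0000007f0000007000000050 10 7) 0 0 (step_sound _ 101 [(rh0a6888916bcef86b.shift 4 0), (rh1214307454f345c6.shift 0 2), (rhbaff7ec0fcc038ba.shift 4 0), (rhf9a6286f1d5377a2.shift 4 2)] (by decide +kernel))
noncomputable def rhb7a71fad737d2a0c : CRef := CRef.mk (Pat.mk 0x100000000380000012000000000000000000000000000000000 0x70000000f8000003d000000078000001ff000000fc000001fc000000fc00000054 10 10) 0 0 (step_sound _ 131 [(rh0b05942c07c3ef5a.shift 2 0), (rh0d47e576336a2f79.shift 1 1), (rhcb6efa310bb7bb53.shift 2 1), (rhf0f55c4504412200.shift 0 4)] (by decide +kernel))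
noncomputable def rh2b97da2816c0e8d3 : CRef := CRef.mk (Pat.mk 0xc00000018000000000000000000000000 0x140000001f0000003f0000003f0000000c0000001c0000001f0000003f0000003f00000012 10 6) 0 0 (step_sound _ 163 [(rh126a01d87591f2e8.shift 0 1), (rh14e0829dc73b6804.shift 2 2), rh170b8ca624304747, (rhdae9388eef521f76.shift 2 2)] (by decide +kernel))
noncomputable def rh949baa30f499cac1 : CRef := CRef.mk (Pat.mk 0x30000000180000008000000000000000000000000000000000 0x240000007e0000007e0000003f0000003e000000f800000018000000380000003800000020 10 8) 0 0 (step_sound _ 162 [rh11056bed0ea2e689, (rh53b3c253cb0c65f4.shift 1 5)] (by decide +kernel))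
noncomputable def rh8f75fe575172d0a8 : CRef := CRef.mk (Pat.mk 0x180000000e000000400000000000000000 0x20000000a0000000f0000001f0000001e0000007c0000003f0000001f 10 7) 0 0 (step_sound _ 100 [rh1d1fd90c72881d6a, rh1d3c84db45283e6c, (rhbbe16ff26f7822db.shift 1 0)] (by decide +kernel))
noncomputable def rh6cacf7b33b9135a2 : CRef := CRef.mk (Pat.mk 0x180000000e00000040000000000000000000000000 0x3f0000003e0000003f0000001f0000001e000000fc000000300000003000000020 10 8) 0 0 (step_sound _ 132 [(rh1181a14b3e7c5f21.shift 0 3), (rh6f9d00e5064ce68a.shift 3 0), (rhbbe16ff26f7822db.shift 1 1)] (by decide +kernel))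
noncomputable def rh201b5bea4ca20ac5 : CRef := CRef.mk (Pat.mk 0x300000001800000080000000000000000000000000 0x280000003e0000007f0000003e0000003800000038000000f0000000380000003800000028 10 8) 0 0 (step_sound _ 100 [(rh274a837cd7eaa569.shift 3 0), (rh399e79f70837a3e7.shift 0 2), (rh4c145d583973abd2.shift 3 0)] (by decide +kernel))
noncomputable def rh580ed7aabfd5da57 : CRef := CRef.mk (Pat.mk 0x1a0000000c0000004000000000000000000000000000000000 0x1200000016000000370000001e0000001f0000007c0000001f0000001f0000001c00000010 10 7) 0 0 (step_sound _ 161 [(rh53b3c253cb0c65f4.shift 0 5), rhc0ed33466eeec198] (by decide +kernel))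
noncomputable def rhabb0d11f97e4225e : CRef := CRef.mk (Pat.mk 0x2000000030000000200000000000000000 0x50000000700000007f0000007e0000003e00000038000000300000001000000010 10 7) 0 0 (step_sound _ 165 [(rh32431e66bbf434a4.shift 4 2), (rh379ba253432a0400.shift 0 1), (rh42ab489a1be3958e.shift 4 2), (rhfafeb437ceb8396d.shift 4 0)] (by decide +kernel))
noncomputable def rha35cbb59ea77a159 : CRef := CRef.mk (Pat.mk 0x12000000038000001000000000000000000 0x54000000fc000001fc000000fc000001ff00000078000003d0000000f800000070 10 10) 0 0 (step_sound _ 131 [(rh46f7899a9ef89b59.shift 1 1), (rh57db1b2ec7b7733f.shift 2 0), (rhda8c7ebda1d7357c.shift 2 0), (rhf60aa8aede119d3b.shift 0 3)] (by decide +kernel))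
noncomputable def rh8a1c00e817e6cb44 : CRef := CRef.mk (Pat.mk 0x180000000c0000000000000000000000000000000000000000 0x120000003f0000003f0000001f0000001c0000000c0000003f0000003f0000001f00000014 10 6) 0 0 (step_sound _ 131 [(rh63aae37a5ea11039.shift 2 0), (rh8ee247f2e00e2063.shift 0 3), rhd39f01818dca8e7f, (rhffb8e5993241bf15.shift 2 1)] (by decide +kernel))
noncomputable def rh39a7e74943ed215e : CRef := CRef.mk (Pat.mk 0x400000001c000000100000000000000000 0x1f0000001f0000007c0000001c0000001f0000003f0000003c 10 7) 0 0 (step_sound _ 131 [rh58246860b6702422, rh994141317476cf0a, (rhc2c7bae8f445c890.shift 3 0), (rhc38f566cab2818e5.shift 3 0)] (by decide +kernel))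
noncomputable def rh3c71753d3aebe9f5 : CRef := CRef.mk (Pat.mk 0x100000001c000000400000000000000000 0x3c0000003f0000001f0000001c0000007c0000001f0000001f 10 7) 0 0 (step_sound _ 67 [(rh5e1dd81a3b8b36f6.shift 0 1), rhbd3cc2ca3cd04748, (rhcf80391c5046a495.shift 3 0), (rhf9366b6a121593ef.shift 3 0)] (by decide +kernel))
noncomputable def rhf55c067286018526 : CRef := CRef.mk (Pat.mk 0x80000000800000000000000040000000400000000000000000 0x90000001b000000fbf000007fe00000eff0000024800000248 10 12) 0 0 (step_sound _ 103 [rh2a65d0cec4dce4d7, (rh3c88ce959c0e423f.shift 6 2)] (by decide +kernel))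
noncomputable def rhe4018ab1ba2a7447 : CRef := CRef.mk (Pat.mk 0x1000000010000000100000001000000000 0x800000018000000180000003e000000ff000000ef 10 8) 0 0 (step_sound _ 37 [rh51ed210bbc8822bc, (rh55afc6a59410cf00.shift 4 0)] (by decide +kernel))
noncomputable def rh4b5a8ea8d9b7a3a1 : CRef := CRef.mk (Pat.mk 0x400000004000000020000000200000000000000000000000000000000000000000 0x40000000700000003000000030000001fe000001fe000001ff0000007e00000050 10 9) 0 0 (step_sound _ 133 [(rh1006c02ae4212ff0.shift 5 4), rh8f87de33a4a523ba] (by decide +kernel))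
noncomputable def rh7e064aff630bcc72 : CRef := CRef.mk (Pat.mk 0x280000002000000020000000100000000000000000 0xf0000007e000001f7000000240000003c0000007000000040 10 9) 0 0 (step_sound _ 69 [rh18bd019a91d82631, (rh932754581e0f4330.shift 4 1)] (by decide +kernel))
noncomputable def rh33c00d0e1736d36c : CRef := CRef.mk (Pat.mk 0x280000002000000020000000600000000000000000 0x80000000f0000007e000001f700000024000001e40000003000000010 10 9) 0 0 (step_sound _ 164 [(rh0534ccfab756e493.shift 3 1), rh89d7ee08b8557bff, (rhc21a95c499b3efdb.shift 2 4), (rhc92c11e8da6c894f.shift 0 4)] (by decide +kernel))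
noncomputable def rh5e255e3181ff305d : CRef := CRef.mk (Pat.mk 0x80000000a00000008000000080000000000000000000000000000000000000000 0x10000000180000000f0000001c00000018000000180000001c0000001c0000001c00000014 10 5) 0 0 (step_sound _ 260 [(rh2f68792b6b779e96.shift 3 5), rh65a657f5b6c5b7b3] (by decide +kernel))
noncomputable def rh803fe4953964bd13 : CRef := CRef.mk (Pat.mk 0x80000001e00000018000000000000000000000000 0x1b0000001e0000001c000000ff000000ff0000000c 10 8) 0 0 (step_sound _ 68 [(rh7b1f1fb55310c477.shift 3 1), rhdad2d94673b5d300] (by decide +kernel))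
noncomputable def rh099821a4c71d3065 : CRef := CRef.mk (Pat.mk 0x80000001e000000080000000000000000 0x3b0000001e000001dc000000fc000000fc 10 9) 0 0 (step_sound _ 132 [(rh33e738c4ed385b9f.shift 1 3), rh75fffe750a66e9c2] (by decide +kernel))
noncomputable def rh2a04335a18345217 : CRef := CRef.mk (Pat.mk 0x40000000f000000040000000000000000 0x1c0000001f000000f60000007e000000fe 10 8) 0 0 (step_sound _ 131 [(rh33e738c4ed385b9f.shift 0 3), (rh86e0cc5f8b61d5c5.shift 1 0)] (by decide +kernel))
noncomputable def rha0d338b7dc9b2b15 : CRef := CRef.mk (Pat.mk 0x800000008000000080000000800000000 0x1000000018000000180000007c000000ff000000f7 10 8) 0 0 (step_sound _ 132 [(rh2f68792b6b779e96.shift 3 1), rh6faa95dd63717930] (by decide +kernel))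
noncomputable def rh03245625fa792e25 : CRef := CRef.mk (Pat.mk 0x8000000080000000800000000000000000000000000000000 0x100000001800000018000001ff000000fe000001fc000000fc00000014 10 9) 0 0 (step_sound _ 99 [(rh4da9eee6ed7d3f1e.shift 0 2), (rh6c59ce14113da07f.shift 3 1), (rh6eff4158bb400f47.shift 2 1), (rh83162f1bd7e5cda0.shift 2 0), (rhcab3157f7bdcba3e.shift 2 1)] (by decide +kernel))
noncomputable def rh23bdad87ce689126 : CRef := CRef.mk (Pat.mk 0x1000000000000000000000001e00000010000000000000000000000000 0x1000000010000000100000003f0000001f0000003f0000000b00000003 10 6) 0 0 (step_sound _ 99 [rh3fccf268587cad47, (rhb739f4f82bb681b4.shift 0 3)] (by decide +kernel))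
noncomputable def rh6f73b9c71a432ab4 : CRef := CRef.mk (Pat.mk 0x380000002000000000000000000000000000000000 0x600000006000000070000003e0000007700000007000000070000000700000005 10 7) 0 0 (step_sound _ 162 [rh60ccfa2fe0054cc6, (rhe25b0a99195a5d59.shift 2 4)] (by decide +kernel))
noncomputable def rhc2c5b454d3fc08c8 : CRef := CRef.mk (Pat.mk 0x400000005000000040000000400000000000000000 0x8000000080000004f000000fe000003ff000000700000006000000060 10 10) 0 0 (step_sound _ 37 [(rh79877ebd3ef475dd.shift 5 1), rhc3fab8025065a6e3] (by decide +kernel))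
noncomputable def rhf7c8340f7faf0b64 : CRef := CRef.mk (Pat.mk 0x400000005000000040000000400000000000000000 0x8000000080000004f000000fe000003ff000000d0000000c0000000c0 10 10) 0 0 (step_sound _ 39 [rhbac1fa46864be0fb, (rhd3458b32566d63f7.shift 6 1)] (by decide +kernel))
noncomputable def rh209089118260a890 : CRef := CRef.mk (Pat.mk 0x300000001400000010000000100000000000000000 0xf00000001e0000007f0000007f0000001e0000001c 10 8) 0 0 (step_sound _ 131 [(rh53b3c253cb0c65f4.shift 1 4), rhe9e0f7dd21a7d7d3] (by decide +kernel))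
noncomputable def rhba373bd106aae536 : CRef := CRef.mk (Pat.mk 0x4000000000000000000000007800000038000000000000000000000000 0x4000000040000000460000007e00000038000000ff000000ff000001ff 10 9) 0 0 (step_sound _ 36 [rh142880ea7ce27f51, (rh176ec6ecefc73f1f.shift 1 0), rh554332c9c5cfeed9, (rhb079932701f32a02.shift 3 0), (rhbada7d39a80905cf.shift 1 0), rhf84ba13d5f59187e] (by decide +kernel))
noncomputable def rh4fda2875458bf896 : CRef := CRef.mk (Pat.mk 0x800000008000000080000001c00000000000000000000000000000000 0x40000002f0000007c000003fe000001fc000003e0000000f0000000f0000000f0 10 10) 0 0 (step_sound _ 226 [(rh50fbb5868c909700.shift 2 4), rhd9faffa1c3d35f79] (by decide +kernel))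
noncomputable def rhc0949c731826503b : CRef := CRef.mk (Pat.mk 0x200000002000000020000000000000000000000000000000000000000000000000 0x1f0000003e000000ff000001fc000001fe000001fc00000060000000700000007000000050 10 9) 0 0 (step_sound _ 165 [(rh237c50422a2adf79.shift 2 0), (rh7fc3d1d1ffefa3d7.shift 1 4), (rh8ff3dde5b1c639e0.shift 4 3), (rhc27a84b2ed01b28b.shift 0 4), (rhfd1d08e3f854bb69.shift 2 0)] (by decide +kernel))
noncomputable def rh79ee43511792b1e1 : CRef := CRef.mk (Pat.mk 0x20000000200000001800000010000000100000001000000000 0x2000000060000000de000000ff000000ff0000003600000036 10 8) 0 0 (step_sound _ 99 [rh56cc245a1a8744f7, (rh7b1f1fb55310c477.shift 3 0)] (by decide +kernel))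
noncomputable def rh3bc71838741b770c : CRef := CRef.mk (Pat.mk 0x50000000100000000800000008000000080000001c0000000000000000 0x4000000050000000740000006f0000007f0000007c0000007e000000e000000040 10 8) 0 0 (step_sound _ 162 [rh325b6ffcf2f39f5d, (rh50fbb5868c909700.shift 2 2)] (by decide +kernel))
noncomputable def rh2e87cec0217dd9fc : CRef := CRef.mk (Pat.mk 0x8000000080000000e000000000000000000000000 0x500000007000000070000000f0000003b0000001e0000003f0000001000000010 10 6) 0 0 (step_sound _ 100 [(rhc7b95363f9049b11.shift 1 0), (rhfd8136d1712a6320.shift 0 2)] (by decide +kernel))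
noncomputable def rh15b80fc61fcc9873 : CRef := CRef.mk (Pat.mk 0x500000001000000008000000080000000a0000000800000000 0x5000000074000001ee000000fe000001ff000000ef00000008 10 9) 0 0 (step_sound _ 130 [(rh50fbb5868c909700.shift 2 1), rh734770c1d6983bd4] (by decide +kernel))
noncomputable def rh19cc832505d0fe5d : CRef := CRef.mk (Pat.mk 0x100000001000000000000000080000000a0000000000000000000000000 0x1000000018000000080000007de00000ffe00000fff0000010000000100 10 12) 0 0 (step_sound _ 167 [(rh1006c02ae4212ff0.shift 7 3), rhe0fe95ec2b323fff] (by decide +kernel))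
noncomputable def rhfa16db25eed4ca1f : CRef := CRef.mk (Pat.mk 0x8000000080000000e000000000000000000000000 0x500000007000000070000000f0000007b0000007e000000ff0000001000000010 10 8) 0 0 (step_sound _ 100 [(rha866c51301bf0130.shift 1 2), (rhc7b95363f9049b11.shift 1 0), (rhd132b680030c88e0.shift 1 0), (rhfd8136d1712a6320.shift 0 2)] (by decide +kernel))
noncomputable def rh558c3998e2cde4b9 : CRef := CRef.mk (Pat.mk 0x2000000020000000100000001000000014000000000000000000000000 0x220000006a000000df000000ff000000de000000fc0000003400000020 10 8) 0 0 (step_sound _ 68 [(rh5ad9898cc32ef511.shift 3 0), (rh7b0ac8ba249e82c1.shift 0 1), (rhabaa648d2bc9d61c.shift 1 1)] (by decide +kernel))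
noncomputable def rh2bfe856890cc7bfc : CRef := CRef.mk (Pat.mk 0x400000004000000050000000400000000000000000 0x80000002c0000007c0000007f000001fe0000007f0000005800000018 10 9) 0 0 (step_sound _ 165 [rh0d9021fae91600ed, (rh50fbb5868c909700.shift 5 2)] (by decide +kernel))
noncomputable def rh70cb005c6b5dfcf7 : CRef := CRef.mk (Pat.mk 0x1000000010000000140000001000000000 0x6000000060000000e0000001f0000001f000000370000003e00000016 10 6) 0 0 (step_sound _ 131 [rh32be1f53da6094fa, (rh50fbb5868c909700.shift 3 1)] (by decide +kernel))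
noncomputable def rh1c9562354fb9bfb9 : CRef := CRef.mk (Pat.mk 0x4000000000000000000000003000000020000000280000006000000000 0x100000007c0000001c0000000c0000003c000001ff000000f8000001fc00000008 10 9) 0 0 (step_sound _ 68 [(rh4a0b10776449c3e9.shift 3 1), (rh89ade209b3e28f13.shift 3 1), rhe729a364fe4c1eb1] (by decide +kernel))
noncomputable def rh54e59b241c89eaac : CRef := CRef.mk (Pat.mk 0x2000000028000000280000000000000000 0x1c0000001c0000001c0000003f0000003e0000006f0000007c0000002c 10 7) 0 0 (step_sound _ 100 [(rh3918eeb6c53434d8.shift 0 2), (rh3d8b13f45fa02e2e.shift 1 0), (rh4e8215893af088e7.shift 1 0), (rhf4e4690e1d4c3fc6.shift 1 0)] (by decide +kernel))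
noncomputable def rh5bd270bef542da4d : CRef := CRef.mk (Pat.mk 0x20000000200000000000000014000000140000000000000000 0xa0000002a0000003f0000001f0000007f000000f40000001e00000016 10 8) 0 0 (step_sound _ 132 [(rh1006c02ae4212ff0.shift 4 2), rh2c542fa03c4a0f12] (by decide +kernel))
noncomputable def rhcb7b84b16530ed43 : CRef := CRef.mk (Pat.mk 0x80000000000000001000000014000000140000000000000000 0xe0000008e0000008f000001df000000fc000000f70000003e00000016 10 9) 0 0 (step_sound _ 99 [(rh480231ab31e80384.shift 1 1), rh4e8215893af088e7, rhaa79a099736eb728, (rhb1d4c672c39fd791.shift 1 2)] (by decide +kernel))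
noncomputable def rh1232ade98a727c11 : CRef := CRef.mk (Pat.mk 0x8000000080000000800000000000000050000000500000000000000000 0x800000038000000f8000000bf000000fe0000007f000000de000000580000005800000008 10 8) 0 0 (step_sound _ 134 [(rh1006c02ae4212ff0.shift 6 2), rhc012ad234c583656] (by decide +kernel))
noncomputable def rh2a88381d1f715fb7 : CRef := CRef.mk (Pat.mk 0x500000001000000008000000080000000e000000000000000000000000 0x100000057000000f7000000ef000003ff000001fe000003e30000004200000002 10 10) 0 0 (step_sound _ 100 [rh6076add87d5fdaa7, (rh9a91d8f32e6bd95b.shift 0 2), (rhc8d77969065cc0c2.shift 0 2), (rhcba359270a1c4eb5.shift 1 1)] (by decide +kernel))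
noncomputable def rh7588d1bd0aa7392a : CRef := CRef.mk (Pat.mk 0x1000000010000000100000003800000000 0x80000005e000000f8000000f7000000fe000001c7 10 9) 0 0 (step_sound _ 131 [rh22d8f5dcc016ae2c, (rh50fbb5868c909700.shift 3 1)] (by decide +kernel))
noncomputable def rha98afad975f390f1 : CRef := CRef.mk (Pat.mk 0x800000008000000080000000c00000000 0x50000000f0000001f000000ef0000007e000000f3 10 8) 0 0 (step_sound _ 36 [rh3083a24140990d8e, (rh55afc6a59410cf00.shift 3 0)] (by decide +kernel))
noncomputable def rh47cb857be132e4af : CRef := CRef.mk (Pat.mk 0x6000000040000000400000006000000000000000000000000000000000 0x1e0000007c000001fe000003ff0000007e0000001f0000001c0000001c00000014 10 10) 0 0 (step_sound _ 132 [(rh3e0b38310ac09007.shift 1 4), (rha4e887c2a2a0f60b.shift 1 3), (rhaeba2171bba0b7d4.shift 1 1), rhd8b6b96ce64ab221, (rhff7d63dcb3cf9f74.shift 3 4)] (by decide +kernel))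
noncomputable def rh11ee7cda1fa8bef4 : CRef := CRef.mk (Pat.mk 0x2000000020000000300000001000000010000000000000000000000000 0x1c0000003c00000fef000007fe00000f9f0000001c0000000c0000000c0000000c 10 12) 0 0 (step_sound _ 163 [rh02055d4e0987ef4a, (rh1f793dcb2f55d7df.shift 2 4), (rha11dfd15f08f96e3.shift 2 5), (rha4e887c2a2a0f60b.shift 0 4)] (by decide +kernel))
noncomputable def rh842628af7dbcb5c0 : CRef := CRef.mk (Pat.mk 0x8000000000000001800000000000000000000000000000000 0x140000001c0000001c0000000c0000001e0000001f0000001f0000001f0000001c00000004 10 5) 0 0 (step_sound _ 163 [rh4872ac8182671b80, (rh8599f462953abc6e.shift 3 3), (rhaf7955adbc1f7ff4.shift 2 1), (rhbd9df64c32c42184.shift 2 2), (rhe380c42df720a63d.shift 2 3)] (by decide +kernel))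
noncomputable def rha570515a9fdc7c45 : CRef := CRef.mk (Pat.mk 0x100000001c00000010000000000000000000000000 0xf00000007c000000f7000000fe000001ff00000038 10 9) 0 0 (step_sound _ 68 [(rh11211571dc37a985.shift 2 0), (rh346dd9456f8c404e.shift 0 1), (rh6eff4158bb400f47.shift 3 0), (rh9e50e5faf03d6666.shift 2 0)] (by decide +kernel))
noncomputable def rhb60cd09439e94a84 : CRef := CRef.mk (Pat.mk 0x400000004000000050000000400000000000000000 0x1c0000003c0000007c0000007f000001fe000000df0000005800000018 10 9) 0 0 (step_sound _ 165 [(rh50fbb5868c909700.shift 5 2), rhb4d58fc0bc5a5f04] (by decide +kernel))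
noncomputable def rh682209e4ae1c2abc : CRef := CRef.mk (Pat.mk 0x8000000080000001a00000000000000000000000000000000 0x400000004000000040000000e0000001f0000001e0000003b000000170000001700000005 10 6) 0 0 (step_sound _ 100 [(rh08edf065357d68e5.shift 3 1), (rh79ad7b82ec8c35e2.shift 3 1), rh89a79e39f2bb84d2] (by decide +kernel))
noncomputable def rh252a8a3f365278a7 : CRef := CRef.mk (Pat.mk 0x100000001000000000000000080000001a00000000000000000000000000000000 0x4000000140000001c0000000e000000ef0000007e000000fb000000170000001700000005 10 8) 0 0 (step_sound _ 195 [(rh1006c02ae4212ff0.shift 3 4), rhb25aa5d50b14e489] (by decide +kernel))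
noncomputable def rhcc8a9db642683d75 : CRef := CRef.mk (Pat.mk 0x8000000080000001a00000000000000000000000000000000 0x500000007000000070000000f0000003f0000001e0000003b000000170000001700000005 10 6) 0 0 (step_sound _ 130 [rh87299d5f0623721e, (rhc7b95363f9049b11.shift 1 1), (rhc8d77969065cc0c2.shift 0 3)] (by decide +kernel))
noncomputable def rhe699f14b9fd879b1 : CRef := CRef.mk (Pat.mk 0x280000000800000004000000040000000d00000000000000000000000000000000 0x280000003800000076000001fc000000ff000001fc000000380000003800000030 10 9) 0 0 (step_sound _ 99 [(rh08edf065357d68e5.shift 2 1), rh2369d3f33f19b5d5, (rh79ad7b82ec8c35e2.shift 2 1)] (by decide +kernel))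
noncomputable def rh00f115586ea90d40 : CRef := CRef.mk (Pat.mk 0x4000000040000000d00000000000000080000000000000000000000000 0x2000000060000003f8000003d000001f5f00000ffe00001fff000000a0000000a0 10 13) 0 0 (step_sound _ 102 [(rh3b162f1e2e6dc291.shift 2 2), rh607df5926466fef2, (rhad0b6c022d68b56f.shift 5 1), (rhf842a985fdead960.shift 5 2)] (by decide +kernel))
noncomputable def rh6545a4e439291a03 : CRef := CRef.mk (Pat.mk 0x1400000007000000000000000200000002800000000 0x15e000001fc0000038e000001fe000001ef0000000e 10 10) 0 0 (step_sound _ 131 [rh1fd6950f600a74ae, (rh775ca1963e850b80.shift 1 3), rh782390efafb02da2, (rh9033d4dd7a934d39.shift 1 0)] (by decide +kernel))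
noncomputable def rh30e0599416abe2db : CRef := CRef.mk (Pat.mk 0x1c0000001e000000000000000000000000 0x30000001f0000001e0000003b0000001f0000001f 10 6) 0 0 (step_sound _ 129 [(rh3244c3cc8379b070.shift 0 3), rh4ef3b76303541e85] (by decide +kernel))
noncomputable def rhe9cb17415891995a : CRef := CRef.mk (Pat.mk 0x10000000000000001c0000001e0000000000000000000000000000000000000000 0x1000000070000001f000000070000001f0000001e000000f80000007c000001fc0000001c00000010 10 9) 0 0 (step_sound _ 131 [(rh3bf49dea77240230.shift 0 2), (rh3cb04db3dd2b6a55.shift 2 2), (rhf2ce80b49f9d6f48.shift 0 2), (rhf98fa66b1765731a.shift 2 0)] (by decide +kernel))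
noncomputable def rhb15c309f54c29952 : CRef := CRef.mk (Pat.mk 0x20000000200000001000000010000000100000001800000000 0x240000006c000000de000000ff000000f70000001e00000016 10 8) 0 0 (step_sound _ 131 [(rh50fbb5868c909700.shift 3 1), rh711cab745c063078] (by decide +kernel))
noncomputable def rh49d969b7d2890216 : CRef := CRef.mk (Pat.mk 0x5000000010000000040000000c00000008000000040000000000000000 0x40000000500000007000000064000001ff0000007e0000006f0000006a00000040 10 9) 0 0 (step_sound _ 67 [(rh7b1f1fb55310c477.shift 2 1), rhf489582d939dbefe] (by decide +kernel))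
noncomputable def rh47529ab2d064fbe4 : CRef := CRef.mk (Pat.mk 0xa0000000200000001800000018000000100000000000000000 0xa8000000ea000001db000001ff000003ff0000000400000004 10 10) 0 0 (step_sound _ 163 [(rh2145e1d24b96a57e.shift 3 2), rh35cd7a0a4d2b243d] (by decide +kernel))
noncomputable def rha6ed65557d02c756 : CRef := CRef.mk (Pat.mk 0x300000003000000020000000300000000000000000 0xf0000003e000000ff000000770000003e0000000f0000000a 10 8) 0 0 (step_sound _ 163 [(rh3918eeb6c53434d8.shift 0 4), (rh3c9532b361aaaf68.shift 0 1), (rh6292bd8784ece55f.shift 2 4), (rhad5d8fc3675c15dd.shift 1 4), (rhc4d39b704ba14423.shift 1 0)] (by decide +kernel))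
noncomputable def rh0b2dbebd94b7d77b : CRef := CRef.mk (Pat.mk 0x1000000018000000100000000800000000 0xc0000000c0000001f0000007c0000007e0000001f00000017 10 7) 0 0 (step_sound _ 131 [rh6bcbe5f517d76cf6, rhbedc868d1b7fa914, (rhfc7c29d8e65d775f.shift 3 1)] (by decide +kernel))
noncomputable def rh700ceb092f4d003b : CRef := CRef.mk (Pat.mk 0x1800000018000000100000000800000000 0x200000002000000070000001f0000001f0000007f0000001f00000017 10 7) 0 0 (step_sound _ 36 [(rh7b1f1fb55310c477.shift 3 0), rhc1ed33516b9232a6] (by decide +kernel))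
noncomputable def rh0ce0d8002ff418d2 : CRef := CRef.mk (Pat.mk 0x20000000200000001000000018000000100000000800000000 0x20000002e0000006f000000df000000ff000000f70000001e00000016 10 8) 0 0 (step_sound _ 131 [(rh1fe18f128f0e54a2.shift 0 1), rh26d61437ab2c9607, (rhfc7c29d8e65d775f.shift 3 1)] (by decide +kernel))
noncomputable def rh3578f73a48128916 : CRef := CRef.mk (Pat.mk 0x3000000030000000200000001000000000 0x80000000f0000003e000000ff0000003e0000003e0000002e 10 8) 0 0 (step_sound _ 37 [(rh7b1f1fb55310c477.shift 4 0), rh80301b79f3885f35] (by decide +kernel))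
noncomputable def rhc2b8be80fcf1ca23 : CRef := CRef.mk (Pat.mk 0x100000000000000000000000000000001e0000000000000004 0x1000000070000001f0000000700000003000000030000001e0000003700000004 10 6) 0 0 (step_sound _ 36 [rhb86baff9389aecdf, (rhe25b0a99195a5d59.shift 1 1)] (by decide +kernel))
noncomputable def rhe9f3cd6b8675ca86 : CRef := CRef.mk (Pat.mk 0x1000000010000000080000000800000000000000000000000000000000 0x100000001c0000000c0000000c0000003f0000003f0000001f00000014 10 6) 0 0 (step_sound _ 99 [(rh1006c02ae4212ff0.shift 3 3), rh1900c1bad7e860ae] (by decide +kernel))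
noncomputable def rh758e9bbe779cf854 : CRef := CRef.mk (Pat.mk 0x500000001000000000000000080000000800000008000000100000000000000000 0x400000005000000070000001e0000000fc000001ff000000280000001c0000001c00000004 10 9) 0 0 (step_sound _ 67 [rh3147b593a9b1c9a6, (rh55afc6a59410cf00.shift 3 1)] (by decide +kernel))
noncomputable def rhc37547785f3a6fed : CRef := CRef.mk (Pat.mk 0x500000001000000000000000080000000800000008000000040000000000000000 0x400000005000000070000001e0000000fc000001ff000000280000001c0000001c00000010 10 9) 0 0 (step_sound _ 67 [rh1dc3dd42d3aa5743, (rh932754581e0f4330.shift 2 1)] (by decide +kernel))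
noncomputable def rh158832cbdbdadb16 : CRef := CRef.mk (Pat.mk 0xa000000020000000000000001000000010000000100000000800000000000000000000000000000000 0x80000000a0000000e0000000c0000007ff000007fe000007f70000001800000018000000380000003800000028 10 11) 0 0 (step_sound _ 197 [(rh2875b8cb541ec21f.shift 0 5), (rh2ae781461d7af002.shift 0 2), (rh93825f5e728aeb5b.shift 3 0), (rhc5d56ee50519dac0.shift 1 3)] (by decide +kernel))
noncomputable def rh99bc91b1ba07d589 : CRef := CRef.mk (Pat.mk 0x4000000040000000000000002000000030000000200000002000000000000000000000000000000000 0x40000000c00000008000000fee000007fe00000fbf0000002000000020000000700000007000000050 10 12) 0 0 (step_sound _ 198 [(rh263494894912cb88.shift 3 3), (rh2975d6e2987e3771.shift 4 0), (rh6f30b9806435927e.shift 1 5), (rhede050bb77e2c0cf.shift 0 5)] (by decide +kernel))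
noncomputable def rhcc4b56d2c9348295 : CRef := CRef.mk (Pat.mk 0x200000003000000020 0x40000000c0000000c0000000c00000fff000007fe00000fbf 10 12) 0 0 (step_sound _ 35 [(rh2508904f7684b93e.shift 2 0), (rh3e0b38310ac09007.shift 0 1), (rha11dfd15f08f96e3.shift 2 1), rhdb604dc5b89892de] (by decide +kernel))
noncomputable def rh5c4d6cf63f012dff : CRef := CRef.mk (Pat.mk 0xc00000008000000080000000800000000 0x10000000f0000001f000000ef0000007e000000f7 10 8) 0 0 (step_sound _ 34 [rh269775ad10dd4fa9, (rh932754581e0f4330.shift 2 0)] (by decide +kernel))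
noncomputable def rh8210f0f6fce1013d : CRef := CRef.mk (Pat.mk 0x80000001e000000000000000000000000 0x3b0000001e000000370000003e0000003e 10 6) 0 0 (step_sound _ 68 [rh9d601549f25b65bb, (rhe25b0a99195a5d59.shift 1 2)] (by decide +kernel))
noncomputable def rh1c37a598ea221ac6 : CRef := CRef.mk (Pat.mk 0x2000000038000000100000000000000000 0x2800000028000007af000003fc000007980000001000000010 10 11) 0 0 (step_sound _ 197 [rh767c955c7c41ba9b, (rhee230b994cc8b773.shift 4 2)] (by decide +kernel))
noncomputable def rh003dbf716239235a : CRef := CRef.mk (Pat.mk 0x80000001e000000000000000000000000 0x3c0000001e000000370000003e0000003f 10 6) 0 0 (step_sound _ 132 [(rh33e738c4ed385b9f.shift 1 3), rhd409a37f822dd92f] (by decide +kernel))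
noncomputable def rhbcd3cd100f36559f : CRef := CRef.mk (Pat.mk 0x4000000040000000000000002000000028000000000000000000000000 0x500000007e0000003e0000007f000000fe000001df0000001c0000001c 10 9) 0 0 (step_sound _ 197 [(rh04253f50b6dd0619.shift 5 3), rh113159dbfa28455a] (by decide +kernel))
noncomputable def rh390797b073aea72e : CRef := CRef.mk (Pat.mk 0x1000000010000000000000000a0000000a0000000000000000000000000 0x5000000170000001f0000000f0000001ee000000fe0000007f0000007000000050 10 9) 0 0 (step_sound _ 100 [(rh63b4a96fa77f65ad.shift 3 0), rh87b2a0211e6beb09, (rh9f2591205204f08d.shift 4 3), (rhb0c1824112fd2df2.shift 4 0)] (by decide +kernel))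
noncomputable def rh00f286eead7529d6 : CRef := CRef.mk (Pat.mk 0x8000000080000000000000005000000050000000000000000000000000 0x98000000f80000005c000000ff0000007e0000002f0000000800000008 10 8) 0 0 (step_sound _ 198 [(rh04253f50b6dd0619.shift 6 3), rhb718831478b0c452] (by decide +kernel))
noncomputable def rh03a6dd68f8b603b4 : CRef := CRef.mk (Pat.mk 0xa000000030000000000000000000000000 0xc000000ff0000007e0000007f0000000e0000000e 10 8) 0 0 (step_sound _ 99 [rh82ee01296f101fea, (rh8886afe3c5704de8.shift 1 2), (rhcb00ab67b46fb179.shift 3 3)] (by decide +kernel))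
noncomputable def rhb9bc3cb53b09db52 : CRef := CRef.mk (Pat.mk 0xc0000000000000001000000050000000000000000000000000 0x2800000038000001f800000038000000180000007f0000003e0000003f00000028 10 9) 0 0 (step_sound _ 164 [(rh10319172ff6ae2bf.shift 3 2), (rh5f452f890cbd7cd4.shift 3 1), (rh90f2bdf846bc6aaf.shift 3 2), rha13393ba993eeb6b, (rhaf7955adbc1f7ff4.shift 3 0)] (by decide +kernel))
noncomputable def rhc80e82cadcff1b11 : CRef := CRef.mk (Pat.mk 0x80000000800000008000000000000000500000005000000000000000000000000000000000 0x800000038000000f8000000b8000001ff0000007e000000ff0000005000000038000000380000003800000028 10 9) 0 0 (step_sound _ 230 [(rh04253f50b6dd0619.shift 6 4), rh3d171ce0ed43769f] (by decide +kernel))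
noncomputable def rhced786e1f95bc9f7 : CRef := CRef.mk (Pat.mk 0x100000001c000000000000000000000000 0x1e0000001f0000001e0000007c000000ee0000000c0000000c 10 8) 0 0 (step_sound _ 101 [(rh06db8ceda6269a47.shift 1 2), (rh21460d2d48a35cb8.shift 1 1), rh4136496b2230668a, (rh6076add87d5fdaa7.shift 1 0), (rhe401600d466b97cd.shift 1 2)] (by decide +kernel))
noncomputable def rh8f226da121d4059b : CRef := CRef.mk (Pat.mk 0x80000000800000008000000000000000500000005000000000000000000000000000000000 0x800000038000000f8000000bf000001ff0000007f0000007f0000005800000038000000380000003800000028 10 9) 0 0 (step_sound _ 196 [(rh50bf62e75569d623.shift 3 1), (rh62011783c31e649e.shift 3 3), (rh83c9710b3a22f70c.shift 0 3), (rh9ee806ed3911e93d.shift 2 3), (rhabe060634d1463d3.shift 3 1), rhfde16437934d4f4c] (by decide +kernel))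
noncomputable def rh388d9eeea0b8d60f : CRef := CRef.mk (Pat.mk 0x200000000000000000000000050000000e00000000000000000000000000000000 0x200000006000000070000001ff000000fe000001e0000000700000007000000050 10 9) 0 0 (step_sound _ 132 [(rh3f8766e6ecb455ce.shift 0 4), (rh7bb513c93d5b0156.shift 2 0)] (by decide +kernel))
noncomputable def rh9fbfbc523a7c0c0c : CRef := CRef.mk (Pat.mk 0x400000004000000040000000000000002800000028000000000000000000000000 0x40000001c0000007c0000005c000000fc0000003f00000078000000280000001c0000001c00000014 10 8) 0 0 (step_sound _ 197 [(rh04253f50b6dd0619.shift 5 3), rh44c63c2eb5a054fc] (by decide +kernel))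
noncomputable def rh8fa0347c122abf67 : CRef := CRef.mk (Pat.mk 0x1400000034000000000000000000000000 0xe0000000f000001dc000000fc000001ee0000007c0000003c 10 9) 0 0 (step_sound _ 99 [(rh0786c19de25163c7.shift 2 2), rh328d4df1df5078c0, (rh44afbb496b7a3d6b.shift 1 0)] (by decide +kernel))
noncomputable def rh140c0466d3f018e1 : CRef := CRef.mk (Pat.mk 0x2000000020000000200000000000000000000000000000000000000000 0x1f0000003e000000ff000001fc000001fe000001fc00000060000000700000007000000050 10 9) 0 0 (step_sound _ 261 [(rh237c50422a2adf79.shift 2 0), (rh7fc3d1d1ffefa3d7.shift 1 4), (rh8ff3dde5b1c639e0.shift 4 3), (rhc27a84b2ed01b28b.shift 0 4), (rhfd1d08e3f854bb69.shift 2 0)] (by decide +kernel))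
noncomputable def rhccb07e9a539b4f77 : CRef := CRef.mk (Pat.mk 0x80000000e000000000000000000000000 0x7f0000007e0000003f0000003c00000038 10 7) 0 0 (step_sound _ 100 [(rh27ce058b59d72f64.shift 0 2), (rh5f7b3bfbaf903d4f.shift 0 2), rh988a6bd211aaaf48, (rhe6bdd62e1711df0b.shift 1 3)] (by decide +kernel))
noncomputable def rh31ad430d8abc66d4 : CRef := CRef.mk (Pat.mk 0x100000001000000000000000080000000c000000000000000000000000 0x160000003f000000670000007f000000ff0000000f0000000e00000004 10 8) 0 0 (step_sound _ 132 [(rh574fdbf07bdd18b9.shift 0 3), rh8a3dc242352cac90, (rh9248572e50f3aa2a.shift 1 1)] (by decide +kernel))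
noncomputable def rh1becd9c1c8922bc5 : CRef := CRef.mk (Pat.mk 0x180000000e000000000000000000000000 0x200000002000000030000001f000000fe000000fe0000007c0000003c 10 8) 0 0 (step_sound _ 100 [(rh16e36070ae0d26ac.shift 1 2), (rh331d4a807f97bfca.shift 0 2), rh87909bb165676bb8, (rhfc6b0a375435a4d9.shift 1 2)] (by decide +kernel))
noncomputable def rh12cfc5c1d1f7a2bb : CRef := CRef.mk (Pat.mk 0x180000001e000000000000000400000000 0x2000000020000001f0000001e000001fc000000fc000001f8 10 9) 0 0 (step_sound _ 68 [rha0970dc99b83f4fa, (rhe25b0a99195a5d59.shift 1 2)] (by decide +kernel))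
noncomputable def rh694203be496cb63a : CRef := CRef.mk (Pat.mk 0x100000001000000000000000080000000c0000000000000000 0x140000003f000000670000007f000000ff000000ef0000000e 10 8) 0 0 (step_sound _ 100 [(rh574fdbf07bdd18b9.shift 0 2), (rh9248572e50f3aa2a.shift 1 0), rhd9138a0cdae5a672] (by decide +kernel))
noncomputable def rhbd870ab0e79b163c : CRef := CRef.mk (Pat.mk 0x100000001000000000000000080000000c000000000000000000000000 0x1000000034000000660000007c000000ff000000ff0000003c00000038 10 8) 0 0 (step_sound _ 132 [(rh574fdbf07bdd18b9.shift 0 3), (rh9248572e50f3aa2a.shift 1 1), rhf20974aa8b8ce891] (by decide +kernel))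
noncomputable def rh87088ccb81eb7b7e : CRef := CRef.mk (Pat.mk 0x1800000018000000000000000000000000 0xc0000000c0000000e0000007f0000003f000000770000000600000006 10 7) 0 0 (step_sound _ 98 [rh0f409e89105df01d, (rh2b0b4f8fe0be8394.shift 0 2), (rh51fb37c6ec9ae4f5.shift 0 2), (rhab2ad169e49f9c5e.shift 0 3), (rhd7c0a18f92b59752.shift 0 2)] (by decide +kernel))
noncomputable def rh4a9025a5563b3dae : CRef := CRef.mk (Pat.mk 0x1800000018000000000000000000000000 0xe0000000e0000000f0000007f0000003f0000000f0000000e00000006 10 7) 0 0 (step_sound _ 98 [rh0aec30edcdcfd7b2, rh0f409e89105df01d, (rh16dc24e044feaae7.shift 0 1), (rh51fb37c6ec9ae4f5.shift 0 2), (rhab2ad169e49f9c5e.shift 0 3)] (by decide +kernel))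
noncomputable def rh4f5e52f643002750 : CRef := CRef.mk (Pat.mk 0xc0000000e000000000000000000000000 0x400000004000000040000003f0000001e0000003f0000003a00000032 10 6) 0 0 (step_sound _ 132 [(rh18965a982d73c794.shift 1 3), rhdfa05c679ffb66ad] (by decide +kernel))
noncomputable def rh8b2327e41f3923fd : CRef := CRef.mk (Pat.mk 0x1000000018000000080000000800000000 0xc0000000c0000000f0000001f0000007f0000000f0000001f00000014 10 7) 0 0 (step_sound _ 131 [(rh0ef6c71ce89c1c36.shift 2 0), rh7e0bae1aac8b3b56, rh9dfe7bbd9d986933, (rhc647a25a08ddf0ec.shift 0 1)] (by decide +kernel))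
noncomputable def rhbc4ae26390a0998b : CRef := CRef.mk (Pat.mk 0x1000000018000000080000000800000000 0xc0000000c0000000f0000001f0000001b0000007f0000001f00000014 10 7) 0 0 (step_sound _ 131 [(rh0ef6c71ce89c1c36.shift 2 0), rh7e0bae1aac8b3b56, (rh85480f11efc1e555.shift 1 0), (rhbad6ff9bdc3f8001.shift 2 0)] (by decide +kernel))
noncomputable def rh7d3e89f35ceb20df : CRef := CRef.mk (Pat.mk 0x80000000e000000000000000000000000 0x20000007b0000003e0000007f0000003c0000003c 10 7) 0 0 (step_sound _ 100 [rh2395824d1086e2bc, (rh27ce058b59d72f64.shift 0 2), rh988a6bd211aaaf48, (rha93a5dd541ab8209.shift 1 2)] (by decide +kernel))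
noncomputable def rhb78e73a747c68254 : CRef := CRef.mk (Pat.mk 0x1800000018000000000000000000000000 0x80000000800000008000000780000001f000000ff000000fc0000001c 10 8) 0 0 (step_sound _ 163 [(rh045eb03ae04c46fa.shift 1 2), (rh55a1f6c57a317ce6.shift 3 1), rh89a5a1cb11e00685] (by decide +kernel))
noncomputable def rha72e1e7398e25b5b : CRef := CRef.mk (Pat.mk 0x4000000040000000000000003000000030000000000000000000000000 0x5c000000dc0000019f000001fe000001bf0000002e0000002e0000000e 10 9) 0 0 (step_sound _ 131 [(rh01ef127f423122a8.shift 1 2), (rh10661bc2ae381af4.shift 1 1), (rh998d2346b51187bd.shift 1 1), (rhabd0c20440242261.shift 1 1), (rhb88301188eae2339.shift 1 3), rhceb8d80fa24a5902, (rhe4ed590f96ede081.shift 2 0)] (by decide +kernel))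
noncomputable def rhf43a50e644e3c3d1 : CRef := CRef.mk (Pat.mk 0x20000000000000001800000018000000000000000000000000 0xc0000003c0000000f000000180000001f000000ff000000fc0000001c 10 8) 0 0 (step_sound _ 163 [(rh4bf8c03067d58b2e.shift 0 2), (rh55a1f6c57a317ce6.shift 3 1), rh89a5a1cb11e00685] (by decide +kernel))
noncomputable def rhf00299ead61314ab : CRef := CRef.mk (Pat.mk 0x80000001e000000000000000000000000 0x6000000060000000f0000001e0000003f0000003f00000015 10 6) 0 0 (step_sound _ 129 [(rh3244c3cc8379b070.shift 0 3), rhaa02287072daf225] (by decide +kernel))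
noncomputable def rhfbc0e105e4c2c256 : CRef := CRef.mk (Pat.mk 0x300000003000000000000000000000000000000000 0xc0000001c0000001f0000007e000000ff000000ee0000007e0000007a00000050 10 8) 0 0 (step_sound _ 163 [(rh10661bc2ae381af4.shift 1 2), (rh998d2346b51187bd.shift 1 2), (rhabd0c20440242261.shift 1 2), (rhad5d8fc3675c15dd.shift 1 4), (rhc8c6d5399d7153a1.shift 1 0), (rhceb8d80fa24a5902.shift 0 1)] (by decide +kernel))
noncomputable def rh6b2b97fe8a73c489 : CRef := CRef.mk (Pat.mk 0x200000002000000000000000180000001800000000000000000000000000000000 0x200000006800000048000000de000000ff000000f70000003c0000003800000028 10 8) 0 0 (step_sound _ 133 [rh1c2acfb865312319, (rh79b3c29022acbdf3.shift 2 4), (rhc203e8da3b660c3b.shift 2 2)] (by decide +kernel))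
noncomputable def rh49f80d1371159878 : CRef := CRef.mk (Pat.mk 0x180000000e000000000000000000000000 0x20000001f0000003e000000770000003e0000003e 10 7) 0 0 (step_sound _ 100 [(rh06db8ceda6269a47.shift 0 2), rh2395824d1086e2bc, rh9e45980b50f55773, (rhe401600d466b97cd.shift 0 2)] (by decide +kernel))
noncomputable def rhbfa8fcf30f42d3a3 : CRef := CRef.mk (Pat.mk 0xa00000002000000010000000100000003000000000000000000000000000000000 0x80000000a0000001e0000001d800000ff7000007fe00000ff7000001f8000000f0000000d0 10 12) 0 0 (step_sound _ 134 [(rh3d8a0f2d8dd95176.shift 3 0), (rh401ff9f125c1d82e.shift 3 1), (rh7ee559e0b2173ec0.shift 4 2), (rh953f358a8dc2fe17.shift 2 0), (rh95a64dd07910d906.shift 2 0), (rhb3f7266c124d38dc.shift 3 2), (rhc88e6b4a72a51381.shift 3 1), (rhf5d4c91151b1c3f4.shift 0 1)] (by decide +kernel))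
noncomputable def rhdd140394a17b6d65 : CRef := CRef.mk (Pat.mk 0x4000000040000000200000002000000060000000200000000000000000 0x40000000c0000000a0000003ae000003fe000003ff000000e000000040 10 10) 0 0 (step_sound _ 100 [(rh7fe11f484215afaf.shift 2 1), (rh819b3a811858306f.shift 3 0), (rhb4a1cc4adbbc454a.shift 1 1), (rhede050bb77e2c0cf.shift 0 2), (rhf0fff9b8fff7f776.shift 2 1)] (by decide +kernel))
noncomputable def rhad8feb5b4aa1a2d0 : CRef := CRef.mk (Pat.mk 0xa000000020000000100000001000000030000000000000000000000000 0xa0000001e8000001d8000007f7000007fe000007ff0000008800000008 10 11) 0 0 (step_sound _ 102 [(rh2357112e71ab632a.shift 0 2), (rh5561f2a7a215ea21.shift 1 1), (rh7ee559e0b2173ec0.shift 4 1), (rhb3f7266c124d38dc.shift 3 1), (rhd217a97288258a7f.shift 0 2), rheb90cf94d00b4889] (by decide +kernel))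
noncomputable def rha10b5b71ccb17a00 : CRef := CRef.mk (Pat.mk 0x1400000004000000020000000200000006000000000000000000000000000000000 0x140000003c0000003b000000fef000007fe00000fdf000001c0000001c000000100 10 12) 0 0 (step_sound _ 135 [rh0159929b232d130b, (rh1c641f6c2021c0b0.shift 0 3), (rh5b3c10f60ef4222d.shift 5 2), (rhe5ae2c0738c96dc9.shift 4 1), (rhea0bc6f2085a1a95.shift 4 1)] (by decide +kernel))
noncomputable def rhc71533204a192d0a : CRef := CRef.mk (Pat.mk 0x40000000400000002000000020000000f00000000000000000000000000000000000000000 0x40000000c0000000a0000001ee000000fe000001b7000007f0000003f0000007f800000010 10 11) 0 0 (step_sound _ 133 [(rh248a87c7370a10b9.shift 4 1), (rh263bc49f903e26f6.shift 3 1), (rhc24907c5878e16ec.shift 0 4), (rhf6681f92a805e2ac.shift 4 0)] (by decide +kernel))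
noncomputable def rh4944a74c9f282861 : CRef := CRef.mk (Pat.mk 0x80000000800000000000000040000001e0000000000000000000000000000000000000000 0x800000018000000100000003c0000001e000000370000003e0000003f0000003800000028 10 6) 0 0 (step_sound _ 196 [rh2e9abe7fa935a1bb, (rh33e738c4ed385b9f.shift 1 5)] (by decide +kernel))
noncomputable def rh5eb8a8fb77553cbf : CRef := CRef.mk (Pat.mk 0x100000001000000010000000000000000000000000 0x80000001800000018000003be000001fe000001ff00000028 10 10) 0 0 (step_sound _ 68 [(rh7a6c71c530e4a88e.shift 0 1), (rh8cdd36b03d57a2f6.shift 3 0), (rh8ff3dde5b1c639e0.shift 3 0), (rhc4526fc8abf298b6.shift 3 0)] (by decide +kernel))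
noncomputable def rhb360c557f5114831 : CRef := CRef.mk (Pat.mk 0x2000000020000000200000002000000000 0x140000003c0000007c0000006f0000007e0000005f 10 7) 0 0 (step_sound _ 36 [(rh932754581e0f4330.shift 4 0), rhee59bd96dd11cfcd] (by decide +kernel))
noncomputable def rhe739ab1fff2cbc1b : CRef := CRef.mk (Pat.mk 0x1000000050000000100000003800000000 0x280000007c0000005e000000de000000fe000001c7 10 9) 0 0 (step_sound _ 38 [(rh7618364b9b53dd13.shift 3 0), rh9bc2515d24b635f0, (rhe3060b190bc0bc78.shift 2 1)] (by decide +kernel))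
noncomputable def rhb08e1737974fa2a5 : CRef := CRef.mk (Pat.mk 0x3000000020000000200000002000000000 0x40000000f00000003c0000007f000001fe0000005f 10 9) 0 0 (step_sound _ 100 [(rhc0ddb33d3a52722b.shift 2 1), rhd1b9926c5f810489] (by decide +kernel))
noncomputable def rhfb226c3bf8f57fe1 : CRef := CRef.mk (Pat.mk 0x2000000020000000200000002000000000 0x500000007000000020000001ff000001fe0000005f 10 9) 0 0 (step_sound _ 36 [(rh932754581e0f4330.shift 4 0), rhd1624e5433ecef3e] (by decide +kernel))
noncomputable def rhd978966a311075c3 : CRef := CRef.mk (Pat.mk 0x2000000020000000200000002000000000 0x500000007000000038000000ff0000007e0000005f 10 8) 0 0 (step_sound _ 36 [rh6909d7623c0d2018, (rh932754581e0f4330.shift 4 0)] (by decide +kernel))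
noncomputable def rh88e20a16de8ce751 : CRef := CRef.mk (Pat.mk 0x800000028000000080000000800000000 0x140000003c00000028000001ff000000fe000000f4 10 9) 0 0 (step_sound _ 36 [(rh55afc6a59410cf00.shift 3 0), rhe6ccd2195ae00770] (by decide +kernel))
noncomputable def rhb084f8aa6234ae80 : CRef := CRef.mk (Pat.mk 0x70000000a0000000200000002000000000 0x180000001f0000000bc000001ef000001fe0000005f 10 9) 0 0 (step_sound _ 100 [(rh391dd96e0c89e197.shift 4 0), (rh4dc133ee0ba1420a.shift 2 3), rh797ddfc9bfb5bfe9] (by decide +kernel))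
noncomputable def rh435ff51a4fd9b951 : CRef := CRef.mk (Pat.mk 0x7800000050000000100000001000000000 0xc70000007e0000005e000000f8000000f0000000a0 10 8) 0 0 (step_sound _ 98 [rh01935294a40d6bbb, (rh80fcd6d0a18cb2dd.shift 2 3)] (by decide +kernel))
noncomputable def rhe513529015528aed : CRef := CRef.mk (Pat.mk 0x7000000028000000200000002000000000 0xe0000007c0000002c0000006f0000003e00000017 10 7) 0 0 (step_sound _ 131 [rh7e75732b1afaabbc, (rheb0810cc63b001d8.shift 2 3)] (by decide +kernel))
noncomputable def rhf24cbab59fe290d5 : CRef := CRef.mk (Pat.mk 0x800000028000000280000000800000000000000000000000000000000 0x5000000070000000f0000000780000002f0000003c000000780000007c0000005c0000001c00000014 10 8) 0 0 (step_sound _ 229 [(rh46d322ae0e89db60.shift 4 2), rh675616cafd086768, (rh834c98cbe36c4eeb.shift 2 3), (rhcdb9098f1bb090ca.shift 2 4), (rhe6fa192f79d3524d.shift 3 3)] (by decide +kernel))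
noncomputable def rh7bb9993c0433f71f : CRef := CRef.mk (Pat.mk 0x20000000a0000000a00000002000000040000000000000000 0xc0000001e0000000b0000001b0000001a0000001f0000001700000001 10 5) 0 0 (step_sound _ 65 [(rh55afc6a59410cf00.shift 1 1), rh6bc51fbcba561fae] (by decide +kernel))
noncomputable def rh19654e3e337774cd : CRef := CRef.mk (Pat.mk 0x20000000a0000000a00000002000000000000000000000000 0x140000001c0000003c0000001e0000000b0000001f0000007a0000001f0000003f00000005 10 7) 0 0 (step_sound _ 65 [rh6eff4158bb400f47, rh96b62f254f787428, (rhd8e5dbfaebe72109.shift 0 1), rhd9ebbd4aeed2cd48] (by decide +kernel))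
noncomputable def rhdda48431c616e73a : CRef := CRef.mk (Pat.mk 0x800000028000000080000000800000000000000000000000000000000 0x5000000070000000f0000000780000002f0000007e000001fe000000f80000005c0000001c00000014 10 9) 0 0 (step_sound _ 229 [(rh10f0beb4f9d69f7f.shift 0 2), (rh211c85f21f455842.shift 1 2), (rh373b9bc2ea39d754.shift 2 4), (rh5244c94539524daf.shift 0 2), rhafe49adea3493130, (rhd32b7619d85987a2.shift 0 2), (rhfa89501cc4cd9210.shift 0 2)] (by decide +kernel))
noncomputable def rh9f1701def216b9b1 : CRef := CRef.mk (Pat.mk 0x20000000a0000000a0000000200000000000000000 0x140000001c0000001e0000000b0000001bf000001fe0000019e00000100 10 9) 0 0 (step_sound _ 68 [rh5480efb329e91652, (rh932754581e0f4330.shift 4 1)] (by decide +kernel))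
noncomputable def rh2d4daba923805a72 : CRef := CRef.mk (Pat.mk 0x38000000b000000020000000300000000000000000 0x1c0000001fe000000b4000001ff000001fe0000010f00000008 10 9) 0 0 (step_sound _ 67 [(rh42e0a1220cc4d2a1.shift 1 1), (rh48541fb16625d794.shift 1 1), (rha11dfd15f08f96e3.shift 2 2), (rha4e887c2a2a0f60b.shift 0 1), rha6b6c4cb4f6fd869] (by decide +kernel))
noncomputable def rh0c18d6252874a767 : CRef := CRef.mk (Pat.mk 0x80000000800000048000000000000000000000000 0x40000000c0000000f0000007f0000001f0000001f00000014 10 7) 0 0 (step_sound _ 67 [(rh46baee19951a66e7.shift 2 0), (rh6eff4158bb400f47.shift 2 0), (rh85ed6eefeec1730a.shift 0 1), (rhb64455a7ad0558fc.shift 0 1)] (by decide +kernel))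
noncomputable def rh9b8e2115fd2ecb2d : CRef := CRef.mk (Pat.mk 0x60000001700000004000000000000000000000000 0x20000000380000003e0000003a0000003e000000170000003e000000f80000002000000020 10 8) 0 0 (step_sound _ 225 [(rh6f1cbe15c631ee70.shift 1 3), rhc709c405831dbd7b] (by decide +kernel))
noncomputable def rh40acab898769b3ec : CRef := CRef.mk (Pat.mk 0x800000018000000180000001000000000 0x60000000f0000001f0000001f000000ff000000ef 10 8) 0 0 (step_sound _ 35 [rh2938af74a723da04, rh40c1aa678ef6a813, rh6c00093836682326, rh81ff32de2979b8ba, rha9b0dbb92523ed99, rhbf01dc6925d5c323] (by decide +kernel))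
noncomputable def rh51ea7fbbdcb50eb1 : CRef := CRef.mk (Pat.mk 0x20000000a400000020000000300000000000000000 0x40000000e4000000ac000007ff000003fe0000038f00000008 10 11) 0 0 (step_sound _ 166 [(rh2f68792b6b779e96.shift 5 2), rh5ec328dca2c5c511] (by decide +kernel))
noncomputable def rh029e38fb8d4e2910 : CRef := CRef.mk (Pat.mk 0x20000000a4000000200000002000000000 0xa0000000e000000ae000000ac000007ff000003fe0000039f 10 11) 0 0 (step_sound _ 36 [rh25f5b5da397ccc7f, (rh932754581e0f4330.shift 4 0)] (by decide +kernel))
noncomputable def rh053de999a58cafe4 : CRef := CRef.mk (Pat.mk 0x30000000240000002000000000000000000000000000000000 0x800000008000001df000000fe000000260000007e0000007e0000003f0000001e0000000a 10 9) 0 0 (step_sound _ 195 [(rh26916b974eccce86.shift 0 2), rh3ac43251ad785673, (rh73f5f7cdf41b5bc9.shift 1 4), (rhb344d3f08d400fa7.shift 2 3)] (by decide +kernel))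
noncomputable def rh59fbdd892b1db516 : CRef := CRef.mk (Pat.mk 0x7000000020000000200000000000000000 0xf000001fe0000003f000000f80000003e00000038 10 9) 0 0 (step_sound _ 131 [(rh592c7139d2c44767.shift 1 3), (rh74f48645dd37c94b.shift 1 3), (rha149fcb7fc0c2899.shift 0 3), (rhb14e1a3db5dc0ff8.shift 1 0), (rheaad777ed634577b.shift 0 3)] (by decide +kernel))
noncomputable def rh6368e9c8c8c513cf : CRef := CRef.mk (Pat.mk 0x1800000058000000180000000000000000 0x80000000e0000000f8000000e8000000f80000005f000000f8000000c000000080 10 8) 0 0 (step_sound _ 195 [(rh6f1cbe15c631ee70.shift 3 2), rhf9394435dd534326] (by decide +kernel))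
noncomputable def rhdaf6355d9c020623 : CRef := CRef.mk (Pat.mk 0x7800000020000000200000002000000000 0x70000007e0000002e000000740000003e00000017 10 7) 0 0 (step_sound _ 98 [(rh80fcd6d0a18cb2dd.shift 2 3), rhc3fc78185a3c98da] (by decide +kernel))
noncomputable def rh02db2fe440aec828 : CRef := CRef.mk (Pat.mk 0x3000000008000000080000002800000008 0x28000000f8000000fc000000fc000000300000003c0000002f0000007c0000002800000008 10 8) 0 0 (step_sound _ 164 [(rh1006c02ae4212ff0.shift 3 1), rhd0f786275177478b] (by decide +kernel))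
noncomputable def rh06deabaf25687eea : CRef := CRef.mk (Pat.mk 0xc000000020000000a0000000a000000020000000000000000 0x280000003800000038000000f80000003e000000fa0000003e0000000a0000000f0000000d00000004 10 8) 0 0 (step_sound _ 34 [rh222b2fde14f365f0, (rhd3458b32566d63f7.shift 1 1)] (by decide +kernel))
noncomputable def rh9815507981c17cb2 : CRef := CRef.mk (Pat.mk 0xc00000003000000020000000a0000000200000000000000000 0x280000003800000038000000f00000007e000000fbe000003f7000000a0000001f00000019000000100 10 12) 0 0 (step_sound _ 163 [(rh45169a36ad8e4ea6.shift 3 0), (rha0ae8adeb1dbcf8d.shift 0 4), (rhb26c4cb6e324606a.shift 2 5), (rhe3dc93746cbe6e7c.shift 2 4)] (by decide +kernel))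
noncomputable def rhe779a928e8cbb429 : CRef := CRef.mk (Pat.mk 0xe0000002800000020000000000000001800000000000000000000000000000000 0x50000000780000006e0000003c00000020000003e7000001fe000003ff000000e0000000e0000000a0 10 10) 0 0 (step_sound _ 226 [(rh2fe78cc5ca4405d8.shift 1 7), rh87bf9865c9659a06] (by decide +kernel))
noncomputable def rh890aea2987e189cc : CRef := CRef.mk (Pat.mk 0x20000000200000001000000010000000000000000000000000000000000000000000000000 0x20000000300000001800000038000000ff000000fe0000003f000000380000003000000020 10 8) 0 0 (step_sound _ 164 [(rh1006c02ae4212ff0.shift 4 5), rhd0384d75c2950ef5] (by decide +kernel))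
noncomputable def rh31486d13027978a4 : CRef := CRef.mk (Pat.mk 0x400000004000000020000000a00000000 0xa0000003e0000003f0000003f0000000c0000000c0000000e0000000a00000008 10 6) 0 0 (step_sound _ 162 [rh2bd6ef0e1cc4560c, (rheea67dfebd0f8008.shift 1 1)] (by decide +kernel))
noncomputable def rha2b484eafc1812db : CRef := CRef.mk (Pat.mk 0x700000001800000040000000000000003000000000000000000000000000000000 0x70000007f000000f800000040000007ce000003fc000007fe000001c0000001c000000140 10 11) 0 0 (step_sound _ 230 [(rh62074cd7b56e426f.shift 1 3), (rhaf590f08e0a88692.shift 1 0), (rhe81e1775382c4916.shift 0 7)] (by decide +kernel))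
noncomputable def rh4ee31766857c27c0 : CRef := CRef.mk (Pat.mk 0x200000001c00000040000000000000003000000000000000000000000000000000 0x2e0000007c00000046000007ce000003fe000007ff000001e0000001e000000140 10 11) 0 0 (step_sound _ 134 [(rh2a0978bba1598d2f.shift 3 0), (rh392d7678b3ef63ac.shift 1 3), (rh6668c88653940ad5.shift 2 3), (rha2ce6ccb6b9ffcb3.shift 1 3), (rhcead9ce7584d6492.shift 0 1), (rhdc6ecbaaaf37a6e5.shift 1 3)] (by decide +kernel))
noncomputable def rh2a52a0486417ca83 : CRef := CRef.mk (Pat.mk 0x7000000000000000000000000000000000 0xc0000000c0000001f0000007e000000ff0000001e0000001e00000008 10 8) 0 0 (step_sound _ 131 [(rh0d378fd9e8917c5a.shift 1 3), (rh185f35b8bd8ec37f.shift 1 3), (rh775ca1963e850b80.shift 1 3), (rh82ee01296f101fea.shift 0 1), (rh8680f6240be827cc.shift 2 0)] (by decide +kernel))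
noncomputable def rhbf576d57f5753645 : CRef := CRef.mk (Pat.mk 0x28000000080000002800000000000000000000000000000000 0x100000001000000038000000380000003800000028000001ff000000fe000001ff00000004 10 9) 0 0 (step_sound _ 165 [(rh5377db1926b2bfc6.shift 2 1), rhace6a1d2d86aeb2a, (rhf22ba9234414e769.shift 3 1), (rhf98a6b10db879a91.shift 3 3)] (by decide +kernel))
noncomputable def rhef60534b6719e8e0 : CRef := CRef.mk (Pat.mk 0x400000006000000000000000800000008 0x7000000070000000ff0000007e000000f80000003800000008 10 8) 0 0 (step_sound _ 99 [(rh2613c889e411427e.shift 2 0), rhfbd5ce00a7de0ac6] (by decide +kernel))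
noncomputable def rh1b6e3cb69134ac96 : CRef := CRef.mk (Pat.mk 0x20000000a0000000200000002 0x10000000700000007000000760000003e0000007700000002 10 7) 0 0 (step_sound _ 130 [(rh79817c4c1b8c61ac.shift 0 1), (rhbaefcd01e0a8bca3.shift 1 0)] (by decide +kernel))
noncomputable def rhfa862b70e4f5584e : CRef := CRef.mk (Pat.mk 0x10000000100000001000000010 0x2800000038000000380000003800000030000007ff000003fe000007be00000010 10 11) 0 0 (step_sound _ 132 [(rh44f453b84f013105.shift 4 0), (rhbc5a793176a74725.shift 1 1), rhd2dd9d964e6bc071, (rhe01cfd8f0577defd.shift 3 1)] (by decide +kernel))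
noncomputable def rhabc4fdd3ca196050 : CRef := CRef.mk (Pat.mk 0x8000000080000000800000008 0x140000001c0000001c0000001c0000000c000003ff000001fe000003df00000008 10 10) 0 0 (step_sound _ 131 [(rh3ca48e2a6d60153d.shift 2 0), (rh66ee4e4e1313f0fc.shift 2 1), rh7247bc4627a16b0c, (rhbc5a793176a74725.shift 0 1)] (by decide +kernel))
noncomputable def rh9674654af54d3f25 : CRef := CRef.mk (Pat.mk 0x6000000020000000a000000000 0x29000000390000003980000071e000003fe000007ff000000ac0000000c 10 11) 0 0 (step_sound _ 103 [rh0606b79ffeaa2a7a, (rh352b7f91eba0c81f.shift 4 2), (rhcee2dd124ac7cfe4.shift 5 1), (rhdc1641106d7e5aa2.shift 4 2)] (by decide +kernel))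
noncomputable def rh0a6877207bd274b3 : CRef := CRef.mk (Pat.mk 0x20000001800000028000000000000000000000000 0x100000007c0000007c000000ff000007ff000003fc000003ac000000700000007000000050 10 11) 0 0 (step_sound _ 133 [(rh406d1928033c93f2.shift 0 1), (rh4303adad090fabf2.shift 2 3), (rhd3b361bb28827283.shift 1 0), (rhd8b43b15431aaa50.shift 2 1), (rhfc9e92fd8130681b.shift 2 1)] (by decide +kernel))
noncomputable def rhf74701180b06049e : CRef := CRef.mk (Pat.mk 0x2000000004000000300000001800000000 0xc0000000c0000007e0000007e00000037000000360000001e0000000c 10 7) 0 0 (step_sound _ 165 [rh37c261e87219cb09, (rh3c88ce959c0e423f.shift 4 1)] (by decide +kernel))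
noncomputable def rh8e43837e62180d94 : CRef := CRef.mk (Pat.mk 0x1000000002000000380000002c00000000000000000000000000000000 0x40000000c000000ef0000007f000001fb0000003a0000002f00000076000000740000007400000050 10 9) 0 0 (step_sound _ 227 [(rh5c7452165e7e38a4.shift 0 1), (rh6c3cfac4f06dc090.shift 0 1), (rh930bea2852767afe.shift 2 2), rha25cd7f721d3472b] (by decide +kernel))
noncomputable def rh51253b080de2abf7 : CRef := CRef.mk (Pat.mk 0x1000000002000000380000002c000000000000000000000000 0x40000001ff000000fe000001eb0000003a0000002f000000760000007400000054 10 9) 0 0 (step_sound _ 97 [(rh53b3c253cb0c65f4.shift 0 3), rhfaaf7932c2d2926b] (by decide +kernel))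
noncomputable def rh1132d8b56af68491 : CRef := CRef.mk (Pat.mk 0x40000000e00000000 0x20000000380000003800000038000000ff0000007e00000070 10 8) 0 0 (step_sound _ 36 [rh518aed9096110a04, (rhe3060b190bc0bc78.shift 0 1), (rhf5fa5e48e0784de2.shift 1 0)] (by decide +kernel))
noncomputable def rh049186d5bdf38804 : CRef := CRef.mk (Pat.mk 0x2000000060000000b000000000000000000000000 0x1d0000001f0000007e0000001e0000000b0000001d0000001c00000014 10 7) 0 0 (step_sound _ 193 [(rh932754581e0f4330.shift 0 2), rhb588ae74c103bc89] (by decide +kernel))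
noncomputable def rhf47c28ae16d4bb6d : CRef := CRef.mk (Pat.mk 0x2000000180000002c000000000000000000000000 0x50000001700000057000000fe0000007a0000002f000000270000002700000005 10 8) 0 0 (step_sound _ 133 [(rh18965a982d73c794.shift 2 3), rh51264a00f818ae83] (by decide +kernel))
noncomputable def rh4aa15bc5094b97b2 : CRef := CRef.mk (Pat.mk 0x20000003a0000002a00000000000000000000000000000000 0x1000000170000001f000000370000003b0000002a00000023000000270000000700000005 10 6) 0 0 (step_sound _ 97 [rh47992774edf9829f, (rh628f1b4d3c6ff60f.shift 0 2), (rhc85cc95794737cf7.shift 0 3), (rhf5fc36e157c9939c.shift 0 1)] (by decide +kernel))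
noncomputable def rhef22d120caea1b0b : CRef := CRef.mk (Pat.mk 0x10000000c000000040000000000000000000000000 0xa0000000f0000000f0000000ff000000fe000000f800000078000000380000003800000028 10 8) 0 0 (step_sound _ 163 [(rh0b268ac557ac499f.shift 1 2), (rh1a0e0b75332b9954.shift 3 0), (rh2209827622e7bd67.shift 2 4), (rh79c9bc473f84654d.shift 0 4)] (by decide +kernel))
noncomputable def rh2f7f02bba0fe21ac : CRef := CRef.mk (Pat.mk 0x4000000300000005000000000000000000000000000000000 0x20000000e0000000e0000000e600000ff6000007ff0000075e000000ef000000ee000000ea000000a0 10 12) 0 0 (step_sound _ 166 [(rh2820ca9a6c4f41b4.shift 1 4), (rh485547c197806ade.shift 3 4), (rh6212475b91b9fe06.shift 1 0), (rh75206a2c95306be4.shift 0 1), (rhd8b43b15431aaa50.shift 3 2)] (by decide +kernel))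
noncomputable def rh36db37fbf7379d44 : CRef := CRef.mk (Pat.mk 0x20000001800000028000000000000000000000000 0x10000000700000007000000070000007fe000003fc000003af000000700000007000000050 10 11) 0 0 (step_sound _ 133 [(rh2820ca9a6c4f41b4.shift 0 3), (rh4303adad090fabf2.shift 2 3), (rhd3b361bb28827283.shift 1 0), (rhfc9e92fd8130681b.shift 2 1)] (by decide +kernel))
noncomputable def rhd46662f6f988ea2b : CRef := CRef.mk (Pat.mk 0x40000003c00000010000000000000000000000000 0x2c0000002c0000006c0000003f0000001e0000000f0000000e00000006 10 7) 0 0 (step_sound _ 98 [rhc4f76dfcf3380bb0, (rheb0810cc63b001d8.shift 1 3)] (by decide +kernel))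
noncomputable def rh36aadf6c87555f52 : CRef := CRef.mk (Pat.mk 0x30000000e0000000400000000000000000 0x1f0000000fe0000007f0000003e0000003f 10 9) 0 0 (step_sound _ 100 [rh0562623ff99267e1, (rh5c75ef1ea170a9c9.shift 2 2), (rha4b0ec85c2214d8e.shift 1 2)] (by decide +kernel))
noncomputable def rh3ef0a8662cfaa116 : CRef := CRef.mk (Pat.mk 0x180000001c000000180000001000000000000000000000000000000000 0x180000001c0000001f0000001f0000000f000000070000000700000005 10 5) 0 0 (step_sound _ 131 [rh15f8b4ce61bf907a, (rh932754581e0f4330.shift 3 3)] (by decide +kernel))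
noncomputable def rh64f7c40e88d7b4a2 : CRef := CRef.mk (Pat.mk 0x1000000018000000300000002000000000 0x20000000a0000000f0000007f0000007e000000360000003e0000001c 10 7) 0 0 (step_sound _ 98 [rh21e301dcb79e36c9, (rhb739f4f82bb681b4.shift 1 2)] (by decide +kernel))
noncomputable def rhba6078b1c1e7a3b0 : CRef := CRef.mk (Pat.mk 0x1c00000020000000000000000000000000 0x4000000070000000700000003000000070000001e00000037000000070000000700000001 10 6) 0 0 (step_sound _ 129 [(rh96851dee118c1ba3.shift 1 3), rhd2a93a49579a4f56] (by decide +kernel))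
noncomputable def rha6ede2d0b70335ef : CRef := CRef.mk (Pat.mk 0x1c000000000000000000000000000000000 0x40000000700000007000000030000001ff000001fe000000ff000000700000007000000010 10 9) 0 0 (step_sound _ 133 [(rh132224b2333f091b.shift 2 3), (rh592c7139d2c44767.shift 3 3), (rh73d929a11584eaf7.shift 1 3), (rh7c4251a5fccff183.shift 0 3), (rhd2a93a49579a4f56.shift 4 0)] (by decide +kernel))
noncomputable def rhb8741a49740fd3f2 : CRef := CRef.mk (Pat.mk 0x1e0000001800000010000000000000000000000000 0x370000001e0000001f0000001f0000000f0000000700000005 10 6) 0 0 (step_sound _ 196 [(rh33e738c4ed385b9f.shift 1 5), rh3431074a83f74769] (by decide +kernel))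
noncomputable def rh2f3ff2cf3143f9fd : CRef := CRef.mk (Pat.mk 0xc000000180000001000000000 0x40000000c000000ef000000ff0000001f0000001b0000000b 10 8) 0 0 (step_sound _ 97 [rh3204d64d1fcafec9, (rhb739f4f82bb681b4.shift 0 2)] (by decide +kernel))
noncomputable def rh1d6f3f513727ea4e : CRef := CRef.mk (Pat.mk 0x1c0000003000000020000000000000000000000000 0xc0000000c0000001c0000001c0000003f0000003f0000001e0000001c0000001c 10 6) 0 0 (step_sound _ 195 [(rh11e0cfc1c5a72355.shift 3 3), (rh5d54cb79a67f97ab.shift 3 2), rh6494d89a3e274471, (rh7bb630587de45a0e.shift 1 0), (rha40d42a2e34c408d.shift 3 2)] (by decide +kernel))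
noncomputable def rh2357a60e200ecf7c : CRef := CRef.mk (Pat.mk 0x3000000038000000600000002000000000 0x1c0000003c0000000f000003bc000003f80000007c0000003000000010 10 10) 0 0 (step_sound _ 36 [(rh932754581e0f4330.shift 4 0), (rhd17694c142f94d67.shift 0 1)] (by decide +kernel))
noncomputable def rhcd6795005cc1ab33 : CRef := CRef.mk (Pat.mk 0x80000000c000000180000001000000000000000000000000000000000 0x40000000c0000000c0000001f0000001f0000000f000000070000000700000005 10 5) 0 0 (step_sound _ 131 [rh15f8b4ce61bf907a, (rhe286c75f2739cce2.shift 2 3)] (by decide +kernel))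
noncomputable def rh27af6f54746783b2 : CRef := CRef.mk (Pat.mk 0x3800000020000000a000000000 0x400000004000003d7000001fe000001ff000000a8000000b000000010 10 10) 0 0 (step_sound _ 133 [(rh018f2ebb4d91ad9d.shift 2 1), rh1749062f81ee538e, (rh4017de503635a93b.shift 3 1), (rh62b8d838eedf7883.shift 0 1), (rh7f06f0d66ad32591.shift 1 1), (rhdab32775f5c78fcf.shift 2 1)] (by decide +kernel))
noncomputable def rhe1f24eb0dac8e358 : CRef := CRef.mk (Pat.mk 0xc00000010000000100000000000000000 0x20000002a000000ff000000ff0000007f000000170000000600000002 10 8) 0 0 (step_sound _ 99 [(rh4ca5dae25f5c14ff.shift 0 3), (rhb220b02469f067dd.shift 2 2), (rhd1df61ef3d0778c7.shift 1 1), (rhdeca8db941583de2.shift 0 3), rhfc47cdc6977d6801] (by decide +kernel))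
noncomputable def rh49557b51edcbd48a : CRef := CRef.mk (Pat.mk 0x180000000c000000180000001000000000000000000000000000000000 0x10000000180000000c0000001f0000001f00000007000000070000000700000005 10 5) 0 0 (step_sound _ 131 [rh15f8b4ce61bf907a, (rh2f68792b6b779e96.shift 3 4)] (by decide +kernel))
noncomputable def rhb5e6eed5d8ab6ad3 : CRef := CRef.mk (Pat.mk 0xc0000001800000010000000000000000000000000 0x180000001c0000000f0000001f0000001f0000000f0000000e0000000c 10 5) 0 0 (step_sound _ 195 [(rh2145e1d24b96a57e.shift 3 3), rhe14fe1d08149e4e0] (by decide +kernel))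
noncomputable def rh8ac3378f002a1e73 : CRef := CRef.mk (Pat.mk 0xc0000001800000010000000000000000000000000 0x180000001c0000000c0000007f0000001f0000000f0000000e0000000c 10 7) 0 0 (step_sound _ 195 [(rh2145e1d24b96a57e.shift 3 3), rh300241cc982be7ea] (by decide +kernel))
noncomputable def rhac3adebb4e8fb65f : CRef := CRef.mk (Pat.mk 0x2000000180000002800000000000000000000000000000000 0x10000000700000007000000070000003ff000001fe000003ac00000070000000700000007000000050 10 10) 0 0 (step_sound _ 165 [(rh128e27bbf904bd5d.shift 0 5), (rh4303adad090fabf2.shift 2 4), (rhd3b361bb28827283.shift 1 1), rhdd9b22441478f4a3, (rhff761a6166dce01f.shift 2 2)] (by decide +kernel))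
noncomputable def rh6bcc182d0153c7e8 : CRef := CRef.mk (Pat.mk 0x18000000c00000004000000000 0x2000000024000000770000007e000000df0000007800000018 10 8) 0 0 (step_sound _ 101 [rh231ed365e08dbb25, (rhd6e447e81774439e.shift 3 2)] (by decide +kernel))
noncomputable def rh3ea1c0887c27d2d2 : CRef := CRef.mk (Pat.mk 0x180000000000000008000000000000000000000000 0x140000001f0000001f0000001f0000001e0000000c0000000c0000000c00000004 10 5) 0 0 (step_sound _ 131 [(rh215e11e099257d75.shift 3 2), (rh274a837cd7eaa569.shift 2 0), (rh9eb9b1409e31188d.shift 0 2), (rhb4f4feeb79065e1f.shift 2 0)] (by decide +kernel))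
noncomputable def rhdd5593c79d0b5983 : CRef := CRef.mk (Pat.mk 0x10000000c000000060000000000000000000000000 0x2800000038000000780000007e000003df000000780000003c0000003800000028 10 10) 0 0 (step_sound _ 100 [(rh53b3c253cb0c65f4.shift 3 3), rh77d258c941bee152] (by decide +kernel))
noncomputable def rh6dc94e3a792c516b : CRef := CRef.mk (Pat.mk 0xc0000007000000054000000000000000000000000 0xa000000bf000000fe000000ef0000007600000054000000e4000000e0000000a0 10 8) 0 0 (step_sound _ 197 [(rh99b9e4825cc47b7a.shift 0 2), rhc4f08050044d1852, (rhd302a01a4e6865cd.shift 4 1)] (by decide +kernel))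
noncomputable def rhdef0c7a59fdb47fa : CRef := CRef.mk (Pat.mk 0x2000000180000000c00000000 0x180000001c000000ff000000ff000000780000000c00000004 10 8) 0 0 (step_sound _ 69 [(rh18965a982d73c794.shift 2 1), rhcb093b1b3e02fce0] (by decide +kernel))
noncomputable def rh83cf6c08e6cf7b2d : CRef := CRef.mk (Pat.mk 0x2000000180000000c000000000000000000000000 0x180000001c000000ff000000ff0000001a0000000f000000060000000400000004 10 8) 0 0 (step_sound _ 97 [(rh53b3c253cb0c65f4.shift 0 3), rh8c1787aee29394ff] (by decide +kernel))
noncomputable def rh47cc06ebf6897b88 : CRef := CRef.mk (Pat.mk 0x2000000004000000700000005c00000000000000000000000000000000 0xa0000000e0000000e0000003df000001fe000003f6000000740000005c000000ec000000e8000000e8000000a0 10 10) 0 0 (step_sound _ 228 [(rh24fd22363d47dca9.shift 1 0), (rh5e9da6b9b42b9d15.shift 2 1), (rh856116d2c601fcb3.shift 2 1), (rh9ba53f68feecebf2.shift 0 4)] (by decide +kernel))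
noncomputable def rh1bb5205a2a1c75df : CRef := CRef.mk (Pat.mk 0x1000000010000000020000000800000008 0x300000007000000070000000ff000000ff000000eb0000000800000008 10 8) 0 0 (step_sound _ 99 [(rh04253f50b6dd0619.shift 3 0), (rh7670d4ee4dec5251.shift 0 2)] (by decide +kernel))
noncomputable def rhed0f2ce52a826fa7 : CRef := CRef.mk (Pat.mk 0xc000000600000002000000000 0x140000001c0000001f0000001f0000007c0000000f0000007c0000003c00000014 10 7) 0 0 (step_sound _ 67 [(rh5419adcd928dba20.shift 2 2), rhb0ffc637f62d53fa] (by decide +kernel))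
noncomputable def rhe3a81ba3cd10722b : CRef := CRef.mk (Pat.mk 0x2000000180000002800000000000000000000000000000000 0x10000000700000007000000070000007f3000003fe000003af00000070000000700000007000000050 10 11) 0 0 (step_sound _ 165 [(rh2820ca9a6c4f41b4.shift 0 4), (rh485547c197806ade.shift 2 4), (rhd8b43b15431aaa50.shift 2 2), rhdd9b22441478f4a3] (by decide +kernel))
noncomputable def rhc58d01c744b6f753 : CRef := CRef.mk (Pat.mk 0x20000001800000028000000000000000000000000 0x100000007000000070000000700000007e000000fc0000002f000000700000007000000050 10 8) 0 0 (step_sound _ 133 [(rh2820ca9a6c4f41b4.shift 0 3), (rhd3b361bb28827283.shift 1 0), (rhff761a6166dce01f.shift 2 1)] (by decide +kernel))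
noncomputable def rh1c6e68816438a0df : CRef := CRef.mk (Pat.mk 0x2000000180000002c000000000000000000000000 0x50000001700000057000000fe0000007a0000002f000000270000002700000005 10 8) 0 0 (step_sound _ 133 [(rh18965a982d73c794.shift 2 3), rh1d96b917b4341293] (by decide +kernel))
noncomputable def rh86052a9ed49a191b : CRef := CRef.mk (Pat.mk 0x40000003000000018000000000000000000000000 0x160000003e000000f60000001e0000000f0000000e00000002 10 8) 0 0 (step_sound _ 134 [(rh18965a982d73c794.shift 3 3), rh79ad4f3dc2a99ec3] (by decide +kernel))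
noncomputable def rh89d1b7c2a78088c6 : CRef := CRef.mk (Pat.mk 0x100000001000000002000000180000000c00000000 0x2000000070000003f0000001f0000000b0000001b0000000f00000006 10 6) 0 0 (step_sound _ 131 [(rh04253f50b6dd0619.shift 3 1), rhd2517b146d3779dd] (by decide +kernel))
noncomputable def rh3839b40e6920040f : CRef := CRef.mk (Pat.mk 0x2000000004000000700000005c00000000000000000000000000000000 0x80000003df000001fe000003f6000000740000005c000000ec000000e8000000e8000000a0 10 10) 0 0 (step_sound _ 228 [(rh856116d2c601fcb3.shift 2 1), (rhc1eb0e8e3daa047e.shift 0 4), (rhc3bdc569379d51c9.shift 2 1), rhd617d66f35960c37] (by decide +kernel))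
noncomputable def rh31f02da67b193a36 : CRef := CRef.mk (Pat.mk 0x1000000002000000380000002c000000000000000000000000 0x40000001ff000000fe000001eb0000003a0000002f000000760000007400000054 10 9) 0 0 (step_sound _ 97 [(rh53b3c253cb0c65f4.shift 0 3), rhf8b8d492fddcdbab] (by decide +kernel))
noncomputable def rh4c4562338ca8444a : CRef := CRef.mk (Pat.mk 0x4000000300000001c000000000000000000000000 0x2a000001ff000000fe000001de000000f60000001c0000000f0000000e0000000a 10 9) 0 0 (step_sound _ 134 [(rh18965a982d73c794.shift 3 3), rhe4b4b528d4b93a6a] (by decide +kernel))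
noncomputable def rhfe316b63c4adce0e : CRef := CRef.mk (Pat.mk 0x180000006000000030000000000000000000000000 0x80000000e0000000e0000000f0000003c0000006e0000003e0000000e0000000e0000000a 10 7) 0 0 (step_sound _ 98 [(rh24ae073cf30720c4.shift 2 3), rhf2d56b14d195c2ad] (by decide +kernel))
noncomputable def rhafc7c63f645c0f46 : CRef := CRef.mk (Pat.mk 0xc0000000e0000000a 0x20000000ff0000007e000000fc0000003c0000000e0000000a 10 8) 0 0 (step_sound _ 130 [rhe394692a647ef9e0, (rhee230b994cc8b773.shift 1 0)] (by decide +kernel))
noncomputable def rh5bcb3e81f56ac84b : CRef := CRef.mk (Pat.mk 0xc000000000000000000000000000000000 0x7800000078000000780000007c000003ff000001fe000000ff0000007c0000007000000070 10 10) 0 0 (step_sound _ 133 [(rh13add8468e8c9a56.shift 2 3), (rh2dc7ff673aef82d8.shift 0 1), (rh4d130876d1f164a0.shift 1 3), (rh4f66e4e496c29cbc.shift 1 3), (rh551d8c3b828edd02.shift 0 2), (rh71645f7ad5c177cb.shift 2 0), (rh87ee9763167b12aa.shift 0 1), (rha7a51365fafdf589.shift 2 0), (rhd06157feb2cf7a17.shift 3 1), (rhdc8e786826114c16.shift 1 1),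 (rhdf113fd94597b69d.shift 0 1)] (by decide +kernel))
noncomputable def rh7e13eb0300b6126a : CRef := CRef.mk (Pat.mk 0xc0000003000000000000000000 0x8000000380000003800000038000000ff000001fe0000037f0000003000000030 10 10) 0 0 (step_sound _ 101 [rh26b60e294096f14e, (rhd6e447e81774439e.shift 5 2)] (by decide +kernel))
noncomputable def rhc021ef37e3fa8485 : CRef := CRef.mk (Pat.mk 0x2000000180000000e0000000000000000000000000 0x5000000070000000fe000000fe000001b7000000e0000000780000007000000050 10 9) 0 0 (step_sound _ 133 [(rh3e2c9a93a47040f2.shift 3 0), (rh70e33bfdf511e144.shift 5 0), rh8397ea26723ecbdb, (rhfb9fb48a5e63ed80.shift 4 2)] (by decide +kernel))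
noncomputable def rhea4c3f09008d14a6 : CRef := CRef.mk (Pat.mk 0x60000000e0000000b0000000000000000 0x7e0000003f0000007b0000003e0000000e0000000b0000000900000008 10 7) 0 0 (step_sound _ 161 [rh0983cec8fdcac6ea, (rh932754581e0f4330.shift 0 1)] (by decide +kernel))
noncomputable def rh6046ab7d73c947c9 : CRef := CRef.mk (Pat.mk 0x80000000b000000180000000800000000000000000000000000000000000000000 0x1000000150000001fc000001f8000001af000000be000001bf000000fc0000007800000038000000380000003800000028 10 9) 0 0 (step_sound _ 164 [(rh4568c7d8b2d95fd2.shift 0 1), (rh669c503fc29231eb.shift 4 4), (rh678b80e023dffa5f.shift 3 0)] (by decide +kernel))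
noncomputable def rh45bd691269d4052f : CRef := CRef.mk (Pat.mk 0x4000000080000000b000000180000000800000000000000000000000000000000000000000 0x100000001e0000001f0000000af000000be000001bf000000fc0000007800000038000000380000003800000028 10 9) 0 0 (step_sound _ 164 [(rh669c503fc29231eb.shift 4 4), (rh678b80e023dffa5f.shift 3 0), (rhf23c453812947e8b.shift 0 1)] (by decide +kernel))
noncomputable def rh31fa3d2a610982a6 : CRef := CRef.mk (Pat.mk 0x3000000020000000a00000006000000000 0x640000006c0000006e0000003e0000003e000000ef0000007c0000002c 10 8) 0 0 (step_sound _ 35 [(rh7f34300b9d064442.shift 4 0), rhabc6bf454c2cf099, (rhdead0962b33320d8.shift 3 1)] (by decide +kernel))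
noncomputable def rhf067a2de654065cc : CRef := CRef.mk (Pat.mk 0x3000000180000000800000000 0x140000001c0000001c0000001c0000001e0000001f0000001c0000000c00000004 10 5) 0 0 (step_sound _ 99 [(rhc10214bf3fe8094a.shift 0 2), rhfd699ba159fc88aa] (by decide +kernel))
noncomputable def rhefeeae490fcdea92 : CRef := CRef.mk (Pat.mk 0x30000000400000004000000000 0x20000000e0000000e0000000c0000000e70000007e000000e70000006000000020 10 8) 0 0 (step_sound _ 99 [(rh12a2147ac3c72157.shift 3 0), (rh57153ff097b88f9c.shift 0 2), (rh88c620441a3a17ea.shift 0 2)] (by decide +kernel))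
noncomputable def rh22151f32fdc4f727 : CRef := CRef.mk (Pat.mk 0x3000000040000001400000000000000000 0x2800000028700003ffe00001fe700001d600000010000000100 10 14) 0 0 (step_sound _ 103 [(rh156eb79819174918.shift 4 0), (rh368dc3085932390d.shift 4 3), (rhc3042aa4759624de.shift 0 3), (rhd62c819f98783b72.shift 4 0)] (by decide +kernel))
noncomputable def rh87eaecb96fc66f30 : CRef := CRef.mk (Pat.mk 0x180000002000000020000000000000000000000000 0xc0000000c000000ff000000ff000000df000000f800000038000000180000001800000018 10 8) 0 0 (step_sound _ 132 [(rh366c28576438b37d.shift 0 2), (rh9312608831dbc7ca.shift 0 2), (rhaa0eec57d75bda3b.shift 3 0), (rhdeca8db941583de2.shift 1 4)] (by decide +kernel))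
noncomputable def rhe871dd9ddf178828 : CRef := CRef.mk (Pat.mk 0x30000000600000004000000000000000000000000 0xf0000001f0000007f0000001f00000006000000020000000200000002 10 7) 0 0 (step_sound _ 193 [(rh2145e1d24b96a57e.shift 1 3), rhdc84c3bd0568cfe7] (by decide +kernel))
noncomputable def rhe6d359e2cf42f1ea : CRef := CRef.mk (Pat.mk 0xb0000000e0000000400000000000000000 0x1b0000000f00000007f0000003e0000003f 10 9) 0 0 (step_sound _ 100 [rh0562623ff99267e1, (rh33e738c4ed385b9f.shift 4 3)] (by decide +kernel))
noncomputable def rh8c313c376b4a7be2 : CRef := CRef.mk (Pat.mk 0x1800000020000000a0000000000000000000000000 0x40000006c000000fe000001ff000001ff000001b8000000be0000009e0000001800000018 10 9) 0 0 (step_sound _ 132 [(rh0358a0971668addd.shift 1 0), (rh1c0bc56c2bbe970a.shift 1 2), (rh2e27c869e42fe209.shift 1 0), (rh52f10003c58a24b5.shift 1 2), (rh8890a2107ac3536f.shift 3 0), (rh9312608831dbc7ca.shift 0 2)] (by decide +kernel))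
noncomputable def rh6611bf43adfd37fa : CRef := CRef.mk (Pat.mk 0x300000004000000040 0x28000000a8000000fc000003ff000001fe000003d700000050 10 10) 0 0 (step_sound _ 70 [(rh8ee80cc30e93a344.shift 3 1), (rh8f608fc770a6e29a.shift 0 1), (rhb98998f23f741db4.shift 2 0), (rhf386699c7f7a7dee.shift 3 0)] (by decide +kernel))
noncomputable def rh2ae194a1339499d3 : CRef := CRef.mk (Pat.mk 0x38000000d000000040000000000000000000000000 0x18000000380000003e000000fe00000038000000df0000007f0000001c0000001800000008 10 8) 0 0 (step_sound _ 100 [(rh01483ff9cba2f6ac.shift 3 0), (rhb1a251d9bff81766.shift 3 2), (rhb288afa110bb8dc7.shift 0 2), (rhe4e4efb231e692a9.shift 3 0)] (by decide +kernel))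
noncomputable def rh2632d82b2e4daf8a : CRef := CRef.mk (Pat.mk 0x30000001800000008000000000000000000000000 0x140000001c0000001c0000001c0000001d0000001f0000001f0000000f000000070000000300000001 10 5) 0 0 (step_sound _ 163 [rh20cd7ac806c36022, (rhc10214bf3fe8094a.shift 0 4)] (by decide +kernel))
noncomputable def rh4bba932587906b92 : CRef := CRef.mk (Pat.mk 0x380000001000000000000000000000000000000000 0x18000000380000003e000000fe000000380000001f0000001f0000003c0000003800000028 10 8) 0 0 (step_sound _ 100 [(rh0a6888916bcef86b.shift 3 0), (rhb1a251d9bff81766.shift 3 2), (rhb288afa110bb8dc7.shift 0 2), (rhffb8e5993241bf15.shift 3 0)] (by decide +kernel))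
noncomputable def rh542231675bda9a32 : CRef := CRef.mk (Pat.mk 0x180000003000000020000000000000000000000000 0x40000003e0000003f0000007e0000003e00000038000000180000001800000018 10 7) 0 0 (step_sound _ 196 [(rh2145e1d24b96a57e.shift 4 3), rh61216961156df678] (by decide +kernel))
noncomputable def rh8dd15d90dea76e55 : CRef := CRef.mk (Pat.mk 0x1e000000080000000800000000 0x300000007000000070000000f0000001e0000003f0000000e00000006 10 6) 0 0 (step_sound _ 68 [rh586a39d0ab200f1c, (rhe25b0a99195a5d59.shift 1 2)] (by decide +kernel))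
noncomputable def rh988bc627e0189414 : CRef := CRef.mk (Pat.mk 0x1c000000100000001000000000 0x28000000380000003f000000ff0000001c0000007c0000001c0000000c 10 8) 0 0 (step_sound _ 132 [rh17a2bee1618ae283, (rh193da7fc9e1674f1.shift 3 0), (rh1eeec04e73117746.shift 2 1), (rh7f48f6abbcfebac4.shift 2 0)] (by decide +kernel))
noncomputable def rh83cf7799c420e5c4 : CRef := CRef.mk (Pat.mk 0x3000000040000001400000000000000000 0x2800000028700003ffe00001ff700001d600000010000000100 10 14) 0 0 (step_sound _ 103 [(rh156eb79819174918.shift 4 0), (rh368dc3085932390d.shift 4 3), (rh95f73988d2dec2c0.shift 2 3), (rhc3042aa4759624de.shift 0 3), (rhd62c819f98783b72.shift 4 0)] (by decide +kernel))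
noncomputable def rh18a5432e60e7d5f6 : CRef := CRef.mk (Pat.mk 0x180000001e0000001a000000000000000000000000 0x500000037000000370000001b0000001e0000001e000000070000000700000007 10 6) 0 0 (step_sound _ 65 [rh02141ff03484786c, rh5ee6bfaca9f0fed8, (rh78a7df122b37ab7e.shift 0 1), (rh832002080758e5cc.shift 0 1)] (by decide +kernel))
noncomputable def rh2808a4d1ae20c761 : CRef := CRef.mk (Pat.mk 0x300000006000000040000000000000000000000000 0x8000000dc000000fe000000fe0000007c0000007f0000005c0000001c0000001c00000014 10 8) 0 0 (step_sound _ 197 [(rh2145e1d24b96a57e.shift 5 3), rh9a45cc852975c59f] (by decide +kernel))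
noncomputable def rh27989d9796bb9c38 : CRef := CRef.mk (Pat.mk 0xe000000180000001000000000000000000000000000000000 0x14000000370000001e0000001f0000001f0000000f000000070000000700000005 10 6) 0 0 (step_sound _ 196 [(rh7ff601fc6d1f05ff.shift 1 3), rhc7a583ff944cc2b6] (by decide +kernel))
noncomputable def rhb6cb25ad6814cc09 : CRef := CRef.mk (Pat.mk 0x1800000018000000300000000000000000 0xe0000000e0000000f000000ff0000001f000000360000000600000006 10 8) 0 0 (step_sound _ 133 [(rh0f936b2c74e7b815.shift 2 2), rh215cc87ed210888f, (rh2ed427353258d8dd.shift 1 2)] (by decide +kernel))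
noncomputable def rh4d2d030bc44820ac : CRef := CRef.mk (Pat.mk 0x7000000018000000000000000000000000 0x6000000078000000fc000000ff0000007f000000180000000c0000000c0000000c 10 8) 0 0 (step_sound _ 131 [(rh89a182a5c191c2c5.shift 2 0), (rha58b38fd4cff8ca0.shift 2 1), (rha58ddf8813c4b875.shift 0 3)] (by decide +kernel))
noncomputable def rha080ca1f13127e31 : CRef := CRef.mk (Pat.mk 0x180000000c000000100000001800000000000000000000000000000000 0x10000000180000000c0000001f0000001f00000007000000070000000700000005 10 5) 0 0 (step_sound _ 163 [rh15f8b4ce61bf907a, (rh2f68792b6b779e96.shift 3 4)] (by decide +kernel))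
noncomputable def rha0441bf93223521a : CRef := CRef.mk (Pat.mk 0xc0000000c000000100000001800000000000000000000000000000000 0x40000000c0000000c0000001f0000001f00000007000000070000000700000005 10 5) 0 0 (step_sound _ 163 [rh15f8b4ce61bf907a, (rh50fbb5868c909700.shift 2 4)] (by decide +kernel))
noncomputable def rhe442d628bc7151ac : CRef := CRef.mk (Pat.mk 0x7000000018000000200000002000000000 0x8000000ef0000007f000000180000007f0000003e0000001f 10 8) 0 0 (step_sound _ 131 [(rh38a0850c9fea941e.shift 2 1), (rha58ddf8813c4b875.shift 0 3), rhb8050fe8f7112fc1] (by decide +kernel))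
noncomputable def rh790de536f729c135 : CRef := CRef.mk (Pat.mk 0xc0000001000000010000000000 0x88000003b8000003b8000003b8000003ff000001fe0000037f0000013000000030 10 10) 0 0 (step_sound _ 101 [(rh07db138bb9ba6c42.shift 3 2), rh26b60e294096f14e, (rh57153ff097b88f9c.shift 2 2), (rhfe5c5d2a3ff40a09.shift 5 1)] (by decide +kernel))
noncomputable def rhe815be5b8aed4d36 : CRef := CRef.mk (Pat.mk 0xc0000001000000000000000000 0x8000000380000003800000038000001ff000003fe000007ff0000003000000030 10 11) 0 0 (step_sound _ 101 [(rh188dd7f519d15d21.shift 4 2), rh26b60e294096f14e, (rh6aa0ed61cce1493b.shift 4 2), (rh88c620441a3a17ea.shift 2 2), (rh988050a6fa3e9d04.shift 2 2), (rhc88dbad8567ff01b.shift 2 2)] (by decide +kernel))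
noncomputable def rhbe8ae718dc3e11fb : CRef := CRef.mk (Pat.mk 0x30000000400000004000000000 0x20000000e4000000ee000000ce000000ff0000007e000000ef0000006400000024 10 8) 0 0 (step_sound _ 99 [(rh12a2147ac3c72157.shift 3 0), (rh88c620441a3a17ea.shift 0 2), (rh988050a6fa3e9d04.shift 0 2), (rhc88dbad8567ff01b.shift 0 2), rhd111675597f8a3d0] (by decide +kernel))
noncomputable def rh35af574a984dba54 : CRef := CRef.mk (Pat.mk 0x200000003c000000000000000000000000 0x1e0000003e0000000f0000003e0000007e0000000c0000000c00000004 10 7) 0 0 (step_sound _ 130 [rh0ccd9b85ddbf81ae, (rh3244c3cc8379b070.shift 1 3)] (by decide +kernel))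
noncomputable def rh8c7c7fd93dc3f370 : CRef := CRef.mk (Pat.mk 0x1c0000001000000000000000000 0x8000000380000003800000038000000ff000001fe0000037f0000003000000030 10 10) 0 0 (step_sound _ 101 [rh26b60e294096f14e, (rhe25b0a99195a5d59.shift 5 2)] (by decide +kernel))
noncomputable def rhc2b48fbdc913b3de : CRef := CRef.mk (Pat.mk 0xc0000001000000010000000000 0x88000003b8000003b800000378000003ff000003fe000001ff000001b0000000b0 10 10) 0 0 (step_sound _ 101 [rh26b60e294096f14e, (rh8661134dc825f94c.shift 4 0), (rh88c620441a3a17ea.shift 2 2), (rh988050a6fa3e9d04.shift 2 2), (rhc88dbad8567ff01b.shift 2 2), (rhd111675597f8a3d0.shift 2 0)] (by decide +kernel))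
noncomputable def rhe94c4920d2af7471 : CRef := CRef.mk (Pat.mk 0x7000000030000000100000000000000000 0x740000003c000001de000000fe000001ff 10 9) 0 0 (step_sound _ 98 [(rh24ae073cf30720c4.shift 2 3), rh6762c9aa59c11694] (by decide +kernel))
noncomputable def rh1f2f9619d3522a27 : CRef := CRef.mk (Pat.mk 0x18000000600000003000000000 0x1c0000003c000000ef000000ff000000f80000007c0000003c00000008 10 8) 0 0 (step_sound _ 35 [(rh53b3c253cb0c65f4.shift 2 1), rhfb49254b42ca0e60] (by decide +kernel))
noncomputable def rhe605958e9f34e55e : CRef := CRef.mk (Pat.mk 0x30000000400000004000000000 0x40000000e0000005e000000ff000000fe000001ff0000006c0000002c 10 9) 0 0 (step_sound _ 99 [(rh3367bf9cc98b232b.shift 2 0), (rh6aa0ed61cce1493b.shift 2 2), rhd111675597f8a3d0] (by decide +kernel))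
noncomputable def rhb813fee83c614690 : CRef := CRef.mk (Pat.mk 0x80000001000000016000000300000001000000000 0x5000000270000003f0000003f0000001700000017000000370000001f00000005 10 6) 0 0 (step_sound _ 164 [(rh50fbb5868c909700.shift 3 2), rh98b64fed5ea054ef] (by decide +kernel))
noncomputable def rhfe0a539cfc0110dd : CRef := CRef.mk (Pat.mk 0x1000000016000000300000001000000000 0x70000002f0000003f0000003f0000003700000017000000370000001f00000005 10 6) 0 0 (step_sound _ 164 [(rh1741680720c097b4.shift 3 2), (rh44f453b84f013105.shift 4 1), rha172e9362e01ba15] (by decide +kernel))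
noncomputable def rhb429cfcfa84fba40 : CRef := CRef.mk (Pat.mk 0x38000000000000000000000000 0x40000000e0000000e0000007f0000003e0000000f0000000600000006 10 7) 0 0 (step_sound _ 98 [(rh4c622fddc53a5f99.shift 0 3), (rh775ca1963e850b80.shift 0 2), (rh9e97bba44c1b13e4.shift 0 2), (rhabf0898c7b6d5882.shift 1 0)] (by decide +kernel))
noncomputable def rh0b513c485be00303 : CRef := CRef.mk (Pat.mk 0x80000000c00000038000000180000000000000000 0x30000000780000006c0000003f0000001b0000000f0000000e 10 7) 0 0 (step_sound _ 164 [(rh2f68792b6b779e96.shift 3 2), rh3115ab5a70a49d52] (by decide +kernel))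
noncomputable def rha0c884876ca6b2a5 : CRef := CRef.mk (Pat.mk 0x1000000018000000300000000000000000 0x20000000a0000002f0000003f000000fe0000003e0000001600000016 10 8) 0 0 (step_sound _ 98 [rh6c564b350998ec86, (rhb739f4f82bb681b4.shift 1 2)] (by decide +kernel))
noncomputable def rhb1a5ba3ba2ae5c0e : CRef := CRef.mk (Pat.mk 0x1e0000001e000000100000000000000000 0x3f0000001f0000001b0000001e0000001e000000130000000200000002 10 6) 0 0 (step_sound _ 195 [(rh6f1cbe15c631ee70.shift 3 2), rhad313f73d3413962] (by decide +kernel))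
noncomputable def rh901b8f96a95d7e23 : CRef := CRef.mk (Pat.mk 0x60000000800000028000000000000000000000000 0x40000001c0000001e0000001e000000ff0000007e0000007f0000002c000000740000007000000050 10 8) 0 0 (step_sound _ 163 [rh111245d64e6cb514, (rh5e85ec45a167bb10.shift 0 2), (rh60a2685cbac03297.shift 1 0), rh8ac5b2738f8f2256, (rhf773ae79cbe6c672.shift 1 2)] (by decide +kernel))
noncomputable def rh9e0450982460c553 : CRef := CRef.mk (Pat.mk 0xc0000001000000010000000000000000000000000 0x340000003e0000007f0000007f0000007c000000180000000c0000000c0000000c 10 7) 0 0 (step_sound _ 131 [(rh02b656dd9c401b3d.shift 0 2), (rh3c3e23a02e82b2ed.shift 0 4), rh4b5b6fed36179a3c] (by decide +kernel))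
noncomputable def rh48d3ed8e5c16844c : CRef := CRef.mk (Pat.mk 0x80000000e000000180000001000000000000000000000000000000000 0x2000000120000001b0000003e0000001f0000001f0000000f0000000f0000000f00000005 10 6) 0 0 (step_sound _ 131 [(rh1152aee0afa96cae.shift 2 1), (rh2f1f42444a562377.shift 0 3), rh53c8973f117821dd, (rhb1c562e40ee61608.shift 2 1), (rhf5e15cdcea0762c2.shift 2 1)] (by decide +kernel))
noncomputable def rh7973c9c4c063f4a6 : CRef := CRef.mk (Pat.mk 0x30000000e0000000400000000000000000 0x1f0000000fe0000007f0000003e0000003f 10 9) 0 0 (step_sound _ 100 [rh18e3070bbec11bf2, (rh9e97bba44c1b13e4.shift 2 2), (rha4b0ec85c2214d8e.shift 1 2)] (by decide +kernel))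
noncomputable def rh610c376d07c03440 : CRef := CRef.mk (Pat.mk 0xc00000018000000100000000000000000 0x60000000e0000000f000000ff0000001f000000170000000600000002 10 8) 0 0 (step_sound _ 129 [rh9ac4fb4a5e78cf26, (rhb739f4f82bb681b4.shift 0 3)] (by decide +kernel))
noncomputable def rh9478a0e963804d00 : CRef := CRef.mk (Pat.mk 0x20000000c000000080000000000000000000000000 0x70000000f0000000fc000007ef000007fe000000ff000000780000007000000010 10 11) 0 0 (step_sound _ 133 [(rh07074420cd7bb978.shift 0 3), (rh2e7caf0dcb3b19d9.shift 2 1), (rh3b45b37158409020.shift 0 1), (rh5f251ea50dbd4c37.shift 0 1), (rh76aaef624be45a8c.shift 2 0), (rha9d5af57152f357b.shift 3 1), (rhe3ebd767f1f38667.shift 2 1)] (by decide +kernel))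
noncomputable def rhe8940e7697da7714 : CRef := CRef.mk (Pat.mk 0x18000000300000002000000000 0x20000000a0000001f0000001f0000007e000000360000003e0000001c 10 7) 0 0 (step_sound _ 132 [(rh2145e1d24b96a57e.shift 4 1), rhfd1e1e6dfee1cf75] (by decide +kernel))
noncomputable def rhb7a6d49f1cfa8d2a : CRef := CRef.mk (Pat.mk 0xe0000001800000000000000000000000000000000 0x5000000070000000700000007000000fe0000001f00000007000000070000000700000005 10 8) 0 0 (step_sound _ 164 [(rh21460d2d48a35cb8.shift 0 3), (rh3a69dc315759d1b4.shift 0 3), (rh412d230494194d0a.shift 0 4), (rha57c53c41ccc94ae.shift 0 1), rhca55e93dfa4b8be7] (by decide +kernel))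
noncomputable def rh27b888cb28e6e767 : CRef := CRef.mk (Pat.mk 0x80000000c000000180000001000000000000000000000000000000000 0x40000000c0000000c0000001f0000001f0000000f0000000f0000000f00000005 10 5) 0 0 (step_sound _ 131 [(rh46d6183566ef1216.shift 2 1), rh53c8973f117821dd, (rhe286c75f2739cce2.shift 2 3)] (by decide +kernel))
noncomputable def rhbbcff416156f22d1 : CRef := CRef.mk (Pat.mk 0xe0000001800000010000000000000000000000000 0x50000000700000017000000170000007e0000001f0000001f0000000f0000000f0000000d 10 7) 0 0 (step_sound _ 164 [(rh21460d2d48a35cb8.shift 0 3), (rh3a69dc315759d1b4.shift 0 3), (rh41b813ae66f111d8.shift 0 1), rh4409e11745a38854, (rh4b1755f8285e3534.shift 0 2), rhca55e93dfa4b8be7] (by decide +kernel))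
noncomputable def rhb49112b0598a0a9d : CRef := CRef.mk (Pat.mk 0x1000000018000000300000002000000000 0x60000000e0000000f0000001f0000007e0000003c0000003e0000001e 10 7) 0 0 (step_sound _ 98 [rh7c925a6208e62a82, (rhb739f4f82bb681b4.shift 1 2)] (by decide +kernel))
noncomputable def rhb381b1042ca8939a : CRef := CRef.mk (Pat.mk 0x20000000c0000002800000000000000000 0x4000000042000000ff7000007fe000002ff0000024000000240 10 12) 0 0 (step_sound _ 104 [(rh1b1d9d37dc492e4a.shift 5 2), (rh2ece67075f594c2f.shift 0 2), (rh8b282e61cb6df183.shift 3 2), (rh8bb330ee5aea9f6b.shift 4 0), (rhececc2ee7da1d4c6.shift 5 0)] (by decide +kernel))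
noncomputable def rh8d31f6e5daca5edc : CRef := CRef.mk (Pat.mk 0x100000005000000040000000000000000000000000 0xc000000dc000000dc000003fc000001ff0000007f0000003e0000003800000038 10 10) 0 0 (step_sound _ 133 [(rh38791ac5737ed75e.shift 3 4), (rh61f3e7ba5d6248e4.shift 0 1), (rhb14f7dd7e283ffff.shift 2 1), (rhb1f5ad2500550291.shift 2 1), (rhc126a2d483e3db27.shift 1 0), (rhf5925d064fbfae9a.shift 2 1)] (by decide +kernel))
noncomputable def rh5b31e658c3b65351 : CRef := CRef.mk (Pat.mk 0x40000003c00000010000000000000000000000000 0x24000000740000007c0000003c0000001e0000000f0000000e00000002 10 7) 0 0 (step_sound _ 67 [(rh206d58bc6c6d56f4.shift 0 1), (rh355ef750ac291b8d.shift 1 0), (rh95a80f84f48ac358.shift 2 1), (rhb11d41c808e1ab4d.shift 2 1)] (by decide +kernel))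
noncomputable def rh64aeb62436dadbcc : CRef := CRef.mk (Pat.mk 0x180000001c000000000000000000000000 0x1b0000001f000000370000003e0000003e 10 6) 0 0 (step_sound _ 97 [(rh53b3c253cb0c65f4.shift 0 3), rhcbaf3b120543c03e] (by decide +kernel))
noncomputable def rh37355c92b2b7f245 : CRef := CRef.mk (Pat.mk 0x1000000018000000080000000000000000 0xe0000000e0000000f0000003f0000001f0000001f0000001c0000001c 10 6) 0 0 (step_sound _ 35 [(rh71222050f2c63a3a.shift 3 0), rha8332c9e7e75e6d1] (by decide +kernel))
noncomputable def rh9a6fb1cce3c3036b : CRef := CRef.mk (Pat.mk 0x100000001000000018000000480000000000000000 0xf0000001f0000001f0000001e0000007c0000003400000020 10 7) 0 0 (step_sound _ 68 [(rh1251506cec5dd6b8.shift 0 1), (rh4638e5e0cb0765b6.shift 2 1), (rh8ff3dde5b1c639e0.shift 3 0)] (by decide +kernel))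
noncomputable def rh26413ebb36f0291f : CRef := CRef.mk (Pat.mk 0x10000000080000000800000000000000000000000000000000 0x140000001f0000001f0000003f0000000f0000000c0000001c0000001c0000001c00000014 10 6) 0 0 (step_sound _ 195 [(rh1b9022be4f7af407.shift 2 1), (rh215e11e099257d75.shift 3 3), rh5e311fb0adc959bf, (rha74d86627d53c36d.shift 0 3)] (by decide +kernel))
noncomputable def rh6c09c1f055bbff6a : CRef := CRef.mk (Pat.mk 0x800000008000000080000000c00000000 0x1f7000000fe000001ef0000001f0000000f00000001 10 9) 0 0 (step_sound _ 130 [(rh50fbb5868c909700.shift 2 1), rh6d4c2023ef00b685] (by decide +kernel))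
noncomputable def rh00a3e7c8a1b1e004 : CRef := CRef.mk (Pat.mk 0xa0000000b000000020000000400000000000000000 0x1ae000000fe0000003f000001e00000007000000030 10 9) 0 0 (step_sound _ 134 [(rh33e738c4ed385b9f.shift 4 4), rh4980e4695665177c] (by decide +kernel))
noncomputable def rh37211698c9e98929 : CRef := CRef.mk (Pat.mk 0x800000000000000500000007000000020 0x3ff000001fe000003d7000000d00000007800000020 10 10) 0 0 (step_sound _ 132 [rh6500554dce01d40b, (rh6f1cbe15c631ee70.shift 4 0)] (by decide +kernel))
noncomputable def rhec243e3d5dfbec23 : CRef := CRef.mk (Pat.mk 0x18000000d000000040000000000000000000000000 0x3c0000003c0000003c00000018000000dc0000007f0000003e0000003f0000003c 10 8) 0 0 (step_sound _ 100 [(rh56259dd1390eee46.shift 3 0), (rh7183d73c74feafce.shift 3 2), (rh7b24c4ccc068b0b2.shift 3 2), (rh9e74382ec9f594b6.shift 0 1), (rhb9fc678fef34c2f8.shift 2 0), (rhde5b474548b482d7.shift 3 0)] (by decide +kernel))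
noncomputable def rh245a175f71a9d745 : CRef := CRef.mk (Pat.mk 0xe00000010 0x38e000001fe000003bf 10 10) 0 0 (step_sound _ 36 [rh7aeadb60d83d8fff, (rhe25b0a99195a5d59.shift 1 0)] (by decide +kernel))
noncomputable def rhb62f9a98333e2756 : CRef := CRef.mk (Pat.mk 0x18000000180000007000000020 0xc0000004f000000df000000fb0000007f00000027 10 8) 0 0 (step_sound _ 131 [(rh2145e1d24b96a57e.shift 3 1), rhde1cf5db39a20c02] (by decide +kernel))
noncomputable def rhbce99b5a96fa0649 : CRef := CRef.mk (Pat.mk 0x700000004000000100000000000000000000000000 0x78f000003fe0000037f00000100000003800000038000000280 10 11) 0 0 (step_sound _ 163 [(rh36eba2a3de447758.shift 0 4), (rh598abe895daf367a.shift 2 0), (rh775ca1963e850b80.shift 1 4), (rhd1d05263fabc0227.shift 1 4)] (by decide +kernel))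
noncomputable def rh7ce9070cb69f3003 : CRef := CRef.mk (Pat.mk 0x700000004000000140000000000000000000000000 0x2000000020000007b7000003fe0000037c00000150000003900000038000000280 10 11) 0 0 (step_sound _ 197 [rh83a9df1805fd92e4, (rh93bfd97a9c6ac33e.shift 3 0), (rhe072fffdd2fccf38.shift 5 3)] (by decide +kernel))
noncomputable def rhbc1d424c838db5d2 : CRef := CRef.mk (Pat.mk 0x80000001e0000001800000040000000000000000000000000 0x4000000040000002e000000fe000000db0000004c000000ec000000ec000000a0 10 8) 0 0 (step_sound _ 129 [(rh813793ded730b233.shift 1 0), (rheb0810cc63b001d8.shift 0 4)] (by decide +kernel))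
noncomputable def rh05a12673913a934c : CRef := CRef.mk (Pat.mk 0x1e0000000a0000000800000000 0x30000001700000017000000370000001e0000000e0000000e00000006 10 6) 0 0 (step_sound _ 129 [(rh3244c3cc8379b070.shift 0 3), rh4cfeedddc71cb3b0] (by decide +kernel))
noncomputable def rh630e44cba542d3b1 : CRef := CRef.mk (Pat.mk 0x1800000020000000a0000000000000000000000000 0x5000000050000003df000001fe000001ef000000a8000001c0000001c000000140 10 10) 0 0 (step_sound _ 165 [(rh3918eeb6c53434d8.shift 0 4), (rh427e4468d3dec80a.shift 2 3), (rh8ee80cc30e93a344.shift 2 4), (rhe06e0055f4893bda.shift 1 0)] (by decide +kernel))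
noncomputable def rh450f551da8bb5908 : CRef := CRef.mk (Pat.mk 0x1e00000000000000000000000000000000 0x50000000700000007000000370000001e00000007000000070000000700000005 10 6) 0 0 (step_sound _ 165 [rh080c9723a422b8c0, (rh428265de8cd3cd2d.shift 1 4)] (by decide +kernel))
noncomputable def rh509b6bf2f52bda47 : CRef := CRef.mk (Pat.mk 0x180000000000000008000000000000000000000000 0x140000001f0000001f0000001f0000001e0000000c0000001c0000001c00000014 10 5) 0 0 (step_sound _ 131 [(rh1b9022be4f7af407.shift 2 0), (rh215e11e099257d75.shift 3 2), (rha74d86627d53c36d.shift 0 2), (rhd7d89176fb4e78fe.shift 2 0)] (by decide +kernel))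
noncomputable def rh14f2a32da016fa2f : CRef := CRef.mk (Pat.mk 0xc0000000c000000100000001800000000000000000000000000000000 0x40000000c0000000c0000001f0000001f00000007000000070000000700000005 10 5) 0 0 (step_sound _ 163 [(rh50fbb5868c909700.shift 2 4), rh53c8973f117821dd] (by decide +kernel))
noncomputable def rhbe1d7a62f3ba810f : CRef := CRef.mk (Pat.mk 0x500000004000000040 0x2800000038000000b8000000b000000fbf000007fe00000eff00000068 10 12) 0 0 (step_sound _ 69 [(rh40e4aa884e5244a8.shift 3 0), (rh554009a2f490582e.shift 0 1), (rhc8ae77ecad49585e.shift 2 0), (rhcb440d7ac054a977.shift 3 0)] (by decide +kernel))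
noncomputable def rh02a7ea0f6ca8c567 : CRef := CRef.mk (Pat.mk 0x100000001000000014000000100000005000000000 0x30000000340000003c000001df000000fe000000f30000005200000040 10 9) 0 0 (step_sound _ 197 [rh0ef2c3048d023286, (rhbaefcd01e0a8bca3.shift 4 2)] (by decide +kernel))
noncomputable def rhe57eb373750aec1e : CRef := CRef.mk (Pat.mk 0x1400000010000000500000000000000000 0x2800000038000000380000003e0000003e000001fc000003ff0000005f0000004a00000002 10 10) 0 0 (step_sound _ 164 [(rh142161f605ffde05.shift 1 2), (rh1726a00b0a8befd0.shift 3 1), (rh4e55bb8c152eaae3.shift 1 2), (rh59715b3e1c0e1f10.shift 1 2), rhb6c8efb17806eddd, (rhc85cc95794737cf7.shift 3 2), (rhf1d755d44fe2de7a.shift 1 1), (rhf4e9e26b335fe316.shift 3 1)] (by decide +kernel))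
noncomputable def rhe7ba863d8730c09a : CRef := CRef.mk (Pat.mk 0x1000000014000000100000001000000000 0x2000000020000002f0000007f0000007c000000760000001e0000000c 10 7) 0 0 (step_sound _ 133 [(rh2f68792b6b779e96.shift 4 1), rh780eb0fcbe61127b] (by decide +kernel))
noncomputable def rhdf2061450ea2e037 : CRef := CRef.mk (Pat.mk 0x30000000140000001000000058000000000000000000000000 0x800000008e000003fe000001f4000003fe0000005e000000470000000200000002 10 10) 0 0 (step_sound _ 195 [(rh50fbb5868c909700.shift 3 3), rh7ea74aae767c8e2b] (by decide +kernel))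
noncomputable def rh72ebf8a762ca0ecd : CRef := CRef.mk (Pat.mk 0x180000000a000000080000002800000000 0x100000003000001ff000000fe000001ff0000002c00000024 10 9) 0 0 (step_sound _ 34 [rh747f822b211cbc9d, (rh932754581e0f4330.shift 2 0)] (by decide +kernel))
noncomputable def rh967353da9b1d9aaa : CRef := CRef.mk (Pat.mk 0x100000001a0000000800000008000000000000000000000000 0x370000001e0000003b0000000f000000070000000700000005 10 6) 0 0 (step_sound _ 162 [(rh33e738c4ed385b9f.shift 1 5), rh5ea81b026542da7e] (by decide +kernel))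
noncomputable def rh9081dd5ed39bce48 : CRef := CRef.mk (Pat.mk 0x1a0000000800000028000000000000000000000000 0xe7000000fe000001fb0000002f000000270000000700000005 10 9) 0 0 (step_sound _ 162 [(rh0c8e775413ad3410.shift 0 4), (rh2a535ce68d5cfc5d.shift 0 2), rh5ea81b026542da7e, (rhff137c455409f0e3.shift 1 2)] (by decide +kernel))
noncomputable def rh76ba9664e3130ad3 : CRef := CRef.mk (Pat.mk 0xa000000080000002800000000 0x100000001c0000001c000003dc000001f8000003fe000001ff0000002e00000024 10 10) 0 0 (step_sound _ 131 [(rh1726a00b0a8befd0.shift 2 0), (rh20966da26a1c2ae8.shift 2 0), (rh59715b3e1c0e1f10.shift 0 1), (rh68ae634e1ebb8f05.shift 1 1), (rhd25fef0fb2e17855.shift 1 0), (rhf4e9e26b335fe316.shift 2 0)] (by decide +kernel))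
noncomputable def rh2cd9d77c7da9c731 : CRef := CRef.mk (Pat.mk 0xe0000000800000020000000000000000000000000 0xe7000000fe000001ff00000023000000270000000700000005 10 9) 0 0 (step_sound _ 164 [(rh0c8e775413ad3410.shift 0 4), (rh2a535ce68d5cfc5d.shift 0 2), rhd7ff55a1143a1594, (rhff137c455409f0e3.shift 1 2)] (by decide +kernel))
noncomputable def rhcf55a1b42e8e4556 : CRef := CRef.mk (Pat.mk 0x500000005000000040000000000000000000000000 0x6000000060000003f7000003fe0000007f0000003c0000003800000018 10 10) 0 0 (step_sound _ 133 [(rh0738ca1f9fb617ba.shift 2 0), (rh2146647acd9525ab.shift 2 0), (rha11dfd15f08f96e3.shift 3 4), (rhacf582b6743d2a8e.shift 0 3)] (by decide +kernel))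
noncomputable def rh40fcb0a8e4f3f8c1 : CRef := CRef.mk (Pat.mk 0xa0000000a0000000c000000000000000000000000000000000 0x4000000040000000e0000000e0000001ff000000fe0000003e0000007c000001f000000040 10 9) 0 0 (step_sound _ 133 [(rhb12ffaec36122c99.shift 2 3), (rhd36e9d397848a01d.shift 0 1), (rhe1a136e2584efaaa.shift 3 1), (rhe961aabeabc170e3.shift 0 3), (rhfa7a6fe2642e1d0d.shift 2 0)] (by decide +kernel))
noncomputable def rh349fb6c33002d9f6 : CRef := CRef.mk (Pat.mk 0x50000000500000004000000000000000000000000000000000 0x280000003800000078000000f0000003f00000007f0000003e0000003f0000003800000028 10 10) 0 0 (step_sound _ 132 [(rh3dcdcfe4c801f3b6.shift 3 1), (rh442fa2d526ae2329.shift 2 1), (rh671764907e6e6cc9.shift 3 3), (rh8e448531d034af3a.shift 3 1), (rh9e74382ec9f594b6.shift 0 2), rhcd0eae8130874362, (rhe141a21172a8695f.shift 3 3)] (by decide +kernel))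
noncomputable def rh86bf9099d952e2f7 : CRef := CRef.mk (Pat.mk 0x50000000500000004000000000000000000000000000000000 0x280000003800000038000003d7000000fe0000007f0000003e0000003f0000003800000020 10 10) 0 0 (step_sound _ 132 [(rh6429be576e16fd89.shift 3 3), (rh671764907e6e6cc9.shift 3 3), (rh82689e3572614c3c.shift 0 4), (rh845be945ee0fd8dc.shift 1 3), (rhb98e14c5c8abde59.shift 0 2), (rhf595d31fd98fbd14.shift 3 0)] (by decide +kernel))
noncomputable def rhd4a8b3e1dc47e3b8 : CRef := CRef.mk (Pat.mk 0xa0000000a00000028000000000000000000000000 0x4000000054000000f4000003fe000001ff000003af000000720000007000000050 10 10) 0 0 (step_sound _ 164 [(rh0b786d94a31538a6.shift 0 4), (rh140521b70eb86a69.shift 0 1), rhcf23f699a2a8e27b, (rhda02c4ce0b224328.shift 0 4)] (by decide +kernel))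
noncomputable def rh503b859f202d3a5b : CRef := CRef.mk (Pat.mk 0xe0000000a00000028000000000000000000000000 0x1000000010000007f0000003fe000007fb00000028000000700000007000000050 10 11) 0 0 (step_sound _ 164 [(rh970aed97d4bae258.shift 2 0), (rheb0810cc63b001d8.shift 0 4)] (by decide +kernel))
noncomputable def rhea533c9b9f8b4fa0 : CRef := CRef.mk (Pat.mk 0x10000000100000002000000020 0x2000000030000000380000003f000000fe000000ff00000038000000180000003000000020 10 8) 0 0 (step_sound _ 132 [(rh265b62acdf4a545a.shift 0 2), (rhbe0e43a3bc50a43f.shift 4 0)] (by decide +kernel))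
noncomputable def rha34067212427e851 : CRef := CRef.mk (Pat.mk 0xe000000000000000000000028 0x380000003c000000ff0000007e000000780000002800000028 10 8) 0 0 (step_sound _ 100 [(rh3947d1dfff0afc6c.shift 0 2), rh5b0bc1cb02827bf2, (rh66c438da7fa185e0.shift 1 0), (rhb18e6c78a554867d.shift 0 3)] (by decide +kernel))
noncomputable def rh6fc93e9a13beac24 : CRef := CRef.mk (Pat.mk 0x1800000038000000200000000000000000 0x600000016000000160000001f0000003f0000002f0000000c0000000c 10 6) 0 0 (step_sound _ 98 [(rh080ff63419a237e9.shift 1 0), (rhbe5fc5902345a0b9.shift 0 3), (rhcc2be1f880c5ea3e.shift 0 2)] (by decide +kernel))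
noncomputable def rhf13231894797d148 : CRef := CRef.mk (Pat.mk 0x180000000800000000000000000000000000000000 0x2000000160000001f0000003f0000001f0000000f0000000c0000001c0000001c00000014 10 6) 0 0 (step_sound _ 99 [(rh19e48db1e9b4e625.shift 2 0), (rh2552d2d5bb06974a.shift 0 2), (rhaf7955adbc1f7ff4.shift 2 0), (rhffb8e5993241bf15.shift 2 0)] (by decide +kernel))
noncomputable def rh3fc66924b5e55896 : CRef := CRef.mk (Pat.mk 0xe000000180000001000000000 0x34000000340000007f000000fe0000001f0000001200000002 10 8) 0 0 (step_sound _ 100 [(rh412d230494194d0a.shift 0 2), rh9026c06bfe386e0d, (rhaf82daf3f22b29cf.shift 1 1), (rhb218ed1e2f167f52.shift 0 1)] (by decide +kernel))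
noncomputable def rh9434bc9785163576 : CRef := CRef.mk (Pat.mk 0x60000000c00000008000000000000000000000000 0x1f0000001f0000007f0000007e0000000f0000000b000000070000000700000005 10 7) 0 0 (step_sound _ 163 [rh497530510dc8a6c4, (rh6876f05cc9661702.shift 1 3), rh8f54d7f6570e8a16, (rhaf82daf3f22b29cf.shift 0 3)] (by decide +kernel))
noncomputable def rh13c506b247a76b23 : CRef := CRef.mk (Pat.mk 0xe0000001800000010 0x3e0000003e00000077000000fe0000001f00000010 10 8) 0 0 (step_sound _ 68 [(rh412d230494194d0a.shift 0 1), (rh89ec074dda02b318.shift 0 1), (rh8bc8a7c1307abfa4.shift 0 1), (rhaf82daf3f22b29cf.shift 1 0)] (by decide +kernel))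
noncomputable def rh2220b319edc5227e : CRef := CRef.mk (Pat.mk 0xe0000001800000010000000000000000000000000 0x5000000270000002700000077000000fe0000001f00000017000000070000000700000005 10 8) 0 0 (step_sound _ 164 [(rh47c07cd0cc865f65.shift 0 4), rh51aa54222237ba43, (rhd09545dc360ca017.shift 0 3), (rhde939a7b51e734f8.shift 2 3), (rhfe69abd8bd2c4d4b.shift 0 1)] (by decide +kernel))
noncomputable def rhe67654c585a2cdaf : CRef := CRef.mk (Pat.mk 0x1000000000000000180000007800000020 0x3ff000001fe000003cf000000d80000007800000028 10 10) 0 0 (step_sound _ 70 [(rh33e738c4ed385b9f.shift 3 1), rh777fa0abb810253d] (by decide +kernel))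
noncomputable def rh3c74f17f37265b35 : CRef := CRef.mk (Pat.mk 0x1800000028000000200000000000000000 0x1c000000ff000000ff0000001f000000f80000002c0000000800000008 10 8) 0 0 (step_sound _ 100 [(rh79b3c29022acbdf3.shift 2 3), (rh8c29b1e2f83d279d.shift 2 1), rh9c269c181d7ceef5, (rhe2b63c00a3d7bb73.shift 1 3)] (by decide +kernel))
noncomputable def rh4edefc5f841f7331 : CRef := CRef.mk (Pat.mk 0x1000000000000000380000007000000040 0x1ff000000fe000001ef000000380000007e0000004e 10 9) 0 0 (step_sound _ 133 [rh5ad9b7fda8768606, (rh6f1cbe15c631ee70.shift 5 0)] (by decide +kernel))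
noncomputable def rh20d4c6fc45c48f92 : CRef := CRef.mk (Pat.mk 0x1800000000000000180000003800000020 0x3ff000001fe000003c7000000d8000000f800000020 10 10) 0 0 (step_sound _ 38 [rh57b2f7bd75fd8caf, (rhf48373e13d2bc128.shift 3 1)] (by decide +kernel))
noncomputable def rhca5d93d704fc60fc : CRef := CRef.mk (Pat.mk 0x180000001800000038000000a0000000000000000000000000 0x1e7000001ff000001d8000000f8000000a0000001c0000001c000000140 10 9) 0 0 (step_sound _ 198 [(rh1a831396d3690826.shift 3 0), (rha558c51478c0acbd.shift 0 5), (rhd3f0efa5ef27299b.shift 3 3)] (by decide +kernel))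
noncomputable def rh5c94718bf7cdc4fd : CRef := CRef.mk (Pat.mk 0x18000000280000002000000000 0x3c0000003f0000007e0000007f0000007c00000018000000fc0000002f0000000c 10 8) 0 0 (step_sound _ 132 [rh15ab955c98bbdd8c, (rh352530a4321bd71a.shift 2 0), (rh8eb2d15efc505b0f.shift 3 1), (rh9f17a4402b3acd11.shift 0 1), (rhf9366b6a121593ef.shift 3 0)] (by decide +kernel))
noncomputable def rh417766b267d389da : CRef := CRef.mk (Pat.mk 0x2000000000000000700000004000000040 0x28000000b8000003ff000001fe000003de000000700000007e00000048 10 10) 0 0 (step_sound _ 134 [(rh11c908474401bff1.shift 5 0), (rh76a72906ee41d626.shift 0 1), (rha080951b5eb8114c.shift 1 0), (rha16a40efbfaed6b5.shift 5 1), (rhb8a92a1e93f112f4.shift 1 0), rhd6f2fe0ccb8b3c70] (by decide +kernel))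
noncomputable def rha0dd71da883b56cf : CRef := CRef.mk (Pat.mk 0x20000000380000002000000020 0x60000000e0000001f0000003e0000007e0000002e00000020 10 7) 0 0 (step_sound _ 100 [(rh50fbb5868c909700.shift 4 0), (rh9b14952828254507.shift 0 1)] (by decide +kernel))
noncomputable def rha8f7e7016bdd0fe9 : CRef := CRef.mk (Pat.mk 0x1000000070000000600000000000000000 0x3c0000003f0000003c0000007c000000780000001800000010 10 7) 0 0 (step_sound _ 99 [rh8b5f396ca52df7f0, (rhb739f4f82bb681b4.shift 2 2)] (by decide +kernel))
noncomputable def rhb2685025749c0de8 : CRef := CRef.mk (Pat.mk 0x100000005000000140000000000000000000000000 0x23000000230000007bf000003fe0000017f0000013e0000013800000038 10 11) 0 0 (step_sound _ 133 [(rh2167a28eef75c27f.shift 1 0), (rh38791ac5737ed75e.shift 3 4), (rhfde2c6903cc051ad.shift 0 1)] (by decide +kernel))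
noncomputable def rh946b4a9ba7e1e68c : CRef := CRef.mk (Pat.mk 0x100000007000000060000000000000000000000000 0xa0000002e0000002e0000003f0000007e0000007e000000360000003200000030 10 7) 0 0 (step_sound _ 98 [(rh111d357bccd75c52.shift 1 1), (rh85e7edab4b05d258.shift 2 3), (rh8e1b9958af61e01d.shift 0 3), (rhed3ccfd8661b8f81.shift 2 0)] (by decide +kernel))
noncomputable def rh153c22c1815b5f07 : CRef := CRef.mk (Pat.mk 0x1000000070000000600000000000000000 0x3c0000003f0000003e0000007c0000007c0000001000000010 10 7) 0 0 (step_sound _ 131 [rh3413e39b1b5f7a30, (rhc02b3aee7ab87ee1.shift 1 3), (rhdbcea10a0fbe5ba6.shift 1 3)] (by decide +kernel))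
noncomputable def rhce128b0c1ca19cfa : CRef := CRef.mk (Pat.mk 0x18000000300000004000000000000000000000000000000000 0x28000000f8000000fe000000f80000003800000038000000770000003e0000003f0000003800000020 10 8) 0 0 (step_sound _ 132 [rh490ef880444d0299, (rh668fc65514a55b16.shift 3 2), (rhaf49ec60455eae35.shift 1 3), (rhb1a251d9bff81766.shift 3 3), (rhe54392b04addbc3b.shift 1 1)] (by decide +kernel))
noncomputable def rh84c4d263b5d9e508 : CRef := CRef.mk (Pat.mk 0x190000000700000004000000000000000000000000000000000 0x2800000038000000f8000000fe000001b000000070000000770000003e0000003f0000003800000020 10 9) 0 0 (step_sound _ 228 [rh5b3c582865ac28bc, (rh70e33bfdf511e144.shift 4 2), (rhd98f850c0bd2fe54.shift 1 4), (rhf3afdd1b4b9b596e.shift 4 4)] (by decide +kernel))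
noncomputable def rh49f19ae12295ae01 : CRef := CRef.mk (Pat.mk 0x4000000440000001c00000058000000000000000000000000 0xa0000000f8000000ec000000cc000000ff0000005c000000e0000000e0000000a0 10 8) 0 0 (step_sound _ 128 [(rh931c9476afb8bcda.shift 2 0), (rhab22b5b56e7b3243.shift 0 3)] (by decide +kernel))
noncomputable def rhfeef336b9647284b : CRef := CRef.mk (Pat.mk 0x110000000700000014000000000000000000000000000000000 0x2800000038000001f8000001fe000003b000000170000001770000003e0000003f0000003800000020 10 10) 0 0 (step_sound _ 228 [(rh70e33bfdf511e144.shift 4 2), rha445f14da046771b, (rhd98f850c0bd2fe54.shift 1 4), (rhf3afdd1b4b9b596e.shift 4 4)] (by decide +kernel))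
noncomputable def rhd136d9a9368ed2f8 : CRef := CRef.mk (Pat.mk 0x80000003800000020000000000000000000000000 0x140000001c0000001c0000001f0000007c0000001f000000380000003e0000001f0000001c0000001c 10 7) 0 0 (step_sound _ 162 [rh32993b5462c825ca, rh916b37582f8394b6, (rhc02b3aee7ab87ee1.shift 0 4)] (by decide +kernel))
noncomputable def rhf25f97707c3c1d1d : CRef := CRef.mk (Pat.mk 0x80000000c000000180000001000000000 0x500000017000000370000007f000000ff0000001f0000001600000006 10 8) 0 0 (step_sound _ 132 [(rh2a7a96f8c94ac19d.shift 0 2), rhb848ab9d3ce98ca0, (rhba5deae707c50fd1.shift 0 2), (rhf228060db6a5a0d6.shift 1 1)] (by decide +kernel))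
noncomputable def rhb4de1eacb8855b2f : CRef := CRef.mk (Pat.mk 0x8000000080000000800000008 0x40000001c0000001f0000003f0000003f0000000c0000000c0000000c0000000c 10 6) 0 0 (step_sound _ 131 [(rh1741680720c097b4.shift 2 1), (rh3ca48e2a6d60153d.shift 2 0), (rh771d065bdc85bf2d.shift 2 0), (rh8a558223d8e6a069.shift 0 1), (rhb7ee8905496f843d.shift 2 0)] (by decide +kernel))
noncomputable def rh4bd92e6f63a12398 : CRef := CRef.mk (Pat.mk 0x10000000500000004000000000000000000000000000000000 0x280000003f0000007e0000003f000000dc0000007f0000003e0000003f0000003800000028 10 8) 0 0 (step_sound _ 132 [(rh029f82fcbdb61681.shift 3 1), (rh0e376d85cdd05d46.shift 2 3), (rh21631644dc857a70.shift 3 0), (rh3c179db23d0eaedc.shift 0 3), (rh4b9f4b08d218d72f.shift 0 1), (rhc057269070d94e52.shift 3 0), (rhcb7b4e79ea1cbd08.shift 3 1)] (by decide +kernel))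
noncomputable def rhea14dd81dcbbae77 : CRef := CRef.mk (Pat.mk 0x20000000a0000000800000000000000000 0x5000000070000000700000007f000007fe000000ff0000005000000040 10 11) 0 0 (step_sound _ 102 [(rh3cc154af21c7d856.shift 3 0), (rh8a6153997a0900e9.shift 0 1), (rha9fbfd4bb8cf890b.shift 2 3), (rhea3c36b66d54eaf8.shift 4 0)] (by decide +kernel))
noncomputable def rh5792ff6ce74e80bd : CRef := CRef.mk (Pat.mk 0x8000000080000002800000028 0x8000000580000007c0000007f0000007c0000006c00000028 10 7) 0 0 (step_sound _ 132 [(rhbaefcd01e0a8bca3.shift 3 0), rhdf079a6a0da78fd4] (by decide +kernel))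
noncomputable def rh7ca56baff4f78ca4 : CRef := CRef.mk (Pat.mk 0x7000000020000000200000002000000000 0x18f000001fe0000007f000000300000003000000010 10 9) 0 0 (step_sound _ 36 [(rh5db4a153e263745f.shift 0 1), (rh932754581e0f4330.shift 4 0)] (by decide +kernel))
noncomputable def rh137dff44e5e8546b : CRef := CRef.mk (Pat.mk 0x200000002000000020000000a0000002000000000 0x5000000070000000700000003000000e60000007f0000007b0000002000000020 10 8) 0 0 (step_sound _ 193 [(rh3ca48e2a6d60153d.shift 0 2), (rhc85cc95794737cf7.shift 0 3), rhe8996ef1f717b314] (by decide +kernel))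
noncomputable def rh8ab1a0c4a3c7d2cf : CRef := CRef.mk (Pat.mk 0x10000000100000001800000050000000000000000000000000 0x800000018000000ff000000ff000000df0000000e0000000600000006 10 8) 0 0 (step_sound _ 99 [(rh932754581e0f4330.shift 3 2), rhfbdac39e16a7cfa9] (by decide +kernel))
noncomputable def rhe3d3c96f5c137162 : CRef := CRef.mk (Pat.mk 0x2000000020000000300000002000000000 0x1f0000003e00000077000000770000003e0000001f 10 7) 0 0 (step_sound _ 36 [(rh932754581e0f4330.shift 4 0), rha426c7efb6f9abcf] (by decide +kernel))
noncomputable def rhe7e8410d0ad22277 : CRef := CRef.mk (Pat.mk 0x1000000010000000180000005000000000 0xf0000001f0000001e000000fc000000de0000000c 10 8) 0 0 (step_sound _ 35 [(rh932754581e0f4330.shift 3 0), rh9977ad88fec273b3] (by decide +kernel))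
noncomputable def rh4492db743883f50e : CRef := CRef.mk (Pat.mk 0x10000000100000001800000058000000000000000000000000 0xc0000001e000000f7000000ff000000df000000070000000600000002 10 8) 0 0 (step_sound _ 195 [rh18d88faf0c16fef0, (rh50fbb5868c909700.shift 3 3)] (by decide +kernel))
noncomputable def rh0619c1659913e251 : CRef := CRef.mk (Pat.mk 0x200000002000000030000000a0000000800000000000000000 0x11c0000013c000003ff000001fe000001af0000009e0000001e0000001e 10 10) 0 0 (step_sound _ 196 [(rh50fbb5868c909700.shift 4 3), rhd25ee810ded0cf24] (by decide +kernel))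
noncomputable def rh729b7f65fc6f94bf : CRef := CRef.mk (Pat.mk 0x200000007000000000000000000000000000000000 0x140000001c0000001c0000000c000000ff0000007e0000001f0000000e0000000e0000000a 10 8) 0 0 (step_sound _ 131 [(rh1069dcc4c6d7d888.shift 0 3), (rh1b4bcec15968765e.shift 2 3), (rh1f9701c4cf497514.shift 0 3), (rh592c7139d2c44767.shift 1 3), rhec299a55e8ce0ab8, (rhec46bd5500c722c9.shift 2 4)] (by decide +kernel))
noncomputable def rhf5ddf26375aadc2a : CRef := CRef.mk (Pat.mk 0x100000001000000010000000500000000000000000 0x1600000016000000ff000000ff000000df0000000c00000004 10 8) 0 0 (step_sound _ 67 [(rh932754581e0f4330.shift 3 1), rhedc7191241004692] (by decide +kernel))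
noncomputable def rheea222ff14fc4d44 : CRef := CRef.mk (Pat.mk 0x800000008000000080000000c00000000 0xf70000007e000000ef0000001f0000000f00000001 10 8) 0 0 (step_sound _ 130 [(rh50fbb5868c909700.shift 2 1), rh74cf79715023d0dc] (by decide +kernel))
noncomputable def rhcbac9668806ea359 : CRef := CRef.mk (Pat.mk 0x10000000180000004000000040000000000000000000000000 0x8000000080000001c000000be000000f8000001fe000000df0000007c000000380000001000000010 10 9) 0 0 (step_sound _ 131 [(rh5676c571199efcc0.shift 0 2), (rha932df7c759f8641.shift 2 0), (rhdc2a8236b56c0a85.shift 0 2), (rhf9366b6a121593ef.shift 3 2)] (by decide +kernel))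
noncomputable def rhb83c6df44e65ca24 : CRef := CRef.mk (Pat.mk 0x10000000180000004800000040 0xc0000009c000000ff000001ff000000fc000000df00000054 10 9) 0 0 (step_sound _ 132 [rh185b6404e23915ff, (rh5c5e593799055d58.shift 3 1)] (by decide +kernel))
noncomputable def rh21a453e9edf3e395 : CRef := CRef.mk (Pat.mk 0x1000000018000000180000000800000000 0xc0000000c0000003f0000001f0000001b0000001f00000016 10 6) 0 0 (step_sound _ 131 [rh34ae608003fd79f6, (rh3e595262c1b737ad.shift 3 1), (rh7b9fbdf6d2d059e4.shift 2 1)] (by decide +kernel))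
noncomputable def rh530c14be35b59a1d : CRef := CRef.mk (Pat.mk 0x18000000180000000800000000 0xc0000000c0000000f0000003f0000001b0000001f00000016 10 6) 0 0 (step_sound _ 131 [rh3779ab0ca435c230, (rh3e595262c1b737ad.shift 3 1), (rh7b9fbdf6d2d059e4.shift 2 1)] (by decide +kernel))
noncomputable def rh6ead66ae93968668 : CRef := CRef.mk (Pat.mk 0x20000000700000000000000000000000000000000000000000 0x140000001c0000001c000000ff0000007e0000000f0000001c0000001c0000001c00000014 10 8) 0 0 (step_sound _ 163 [(rh592c7139d2c44767.shift 1 4), (rh938d97af9be64f5e.shift 2 0), (rhb12ffaec36122c99.shift 0 4), (rhec46bd5500c722c9.shift 2 5)] (by decide +kernel))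
noncomputable def rhc0ef3957f6ee50ee : CRef := CRef.mk (Pat.mk 0x20000000200000003000000010000000000000000000000000 0x10000000100000001f0000003e0000007f0000003e0000003f0000000e0000000e0000000a 10 7) 0 0 (step_sound _ 131 [(rh6558fc11d90a948b.shift 1 3), (rh8d56a5ed1b884032.shift 0 3), (rhb12ffaec36122c99.shift 0 3), rhec299a55e8ce0ab8] (by decide +kernel))
noncomputable def rhd09249bf5d4b6d9c : CRef := CRef.mk (Pat.mk 0x100000001800000008000000480000000000000000 0x200000006000000770000007f0000001f0000007f0000003200000032 10 7) 0 0 (step_sound _ 98 [(rh0bb882ba86b2372d.shift 0 3), (rh109a9fd3ce3a3c93.shift 1 2), rh6810d03a87f91f47, (rh69012675dfdb1a5b.shift 0 3)] (by decide +kernel))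
noncomputable def rh4c70463a9515a677 : CRef := CRef.mk (Pat.mk 0x80000000c00000024 0x4000000040000000e0000000f0000007f000000ff0000006c 10 8) 0 0 (step_sound _ 99 [(rh5c5e593799055d58.shift 2 0), rhbc9fe4d75e7f61fb] (by decide +kernel))
noncomputable def rh634cfd45ff6c214f : CRef := CRef.mk (Pat.mk 0x180000000c0000002000000020000000000000000000000000 0xc0000001f000000ff000000670000003f0000000f0000000700000005 10 8) 0 0 (step_sound _ 161 [(rh53b3c253cb0c65f4.shift 0 5), rh82824d35b7b11e35] (by decide +kernel))
noncomputable def rh45573f4e72cdc2bc : CRef := CRef.mk (Pat.mk 0x400000006000000100000001000000000000000000 0x258000002580000077e000003fe0000037f000001fc0000003c0000001c 10 11) 0 0 (step_sound _ 135 [(rh20aaab6250709fa0.shift 4 3), (rh9e2f6857846924b3.shift 4 1), (rhb6101abbe89640ef.shift 4 1), rhee4cc8af5374ab13] (by decide +kernel))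
noncomputable def rh74b50a7fe53553dc : CRef := CRef.mk (Pat.mk 0x180000000c0000002000000000 0x1a0000003e000000f30000001f000000ff0000006c00000008 10 8) 0 0 (step_sound _ 65 [(rh53b3c253cb0c65f4.shift 0 2), rh6afecca201f134d0] (by decide +kernel))
noncomputable def rh0243452c0bffa0a2 : CRef := CRef.mk (Pat.mk 0x2c00000006000000100000001000000000 0x560000007e000000fe000000fc0000006f0000006e000000760000001e00000006 10 8) 0 0 (step_sound _ 163 [(rh4821dcf828b9d7bf.shift 2 1), (rh9f6fdfdcae475b6b.shift 0 1), (rhadf429772c25fde0.shift 2 1), (rhf91b1398c815afd2.shift 2 1), rhfce208e3035df8fb] (by decide +kernel))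
noncomputable def rh627d4def9bdfc870 : CRef := CRef.mk (Pat.mk 0x4000000060000001200000010 0x20000000380000003c0000003c0000003e0000003e0000003700000010 10 6) 0 0 (step_sound _ 130 [rh013e62f07fd3d494, (rh5c5e593799055d58.shift 1 1)] (by decide +kernel))
noncomputable def rh27684fc0e783f98e : CRef := CRef.mk (Pat.mk 0x180000000c000000000000000000000000 0x5000000170000001f0000003b0000001f000000ff0000000f0000000400000004 10 8) 0 0 (step_sound _ 97 [(rh53b3c253cb0c65f4.shift 0 3), rh7299406317c9db9c] (by decide +kernel))
noncomputable def rh1d10566d79892081 : CRef := CRef.mk (Pat.mk 0x100000003800000000000000080000000000000000 0x20000000770000003e000000170000003e0000001e00000002 10 7) 0 0 (step_sound _ 130 [(rh592c7139d2c44767.shift 0 3), (rh8dd6ebfe860879ac.shift 1 0), (rhec46bd5500c722c9.shift 1 4), (rhedf6b6c69a16cbd5.shift 0 4)] (by decide +kernel))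
noncomputable def rhbc0cc71d7b783fe3 : CRef := CRef.mk (Pat.mk 0x1000000038000000000000000000000000 0x2000000034000000760000003e000000ff0000001f0000000800000008 10 8) 0 0 (step_sound _ 131 [rh01a753651edb2c61, (rh6de466fa9ade19a6.shift 2 0), (rhe2b63c00a3d7bb73.shift 1 3)] (by decide +kernel))
noncomputable def rh6b32807f49471575 : CRef := CRef.mk (Pat.mk 0x4000000060000001200000010 0x20000000380000003c0000003c0000003f0000003e0000003700000010 10 6) 0 0 (step_sound _ 130 [rh445babcca1b240d2, (rh5c5e593799055d58.shift 1 1)] (by decide +kernel))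
noncomputable def rhcc30d53b57b8396c : CRef := CRef.mk (Pat.mk 0x600000003800000080000000800000000000000000 0x20000000600000007800000038000001be000000fe0000007f00000020 10 9) 0 0 (step_sound _ 68 [(rh00d6a6e3c7e3bb40.shift 4 1), (rh0f4eadd452a7fff7.shift 3 1), (rh580df77fe152422b.shift 4 1), (rh8b5d80517523fcce.shift 0 1), (rhf43001231729af4a.shift 1 0)] (by decide +kernel))
noncomputable def rhcb6f85ded72456e7 : CRef := CRef.mk (Pat.mk 0x200000003000000080000000800000000000000000 0x100000001c0000001cc000001cc000001ff000001fe0000018f0000008e0000000e0000000a 10 9) 0 0 (step_sound _ 131 [(rh2d4279defcfbf2b8.shift 3 2), (rhb12ffaec36122c99.shift 0 3), rhec299a55e8ce0ab8] (by decide +kernel))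
noncomputable def rh0b8b25552b408a04 : CRef := CRef.mk (Pat.mk 0x200000003000000090000000800000000000000000 0x10c0000010c000003ff000001fe000001bf0000008e0000000e0000000a 10 10) 0 0 (step_sound _ 134 [(rh02575fc56458b534.shift 1 3), (rh20aaab6250709fa0.shift 3 3), (rh74d28e14039479b5.shift 1 3), rh7a1f6a0f2b0296d1, (rhc1c8ef3b77490bf7.shift 4 2)] (by decide +kernel))
noncomputable def rhf97c055c3901ae4f : CRef := CRef.mk (Pat.mk 0x18000000080000002000000020000000000000000000000000 0x140000001c0000001c0000003e000000fe000000ff0000001f000000ff000001e80000003c0000001c0000001c00000014 10 9) 0 0 (step_sound _ 131 [(rh30ffb8d4afd600cc.shift 1 3), (rh7892838aec40c3e1.shift 2 0), (rh8d58ec6c687cd5d6.shift 0 4), (rh9a0e653e04772e16.shift 2 1)] (by decide +kernel))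
noncomputable def rhafe53821ddef66dc : CRef := CRef.mk (Pat.mk 0x20000000200000003000000010 0x18000000180000007f000001ff000001ff00000030 10 9) 0 0 (step_sound _ 70 [rh2a9d9e20cf71b5f0, (rh3a020e182dfd1d54.shift 3 1), rh548ea71dd05ba8de, (rh574fdbf07bdd18b9.shift 2 1), (rhd69c262cd33b94b3.shift 2 1)] (by decide +kernel))
end Crest.Agent.S0047.Helper85.Cert
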