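import Crest.Agent.Lib.S0047.Helper85CertPL9F0
import Crest.Agent.Lib.S0047.Helper85CertPL9F1
import Crest.Agent.Lib.S0047.Helper85CertPL9F2
import Crest.Agent.Lib.S0047.Helper85CertPL9F3
import Crest.Agent.Lib.S0047.Helper85CertPL9F4
import Crest.Agent.Lib.S0047.Helper85CertPL9F5
import Crest.Agent.Lib.S0047.Helper85CertPL9F6
set_option autoImplicit false
set_option linter.all false
set_option Elab.async false
namespace Crest.Agent.S0047.Helper85.Cert
open Crest.Agent.S0047.Helper85

noncomputable def rha88ac39e48d4de8e : CRef := CRef.mk (Pat.mk 0x200000003000000010000000400000014 0xfe0000007f000000ff0000001c00000014 10 8) 0 0 (step_sound _ 98 [(rh2613c889e411427e.shift 1 0), rh4e16995cd3f28ca1] (by decide +kernel))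
noncomputable def rh9da1745a0b9c0d8a : CRef := CRef.mk (Pat.mk 0x60000000200000008000000080 0x5000000050000000ff000000fe000000ef000000a0000000a0 10 8) 0 0 (step_sound _ 134 [(rh4821dcf828b9d7bf.shift 5 0), rhbd5268775f254b50, (rhf91b1398c815afd2.shift 5 0), (rhfd7355c70a96284b.shift 5 0)] (by decide +kernel))
noncomputable def rh97f423a11e5e85d4 : CRef := CRef.mk (Pat.mk 0x10000000180000003800000008 0x5000000070000000f0000001f0000001f0000003f0000000f 10 6) 0 0 (step_sound _ 34 [rha548d94a6f18a802, rhaa816b3dadb2f4ea, (rhbe5fc5902345a0b9.shift 0 1)] (by decide +kernel))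
noncomputable def rh061b1341422ada59 : CRef := CRef.mk (Pat.mk 0x30000000300000004000000000 0x7c0000007c000001ff0000003e0000007f000000de00000010 10 9) 0 0 (step_sound _ 133 [rh0b73c4d0736e4adc, (rh3786e859c99c7bbd.shift 2 2), (rh503dd4575245365b.shift 4 1)] (by decide +kernel))
noncomputable def rhc5f074cca5c2cd00 : CRef := CRef.mk (Pat.mk 0x80000001800000018000000180000002000000020 0x20000000e8000000fc000000df0000005f0000006400000020 10 8) 0 0 (step_sound _ 66 [(rh932754581e0f4330.shift 2 1), rhadd8ff9a8a15ddd9] (by decide +kernel))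
noncomputable def rha57396e8139b4f09 : CRef := CRef.mk (Pat.mk 0x4000000060000000200000008000000080 0x100000001000001cff00000ffe00001cef000000a0000000a0 10 13) 0 0 (step_sound _ 103 [(rh2613c889e411427e.shift 6 0), rh3062cc2dcb189b20] (by decide +kernel))
noncomputable def rha8d312f43ed20fa8 : CRef := CRef.mk (Pat.mk 0x1000000010000000400000004000000000000000000000000000000000 0x280000003800000038000001f8000000ff000001fe0000007f0000005c0000007800000038000000380000003800000028 10 9) 0 0 (step_sound _ 164 [(rh5695e0afd76d11ac.shift 3 1), (rh5e8ced243ac9081d.shift 3 0), (rh60bb53f896360232.shift 1 4), (rh79e2dfaa8afaa996.shift 0 1), (rh9b6b0a2fd63afa6e.shift 2 4), (rh9c46a7060d06e11a.shift 2 0), (rhab726308d791659d.shift 2 1)] (by decide +kernel))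
noncomputable def rhabbafe999223bd6d : CRef := CRef.mk (Pat.mk 0x1c00000006000000100000001000000000 0x600000006000000370000001e0000003e000000370000001e0000000a 10 6) 0 0 (step_sound _ 129 [rh1650954c69305558, rhbd27a65cad1e7c1b, (rhbdb8dfd08861fbf7.shift 0 2)] (by decide +kernel))
noncomputable def rh59620f7c513a17ed : CRef := CRef.mk (Pat.mk 0x200000002000000030000000800000008000000000 0x300000003000000030000001be000000fe0000007f 10 9) 0 0 (step_sound _ 36 [(rh06181a2dc624c6f8.shift 4 1), (rh0f4eadd452a7fff7.shift 3 0), rh72651d93d15526b9, (rhae07e98b348875d7.shift 4 0), (rhdebc43b768884653.shift 4 0)] (by decide +kernel))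
noncomputable def rh18123a14ddb281fa : CRef := CRef.mk (Pat.mk 0x200000003000000090000000800000000000000000 0x11c0000011e000003bf000001fe000001bf0000008e0000000e0000000a 10 10) 0 0 (step_sound _ 134 [(rh20aaab6250709fa0.shift 3 3), (rh474e234485f2465c.shift 3 3), rh5d30301cd57dfc30, (rhc1c8ef3b77490bf7.shift 4 2)] (by decide +kernel))
noncomputable def rh9e0248ebb049c114 : CRef := CRef.mk (Pat.mk 0x20000000300000009000000080 0x13c0000013e000003ff000001fe0000019f00000088 10 10) 0 0 (step_sound _ 133 [(rh5c5e593799055d58.shift 4 1), rh7b747664a7d4ea7c] (by decide +kernel))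
noncomputable def rha2571e3bfcc03b2a : CRef := CRef.mk (Pat.mk 0x18000000080000002000000000 0x140000001c0000003e000000ff000000ff0000001f0000003c0000002c0000000c 10 8) 0 0 (step_sound _ 132 [(rh4821dcf828b9d7bf.shift 3 0), (rh83b6dcb419e3df1b.shift 1 1), (rhadf429772c25fde0.shift 3 0), rhd8ae9cf30496c947, (rhf91b1398c815afd2.shift 3 0)] (by decide +kernel))
noncomputable def rhc38bf13f8a262d05 : CRef := CRef.mk (Pat.mk 0x1800000008000000200000000000000000 0x7000000070000000f0000007f000000ff0000006f0000000e00000006 10 8) 0 0 (step_sound _ 98 [(rh0bb882ba86b2372d.shift 0 3), (rh32779693f241304f.shift 1 1), (rh574fdbf07bdd18b9.shift 0 3), rh97de1f0bfbdac795] (by decide +kernel))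
noncomputable def rhe1487edd2abffe7c : CRef := CRef.mk (Pat.mk 0x1000000010000000400000004000000000000000000000000000000000 0x280000003800000038000001f8000000fe000001f800000058000000dc0000007f0000003e0000003f0000003800000008 10 9) 0 0 (step_sound _ 164 [(rh12e2d20b3d4f381a.shift 3 3), (rh60bb53f896360232.shift 1 4), (rh6f050b870fcb2e57.shift 3 3), rh867239122cd8b4e4, (rh9a0e653e04772e16.shift 3 2), (rh9b6b0a2fd63afa6e.shift 2 4), rhd80337218f51c545] (by decide +kernel))
noncomputable def rhd27315ec07daa134 : CRef := CRef.mk (Pat.mk 0x80000000800000028000000880000000000000000 0x398000001fc000001ef000000980000009800000018 10 10) 0 0 (step_sound _ 36 [rhc6416c87c949383f, (rhd3458b32566d63f7.shift 3 1)] (by decide +kernel))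
noncomputable def rh68d5bb5819f1e8f1 : CRef := CRef.mk (Pat.mk 0x400000004000000040000001400000010 0xa0000000e0000000e00000006000000060000000e0000003c0000001f0000001600000014 10 6) 0 0 (step_sound _ 161 [rhf222813a2beb4592, (rhffd04209dc8ea796.shift 1 1)] (by decide +kernel))
noncomputable def rh6447a678191e56d1 : CRef := CRef.mk (Pat.mk 0x10000000200000002000000020000000a0000002000000000 0x4000000070000000700000002000000e60000007f0000007b0000002000000020 10 8) 0 0 (step_sound _ 193 [(rh50fbb5868c909700.shift 0 3), rhe8996ef1f717b314] (by decide +kernel))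
noncomputable def rh099e796e034aca24 : CRef := CRef.mk (Pat.mk 0x1000000010000000500000005800000000 0x20000000f40000003e000000de0000007e00000007 10 8) 0 0 (step_sound _ 133 [(rh2f68792b6b779e96.shift 4 1), rh8245481cba155a43] (by decide +kernel))
noncomputable def rh173b5adc1bc947d8 : CRef := CRef.mk (Pat.mk 0x1c00000008000000200000002000000000 0xe4000000fe000001f80000006f0000003e0000001f 10 9) 0 0 (step_sound _ 133 [(rh2df5afcfc4cfd1fc.shift 2 1), rh4869853105bc929a, (rh6a78fa75f0f8d5b0.shift 2 1), (rh8f6ac4756b9a6be8.shift 3 1)] (by decide +kernel))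
noncomputable def rheb41735222952e9d : CRef := CRef.mk (Pat.mk 0x70000000200000000000000000 0xa0000004e0000004e000000ef0000007e000000ef0000002c0000002c 10 8) 0 0 (step_sound _ 99 [(rh3918eeb6c53434d8.shift 0 2), (rh592c7139d2c44767.shift 1 2), (rha03f6e28ea70fc7d.shift 2 2), (rhf462af2fa8809f8e.shift 1 0), (rhf60cdf71a14eca6b.shift 3 0), (rhfcb55d5dc3b78d1f.shift 1 2)] (by decide +kernel))
noncomputable def rh0633f4a264a6844b : CRef := CRef.mk (Pat.mk 0x70000000200000000000000000 0xa000000ee000000fe000000ff0000007e000000ef0000000c0000000c 10 8) 0 0 (step_sound _ 99 [(rh3918eeb6c53434d8.shift 0 2), (rh592c7139d2c44767.shift 1 2), (rh5c6eabefe98288b9.shift 2 2), (rha03f6e28ea70fc7d.shift 2 2), (rhf462af2fa8809f8e.shift 1 0), (rhfcb55d5dc3b78d1f.shift 1 2)] (by decide +kernel))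
noncomputable def rhee25ba71a55ed8c6 : CRef := CRef.mk (Pat.mk 0x30000000100000004000000040 0x2000000020000001fe000001fe000003f7000000d000000050 10 10) 0 0 (step_sound _ 133 [(rh4821dcf828b9d7bf.shift 4 0), rh4c2307d38e41ecb7, (rhadf429772c25fde0.shift 4 0)] (by decide +kernel))
noncomputable def rheb19fe5cec84a2ad : CRef := CRef.mk (Pat.mk 0x8000000080000000800000008 0x140000001f0000003f0000003f0000000c0000000c0000000c0000000c 10 6) 0 0 (step_sound _ 131 [(rh1726a00b0a8befd0.shift 2 0), (rh3b734c5288922837.shift 2 0), (rh3ca48e2a6d60153d.shift 2 0), (rh771d065bdc85bf2d.shift 2 0), (rhc42d113393796eba.shift 0 1), (rhc85cc95794737cf7.shift 2 1)] (by decide +kernel))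
noncomputable def rh5c0ee3d135d05182 : CRef := CRef.mk (Pat.mk 0x180000000c0000000a0000000a000000080000000800000000 0x50000000f0000001b0000000f0000000a0000001f000000790000000c00000004 10 7) 0 0 (step_sound _ 68 [rh2b4a8cacdf1375f9, (rhd3458b32566d63f7.shift 3 2)] (by decide +kernel))
noncomputable def rh6020b12fc423e06d : CRef := CRef.mk (Pat.mk 0x1000000050000000400000014000000000 0x80000000e0000002e0000007e700001ffe00000ff700001fc00000014000000100 10 13) 0 0 (step_sound _ 134 [(rh1741680720c097b4.shift 5 1), (rh65ea2becd35674d0.shift 3 1), (rh86776561faeee048.shift 0 1), (rh9a9ffc3d3d4752eb.shift 3 0), (rha011e19fdaacded3.shift 4 1), (rhf8aa6e00902d9ee7.shift 5 1)] (by decide +kernel))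
noncomputable def rh4c60383a28f17e5f : CRef := CRef.mk (Pat.mk 0x8000000050000000580000004000000000 0x28000000fe000000ef0000005f0000007f0000005700000006 10 8) 0 0 (step_sound _ 134 [(rh2f68792b6b779e96.shift 6 1), rh77e93098a6afd229] (by decide +kernel))
noncomputable def rheb1e69abba9f0921 : CRef := CRef.mk (Pat.mk 0x800000005000000058000000400000000800000000 0x28000000f8000000ef0000005f0000005f0000005e0000000c0000000c 10 8) 0 0 (step_sound _ 166 [(rh2f68792b6b779e96.shift 6 2), rhd89fb92d37252ffb] (by decide +kernel))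
noncomputable def rh07efd5d24dc5d8da : CRef := CRef.mk (Pat.mk 0x7000000050000000400000006000000000 0x140000001c0000001e0000000f0000007f0000007f000000df0000007e0000001e 10 8) 0 0 (step_sound _ 131 [(rh7a1b87a097c25c8d.shift 2 0), rh7b6072d21b803efe, (rh91cf0b9afc46888c.shift 1 0), (rhd1d05263fabc0227.shift 1 3), (rhd2d5ea5feb171b53.shift 2 2)] (by decide +kernel))
noncomputable def rh0bb62ce3502e42ac : CRef := CRef.mk (Pat.mk 0xe0000000200000008000000080 0x7000000078000001de000000fe000000bf000000a0000000a0 10 9) 0 0 (step_sound _ 134 [rh00d6df1d79a46330, (rh2613c889e411427e.shift 6 0)] (by decide +kernel))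
noncomputable def rhacc351f1a969d86d : CRef := CRef.mk (Pat.mk 0x1400000014000000100000001000000000 0x80000003800000038000000380000001c0000007f000000f70000001800000008 10 8) 0 0 (step_sound _ 164 [rh28dcd531888dbf67, (rh3ca48e2a6d60153d.shift 3 1), (rhc85cc95794737cf7.shift 3 2), (rhf2d0eed062749239.shift 1 0)] (by decide +kernel))
noncomputable def rhf77fc88a85f26a99 : CRef := CRef.mk (Pat.mk 0x6800000028000000200000002000000000 0x60000007c0000006c0000006f0000003e00000017 10 7) 0 0 (step_sound _ 132 [rhcee6cd01f55cf020, (rheb0810cc63b001d8.shift 2 3)] (by decide +kernel))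
noncomputable def rhd963817c8326ba37 : CRef := CRef.mk (Pat.mk 0x2800000028000000200000002000000000 0x160000003c000000680000006f0000003e00000017 10 7) 0 0 (step_sound _ 132 [(rh50fbb5868c909700.shift 4 1), rhcee6cd01f55cf020] (by decide +kernel))
noncomputable def rhe8209813ba35ab18 : CRef := CRef.mk (Pat.mk 0x10000000100000001000000000 0x28000000fe000000ff0000003e000000180000001800000008 10 8) 0 0 (step_sound _ 132 [(rh1741680720c097b4.shift 3 1), (rh20966da26a1c2ae8.shift 3 0), rh2f29a75a07d93df0, (rh771d065bdc85bf2d.shift 3 0)] (by decide +kernel))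
noncomputable def rhebbe7eb08d0f90a5 : CRef := CRef.mk (Pat.mk 0x1000000050000000400000000000000000 0xc0000001c0000001c000003df000003fe0000007f0000003c0000003c 10 10) 0 0 (step_sound _ 101 [rh38c48ba9476d7db9, rh97ba0137397d0733, (rha9fbfd4bb8cf890b.shift 1 3), (rhf57e429b22973115.shift 3 2)] (by decide +kernel))
noncomputable def rhb9e497339a007a32 : CRef := CRef.mk (Pat.mk 0x1000000050000000400000000000000000 0xc0000007c000000fc000003df000003fe0000007f0000001c0000001c 10 10) 0 0 (step_sound _ 101 [rh25f11acaf10141a3, rh38c48ba9476d7db9, (rha9fbfd4bb8cf890b.shift 1 3), (rhf57e429b22973115.shift 3 2)] (by decide +kernel))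
noncomputable def rh45cc91049de16250 : CRef := CRef.mk (Pat.mk 0x800000008000000280000002000000000 0x140000001c0000001c0000001800000078000000ff0000002f000000780000003c00000014 10 8) 0 0 (step_sound _ 163 [(rh187733abe5006915.shift 2 1), (rh67d938f56e893c6d.shift 0 1), (rh971dc3c4871dc881.shift 2 0)] (by decide +kernel))
noncomputable def rhab97455c36cf7d4f : CRef := CRef.mk (Pat.mk 0x800000008000000080000003800000020 0xf4000000ff0000007f0000002c0000007800000020 10 8) 0 0 (step_sound _ 66 [rhb6e99b900f300d85, (rhf48373e13d2bc128.shift 2 1)] (by decide +kernel))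
noncomputable def rh1c4bd8c8324056d3 : CRef := CRef.mk (Pat.mk 0x1000000010000000180000005000000040 0x1e0000001e0000007f000000ff000000de0000005000000040 10 8) 0 0 (step_sound _ 99 [rh2eca9713144a7556, (rh7f9f3607ee25a93b.shift 3 1), rh80acceff05e916c8, rha5b8098c3a1ac9c5] (by decide +kernel))
noncomputable def rh4693c226a158db91 : CRef := CRef.mk (Pat.mk 0x2000000020000000a000000080 0x1000000078000000780000007c000000ff000003fe000001bf000000a0000000a0 10 10) 0 0 (step_sound _ 133 [(rh1741680720c097b4.shift 4 1), (rh187733abe5006915.shift 4 0), rh4f859c3f1eb7e979, (rh5ee4dc8825dcefa0.shift 2 0), (rhe36b351fe63a9d07.shift 4 1)] (by decide +kernel))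
noncomputable def rh44c9e2a1a9627ed7 : CRef := CRef.mk (Pat.mk 0x1000000050000000400000000000000000 0xc0000000c0000004c000003df000003fe0000007f0000003c0000003c 10 10) 0 0 (step_sound _ 101 [rh01e09ab0562d142b, (rha9fbfd4bb8cf890b.shift 1 3), rhd8bc806b85e53302, (rhf57e429b22973115.shift 3 2)] (by decide +kernel))
noncomputable def rhd7334bbc12141111 : CRef := CRef.mk (Pat.mk 0x2000000020000000a0000002e0000000000000000 0x3d0000007f000000fa0000007e0000002e0000002000000020 10 8) 0 0 (step_sound _ 162 [(rh2f68792b6b779e96.shift 1 2), rh5610fdc71959581a] (by decide +kernel))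
noncomputable def rhb454f509b2944098 : CRef := CRef.mk (Pat.mk 0x800000008000000280000002000000000 0x140000001f0000003f0000003f000000fc0000002c0000003c0000003800000010 10 8) 0 0 (step_sound _ 163 [(rh1741680720c097b4.shift 2 2), (rh187733abe5006915.shift 2 1), (rh3e4d7fe503ccc40b.shift 0 2), (rh8ff3dde5b1c639e0.shift 2 0)] (by decide +kernel))
noncomputable def rh63393d4493995865 : CRef := CRef.mk (Pat.mk 0x18000000020000000a00000008 0x10000000700000007000000070000001f0000003f0000000b0000000b00000009 10 6) 0 0 (step_sound _ 67 [(rh2f68792b6b779e96.shift 3 0), rh61b86c3c8c8889af] (by decide +kernel))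
noncomputable def rhb27df01274c24362 : CRef := CRef.mk (Pat.mk 0xc0000000100000005000000040 0x800000038000000380000003f000001fe000001ff00000198000000d800000048 10 9) 0 0 (step_sound _ 100 [(rh333e7d595dc8b49b.shift 3 0), (rh7156846f50bf0aca.shift 3 1), rh73860364aa56cff1, (rh9a5171792c361ce2.shift 3 0)] (by decide +kernel))
noncomputable def rh50fedfad6753a41e : CRef := CRef.mk (Pat.mk 0x40000000400000000000000020000000a00000000 0xa0000003e0000003f0000003f0000000c0000000c0000000e0000000a00000008 10 6) 0 0 (step_sound _ 98 [rh2bd6ef0e1cc4560c, (rheea67dfebd0f8008.shift 1 1)] (by decide +kernel))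
noncomputable def rhdc456310abe07244 : CRef := CRef.mk (Pat.mk 0x40000000180000005000000040000000000000000000000000 0x1c000000fc000000fc00000018000000ff0000006f0000003c0000003c00000014 10 8) 0 0 (step_sound _ 133 [rh07b8142a141fc6c4, (rhf48373e13d2bc128.shift 3 4)] (by decide +kernel))
noncomputable def rh3b96b324c8a72896 : CRef := CRef.mk (Pat.mk 0x100000001c0000001000000010 0x5000000070000000f0000001b0000003f0000001700000014 10 6) 0 0 (step_sound _ 99 [(rh50fbb5868c909700.shift 3 0), rhfa4b9474fa11f414] (by decide +kernel))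
noncomputable def rh2744c52d6ab7462d : CRef := CRef.mk (Pat.mk 0x700000004000000040 0x1c0000003c0000003c0000007f000001fe0000005f00000058 10 9) 0 0 (step_sound _ 101 [rh494cf2fafb0caefa, (rhc89253ff58c66167.shift 5 0), (rhf37ea0d9a86fec3d.shift 1 0)] (by decide +kernel))
noncomputable def rhed810d1a7b588b12 : CRef := CRef.mk (Pat.mk 0x10000000e0000000000000020000000000000000000000000 0x630000007e0000006700000020000000700000007000000050 10 7) 0 0 (step_sound _ 164 [(rh3f8766e6ecb455ce.shift 0 5), rhfe29dd5d23e52b0f] (by decide +kernel))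
noncomputable def rhaeccced0b75c9430 : CRef := CRef.mk (Pat.mk 0x100000001c00000010000000180000000000000000 0x10000000700000017000000170000001f0000001f0000001f0000000700000005 10 5) 0 0 (step_sound _ 99 [rh224666264ddb3414, (rh5c5e593799055d58.shift 3 2)] (by decide +kernel))
noncomputable def rh0f8ec0d2915dcf38 : CRef := CRef.mk (Pat.mk 0x100000001c0000001000000008 0x50000000700000017000000130000003f0000001f0000000c 10 6) 0 0 (step_sound _ 35 [(rh5c5e593799055d58.shift 3 0), rhef3d8b947f49434d] (by decide +kernel))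
noncomputable def rh632bc4bcb481628f : CRef := CRef.mk (Pat.mk 0x180000001c000000000000000000000000 0x50000000700000007000000070000001f0000001f000000070000000200000002 10 5) 0 0 (step_sound _ 97 [(rh53b3c253cb0c65f4.shift 0 3), rhd09836b62f3b8a87] (by decide +kernel))
noncomputable def rh93531c2f2a4a2d39 : CRef := CRef.mk (Pat.mk 0x1c00000018000000100000000000000000 0x1c0000001c0000007f0000001b0000001f0000000e00000008 10 7) 0 0 (step_sound _ 163 [(rh2145e1d24b96a57e.shift 3 2), rh760fd7902454f6a8] (by decide +kernel))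
noncomputable def rh773064f169cd0071 : CRef := CRef.mk (Pat.mk 0x80000000c000000180000001000000000000000000000000000000000 0x40000000c0000000c0000001f0000001f0000000f0000000f0000000f00000005 10 5) 0 0 (step_sound _ 131 [(rh46d6183566ef1216.shift 2 1), rhd93707983e9f8037, (rhe286c75f2739cce2.shift 2 3)] (by decide +kernel))
noncomputable def rh227df709a1ccbb22 : CRef := CRef.mk (Pat.mk 0x200000007000000040000000000000000000000000 0x18000000180000007f0000007e0000007f0000001c0000001c0000000c 10 7) 0 0 (step_sound _ 131 [(rh1f5f74f9939ba32f.shift 2 0), (rh36eba2a3de447758.shift 0 3), (rh6765e7960b108c8d.shift 2 3), (rhb103f40a53fe1424.shift 0 3)] (by decide +kernel))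
noncomputable def rh8d6bd0f0fc9480b0 : CRef := CRef.mk (Pat.mk 0x1c0000001000000010000000000000000000000000 0x60000000e0000000f0000001f0000007c0000001e0000001f0000000f0000000800000008 10 7) 0 0 (step_sound _ 195 [rh8e9b4a71d276fcd5, (rhc89253ff58c66167.shift 3 3), (rhe072fffdd2fccf38.shift 3 3)] (by decide +kernel))
noncomputable def rh3d7a205f2c96a877 : CRef := CRef.mk (Pat.mk 0x700000004000000040 0x140000003c0000003c0000006f000000fe0000007f00000050 10 8) 0 0 (step_sound _ 101 [(rhc89253ff58c66167.shift 5 0), (rhe072fffdd2fccf38.shift 5 0), rhf309c35256515adf] (by decide +kernel))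
noncomputable def rh74e019ea687eafe5 : CRef := CRef.mk (Pat.mk 0x2000000028000000200000002000000000 0x50000000700000007c000001ff0000003c00000018 10 9) 0 0 (step_sound _ 134 [(rh2f68792b6b779e96.shift 5 1), rhfa0f2b160eccf56b] (by decide +kernel))
noncomputable def rha401b1c40b60a8ce : CRef := CRef.mk (Pat.mk 0x80000000000000018000000000000000000000000 0x140000001c0000001c0000000c0000000e0000001f0000001f0000001f00000014 10 5) 0 0 (step_sound _ 131 [(rh14e0829dc73b6804.shift 2 2), (rh1e6400bd70fa042e.shift 2 1), (rh70e33bfdf511e144.shift 3 0), rhf4ada3949e0d11c2] (by decide +kernel))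
noncomputable def rh887da32ab02c40ab : CRef := CRef.mk (Pat.mk 0x80000000600000004000000058000000400000004000000000 0x140000009c000003dc0000007c0000004f000000de000000df0000007e00000034 10 10) 0 0 (step_sound _ 163 [(rh0a75138a5778265c.shift 3 3), rh22c9c475c792a31f, (rhb5577d872f03595b.shift 2 0)] (by decide +kernel))
noncomputable def rh8d17ea6ca9e19b1b : CRef := CRef.mk (Pat.mk 0x5800000040000000000000000000000000 0xc0000000c0000000f000000fc000000dc0000001c0000000c0000000c 10 8) 0 0 (step_sound _ 133 [rh343f5c3cb9818b5d, (rhe25b0a99195a5d59.shift 3 3)] (by decide +kernel))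
noncomputable def rh9978ee22056470f7 : CRef := CRef.mk (Pat.mk 0x200000007000000040000000000000000000000000 0xc0000000c0000006f000000fe0000007f0000001c0000001c0000001c 10 8) 0 0 (step_sound _ 131 [(rh36eba2a3de447758.shift 0 3), (rh6765e7960b108c8d.shift 2 3), (rhb12ffaec36122c99.shift 0 3), (rhe9d95785ade67daa.shift 2 0)] (by decide +kernel))
noncomputable def rhc53061f4cee42c30 : CRef := CRef.mk (Pat.mk 0x7800000048000000400000000000000000 0x2c0000002c0000006f000000fc000000580000005c0000000c0000000c 10 8) 0 0 (step_sound _ 165 [rh215547c38c69a52b, rh91ef0c7a9be97580, (rhc89253ff58c66167.shift 5 2)] (by decide +kernel))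
noncomputable def rh4f18f09e55507f02 : CRef := CRef.mk (Pat.mk 0x40000000e000000180000000c00000000 0x38000000780000006c0000007e0000001b0000000f00000006 10 7) 0 0 (step_sound _ 33 [rh2b6899534a3bef29, (rh53b3c253cb0c65f4.shift 0 1)] (by decide +kernel))
noncomputable def rh459b5216aa6dbdb4 : CRef := CRef.mk (Pat.mk 0x10000000140000001000000050000000000000000000000000 0x1e8000000f8000000f6000000ff0000005e000000e8000000e0000000a0 10 9) 0 0 (step_sound _ 99 [(rh932754581e0f4330.shift 3 2), rhfae39de9491c5e5e] (by decide +kernel))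
noncomputable def rhd2d8fe76ec861180 : CRef := CRef.mk (Pat.mk 0x2800000020000000a0000000000000000000000000 0x4000000040000003c7000001fe000001ff000000a0000001c0000001c000000140 10 10) 0 0 (step_sound _ 164 [(rh3918eeb6c53434d8.shift 0 4), (rh56e3bea49a5ffec8.shift 3 0), rhdb54973789c73117] (by decide +kernel))
noncomputable def rh58aa0f1f57f8922a : CRef := CRef.mk (Pat.mk 0x50000000400000004000000000 0x140000009c0000009c0000019f000001fe000003ff0000007000000020 10 10) 0 0 (step_sound _ 101 [(rh2822b717a6b50e5d.shift 0 1), (rh3918eeb6c53434d8.shift 1 2), (rh554009a2f490582e.shift 0 2), (rh8ee80cc30e93a344.shift 3 2), (rhebdd6227b409bb96.shift 3 0)] (by decide +kernel))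
noncomputable def rh533411438779268a : CRef := CRef.mk (Pat.mk 0x280000002000000020 0x1000000070000000700000007e000001ff000001fe000001ef00000028 10 9) 0 0 (step_sound _ 68 [(rh3918eeb6c53434d8.shift 0 1), (rh427e4468d3dec80a.shift 2 0), (rh8ee80cc30e93a344.shift 2 1), (rhd2c6614e8ad4682c.shift 1 0)] (by decide +kernel))
noncomputable def rhac169d91c6f94e03 : CRef := CRef.mk (Pat.mk 0x700000004000000040 0x140000003c0000003c0000006f000000fe0000007f00000050 10 8) 0 0 (step_sound _ 101 [rh2822b717a6b50e5d, (rhc89253ff58c66167.shift 5 0), (rhe072fffdd2fccf38.shift 5 0)] (by decide +kernel))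
noncomputable def rh815bae1f5176ebec : CRef := CRef.mk (Pat.mk 0xe0000000800000028000000000000000000000000 0x400000004000000670000007e0000007f0000002b000000730000007000000050 10 7) 0 0 (step_sound _ 164 [(rh21460d2d48a35cb8.shift 0 3), (rh2f6ceafd79e3080f.shift 1 0), (rh3947d1dfff0afc6c.shift 0 4), (rhda7d1e246a276c6f.shift 0 2), rhfe29dd5d23e52b0f] (by decide +kernel))
noncomputable def rh15c8475967de5585 : CRef := CRef.mk (Pat.mk 0x380000002000000080000000000000000000000000 0x3de000001fe000001bf00000080000001c0000001c000000140 10 10) 0 0 (step_sound _ 166 [(rh2a535ce68d5cfc5d.shift 2 2), (rhaa53783adb99887e.shift 0 4), (rheaad777ed634577b.shift 0 4), (rhfe29dd5d23e52b0f.shift 2 0)] (by decide +kernel))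
noncomputable def rh6c01c336fcd86f30 : CRef := CRef.mk (Pat.mk 0x800000008000000080000000000000000 0x40000001c0000001f0000003f0000003f0000000c0000000c0000000c0000000c00000004 10 6) 0 0 (step_sound _ 163 [(rh20966da26a1c2ae8.shift 2 1), (rh916fd83c93fa81d6.shift 2 2), (rhc42d113393796eba.shift 0 2), (rhc4526fc8abf298b6.shift 2 0), (rhc85cc95794737cf7.shift 2 2)] (by decide +kernel))
noncomputable def rh359c941e948f398a : CRef := CRef.mk (Pat.mk 0x800000008000000080000000000000000 0x40000001c0000001f0000003f0000003f0000001c0000000c0000001c0000001800000010 10 6) 0 0 (step_sound _ 163 [(rh6c59ce14113da07f.shift 3 0), (rh8ff3dde5b1c639e0.shift 2 0), (rh916fd83c93fa81d6.shift 2 2), (rhc42d113393796eba.shift 0 2), (rhc85cc95794737cf7.shift 2 2)] (by decide +kernel))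
noncomputable def rh3ecaf94b42ceaacf : CRef := CRef.mk (Pat.mk 0x10000000100000001000000000 0x8000000380000003e0000007e000000ff0000003e0000001e0000007800000028 10 8) 0 0 (step_sound _ 132 [(rh641b5241be04eec6.shift 1 0), (rh916fd83c93fa81d6.shift 3 1), (rhc42d113393796eba.shift 1 1), (rhc85cc95794737cf7.shift 3 1), rhe9122a9cf4b5d1f2] (by decide +kernel))
noncomputable def rh13ca9f75479d8652 : CRef := CRef.mk (Pat.mk 0x10000000100000001000000000 0x800000038000000380000003f000000fe000000ff000000180000003800000028 10 8) 0 0 (step_sound _ 132 [(rh20966da26a1c2ae8.shift 3 0), rh69f34d2fa26c2fcc, (rh771d065bdc85bf2d.shift 3 0), (rh916fd83c93fa81d6.shift 3 1), (rhc85cc95794737cf7.shift 3 1)] (by decide +kernel))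
noncomputable def rhb538c141edf97a88 : CRef := CRef.mk (Pat.mk 0x8000000080000002800000000000000000000000000000000 0x4000000058000000fe0000007c0000002f0000007c0000003c0000000c00000004 10 8) 0 0 (step_sound _ 99 [(rh0da2a71655c6a894.shift 2 0), (rh2b2b868914cf5269.shift 0 2), (rh641b5241be04eec6.shift 0 2), (rhbc594059aceee1ac.shift 0 2), (rhcab3157f7bdcba3e.shift 2 1)] (by decide +kernel))
noncomputable def rhd7793fce96443c6a : CRef := CRef.mk (Pat.mk 0x1800000010000000100000001000000000 0x270000003e000000770000001e0000003e00000028 10 7) 0 0 (step_sound _ 133 [(rh2f68792b6b779e96.shift 4 1), rheb00397f2e17b35d] (by decide +kernel))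
noncomputable def rha82bb38aa7aea2ce : CRef := CRef.mk (Pat.mk 0x800000008000000280000000c00000000 0xf70000007e0000006f0000002f0000003f00000010 10 8) 0 0 (step_sound _ 36 [(rh55afc6a59410cf00.shift 3 0), (rhc4f19a1059d81026.shift 0 1)] (by decide +kernel))
noncomputable def rh3435a487c6082bf2 : CRef := CRef.mk (Pat.mk 0x800000008000000080000000c00000000 0xf70000007e000000ef0000001f0000000f00000001 10 8) 0 0 (step_sound _ 130 [rh25f2d94dff6be19b, (rh50fbb5868c909700.shift 2 1)] (by decide +kernel))
noncomputable def rhdde4271a3e56c330 : CRef := CRef.mk (Pat.mk 0x1000000010000000500000007800000000 0xa0000000f0000000f80000005e0000007e000000c7 10 8) 0 0 (step_sound _ 66 [(rh3f8766e6ecb455ce.shift 2 1), rh76772ded3c6f470c] (by decide +kernel))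
noncomputable def rh479937a4d51f754d : CRef := CRef.mk (Pat.mk 0x1800000008000000280000000800000000 0xe70000007e0000006f0000002f0000003f00000014 10 8) 0 0 (step_sound _ 130 [rh097f73403d6721cc, (rh50fbb5868c909700.shift 2 1)] (by decide +kernel))
noncomputable def rhc7d40f203da1023a : CRef := CRef.mk (Pat.mk 0xc00000008000000280000000800000000 0xf30000007e0000006f0000002f0000003f00000014 10 8) 0 0 (step_sound _ 132 [rh097f73403d6721cc, (rh2f68792b6b779e96.shift 3 1)] (by decide +kernel))
noncomputable def rhf05227a9c3803b8d : CRef := CRef.mk (Pat.mk 0x800000008000000280000001800000000 0x570000007f0000007c0000002f0000007c00000064 10 7) 0 0 (step_sound _ 34 [rh0a164acf73651af6, (rh932754581e0f4330.shift 2 0)] (by decide +kernel))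
noncomputable def rh07aae9790be2878f : CRef := CRef.mk (Pat.mk 0xc00000008000000280000000800000000 0x10000002f0000007f0000002f0000007e000000f7 10 8) 0 0 (step_sound _ 36 [(rh55afc6a59410cf00.shift 3 0), rhff0559c51de8e02b] (by decide +kernel))
noncomputable def rh3cb0f7f049f75c28 : CRef := CRef.mk (Pat.mk 0x2000000020000000a0000000000000000000000000 0x10000003d7000001fe000003fc000000e0000000a0000000600000006000000040 10 10) 0 0 (step_sound _ 196 [(rh114f4abf4ea101c9.shift 4 2), (rhabbbc880d8d53c71.shift 0 3), (rhbec796c3ea7a32e6.shift 3 2), (rhf435f65ca384ce7a.shift 4 0)] (by decide +kernel))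
noncomputable def rh06b7da269c38e9f4 : CRef := CRef.mk (Pat.mk 0x1e000000080000000800000000 0x150000001f0000001f0000000b0000001e0000003f0000000f00000004 10 6) 0 0 (step_sound _ 68 [rh4e9c83a2c4a72d64, (rhe25b0a99195a5d59.shift 1 2)] (by decide +kernel))
noncomputable def rh78541ad4025722ab : CRef := CRef.mk (Pat.mk 0x10000000100000005000000000 0x200000003800000038000001ff000000fe000000f7000000780000005800000008 10 9) 0 0 (step_sound _ 132 [(rh1726a00b0a8befd0.shift 3 0), rh1c7b1e8fd6d8a20b, (rh20966da26a1c2ae8.shift 3 0), (rh771d065bdc85bf2d.shift 3 0), (rhc85cc95794737cf7.shift 3 1), (rhf4e9e26b335fe316.shift 3 0)] (by decide +kernel))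
noncomputable def rh72e7ae54d52059c3 : CRef := CRef.mk (Pat.mk 0x1e00000020000000080000000c00000000 0x4000000040000000e30000007e000000630000001f0000000f00000001 10 8) 0 0 (step_sound _ 133 [rh74473c1df99506fd, (rhe25b0a99195a5d59.shift 2 3)] (by decide +kernel))
noncomputable def rh499c52f25614b48f : CRef := CRef.mk (Pat.mk 0x800000008000000080000000800000000 0x14000000fc0000007f000000ff0000001800000018000000180000000800000008 10 8) 0 0 (step_sound _ 163 [(rh1741680720c097b4.shift 2 2), (rh44f453b84f013105.shift 3 1), (rh7b9a3f96ba47279a.shift 0 2), (rh9bb7d10ce98dcee4.shift 3 0), (rhc2034d656568cc12.shift 2 2)] (by decide +kernel))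
noncomputable def rh90a52107acb88281 : CRef := CRef.mk (Pat.mk 0x800000008000000080000000a000000020 0x40000000c0000000c000000080000001ce000000fe0000003f 10 9) 0 0 (step_sound _ 166 [rh8683ac39832c322e, (rhffd04209dc8ea796.shift 6 1)] (by decide +kernel))
noncomputable def rh1334922e374580bc : CRef := CRef.mk (Pat.mk 0x40000000200000002000000028000000080000000000000000 0x600000006800000038000003bf000001fe0000038f0000000c00000008 10 10) 0 0 (step_sound _ 100 [(rh09e3b3c49517183d.shift 2 2), (rh2820ca9a6c4f41b4.shift 0 2), rh38067e6b6ce141b5, (rh8fd03b1c8ba714c0.shift 1 0)] (by decide +kernel))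
noncomputable def rha80071548e75db86 : CRef := CRef.mk (Pat.mk 0x2000000028000000280000000000000000 0x500000007000000070000001f0000001ff0000007e000000280000000800000008 10 9) 0 0 (step_sound _ 100 [rh78563da56612dc34, (rha11dfd15f08f96e3.shift 2 3), (rhf9a66d96a28cdf01.shift 1 0), (rhff7d63dcb3cf9f74.shift 2 3)] (by decide +kernel))
noncomputable def rhf21d098ad8261485 : CRef := CRef.mk (Pat.mk 0x80000000a0000000a00000000000000000000000000000000 0x140000003c0000003c0000007c0000007e000001ff000000fe000000eb00000002000000070000000700000005 10 9) 0 0 (step_sound _ 227 [(rh026480372d4e8590.shift 0 2), (rh1263b29acdae1637.shift 0 4), rh4fd815e323df3bc5, (rhc85cc95794737cf7.shift 2 4), (rhfe3366495e9ffdf4.shift 0 4)] (by decide +kernel))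
noncomputable def rh5b3ddb513af6d7bb : CRef := CRef.mk (Pat.mk 0x50000000100000001000000000000000000000000000000000 0x230000003b000000ff0000001f0000003700000034000000380000003800000028 10 8) 0 0 (step_sound _ 100 [(rh47a96a032af94b95.shift 0 2), (rh57b469c1bf70b264.shift 1 3), (rhc850b49d039efae1.shift 3 0), (rhced6d86d2069808b.shift 4 2)] (by decide +kernel))
noncomputable def rh4c598ace7c7c01b9 : CRef := CRef.mk (Pat.mk 0x50000000100000001000000000000000000000000000000000 0x30000002b000000ff0000001f000000170000003c000000380000003800000028 10 8) 0 0 (step_sound _ 100 [(rh47a96a032af94b95.shift 0 2), (rh57b469c1bf70b264.shift 1 3), (rh6eff4158bb400f47.shift 3 1), (rhc850b49d039efae1.shift 3 0)] (by decide +kernel))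
noncomputable def rh43322465c6975421 : CRef := CRef.mk (Pat.mk 0xa0000000a0000000a0000000200000000 0x1000000170000001f0000001e0000001a0000001a0000000b0000000300000001 10 5) 0 0 (step_sound _ 32 [rh932754581e0f4330, (rhfd7088464668de2d.shift 0 1)] (by decide +kernel))
noncomputable def rhc2564e4e7e17c960 : CRef := CRef.mk (Pat.mk 0x1800000018000000100000000000000000 0x140000001f000000180000001f0000003f0000003c 10 6) 0 0 (step_sound _ 36 [(rh7b1f1fb55310c477.shift 3 0), rheaebc0000686898f] (by decide +kernel))
noncomputable def rhcbf9155d627aedf8 : CRef := CRef.mk (Pat.mk 0x20000000200000002000000020000000000000000000000000000000000000000 0x4000000070000000300000007000000060000000600000007000000070000000700000005 10 3) 0 0 (step_sound _ 129 [(rh47992774edf9829f.shift 0 1), rh9ad5f731febdae61, (rhd29a1fb688eae70f.shift 1 3)] (by decide +kernel))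
noncomputable def rh051f92feabb55a05 : CRef := CRef.mk (Pat.mk 0x4000000010000000180000003c00000000 0x370000007e000000ff000000180000003c00000006 10 8) 0 0 (step_sound _ 2 [rh1d6699b24052ac86, (rheb0810cc63b001d8.shift 1 0)] (by decide +kernel))
noncomputable def rh423772d4046081fa : CRef := CRef.mk (Pat.mk 0x200000002800000028000000000000000000000000 0x10000000700000007000000070000000300000007c0000002f000000700000007000000050 10 7) 0 0 (step_sound _ 69 [(rh127217fa2af7777a.shift 0 2), (rh8cdd36b03d57a2f6.shift 4 0), rhb1c71edfb25a22b9, rhc9691855023d17bc] (by decide +kernel))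
noncomputable def rh8a4f522f3b08096a : CRef := CRef.mk (Pat.mk 0x2000000028000000280000002000000000 0x400000007000000070000000300000007c0000002f0000007800000050 10 7) 0 0 (step_sound _ 164 [rhdb334cd22c442285, (rhffd04209dc8ea796.shift 4 1)] (by decide +kernel))
noncomputable def rh21ea3aee3f363713 : CRef := CRef.mk (Pat.mk 0x5000000010000000500000000000000000 0xa0000000a0000007f7000003fe000007d700000058000000f8000000f8 10 11) 0 0 (step_sound _ 133 [(rh2126bec8881fb2f8.shift 3 0), (rh215e11e099257d75.shift 4 1), (rh74c528fa9eb44c36.shift 0 1)] (by decide +kernel))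
noncomputable def rhee5daf1a1883d4df : CRef := CRef.mk (Pat.mk 0x1000000010000000500000000000000000000000000000000000000000 0x100000001000000018000000580000005e000000ff000000fe000001ff0000003800000028 10 9) 0 0 (step_sound _ 132 [(rh641b5241be04eec6.shift 1 3), (rh6eff4158bb400f47.shift 3 2), (rhb419aeb1b264be1d.shift 3 0), rhe10ed98b08afefbe, (rhe84e00c98653ad0c.shift 3 1), (rhf517b930ee0bd92d.shift 3 2)] (by decide +kernel))
noncomputable def rh314af695a49018ed : CRef := CRef.mk (Pat.mk 0x60000000e00000000 0x1a0000001a0000003b0000003e0000003f00000030 10 6) 0 0 (step_sound _ 36 [rh7c03a303e469c5cc, (rhf48373e13d2bc128.shift 1 1)] (by decide +kernel))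
noncomputable def rh7fac441b4f12bccd : CRef := CRef.mk (Pat.mk 0x5000000010000000500000000000000000000000000000000000000000 0x30000000f80000005e0000005e000000ff000000fe000001ff0000003800000028 10 9) 0 0 (step_sound _ 132 [(rh57b469c1bf70b264.shift 1 4), (rh641b5241be04eec6.shift 1 3), rhe10ed98b08afefbe, (rhe84e00c98653ad0c.shift 3 1)] (by decide +kernel))
noncomputable def rh260c26fb85a039e2 : CRef := CRef.mk (Pat.mk 0x20000000080000002800000008000000100000000000000000 0x280000002800000028000000ff000000ff000000e400000040 10 8) 0 0 (step_sound _ 100 [(rh2145e1d24b96a57e.shift 3 2), rhded18dba65c2d821] (by decide +kernel))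
noncomputable def rhfb1836f1dfc8c0c5 : CRef := CRef.mk (Pat.mk 0x2000000008000000280000000800000010 0x4000000040000007ef000003fe000003af0000003800000010 10 11) 0 0 (step_sound _ 36 [rh042f1bc5ddaae0e1, (rh2145e1d24b96a57e.shift 3 0)] (by decide +kernel))
noncomputable def rh4cea119b01ddfc04 : CRef := CRef.mk (Pat.mk 0x8000000020000000a0000000200000004000000000 0x1000000010000001fbf00000ffe00000eae000001e0000001c000000140 10 13) 0 0 (step_sound _ 135 [(rh56be6e9364ec0a8a.shift 4 0), (rh60742b530bc93d29.shift 0 1), (rh97bd62662717f3a7.shift 6 0), (rhebbfc1325fb53d6f.shift 6 0)] (by decide +kernel))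
noncomputable def rhfa56f8e0f409a2c5 : CRef := CRef.mk (Pat.mk 0x500000001000000010000000200000000000000000 0x30000001b0000007f0000001f0000001f0000007c0000001800000008 10 7) 0 0 (step_sound _ 68 [(rh01b78e5ef59799ae.shift 1 1), (rh47a96a032af94b95.shift 0 1), (rh6aa5625770489e83.shift 3 0)] (by decide +kernel))
noncomputable def rhe8933f94f856dc14 : CRef := CRef.mk (Pat.mk 0xa0000000a0000000a00000001 0x1000000170000001f0000001e0000001b0000000f0000000b00000001 10 5) 0 0 (step_sound _ 129 [rh79877ebd3ef475dd, (rh977ad96a47003516.shift 0 1)] (by decide +kernel))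
noncomputable def rhb64438c522608d6b : CRef := CRef.mk (Pat.mk 0x5000000010000000100000002000000000 0x30000000b0000007f0000001f000000170000003400000030 10 7) 0 0 (step_sound _ 36 [rh47a96a032af94b95, (rh55afc6a59410cf00.shift 4 0)] (by decide +kernel))
noncomputable def rh760240d688a8cac1 : CRef := CRef.mk (Pat.mk 0x80000000a0000000a0000000000000004000000000 0x1000000010000001fbf00000ffe00000eae00000f7c000007fc00000fde 10 13) 0 0 (step_sound _ 69 [(rh60742b530bc93d29.shift 0 1), (rhcf7ca03edf95ab5e.shift 1 0), (rhfa80626feb4e9cb5.shift 2 0)] (by decide +kernel))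
noncomputable def rhcbf806206ac61efc : CRef := CRef.mk (Pat.mk 0x200000000800000028000000000000003c00000000 0x4000000040000007e7000003fe000003af000000600000003c00000010 10 11) 0 0 (step_sound _ 69 [(rh33e738c4ed385b9f.shift 2 1), rhac91a1029b9ab92d] (by decide +kernel))
noncomputable def rh66ebb8b3d7a73be6 : CRef := CRef.mk (Pat.mk 0x20000000000000000000000078000000400000000000000000 0x100000007c0000001f000000cc000000780000007c0000007c00000074 10 8) 0 0 (step_sound _ 134 [rh1cb106057a7b8f5b, (rh33e738c4ed385b9f.shift 3 3)] (by decide +kernel))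
noncomputable def rh6990671792a18959 : CRef := CRef.mk (Pat.mk 0x10000000100000000000000038000000000000000000000000 0x100000001c0000006f0000003e0000007f0000000e0000000e 10 7) 0 0 (step_sound _ 98 [(rh0d378fd9e8917c5a.shift 0 2), (rh185f35b8bd8ec37f.shift 0 2), (rh592c7139d2c44767.shift 0 2), (rhf82fbb975b37213a.shift 1 0)] (by decide +kernel))
noncomputable def rh61677680c61c1c2e : CRef := CRef.mk (Pat.mk 0x20000000200000002000000060000000000000000000000000000000000000000 0x300000003000000070000001f0000000300000003000000070000000700000005 10 5) 0 0 (step_sound _ 128 [rh0bdcfacce69d214d, (rh79877ebd3ef475dd.shift 0 4)] (by decide +kernel))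
noncomputable def rh34df5c7000b49b41 : CRef := CRef.mk (Pat.mk 0x200000000800000008000000000000000000000000000000000000000000000000 0x10000001d8000000fc0000001c0000000f0000003f0000003f0000001f0000001c0000001c00000014 10 9) 0 0 (step_sound _ 163 [(rh0fabbeb2cfd1512d.shift 2 2), (rh1900c1bad7e860ae.shift 0 2), (rh19f46f25215a3856.shift 2 0), (rh229b112a85ddf3cf.shift 2 1), (rh775bb3fee3edcf79.shift 0 4)] (by decide +kernel))
noncomputable def rh7b82e9eb9b78d69b : CRef := CRef.mk (Pat.mk 0x200000001000000010000000100000000000000000 0x200000003000000010000007be000003fe000007ef 10 11) 0 0 (step_sound _ 36 [rh61579b7022585de1, (rhbaefcd01e0a8bca3.shift 4 1)] (by decide +kernel))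
noncomputable def rhc582d7160219e9f5 : CRef := CRef.mk (Pat.mk 0x60000000500000005000000000000000000000000000000000 0x70000007e000000ff00000050000003fe000001fc000003fe000000a0 10 10) 0 0 (step_sound _ 69 [rh0debaa30dd08a919, (rh32e96a374054b520.shift 1 1), (rh432fa726ab0675ec.shift 5 1), (rhebbfc1325fb53d6f.shift 5 1), (rhfe5910dfd461105e.shift 4 0)] (by decide +kernel))
noncomputable def rh731eba44d55ff38b : CRef := CRef.mk (Pat.mk 0x500000004000000040000000000000000 0x1a0000007e0000007e0000007f000000640000006c0000000c00000008 10 7) 0 0 (step_sound _ 162 [(rh1741680720c097b4.shift 1 2), (rh6a83890fb134e4b9.shift 0 1), (rh8ff3dde5b1c639e0.shift 1 0)] (by decide +kernel))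
noncomputable def rha3580bf64e189116 : CRef := CRef.mk (Pat.mk 0x80000000a0000000a0000000800000000 0x40000001c0000001c0000001c0000000c0000001e0000000b0000001e00000014 10 5) 0 0 (step_sound _ 163 [(rh3ca48e2a6d60153d.shift 2 1), (rhc85cc95794737cf7.shift 2 2), rhde7a108a57594e08, rhf733ca0802c38b05] (by decide +kernel))
noncomputable def rh6b75bc0151d220c4 : CRef := CRef.mk (Pat.mk 0x20000000400000004000000050000000400000004 0x6000000160000007c0000007c0000007f0000006400000064 10 7) 0 0 (step_sound _ 162 [(rh50fbb5868c909700.shift 1 2), rhf440e60ef6c87440] (by decide +kernel))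
noncomputable def rhffc3eab72ad414c7 : CRef := CRef.mk (Pat.mk 0x280000002800000020000000200000000000000000 0x40000000c0000003f000003780000032c000003fc000003e4000003c000000080 10 10) 0 0 (step_sound _ 70 [(rh55afc6a59410cf00.shift 5 1), rh5b29f1d93ddef7ae] (by decide +kernel))
noncomputable def rhbd14d3520b7183c8 : CRef := CRef.mk (Pat.mk 0x10000000080000000a0000000a0000000800000018 0x50000001f0000007b0000000f0000000e0000000b0000000f00000019 10 7) 0 0 (step_sound _ 163 [(rh2f68792b6b779e96.shift 3 2), rhe166fa0b19ae6c98] (by decide +kernel))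
noncomputable def rhff5fad5932d0d1ad : CRef := CRef.mk (Pat.mk 0x8000000080000000a0000000a000000000000000000000000 0x100000001d0000001f0000000f000001fb000000fe000000eb000000030000000100000001 10 9) 0 0 (step_sound _ 226 [rheb12776dda416f3f, (rhffd04209dc8ea796.shift 2 3)] (by decide +kernel))
noncomputable def rh12eaaee68378129d : CRef := CRef.mk (Pat.mk 0x3000000040000000500000001800000000 0xf0000007e000000de000000f40000001e00000008 10 8) 0 0 (step_sound _ 100 [(rh0327afd0daf5ca8b.shift 0 1), (rh932754581e0f4330.shift 3 0)] (by decide +kernel))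
noncomputable def rh007525194f063dbc : CRef := CRef.mk (Pat.mk 0x800000028000000280000000800000000000000000000000000000000 0xf0000000780000002f0000007c000000380000001c0000001c0000001c00000010 10 8) 0 0 (step_sound _ 99 [(rh07ab36fa1b56ce12.shift 2 1), rh5825ea3fc986a461, (rh6eff4158bb400f47.shift 2 1), (rhd29a1fb688eae70f.shift 3 2)] (by decide +kernel))
noncomputable def rhb3b125b8c77508dd : CRef := CRef.mk (Pat.mk 0x200000002000000040000000400000000000000000000000000000000 0x20000000e0000000c0000000c0000003f0000003f0000003e0000000a 10 6) 0 0 (step_sound _ 98 [rh527cc7947a4f3d8a, (rhcfdf45280693d3da.shift 1 3)] (by decide +kernel))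
noncomputable def rh20c269708b229a0d : CRef := CRef.mk (Pat.mk 0x8000000080000000400000004 0x140000001c0000001c000000fc0000007f000000ff0000001c000000180000000c00000004 10 8) 0 0 (step_sound _ 131 [(rh7e9c865612af8935.shift 0 2), (rheea67dfebd0f8008.shift 2 0)] (by decide +kernel))
noncomputable def rh08c118ca0b0c7081 : CRef := CRef.mk (Pat.mk 0x34000000140000001000000010000000080000000000000000 0xa0000000e0000000e000000060000003c0000001600000016000000170000003e0000003f00000020 10 6) 0 0 (step_sound _ 226 [(rh01e48cd9f335aa73.shift 1 5), (rh4491dd7e71e8968c.shift 0 1), (rhe8029d0ddc9db6fd.shift 1 0)] (by decide +kernel))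
noncomputable def rhe59c2c7e3ec1df7a : CRef := CRef.mk (Pat.mk 0x14000000140000001000000010000000080000000000000000 0xa0000002e0000003f0000003e000000340000001600000016000000170000003e0000003f00000020 10 6) 0 0 (step_sound _ 226 [(rh2e3a79f85931144a.shift 0 4), (rh3d9d4ed01537b472.shift 2 0), (rh4491dd7e71e8968c.shift 0 1), (rh816f9fad0c9e8472.shift 1 0), (rhf10668951ae0184a.shift 1 0)] (by decide +kernel))
noncomputable def rh441cbd1b4dcc131c : CRef := CRef.mk (Pat.mk 0x2000000020000000a0000000a00000008 0x770000003e0000007b0000001e0000000b00000009 10 7) 0 0 (step_sound _ 130 [(rh2f68792b6b779e96.shift 1 1), rh42b1b4f79eafae95] (by decide +kernel))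
noncomputable def rh07a8068dc8f2e5ca : CRef := CRef.mk (Pat.mk 0x8000000080000001000000010 0x140000001f0000003f0000003f0000000c0000000c0000001c00000010 10 6) 0 0 (step_sound _ 131 [(rhbe0e43a3bc50a43f.shift 3 0), (rhc42d113393796eba.shift 0 1)] (by decide +kernel))
noncomputable def rh2beddaa1db99bbc1 : CRef := CRef.mk (Pat.mk 0x100000002000000020000000a0000000800000008000000000000000000000000000000000000000000000000 0x40000001f0000001f0000001a0000001a0000000a000000180000001c0000001c0000001c0000001c0000001c0000001c00000014 10 5) 0 0 (step_sound _ 291 [(rh48d12b16a7263a32.shift 0 5), (rh4ee5d370696ff6e4.shift 0 6), (rhd132b804cea0b0d2.shift 2 0)] (by decide +kernel))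
noncomputable def rh84f973b8ce402bab : CRef := CRef.mk (Pat.mk 0x2000000020000000a0000000a000000000000000000000000 0x140000001f0000001b0000001e0000000a0000001f0000001b0000001f00000014 10 5) 0 0 (step_sound _ 192 [rh287b51015bc0d65d, (rh50fbb5868c909700.shift 0 3)] (by decide +kernel))
noncomputable def rha5ca4fccaf700493 : CRef := CRef.mk (Pat.mk 0x30000000200000000000000080000000800000008000000000000000000000000000000000000000000000000 0x130000001e0000001800000008000000180000001c0000001c0000001c0000001c0000001c0000001c00000014 10 5) 0 0 (step_sound _ 291 [(rh9efc453f4012496f.shift 0 6), (rhced6d86d2069808b.shift 3 5), (rhd132b804cea0b0d2.shift 2 0)] (by decide +kernel))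
noncomputable def rh38b4b355ebe8e5c0 : CRef := CRef.mk (Pat.mk 0x100000002000000020000000a0000000800000008000000000000000000000000000000000000000000000000 0x1000000130000001e0000001a0000000a000000180000001c0000001c0000001c0000001c0000001c0000001c00000014 10 5) 0 0 (step_sound _ 291 [(rh13cc8d9145f13b6b.shift 0 6), (rhced6d86d2069808b.shift 3 5), (rhd132b804cea0b0d2.shift 2 0)] (by decide +kernel))
noncomputable def rhf0fe0e749de2d361 : CRef := CRef.mk (Pat.mk 0x1000000010000000500000000000000000 0x28000000380000003c000000170000001f000000ff0000003b0000000b 10 8) 0 0 (step_sound _ 164 [(rh1741680720c097b4.shift 3 2), (rh20966da26a1c2ae8.shift 3 1), rh66ce8e2e4596b00e, (rh83b79ea19c694d98.shift 3 0)] (by decide +kernel))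
noncomputable def rh78956d8a9189bf20 : CRef := CRef.mk (Pat.mk 0x10000000500000005000000000000000000000000000000000 0x28000000380000003c000000570000005f0000007f0000007b000000630000002000000020 10 7) 0 0 (step_sound _ 228 [(rh1741680720c097b4.shift 3 4), (rh20966da26a1c2ae8.shift 3 3), (rh605ef5a5ae48f4b0.shift 4 0), (rh66ce8e2e4596b00e.shift 0 2)] (by decide +kernel))
noncomputable def rh566607750eeb6eb5 : CRef := CRef.mk (Pat.mk 0x200000002000000020000000e0000000000000000000000000 0xa0000002e0000002e0000003f000000fe0000001f0000000c00000008 10 8) 0 0 (step_sound _ 100 [rh19672fd93d7abac7, (rh932754581e0f4330.shift 4 2)] (by decide +kernel))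
noncomputable def rha564f8d491a2d85e : CRef := CRef.mk (Pat.mk 0x100000005000000050000000000000000000000000 0x28000000380000007c000000570000005f000000ff000001eb0000008300000080 10 9) 0 0 (step_sound _ 196 [(rh1741680720c097b4.shift 3 3), (rh20966da26a1c2ae8.shift 3 2), (rh66ce8e2e4596b00e.shift 0 1), (rh9c1a909469b2c0df.shift 3 0)] (by decide +kernel))
noncomputable def rh12fd0aebd45fc14f : CRef := CRef.mk (Pat.mk 0x6000000020000000a0000001a00000002000000000000000000000000 0x1000000030000001f0000000a0000000a0000001a00000013000000170000001f00000004 10 5) 0 0 (step_sound _ 256 [rh91d29808417278c7, (rhffd04209dc8ea796.shift 0 4)] (by decide +kernel))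
noncomputable def rh9eec6adf9beb73f7 : CRef := CRef.mk (Pat.mk 0x1000000010000000500000001000000000000000000000000000000000 0x100000001000000018000000780000001f00000038000000380000003800000028 10 7) 0 0 (step_sound _ 131 [rh35f3a9c1055596a2, (rh932754581e0f4330.shift 3 3)] (by decide +kernel))
noncomputable def rh3bdf9e6ba7652af6 : CRef := CRef.mk (Pat.mk 0x80000002800000028000000000000000000000000000000000000000000000000 0x30000000780000002f000000fc0000001f0000001c0000001c0000001c0000001c00000014 10 8) 0 0 (step_sound _ 163 [(rh6eff4158bb400f47.shift 2 3), (rh6fdd923b7d7b501e.shift 0 4), (rh84cefe9a12341663.shift 2 0), rhb329a42105f13e13, (rhc8fd50c44a2112a0.shift 0 4)] (by decide +kernel))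
noncomputable def rh3398027c85a4d1f1 : CRef := CRef.mk (Pat.mk 0x1e00000018000000000000000000000000 0x3e0000001f0000003b0000001f0000001f 10 6) 0 0 (step_sound _ 97 [rhc8b3730dffc7987d, (rheb0810cc63b001d8.shift 0 3)] (by decide +kernel))
noncomputable def rhc5acd44b8ac224e6 : CRef := CRef.mk (Pat.mk 0xc00000018000000000000000000000000 0x7c0000007e0000007f0000001e0000000e 10 7) 0 0 (step_sound _ 101 [rh6ed0bca8935d3454, (rhf48373e13d2bc128.shift 2 3)] (by decide +kernel))
noncomputable def rhcbe4425dd99f34aa : CRef := CRef.mk (Pat.mk 0x200000002000000000000000400000004000000000000000000000000 0x20000000e0000000c0000000c0000003f0000003f0000003e0000000a 10 6) 0 0 (step_sound _ 162 [rh527cc7947a4f3d8a, (rhcfdf45280693d3da.shift 1 3)] (by decide +kernel))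
noncomputable def rh44183af51dde092e : CRef := CRef.mk (Pat.mk 0x4000000020000000a0000000a00000002000000010000001000000000 0x10000000700000007000000020000000a0000000e0000001e0000001b0000001f00000014 10 5) 0 0 (step_sound _ 225 [rh29e0347bdfdb6c7d, (rh2f68792b6b779e96.shift 1 4)] (by decide +kernel))
noncomputable def rh6c37cd2f566c66fa : CRef := CRef.mk (Pat.mk 0x7000000060000001400000004000000000000000000000000 0xc0000002c0000003c000000370000003e000000160000003c000000780000002000000020 10 7) 0 0 (step_sound _ 226 [rh4e6c9547fff88fa9, (rh503dd4575245365b.shift 1 4), (rh5fa50b509d4ce753.shift 1 4)] (by decide +kernel))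
noncomputable def rh1a26b1bc10e553fc : CRef := CRef.mk (Pat.mk 0x180000001a00000000000000000000000000000000 0x500000007000000070000001f0000001f00000007000000070000000700000005 10 5) 0 0 (step_sound _ 130 [(rh53b3c253cb0c65f4.shift 0 4), rhcdc01f10a6a9521c] (by decide +kernel))
noncomputable def rh18c46e274a758e84 : CRef := CRef.mk (Pat.mk 0x180000001a00000018000000100000000000000000 0x11000000170000003f0000001b0000001f000000f70000002700000005 10 8) 0 0 (step_sound _ 69 [(rh55afc6a59410cf00.shift 4 1), rhf519751f450c1afc] (by decide +kernel))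
noncomputable def rh71a3e91147d9636b : CRef := CRef.mk (Pat.mk 0x100000001a00000000000000000000000000000000 0x50000000700000007000000370000001e00000007000000070000000700000005 10 6) 0 0 (step_sound _ 130 [(rh33e738c4ed385b9f.shift 1 4), rhcdc01f10a6a9521c] (by decide +kernel))
noncomputable def rh0394978072d88dc9 : CRef := CRef.mk (Pat.mk 0x80000002800000018000000180000000000000000 0x60000000780000002f000000ff000000fb0000000f0000000e 10 8) 0 0 (step_sound _ 98 [(rh050076ee0f1cf48e.shift 1 0), rh5a9a21f949f260e2, (rh6292bd8784ece55f.shift 1 2)] (by decide +kernel))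
noncomputable def rh6fc8a0c09bd34ae9 : CRef := CRef.mk (Pat.mk 0x3000000020000000200000002000000000 0xc0000000c0000000e000001fe0000003e0000007f0000003e0000002a 10 9) 0 0 (step_sound _ 100 [(rh7b1f1fb55310c477.shift 4 0), rhc227410bbf139b5a] (by decide +kernel))
noncomputable def rh8caf68515d9c3346 : CRef := CRef.mk (Pat.mk 0x30000000a0000000200000002000000000 0x500000007000000070000000a0000000f7000000be000001f70000006000000020 10 9) 0 0 (step_sound _ 100 [(rh7b1f1fb55310c477.shift 4 0), (rhecaf84a67824f6a6.shift 0 1)] (by decide +kernel))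
noncomputable def rh28732725cafcd915 : CRef := CRef.mk (Pat.mk 0x8000000280000000800000008000000000000000000000000 0x280000007c0000002f000001fe000000f8000001fc0000004800000040 10 9) 0 0 (step_sound _ 100 [rh459e007365a7193d, (rh55afc6a59410cf00.shift 3 2)] (by decide +kernel))
noncomputable def rh0f913583b6d84add : CRef := CRef.mk (Pat.mk 0x10000000100000001800000018000000000000000000000000 0x3c0000001f000000ff0000007f000000160000001600000004 10 8) 0 0 (step_sound _ 163 [(rh3cb04db3dd2b6a55.shift 3 1), (rhad590607a56894ae.shift 0 1), (rhd7483c1bb63893da.shift 1 0)] (by decide +kernel))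
noncomputable def rh112c24685f5defab : CRef := CRef.mk (Pat.mk 0x40000001400000004000000040000000000000000 0x1400000016000000170000007f0000003f0000003c00000004 10 7) 0 0 (step_sound _ 67 [rh4148bcb1f4dce946, (rh55afc6a59410cf00.shift 2 1)] (by decide +kernel))
noncomputable def rhbda7f9bce9e1115c : CRef := CRef.mk (Pat.mk 0x10000000100000001c00000000 0x1c0000001f0000007c0000001e0000007c000000e4 10 8) 0 0 (step_sound _ 37 [rh9e91e7f94302541f, (rhba04d77b039f69d9.shift 2 0), (rhe401600d466b97cd.shift 1 0)] (by decide +kernel))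
noncomputable def rh13014761e2d8982b : CRef := CRef.mk (Pat.mk 0x10000000100000001c000000000000000000000000 0xc0000000f0000003f0000001f0000007f0000000c0000000c00000004 10 7) 0 0 (step_sound _ 131 [(rh106bb650dfae2043.shift 0 1), (rh13d508698937d260.shift 0 1), rh7e1aa4108f9642d0, (rhd1dbfa5666dfb70e.shift 0 1)] (by decide +kernel))
noncomputable def rh197223299c4fe996 : CRef := CRef.mk (Pat.mk 0x80000000a0000001e00000000000000000000000000000000 0x60000000e0000000e0000001e00000037000000170000001700000003 10 6) 0 0 (step_sound _ 97 [rh72733426a0038600, (rheb0810cc63b001d8.shift 0 3)] (by decide +kernel))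
noncomputable def rhe00b30ab9f6ee636 : CRef := CRef.mk (Pat.mk 0x4000000040000000f0000000000000000000000000 0x300000003c0000007c00000077000000fe000001bf0000003000000010 10 9) 0 0 (step_sound _ 71 [rh36be3764fe001199, (rhe25b0a99195a5d59.shift 4 2)] (by decide +kernel))
noncomputable def rh6b544c281357750e : CRef := CRef.mk (Pat.mk 0x6000000040000000080000007000000000 0x70000007e000000ef0000000c0000007c0000000e 10 8) 0 0 (step_sound _ 35 [(rh3244c3cc8379b070.shift 2 1), rh7dce55b787b1a954] (by decide +kernel))
noncomputable def rh37f4248aafaface3 : CRef := CRef.mk (Pat.mk 0x20000000200000003c000000000000000000000000 0x3c0000007c0000002f0000003c0000001e0000001f0000001e 10 7) 0 0 (step_sound _ 68 [(rh5c5e593799055d58.shift 4 2), rhbd0ec1c77d2f0775] (by decide +kernel))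
noncomputable def rh61708dcefb066dc4 : CRef := CRef.mk (Pat.mk 0x180000000400000010000000000000000000000000 0x380000003f000001ff000000fc000001df00000010000000380000003800000028 10 9) 0 0 (step_sound _ 132 [(rh0a6888916bcef86b.shift 3 0), (rh66690f18a041f2bc.shift 0 3), (rh9a0c7a569dc29ddd.shift 0 3)] (by decide +kernel))
noncomputable def rhc5bed81ac4c582fd : CRef := CRef.mk (Pat.mk 0x180000000400000014000000000000000000000000 0x380000003f000000ff000000f80000001f000000170000003c0000003c00000028 10 8) 0 0 (step_sound _ 132 [(rh0a6888916bcef86b.shift 3 0), (rh6d7e9fbf5dfafd17.shift 3 0), (rh9a0c7a569dc29ddd.shift 0 3), (rhb24d078cc6b7d565.shift 0 1)] (by decide +kernel))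
noncomputable def rhd50eeccf95afa9a4 : CRef := CRef.mk (Pat.mk 0x600000003000000050000000000000000000000000 0x10000000700000007c0000005e000000fc000000ff0000000c 10 8) 0 0 (step_sound _ 68 [(rh71222050f2c63a3a.shift 4 1), rhb40a5dd38ea39131] (by decide +kernel))
noncomputable def rh6295f37c6cdf86e0 : CRef := CRef.mk (Pat.mk 0xc000000020000000a00000000000000000000000000000000 0xa0000003e0000003f0000003f0000000e0000000e0000000e0000000a0000000a000000070000000700000005 10 6) 0 0 (step_sound _ 226 [(rh01d4cd1478853f6c.shift 0 4), rh648e4b160e405460, (rh751f91025c6ba4fe.shift 1 4), (rh95a80f84f48ac358.shift 2 3)] (by decide +kernel))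
noncomputable def rh5dcc6d826b989b92 : CRef := CRef.mk (Pat.mk 0x1e000000000000000000000000 0x3000000038000000380000003f0000001e000000380000003000000030 10 6) 0 0 (step_sound _ 68 [rh051d18c3a0478198, (rhe25b0a99195a5d59.shift 1 2)] (by decide +kernel))
noncomputable def rhea81e2869d4ce7f3 : CRef := CRef.mk (Pat.mk 0x38000000040000001400000000 0x1ff000000fc000001f8000000380000003e0000001400000010 10 9) 0 0 (step_sound _ 68 [(rh215e11e099257d75.shift 4 0), (rh74b1a39c9532774b.shift 0 1), (rh89df0ac8bf869959.shift 1 0)] (by decide +kernel))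
noncomputable def rh48b850142f7843aa : CRef := CRef.mk (Pat.mk 0x600000003000000050000000000000000000000000 0x1000000070000000fc0000005e000000fc000000ff0000000c 10 8) 0 0 (step_sound _ 68 [(rh71222050f2c63a3a.shift 4 1), rhd560dc6f4a279a9e] (by decide +kernel))
noncomputable def rh4d4c84c57ec8af9e : CRef := CRef.mk (Pat.mk 0x400000008000000180000000a0000000000000000 0xa0000000e4000000ee000001fb000000fe000001ee0000006000000060 10 9) 0 0 (step_sound _ 194 [rh784a2d3339e288f2, (rhcfdf45280693d3da.shift 2 2)] (by decide +kernel))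
noncomputable def rh3c7fc76995be50d1 : CRef := CRef.mk (Pat.mk 0x800000008000000080000000a00000002 0x40000000c0000000c00000008000001fc000000fe000000e3 10 9) 0 0 (step_sound _ 162 [rhb1234207688305e9, (rhffd04209dc8ea796.shift 2 1)] (by decide +kernel))
noncomputable def rh1cbe887228903b94 : CRef := CRef.mk (Pat.mk 0x8000000080000000a0000000a0000000000000000 0x18000000180000001f000001fe000000fe000000eb0000000300000003 10 9) 0 0 (step_sound _ 196 [rh12f9f6e687455e8f, (rhbaefcd01e0a8bca3.shift 3 2)] (by decide +kernel))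
noncomputable def rhbd6f5530fa7defd8 : CRef := CRef.mk (Pat.mk 0x20000000a000000020000000a000000000000000000000000 0x3d0000001f0000001a0000000a0000000b000000070000000700000004 10 6) 0 0 (step_sound _ 64 [rh4a081d989f4791be, (rh79877ebd3ef475dd.shift 0 2)] (by decide +kernel))
noncomputable def rheb4851825dcec115 : CRef := CRef.mk (Pat.mk 0xe000000020000000200000000 0xa0000003e0000003f0000003f0000000c0000000e000000060000000200000002 10 6) 0 0 (step_sound _ 130 [(rh01d4cd1478853f6c.shift 0 1), (rh71222050f2c63a3a.shift 1 0)] (by decide +kernel))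
noncomputable def rhf9a91aa3f9267da3 : CRef := CRef.mk (Pat.mk 0x8000000020000000a0000000000000000000000000 0x1000000018000001fee00000ffe00000ebf000001f0000001f800000140 10 13) 0 0 (step_sound _ 135 [(rh569774833124f14a.shift 0 3), (rh8559e380e0b4881b.shift 3 0), (rhae671ae2d483218f.shift 2 0), (rhca1c8166938286b3.shift 4 0), (rhcdd58f08d08e99c7.shift 3 0)] (by decide +kernel))
noncomputable def rhe49cdbfb7316272d : CRef := CRef.mk (Pat.mk 0x2000000020000000e0000000000000000000000000 0xa0000002e0000002e0000003f000000fe0000001f0000001c00000018 10 8) 0 0 (step_sound _ 100 [rh19672fd93d7abac7, (rh1ae4704ae86cb9a8.shift 3 2), (rhae036cc4ef671676.shift 3 1), (rhfafeb437ceb8396d.shift 4 0)] (by decide +kernel))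
noncomputable def rh3ddda49292363ef4 : CRef := CRef.mk (Pat.mk 0x2000000020000000e0000000400000000000000000 0xa0000000e0000002e0000003f000000fe000001df0000001c00000008 10 9) 0 0 (step_sound _ 100 [rh19672fd93d7abac7, (rha03f6e28ea70fc7d.shift 3 2), (rhae036cc4ef671676.shift 3 1), (rhc6563beaa1184505.shift 2 2)] (by decide +kernel))
noncomputable def rha41ff6db79024610 : CRef := CRef.mk (Pat.mk 0x20000000080000002800000008000000000000000000000000000000000000000000000000 0x280000002c000003ac000001fc000003ff0000001c0000001c0000001c0000001c00000014 10 10) 0 0 (step_sound _ 163 [(rh22b498b55578d0bf.shift 2 4), (rh825b8ab1ed182b05.shift 2 0), (rh832d53b0c7150d1d.shift 2 2), (rh980b42d53e606c8c.shift 0 4), (rhe84e00c98653ad0c.shift 2 2)] (by decide +kernel))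
noncomputable def rh78091bd5486e249c : CRef := CRef.mk (Pat.mk 0x100000001800000010000000100000001000000000 0x6000000170000001f0000003f0000007f0000001f00000014 10 7) 0 0 (step_sound _ 99 [(rh7b1f1fb55310c477.shift 3 0), rhc8da4c605a99c694] (by decide +kernel))
noncomputable def rh44ba5831b6e2c8bc : CRef := CRef.mk (Pat.mk 0x200000002800000028000000000000000000000000 0x10000000700000007000000070000003b8000001fc000003af000000700000007000000050 10 10) 0 0 (step_sound _ 69 [(rh127217fa2af7777a.shift 0 2), (rh8cdd36b03d57a2f6.shift 4 0), (rh8ff3dde5b1c639e0.shift 4 0), (rh98b1f5f521715fac.shift 2 1)] (by decide +kernel))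
noncomputable def rhf9264ece1b0c14ca : CRef := CRef.mk (Pat.mk 0x20000000200000002000000040000000000000000000000000000000000000000 0x30000000300000007000000070000000700000003000000070000000700000005 10 3) 0 0 (step_sound _ 161 [(rh55afc6a59410cf00.shift 1 4), rh5c9ba96de06b125c] (by decide +kernel))
noncomputable def rh6cffd245b79d99d4 : CRef := CRef.mk (Pat.mk 0x10000000500000000000000030000000000000000000000000 0x15400000154000003df000001fe000001f7000000a2000000a2 10 10) 0 0 (step_sound _ 69 [rh000b3d2f99a70554, (rhff0f29cb645b05f7.shift 4 2)] (by decide +kernel))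
noncomputable def rhf07106e663aeb79b : CRef := CRef.mk (Pat.mk 0x8000000020000000a00000000000000060000000000000000000000000 0x1000000010000001f8e00000ffe00000ebf0000039c000001f8000003fc0000004000000040 10 13) 0 0 (step_sound _ 103 [(rh010ff502915d7db7.shift 2 2), (rh4b6ed8ae4c9bc178.shift 2 0), (rha88e0a301cd8420b.shift 0 2), (rhb92435d166f5fc74.shift 2 0), (rhe795f256841c39ce.shift 2 2)] (by decide +kernel))
noncomputable def rhc323f079eb0306d1 : CRef := CRef.mk (Pat.mk 0x400000000000000020000000200000002000000000 0x400000006000000020000003fc000001fe000003d7 10 10) 0 0 (step_sound _ 133 [rh44f270149324b21c, (rhbaefcd01e0a8bca3.shift 5 1)] (by decide +kernel))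
noncomputable def rhfe28b014509d98cf : CRef := CRef.mk (Pat.mk 0x10000000000000000c0000000800000000000000000000000000000000 0x10000000100000003b0000007f0000007f000000670000000e0000000e0000000a 10 7) 0 0 (step_sound _ 132 [(rh209830dfb45987f1.shift 1 0), (rh4e030f365645c2f0.shift 0 1), (rh5c5a2014709044d0.shift 0 4), (rhdeca8db941583de2.shift 0 4)] (by decide +kernel))
noncomputable def rhb0cc909c3c6fdf9f : CRef := CRef.mk (Pat.mk 0x100000001000000000000000200000000000000000 0x280000003800000038000000100000001000000018000007bf000003fe000007ef00000020 10 11) 0 0 (step_sound _ 100 [(rh2977b00063528966.shift 4 0), (rh7814e101873e2401.shift 3 2), (rha05d7c12731de695.shift 0 1), (rhcf7ca03edf95ab5e.shift 0 1)] (by decide +kernel))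
noncomputable def rh434711b23ee3417c : CRef := CRef.mk (Pat.mk 0x1000000010000000100000001000000000 0x80000001e000000ff000000ff0000001600000016 10 8) 0 0 (step_sound _ 131 [(rh50fbb5868c909700.shift 3 1), rh6d553054cff5a68d] (by decide +kernel))
noncomputable def rh8966d52ef15ca553 : CRef := CRef.mk (Pat.mk 0x8000000100000000400000014000000000000000000000000 0x800000028000001f8000001fc000003f6000000160000003e0000003f00000028 10 10) 0 0 (step_sound _ 132 [(rh114f4abf4ea101c9.shift 3 2), rh8559e380e0b4881b, (rhbba7d23481996066.shift 3 0), (rhbff7da0eddf6f9b0.shift 1 2)] (by decide +kernel))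
noncomputable def rh3b9631c334c5dc8f : CRef := CRef.mk (Pat.mk 0x30000000c000000040000000400000000 0x500000007800000078000001ff000001fc000003fc0000003400000030 10 10) 0 0 (step_sound _ 100 [(rh7cf1164db4664691.shift 0 1), (rh89aafc06c6394aeb.shift 2 0), (rhb0ef2e53cc9ebd3d.shift 2 0), (rhbda9a27163266cd1.shift 0 3)] (by decide +kernel))
noncomputable def rhbd2f7da865030f4f : CRef := CRef.mk (Pat.mk 0x6000000040000000000000004 0x280000003c0000003c0000007f0000003e0000007c0000001c00000004 10 7) 0 0 (step_sound _ 99 [(rh1c87c72915d1cd71.shift 1 0), rh685154626316017f, (rhd1f9989d6034576a.shift 1 0), (rhfb1477ed9a4df54d.shift 0 1)] (by decide +kernel))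
noncomputable def rh7430eda27da4505a : CRef := CRef.mk (Pat.mk 0x18000000100000000400000004 0x6800000068000001ff000001ff000003f40000000400000004 10 10) 0 0 (step_sound _ 98 [(rh50e6bb003b216f65.shift 1 0), rh6289f4ac4c624f40, (rh8ee80cc30e93a344.shift 1 2), rhb739122db6586aba, (rhc621281b43b226d3.shift 0 2)] (by decide +kernel))
noncomputable def rh7e5b794f987cfed8 : CRef := CRef.mk (Pat.mk 0x20000000a000000020000000a00000000 0x40000001700000017000000330000001e0000001f0000000a00000008 10 6) 0 0 (step_sound _ 160 [rh55cce442a9967da7, (rhffd04209dc8ea796.shift 0 1)] (by decide +kernel))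
noncomputable def rh8ce8e775a73145b5 : CRef := CRef.mk (Pat.mk 0x20000000a000000020000000a000000010000000000000000 0x3d0000001f0000001a0000000a0000000a000000070000001f00000004 10 6) 0 0 (step_sound _ 65 [rh36d5a34baa5c7bc7, (rh932754581e0f4330.shift 0 1)] (by decide +kernel))
noncomputable def rh5057c5e28eee9362 : CRef := CRef.mk (Pat.mk 0x1600000000000000000000000000000000000000000 0x40000000740000007c000000fc0000037c000001ff0000037c000001fe000001fe0000007c00000058 10 10) 0 0 (step_sound _ 133 [(rh07573a7ae4c5d78d.shift 4 2), (rh33ca698741033404.shift 4 1), (rh4f401498f303a99a.shift 4 0), (rh554ae65e0771a29d.shift 3 0), rh628320e72c83d720, (rh6d77264db34dca25.shift 2 1), (rhc2fd94868e3c6b1c.shift 2 1)] (by decide +kernel))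
noncomputable def rh963aa7a74cb4fabb : CRef := CRef.mk (Pat.mk 0x2c0000000000000000000000000000000000000000 0x500000007000000070000000670000003e0000007700000070000000700000007000000010 10 7) 0 0 (step_sound _ 164 [(rh008b05f4778dc30d.shift 0 4), (rh76ec80d0911a63d7.shift 1 2), (rh775ca1963e850b80.shift 0 4), (rh7e8e0802a62bd748.shift 1 0)] (by decide +kernel))
noncomputable def rha73787e6860a2b29 : CRef := CRef.mk (Pat.mk 0x580000000000000000000000000000000000000000 0x100000001c0000001c0000005f000000db0000007f000001ff000000ff000001fc0000001c00000014 10 9) 0 0 (step_sound _ 131 [rh7057e8210a70cafd, (rha7483bafcf996f4c.shift 0 1), (rhb43ebe5b1a298e1f.shift 2 2), rhb5413248639a448c, (rhc2fd94868e3c6b1c.shift 0 1)] (by decide +kernel))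
noncomputable def rhdfd09c0af5646911 : CRef := CRef.mk (Pat.mk 0x580000000000000000000000000000000000000000 0xb0000000fc000000ff000000df0000007f000000fb000000ff000000fe000000ec00000028 10 8) 0 0 (step_sound _ 195 [(rh2ef76d1ed4736d88.shift 0 3), (rh2f30238ec446a497.shift 1 0), (rh3426fc852f964bb3.shift 0 2), (rh985083a03133ef1f.shift 0 1), (rhc57c8f3f7683b4a8.shift 2 2), (rhc8f1c868a58558ef.shift 2 0)] (by decide +kernel))
noncomputable def rh795d26cf1baebb2c : CRef := CRef.mk (Pat.mk 0x160000000000000000000000000000000000000000 0x40000002f0000003f0000003f000000370000001e0000003f0000003f0000003f0000003d00000008 10 6) 0 0 (step_sound _ 163 [(rh6e14a657e8a9ad94.shift 0 2), rh7e8e0802a62bd748, (rhd7c12fec24b39174.shift 0 1), rhfbb28a2e54b44681] (by decide +kernel))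
noncomputable def rh608df36a611b0b8a : CRef := CRef.mk (Pat.mk 0x1600000000000000000000000000000000000000000 0x400000007000000070000000fc0000037c000001fc000000fc000001fe000001ff000000fc00000058 10 10) 0 0 (step_sound _ 133 [(rh07573a7ae4c5d78d.shift 4 2), (rh33ca698741033404.shift 4 1), (rh57f997dcdaf1c675.shift 2 1), (rh6d77264db34dca25.shift 2 1), (rha4b47c08dfafa4c0.shift 3 0), (rha7483bafcf996f4c.shift 2 1), rhf33b67baeabf111a] (by decide +kernel))
noncomputable def rh46c549807b721708 : CRef := CRef.mk (Pat.mk 0x160000000000000000000000000000000000000000000000000 0x284000003fc000003fc0000075e000001ff000003fe000007fe000003fe000007fe000003dc00000280 10 11) 0 0 (step_sound _ 165 [(rh1c342c8474abb7c4.shift 4 1), (rh57f997dcdaf1c675.shift 2 2), (rh628320e72c83d720.shift 0 1), (rh6f8b4e12f2c8835b.shift 1 0), (rhb43ebe5b1a298e1f.shift 4 3), (rhf4310443c8a6650b.shift 1 1)] (by decide +kernel))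
noncomputable def rh99a04c523c5a4754 : CRef := CRef.mk (Pat.mk 0x2c000000000000000000000000000000000000000000000000000000000 0x28000000b8000007fe000007fe000007fe000006ff000003fe00001fbf00001ff800001ff800000738000007000000070000000500 10 13) 0 0 (step_sound _ 262 [(rh3c666738de7a52b2.shift 1 3), (rh59e87f8bca719c8f.shift 4 0), (rh652bcf813a9c87b3.shift 0 3), (rha12f5c06c8588dea.shift 2 6), (rhc57c8f3f7683b4a8.shift 5 4), (rhc8f1c868a58558ef.shift 5 2)] (by decide +kernel))
noncomputable def rhdef0f5a785b51d29 : CRef := CRef.mk (Pat.mk 0xb00000000000000000000000000000000000000000 0x380000007e000003ff000003fe000007bf000000bf000003ff000003ff000003fe000003ff0000006a 10 11) 0 0 (step_sound _ 132 [rh177a5ba8eee4b244, rh2b2df762e819bae0, (rh3ad6e7d15605fb3d.shift 2 0), (rh3ef0ab812f23c2aa.shift 1 0), (rh4022e5517fb4568b.shift 1 0), (rh4ab55ac37a7b0d5f.shift 1 0), (rh6e04e47eb7cc0848.shift 1 0), (rh81dc4d9aa7ec0a54.shift 1 1), rh8afe2e18f3bac610, (rha4b47c08dfafa4c0.shift 2 0), (rhb2ce2adcb612a1f1.shift 1 0), (rhd02cbd3d63fff9df.shift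 0 2), (rhf17ba1778d45ffe4.shift 1 0)] (by decide +kernel))
noncomputable def rh346b1c5acaab23da : CRef := CRef.mk (Pat.mk 0x1600000000000000000000000000000000000000000 0x400000007000000074000000fc0000007c000001ff0000037c000001ff000001fc000001fc00000050 10 10) 0 0 (step_sound _ 133 [(rh05e229fb8c7b3287.shift 4 2), (rh1b27d5811bb96f8b.shift 2 1), (rh3a404b11ea21ed54.shift 0 1), (rh4555c8fe7b33f361.shift 2 1), (rh5dca7ce7cce359ef.shift 2 0), (rhaa24114d385d3be2.shift 4 1), (rhdd76dc26c616ab41.shift 4 1)] (by decide +kernel))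
noncomputable def rh309f35990ae25ed6 : CRef := CRef.mk (Pat.mk 0x2c00000000000000000000000000000000 0x10000000700000007000000070000000770000003e00000067000000700000007000000050 10 7) 0 0 (step_sound _ 132 [(rh775ca1963e850b80.shift 0 3), (rh93adb467bcad6714.shift 1 0), (rha5346060b12b3a35.shift 0 3), (rhc37ac25399000c0e.shift 0 3), (rhd75855c0840bf9dc.shift 0 3)] (by decide +kernel))
noncomputable def rh42e01a5e316f9d93 : CRef := CRef.mk (Pat.mk 0x580000000000000000000000000000000000000000 0x34000000fc000000fc000000ff000000ff0000007f000000db000000ff000000fe000000bc00000010 10 8) 0 0 (step_sound _ 195 [(rh309d118f3f7e66ce.shift 2 1), (rh3e0abc328d6ecece.shift 2 2), rh4996991b0a2dc395, rh72a19572275765b1, (rh83931ad380f61409.shift 0 2), (rhe346bc3686eb5480.shift 0 3), (rhf4243d7db20427cd.shift 0 2)] (by decide +kernel))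
noncomputable def rha13921d8f1c3de6a : CRef := CRef.mk (Pat.mk 0x580000000000000000000000000000000000000000 0x20000000ec000000fe000000ff000000fb0000007f000000df000000ff000000fc000000bc00000010 10 8) 0 0 (step_sound _ 131 [(rh1b27d5811bb96f8b.shift 0 1), (rh3b0a6875af7e446e.shift 2 2), (rh80e587d7b34e8ace.shift 2 1), (rha7782e1a9409ada0.shift 1 0), (rhc92765b6a0d7c039.shift 1 1), (rhf03968ff57a22782.shift 0 1)] (by decide +kernel))
noncomputable def rh3da521080a0a6e14 : CRef := CRef.mk (Pat.mk 0x1600000000000000000000000000000000 0xc0000003f0000003f0000003f0000003f0000001e000000370000003f0000003f00000028 10 6) 0 0 (step_sound _ 131 [(rh681e735b6bb0309e.shift 0 1), rh93adb467bcad6714, (rhb29010e562ff4481.shift 0 1), rhbf342574b3e69683] (by decide +kernel))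
noncomputable def rh74c0d0ea32d1f79c : CRef := CRef.mk (Pat.mk 0xb00000000000000000000000000000000000000000 0x200000003c000000fc000000fe0000007e000000ff000001be000001fe0000007c0000003800000020 10 9) 0 0 (step_sound _ 196 [(rh115000b117306c27.shift 1 2), (rh2c9f916e31edf914.shift 1 1), (rh70e0664d05679898.shift 3 0), (rh83931ad380f61409.shift 1 2), (rhaa541924566bf7c8.shift 3 1), (rhafa1b082061bba9b.shift 0 2), (rhdd25b0de2ead1688.shift 2 2)] (by decide +kernel))
noncomputable def rhd1cd725f01472f20 : CRef := CRef.mk (Pat.mk 0x16000000000000000000000000000000000 0x280000003d4000007fe000007fe000007fe000003fe000001ff0000075c000003fc000003fc00000284 10 11) 0 0 (step_sound _ 165 [(rh115000b117306c27.shift 2 1), (rh158ed6f542b6bc12.shift 1 1), (rh309d118f3f7e66ce.shift 4 0), (rh3e0abc328d6ecece.shift 4 1), (rh6b89a4f3c5c98cbc.shift 1 0), rh8ac174d26a4a5946, (rhe080af1715470975.shift 1 3)] (by decide +kernel))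
noncomputable def rh9407c7524a8fb65d : CRef := CRef.mk (Pat.mk 0x2c0000000000000000000000000000000000000000000000000 0x50000000700000007000000073800001ff800001ff800001fbf000003fe000006ff000007fe000007fe000007fe000000b800000028 10 13) 0 0 (step_sound _ 166 [(rh3a404b11ea21ed54.shift 1 2), (rh3b0a6875af7e446e.shift 5 3), (rh80e587d7b34e8ace.shift 5 2), rh95d05ede6325a2a8, (rhc4d435993439bff6.shift 3 2), (rhf1c5e0bd8b645581.shift 2 1)] (by decide +kernel))
noncomputable def rhc83a9eb1860ce765 : CRef := CRef.mk (Pat.mk 0xb00000000000000000000000000000000000000000 0x380000007a000003ff000003fe000003ff000003ff000000bf000007bf000003fe000003ff0000007e00000028 10 11) 0 0 (step_sound _ 196 [(rh0137c7d118da7fe8.shift 0 2), (rh16650e073d6fb413.shift 0 1), (rh16b2280bbbab451e.shift 2 2), (rh1be514c2ecbc76f1.shift 1 2), (rh2b61af74be10487f.shift 2 2), (rh4e35db2c1c1af808.shift 1 2), (rh76b41ec5e38f0056.shift 1 2), (rh91a3d8388ffbe641.shift 1 2), (rha4ec2a762eb1400f.shift 1 2), (rhbbb8ee0f2343a859.shift 0 2), (rhd3775bff143f5234.shift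 1 2), (rhdd25b0de2ead1688.shift 2 2), (rhe32b2c032100b5b0.shift 1 1), (rhf4243d7db20427cd.shift 1 2), rhf7a94e5d938ec551] (by decide +kernel))
noncomputable def rhc2940e4e3a4ae67e : CRef := CRef.mk (Pat.mk 0x1c00000000000000000000000000000000 0x280000003c0000003e0000003f0000001e0000003f0000001f0000000f00000005 10 6) 0 0 (step_sound _ 129 [(rhdabd7b4a1b6e43ba.shift 0 2), rhe108b6074a952d08, (rhe322b3bbe53c223b.shift 0 1)] (by decide +kernel))
noncomputable def rha5e32e0d354b4c31 : CRef := CRef.mk (Pat.mk 0x7000000000000000000000000000000000 0x20000000e0000000e8000000f8000000fc00000078000000fc000000ff000000fc000000bc 10 8) 0 0 (step_sound _ 131 [(rh3fa30c482a54b896.shift 2 1), (rh4dec200a1b920193.shift 2 0), (rhaf063fca9845c52e.shift 2 0), (rhd6db1120eeedebe2.shift 2 1), rhf72e2fe2cb6c9ef4] (by decide +kernel))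
noncomputable def rhba1586d7026d4c61 : CRef := CRef.mk (Pat.mk 0x700000000000000000000000000000000000000000 0xa8000000fc000000ff000000fc00000078000000fc000000f8000000e8000000e000000020 10 8) 0 0 (step_sound _ 163 [(rh2b3e8199b120e08a.shift 2 2), (rh3fa30c482a54b896.shift 2 2), (rh4ab0e7791e547069.shift 0 3), (rh7e8e0802a62bd748.shift 2 0), (rhd6db1120eeedebe2.shift 2 2)] (by decide +kernel))
noncomputable def rh79e05f8a350a72b7 : CRef := CRef.mk (Pat.mk 0x700000000000000000000000000000000000000000 0xb4000000fc000000fc000000fc00000078000000fc0000003e0000007f0000003c00000014 10 8) 0 0 (step_sound _ 163 [(rh19a88341dacb93ca.shift 2 0), (rhaf063fca9845c52e.shift 2 1), rhd3b4f479e2d10752, (rhd77fa4f59a9f4419.shift 2 3), (rhe108b6074a952d08.shift 2 1)] (by decide +kernel))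
noncomputable def rh9ba4cc3d0a6f67f0 : CRef := CRef.mk (Pat.mk 0x1c00000000000000000000000000000000 0x400000007000000370000003b0000003f0000001e0000003f0000003f0000003f00000003 10 6) 0 0 (step_sound _ 129 [rh04ddcbfab9be7cab, rh1511672dc338ba45, (rh3fa30c482a54b896.shift 0 1), (rhd6db1120eeedebe2.shift 0 1)] (by decide +kernel))
noncomputable def rhae80d98e0fd1fe1b : CRef := CRef.mk (Pat.mk 0x1c0000000000000000000000000000000000000000 0x3000000370000003f0000003f0000001e0000003f0000003b0000003f0000000700000004 10 6) 0 0 (step_sound _ 161 [(rh2b3e8199b120e08a.shift 0 2), (rh3fa30c482a54b896.shift 0 2), rh597ee5952dbfe2f7, (rhd6db1120eeedebe2.shift 0 2)] (by decide +kernel))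
noncomputable def rh7baf329dcbed23b5 : CRef := CRef.mk (Pat.mk 0x1c00000000000000000000000000000000 0x8000000380000003c000000360000003f0000001e0000003f0000003f0000003f00000035 10 6) 0 0 (step_sound _ 129 [rh9b3df9736671ea60, rha6097c7f177d2098, rhe108b6074a952d08] (by decide +kernel))
noncomputable def rhe1ed1b942074016c : CRef := CRef.mk (Pat.mk 0x1c0000000000000000000000000000000000000000 0x300000003c0000003e0000003f0000001e0000003f000000370000003f0000003d00000008 10 6) 0 0 (step_sound _ 161 [rh020af60f51bb4173, (rh48ea642629d3c921.shift 0 2), (rhe108b6074a952d08.shift 0 1)] (by decide +kernel))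
noncomputable def rh447287c49d42a323 : CRef := CRef.mk (Pat.mk 0x1c00000000000000000000000000000000 0x8000000380000003c0000003c0000007c0000001e000000ff000000ff0000003c00000028 10 8) 0 0 (step_sound _ 100 [rh5d19fb08bd4df3f3, (rhc21a95c499b3efdb.shift 1 3), rhf9cf4e6f372fbe88] (by decide +kernel))
noncomputable def rh14f8b58283630551 : CRef := CRef.mk (Pat.mk 0x1c0000000000000000000000000000000000000000 0x3c0000007c0000007f000000ff0000001e000000fc0000003c0000003c0000003800000008 10 8) 0 0 (step_sound _ 196 [rh0f02d928b34bedef, (rh632be1effafadd17.shift 1 1), (rhc6cd8f0abe2eac25.shift 0 2), (rhff7d63dcb3cf9f74.shift 1 5)] (by decide +kernel))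
noncomputable def rhbab08290a2bc3f53 : CRef := CRef.mk (Pat.mk 0x1c0000000000000000000000000000000000000000 0x2d0000003f0000003f0000003b0000001e0000003f0000003f0000003f0000003f0000000c 10 6) 0 0 (step_sound _ 161 [rh10ccbf76d9074909, rh19a88341dacb93ca, rh84a6e3443da6976e, (rhd6db1120eeedebe2.shift 0 2)] (by decide +kernel))
noncomputable def rheccf86de6a334597 : CRef := CRef.mk (Pat.mk 0x1c00000000000000000000000000000000 0xc0000003f0000003f0000003f0000003f0000001e0000003b0000003f0000003f0000002d 10 6) 0 0 (step_sound _ 129 [rh208c9675ae8e5634, (rh3fa30c482a54b896.shift 0 1), rh44eee429e86861ae, rh5accd1a302db4750] (by decide +kernel))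
noncomputable def rh0f4be7c76c16f330 : CRef := CRef.mk (Pat.mk 0x1c0000000000000000000000000000000000000000 0x280000003c0000003e000000370000001e0000003f0000003f0000003f0000003d00000008 10 6) 0 0 (step_sound _ 161 [rh10ccbf76d9074909, rh7e8e0802a62bd748, (rhe108b6074a952d08.shift 0 1)] (by decide +kernel))
noncomputable def rhbce6995f1471c3b1 : CRef := CRef.mk (Pat.mk 0x1c00000000000000000000000000000000 0x8000000380000003c0000003e0000003f0000001e000000370000003f0000003f0000002d 10 6) 0 0 (step_sound _ 129 [rh208c9675ae8e5634, rhbf342574b3e69683, rhe108b6074a952d08] (by decide +kernel))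
noncomputable def rh28761fffef389fea : CRef := CRef.mk (Pat.mk 0x700000000000000000000000000000000000000000 0x100000001c0000003c0000003f0000003c00000078000003fe000007fc000003fc000007fc000000a8 10 11) 0 0 (step_sound _ 134 [(rh7c0a56a828ae2896.shift 0 3), (rh85acea5f059b333b.shift 1 0), (rhc21a95c499b3efdb.shift 3 4), (rhf8122c594a75d676.shift 2 1)] (by decide +kernel))
noncomputable def rh7fa8b6c2fdaa29d8 : CRef := CRef.mk (Pat.mk 0x380000000000000000000000000000000000000000 0x400000007000000074000003fe000001fe000003fe000001ff0000003c0000001e0000003e0000003e0000000e00000008 10 10) 0 0 (step_sound _ 197 [rh0e7b216bc5f11db6, (rh7f4bff74c215f49a.shift 1 2), (rhe73babaf1fbfa43e.shift 1 1), (rhff7d63dcb3cf9f74.shift 2 5)] (by decide +kernel))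
noncomputable def rh8c18e68472d28fe6 : CRef := CRef.mk (Pat.mk 0x7000000000000000000000000000000000000000000000000000000000 0xa0000000e8000002f8000007ff000003fe000007ff00000370000007fe000007fc000007fc000007f8000001f0000001e000000080 10 11) 0 0 (step_sound _ 198 [(rh00e82b245a2a80d0.shift 2 2), (rh3b05da9079b98c75.shift 2 0), (rh481a3003d6bbde59.shift 1 3), (rh4fbae6c49524e78b.shift 2 0), (rh64b6e78ce9e24195.shift 2 3), (rh6561017f93b0b577.shift 0 3), (rh7aae16cefa26c8cc.shift 2 3), (rh9c0729fe6a614c0e.shift 2 0), (rhcb0b6fa5496f1367.shift 2 4), (rhe51495b897d5e363.shift 2 3), (rhf8122c594a75d676.shift 2 3), (rhf9cf4e6f372fbe88.shift 2 3)] (by decide +kernel))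
noncomputable def rh6920db6ec417d333 : CRef := CRef.mk (Pat.mk 0x500000000000000000000000000000000000000000 0x1c0000007e000000ff000000ff0000007f000001ff000001ff000001ff000000be00000034 10 9) 0 0 (step_sound _ 163 [(rh2f7e2f9206f398be.shift 1 0), rh5e5a9700b4415c05, (rh6a8fffccf0b05ee4.shift 1 2), (rh8617134d0728a8f8.shift 2 0), (rh8eab7dac2644b783.shift 1 1), (rh9b50a9b2a3034b4f.shift 1 1), (rhc7506318cded354a.shift 1 0)] (by decide +kernel))
noncomputable def rh4d87b9b56bca6d6e : CRef := CRef.mk (Pat.mk 0xa00000000000000000000000000000000000000000 0x380000007c000000fe000001fe000000fe000003ff000003fe000003fe0000017c00000068 10 10) 0 0 (step_sound _ 164 [(rh2f7e2f9206f398be.shift 2 0), (rh9b50a9b2a3034b4f.shift 2 1), (rhace7c02905148673.shift 3 0), (rhc7506318cded354a.shift 2 0), (rhdf6b6a3e0c3a82c1.shift 2 1), rhffdcd90a8c4a172d] (by decide +kernel))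
noncomputable def rh85311b5e9e234f43 : CRef := CRef.mk (Pat.mk 0xa00000000000000000000000000000000000000000 0x200000003a0000007e000000fe000000ff000000fe000003ff000007fe000007fe000001fc00000168 10 11) 0 0 (step_sound _ 164 [(rh0981b8ba934ea09e.shift 1 0), (rh0e2ded1e4d0aef3c.shift 1 0), rh0e49de9fbce45e5a, rh17bfb27812af96cd, rh279d0d0cb5925932, rh5d32e4722544ecdd, rh5e434e210ec6cd1d, (rh813eb7d830ba9692.shift 2 0), (rhc7506318cded354a.shift 2 0), (rhcb0ed52c696debef.shift 0 2), (rhddbc62df2eb8103f.shift 1 0), (rhf317f41dcb504c43.shift 2 1), (rhf5efcdc3c9f234af.shift 1 0)] (by decide +kernel))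
noncomputable def rhe1452de3e487eb11 : CRef := CRef.mk (Pat.mk 0xa00000000000000000000000000000000000000000 0x38000000fc000001fe000001fe000003ff000000fe000000ff000001fe000000fe0000003a00000028 10 10) 0 0 (step_sound _ 164 [(rh163534abb5d553f2.shift 2 0), (rh4dd91e16365a81f3.shift 1 0), (rh51a67087f5b3b646.shift 1 2), (rh53cf5e34488672b8.shift 0 1), (rh56ea43b1da3d4de5.shift 1 0), rh6b2ddfbe28da4a95, (rhb8322d330c464d98.shift 1 0), (rhbc031e55eb826e6b.shift 2 1), (rhc01f913feabaadf4.shift 0 2), rhdca12d589956c481, (rhe7d1d84a86647896.shift 0 1), rhf7c8d392a9dfd0fc, (rhffc11955611abc0e.shift 2 0)] (by decide +kernel))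
noncomputable def rhc6ac8f551c848eb8 : CRef := CRef.mk (Pat.mk 0xa000000000000000000000000000000000 0x380000017c000003fe000001fe000003fe000000fe000001ff000000fe000000fc00000038 10 10) 0 0 (step_sound _ 132 [(rh14efb7ec5dd00524.shift 2 1), (rh3197b58d2ca4a898.shift 2 1), (rhddcfd0779a0b5073.shift 3 1), (rhe38f58961b39e31b.shift 2 1), rheff147ec45c91216, (rhf529181c758058ad.shift 2 1)] (by decide +kernel))
noncomputable def rhc467f8d7638ba227 : CRef := CRef.mk (Pat.mk 0x500000000000000000000000000000000000000000 0xbc000001ff000000fe000001ff0000007f000001ff000001ff0000007f0000007e00000034 10 9) 0 0 (step_sound _ 163 [(rh2f7e2f9206f398be.shift 1 0), (rh3197b58d2ca4a898.shift 1 2), (rh79f501246f7e937a.shift 1 2), (rhb6bf48209d0b9d82.shift 2 0), (rhbb9a283cf4ef134a.shift 1 1), (rhc7506318cded354a.shift 1 0), rhe33c9cc11787d737] (by decide +kernel))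
noncomputable def rh4c06e598cbded130 : CRef := CRef.mk (Pat.mk 0xa00000000000000000000000000000000000000000 0x280000003a0000007e0000007e000001ff000000fe000001ff000001fe000003fe000001fc00000068 10 10) 0 0 (step_sound _ 164 [(rh2507b9db82b37b1d.shift 1 0), (rh2f7e2f9206f398be.shift 2 0), (rh3a9e4707e5d94c4d.shift 2 2), (rh3e2226efbb1eb0c3.shift 2 2), (rh73ebb91494b48f13.shift 2 1), (rhc7506318cded354a.shift 2 0), rhdd112d01328dac07, (rhedb06550822ce33d.shift 0 2)] (by decide +kernel))
noncomputable def rh6bfeb39e04f3d83a : CRef := CRef.mk (Pat.mk 0x1400000000000000000000000000000000000000000 0xc0000000f0000003fc000001fe000000fe000001ff000007fe000007fc000007fe000001fc000000d0 10 11) 0 0 (step_sound _ 165 [(rh15a9e05eed57c8d5.shift 3 0), (rh1eb2f5fca10a0485.shift 2 0), (rh2043081bd1990921.shift 1 0), (rh4eed0f657b8a123a.shift 0 1), (rh59356f8d2ddefcff.shift 1 0), (rh665d02da03dc2b2f.shift 3 2), (rh7225427ba772470b.shift 2 0), (rh72b45c5257ed1518.shift 1 1), (rh7aec5aac1d18d9c9.shift 3 0), (rhc387e4b7a9d98a58.shift 3 0), (rhc7506318cded354a.shift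 3 0), rhc7c47096d2eef123, (rhf6fc955b6293d468.shift 3 1), (rhfc259bd4bf63214b.shift 1 1)] (by decide +kernel))
noncomputable def rhbfad931998edf241 : CRef := CRef.mk (Pat.mk 0x1400000000000000000000000000000000000000000 0x70000001fc000003fe000003fc000007ff000001fe000000ff000001fe000001fc0000007000000050 10 11) 0 0 (step_sound _ 165 [(rh225545b3a9258ed8.shift 3 1), (rh411bce92ff9d76f8.shift 2 1), (rh4741497c3fc0e5f9.shift 1 2), (rh5393610cb3a9668c.shift 1 0), (rh54d56308d0408bd4.shift 3 1), (rh63b361a3aa76686b.shift 1 0), (rh67b0b92279b495f6.shift 1 0), (rh8522e212dcad8d8b.shift 3 0), (rh95136593ed15cd12.shift 1 1), (rhc848f3c258520919.shift 1 1), (rhcd83fc69c900e058.shift 3 2), (rhd68ec41cb650e3cf.shift 0 2), (rhdfe12ef14e244090.shift 3 1), (rhf987ea4ae3ba0c2c.shift 2 0)] (by decide +kernel))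
noncomputable def rh66455cffe3ab5179 : CRef := CRef.mk (Pat.mk 0xa00000000000000000000000000000000000000000 0x38000000fc000003fe000001fe000003ff000000fe000001ff0000007e0000007e0000003a00000028 10 10) 0 0 (step_sound _ 164 [(rh11abbc3960bf9ee6.shift 0 1), (rh14efb7ec5dd00524.shift 2 2), (rh25a55ee2e1c83c77.shift 0 1), (rh28c61dd76cf5ee6d.shift 1 0), (rh3d113a44b7999659.shift 2 1), (rh71f3475996f22689.shift 2 2), (rhcb60fd94b945f23a.shift 2 2)] (by decide +kernel))
noncomputable def rh204a7836cf517501 : CRef := CRef.mk (Pat.mk 0xa00000000000000000000000000000000000000000 0x10000000380000013c000001fe000001ff000000fe000003fe000003fe000003fe0000017c00000068 10 10) 0 0 (step_sound _ 164 [(rh2f7e2f9206f398be.shift 2 0), rh84dab2c55e4a2c35, (rh9fc560d046af378a.shift 2 1), (rhaacb244f65a6f66e.shift 3 0), (rhb4bc0acb8a7814d5.shift 2 1), (rhc7506318cded354a.shift 2 0)] (by decide +kernel))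
noncomputable def rh63bceba3d1fa3cdf : CRef := CRef.mk (Pat.mk 0x1400000000000000000000000000000000000000000 0x80000003e0000003f80000037c000003fe000001fc000003ff000003fe000003ff000001fc000000fc 10 10) 0 0 (step_sound _ 165 [(rh2f7e2f9206f398be.shift 3 0), (rh5735df3eae513f03.shift 4 0), (rh6c5b8b49bbac4b4e.shift 3 1), (rhc7506318cded354a.shift 3 0), (rhebcd721a8265673b.shift 3 2), rhff844dd7a2152b41] (by decide +kernel))
noncomputable def rh96936d01d9435dab : CRef := CRef.mk (Pat.mk 0x1400000000000000000000000000000000000000000 0xfc000001fc000003ff000003fe000003ff000001fc000003fe0000037c000003f8000003f0000000b0 10 10) 0 0 (step_sound _ 165 [(rh14efb7ec5dd00524.shift 3 2), (rh216516abf0d85ee7.shift 3 0), (rh4a60f8bd08414e92.shift 3 2), rh9615c8459ed75572, (rhf529181c758058ad.shift 3 2), (rhf8fec13910acc9d8.shift 4 0)] (by decide +kernel))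
noncomputable def rh324c11900462da04 : CRef := CRef.mk (Pat.mk 0xa00000000000000000000000000000000000000000 0x380000017c000001fe000001fe000003fe000000fe000001ff000001fe000003bc000000b800000038 10 10) 0 0 (step_sound _ 164 [(rh2f7e2f9206f398be.shift 2 0), (rh3944420063265415.shift 2 1), (rh832bcbcc722cff18.shift 2 3), rh87adb0b08fc9be6d, (rhc7506318cded354a.shift 2 0), (rhe9db69459e0ba4f5.shift 3 0)] (by decide +kernel))
noncomputable def rhf85123fc74293ed6 : CRef := CRef.mk (Pat.mk 0x140000000000000000000000000000000000000000000000000 0x8000000398000003b8000007be000007fc00001dff00000ffe00001ffc00001ffc00000ffc000003f0000003e0 10 13) 0 0 (step_sound _ 166 [(rh393a0dcfbadbf0c4.shift 1 1), (rh3d3a1d071d4421d8.shift 2 0), (rh536eeef0b5b79b4f.shift 2 0), (rh59586c0182cdd316.shift 3 1), (rh67edea370cbc79a1.shift 2 0), (rh6f1e7724f5deba87.shift 1 0), (rh78c1fab995dac6cb.shift 0 1), (rh7bf13effa9574b85.shift 0 1), (rh80bbdbf343f0bcdc.shift 1 1), (rh81aca4846109d13b.shift 3 1), (rh8de00d51127e7869.shift 2 1), (rh8f83ef798c5866fe.shift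 3 1), (rhae6030b37795a69a.shift 1 0), (rhb382c995b53360dc.shift 2 0), (rhc70b9b47707c11d5.shift 1 0), (rhd785476248489e5d.shift 1 0), (rhdf63f6af86437606.shift 2 1), (rhe4f5b2647025cbf4.shift 2 0), (rhfb3445b80efc0f44.shift 3 1)] (by decide +kernel))
noncomputable def rhe6babdac65f6b398 : CRef := CRef.mk (Pat.mk 0x1400000000000000000000000000000000000000000 0x200000003e0000003f0000007fc00001ffc00000ffc00000ffe00001dff00000ffe00000fbe000003b80000039800000080 10 13) 0 0 (step_sound _ 198 [(rh1079a9578c71260d.shift 1 1), (rh1d8e86b0dc188a13.shift 3 2), (rh3ddf405ee848cccf.shift 2 3), (rh40c3c99f368a4aee.shift 1 3), (rh4350ec6d92b23e8b.shift 1 3), (rh461a26787f6b6c31.shift 1 1), (rh7179ea38192dd742.shift 2 2), (rh77d438fb72d5b5c0.shift 3 2), (rh7996fbce9040e219.shift 0 1), (rh79f18a0750ee1849.shift 2 3), (rh83e6195625031324.shift 1 0), (rh9357b3bcc17a7e83.shift 2 1), (rh9e68f67bbcf6ed4a.shift 0 1), (rhb6ebf5457d98024c.shift 2 2), (rhcd99b7dc481cbb0a.shift 1 2), (rhd5abf8214bc31b4b.shift 1 2), (rhdd920ff78de83819.shift 3 2),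 (rhf8acea46f4e942b2.shift 2 2)] (by decide +kernel))
noncomputable def rh59f60fcc888c08ce : CRef := CRef.mk (Pat.mk 0xa0000000000000000000000000000000000000000000000000 0xd0000001f000000ffc000003ee000007ff000000ff000007ff000007ff000007ff000001fe000001f8000001f0 10 12) 0 0 (step_sound _ 165 [(rh0ace362f2845880b.shift 0 1), (rh27352508bdd1d15f.shift 1 1), rh2740ee3a24ef57cd, (rh45c642cfbc550675.shift 1 1), (rh4a3e24e8154f7f47.shift 1 1), (rh7dd0fbd538af8b4b.shift 1 1), (rh7f56db1f3ce5dd3a.shift 1 0), (rh92dd64bb651cf1cc.shift 1 1), rha5bb46130764b4ca, (rhb459c773c48890eb.shift 0 1), (rhb540b7c455c50cdf.shift 1 0), (rhcfa23a7d3928650f.shift 1 1), rhd428b8cd4a975419, (rhf68e5b56d791dc6e.shift 0 1), (rhf8542ae283d4bc02.shift 1 0), (rhff749c179b4dde8a.shift 2 1)] (by decide +kernel))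
noncomputable def rhf886798b0a44285d : CRef := CRef.mk (Pat.mk 0xa00000000000000000000000000000000000000000 0x1f0000001f8000003fc000007ff000007fe000007ff00000efe00000fff000007ee00000ffc000001f0000001d0 10 12) 0 0 (step_sound _ 197 [(rh0bfd67bbbd800780.shift 2 1), (rh0d0d480f0fdd7380.shift 1 1), (rh2f1dbadb6820187e.shift 1 1), (rh35ed058a01f6331e.shift 1 2), (rh3ee01174fe85c5b2.shift 0 2), (rh4d18ff8f2f18e8d9.shift 0 1), (rh73ecb949014f2fe6.shift 0 2), (rh75fa6aaae7ae30ce.shift 1 1), (rh9b2dcabd6d361527.shift 1 1), (rh9b6ca38d6686d638.shift 2 2), rha65a48230d0013e9, (rhd04917a113b1f84e.shift 1 2), (rhd15041cc7dac2131.shift 3 2), (rhd32fac57161e711e.shift 2 1), rhef10498eb62e2318] (by decide +kernel))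
noncomputable def rhbb5d0a0ce56a127f : CRef := CRef.mk (Pat.mk 0x1e0000000000000000000000000000000000000000 0x40000000f0000001e0000003b0000001f0000003f0000000700000005 10 6) 0 0 (step_sound _ 129 [rhd91412bd922fa2d9, (rheb0810cc63b001d8.shift 0 4)] (by decide +kernel))
noncomputable def rhf62d664b2a48ccda : CRef := CRef.mk (Pat.mk 0xe000000000000000000000008 0x3c0000003c000000ff0000007e000000f80000000800000008 10 8) 0 0 (step_sound _ 100 [(rh3947d1dfff0afc6c.shift 0 2), (rh3fc3a7fb6866dcd4.shift 1 2), (rh45f730bcf36fcf64.shift 0 2), rh8451b93d7ee8630c, rhf1e75f6394ffc4d2] (by decide +kernel))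
noncomputable def rh01b025eb10f27f27 : CRef := CRef.mk (Pat.mk 0x1e00000000000000000000000000000000 0x40000001c0000001c0000001c0000000c0000001f0000003a0000007f0000001f0000001c 10 7) 0 0 (step_sound _ 100 [rhd7041c6f9411dca5, (rhe25b0a99195a5d59.shift 1 3)] (by decide +kernel))
noncomputable def rh9425a04aa0913a11 : CRef := CRef.mk (Pat.mk 0x2000000070000000100000000000000000 0x2000000020000000670000007e000003df000001fc000003de 10 10) 0 0 (step_sound _ 165 [(rh5c5e593799055d58.shift 4 2), rhdbd4061df3c25027] (by decide +kernel))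
noncomputable def rhe88fd8de4087fb53 : CRef := CRef.mk (Pat.mk 0xe000000020000000000000000 0x40000000c000000ee0000007f0000007a0000001f0000001e 10 8) 0 0 (step_sound _ 130 [rh054eec66bdc88820, rh37803848f15edf97, (rhf9366b6a121593ef.shift 1 0)] (by decide +kernel))
noncomputable def rhe19bae7253879206 : CRef := CRef.mk (Pat.mk 0x8000000080000000800000008000000000000000000000000 0x800000008000000f8000000ff0000007f000000700000002000000020 10 8) 0 0 (step_sound _ 100 [(rh55afc6a59410cf00.shift 3 2), rh698f63637b6f4359] (by decide +kernel))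
noncomputable def rhfb272c37a7e6d965 : CRef := CRef.mk (Pat.mk 0xe0000000800000008000000000000000000000000 0x8000000080000001e00000078000000ff000000ff000001fc00000014 10 9) 0 0 (step_sound _ 132 [(rh4a0b10776449c3e9.shift 1 4), (rh4fe96e0e5c95af88.shift 1 0), rhe41df38a77172e7c] (by decide +kernel))
noncomputable def rh698d3d662887b176 : CRef := CRef.mk (Pat.mk 0x1e0000001200000002000000000000000000000000 0xb0000001e0000001a000000160000003f0000003700000021 10 6) 0 0 (step_sound _ 193 [(rh3244c3cc8379b070.shift 0 5), rh400dee5d433cfe14] (by decide +kernel))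
noncomputable def rh72a53909658eb7d9 : CRef := CRef.mk (Pat.mk 0x100000001c00000010000000000000000000000000000000000000000000000000 0x4000000140000001c000001ff000001ff000003fe0000003e000000380000003800000028 10 10) 0 0 (step_sound _ 164 [(rh0f9feb8fcbca8413.shift 0 1), (rh6eff4158bb400f47.shift 3 3), (rh82b6f0c8372b459c.shift 1 4), (rh9180f31bfd1a2302.shift 3 1), (rhd0970467b621188c.shift 3 0)] (by decide +kernel))
noncomputable def rh988d64ab3dbba7de : CRef := CRef.mk (Pat.mk 0xe00000002000000020000000000000000 0xe30000007e00000073000000070000000700000005 10 8) 0 0 (step_sound _ 132 [rhb2e8e32a390437d4, (rheb0810cc63b001d8.shift 0 3)] (by decide +kernel))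
noncomputable def rh8ad8b9fd24a5d66e : CRef := CRef.mk (Pat.mk 0x38000000080000000800000000 0x140000003f000000f8000000e80000007c000000f4 10 8) 0 0 (step_sound _ 131 [(rh208a561cb75517c2.shift 2 0), (rh2e8814637c3f6d46.shift 2 1), (rh79905f95cb2d899a.shift 0 1), (rhf60aa8aede119d3b.shift 0 3)] (by decide +kernel))
noncomputable def rh3604e2139c09136d : CRef := CRef.mk (Pat.mk 0x20000003c0000002400000020000000000000000000000000 0x200000002000000230000003e00000024000003fc000000fe0000007000000010 10 10) 0 0 (step_sound _ 161 [(rh3244c3cc8379b070.shift 0 5), (rh8682730b1d316a94.shift 1 0)] (by decide +kernel))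
noncomputable def rhc9f4de4124787141 : CRef := CRef.mk (Pat.mk 0x38000000200000002000000000 0x1000000070000000700000007000000030000000380000006f0000007e0000005f 10 7) 0 0 (step_sound _ 133 [(rh20e56a1196e70fcc.shift 4 0), (rha7bb430bc20854cc.shift 4 1), rhac2c31c96f6e24ba, (rhe104c6c7a4780cb0.shift 4 0)] (by decide +kernel))
noncomputable def rh5df34036beddf51c : CRef := CRef.mk (Pat.mk 0xe00000000000000000000000000000000000000000 0x28000000380000007800000078000000ff000000fe0000003f00000038000000380000003800000020 10 8) 0 0 (step_sound _ 164 [(rh132224b2333f091b.shift 1 4), (rh432696f3a5eb66ad.shift 3 0), (rh592c7139d2c44767.shift 2 4), (rh739dc326183f2661.shift 0 2), (rhaeac014a58998cf3.shift 1 4), (rhd155379f680e1ffc.shift 0 2)] (by decide +kernel))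
noncomputable def rheef1acc465a130ff : CRef := CRef.mk (Pat.mk 0x60000000c000000000000000000000000 0x20000003600000037000000fe0000003e0000007c0000003c00000008 10 8) 0 0 (step_sound _ 100 [rhbb5c7fa15aad1362, (rhf48373e13d2bc128.shift 1 3)] (by decide +kernel))
noncomputable def rh8ce481b4b417295c : CRef := CRef.mk (Pat.mk 0x60000000c000000000000000000000000000000000 0x2000000028000001ff000000fe0000007f000000f8000000e0000000e0000000e0000000e000000020 10 9) 0 0 (step_sound _ 164 [rhaf3fc5659a290614, (rhb739f4f82bb681b4.shift 3 4)] (by decide +kernel))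
noncomputable def rh72c9e462779a0226 : CRef := CRef.mk (Pat.mk 0x20000000600000004000000000000000000000000000000000 0x54000001dc000003df0000037c000007fc000003ec0000037c0000007c0000003c00000034 10 11) 0 0 (step_sound _ 102 [rh4c94d5462214c489, (rh7b1f1fb55310c477.shift 5 2)] (by decide +kernel))
noncomputable def rhcca90f4a80daaa7f : CRef := CRef.mk (Pat.mk 0xc0000001800000000000000000000000000000000 0x100000001c0000001c0000000c0000001f0000001c0000001f0000001f0000001c00000014 10 5) 0 0 (step_sound _ 160 [rh027f28d4842086fa, (rhab22b5b56e7b3243.shift 0 4)] (by decide +kernel))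
noncomputable def rh1943c6f8bb2bbefe : CRef := CRef.mk (Pat.mk 0x180000001000000000000000000000000000000000 0x100000007c0000007c0000001f0000007e000000f80000003e0000001c0000000c00000008 10 8) 0 0 (step_sound _ 195 [(rh5d54cb79a67f97ab.shift 3 2), (rh93451e8fad1a0716.shift 1 1), (rha40d42a2e34c408d.shift 3 2), rhfe7147cc5bea0d39] (by decide +kernel))
noncomputable def rhf192c80d0a3463f1 : CRef := CRef.mk (Pat.mk 0x2000000060000000400000000000000000 0x54000000dc000000fe000001fc0000007f000001fc000000ce0000008c00000004 10 9) 0 0 (step_sound _ 165 [(rh2145e1d24b96a57e.shift 5 2), rhb27079f4ccb5565b] (by decide +kernel))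
noncomputable def rh23f704302be3ba3d : CRef := CRef.mk (Pat.mk 0x8000000180000001000000000000000000000000000000000 0x400000014000000b7000000df000000ff000000fb000000fe000000f6000000e0000000a0 10 8) 0 0 (step_sound _ 100 [rh177ec3d784ba052c, (rh7b1f1fb55310c477.shift 3 2)] (by decide +kernel))
noncomputable def rh99942ea56eb44264 : CRef := CRef.mk (Pat.mk 0x60000000c0000000000000000000000000 0x38000001ff000001fe0000017f000007f8000000e0000003c0000001f0000001e0 10 11) 0 0 (step_sound _ 132 [(rhb739f4f82bb681b4.shift 3 3), rhfffae33358bd6c04] (by decide +kernel))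
noncomputable def rhc22e051810859078 : CRef := CRef.mk (Pat.mk 0x1000000030000000200000000000000000 0x60000000600000006a0000003e000000fe000000770000007e0000007f 10 8) 0 0 (step_sound _ 37 [(rh7b1f1fb55310c477.shift 4 0), rh9350e05c4351d2ba] (by decide +kernel))
noncomputable def rh6f7f5b37a4795d10 : CRef := CRef.mk (Pat.mk 0xe0000000800000000000000000000000000000000 0x40000000e70000007e000001fc0000007c000001fe0000007c00000054 10 9) 0 0 (step_sound _ 133 [(rh68691964b29f233d.shift 1 4), rh857115ca24ff267c, (rhc1db5918def9f13b.shift 1 4), (rhe28dc3223a412fc9.shift 1 4)] (by decide +kernel))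
noncomputable def rh3a5187c0134b904b : CRef := CRef.mk (Pat.mk 0xc0000000800000008000000000000000000000000 0x8000000280000003f00000078000000fe000000ff0000007c0000000c 10 8) 0 0 (step_sound _ 132 [rh192cb76a9f559e0b, (rh4ca5dae25f5c14ff.shift 0 4), rh4e9871f9db227867, (rha47cd6a1aa38c91a.shift 1 0)] (by decide +kernel))
noncomputable def rhd080e72f4011b8aa : CRef := CRef.mk (Pat.mk 0xc000000080000000800000000 0x40000001c0000001c0000001c0000002e0000007f000000780000007f000000f4 10 8) 0 0 (step_sound _ 131 [rh1a25886d0bab141d, (rh4114dc81b1a36dd4.shift 2 0), rh6cf031d8f8dc09c6, rh6fdeccb09f6dedde, rh7d80bf714a36c97d, (rhb482d4edfd6865ea.shift 1 0)] (by decide +kernel))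
noncomputable def rhcb03d3453eecc542 : CRef := CRef.mk (Pat.mk 0x30000000a000000000000000000000000 0x140000001c0000001e000000780000001f000000fe000000fc000000fc00000014 10 8) 0 0 (step_sound _ 100 [rh14f5cd763c35baa9, (rh5419adcd928dba20.shift 0 3)] (by decide +kernel))
noncomputable def rh04442ea92ae02442 : CRef := CRef.mk (Pat.mk 0x6000000140000000000000000000000000 0x7c000002fc000003fc00000fff000007fe00000f7f000003fc0000036e000003bc000003bc000002b4 10 12) 0 0 (step_sound _ 197 [rh0bbb1190f598a21c, (rh3aff51c327789ed8.shift 1 3), (rh3dc29776f752812a.shift 2 3), (rh60ec83faaf5d4f0e.shift 0 3), (rh6171949514bb7ea5.shift 2 3), (rh639577fc79742f35.shift 1 0), (rh68f4727567015feb.shift 1 0), (rh6ad05e01cf993816.shift 4 0), (rh72fa31baa064809e.shift 1 0), (rhd564093e5d561322.shift 1 0)] (by decide +kernel))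
noncomputable def rhc4c11ae0da97fb15 : CRef := CRef.mk (Pat.mk 0x20000000600000004000000000000000000000000000000000 0x140000001c0000005c0000007c000001fc0000076f000003fe000007ff0000003400000020 10 11) 0 0 (step_sound _ 102 [rh4b28675f207a49a6, (rh7b1f1fb55310c477.shift 5 2)] (by decide +kernel))
noncomputable def rh452ce5bd572c1fba : CRef := CRef.mk (Pat.mk 0x1c000000100000000000000000000000000000000000000000 0x80000000e8000000fc000000fc000001d6000007fc000007f8000007ff000007fe000001ff000001e8000001e0 10 11) 0 0 (step_sound _ 166 [(rh68691964b29f233d.shift 2 5), rh98ab60ba5528fde1, (rhc1db5918def9f13b.shift 2 5), (rhe28dc3223a412fc9.shift 2 5)] (by decide +kernel))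
noncomputable def rh2834345c38cfb86a : CRef := CRef.mk (Pat.mk 0x100000003000000000000000000000000000000000 0xa0000007e0000007e0000007f0000003e000000fe00000018000000380000003800000028 10 8) 0 0 (step_sound _ 163 [(rh42556c66b1e93606.shift 1 1), (rh4ca5dae25f5c14ff.shift 1 4), rha4fba0915071f9dd, (rhdeca8db941583de2.shift 1 4)] (by decide +kernel))
noncomputable def rh9e46f00e38587da3 : CRef := CRef.mk (Pat.mk 0x2000000060000000000000000000000000 0x380000013e0000077f000003fe000007bf000000a000000080 10 11) 0 0 (step_sound _ 103 [(rh38791ac5737ed75e.shift 4 3), (rh7a464a5dcbccb714.shift 4 2), (rh7ec8ae35ecb18eb8.shift 0 1), (rha835aaec302ef97a.shift 2 0)] (by decide +kernel))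
noncomputable def rha01301089e813053 : CRef := CRef.mk (Pat.mk 0x20000000600000000000000000000000000000000000000000 0x5c0000007c000000fc000000ff000001ff0000077f000003fc000007ae000000fc000000fc0000005c00000004 10 11) 0 0 (step_sound _ 167 [(rh38791ac5737ed75e.shift 4 5), (rh529cf216ce4caf2f.shift 4 2), (rh5d54a69ee789ff61.shift 4 2), rhf04fa0c81bf3cd6b] (by decide +kernel))
noncomputable def rh403b4cafe214ee8e : CRef := CRef.mk (Pat.mk 0x20000000600000000000000000000000000000000000000000 0x54000001ff000000fe000001ff0000003f000001fe0000003f000001fe0000007e0000007a00000010 10 9) 0 0 (step_sound _ 164 [(rh0393b51c998119f9.shift 1 2), (rh074f2cd2dcb2a237.shift 1 2), (rh39dedb7fc5ddc6aa.shift 2 2), (rh505d60148adeb525.shift 0 1), (rh7f692f2f17542055.shift 0 4), (rhb449765217699cf5.shift 1 2), rhba4c7d1cb18a9bec, (rhc801600e8fb15741.shift 1 2)] (by decide +kernel))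
noncomputable def rh55e55d4c71555cab : CRef := CRef.mk (Pat.mk 0x2000000060000000000000000000000000 0x1800000018000001180000077f000003fe000007bf000000b0000000b0 10 11) 0 0 (step_sound _ 103 [(rh38791ac5737ed75e.shift 4 3), (rh5d54a69ee789ff61.shift 4 0), (rh7a464a5dcbccb714.shift 4 2), (rha835aaec302ef97a.shift 2 0), rhaa8a46d0e8e0ec93] (by decide +kernel))
noncomputable def rhac50d3c34553a79a : CRef := CRef.mk (Pat.mk 0x80000001800000000000000000000000000000000 0x40000001c0000001c0000001c0000001c0000007c0000006f0000007c0000007c00000014 10 7) 0 0 (step_sound _ 99 [(rh2712df89b3af5d75.shift 2 0), rh3fc9df38e8c4fd36, (rh8043886fe73b0362.shift 0 2), (rhb8d2236ec74c0423.shift 2 0), rhc0e715b793232010] (by decide +kernel))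
noncomputable def rh11af2fe1d8b5db85 : CRef := CRef.mk (Pat.mk 0x100000003000000000000000000000000000000000 0x380000003800000078000001ff000000ff000003bf000001f0000003de000000380000003800000028 10 10) 0 0 (step_sound _ 134 [(rh38791ac5737ed75e.shift 3 4), rh4b8c316bb153cb7b, (rh7a464a5dcbccb714.shift 3 3), (rhb52cdf1010d18ba2.shift 3 0)] (by decide +kernel))
noncomputable def rh77b6aa865e4a5d09 : CRef := CRef.mk (Pat.mk 0x2000000060000000000000000000000000 0xf8000000fc000001fe0000077f000003fe0000039e0000009000000090 10 11) 0 0 (step_sound _ 103 [(rh38791ac5737ed75e.shift 4 3), (rh5d54a69ee789ff61.shift 4 0), (rh96ebbd42a7c7fc9f.shift 4 2), rha606cd5aa8f1c694, (rha835aaec302ef97a.shift 2 0)] (by decide +kernel))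
noncomputable def rh1bc02feb33d81db1 : CRef := CRef.mk (Pat.mk 0x100000003000000000000000000000000000000000 0x800000018000000380000003c0000007f0000003e0000003e0000001e0000003c0000003800000028 10 7) 0 0 (step_sound _ 100 [(rh2712df89b3af5d75.shift 3 0), (rha02a85519a85ca3b.shift 1 0), (rhb8d2236ec74c0423.shift 3 0), (rhd73f8d8555bd7ce9.shift 3 0), (rhdf9fd4c775e69eaf.shift 0 2), (rhec5449225c63a3c0.shift 1 0), (rhecbc5c492cba3814.shift 3 0)] (by decide +kernel))
noncomputable def rhf2fe88d300a9ff0d : CRef := CRef.mk (Pat.mk 0x40000000c000000000000000000000000000000000 0x20000000e0000000e0000003e8000003ff000003ff00000edf000007f80000077c000000f8000000e0000000a0 10 12) 0 0 (step_sound _ 198 [(rh2698aa0ee7855177.shift 5 2), (rh3e53d14085adc43a.shift 5 2), (rh4950366003520932.shift 3 0), rh6d2bd4a74eb3be38, (rh6d4d206fc110a9ff.shift 4 1), (rh74bc491d0bbfd11d.shift 4 3), (rh78b6e829124b1d4c.shift 3 1), (rh7a37b97b560c98b8.shift 3 0), (rhe06068ccb1bdfbee.shift 3 0), (rhfb99a00619f23209.shift 5 1)] (by decide +kernel))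
noncomputable def rhab8be96404518b63 : CRef := CRef.mk (Pat.mk 0x1c0000000000000000000000000000000000000000 0xa0000000e0000000e000001c6000001fe000003ff0000000e0000000e0000000e00000008 10 10) 0 0 (step_sound _ 165 [(rh008b05f4778dc30d.shift 0 4), (rh32f12ad4e4f42996.shift 1 4), (rh84a6e3443da6976e.shift 1 0), (rhafa5a7051d37b143.shift 1 2), (rhd04acbfff7bcb286.shift 1 4), (rhf0a8276bbb29b270.shift 1 2)] (by decide +kernel))
noncomputable def rh43d507abd14ea62b : CRef := CRef.mk (Pat.mk 0x1c0000000000000000000000000000000000000000 0xa0000000e0000000e000001c7000001fe000003fe0000000e0000000e0000000e00000008 10 10) 0 0 (step_sound _ 165 [(rh32f12ad4e4f42996.shift 1 4), (rh34c6441c63b6e279.shift 0 4), (rh84a6e3443da6976e.shift 1 0), (rhafa5a7051d37b143.shift 1 2), (rhd04acbfff7bcb286.shift 1 4), (rhf0a8276bbb29b270.shift 1 2)] (by decide +kernel))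
noncomputable def rh737ff425fbe2b42e : CRef := CRef.mk (Pat.mk 0x7000000000000000000000000000000000 0x30000000f8000000f80000005f000000ff0000003f0000003f0000003c00000038 10 8) 0 0 (step_sound _ 131 [(rh147013688cda2174.shift 2 1), (rh41b5776f656e3ef1.shift 0 3), (rh775ca1963e850b80.shift 1 3), rhd0d477be75f8b48f] (by decide +kernel))
noncomputable def rh2a3dc4f1a4f66ecd : CRef := CRef.mk (Pat.mk 0x7000000000000000000000000000000000 0x400000004000000057000000ff000001ff000003f0000003f8000000e0 10 10) 0 0 (step_sound _ 131 [(rh0edd3afef6b5d7e0.shift 2 3), (rh41b5776f656e3ef1.shift 0 3), (rh482329368609b4e0.shift 2 0), (rhbb13f9e1d387f64a.shift 0 3)] (by decide +kernel))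
noncomputable def rh17782ea4ae703318 : CRef := CRef.mk (Pat.mk 0x7000000000000000000000000000000000 0x30000000f8000000f80000005f000003fe000001f7000003f0000003f8000000e0 10 10) 0 0 (step_sound _ 131 [(rh147013688cda2174.shift 2 1), (rh3947d1dfff0afc6c.shift 2 3), (rh482329368609b4e0.shift 2 0), (rhbb13f9e1d387f64a.shift 0 3), (rhd80db28116844ab1.shift 2 3)] (by decide +kernel))
noncomputable def rhebb5a55e23aa4d55 : CRef := CRef.mk (Pat.mk 0x3800000000000000000000000000000000 0x80000000c0000000f0000003e0000007f0000000e0000000e0000000a 10 7) 0 0 (step_sound _ 130 [(rh008b05f4778dc30d.shift 0 3), (rh0d378fd9e8917c5a.shift 0 3), (rh775ca1963e850b80.shift 0 3), (rhfae1bc54da926896.shift 1 0)] (by decide +kernel))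
noncomputable def rha56feb5f1c0c4c5f : CRef := CRef.mk (Pat.mk 0x7000000000000000000000000000000000000000000000000000000000 0x2800000078000000780000075e000007f000000fff000001ff000001ff000001ff0000017c0000003c00000028 10 12) 0 0 (step_sound _ 196 [rh994456d38928074b, (rhaa865e0f38f011af.shift 3 2), rhee65fa8f54cd0f14, (rhf0f55c4504412200.shift 1 6)] (by decide +kernel))
noncomputable def rh23c2a1602f60b87f : CRef := CRef.mk (Pat.mk 0xc00000000000000000000000000000000000000000 0xe0000000f8000003fc000003fc000002fe000006fc000007ff00000fff000007ff00000ffc000000a8 10 12) 0 0 (step_sound _ 134 [(rh3e78d51dbb5cf05f.shift 3 0), (rh595cb70a8208754d.shift 3 0), (rh70382a1b8b42d1d7.shift 1 1), (rh70d65ab19e85826e.shift 2 0), rh7db7cc86da9d9ea2, (rh982662a51b07c797.shift 3 0), (rh9bb2f615c3b60c7c.shift 3 1), (rha44dc394a5f8ac74.shift 3 1), (rhb25e9c2604d62113.shift 3 0), (rhb971f02372b2395a.shift 3 1), (rhbf51ad9f142c0161.shift 2 1), (rhd93f4dbd9e6a504b.shift 2 0), (rhd98bb42caf7edeac.shift 3 0)] (by decide +kernel))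
noncomputable def rh46f2249100bc14f1 : CRef := CRef.mk (Pat.mk 0x60000000000000000000000000000000000000000000000000 0x400000007000000078000001780000076e000003fe000007ff000007fe000007ff000003fc0000017000000050 10 11) 0 0 (step_sound _ 165 [(rh44039f76947ebcc9.shift 2 0), (rh5435a193f21493c1.shift 2 2), (rh7b94ddfb07c51f88.shift 0 1), (rh819ffacda6c9ff0d.shift 2 1), (rh8313daa1f1fb2ca5.shift 0 1), (rh8a90be6e62959a00.shift 2 2), (rh9131db738edfba55.shift 1 1), (rh96bc7975ac536380.shift 3 1), (rhc18ea53fbd7c28c0.shift 0 2), (rhc3f82ed5fda78ad3.shift 2 1), (rhd83b49b534d38e79.shift 2 1)] (by decide +kernel))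
noncomputable def rh7c179dc3c92e9756 : CRef := CRef.mk (Pat.mk 0x6000000000000000000000000000000000000000000000000000000000 0x20000000f0000001f0000003f00000077c000007e800000fff000007ff00000fff000003f8000001f8000001f800000050 10 12) 0 0 (step_sound _ 165 [(rh0fa5d4b5057348eb.shift 0 2), (rh0fe266c618c304a4.shift 1 2), rh1141ee8accf25073, (rh182ad3aba206955f.shift 2 0), (rh2219d0dd4e11c49a.shift 2 2), (rh3cc544ad78bbf98c.shift 2 2), (rh63f4b93d0cda74fc.shift 0 1), (rh7520844b95c2aa48.shift 2 2), (rh78ab2193fa5114a0.shift 2 1), (rh94080fe4a6537ec9.shift 2 2), (rha4a07adef6865b97.shift 2 2), (rhc952da16ac584eeb.shift 2 2), (rhe32ea628dafb64f6.shift 3 2), (rhf6825203f74441b7.shift 2 2)] (by decide +kernel))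
noncomputable def rhb143ccd35ef8ec0a : CRef := CRef.mk (Pat.mk 0x600000000000000000000000000000000000000000 0x74000001fc000001fe0000077f000003fe000007ff000003ec000000fc000000f400000050 10 11) 0 0 (step_sound _ 167 [(rh28124fcf951b2e6e.shift 4 2), rh57f91aaac1c0212e, (rh5fcb4307eb0a356b.shift 3 4), (rhb3da8384b9332508.shift 3 4), (rhd7becd1969f8148c.shift 4 2), (rhe7effb95670b5a62.shift 4 2)] (by decide +kernel))
noncomputable def rh1ca88ca1fa5fc079 : CRef := CRef.mk (Pat.mk 0x600000000000000000000000000000000000000000 0x70000000f8000003fe000001fe0000037f00000ffe000007f7000003fc000007fe000001f000000050 10 12) 0 0 (step_sound _ 197 [(rh3f2fa4ae738a13f2.shift 2 1), (rh55440798f557b611.shift 3 1), (rh5c4a7549f3c49e87.shift 1 1), (rh758b504e3e2143c3.shift 2 1), (rh80992a77acd17912.shift 2 1), (rh8199a99832abe55f.shift 4 2), (rha65332c72836eaee.shift 1 2), (rhac964776fe1bed4f.shift 1 2), (rhb91103075b2a1531.shift 1 2), rhba9d91026b1b6c42, (rhc13d375982caf113.shift 2 2), rhc9647c4468ff6d02, (rhe1562ce04495a4db.shift 1 2)] (by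 decide +kernel))
noncomputable def rh45b3212e6a922a37 : CRef := CRef.mk (Pat.mk 0x800000010000000100000001000000000 0x3000000030000001f4000000fe000001ff0000007f0000001f0000000c 10 9) 0 0 (step_sound _ 132 [(rh20966da26a1c2ae8.shift 3 0), (rh841f88a132b64fde.shift 0 1), rhf68801438f85ba7f, (rhfe072f11bd9d15b7.shift 1 0)] (by decide +kernel))
noncomputable def rh333cc16991020863 : CRef := CRef.mk (Pat.mk 0xc0000000800000008000000000 0x60000001e0000000ff000003fe000003bf000001f000000170 10 10) 0 0 (step_sound _ 134 [rh49e73e803bf890e9, (rh80b0929214ef9cfd.shift 1 0), (rhc89253ff58c66167.shift 6 1)] (by decide +kernel))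
noncomputable def rh4ee2bd7d9655410b : CRef := CRef.mk (Pat.mk 0x60000000400000004000000000 0xb0000000b8000007bf000003fe000001ff000000fc00000038 10 11) 0 0 (step_sound _ 133 [rh7b6f8690ea1a2744, rhc03331c17e060ccc, (rhe072fffdd2fccf38.shift 5 1)] (by decide +kernel))
noncomputable def rh21c515c75a34ee27 : CRef := CRef.mk (Pat.mk 0x10000000100000001000000000 0x1f8000000fe000001ff000000700000003e00000028 10 9) 0 0 (step_sound _ 132 [(rh9084a01451f2114f.shift 0 1), (rhb20dd801f506db0f.shift 1 0)] (by decide +kernel))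
noncomputable def rh95e3e31f5a887160 : CRef := CRef.mk (Pat.mk 0x400000004000000040000000000000002000000000 0x3800000038000000fc000001ff000000ff000001bf000000b8000000b8 10 9) 0 0 (step_sound _ 101 [(rh5d6a13449dbe9035.shift 1 0), rh963a8134eb35a2b1, (rhdebc43b768884653.shift 5 0)] (by decide +kernel))
noncomputable def rh5145d58004b203a9 : CRef := CRef.mk (Pat.mk 0x80000001800000010000000000000000000000000 0x40000006f0000003e000000fc000001ff000000fc000003fe 10 10) 0 0 (step_sound _ 36 [rh083abebbc3dd2540, (rh9e07f76261b05888.shift 3 1)] (by decide +kernel))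
noncomputable def rhdeb7663784bca1ec : CRef := CRef.mk (Pat.mk 0x1000000010000000300000000000000000 0xc0000000c0000002f000000ff0000001f000000fa0000001e00000018 10 8) 0 0 (step_sound _ 99 [rh0dc334b8d53b9f07, (rh3c3e23a02e82b2ed.shift 1 2), rh42e4f17b18cb4726] (by decide +kernel))
noncomputable def rhedfee97021e0973c : CRef := CRef.mk (Pat.mk 0x8000000080000001000000010 0x40000001c0000001c0000001f0000003f0000003f0000000c0000000c0000001c00000010 10 6) 0 0 (step_sound _ 131 [(rh73178040fac32eee.shift 0 1), (rhbe0e43a3bc50a43f.shift 3 0)] (by decide +kernel))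
noncomputable def rhdb4fa2740652dc70 : CRef := CRef.mk (Pat.mk 0x200000002000000040000000400000000000000000000000000000000 0x20000000e0000000c0000000c0000003f0000003f0000003e0000000a 10 6) 0 0 (step_sound _ 98 [rh7588a71766ec5470, (rhcfdf45280693d3da.shift 1 3)] (by decide +kernel))
noncomputable def rh3d097389d38cda03 : CRef := CRef.mk (Pat.mk 0x2000000020000000200000004000000000000000000000000000000000 0x5000000050000007dc000003ff000003fe000000fc000003f0000007b0000000700000007000000050 10 11) 0 0 (step_sound _ 260 [(rh0dbc8abee7ad42d4.shift 4 4), (rh374ae440e8011597.shift 4 2), (rh7b8a1967d08d1c05.shift 2 0), (rhf923e1cd724294d9.shift 0 5)] (by decide +kernel))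
noncomputable def rh429e98559a583c2f : CRef := CRef.mk (Pat.mk 0x800000008000000180000000000000000000000000000000000000000 0x140000007c0000000f0000007c0000001f0000001c0000001c0000001c00000010 10 7) 0 0 (step_sound _ 194 [(rh3c3e23a02e82b2ed.shift 0 5), rh63cb231ffb6b4435, (rh9276edaf8e76eb1a.shift 0 3)] (by decide +kernel))
noncomputable def rhdfe35e32def9b98f : CRef := CRef.mk (Pat.mk 0x4000000040000000800000008000000000000000000000000 0x780000007c0000001f000000f8000000ff000000fc0000003000000020 10 8) 0 0 (step_sound _ 163 [(rh7b1f1fb55310c477.shift 2 2), rha31833d72126e601] (by decide +kernel))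
noncomputable def rh418f1026bcfe6511 : CRef := CRef.mk (Pat.mk 0x1000000010000000200000002000000000000000000000000000000000 0x1000000050000003f0000003fe000003ff000001f8000001f000000050 10 10) 0 0 (step_sound _ 101 [(rh4b555cfb2752cddc.shift 4 2), (rh715601436bfe90d4.shift 0 1), (rha30ee3511751d125.shift 3 0)] (by decide +kernel))
noncomputable def rhbef11541999dddf9 : CRef := CRef.mk (Pat.mk 0x10000000100000002000000020000000000000000000000000 0x2000000060000000e8000000fe0000007e000001f8000003fe000003df0000005800000018 10 10) 0 0 (step_sound _ 100 [(rh119e4588c76f53fe.shift 1 2), (rh46b74d29166188d5.shift 1 0), (rh59450b2f6b30c777.shift 1 2), (rhb639235551cb6656.shift 1 2), (rhd1aeaf4b36031a15.shift 2 1), (rhdf166a823d01d8dd.shift 1 0), (rhe9d7544fcbb88957.shift 1 2), (rheb92db832079ac16.shift 0 2)] (by decide +kernel))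
noncomputable def rhd580661bb56f8a6a : CRef := CRef.mk (Pat.mk 0x18000000080000001000000000 0x140000001c0000001c0000003c0000007f0000003f000000f80000003e000000f400000030 10 8) 0 0 (step_sound _ 131 [(rh390a8df03c6c5a62.shift 3 0), (rhcdbc8ac52ba42a7e.shift 0 1), (rhe8f5695e62ecfdc0.shift 1 0)] (by decide +kernel))
noncomputable def rhb1fc7ec9eabfa97d : CRef := CRef.mk (Pat.mk 0x18000000080000001000000000000000000000000000000000 0xc0000000c0000000e0000007f0000003f000003f0000001fe000001f80000004000000040 10 10) 0 0 (step_sound _ 164 [(rh21c1cd8e28d8ee64.shift 0 4), (rh3cb04db3dd2b6a55.shift 3 2), (rhd96978996ba21256.shift 1 0)] (by decide +kernel))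
noncomputable def rhf50418bb5ff1912c : CRef := CRef.mk (Pat.mk 0x18000000080000001000000000000000000000000000000000 0x30000000380000007f0000001f00000038000003f0000001fe000001f80000004000000040 10 10) 0 0 (step_sound _ 164 [(rhd96978996ba21256.shift 1 0), (rhdd238f5873d04e78.shift 0 3), (rhfc7c29d8e65d775f.shift 3 3)] (by decide +kernel))
noncomputable def rhc7a43c740adc85fd : CRef := CRef.mk (Pat.mk 0x18000000080000001000000000 0x3c0000007c0000007e0000007f0000007f000000380000003000000030 10 7) 0 0 (step_sound _ 131 [(rh390a8df03c6c5a62.shift 3 0), (rh3b3374c919bf32c4.shift 0 2), rhf8be789882400678] (by decide +kernel))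
noncomputable def rha69a881c3bc35c64 : CRef := CRef.mk (Pat.mk 0x300000001000000000 0x380000003c0000003f000007fe000007fc0000071e00000008 10 11) 0 0 (step_sound _ 70 [rh1f8971c784d79d96, (rh2820ca9a6c4f41b4.shift 1 1), (rh44c04c1c678387d1.shift 3 1), (rhda0726d55627da7a.shift 2 1), (rhf21b1aa0648d3122.shift 2 1)] (by decide +kernel))
noncomputable def rhe9a0243a251ff7c6 : CRef := CRef.mk (Pat.mk 0x10000000300000002000000000 0x6c000000ff000000ff0000003e0000007f000001ec0000004c 10 9) 0 0 (step_sound _ 132 [(rh2145e1d24b96a57e.shift 4 1), rhaee77175b7246d8d] (by decide +kernel))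
noncomputable def rh99ea042293119c04 : CRef := CRef.mk (Pat.mk 0x8000000180000001000000000000000000000000000000000 0x120000001f0000003e000000fe0000007e000000fc0000004000000040 10 8) 0 0 (step_sound _ 100 [(rh7b1f1fb55310c477.shift 3 2), rhc6993ccba5cf9e09] (by decide +kernel))
noncomputable def rh73857a5753d04de8 : CRef := CRef.mk (Pat.mk 0x800000018000000100000000000000000 0x600000006000000260000006f0000003f000000fe0000007f0000001f 10 8) 0 0 (step_sound _ 36 [rh2e57623cd9ee84c5, (rh7b1f1fb55310c477.shift 3 0)] (by decide +kernel))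
noncomputable def rh5bf5283dea27d241 : CRef := CRef.mk (Pat.mk 0x80000001800000010000000000000000000000000 0x60000000e000000ef000000ff0000003f000000fe000000ee0000000800000008 10 8) 0 0 (step_sound _ 195 [(rh2145e1d24b96a57e.shift 3 3), rhd53c4fa448d0249d] (by decide +kernel))
noncomputable def rha13724f9e687a343 : CRef := CRef.mk (Pat.mk 0x8000000180000001000000000 0x60000000e0000007f0000007f0000003f000000f600000006 10 8) 0 0 (step_sound _ 131 [(rh2145e1d24b96a57e.shift 3 1), rh5513176e774cdbb2] (by decide +kernel))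
noncomputable def rh8ee1724f3dcc86e9 : CRef := CRef.mk (Pat.mk 0x1000000010000000200000000000000000 0x380000007f0000007f0000007e000000f80000003e00000018 10 8) 0 0 (step_sound _ 68 [(rh067a64cbf1611a87.shift 1 1), rh618c7b49a8d72916, (rh85fe8bf98f55243d.shift 3 1)] (by decide +kernel))
noncomputable def rhbbe5358f0ee5fcdc : CRef := CRef.mk (Pat.mk 0x1000000010000000200000002000000000 0xc0000001c0000005f000000df0000007c000001ec0000007c00000028 10 9) 0 0 (step_sound _ 101 [(rh7b1f1fb55310c477.shift 4 0), rhb7072fbebcb8be97] (by decide +kernel))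
noncomputable def rhf79632c4c37a3465 : CRef := CRef.mk (Pat.mk 0x100000001000000010000000200000000000000000 0x80000001c0000001f000000ff000000ff0000001f0000007c0000001800000008 10 8) 0 0 (step_sound _ 99 [(rh0563d676e7ed6d4a.shift 1 1), (rhb9e95ca250fdb6cc.shift 0 2), (rhc0c32fc587a1de34.shift 1 0), (rhfafeb437ceb8396d.shift 3 0)] (by decide +kernel))
noncomputable def rh780fb80339c6f478 : CRef := CRef.mk (Pat.mk 0x2000000020000000200000004000000000000000000000000000000000 0x1800000018000003df000003ff000007ff00000efc000007f800000fb0000000f0000000f000000050 10 12) 0 0 (step_sound _ 260 [(rh0dbc8abee7ad42d4.shift 4 4), (rh374ae440e8011597.shift 4 2), (rhb7ee4591692f32dc.shift 2 0), (rhf7d82867572884ab.shift 0 4)] (by decide +kernel))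
noncomputable def rh5bea61428949863d : CRef := CRef.mk (Pat.mk 0x8000000080000001800000000000000000000000000000000 0x140000001f0000003f0000001e0000003f0000003f0000001c00000008 10 6) 0 0 (step_sound _ 100 [(rh08edf065357d68e5.shift 3 1), (rh79ad7b82ec8c35e2.shift 3 1), rha59fae74b12ead1f] (by decide +kernel))
noncomputable def rh625847d284944c9b : CRef := CRef.mk (Pat.mk 0x100000001000000030000000000000000000000000 0x280000007c0000001e000000fc000001ff0000007c0000002c 10 9) 0 0 (step_sound _ 37 [(rh5278689ccab1c3c2.shift 4 0), (rh60b71ec96b3e285b.shift 1 0), rh6bcb35a6f859d01f, (rhb29c6cf5970e66d5.shift 1 1)] (by decide +kernel))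
noncomputable def rh0afb521400dc977d : CRef := CRef.mk (Pat.mk 0x80000000800000018000000000000000000000000 0x6000000160000001f000003bf000001fe000003f70000003600000036 10 10) 0 0 (step_sound _ 98 [rh01a4cd2387c4896f, rh2c21e8500589e616, (rh38e9922c96fa6175.shift 1 0), (rh48692731947e6e3f.shift 0 2), (rh5068632e28c25248.shift 1 0), (rh552bf1f1aa74ae55.shift 0 1), (rhc32688944b7f7dbb.shift 1 0), rhe55d2bab1fefb0cb] (by decide +kernel))
noncomputable def rh0933b0ff1aebcb2d : CRef := CRef.mk (Pat.mk 0x1000000030000000200000000000000000 0xc0000001c0000005f000000df0000007c000001ec0000007c00000028 10 9) 0 0 (step_sound _ 37 [(rh7b1f1fb55310c477.shift 4 0), rhb7072fbebcb8be97] (by decide +kernel))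
noncomputable def rh86aa06350ed0e39f : CRef := CRef.mk (Pat.mk 0x8000000180000001000000000000000000000000000000000 0xf2000000ff0000003e000001f6000001fe000001fc0000006000000040 10 9) 0 0 (step_sound _ 100 [(rh7b1f1fb55310c477.shift 3 2), rhf7fce303716bddf8] (by decide +kernel))
noncomputable def rh2763d132d1cea469 : CRef := CRef.mk (Pat.mk 0x1000000030000000200000000000000000 0x1c0000003c0000001f0000001f0000007e000001ef0000000c00000008 10 9) 0 0 (step_sound _ 99 [(rh799bcd04cdf8ef40.shift 1 1), rh8293024c0b5568bb, (rh8ee80cc30e93a344.shift 2 2), (rhc92c11e8da6c894f.shift 0 2)] (by decide +kernel))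
noncomputable def rh992c6a39df06f395 : CRef := CRef.mk (Pat.mk 0x40000000c0000000800000000000000000000000000000000 0x180000003c0000001f000000f8000000fc000000fc0000002000000020 10 8) 0 0 (step_sound _ 99 [rh3d6b43573d1d7105, (rh7b1f1fb55310c477.shift 2 2)] (by decide +kernel))
noncomputable def rh0a70d07db1708560 : CRef := CRef.mk (Pat.mk 0x800000018000000100000000000000000 0x260000002f0000007f0000007f0000003f000000ff0000002a00000008 10 8) 0 0 (step_sound _ 163 [(rh2145e1d24b96a57e.shift 3 2), rh3299a8236509a078] (by decide +kernel))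
noncomputable def rhcbefb978745a9b37 : CRef := CRef.mk (Pat.mk 0x10000000300000002000000000 0xc0000004c000000ff000000ff000000ff000000780000003800000010 10 8) 0 0 (step_sound _ 132 [(rh2145e1d24b96a57e.shift 4 1), rhf2319fd95f26f4ae] (by decide +kernel))
noncomputable def rhaef63d0fea5a58a6 : CRef := CRef.mk (Pat.mk 0x1000000010000000300000000000000000 0xc0000000c0000002f000000ff0000007f000000ff000000ff00000018 10 8) 0 0 (step_sound _ 99 [rh0dc334b8d53b9f07, rh53d3759dfdf176ab, (rhb0121edee88fe839.shift 1 2)] (by decide +kernel))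
noncomputable def rh6e2d15f0100b0d6a : CRef := CRef.mk (Pat.mk 0x2000000060000000400000000000000000 0x180000001800000098000001be000000fe000003ff000000f800000060 10 10) 0 0 (step_sound _ 38 [rh2188d10eb3dedfa2, (rh7b1f1fb55310c477.shift 5 0)] (by decide +kernel))
noncomputable def rhc8d77569edc8d2cc : CRef := CRef.mk (Pat.mk 0x1000000010000000100000002000000000000000000000000000000000 0x8000000380000007e0000007f000001fe000001df0000007c0000007c00000028 10 9) 0 0 (step_sound _ 132 [(rh3dde855a063340f0.shift 0 3), (rh997c64d22ca7cc80.shift 1 1), (rhad2c1671c58d8ea8.shift 3 0), (rhc4526fc8abf298b6.shift 3 2), (rhc459c257272b9dd1.shift 3 1)] (by decide +kernel))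
noncomputable def rh1f744b86bd7197e0 : CRef := CRef.mk (Pat.mk 0x800000008000000300000000000000000 0x340000003f0000003f000000fc0000001f0000001c 10 8) 0 0 (step_sound _ 67 [rh0d5d5bbcf875e412, (rha7edc60fc34bffff.shift 1 2), rhbc0dbe5d1d24ff3a] (by decide +kernel))
noncomputable def rh5d7a8505ddca4d4e : CRef := CRef.mk (Pat.mk 0x2000000020000000c00000000000000000000000000000000000000000 0x8000001dc000001f8000000fe000000ff000007f8000001f8000000700000007000000020 10 11) 0 0 (step_sound _ 134 [(rh1e926bd97b6561f0.shift 2 1), (rh74a43b9a483760f6.shift 5 2), (rhcff11b283bd49e03.shift 5 0), (rhea4fc5f073948bcb.shift 0 3)] (by decide +kernel))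
noncomputable def rha23b49287330347f : CRef := CRef.mk (Pat.mk 0x800000008000000300000000000000000000000000000000000000000 0xf4000000ff00000038000000fc000000fe000000fe0000007c0000007c00000008 10 8) 0 0 (step_sound _ 132 [(rh74a43b9a483760f6.shift 3 2), (rhb1ce23252dc64dc3.shift 1 0), (rhc7d93530153e020c.shift 0 1), (rhcff11b283bd49e03.shift 3 0)] (by decide +kernel))
noncomputable def rhe2b3550e6b33c937 : CRef := CRef.mk (Pat.mk 0x8000000080000003000000000000000000000000000000000 0xf2000000ff0000003e000001f6000001fe000001fc0000006000000040 10 9) 0 0 (step_sound _ 164 [(rh3c8b6205af03a97b.shift 0 2), (rh474fb2fcdf1e8d2a.shift 1 0), (rh5c5a2014709044d0.shift 1 4), (rhfc37ecabf4856385.shift 1 2)] (by decide +kernel))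
noncomputable def rhc8ef78389e2bb6c2 : CRef := CRef.mk (Pat.mk 0x200000002000000060000000000000000000000000 0x3de000003fe000007fe0000003f000001fe0000001f0000001800000010 10 11) 0 0 (step_sound _ 100 [(rh2e51dfe33071836d.shift 0 2), (rh3d164a09ad92dabc.shift 1 2), (rh4e2f011eefb1c09b.shift 1 1), (rhfafeb437ceb8396d.shift 4 0)] (by decide +kernel))
noncomputable def rh73319b51debe113e : CRef := CRef.mk (Pat.mk 0x40000000c000000080000000000000000000000000 0x20000001300000037c000001fe000007bf000001f0000003f800000110 10 11) 0 0 (step_sound _ 71 [rh6de51a9c520922c1, (rh7b1f1fb55310c477.shift 6 1)] (by decide +kernel))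
noncomputable def rhabbd878bea5d4034 : CRef := CRef.mk (Pat.mk 0x100000001000000020000000000000000000000000 0x600000007c000000ff0000003e0000007f000001fe000001fe000000f800000018 10 9) 0 0 (step_sound _ 133 [(rhbca38e8c962b1ba2.shift 0 2), (rhc38f566cab2818e5.shift 4 1), (rhfe87a337204fc644.shift 1 0)] (by decide +kernel))
noncomputable def rh245b7b4a965e7618 : CRef := CRef.mk (Pat.mk 0x1000000010000000300000000000000000 0x20000000a0000001f000000ff0000007e000000fe0000001e0000001c 10 8) 0 0 (step_sound _ 99 [rh458c6e2d8246515a, (rh48b421ddb5394e27.shift 1 0), (rh843b897eb249eed2.shift 1 2), (rh96b06ca7aad1fdcd.shift 1 0), (rhb0121edee88fe839.shift 1 2)] (by decide +kernel))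
noncomputable def rh3f860160a9a29530 : CRef := CRef.mk (Pat.mk 0x8000000180000001000000000 0x20000002a0000007f0000007f0000003f000000f600000004 10 8) 0 0 (step_sound _ 131 [(rh2145e1d24b96a57e.shift 3 1), rhd816469e49644016] (by decide +kernel))
noncomputable def rh9dd70678fa726c45 : CRef := CRef.mk (Pat.mk 0x1000000018000000200000000000000000000000000000000000000000 0xc000000ef000000fc0000003e000000fc000000f400000038000000380000003800000020 10 8) 0 0 (step_sound _ 164 [(rh12c44a048c6d290e.shift 1 0), (rh1cccdeb1e9eaac85.shift 0 3), (rhb0121edee88fe839.shift 1 5)] (by decide +kernel))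
noncomputable def rh8f081cdc8f4e0968 : CRef := CRef.mk (Pat.mk 0x800000010000000100000001000000000 0x1f7000001fe000003f70000001e0000007800000028 10 10) 0 0 (step_sound _ 132 [(rh26fa6f5e3fc4a5b2.shift 1 0), (rh30df8c337db6db49.shift 0 1), (rh641b5241be04eec6.shift 1 0)] (by decide +kernel))
noncomputable def rh8be078dddbacab4f : CRef := CRef.mk (Pat.mk 0xc0000000800000008000000000 0x2600000026000003e7f00001ffe00003bff000001f800000170 10 14) 0 0 (step_sound _ 134 [rh49e73e803bf890e9, (rhc4fc8e8840370544.shift 3 0), (rhe072fffdd2fccf38.shift 6 1)] (by decide +kernel))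
noncomputable def rh8735d2c0a734a749 : CRef := CRef.mk (Pat.mk 0x30000000100000001000000000 0x20000000f4000001f6000000ff0000007e000000ff000003ea 10 10) 0 0 (step_sound _ 133 [(rh69755ef358ebfd54.shift 4 1), rh69879e1fc04e6283, (rhbfb5770941270498.shift 4 1)] (by decide +kernel))
noncomputable def rh7b729865d1a645d8 : CRef := CRef.mk (Pat.mk 0x20000000200000002000000000 0x50000000f8000003fe000003ff000000fe0000002800000020 10 10) 0 0 (step_sound _ 100 [(rh5a173c4109b6d772.shift 0 1), (rh73bc9577b3348a52.shift 1 0), (rhb1a251d9bff81766.shift 4 0)] (by decide +kernel))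
noncomputable def rh860cdfa6f9767d4f : CRef := CRef.mk (Pat.mk 0x20000000200000002000000000 0x50000003fe000001fe000003bf000000600000006000000040 10 10) 0 0 (step_sound _ 133 [(rh006e276e36d5cbd3.shift 5 0), (rh7eb4a07d72ad7934.shift 4 0), (rh829b6dc0b284eb25.shift 0 1)] (by decide +kernel))
noncomputable def rh822acde981f9c218 : CRef := CRef.mk (Pat.mk 0x200000002000000020000000000000001000000000000000000000000000000000 0x2000000020000000380000003800000018000000ff0000007e0000003f00000028 10 8) 0 0 (step_sound _ 164 [rhae22e11cc2f70cc3, (rheea67dfebd0f8008.shift 4 4)] (by decide +kernel))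
noncomputable def rh8f4cdda21d6ceefc : CRef := CRef.mk (Pat.mk 0x400000004000000040000000000000002000000000 0x1800000038000001fc000001ff000001fe000003be0000007800000038 10 10) 0 0 (step_sound _ 101 [rh3f082a17042f9313, (rh6a76d1fc70e0eee5.shift 1 0), (rh91f25d99008e4fa1.shift 2 1), (rhdebc43b768884653.shift 5 0)] (by decide +kernel))
noncomputable def rhbdb0d82129db7f2a : CRef := CRef.mk (Pat.mk 0x60000000400000004000000000 0xa0000000b0000007ff000003fe0000007e0000007c00000038 10 11) 0 0 (step_sound _ 133 [rh7b6f8690ea1a2744, (rhc89253ff58c66167.shift 5 1)] (by decide +kernel))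
noncomputable def rhc2fd12bc01c6c021 : CRef := CRef.mk (Pat.mk 0x300000002000000020000000000000000000000000 0x4c0000006c000001ee000001fe000000bf000001fc000003f80000006000000040 10 10) 0 0 (step_sound _ 38 [(rh1b85b0bb4cee0ea8.shift 5 0), (rh664c2b6e27ebd084.shift 0 2), (rhb11814a839be76d3.shift 4 0), (rhb4d58240b4d75a9b.shift 1 0)] (by decide +kernel))
noncomputable def rh0f9ada50a82f6aa4 : CRef := CRef.mk (Pat.mk 0x800000008000000080000000000000000000000000000000000000000 0xe0000000f0000003c0000003c0000001f0000001c000000180000001c0000001c00000014 10 6) 0 0 (step_sound _ 132 [(rh2977b00063528966.shift 3 2), (rh47dece01c1595e79.shift 3 2), (rh6e45aca24ecf8d46.shift 0 4), (rhbff851b901f44c13.shift 2 0), (rhd4facf884c0dab44.shift 0 2)] (by decide +kernel))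
noncomputable def rh0d3d5790737c1297 : CRef := CRef.mk (Pat.mk 0x80000000800000008000000000000000000000000 0x100000003c000003ff000001ff0000003800000018000000180000001800000010 10 10) 0 0 (step_sound _ 164 [(rh215e11e099257d75.shift 3 2), (rh709418a1538e5f2c.shift 0 1), (rh93e8b37033470cce.shift 0 2), rhb3822b9de7428a9c] (by decide +kernel))
noncomputable def rh09d7ef48a3f670ba : CRef := CRef.mk (Pat.mk 0x800000010000000100000001000000000 0x3000000030000001f4000000fe000001ff0000007f0000001f0000000c 10 9) 0 0 (step_sound _ 132 [(rh3b734c5288922837.shift 3 0), (rh841f88a132b64fde.shift 0 1), rhf68801438f85ba7f, (rhfe072f11bd9d15b7.shift 1 0)] (by decide +kernel))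
noncomputable def rh691a4dc6bef14620 : CRef := CRef.mk (Pat.mk 0x8000000080000001800000000 0x140000001c0000001c000000fc000000ff0000007f0000003f0000007c00000064 10 8) 0 0 (step_sound _ 66 [(rh5cf5c526b5988c69.shift 0 1), (rh82ef7fddd44d07cc.shift 2 0), (rhb0121edee88fe839.shift 0 1)] (by decide +kernel))
noncomputable def rhf528d9bd4d7be873 : CRef := CRef.mk (Pat.mk 0x1000000010000000300000000000000000000000000000000000000000 0x80000000e0000000f80000007f000001fe000003ee000001f0000003fc000001e000000160 10 10) 0 0 (step_sound _ 101 [(rh30d8e98a0156c2c2.shift 1 2), rh38634cbeff8500fe, (rh3b5346b2e316d790.shift 4 2), (rhc0a40df5d7c61821.shift 1 0)] (by decide +kernel))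
noncomputable def rhaeb0a722504ddb1f : CRef := CRef.mk (Pat.mk 0x180000001000000010000000000000000000000000 0x270000003e0000007f0000007e000000fe0000003600000026 10 8) 0 0 (step_sound _ 68 [rh43bd5d218ec26f8d, (rha613ffd40b6c9d24.shift 3 0), (rhc0681f90f27d666e.shift 3 1)] (by decide +kernel))
noncomputable def rhf5e2f96ffa244e1f : CRef := CRef.mk (Pat.mk 0x100000001000000020000000000000000000000000 0x1c0000001c0000001c0000077f000003fe000003ff0000007c00000028 10 11) 0 0 (step_sound _ 100 [(rh70e33bfdf511e144.shift 4 0), rh8fca7112ebdc7957, (rhb280c6f1c03f64aa.shift 1 1)] (by decide +kernel))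
noncomputable def rhfe9f479f93c6f455 : CRef := CRef.mk (Pat.mk 0x1000000010000000200000000000000000 0x180000003f000000ff0000007e000000fe0000003e00000018 10 8) 0 0 (step_sound _ 68 [rh216484c8263c336f, (rh85fe8bf98f55243d.shift 3 1), (rhe8a85a2a7f411ea3.shift 1 1)] (by decide +kernel))
noncomputable def rh92cd5d32205150fc : CRef := CRef.mk (Pat.mk 0x8000000080000001000000010000000000000000000000000 0xf2000000ff0000003e000001f6000001fe000001fc0000006000000040 10 9) 0 0 (step_sound _ 164 [(rh7b1f1fb55310c477.shift 3 2), rhf7fce303716bddf8] (by decide +kernel))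
noncomputable def rhdc31e74e71531971 : CRef := CRef.mk (Pat.mk 0x1000000010000000200000002000000000000000000000000000000000 0x1400000054000003f7000003fe000003fe000001f8000001f000000050 10 10) 0 0 (step_sound _ 101 [(rh4b555cfb2752cddc.shift 4 2), (rha30ee3511751d125.shift 3 0), (rhb33dfd298eb7a57c.shift 0 1)] (by decide +kernel))
noncomputable def rh33ee9a9a067baa0c : CRef := CRef.mk (Pat.mk 0x10000000100000002000000020000000000000000000000000 0x68000000fe0000007e000003ff000001fe000003df0000004800000040 10 10) 0 0 (step_sound _ 100 [rh0eaf848fbe4680b4, (rh2fd5402bc7988790.shift 1 2), (rh8918d41a56c8a83c.shift 1 2), (rhb639235551cb6656.shift 1 2), (rhf06a5d15ce6a723b.shift 1 2)] (by decide +kernel))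
noncomputable def rh0d201a219cc7f729 : CRef := CRef.mk (Pat.mk 0x100000001000000010000000200000000000000000 0x1e0000001fc000001f00000007e000001ff000001df00000008 10 9) 0 0 (step_sound _ 68 [(rh6e4eb07034d66dcc.shift 1 1), (rh75b545c51214dec5.shift 0 1), (rhcab3157f7bdcba3e.shift 3 0)] (by decide +kernel))
noncomputable def rh5fe9a1568274b749 : CRef := CRef.mk (Pat.mk 0x30000000100000001000000000 0xc0000000e0000000e0000003f7000003fe000001ff0000007800000060 10 10) 0 0 (step_sound _ 133 [(rhbfb5770941270498.shift 4 1), rhc125a512d1caca12] (by decide +kernel))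
noncomputable def rh5e91ded213f6bf26 : CRef := CRef.mk (Pat.mk 0x20000000200000002000000000000000000000000000000000 0x2000000060000001ff000000fe000001ff000000f0000000f0000000d0 10 9) 0 0 (step_sound _ 132 [(rh8f6d77e6da746e98.shift 2 0), (rhd00fbeb22f0df95d.shift 0 1), (rhfafeb437ceb8396d.shift 4 1)] (by decide +kernel))
noncomputable def rh574badb83d42746b : CRef := CRef.mk (Pat.mk 0x6000000020000000200000000000000000 0x140000001c4000007c4000001fc000007ce000007ff00000fff000000fe0000009400000010 10 12) 0 0 (step_sound _ 198 [(rh422fa7a2bf7e3ef1.shift 0 1), rh6073cddf456b5f5a, (rh9b38a8d19f2f88e7.shift 2 2), (rhb009278fdd334770.shift 5 2)] (by decide +kernel))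
noncomputable def rha6f81ad0ef270f03 : CRef := CRef.mk (Pat.mk 0x3000000010000000100000000000000000000000000000000000000000 0x14000000fc000000fe0000007c0000001f0000003c0000003c0000003c00000028 10 8) 0 0 (step_sound _ 195 [(rh04dbdfb4f1c44917.shift 1 0), (rh1426ebba50bfb2a3.shift 0 1), (rh69012675dfdb1a5b.shift 1 6)] (by decide +kernel))
noncomputable def rhd87c12326fd79836 : CRef := CRef.mk (Pat.mk 0x8000000080000001800000000000000000000000000000000 0x10000000700000007f0000007f0000003b0000003f0000003e0000001c0000000c 10 7) 0 0 (step_sound _ 100 [(rh08edf065357d68e5.shift 3 1), (rh79ad7b82ec8c35e2.shift 3 1), rhbd47a9c01271dbc7] (by decide +kernel))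
noncomputable def rha7db3c4468dc3fb1 : CRef := CRef.mk (Pat.mk 0x80000000800000018000000000000000000000000 0x140000001c0000001c0000001800000018000000ff000000ff000000380000000c0000000c0000000c 10 8) 0 0 (step_sound _ 130 [(rh0e5599501ac8c1cf.shift 2 0), (rhbe56e19e3dacdfb2.shift 0 3), (rhc44fdd3b0adb5fce.shift 0 3), (rhd1bfc204d7a681f4.shift 0 2), rheb0eb4c450b4628c] (by decide +kernel))
noncomputable def rh3454e43770b9cc41 : CRef := CRef.mk (Pat.mk 0x4000000020000000200000002000000000 0x180000001c0000001c0000007ce000007fe00000fff000000f0000000c0 10 12) 0 0 (step_sound _ 102 [rh0de19d4d95ee1ba1, (rh69755ef358ebfd54.shift 5 1), (rhc125a512d1caca12.shift 1 0)] (by decide +kernel))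
noncomputable def rhff026dba6d6410f0 : CRef := CRef.mk (Pat.mk 0x100000001000000010000000000000000000000000000000000000000000000000 0x100000003f0000007e000001ff000001f800000038000000380000003800000028 10 9) 0 0 (step_sound _ 164 [rh398157e9e7e87566, (rh4b401e0773cf5cff.shift 1 4), (rh6eff4158bb400f47.shift 3 3), (rhdf442d3bc5d22f7a.shift 3 1), rheba2cc81a4faab44, (rhff00f0830934413f.shift 3 1)] (by decide +kernel))
noncomputable def rh81fd4e969238645c : CRef := CRef.mk (Pat.mk 0x80000000800000008000000000000000000000000 0x100000001800000018000000180000007f0000003f000000740000002000000020 10 7) 0 0 (step_sound _ 195 [(rh20966da26a1c2ae8.shift 2 2), rh2707a7c8aab15e7b, (rhced6d86d2069808b.shift 3 2)] (by decide +kernel))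
noncomputable def rh45fdcb26be967a4b : CRef := CRef.mk (Pat.mk 0x60000000200000002000000000 0x180000001c0000001c0000007ce000007fe00000fff000000f0000000c0 10 12) 0 0 (step_sound _ 134 [rh0de19d4d95ee1ba1, (rh69755ef358ebfd54.shift 5 1), (rhc125a512d1caca12.shift 1 0)] (by decide +kernel))
noncomputable def rhef8b683180fa1f72 : CRef := CRef.mk (Pat.mk 0x300000001000000010000000000000000000000000 0x10000000f80000003e0000007f0000007f0000003800000028 10 8) 0 0 (step_sound _ 131 [rh22dce013d0a425eb, (rh40013e96c74df99e.shift 1 0), (rh69012675dfdb1a5b.shift 1 4)] (by decide +kernel))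
noncomputable def rh183be5d666b2c359 : CRef := CRef.mk (Pat.mk 0x800000010000000100000001000000000 0x3000000030000000300000001e000000780000007f000001fe000001ef 10 9) 0 0 (step_sound _ 132 [rh1661883cb2cecbf5, (rh4499a881ca1b068f.shift 3 0), (rh641b5241be04eec6.shift 1 0), (rhed79e5c5ffee0217.shift 3 0), (rhf4fcb276c439bf4b.shift 1 0), (rhfe072f11bd9d15b7.shift 1 0)] (by decide +kernel))
noncomputable def rh6b31088274069e7a : CRef := CRef.mk (Pat.mk 0x8000000080000000800000000000000000000000000000000 0x100000001c0000001c0000007c0000007c0000001f000000f8000000fe000001fc0000001c0000000c 10 9) 0 0 (step_sound _ 132 [(rh533da649b3706ede.shift 1 0), (rh70e33bfdf511e144.shift 3 1), (rh956cbdde3c6ae4fd.shift 0 2), (rhc33c42c15deeba8e.shift 2 3)] (by decide +kernel))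
noncomputable def rh5bfdd1ca2a032e39 : CRef := CRef.mk (Pat.mk 0x800000008000000080000000800000000 0x2000000020000000740000007c0000003f0000007e0000001f00000006 10 7) 0 0 (step_sound _ 34 [(rh932754581e0f4330.shift 2 0), rhe128c0d1ed9e8319] (by decide +kernel))
noncomputable def rh089ce45cb7e683f8 : CRef := CRef.mk (Pat.mk 0x200000002000000030000000000000000000000000 0xf0000003f8000001f0000000ef0000007e000000cf0000004000000040 10 10) 0 0 (step_sound _ 99 [(rh5ae4fcfc65b0c6c4.shift 2 2), (rh613c9133ac84694e.shift 2 0), (rh6a6df508ef40f9d2.shift 1 2), (rha4e887c2a2a0f60b.shift 0 2)] (by decide +kernel))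
noncomputable def rhb0aeb7aea9f7b678 : CRef := CRef.mk (Pat.mk 0x1000000010000000000000002000000020 0x3ff000001fe000003ff0000007000000020 10 10) 0 0 (step_sound _ 101 [(rh2613c889e411427e.shift 4 0), rh61021572cf736993] (by decide +kernel))
noncomputable def rh1470377545f2041d : CRef := CRef.mk (Pat.mk 0x1000000010000000000000002000000020 0x280000003f0000007f000000fe00000018000000180000003800000020 10 8) 0 0 (step_sound _ 68 [(rhbe0e43a3bc50a43f.shift 4 0), (rhce394b3dcd41bf62.shift 0 1)] (by decide +kernel))
noncomputable def rh2302c2e124f7eaf8 : CRef := CRef.mk (Pat.mk 0x800000008000000000000001000000010 0x3000000038000000ff000000ff0000007f0000007e0000003400000014 10 8) 0 0 (step_sound _ 100 [(rh2613c889e411427e.shift 3 0), rh2cb973294744585d] (by decide +kernel))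
noncomputable def rh0e3f2cd0bd66ee2a : CRef := CRef.mk (Pat.mk 0x2000000000000000600000004000000000000000000000000000000000 0x18000000b8000007bf000007ff000001ff000001f8000000780000006000000020 10 11) 0 0 (step_sound _ 102 [(rh3a1cc22ead2eadb0.shift 5 2), (rhd50cbf80abf708fe.shift 0 2), (rhfe5d93e1f7fae394.shift 3 0)] (by decide +kernel))
noncomputable def rhbb0d6da0f44cc3d4 : CRef := CRef.mk (Pat.mk 0x10000000000000003000000020000000000000000000000000 0x40000001c0000001c0000000f000000fe000000ff000000fe0000001c0000001c 10 8) 0 0 (step_sound _ 131 [(rh0fa479cea2267816.shift 1 3), rh238cae07c30970ee, (rha0ae8adeb1dbcf8d.shift 0 3), (rhb2afcb5db661472f.shift 0 3), rhe914bc910f4e9ab2] (by decide +kernel))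
noncomputable def rh65255699dcf5ecbf : CRef := CRef.mk (Pat.mk 0x1000000000000000200000002000000020000000000000000000000000 0x100000003c000001ff000000fc000001ef0000001c0000001c00000014 10 9) 0 0 (step_sound _ 196 [rh1164298472e49e14, (rhcfdf45280693d3da.shift 4 3)] (by decide +kernel))
noncomputable def rh790120d2a7ef7fce : CRef := CRef.mk (Pat.mk 0x10000000100000001000000000000000000000000000000000 0x2000000030000000300000003f0000007f0000007f0000001e0000003c0000003c00000020 10 7) 0 0 (step_sound _ 229 [(rh1421e6e06ed98450.shift 0 1), (rh1fcfb3ba8021b3f8.shift 3 0), (rh87d5e4118780fa3b.shift 4 3)] (by decide +kernel))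
noncomputable def rha0fe3c1421e9ee3e : CRef := CRef.mk (Pat.mk 0x2000000000000000400000004000000040000000000000000000000000 0x18000000b8000007bf000007ff000001ff000001f8000000780000006000000020 10 11) 0 0 (step_sound _ 165 [(rh3a1cc22ead2eadb0.shift 5 2), (rhd50cbf80abf708fe.shift 0 2), (rhfe5d93e1f7fae394.shift 3 0)] (by decide +kernel))
noncomputable def rha4dfe15f81c2e373 : CRef := CRef.mk (Pat.mk 0x18000000000000001000000010 0x1ef000001fe000003f70000001000000010 10 10) 0 0 (step_sound _ 68 [rh4d402d5998380d7f, (rh50fbb5868c909700.shift 3 0)] (by decide +kernel))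
noncomputable def rh552065fa21f5a8a7 : CRef := CRef.mk (Pat.mk 0x1800000000000000100000001000000000 0x1f7000001fe000003f7000000380000003800000028 10 10) 0 0 (step_sound _ 100 [(rh4d402d5998380d7f.shift 0 1), (rhc9ac229b3c77cd55.shift 3 0)] (by decide +kernel))
noncomputable def rh2915bc0ad6f27677 : CRef := CRef.mk (Pat.mk 0x6000000000000000400000004000000000 0x1c0000003c000007ff000003fe0000039e000000fc000000fc00000010 10 11) 0 0 (step_sound _ 132 [(rh262517e2c925a6fe.shift 1 2), (rh63361f5fb1b50762.shift 3 1), (rh6938a7d501a8fef6.shift 2 1), (rh6e3fe3091a36dee1.shift 2 0), (rh8e9ed5d5aab89d56.shift 1 1), (rha10b0071f2095704.shift 0 1), (rhb779180b3297245d.shift 2 1)] (by decide +kernel))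
noncomputable def rha89257b9b32d22b7 : CRef := CRef.mk (Pat.mk 0x1000000000000000300000002000000000 0xc0000000c000000ff000000ff000000df000000fc000000f000000010 10 8) 0 0 (step_sound _ 100 [(rh2145e1d24b96a57e.shift 4 1), rhd9c9b0b4cf964594] (by decide +kernel))
noncomputable def rh9749232b89690335 : CRef := CRef.mk (Pat.mk 0x1000000000000000300000002000000000 0xe0000000e000000ff000000ff000000df000000fc000000f400000010 10 8) 0 0 (step_sound _ 100 [(rh2145e1d24b96a57e.shift 4 1), rhd8bdb772daca8fd8] (by decide +kernel))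
noncomputable def rha721df009fa0356e : CRef := CRef.mk (Pat.mk 0x8000000000000001800000010000000000000000000000000 0x1c0000007c0000000f0000007f0000001f0000000e0000000c00000008 10 7) 0 0 (step_sound _ 163 [(rh2145e1d24b96a57e.shift 3 3), rh61c736ed7630d502] (by decide +kernel))
noncomputable def rhe12432816c82d9b3 : CRef := CRef.mk (Pat.mk 0x8000000000000001800000010000000000000000000000000 0x1c0000003c0000000f0000001f0000007f0000000f0000000600000002 10 7) 0 0 (step_sound _ 163 [(rh2145e1d24b96a57e.shift 3 3), rhbe9b1dd869d2b459] (by decide +kernel))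
noncomputable def rha0be068ec8d45f4c : CRef := CRef.mk (Pat.mk 0x10000000000000003000000020000000000000000000000000 0xf8000000fc000000df0000007e000000ef0000001c0000001c00000014 10 8) 0 0 (step_sound _ 228 [rh73789906f1527de5, (rhff0f29cb645b05f7.shift 4 3)] (by decide +kernel))
noncomputable def rh93b7578d42fc5357 : CRef := CRef.mk (Pat.mk 0x4000000000000000c00000008000000000000000000000000 0x40000000700000007e0000003e000003f6000001fc0000039f000000060000000600000006 10 10) 0 0 (step_sound _ 162 [(rh2145e1d24b96a57e.shift 2 3), rhe5aa3b91ffe50c1c] (by decide +kernel))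
noncomputable def rhb96d72c83e3e1a56 : CRef := CRef.mk (Pat.mk 0x100000000000000030000000200000000000000000 0x40000005c0000007c000001cf000003fe000000ff0000001600000014 10 10) 0 0 (step_sound _ 99 [(rh0fa479cea2267816.shift 1 2), (rh6e9dd9742570fb28.shift 2 0), (rha0ae8adeb1dbcf8d.shift 0 2), rha8f315f29d4669d4, (rhb2afcb5db661472f.shift 0 2)] (by decide +kernel))
noncomputable def rh3282b341652b46e2 : CRef := CRef.mk (Pat.mk 0x100000000000000030000000200000000000000000 0xf8000000f8000001df000001fe000000ff0000000600000004 10 9) 0 0 (step_sound _ 196 [rh3ebbbc5c832b407d, (rhff0f29cb645b05f7.shift 4 2)] (by decide +kernel))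
noncomputable def rh7fd281d5c0a67e7c : CRef := CRef.mk (Pat.mk 0x800000018000000100000000000000000 0x1000000038000000780000007e0000003e000000ff000000e800000060 10 8) 0 0 (step_sound _ 163 [(rh2145e1d24b96a57e.shift 3 2), rhc98eba0206f5b313] (by decide +kernel))
noncomputable def rh75bea2a294ee282a : CRef := CRef.mk (Pat.mk 0x100000003000000020000000000000000000000000 0xc0000001c0000001f000000fe0000007c000001fe000001d40000001000000010 10 9) 0 0 (step_sound _ 196 [(rh2145e1d24b96a57e.shift 4 3), rhcb7ff4849791bf09] (by decide +kernel))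
noncomputable def rhe2cf69e06e15952a : CRef := CRef.mk (Pat.mk 0x8000000180000001000000000000000000000000000000000 0x1000000030000000f6000000ff00000038000001f8000001f8000001f80000004000000040 10 9) 0 0 (step_sound _ 100 [(rh7b1f1fb55310c477.shift 3 2), rhb9c09184c9e6aebc] (by decide +kernel))
noncomputable def rh6bc73a9607737b52 : CRef := CRef.mk (Pat.mk 0x20000000200000002000000000 0x200000007800000078000003fe000003ff000003fe0000003c00000038 10 10) 0 0 (step_sound _ 166 [(rh21a3f79b3a2cbde0.shift 2 0), (rh2d9fb7ccdcfc0559.shift 5 0), rha7d8d2f51b1fdc89, (rhd105e7931210be24.shift 1 0), (rhe25716203317ed02.shift 4 1)] (by decide +kernel))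
noncomputable def rhb0067b04d622273c : CRef := CRef.mk (Pat.mk 0x1000000010000000100000002000000000 0x400000004000000ec000001fe000000ff0000007e000000f800000050 10 9) 0 0 (step_sound _ 36 [(rh305945700f20b255.shift 2 0), (rh3949a9a3df047322.shift 2 1), (rh5ee4dc8825dcefa0.shift 1 0), rhbfd00c66ae8fd9fd, (rhdebe140550a7ab14.shift 2 0)] (by decide +kernel))
noncomputable def rh686c91c3cb453be7 : CRef := CRef.mk (Pat.mk 0x800000008000000180000000000000000000000000000000000000000 0x740000007c0000002f0000007c000000180000001c0000001c0000001c00000010 10 7) 0 0 (step_sound _ 194 [(rh3c3e23a02e82b2ed.shift 0 5), rh63cb231ffb6b4435, (rhc65ea9caad335df5.shift 2 1)] (by decide +kernel))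
noncomputable def rh274de0a6a43c9c7e : CRef := CRef.mk (Pat.mk 0x10000000100000002000000020000000000000000000000000 0x1ff000000fe000001df0000003e0000007e0000000e0000000e0000000e 10 9) 0 0 (step_sound _ 132 [(rh2145e1d24b96a57e.shift 4 3), rha25d98ba22060bc2] (by decide +kernel))
noncomputable def rhc46645c3505632b8 : CRef := CRef.mk (Pat.mk 0x8000000080000000800000000000000000000000000000000 0x1000000018000000180000001c0000001e000001f8000000ff000001fc0000001c00000010 10 9) 0 0 (step_sound _ 260 [(rh2d9fb7ccdcfc0559.shift 3 3), (rh6298f23df1e7fb4b.shift 0 1), (rh707c84df3fd912a5.shift 1 0), (rhd0cd0e78c5cfff71.shift 3 3)] (by decide +kernel))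
noncomputable def rh8c13794adcf04368 : CRef := CRef.mk (Pat.mk 0x1000000000000000200000002000000020000000000000000000000000 0x100000005c000001ff000000fc000007ef000003fc000007fc00000054 10 11) 0 0 (step_sound _ 196 [rh1164298472e49e14, (rh4b555cfb2752cddc.shift 4 2), (rh6298f23df1e7fb4b.shift 2 0)] (by decide +kernel))
noncomputable def rh5d02e3850fb78c98 : CRef := CRef.mk (Pat.mk 0x8000000000000001800000010000000000000000000000000 0x7000000078000000ef000000ff0000007f000000370000003600000032 10 8) 0 0 (step_sound _ 99 [(rh0b513e2cd9dc4769.shift 0 1), (rhb5f4e8af5f72c259.shift 1 0), (rhca2cbdeb7953d6fd.shift 0 2), (rhf6822eaf236e95c0.shift 0 2), rhff4990fab56cf9c5] (by decide +kernel))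
noncomputable def rha72ee9d2d7387a02 : CRef := CRef.mk (Pat.mk 0x10000000000000003000000020000000000000000000000000 0x140000001c0000005e0000007c000001cf000000fe000000ff0000002e0000002c00000004 10 9) 0 0 (step_sound _ 131 [(rh0fa479cea2267816.shift 1 3), (rh2bc38e995c6804b3.shift 0 1), rh889e4cef1f25dfc0, (rha0ae8adeb1dbcf8d.shift 0 3), (rhb2afcb5db661472f.shift 0 3)] (by decide +kernel))
noncomputable def rh14afcdcf0c621b17 : CRef := CRef.mk (Pat.mk 0x8000000080000001000000010000000000000000000000000000000000000000000000000 0x80000001c000000360000007e000000ff000000fe000001ff0000003c0000003c00000008 10 9) 0 0 (step_sound _ 164 [rh46acd1b8de070037, (rhcfdf45280693d3da.shift 3 5)] (by decide +kernel))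
noncomputable def rhe6f58d4cda7d295d : CRef := CRef.mk (Pat.mk 0x1000000010000000000000002000000020 0xc0000000c000003ff000001ff0000003f0000003000000020 10 10) 0 0 (step_sound _ 101 [(rh2613c889e411427e.shift 4 0), rh628e6bdff8364c4f] (by decide +kernel))
noncomputable def rh8b6a14aacffdc8aa : CRef := CRef.mk (Pat.mk 0x800000008000000000000001000000010 0x10000000340000003c000000ff000000ff0000007f0000001e0000001400000014 10 8) 0 0 (step_sound _ 100 [rh07259d5d22b7ce8b, (rh2613c889e411427e.shift 3 0)] (by decide +kernel))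
noncomputable def rh552f7004bddc2e78 : CRef := CRef.mk (Pat.mk 0x1000000010000000000000002000000020 0x2000000038000000380000003f000000ff000000fe0000003e000000180000003000000020 10 8) 0 0 (step_sound _ 68 [(rhbe0e43a3bc50a43f.shift 4 0), (rhdd320fdab47636e1.shift 0 2)] (by decide +kernel))
noncomputable def rhf6f38e4a1c4de0f5 : CRef := CRef.mk (Pat.mk 0x1000000010000000000000002000000020 0x7c0000007c0000007f000000fe000000ff0000002f0000003e0000007c 10 8) 0 0 (step_sound _ 101 [(rh2613c889e411427e.shift 4 0), rh94a1400de8969458] (by decide +kernel))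
noncomputable def rh15ee9f6bce990967 : CRef := CRef.mk (Pat.mk 0x2000000020000000200000000000000000000000000000000000000000 0x200000007c000000fe000001fe000000ff000000fe0000007c0000003400000010 10 9) 0 0 (step_sound _ 132 [(rh0e6924d680f6455d.shift 4 2), (rh22bdcc9c990557c1.shift 1 1), (rh3764703280706972.shift 0 2), (rh86aa94d7c0c1e10d.shift 3 3), (rhb7481635fd98c0b9.shift 2 0)] (by decide +kernel))
noncomputable def rh98b4e73a9229c5e0 : CRef := CRef.mk (Pat.mk 0x10000000000000002000000020000000200000000000000000000000000000000000000000 0x100000001c000001ff000000fe000001ff000001fe000003fe0000007c0000007800000010 10 10) 0 0 (step_sound _ 260 [(rh46acd1b8de070037.shift 1 0), (rh4b555cfb2752cddc.shift 4 4), (rhc05d451ce3dd5e48.shift 4 2), (rhf2d7918745c94090.shift 0 2)] (by decide +kernel))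
noncomputable def rhe5e078b4a46dfb36 : CRef := CRef.mk (Pat.mk 0x400000004000000040000000000000000000000000000000000000000000000000 0x40000000fc000001ff000003fe000000ff000000f0000000f0000000e0000000a0 10 10) 0 0 (step_sound _ 166 [(rh038c3c7567465c17.shift 0 2), (rh05291e113e1e7d3d.shift 2 0), (rh6eff4158bb400f47.shift 5 3), (rhc1de6bd3290c8573.shift 3 1), (rhdf442d3bc5d22f7a.shift 5 1), (rhf6729a9f89ee41a5.shift 2 0)] (by decide +kernel))
noncomputable def rh0ae367dd5fc0c2ee : CRef := CRef.mk (Pat.mk 0x4000000000000000c0000000800000000000000000 0x60000000600000007f000003fe000001bf000001f0000000b0 10 10) 0 0 (step_sound _ 134 [(rh2145e1d24b96a57e.shift 6 2), rha1951ad79618c725] (by decide +kernel))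
noncomputable def rh76ce34212f80d771 : CRef := CRef.mk (Pat.mk 0x8000000000000001800000010000000000000000000000000000000000000000000000000 0xc0000000e000000fe0000007f000000fe000000fe0000003e000000380000003800000028 10 8) 0 0 (step_sound _ 164 [(rh3a1cc22ead2eadb0.shift 3 4), (rh56259dd1390eee46.shift 3 2), (rh9a7a56ebcf9eeba3.shift 1 0), (rhf42e54da2301d9c9.shift 0 3)] (by decide +kernel))
noncomputable def rh41ea19f9fb87f8eb : CRef := CRef.mk (Pat.mk 0x10000000000000003000000020000000000000000000000000 0x40000001c0000003c0000000f000000fe000000ff000000fe0000001c0000001c 10 8) 0 0 (step_sound _ 131 [(rh0fa479cea2267816.shift 1 3), rh238cae07c30970ee, rh8dcb9131a9a6f0b1, (rha0ae8adeb1dbcf8d.shift 0 3), (rhb2afcb5db661472f.shift 0 3)] (by decide +kernel))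
noncomputable def rhd7309da16dbf5924 : CRef := CRef.mk (Pat.mk 0x1000000010000000300000000000000000000000000000000000000000 0x20000000e0000001e0000000f0000001fe0000007f000001f0000000f8000000380000003800000020 10 9) 0 0 (step_sound _ 229 [(rh0418698e766c115e.shift 1 0), (rh4ced77cc1c1c84dd.shift 1 2), (rh5db1fa44cd2c27f6.shift 2 3), (rhb730ba14aa32bdb3.shift 4 4), (rhfb2ba2f403f4170d.shift 0 2)] (by decide +kernel))
noncomputable def rhb0797dbfb9a9e5fd : CRef := CRef.mk (Pat.mk 0x80000000800000008000000000000000000000000 0x140000001c0000001c00000018000000180000000f0000003f0000001c00000014 10 6) 0 0 (step_sound _ 67 [(rh641b5241be04eec6.shift 0 1), (rh6c59ce14113da07f.shift 3 0), rh8b6df6c4589e705a, (rha78b327dad5d6a04.shift 2 0)] (by decide +kernel))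
noncomputable def rh911bda7bc2e1d54d : CRef := CRef.mk (Pat.mk 0x8000000080000000800000008000000000000000000000000 0x40000000c000000180000007f0000003f000000740000002000000020 10 7) 0 0 (step_sound _ 98 [rh001eba89ee1f3529, (rh932754581e0f4330.shift 2 2)] (by decide +kernel))
noncomputable def rhfa5f84aef41402a1 : CRef := CRef.mk (Pat.mk 0x80000000800000008000000000000000000000000 0x30000000780000001e0000003c000000ff0000003c00000014 10 8) 0 0 (step_sound _ 67 [(rh64bfdb2e124c8edc.shift 0 1), (rh6c59ce14113da07f.shift 3 0), (rh6eff4158bb400f47.shift 2 0), (rha78b327dad5d6a04.shift 2 0)] (by decide +kernel))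
noncomputable def rhd9a7fbd3a4e80231 : CRef := CRef.mk (Pat.mk 0x300000001000000010000000000000000000000000 0x80000001800000018000000f00000003e0000007f0000007f0000002800000020 10 8) 0 0 (step_sound _ 131 [rh22dce013d0a425eb, (rh69012675dfdb1a5b.shift 1 4), (rhbf9ba26ea6f4260f.shift 3 1)] (by decide +kernel))
noncomputable def rhfa9b0966c5be462d : CRef := CRef.mk (Pat.mk 0x1000000010000000000000000800000008000000000000000000000000 0x100000001c0000000c0000000c0000003f0000003f0000001f00000014 10 6) 0 0 (step_sound _ 163 [rh00f59b2510a62ba3, (rh1006c02ae4212ff0.shift 3 3)] (by decide +kernel))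
noncomputable def rh18e11a2f5f6a3321 : CRef := CRef.mk (Pat.mk 0x8000000080000000400000004 0x140000001e0000001e0000001f0000003f0000003f0000003c000000180000000c00000004 10 6) 0 0 (step_sound _ 131 [(rheea67dfebd0f8008.shift 2 0), (rheee1bcc09996442f.shift 0 2)] (by decide +kernel))
noncomputable def rh19552de2159fb0e4 : CRef := CRef.mk (Pat.mk 0x200000002000000000000000100000001000000000 0x1ff000000fe0000003f000000ff000000fe0000000c 10 9) 0 0 (step_sound _ 132 [(rh04253f50b6dd0619.shift 4 1), rh74c673f792b9f62e] (by decide +kernel))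
noncomputable def rh6aa068a18b5d024e : CRef := CRef.mk (Pat.mk 0x1000000010000000000000000800000008000000000000000000000000 0x10000000170000001f0000007f000000ff0000007f0000003e00000034 10 8) 0 0 (step_sound _ 132 [(rh3c88ce959c0e423f.shift 3 3), rhcb577c1e1765496a] (by decide +kernel))
noncomputable def rh04c43045dc67212e : CRef := CRef.mk (Pat.mk 0x2000000020000000000000001000000010000000000000000000000000 0x7c0000003e0000002f000000ff000001fe000000fe0000007c00000078 10 9) 0 0 (step_sound _ 133 [(rh3c88ce959c0e423f.shift 4 3), rhdd0a2bd1f175f9f4] (by decide +kernel))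
noncomputable def rh42afbfa573f9cde5 : CRef := CRef.mk (Pat.mk 0x1000000010000000100000000000000000 0x6800000068000007ff000003fe000003ff000000700000001000000010 10 11) 0 0 (step_sound _ 133 [(rh215e11e099257d75.shift 4 1), (rhaf86bda34f90b2c5.shift 0 2), (rhb6a927a571e5955f.shift 2 0)] (by decide +kernel))
noncomputable def rh972e93c84e0fdfcf : CRef := CRef.mk (Pat.mk 0x100000001000000010 0x280000007800000078000001f8000001ff000000fe0000003f00000010 10 9) 0 0 (step_sound _ 100 [(rh1741680720c097b4.shift 3 0), rh53db3b9c8df09cbb, (rh6dc16a9d84437350.shift 1 0), (rhbd007ba3af64b71f.shift 3 0), rhe2b2bdee6ee52bb8, (rhed7a7a244e950ca9.shift 3 0)] (by decide +kernel))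
noncomputable def rheb47bce111a914ec : CRef := CRef.mk (Pat.mk 0x20000000300000000000000010000000000000000000000000 0x180000003c000000f80000001f000000ff000000ff0000000c0000000c 10 8) 0 0 (step_sound _ 132 [rh30c1bb15e0888073, (rh71222050f2c63a3a.shift 4 2)] (by decide +kernel))
noncomputable def rh793353d39a5b09cc : CRef := CRef.mk (Pat.mk 0x2000000030000000000000001000000000 0x3800000078000001fe000001fe000000fc0000000f0000003c0000001c 10 9) 0 0 (step_sound _ 134 [(rh0bb882ba86b2372d.shift 2 3), (rh574fdbf07bdd18b9.shift 2 3), rh6f9766c866e54b80, (rhf5ed9a3ca086f37c.shift 1 3)] (by decide +kernel))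
noncomputable def rhbe0eda266eb9121c : CRef := CRef.mk (Pat.mk 0x1800000008000000080000000000000000 0x50000000700000007200000076000001f7000001ff000003bf0000007f0000003200000030 10 10) 0 0 (step_sound _ 196 [rh208f43bd06f1f9c4, (rh41539dc66297cd35.shift 0 2), (rh4c79f501f451e457.shift 0 2), (rhb009278fdd334770.shift 3 2)] (by decide +kernel))
noncomputable def rh6a5841da68da1a31 : CRef := CRef.mk (Pat.mk 0x800000010000000100000001000000000 0x1ef000001fe000003f7000000100000003800000028 10 10) 0 0 (step_sound _ 132 [(rh50fbb5868c909700.shift 3 1), rhc112098269305093] (by decide +kernel))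
noncomputable def rh9fee3c25c851d722 : CRef := CRef.mk (Pat.mk 0x1000000010000000300000000000000000 0x20000000a0000001f0000001f0000007e000000fe0000001e0000001c 10 8) 0 0 (step_sound _ 99 [rh35497409ec627d31, (rh3c3e23a02e82b2ed.shift 1 2), (rh48b421ddb5394e27.shift 1 0)] (by decide +kernel))
noncomputable def rh25fb5e67b5463a57 : CRef := CRef.mk (Pat.mk 0x1000000010000000100000001000000000 0x1000000010000001fe000000fe000001ef 10 9) 0 0 (step_sound _ 37 [rh33a7d085b895f2b8, (rh55afc6a59410cf00.shift 4 0)] (by decide +kernel))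
noncomputable def rh185ac3d80a3982cf : CRef := CRef.mk (Pat.mk 0x8000000080000000c0000000000000000 0x800000038000000fc0000003e0000007c0000003f0000007800000030 10 8) 0 0 (step_sound _ 100 [(rh0bb882ba86b2372d.shift 0 2), (rh44f8239348adaee0.shift 0 1), (rhf979455b5cd21ca7.shift 1 0)] (by decide +kernel))
noncomputable def rh16d202216dd89f0a : CRef := CRef.mk (Pat.mk 0xc0000000800000008000000000000000000000000 0x80000000a0000001f0000007f0000003f0000003f0000001600000004 10 7) 0 0 (step_sound _ 132 [(rh75ea294132184f25.shift 1 4), rh936ccaf2dd20f6ca, rhcb3f987ed7f082fe] (by decide +kernel))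
noncomputable def rhe26c4822214d0bd0 : CRef := CRef.mk (Pat.mk 0x600000002000000020000000000000000000000000 0x300000007000000170000007ee000007fe00000fbf000000fe000003de0000001c0000001c 10 12) 0 0 (step_sound _ 198 [(rh0de19d4d95ee1ba1.shift 0 2), rhb9e10c563ef27e96, (rhbfb5770941270498.shift 5 3)] (by decide +kernel))
noncomputable def rh308f7f301025448c : CRef := CRef.mk (Pat.mk 0x300000001000000010000000000000000000000000 0x50000000d0000000fc000000fe0000007f0000007f0000002c00000020 10 8) 0 0 (step_sound _ 131 [rh22dce013d0a425eb, (rh69012675dfdb1a5b.shift 1 4), (rh6902287a52a9e708.shift 0 1)] (by decide +kernel))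
noncomputable def rhdf55c93e4df06204 : CRef := CRef.mk (Pat.mk 0xc0000000800000008000000000000000000000000 0x80000000a0000000f0000007f0000003f0000003f0000001600000004 10 7) 0 0 (step_sound _ 132 [rh936ccaf2dd20f6ca, rhcb3f987ed7f082fe, (rhdeca8db941583de2.shift 0 4)] (by decide +kernel))
noncomputable def rh071e38ed0477c303 : CRef := CRef.mk (Pat.mk 0x1000000010000000100000000000000000 0xa8000001e8000001ff000001ff000001ff000000700000007000000020 10 9) 0 0 (step_sound _ 133 [(rh5f067d786d236366.shift 0 1), (rhb730ba14aa32bdb3.shift 4 1), rhe8497fdb0e55aeef] (by decide +kernel))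
noncomputable def rh1749420a86a7aae8 : CRef := CRef.mk (Pat.mk 0x1000000010000000100000001000000000 0xc0000001f0000003c000000fe0000007e0000002e 10 8) 0 0 (step_sound _ 35 [(rh932754581e0f4330.shift 3 0), rhfeeb6b1323700ffe] (by decide +kernel))
noncomputable def rh296386581e4b969c : CRef := CRef.mk (Pat.mk 0x600000002000000020000000000000000000000000 0x10000000100000079e000003fe000007bf000000fc000003fe000003dc00000010 10 11) 0 0 (step_sound _ 68 [(rh1c48a59b93f4a55c.shift 0 2), (rh3743dbe66b959104.shift 4 0), (rh57a51e7a4af856f5.shift 1 1), (rha2747473b6caa26e.shift 2 1)] (by decide +kernel))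
noncomputable def rh4d9fc3887c281012 : CRef := CRef.mk (Pat.mk 0x40000000400000006000000000000000000000000000000000 0x20000000280000003e000000fc000003de0000007c000001fe000000ff0000003c00000004 10 10) 0 0 (step_sound _ 132 [(rh39de8627b22f9f20.shift 1 1), (rh6cf4c37417009e6c.shift 2 2), (rhb12ffaec36122c99.shift 1 3), rhb1f0530b12bc5112] (by decide +kernel))
noncomputable def rh3e5ab46c2cc11079 : CRef := CRef.mk (Pat.mk 0x200000002000000030000000000000000000000000 0x140000001c0000001c000003bf000003fe000007ff0000003e0000006c0000002c00000004 10 11) 0 0 (step_sound _ 164 [(rh62e0ddced4ff450c.shift 0 1), (rh9dc4a36120b5596b.shift 2 0), (rhb1a251d9bff81766.shift 4 2)] (by decide +kernel))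
noncomputable def rhceb9ea97a9d97c83 : CRef := CRef.mk (Pat.mk 0x200000002000000030000000000000000000000000 0x4000000048000007ee000003fe000003ff0000003e000000670000002000000020 10 11) 0 0 (step_sound _ 166 [(rh1cc97ce2d7f9dc7a.shift 0 2), (rh215e11e099257d75.shift 5 2), rhb0cbab6790a8749a] (by decide +kernel))
noncomputable def rh71b4c35802588252 : CRef := CRef.mk (Pat.mk 0x40000000400000004000000000000000000000000000000000 0x80000000c0000000e00000007f000003fe000000ff000000b000000010 10 10) 0 0 (step_sound _ 102 [rh038c3c7567465c17, (rh6c59ce14113da07f.shift 6 1), (rh8cdd36b03d57a2f6.shift 5 1), (rhcab3157f7bdcba3e.shift 5 1)] (by decide +kernel))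
noncomputable def rhb5da10f7cacf3411 : CRef := CRef.mk (Pat.mk 0xc000000040000000400000000 0x80000001e000000ff0000007c0000001e0000007c00000078 10 8) 0 0 (step_sound _ 131 [(rh69755ef358ebfd54.shift 2 1), (rhbfb5770941270498.shift 2 1), rhc502a7eaff8a69b5] (by decide +kernel))
noncomputable def rhffaa94171ca031f8 : CRef := CRef.mk (Pat.mk 0x180000000800000008000000000000000000000000 0x40000000c0000002f000000780000003f0000007f0000003c0000001800000010 10 7) 0 0 (step_sound _ 100 [rh32466312c62a30d4, (rh70e33bfdf511e144.shift 3 0), (rh86cd3d5d7994e720.shift 0 2)] (by decide +kernel))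
noncomputable def rh92f4c62c3706f92c : CRef := CRef.mk (Pat.mk 0x100000001000000010000000000000000000000000 0x20000000380000003800000018000000140000077f000003fe000003ff0000007c00000028 10 11) 0 0 (step_sound _ 69 [(rh2977b00063528966.shift 4 0), (rhb6e11cfc959c8a3c.shift 2 1), rhce57b6de66b384ff, (rhdb9a6c1acdbc393a.shift 3 2)] (by decide +kernel))
noncomputable def rh78c997b3a6cf98f0 : CRef := CRef.mk (Pat.mk 0x10000000100000001800000000 0x28000000380000003800000038000000100000007f000001fe000001e7 10 9) 0 0 (step_sound _ 132 [rh4445a76962bf37ce, (rh9a369cb82ea472da.shift 3 1), (rha087c6594f4bfb59.shift 3 0)] (by decide +kernel))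
noncomputable def rh8ccb86bc0fc34452 : CRef := CRef.mk (Pat.mk 0x40000000400000006000000000000000000000000000000000 0x1800000058000000ff000003fe000001fe000000be000000b800000038 10 10) 0 0 (step_sound _ 101 [(rh22d2c027b452444d.shift 2 1), (rh42548283029e2a39.shift 5 1), rhbaf97f5b2d1f2326] (by decide +kernel))
noncomputable def rh63b197b7f6e4e5b8 : CRef := CRef.mk (Pat.mk 0x80000000800000008000000000000000000000000 0x180000001c0000001c0000001e000000780000001c0000000f0000003c0000001c00000014 10 7) 0 0 (step_sound _ 164 [rh157f2560bab4cd4a, (rh746fd82cc49e4875.shift 1 2), (rhb730ba14aa32bdb3.shift 3 2), (rhea8ff04f2dae8ce0.shift 0 1)] (by decide +kernel))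
noncomputable def rhdd46ae913f4cfc20 : CRef := CRef.mk (Pat.mk 0x10000000100000001000000000 0x2000000038000001ff000001fe000003f7000000180000001800000008 10 10) 0 0 (step_sound _ 132 [(rh1741680720c097b4.shift 3 1), (rh20966da26a1c2ae8.shift 3 0), rh5725ca6f3553b2f6, (rh771d065bdc85bf2d.shift 3 0), (rh89fb121b6b5a2148.shift 3 0)] (by decide +kernel))
noncomputable def rh0303af2a805f5149 : CRef := CRef.mk (Pat.mk 0x40000000400000006000000000000000000000000000000000 0x380000007c000001ff000003fe0000003e0000003e0000003800000038 10 10) 0 0 (step_sound _ 101 [(rh5569af34171238a6.shift 1 2), rhbaf97f5b2d1f2326, (rhf9af042da61fc652.shift 5 1)] (by decide +kernel))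
noncomputable def rh8aa9bd452d2ce539 : CRef := CRef.mk (Pat.mk 0x8000000080000000800000000000000000000000000000000 0x140000001c0000001c0000001c0000003c0000000f0000001f000000780000001f0000001c0000001c00000018 10 7) 0 0 (step_sound _ 132 [rh4d422505a3c0b95b, (rh70e33bfdf511e144.shift 3 1), rha5b4bc95cf02e679, (rhc33c42c15deeba8e.shift 2 3)] (by decide +kernel))
noncomputable def rh4fca1ff357a856bc : CRef := CRef.mk (Pat.mk 0x1000000010000000300000000000000000 0x3c0000003c0000001c0000007e000000fe000000cf0000000c 10 8) 0 0 (step_sound _ 99 [rh3ec68376994a0713, (rh5c5a2014709044d0.shift 1 2), (rh96b06ca7aad1fdcd.shift 1 0), (rhb0121edee88fe839.shift 1 2), (rhe5bcced305a521ff.shift 1 0)] (by decide +kernel))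
noncomputable def rh748ab8d688f774be : CRef := CRef.mk (Pat.mk 0x2000000020000000200000002000000000 0xc0000000c0000001f0000003e000000ff000000fe0000003e00000018 10 8) 0 0 (step_sound _ 36 [rh6c75addc4e08437d, (rh932754581e0f4330.shift 4 0)] (by decide +kernel))
noncomputable def rh4546d7ae3e446a7e : CRef := CRef.mk (Pat.mk 0x100000001000000010000000000000000000000000 0x3800000038000007ff000003fe0000007000000038000000180000001800000008 10 11) 0 0 (step_sound _ 165 [(rh049add9c038d8b5d.shift 3 0), (rh215e11e099257d75.shift 4 2), (rh274a837cd7eaa569.shift 3 0), (rh8ed4be1eae12113d.shift 0 3)] (by decide +kernel))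
noncomputable def rhdd6e5f03cd731c17 : CRef := CRef.mk (Pat.mk 0x800000010000000100000001000000000 0x80000003800000038000000340000001f0000007c000000fe0000007e0000002e 10 8) 0 0 (step_sound _ 132 [(rh37f934dc19dc4bdb.shift 1 0), (rh4499a881ca1b068f.shift 3 0), rh5f52b26066249c47, (rh61b056960b1efe05.shift 3 0), (rh7133a7a78d762f91.shift 2 0), (rhed79e5c5ffee0217.shift 3 0)] (by decide +kernel))
noncomputable def rhbb2466c7b9351461 : CRef := CRef.mk (Pat.mk 0x100000001000000000000000200000002000000000000000000000000000000000 0x1000000018000001df000003fe000000ff0000001e0000001c0000001c00000004 10 10) 0 0 (step_sound _ 164 [rhb97a0b555db8071e, (rhff0f29cb645b05f7.shift 4 4)] (by decide +kernel))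
noncomputable def rhb3a6a6d11d5578d7 : CRef := CRef.mk (Pat.mk 0x800000008000000000000001000000010 0x7800000078000001fe000001ff000000fc000001f60000007400000014 10 9) 0 0 (step_sound _ 100 [(rh2613c889e411427e.shift 3 0), rh9567ed9104f615e9] (by decide +kernel))
noncomputable def rh69598d9fc667df2a : CRef := CRef.mk (Pat.mk 0x1000000010000000000000002000000020 0x7c0000007c0000007f000000fe000000ff0000002f0000003e0000007c 10 8) 0 0 (step_sound _ 101 [(rh2613c889e411427e.shift 4 0), rh754b2c4b763ef6cb] (by decide +kernel))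
noncomputable def rh9cc9f29e83d4a11a : CRef := CRef.mk (Pat.mk 0x100000001000000000000000200000002000000000000000000000000000000000 0xf80000005e000001d8000003fe000000ff0000001e0000001c0000001c00000004 10 10) 0 0 (step_sound _ 164 [rh4bf8552f09771e76, (rhff0f29cb645b05f7.shift 4 4)] (by decide +kernel))
noncomputable def rh4e852d3b440a1e00 : CRef := CRef.mk (Pat.mk 0x800000008000000000000001000000010 0x7800000078000001fe000001ff000000fc000001f00000007000000030 10 9) 0 0 (step_sound _ 100 [rh21712d3011ac9cf9, (rh2613c889e411427e.shift 3 0)] (by decide +kernel))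
noncomputable def rhd344252e738cbbcb : CRef := CRef.mk (Pat.mk 0x1000000010000000000000002000000020 0x6000000068000001fe000001fe000000ff000000e70000006600000020 10 9) 0 0 (step_sound _ 101 [(rh2613c889e411427e.shift 4 0), rha923fd19a0445f31] (by decide +kernel))
noncomputable def rhecf643cf3b10e23a : CRef := CRef.mk (Pat.mk 0x1000000010000000000000002000000020 0x80000003800000038000001f8000003ff000001fe000001ff000000d0000000f000000020 10 10) 0 0 (step_sound _ 68 [rh1b98234bbe7ff2d7, (rhbe0e43a3bc50a43f.shift 4 0)] (by decide +kernel))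
noncomputable def rh7dd6feefade0d919 : CRef := CRef.mk (Pat.mk 0x1000000010000000000000002000000020 0x4c0000004c000007ff000003ff000007bf000000b000000020 10 11) 0 0 (step_sound _ 101 [rh1b6f79407ad2ee9c, (rh2613c889e411427e.shift 4 0)] (by decide +kernel))
noncomputable def rhb0c9c9b15e767cec : CRef := CRef.mk (Pat.mk 0x800000008000000000000001000000010 0x340000003c000000ff000000ff0000007f0000001e0000001400000014 10 8) 0 0 (step_sound _ 100 [(rh2613c889e411427e.shift 3 0), rh828be486e818da65] (by decide +kernel))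
noncomputable def rh71b300c783fab52e : CRef := CRef.mk (Pat.mk 0x2000000020000000000000004000000040 0x40000001c0000007c000001ff000001fe000000fc000001fe 10 9) 0 0 (step_sound _ 37 [rh875ed16fd692e8b3, (rhff0f29cb645b05f7.shift 5 0)] (by decide +kernel))
noncomputable def rh790580cc145d86cb : CRef := CRef.mk (Pat.mk 0x1000000010000000000000002000000020 0x280000003f000000fe000000ff0000001800000038000000380000002000000020 10 8) 0 0 (step_sound _ 69 [(rhcfdf45280693d3da.shift 4 0), (rhffc544392523bbe0.shift 0 1)] (by decide +kernel))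
noncomputable def rh2859c381926242e6 : CRef := CRef.mk (Pat.mk 0x1000000010000000000000002000000020 0x28000000380000003e000000ff0000003e00000018000000180000003800000020 10 8) 0 0 (step_sound _ 68 [(rh76e3264f3ba42cd0.shift 0 1), (rhbe0e43a3bc50a43f.shift 4 0)] (by decide +kernel))
noncomputable def rh8e4697ec1f99a36e : CRef := CRef.mk (Pat.mk 0x1000000010000000000000002000000020 0x1c0000001c0000009f000003bf000001fe000003ef0000007c0000007c 10 10) 0 0 (step_sound _ 101 [(rh2613c889e411427e.shift 4 0), rhfc8a2c40713a9fd0] (by decide +kernel))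
noncomputable def rh5874bb900a9ea6a1 : CRef := CRef.mk (Pat.mk 0x1000000020000000200000002000000000 0x100000009c0000019f000001fe000001ff0000007c0000005c 10 9) 0 0 (step_sound _ 100 [rhaf48ceacc378cacf, (rhe072fffdd2fccf38.shift 4 1), (rhfb4a5af0d6ed41f9.shift 1 0)] (by decide +kernel))
noncomputable def rh34499596519f8fc4 : CRef := CRef.mk (Pat.mk 0x1000000010000000000000002000000020 0x80000000cc000001cc000003ff000001ff000003ff000000b000000020 10 10) 0 0 (step_sound _ 101 [(rh2613c889e411427e.shift 4 0), rh6677b7f1719dea72] (by decide +kernel))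
noncomputable def rh9b805d8cb7fc0af4 : CRef := CRef.mk (Pat.mk 0x1000000010000000000000002000000020 0xf0000000f0000003fc000003fe000001ff000003ee000000e000000020 10 10) 0 0 (step_sound _ 101 [(rh2613c889e411427e.shift 4 0), rh86c236bffde3b896] (by decide +kernel))
noncomputable def rh648390cc440e901e : CRef := CRef.mk (Pat.mk 0x800000008000000000000001000000010 0xc0000001c0000007c0000001f0000000c0000001c0000001800000010 10 7) 0 0 (step_sound _ 67 [(rhbe0e43a3bc50a43f.shift 3 0), (rhf8084e922ba2a9df.shift 0 1)] (by decide +kernel))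
noncomputable def rh44e9bf34925a91eb : CRef := CRef.mk (Pat.mk 0x30000000000000002000000020000000000000000000000000 0x3f0000001f400000fdf000007fe00000eff0000005e0000005c0000001c 10 12) 0 0 (step_sound _ 132 [(rh1eacb6e16f7b68b5.shift 1 0), rh4e4fcfc3fd5b7970, (rh5de50892c5186150.shift 2 2), (rh9b7bf6665dbf9648.shift 1 1), (rhc13ee95a3906545b.shift 1 0)] (by decide +kernel))
noncomputable def rh769c0ea957bda77b : CRef := CRef.mk (Pat.mk 0x800000008000000000000001000000010 0x300000003e0000007f0000007f0000007f000000770000001700000010 10 7) 0 0 (step_sound _ 100 [(rh208e8f1ac3743605.shift 0 1), (rh2613c889e411427e.shift 3 0)] (by decide +kernel))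
noncomputable def rh3b4e7bbd7e04d4ae : CRef := CRef.mk (Pat.mk 0x1800000000000000100000001000000000 0x1ef000000fe000001fe000000100000001800000008 10 9) 0 0 (step_sound _ 100 [rh1791ce698248e39a, (rh50fbb5868c909700.shift 3 1)] (by decide +kernel))
noncomputable def rh7ff874dad58a8b8a : CRef := CRef.mk (Pat.mk 0x60000000000000004000000040 0x1c0000001c000007ff000007ff000003be000000d8000000d8 10 11) 0 0 (step_sound _ 100 [(rh262517e2c925a6fe.shift 1 1), (rh4576028d9895ab00.shift 3 0), (rh6938a7d501a8fef6.shift 2 0), rh989f273465b2647a, (rh9f1d7b00f26e3f16.shift 1 0), (rhb8bb04b9560a1b82.shift 3 0), (rhe6b6b2f456281d97.shift 2 0)] (by decide +kernel))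
noncomputable def rh526de27753ed63c5 : CRef := CRef.mk (Pat.mk 0x4000000000000000c00000008000000000 0x36000000360000007ff00000ffe000003df00000010 10 12) 0 0 (step_sound _ 102 [(rh2145e1d24b96a57e.shift 6 1), rh5efc2ebf2dc8400c] (by decide +kernel))
noncomputable def rh2bcd42af9acf06ae : CRef := CRef.mk (Pat.mk 0x80000000000000018000000100000000000000000 0x4c0000004c000000ff000000fc0000007e0000002c00000020 10 8) 0 0 (step_sound _ 131 [(rh2145e1d24b96a57e.shift 3 2), rhcfd4f03dc334d029] (by decide +kernel))
noncomputable def rh8e5cd1e97801e5a0 : CRef := CRef.mk (Pat.mk 0x8000000000000001800000010000000000000000000000000 0xc0000000c0000001f0000001f0000003f0000000f0000000e0000000a 10 6) 0 0 (step_sound _ 163 [(rh2145e1d24b96a57e.shift 3 3), rhd9a801b9de7a3215] (by decide +kernel))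
noncomputable def rhf292fe8cedf969d9 : CRef := CRef.mk (Pat.mk 0x100000000000000030000000200000000000000000 0x20000000a0000001f0000001f0000007e000000f60000003e0000001c00000008 10 8) 0 0 (step_sound _ 132 [(rh2145e1d24b96a57e.shift 4 2), rh6828ac2c4c7e44c0] (by decide +kernel))
noncomputable def rhf38d193afd3fd09b : CRef := CRef.mk (Pat.mk 0x10000000000000003000000020000000000000000000000000 0x140000001c0000001c0000001c000001ef000003fe000000ff000000de0000005c00000054 10 10) 0 0 (step_sound _ 131 [(rh0fa479cea2267816.shift 1 3), (rh697f76e01c4f9846.shift 1 1), (rh8a218a41bb7d4407.shift 0 1), (rh93a85fbfc05a7bcf.shift 2 0), (rha0ae8adeb1dbcf8d.shift 0 3)] (by decide +kernel))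
noncomputable def rh82b62cd3a8a53b8f : CRef := CRef.mk (Pat.mk 0x10000000000000003000000020000000000000000000000000 0x6c0000007e000001ff000001fe000000fc000000dc000000d0000000c0 10 9) 0 0 (step_sound _ 131 [(rh2e61936bb968319f.shift 0 1), (rh4a82ee3aaee1281f.shift 1 2), (rh697f76e01c4f9846.shift 1 1), (rh8097db338449f3f9.shift 2 1), (rh9f5e7a30a75199d5.shift 2 0), (rha8aa4ec1597bad99.shift 1 2)] (by decide +kernel))
noncomputable def rh5e5fa74c8712f9dd : CRef := CRef.mk (Pat.mk 0x10000000000000003000000020000000000000000000000000 0x68000001fc000001fc000000fe000000ff000000df000000fc000000dc 10 9) 0 0 (step_sound _ 131 [rh196ba146e90ea35b, (rh1b22c9d56f0bd025.shift 1 3), (rh8097db338449f3f9.shift 2 1), (rh8bad3b1de6dafdb0.shift 1 1), (rh9f5e7a30a75199d5.shift 2 0), (rhfb303951663d02b2.shift 2 0)] (by decide +kernel))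
noncomputable def rh5bd84f2c153f3da7 : CRef := CRef.mk (Pat.mk 0x4000000000000000c000000080000000000000000000000000 0x1a0000007f0000003ee000003fe000003ff0000037c000003f000000370 10 11) 0 0 (step_sound _ 133 [(rh196ba146e90ea35b.shift 2 0), (rh1b22c9d56f0bd025.shift 3 3), (rh2cfd9588b04e6786.shift 0 3), (rh9f5e7a30a75199d5.shift 4 0), (rha0ae8adeb1dbcf8d.shift 2 3), (rhfb303951663d02b2.shift 4 0)] (by decide +kernel))
noncomputable def rhdc2a53df48fd6d12 : CRef := CRef.mk (Pat.mk 0x20000000000000006000000040000000000000000000000000 0xd0000001f0000003fe000003fe000001f7000001b0000001b000000180 10 10) 0 0 (step_sound _ 132 [(rh294748a807cebe00.shift 0 3), (rh68a2a0859fe28e14.shift 3 0), (rh8238a1529f16a1c4.shift 1 1), (rhb0e26835e39b06ac.shift 2 3), (rhb2afcb5db661472f.shift 1 3)] (by decide +kernel))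
noncomputable def rh9750b794d1aa5c3c : CRef := CRef.mk (Pat.mk 0x10000000000000003000000020000000000000000000000000 0x680000007c000001f7000000fe000000ff000000dc000000c8000000c8 10 9) 0 0 (step_sound _ 131 [(rh1b22c9d56f0bd025.shift 1 3), rh2006f38f30e88b89, (rh9f5e7a30a75199d5.shift 2 0), (rha0ae8adeb1dbcf8d.shift 0 3), (rhb2afcb5db661472f.shift 0 3), (rhc79e66b3f9b6a154.shift 0 3)] (by decide +kernel))
noncomputable def rh24a8e9b64fae7b66 : CRef := CRef.mk (Pat.mk 0x10000000000000003000000020000000000000000000000000 0x68000000f8000001ff000003fe000000f7000000d0000000c0000000c0 10 10) 0 0 (step_sound _ 131 [(rh1b22c9d56f0bd025.shift 1 3), (rh305838e5e2202d54.shift 2 0), (rhb2afcb5db661472f.shift 0 3), (rhc79e66b3f9b6a154.shift 0 3), (rhe2f3bfae78aec466.shift 0 2)] (by decide +kernel))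
noncomputable def rh59454698d595158b : CRef := CRef.mk (Pat.mk 0x3000000020000000000000000000000000 0x6c0000006c000001ef000000fe000000ff000000de000000dc000000c0 10 9) 0 0 (step_sound _ 131 [(rh0fa479cea2267816.shift 1 3), (rh5d54d86c89295de3.shift 0 1), (rha0ae8adeb1dbcf8d.shift 0 3), (rha5d4a01a659e4fd6.shift 2 0), (rhb2afcb5db661472f.shift 0 3)] (by decide +kernel))
noncomputable def rhfec959f9bef966d4 : CRef := CRef.mk (Pat.mk 0x8000000000000001800000010000000000000000000000000 0x3000000034000000ff000000ff0000007c0000007f0000002f0000000c00000008 10 8) 0 0 (step_sound _ 163 [(rh33e2077649fdf31c.shift 0 2), (rh35273267d1605123.shift 1 0), rh7450af9ddeae175a, rh79e33b540ad902dd, (rh8d546a0d8896bef5.shift 0 2), (rhd71b34aaac9384db.shift 1 2), rhe6b6fc9c85c8ff88] (by decide +kernel))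
noncomputable def rhe9436b2e08222c27 : CRef := CRef.mk (Pat.mk 0x8000000000000001800000010000000000000000000000000 0x30000000360000007f000000ff0000007f0000001f0000000f0000000c00000008 10 8) 0 0 (step_sound _ 163 [(rh35273267d1605123.shift 1 0), rh7450af9ddeae175a, rh79e33b540ad902dd, (rh8d546a0d8896bef5.shift 0 2), rha491eed8fd0d9059, (rhd71b34aaac9384db.shift 1 2), (rhe92425992e698e4e.shift 0 2), (rhf91910166cf04d9e.shift 0 1)] (by decide +kernel))
noncomputable def rha332e3aae79fcfa0 : CRef := CRef.mk (Pat.mk 0x8000000000000001800000010000000000000000000000000 0x340000007e0000007f0000001f0000007f0000006f0000003c0000001c 10 7) 0 0 (step_sound _ 99 [(rh470b908fbee3e3b9.shift 0 2), (rh5760e19f4f768d6c.shift 0 2), rh7a94129a99e3445f, rh8d53e655406dfc19] (by decide +kernel))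
noncomputable def rh49854efb6830ea90 : CRef := CRef.mk (Pat.mk 0x8000000000000001800000010000000000000000000000000 0x80000000e0000000f40000007e000000ff000000fb0000007f000000ef0000003c0000001c 10 8) 0 0 (step_sound _ 99 [rh3bebf3442dce0b94, (rh470b908fbee3e3b9.shift 0 2), rh89606e99ecd1e0ce, rh9399a934c28da489, (rha59bb0286f90545d.shift 0 1), (rhc016b7f94f103638.shift 1 2), (rhe4f42c8f973a3d1c.shift 1 2)] (by decide +kernel))
noncomputable def rh4c4c04bf4f81a839 : CRef := CRef.mk (Pat.mk 0x4000000000000000c000000080000000000000000000000000 0x190000001d8000007fe000003fe000003bf000003200000030000000300 10 11) 0 0 (step_sound _ 133 [(rh0fa479cea2267816.shift 3 3), (rh2cfd9588b04e6786.shift 0 3), (rh4ded9d779d38d23e.shift 4 0), (rh658c373b183445ed.shift 3 2), (rha8aa4ec1597bad99.shift 3 2), (rhc79e66b3f9b6a154.shift 2 3)] (by decide +kernel))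
noncomputable def rh86de49f8ed4d5469 : CRef := CRef.mk (Pat.mk 0x1800000010000000000000000000000000 0x30000000700000007f0000007f0000007f000000680000006000000060 10 7) 0 0 (step_sound _ 130 [(rh0fa479cea2267816.shift 0 3), (rh1b22c9d56f0bd025.shift 0 3), (rh4a82ee3aaee1281f.shift 0 2), (rha44396371ca47278.shift 1 0), (rhfc203579036f7790.shift 0 2)] (by decide +kernel))
noncomputable def rh6b9710fe3fdcf57a : CRef := CRef.mk (Pat.mk 0x300000000000000020000000200000000000000000 0xf8000000fc00000fdf000007fe00000eff0000005e0000005c 10 12) 0 0 (step_sound _ 100 [(rh3b827397790ecea0.shift 1 0), rh4b52944a44bab4b2, (rh5de50892c5186150.shift 2 1), (rhd6cb9ed4ba52a4d1.shift 1 1), (rhec676860631873c8.shift 1 1), (rhf3a7f5f4d29d924d.shift 1 0)] (by decide +kernel))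
noncomputable def rhb1c76ca88e9833b3 : CRef := CRef.mk (Pat.mk 0x80000000e00000000000000000000000000000000 0x2000000130000007f0000003e0000007c000000ff0000007c00000010 10 8) 0 0 (step_sound _ 164 [rh1486d123edc5a594, (rh572132728df34c43.shift 1 4), (rh80f90a60d87caa0d.shift 1 4)] (by decide +kernel))
noncomputable def rh29e050d5dc8a9061 : CRef := CRef.mk (Pat.mk 0x4000000070000000000000000000000000 0x10000000100000007f000001fe000001fe0000002c0000002c 10 9) 0 0 (step_sound _ 132 [(rh988d6ea8f282d994.shift 1 0), (rha9fbfd4bb8cf890b.shift 1 3), rhae667cfe2d28731d, (rhb8c02536ea4cf983.shift 3 2)] (by decide +kernel))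
noncomputable def rhe6414b7982ff486d : CRef := CRef.mk (Pat.mk 0x2000000028000000000000000000000000 0x4800000058000000dc000000ff000000fe000000ff000000e800000068 10 8) 0 0 (step_sound _ 100 [(rh14e30ae87b198e4b.shift 0 2), rhbb96372a105290e6, (rhceff09e70080e6f2.shift 2 0), (rhe3afa6c0f229bb1f.shift 1 0)] (by decide +kernel))
noncomputable def rh6347aebfbd4f4419 : CRef := CRef.mk (Pat.mk 0x200000003800000000000000000000000000000000 0x100000001c0000001c0000001c0000003f000000fe000001ee0000001c0000001c00000014 10 9) 0 0 (step_sound _ 161 [(rh3456e117398b4c9c.shift 1 3), (rh6b03ce8443ac6040.shift 0 4), rh858578de2edbd615, (rh9dbb76c35b26f1cb.shift 0 3)] (by decide +kernel))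
noncomputable def rh7999d2592ce9cf0e : CRef := CRef.mk (Pat.mk 0x80000000e000000000000000000000000 0x3000000030000000340000007f0000003e000001fb000000ff000000fe 10 9) 0 0 (step_sound _ 132 [(rh0de55685b0e71a1a.shift 1 0), (rh80f90a60d87caa0d.shift 1 3), rh8a2ebafa673c401a] (by decide +kernel))
noncomputable def rh8fa881eb7910b3fb : CRef := CRef.mk (Pat.mk 0x2000000038000000000000000000000000000000000000000000000000 0x40000000c0000000c0000002f0000007e000001f8000001fc0000007c000000780000007800000050 10 9) 0 0 (step_sound _ 165 [rh6990373db3ae5b5e, (rh8ee80cc30e93a344.shift 2 5), (rh9909eeda0ef2ed2c.shift 2 5), (rha5ae317e258b9973.shift 2 1), (rhb2afcb5db661472f.shift 0 5)] (by decide +kernel))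
noncomputable def rhf0bd989fb168af4e : CRef := CRef.mk (Pat.mk 0x100000001c00000000000000000000000000000000 0xe0000002e0000006e000000fe0000007c0000001f0000007e0000003e0000002c 10 8) 0 0 (step_sound _ 165 [(rh572132728df34c43.shift 2 4), (rh80f90a60d87caa0d.shift 2 4), rh919d9749f25cd617] (by decide +kernel))
noncomputable def rh7957816d94cc3ca1 : CRef := CRef.mk (Pat.mk 0x200000003800000000000000000000000000000000 0x140000001c0000001c0000002f000000fc000000ff0000001e0000001e00000016 10 8) 0 0 (step_sound _ 99 [(rh2820ca9a6c4f41b4.shift 0 3), (rh42350d41dc4d3af7.shift 1 1), rhd500dff2db2fccdd, (rhf0f55c4504412200.shift 0 3)] (by decide +kernel))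
noncomputable def rh0ea75d484eebd357 : CRef := CRef.mk (Pat.mk 0x80000000e000000000000000000000000 0x140000007c0000003e0000007f000000ff000000fe 10 8) 0 0 (step_sound _ 132 [rh4e08541a42ecde2d, (rh572132728df34c43.shift 1 3), (rh80f90a60d87caa0d.shift 1 3)] (by decide +kernel))
noncomputable def rh2ba0fc4255273aea : CRef := CRef.mk (Pat.mk 0x40000000700000000000000000000000000000000000000000 0x10000000100000005f000000fe000003ef000003fc000007fc000000e0000000a0 10 11) 0 0 (step_sound _ 134 [(rh49cf3a261ec381ff.shift 0 1), (rh799bcd04cdf8ef40.shift 2 3), (rh9909eeda0ef2ed2c.shift 3 4), (rh9b4cf6df94e04dc0.shift 1 0), (rhb2afcb5db661472f.shift 1 4)] (by decide +kernel))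
noncomputable def rhf38264fa954ce5cc : CRef := CRef.mk (Pat.mk 0x400000007000000000000000000000000000000000 0x38000000780000003e0000007e000001ff000001bf000001f8000000f800000038 10 9) 0 0 (step_sound _ 164 [rh60bd4bd3abcae843, (rha9fbfd4bb8cf890b.shift 1 4), (rhd830ffd1341fef79.shift 2 0)] (by decide +kernel))
noncomputable def rh2d7eee284621c7f5 : CRef := CRef.mk (Pat.mk 0x80000000e000000000000000000000000 0x7000000070000007f0000003e000000370000003e0000001c 10 7) 0 0 (step_sound _ 132 [rh49f31a7a6414aac8, (rh572132728df34c43.shift 1 3), (rh80f90a60d87caa0d.shift 1 3)] (by decide +kernel))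
noncomputable def rh7b95de6bf3e75755 : CRef := CRef.mk (Pat.mk 0x100000001600000000000000000000000000000000 0x600000006000000370000001e0000003f0000000f0000000f00000003 10 6) 0 0 (step_sound _ 131 [(rh33e738c4ed385b9f.shift 1 4), rh9abfebf1beae952f] (by decide +kernel))
noncomputable def rhfc5d3d175dee4f1b : CRef := CRef.mk (Pat.mk 0x10000000160000000000000000000000000 0x180000019f000001fe000003ff0000001c0000001c 10 10) 0 0 (step_sound _ 100 [(rh7c7a2f4cb81bef31.shift 3 2), (rhbdde7ca93e3e9176.shift 3 2), rhd6c47dd8fdd1ed54] (by decide +kernel))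
noncomputable def rhea2a3a1b80608343 : CRef := CRef.mk (Pat.mk 0x400000005800000000000000000000000000000000 0x38000000380000003e0000003f000000ff0000005e000000fe0000007c0000007c00000010 10 8) 0 0 (step_sound _ 164 [(rh7a193b6ccae24061.shift 1 1), (rhe33d9496e10d8eb0.shift 1 4), rhf8fedb3bf8a3ba68] (by decide +kernel))
noncomputable def rh82e22e7b107d3aa6 : CRef := CRef.mk (Pat.mk 0x80000000e000000000000000000000000 0x3000000030000000340000007c0000003e0000003f0000003e0000001e 10 7) 0 0 (step_sound _ 100 [(rh27ce058b59d72f64.shift 0 2), (rh7f83bd45b8e0f5e4.shift 1 0), rh924912dc4df9d825, rheecc7d81f83813b9] (by decide +kernel))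
noncomputable def rh0586b86c3386831f : CRef := CRef.mk (Pat.mk 0x80000000e0000000000000000000000000000000000000000 0x3500000037000000370000003b0000003e0000003f0000003f0000001f0000000700000004 10 6) 0 0 (step_sound _ 164 [(rh10542c60e0f28dcb.shift 0 2), rh2986944aad83fc7f, (rh7f83bd45b8e0f5e4.shift 1 2), (rheecc7d81f83813b9.shift 0 2)] (by decide +kernel))
noncomputable def rhe77d832a2eaa28b3 : CRef := CRef.mk (Pat.mk 0x4000000070000000000000000000000000 0x28000000280000006e000001fe000001ff000001f0000000f0 10 9) 0 0 (step_sound _ 68 [rh72614d3a885d0098, (rhf0f55c4504412200.shift 1 2), (rhf918b6ee45297661.shift 2 0)] (by decide +kernel))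
noncomputable def rh39f0b2b63349dcb7 : CRef := CRef.mk (Pat.mk 0x200000003800000000000000000000000000000000 0xe0000001e0000003f0000003e000001ff000000fc0000007c00000008 10 9) 0 0 (step_sound _ 102 [(rh281e9a87c20e4a66.shift 0 2), (rh6aa0ed61cce1493b.shift 2 3), (rhef62a4938682b925.shift 2 0)] (by decide +kernel))
noncomputable def rhdf9803d48a81f129 : CRef := CRef.mk (Pat.mk 0x80000000e0000000000000000000000000000000000000000 0x500000007000000070000000f0000003e000000770000003f0000001f0000000700000004 10 7) 0 0 (step_sound _ 164 [rh2986944aad83fc7f, (rh924912dc4df9d825.shift 0 2), (rha3d9777f7cbaeab4.shift 0 4), (rhaeebc73f5a9c796a.shift 0 4), (rhe401600d466b97cd.shift 0 4)] (by decide +kernel))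
noncomputable def rh5ad50a7ed3849123 : CRef := CRef.mk (Pat.mk 0x4000000070000000000000000000000000 0x30000000300000007f000001ff000003ff0000006800000028 10 10) 0 0 (step_sound _ 132 [(rh0fe7e174ea960d02.shift 3 2), (rh8021d7e106d5bb25.shift 0 1), (rha7edc60fc34bffff.shift 2 3), rhae667cfe2d28731d] (by decide +kernel))
noncomputable def rh48325a5ce313afef : CRef := CRef.mk (Pat.mk 0xa0000000a000000000000000000000000 0x3000000034000000f4000000ff0000003e0000003b0000001a00000018 10 8) 0 0 (step_sound _ 100 [rh9fc4ca10663ac912, rha6f3b866f83b2c74, (rhd8be3b7ca6adb62f.shift 0 3), (rhe0f4334d41ad24d5.shift 0 1)] (by decide +kernel))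
noncomputable def rh050a334dc4a5fb93 : CRef := CRef.mk (Pat.mk 0x500000005000000000000000000000000000000000 0x28000001b8000003bc000003f0000001f0000003ff000001fe000000ff00000028 10 10) 0 0 (step_sound _ 100 [(rh305c0dbc5c4ce736.shift 1 0), (rh3866f06994cf9e5f.shift 2 1), (rh3c194a231f632aec.shift 1 0), (rh54cf47a4e2b0ba24.shift 3 2), (rh7343427544ec5a8d.shift 3 0), (rhba57e4c9b5959b56.shift 3 0), (rhbc555fc52785c782.shift 2 1), rhf8369fa6eb8ed8c4] (by decide +kernel))
noncomputable def rha91fb1f261b87c83 : CRef := CRef.mk (Pat.mk 0xa0000000a000000000000000000000000000000000 0x5000000070000000700000007e000003fc000000ee000001ff000001fe000001fe00000050 10 10) 0 0 (step_sound _ 101 [(rh112fc013d4c2b407.shift 4 0), (rh12462b136fc4e541.shift 3 2), (rh59d8a47042aed9be.shift 3 2), rh7ffccfdd9d63fe02, (rhbc555fc52785c782.shift 3 1), (rhe0b855e5710398a1.shift 1 0), (rhf81154eed2bcc2ef.shift 0 1)] (by decide +kernel))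
noncomputable def rh9ae345757b7d94d6 : CRef := CRef.mk (Pat.mk 0x5000000050000000000000000000000000000000000000000000000000 0x2800000038000000b8000003d8000001f0000003ff000001fe000001ff000000b80000003800000028 10 10) 0 0 (step_sound _ 164 [(rh2ba23edd0207a4dc.shift 1 3), (rh3c194a231f632aec.shift 1 2), (rh69220bf22cc16846.shift 3 2), (rh6ed210abcf5d8021.shift 3 2), (rh77a6d5f44f0862ae.shift 1 0), (rh86463c078ce83ad2.shift 3 2), (rh8adeb29359c267f7.shift 3 2), (rh9a8d2db5d5590fde.shift 0 2), (rhd39cc45b1caddbb8.shift 2 4)] (by decide +kernel))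
noncomputable def rh64a212036d630977 : CRef := CRef.mk (Pat.mk 0xa0000000a0000000000000000000000000000000000000000 0x2500000037000000f7000000ff0000003e0000003f0000003f000000370000000700000004 10 8) 0 0 (step_sound _ 164 [(rh142a68cbd4017e01.shift 0 2), rh6b4685b8d1249925, (rhe0f4334d41ad24d5.shift 0 3)] (by decide +kernel))
noncomputable def rh43c8403baf2b2c04 : CRef := CRef.mk (Pat.mk 0x2800000028000000000000000000000000 0x58000000d80000007c000000ef0000007f0000003c0000001c 10 8) 0 0 (step_sound _ 132 [rh107b0d79983f04bd, (rh2820ca9a6c4f41b4.shift 0 3), (rh8f7af3f59561927a.shift 2 1), (rh9e24c218225bb676.shift 2 1), (rhf6388f317ffa3be8.shift 2 3)] (by decide +kernel))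
noncomputable def rh695c0f9a699d4232 : CRef := CRef.mk (Pat.mk 0x280000000800000000000000000000000000000000 0x100000001c0000001c0000001c000001de000000fc0000000f0000001f0000003c0000001c00000014 10 9) 0 0 (step_sound _ 164 [(rh2820ca9a6c4f41b4.shift 0 4), (rh87a3edca41116c28.shift 2 1), rhe6143a8b5599667d] (by decide +kernel))
noncomputable def rhc8aeed9242f912a2 : CRef := CRef.mk (Pat.mk 0x2800000028000000000000000000000000 0xc0000004c000000ce0000007c000000ef000000260000002600000006 10 8) 0 0 (step_sound _ 132 [(rh236af70c223e1a76.shift 2 1), (rh2820ca9a6c4f41b4.shift 0 3), (rh8f7af3f59561927a.shift 2 1), (rhf0d59fc96aa132f4.shift 1 0)] (by decide +kernel))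
noncomputable def rh8ce56483a56deced : CRef := CRef.mk (Pat.mk 0x280000002800000000000000000000000000000000 0xc0000001c0000001c0000001c0000002c0000006e0000007f0000007e0000007c00000014 10 7) 0 0 (step_sound _ 99 [(rh050d7154a04d49a8.shift 1 2), (rh1e6400bd70fa042e.shift 2 1), (rh2831cc53dc0ef389.shift 2 1), (rh2ad5bfa510d27cdd.shift 2 1), (rh8a2aeac63f00ba0c.shift 1 0), (rh9b3701453428b349.shift 2 0), rhc1e6b2e92475a55a, (rhcca9b50a1c7dd914.shift 2 1)] (by decide +kernel))
noncomputable def rh448d19ff18c2314f : CRef := CRef.mk (Pat.mk 0x100000001c00000000000000000000000000000000 0xc0000000e0000001f0000007f0000007f000000ff0000003c00000028 10 8) 0 0 (step_sound _ 100 [rh06a38213ee4445fc, (rh35d5f14762269421.shift 0 1), rh4ab14e449d9f3f01, (rh921bf934b0191cb7.shift 0 3)] (by decide +kernel))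
noncomputable def rh1b03251cca9f5888 : CRef := CRef.mk (Pat.mk 0x3000000010000000100000000000000000 0x200000046000000c6000003e7000000ff0000007e000000ff000000ee000000e8 10 10) 0 0 (step_sound _ 99 [rh26dd3808a9ce0752, (rh69012675dfdb1a5b.shift 1 3), (rh8ce801379984167e.shift 2 0), (rhd69c262cd33b94b3.shift 1 3)] (by decide +kernel))
noncomputable def rh27d0c0faaf609108 : CRef := CRef.mk (Pat.mk 0x3000000010000000100000000000000000 0x20000000a2000003ee000000fe000003ee000003fe0000077e000000ff0000000a00000008 10 11) 0 0 (step_sound _ 197 [(rh41539dc66297cd35.shift 1 2), (rh4c79f501f451e457.shift 1 2), rh4f1867b1e30f4618, (rhb009278fdd334770.shift 4 2)] (by decide +kernel))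
noncomputable def rhe2cbac517d87123d : CRef := CRef.mk (Pat.mk 0x80000000800000008000000080000000000000000 0x200000002800000038000000780000003f000000ff000000f80000002800000020 10 8) 0 0 (step_sound _ 164 [(rh2f68792b6b779e96.shift 3 2), rhd01fa7dbefebf791] (by decide +kernel))
noncomputable def rhd1bd93be9357ca01 : CRef := CRef.mk (Pat.mk 0x800000008000000180000000000000000 0x140000003c000000fc0000007f000001bf000000f8000001ec0000000c 10 9) 0 0 (step_sound _ 69 [(rh0d5a6fca73d25d49.shift 0 1), (rh1d8db92885e5ac9e.shift 2 0), rh506fda3a70107ea2, rhc23afecfefb34707, (rhde3f97a42f805586.shift 2 1), (rhef9908aa4f350868.shift 1 1)] (by decide +kernel))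
noncomputable def rhba248e63a9e81d78 : CRef := CRef.mk (Pat.mk 0x10000000100000001000000000 0x2800000028000007ff000003fe000000700000001000000010 10 11) 0 0 (step_sound _ 133 [(rh08d50fe567eb1045.shift 4 0), rh175105e482faca90, (rh22d86f446f3de558.shift 1 0), (rh5890386c1f942fa1.shift 4 1), (rh87d5e4118780fa3b.shift 4 0)] (by decide +kernel))
noncomputable def rh6e3876843e3f08a5 : CRef := CRef.mk (Pat.mk 0x100000001000000010000000000000002000000000 0x280000003f0000007e000000ff0000003000000038000000280000002000000020 10 8) 0 0 (step_sound _ 101 [(rh292c0850d7cbf5d2.shift 0 2), (rh3b5346b2e316d790.shift 4 0), (rh9d021f793ef14721.shift 4 0)] (by decide +kernel))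
noncomputable def rhe2c0946712b2db7c : CRef := CRef.mk (Pat.mk 0x800000008000000180000000000000000 0x140000001c0000001c000000fc000000ff0000007f0000003f0000007c0000006600000004 10 8) 0 0 (step_sound _ 98 [(rh068b355ba39a2031.shift 1 0), (rh5cf5c526b5988c69.shift 0 2), (rhb0121edee88fe839.shift 0 2)] (by decide +kernel))
noncomputable def rh36de4aa74882a5be : CRef := CRef.mk (Pat.mk 0x300000001000000010000000000000000000000000 0x18000000df000000ff0000007e0000007e000000380000003800000028 10 8) 0 0 (step_sound _ 35 [(rh18daa16230dec9b2.shift 3 0), rh62cc5f1b973282f3, (rha5b58c6132dbf1d5.shift 1 0)] (by decide +kernel))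
noncomputable def rh96c959f99e8744d1 : CRef := CRef.mk (Pat.mk 0x180000000800000000000000000000000000000000 0x140000001c0000001e0000001f0000007e0000007f0000007f0000007c0000003c0000000c 10 7) 0 0 (step_sound _ 130 [(rh1deb9acc4a7d81b3.shift 1 0), (rh574fdbf07bdd18b9.shift 0 4), (rh97ca3994bd324c3b.shift 0 1)] (by decide +kernel))
noncomputable def rh5dcf9d8d53d2fcf5 : CRef := CRef.mk (Pat.mk 0x18000000080000000000000000 0x2000000034000000f4000001ff000003fe000003ef0000006800000028 10 10) 0 0 (step_sound _ 132 [(rh0d8834b30f688643.shift 1 0), (rh4821dcf828b9d7bf.shift 3 0), rh77a92409ff311d11] (by decide +kernel))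
noncomputable def rh22033325ff46dae7 : CRef := CRef.mk (Pat.mk 0x3000000010000000000000000000000000 0x3c0000003c000000ff000000ff000000fe0000005c0000001800000018 10 8) 0 0 (step_sound _ 99 [(rh69012675dfdb1a5b.shift 1 3), (rh934a7062da789b88.shift 0 2), rhe6643dfb1d920984] (by decide +kernel))
noncomputable def rhc6c11717fa579f16 : CRef := CRef.mk (Pat.mk 0x300000001000000000000000000000000000000000 0x280000003800000078000000f0000000ff000000fe000000fc000000780000003800000008 10 8) 0 0 (step_sound _ 131 [(rh69012675dfdb1a5b.shift 1 4), (rh797f49eeceb0dd32.shift 1 0), (rh81b29d73e9a9514f.shift 0 1)] (by decide +kernel))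
noncomputable def rh3d6facfe682690a8 : CRef := CRef.mk (Pat.mk 0x1800000008000000000000000000000000 0x380000007e000000ff0000007f0000001f0000003f0000003c00000030 10 8) 0 0 (step_sound _ 164 [rh4e30bdeb5dfcd5f1, rhe8a3aef041cfb0a8, (rhf9366b6a121593ef.shift 3 1)] (by decide +kernel))
noncomputable def rh6d96dd5b5b28026d : CRef := CRef.mk (Pat.mk 0x3000000010000000000000000000000000 0x60000000e0000007ef000003fe000007f7000001f8000001f000000140 10 11) 0 0 (step_sound _ 134 [(rh1ff43a4d4e8fd855.shift 1 3), (rh5d59c41c411872b1.shift 0 1), (rh63f741f1b3958a4c.shift 1 1), (rh72e46f8efc02f4b5.shift 4 0), (rha602c15111dc9a57.shift 1 0), (rhb15ba021808691ca.shift 0 1), (rhb33bc69bbe2ba631.shift 1 1), (rhb65e5edd63825121.shift 1 1), (rhc12d08ebc1fc688f.shift 0 1)] (by decide +kernel))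
noncomputable def rhf58cb0eb90980cfc : CRef := CRef.mk (Pat.mk 0x1800000008000000000000000000000000 0x3e0000003e0000007e000000f8000000ff0000007f0000003800000010 10 8) 0 0 (step_sound _ 164 [(rh4821dcf828b9d7bf.shift 3 1), rh896f4de61f22429b, (rhcf80391c5046a495.shift 3 1), (rhdf1c8dd8d0773106.shift 1 1)] (by decide +kernel))
noncomputable def rh265917204438ebf0 : CRef := CRef.mk (Pat.mk 0x1800000008000000000000000000000000 0x3c0000003f0000007f0000001f0000007c000000fe0000003c00000010 10 8) 0 0 (step_sound _ 164 [(rh3f7de0ff7da94059.shift 1 0), (rhcf80391c5046a495.shift 3 1), (rhdab7829c0f36bcb6.shift 0 1), (rhf9366b6a121593ef.shift 3 1)] (by decide +kernel))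
noncomputable def rhadc682c75d0edf04 : CRef := CRef.mk (Pat.mk 0x3000000010000000000000000000000000 0x200000007c000000fe000000ff000000fe000000ee0000006800000008 10 8) 0 0 (step_sound _ 99 [(rh0bb882ba86b2372d.shift 1 3), (rh574fdbf07bdd18b9.shift 1 3), rh81b29d73e9a9514f, (rhc4c7c0e401f2cc41.shift 1 0)] (by decide +kernel))
noncomputable def rhcdde3726102563fa : CRef := CRef.mk (Pat.mk 0x180000000800000000000000000000000000000000 0x140000003c0000007c000000ef000000fe000000f80000005e0000001c0000001c00000010 10 8) 0 0 (step_sound _ 195 [(rh07cf783be09f9108.shift 1 0), (rh0ccd36c4029eb4ed.shift 2 0), (rh1a7f35be05f0c012.shift 0 1), (rh4f4f9440c93b7001.shift 0 1), (rhabd8cf0be95818e6.shift 0 3), (rhe733d8043814aa72.shift 0 3)] (by decide +kernel))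
noncomputable def rhba833fd47f6bf0a4 : CRef := CRef.mk (Pat.mk 0x300000001000000000000000000000000000000000 0x8000000e8000001f8000007fe000003fe000003d7000001f8000001f80000017800000028 10 11) 0 0 (step_sound _ 166 [(rh3d2d16aadbf5a579.shift 0 2), (rh8eb5711751f67440.shift 3 2), (rha602c15111dc9a57.shift 1 1), (rha76407f4bd547f70.shift 2 4), (rhab625a7bf1416fb9.shift 1 1), (rhb4453f7eb37874fd.shift 2 1), (rhc748e865057af2be.shift 3 1), (rhce36061fbe3f8bc7.shift 1 2), (rhe45feed76cc5ca95.shift 1 0), (rhf3d924363e5fe322.shift 1 1)] (by decide +kernel))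
noncomputable def rh4abda8ba4952cdae : CRef := CRef.mk (Pat.mk 0x180000000800000000000000000000000000000000 0x100000001c0000001e0000007f0000007f0000007f0000000c0000001c0000001c00000010 10 7) 0 0 (step_sound _ 130 [(rh0bb882ba86b2372d.shift 0 4), rh891c3b366c413e18, (rhc9b494530ea9bc24.shift 0 2)] (by decide +kernel))
noncomputable def rh1d1f0755fb3450ab : CRef := CRef.mk (Pat.mk 0x3000000010000000000000000000000000 0x3c0000003c000000ff000000ff000000fe0000005c0000001c0000001c 10 8) 0 0 (step_sound _ 99 [rh36caef012bc4429c, (rh69012675dfdb1a5b.shift 1 3), (rh934a7062da789b88.shift 0 2)] (by decide +kernel))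
noncomputable def rhea1030c0c3fdff8b : CRef := CRef.mk (Pat.mk 0x3000000010000000000000000000000000 0x200000002c000000fe000000ff000000fe000000fe0000007c0000003c 10 8) 0 0 (step_sound _ 99 [(rh65df0061b5740102.shift 2 1), (rh69012675dfdb1a5b.shift 1 3), rh9be51c7f03547eba] (by decide +kernel))
noncomputable def rhc48e577e64d9d770 : CRef := CRef.mk (Pat.mk 0x300000001000000000000000000000000000000000 0x200000003c0000003c000000ff000000ff000000fe00000058000000380000003800000020 10 8) 0 0 (step_sound _ 131 [(rh0bb882ba86b2372d.shift 1 4), (rh891c3b366c413e18.shift 1 0), (rh934a7062da789b88.shift 0 3)] (by decide +kernel))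
noncomputable def rhe5b87192a591cb53 : CRef := CRef.mk (Pat.mk 0x3000000010000000000000000000000000 0x20000000b0000001f7000000ff000000fe000000fc0000007e0000001c 10 9) 0 0 (step_sound _ 99 [rh2a460a0ca1253d91, (rh2d2117b91d0402bc.shift 2 1), (rh69012675dfdb1a5b.shift 1 3)] (by decide +kernel))
noncomputable def rh118af980f3347f56 : CRef := CRef.mk (Pat.mk 0x3000000010000000000000000000000000 0x180000003f000000ff000000fe0000007e000000f800000078 10 8) 0 0 (step_sound _ 99 [(rh7333dd4d9075bcb0.shift 0 1), (rhd1652f09ada4a6ac.shift 1 0), (rhd69c262cd33b94b3.shift 1 3)] (by decide +kernel))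
noncomputable def rh781d85834addb10e : CRef := CRef.mk (Pat.mk 0xc00000004000000000000000000000000 0x60000000e0000000f0000007f0000003f0000003e0000003e0000001e00000008 10 7) 0 0 (step_sound _ 163 [rh2a51943a9d1377a0, (rh7d347aa489c33d28.shift 0 1), (rhcf80391c5046a495.shift 2 1)] (by decide +kernel))
noncomputable def rhd5d074ace2c2e757 : CRef := CRef.mk (Pat.mk 0x1800000008000000000000000000000000 0x1c0000001e000000770000007f0000007f0000007f0000003e00000030 10 7) 0 0 (step_sound _ 98 [rh1abd8b7394fee212, (rh27fcecbad56ae909.shift 0 1), (rh574fdbf07bdd18b9.shift 0 3), (rhd69c262cd33b94b3.shift 0 3)] (by decide +kernel))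
noncomputable def rh143199db8ebde1d7 : CRef := CRef.mk (Pat.mk 0x18000000080000000000000000000000000000000000000000 0x140000001c0000001c0000002c000000780000007f0000007f0000003f0000003f0000001e0000001e 10 7) 0 0 (step_sound _ 131 [rh2376c0abc9d4c14d, (rh49670016b22718dc.shift 0 1), rh5c7bff79a791511f, (rha860f22cc572479b.shift 2 1), rha9bb8c2bd208a34c, (rhb261790060b42601.shift 1 1), rhcc75ef3b5fcc2e97, (rhd3e0314606cfc48c.shift 2 0), (rhf911a5094c9d8d1f.shift 0 3)] (by decide +kernel))
noncomputable def rhd1d8727fd892f337 : CRef := CRef.mk (Pat.mk 0x30000000100000000000000000 0x3c0000003c000000ff000000ff000000fe0000006600000024 10 8) 0 0 (step_sound _ 67 [(rh0bb882ba86b2372d.shift 1 2), (rh574fdbf07bdd18b9.shift 1 2), (rh74b9253b4ff61667.shift 1 0), (rh934a7062da789b88.shift 0 1)] (by decide +kernel))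
noncomputable def rh9d4c17d60faa54f5 : CRef := CRef.mk (Pat.mk 0x30000000100000000000000000 0x380000003c000000fe0000003e000000f70000007e0000003c 10 8) 0 0 (step_sound _ 133 [(rh5aa2e975631ce584.shift 2 1), rh66bbef6aeb639d96, (rhadf429772c25fde0.shift 4 0), (rhf9366b6a121593ef.shift 4 0)] (by decide +kernel))
noncomputable def rh4148bc534b789994 : CRef := CRef.mk (Pat.mk 0x18000000080000000000000000000000000000000000000000 0x140000001c0000001e000000780000000f0000007f0000003f0000001f0000001600000002 10 7) 0 0 (step_sound _ 131 [(rh215e11e099257d75.shift 3 3), rh352f7384a03dc0ab, (rh405be0553e27c502.shift 0 3), (rhe1a3e820b9828b5e.shift 2 2), (rhffb8e5993241bf15.shift 2 1)] (by decide +kernel))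
noncomputable def rh98f43c4271c65405 : CRef := CRef.mk (Pat.mk 0x2000000018000000000000000000000000 0x20000000b0000001fe000000ff000000fe000000f80000007e0000001c 10 9) 0 0 (step_sound _ 132 [(rh574fdbf07bdd18b9.shift 1 3), (rh9d1a9b5a14aa5319.shift 0 1), (rhbb0201546bd2a9a2.shift 1 0)] (by decide +kernel))
noncomputable def rh76d27ecdbf4b95d2 : CRef := CRef.mk (Pat.mk 0x2000000018000000000000000000000000 0x56000000fe000000ff000000fe0000003f0000007c0000003c 10 8) 0 0 (step_sound _ 132 [(rh0bb882ba86b2372d.shift 1 3), (rh489c15078f1a56c7.shift 1 0), (rh574fdbf07bdd18b9.shift 1 3), rhbe0dc9b232f653da] (by decide +kernel))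
noncomputable def rh9d49ecee09e9ab94 : CRef := CRef.mk (Pat.mk 0x200000001800000000000000000000000000000000 0x300000003c000000f8000001fe000000ff000000fc0000007c00000010 10 9) 0 0 (step_sound _ 164 [rh1a96f980461e5e08, (rh574fdbf07bdd18b9.shift 1 4), (rhc53dcba3920ea7c0.shift 1 1)] (by decide +kernel))
noncomputable def rhaaa341a30d94809e : CRef := CRef.mk (Pat.mk 0x100000000c000000000000000000000000 0x100000001b0000007f0000007f0000007f0000006f0000002c00000004 10 7) 0 0 (step_sound _ 131 [(rh0bb882ba86b2372d.shift 0 3), rh489c15078f1a56c7, (rh574fdbf07bdd18b9.shift 0 3), (rhf4279fd8f8927c0a.shift 0 1)] (by decide +kernel))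
noncomputable def rh65121f78b6d83c05 : CRef := CRef.mk (Pat.mk 0x2000000018000000000000000000000000 0x80000003800000038000000300000007e000000fe0000003e000000ff000000fc0000003c 10 8) 0 0 (step_sound _ 132 [(rh69012675dfdb1a5b.shift 1 3), (rhb5a41303637865d1.shift 1 0), rhca457f10247f0c3f] (by decide +kernel))
noncomputable def rh6ebe2e0a6464a300 : CRef := CRef.mk (Pat.mk 0x100000000c000000000000000000000000 0x3800000078000000fc0000007f000000ff000000fb0000003a0000001a 10 8) 0 0 (step_sound _ 131 [(rh0bb882ba86b2372d.shift 0 3), (rha51e8bf0677f17b9.shift 2 0), rhc5b51224b74d59d4] (by decide +kernel))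
noncomputable def rh5b11c1ef276c1fa8 : CRef := CRef.mk (Pat.mk 0x100000000c00000000000000000000000000000000 0x3800000078000000fa0000007b000000ff000000ff0000007e0000003c00000014 10 8) 0 0 (step_sound _ 163 [(rh0a7828a3a3a28df2.shift 1 2), (rh21d4e3fb66cd8450.shift 0 1), (rh574fdbf07bdd18b9.shift 0 4), rhd5d354de5d176f66] (by decide +kernel))
noncomputable def rh344169eb3a364a0e : CRef := CRef.mk (Pat.mk 0x2000000018000000000000000000000000 0x3000000074000000fe000000ff000001fe000001ee0000006c0000000c 10 9) 0 0 (step_sound _ 132 [(rh0bb882ba86b2372d.shift 1 3), (rh0f3e00c373acf168.shift 1 0), (rh574fdbf07bdd18b9.shift 1 3), rh81b29d73e9a9514f] (by decide +kernel))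
noncomputable def rhb526661e9a619fef : CRef := CRef.mk (Pat.mk 0x400000003000000000000000000000000000000000 0x80000001c0000007f000000fe000001fe0000001f0000001e00000006 10 9) 0 0 (step_sound _ 131 [(rh14cd4cdf098be38a.shift 1 1), (rha2e182fd6274be10.shift 0 3), (rha82f7868d7786f99.shift 1 0), (rhd9ce75c8d2cd02b9.shift 0 1)] (by decide +kernel))
noncomputable def rh2373d231def53f3e : CRef := CRef.mk (Pat.mk 0x100000000c000000000000000000000000 0x780000007e000001ff000001fc000001ff0000007e0000003c 10 9) 0 0 (step_sound _ 100 [(rh008933b32ec2841d.shift 1 0), (rh10d342d0ef647a06.shift 1 0), (rh2449d54007eeae8d.shift 1 0), (rh41c77f7776c8729c.shift 2 0), (rh4c43c91fa3cf8729.shift 1 0), (rh6cc0aaab001df0e6.shift 1 0), rh8698667fdfe24e53, (rh9c82887176fc970b.shift 1 0), (rheefc03b5076a903f.shift 1 0)] (by decide +kernel))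
noncomputable def rh5ee1ec7e1c3b378b : CRef := CRef.mk (Pat.mk 0x200000001800000000000000000000000000000000 0x20000000b0000001fe000000ff000000de000000ff0000007c0000003c00000028 10 9) 0 0 (step_sound _ 164 [(rh0bb882ba86b2372d.shift 1 4), (rh9d1a9b5a14aa5319.shift 0 2), (rhca457f10247f0c3f.shift 0 1), (rhd5d354de5d176f66.shift 1 0)] (by decide +kernel))
noncomputable def rhc35983e0ec398e63 : CRef := CRef.mk (Pat.mk 0x100000000c00000000000000000000000000000000 0x28000000780000007e000000ff0000007f0000007c0000003c00000018 10 8) 0 0 (step_sound _ 163 [(rh8abcff43314d6ab3.shift 1 0), (rhc53dcba3920ea7c0.shift 0 1), (rhd69c262cd33b94b3.shift 0 4)] (by decide +kernel))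
noncomputable def rh87529cf1dbbbb06c : CRef := CRef.mk (Pat.mk 0x2000000018000000000000000000000000 0x7000000078000001f8000000ff000001fe0000003e0000003c00000038 10 9) 0 0 (step_sound _ 132 [rh185c60bbda1510be, (rh574fdbf07bdd18b9.shift 1 3), (rhd69c262cd33b94b3.shift 1 3), (rhe97814fc970299dd.shift 2 0)] (by decide +kernel))
noncomputable def rh4763a5d51e996f2e : CRef := CRef.mk (Pat.mk 0x100000000c0000000000000000 0x100000001c0000007c0000007f000000ff000000ef0000002e 10 8) 0 0 (step_sound _ 99 [(rh0bb882ba86b2372d.shift 0 2), (rh0dd4e0131ff0e0d8.shift 1 0), (rh574fdbf07bdd18b9.shift 0 2), rh716678df6cf9150d] (by decide +kernel))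
noncomputable def rh919678e623c498c4 : CRef := CRef.mk (Pat.mk 0x2000000018000000000000000000000000 0x28000000380000003800000038000000f80000003e000000ff000000fc0000003c 10 8) 0 0 (step_sound _ 132 [(rh69012675dfdb1a5b.shift 1 3), (rhb31fd4d06ac525fd.shift 3 0), rhca457f10247f0c3f] (by decide +kernel))
noncomputable def rha903bc7732fd82ea : CRef := CRef.mk (Pat.mk 0x100000000c00000000000000000000000000000000 0x140000001c0000001c0000000c0000007c000000ff0000007f0000007c0000003c0000000c 10 8) 0 0 (step_sound _ 163 [(rh0bb882ba86b2372d.shift 0 4), (rh1deb9acc4a7d81b3.shift 1 0), (rhc53dcba3920ea7c0.shift 0 1)] (by decide +kernel))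
noncomputable def rh6eebbcdaa94330d9 : CRef := CRef.mk (Pat.mk 0x100000000c00000000000000000000000000000000 0x80000001c0000001c0000007c0000007c0000007f000000780000003e0000001c00000014 10 7) 0 0 (step_sound _ 163 [(rh0bb882ba86b2372d.shift 0 4), (rh69012675dfdb1a5b.shift 0 4), (rh91eaaacadbc8bda2.shift 2 0), rhf91f2f16f34163ef] (by decide +kernel))
noncomputable def rh7c9e249ca23212f2 : CRef := CRef.mk (Pat.mk 0x100000000c0000000000000000000000000000000000000000 0x3c0000003c0000003c00000078000000ff000000fc0000007e0000001c0000001c00000010 10 8) 0 0 (step_sound _ 195 [rh108a675ac54b0aed, (rh574fdbf07bdd18b9.shift 0 5), (rhc0af5118d822879b.shift 2 2)] (by decide +kernel))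
noncomputable def rhe728e38309f4fcb8 : CRef := CRef.mk (Pat.mk 0x20000000180000000000000000 0x280000003800000078000000f8000000ff000000fe000000ee0000002c 10 8) 0 0 (step_sound _ 100 [(rh0bb882ba86b2372d.shift 1 2), rh37b8efb433d21222, (rh574fdbf07bdd18b9.shift 1 2), (rh74b9253b4ff61667.shift 1 0)] (by decide +kernel))
noncomputable def rhff867d44d4e4ef6b : CRef := CRef.mk (Pat.mk 0x100000000c000000000000000000000000 0x80000007c0000007c000000fe000001fc000001ff0000007e0000003c 10 9) 0 0 (step_sound _ 100 [rh2290cfc15f89cc0a, (rh37fe76e0254fc3d7.shift 1 0), (rh4c43c91fa3cf8729.shift 1 0), (rh68022a8bcad0949e.shift 1 0), (rh80d76ac28deaf1aa.shift 1 0), (rh9c82887176fc970b.shift 1 0), (rhb317c6cc5236f514.shift 1 0), (rhb93980538b69ee7b.shift 1 0), (rheefc03b5076a903f.shift 1 0)] (by decide +kernel))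
noncomputable def rhe09db3f2ae3754d3 : CRef := CRef.mk (Pat.mk 0x20000000180000000000000000000000000000000000000000 0x2800000038000000f8000000fc000000de000000ff000000fc0000003c0000003800000020 10 8) 0 0 (step_sound _ 196 [(rh108a675ac54b0aed.shift 1 0), (rhb3821b1e2bacd559.shift 0 1), (rhd69c262cd33b94b3.shift 1 5)] (by decide +kernel))
noncomputable def rhdd44bc56ec998a17 : CRef := CRef.mk (Pat.mk 0x2000000018000000000000000000000000 0x2000000070000000f8000000fc000001fe000000ff0000007c0000003c 10 9) 0 0 (step_sound _ 132 [(rh3c91540462213342.shift 2 0), (rh69012675dfdb1a5b.shift 1 3), rhca457f10247f0c3f] (by decide +kernel))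
noncomputable def rha22a8df62be10de8 : CRef := CRef.mk (Pat.mk 0x180000000400000000000000000000000000000000 0x10000000180000001c0000001f0000001f0000007c0000001f0000001c0000001c0000001c0000000c 10 7) 0 0 (step_sound _ 131 [(rh0bb882ba86b2372d.shift 0 4), (rh1369e8588af69a78.shift 1 0), rhd4f4e8aba8258128] (by decide +kernel))
noncomputable def rhd3a8cab7ada57fe6 : CRef := CRef.mk (Pat.mk 0x3000000008000000000000000000000000 0x28000000380000003c000003be000001fc0000039f0000001c0000001800000008 10 10) 0 0 (step_sound _ 98 [(rh334f8c297bf30a53.shift 1 0), (rh7401e8cf466f4e5b.shift 0 3), (rhbd2e91c3fdbfa961.shift 0 3), (rhedb5257a62f09c47.shift 2 3)] (by decide +kernel))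
noncomputable def rh92ac9ed0654e3f6a : CRef := CRef.mk (Pat.mk 0x30000000080000000000000000 0x140000005f000003fc000001fc000003f80000003800000038 10 10) 0 0 (step_sound _ 102 [(rh2c0d840c709967a7.shift 3 2), (rh3d54e7f933686048.shift 3 2), (rh80415385c3a86032.shift 2 0), rha9b216ca16ea3257, (rhc083815ec94cd2b2.shift 3 2)] (by decide +kernel))
noncomputable def rh6768d02481f8359e : CRef := CRef.mk (Pat.mk 0x6000000010000000000000000000000000 0x780000007c000001fe0000007f000000fe0000007c0000007c0000000c 10 9) 0 0 (step_sound _ 132 [(rh1fcab73cb5acd4d0.shift 1 0), rh39dd5a128ef25f5b, (rh5e29cc6fcab447e5.shift 1 1), (rh8cfb80a2eb937421.shift 2 1), rh9616a8682abd30ae, (rhba04e521aed1de48.shift 2 1), (rhd17e7ca7d253eefe.shift 1 1), (rhfbee3747be3dc75a.shift 1 1)] (by decide +kernel))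
noncomputable def rh667eaa1f1f329139 : CRef := CRef.mk (Pat.mk 0x1800000004000000000000000000000000 0x1c0000003c0000003e000000ff0000007b0000001f0000001c0000001c00000014 10 8) 0 0 (step_sound _ 99 [(rh574fdbf07bdd18b9.shift 0 3), (rhe1895ffb46292c15.shift 0 1), rhf285d9c81dd2102a] (by decide +kernel))
noncomputable def rhd787beb4e9c98fcc : CRef := CRef.mk (Pat.mk 0xc00000002000000000000000000000000 0x4000000070000000700000007000000ef0000007e000000e7000000070000000700000005 10 8) 0 0 (step_sound _ 132 [(rh3d54e7f933686048.shift 1 3), rhc0017960468699ad, (rhc083815ec94cd2b2.shift 1 3)] (by decide +kernel))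
noncomputable def rhf00511e15baaf502 : CRef := CRef.mk (Pat.mk 0x1800000004000000000000000000000000 0x140000001c0000001e0000000f0000007f000000ff000000fe0000001e00000016 10 8) 0 0 (step_sound _ 99 [(rh574fdbf07bdd18b9.shift 0 3), rh575c5df68fa7c209, rh61b4c76eeca62199] (by decide +kernel))
noncomputable def rh283b5cbbbe210660 : CRef := CRef.mk (Pat.mk 0x3000000008000000000000000000000000 0x6000000064000000e6000000ff000000fe000000f80000007800000030 10 8) 0 0 (step_sound _ 100 [(rh0bb882ba86b2372d.shift 1 3), (rh4293a485d32ec6c9.shift 1 0), (rh574fdbf07bdd18b9.shift 1 3), (rhc56da5d249939437.shift 0 1)] (by decide +kernel))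
noncomputable def rh249cb2c417d5c1f4 : CRef := CRef.mk (Pat.mk 0x6000000010000000000000000000000000 0xc0000001f0000007fe000003fe000007f7000003f8000003f800000300 10 11) 0 0 (step_sound _ 135 [(rh2c0d840c709967a7.shift 4 3), (rh3d54e7f933686048.shift 4 3), (rh62eab07a744d2567.shift 2 0), (rh8862abf009d3b0b5.shift 0 1), (rhc083815ec94cd2b2.shift 4 3)] (by decide +kernel))
noncomputable def rha40da66d223c0ab1 : CRef := CRef.mk (Pat.mk 0x1800000004000000000000000000000000 0x140000001c0000001c0000003e0000003f000000ff0000001f000000ff000000fe0000003f0000001e 10 8) 0 0 (step_sound _ 99 [rh04ab92ef02b00aee, (rh20d62a788c6a0d36.shift 0 1), rh25d481c3f6bc5f9e, rh3a2ef2ea38309b88, rh61b4c76eeca62199, rhb3ae85ddbfb32e87, rhda95d51fc63672f8, rheb1707ec2aa4aedb] (by decide +kernel))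
noncomputable def rh094eec02042a24a1 : CRef := CRef.mk (Pat.mk 0x18000000040000000000000000000000000000000000000000 0x140000001c0000003e000000780000003f0000007e0000007c0000001c0000001c00000010 10 7) 0 0 (step_sound _ 163 [(rh574fdbf07bdd18b9.shift 0 5), (rh6ed2657a9c9e3d29.shift 1 1), rhdbcc33134ec8565b] (by decide +kernel))
noncomputable def rh5a85396a44ae9f90 : CRef := CRef.mk (Pat.mk 0x1800000004000000000000000000000000 0x40000002e0000006e0000007f000000ff0000007f0000001400000004 10 8) 0 0 (step_sound _ 99 [(rh0ce7f44f7372fbde.shift 1 1), rh13e27f7618ab5930, (rhd69c262cd33b94b3.shift 0 3)] (by decide +kernel))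
noncomputable def rhb0b938df4d680549 : CRef := CRef.mk (Pat.mk 0x3000000008000000000000000000000000 0x2000000060000000ec000000ff000000fe000000fe0000007800000078 10 8) 0 0 (step_sound _ 100 [(rh69012675dfdb1a5b.shift 1 3), (rhc56da5d249939437.shift 0 1), (rhd69c262cd33b94b3.shift 1 3), (rhf577913770b5ed91.shift 1 0)] (by decide +kernel))
noncomputable def rh19012e9b8fc8e5ce : CRef := CRef.mk (Pat.mk 0x6000000010000000000000000000000000 0xc0000001c0000007fe000003fe000007f7000003c0000003c000000340 10 11) 0 0 (step_sound _ 135 [rh130c57629873fa14, (rh2c0d840c709967a7.shift 4 3), (rh3d54e7f933686048.shift 4 3), (rh62eab07a744d2567.shift 2 0), (rhc083815ec94cd2b2.shift 4 3)] (by decide +kernel))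
noncomputable def rh86109395a0f54654 : CRef := CRef.mk (Pat.mk 0x60000000100000000000000000 0x780000007c000000ff0000007e000001fe000003fc000000f4 10 10) 0 0 (step_sound _ 100 [(rh0acc6ee8cc440665.shift 1 0), (rh5e29cc6fcab447e5.shift 1 0), (rhb847d96b6d213d21.shift 1 0), (rhc289a04649fe641d.shift 1 0), (rhc7c8a3590f9f5cfe.shift 1 0), rhe51bea92d4aca79c, (rhf1df18ac41f7da2f.shift 2 0), (rhfb52cb253c92a2b2.shift 1 0), (rhfbee3747be3dc75a.shift 1 0)] (by decide +kernel))
noncomputable def rh6eef86107d5f9c5c : CRef := CRef.mk (Pat.mk 0x18000000040000000000000000000000000000000000000000 0x140000001c0000003e000000780000003f0000007f0000003c0000001c0000001c00000010 10 7) 0 0 (step_sound _ 163 [(rh574fdbf07bdd18b9.shift 0 5), (rha4f6a3dba825e108.shift 0 4), (rhb9cf01acdf2fc6ee.shift 0 1), rhdbcc33134ec8565b] (by decide +kernel))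
noncomputable def rh39603762df59c414 : CRef := CRef.mk (Pat.mk 0x2000000010000000100000000000000000 0x3c0000003c0000007f000001fe000003ff000000f800000070 10 10) 0 0 (step_sound _ 101 [rh11b32c1756178b0c, (rh2d68d7f3788dcdcc.shift 1 0), (rhadf429772c25fde0.shift 4 0)] (by decide +kernel))
noncomputable def rha09da71584477734 : CRef := CRef.mk (Pat.mk 0x2000000010000000100000000000000000 0x2000000030000000ff000001fe000003ff000000f800000070 10 10) 0 0 (step_sound _ 101 [(rh2d68d7f3788dcdcc.shift 1 0), rh9a584323d06b6a21, (rhadf429772c25fde0.shift 4 0)] (by decide +kernel))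
noncomputable def rh248ce83b02afb230 : CRef := CRef.mk (Pat.mk 0x1000000008000000080000000000000000 0x2c0000003c000000fe000000ff000000ff0000007f0000002c00000008 10 8) 0 0 (step_sound _ 100 [(rhadf429772c25fde0.shift 3 0), (rhc19b58328d3605c4.shift 0 1), rhe3cba2f585fea1b8] (by decide +kernel))
noncomputable def rh99c6847b08e75a84 : CRef := CRef.mk (Pat.mk 0x100000000800000008000000000000000000000000 0xc0000003c0000003c000000f8000000fe000000ff000000fc0000007800000030 10 8) 0 0 (step_sound _ 132 [(rh4821dcf828b9d7bf.shift 3 1), (rh83932c48b768138a.shift 1 1), rh86bd559f976e6f2f] (by decide +kernel))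
noncomputable def rhc4c73cc752553a79 : CRef := CRef.mk (Pat.mk 0x200000001000000010000000000000000000000000 0x6000000068000003ff000003fe000003ff000003f0000000f0000000a0 10 10) 0 0 (step_sound _ 133 [(rh3ff9f4c587b4a715.shift 2 0), (rh4821dcf828b9d7bf.shift 4 1), (rhe97a991aa83ffb25.shift 0 1)] (by decide +kernel))
noncomputable def rh8cbc5316896ab192 : CRef := CRef.mk (Pat.mk 0x2000000010000000100000000000000000 0x78000000f8000003bf000001fc000003fc000000f800000070 10 10) 0 0 (step_sound _ 101 [(rh3cac105934a1f084.shift 2 1), (rh4821dcf828b9d7bf.shift 4 0), (rhadf429772c25fde0.shift 4 0), rhd9a0eba28babf372] (by decide +kernel))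
noncomputable def rh00d84e99960ecd9c : CRef := CRef.mk (Pat.mk 0x100000000800000008000000000000000000000000 0x3c0000003e000000ff0000003e00000078000000380000003800000010 10 8) 0 0 (step_sound _ 132 [(rh1a17743f6ed3d11f.shift 0 1), (rh33209fe4282a9641.shift 1 0), (rh4821dcf828b9d7bf.shift 3 1)] (by decide +kernel))
noncomputable def rha301ba294fde1853 : CRef := CRef.mk (Pat.mk 0x80000000400000004000000000000000000000000 0x3c0000007e000000ff0000007c0000007f0000003c0000001c00000008 10 8) 0 0 (step_sound _ 131 [(rh4821dcf828b9d7bf.shift 2 1), (rh57f10b74a2756142.shift 0 2), (rhadf429772c25fde0.shift 2 1), rhb1b20c76312597a2] (by decide +kernel))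
noncomputable def rhd1dbc56c6133e6b0 : CRef := CRef.mk (Pat.mk 0x2000000010000000100000000000000000 0x100000003c000001fc000001ff000000fe000001df000000f800000030 10 9) 0 0 (step_sound _ 101 [(rh4821dcf828b9d7bf.shift 4 0), (rhcf02ebc60f0d83ad.shift 1 0), (rheb390b0ad7dce599.shift 0 1)] (by decide +kernel))
noncomputable def rhf3427b421aca4930 : CRef := CRef.mk (Pat.mk 0x100000000800000008000000000000000000000000000000000000000000000000 0x2c0000002c0000006c0000007e0000007f0000001f0000007c000000180000001c0000001c0000001c00000010 10 7) 0 0 (step_sound _ 163 [(rh074a298cdc112935.shift 2 0), (rh2a495fc992a5ea9c.shift 2 3), (rh381c5c7bd6b0e1a3.shift 0 4), rh7eb0db43dbb868c0, (rh8dd9f845b93871d9.shift 2 2), (rhdfdec3abc73f8c21.shift 2 1)] (by decide +kernel))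
noncomputable def rh3a19dd5895c9999d : CRef := CRef.mk (Pat.mk 0x100000000800000008000000000000000000000000 0x280000007e000000ff000000fe000000ff000000ff000000f40000007000000030 10 8) 0 0 (step_sound _ 132 [(rh02dd11997b0d0cda.shift 1 0), (rh41ff19e81745e007.shift 0 2), (rh4b6ecf3f78a67164.shift 1 1), (rh5b14ed3c01610f19.shift 1 1), (rh5f306614964e4442.shift 1 1), (rh61cf7918bab2a9ef.shift 0 2), (rh7158ffdfdc973d0c.shift 1 1), (rh83932c48b768138a.shift 1 1), (rhf8ec608000f2b94e.shift 1 2)] (by decide +kernel))
noncomputable def rh1d72650524f39e10 : CRef := CRef.mk (Pat.mk 0x1000000008000000080000000000000000 0x380000003c000000f6000000ff000001ff000000ff0000006a 10 9) 0 0 (step_sound _ 100 [(rh2288baf270c8f823.shift 2 1), (rh58f0a89e90716c9c.shift 2 1), (rh83932c48b768138a.shift 1 0), rh8fc69c1ad3216f17, rh96103ef45fcd16a9] (by decide +kernel))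
noncomputable def rh167e09504ea23ec4 : CRef := CRef.mk (Pat.mk 0x1000000008000000080000000000000000 0x300000003c000000ff000000fe000000fc000000f800000058 10 8) 0 0 (step_sound _ 100 [rh1a17743f6ed3d11f, (rh4821dcf828b9d7bf.shift 3 0), (rh83932c48b768138a.shift 1 0)] (by decide +kernel))
noncomputable def rhb0cf1ffc13eaa59b : CRef := CRef.mk (Pat.mk 0x200000001800000000000000000000000000000000 0x100000001800000078000000f8000000ff000001fe000000fc000000780000003800000020 10 9) 0 0 (step_sound _ 164 [(rh50a6961a975ff163.shift 0 1), (rh69012675dfdb1a5b.shift 1 4), (rhf62c2f6e303e05a0.shift 1 0)] (by decide +kernel))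
noncomputable def rh6956bc7e15b156e0 : CRef := CRef.mk (Pat.mk 0x100000000c00000000000000000000000000000000 0x80000000c0000001e0000007f0000007e0000001f0000007c000000180000001800000010 10 7) 0 0 (step_sound _ 163 [(rh21d2f11a1e13fe0e.shift 0 2), rh612a40de5230b290, (rh69012675dfdb1a5b.shift 0 4)] (by decide +kernel))
noncomputable def rhf41ae8cdc829d5b4 : CRef := CRef.mk (Pat.mk 0x200000001800000000000000000000000000000000 0x70000000f7000000ff000001fe000000fc000000fe0000003c00000010 10 9) 0 0 (step_sound _ 164 [(rh50c7939d63bed0e2.shift 2 0), (rh663c2592e58e64b5.shift 0 1), (rh69012675dfdb1a5b.shift 1 4)] (by decide +kernel))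
noncomputable def rh99eab542e9ac57da : CRef := CRef.mk (Pat.mk 0x100000000c0000000000000000000000000000000000000000 0x40000001c0000001e0000007c0000001f0000007c0000007c0000001c0000001c00000010 10 7) 0 0 (step_sound _ 195 [(rh0bb882ba86b2372d.shift 0 5), (rh3108db256938218b.shift 0 1), (rh5e87aa8fbb489306.shift 1 0)] (by decide +kernel))
noncomputable def rh20c728b205667c71 : CRef := CRef.mk (Pat.mk 0x200000001800000000000000000000000000000000 0x8000000180000003c0000003e000000fe0000007e0000001f0000003a0000003800000020 10 8) 0 0 (step_sound _ 164 [(rh0bb882ba86b2372d.shift 1 4), (rh482fc84578fbdb52.shift 1 0), (rh5bb100e63136ba1c.shift 0 1)] (by decide +kernel))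
noncomputable def rhb8ce922a8dc55202 : CRef := CRef.mk (Pat.mk 0x2000000018000000000000000000000000 0x1c000000fe000000ff0000003e0000007c0000003c0000001c 10 8) 0 0 (step_sound _ 132 [(rh69012675dfdb1a5b.shift 1 3), (rh73efa41b81c90632.shift 0 1), rhed36d73cfd15ead1] (by decide +kernel))
noncomputable def rh87c4db39be687b60 : CRef := CRef.mk (Pat.mk 0x100000000c00000000000000000000000000000000 0x40000001c0000003e0000007f0000003f0000007b0000003e0000003c00000024 10 7) 0 0 (step_sound _ 163 [(rh0bb882ba86b2372d.shift 0 4), (rh4ee623ca914bdaf7.shift 1 0), (rh74b9253b4ff61667.shift 0 2)] (by decide +kernel))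
noncomputable def rhfbad74dfb2f36f95 : CRef := CRef.mk (Pat.mk 0x100000000c000000000000000000000000 0x40000000c0000001e0000001f0000007b0000003f0000007f0000007c0000003c 10 7) 0 0 (step_sound _ 131 [(rh574fdbf07bdd18b9.shift 0 3), rh6179f7330f48baee, rh6a37c74e8932ea8b, rhe4d6f29643856626] (by decide +kernel))
noncomputable def rh77a929568e39df27 : CRef := CRef.mk (Pat.mk 0x100000000c000000000000000000000000 0xc0000003c0000007e0000007f0000007f000000770000003600000006 10 7) 0 0 (step_sound _ 131 [(rh3c3f6c6b54bbf705.shift 1 0), (rh574fdbf07bdd18b9.shift 0 3), (rh74b9253b4ff61667.shift 0 1), (rhd69c262cd33b94b3.shift 0 3)] (by decide +kernel))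
noncomputable def rhfb86e792356162ef : CRef := CRef.mk (Pat.mk 0x2000000018000000000000000000000000 0x7c000000ff0000077f000003f8000001fe000001fc00000078 10 11) 0 0 (step_sound _ 101 [(rh158772c1247c7b24.shift 2 0), (rh7c0a03d38a8c4d6f.shift 2 0), rh98896c3a95c83007, (rh9a716f48383689e6.shift 2 0), (rhcd3639379cdb3671.shift 1 0), (rhe7f4dfafd38f3cab.shift 1 1), rhec6a18ad984294b9, (rhf45c5f39a5f99acd.shift 1 0)] (by decide +kernel))
noncomputable def rh0236b96633b5bda7 : CRef := CRef.mk (Pat.mk 0x100000000c000000000000000000000000 0x280000003c0000003e000000f70000007f000000ff0000002e0000002c 10 8) 0 0 (step_sound _ 100 [(rh10d342d0ef647a06.shift 1 0), rha18e06d834bc03e1, rhe3afa6c0f229bb1f, rhfefd7be2d273f2ab] (by decide +kernel))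
noncomputable def rhbfe69a75fe54f03c : CRef := CRef.mk (Pat.mk 0x2000000018000000000000000000000000 0x8000000180000003c000000ff000000ff000000de000000fc0000007c0000001c 10 8) 0 0 (step_sound _ 132 [(rh404e9396968984ee.shift 0 1), (rh6a37c74e8932ea8b.shift 1 0), (rh771960e736ba8bc2.shift 2 2), rhbb78ef61a51e7a9a, (rhcde230e1fccc7ea0.shift 2 1), (rhd69c262cd33b94b3.shift 1 3)] (by decide +kernel))
noncomputable def rh4ee6de366450e2d6 : CRef := CRef.mk (Pat.mk 0x3000000008000000000000000000000000 0x70000000f00000007f000000ff0000003e000000fc000000fe0000007c 10 8) 0 0 (step_sound _ 100 [(rh69012675dfdb1a5b.shift 1 3), (rh739f307aec50baad.shift 2 0), rhf9a76ed25c306ad0] (by decide +kernel))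
noncomputable def rh16dc0d1b5b76d6fd : CRef := CRef.mk (Pat.mk 0x3000000008000000000000000000000000 0x700000007000000078000000f8000001fe000001ff0000007e0000003c 10 9) 0 0 (step_sound _ 100 [(rh0bb882ba86b2372d.shift 1 3), rh139a240a69da71bf, (rhdb35ae76ee936625.shift 3 0)] (by decide +kernel))
noncomputable def rhdb1f92de024be74a : CRef := CRef.mk (Pat.mk 0x300000000800000000000000000000000000000000 0x2000000030000003f0000001fc000003df000000f8000000780000002000000020 10 10) 0 0 (step_sound _ 130 [(rh132831254c4ea57a.shift 1 0), (rh7401e8cf466f4e5b.shift 0 4), (rhbd2e91c3fdbfa961.shift 0 4), (rhedb5257a62f09c47.shift 2 4)] (by decide +kernel))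
noncomputable def rh10a86426336b6da6 : CRef := CRef.mk (Pat.mk 0x30000000080000000000000000000000000000000000000000 0x360000007e0000003f000001fe000000fe000000fe0000007c0000003800000020 10 9) 0 0 (step_sound _ 164 [(rh044df0a085c0cbf5.shift 1 2), (rh3a2ef2ea38309b88.shift 1 2), (rh3f3e6cf71521ffcb.shift 1 2), (rh425cbe385bbb6945.shift 0 2), (rh4389c92b5e23d60a.shift 1 2), (rh56f82a26ec4ec0f9.shift 1 0), (rh82f7a27d60ba575e.shift 1 2), (rh90bcc6760930a3fb.shift 1 2), (rhe1f12418ec975599.shift 1 2)] (by decide +kernel))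
noncomputable def rh1aca5e33e4877c4d : CRef := CRef.mk (Pat.mk 0x18000000040000000000000000000000000000000000000000 0x38000000380000003a0000007b000000ff000000ff0000007e0000001c0000001c00000010 10 8) 0 0 (step_sound _ 163 [(rh574fdbf07bdd18b9.shift 0 5), (rh60b537a2757411a9.shift 0 1), rh68581a4ba90c0158, (rha4f6a3dba825e108.shift 0 4), (rhf6e9fd2b7a10d538.shift 2 2)] (by decide +kernel))
noncomputable def rh7c6ef35d989c366f : CRef := CRef.mk (Pat.mk 0x100000000c00000000000000000000000000000000 0x10000000180000001c0000001c0000001c0000007c000000ff0000007e0000007c0000001c00000018 10 8) 0 0 (step_sound _ 163 [rh41fef66642ea14e3, (rh69012675dfdb1a5b.shift 0 4), (rhf7fbe5f60dbd4c9f.shift 1 0)] (by decide +kernel))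
noncomputable def rh6e8f09236424fd12 : CRef := CRef.mk (Pat.mk 0x100000000c00000000000000000000000000000000 0x140000001c0000001f0000001f0000007f0000007f0000007c000000380000001800000010 10 7) 0 0 (step_sound _ 163 [(rh08dc24c4b35e4d46.shift 1 2), rh5022ca473b9992e7, (rh69012675dfdb1a5b.shift 0 4)] (by decide +kernel))
noncomputable def rh62524bdd3b448be1 : CRef := CRef.mk (Pat.mk 0x2000000018000000000000000000000000 0x80000003c0000003f000000ff000000fe0000001c0000001c0000000c 10 8) 0 0 (step_sound _ 132 [(rh69012675dfdb1a5b.shift 1 3), (rh7333dd4d9075bcb0.shift 0 1), rhd1700d60b83f1b99] (by decide +kernel))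
noncomputable def rh77c01ae9fee20b47 : CRef := CRef.mk (Pat.mk 0x100000000c00000000000000000000000000000000 0x140000001c0000001e0000007c0000007f0000007e0000003e0000001c00000014 10 7) 0 0 (step_sound _ 163 [(rh0bb882ba86b2372d.shift 0 4), (rh80ed7f3a3f237e17.shift 1 1), rhf91f2f16f34163ef] (by decide +kernel))
noncomputable def rh9581c87ca68ea93c : CRef := CRef.mk (Pat.mk 0x100000000c00000000000000000000000000000000 0x100000001c0000001e0000001f0000007f000001ff0000006e0000003e0000001e00000010 10 9) 0 0 (step_sound _ 163 [(rh0bb882ba86b2372d.shift 0 4), (rh369ae6cc96774fc6.shift 0 1), rh891c3b366c413e18] (by decide +kernel))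
noncomputable def rh6639798fd720d71b : CRef := CRef.mk (Pat.mk 0x400000003000000000000000000000000000000000 0x4000000048000003ef000001fe000003ff000001f0000000f000000080 10 10) 0 0 (step_sound _ 134 [(rh7c64b6753fd558ed.shift 3 1), (rh963aad31717d5c2d.shift 2 0), (rhf7943763ae823400.shift 0 3)] (by decide +kernel))
noncomputable def rh5d9052973b898388 : CRef := CRef.mk (Pat.mk 0x20000000180000000000000000 0x280000003c0000003f0000003e000000ff000000fe0000006e0000002c 10 8) 0 0 (step_sound _ 100 [(rh0bb882ba86b2372d.shift 1 2), (rh69012675dfdb1a5b.shift 1 2), (rh74b9253b4ff61667.shift 1 0), rhcb176710685c5437] (by decide +kernel))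
noncomputable def rhf3db4a9ff2bf2eb0 : CRef := CRef.mk (Pat.mk 0x200000001800000000000000000000000000000000 0x380000003c0000007f0000003e000000ff000000f8000000fe000000fc0000003800000008 10 8) 0 0 (step_sound _ 164 [(rh0132e5e81934abdf.shift 2 2), (rh2fc23ee65143153a.shift 2 0), (rh32c7f8963e9d2692.shift 1 1), (rh34e444097eceaedf.shift 1 1), (rh53f3bbb290f7f099.shift 2 2), (rha3c7ab18665de4e2.shift 2 2), (rhcb176710685c5437.shift 0 2)] (by decide +kernel))
noncomputable def rh2094abfa3352029f : CRef := CRef.mk (Pat.mk 0x100000000c0000000000000000000000000000000000000000 0x140000001c0000001e0000007e0000000f0000007f0000003e0000001c0000001c00000010 10 7) 0 0 (step_sound _ 195 [rh108a675ac54b0aed, (rh3276940dc190283a.shift 0 2), (rhd69c262cd33b94b3.shift 0 5)] (by decide +kernel))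
noncomputable def rhb4dfd5dac0ede346 : CRef := CRef.mk (Pat.mk 0x2000000010000000100000000000000000 0x5000000070000001f0000001ff000001fe000003ff0000007c00000078 10 10) 0 0 (step_sound _ 101 [rh705f3ca51888f572, (rha8681ca78d8c7e12.shift 1 0), (rhcf80391c5046a495.shift 4 0)] (by decide +kernel))
noncomputable def rhada025f009a67e7e : CRef := CRef.mk (Pat.mk 0x100000000800000008000000000000000000000000 0x3800000078000000fe000000fe000000ff0000005e0000001c00000010 10 8) 0 0 (step_sound _ 132 [(rh4821dcf828b9d7bf.shift 3 1), rh6b712f966b69b7d6, (rh9450e3f811d28a0f.shift 0 2), (rhcf80391c5046a495.shift 3 1)] (by decide +kernel))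
noncomputable def rh1700545361c933d0 : CRef := CRef.mk (Pat.mk 0x100000000800000008000000000000000000000000 0x800000038000000f8000000ff0000003e000000ff000000fe0000003c00000010 10 8) 0 0 (step_sound _ 132 [(rh08258d6dde100e9d.shift 0 1), (rh4821dcf828b9d7bf.shift 3 1), (rha78f7cbd21e58116.shift 1 0), (rhadf429772c25fde0.shift 3 1)] (by decide +kernel))
noncomputable def rh4eac46a42f4e8d3f : CRef := CRef.mk (Pat.mk 0x1000000008000000080000000000000000 0x380000007a0000007f0000007f0000001f0000007c0000007c 10 7) 0 0 (step_sound _ 100 [rh1d08f2e0a94b2509, rhcf78433b5831b46f, (rhcf80391c5046a495.shift 3 0), (rhf9366b6a121593ef.shift 3 0)] (by decide +kernel))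
noncomputable def rh288a1d65be1385da : CRef := CRef.mk (Pat.mk 0x1000000008000000080000000000000000 0x800000038000000f8000000ff000000df000000ff0000007c0000003c 10 8) 0 0 (step_sound _ 100 [rh47802fbab31d058e, (rhcf80391c5046a495.shift 3 0), (rhdad5f4970fe04144.shift 1 0), (rhf9366b6a121593ef.shift 3 0)] (by decide +kernel))
noncomputable def rhe59ebb2e434aa0a4 : CRef := CRef.mk (Pat.mk 0x200000001000000010000000000000000000000000 0x4000000060000001e4000001ff000001ff000001fe000000de000000d800000008 10 9) 0 0 (step_sound _ 133 [(rh2c2e6bd7e0d73899.shift 2 1), (rhadf429772c25fde0.shift 4 1), rhc7633bf1bd3e65c2] (by decide +kernel))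
noncomputable def rh12a634445f3a95dd : CRef := CRef.mk (Pat.mk 0x800000004000000040000000000000000 0x10000000180000007c0000007f000000ff0000007c0000007f0000003e 10 8) 0 0 (step_sound _ 99 [rh1c16822fea7405c9, (rh35e676b1c4457487.shift 0 1), (rh4821dcf828b9d7bf.shift 2 0)] (by decide +kernel))
noncomputable def rh87095a3f5fd8823f : CRef := CRef.mk (Pat.mk 0x1000000008000000080000000000000000 0x78000000f8000001de000000f8000000ff0000007e0000003c 10 9) 0 0 (step_sound _ 100 [rh05eeec0f68bded0f, (rh4821dcf828b9d7bf.shift 3 0), (rh57f10b74a2756142.shift 1 1), (rhadf429772c25fde0.shift 3 0)] (by decide +kernel))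
noncomputable def rh4a7587ed94e4daec : CRef := CRef.mk (Pat.mk 0x2000000010000000100000000000000000 0x4000000060000001e0000003ff000001fe000003df000000f0000000f0 10 10) 0 0 (step_sound _ 101 [(rh3cda7478c8a71fca.shift 2 0), rh3fcad77d588a5e0a, (rh4821dcf828b9d7bf.shift 4 0)] (by decide +kernel))
noncomputable def rh019a9b65a7413b96 : CRef := CRef.mk (Pat.mk 0x200000001000000010000000000000000000000000 0x5000000050000001d4000003ff000003ff000003fe000001fc000000f800000020 10 10) 0 0 (step_sound _ 133 [(rh05eeec0f68bded0f.shift 1 1), (rh1c16822fea7405c9.shift 2 1), (rh2beab275dba7a3a7.shift 0 1), (rh47802fbab31d058e.shift 1 1), (rh6b712f966b69b7d6.shift 1 0), (rh910dd9f8158ec077.shift 0 1), (rh9b601d900438a22a.shift 1 1), (rhbd9a11feb9350bea.shift 0 1)] (by decide +kernel))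
noncomputable def rhb620498d100bf467 : CRef := CRef.mk (Pat.mk 0x2000000010000000100000000000000000 0x1000000070000001f0000003ff000001ff000001fe000001e8000000e0 10 10) 0 0 (step_sound _ 101 [(rh4b6ecf3f78a67164.shift 2 0), (rh61cf7918bab2a9ef.shift 1 1), (rh627e62a4bcbdfd7e.shift 1 1), (rh7158ffdfdc973d0c.shift 2 0), (rh83932c48b768138a.shift 2 0), rhba6d7aed36d2eb6a, (rhdad5f4970fe04144.shift 2 0), (rhdfd8a8b31c23f27a.shift 2 0), (rhf78eae9abedcbf63.shift 0 1)] (by decide +kernel))
noncomputable def rh1450bfe2b7a64336 : CRef := CRef.mk (Pat.mk 0x100000000800000008000000000000000000000000 0x3000000070000000f2000000ff000001ff0000007f0000007e00000034 10 9) 0 0 (step_sound _ 132 [(rh58c9a575776a0d32.shift 2 2), rh5f8da3f57d2ec10f, (rhc55df865ae108891.shift 0 1), (rhcf80391c5046a495.shift 3 1), (rhd279b23fac28b3cf.shift 1 0)] (by decide +kernel))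
noncomputable def rh352aa131a5837587 : CRef := CRef.mk (Pat.mk 0x1000000008000000080000000000000000000000000000000000000000 0x40000001c0000001c000000380000007c0000006f0000007f0000007e0000001c0000001c0000001800000010 10 7) 0 0 (step_sound _ 227 [(rh06d4c33fb959083a.shift 0 2), (rh1524cac4e0a2099a.shift 2 0), (rh215e11e099257d75.shift 3 4), rh9a3c460c6189f3f0, (rhe1a3e820b9828b5e.shift 2 3)] (by decide +kernel))
noncomputable def rhb0a1cc1d6002f2b1 : CRef := CRef.mk (Pat.mk 0x2000000010000000100000000000000000 0x2000000030000000ff000001fe000003ff000000fc00000078 10 10) 0 0 (step_sound _ 101 [(rh05eeec0f68bded0f.shift 1 0), rh9a584323d06b6a21, (rhadf429772c25fde0.shift 4 0)] (by decide +kernel))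
noncomputable def rh6da9b85a32987bb8 : CRef := CRef.mk (Pat.mk 0x3000000010000000000000000000000000 0x380000007c000000ff000000ff000000fe0000003c0000003c0000001c 10 8) 0 0 (step_sound _ 99 [rh58f9d4b9b7212879, (rh69012675dfdb1a5b.shift 1 3), (rh6fe3c2b02582bfe7.shift 1 1)] (by decide +kernel))
noncomputable def rh524e58dc65368664 : CRef := CRef.mk (Pat.mk 0x3000000010000000000000000000000000 0x2000000070000000f7000000ff000001fe000000fc0000007e0000001c 10 9) 0 0 (step_sound _ 99 [rh2a460a0ca1253d91, (rh3c91540462213342.shift 2 0), (rh69012675dfdb1a5b.shift 1 3)] (by decide +kernel))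
noncomputable def rh73647db81e6b1a39 : CRef := CRef.mk (Pat.mk 0x3000000010000000000000000000000000 0xc0000001c000000fe000000ff000000fe0000007c0000003c0000001c 10 8) 0 0 (step_sound _ 99 [(rh26037941c531bb59.shift 1 0), (rh69012675dfdb1a5b.shift 1 3), rhed36d73cfd15ead1] (by decide +kernel))
noncomputable def rhcd42fd56ab7ea6b5 : CRef := CRef.mk (Pat.mk 0xc000000040000000000000000 0x60000000e0000007f0000007f0000003f0000003c0000001c0000000c 10 7) 0 0 (step_sound _ 131 [(rhadf429772c25fde0.shift 2 0), rhe05013472713b83b, (rhfc41e0339472a503.shift 0 1)] (by decide +kernel))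
noncomputable def rh53fc44a772cea51e : CRef := CRef.mk (Pat.mk 0x60000000200000000000000000 0xf8000000f8000003fe0000007e000001ff000000f800000070 10 10) 0 0 (step_sound _ 134 [(rh72763884f5ad8add.shift 3 1), (rhcf80391c5046a495.shift 5 0), rhddc4e8b5f2394269] (by decide +kernel))
noncomputable def rh53819458fc64e55b : CRef := CRef.mk (Pat.mk 0x18000000080000000000000000000000000000000000000000 0x3000000034000000760000007f0000007f0000003f0000003c0000003c0000001c00000010 10 7) 0 0 (step_sound _ 162 [(rh2201ba24ee7e797b.shift 1 3), (rh5f656810af449a70.shift 1 4), (rh69012675dfdb1a5b.shift 0 5), rh767c03dfc515d8e2, (rh899c8d859be94e93.shift 0 2)] (by decide +kernel))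
noncomputable def rh823d586cb8e91fd0 : CRef := CRef.mk (Pat.mk 0x1800000008000000000000000000000000 0xc0000003c0000007e0000007f0000007f000000770000003600000006 10 7) 0 0 (step_sound _ 98 [(rh0bb882ba86b2372d.shift 0 3), (rh3c3f6c6b54bbf705.shift 1 0), (rh69012675dfdb1a5b.shift 0 3), (rh74b9253b4ff61667.shift 0 1)] (by decide +kernel))
noncomputable def rh59c7fcc52eaa625d : CRef := CRef.mk (Pat.mk 0x30000000100000000000000000 0x1800000038000001fc000001fe000000fe000000f70000007e0000003c 10 9) 0 0 (step_sound _ 133 [(rh31b4923b3cc7160f.shift 2 1), rh66bbef6aeb639d96, (rhcf80391c5046a495.shift 4 0)] (by decide +kernel))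
noncomputable def rh34b963054f3c0c79 : CRef := CRef.mk (Pat.mk 0x2000000018000000000000000000000000 0x1000000070000000f00000007c000000f80000003e000000ff000000fc0000007c 10 8) 0 0 (step_sound _ 132 [(rh0e65b1300c2f244c.shift 2 0), rh2298bdb31dd4871e, (rh69012675dfdb1a5b.shift 1 3)] (by decide +kernel))
noncomputable def rhad69571b50d88fea : CRef := CRef.mk (Pat.mk 0x2000000018000000000000000000000000 0x100000007c0000007e000001fe00000038000001fe000001ff0000007e0000007c 10 9) 0 0 (step_sound _ 132 [(rh28b0b67e213cb9c1.shift 1 1), (rh2902f46f6fd42014.shift 1 0), (rh2dbc2a647b235d13.shift 1 0), (rh5a15f08d37467e63.shift 1 0), (rh9fe66570ee9b95e9.shift 1 0), rhca1e797a3fb6453f, (rhe2ed219894ca6f7e.shift 1 0)] (by decide +kernel))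
noncomputable def rh3693243ce94dca53 : CRef := CRef.mk (Pat.mk 0x100000000c000000000000000000000000 0x80000003e0000007f0000007e0000007c000000fc000000ff0000007e0000003e 10 8) 0 0 (step_sound _ 131 [(rh0bba6bcf1fca380f.shift 1 1), (rh0e65b1300c2f244c.shift 1 0), (rh3c3f6c6b54bbf705.shift 1 0), rh6699bc196fc17125, (rh84cfb6d74de0a6d7.shift 2 1), (rh947b7a19a918506b.shift 1 1), (rha5bbc4a458378444.shift 1 0), (rhe1aa7df02b3326d3.shift 0 1)] (by decide +kernel))
noncomputable def rhafe981b90da9a80c : CRef := CRef.mk (Pat.mk 0x200000001800000000000000000000000000000000 0x3c0000003e000000fe000000f8000000de000000ff0000007c0000003c00000028 10 8) 0 0 (step_sound _ 164 [(rh0bb882ba86b2372d.shift 1 4), (rh77e94ccb69d4bd71.shift 2 1), (rh8d825bfe099e5049.shift 1 2), (rhbab326c304fc6de7.shift 1 0), (rhc478f08633670bba.shift 0 1)] (by decide +kernel))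
noncomputable def rhddd27a8f05bfbd9d : CRef := CRef.mk (Pat.mk 0x100000000c0000000000000000000000000000000000000000 0x280000003800000038000000f00000007f000000fe00000078000000380000003800000008 10 8) 0 0 (step_sound _ 164 [(rh1dc2a3f6582278a1.shift 1 0), (rh82608743e00fd9da.shift 1 2), (rha11dfd15f08f96e3.shift 1 5), (rhfefd7be2d273f2ab.shift 0 2)] (by decide +kernel))
noncomputable def rh03f73dae7be6c898 : CRef := CRef.mk (Pat.mk 0x400000003000000000000000000000000000000000 0x400000007000000078000003e7000000fe000001ff000000f00000007000000050 10 10) 0 0 (step_sound _ 167 [(rh77c8951ca4df4d8d.shift 2 0), (rha61ca71592d97c28.shift 0 3), (rhaff4d66ab2235e4f.shift 4 4), (rhfe7c844806756e31.shift 3 4)] (by decide +kernel))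
noncomputable def rh066c47304144b52c : CRef := CRef.mk (Pat.mk 0x2000000018000000000000000000000000 0x1800000018000000fc000000ff0000007e0000006e0000002c0000000c 10 8) 0 0 (step_sound _ 132 [rh6368702b47ada9ee, (rh69012675dfdb1a5b.shift 1 3), (rh74b9253b4ff61667.shift 1 1), (rhd69c262cd33b94b3.shift 1 3)] (by decide +kernel))
noncomputable def rhb2184fdec9e2b5db : CRef := CRef.mk (Pat.mk 0x200000001800000000000000000000000000000000 0x10000000780000007c000001fe000000ff00000078000000fe000000fc0000003c00000010 10 9) 0 0 (step_sound _ 164 [(rh00325461b4df4f85.shift 2 2), (rh24119eef38e47293.shift 0 2), (rh6368702b47ada9ee.shift 0 1), (rh73efa41b81c90632.shift 0 2), (rh7dd709e1d5785cae.shift 2 2), (rh8686be3fe1c95f06.shift 1 0), (rhe2393fbc6756f54d.shift 2 1)] (by decide +kernel))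
noncomputable def rh2ef0de874514190b : CRef := CRef.mk (Pat.mk 0x2000000018000000000000000000000000 0x8000000380000003c0000007c0000007f0000007f0000001e0000007f0000003e0000003c 10 7) 0 0 (step_sound _ 132 [(rh10f4c6e5f653deb0.shift 1 0), (rh2cfba121c1b4a614.shift 1 0), (rh63be94165c232f51.shift 1 0), rh722ac5caf6caa4bf, rh8975d56ae5d1c76c, (rh932e9b05ab4fa4dd.shift 0 1), (rhaec90e9284681e15.shift 1 0), (rhb3e1735086e04cb5.shift 1 0), rhb70953b0f00faf03] (by decide +kernel))
noncomputable def rh3ea3c195c97682ae : CRef := CRef.mk (Pat.mk 0x100000000c0000000000000000000000000000000000000000 0x280000003c0000003c000000f70000003e000000ff000000fa000000780000003800000008 10 8) 0 0 (step_sound _ 164 [(rh36cedada99df566b.shift 1 0), (rh808bb91e7c639890.shift 1 2), (rhe3b9ae591612b554.shift 0 3)] (by decide +kernel))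
noncomputable def rha2bb3aab265b8d4d : CRef := CRef.mk (Pat.mk 0x2000000018000000000000000000000000 0x780000007c000000fe000000fe000000fc0000007f0000007800000078 10 8) 0 0 (step_sound _ 132 [(rh47a4ae9c0118d66c.shift 2 0), rh5662f812ce0c9894, (rh5f656810af449a70.shift 2 2), (rh6fe3c2b02582bfe7.shift 1 1), (rhcde230e1fccc7ea0.shift 2 1)] (by decide +kernel))
noncomputable def rh209cccf83bf6dd6d : CRef := CRef.mk (Pat.mk 0x100000000c000000000000000000000000 0x3e0000003e000000ff000001ff000000fe000001df0000001e00000008 10 9) 0 0 (step_sound _ 100 [rh038c601bbba478b7, rh35c1bdaaf7f6fb0c, (rha11dfd15f08f96e3.shift 1 3), (rhe3b9ae591612b554.shift 0 1), (rhff7d63dcb3cf9f74.shift 1 3)] (by decide +kernel))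
noncomputable def rh55e2ca027579778b : CRef := CRef.mk (Pat.mk 0x100000000c00000000000000000000000000000000 0x2800000038000000380000003c000001fc000000fe000000ff0000007c0000003c00000028 10 9) 0 0 (step_sound _ 132 [(rha11dfd15f08f96e3.shift 1 4), (rhae6b5130feb38469.shift 0 1), (rhd9b74441103bd9ee.shift 2 0)] (by decide +kernel))
noncomputable def rhf0bd9c3a3147a2ec : CRef := CRef.mk (Pat.mk 0x2000000018000000000000000000000000 0x280000007c000000fc000000fe000000ff000001f8000001dc0000005800000018 10 9) 0 0 (step_sound _ 132 [(rh06a567c8e2b18ca3.shift 2 1), (rh1acdca87f221cf81.shift 1 1), (rh1b4c6c2d51fe2e5a.shift 2 1), (rh2e6eda61146e56a5.shift 2 1), (rh485d0cce34885595.shift 1 1), (rh73efa41b81c90632.shift 0 1), (rhb18828e31164da4c.shift 0 1), (rhd08a8edd8327805d.shift 1 0), (rhe4b7f787db651739.shift 1 0)] (by decide +kernel))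
noncomputable def rh075f9160a737ef34 : CRef := CRef.mk (Pat.mk 0x100000000c0000000000000000000000000000000000000000 0x280000003c0000007e000000ff0000001e000000ff0000003e0000003c0000003800000008 10 8) 0 0 (step_sound _ 164 [(rh15111a6992a186af.shift 0 2), (rh36cedada99df566b.shift 1 0), (rhff7d63dcb3cf9f74.shift 1 5)] (by decide +kernel))
noncomputable def rhdc9b9870cc65e2c8 : CRef := CRef.mk (Pat.mk 0x2000000018000000000000000000000000 0xc0000000d0000000dc000001ff000001fc000001fe000000fc00000078 10 9) 0 0 (step_sound _ 101 [rh9a6c9554f9ac4066, (rhe4b12231d540203e.shift 2 0), (rhff7d63dcb3cf9f74.shift 2 3)] (by decide +kernel))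
noncomputable def rh77a2b50e9da9169f : CRef := CRef.mk (Pat.mk 0x2000000018000000000000000000000000 0x380000007c0000007c000001fe000000ff000001f8000001fc000000f800000018 10 9) 0 0 (step_sound _ 132 [(rh0bba6bcf1fca380f.shift 2 1), (rh24a265fe8cfd7f33.shift 0 1), (rh32b2a51d55f2c8c4.shift 1 1), (rh555ab2cfaca50511.shift 1 1), (rh5c8600fc01e3c45d.shift 2 1), (rh6a459a582bf18ec5.shift 1 1), (rh73efa41b81c90632.shift 0 1), (rh825d552c7a2d9d92.shift 0 1), (rha17362b3ad097165.shift 2 1), (rha929c2efcd3bc723.shift 2 0)] (by decide +kernel))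
noncomputable def rh9f6914e32646c225 : CRef := CRef.mk (Pat.mk 0x400000003000000000000000000000000000000000 0x2800000038000000780000007f000000ff0000007f000000f8000001fe000000fe0000007800000038 10 9) 0 0 (step_sound _ 164 [(rh0287e6498e7e6626.shift 1 2), (rh3bb735faa4d1f267.shift 1 2), (rh41eb44bb2c05cc5a.shift 1 0), (rh91805fc48818d9c9.shift 1 1), rha1f63b82e12aa38e, (rhabb0050a5d65d384.shift 1 1), (rhc19f1cc78f9f87fc.shift 0 1), (rhc4882b7c40c0503f.shift 1 1), (rhfc80aed047e5cf40.shift 1 1)] (by decide +kernel))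
noncomputable def rh1a86ec068d0e0959 : CRef := CRef.mk (Pat.mk 0x20000000180000000000000000000000000000000000000000 0x280000003c000000fe000000fe000000dc000000ff0000003c0000003c0000003800000020 10 8) 0 0 (step_sound _ 196 [(rh482f3562927c7ab4.shift 2 0), (rh5f656810af449a70.shift 2 4), (rh7dd2c304d6b2c433.shift 0 1), (rhcde230e1fccc7ea0.shift 2 3)] (by decide +kernel))
noncomputable def rh76967afd65ee87f4 : CRef := CRef.mk (Pat.mk 0x100000000c000000000000000000000000 0x1e0000001f000000fe0000007e000000fe0000002c00000028 10 8) 0 0 (step_sound _ 100 [(rh16b38e15ac3db8ca.shift 1 0), rhf45c5f39a5f99acd, (rhff7d63dcb3cf9f74.shift 1 3)] (by decide +kernel))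
noncomputable def rhdc1e546b99baf9b3 : CRef := CRef.mk (Pat.mk 0x1800000008000000000000000000000000 0x2800000038000000fa000000ff000003ff000000ff0000005e0000001c00000010 10 10) 0 0 (step_sound _ 164 [rh4e30bdeb5dfcd5f1, (rhcf80391c5046a495.shift 3 1), (rhe54b4690c021850f.shift 0 1), (rhf9366b6a121593ef.shift 3 1)] (by decide +kernel))
noncomputable def rha444a55834af6fcc : CRef := CRef.mk (Pat.mk 0x3000000010000000000000000000000000 0x7000000078000001f8000000ff000001fe0000003e0000003c00000038 10 9) 0 0 (step_sound _ 99 [(rh0bb882ba86b2372d.shift 1 3), rh185c60bbda1510be, (rh574fdbf07bdd18b9.shift 1 3), (rhe97814fc970299dd.shift 2 0)] (by decide +kernel))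
noncomputable def rh1842a74816825b64 : CRef := CRef.mk (Pat.mk 0xc000000040000000000000000 0x100000001a0000007b0000007f000001ff0000006f0000002c00000004 10 9) 0 0 (step_sound _ 131 [rh0d8834b30f688643, (rh2d287d6d7452e0e8.shift 0 1), (rhadf429772c25fde0.shift 2 0)] (by decide +kernel))
noncomputable def rh47b4602d2dd4ba61 : CRef := CRef.mk (Pat.mk 0x180000000800000000000000000000000000000000 0x80000003c0000007f000000ff0000007c0000001f0000001c0000001c0000001c00000004 10 8) 0 0 (step_sound _ 130 [(rh6bb6162cd7824647.shift 1 1), rh7c21e8d8b31797f2, (rhd69c262cd33b94b3.shift 0 4)] (by decide +kernel))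
noncomputable def rhc399a66f07b52f8b : CRef := CRef.mk (Pat.mk 0x3000000010000000000000000000000000 0x20000000380000007e000000f7000000ff000000fe0000003e0000002800000008 10 8) 0 0 (step_sound _ 99 [(rh489c15078f1a56c7.shift 1 0), (rh69012675dfdb1a5b.shift 1 3), (rhbb50286ec7eba02a.shift 0 1), (rhd69c262cd33b94b3.shift 1 3)] (by decide +kernel))
noncomputable def rh6c103899c4ccb415 : CRef := CRef.mk (Pat.mk 0x1800000008000000000000000000000000 0x40000000c0000000e0000001f0000007f0000003f0000001f0000001e00000014 10 7) 0 0 (step_sound _ 98 [rh0685464962ad3e5e, rh6edfa1824ed09c36, (rhd69c262cd33b94b3.shift 0 3)] (by decide +kernel))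
noncomputable def rh86082e69aedd330b : CRef := CRef.mk (Pat.mk 0x1800000008000000000000000000000000 0x1c0000001e000000770000007f000000ff0000000f0000000e00000004 10 8) 0 0 (step_sound _ 98 [rh0703ee99cd677f79, (rh4c60e0513b62bbeb.shift 0 1), (rh574fdbf07bdd18b9.shift 0 3), (rhd69c262cd33b94b3.shift 0 3)] (by decide +kernel))
noncomputable def rh0ee61f6deec22f2f : CRef := CRef.mk (Pat.mk 0x1800000008000000000000000000000000 0xc0000003c0000003c000000fe000000fb000000ff0000001f0000001c00000010 10 8) 0 0 (step_sound _ 164 [rh201fbe8c1324ae85, (rh4821dcf828b9d7bf.shift 3 1), (rhcf80391c5046a495.shift 3 1), (rhd02616632219be49.shift 1 1)] (by decide +kernel))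
noncomputable def rh494acc6991e50b52 : CRef := CRef.mk (Pat.mk 0x3000000010000000000000000000000000 0x78000000fc000001fe0000003e000000f70000003e0000003c00000020 10 9) 0 0 (step_sound _ 165 [(rh66bbef6aeb639d96.shift 0 1), (rhcf80391c5046a495.shift 4 1), (rhe7e02ace54576beb.shift 2 0), (rhf9366b6a121593ef.shift 4 1)] (by decide +kernel))
noncomputable def rhf331c6323cba17ef : CRef := CRef.mk (Pat.mk 0x3000000010000000000000000000000000 0x800000038000000380000007e0000007e000000ff0000001e0000003f0000003e0000003c 10 8) 0 0 (step_sound _ 99 [(rh0bb882ba86b2372d.shift 1 3), (rh495a7a5657d7e91b.shift 1 0), rhffe7a01ca39d5eee] (by decide +kernel))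
noncomputable def rhe4626f32ba296d15 : CRef := CRef.mk (Pat.mk 0x180000000800000000000000000000000000000000 0x100000001c0000003e0000007f0000007f0000007f0000001c0000001c0000001c00000010 10 7) 0 0 (step_sound _ 130 [(rh0bb882ba86b2372d.shift 0 4), (rh6fe3c2b02582bfe7.shift 0 2), rh891c3b366c413e18] (by decide +kernel))
noncomputable def rh8e4a1bebe8bcd00b : CRef := CRef.mk (Pat.mk 0x18000000080000000000000000 0x2000000030000000f0000001ff000003fe000003ff0000007800000038 10 10) 0 0 (step_sound _ 132 [rh77a92409ff311d11, (rhadf429772c25fde0.shift 3 0), (rhfeb0b78537e63f7e.shift 1 0)] (by decide +kernel))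
noncomputable def rh5b23d2bad8b29d07 : CRef := CRef.mk (Pat.mk 0x18000000080000000000000000 0xc0000005c000000fe000000ff000001fe0000003c0000003800000018 10 9) 0 0 (step_sound _ 132 [(rh829a4892477c1c80.shift 0 1), (rhadf429772c25fde0.shift 3 0), (rhe05013472713b83b.shift 1 0)] (by decide +kernel))
noncomputable def rhed8205500d23739b : CRef := CRef.mk (Pat.mk 0x18000000080000000000000000 0x3c0000007e000007ff000003fe000007df0000005800000008 10 11) 0 0 (step_sound _ 132 [(rh463e144b87e8207a.shift 1 1), rhbd905be6a34ff4d2, (rhf9366b6a121593ef.shift 3 0)] (by decide +kernel))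
noncomputable def rha116c537a0448468 : CRef := CRef.mk (Pat.mk 0x18000000080000000000000000 0xc0000007c000000fc000000f8000000ff000000ff0000007800000038 10 8) 0 0 (step_sound _ 132 [rh470e79ce5786cf7c, (rhadf429772c25fde0.shift 3 0), (rhc52dd6e9af843363.shift 1 1)] (by decide +kernel))
noncomputable def rhcb7944d9fe0f3ee7 : CRef := CRef.mk (Pat.mk 0xc000000040000000000000000 0x1a0000003f0000007f000000ff0000007e0000003400000004 10 8) 0 0 (step_sound _ 131 [(rhadf429772c25fde0.shift 2 0), rhb7ebaac73008604f, (rhe62b8d1e1ed8d63f.shift 0 1)] (by decide +kernel))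
noncomputable def rha2d66b9a8002bb17 : CRef := CRef.mk (Pat.mk 0x180000000800000000000000000000000000000000 0x3000000034000000760000007f0000007f0000003b0000001f0000001e00000014 10 7) 0 0 (step_sound _ 130 [(rh0bb882ba86b2372d.shift 0 4), (rh477cd56aaee98c1f.shift 1 0), rhcd3716459eb03ae5, (rhe2a8e5fabb2d2118.shift 0 1)] (by decide +kernel))
noncomputable def rh862ab325b43d6bc5 : CRef := CRef.mk (Pat.mk 0xc00000004000000000000000000000000 0x1f0000001f0000003f0000003c0000007f0000007c0000001c00000008 10 7) 0 0 (step_sound _ 163 [(rh4821dcf828b9d7bf.shift 2 1), rh66a3b51e4d1ebd0a, rh8ef440292d0d083b, (rhadf429772c25fde0.shift 2 1)] (by decide +kernel))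
noncomputable def rhf4d7830269ad0750 : CRef := CRef.mk (Pat.mk 0x60000000200000000000000000 0x28000000f8000001fc000003fe0000007e000003ff000003e0000000e0 10 10) 0 0 (step_sound _ 134 [(rh03ac5205eef3618c.shift 3 1), (rh4821dcf828b9d7bf.shift 5 0), rh559fe084e372bdb3] (by decide +kernel))
noncomputable def rh18cec197066635c3 : CRef := CRef.mk (Pat.mk 0x18000000080000000000000000 0x300000007c000001ff000001fe000003ef0000007800000038 10 10) 0 0 (step_sound _ 132 [(rh0df0fd2dce1ed5ef.shift 1 0), (rh4821dcf828b9d7bf.shift 3 0), rh77a92409ff311d11] (by decide +kernel))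
noncomputable def rh560c191faf809be1 : CRef := CRef.mk (Pat.mk 0xc000000040000000000000000 0x1a0000003f0000007f0000007f0000007e0000003c0000000c 10 7) 0 0 (step_sound _ 131 [(rhadf429772c25fde0.shift 2 0), rhe05013472713b83b, (rhe62b8d1e1ed8d63f.shift 0 1)] (by decide +kernel))
noncomputable def rhde2fe8611dfbb35c : CRef := CRef.mk (Pat.mk 0x1000000018000000000000000000000000 0x3000000070000000fc000000ff000001fe000001fe0000002800000008 10 9) 0 0 (step_sound _ 164 [(rh281c6819542c66e6.shift 3 0), (rh77fc89d9361683eb.shift 1 0), (rh98cb46ed4fb89aee.shift 0 1)] (by decide +kernel))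
noncomputable def rhfd3c968616dd7926 : CRef := CRef.mk (Pat.mk 0x1000000018000000000000000000000000 0x28000000380000007c000000f0000001ff000000fe000001ff0000002800000008 10 9) 0 0 (step_sound _ 164 [(rh281c6819542c66e6.shift 3 0), (rh77fc89d9361683eb.shift 1 0), (rhac65dc3480361f0b.shift 0 2)] (by decide +kernel))
noncomputable def rhad8949426ab4c8da : CRef := CRef.mk (Pat.mk 0x1000000018000000000000000000000000 0x28000000380000003e0000003e000001ff000000fe000001f80000006800000008 10 9) 0 0 (step_sound _ 164 [(rh03f890b1075e53b0.shift 1 1), (rh281c6819542c66e6.shift 3 0), (rh54b120a1cca4da36.shift 0 2)] (by decide +kernel))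
noncomputable def rh631bf16861bb9dfb : CRef := CRef.mk (Pat.mk 0x1000000018000000000000000000000000 0x80000003f0000007e000000ff000000f8000000fe000000fc000000e800000048 10 8) 0 0 (step_sound _ 164 [(rh281c6819542c66e6.shift 3 0), (rh4b3828faa07eec6c.shift 0 2), (rhafa7f12613bc392d.shift 1 0)] (by decide +kernel))
noncomputable def rha148f53463dc77ef : CRef := CRef.mk (Pat.mk 0x2000000030000000000000000000000000 0x3c0000003c0000007f000001fe000003ff0000005000000050 10 10) 0 0 (step_sound _ 68 [rh11b32c1756178b0c, (rhadf429772c25fde0.shift 4 0), rhf4ae13f0a3378606] (by decide +kernel))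
noncomputable def rhbaa82e106e1bae87 : CRef := CRef.mk (Pat.mk 0x4000000060000000000000000000000000 0x780000007c000001ff000003fe000007bf000000b000000030 10 11) 0 0 (step_sound _ 100 [(rh1ad8cfa198ffa9a9.shift 3 1), (rh54cb88645a09b699.shift 1 0), (rh9499f6b74380f77b.shift 3 2), (rhf5183d55e2daca0a.shift 2 0), (rhf7943763ae823400.shift 0 2)] (by decide +kernel))
noncomputable def rh6975f381c09b668a : CRef := CRef.mk (Pat.mk 0x4000000060000000000000000000000000 0x30000000f8000000fc000001ff0000007e000003fe000000b000000030 10 10) 0 0 (step_sound _ 69 [(rh4821dcf828b9d7bf.shift 5 0), (rh8e56b8f1ed55e428.shift 3 1), (rhadf429772c25fde0.shift 5 0), rhb8ac7650aff5edd5] (by decide +kernel))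
noncomputable def rh0c3d84e82014ab32 : CRef := CRef.mk (Pat.mk 0x1000000018000000000000000000000000 0x3c0000007e000001df000000ff000001ff0000002c0000000c 10 9) 0 0 (step_sound _ 67 [(rh3cac105934a1f084.shift 1 1), (rh4821dcf828b9d7bf.shift 3 0), rh77fb14825b71fb2f, (rhadf429772c25fde0.shift 3 0)] (by decide +kernel))
noncomputable def rha2bcb61a566abefd : CRef := CRef.mk (Pat.mk 0x1000000018000000000000000000000000 0x80000003f0000007e000000ff000000fe000000f8000000ff0000006f00000008 10 8) 0 0 (step_sound _ 164 [(rh281c6819542c66e6.shift 3 0), (rh3b7a9d9b99643cd8.shift 0 1), (rh4b3828faa07eec6c.shift 0 2)] (by decide +kernel))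
noncomputable def rh36357102137e1f09 : CRef := CRef.mk (Pat.mk 0x2000000030000000000000000000000000 0x380000007c000000ff000000fe000000ff0000005800000018 10 8) 0 0 (step_sound _ 68 [(rh77fb14825b71fb2f.shift 1 0), (rhadf429772c25fde0.shift 4 0), rhdc491ffbc3875d57] (by decide +kernel))
noncomputable def rh15185ca5ff8a2f39 : CRef := CRef.mk (Pat.mk 0x2000000010000000100000000000000000 0x1c0000003e000000ff000000fe000001ff0000005800000058 10 9) 0 0 (step_sound _ 101 [rh95e39345e7d0e2e4, (rha55da8f3584173f6.shift 1 0), (rhf91b1398c815afd2.shift 4 0)] (by decide +kernel))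
noncomputable def rh744d50cd4e9995e0 : CRef := CRef.mk (Pat.mk 0x10000000080000000800000000000000000000000000000000 0x40000000c0000001f000000780000001f0000003f0000003f0000001f0000001e00000016 10 7) 0 0 (step_sound _ 195 [(rh2095c8df4be9f3e3.shift 0 3), (rh3854429253eeadb4.shift 2 0), rh864260a7d7b309dd] (by decide +kernel))
noncomputable def rhb1f472bd254fcde9 : CRef := CRef.mk (Pat.mk 0x100000000800000008000000000000000000000000000000000000000000000000 0x240000002c0000006c0000007e0000007e0000007e0000007f0000003f0000001c0000001c0000001c00000004 10 7) 0 0 (step_sound _ 163 [(rh1725eba4bd36066a.shift 2 2), (rh17c07c87ee2c327b.shift 1 4), (rh462ade9c18144c92.shift 1 4), rh7f38b555905b99f1, (rh984bfc6de6c2c524.shift 2 2)] (by decide +kernel))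
noncomputable def rh3dd23770f43ff73f : CRef := CRef.mk (Pat.mk 0x100000000800000008000000000000000000000000 0x200000002c0000007e000000ff000000fe000000f80000003c0000003800000030 10 8) 0 0 (step_sound _ 132 [(rh017db0cf1a9b0d7f.shift 1 1), (rh1a17743f6ed3d11f.shift 0 1), (rh9586f1d20a33296b.shift 0 1), (rhb064bebbf0dfbe70.shift 1 1), (rhb094b06ab4ed8881.shift 1 0)] (by decide +kernel))
noncomputable def rhf8ae0ffeb1b64872 : CRef := CRef.mk (Pat.mk 0x10000000080000000800000000000000000000000000000000 0x10000000180000001c0000000c0000003e0000007c0000002f0000007c0000003e0000001c0000001c00000014 10 7) 0 0 (step_sound _ 195 [rh5403d089d9837b82, (rh67e68e733fb290f2.shift 2 2), (rh6bc015b9268c8423.shift 0 2), (rhcd60ab15175aa9b0.shift 0 1), (rhe1a3e820b9828b5e.shift 2 2)] (by decide +kernel))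
noncomputable def rh8cad467569b0fdee : CRef := CRef.mk (Pat.mk 0x100000000800000008000000000000000000000000 0x76000001f7000000ff000001ff000000ff0000003e00000034 10 9) 0 0 (step_sound _ 132 [rh0a7ebb8a24f525ad, (rh15a78100daa48b1b.shift 0 1), (rh46d05dc9ea999adf.shift 0 1), (rh46d360ba6ff5aded.shift 0 1), (rhb094b06ab4ed8881.shift 1 0), rhb33447c6c07e4335, (rhc65a4ce221d48a95.shift 0 1), rheb84a1531b89519d, (rhf96734910781d94d.shift 0 1)] (by decide +kernel))
noncomputable def rh6120fc5518693d4b : CRef := CRef.mk (Pat.mk 0x100000000800000008000000000000000000000000 0x10000000180000001e0000002e0000007f0000007f0000007f0000007f000000740000003000000030 10 7) 0 0 (step_sound _ 163 [(rh2480878df902cab5.shift 0 2), (rh2a5aac3d1c0a3d77.shift 0 2), (rh6058262bfd194237.shift 0 2), (rh79faa8845b7a48c5.shift 0 2), rhbe54830c80a9c0fa, rhcd60ab15175aa9b0, (rhd13ecba20e27aaf9.shift 0 2), (rhd2bb1c32ca63fffa.shift 0 1)] (by decide +kernel))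
noncomputable def rhe25e94da483d9d2c : CRef := CRef.mk (Pat.mk 0x80000000c000000000000000000000000 0x100000003a0000007b0000007f0000007f0000001f0000003c0000001c 10 7) 0 0 (step_sound _ 132 [rh20c1e51b42de3aa0, (rh49bc5c1ce50ffeb3.shift 1 1), (rh69012675dfdb1a5b.shift 0 3), rhb7268803eff90e0c] (by decide +kernel))
noncomputable def rh2beae9857a036a3d : CRef := CRef.mk (Pat.mk 0x80000000c00000000000000000000000000000000 0x40000003c0000003c000000380000007c000000ff000000fc0000003c0000001c00000004 10 8) 0 0 (step_sound _ 164 [(rh0bb882ba86b2372d.shift 0 4), rhbc172ada9a302a67, (rhdb35ae76ee936625.shift 2 1)] (by decide +kernel))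
noncomputable def rhb35858e772df16f2 : CRef := CRef.mk (Pat.mk 0x80000000c000000000000000000000000 0x100000001a0000007b0000007f0000007f0000006f0000002c00000004 10 7) 0 0 (step_sound _ 132 [(rh49bc5c1ce50ffeb3.shift 1 1), (rh69012675dfdb1a5b.shift 0 3), rh7f03b65056a985fc, (rh94179f265dcd067b.shift 1 1)] (by decide +kernel))
noncomputable def rh5332435cbb6cf5e2 : CRef := CRef.mk (Pat.mk 0x10000000180000000000000000 0x280000003800000038000000380000007c000000f0000000ff000000fe000000f800000070 10 8) 0 0 (step_sound _ 101 [(rh0b3face3fe39af37.shift 1 0), (rh69012675dfdb1a5b.shift 1 2), rhc56da5d249939437] (by decide +kernel))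
noncomputable def rhc2f0d1c1a1d9b12d : CRef := CRef.mk (Pat.mk 0x10000000180000000000000000000000000000000000000000 0x2000000060000000e4000000ff000000fe000000fe000000fc000000380000003800000020 10 8) 0 0 (step_sound _ 197 [(rh68581a4ba90c0158.shift 1 0), (rhc56da5d249939437.shift 0 3), (rhd69c262cd33b94b3.shift 1 5)] (by decide +kernel))
noncomputable def rh8f12ca3561bc19c8 : CRef := CRef.mk (Pat.mk 0x100000001800000000000000000000000000000000 0x30000000f4000000ff0000001f000000fe0000007e0000003c00000010 10 8) 0 0 (step_sound _ 99 [(rh48409912adc297c5.shift 2 0), (rh604bf96a494ae788.shift 0 1), (rhadf429772c25fde0.shift 3 1), (rhf9366b6a121593ef.shift 3 1)] (by decide +kernel))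
noncomputable def rh6ab0afc98b90f60a : CRef := CRef.mk (Pat.mk 0x100000001800000000000000000000000000000000 0x3000000034000001ff000000f8000000fe000000fe0000007c00000050 10 9) 0 0 (step_sound _ 99 [(rh3ff9f4c587b4a715.shift 1 0), (rhadf429772c25fde0.shift 3 1), (rhbc98e4cc3bb2c148.shift 0 1), (rhf9366b6a121593ef.shift 3 1)] (by decide +kernel))
noncomputable def rhbc41bcec7d4f9556 : CRef := CRef.mk (Pat.mk 0x80000000c00000000000000000000000000000000 0x40000001c0000001c000000780000007f0000003f000000780000003e0000001c00000014 10 7) 0 0 (step_sound _ 164 [(rh484d0f159a7bbf56.shift 1 0), (rh49bc5c1ce50ffeb3.shift 1 2), (rh69012675dfdb1a5b.shift 0 4), rhc76124949dc2bf9b] (by decide +kernel))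
noncomputable def rhfc1ed1a8c74d5817 : CRef := CRef.mk (Pat.mk 0x200000003000000000000000000000000000000000 0x20000000280000003f000000ff000001fe000000fe0000007800000068 10 9) 0 0 (step_sound _ 100 [rhbbc30b14dfab1230, rhcf81b0d656e13c4b, (rhf9366b6a121593ef.shift 4 1)] (by decide +kernel))
noncomputable def rhdde237bf282003bb : CRef := CRef.mk (Pat.mk 0x1000000018000000000000000000000000 0x2000000030000000f7000000ff000000fe000000fe0000007e0000007c 10 8) 0 0 (step_sound _ 133 [(rh1db00615b07fd91e.shift 1 0), (rh69012675dfdb1a5b.shift 1 3), rhf9a76ed25c306ad0] (by decide +kernel))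
noncomputable def rh09787e731533d1ab : CRef := CRef.mk (Pat.mk 0x100000000c0000000000000000000000000000000000000000 0x140000001e0000003f0000003e0000007f0000007e0000007e0000003e0000001c00000010 10 7) 0 0 (step_sound _ 195 [(rh557b120f072744ca.shift 0 5), rh6d9043f4ff55ca05, (rh717061469e26311a.shift 0 2)] (by decide +kernel))
noncomputable def rha63845f96e90e2ba : CRef := CRef.mk (Pat.mk 0x400000003000000000000000000000000000000000 0x20000000e0000000e0000000e0000000ff0000007e000000f0000000e0000000e0000000a0 10 8) 0 0 (step_sound _ 131 [(rh561ac13636e95fcb.shift 2 4), (rh71e60287805d3d8c.shift 3 0), (rha2e182fd6274be10.shift 0 3), (rhd14628fea3bd9904.shift 1 3)] (by decide +kernel))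
noncomputable def rh150ace303a1655a1 : CRef := CRef.mk (Pat.mk 0x40000000300000000000000000000000000000000000000000 0xa0000000e0000000e0000000f70000007e000000fc000000e0000000e0000000e0000000a0 10 8) 0 0 (step_sound _ 163 [(rh20c3e4d99cb18df5.shift 2 0), (rh561ac13636e95fcb.shift 2 5), (rha2e182fd6274be10.shift 0 4)] (by decide +kernel))
noncomputable def rh03c6769e5bdb9873 : CRef := CRef.mk (Pat.mk 0x400000003000000000000000000000000000000000 0x80000000c000000ff000000fe0000001f0000001e0000001e00000006 10 8) 0 0 (step_sound _ 131 [(rh2f982fc6c6b43fa3.shift 0 3), (rh561ac13636e95fcb.shift 2 4), (rha82f7868d7786f99.shift 1 0), (rhb6f22e522ac5a15f.shift 2 1)] (by decide +kernel))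
noncomputable def rh5d7890030d32b6a7 : CRef := CRef.mk (Pat.mk 0x200000001800000000000000000000000000000000 0x10000000700000007400000076000000770000003e00000067000000770000007700000053 10 7) 0 0 (step_sound _ 130 [(rh71e60287805d3d8c.shift 2 0), (rh93c81d2b527c9376.shift 0 3), rha82f7868d7786f99] (by decide +kernel))
noncomputable def rhb645928cf1c169cf : CRef := CRef.mk (Pat.mk 0x2000000018000000000000000000000000 0x280000007c0000076f000003fe000001ff0000005800000058 10 11) 0 0 (step_sound _ 101 [rh91a6a2331af85a5a, rh98896c3a95c83007, (rhb7ec5a1c212b1c48.shift 0 2), (rhf5183d55e2daca0a.shift 1 0), (rhfd01510815188b45.shift 0 2), (rhfefd7be2d273f2ab.shift 1 0)] (by decide +kernel))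
noncomputable def rh6bc2213b46a0c2ca : CRef := CRef.mk (Pat.mk 0x80000000c000000000000000000000000 0x60000001f0000001f0000007c000001ff0000007e0000002f0000000e 10 9) 0 0 (step_sound _ 66 [rh3ac4fdd6158e0c30, (rh7bdcd827332af1c9.shift 0 1), (rhadf429772c25fde0.shift 2 0), (rhf9366b6a121593ef.shift 2 0)] (by decide +kernel))
noncomputable def rhf3083592dcdb41cc : CRef := CRef.mk (Pat.mk 0x2000000030000000000000000000000000 0x100000007e000000fc000001fe000001f7000000fe000000ff0000005800000058 10 9) 0 0 (step_sound _ 165 [(rh281c6819542c66e6.shift 4 0), (rh4b3828faa07eec6c.shift 1 2), rh4d649025900b4be7] (by decide +kernel))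
noncomputable def rhf7d25e1fcfcfbdcc : CRef := CRef.mk (Pat.mk 0x80000000c00000000000000000000000000000000 0x1000000018000000380000007c000000ff0000007f0000003c0000001c00000014 10 8) 0 0 (step_sound _ 164 [(rh0bb882ba86b2372d.shift 0 4), (rh57f23587ca7abb6b.shift 0 1), rhe21a5d743ee98714] (by decide +kernel))
noncomputable def rh16c7d371121cccdc : CRef := CRef.mk (Pat.mk 0x10000000180000000000000000000000000000000000000000 0x280000003f000000fe000000ff000000f80000003e0000001800000038000000380000003800000020 10 8) 0 0 (step_sound _ 228 [(rh281c6819542c66e6.shift 3 2), (rh87aacd35b4eb1be5.shift 1 0), (rh9b3a1717e6b1849b.shift 0 5)] (by decide +kernel))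
noncomputable def rh0007eb6629eba738 : CRef := CRef.mk (Pat.mk 0x1000000018000000000000000000000000 0x280000003f000000fe000000ff000000f80000001c000000f80000003800000008 10 8) 0 0 (step_sound _ 164 [(rh281c6819542c66e6.shift 3 0), (rh49a9dad91ab05935.shift 2 0), (rh9b3a1717e6b1849b.shift 0 3)] (by decide +kernel))
noncomputable def rh2610e6f82dfbcc6b : CRef := CRef.mk (Pat.mk 0x80000000c0000000000000000000000000000000000000000 0x140000001c0000003e000000780000003f0000007f0000003c0000001c0000001c00000010 10 7) 0 0 (step_sound _ 196 [(rh574fdbf07bdd18b9.shift 0 5), (rhb9cf01acdf2fc6ee.shift 0 1), rhdbcc33134ec8565b] (by decide +kernel))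
noncomputable def rh55185a4231a6d2a2 : CRef := CRef.mk (Pat.mk 0x1000000018000000000000000000000000 0x3f000000fe000000ff000000f8000000f8000000ff0000007f00000008 10 8) 0 0 (step_sound _ 164 [(rh281c6819542c66e6.shift 3 0), rh96417bcd5952d6f4, (rhe3286574c8449688.shift 0 2)] (by decide +kernel))
noncomputable def rh0b7f987c888a3657 : CRef := CRef.mk (Pat.mk 0x80000000c000000000000000000000000 0xc0000003c0000007e0000007c000000ff000000770000003e0000001e 10 8) 0 0 (step_sound _ 132 [(rh0bb882ba86b2372d.shift 0 3), rh29114a72f0fe697e, (rh4ce143eb5d903d96.shift 1 0), (rh69012675dfdb1a5b.shift 0 3)] (by decide +kernel))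
noncomputable def rhf13a27db9f0b1c41 : CRef := CRef.mk (Pat.mk 0x80000000c000000000000000000000000 0x3000000034000000760000007c000000ff0000007f0000003800000018 10 8) 0 0 (step_sound _ 132 [(rh0bb882ba86b2372d.shift 0 3), rh36f06734b587cdfa, (rh69012675dfdb1a5b.shift 0 3), (rh947b7a19a918506b.shift 1 1)] (by decide +kernel))
noncomputable def rh819ec9e12e341f17 : CRef := CRef.mk (Pat.mk 0x80000000c00000000000000000000000000000000 0x180000003c0000003c0000003e0000007c0000001f000000780000003e0000001c00000014 10 7) 0 0 (step_sound _ 164 [(rh0bb882ba86b2372d.shift 0 4), rh1a7dc30c7c4cc32a, (rh3e3903b52b4348df.shift 1 0)] (by decide +kernel))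
noncomputable def rh5570b1c1c4ed3b76 : CRef := CRef.mk (Pat.mk 0x1000000018000000000000000000000000 0xc0000005c000000fc000000f8000000fe0000007f0000007e0000007f 10 8) 0 0 (step_sound _ 67 [(rh291e78b53c040c19.shift 1 1), rh29f5abba2313e090, (rhadf429772c25fde0.shift 3 0)] (by decide +kernel))
noncomputable def rhbd7031dad27f82a1 : CRef := CRef.mk (Pat.mk 0x200000001800000000000000000000000000000000 0x20000000380000007c0000001e000000ff0000003e0000007e000000780000003800000010 10 8) 0 0 (step_sound _ 164 [(rh56651923c46f9b1c.shift 1 1), (rh69012675dfdb1a5b.shift 1 4), rhc31302e9f255c2d7] (by decide +kernel))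
noncomputable def rh86b6c3d7b8d402d5 : CRef := CRef.mk (Pat.mk 0x40000000300000000000000000000000000000000000000000 0xa0000000e0000000e0000000e70000007e000000ff000000e0000000e0000000e0000000a0 10 8) 0 0 (step_sound _ 163 [(rh20c3e4d99cb18df5.shift 2 0), (rh2f982fc6c6b43fa3.shift 0 4), (rha2e182fd6274be10.shift 0 4)] (by decide +kernel))
noncomputable def rh3af57f1133b265e4 : CRef := CRef.mk (Pat.mk 0x4000000030000000000000000000000000 0x20000000f0000000f8000003fe0000007f0000007c000001fe000001fc000000f8 10 10) 0 0 (step_sound _ 133 [(rh1c2aab843cf1219b.shift 1 0), (rh2acef83470825f0a.shift 3 0), rh2aed49acd76b685a, (rh32b6b48fea0525e9.shift 2 0), (rh398b6a2385c833ed.shift 2 0), (rh9a55a9b954e3bd6a.shift 2 0), (rhb757542324201e26.shift 1 0), (rhe4d6f29643856626.shift 2 0)] (by decide +kernel))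
noncomputable def rh0e41b7fb0100e742 : CRef := CRef.mk (Pat.mk 0x2000000018000000000000000000000000000000000000000000000000 0x1000000078000000fc000001fe000000ff00000038000000fe000000fc0000007c000000380000003000000020 10 9) 0 0 (step_sound _ 228 [(rh1dedf349d8374d7d.shift 0 2), (rh3080a82e6f92b656.shift 2 4), (rh6368702b47ada9ee.shift 0 3), (rh73efa41b81c90632.shift 0 4), (rh96c5ea1eb90788fe.shift 1 4), (rhbe8fb809be7cebb3.shift 2 3), (rhca1e61e0ce0f7e0f.shift 2 3), (rhd75bb7046667217f.shift 1 0), (rhedba341aab841a95.shift 2 3)] (by decide +kernel))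
noncomputable def rhc2f3f6c9fd28875f : CRef := CRef.mk (Pat.mk 0x100000000c000000000000000000000000000000000 0x70000001700000037f000001fe000003fe000000f8000000f800000058 10 10) 0 0 (step_sound _ 133 [rh3bf81c26537475d4, (rh834ef1c974e4840e.shift 4 1), (rhd14628fea3bd9904.shift 3 3), (rhf7a9ed3f7d8d4950.shift 4 0)] (by decide +kernel))
noncomputable def rh4cd39bc2dfbcc1a4 : CRef := CRef.mk (Pat.mk 0x100000000c0000000000000000000000000000000000000000 0x100000001c0000001e0000001f0000007f0000001f0000000c0000001c0000001c0000001c00000010 10 7) 0 0 (step_sound _ 195 [(rh69012675dfdb1a5b.shift 0 5), (rh891c3b366c413e18.shift 0 1), rhecfae29529c50989] (by decide +kernel))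
noncomputable def rh1b08f4b344866bbc : CRef := CRef.mk (Pat.mk 0x60000000200000000000000000 0x700000007800000ffe000007fe000007f7000000e000000020 10 12) 0 0 (step_sound _ 134 [rh41beac1a2051aa46, (rh5aa2e975631ce584.shift 3 1), (rhf9366b6a121593ef.shift 5 0)] (by decide +kernel))
noncomputable def rh4a2c408eafc7bf5f : CRef := CRef.mk (Pat.mk 0x60000000200000000000000000 0x80000000c0000003c0000007fe000003fe000003f7000001e0000001e0 10 11) 0 0 (step_sound _ 134 [rh5fe13a5a03a88550, (rh72c69a249db8c75e.shift 3 1), (rhadf429772c25fde0.shift 5 0)] (by decide +kernel))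
noncomputable def rh646e2b68d511c58f : CRef := CRef.mk (Pat.mk 0x60000000200000000000000000 0xf0000001f000000efe000007fe000007f7000000e000000020 10 12) 0 0 (step_sound _ 134 [rh5a89534b0318024a, (rh96dc83ac2abd1d6c.shift 3 1), (rhf9366b6a121593ef.shift 5 0)] (by decide +kernel))
noncomputable def rh81998a5abfa4b519 : CRef := CRef.mk (Pat.mk 0x18000000080000000000000000 0x3c0000007c000001df000000fe000001fc000001fc00000028 10 9) 0 0 (step_sound _ 132 [rh2903146ccc73fd6e, (rh96dc83ac2abd1d6c.shift 1 1), (rhf9366b6a121593ef.shift 3 0)] (by decide +kernel))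
noncomputable def rh35af653a95cf244a : CRef := CRef.mk (Pat.mk 0x18000000080000000000000000 0xc0000005c000000fe000000ff000001fe0000003c0000002c0000000c 10 9) 0 0 (step_sound _ 132 [(rh232be6d0712201ca.shift 0 1), (rh9183f9abc364251c.shift 1 0), (rhadf429772c25fde0.shift 3 0)] (by decide +kernel))
noncomputable def rh900081c8b85ec3a3 : CRef := CRef.mk (Pat.mk 0xc000000040000000000000000 0x60000001e0000003f0000007f0000007f0000007e0000003600000006 10 7) 0 0 (step_sound _ 131 [rh9183f9abc364251c, (rhadf429772c25fde0.shift 2 0), (rhe62b8d1e1ed8d63f.shift 0 1)] (by decide +kernel))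
noncomputable def rh84415fe2ee73eab5 : CRef := CRef.mk (Pat.mk 0xc000000040000000000000000 0x60000003e0000007e0000007c000001ff0000007e0000003f0000000e 10 9) 0 0 (step_sound _ 131 [rh2b6a0c00ba4f64a5, (rhadf429772c25fde0.shift 2 0), (rhd79338dcf533692a.shift 0 1)] (by decide +kernel))
noncomputable def rh4c05fd0504464a09 : CRef := CRef.mk (Pat.mk 0xc00000004000000000000000000000000 0x1e0000003f000003ff000001ff000003ee0000002c0000000c00000008 10 10) 0 0 (step_sound _ 163 [(rh339fa2e563b4d2a0.shift 0 1), rh39103d2fc0f56627, (rhf9366b6a121593ef.shift 2 1)] (by decide +kernel))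
noncomputable def rh34b35996c317d488 : CRef := CRef.mk (Pat.mk 0xc00000004000000000000000000000000 0x1f0000001f0000003f0000003c0000007c0000007f0000001e00000008 10 7) 0 0 (step_sound _ 163 [(rh21b38f898b67523b.shift 0 1), (rh4821dcf828b9d7bf.shift 2 1), rh8ef440292d0d083b, (rhadf429772c25fde0.shift 2 1)] (by decide +kernel))
noncomputable def rh340dafa74febc4f2 : CRef := CRef.mk (Pat.mk 0x1800000008000000000000000000000000 0x3e0000003e0000007f0000001f000000fc000000fe0000003c00000010 10 8) 0 0 (step_sound _ 164 [(rh369c319ecf13133f.shift 0 1), (rh671274dd771bf29b.shift 1 0), (rhc9c1eee6517c3432.shift 0 1), (rhcf80391c5046a495.shift 3 1)] (by decide +kernel))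
noncomputable def rh6e8e34abf15711e7 : CRef := CRef.mk (Pat.mk 0x30000000100000000000000000 0x680000007c000001ef000003fe000001f8000001f0000000f0 10 10) 0 0 (step_sound _ 133 [(rh57c84a5e843c3279.shift 2 1), (rh58c777596eaeba5c.shift 4 1), rh6a3e9576b8a87321, (rh92c5866cf4cb982e.shift 2 1), (rhcf80391c5046a495.shift 4 0), rhd7065eb82b525fb6] (by decide +kernel))
noncomputable def rhfaf65593bf2a503a : CRef := CRef.mk (Pat.mk 0x18000000080000000000000000 0x340000003e000003ff000001fe000003fc000000f000000040 10 10) 0 0 (step_sound _ 101 [(rh15815aa9452e9695.shift 2 2), (rhe31bca5cae311987.shift 0 1), (rhf4bf7120d5e9d8e8.shift 2 0)] (by decide +kernel))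
noncomputable def rh840fecf09e80fc69 : CRef := CRef.mk (Pat.mk 0x300000001000000000000000000000000000000000 0x28000000ff000000fe000001ff000000fc000000d8000000780000003e0000003c00000020 10 9) 0 0 (step_sound _ 229 [(rh16cbd58a1619e6a8.shift 4 2), (rh19d2f2ea8d76746d.shift 1 0), (rh5be96e6a61002af0.shift 0 2), (rhd4dd03a61f0ef2ce.shift 1 1), (rhe0d585412745f550.shift 0 4)] (by decide +kernel))
noncomputable def rhf8770ccdf52910ce : CRef := CRef.mk (Pat.mk 0x100000000c00000000000000000000000000000000 0x100000001c0000001e0000001f0000003f0000003f0000000f0000003c0000001c00000014 10 6) 0 0 (step_sound _ 163 [(rh25dc06d412aa2fa0.shift 0 1), rh4c2b0950e19be976, (rh557b120f072744ca.shift 0 4), (rh7c0bd48ebf0a5583.shift 0 1), rh891c3b366c413e18] (by decide +kernel))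
noncomputable def rh0e93a7fce3dae3c3 : CRef := CRef.mk (Pat.mk 0x100000000c00000000000000000000000000000000 0x140000003c0000007e0000003f0000007b000000ff000000ee0000001c0000001c00000010 10 8) 0 0 (step_sound _ 163 [(rh06a567c8e2b18ca3.shift 1 2), (rh574fdbf07bdd18b9.shift 0 4), rh891c3b366c413e18, (rhfdeae66e76dd7aac.shift 0 1)] (by decide +kernel))
noncomputable def rh806d8f6d61e9e14f : CRef := CRef.mk (Pat.mk 0x100000000c000000000000000000000000000000000 0x1300000017000001dff00000ffe00000efe000000fc0000007800000018 10 13) 0 0 (step_sound _ 133 [(rh0773fd57977be397.shift 3 1), (rh2f886bcd553082e1.shift 0 3), rh3bf81c26537475d4, (rh4893dda8a5b9542c.shift 1 3), (rh61299baf09ca782a.shift 3 2), (rhaa16f463bec2e204.shift 2 1), (rhecc2f590e920be22.shift 1 3)] (by decide +kernel))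
noncomputable def rhecf6f0d78b19e3bb : CRef := CRef.mk (Pat.mk 0x2000000018000000000000000000000000 0x8000000380000003c000000ff000000ff000000de0000005f0000007e0000003c 10 8) 0 0 (step_sound _ 132 [(rh2da5358739ca2cfd.shift 2 2), (rh5f656810af449a70.shift 2 2), rha757f55b0258536d, (rhfdeae66e76dd7aac.shift 1 0), rhffe7a01ca39d5eee] (by decide +kernel))
noncomputable def rh3a9d9c4728c75aba : CRef := CRef.mk (Pat.mk 0x4000000030000000000000000000000000 0x58000003de000001fc000003be000000bf000000bc 10 10) 0 0 (step_sound _ 102 [(rh0e48aee3e7b9accf.shift 3 0), (rha11dfd15f08f96e3.shift 3 3), (rhb12ffaec36122c99.shift 1 2), rhb241e5a4dae57ed4, (rhf5183d55e2daca0a.shift 2 0)] (by decide +kernel))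
noncomputable def rha3693262641d870b : CRef := CRef.mk (Pat.mk 0x2000000018000000000000000000000000 0x80000001c000000ff000000ff0000003e0000007c0000002c0000000c 10 8) 0 0 (step_sound _ 132 [(rh69012675dfdb1a5b.shift 1 3), rhaffaf01dd8547fc0, (rhf134e445859ede6c.shift 0 2)] (by decide +kernel))
noncomputable def rhaf6ef04dcd67b1d9 : CRef := CRef.mk (Pat.mk 0x100000000c000000000000000000000000 0x28000000380000007a0000007e0000007f000000ff000001fc000001fe0000007400000030 10 9) 0 0 (step_sound _ 100 [(rh37fe76e0254fc3d7.shift 1 0), (rh47139aecdbbc9d0d.shift 1 1), (rh655a58ce39519a50.shift 1 0), (rh8076ad334c0a760e.shift 1 0), (rh89e70b660b9ac1d4.shift 1 0), (rh97cd383987b9c3d0.shift 0 1), (rh98a7757aac0ef84c.shift 1 0)] (by decide +kernel))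
noncomputable def rhf387ee4cc5b6fe9d : CRef := CRef.mk (Pat.mk 0x2000000018000000000000000000000000 0x80000002c0000003c000000ff000000ff000000de0000007c0000002c0000000c 10 8) 0 0 (step_sound _ 132 [(rh033b264c25b2cbc3.shift 1 0), (rh5f656810af449a70.shift 2 2), (rh7509f70518dc6fdc.shift 1 0), rhaffaf01dd8547fc0, (rhd69c262cd33b94b3.shift 1 3)] (by decide +kernel))
noncomputable def rhb9cbf4090b60ef22 : CRef := CRef.mk (Pat.mk 0x400000003000000000000000000000000000000000 0x80000000c000000cf000000fe000001ff0000001e0000001e00000006 10 9) 0 0 (step_sound _ 131 [rh29e07bf57501b67a, (rhb6f22e522ac5a15f.shift 2 1), (rhbdce4ae460fd80ce.shift 2 3), (rhd14628fea3bd9904.shift 1 3)] (by decide +kernel))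
noncomputable def rha9541a58bfe7c852 : CRef := CRef.mk (Pat.mk 0x1800000008000000000000000000000000 0x40000000e000000ef000000ff000001ff0000003c0000001f0000000e 10 9) 0 0 (step_sound _ 97 [(rh0b786d94a31538a6.shift 0 3), (rh194a1432bbf178b0.shift 0 1), (rh1aa2df0b64aa2b23.shift 1 1), rh6726f530c4296a8c, (rhedf3a755fe019897.shift 0 3)] (by decide +kernel))
noncomputable def rhb72682894ccb4b92 : CRef := CRef.mk (Pat.mk 0x3000000010000000000000000000000000 0x80000001c0000001f000000ff000000fe0000001e0000001c00000018 10 8) 0 0 (step_sound _ 99 [(rh574fdbf07bdd18b9.shift 1 3), (rh7333dd4d9075bcb0.shift 0 1), (rhd69c262cd33b94b3.shift 1 3), (rhdf55ced7489350e0.shift 1 0)] (by decide +kernel))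
noncomputable def rhd134c661be569b54 : CRef := CRef.mk (Pat.mk 0x6000000020000000000000000000000000 0x800000018000000fae000007fe00000fff000003d8000003d000000390 10 12) 0 0 (step_sound _ 135 [(rh2820ca9a6c4f41b4.shift 2 3), rh438cd87e54d32767, (rhad562696acd1db6f.shift 4 3), (rhe41039e2fa909519.shift 4 0)] (by decide +kernel))
noncomputable def rh39213127480098f2 : CRef := CRef.mk (Pat.mk 0x18000000080000000000000000 0x3c0000007e0000006f0000007f0000007f0000003700000012 10 7) 0 0 (step_sound _ 66 [rh2df05858970c7398, rh74b9253b4ff61667, rhbde007d47b9dc637, (rhd69c262cd33b94b3.shift 0 2)] (by decide +kernel))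
noncomputable def rha5cb7df7334a736a : CRef := CRef.mk (Pat.mk 0x1800000008000000000000000000000000 0x1c0000001c0000003e0000000f0000001f000000ff000000ff0000001c0000001c 10 8) 0 0 (step_sound _ 163 [(rh53d224c9232e3f79.shift 2 1), rh716b1cf7fdf0d6bf, (rh74f4480cb2396f37.shift 0 2), rh7f8cd220782d897f, (rh81b8818a92b27584.shift 0 2), (rh87942bdbd4f65244.shift 1 0), rhebb1c343ac36a587, rhef7d8eff51595e36] (by decide +kernel))
noncomputable def rh0c637d9716bda954 : CRef := CRef.mk (Pat.mk 0x60000000200000000000000000000000000000000000000000 0x400000007000000070000003be000001fe000003bf000003fc000001fc000003fc0000005800000008 10 10) 0 0 (step_sound _ 133 [(rh754f911ef7ea59d0.shift 2 1), (rh864260a7d7b309dd.shift 2 0), (rhb31291ab037e5234.shift 2 2), (rhc2f51d815d9786ac.shift 2 1), (rhd1f4591a1c263758.shift 2 2), (rhe1116e23db2992f3.shift 0 3), (rhe3533b853c774e11.shift 2 1)] (by decide +kernel))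
noncomputable def rha499b0650470d42c : CRef := CRef.mk (Pat.mk 0x3000000010000000000000000000000000 0x380000007c000000df000000ff000000fe0000007c0000003e0000001c 10 8) 0 0 (step_sound _ 99 [(rh69012675dfdb1a5b.shift 1 3), (rh6fe3c2b02582bfe7.shift 1 1), rhbc7da83500d1ae25] (by decide +kernel))
noncomputable def rh8576f78393f65a87 : CRef := CRef.mk (Pat.mk 0x200000003000000000000000000000000000000000 0x20000000280000003e000000ff000001fe000000fe0000007800000068 10 9) 0 0 (step_sound _ 100 [(rhcae357ed9ce22e25.shift 1 0), rhcf81b0d656e13c4b, (rhf9366b6a121593ef.shift 4 1)] (by decide +kernel))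
noncomputable def rhd5da095759202c3f : CRef := CRef.mk (Pat.mk 0x10000000180000000000000000000000000000000000000000 0x80000003f000000ff000000ff0000001e000000780000001e0000003c000000380000003800000028 10 8) 0 0 (step_sound _ 228 [(rh281c6819542c66e6.shift 3 2), (rh3815aac884922bf2.shift 1 0), (rh976a48eb1c80a12f.shift 3 4), (rhabffa445020a17ca.shift 0 4)] (by decide +kernel))
noncomputable def rh4527a78c394b3a03 : CRef := CRef.mk (Pat.mk 0x1000000018000000000000000000000000 0xc0000007c000000fc000001de000000f8000000ff0000007e0000007f 10 9) 0 0 (step_sound _ 67 [rh29f5abba2313e090, (rh57f10b74a2756142.shift 1 1), (rhcf80391c5046a495.shift 3 0), (rhf9366b6a121593ef.shift 3 0)] (by decide +kernel))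
noncomputable def rh1ee7f7ff402838b3 : CRef := CRef.mk (Pat.mk 0x4000000060000000000000000000000000 0x8000000780000007c0000077f000003fe000003bf0000003f0000003c 10 11) 0 0 (step_sound _ 100 [(rh064e8b8c23404c51.shift 1 2), rh541019ff5751e5fd, (rh54cb88645a09b699.shift 1 0), (rh662aab934ed6bc9a.shift 0 2), (rh88f2b27cebd43441.shift 1 0), rhb241e5a4dae57ed4, (rhe7f4dfafd38f3cab.shift 2 1), rhf376a83a820aa330, (rhf7bea59ef93a7704.shift 1 1)] (by decide +kernel))
noncomputable def rha140caa3f8651548 : CRef := CRef.mk (Pat.mk 0x2000000030000000000000000000000000 0x180000001c0000009e000003bf000001fe000003fe000000f800000070 10 10) 0 0 (step_sound _ 102 [(rh16dde4d5d9cebec6.shift 1 0), (rh3029ec18495cb920.shift 3 0), rh51b9ec0f78332fe1, (rh55e8f2b5fd790408.shift 1 0), (rh6fc232e51495be97.shift 1 0), (rh8d4853804b959281.shift 1 0), (rh94517f616f3ec81e.shift 3 0), (rheddb3a3f2dd35014.shift 2 2)] (by decide +kernel))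
noncomputable def rhc845c8dcefd7deae : CRef := CRef.mk (Pat.mk 0x400000006000000000000000000000000000000000 0x50000000f80000075e000003fc000003fe000000bf000000bc00000014 10 11) 0 0 (step_sound _ 132 [(rh13beb9f03bba3894.shift 1 1), (rh2a4c55ff30945d00.shift 1 1), (rh7cf8029eceed031a.shift 1 1), (rh98a51a0e62c1e1fa.shift 1 0), (rhb241e5a4dae57ed4.shift 0 1), (rhc49802432115d3c0.shift 1 1), (rhd4dbcf7e7025eab2.shift 1 1), (rhda4be10066af10dd.shift 2 1), (rheb0ed7d8c5b13267.shift 2 1)] (by decide +kernel))
noncomputable def rh7d6d22a190ef324b : CRef := CRef.mk (Pat.mk 0x80000000c0000000000000000000000000000000000000000 0x40000001c0000001c0000003c0000000f0000003f0000007b0000001f0000001e0000001c00000010 10 7) 0 0 (step_sound _ 131 [(rh01f80e4cd7e5e005.shift 0 1), (rh08012ed6c4594933.shift 0 3), (rh0e25fafcaa4806d2.shift 0 2), (rh6aad68a8ac05b310.shift 2 1), rh6c651ddb625464e4, (rh9354b7b2a570d770.shift 1 2)] (by decide +kernel))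
noncomputable def rh48efe918a91cea7e : CRef := CRef.mk (Pat.mk 0x1000000018000000000000000000000000 0x80000003f0000007e000000ff0000001e0000007e000000f80000003800000018 10 8) 0 0 (step_sound _ 164 [(rh281c6819542c66e6.shift 3 0), (rh7c82a439beb1354c.shift 0 2), (rhd64f76a341f4c837.shift 1 0)] (by decide +kernel))
noncomputable def rh2eeafee0c5e39d60 : CRef := CRef.mk (Pat.mk 0xc000000040000000000000000 0x60000001e0000001f0000007f0000003f0000000c0000000c0000000c 10 7) 0 0 (step_sound _ 131 [(rh13439ed99afe3284.shift 0 1), (rhcf80391c5046a495.shift 2 0), rhdefc3bfcc9ae1f83, (rhf9366b6a121593ef.shift 2 0)] (by decide +kernel))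
noncomputable def rhfc42a39b58d4a6d7 : CRef := CRef.mk (Pat.mk 0x18000000080000000000000000 0x2c0000007c000000fe000000ff000001fe000000f80000002800000008 10 9) 0 0 (step_sound _ 132 [(rha3d5b97bb6fd2364.shift 0 1), (rhadf429772c25fde0.shift 3 0), (rhc525dacc354c153b.shift 1 0)] (by decide +kernel))
noncomputable def rhdd7026c920d1707c : CRef := CRef.mk (Pat.mk 0x180000000800000000000000000000000000000000 0x100000001c0000001c0000003c000000f80000001c000000780000007f0000007e0000003c00000014 10 8) 0 0 (step_sound _ 99 [(rh215e11e099257d75.shift 3 2), (rha372503b77348d1c.shift 1 2), (rhb730ba14aa32bdb3.shift 3 2), rhd8032f56e47dfc26] (by decide +kernel))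
noncomputable def rhc98fc0781b2f1c4b : CRef := CRef.mk (Pat.mk 0x18000000080000000000000000000000000000000000000000 0xc0000001f0000007c000000780000001e0000001c0000001c0000001c00000014 10 7) 0 0 (step_sound _ 131 [(rh6dbe2e0c00e42e82.shift 0 3), (rhb14e69c65ac14819.shift 2 0), (rhffb8e5993241bf15.shift 2 1)] (by decide +kernel))
noncomputable def rhf1e60ba9e849b370 : CRef := CRef.mk (Pat.mk 0x30000000100000000000000000 0x780000007c000001fe0000003e000000f70000007e0000003c 10 9) 0 0 (step_sound _ 133 [(rh4821dcf828b9d7bf.shift 4 0), rh66bbef6aeb639d96, (rh72763884f5ad8add.shift 2 1), (rhcf80391c5046a495.shift 4 0)] (by decide +kernel))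
noncomputable def rh94601bcdf8b691de : CRef := CRef.mk (Pat.mk 0x3000000010000000000000000000000000 0x780000007c000001ff000001fe000001f7000000640000006000000060 10 9) 0 0 (step_sound _ 131 [(rh19bb708c5e5bb6cf.shift 2 2), (rh3285af83a6590a9b.shift 0 2), (rh88c33ddc81ae723f.shift 0 3), (rhb82248bc966f56ef.shift 1 0), rhc3c85f4f8a2d9f44, (rhea07c87beae5a536.shift 0 2), (rheacacc1b10be3bd9.shift 1 2), (rhf523acf13cdf2c94.shift 0 2)] (by decide +kernel))
noncomputable def rh2b9cef06e79793c0 : CRef := CRef.mk (Pat.mk 0x30000000100000000000000000 0x18000000b8000001fc000003ff000003fe000001f60000007c00000038 10 10) 0 0 (step_sound _ 133 [rh32bf501aae509e29, (rha3d5b97bb6fd2364.shift 1 1), (rhadf429772c25fde0.shift 4 0)] (by decide +kernel))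
noncomputable def rhd7d14480ac99795a : CRef := CRef.mk (Pat.mk 0x80000000c000000000000000000000000 0x3800000038000000380000007f000000ff000000f80000003800000010 10 8) 0 0 (step_sound _ 132 [(rh0bb882ba86b2372d.shift 0 3), rh53cb300bcb72518b, (rhdb35ae76ee936625.shift 2 0)] (by decide +kernel))
noncomputable def rhcda566fabb24e126 : CRef := CRef.mk (Pat.mk 0x4000000060000000000000000000000000 0x8000000b8000001bc00000fff000007fe0000075f0000005800000010 10 12) 0 0 (step_sound _ 100 [(rha11dfd15f08f96e3.shift 3 3), (rhb2c3a1862d9276a4.shift 1 0), (rhb3962d68b681fc5b.shift 3 1), (rhf7943763ae823400.shift 0 2)] (by decide +kernel))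
noncomputable def rh8a8fadf36ed035b8 : CRef := CRef.mk (Pat.mk 0x80000000c000000000000000000000000 0x14000000170000007f0000007f0000007b0000003f0000001e 10 7) 0 0 (step_sound _ 132 [(rh4cecdcfbfb36249b.shift 0 1), (rh574fdbf07bdd18b9.shift 0 3), rhb3ab7d3ee045c6c1, (rhd69c262cd33b94b3.shift 0 3)] (by decide +kernel))
noncomputable def rh71ad0e0557adca61 : CRef := CRef.mk (Pat.mk 0x100000001800000000000000000000000000000000 0x38000000380000003f000000fe000000ff000000fe0000001e00000030000000380000003800000028 10 8) 0 0 (step_sound _ 196 [(rh061932d7ff725553.shift 1 1), (rh23db3de14eb1a451.shift 3 0), (rh2b8febffdab40d6d.shift 1 3), (rh540bf8d98e2298c2.shift 1 1), (rh702c67f465988e00.shift 3 1), (rh9b3a1717e6b1849b.shift 0 4), (rhb80e4fd21d0a286d.shift 1 1), rhfed29cff0123a5be] (by decide +kernel))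
noncomputable def rh4c5256d484c9ea26 : CRef := CRef.mk (Pat.mk 0x100000001800000000000000000000000000000000 0x3800000038000000ff000000ff000000f8000000f00000007c0000003800000008 10 8) 0 0 (step_sound _ 100 [(rh4933e2c3207bfe45.shift 2 0), (rh53f934957931ef94.shift 2 2), (rh87262a1499897bd6.shift 2 0), (rh9354b7b2a570d770.shift 2 1), (rhca225377b428fd40.shift 2 0), (rhd88407d5523db5e1.shift 0 1)] (by decide +kernel))
noncomputable def rh00a1888f404def0b : CRef := CRef.mk (Pat.mk 0x100000001800000000000000000000000000000000 0x280000007f000000fe000000ff000000f70000003e000000f7000000380000003800000028 10 8) 0 0 (step_sound _ 196 [(rh27723e832001bdd4.shift 3 2), (rh77f6ed57757d68ca.shift 0 1), rh84f041d04e18cba7, (rh8f79ec8fcacf9ee5.shift 1 2), (rh922977ca81f98f4f.shift 0 3), (rh975a8684b31e01ff.shift 0 1), (rh9eeceed967210fa2.shift 0 1), (rhaadc474b9c4eb321.shift 0 1), (rhcd05a2b5c12db3b2.shift 1 0)] (by decide +kernel))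
noncomputable def rh92a058f80c84f8fc : CRef := CRef.mk (Pat.mk 0x80000000c00000000000000000000000000000000 0x40000001c0000001c0000003c0000000f0000003f0000007b0000001f0000001e00000014 10 7) 0 0 (step_sound _ 99 [(rh0217321854dc2510.shift 0 2), rh073bf8773d58b6e3, (rh0e25fafcaa4806d2.shift 0 1), rh8e4d52a2c0d49f87, (rh9354b7b2a570d770.shift 1 1), (rh999a508ab356fb00.shift 2 0)] (by decide +kernel))
noncomputable def rh96cdaa7456716b04 : CRef := CRef.mk (Pat.mk 0x1000000018000000000000000000000000 0x28000000380000003c000000f0000001f7000000fe000001ff0000007800000028 10 9) 0 0 (step_sound _ 164 [(rh281c6819542c66e6.shift 3 0), (rha7c5ba994ff3b3e3.shift 1 0), (rhac65dc3480361f0b.shift 0 2)] (by decide +kernel))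
noncomputable def rhfe3a6658695f980d : CRef := CRef.mk (Pat.mk 0x80000000c000000000000000000000000 0x1c0000003c0000003e000000ff0000007b0000001f0000001c0000001c00000014 10 8) 0 0 (step_sound _ 132 [(rh574fdbf07bdd18b9.shift 0 3), (rhda2a449c36185d19.shift 0 1), rhf285d9c81dd2102a] (by decide +kernel))
noncomputable def rh847c1b6595b4fef5 : CRef := CRef.mk (Pat.mk 0x100000001800000000000000000000000000000000 0x6800000078000000f8000000fe000000f7000000ff000003ff000000f0000000e0000000a0 10 10) 0 0 (step_sound _ 166 [(rh1d4d09423bd38850.shift 1 0), (rh614d0c5dadb34355.shift 0 1), (rh9dfb187eb0583c69.shift 3 0), (rha0f679e0205c27fe.shift 0 2), (rhcadd85ff2a73e8c7.shift 1 4)] (by decide +kernel))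
noncomputable def rh4a1a261f98d7f5c5 : CRef := CRef.mk (Pat.mk 0x200000003000000000000000000000000000000000 0x20000000280000076f000003fe000003ff000000fe0000007800000068 10 11) 0 0 (step_sound _ 100 [(rh8496f0f4cca67aa6.shift 1 0), (rh86d75c1795895823.shift 0 1), (rhcf80391c5046a495.shift 4 1)] (by decide +kernel))
noncomputable def rh220732bbc3e5dba6 : CRef := CRef.mk (Pat.mk 0x80000000c000000000000000000000000 0x80000001c0000003c0000007e0000007f0000007b000000ff000000ef0000000c00000004 10 8) 0 0 (step_sound _ 132 [(rh574fdbf07bdd18b9.shift 0 3), (rh6ebb28a40c7a33d6.shift 0 1), (rhf3c4779a1866500f.shift 1 1), rhf941adc6ecc49447] (by decide +kernel))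
noncomputable def rh8fe952b26455d458 : CRef := CRef.mk (Pat.mk 0x20000000300000000000000000000000000000000000000000 0x80000000d0000001f0000001fc000001ef000001fe000007fe000001e0000001f00000017000000010 10 11) 0 0 (step_sound _ 199 [(rh43cb9b87087debbc.shift 2 0), (rh614d0c5dadb34355.shift 1 2), (rh9dfb187eb0583c69.shift 4 1), (rhab00a2e5df2e91af.shift 0 2), (rhcadd85ff2a73e8c7.shift 2 5)] (by decide +kernel))
noncomputable def rh15005b1819f91e79 : CRef := CRef.mk (Pat.mk 0x100000001800000000000000000000000000000000 0x280000003f000000fe000000ff000000f00000001e000000f8000000380000003800000028 10 8) 0 0 (step_sound _ 196 [(rh281c6819542c66e6.shift 3 1), (rh68a777751bfeafdf.shift 3 3), rh84f041d04e18cba7, (rhcf3158974c0d1ac7.shift 1 1)] (by decide +kernel))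
noncomputable def rhf4a28d269907260d : CRef := CRef.mk (Pat.mk 0x4000000060000000000000000000000000 0x1000000058000003de000001fc000003be000000bf000000bc 10 10) 0 0 (step_sound _ 100 [(rh37fa50f05af30c38.shift 3 0), (rh3f396fc471e867d8.shift 2 1), (rha11dfd15f08f96e3.shift 3 3), (rhb12ffaec36122c99.shift 1 2), rhb241e5a4dae57ed4] (by decide +kernel))
noncomputable def rh169a6cd6a74afb07 : CRef := CRef.mk (Pat.mk 0x2000000030000000000000000000000000 0xc0000000c8000000c8000000ef000000fe000001ff0000007600000074 10 9) 0 0 (step_sound _ 99 [rh3de7c490106c018b, (rh3f396fc471e867d8.shift 1 1), (rhb175df23a629fb3e.shift 2 0), (rhdcb3b287552ee2e7.shift 1 0), (rhfd01510815188b45.shift 0 2)] (by decide +kernel))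
noncomputable def rh792ba69c09e15808 : CRef := CRef.mk (Pat.mk 0x1000000018000000000000000000000000 0x280000003f000000fe000000ff000000f0000000f8000000ff0000003f00000008 10 8) 0 0 (step_sound _ 164 [(rh281c6819542c66e6.shift 3 0), (rh4ea54f50a7b21957.shift 0 1), (rh58f639f68a22ed16.shift 0 2)] (by decide +kernel))
noncomputable def rhdf6b01efba54a853 : CRef := CRef.mk (Pat.mk 0x400000006000000000000000000000000000000000 0xa0000000e0000000f0000000f80000075e000003fc000003fe000000ff000000bc0000009c 10 11) 0 0 (step_sound _ 132 [(rh13beb9f03bba3894.shift 1 1), (rh2a4c55ff30945d00.shift 1 1), (rh3678ff18c2db4615.shift 2 1), (rh57b2f1c6608c1de3.shift 2 0), (rh63f5f8382dd5a29d.shift 1 1), (rh98a51a0e62c1e1fa.shift 1 0), (rh9d0c382533e09a5f.shift 2 1), (rhb241e5a4dae57ed4.shift 0 1), (rhc41da12e8dfee93c.shift 2 0), (rhd84d8aa26dfbdfdf.shift 1 1)] (by decide +kernel))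
noncomputable def rha50c716df7af90e0 : CRef := CRef.mk (Pat.mk 0x1000000018000000000000000000000000 0x280000003f0000007e000000ff000000f00000003e000000f80000003800000008 10 8) 0 0 (step_sound _ 164 [(rh281c6819542c66e6.shift 3 0), (rhd0eb5f1d0330ff2a.shift 0 2), (rhd560edd04d51354c.shift 1 1)] (by decide +kernel))
noncomputable def rh1b9623392bf73729 : CRef := CRef.mk (Pat.mk 0x18000000080000000000000000 0x2000000030000000f0000001ff000003fe000003ef0000007800000038 10 10) 0 0 (step_sound _ 132 [(rh4821dcf828b9d7bf.shift 3 0), (rh68a3acb25a4cb697.shift 1 0), rh77a92409ff311d11] (by decide +kernel))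
noncomputable def rhd4b0f5631ec51f64 : CRef := CRef.mk (Pat.mk 0x3000000010000000000000000000000000 0x2000000038000000380000001c0000007e000000ff0000001e0000003f0000003e0000003c 10 8) 0 0 (step_sound _ 99 [(rh0bb882ba86b2372d.shift 1 3), (rha2d73de22351e153.shift 1 0), rhffe7a01ca39d5eee] (by decide +kernel))
noncomputable def rhff1bb46b264cebb4 : CRef := CRef.mk (Pat.mk 0x18000000080000000000000000 0xc0000007c000000fc000001f8000003fe000001ef0000007c0000003c 10 10) 0 0 (step_sound _ 132 [(rh291e78b53c040c19.shift 1 1), (rh4821dcf828b9d7bf.shift 3 0), (rh4b6f765f1ba3c3d6.shift 1 0), rh75b7816aea5eb733] (by decide +kernel))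
noncomputable def rhde52e8334fa61986 : CRef := CRef.mk (Pat.mk 0x18000000080000000000000000000000000000000000000000 0x4000000fe000000ff0000001f0000000f0000007c0000001f0000001e0000001c00000014 10 8) 0 0 (step_sound _ 131 [(rh19e48db1e9b4e625.shift 2 1), (rh3a18a042b76ecf01.shift 0 3), rh5403d089d9837b82, (rhd8a23c2c8d7639dd.shift 0 2), (rhe223b9f3838155d3.shift 1 2)] (by decide +kernel))
noncomputable def rh497c3fdc5e6f3936 : CRef := CRef.mk (Pat.mk 0x1800000008000000000000000000000000 0x3c0000007c000003ff000001fe000003ee000000e6000000e6000000a6 10 10) 0 0 (step_sound _ 133 [(rh15815aa9452e9695.shift 2 3), (rh2a386e6e80d4f906.shift 2 2), rha602c15111dc9a57, rhbe125b5173b0f695, (rhec89969cfdaf3653.shift 2 1)] (by decide +kernel))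
noncomputable def rhc8bcca589a5c9d8b : CRef := CRef.mk (Pat.mk 0x300000001000000000000000000000000000000000 0xa0000002e000000be000003fe000001fe000001df000000fe0000007e0000003e00000028 10 10) 0 0 (step_sound _ 130 [(rh58f2495f770b4e21.shift 0 1), (rh8259adcf7cb38d51.shift 1 2), (rhbac3563897405090.shift 2 2), (rhdc7e334798138c83.shift 1 0), (rhedf3a755fe019897.shift 1 4)] (by decide +kernel))
noncomputable def rh48cc57335f42f925 : CRef := CRef.mk (Pat.mk 0x80000000c0000000000000000000000000000000000000000 0x140000001c0000007c0000007e0000007f0000007e0000003c0000003c0000001c00000010 10 7) 0 0 (step_sound _ 196 [(rhd69c262cd33b94b3.shift 0 5), rhdbcc33134ec8565b, (rhea2f2bb7cb3ccd6e.shift 1 2)] (by decide +kernel))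
noncomputable def rh6a266292678c4fc1 : CRef := CRef.mk (Pat.mk 0x80000000c000000000000000000000000 0x3c0000007e000000ff0000007f0000003f0000001f0000000e00000004 10 8) 0 0 (step_sound _ 132 [(rh0bb882ba86b2372d.shift 0 3), rh0dc66477633c86a1, (rh829b3c0bc98191ec.shift 1 1)] (by decide +kernel))
noncomputable def rhc7d728bf3b99a715 : CRef := CRef.mk (Pat.mk 0x80000000c000000000000000000000000 0x380000007e0000003f0000007f000000ff000000ef0000000e00000004 10 8) 0 0 (step_sound _ 132 [rh0dc66477633c86a1, (rhd69c262cd33b94b3.shift 0 3), (rhf3c4779a1866500f.shift 1 1)] (by decide +kernel))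
noncomputable def rh8fc6e2fffd1d6347 : CRef := CRef.mk (Pat.mk 0x100000001800000000000000000000000000000000 0x28000000380000003f0000007e0000007f000000fe0000001c000000f8000000380000003800000010 10 8) 0 0 (step_sound _ 196 [(rh061932d7ff725553.shift 1 1), (rh49a9dad91ab05935.shift 2 1), rh7364a2573fcd3f46, (rhc11c3bc5b182ec8d.shift 3 3), (rhd7fec266624cb6ac.shift 1 3), (rhfafeb437ceb8396d.shift 3 1)] (by decide +kernel))
noncomputable def rhaa301dab47c06c04 : CRef := CRef.mk (Pat.mk 0x80000000c00000000000000000000000000000000 0x34000000760000007f0000007f0000007f0000003c0000003c00000004 10 7) 0 0 (step_sound _ 164 [(rh69012675dfdb1a5b.shift 0 4), (rhbd36a04da305b6d0.shift 1 0), (rhd69c262cd33b94b3.shift 0 4), (rhf577913770b5ed91.shift 0 1)] (by decide +kernel))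
noncomputable def rh2c6f545decea114c : CRef := CRef.mk (Pat.mk 0x1000000018000000000000000000000000 0x280000003f0000007e000000ff000000f8000000f8000000ff0000007f00000008 10 8) 0 0 (step_sound _ 164 [(rh281c6819542c66e6.shift 3 0), (rh60d32d9bd50fe749.shift 0 2), rh96417bcd5952d6f4] (by decide +kernel))
noncomputable def rhdbece50ce96554dd : CRef := CRef.mk (Pat.mk 0x80000000c00000000000000000000000000000000 0x140000001c0000001e0000003f0000007f000000ff000000fc0000001c0000001c00000004 10 8) 0 0 (step_sound _ 195 [(rh281c6819542c66e6.shift 2 1), (rh4b1fbf527c56e1f3.shift 0 2), rhb9f754b3d868d8c1] (by decide +kernel))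
noncomputable def rh4d2303eb6683e820 : CRef := CRef.mk (Pat.mk 0x3000000010000000000000000000000000 0x300000003c0000007e000000ff0000007e0000001e0000001800000018 10 8) 0 0 (step_sound _ 99 [rh2c9306438e7e4315, rh5a932576a1b27c3d, (rh69012675dfdb1a5b.shift 1 3)] (by decide +kernel))
noncomputable def rhef9e4118411c7d4f : CRef := CRef.mk (Pat.mk 0x60000000200000000000000000 0xe0000000e0000003f7000003fe000007ff000003e0000000e0 10 11) 0 0 (step_sound _ 134 [rh12376ac168eb8d50, (rh231c2f4fea12af33.shift 3 0), (rh4821dcf828b9d7bf.shift 5 0)] (by decide +kernel))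
noncomputable def rh227ee25dc09e4e40 : CRef := CRef.mk (Pat.mk 0x3000000010000000000000000000000000 0x20000000380000007c000000f8000000fc000000fe0000007f0000007c0000003c 10 8) 0 0 (step_sound _ 99 [rh40b828e533978e9b, (rh4d6d879f677d78e3.shift 2 0), (rh69012675dfdb1a5b.shift 1 3)] (by decide +kernel))
noncomputable def rh8d654790e366eef6 : CRef := CRef.mk (Pat.mk 0x3000000010000000000000000000000000 0x20000000380000007c000000f7000000ff000000fe0000007e0000007e0000003c 10 8) 0 0 (step_sound _ 99 [(rh4d6d879f677d78e3.shift 2 0), (rh69012675dfdb1a5b.shift 1 3), rhd7902f3ad1ed88da] (by decide +kernel))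
noncomputable def rh92061dcd8ee1ca78 : CRef := CRef.mk (Pat.mk 0x3000000010000000000000000000000000 0x10000000100000003c0000003f000000fe000000fe000000fe0000005e0000001800000008 10 8) 0 0 (step_sound _ 99 [(rh5dfe9d13e38e51fb.shift 1 0), (rh69012675dfdb1a5b.shift 1 3), rhbaca2e47b5eb4c17] (by decide +kernel))
noncomputable def rh13c3773858edf5c5 : CRef := CRef.mk (Pat.mk 0xc000000040000000000000000 0x1e0000001e0000007f0000007f000000fe0000007c00000014 10 8) 0 0 (step_sound _ 131 [rh231c2f4fea12af33, (rh4821dcf828b9d7bf.shift 2 0), rhc8b5fc8bafb7aab2] (by decide +kernel))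
noncomputable def rhcb664218a5f1bf72 : CRef := CRef.mk (Pat.mk 0x180000000800000000000000000000000000000000 0x26000000770000007f0000007f0000003f0000003c0000001c00000014 10 7) 0 0 (step_sound _ 130 [(rh64453aec77d05e67.shift 1 0), (rh69012675dfdb1a5b.shift 0 4), (rh7c1ecc3fff9c5881.shift 0 1), (rhd69c262cd33b94b3.shift 0 4)] (by decide +kernel))
noncomputable def rha974553cba24c591 : CRef := CRef.mk (Pat.mk 0xc000000040000000000000000 0x1c0000001e0000003f0000007c0000007f0000007e0000001c 10 7) 0 0 (step_sound _ 131 [(rh4821dcf828b9d7bf.shift 2 0), rh80df0ed9eb424ce8, (rhcf80391c5046a495.shift 2 0), rhdf1c8dd8d0773106] (by decide +kernel))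
noncomputable def rh0e089c4838ff7030 : CRef := CRef.mk (Pat.mk 0x18000000080000000000000000 0xe0000003e0000003f000000ff0000001f0000007f0000003c0000001c 10 8) 0 0 (step_sound _ 132 [rh2c7947ebd6a8f541, (rh2fb041970a6592d5.shift 1 1), (rhcf80391c5046a495.shift 3 0), (rhf9366b6a121593ef.shift 3 0)] (by decide +kernel))
noncomputable def rhfea9977eb01ebc94 : CRef := CRef.mk (Pat.mk 0x3000000010000000000000000000000000 0x20000000380000003c0000003f000000fe000000fe000001fe000001e80000002800000008 10 9) 0 0 (step_sound _ 99 [(rh69012675dfdb1a5b.shift 1 3), (rha069de78e17f0f6e.shift 1 1), rhbaca2e47b5eb4c17] (by decide +kernel))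
noncomputable def rh13d211ec0c7cfd9a : CRef := CRef.mk (Pat.mk 0x1800000008000000000000000000000000000000000000000000000000 0x140000001c0000003c000000ef0000007f000000ff0000007f0000003f0000001c0000001c0000001c00000010 10 8) 0 0 (step_sound _ 163 [(rh448bdeb6ca9512d9.shift 0 2), (rh474caba39a3d5209.shift 0 4), (rh88912ad0ac509f69.shift 0 1), (rh8b1fdc3dd67e0291.shift 0 2), (rhc3854eccd919850d.shift 0 3), (rhdb4b5cc2f7be1754.shift 0 2), rhfe8a8bba99d929a5] (by decide +kernel))
noncomputable def rh92a367c1e56397f5 : CRef := CRef.mk (Pat.mk 0x30000000100000000000000000 0x7800000078000001fe000001fe000003f7000001fc00000078 10 10) 0 0 (step_sound _ 133 [(rh231c2f4fea12af33.shift 2 0), rh67c06adb721de4f4, (rhf9366b6a121593ef.shift 4 0)] (by decide +kernel))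
noncomputable def rh3c41b96f288e3bc5 : CRef := CRef.mk (Pat.mk 0x3000000010000000000000000000000000 0x70000000f80000007e000000ff000001fe0000003e0000001c00000018 10 9) 0 0 (step_sound _ 99 [rh2c9306438e7e4315, (rh611f359e4d96ca87.shift 1 0), (rh69012675dfdb1a5b.shift 1 3)] (by decide +kernel))
noncomputable def rhd730c4025d074e0e : CRef := CRef.mk (Pat.mk 0x3000000010000000000000000000000000 0x2000000030000000f8000000fc000000fe000000ff0000007c0000003c 10 8) 0 0 (step_sound _ 99 [rh40b828e533978e9b, (rh69012675dfdb1a5b.shift 1 3), (rhcb47d198534baa8b.shift 2 0)] (by decide +kernel))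
noncomputable def rh04eb772b57bb928a : CRef := CRef.mk (Pat.mk 0x3000000010000000000000000000000000 0x2000000030000000f7000000ff000000fe000000fe0000007e0000003c 10 8) 0 0 (step_sound _ 99 [(rh69012675dfdb1a5b.shift 1 3), (rhcb47d198534baa8b.shift 2 0), rhd7902f3ad1ed88da] (by decide +kernel))
noncomputable def rh285b0b77267d200b : CRef := CRef.mk (Pat.mk 0x3000000010000000000000000000000000 0x70000000f80000007e000000ff000001fe000001de0000001c00000018 10 9) 0 0 (step_sound _ 99 [rh2c9306438e7e4315, (rh69012675dfdb1a5b.shift 1 3), (rh6b72f3f65da758f3.shift 1 1)] (by decide +kernel))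
noncomputable def rh451c7af3dd8b8fa3 : CRef := CRef.mk (Pat.mk 0x3000000010000000000000000000000000 0x180000007e000000ff0000007e0000007e000000f800000078 10 8) 0 0 (step_sound _ 99 [rh2c9306438e7e4315, (rh69012675dfdb1a5b.shift 1 3), (rhaa794f2c037066f8.shift 1 0)] (by decide +kernel))
noncomputable def rh70adfd20eefafa3e : CRef := CRef.mk (Pat.mk 0x1800000008000000000000000000000000 0x300000003c0000003c000000ff000000fe000001fc000000fc0000003c00000014 10 9) 0 0 (step_sound _ 196 [(rh02ef15e22aa7db92.shift 3 1), (rh16cbd58a1619e6a8.shift 3 1), rh22a7472493164a0f, (rh69c3046fd3a11bd9.shift 1 1), (rhe3594df60dc9fa63.shift 0 1)] (by decide +kernel))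
noncomputable def rhf3158403f04dd298 : CRef := CRef.mk (Pat.mk 0x1800000008000000000000000000000000 0x1000000050000000770000007f000000ff000000ff000000fe0000003c 10 8) 0 0 (step_sound _ 98 [rh250ed4026b3b8db7, (rh69012675dfdb1a5b.shift 0 3), (rhd69c262cd33b94b3.shift 0 3), rhe9bb0e767b7b155e] (by decide +kernel))
noncomputable def rhd7967fd279e28b35 : CRef := CRef.mk (Pat.mk 0x18000000080000000000000000000000000000000000000000 0x3c0000007c0000003e00000078000000ff000000fe0000003e0000001c0000001c00000010 10 8) 0 0 (step_sound _ 162 [(rh2f253879b61bd692.shift 1 2), (rh69012675dfdb1a5b.shift 0 5), rha9b3c90c600cf292] (by decide +kernel))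
noncomputable def rh92dc7e5959de2f42 : CRef := CRef.mk (Pat.mk 0x60000000200000000000000000 0x20000000f0000001f0000001ff0000007f000001fe000000f800000070 10 9) 0 0 (step_sound _ 134 [(rh64e0a4b5e3ecf0d1.shift 2 0), rh745138e451d0b027, (rh99c4bbea836be6b9.shift 0 1), (rhcf80391c5046a495.shift 5 0)] (by decide +kernel))
noncomputable def rh629c81d74b341976 : CRef := CRef.mk (Pat.mk 0x1800000008000000000000000000000000 0x100000001c0000001c0000001c0000007e0000007f000000ff000000f70000001600000006 10 8) 0 0 (step_sound _ 98 [rh1ed5213679099758, (rh69012675dfdb1a5b.shift 0 3), (rh78098dbfc93bd0b2.shift 1 0)] (by decide +kernel))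
noncomputable def rh6a9e871044121cb8 : CRef := CRef.mk (Pat.mk 0x3000000010000000000000000000000000 0x800000068000000f8000003fe000001fe000003d7000001f8000001f8000001e8 10 10) 0 0 (step_sound _ 134 [(rh0f33315b66691ea9.shift 0 1), (rh1f90d58d3e1dee25.shift 1 0), (rh4c183ebc1ecce925.shift 1 0), (rh5c1bfb6277f2744a.shift 1 0), (rh600705ec2dbc591d.shift 2 1), (rh7e3b058dc2b23a0a.shift 0 1), (rha1ffaf16110c502b.shift 2 1), (rha5250ddb8c1959ff.shift 2 1), (rhdb8538f02ff29e74.shift 3 0)] (by decide +kernel))
noncomputable def rha6f4e79d978684e0 : CRef := CRef.mk (Pat.mk 0x180000000800000000000000000000000000000000 0x80000001c0000001c0000007c0000007e0000007f0000007e0000003c0000001c00000014 10 7) 0 0 (step_sound _ 130 [(rh69012675dfdb1a5b.shift 0 4), rhab61109752296fba, (rhcb47d198534baa8b.shift 1 1)] (by decide +kernel))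
noncomputable def rh03c3cc883dd4dfaa : CRef := CRef.mk (Pat.mk 0x30000000100000000000000000000000000000000000000000 0x280000002c000000ff000000ff000000fe000000fe0000007e0000003c0000003800000008 10 8) 0 0 (step_sound _ 163 [(rh055942ffd39fdebb.shift 0 1), (rh69012675dfdb1a5b.shift 1 5), (rhfbbaf1eea390c0fd.shift 1 0)] (by decide +kernel))
noncomputable def rh032a7d2917781dcc : CRef := CRef.mk (Pat.mk 0x3000000010000000000000000000000000 0x2000000030000000f7000000ff000000fe000000fe0000007e0000003c 10 8) 0 0 (step_sound _ 99 [rh02d49e0241177709, (rh69012675dfdb1a5b.shift 1 3), (rhcb47d198534baa8b.shift 2 0)] (by decide +kernel))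
noncomputable def rhca80e57ffe66d861 : CRef := CRef.mk (Pat.mk 0x18000000080000000000000000 0x1c0000001e000000ff0000007f000000fc0000003c0000000c 10 8) 0 0 (step_sound _ 132 [rh23c7f30a131fcebf, (rha173c2f44c64853d.shift 1 1), (rhcf80391c5046a495.shift 3 0)] (by decide +kernel))
noncomputable def rh8b63e487af00751a : CRef := CRef.mk (Pat.mk 0x1800000008000000000000000000000000 0x1c0000005e000000770000007f0000007f0000007f0000003e0000003c 10 7) 0 0 (step_sound _ 98 [(rh69012675dfdb1a5b.shift 0 3), rhc4afa0bbc4d430fa, (rhd69c262cd33b94b3.shift 0 3), rheea9fbdb433297ae] (by decide +kernel))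
noncomputable def rh46ebb8ba85beaaf4 : CRef := CRef.mk (Pat.mk 0x18000000080000000000000000 0x1c0000001e0000007e000000f8000000ff0000003f0000001c 10 8) 0 0 (step_sound _ 132 [rh67956ff20dd854df, (rh7b3d029f866a350d.shift 0 1), (rhcf80391c5046a495.shift 3 0)] (by decide +kernel))
noncomputable def rha40ea76fb5dabe7d : CRef := CRef.mk (Pat.mk 0x18000000080000000000000000 0xe0000001e0000001f000000ff0000001f000000ff0000003c0000001c 10 8) 0 0 (step_sound _ 132 [rh2c7947ebd6a8f541, (rha173c2f44c64853d.shift 1 1), (rhcf80391c5046a495.shift 3 0), (rhf9366b6a121593ef.shift 3 0)] (by decide +kernel))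
noncomputable def rha1d0390c32d38721 : CRef := CRef.mk (Pat.mk 0x3000000010000000000000000000000000 0x80000001c0000001f000000ff000000fe0000007f0000003c0000001c 10 8) 0 0 (step_sound _ 99 [(rh69012675dfdb1a5b.shift 1 3), (rha3c7ab18665de4e2.shift 2 1), rhdf90a90e60e28b91] (by decide +kernel))
noncomputable def rh5a58fc624ad01528 : CRef := CRef.mk (Pat.mk 0x2000000020000000100000000000000000 0x100000007000000074000001fe000001ff000001fe000000be00000038 10 9) 0 0 (step_sound _ 100 [(rh4821dcf828b9d7bf.shift 4 0), rh888b4e1ceba24032, (rhcf80391c5046a495.shift 4 0), (rhff90d23fe8fa5076.shift 1 0)] (by decide +kernel))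
noncomputable def rh150690dccca5934b : CRef := CRef.mk (Pat.mk 0x1000000010000000080000000000000000 0x3800000078000000fe000000f8000000ff000000ff0000003c 10 8) 0 0 (step_sound _ 99 [(rh34f43a0fcb31c0ea.shift 0 1), (rh4821dcf828b9d7bf.shift 3 0), rh892e4a4eaaf26479, (rhcf80391c5046a495.shift 3 0)] (by decide +kernel))
noncomputable def rhedf967c29e982aa2 : CRef := CRef.mk (Pat.mk 0x400000004000000020000000000000000000000000 0xe0000001e8000001fc000001ff0000007c000001f0000000f0000000c0 10 9) 0 0 (step_sound _ 133 [(rhcf80391c5046a495.shift 5 1), rhea25c5a25609a4c3, (rhec7c26a181e35258.shift 2 1), (rhf9366b6a121593ef.shift 5 1)] (by decide +kernel))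
noncomputable def rh3d55ece4e8bb4255 : CRef := CRef.mk (Pat.mk 0x4000000040000000200000000000000000 0x400000004000001fff00000ffe00001ffe000001a0000001a0 10 13) 0 0 (step_sound _ 101 [(rh820f8249febc57ee.shift 2 0), (rhadf429772c25fde0.shift 5 0), rhded5d9b6536d4c1d] (by decide +kernel))
noncomputable def rhf987838b9f457ef8 : CRef := CRef.mk (Pat.mk 0x100000001000000008000000000000000000000000 0x38000000780000001e0000007f000000ff0000007f0000003c00000034 10 8) 0 0 (step_sound _ 131 [rh2db85e4141d5226e, (rh8d37d9c243f876fc.shift 0 2), (rhf9366b6a121593ef.shift 3 1)] (by decide +kernel))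
noncomputable def rhb3c2ca17969ca821 : CRef := CRef.mk (Pat.mk 0x100000001000000008000000000000000000000000 0x1000000030000001f0000000ff000001ff000001ff0000007c00000028 10 9) 0 0 (step_sound _ 67 [(rh53c798c09177b7db.shift 3 0), (rha46f594bfc19ea4b.shift 1 1), (rhcc26fa07952b4acf.shift 0 1), (rhe83f0679b86b6627.shift 3 0), rhfc701804b8bf0eb7] (by decide +kernel))
noncomputable def rhf2bb8f093f141e25 : CRef := CRef.mk (Pat.mk 0x20000000200000001000000000 0x60000000700000007000000070000000f00000007c000003ff000001fe000003ee 10 10) 0 0 (step_sound _ 133 [rh4b618e14aac18bb5, (rh96d31e31819c4875.shift 2 0), (rhb77bfac3e9efecea.shift 4 1), (rhc23ec26ef2c84235.shift 4 1), (rhe16036ff578a11df.shift 4 1)] (by decide +kernel))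
noncomputable def rh5ab94470f9d5c79d : CRef := CRef.mk (Pat.mk 0x10000000100000000800000000000000000000000000000000 0x2000000068000000f8000000ff000000fe000000ff0000007f0000003800000038 10 8) 0 0 (step_sound _ 132 [(rh2139ae8f8410f476.shift 1 1), (rh2c0c758b54558f4f.shift 1 1), (rh442cbd6ebb3abbee.shift 0 1), (rh61fc42580820eb24.shift 0 2), (rh6898644f602692ce.shift 0 2), rh6cf529da83b839a5, (rh75cc629df98441b1.shift 1 0), (rha5603f428b0fa72c.shift 1 0), (rhd64f76a341f4c837.shift 1 1), (rhf49080576766fbe6.shift 1 1)] (by decide +kernel))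
noncomputable def rh507c469b88b41908 : CRef := CRef.mk (Pat.mk 0x4000000040000000200000000000000000 0x14000000140000007ff000007fe00000fbf000001e0000000e0 10 12) 0 0 (step_sound _ 101 [rh12376ac168eb8d50, (rh4821dcf828b9d7bf.shift 5 0), (rh886af78766c44e51.shift 2 1)] (by decide +kernel))
noncomputable def rh000fdeff7e2ef4f5 : CRef := CRef.mk (Pat.mk 0x100000001000000008000000000000000000000000 0xc0000003e0000003e000000fc000000fe0000003f0000001f0000001c00000010 10 8) 0 0 (step_sound _ 131 [(rh1ef71df0d72a95e8.shift 1 0), (rh29e69e95f36ca53b.shift 0 1), (rhcf80391c5046a495.shift 3 1), (rhf9366b6a121593ef.shift 3 1)] (by decide +kernel))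
noncomputable def rh773e8cd5147c44a7 : CRef := CRef.mk (Pat.mk 0x4000000040000000200000000000000000 0x4000000040000007f7000007fe00000fff000001e0000000e0 10 12) 0 0 (step_sound _ 101 [rh12376ac168eb8d50, (rhcf80391c5046a495.shift 5 0), (rheb526220df426aaa.shift 2 0)] (by decide +kernel))
noncomputable def rh44c349faa9230641 : CRef := CRef.mk (Pat.mk 0x100000001000000008000000000000000000000000 0x3e0000003e000000fc0000007e0000001f0000007c0000003c00000010 10 8) 0 0 (step_sound _ 131 [(rh194b7700adef04d5.shift 0 1), (rh1ef71df0d72a95e8.shift 1 0), (rhcf80391c5046a495.shift 3 1), (rhf9366b6a121593ef.shift 3 1)] (by decide +kernel))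
noncomputable def rh5270247fd2f28323 : CRef := CRef.mk (Pat.mk 0x4000000040000000200000000000000000 0x4000000070000007f7000003fe000003fe000003bc000000b8 10 11) 0 0 (step_sound _ 101 [(rha1a1c1d3c2377321.shift 2 0), (rhadf429772c25fde0.shift 5 0), rhded5d9b6536d4c1d] (by decide +kernel))
noncomputable def rh827e025cf2a6c5a5 : CRef := CRef.mk (Pat.mk 0x100000001000000008000000000000000000000000 0x1800000018000000180000007f000000ff0000007f0000003800000030 10 8) 0 0 (step_sound _ 131 [(rh98f9af3a84ea18f6.shift 1 2), rhc24e36b1d4b68e2c, (rhf9366b6a121593ef.shift 3 1)] (by decide +kernel))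
noncomputable def rh2b11612b44616c22 : CRef := CRef.mk (Pat.mk 0x100000001000000008000000000000000000000000 0x380000007c000001f4000000ff000001ff000000ff0000003e00000034 10 9) 0 0 (step_sound _ 131 [(rh231c2f4fea12af33.shift 1 1), rh656bfe4e8b79dd42, (rhcf80391c5046a495.shift 3 1), (rhde017d2777db7f29.shift 0 1)] (by decide +kernel))
noncomputable def rh5ec496ffd5249f96 : CRef := CRef.mk (Pat.mk 0x2000000020000000100000000000000000 0x700000007000000070000000700000007c000001f0000003ff000001fe000003ee00000040 10 10) 0 0 (step_sound _ 165 [(rh133df594d06516bf.shift 2 0), (rh4b618e14aac18bb5.shift 0 1), (rhb77bfac3e9efecea.shift 4 2), (rhc23ec26ef2c84235.shift 4 2), (rhe16036ff578a11df.shift 4 2)] (by decide +kernel))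
noncomputable def rh1ffaad16f98f374f : CRef := CRef.mk (Pat.mk 0x800000008000000040000000000000000 0x1c0000001c0000007c0000007f0000003e0000001c000000780000001e0000001c00000010 10 7) 0 0 (step_sound _ 163 [(rh4f851ffacf16f80e.shift 2 0), (rh539193f08ef51f2a.shift 0 2), (rh86aa94d7c0c1e10d.shift 1 1), (rhba8fc30eb353ed18.shift 2 1)] (by decide +kernel))
noncomputable def rhc0fb477b016a7c7f : CRef := CRef.mk (Pat.mk 0x400000004000000020000000000000000000000000 0x200000007000000170000007f7000003fe000007be000001f0000000f800000010 10 11) 0 0 (step_sound _ 133 [(rh2ac10a22dad815e3.shift 2 0), (rhde017d2777db7f29.shift 2 1), (rhded5d9b6536d4c1d.shift 0 1), (rhf9366b6a121593ef.shift 5 1)] (by decide +kernel))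
noncomputable def rh1b4253921b5c8797 : CRef := CRef.mk (Pat.mk 0x2000000020000000100000000000000000 0x78000000fc000003fe000001fe000003bf0000003800000010 10 10) 0 0 (step_sound _ 100 [rh77a3c19565c82b09, (rhed1670dadb1fb9ea.shift 2 1), (rhf9366b6a121593ef.shift 4 0)] (by decide +kernel))
noncomputable def rha6b3d049e9ac0110 : CRef := CRef.mk (Pat.mk 0x200000002000000010000000000000000000000000 0x70000000f8000003be000001ff000001fe0000007e0000005800000008 10 10) 0 0 (step_sound _ 132 [rh0a90d72d5fbb7996, (rh5bc97682f9aecd01.shift 1 1), (rhf9366b6a121593ef.shift 4 1)] (by decide +kernel))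
noncomputable def rhaac875915ff12605 : CRef := CRef.mk (Pat.mk 0x100000001000000008000000000000000000000000 0x5000000056000001f7000001ff000003ff0000003f0000003c00000034 10 10) 0 0 (step_sound _ 131 [rh6b907d437090f844, (rhcf80391c5046a495.shift 3 1), (rhde737bd249003443.shift 0 1)] (by decide +kernel))
noncomputable def rh60b0eca740a3d02d : CRef := CRef.mk (Pat.mk 0x1000000010000000080000000000000000 0xe0000003e0000003f000000ff0000001f0000007f0000003c0000001c 10 8) 0 0 (step_sound _ 99 [rh2c7947ebd6a8f541, (rh2fb041970a6592d5.shift 1 1), (rhcf80391c5046a495.shift 3 0), (rhf9366b6a121593ef.shift 3 0)] (by decide +kernel))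
noncomputable def rh19743edf76ad7309 : CRef := CRef.mk (Pat.mk 0x800000008000000040000000000000000 0x1c0000001c0000001c0000001c0000001f0000007c0000007f0000007e0000001b00000010 10 7) 0 0 (step_sound _ 163 [rh133df594d06516bf, rh4c51365944773469, (rhb77bfac3e9efecea.shift 2 2), (rhc23ec26ef2c84235.shift 2 2), (rhe16036ff578a11df.shift 2 2)] (by decide +kernel))
noncomputable def rhe012c35eca720343 : CRef := CRef.mk (Pat.mk 0x100000001000000008000000000000000000000000 0xc0000000c0000006e000000ff000000ff000000ff0000003f0000003e00000034 10 8) 0 0 (step_sound _ 131 [(rh1dbe39f379ef2320.shift 0 1), (rh57cbb1cacfd008aa.shift 0 1), rhb489efbe28a1319b, (rhc8b5fc8bafb7aab2.shift 1 1), rhcfdea4488fcf8ca2, (rhd14ba44831a635a2.shift 1 0), rhd8d12af847ec92e1, (rhe190574dc8ba41f9.shift 1 1)] (by decide +kernel))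
noncomputable def rhdd7f85af5ae391c6 : CRef := CRef.mk (Pat.mk 0x2000000020000000100000000000000000 0x1c0000003c0000007e000003fe000001fe000003df0000007c00000078 10 10) 0 0 (step_sound _ 100 [(rh23c7f30a131fcebf.shift 1 0), (rh2c7947ebd6a8f541.shift 1 0), (rh328a8a70e52ed906.shift 0 1), (rh4821dcf828b9d7bf.shift 4 0), (rh91317bda041b6848.shift 2 0), (rhca2df7841487111d.shift 1 0)] (by decide +kernel))
noncomputable def rhf202842089b52c3b : CRef := CRef.mk (Pat.mk 0x18000000080000000000000000 0x3c0000007e000003ff000001fe000000fe0000001c00000008 10 10) 0 0 (step_sound _ 132 [rh6b279945f0ca7631, (rh8d90cb8091a445a2.shift 1 1), (rhf9366b6a121593ef.shift 3 0)] (by decide +kernel))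
noncomputable def rhf9d9a46841e95782 : CRef := CRef.mk (Pat.mk 0x3000000010000000000000000000000000 0x7000000070000000fe000000ff000000fe000000f80000007c00000038 10 8) 0 0 (step_sound _ 99 [rh21ff0e58722de02e, (rh69012675dfdb1a5b.shift 1 3), (rh919bef62412ea362.shift 1 0)] (by decide +kernel))
noncomputable def rha06ec271162da3ad : CRef := CRef.mk (Pat.mk 0x1800000008000000000000000000000000 0x380000003c0000007e0000007f0000007f000000380000001800000018 10 7) 0 0 (step_sound _ 98 [(rh69012675dfdb1a5b.shift 0 3), (rh6cbaa5c1a750d9b6.shift 1 1), rh919bef62412ea362] (by decide +kernel))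
noncomputable def rh904eed05c8c57353 : CRef := CRef.mk (Pat.mk 0x180000000800000000000000000000000000000000 0x140000001c0000001c000000780000007e0000007f0000007c0000003e0000001c00000004 10 7) 0 0 (step_sound _ 130 [(rh1b8f9b7d56691145.shift 1 1), (rh69012675dfdb1a5b.shift 0 4), rh6af125a668b713fe] (by decide +kernel))
noncomputable def rhfc1e65359fc63708 : CRef := CRef.mk (Pat.mk 0x3000000010000000000000000000000000 0x3c0000003f000000fe000000fe000001fe000000580000001800000018 10 9) 0 0 (step_sound _ 99 [(rh69012675dfdb1a5b.shift 1 3), (rh8ac4da218982de06.shift 1 0), rhbaca2e47b5eb4c17] (by decide +kernel))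
noncomputable def rh5a10dee8c47c196e : CRef := CRef.mk (Pat.mk 0x1800000008000000000000000000000000 0x300000003c0000003c000000ff000000fe000001fc000000fc0000003c00000014 10 9) 0 0 (step_sound _ 196 [(rh02ef15e22aa7db92.shift 3 1), (rh16cbd58a1619e6a8.shift 3 1), rh22a7472493164a0f, (rh4747f7ca15718210.shift 1 1), (rh69c3046fd3a11bd9.shift 1 1)] (by decide +kernel))
noncomputable def rhdb22458efab4cff9 : CRef := CRef.mk (Pat.mk 0x300000001000000000000000000000000000000000 0x1c0000007e000000ff000001fe000000f8000000380000003800000030 10 9) 0 0 (step_sound _ 131 [(rh15a801803474cff1.shift 1 0), (rh2c9306438e7e4315.shift 0 1), (rh69012675dfdb1a5b.shift 1 4)] (by decide +kernel))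
noncomputable def rh776da7cc442a3304 : CRef := CRef.mk (Pat.mk 0x18000000080000000000000000000000000000000000000000 0x1600000036000000770000007f000000ff0000007c0000000c0000001c0000001c00000010 10 8) 0 0 (step_sound _ 162 [(rh69012675dfdb1a5b.shift 0 5), (rh6cbaa5c1a750d9b6.shift 1 3), rh924cf84cd86e56fe] (by decide +kernel))
noncomputable def rhc8bfd025f822af40 : CRef := CRef.mk (Pat.mk 0x1800000008000000000000000000000000 0x80000003c0000007e0000007e000000f8000000ff0000007c0000003e00000004 10 8) 0 0 (step_sound _ 164 [(rh4821dcf828b9d7bf.shift 3 1), (rh4e803ceab90808df.shift 0 2), (rhadf429772c25fde0.shift 3 1), rhc8c316ce4a68aaed] (by decide +kernel))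
noncomputable def rh09b6214366717455 : CRef := CRef.mk (Pat.mk 0x18000000080000000000000000 0xe0000003e0000007f000000ff0000001f000000ff0000003c0000001c 10 8) 0 0 (step_sound _ 132 [rh2c7947ebd6a8f541, (rhcf80391c5046a495.shift 3 0), (rhdb26dfe50eb4e6f1.shift 1 1)] (by decide +kernel))
noncomputable def rh0fb44fe6b8a0e029 : CRef := CRef.mk (Pat.mk 0x3000000010000000000000000000000000 0x78000000fc000007fe000003fe000003f7000001f8000001d000000140 10 11) 0 0 (step_sound _ 134 [(rh0297c95c8fd8417f.shift 1 1), (rh05b8532f36ce0907.shift 0 1), (rh1d617e23f32f3fbf.shift 3 1), (rh2b5127ab84a72b98.shift 3 0), (rh600705ec2dbc591d.shift 2 1), (rh709cb826d1fec7db.shift 2 1), (rh9956517671ac78aa.shift 3 1), (rhbae1684660e1cf84.shift 1 2), (rhc7ba14f12b74e529.shift 2 1)] (by decide +kernel))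
noncomputable def rhbcc75a780edeff31 : CRef := CRef.mk (Pat.mk 0x18000000040000000000000000 0xe0000000f000000ff0000007f0000003e0000001c00000004 10 8) 0 0 (step_sound _ 98 [(rh480231ab31e80384.shift 1 1), (rhdc1641106d7e5aa2.shift 1 2), rhea071243f28bf07e] (by decide +kernel))
noncomputable def rh1d489057d40a231a : CRef := CRef.mk (Pat.mk 0x3000000008000000000000000000000000 0x2c0000003c000001fe000000fe000001df0000004e0000000e00000006 10 9) 0 0 (step_sound _ 131 [(rh0204c5c8fe52f049.shift 2 2), (rhb6a81d2cc7882251.shift 2 3), rhcee7359fb69a24f1] (by decide +kernel))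
noncomputable def rh8bd959b9edc21e09 : CRef := CRef.mk (Pat.mk 0x60000000100000000000000000 0x280000007800000078000007ff000003fe000007f7000000b000000020 10 11) 0 0 (step_sound _ 103 [(rh068509b439293ff6.shift 2 1), (rh0f4a0920b9f47778.shift 4 2), (rhc083815ec94cd2b2.shift 4 2), rhc7960e3922b07c7d, (rhf2b3bcf1454375d8.shift 4 2)] (by decide +kernel))
noncomputable def rhdfbf248562c75110 : CRef := CRef.mk (Pat.mk 0x6000000010000000000000000000000000 0x18000000780000007c000000ff0000007f000001ff000000fc0000003c0000000c 10 9) 0 0 (step_sound _ 132 [(rh0760b3fc8a661d7d.shift 2 0), (rh1e2c8e98ef5c94b2.shift 1 0), rh2bce802820f335c5, (rh361f24ef0b379165.shift 1 1), (rh399c68fab305541f.shift 0 1), rh39dd5a128ef25f5b, (rh4f06774921c6a0a9.shift 2 1), (rhba475ed43cb26846.shift 1 1), (rhcf106aebdbc42022.shift 0 1), (rhdda229d377e23d33.shift 1 0), (rhea071243f28bf07e.shift 2 1)] (by decide +kernel))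
noncomputable def rh587a139dc026e618 : CRef := CRef.mk (Pat.mk 0x1800000004000000000000000000000000 0x80000001c0000003c0000003e0000007f0000007b000000ff000000ff0000000c00000004 10 8) 0 0 (step_sound _ 99 [(rh007ea1eaeab6caf2.shift 0 2), rh0bfb85a962eb17f4, rh25dc06d412aa2fa0, (rh574fdbf07bdd18b9.shift 0 3), (rh7fd2f1ca8505eca9.shift 0 1), (rh8cd9ca720afb03af.shift 1 1)] (by decide +kernel))
noncomputable def rh04714d5a72ed80cc : CRef := CRef.mk (Pat.mk 0x60000000100000000000000000 0xe0000000e8000003fe000003fe000007df000000d000000010 10 11) 0 0 (step_sound _ 100 [rh147315c10f881ee9, (rh18459727192135aa.shift 3 1), rh2b0d8c49fa1868d4, (rh480231ab31e80384.shift 3 1), (rha997c6ce7e425b45.shift 2 2), (rhd87b4f8c6f0ee2c4.shift 3 1)] (by decide +kernel))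
noncomputable def rh3fc3eb1628b08252 : CRef := CRef.mk (Pat.mk 0x3000000008000000000000000000000000 0x2000000060000003ff000001ff000003f8000000e0000000e0000000a0 10 10) 0 0 (step_sound _ 134 [(rh068509b439293ff6.shift 1 2), (rh0f4a0920b9f47778.shift 3 3), rh234243448db8022d, (rhc083815ec94cd2b2.shift 3 3), (rhf2b3bcf1454375d8.shift 3 3)] (by decide +kernel))
noncomputable def rh88af8b47f87c9814 : CRef := CRef.mk (Pat.mk 0x300000000800000000000000000000000000000000 0x60000000760000007e0000003f000001fe000001fe000000fe0000007c00000028 10 9) 0 0 (step_sound _ 132 [(rh1a05b109189c37b8.shift 1 1), (rh434cb39e7f9e9342.shift 1 1), (rh4c7f909225739567.shift 1 1), (rh4e385fc788b09585.shift 1 0), (rh8521797ef3832041.shift 1 0), (rh9ebcd67f45deda61.shift 0 2), (rh9fe66570ee9b95e9.shift 1 1), (rhaca4a649905e0169.shift 1 1), (rhb45ce41e8c7120a3.shift 1 1), (rhe7f8514e9a965131.shift 0 1)] (by decide +kernel))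
noncomputable def rh17d4cbced72c3bac : CRef := CRef.mk (Pat.mk 0x18000000040000000000000000000000000000000000000000 0x18000000380000003800000078000000ff0000007f0000003e0000001c0000001c00000004 10 8) 0 0 (step_sound _ 163 [(rh364afe42a37e9cf4.shift 1 2), rh3de1c17e3b199934, (rh574fdbf07bdd18b9.shift 0 5), (rh9c34b91402778d8d.shift 0 2), (rhbb544a75def9a3d1.shift 0 2), (rhdbe81ec60db065ce.shift 0 2)] (by decide +kernel))
noncomputable def rhcb6bd888ab8f709f : CRef := CRef.mk (Pat.mk 0x6000000010000000000000000000000000 0x60000000e8000001fe000001fe000003df000001d0000001d000000180 10 10) 0 0 (step_sound _ 132 [(rh1f90d58d3e1dee25.shift 1 0), (rh480231ab31e80384.shift 3 2), (rh6eb57d755f0b9d44.shift 0 1), (rhec89969cfdaf3653.shift 3 1)] (by decide +kernel))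
noncomputable def rhbaa4d5ce23ac8f11 : CRef := CRef.mk (Pat.mk 0x30000000080000000000000000 0x3000000030000001ff000000fe000001fc000000f800000070 10 9) 0 0 (step_sound _ 99 [(rh8eea156ffecb6be4.shift 2 2), (rhb02f9c2bd63f56db.shift 2 2), rhcb536530d718d8fb] (by decide +kernel))
noncomputable def rh223f2395e592d94f : CRef := CRef.mk (Pat.mk 0x1800000008000000000000000000000000 0x40000000c0000001c0000007c000000ff000000ff0000007e0000001c 10 8) 0 0 (step_sound _ 98 [(rh0bb882ba86b2372d.shift 0 3), (rh2775cf3f0f4b953b.shift 1 0), rh802e0750e92603e2] (by decide +kernel))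
noncomputable def rhbe0ca44bb3d48cf0 : CRef := CRef.mk (Pat.mk 0x3000000010000000000000000000000000 0x200000007c0000003f000000ff000000fe0000007f0000001e0000001c 10 8) 0 0 (step_sound _ 99 [(rh69012675dfdb1a5b.shift 1 3), rh92f15e82158500dd, (rha3c7ab18665de4e2.shift 2 1)] (by decide +kernel))
noncomputable def rhb5bc6aafe1d7fa41 : CRef := CRef.mk (Pat.mk 0x3000000010000000000000000000000000 0x80000003c0000003e000000fe0000007e0000001f0000007e0000003c 10 8) 0 0 (step_sound _ 99 [rh6751e938a2993e5f, (rh69012675dfdb1a5b.shift 1 3), rh9b5798b8f04c7f77] (by decide +kernel))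
noncomputable def rhd9367ce39ecf0d23 : CRef := CRef.mk (Pat.mk 0x3000000010000000000000000000000000 0x20000000300000003000000037000000ff000000fe000000fe000000fe0000003c 10 8) 0 0 (step_sound _ 99 [(rh69012675dfdb1a5b.shift 1 3), (rhbafd1d39e4f168a1.shift 2 0), rhd7902f3ad1ed88da] (by decide +kernel))
noncomputable def rhacf56aeb2b097059 : CRef := CRef.mk (Pat.mk 0x18000000080000000000000000000000000000000000000000 0x40000001c0000001c0000001f000000780000001f0000007c0000007e0000001c0000001c00000010 10 7) 0 0 (step_sound _ 162 [(rh69012675dfdb1a5b.shift 0 5), rha9b3c90c600cf292, (rhccec796aee1d41ea.shift 0 2)] (by decide +kernel))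
noncomputable def rhbb8af57f5f34e810 : CRef := CRef.mk (Pat.mk 0x300000001000000000000000000000000000000000 0x1c0000001f000000ff000000fe0000007f0000003c0000003c00000010 10 8) 0 0 (step_sound _ 131 [(rh69012675dfdb1a5b.shift 1 4), rh8827384a8f9e4faf, (rha3c7ab18665de4e2.shift 2 2)] (by decide +kernel))
noncomputable def rh7b9b185ed4b719be : CRef := CRef.mk (Pat.mk 0x18000000080000000000000000 0x8000000380000007f0000001f0000001c000000ff0000007e0000003c 10 8) 0 0 (step_sound _ 132 [(rhcf80391c5046a495.shift 3 0), (rhdb26dfe50eb4e6f1.shift 1 1), rhdc36b160a5607029, (rhf9366b6a121593ef.shift 3 0)] (by decide +kernel))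
noncomputable def rh1cd4f33ede7b05e5 : CRef := CRef.mk (Pat.mk 0x1800000008000000000000000000000000 0x1000000014000000160000007f000000ff000000ff000000fc0000003c 10 8) 0 0 (step_sound _ 98 [(rh0132e5e81934abdf.shift 1 1), (rh0bb882ba86b2372d.shift 0 3), rh250ed4026b3b8db7] (by decide +kernel))
noncomputable def rh72a120dffaf4fb08 : CRef := CRef.mk (Pat.mk 0x30000000100000000000000000 0x200000003c0000003f0000003e000000ff000000fe0000006e0000002c 10 8) 0 0 (step_sound _ 67 [(rh0bb882ba86b2372d.shift 1 2), (rh38774a83d7c573ef.shift 1 0), (rh69012675dfdb1a5b.shift 1 2), rhcfae55e19cb9deb6] (by decide +kernel))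
noncomputable def rhac114875f55f3a7d : CRef := CRef.mk (Pat.mk 0x80000000800000004000000000000000000000000 0x60000001f0000001f0000007c0000007f0000003e0000000f0000000e00000008 10 7) 0 0 (step_sound _ 130 [(rh4821dcf828b9d7bf.shift 2 1), rh9fc86910c0c8f9e2, (rhcf80391c5046a495.shift 2 1), rhd14ba44831a635a2] (by decide +kernel))
noncomputable def rhdd55acb422501edb : CRef := CRef.mk (Pat.mk 0x100000001000000008000000000000000000000000 0x3e0000003e000000f80000007e0000001f0000007c0000003c00000010 10 8) 0 0 (step_sound _ 131 [(rhcf80391c5046a495.shift 3 1), (rhd349ca90ba1bdcb2.shift 0 1), (rhee010063fa85aa14.shift 1 0), (rhf9366b6a121593ef.shift 3 1)] (by decide +kernel))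
noncomputable def rhdd3f44f316d88353 : CRef := CRef.mk (Pat.mk 0x100000001000000008000000000000000000000000 0x100000001a000001fb000001ff000003ff0000006f0000002c00000004 10 10) 0 0 (step_sound _ 131 [(rh4821dcf828b9d7bf.shift 3 1), rha8eeeb163ef43d63, (rheb526220df426aaa.shift 0 1)] (by decide +kernel))
noncomputable def rh8075ab5db085dde6 : CRef := CRef.mk (Pat.mk 0x100000001000000008000000000000000000000000 0x8000000180000001800000018000000fc000000ff0000007f0000003e00000034 10 8) 0 0 (step_sound _ 131 [(rh4821dcf828b9d7bf.shift 3 1), (rhadf429772c25fde0.shift 3 1), rhd9675c14a6833b70, rhfe070999fe74f8c1] (by decide +kernel))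
noncomputable def rh78c297563043305c : CRef := CRef.mk (Pat.mk 0x1000000010000000080000000000000000 0xc0000003c0000003e000000f80000001f0000007f000000fe0000003c 10 8) 0 0 (step_sound _ 99 [(rh2fb041970a6592d5.shift 1 1), (rhadf429772c25fde0.shift 3 0), rhb6c1fb344ea6491a, (rhf9366b6a121593ef.shift 3 0)] (by decide +kernel))
noncomputable def rh91341091005d1b6e : CRef := CRef.mk (Pat.mk 0x4000000040000000200000000000000000 0x4000000040000007ef000003fe000007be000001f0000000e0 10 11) 0 0 (step_sound _ 101 [(rh4821dcf828b9d7bf.shift 5 0), (rh50b011823d41630c.shift 0 1), (rh56b34b49e30dca52.shift 2 0), (rhd2e88da05514922b.shift 1 0)] (by decide +kernel))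
noncomputable def rh6d4c9e766f6b5eb2 : CRef := CRef.mk (Pat.mk 0x1000000010000000080000000000000000 0x3c0000003f000000ff0000007c0000001f0000001c0000000c 10 8) 0 0 (step_sound _ 99 [(rh0ecec64930248e2a.shift 0 1), (rhcf80391c5046a495.shift 3 0), rhe1c5274aa4c17410] (by decide +kernel))
noncomputable def rhee34fc22612cfa5c : CRef := CRef.mk (Pat.mk 0x800000008000000040000000000000000 0x1e0000003f0000007f0000007c0000007c0000007f0000000e 10 7) 0 0 (step_sound _ 98 [(rh4821dcf828b9d7bf.shift 2 0), (rhadf429772c25fde0.shift 2 0), rhe190574dc8ba41f9, (rhfb7addea7eb6b780.shift 0 1)] (by decide +kernel))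
noncomputable def rh56747006b5f0b9cf : CRef := CRef.mk (Pat.mk 0x100000001000000008000000000000000000000000 0x380000007c0000001e000000fc000000ff0000007f0000003800000030 10 8) 0 0 (step_sound _ 131 [(rh1d40d3144405ec83.shift 1 1), rh5909f225d63b1c2b, (rhf9366b6a121593ef.shift 3 1)] (by decide +kernel))
noncomputable def rh2800f485e9b0ad09 : CRef := CRef.mk (Pat.mk 0x1000000010000000080000000000000000 0x68000000780000007e000000fe000000fc000000ff0000006c0000000c 10 8) 0 0 (step_sound _ 99 [(rh9fd91924d5fe38e1.shift 0 1), (rhadf429772c25fde0.shift 3 0), rhbb60f993f1005ee6] (by decide +kernel))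
noncomputable def rh579edb4922d11c3a : CRef := CRef.mk (Pat.mk 0x100000001000000008000000000000000000000000 0x380000007c000001f6000001fc000003ff0000007f0000007800000030 10 10) 0 0 (step_sound _ 131 [(rh50205963067f2935.shift 0 1), rh5909f225d63b1c2b, (rhb13821c6693136ef.shift 2 1), (rhcf80391c5046a495.shift 3 1)] (by decide +kernel))
noncomputable def rh593e0570f09b958e : CRef := CRef.mk (Pat.mk 0x1000000010000000080000000000000000 0x80000001c0000001f0000007f0000001c000000ff0000007e0000003c 10 8) 0 0 (step_sound _ 99 [(rha173c2f44c64853d.shift 1 1), (rhcf80391c5046a495.shift 3 0), rhdc36b160a5607029, (rhf9366b6a121593ef.shift 3 0)] (by decide +kernel))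
noncomputable def rhd53082a609286ea8 : CRef := CRef.mk (Pat.mk 0x100000001000000008000000000000000000000000 0x80000000e0000006f000000ff0000007c000000ff0000007f0000007e00000030 10 8) 0 0 (step_sound _ 131 [rh5909f225d63b1c2b, (rh596e427de1e879e7.shift 0 1), (rhb346f02b60effc76.shift 0 1), (rhbb60f993f1005ee6.shift 0 1), (rhd245274575b526fb.shift 0 1), (rhdbde48c9d8143bbb.shift 0 1), (rhdc36b160a5607029.shift 0 1), (rhdf1c8dd8d0773106.shift 1 1), (rhe190574dc8ba41f9.shift 1 1)] (by decide +kernel))
noncomputable def rh9c419f1e20c34378 : CRef := CRef.mk (Pat.mk 0x1000000010000000080000000000000000 0x60000000700000007e000001fe000000fc000001ef0000007c0000003c 10 9) 0 0 (step_sound _ 99 [(rh4821dcf828b9d7bf.shift 3 0), rh50205963067f2935, rh64e0a4b5e3ecf0d1, (rh6c3a510cfcf0153a.shift 1 1), (rh91317bda041b6848.shift 1 0), rhd245274575b526fb] (by decide +kernel))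
noncomputable def rh58d57f6643bc5977 : CRef := CRef.mk (Pat.mk 0x80000000800000004000000000000000000000000 0x8000000180000001c0000007c0000007f0000007e0000003c00000004 10 7) 0 0 (step_sound _ 66 [(rh53c798c09177b7db.shift 2 0), (rha46f594bfc19ea4b.shift 0 1), (rhd918c3fd221dc9f8.shift 2 1), (rhe83f0679b86b6627.shift 2 0)] (by decide +kernel))
noncomputable def rh840d489b404f940f : CRef := CRef.mk (Pat.mk 0x200000002000000010000000000000000000000000 0x280000007c000001ef000001fc000001fc000001f8000000f000000010 10 9) 0 0 (step_sound _ 68 [(rh157bd81da3b8d9af.shift 0 1), (rh53c798c09177b7db.shift 4 0), (rha46f594bfc19ea4b.shift 2 1)] (by decide +kernel))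
noncomputable def rh508c1dfb15fd6fb8 : CRef := CRef.mk (Pat.mk 0x800000008000000040000000000000000 0x1c0000001c0000001c0000001c0000001f0000007c0000007f0000007e0000001b00000010 10 7) 0 0 (step_sound _ 163 [rh133df594d06516bf, rh852052d9701050ea, (rhb77bfac3e9efecea.shift 2 2), (rhc23ec26ef2c84235.shift 2 2), (rhe16036ff578a11df.shift 2 2)] (by decide +kernel))
noncomputable def rh0d4571ca5ab6c433 : CRef := CRef.mk (Pat.mk 0x100000001000000008000000000000000000000000 0xc0000002c0000006f000007ff000003ff000007fc000000fe0000007c00000010 10 11) 0 0 (step_sound _ 131 [(rh0c43de7ecb58eafb.shift 0 1), (rh4469cfb80902a12d.shift 0 1), (rh7d347aa489c33d28.shift 1 1), (rh8c6e24724fadba68.shift 0 1), (rhc8b5fc8bafb7aab2.shift 1 1), (rhd14ba44831a635a2.shift 1 0), (rhdefc3bfcc9ae1f83.shift 1 1)] (by decide +kernel))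
noncomputable def rhc6f9163bbff8a50c : CRef := CRef.mk (Pat.mk 0x2000000020000000100000000000000000 0x40000002c000000fe000001ff000001fe000001dc0000005800000018 10 9) 0 0 (step_sound _ 100 [(rh02edf5a70b2cf94a.shift 2 1), (rh23c7f30a131fcebf.shift 1 0), (rh4821dcf828b9d7bf.shift 4 0), (rh91317bda041b6848.shift 2 0), (rhbeb480183e171164.shift 1 0), rhc03f2e2d797254a7] (by decide +kernel))
noncomputable def rh78d9eebf8c25219f : CRef := CRef.mk (Pat.mk 0x30000000100000000000000000 0x1000000070000000f4000001fe000001ff0000007e0000003e00000038 10 9) 0 0 (step_sound _ 133 [rh7b9d1e278e0197e4, (rhcf80391c5046a495.shift 4 0), (rhf9366b6a121593ef.shift 4 0), (rhfdbcf8b13056a813.shift 1 0)] (by decide +kernel))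
noncomputable def rh987828d6678fc570 : CRef := CRef.mk (Pat.mk 0x3000000010000000000000000000000000 0x20000000380000007c000000f0000000ff000000fe0000003e0000003800000008 10 8) 0 0 (step_sound _ 99 [(rh4d6d879f677d78e3.shift 2 0), (rh69012675dfdb1a5b.shift 1 3), rha91eff11e98e6e3d, (rhd69c262cd33b94b3.shift 1 3)] (by decide +kernel))
noncomputable def rh89f6edf093a653fd : CRef := CRef.mk (Pat.mk 0x3000000010000000000000000000000000 0x1000000078000000fc0000003f000000ff000000fe0000003e0000001800000008 10 8) 0 0 (step_sound _ 99 [(rh2aa37336c1690a2d.shift 1 0), (rh7333dd4d9075bcb0.shift 0 1), (rhd69c262cd33b94b3.shift 1 3)] (by decide +kernel))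
noncomputable def rh749a91b5094c7adc : CRef := CRef.mk (Pat.mk 0xc000000040000000000000000 0x1a0000003f0000007f0000007f0000007f0000002400000004 10 7) 0 0 (step_sound _ 131 [(rh4cbefc102381cb7c.shift 0 1), (rhadf429772c25fde0.shift 2 0), rhc8b5fc8bafb7aab2] (by decide +kernel))
noncomputable def rhd1d33c6e9e3dd3eb : CRef := CRef.mk (Pat.mk 0x1800000008000000000000000000000000 0x3c0000007e000000ff000000ff0000001f0000001c0000001c00000010 10 8) 0 0 (step_sound _ 164 [(rhadf429772c25fde0.shift 3 1), (rhb9528cb8c08131fc.shift 1 0), (rhfb58209a77dc9cc5.shift 0 1)] (by decide +kernel))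
noncomputable def rh2e46630428f3cc75 : CRef := CRef.mk (Pat.mk 0x3000000010000000000000000000000000 0x20000000380000007c000000f6000000ff000000fe0000003e0000003800000008 10 8) 0 0 (step_sound _ 99 [(rh4d6d879f677d78e3.shift 2 0), rh5a932576a1b27c3d, (rh69012675dfdb1a5b.shift 1 3), (rhd69c262cd33b94b3.shift 1 3)] (by decide +kernel))
noncomputable def rh025276e3072759ac : CRef := CRef.mk (Pat.mk 0x1800000008000000000000000000000000 0x3c0000007e000000ff000000ff000000fc0000001c0000001c00000010 10 8) 0 0 (step_sound _ 164 [(rh23c7f30a131fcebf.shift 0 1), (rhb9528cb8c08131fc.shift 1 0), (rhcf80391c5046a495.shift 3 1)] (by decide +kernel))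
noncomputable def rh0de2256e1f78fc29 : CRef := CRef.mk (Pat.mk 0x180000000800000000000000000000000000000000 0x600000036000000770000007f000000ff0000001f0000007e0000001c00000004 10 8) 0 0 (step_sound _ 130 [(rh69012675dfdb1a5b.shift 0 4), rha85512a03d803e47, (rhb5fe5d40bf7848ef.shift 1 2), (rhd69c262cd33b94b3.shift 0 4)] (by decide +kernel))
noncomputable def rh26452b4742dd5943 : CRef := CRef.mk (Pat.mk 0x1800000008000000000000000000000000 0xc0000003c0000003c000000fe000000f8000000ff0000001f0000001c00000010 10 8) 0 0 (step_sound _ 164 [(rh4821dcf828b9d7bf.shift 3 1), (rhcf80391c5046a495.shift 3 1), (rhd02616632219be49.shift 1 1), rhf67373e5896c1961] (by decide +kernel))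
noncomputable def rhd95cb6a0fcf56c72 : CRef := CRef.mk (Pat.mk 0x18000000080000000000000000 0x280000007e0000007f000000ff0000001f0000003f0000001e0000001c 10 8) 0 0 (step_sound _ 132 [rh0c43de7ecb58eafb, (rhccd4b3e7d27f8514.shift 0 1), (rhcf80391c5046a495.shift 3 0), (rhf9366b6a121593ef.shift 3 0)] (by decide +kernel))
noncomputable def rhc237b735386ec82b : CRef := CRef.mk (Pat.mk 0x3000000010000000000000000000000000 0x580000005c000003ff000007fe00000fff000000ac000000ac0000000c 10 12) 0 0 (step_sound _ 134 [(rh22b0851c67cae4a5.shift 1 0), (rh82c1ae70d5b3a02f.shift 0 1), (rhbb67f86ec9825b9a.shift 3 2)] (by decide +kernel))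
noncomputable def rh0294dfd23213b4e7 : CRef := CRef.mk (Pat.mk 0x180000000800000000000000000000000000000000 0x5000000270000002f000000ef000000ff000001ff0000005f0000001f0000000700000002 10 9) 0 0 (step_sound _ 129 [(rh0b786d94a31538a6.shift 0 4), (rh10f2c9b04a72c968.shift 0 2), rh1942f004a389ebf1, (rhedf3a755fe019897.shift 0 4), (rhf6db2ad856f0c39e.shift 1 2)] (by decide +kernel))
noncomputable def rh199d397e99b4c258 : CRef := CRef.mk (Pat.mk 0x3000000010000000000000000000000000 0x780000007c000001fe0000007e000000f70000003c0000003800000020 10 9) 0 0 (step_sound _ 165 [(rh43e69534f7ab980e.shift 2 0), (rh67c06adb721de4f4.shift 0 1), (rhadf429772c25fde0.shift 4 1), (rhf9366b6a121593ef.shift 4 1)] (by decide +kernel))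
noncomputable def rh229f8389e5799863 : CRef := CRef.mk (Pat.mk 0x60000000200000000000000000 0x80000001f8000001f8000003ff000003fe000003be0000003800000030 10 10) 0 0 (step_sound _ 134 [(rh9693e6b0b0641240.shift 2 1), rhb5b75d3a8410cb25, (rhf9366b6a121593ef.shift 5 0)] (by decide +kernel))
noncomputable def rh865b73412155b732 : CRef := CRef.mk (Pat.mk 0x200000002000000010000000000000000000000000 0x780000007c000003fe000001fe000003bf000000300000003000000020 10 10) 0 0 (step_sound _ 132 [(rh77a3c19565c82b09.shift 0 1), (rhf6564f3a100bdea6.shift 2 0), (rhf9366b6a121593ef.shift 4 1)] (by decide +kernel))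
noncomputable def rh2f63e422c8297622 : CRef := CRef.mk (Pat.mk 0x1000000010000000080000000000000000 0x1000000014000003f7000001fe000003ff0000002800000028 10 10) 0 0 (step_sound _ 99 [rh1b05cfbcafe4c85f, rh6b279945f0ca7631, (rhcf80391c5046a495.shift 3 0)] (by decide +kernel))
noncomputable def rh3896ccb029dc8654 : CRef := CRef.mk (Pat.mk 0x4000000040000000200000000000000000 0x8000000f8000000fc000003fc0000007f000001fe000003e8000000e0 10 10) 0 0 (step_sound _ 101 [(rh2fb041970a6592d5.shift 3 1), rh4ec6411ea3b1307c, (rhcf80391c5046a495.shift 5 0), (rhf9366b6a121593ef.shift 5 0)] (by decide +kernel))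
noncomputable def rh361a59b75cf46bf7 : CRef := CRef.mk (Pat.mk 0x2000000020000000100000000000000000 0x700000007000000070000000700000007c000001f0000001fe000000fe0000006700000040 10 9) 0 0 (step_sound _ 165 [(rh133df594d06516bf.shift 2 0), rh9c997638298e1397, (rhb77bfac3e9efecea.shift 4 2), (rhc23ec26ef2c84235.shift 4 2), (rhe16036ff578a11df.shift 4 2)] (by decide +kernel))
noncomputable def rhbe622247ccf925c0 : CRef := CRef.mk (Pat.mk 0x2000000020000000100000000000000000 0x1c0000005c000000de000007fe000003fe000001ff000001f6000000f4 10 11) 0 0 (step_sound _ 100 [(rh19e0d2dd1c1d5feb.shift 1 0), (rh352856b8b6cf9e66.shift 2 0), rh5fdb2a0ea6e5e022, (rh6b279945f0ca7631.shift 1 0), (rh8c6e24724fadba68.shift 1 0), (rhc8b5fc8bafb7aab2.shift 2 0), (rhd5649e659d25992a.shift 1 0), (rhf515d43e87cdc9ab.shift 1 0)] (by decide +kernel))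
noncomputable def rh8b20242cf29e04ee : CRef := CRef.mk (Pat.mk 0x400000004000000020000000000000000000000000 0x4000000068000001fc000003fe000003ff000001bc000000b000000010 10 10) 0 0 (step_sound _ 133 [(rh77ed3cf44df26c0d.shift 0 2), (rhadf429772c25fde0.shift 5 1), (rhf119556d95fb5fe1.shift 2 0)] (by decide +kernel))
noncomputable def rhb427289bcc85542b : CRef := CRef.mk (Pat.mk 0x2000000020000000100000000000000000 0x40000000fc000000fc000001ff000001fe000003bf0000001c00000010 10 10) 0 0 (step_sound _ 100 [(rh3b15b754b48de606.shift 1 1), rhab20f536b4a0748a, (rhf9366b6a121593ef.shift 4 0)] (by decide +kernel))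
noncomputable def rh405ca24ef595474e : CRef := CRef.mk (Pat.mk 0x800000008000000040000000000000000 0x40000001e0000001e0000007f000000ff000000fc0000007c00000014 10 8) 0 0 (step_sound _ 98 [rh231c2f4fea12af33, (rh4821dcf828b9d7bf.shift 2 0), rha7138c4634c58881] (by decide +kernel))
noncomputable def rhdf4c45f5c0fef4cd : CRef := CRef.mk (Pat.mk 0x1000000010000000080000000000000000 0x3c0000007c000001df000000fc000000fe0000003c0000002c 10 9) 0 0 (step_sound _ 99 [(rh1d40d3144405ec83.shift 1 0), (rh4821dcf828b9d7bf.shift 3 0), (rhadf429772c25fde0.shift 3 0), rhe99897ca1c023296] (by decide +kernel))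
noncomputable def rhc3c9b9fb40af2830 : CRef := CRef.mk (Pat.mk 0x4000000040000000200000000000000000 0x8000000f8000000fc000003fc0000007f000001fe000000f800000030 10 10) 0 0 (step_sound _ 101 [(rh2fb041970a6592d5.shift 3 1), rh81081d25bb22b54d, (rhadf429772c25fde0.shift 5 0), (rhf9366b6a121593ef.shift 5 0)] (by decide +kernel))
noncomputable def rh5ac4cc9dfb540e6a : CRef := CRef.mk (Pat.mk 0x200000002000000010000000000000000000000000 0x1c0000001c0000005e00000ffe000007fe00000fff000000fe000000d800000008 10 12) 0 0 (step_sound _ 132 [(rh1dbe39f379ef2320.shift 1 1), (rh2b4bec931d2bc8df.shift 1 1), (rh87733bea4192fc9a.shift 0 1), (rhb650ab34af4206da.shift 1 1), (rhc8b5fc8bafb7aab2.shift 2 1), (rhe680b418ef3a4a78.shift 1 1), (rhf0cae08e50a52baa.shift 1 1), (rhf372dd7ca6d31616.shift 1 0)] (by decide +kernel))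
noncomputable def rh7ad4c5092d4ec346 : CRef := CRef.mk (Pat.mk 0x1000000010000000080000000000000000 0x80000001c0000005e000001ff000001ff000003ef0000002c0000002c 10 10) 0 0 (step_sound _ 99 [(rh4821dcf828b9d7bf.shift 3 0), rh7f891ad2ed292dd4, rhbe05e2ade33f67e4] (by decide +kernel))
noncomputable def rh5e9ba5ce166a7136 : CRef := CRef.mk (Pat.mk 0x1000000010000000080000000000000000 0x3c0000003e000000ff0000007f000000ff0000001f00000008 10 8) 0 0 (step_sound _ 99 [(rh2e07fa3222f7b4c1.shift 0 1), (rh4821dcf828b9d7bf.shift 3 0), (rhc8b5fc8bafb7aab2.shift 1 0)] (by decide +kernel))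
noncomputable def rh507644cff9bcb711 : CRef := CRef.mk (Pat.mk 0x100000001000000008000000000000000000000000 0x3c0000003e000000fe0000007f0000001f0000003f0000003a00000030 10 8) 0 0 (step_sound _ 131 [(rh4821dcf828b9d7bf.shift 3 1), rhd8d12af847ec92e1, (rhf6564f3a100bdea6.shift 1 0)] (by decide +kernel))
noncomputable def rh5fddd3d478b7661f : CRef := CRef.mk (Pat.mk 0x800000008000000040000000000000000 0x1e0000003f0000007f0000007f0000007e0000007600000004 10 7) 0 0 (step_sound _ 98 [(rh00633c78b7925b41.shift 2 1), (rh4821dcf828b9d7bf.shift 2 0), (rhadf429772c25fde0.shift 2 0), rhc8b5fc8bafb7aab2, (rhd865395ed9a90e9c.shift 0 1)] (by decide +kernel))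
noncomputable def rha05322fb5c89b778 : CRef := CRef.mk (Pat.mk 0x1000000010000000080000000000000000 0x3c0000007c000007f7000003ff000007ff0000007800000078 10 11) 0 0 (step_sound _ 99 [(rh2288baf270c8f823.shift 2 1), rh6e64f5353a4853ba, rh79d0591df011972c, (rhadf429772c25fde0.shift 3 0), (rhb13821c6693136ef.shift 2 0)] (by decide +kernel))
noncomputable def rh3b815c29cac984a3 : CRef := CRef.mk (Pat.mk 0x100000001000000008000000000000000000000000 0x300000007e0000003f0000001f000000fe0000007c0000003c00000010 10 8) 0 0 (step_sound _ 131 [(rh2288baf270c8f823.shift 2 2), (rh48409912adc297c5.shift 2 0), (rh91c53059570bd2f7.shift 0 1), (rhf9366b6a121593ef.shift 3 1)] (by decide +kernel))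
noncomputable def rh15c37d90babec402 : CRef := CRef.mk (Pat.mk 0x100000001000000008000000000000000000000000 0x3e0000007e000000ff000000ff000000ff000000f60000003400000010 10 8) 0 0 (step_sound _ 131 [(rh2fb041970a6592d5.shift 1 2), (rh48409912adc297c5.shift 2 0), (rh7ed01bcd002edcbc.shift 0 1), (rh81f8eb057a77300b.shift 1 0), (rh8d37d9c243f876fc.shift 0 2), (rhcaf81fb3a42d5469.shift 0 2), (rhf6564f3a100bdea6.shift 1 0), (rhfb7addea7eb6b780.shift 1 2)] (by decide +kernel))
noncomputable def rh206677bf4da415f2 : CRef := CRef.mk (Pat.mk 0x300000001000000000000000000000000000000000 0x10000000f8000000fc000000fe000000ff000000fc0000007c00000030 10 8) 0 0 (step_sound _ 131 [(rh69012675dfdb1a5b.shift 1 4), rh73610a3cb458acd9, (rh890f5e6104996a80.shift 2 0)] (by decide +kernel))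
noncomputable def rh9a8bc0a039d3ee52 : CRef := CRef.mk (Pat.mk 0x3000000010000000000000000000000000 0x8000000180000003e000000f8000001fe000001ff0000007c0000003c 10 9) 0 0 (step_sound _ 99 [(rh69012675dfdb1a5b.shift 1 3), (rhb67ad945cab5af64.shift 1 0), rhc2097e01c9b44231] (by decide +kernel))
noncomputable def rh827174b7502f962c : CRef := CRef.mk (Pat.mk 0x300000001000000000000000000000000000000000 0x180000007f000000ff0000003e0000007c0000003e0000003c00000030 10 8) 0 0 (step_sound _ 131 [(rh2c9306438e7e4315.shift 0 1), (rh69012675dfdb1a5b.shift 1 4), rh8cf66d7944736ac1] (by decide +kernel))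
noncomputable def rhfd6f81d9d8047b1d : CRef := CRef.mk (Pat.mk 0x30000000100000000000000000000000000000000000000000 0x50000000f7000000ff000000fe0000007e0000007e0000003c0000003000000010 10 8) 0 0 (step_sound _ 163 [rh55ecb6ca037dbbb7, (rh69012675dfdb1a5b.shift 1 5), (rh8cf66d7944736ac1.shift 0 1)] (by decide +kernel))
noncomputable def rh73e19c33d142942b : CRef := CRef.mk (Pat.mk 0x3000000010000000000000000000000000 0x180000005c000000df000000ff000001fe0000007f0000003c0000001c 10 9) 0 0 (step_sound _ 99 [(rh120fff1605e3feb4.shift 2 0), (rh69012675dfdb1a5b.shift 1 3), rhf03ee30d8fb5a3f8] (by decide +kernel))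
noncomputable def rhf8d0c1c7a6a79fa8 : CRef := CRef.mk (Pat.mk 0x1800000008000000000000000000000000 0xc0000002e0000007f0000007f0000007f000000360000001600000006 10 7) 0 0 (step_sound _ 98 [(rh137b2950371a78fe.shift 0 1), (rh187a1292069895ef.shift 1 0), (rh69012675dfdb1a5b.shift 0 3), (rh77e94ccb69d4bd71.shift 1 0)] (by decide +kernel))
noncomputable def rhe782d79d84e3b242 : CRef := CRef.mk (Pat.mk 0x180000000800000000000000000000000000000000 0x40000000c0000000e0000001f0000007b0000007f0000007f0000007c0000003c00000018 10 7) 0 0 (step_sound _ 130 [(rh033b264c25b2cbc3.shift 0 1), (rh69012675dfdb1a5b.shift 0 4), (rh848aac13834a627f.shift 0 1), rh96ea96029661a71c] (by decide +kernel))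
noncomputable def rh28da2c3d046daa0b : CRef := CRef.mk (Pat.mk 0x180000000800000000000000000000000000000000 0x40000000e0000001f0000001e0000007f0000003f0000001f0000001e00000010 10 7) 0 0 (step_sound _ 99 [(rh3820f35d5e705bec.shift 3 0), (rhac8bee8abc5dc085.shift 0 2), (rhf33c0ae1c5f5e5c3.shift 0 1)] (by decide +kernel))
noncomputable def rhcc8c24ac82c6301b : CRef := CRef.mk (Pat.mk 0x300000001000000000000000000000000000000000 0xa0000000e0000009e000003ff000001fe000003de0000007e0000007e0000000e00000004 10 10) 0 0 (step_sound _ 130 [(rh1942f004a389ebf1.shift 1 0), (rh581b892268b337d1.shift 0 2), (rh64a9b2d79095dd0c.shift 2 2), (rh96a81414d4111f6f.shift 1 1), (rhedf3a755fe019897.shift 1 4)] (by decide +kernel))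
noncomputable def rhf8e3c3f44940d7a6 : CRef := CRef.mk (Pat.mk 0x300000001000000000000000000000000000000000 0x800000018000001ff000001fe000003f7000000fc0000003c0000003800000020 10 10) 0 0 (step_sound _ 100 [(rh3820f35d5e705bec.shift 4 0), (rh3bb6e63ef5288f53.shift 0 2), (rh60dd36137b7966de.shift 2 2), (rheb5cf6be9daf210b.shift 2 1)] (by decide +kernel))
noncomputable def rha3f663177e2fb9af : CRef := CRef.mk (Pat.mk 0x1000000018000000000000000000000000 0x6000000070000000f7000000ff000000fe0000007e0000003e0000003c 10 8) 0 0 (step_sound _ 133 [(rh326f274b1c6cef14.shift 1 0), rh4c4cc0ba3a70e016, (rhd69c262cd33b94b3.shift 1 3)] (by decide +kernel))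
noncomputable def rh0bf5488195c36b74 : CRef := CRef.mk (Pat.mk 0x10000000180000000000000000000000000000000000000000 0x1000000010000000780000007c000001f7000000ff000001fe0000003e00000078000000380000001000000010 10 9) 0 0 (step_sound _ 197 [(rh158f2c331d788bed.shift 1 2), rh2b369a551a0742dd, (rh69012675dfdb1a5b.shift 1 5), (rhd69c262cd33b94b3.shift 1 5)] (by decide +kernel))
noncomputable def rhf955310e34eee100 : CRef := CRef.mk (Pat.mk 0x80000000c0000000000000000000000000000000000000000 0x40000001c0000001c000000380000007c0000007f0000007f0000003c0000001c0000001c00000010 10 7) 0 0 (step_sound _ 196 [rh1ad9e0e4be41a70e, (rh574fdbf07bdd18b9.shift 0 5), (rhbb544a75def9a3d1.shift 0 2)] (by decide +kernel))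
noncomputable def rhed7fa2e5ca7e16c0 : CRef := CRef.mk (Pat.mk 0x80000000c000000000000000000000000 0x3c0000003f0000007b0000007f000000ff000000ef0000002c00000004 10 8) 0 0 (step_sound _ 132 [(rh574fdbf07bdd18b9.shift 0 3), (rhb66f69688055ef40.shift 1 1), rhd23139c0d792a515, (rhd69c262cd33b94b3.shift 0 3)] (by decide +kernel))
noncomputable def rh4cced8ebd5e746c6 : CRef := CRef.mk (Pat.mk 0x1000000018000000000000000000000000 0x10000000770000003f000000ff0000007e0000007e0000003c 10 8) 0 0 (step_sound _ 67 [rh65479415b5d16f43, rh7c5a8bc54b7d365c, (rh91317bda041b6848.shift 1 0), (rhcf80391c5046a495.shift 3 0)] (by decide +kernel))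
noncomputable def rhe53a28c85c158772 : CRef := CRef.mk (Pat.mk 0x10000000180000000000000000000000000000000000000000 0x6000000060000000e4000000ff000000fe000000fe0000007c000000380000001800000010 10 8) 0 0 (step_sound _ 197 [(rh04adca24935e9ae8.shift 1 0), (rh26ef9a83bcacb92c.shift 0 3), (rhd69c262cd33b94b3.shift 1 5)] (by decide +kernel))
noncomputable def rh156e22dc887cb25a : CRef := CRef.mk (Pat.mk 0x100000001800000000000000000000000000000000 0x3000000077000000ff0000001f0000007e0000007e0000003c00000030 10 8) 0 0 (step_sound _ 99 [(rh65479415b5d16f43.shift 0 1), (rhadf429772c25fde0.shift 3 1), (rhd23d673465039f60.shift 1 0), (rhf9366b6a121593ef.shift 3 1)] (by decide +kernel))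
noncomputable def rhfba9583e80703ea0 : CRef := CRef.mk (Pat.mk 0x1000000018000000000000000000000000 0x2000000030000000f0000000ff000000fe000000f00000007000000020 10 8) 0 0 (step_sound _ 133 [(rh263e854127ee6d4d.shift 0 1), (rh69012675dfdb1a5b.shift 1 3), (rhac294db778c754f7.shift 1 0), (rhd69c262cd33b94b3.shift 1 3)] (by decide +kernel))
noncomputable def rh944360e71878daa3 : CRef := CRef.mk (Pat.mk 0x200000003000000000000000000000000000000000 0x2000000028000003be000001fe000003ff000000fe0000007000000060 10 10) 0 0 (step_sound _ 100 [(rh284e2e07efdd699a.shift 1 0), (rhe58facf1dadb8a9e.shift 0 1), (rhf9366b6a121593ef.shift 4 1)] (by decide +kernel))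
noncomputable def rhec011bf7d9de9af2 : CRef := CRef.mk (Pat.mk 0x80000000c000000000000000000000000 0x1000000018000000780000007e0000007f0000007f0000003c0000001c 10 7) 0 0 (step_sound _ 132 [rhbb544a75def9a3d1, (rhd69c262cd33b94b3.shift 0 3), (rhdeef2a7e4c125850.shift 1 1)] (by decide +kernel))
noncomputable def rhea7ba3258f11f955 : CRef := CRef.mk (Pat.mk 0x100000001000000008000000000000000000000000 0xc0000001c0000001c0000003f0000003f0000007f000001ef0000007c00000028 10 9) 0 0 (step_sound _ 67 [(rh751f91025c6ba4fe.shift 3 2), (rhcaa484381ba2f067.shift 0 1), rhfc701804b8bf0eb7] (by decide +kernel))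
noncomputable def rh449223bf73c0d170 : CRef := CRef.mk (Pat.mk 0x400000004000000020000000000000000000000000 0x20000000600000007000000050000003de000000fe000001f7000000e00000002000000020 10 10) 0 0 (step_sound _ 69 [(rh53c798c09177b7db.shift 5 0), (rhe83f0679b86b6627.shift 5 0), (rhf2cdd83051d1963e.shift 5 2), (rhf9fa3c6bfadfa950.shift 0 1)] (by decide +kernel))
noncomputable def rh93b2108f557fcd60 : CRef := CRef.mk (Pat.mk 0x1000000010000000080000000000000000 0x30000000380000003800000038000000780000003e000003be000001fe000001f700000020 10 10) 0 0 (step_sound _ 164 [(rh2b956ac3cddeead1.shift 3 1), (rh96d31e31819c4875.shift 1 1), (rhb77bfac3e9efecea.shift 3 2), (rhc31ae7bdd35a1bb8.shift 3 2), rhf0b035d11190b1c6] (by decide +kernel))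
noncomputable def rh653fdfa5c219d177 : CRef := CRef.mk (Pat.mk 0x40000000400000002000000000000000000000000000000000 0x30000000bc000001fc000000ff000003fe000003ff000001fc000000e8000000c8 10 10) 0 0 (step_sound _ 134 [(rh1221adec5f7c5c8d.shift 1 0), (rh2b35b0f916980bb6.shift 2 2), (rh306a978885d68259.shift 2 0), (rh69e33fe7c9e526dc.shift 2 1), (rh7e3bcbfe80efe496.shift 3 1), (rhbe6a67993f248dac.shift 2 0), (rhcd3ae0972f3feebd.shift 3 1), (rhe42a22895302ea23.shift 0 1), (rhfe7835e19c9c4d3b.shift 3 2)] (by decide +kernel))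
end Crest.Agent.S0047.Helper85.Cert
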