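import Crest.Agent.Lib.S0047.Helper85CertPL9F0
import Crest.Agent.Lib.S0047.Helper85CertPL9F1
import Crest.Agent.Lib.S0047.Helper85CertPL9F2
import Crest.Agent.Lib.S0047.Helper85CertPL9F3
import Crest.Agent.Lib.S0047.Helper85CertPL9F4
import Crest.Agent.Lib.S0047.Helper85CertPL9F5
import Crest.Agent.Lib.S0047.Helper85CertPL9F6
set_option autoImplicit false
set_option linter.all false
set_option Elab.async false
namespace Crest.Agent.S0047.Helper85.Cert
open Crest.Agent.S0047.Helper85

noncomputable def rh77da3b9f6debecb8 : CRef := CRef.mk (Pat.mk 0x4000000040000000200000000000000000 0x3800000078000000fc000003fe000000fe000001bf000000f800000070 10 10) 0 0 (step_sound _ 101 [(rh2c7947ebd6a8f541.shift 2 0), (rh4821dcf828b9d7bf.shift 5 0), rh91c8921f8c275609, (rh9586f1d20a33296b.shift 2 0), (rhf4bae7dce03acc25.shift 1 1)] (by decide +kernel))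
noncomputable def rh9f1dd4a80e98261d : CRef := CRef.mk (Pat.mk 0x200000002000000010000000000000000000000000 0x50000000700000007e000000fe000001fc0000006f000001fe000000ff0000007000000040 10 9) 0 0 (step_sound _ 101 [(rh699aacf78406c1c0.shift 1 0), (rhac6464bb64255311.shift 4 2), (rhb99f8f6e6677b04f.shift 4 2), rhd00de8091794632c] (by decide +kernel))
noncomputable def rh648c854cdb2893d3 : CRef := CRef.mk (Pat.mk 0x100000000800000008000000000000000000000000 0x1800000058000001d8000000fe000001ff0000007f0000003c00000030 10 9) 0 0 (step_sound _ 132 [(rh62e58bc7979ff40d.shift 0 2), (rh8bcfdfe4426674ab.shift 0 1), rh9d6422d8a32c36a1, (rhf9366b6a121593ef.shift 3 1)] (by decide +kernel))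
noncomputable def rh09a3af0326c4032a : CRef := CRef.mk (Pat.mk 0x100000000800000008000000000000000000000000 0x10000000300000007a0000007f000000ff0000007f0000003c00000014 10 8) 0 0 (step_sound _ 132 [(rhf9366b6a121593ef.shift 3 1), rhff21cb8d55135eca] (by decide +kernel))
noncomputable def rh53083e394424982f : CRef := CRef.mk (Pat.mk 0x100000000800000008000000000000000000000000 0x380000007a0000007f000000ff0000007f0000003c00000014 10 8) 0 0 (step_sound _ 132 [(rh7dd33c32e50a0a85.shift 0 1), (rhf91b1398c815afd2.shift 3 1), rhff21cb8d55135eca] (by decide +kernel))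
noncomputable def rhd215a374ef35697a : CRef := CRef.mk (Pat.mk 0x1000000008000000080000000000000000 0xc0000007c000000fc000000f8000003fe000001ef0000007c0000003c 10 10) 0 0 (step_sound _ 100 [(rh4821dcf828b9d7bf.shift 3 0), (rh4b6f765f1ba3c3d6.shift 1 0), rhab7e57b18333edbc, (rhbea59806976346a8.shift 1 1)] (by decide +kernel))
noncomputable def rh2ff7a454393e854b : CRef := CRef.mk (Pat.mk 0x100000000800000008000000000000000000000000000000000000000000000000 0x100000001c0000001c0000000c000000780000001e0000007f0000007f0000007f0000001f0000001e0000001c00000014 10 7) 0 0 (step_sound _ 163 [(rh1fcfb3ba8021b3f8.shift 2 1), rh3b78798ad549146b, (rh4de12cc7feafb128.shift 2 1), (rh984bfc6de6c2c524.shift 2 2), (rhd65113e9a767e2fc.shift 0 2)] (by decide +kernel))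
noncomputable def rh5d3456d9fbb4b496 : CRef := CRef.mk (Pat.mk 0x200000001000000010000000000000000000000000 0x18000000fc000001fc000003f7000001fe000003fe000001ee0000006800000028 10 10) 0 0 (step_sound _ 133 [(rh2417397b6eaafb12.shift 0 2), (rh29d2ecd8ca2cfc55.shift 2 1), (rhadbedb623591ec76.shift 2 2), (rhbea59806976346a8.shift 2 2), (rhdb12c53e5fc5baa2.shift 3 1), (rhf8e49ea538088b3d.shift 2 2), (rhff21cb8d55135eca.shift 1 0)] (by decide +kernel))
noncomputable def rh16cdfac731e92673 : CRef := CRef.mk (Pat.mk 0x100000000800000008000000000000000000000000 0x380000003c000000f2000000ff000001ff0000007f0000003c00000014 10 9) 0 0 (step_sound _ 132 [(rh62e58bc7979ff40d.shift 0 2), (rh76f05b0926582eb9.shift 2 2), (rhab7e57b18333edbc.shift 0 1), rhff21cb8d55135eca] (by decide +kernel))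
noncomputable def rh9728184e062ac0b6 : CRef := CRef.mk (Pat.mk 0x10000000080000000800000000000000000000000000000000 0x140000001c0000001c0000001e000000780000006f0000007f0000003f0000001f0000001600000002 10 7) 0 0 (step_sound _ 195 [(rh140c021ce32a67ea.shift 0 3), (rh3ee1a3f6aa7284a1.shift 1 3), rhca07e1e0f9ab8b72, (rhe1a3e820b9828b5e.shift 2 2), (rhffb8e5993241bf15.shift 2 1)] (by decide +kernel))
noncomputable def rh5bab02275bee7293 : CRef := CRef.mk (Pat.mk 0x2000000018000000000000000000000000 0x1000000070000000f0000001fc000000fc0000003e000000ff0000007c0000003c 10 9) 0 0 (step_sound _ 132 [(rh69012675dfdb1a5b.shift 1 3), (rhacb371d06e97985e.shift 2 1), rhe21697ffba6d4a65] (by decide +kernel))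
noncomputable def rh960e3342c87fe71e : CRef := CRef.mk (Pat.mk 0x200000001800000000000000000000000000000000 0x8000000380000003800000038000000f80000003e000000ff000000fc0000003c00000008 10 8) 0 0 (step_sound _ 164 [(rh69012675dfdb1a5b.shift 1 4), (rhbebc8c4e8616f653.shift 3 0), (rhe21697ffba6d4a65.shift 0 1)] (by decide +kernel))
noncomputable def rh39a5e080936bd969 : CRef := CRef.mk (Pat.mk 0x200000001800000000000000000000000000000000 0x8000000380000003800000077000000ff0000003e000000fc000000fe0000003c00000008 10 8) 0 0 (step_sound _ 164 [(rh4efaf835c8850dd6.shift 0 1), (rh69012675dfdb1a5b.shift 1 4), (rhbebc8c4e8616f653.shift 3 0)] (by decide +kernel))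
noncomputable def rhad9c3b81e155f96d : CRef := CRef.mk (Pat.mk 0x2000000018000000000000000000000000 0x380000007e000000fe000000ff0000003e0000001f0000007e00000038 10 8) 0 0 (step_sound _ 132 [(rh69012675dfdb1a5b.shift 1 3), (rh7bdff5b4af14bcf3.shift 0 2), rha96072d9346afe55] (by decide +kernel))
noncomputable def rh5d7ee1c650d66bd9 : CRef := CRef.mk (Pat.mk 0x100000000c000000000000000000000000 0x1c0000003e0000000f0000007f0000001f0000003f0000003c0000003c 10 7) 0 0 (step_sound _ 131 [rh3e5cded0052a43ab, rh63453d7b735f736f, (rhd69c262cd33b94b3.shift 0 3)] (by decide +kernel))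
noncomputable def rhcedaf5ebf6655bd4 : CRef := CRef.mk (Pat.mk 0x100000000c0000000000000000 0x1c0000001e0000007f0000007f0000001f0000003b0000001a 10 7) 0 0 (step_sound _ 99 [(rh69012675dfdb1a5b.shift 0 2), rh6ca2d84b57b68296, rh9d3bfcde6e7ea807, (rhd69c262cd33b94b3.shift 0 2)] (by decide +kernel))
noncomputable def rh41748104bebf0f1f : CRef := CRef.mk (Pat.mk 0x100000000c000000000000000000000000 0x100000001c0000001c0000001e0000007f0000007a0000001f0000007e0000007c00000014 10 7) 0 0 (step_sound _ 131 [rh25ee6338d76829c9, rh5bd14722684750ef, (rh69012675dfdb1a5b.shift 0 3)] (by decide +kernel))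
noncomputable def rhcd0981b200be5b09 : CRef := CRef.mk (Pat.mk 0x2000000018000000000000000000000000 0x380000007e000000fe000000ff0000003e0000006e0000002c00000008 10 8) 0 0 (step_sound _ 132 [(rh0bb882ba86b2372d.shift 1 3), (rh26ad5c7f5ca77550.shift 1 0), (rh69012675dfdb1a5b.shift 1 3), (rh7bdff5b4af14bcf3.shift 0 2)] (by decide +kernel))
noncomputable def rha8a3ff017a999bbf : CRef := CRef.mk (Pat.mk 0x2000000018000000000000000000000000 0x20000000380000007c0000007e000001ff0000003f0000003e0000007f0000007c0000007c 10 9) 0 0 (step_sound _ 132 [rh020ec8f472ec726a, (rh25ee6338d76829c9.shift 1 0), (rh38774a83d7c573ef.shift 1 1), (rh395155a227e51d2e.shift 1 1), (rh626a3f08080ec58a.shift 1 0), (rh9d3bfcde6e7ea807.shift 1 1), (rhbd57eb062806270a.shift 1 0), rhf911da6a691b0c81] (by decide +kernel))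
noncomputable def rhc4083dae7257f6f7 : CRef := CRef.mk (Pat.mk 0x200000001800000000000000000000000000000000 0x8000000380000007c000000fe000001fe000000ff00000038000000f8000000f80000003800000008 10 9) 0 0 (step_sound _ 164 [(rh2c9306438e7e4315.shift 0 1), (rh63453d7b735f736f.shift 1 1), (rh73efa41b81c90632.shift 0 2), (rh80c38ab93adef725.shift 1 2), (rh89a36b3f75cc190b.shift 2 2), (rhacb371d06e97985e.shift 2 2), (rhbebc8c4e8616f653.shift 3 0), (rhdf487e2b2c626c23.shift 0 3)] (by decide +kernel))
noncomputable def rhd4d027e785110eb2 : CRef := CRef.mk (Pat.mk 0x100000000c000000000000000000000000000000000 0x70000001700000037f000001fe000003ff000000fc000000f800000050 10 10) 0 0 (step_sound _ 133 [(rh7ad2ceea6fa3aeb0.shift 3 3), (rh7f89a476551abc27.shift 0 1), (rh834ef1c974e4840e.shift 4 1), (rhe8dedcfcd8e1426a.shift 4 0)] (by decide +kernel))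
noncomputable def rhaa65d23823e5d02d : CRef := CRef.mk (Pat.mk 0x200000002000000010000000000000000000000000 0x780000007c000001ff000001fe000003b8000000300000003000000020 10 10) 0 0 (step_sound _ 132 [(rh2a295959562b7880.shift 0 1), (rhf6564f3a100bdea6.shift 2 0), (rhf9366b6a121593ef.shift 4 1)] (by decide +kernel))
noncomputable def rh94b84619464d0b0b : CRef := CRef.mk (Pat.mk 0x1000000010000000080000000000000000 0x380000007f0000001f0000007e0000007c0000007c0000003c 10 7) 0 0 (step_sound _ 99 [rh1fa89ad03cc19d8c, (rh96dc83ac2abd1d6c.shift 1 1), (rhcf80391c5046a495.shift 3 0)] (by decide +kernel))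
noncomputable def rh5d61021937eecd12 : CRef := CRef.mk (Pat.mk 0x1000000010000000080000000000000000 0x8000000380000007f000000ff0000001f0000007c0000003c0000001c 10 8) 0 0 (step_sound _ 99 [rh0c43de7ecb58eafb, (rh2fb041970a6592d5.shift 1 1), (rhcf80391c5046a495.shift 3 0), (rhf9366b6a121593ef.shift 3 0)] (by decide +kernel))
noncomputable def rh4d662f93474e6c68 : CRef := CRef.mk (Pat.mk 0x400000004000000020000000000000000000000000 0x20000000600000007000000050000003de000001fe000003f7000000e00000002000000020 10 10) 0 0 (step_sound _ 69 [(rh53c798c09177b7db.shift 5 0), (rh9931e337b98d8858.shift 0 1), (rhe83f0679b86b6627.shift 5 0), (rhf2cdd83051d1963e.shift 5 2)] (by decide +kernel))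
noncomputable def rhf35906898046f184 : CRef := CRef.mk (Pat.mk 0x4000000040000000200000000000000000 0x38000000f8000001fc000003fe000003fe000007b7000001f0000000f0 10 11) 0 0 (step_sound _ 101 [(rh4821dcf828b9d7bf.shift 5 0), (rh7708a7c8e70fbb78.shift 3 1), (rhbeb480183e171164.shift 2 0), (rhc4ee4340ca100c24.shift 3 0), rhea9d5bb1e23b881b] (by decide +kernel))
noncomputable def rh3f30869096984e08 : CRef := CRef.mk (Pat.mk 0x100000001000000008000000000000000000000000 0x28000000380000003f0000007f000000fe000000f0000000f8000000ff0000003f00000020 10 8) 0 0 (step_sound _ 100 [rh699aacf78406c1c0, (rh6b36e5aebe669dfe.shift 0 1), (rhac6464bb64255311.shift 3 2), (rhb99f8f6e6677b04f.shift 3 2)] (by decide +kernel))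
noncomputable def rh3004f2bda68ed7c9 : CRef := CRef.mk (Pat.mk 0x100000000c0000000000000000 0x1c0000001e0000007c0000007f000000ff000000ef0000002e 10 8) 0 0 (step_sound _ 99 [(rh69012675dfdb1a5b.shift 0 2), (rhcbdd8ee0246423a9.shift 1 0), (rhd69c262cd33b94b3.shift 0 2), rhea3a1ff045a528f2] (by decide +kernel))
noncomputable def rh7fade9b2063eb4be : CRef := CRef.mk (Pat.mk 0x2000000018000000000000000000000000 0x3000000034000000f6000000ff000000fe000000de0000005800000008 10 8) 0 0 (step_sound _ 132 [rh5a932576a1b27c3d, (rh69012675dfdb1a5b.shift 1 3), (rhcbdd8ee0246423a9.shift 2 1), (rhd69c262cd33b94b3.shift 1 3)] (by decide +kernel))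
noncomputable def rh5db1a6fc6bb7c4ea : CRef := CRef.mk (Pat.mk 0x100000000c000000000000000000000000 0xe0000000f0000007f000000ff0000000f0000000c00000004 10 8) 0 0 (step_sound _ 131 [rh2ffe29638ef53e00, (rh69012675dfdb1a5b.shift 0 3), (rha3c7ab18665de4e2.shift 1 1), (rhcde230e1fccc7ea0.shift 1 1)] (by decide +kernel))
noncomputable def rh75ff730cbbd5abdd : CRef := CRef.mk (Pat.mk 0x2000000018000000000000000000000000 0x200000007c0000007f000000ff0000003e0000001c0000001c0000001c 10 8) 0 0 (step_sound _ 132 [rh0bb9e09c0309143d, rh2c9306438e7e4315, (rh69012675dfdb1a5b.shift 1 3)] (by decide +kernel))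
noncomputable def rh5d62396e3dc51e5d : CRef := CRef.mk (Pat.mk 0x2000000018000000000000000000000000 0x2000000038000000380000007c000000fe0000007e0000007e0000001f0000003c0000001c 10 8) 0 0 (step_sound _ 132 [(rh114e8146fbc1c830.shift 1 0), (rh557b120f072744ca.shift 1 3), rhf7d4d0d76c30ae75] (by decide +kernel))
noncomputable def rh92c5001a51f16538 : CRef := CRef.mk (Pat.mk 0x100000000c000000000000000000000000 0x80000000c0000003c0000007e0000007f0000007b000000ff000000ef0000000c00000004 10 8) 0 0 (step_sound _ 131 [(rh36e73737b7ffd7f1.shift 1 1), rh5dfe9d13e38e51fb, (rh69012675dfdb1a5b.shift 0 3), rhe847c3e349c9e8e3] (by decide +kernel))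
noncomputable def rh5df114f2161896dd : CRef := CRef.mk (Pat.mk 0x100000000c0000000000000000000000000 0x1700000017000001dff00000ffe00000eff000000fc00000078 10 13) 0 0 (step_sound _ 101 [(rh4893dda8a5b9542c.shift 1 2), (rh5e601430b8bc2e39.shift 2 2), rh7f89a476551abc27, (rhd6bd00ee0eaddafc.shift 2 0), (rhecc2f590e920be22.shift 1 2)] (by decide +kernel))
noncomputable def rh66f12a604fcec3c4 : CRef := CRef.mk (Pat.mk 0x2000000018000000000000000000000000 0x8000000380000007c000000fc000000ff000000ff000001f8000001df000000fc0000001c 10 9) 0 0 (step_sound _ 132 [rh2c9306438e7e4315, (rh5c15b803a9c68aa7.shift 2 1), (rh7333dd4d9075bcb0.shift 0 1), (rhf3c4779a1866500f.shift 2 1), (rhf6c2921c9b3ec59a.shift 0 2), rhf7d4d0d76c30ae75, (rhfe72a217e1aaf5fa.shift 1 1)] (by decide +kernel))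
noncomputable def rhad407a7bb13739ea : CRef := CRef.mk (Pat.mk 0x2000000018000000000000000000000000 0x8000000380000007c000000fe000000ff000000de0000005e0000007c0000003c 10 8) 0 0 (step_sound _ 132 [rh2c9306438e7e4315, (rh77e94ccb69d4bd71.shift 2 0), (rh8325d77ee3da0739.shift 1 0), (rhbb8db84b43d22ab5.shift 2 2), (rhe847c3e349c9e8e3.shift 1 0)] (by decide +kernel))
noncomputable def rh8d8a2c83030e086b : CRef := CRef.mk (Pat.mk 0x4000000030000000000000000000000000 0x1000000058000007de000003fc000007be000000bf000000bc 10 11) 0 0 (step_sound _ 102 [(rh3f396fc471e867d8.shift 2 1), (rh9a93db625e0699b7.shift 3 0), (rha11dfd15f08f96e3.shift 3 3), (rhb12ffaec36122c99.shift 1 2), rhdfbd6339b97fba2d] (by decide +kernel))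
noncomputable def rhb6712b98946612db : CRef := CRef.mk (Pat.mk 0x100000000c000000000000000000000000 0xc0000000c0000003e000001fc000003bf000000060000000600000006 10 10) 0 0 (step_sound _ 133 [(rh1b276a4b99d0ed82.shift 2 3), (rh3e0f0780af2f5018.shift 1 0), (rh7401e8cf466f4e5b.shift 0 3), (rhfe7c844806756e31.shift 1 3)] (by decide +kernel))
noncomputable def rh9673aef78dcf346f : CRef := CRef.mk (Pat.mk 0x30000000080000000000000000000000000000000000000000 0x40000002c0000003c0000007f000000fe0000001f000000fe000000360000003e0000003800000008 10 8) 0 0 (step_sound _ 162 [(rh7401e8cf466f4e5b.shift 0 5), (rhae9cbcd1aee3031b.shift 0 2), (rhb41ef4a86a76e6e5.shift 1 0)] (by decide +kernel))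
noncomputable def rhc03551cd98fa3a4a : CRef := CRef.mk (Pat.mk 0x18000000040000000000000000 0xa0000002e0000002e000003ff000003fe000003fc0000005c00000058 10 10) 0 0 (step_sound _ 101 [(rh0f4a0920b9f47778.shift 2 2), rh18060de67bae3567, (rh56efbc0cfbfcc4b8.shift 2 2), (rh736dc5b60b2f8437.shift 1 0), (rhc083815ec94cd2b2.shift 2 2)] (by decide +kernel))
noncomputable def rh5cd6637d38ceaeec : CRef := CRef.mk (Pat.mk 0x180000000400000000000000000000000000000000 0x40000001c0000001c0000001e0000001f0000007f0000001f000000ff000000ff0000003a0000003800000010 10 8) 0 0 (step_sound _ 131 [(rh0c68c3f4ad986318.shift 0 1), rh3d085526075b969e, (rh4140b346949632ca.shift 0 1), rh4e385fc788b09585, (rh54a0a3e8f6d27923.shift 0 1), (rh942cc63c2b8406b7.shift 0 1), (rhc4dfe3be0915c068.shift 0 1), rhc5bdc02c6d41fbd8, rhcd8ce59515d2e9d8] (by decide +kernel))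
noncomputable def rhdf8692304d405826 : CRef := CRef.mk (Pat.mk 0x18000000040000000000000000000000000000000000000000 0x1c0000001e0000007f0000007b000000ff000000ff000000380000001c0000001c00000004 10 8) 0 0 (step_sound _ 163 [(rh574fdbf07bdd18b9.shift 0 5), (rh71c7fde4aad7a0f5.shift 1 2), rh8bb12d73720d799b, (rh942cc63c2b8406b7.shift 0 2), (rh9c34b91402778d8d.shift 0 2), (rhdbe81ec60db065ce.shift 0 2)] (by decide +kernel))
noncomputable def rh2bbb51c2c7786564 : CRef := CRef.mk (Pat.mk 0x3000000008000000000000000000000000 0x3c0000007c000000ff000000fe000001ee000000ee000000e6000000c6 10 9) 0 0 (step_sound _ 131 [rh1889dad5a3c2d14d, rh1f90d58d3e1dee25, (rh480231ab31e80384.shift 2 2), (rha37cffc7f4fa6717.shift 2 1), (rhd87b4f8c6f0ee2c4.shift 2 2)] (by decide +kernel))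
noncomputable def rhee814e8769cc063e : CRef := CRef.mk (Pat.mk 0x3000000008000000000000000000000000 0xc0000000c0000003e000001fc000003bf000000060000000600000006 10 10) 0 0 (step_sound _ 98 [(rh1b276a4b99d0ed82.shift 2 3), (rh3e0f0780af2f5018.shift 1 0), (rh7401e8cf466f4e5b.shift 0 3), (rhfe7c844806756e31.shift 1 3)] (by decide +kernel))
noncomputable def rhf2c591845161cd1e : CRef := CRef.mk (Pat.mk 0x180000000800000000000000000000000000000000 0x50000002700000027000000ef0000007f000000ff0000001f0000000f0000000700000002 10 8) 0 0 (step_sound _ 129 [(rh0b786d94a31538a6.shift 0 4), (rh10f2c9b04a72c968.shift 0 2), rh1942f004a389ebf1, (rhb77181cb54ac7d5d.shift 1 2)] (by decide +kernel))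
noncomputable def rhfe3c9a1f52e2e304 : CRef := CRef.mk (Pat.mk 0x180000000800000000000000000000000000000000 0x120000001e0000003e0000000f0000007f000000ff0000000e0000001e0000001e00000014 10 8) 0 0 (step_sound _ 130 [(rh447ae373a1784d66.shift 1 1), (rh69012675dfdb1a5b.shift 0 4), (rh77e94ccb69d4bd71.shift 1 1), rhf0caf6cbc954d27c] (by decide +kernel))
noncomputable def rh78b6c4c16d55feb6 : CRef := CRef.mk (Pat.mk 0x1800000008000000000000000000000000 0x160000001e0000003e0000000f0000007e0000001f0000003e0000001c00000014 10 7) 0 0 (step_sound _ 98 [(rh69012675dfdb1a5b.shift 0 3), rh975983a83bbe8e4b, rhb96196c8e295272e] (by decide +kernel))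
noncomputable def rh3fdae2bf12c46e72 : CRef := CRef.mk (Pat.mk 0x6000000020000000000000000000000000 0x1000000018000000fae000007fe00000fff000003d8000001d000000010 10 12) 0 0 (step_sound _ 135 [(rh2820ca9a6c4f41b4.shift 2 3), (rh2d748ae64f214226.shift 3 1), (rhb02f9c2bd63f56db.shift 4 3), rhdd630b8704088c94] (by decide +kernel))
noncomputable def rhae02b8a2dc749121 : CRef := CRef.mk (Pat.mk 0x1800000008000000000000000000000000 0x100000003c0000007c0000006e0000007f0000007f000000370000001600000006 10 7) 0 0 (step_sound _ 98 [(rh254894794a2d52fd.shift 1 1), rh27c62a455107843f, (rh69012675dfdb1a5b.shift 0 3), (rh77e94ccb69d4bd71.shift 1 0)] (by decide +kernel))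
noncomputable def rhe672ca32079cff78 : CRef := CRef.mk (Pat.mk 0x1800000008000000000000000000000000 0x26000000670000007f0000007f0000003f0000003e00000038 10 7) 0 0 (step_sound _ 98 [(rh69012675dfdb1a5b.shift 0 3), (rhb5fe5d40bf7848ef.shift 1 1), rhc4afa0bbc4d430fa, (rhd69c262cd33b94b3.shift 0 3)] (by decide +kernel))
noncomputable def rha593d90d3ae71526 : CRef := CRef.mk (Pat.mk 0x1800000008000000000000000000000000000000000000000000000000 0x140000001c0000001c0000000c000000780000003f0000007f0000003f0000001f0000001e0000001e00000010 10 7) 0 0 (step_sound _ 163 [(rh0f2d7e3ac2f4da14.shift 0 1), (rh157f2560bab4cd4a.shift 0 2), (rha9bb8c2bd208a34c.shift 0 1), (rhb261790060b42601.shift 1 2), (rhc6aee875695c98b3.shift 2 1), (rhca07e1e0f9ab8b72.shift 0 1), (rhdf3b25a8afb6a139.shift 2 2), rhfe8a8bba99d929a5, (rhff06aa69c3d4708c.shift 0 4)] (by decide +kernel))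
noncomputable def rh39640415a1300af3 : CRef := CRef.mk (Pat.mk 0x1800000008000000000000000000000000 0x1e0000001e0000003e0000000f0000001f000000ff000000ff0000001c0000001c 10 8) 0 0 (step_sound _ 163 [(rh048cfa31c620dccd.shift 2 1), rh09631e86b6926560, rh26d922a825afb607, (rh74f4480cb2396f37.shift 0 2), (rhab633b4e292f671e.shift 2 1), (rhc5a4b378befb3785.shift 0 2), rhebb1c343ac36a587] (by decide +kernel))
noncomputable def rhb6a40004fb7fbb6d : CRef := CRef.mk (Pat.mk 0x18000000080000000000000000000000000000000000000000 0x140000001c0000001c0000002f0000007c0000002f000000ff0000007f000000ff0000001600000002 10 8) 0 0 (step_sound _ 131 [(rh56a75a68bc2e8027.shift 0 1), (rh754f911ef7ea59d0.shift 0 1), (rh8b1fdc3dd67e0291.shift 0 1), (rha832719d4411b6fb.shift 0 2), (rhb31291ab037e5234.shift 0 2), rhca07e1e0f9ab8b72, (rhe0f25018abaf04cb.shift 0 1)] (by decide +kernel))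
noncomputable def rh35373d9f8681d4a2 : CRef := CRef.mk (Pat.mk 0x30000000100000000000000000 0x800000058000001df000001fe000003f70000003e0000003c 10 10) 0 0 (step_sound _ 99 [(rh2cfcbf2461165233.shift 2 0), (rh8f72efebe641a291.shift 0 2), rhb63a67c86dd72137, rhd999fd7700c9bb13, (rhe02b9053ecef7cc8.shift 1 0), rhf5fdf0340fd4f33d] (by decide +kernel))
noncomputable def rhb20175d6f3a10d20 : CRef := CRef.mk (Pat.mk 0x3000000010000000000000000000000000 0x20000000380000007c000000df000000ff000000fe0000007f0000003c0000001c 10 8) 0 0 (step_sound _ 99 [(rh69012675dfdb1a5b.shift 1 3), (rh8db0aee437f64a82.shift 1 1), rhe663a3e4198ef13a] (by decide +kernel))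
noncomputable def rhceaf1257ce06f94d : CRef := CRef.mk (Pat.mk 0x2000000030000000000000000000000000 0x2000000028000003be000001fe000003ff000000fc00000078 10 10) 0 0 (step_sound _ 68 [(rh91317bda041b6848.shift 2 0), (rhc5997b8545309636.shift 2 0), (rhcf80391c5046a495.shift 4 0), rhe58facf1dadb8a9e, (rhf9366b6a121593ef.shift 4 0)] (by decide +kernel))
noncomputable def rhe6d8e841ec53239f : CRef := CRef.mk (Pat.mk 0x80000000c0000000000000000000000000000000000000000 0x140000001c0000001e0000001f0000003c0000000f0000003c0000000f0000001e0000001c0000001c00000004 10 6) 0 0 (step_sound _ 227 [(rh281c6819542c66e6.shift 2 2), (rha6dfe1edc6ae80dd.shift 2 4), rhd4f8dd7f7f302949, (rheae65bdce6a2c484.shift 0 3)] (by decide +kernel))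
noncomputable def rhfb7672fd33d67255 : CRef := CRef.mk (Pat.mk 0x80000000c000000000000000000000000 0x40000003c0000007e000000ef0000007c0000007e0000003e0000001e 10 8) 0 0 (step_sound _ 66 [rh34b4ba085142f05e, rh91317bda041b6848, (rhcf80391c5046a495.shift 2 0), rhe91d405494c6da2c] (by decide +kernel))
noncomputable def rh0eb6c006f75c94a7 : CRef := CRef.mk (Pat.mk 0x1000000018000000000000000000000000 0xc0000003c0000007f0000001f0000001f0000007e0000007c0000003c 10 7) 0 0 (step_sound _ 67 [rh54b0ccb6ba4164e9, (rh96dc83ac2abd1d6c.shift 1 1), (rhcf80391c5046a495.shift 3 0), (rhf9366b6a121593ef.shift 3 0)] (by decide +kernel))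
noncomputable def rh4d218e76cbacc8eb : CRef := CRef.mk (Pat.mk 0x4000000060000000000000000000000000 0x780000007c0000077f000003fe000007bf0000003f0000003c 10 11) 0 0 (step_sound _ 100 [(rh064e8b8c23404c51.shift 1 2), (rh1717b78b8fc9e36f.shift 1 1), (rh223e1940761f4001.shift 0 1), rh337b033922370ba3, (rh654f35bb9bd7d6e6.shift 1 1), (rh662aab934ed6bc9a.shift 0 2), (rhba5e2ccc539513f1.shift 2 1), rhdfbd6339b97fba2d, rhf376a83a820aa330] (by decide +kernel))
noncomputable def rh34b0bb605fd8cffb : CRef := CRef.mk (Pat.mk 0x2000000030000000000000000000000000 0x180000001c0000009e000003bf000001fe000003fe000000f800000078 10 10) 0 0 (step_sound _ 102 [(rh3253d0e4d04a6ec5.shift 3 0), (rh5d7b213d78c53728.shift 1 0), rh67b00e89cb3aaebc, (rh6d6e4de5dc1f7e2a.shift 1 0), (rh706e7a1be30966af.shift 1 0), (rh7c76de055d250694.shift 1 0), (rhe29af703e5908274.shift 3 0)] (by decide +kernel))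
noncomputable def rh1541e4158194bebe : CRef := CRef.mk (Pat.mk 0x40000000600000000000000000000000000000000000000000 0xa0000000f0000000f80000075e000003fc000007fe000000ff000000fc000000e800000020 10 11) 0 0 (step_sound _ 164 [(rh0a9b1e6d802982f7.shift 1 4), (rh267d8855f30e6c12.shift 1 0), (rh2a30e31143d7eafb.shift 1 2), (rh4dcb624c3951b9f9.shift 2 1), (rhdfbd6339b97fba2d.shift 0 2), (rheec39be0da5bb0f4.shift 2 2), (rhf9a9db4bba2b321c.shift 1 2)] (by decide +kernel))
noncomputable def rh0f33094b1792880e : CRef := CRef.mk (Pat.mk 0x80000000c00000000000000000000000000000000 0x40000001c0000001c0000003c0000000f0000003f0000007b0000001f0000001e00000014 10 7) 0 0 (step_sound _ 99 [rh35a2d7ed0aa788d1, rh61ea970748d9d768, (rha9e77a1e55a91734.shift 0 1), (rhc4d65b18de230f42.shift 0 2), (rhd3839b58ff58a0a6.shift 0 1), (rhe294e7f53a5296b3.shift 2 0)] (by decide +kernel))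
noncomputable def rhd9b528cff5ee156d : CRef := CRef.mk (Pat.mk 0x1000000018000000000000000000000000 0x80000003c0000007c000000de000000fc000000ff0000007c0000003c 10 8) 0 0 (step_sound _ 67 [(rh094ad13c0bcbbe2d.shift 1 0), rh7fdf911901ff4358, (rhcf80391c5046a495.shift 3 0)] (by decide +kernel))
noncomputable def rh3f11cab5056208ce : CRef := CRef.mk (Pat.mk 0xc00000004000000000000000000000000 0x1e0000001f0000007f0000003f0000000c0000000c0000000c00000008 10 7) 0 0 (step_sound _ 163 [(rhcf80391c5046a495.shift 2 1), (rhe05013472713b83b.shift 0 1), rhf6564f3a100bdea6, (rhf9366b6a121593ef.shift 2 1)] (by decide +kernel))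
noncomputable def rh7289c06b19749b91 : CRef := CRef.mk (Pat.mk 0x30000000100000000000000000 0x10000000780000007c000001fe000003fe000001f7000000d400000010 10 10) 0 0 (step_sound _ 133 [(rh2d40c22620c1ed50.shift 2 0), (rh743653161a136e34.shift 0 1), (rhadf429772c25fde0.shift 4 0)] (by decide +kernel))
noncomputable def rh8415338d71b63018 : CRef := CRef.mk (Pat.mk 0x1800000008000000000000000000000000000000000000000000000000 0x100000001c0000001c0000003c000000f8000000fe000000f8000000ff0000007e0000003c0000001c0000001c00000010 10 8) 0 0 (step_sound _ 163 [(rh215e11e099257d75.shift 3 4), (rh2b077176b517716a.shift 1 3), (rh3820f35d5e705bec.shift 3 2), rhd86b9598a6b845e2] (by decide +kernel))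
noncomputable def rh59f17082cc94acc2 : CRef := CRef.mk (Pat.mk 0x18000000080000000000000000 0x3c0000003e000000ff0000001f0000007b0000003f0000001e 10 8) 0 0 (step_sound _ 132 [(rh2fb041970a6592d5.shift 1 1), (rh4821dcf828b9d7bf.shift 3 0), rha0efddddb8f4af4e, (rhcf80391c5046a495.shift 3 0)] (by decide +kernel))
noncomputable def rhe7aeadc8d6085d4a : CRef := CRef.mk (Pat.mk 0xc000000040000000000000000 0x1e0000003f0000007f0000007c0000007c0000007f0000000e 10 7) 0 0 (step_sound _ 131 [rh0fbd4a50ebcdaa1e, (rh4821dcf828b9d7bf.shift 2 0), (rhadf429772c25fde0.shift 2 0), (rhfb7addea7eb6b780.shift 0 1)] (by decide +kernel))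
noncomputable def rh766735faebab29b6 : CRef := CRef.mk (Pat.mk 0x3000000010000000000000000000000000 0x60000000e0000007ef000007fe000007f7000001f8000001f000000180 10 11) 0 0 (step_sound _ 134 [(rh13e4c1f26335f48b.shift 1 1), (rh1f90d58d3e1dee25.shift 1 0), (rh2a726dee3033a0b5.shift 3 1), (rh432b72e730ac333b.shift 1 3), (rh709cb826d1fec7db.shift 2 1), (rh79c977808b09105d.shift 4 0), (rhbcb0fff0b1af69bc.shift 0 1), (rhc3a387fc8eeb5a40.shift 0 1), (rhcb536530d718d8fb.shift 1 1)] (by decide +kernel))
noncomputable def rhfdfd835ec7b8e309 : CRef := CRef.mk (Pat.mk 0x3000000010000000000000000000000000 0x78000000fe000001ff000001fe000001f7000001e4000000e000000020 10 9) 0 0 (step_sound _ 165 [(rh049e8546f80bc13c.shift 2 2), (rh5e0ceb282778b442.shift 2 2), (rh8c6e24724fadba68.shift 1 1), (rha173c2f44c64853d.shift 2 2), (rhcb89e33d90f7ca25.shift 0 2), (rhdb26dfe50eb4e6f1.shift 2 2), (rhf6564f3a100bdea6.shift 2 0), (rhfb7addea7eb6b780.shift 2 2)] (by decide +kernel))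
noncomputable def rh3f24c0d89f16d118 : CRef := CRef.mk (Pat.mk 0x30000000100000000000000000 0x800000058000001df000001fe000003f70000003e0000003c 10 10) 0 0 (step_sound _ 99 [rh10b213af70836e53, (rh8f72efebe641a291.shift 0 2), (rh922f91b07b355c56.shift 2 0), (rhd09d4da627ee30e0.shift 1 0), rhd999fd7700c9bb13, (rhe02b9053ecef7cc8.shift 1 0), rhf5fdf0340fd4f33d] (by decide +kernel))
noncomputable def rh7000deb00f042771 : CRef := CRef.mk (Pat.mk 0x400000006000000000000000000000000000000000 0x7000000078000003ff000001fe000001df000000dc0000009c00000014 10 10) 0 0 (step_sound _ 132 [(rha11dfd15f08f96e3.shift 3 4), rhaca5a1f10f294ae0, (rhf49c63ca7c0f3ebe.shift 3 1)] (by decide +kernel))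
noncomputable def rh63383b4c509ba770 : CRef := CRef.mk (Pat.mk 0x1000000018000000000000000000000000 0x2000000030000000f0000000ff000000fe000000f00000007000000020 10 8) 0 0 (step_sound _ 133 [(rh69012675dfdb1a5b.shift 1 3), (rh8ecee3a52307563f.shift 0 1), (rhac294db778c754f7.shift 1 0), (rhd69c262cd33b94b3.shift 1 3)] (by decide +kernel))
noncomputable def rhbfcfc1bf2859ccd1 : CRef := CRef.mk (Pat.mk 0x80000000c00000000000000000000000000000000 0x100000001e0000001e0000007e0000007c0000007f00000078000000380000001800000010 10 7) 0 0 (step_sound _ 164 [(rh574fdbf07bdd18b9.shift 0 4), (rh8651a465049c0737.shift 1 2), rhf2ae2118c9289b14] (by decide +kernel))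
noncomputable def rhfa7f61b8b5ef2f29 : CRef := CRef.mk (Pat.mk 0x2000000030000000000000000000000000 0x440000005c000000de000007ff000003fe000003af0000000c00000008 10 11) 0 0 (step_sound _ 99 [(rh496ad5ec95f547e9.shift 2 1), rh987fc1c47fd0144e, (rha11dfd15f08f96e3.shift 2 3), (rhb12ffaec36122c99.shift 0 2)] (by decide +kernel))
noncomputable def rh1bbbdec2e47191c4 : CRef := CRef.mk (Pat.mk 0x80000000c000000000000000000000000 0x3400000034000000760000007f0000007f0000003b0000001a00000018 10 7) 0 0 (step_sound _ 132 [rh09a024bc861da702, (rh574fdbf07bdd18b9.shift 0 3), (rhffa8e0dd4fb92aac.shift 1 2)] (by decide +kernel))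
noncomputable def rh8f43578b071ceb40 : CRef := CRef.mk (Pat.mk 0x1000000018000000000000000000000000 0x3c0000003c000000ff000000ff000000fe000000e6000000e400000020 10 8) 0 0 (step_sound _ 133 [(rh04561ea046c0cfb0.shift 1 0), (rh0bb882ba86b2372d.shift 1 3), (rh0ff7983a4cc4fb84.shift 0 1), (rh574fdbf07bdd18b9.shift 1 3)] (by decide +kernel))
noncomputable def rh9c1bacb82ad48b44 : CRef := CRef.mk (Pat.mk 0x100000001800000000000000000000000000000000 0x28000000380000003f0000007f000000fe000000fe0000001e00000030000000380000003800000008 10 8) 0 0 (step_sound _ 196 [(rh02db6bfe81901fce.shift 1 1), (rh142bfce0b288ab65.shift 2 0), (rh275dde5d34b9abf3.shift 1 0), (rh699aacf78406c1c0.shift 0 1), (rh9cecb5ed68e86fa3.shift 1 1), (rhbd6908471419b56f.shift 0 4), (rhddd7d9916b46e467.shift 1 0)] (by decide +kernel))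
noncomputable def rh90803f9226e8539f : CRef := CRef.mk (Pat.mk 0x1000000018000000000000000000000000 0x7c0000007e000000ff000000ff000001f8000001f00000007000000020 10 9) 0 0 (step_sound _ 133 [(rh09c5b2d217f949d6.shift 0 1), (rh0ce7f44f7372fbde.shift 2 1), (rh6747ab346acf3050.shift 2 0), (rhc19807cee6f35a21.shift 1 1), (rhc824923119576d9c.shift 0 1), (rhd63589b6d6f34053.shift 0 2), (rhf134e445859ede6c.shift 0 2), (rhffa8e0dd4fb92aac.shift 2 2)] (by decide +kernel))
noncomputable def rhc51ee6656ebafa4d : CRef := CRef.mk (Pat.mk 0x100000001800000000000000000000000000000000 0x800000038000000380000003f0000007f000000fe000003f7000001fe000001f7000000380000003800000008 10 10) 0 0 (step_sound _ 196 [(rh0977ffb57441463b.shift 0 1), (rh0eca8a9a6448363b.shift 1 0), (rh111e7ec3e479211d.shift 0 1), (rh54682df2a0f0967d.shift 1 2), (rh699aacf78406c1c0.shift 0 1), (rhc820e7dd54a75699.shift 0 1), (rhf09057449135e91b.shift 0 3), (rhfccd9c6f70d46299.shift 1 2)] (by decide +kernel))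
noncomputable def rhb49eb03c8ebda250 : CRef := CRef.mk (Pat.mk 0x80000000c000000000000000000000000 0x380000003c0000003e0000007f000000ff000000f80000003800000010 10 8) 0 0 (step_sound _ 132 [(rh0bb882ba86b2372d.shift 0 3), rhac294db778c754f7, (rhf9a4e8905f2e9ff6.shift 1 1)] (by decide +kernel))
noncomputable def rh9cce8405bffb5fd1 : CRef := CRef.mk (Pat.mk 0x80000000c000000000000000000000000 0x180000001c0000003c0000003e000000ff0000007b0000001f0000001c0000001c00000014 10 8) 0 0 (step_sound _ 132 [(rh39a2b5db14bf0cdf.shift 0 1), (rh574fdbf07bdd18b9.shift 0 3), rhe80a56346b0cd4f7] (by decide +kernel))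
noncomputable def rh514c077092042003 : CRef := CRef.mk (Pat.mk 0x2000000030000000000000000000000000 0x7000000078000001f0000000e0000000fc000003fe000001ff000003fe 10 10) 0 0 (step_sound _ 36 [rh065155b0577b47a1, (rh11b5a373ce1dc625.shift 2 0), (rh580df77fe152422b.shift 4 0), (rh692e1d2726fec94b.shift 2 1), (rhed4974690387bbba.shift 1 0)] (by decide +kernel))
noncomputable def rh5aaf14baadb49d58 : CRef := CRef.mk (Pat.mk 0x1000000018000000000000000000000000 0x1000000016000003b7000001ff000001ff0000007e0000002c 10 10) 0 0 (step_sound _ 67 [rh08fc8fa7484fd9da, rhcbc8638f77e99969, (rhcf80391c5046a495.shift 3 0)] (by decide +kernel))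
noncomputable def rhcd92bd3d1ac5b14e : CRef := CRef.mk (Pat.mk 0x80000000c000000000000000000000000 0x80000001c0000003c0000003e0000007f0000007b000000ff000000ef0000000c00000004 10 8) 0 0 (step_sound _ 132 [rh18888f9e0867ce57, (rh574fdbf07bdd18b9.shift 0 3), (rh7fd2f1ca8505eca9.shift 0 1), (rh8cd9ca720afb03af.shift 1 1)] (by decide +kernel))
noncomputable def rh1bcc9cd5ccc76c5d : CRef := CRef.mk (Pat.mk 0x20000000300000000000000000000000000000000000000000 0x50000000f0000001fc000007ee000001fe000007ff000001e0000001f00000017000000010 10 11) 0 0 (step_sound _ 199 [(rh43cb9b87087debbc.shift 2 0), (rhbce92dd26fbcc3fd.shift 4 1), (rhc143e249d45cfa01.shift 1 2), (rhcaad12c7c5f832bd.shift 0 2), (rhcadd85ff2a73e8c7.shift 2 5)] (by decide +kernel))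
noncomputable def rh0e3cd86fb68fad8c : CRef := CRef.mk (Pat.mk 0x1000000018000000000000000000000000 0x280000003f0000007f000000fe000000f00000001e000000780000003800000028 10 8) 0 0 (step_sound _ 164 [(rh68a777751bfeafdf.shift 3 2), rh699aacf78406c1c0, (rh6de9a4dd94107699.shift 1 0), (rhb99f8f6e6677b04f.shift 3 2), (rhf9adc524e90a9f35.shift 1 1)] (by decide +kernel))
noncomputable def rh164828c557328610 : CRef := CRef.mk (Pat.mk 0x4000000060000000000000000000000000 0x58000007de000003fc000007be000000bf000000bc 10 11) 0 0 (step_sound _ 100 [(rh9a93db625e0699b7.shift 3 0), (rha11dfd15f08f96e3.shift 3 3), (rhb12ffaec36122c99.shift 1 2), rhdfbd6339b97fba2d, (rhf5183d55e2daca0a.shift 2 0)] (by decide +kernel))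
noncomputable def rh303d4782f566cea1 : CRef := CRef.mk (Pat.mk 0x4000000060000000000000000000000000 0x1800000018000000198000007de000007fc000007fc000000ff000000fc 10 11) 0 0 (step_sound _ 100 [(rh0dac1c29925951e0.shift 3 0), (rhb9d70f667ff7387a.shift 1 2), (rhbe205b6920fa72d2.shift 2 2), rhdfbd6339b97fba2d] (by decide +kernel))
noncomputable def rh9e7317060a8775f9 : CRef := CRef.mk (Pat.mk 0x1000000018000000000000000000000000 0x28000000380000003f0000007f000000fe000000f0000000f8000000ff0000003f00000020 10 8) 0 0 (step_sound _ 164 [rh699aacf78406c1c0, (rhac6464bb64255311.shift 3 2), (rhb99f8f6e6677b04f.shift 3 2), rhe9f8430ca256b21f] (by decide +kernel))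
noncomputable def rh28044196f27a8b0a : CRef := CRef.mk (Pat.mk 0x200000003000000000000000000000000000000000 0x40000000f0000001fc000007ee000001fe000001ff000001f8000001f000000150 10 11) 0 0 (step_sound _ 167 [(rh28ff416f1350d2b6.shift 1 1), (rh3dba15ef7828dbb7.shift 0 1), (rh93f3f5dbf1d1ed62.shift 3 0), (rhcadd85ff2a73e8c7.shift 2 4), (rhf136cdba786798e9.shift 2 0)] (by decide +kernel))
noncomputable def rh20e0394f8f925682 : CRef := CRef.mk (Pat.mk 0x300000001000000000000000000000000000000000 0xa0000000e0000003e000003ff000001fe000003de0000003e0000003e0000002e00000004 10 10) 0 0 (step_sound _ 130 [(rh1942f004a389ebf1.shift 1 0), (rh2c5c53e1a33f190d.shift 0 2), (rh897481ef0426b7be.shift 1 1), (rhd676e29efc80bda3.shift 1 2), (rhedf3a755fe019897.shift 1 4)] (by decide +kernel))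
noncomputable def rh2c7684c9b4e5f8a3 : CRef := CRef.mk (Pat.mk 0x18000000080000000000000000000000000000000000000000 0x140000001c0000007c0000007e0000006f0000007e0000007e0000001e0000001c00000010 10 7) 0 0 (step_sound _ 162 [rh243084eca8855adb, (rh5803866c4be77926.shift 1 1), (rhd69c262cd33b94b3.shift 0 5)] (by decide +kernel))
noncomputable def rhbd5b5b85f61cbc0f : CRef := CRef.mk (Pat.mk 0x300000001000000000000000000000000000000000 0x80000000c0000009e000003ff000001fe000003de0000007e0000007e0000002e00000002 10 10) 0 0 (step_sound _ 130 [(rh581b892268b337d1.shift 0 2), (rh64a9b2d79095dd0c.shift 2 2), (rhe21aaba101e29d72.shift 1 0), (rhedf3a755fe019897.shift 1 4), (rhf3547186ae33317a.shift 1 1)] (by decide +kernel))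
noncomputable def rh2bf5ab79786161b3 : CRef := CRef.mk (Pat.mk 0x30000000100000000000000000000000000000000000000000 0x2000000030000000f7000000ff000000de000000fe000000fe0000003c0000003800000010 10 8) 0 0 (step_sound _ 163 [(rh4efaf835c8850dd6.shift 0 2), (rh6fc7337cb9cb7221.shift 1 0), (rha6b857535ffa10de.shift 1 1), (rhd69c262cd33b94b3.shift 1 5)] (by decide +kernel))
noncomputable def rh29716bf159727dfe : CRef := CRef.mk (Pat.mk 0x600000002000000000000000000000000000000000 0x50000003fe000001fc000003fe000001fe000003b7000000f0000000700000007000000040 10 10) 0 0 (step_sound _ 230 [(rh06672a3fca225e6f.shift 2 0), (rh0a8186594db83701.shift 0 2), (rh16cbd58a1619e6a8.shift 5 2), (rh8f199c21ca5afe1c.shift 2 1), (rhc96e1d7b6c75e2e4.shift 1 4)] (by decide +kernel))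
noncomputable def rh8cf99af293478b65 : CRef := CRef.mk (Pat.mk 0x1800000008000000000000000000000000 0x3000000074000001f7000000fe000001ef000000e8000000e8000000c0 10 9) 0 0 (step_sound _ 133 [rh1f90d58d3e1dee25, (rh2820ca9a6c4f41b4.shift 0 3), (rh9263397f17359e5c.shift 1 1), (rhec89969cfdaf3653.shift 2 1), (rhfa35e196e150edb4.shift 2 3)] (by decide +kernel))
noncomputable def rh1cf55cdc574736fe : CRef := CRef.mk (Pat.mk 0x18000000080000000000000000000000000000000000000000 0x140000001c0000001c0000001e000000780000000f0000003f0000003f0000001f0000001600000002 10 7) 0 0 (step_sound _ 131 [(rh215e11e099257d75.shift 3 3), (rh3dc4909d73747b18.shift 0 3), rhca07e1e0f9ab8b72, (rhe1a3e820b9828b5e.shift 2 2), (rhffb8e5993241bf15.shift 2 1)] (by decide +kernel))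
noncomputable def rh4f456902d5171ba0 : CRef := CRef.mk (Pat.mk 0x18000000080000000000000000000000000000000000000000 0x160000001e0000001f0000003f0000001f0000000f0000003f0000003f0000001f0000001e00000016 10 6) 0 0 (step_sound _ 131 [(rh883b1f78c0ac70da.shift 0 3), (rha2d608bbf475f0c5.shift 2 0), rhca07e1e0f9ab8b72, (rhe1a3e820b9828b5e.shift 2 2)] (by decide +kernel))
noncomputable def rh32a3c209dbffb4c4 : CRef := CRef.mk (Pat.mk 0x1800000008000000000000000000000000 0x3c0000007c000001ff000000fe000001ee000000e6000000e6000000c6 10 9) 0 0 (step_sound _ 133 [rh1889dad5a3c2d14d, rh1f90d58d3e1dee25, (rh796d3db90fc004ad.shift 2 3), (rh8eea156ffecb6be4.shift 2 3), (rhec89969cfdaf3653.shift 2 1)] (by decide +kernel))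
noncomputable def rh12c3af205c6c98b8 : CRef := CRef.mk (Pat.mk 0x60000000200000000000000000000000000000000000000000 0x500000007000000070000003be000001fe000003bf000003fc000001fc000003fc0000005800000008 10 10) 0 0 (step_sound _ 133 [(rh56a75a68bc2e8027.shift 2 1), (rh754f911ef7ea59d0.shift 2 1), (rh8b1fdc3dd67e0291.shift 2 1), (rhb31291ab037e5234.shift 2 2), (rhca07e1e0f9ab8b72.shift 2 0), (rhe1116e23db2992f3.shift 0 3)] (by decide +kernel))
noncomputable def rh973ad3a27c9dd866 : CRef := CRef.mk (Pat.mk 0x30000000100000000000000000000000000000000000000000 0x2000000030000000f7000000ff000000fe000000fe0000007e0000003c0000001000000010 10 8) 0 0 (step_sound _ 163 [(rh4efaf835c8850dd6.shift 0 2), (rh69012675dfdb1a5b.shift 1 5), (rhd325660dbf4d54e2.shift 1 0)] (by decide +kernel))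
noncomputable def rh0e269abad617f439 : CRef := CRef.mk (Pat.mk 0x1800000008000000000000000000000000 0x1c0000001e0000007e0000007f000000ff000000ef0000000e00000006 10 8) 0 0 (step_sound _ 98 [(rh69012675dfdb1a5b.shift 0 3), (rh78098dbfc93bd0b2.shift 1 0), (rhea3a1ff045a528f2.shift 0 1)] (by decide +kernel))
noncomputable def rhe5d0b3b2bf169a0e : CRef := CRef.mk (Pat.mk 0x18000000080000000000000000 0xc0000003c0000007e000001fe000000f8000000ff0000007c0000003c 10 9) 0 0 (step_sound _ 132 [(rh4821dcf828b9d7bf.shift 3 0), (rh4e803ceab90808df.shift 0 1), (rhcf80391c5046a495.shift 3 0), (rhe4572f6abcdbda02.shift 1 0)] (by decide +kernel))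
noncomputable def rh7df9eb929e8c358c : CRef := CRef.mk (Pat.mk 0x18000000080000000000000000 0x380000007e000000ff0000001f0000007e0000007c0000003c 10 8) 0 0 (step_sound _ 132 [(rh049e8546f80bc13c.shift 1 1), rh91c53059570bd2f7, (rhcf80391c5046a495.shift 3 0), (rhf9366b6a121593ef.shift 3 0)] (by decide +kernel))
noncomputable def rhe0f3b5b5b1878858 : CRef := CRef.mk (Pat.mk 0x1800000008000000000000000000000000 0x1c0000001c0000007e0000007f0000007f000000770000001600000006 10 7) 0 0 (step_sound _ 98 [rh455e3ff286dfe736, (rh69012675dfdb1a5b.shift 0 3), (rh78098dbfc93bd0b2.shift 1 0)] (by decide +kernel))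
noncomputable def rh7a66146ce306bfe0 : CRef := CRef.mk (Pat.mk 0x200000002000000020000000000000000000000000 0x280000007c000003ff000001fe000003ff0000005000000050 10 10) 0 0 (step_sound _ 100 [(rh281c6819542c66e6.shift 4 0), rh63e7159581eaae65, rhdc307fc160c4488d] (by decide +kernel))
noncomputable def rhb0ee304c36d7b3d8 : CRef := CRef.mk (Pat.mk 0x40000000400000004000000000000000000000000000000000 0xf8000000f8000000ff000001fe000003ff000003fc000000d8000000c0000000c000000080 10 10) 0 0 (step_sound _ 197 [(rhb1a251d9bff81766.shift 5 3), (rhc931f01983b76fa0.shift 0 3), (rhda59ee745960d09f.shift 3 0)] (by decide +kernel))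
noncomputable def rh6e7e6c92b6c89630 : CRef := CRef.mk (Pat.mk 0x200000002000000020000000000000000000000000 0x3800000038000003bf000001fe000003fe0000007800000050 10 10) 0 0 (step_sound _ 100 [(rh61f1e0e0359381e9.shift 2 0), (rhd8ba788e15a14b00.shift 3 1), rhdc307fc160c4488d, (rhfafeb437ceb8396d.shift 4 0)] (by decide +kernel))
noncomputable def rhd2b434d62f13105e : CRef := CRef.mk (Pat.mk 0x80000000800000008000000000000000000000000 0x10000000180000001c000000ff000001ff000000780000001e0000001c00000014 10 9) 0 0 (step_sound _ 228 [(rh2d9fb7ccdcfc0559.shift 3 2), (rh46edbee45d1ac9f9.shift 1 0), rh49aed23c5c9cd2f7, (rhd0cd0e78c5cfff71.shift 3 2)] (by decide +kernel))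
noncomputable def rhe4d03280ae62394b : CRef := CRef.mk (Pat.mk 0x1000000010000000100000000000000000 0x2800000038000000380000003800000010000003ff000001fe000001ef 10 10) 0 0 (step_sound _ 36 [(rh193da7fc9e1674f1.shift 3 0), rh2dc1689e1010e2f7, (rhc9ac229b3c77cd55.shift 3 0), (rhefb41fb43257ec4b.shift 3 0)] (by decide +kernel))
noncomputable def rhc2bdd56b831b6bc2 : CRef := CRef.mk (Pat.mk 0x100000001000000010000000000000000000000000 0x1000000050000001ff000003fe000001ff0000002800000028 10 10) 0 0 (step_sound _ 101 [(rh70e33bfdf511e144.shift 4 0), rh7f8163adf5ae5204, rhb20705096d82156e] (by decide +kernel))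
noncomputable def rh11aff420b3c5d12a : CRef := CRef.mk (Pat.mk 0x80000000800000008000000000000000000000000 0x140000001c0000001c0000001c0000001f0000003c000000180000001c0000000c0000000c00000004 10 6) 0 0 (step_sound _ 194 [(rh114f4abf4ea101c9.shift 2 2), (rh8f927de3ee3614aa.shift 0 2), (rh95c36413021fa127.shift 2 0)] (by decide +kernel))
noncomputable def rh65e2807b0527d981 : CRef := CRef.mk (Pat.mk 0x100000001000000010000000000000000000000000 0x20000000380000003c0000007f00000078000003ff000003fe000003f70000007000000060 10 10) 0 0 (step_sound _ 101 [rh4298c65ec9c7d45a, (rh70e33bfdf511e144.shift 4 0), (rh7d760757b818a3dc.shift 0 1)] (by decide +kernel))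
noncomputable def rh762ccb910bfad444 : CRef := CRef.mk (Pat.mk 0x20000000200000002000000000 0x50000000700000007000000070000003ff000001fe000003de 10 10) 0 0 (step_sound _ 133 [(rh079118b129da7b94.shift 1 0), (rh1741680720c097b4.shift 4 1), rhd58565e5fd173196] (by decide +kernel))
noncomputable def rh2045a6e68984b589 : CRef := CRef.mk (Pat.mk 0x100000001000000010000000000000000000000000000000000000000000000000 0x8000000380000003800000070000000f8000003fe000001ff000003fe000000b800000038000000380000003800000028 10 10) 0 0 (step_sound _ 197 [(rh046c5eb18e55a239.shift 4 3), rh6a5103bdca8794f1, (rh995b2b0ade836d19.shift 1 2)] (by decide +kernel))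
noncomputable def rhb3fa98a9da1e59c9 : CRef := CRef.mk (Pat.mk 0x10000000100000001000000000000000000000000000000000 0x8000000180000001e0000003e000000ff0000003e0000007f0000003e0000003800000010 10 8) 0 0 (step_sound _ 133 [(rh061e93e5f0d0f5e6.shift 0 1), (rh0fa4a62bba50784f.shift 3 3), rh382523b0216d2832, (rh70e33bfdf511e144.shift 4 1)] (by decide +kernel))
noncomputable def rhb074452e833da523 : CRef := CRef.mk (Pat.mk 0x80000000800000008000000000000000000000000 0x180000001c0000001f0000007e000000780000001c0000000c0000000c00000004 10 7) 0 0 (step_sound _ 66 [(rh0e6924d680f6455d.shift 2 0), (rh4ec1fdaeed3308ba.shift 0 2), (rhf2bd6a03d3c00d1f.shift 1 1)] (by decide +kernel))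
noncomputable def rh522052f86d36d7e1 : CRef := CRef.mk (Pat.mk 0x200000002000000020000000000000000000000000 0x50000000f8000000df000001fe000003fe0000007c000001fe0000007c00000050 10 10) 0 0 (step_sound _ 166 [(rh3820f35d5e705bec.shift 5 0), (rh8807560232ddff73.shift 0 1), (rhb7b46d8b88ce24d1.shift 1 0)] (by decide +kernel))
noncomputable def rh50fcc88a76c5a337 : CRef := CRef.mk (Pat.mk 0x40000000400000004000000000 0x90000000f0000000ff000001ff000003ff000003fe000000f8000000b0 10 10) 0 0 (step_sound _ 133 [(rh055eea5193a22998.shift 5 0), rh368a9cbdef90695e, rh4e32f5b808306e2f, (rh90b558dcae53cbf1.shift 5 0), (rhec4ac42e95ac8f0d.shift 5 0), (rhf153d2af6b144509.shift 5 0)] (by decide +kernel))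
noncomputable def rh73aec11b36f400db : CRef := CRef.mk (Pat.mk 0x2000000020000000200000000000000000000000000000000000000000 0x40000000700000007e000000fe000001ff000001f00000006000000070000000700000007000000040 10 9) 0 0 (step_sound _ 166 [(rh046c5eb18e55a239.shift 5 2), rh7c1207aa56ad385b, (rhd15017b599f17693.shift 2 4)] (by decide +kernel))
noncomputable def rh31eeba95ca254fd8 : CRef := CRef.mk (Pat.mk 0x80000000800000008000000000000000000000000000000000000000000000000 0x180000001c0000001c0000000f000000ff0000007e000000fc0000003c000001fe000000fe000001f800000028 10 9) 0 0 (step_sound _ 132 [(rh1b85b0bb4cee0ea8.shift 3 3), (rh38448bed95c46478.shift 2 3), (rh6479bc7cff2007d0.shift 0 3), (rh6f5579ba80493a5a.shift 1 0), (rhce9ee7ff41c3dcde.shift 0 4)] (by decide +kernel))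
noncomputable def rhb32fa38d05f16009 : CRef := CRef.mk (Pat.mk 0x80000000800000008000000000000000000000000000000000000000000000000 0x140000001f0000003f0000003f0000000c0000003c0000003c00000030000001fe000000fe000001f800000028 10 9) 0 0 (step_sound _ 132 [(rh0b16569382d755d2.shift 0 5), (rh1b85b0bb4cee0ea8.shift 3 3), (rh6f5579ba80493a5a.shift 1 0)] (by decide +kernel))
noncomputable def rh7f6216d5793f4f46 : CRef := CRef.mk (Pat.mk 0x10000000100000001000000000 0x40000002c0000003f0000007f0000007e000000380000003800000028 10 7) 0 0 (step_sound _ 132 [(rh1741680720c097b4.shift 3 1), (rh92429956536b1bd1.shift 0 1), (rhc4ec57a3756c3a6c.shift 3 0)] (by decide +kernel))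
noncomputable def rh8e6dddc30de85134 : CRef := CRef.mk (Pat.mk 0x100000001000000010000000000000000000000000 0xc0000001c000000ff0000007f000007ff000003fe000003fc000000fc00000020 10 11) 0 0 (step_sound _ 101 [(rh18b5945d99173990.shift 1 0), (rh4510783ac91e3300.shift 0 1), (rh70e33bfdf511e144.shift 4 0)] (by decide +kernel))
noncomputable def rhe5987ec13dc9ba5a : CRef := CRef.mk (Pat.mk 0x200000002000000020000000000000000000000000 0xe8000001f8000000ff00000ffc000007fc000007f8000001d800000050 10 12) 0 0 (step_sound _ 102 [(rh70e33bfdf511e144.shift 5 0), (rh791db6576927f7df.shift 2 0), rhb29e4a2e7af50590] (by decide +kernel))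
noncomputable def rh57dac987bb26f387 : CRef := CRef.mk (Pat.mk 0x100000001000000010000000000000000000000000 0x200000003c0000007f0000007e000000fe000000fe000000f40000006000000060 10 8) 0 0 (step_sound _ 101 [rh663d9dbec29197f7, (rh70e33bfdf511e144.shift 4 0), (rhd15017b599f17693.shift 1 2)] (by decide +kernel))
noncomputable def rha89ab3b0f4730db2 : CRef := CRef.mk (Pat.mk 0x100000001000000010000000000000000000000000 0x280000003800000078000000f70000007f0000007e000000f00000007c0000003800000028 10 8) 0 0 (step_sound _ 165 [(rh15590a39afd9a120.shift 3 0), (rh1901a7fb35ec8315.shift 2 0), (rh215e11e099257d75.shift 4 2), (rh883fa33b05ac21a1.shift 0 1)] (by decide +kernel))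
noncomputable def rh68596287cd00ce89 : CRef := CRef.mk (Pat.mk 0x80000000800000008000000000000000000000000 0x1c0000001c0000001c0000002c0000003f000003ff000001ff000001fe0000007c0000001c 10 10) 0 0 (step_sound _ 100 [(rh70e33bfdf511e144.shift 3 0), (rhadfef7546daeceb4.shift 2 0), rhc5c210620c94c6d2] (by decide +kernel))
noncomputable def rh00868490baac5e29 : CRef := CRef.mk (Pat.mk 0x80000000800000008000000000000000000000000 0x140000001c0000001c0000001c0000001f000000380000007c0000000f0000003c0000001c00000014 10 7) 0 0 (step_sound _ 98 [(rh0d8042a934a6fb4a.shift 0 1), rh319ed8b014104f09, (rhfafeb437ceb8396d.shift 2 0)] (by decide +kernel))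
noncomputable def rh08ef12baae6c8ea9 : CRef := CRef.mk (Pat.mk 0x4000000040000000400000000000000000000000000000000000000000 0x30000000b0000003bf000001fe000003fe000007f8000003f0000003e0000001e0000000e0000000a0 10 11) 0 0 (step_sound _ 229 [(rh3bb55f6e93d96fa1.shift 3 0), (rh9aa290eda1492731.shift 0 4), (rhd1779d7de7f8215b.shift 5 2)] (by decide +kernel))
noncomputable def rh76304e6aa3929be8 : CRef := CRef.mk (Pat.mk 0x80000000800000008000000000000000000000000 0x140000001f0000007f0000003f000003ff000001ff000001f60000007400000010 10 10) 0 0 (step_sound _ 100 [(rh046c5eb18e55a239.shift 3 0), (rh2fa6670cfb58b980.shift 0 2), rhb3ae74282e00d930] (by decide +kernel))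
noncomputable def rh5925343db5cb8fed : CRef := CRef.mk (Pat.mk 0x10000000100000001000000000000000000000000000000000 0x28000000380000003e0000001e000000fe0000007e000000ff000000ff0000003c0000003c00000028 10 8) 0 0 (step_sound _ 133 [(rh009307b2c3c269f5.shift 0 1), (rh70e33bfdf511e144.shift 4 1), (rh833e41ddbb5c625c.shift 1 0)] (by decide +kernel))
noncomputable def rhf417018554d4c972 : CRef := CRef.mk (Pat.mk 0x100000001000000010000000000000000000000000 0x7000000070000000fe0000007e000000ff000001ff0000007c0000002c 10 9) 0 0 (step_sound _ 101 [(rh6fd69313e5466996.shift 1 1), (rh70e33bfdf511e144.shift 4 0), rh786c0da67cf3adcd] (by decide +kernel))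
noncomputable def rh5566c9fb73a15aa9 : CRef := CRef.mk (Pat.mk 0x4000000040000000400000000000000000 0xa0000000b0000001ff000001fe000001fe000001fc0000007800000070 10 9) 0 0 (step_sound _ 133 [(rh81c7365fc489ef85.shift 0 1), (rhb1a251d9bff81766.shift 5 1), (rhd269f218f6f38e49.shift 2 0)] (by decide +kernel))
noncomputable def rh030aa311e066af5e : CRef := CRef.mk (Pat.mk 0x40000000400000004000000000000000000000000000000000 0x20000000a0000001ff000003fe000001fe000000d8000000d0000000e0000000e0000000a0 10 10) 0 0 (step_sound _ 197 [(rh2d9c36e0995d7532.shift 0 3), (rhb1a251d9bff81766.shift 5 3), (rhba838f5e12b9f036.shift 5 0)] (by decide +kernel))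
noncomputable def rhb8278305f59f059d : CRef := CRef.mk (Pat.mk 0x8000000080000000800000000000000000000000000000000 0x100000001c0000001c0000000c0000000c0000003f0000003f0000001f0000001600000002 10 6) 0 0 (step_sound _ 260 [rh6b70f86f0268fe66, (rh7f6d3539d97be392.shift 2 3), (rhaaa1c3a857c35d86.shift 2 2)] (by decide +kernel))
noncomputable def rh0c2aa196b86f02a6 : CRef := CRef.mk (Pat.mk 0x20000000200000002000000000 0x40000005c0000007f000000fe000001ff000000ff0000007e0000005e 10 9) 0 0 (step_sound _ 133 [(rh1741680720c097b4.shift 4 1), rh268c7c52985ea0a1, (rhc4ec57a3756c3a6c.shift 4 0)] (by decide +kernel))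
noncomputable def rh4b8bcd6ce98c4936 : CRef := CRef.mk (Pat.mk 0x10000000100000001000000000000000000000000000000000 0x28000000380000007800000058000000f8000007fc000007ff00000fff000000f80000007800000028 10 12) 0 0 (step_sound _ 133 [(rh70e33bfdf511e144.shift 4 1), (rh833e41ddbb5c625c.shift 1 0), (rhdb84149b328dac21.shift 0 1)] (by decide +kernel))
noncomputable def rh49b21414ed062a87 : CRef := CRef.mk (Pat.mk 0x8000000080000000800000000000000000000000000000000 0x140000001c0000001c0000003f0000007f0000007e0000007f0000002e0000001e0000001800000010 10 7) 0 0 (step_sound _ 194 [(rh39b19d82547f1312.shift 0 2), rh817d7876ada3bbd5, (rhb1a251d9bff81766.shift 2 3)] (by decide +kernel))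
noncomputable def rhb2e53ba4bdf39556 : CRef := CRef.mk (Pat.mk 0x80000000800000008000000000000000000000000 0xc0000001c0000001c0000003f0000007f000000fe000000ff000000380000001800000010 10 8) 0 0 (step_sound _ 162 [rh3b351cca2bf20922, (rh75bcc01263973aae.shift 2 1), (rh7c47d822bc010682.shift 0 2), (rhb1a251d9bff81766.shift 2 2)] (by decide +kernel))
noncomputable def rh1d3b2ac1ec75e9e7 : CRef := CRef.mk (Pat.mk 0x8000000080000000800000000000000000000000000000000 0x140000001c0000001c0000003c000000fc000000fc000000f8000001df0000001c0000001c00000014 10 9) 0 0 (step_sound _ 132 [(rh14e0829dc73b6804.shift 2 3), (rh70e33bfdf511e144.shift 3 1), rh833e41ddbb5c625c, (rhb0d63b0f75c8f345.shift 1 1)] (by decide +kernel))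
noncomputable def rh81295256b9bcdc04 : CRef := CRef.mk (Pat.mk 0x100000001000000010000000000000000000000000 0x280000003800000078000000f8000003fc000001fc000003ef000000fc00000068 10 10) 0 0 (step_sound _ 101 [(rh14e0829dc73b6804.shift 3 2), rh98c7eebe1fd21d69, (rhf2b85199f03ae05a.shift 2 0)] (by decide +kernel))
noncomputable def rh222e61133dae7254 : CRef := CRef.mk (Pat.mk 0x100000001000000000000000200000000000000000 0x28000001f8000001fe0000007e000001df000000ff000001ff000000340000002400000020 10 9) 0 0 (step_sound _ 101 [(rh3d14801c1c806efa.shift 0 1), (rh74a43b9a483760f6.shift 4 0), (rhd63843119306b12a.shift 1 2), (rhe482ee30a2733b5f.shift 4 0)] (by decide +kernel))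
noncomputable def rh13dda8b55913fcd9 : CRef := CRef.mk (Pat.mk 0x80000000800000000000000100000000000000000 0x14000000fc000000ff0000003f000000fc000001fe000000fc000003f00000007000000040 10 10) 0 0 (step_sound _ 100 [(rh4d760d0d70847451.shift 3 1), (rhd63843119306b12a.shift 0 2), (rhee63c839aea47edf.shift 1 0)] (by decide +kernel))
noncomputable def rh00f7d5633fc2f223 : CRef := CRef.mk (Pat.mk 0x8000000080000000000000010 0x1c0000001f0000003f0000003f0000003c0000003c0000001f0000001e 10 6) 0 0 (step_sound _ 131 [(rh0b16569382d755d2.shift 0 1), (rh331a739d7fcec445.shift 2 0), rh41256aa81c5ffef8, rh5a7b1ea8a7e69463, (rhe14adcaf6c23d52b.shift 2 0)] (by decide +kernel))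
noncomputable def rh0a856d250e42c940 : CRef := CRef.mk (Pat.mk 0x200000002000000000000000400000000000000000 0x8000000580000007c000000fc000000fc000003bf000001fe000003fe0000004000000040 10 10) 0 0 (step_sound _ 101 [rh062c0d9d3bdb6340, (rh2fe73996758a3654.shift 2 2), (rh9e9d6f89082e0ba4.shift 4 1)] (by decide +kernel))
noncomputable def rh125361c0e8dbb557 : CRef := CRef.mk (Pat.mk 0x10000000100000000000000020000000000000000000000000 0x40000003fe000001fe000007ff000003fe000003f70000002400000020 10 11) 0 0 (step_sound _ 69 [rh8d9f11362fa25952, (rha94436dd89e933f6.shift 0 2), (rhd4ab246f25327613.shift 4 1)] (by decide +kernel))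
noncomputable def rh63d8ec91642d1de5 : CRef := CRef.mk (Pat.mk 0x1000000010000000000000002000000000 0xc0000003c0000003e0000007e000000fe000001ff000001df000000f800000070 10 9) 0 0 (step_sound _ 68 [(rh13d4145ff8d9f755.shift 3 0), rh2ea4d2646adde46b, (rh2fe73996758a3654.shift 1 1), (rh90177550d31846e4.shift 1 0), (rh9dd91bba88ed65ca.shift 2 0), (rhf618531dddc81bf4.shift 3 0)] (by decide +kernel))
noncomputable def rhec4dc773c6d6dd46 : CRef := CRef.mk (Pat.mk 0x1000000010000000000000002000000000 0x20000000700000007c0000007e000003ff000001ff000003ef0000007e00000074 10 10) 0 0 (step_sound _ 101 [(rh279f62297b598b40.shift 1 0), (rh57957e2ee98f36a0.shift 1 0), (rh95a80f84f48ac358.shift 4 0), rhadbb429812759763, (rhe0ce021f192c8cdf.shift 2 0), (rhe92c97fc5c740557.shift 1 1)] (by decide +kernel))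
noncomputable def rhc5bff8f20d5809ac : CRef := CRef.mk (Pat.mk 0x100000001000000010000000000000000000000000 0x20000000300000003000000038000003fe000001fe000003ff0000007c00000038 10 10) 0 0 (step_sound _ 101 [(rh046c5eb18e55a239.shift 4 0), (rh9dc268fa6d9f61e2.shift 1 0), rhd4ca3d7a1955088c] (by decide +kernel))
noncomputable def rh1bcbbdb825c06ab7 : CRef := CRef.mk (Pat.mk 0x40000000400000004000000000000000000000000000000000 0x20000000f0000000f8000000f8000003ff000001ff0000007f000000780000007800000020 10 10) 0 0 (step_sound _ 133 [(rh281c6819542c66e6.shift 5 1), (rh7960257df44d2e8e.shift 0 1), (rh7ff383492da16b34.shift 3 0)] (by decide +kernel))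
noncomputable def rha7c694fbcc831ead : CRef := CRef.mk (Pat.mk 0x20000000200000002000000000000000000000000000000000 0x40000005c0000007c000000ff0000007e000001fe000001f6000000e4000000700000007000000010 10 9) 0 0 (step_sound _ 260 [(rh07ff884a7eb6c0ed.shift 4 4), (rh08162f55a4704327.shift 3 3), (rh47d43dd029008dab.shift 4 0), (rh576beafab0af2183.shift 0 2), (rhbce148b940337ede.shift 4 3)] (by decide +kernel))
noncomputable def rh829cae151067e10f : CRef := CRef.mk (Pat.mk 0x20000000200000002000000000000000000000000000000000 0x1000000050000000df0000007e000001ff000001fe000001fc000001f80000007000000010 10 9) 0 0 (step_sound _ 196 [(rh56259dd1390eee46.shift 4 1), (rh75bcc01263973aae.shift 4 2), (rh8a7fa77be07ec565.shift 1 0), (rha1248e38572d5f33.shift 0 2)] (by decide +kernel))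
noncomputable def rh64c135aa042a71e1 : CRef := CRef.mk (Pat.mk 0x80000000800000008000000000000000000000000 0x800000038000000ff000001ff000000ff000001ff0000003e00000030 10 9) 0 0 (step_sound _ 100 [rh1e88a03b9c831577, (rh41d32c535725ae1f.shift 0 1), (rh70e33bfdf511e144.shift 3 0)] (by decide +kernel))
noncomputable def rh2d92905fb51b0855 : CRef := CRef.mk (Pat.mk 0x4000000040000000400000000000000000 0x3800000078000000ff000001fe000003ff000003fc000003d8000001c0 10 10) 0 0 (step_sound _ 133 [(rhb1a251d9bff81766.shift 5 1), (rhc931f01983b76fa0.shift 0 1), (rhff51d1016a9e296d.shift 3 0)] (by decide +kernel))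
noncomputable def rh2f1087b88ff9a632 : CRef := CRef.mk (Pat.mk 0x100000001000000010000000000000000000000000 0x180000007c000000f6000003fe000001ff000003ff000001f8000000e8 10 10) 0 0 (step_sound _ 101 [(rh046c5eb18e55a239.shift 4 0), (rh47f796131ee15c84.shift 1 0), (rhabe58de7db0883dd.shift 0 1)] (by decide +kernel))
noncomputable def rha31618f722014af4 : CRef := CRef.mk (Pat.mk 0x8000000080000000800000000000000000000000000000000 0x40000000c0000000c0000003f0000007e000001ff000000f8000001ff000000fc000000fc000000b4 10 9) 0 0 (step_sound _ 132 [(rh046c5eb18e55a239.shift 3 1), rh2c53f2cd0dd9b653, rh56b5238d1fcad1bb] (by decide +kernel))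
noncomputable def rh36f820c6cf60b1f4 : CRef := CRef.mk (Pat.mk 0x20000000200000002000000000 0x40000001c0000003f000000fe000001ff000000ff000000fe0000005e 10 9) 0 0 (step_sound _ 133 [rh268c7c52985ea0a1, (rh5abfc4c9d959be03.shift 4 0), (rh69d74edc6ed8b1cb.shift 2 0)] (by decide +kernel))
noncomputable def rha1c8698eb792b9c7 : CRef := CRef.mk (Pat.mk 0x80000000800000008000000000000000000000000 0x10000000180000003800000078000001ff000000ff000001ff0000003c0000003c 10 9) 0 0 (step_sound _ 100 [rh1e88a03b9c831577, (rh70e33bfdf511e144.shift 3 0), rh9dc268fa6d9f61e2] (by decide +kernel))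
noncomputable def rhc45b0fdc1d585782 : CRef := CRef.mk (Pat.mk 0x10000000100000001000000000000000000000000000000000 0x360000003e000000fe000000ff000001fe000001de000000d80000001800000008 10 9) 0 0 (step_sound _ 131 [(rh281c6819542c66e6.shift 3 1), (rhd3f9f6148a4379ff.shift 0 2), (rhd7745cf96ab7e68b.shift 1 0)] (by decide +kernel))
noncomputable def rh36928f21ca2902b2 : CRef := CRef.mk (Pat.mk 0x80000000800000008000000000000000000000000 0x10000000180000003c0000007c000001ff000000ff000001fb0000007a00000030 10 9) 0 0 (step_sound _ 100 [rh57527fe62eeb7160, (rh70e33bfdf511e144.shift 3 0), rhe235410cab228e3f] (by decide +kernel))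
noncomputable def rh997261b58a941c36 : CRef := CRef.mk (Pat.mk 0x100000001000000010000000000000000000000000 0x2000000030000000380000003c000003f7000001ff000001ff0000003f00000038 10 10) 0 0 (step_sound _ 229 [rh69df6907a58ca3cb, (rha91a00b542328b7c.shift 4 2), (rhd0cd0e78c5cfff71.shift 4 2), rhdbca78618e1f5294, (rhfaf9dcacc214c4a9.shift 3 1)] (by decide +kernel))
noncomputable def rhaa8e79e6b90f0d56 : CRef := CRef.mk (Pat.mk 0x200000002000000020000000000000000000000000 0x4000000060000000f0000001f0000007ff000003fe000007de000000d8000000c0 10 11) 0 0 (step_sound _ 102 [(rh046c5eb18e55a239.shift 5 0), (rh8c30bc13eba30a5f.shift 2 0), (rhfe46df4bed9cca6b.shift 0 2)] (by decide +kernel))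
noncomputable def rhbacccfc92a47dba3 : CRef := CRef.mk (Pat.mk 0x100000001000000010000000000000000000000000000000000000000000000000 0x28000000380000003800000018000000380000003e000000ff0000003e0000003c00000038000000380000003800000028 10 8) 0 0 (step_sound _ 197 [(rh046c5eb18e55a239.shift 4 3), (rh833e41ddbb5c625c.shift 1 2), rhb7a8904e68160cae] (by decide +kernel))
noncomputable def rh3107cdc54659af35 : CRef := CRef.mk (Pat.mk 0x80000000800000008000000000000000000000000 0x1c0000001e0000001f0000007c000000fe0000001f0000000e0000000c00000004 10 8) 0 0 (step_sound _ 162 [(rh01483ff9cba2f6ac.shift 2 0), (rhb1a251d9bff81766.shift 2 2), (rhb2ba62121c20819f.shift 2 0), (rhc92faccd87302c90.shift 0 2)] (by decide +kernel))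
noncomputable def rhf36833341dae2f69 : CRef := CRef.mk (Pat.mk 0x80000000800000008000000000000000000000000 0xc0000001c0000001c000003be000001fc000001ff0000007c000000380000001800000010 10 10) 0 0 (step_sound _ 164 [(rh215e11e099257d75.shift 3 2), (rh3820f35d5e705bec.shift 3 0), (rh7b51cad72331c837.shift 1 2), rhcbad6e33392c0786] (by decide +kernel))
noncomputable def rhcc9855651ab94183 : CRef := CRef.mk (Pat.mk 0x100000001000000010000000000000000000000000 0x280000003800000038000000780000001e000003f7000001fe000001ff00000028 10 10) 0 0 (step_sound _ 229 [(rh2d9fb7ccdcfc0559.shift 4 2), (rh46edbee45d1ac9f9.shift 2 0), rh72a72ec4df37f6f8, (rhe25716203317ed02.shift 3 3)] (by decide +kernel))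
noncomputable def rhcb341856bc7874aa : CRef := CRef.mk (Pat.mk 0x20000000000000004000000040000000000000000000000000 0x18000000b8000000b8000001ff000001fe000000ff000000f80000007000000020 10 9) 0 0 (step_sound _ 133 [(rh0588d2c7f2cab5e9.shift 5 1), (rh220bad6c4605b80b.shift 3 0), (rh2c34b4859f98c0d7.shift 0 1), (rhbcdade04f3acf4e5.shift 0 1), (rhcba7be615818647c.shift 2 2)] (by decide +kernel))
noncomputable def rh26b3b529ee226459 : CRef := CRef.mk (Pat.mk 0x80000000000000010000000100000000000000000000000000000000000000000 0x10000000340000003c0000007f0000007f0000003e000000f8000000fe000000380000003800000010 10 8) 0 0 (step_sound _ 132 [(rh5584df79e885d15a.shift 1 3), (rh92582cbc1b094d19.shift 1 0), (rhb8bb0e47c4f030dc.shift 0 1), (rhd8d0f9aad4536f71.shift 2 1), (rhe23cfe9124753bf4.shift 3 3), (rhf6acf8a9fbc33f25.shift 3 2)] (by decide +kernel))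
noncomputable def rh9c7fb9b6b7deb4a1 : CRef := CRef.mk (Pat.mk 0x10000000000000002000000020 0x28000000be000001fe000001ff000001ff000000fe0000007800000028 10 9) 0 0 (step_sound _ 132 [(rha8895bfb685a08eb.shift 4 0), (rhbf7e24c8a45f6310.shift 1 0), rhc0105f35fa269ee1, rhd429db869fad75eb] (by decide +kernel))
noncomputable def rhca57c13ae53874e6 : CRef := CRef.mk (Pat.mk 0x4000000000000000800000008000000000000000000000000 0x140000001c0000001c0000001c0000001f000000380000001c000001df000000ff000000fc00000014 10 9) 0 0 (step_sound _ 163 [(rh05b4363cbde8ac8d.shift 2 2), rh1add0d094fcd9b42, (rha5dc83e34999ae02.shift 0 2), (rhf153d2af6b144509.shift 2 2)] (by decide +kernel))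
noncomputable def rhb054655d1ab9cac1 : CRef := CRef.mk (Pat.mk 0x40000000000000008000000080000000000000000000000000000000000000000000000000 0x1e0000001f00000037f000007fe000001ff000003f8000003f0000001f0000001c0000001c000000140 10 11) 0 0 (step_sound _ 230 [(rh0588d2c7f2cab5e9.shift 6 4), (rh0b39326405431c3b.shift 0 4), (rh2c34b4859f98c0d7.shift 1 4), (rh9b6053378e81bd17.shift 3 0), (rhdbc68fc070f55976.shift 1 4)] (by decide +kernel))
noncomputable def rh78a9954154cd9875 : CRef := CRef.mk (Pat.mk 0x80000000800000008000000000000000000000000 0xc0000001c0000001c0000003f0000007f000000fc000000fe000000fe0000000c00000004 10 8) 0 0 (step_sound _ 162 [(rh01483ff9cba2f6ac.shift 2 0), (rh7c47d822bc010682.shift 0 2), rh7e84937fe1a1aed0] (by decide +kernel))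
noncomputable def rh5e2de81b8a1eaef0 : CRef := CRef.mk (Pat.mk 0x10000000100000001000000000000000000000000000000000 0x2800000038000000380000001800000038000001f8000000fc000001ff000000380000003800000028 10 9) 0 0 (step_sound _ 133 [(rh046c5eb18e55a239.shift 4 1), (rh67f38f9187ef04e9.shift 0 1), (rh833e41ddbb5c625c.shift 1 0)] (by decide +kernel))
noncomputable def rh60104d79d4b5e084 : CRef := CRef.mk (Pat.mk 0x20000000200000002000000000000000000000000000000000 0x500000007800000078000000ff000003fe000001f70000006400000030000000700000006000000040 10 10) 0 0 (step_sound _ 196 [(rh817d7876ada3bbd5.shift 2 0), (rh86fc0ba6c8454a8a.shift 0 4), (rhb1a251d9bff81766.shift 4 3)] (by decide +kernel))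
noncomputable def rhda57cf7dd26b73a0 : CRef := CRef.mk (Pat.mk 0x200000002000000020000000000000000000000000 0x1000000038000000f8000000ff000003fe000001f7000000fc000003e0000000e000000020 10 10) 0 0 (step_sound _ 164 [(rh66c40a139808c557.shift 2 0), (rh86fc0ba6c8454a8a.shift 0 3), (rhb1a251d9bff81766.shift 4 2)] (by decide +kernel))
noncomputable def rha44ad81cab85dcda : CRef := CRef.mk (Pat.mk 0x100000001000000010000000000000000000000000 0x280000003f0000007e000000ff000001f8000000fe000001ef0000007c00000028 10 9) 0 0 (step_sound _ 101 [(rh046c5eb18e55a239.shift 4 0), (rh3b55603792b2d1a3.shift 0 2), rhda02fee1bf772b50] (by decide +kernel))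
noncomputable def rhfa7b7a5d2cc0e1e1 : CRef := CRef.mk (Pat.mk 0x200000002000000020000000000000000000000000 0x180000003e000001ff000000ff000001ff000003fc000003fc0000003000000010 10 10) 0 0 (step_sound _ 164 [(rh3f1e74e1a2e41880.shift 0 2), (rh639dfdf94d3de5af.shift 2 0), (rhf9a6286f1d5377a2.shift 4 2)] (by decide +kernel))
noncomputable def rh3e2c58025a325bc5 : CRef := CRef.mk (Pat.mk 0x20000000200000002000000000000000000000000000000000 0xe0000003ec000000fe000003ff000001fe000003ff0000003c0000001c00000014 10 10) 0 0 (step_sound _ 132 [(rh281c6819542c66e6.shift 4 1), (rh6ca653f01efccad1.shift 2 2), rhab233a97726fc165] (by decide +kernel))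
noncomputable def rh507c2946828646ce : CRef := CRef.mk (Pat.mk 0x20000000200000002000000000000000000000000000000000 0x4000000070000000700000003c0000007e000003ff000001fe000003ff0000001c0000001c00000014 10 10) 0 0 (step_sound _ 132 [(rh281c6819542c66e6.shift 4 1), (rha041e9dd9a052ae2.shift 2 2), rhab233a97726fc165] (by decide +kernel))
noncomputable def rh0a54091644f2df40 : CRef := CRef.mk (Pat.mk 0x4000000040000000400000000000000000 0x30000000f0000003ff000001fe000003fe000003f8000000d000000040 10 10) 0 0 (step_sound _ 133 [(rh9aa290eda1492731.shift 0 1), (rhb1a251d9bff81766.shift 5 1), (rhfe90cc0a90db7d1f.shift 3 0)] (by decide +kernel))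
noncomputable def rh2f82f0bd05870819 : CRef := CRef.mk (Pat.mk 0x800000008000000080000000000000000 0x40000001c0000001c0000001c0000003c0000000f0000007f0000007e0000001c0000000c 10 7) 0 0 (step_sound _ 130 [(rhca6ab43732b00e52.shift 0 1), (rhf9a6286f1d5377a2.shift 2 1), rhfb06a1b6eb669354] (by decide +kernel))
noncomputable def rh070db3a76fe772c7 : CRef := CRef.mk (Pat.mk 0x100000001000000010000000000000000000000000 0x280000006c000001ef0000007e000001ff000001fe0000007e0000001f00000008 10 9) 0 0 (step_sound _ 165 [(rh15590a39afd9a120.shift 3 0), rh1785a08faf93a2a1, (rh6bc015b9268c8423.shift 1 1), (rhbfd0b74def34515d.shift 0 2), (rhec01e41414f69238.shift 3 1)] (by decide +kernel))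
noncomputable def rh81d7ce9cc9c2e212 : CRef := CRef.mk (Pat.mk 0x800000008000000000000001000000000000000000000000000000000 0x340000007f000001ff000000ff000001fb0000003e0000001c0000001c00000010 10 9) 0 0 (step_sound _ 163 [(rh13d4145ff8d9f755.shift 2 3), (rh475253e964ed1313.shift 3 2), (rh95c31f33e7b1ff29.shift 0 2), (rha896d6370d3166dd.shift 0 3), rhe6063226fc8eb702] (by decide +kernel))
noncomputable def rh9e97025cea3edd00 : CRef := CRef.mk (Pat.mk 0x8000000080000000000000010 0x140000001f0000003f0000003f0000001c0000001c0000001c00000018 10 6) 0 0 (step_sound _ 131 [(rh0b16569382d755d2.shift 0 1), (rh56252386d334285b.shift 3 0), (rhbc05030a34536bc7.shift 2 0), (rhe14adcaf6c23d52b.shift 2 0)] (by decide +kernel))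
noncomputable def rh720650c023c0cba6 : CRef := CRef.mk (Pat.mk 0x1000000010000000000000002000000000 0x200000003c0000003c0000003e0000007e000000fe000001ff000001df000000f000000070 10 9) 0 0 (step_sound _ 68 [(rh13d4145ff8d9f755.shift 3 0), rh2ea4d2646adde46b, (rh50e5147ac8911531.shift 1 2), (rh90177550d31846e4.shift 1 0), (rh9dd91bba88ed65ca.shift 2 0), (rhf618531dddc81bf4.shift 3 0)] (by decide +kernel))
noncomputable def rh535f8858df89a187 : CRef := CRef.mk (Pat.mk 0x1000000010000000000000002000000000 0x2000000030000000780000007e000003ff000001ff000001ef000000e4000000e4 10 10) 0 0 (step_sound _ 101 [(rh95a80f84f48ac358.shift 4 0), (rh9bc44b33899390fa.shift 1 0), rhadbb429812759763, (rhe92c97fc5c740557.shift 1 1)] (by decide +kernel))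
noncomputable def rhecb8b52e914dfbf3 : CRef := CRef.mk (Pat.mk 0x40000000400000000000000080000000000000000 0x180000001c0000001c0000007e000000ff0000007f000001fc0000003c00000028 10 9) 0 0 (step_sound _ 99 [(rh4d760d0d70847451.shift 2 1), (rhb4af1319568adbee.shift 0 1), (rhe482ee30a2733b5f.shift 2 0), rhee63c839aea47edf] (by decide +kernel))
noncomputable def rhc1364de8d47a1496 : CRef := CRef.mk (Pat.mk 0x8000000000000001000000010000000000000000000000000000000000000000000000000 0x80000000c0000000c0000001f0000007c000000fe000001fe000000fe000001fc000000380000003800000008 10 9) 0 0 (step_sound _ 259 [(rh92f48c6441d1cfca.shift 0 3), (rh9edb6414168b48f1.shift 1 0), (rhb6c5498b65cea07a.shift 3 5)] (by decide +kernel))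
noncomputable def rh89b7a5591bef8892 : CRef := CRef.mk (Pat.mk 0x20000000000000004000000040000000000000000000000000 0x800000028000001ff000001fe000001fe0000007e000007fc00000ffe000003b8000000b800000028 10 12) 0 0 (step_sound _ 133 [(rh4a7562cfe4e6d423.shift 3 0), (rh4ad8b6a7a578cd08.shift 1 0), (rh869a0380397b4cc8.shift 2 0), (rh971c1384291a89e6.shift 3 0), (rh996838947ddc7620.shift 2 2), (rhd693581cba73ffdb.shift 2 2), (rhe16564f30f661bf9.shift 1 0), (rhe918e0a80914648a.shift 0 3), (rhfef19c2222cfdf07.shift 1 2)] (by decide +kernel))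
noncomputable def rh4712aa6af92df78f : CRef := CRef.mk (Pat.mk 0x10000000000000002000000020000000000000000000000000000000000000000000000000 0x380000003c000000fc000003ff000001fe000003fe0000007c000000780000007000000050 10 10) 0 0 (step_sound _ 165 [(rh269647d82b3acda8.shift 4 4), (rh298d071caac1c3ab.shift 1 0), (rh51a9ef21965626be.shift 4 4), (rhd22b430c854304e5.shift 3 4), (rhf904abd76b6bdb96.shift 0 1)] (by decide +kernel))
noncomputable def rh2f10223b79599d33 : CRef := CRef.mk (Pat.mk 0x200000000000000040000000400000000000000000000000000000000000000000 0x90000000f8000001fc0000015f00000ffc00000ffc00001ffc000007f8000003f0000002e0000000a0 10 13) 0 0 (step_sound _ 167 [(rh0bd66a70649f0145.shift 3 2), (rh0d41336126d8d49f.shift 3 1), (rh22f71e40a33a69a5.shift 0 2), (rh387af8468456ce83.shift 2 2), (rhc13cf235323c12b0.shift 3 2), (rhe4b7743c2326b08a.shift 2 1), (rhedf36681725411c2.shift 3 0), (rhfa4ef3fe105e39c1.shift 3 0)] (by decide +kernel))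
noncomputable def rhe8788b051f3c1c5a : CRef := CRef.mk (Pat.mk 0x20000000000000004000000040000000000000000000000000000000000000000000000000 0x28000000380000003c000000f80000003f000003fe000003ff000003fc000001f8000000f8000000e0000000e0000000a0 10 10) 0 0 (step_sound _ 229 [(rh0588d2c7f2cab5e9.shift 5 4), (rh5238b48a4a49ce7e.shift 3 5), (rh80e01ed80700d35e.shift 2 0), (rhb99b53345b8a127a.shift 2 3), (rhcb786366ceaf1005.shift 0 4), (rheb1ec1bb425a34cf.shift 1 4)] (by decide +kernel))
noncomputable def rhaea87d187a4b4078 : CRef := CRef.mk (Pat.mk 0x800000000000000100000001000000000 0x28000000380000003800000018000000fe000000ff000001ff 10 9) 0 0 (step_sound _ 100 [(rh0dbc8abee7ad42d4.shift 3 0), (rh114f4abf4ea101c9.shift 3 0), rhb0d5b7600119298b] (by decide +kernel))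
noncomputable def rhd9ce055e5e786f8c : CRef := CRef.mk (Pat.mk 0x200000002000000020000000000000000000000000 0x500000007e0000007c000000ee000003fe000003ff0000077c0000007000000070 10 11) 0 0 (step_sound _ 100 [(rh281c6819542c66e6.shift 4 0), rh684eaac2e9eebaac, (rhcb9b2f5102cf6875.shift 1 2)] (by decide +kernel))
noncomputable def rh3810fc1b336ee992 : CRef := CRef.mk (Pat.mk 0x100000001000000010000000000000000000000000 0x2800000038000000380000003000000010000003ff000001fe000001ef00000008 10 10) 0 0 (step_sound _ 67 [(rh0e6924d680f6455d.shift 3 0), (rh21119b6ef9173245.shift 0 1), (rhb77bfac3e9efecea.shift 3 2)] (by decide +kernel))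
noncomputable def rh3882343b5482ca86 : CRef := CRef.mk (Pat.mk 0x200000002000000020000000000000000000000000 0x200000002000000028000007ff000003fe000007fe0000005000000050 10 11) 0 0 (step_sound _ 102 [(rh046c5eb18e55a239.shift 5 0), (rh6eb2b7b830d91df2.shift 2 0), (rh808b30f6f2f07931.shift 0 2)] (by decide +kernel))
noncomputable def rheabad280dd18dba9 : CRef := CRef.mk (Pat.mk 0x80000000800000008000000000000000000000000 0x140000001c0000001c00000038000000ff000000fe000000780000003800000010 10 8) 0 0 (step_sound _ 68 [(rh1148744b53f3df58.shift 2 2), (rh47dece01c1595e79.shift 3 0), (rhef73007ff0de928c.shift 0 1)] (by decide +kernel))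
noncomputable def rhba675bc0e89c6f3a : CRef := CRef.mk (Pat.mk 0x20000000200000002000000000000000000000000000000000 0x500000007000000070000000700000007c000000ee000003ff000001fe000003bf0000003c0000001c00000014 10 10) 0 0 (step_sound _ 132 [(rh0d8042a934a6fb4a.shift 2 2), (rh281c6819542c66e6.shift 4 1), rhab233a97726fc165] (by decide +kernel))
noncomputable def rhbbb3d42f3853b905 : CRef := CRef.mk (Pat.mk 0x8000000080000000800000000000000000000000000000000 0x40000001c0000001f000000380000001e000000f8000000fe0000003c0000001c0000000c 10 8) 0 0 (step_sound _ 132 [(rh046c5eb18e55a239.shift 3 1), (rh6e9750f7655c647e.shift 1 0), (rhb2f83e0bfb6cd931.shift 0 3), (rhbecb7b6b40543d33.shift 0 3)] (by decide +kernel))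
noncomputable def rhd0fd71f3996dddeb : CRef := CRef.mk (Pat.mk 0x80000000800000008000000000000000000000000 0x140000001c0000001c0000001c0000001f000000380000007f0000006f0000007c0000003c00000014 10 7) 0 0 (step_sound _ 98 [rh319ed8b014104f09, (rh96e4859875e91a64.shift 0 1), (rhfafeb437ceb8396d.shift 2 0)] (by decide +kernel))
noncomputable def rh5f7a7ac313e5c861 : CRef := CRef.mk (Pat.mk 0x8000000080000000800000000 0x140000001c0000001c00000008000000ff0000007f000000f4 10 8) 0 0 (step_sound _ 131 [(rh1741680720c097b4.shift 2 1), rh48c05e3c485d10c8, rh69d74edc6ed8b1cb] (by decide +kernel))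
noncomputable def rh4013cea5e0ad431f : CRef := CRef.mk (Pat.mk 0x400000004000000040000000000000000000000000 0x20000000f8000000f8000001ff000003fe000003ff0000007c000000d8000000c000000080 10 10) 0 0 (step_sound _ 165 [(rh321887767d50fbdb.shift 2 0), (rh55e787fc0ac03745.shift 0 2), (rhb1a251d9bff81766.shift 5 2)] (by decide +kernel))
noncomputable def rh0c8055db2bc7e67c : CRef := CRef.mk (Pat.mk 0x4000000040000000400000000000000000000000000000000 0xe0000000e0000000e0000000f0000003c0000000e000000070000003e0000000e0000000e00000006 10 6) 0 0 (step_sound _ 129 [(rh6fe0f4b11e743d61.shift 0 3), rhbec30e1c0d5fe1db, rhf9ca639447e65cb7, (rhfafeb437ceb8396d.shift 1 1)] (by decide +kernel))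
noncomputable def rh857ed18360fad1e3 : CRef := CRef.mk (Pat.mk 0x200000002000000020000000000000000000000000 0x500000007000000070000003bf000001fe000003fe00000010 10 10) 0 0 (step_sound _ 69 [(rh73f43504fcea9d1d.shift 0 1), (rhc4055b4872d6fb38.shift 4 1), (rhcab3157f7bdcba3e.shift 4 0)] (by decide +kernel))
noncomputable def rhf2e21e25ab2e7c5e : CRef := CRef.mk (Pat.mk 0x40000000400000004000000000 0x10000000b0000000ff000001fe000003ff000007fe0000007800000030 10 11) 0 0 (step_sound _ 133 [rh4e32f5b808306e2f, (rhb1833f40af8a1ebc.shift 2 0), (rhbab796f6dafe9186.shift 5 1), (rhe54f36c01d9b6799.shift 1 0), (rhf153d2af6b144509.shift 5 0)] (by decide +kernel))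
noncomputable def rh64be2625f15f3321 : CRef := CRef.mk (Pat.mk 0x8000000080000000800000000000000000000000000000000 0x40000000c0000000c0000003f0000007e000001ff000000f8000001ff000000fc000000fc000000b4 10 9) 0 0 (step_sound _ 132 [(rh046c5eb18e55a239.shift 3 1), rh0657c65e8127b5d5, rh2c53f2cd0dd9b653] (by decide +kernel))
noncomputable def rh93dcf3e85f00d47d : CRef := CRef.mk (Pat.mk 0x20000000200000002000000000000000000000000000000000 0x500000007400000074000000ff000000fe000001fe0000006800000038000000700000006000000040 10 9) 0 0 (step_sound _ 196 [(rh689ac439dee9bafa.shift 0 3), (rh817d7876ada3bbd5.shift 2 0), (rhb1a251d9bff81766.shift 4 3)] (by decide +kernel))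
noncomputable def rh727ad1c231b83bc2 : CRef := CRef.mk (Pat.mk 0x8000000080000000800000000000000000000000000000000 0x140000001c0000001c0000000c0000001c0000001c000000780000001f0000001c0000001c0000001c 10 7) 0 0 (step_sound _ 132 [(rh0fa4a62bba50784f.shift 2 3), (rh70e33bfdf511e144.shift 3 1), rh833e41ddbb5c625c, (rhbaf19a3d08b45560.shift 1 0)] (by decide +kernel))
noncomputable def rh057464fe41705587 : CRef := CRef.mk (Pat.mk 0x8000000080000000800000000000000000000000000000000 0x40000001c0000001c000000380000007c000001ff000000f8000001fe0000005c0000001c00000014 10 9) 0 0 (step_sound _ 132 [(rh046c5eb18e55a239.shift 3 1), (rh3396f2816d946540.shift 1 1), (rh70e33bfdf511e144.shift 3 1), rh995b2b0ade836d19, (rhf158a4c713d96e4a.shift 1 3)] (by decide +kernel))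
noncomputable def rh6a26d85637e89151 : CRef := CRef.mk (Pat.mk 0x200000002000000020000000000000000000000000 0x5000000050000000ff000003fe000007fe000000a0000000f00000007000000010 10 11) 0 0 (step_sound _ 166 [(rh22112c6766fe1f06.shift 2 0), (rh274a837cd7eaa569.shift 4 0), (rh6bc015b9268c8423.shift 2 1), (rh82b00ae5ac4cafa8.shift 0 2)] (by decide +kernel))
noncomputable def rhe1e9b895e9bf09de : CRef := CRef.mk (Pat.mk 0x200000002000000020000000000000000000000000 0x1000000050000000df000001fe000001ff000001ee000000f80000007000000050 10 9) 0 0 (step_sound _ 164 [(rh56259dd1390eee46.shift 4 0), (rh75bcc01263973aae.shift 4 1), (rh9b5c6cd831cdbbae.shift 0 1), (rha36b9e46a33226cd.shift 3 0)] (by decide +kernel))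
noncomputable def rhf47c17b228d0a692 : CRef := CRef.mk (Pat.mk 0x8000000080000000800000000 0x140000007c0000003f0000007f0000003f0000007800000030 10 7) 0 0 (step_sound _ 131 [(rh1741680720c097b4.shift 2 1), (rh5abfc4c9d959be03.shift 2 0), rh9ac00eb647922d02, (rhced6d86d2069808b.shift 3 0), (rhefb41fb43257ec4b.shift 2 0)] (by decide +kernel))
noncomputable def rh3b893858623b2187 : CRef := CRef.mk (Pat.mk 0x200000002000000020000000000000000000000000 0x5000000050000000ff000001fe000003fe000000b0000000b00000003000000010 10 10) 0 0 (step_sound _ 166 [(rh274a837cd7eaa569.shift 4 0), (rh82b00ae5ac4cafa8.shift 0 2), (rh8b1fdc3dd67e0291.shift 2 0)] (by decide +kernel))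
noncomputable def rh6fcd883a1872f9bf : CRef := CRef.mk (Pat.mk 0x2000000020000000200000000000000000 0x1800000058000000ff000001fe000001ff000000fc000001e8000000e0 10 9) 0 0 (step_sound _ 132 [(rh15e6f60c30fe7370.shift 0 1), (rh970be16d7d183be6.shift 2 0), (rhb1a251d9bff81766.shift 4 1)] (by decide +kernel))
noncomputable def rhab6aa68ff2341088 : CRef := CRef.mk (Pat.mk 0x200000002000000020000000000000000000000000 0x80000000e0000001f000000fbf00000ffe00000ffe000001d0000001d0 10 12) 0 0 (step_sound _ 102 [(rh70e33bfdf511e144.shift 5 0), rh876800f703a51357, (rh89c8b26762a735e1.shift 1 0)] (by decide +kernel))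
noncomputable def rh90e1699e83c3d4f0 : CRef := CRef.mk (Pat.mk 0x100000001000000010000000000000000000000000 0x380000003c000000f0000001ff000000fe0000003f00000020 10 9) 0 0 (step_sound _ 69 [(rh47dece01c1595e79.shift 4 0), (rhd88a1f0101c7a170.shift 0 1), (rhfa80626feb4e9cb5.shift 1 1)] (by decide +kernel))
noncomputable def rh7bb1c3b6f21414d2 : CRef := CRef.mk (Pat.mk 0x200000002000000020000000000000000000000000 0xa0000001a000000fff000007fe000007fe000000d0000000d0 10 12) 0 0 (step_sound _ 102 [(rh046c5eb18e55a239.shift 5 0), (rh7bb0c0187b50b321.shift 2 0), rh876800f703a51357] (by decide +kernel))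
noncomputable def rhe084cee08e98eeb2 : CRef := CRef.mk (Pat.mk 0x80000000800000008000000000000000000000000 0x1000000034000003b7000001ff000001ff000000ff0000007f0000001f00000014 10 10) 0 0 (step_sound _ 164 [rh139f2dff84f47c6d, (rh274a837cd7eaa569.shift 2 0), (rh8dfc501edbff87a1.shift 0 2)] (by decide +kernel))
noncomputable def rhffa65455a3242a12 : CRef := CRef.mk (Pat.mk 0x200000002000000020000000000000000000000000 0x80000000e0000001f000000fff00000ffe00000fde000001d0000001d0 10 12) 0 0 (step_sound _ 102 [(rh046c5eb18e55a239.shift 5 0), rh876800f703a51357, (rh89c8b26762a735e1.shift 1 0)] (by decide +kernel))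
noncomputable def rhc1b3a5faeb8a1dfc : CRef := CRef.mk (Pat.mk 0x200000002000000020000000000000000000000000 0xe0000001e0000000fc000003fe000001fe000003ff000000d800000018 10 10) 0 0 (step_sound _ 100 [(rh15489380981b0751.shift 2 0), (rh281c6819542c66e6.shift 4 0), rh4154a2b40981453b] (by decide +kernel))
noncomputable def rhd5929dab906e8b1f : CRef := CRef.mk (Pat.mk 0x200000002000000020000000000000000000000000 0x1000000030000000300000007c000003fe000001fe000003ff0000005800000018 10 10) 0 0 (step_sound _ 100 [(rh281c6819542c66e6.shift 4 0), rh4154a2b40981453b, (rhc67640350bb853f3.shift 2 0)] (by decide +kernel))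
noncomputable def rhcb6d58b0932ec28e : CRef := CRef.mk (Pat.mk 0x2000000020000000200000000000000000 0x1800000058000000df000000fe000001ff000001fe000001fc0000005e 10 9) 0 0 (step_sound _ 132 [rh68ac10481e9292d1, (rh918500abb460ecb7.shift 1 0), (rhf9a6286f1d5377a2.shift 4 1), (rhfaf9cacc4ded1c5a.shift 2 0)] (by decide +kernel))
noncomputable def rhc744687139fd2f7b : CRef := CRef.mk (Pat.mk 0x2000000020000000200000000000000000000000000000000000000000 0x40000000600000006000000070000003bf000001fe000003fe0000007c000000780000007000000050 10 10) 0 0 (step_sound _ 294 [(rh2d9fb7ccdcfc0559.shift 5 4), (rh7f6d3539d97be392.shift 4 4), (rhb88e122fbe5ef6b9.shift 2 0), (rhd4ac18d5812d0f21.shift 0 2)] (by decide +kernel))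
noncomputable def rhe860d483c958c7cf : CRef := CRef.mk (Pat.mk 0x20000000200000002000000000 0x50000000700000007000000030000003bf000001fe000003de 10 10) 0 0 (step_sound _ 133 [(rh1741680720c097b4.shift 4 1), (rh20966da26a1c2ae8.shift 4 0), rhd58565e5fd173196] (by decide +kernel))
noncomputable def rh3f31819fd7b1afb7 : CRef := CRef.mk (Pat.mk 0x20000000200000002000000000000000000000000000000000 0x1800000038000003fe000000fe000007bf000003fe000007fe000000780000007000000050 10 11) 0 0 (step_sound _ 134 [(rh70e33bfdf511e144.shift 5 1), (rh808b30f6f2f07931.shift 0 3), (rhcb9af7ab16da0010.shift 1 0)] (by decide +kernel))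
noncomputable def rh895412b14b441b97 : CRef := CRef.mk (Pat.mk 0x100000001000000010000000000000000000000000 0x28000000380000003800000016000003f7000001ff000001ff0000003f0000002c 10 10) 0 0 (step_sound _ 99 [(rh281c6819542c66e6.shift 3 0), (rhb421dd584eb141a0.shift 0 2), rhc36d2ed5d1f2c16d] (by decide +kernel))
noncomputable def rh92775acebb0e6f5e : CRef := CRef.mk (Pat.mk 0x100000001000000010000000000000000000000000 0x8000001ef000001ff0000007f0000003000000018000000180000001800000008 10 9) 0 0 (step_sound _ 195 [(rh114f4abf4ea101c9.shift 3 2), (rh600ac662adbb0262.shift 3 0), (rha5dc83e34999ae02.shift 1 2), (rhf024fc54adeb70ce.shift 0 2)] (by decide +kernel))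
noncomputable def rhf454e0beaa4991e6 : CRef := CRef.mk (Pat.mk 0x100000001000000010000000000000000000000000 0x280000003800000030000003f7000001fe000001ff00000028 10 10) 0 0 (step_sound _ 68 [(rh2dc1689e1010e2f7.shift 0 1), (rh6c59ce14113da07f.shift 4 0), (rha78b327dad5d6a04.shift 3 0)] (by decide +kernel))
noncomputable def rhc9c4fa9a39424e68 : CRef := CRef.mk (Pat.mk 0x10000000100000001000000000 0x28000001b8000000f80000007e000000f7000000fe000001ef 10 9) 0 0 (step_sound _ 132 [rh081036e5c2aa108b, (rh1741680720c097b4.shift 3 1), (rh5abfc4c9d959be03.shift 3 0)] (by decide +kernel))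
noncomputable def rhbc3fc278e4a1f667 : CRef := CRef.mk (Pat.mk 0x100000001000000010000000000000000000000000 0x2800000038000000380000003f0000007e000000ff0000001800000038000000380000001800000008 10 8) 0 0 (step_sound _ 35 [(rh0469c7d739982b39.shift 0 2), (rh18daa16230dec9b2.shift 3 0), (rh746db7778c71431e.shift 3 0), (rh982341bc6a703276.shift 1 0)] (by decide +kernel))
noncomputable def rh10505ec2a8ad9f22 : CRef := CRef.mk (Pat.mk 0x100000001000000010000000000000000000000000 0x280000003f0000007e000000ff0000001800000018000000380000003800000028 10 8) 0 0 (step_sound _ 35 [(rh0469c7d739982b39.shift 0 2), (rh18daa16230dec9b2.shift 3 0), (rhe633c85fbaee6c76.shift 2 0), (rhebbfc1325fb53d6f.shift 3 0)] (by decide +kernel))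
noncomputable def rh23f2604d9fb943a7 : CRef := CRef.mk (Pat.mk 0x1000000010000000100000000000000000000000000000000000000000 0x28000000380000003c0000007f0000007e0000001f0000007f0000001f0000003c000000380000003800000008 10 7) 0 0 (step_sound _ 163 [(rh281c6819542c66e6.shift 3 2), rh60f782c7c3c66305, (rha6dfe1edc6ae80dd.shift 3 4), (rhee791800e6b283a7.shift 0 3)] (by decide +kernel))
noncomputable def rh2f44cd701cb93c0e : CRef := CRef.mk (Pat.mk 0x200000002000000020000000000000000000000000 0xa0000001a000000fbf000007fe000007fe000000d0000000d0 10 12) 0 0 (step_sound _ 102 [(rh70e33bfdf511e144.shift 5 0), (rh7bb0c0187b50b321.shift 2 0), rh876800f703a51357] (by decide +kernel))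
noncomputable def rh5c531c9e20c1291e : CRef := CRef.mk (Pat.mk 0x200000002000000020000000000000000000000000 0x50000000f0000000f0000001f000000fbf00000ffe00000fde000001d0000001d0 10 12) 0 0 (step_sound _ 102 [(rh14e0829dc73b6804.shift 4 2), rh876800f703a51357, (rh89c8b26762a735e1.shift 1 0)] (by decide +kernel))
noncomputable def rh6f6bd48469623ca8 : CRef := CRef.mk (Pat.mk 0x80000000800000008000000000000000000000000 0xc0000001c0000001c0000003c0000000f0000001c000000180000001c0000001c00000014 10 6) 0 0 (step_sound _ 162 [(rh01483ff9cba2f6ac.shift 2 0), (rh92b5c61c720e21aa.shift 0 2), (rha6ce08e3f1b9c5e2.shift 2 0), (rhb1a251d9bff81766.shift 2 2)] (by decide +kernel))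
noncomputable def rhb96ea9277bddd1e0 : CRef := CRef.mk (Pat.mk 0x100000001000000010000000000000000000000000 0x1000000038000001f8000001ff0000007f000000fe00000010000000380000003800000028 10 9) 0 0 (step_sound _ 165 [(rh215e11e099257d75.shift 4 2), rh996e281cf6c9bdd3, (rhe1e81142e9274754.shift 0 3)] (by decide +kernel))
noncomputable def rhd03b82c1da0706db : CRef := CRef.mk (Pat.mk 0x100000001000000010000000000000000000000000 0x280000003800000038000003f7000001fe000001ff00000008 10 10) 0 0 (step_sound _ 68 [(rh2dc1689e1010e2f7.shift 0 1), (rha78b327dad5d6a04.shift 3 0), (rhc4055b4872d6fb38.shift 3 1)] (by decide +kernel))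
noncomputable def rh660282eb43032586 : CRef := CRef.mk (Pat.mk 0x10000000100000001000000000 0x40000002c0000003f0000007f0000007e000000380000003000000020 10 7) 0 0 (step_sound _ 132 [(rh1741680720c097b4.shift 3 1), (rh5abfc4c9d959be03.shift 3 0), (rh92429956536b1bd1.shift 0 1), (rhced6d86d2069808b.shift 4 0)] (by decide +kernel))
noncomputable def rha0d2d9dd9a596091 : CRef := CRef.mk (Pat.mk 0x80000000c000000000000000000000000 0x3000000034000000360000007e000000ff000000ff0000003c0000003c 10 8) 0 0 (step_sound _ 132 [rh010af82807e56f25, (rh69012675dfdb1a5b.shift 0 3), (rh94775c9bcee94b17.shift 1 0), (rhd69c262cd33b94b3.shift 0 3)] (by decide +kernel))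
noncomputable def rh3eee220fe23da836 : CRef := CRef.mk (Pat.mk 0x100000001800000000000000000000000000000000 0x280000002c0000006f000000ff000001fe0000001f0000007c0000003c00000030 10 9) 0 0 (step_sound _ 165 [(rh2e34865651a70c1c.shift 0 1), (rh69012675dfdb1a5b.shift 1 4), (rhbbbf3fdb0edc2f26.shift 1 0), (rhd69c262cd33b94b3.shift 1 4)] (by decide +kernel))
noncomputable def rh8a908dcc32ffbbf8 : CRef := CRef.mk (Pat.mk 0x100000001800000000000000000000000000000000 0x200000002c0000006e000000ff000000fe000000f8000001fe000000fe00000020 10 9) 0 0 (step_sound _ 165 [(rh69012675dfdb1a5b.shift 1 4), (rh979c9006532587ec.shift 1 1), (rhd69c262cd33b94b3.shift 1 4), rhf8c836cd31a28668] (by decide +kernel))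
noncomputable def rhd9580a65c3156a1c : CRef := CRef.mk (Pat.mk 0x80000000c00000000000000000000000000000000 0x6000000370000007f000000ff000000ef0000003e0000003e00000018 10 8) 0 0 (step_sound _ 164 [rh163d9898f3df4757, (rh20a5e704ff8d5016.shift 1 1), (rh69012675dfdb1a5b.shift 0 4), (rhd69c262cd33b94b3.shift 0 4)] (by decide +kernel))
noncomputable def rh7e9e996c7031b7e9 : CRef := CRef.mk (Pat.mk 0x100000001800000000000000000000000000000000 0x28000000680000006f000000ff0000003e000000ff000000fc0000007c00000028 10 8) 0 0 (step_sound _ 165 [(rh2e34865651a70c1c.shift 0 1), (rh422790a4a0c69439.shift 1 0), (rh69012675dfdb1a5b.shift 1 4), (rhd69c262cd33b94b3.shift 1 4)] (by decide +kernel))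
noncomputable def rh2e6b205b305044d0 : CRef := CRef.mk (Pat.mk 0x80000000c000000000000000000000000 0x3000000034000000360000007c000000ff000000ff0000007e0000005c 10 8) 0 0 (step_sound _ 132 [rh010af82807e56f25, (rh2cec2db725b66848.shift 1 0), (rhd69c262cd33b94b3.shift 0 3)] (by decide +kernel))
noncomputable def rh5c73df427cb82143 : CRef := CRef.mk (Pat.mk 0x2000000030000000000000000000000000 0x4c0000005c000000de000001fe000001fe000001ff000000e8000000c0 10 9) 0 0 (step_sound _ 135 [(rh4f2fd94d90530436.shift 1 0), (rh5e9196e7627f7a19.shift 1 0), (rhc2a03900696379b1.shift 0 1), (rhcadd85ff2a73e8c7.shift 2 3), (rhe33d9496e10d8eb0.shift 2 3)] (by decide +kernel))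
noncomputable def rhbb687bf58625bbdf : CRef := CRef.mk (Pat.mk 0x4000000060000000000000000000000000 0x20000000a8000003ff000001fe000003df000001f8000000f0 10 10) 0 0 (step_sound _ 100 [(rh02e0fd1ce0f14227.shift 3 0), (rh11844d670e8821e5.shift 1 0), (rhf7943763ae823400.shift 0 2)] (by decide +kernel))
noncomputable def rh085e38ca4b614122 : CRef := CRef.mk (Pat.mk 0x4000000060000000000000000000000000 0x20000000380000003800000038000001ff000001fe000003bf0000003f0000001c 10 10) 0 0 (step_sound _ 100 [(rh78033f07296e78b0.shift 3 0), rh9264bddf06e7a041, (rhf5183d55e2daca0a.shift 2 0), (rhf7943763ae823400.shift 0 2)] (by decide +kernel))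
noncomputable def rh59de0abe3b3fa50c : CRef := CRef.mk (Pat.mk 0x100000001800000000000000000000000000000000 0x3c0000003e0000006f000000ff000000df000000ff000000ff000000be00000020 10 8) 0 0 (step_sound _ 163 [(rh28ded346c30d74ac.shift 0 1), rh4a36eeb7f8a47818, (rh4f4f01c8581cad5f.shift 0 1), (rh5f8af7c27e64d65d.shift 0 1), (rhac321d569b4693b7.shift 0 1), (rhac6742ec0f3fe23f.shift 0 1), (rhc467bb2a6dd2ee97.shift 0 1)] (by decide +kernel))
noncomputable def rh086346d178d72cfb : CRef := CRef.mk (Pat.mk 0x20000000300000000000000000000000000000000000000000 0x180000009c000003bf000003fe000007ff000003fe000003fe0000007000000020 10 11) 0 0 (step_sound _ 134 [(rh0d5deb26b7c87526.shift 1 2), (rh1a1eb52641246b04.shift 2 0), (rh1cdba84c5d877877.shift 1 1), (rh269b11d089b61e64.shift 2 2), (rh3786cefe09eb3c9f.shift 1 2), (rh3a6fde6f22b6e6e6.shift 1 1), (rhc20ad01fa265397e.shift 2 1), (rhea8c36f482e3c03b.shift 1 1), (rhffc685d1c01f5b1c.shift 0 2)] (by decide +kernel))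
noncomputable def rh2b1cbc20585a2e8f : CRef := CRef.mk (Pat.mk 0x4000000060000000000000000000000000000000000000000000000000 0x1800000018000000188000007df000003fe000007ff000003f0000007f0000000e0000000c000000080 10 11) 0 0 (step_sound _ 196 [(rh72755e1a62f654b7.shift 3 3), rh76938616b83b2fdb, (rh85c3c98d8ae88257.shift 0 5), (rhcadd8838bb90b816.shift 2 3), (rhf5183d55e2daca0a.shift 2 3)] (by decide +kernel))
noncomputable def rhc178e68fdb0c0780 : CRef := CRef.mk (Pat.mk 0x100000001800000000000000000000000000000000 0x2c0000002c0000006f000000ff000000f8000000ff000000ff000000fe00000020 10 8) 0 0 (step_sound _ 163 [(rh13ff95f09f178bb6.shift 0 1), (rh185f04d81d61f122.shift 1 1), (rh60f06ddecd1f49e5.shift 1 1), (rh9178dd798f0bcdc5.shift 1 1), (rha4f60c74c9c0af6d.shift 0 1), (rhc9ddcb1df022800a.shift 1 1), rheb1d5af9f3cc5fa8, (rhfaa6f6ac2e2ca807.shift 0 1)] (by decide +kernel))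
noncomputable def rhf8f17e72d694c6d1 : CRef := CRef.mk (Pat.mk 0x80000000c000000000000000000000000 0x4000000360000007f0000007f0000007f0000003e0000003e 10 7) 0 0 (step_sound _ 132 [(rh20a5e704ff8d5016.shift 1 0), rh3c161ca06d70eba3, (rh3c90279b2fd68964.shift 1 0), rh9c34b91402778d8d, (rhd69c262cd33b94b3.shift 0 3)] (by decide +kernel))
noncomputable def rhd0154a859c47a7dc : CRef := CRef.mk (Pat.mk 0x180000001000000000000000000000000000000000 0x380000007c0000007e000000fe000000ff000000e8000000e8000000e0000000a0 10 8) 0 0 (step_sound _ 133 [rh35d91ebcd79fee1b, (rh3c3e23a02e82b2ed.shift 1 4), (rh5c5a2014709044d0.shift 1 4), (rh679823a0df241fdd.shift 1 2)] (by decide +kernel))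
noncomputable def rh9cad0bf24b704f7d : CRef := CRef.mk (Pat.mk 0xc0000000800000000000000000000000000000000 0x140000001c0000003c0000003c0000007f0000007f00000077000000760000007000000050 10 7) 0 0 (step_sound _ 132 [(rh2faa1c4011751363.shift 1 0), (rh3c3e23a02e82b2ed.shift 0 4), (rh5c5a2014709044d0.shift 0 4), (rhda27371149b1d3c2.shift 0 1)] (by decide +kernel))
noncomputable def rh76a90dbbf7d72989 : CRef := CRef.mk (Pat.mk 0x30000000200000000000000000 0x50000000f8000000f8000000ff0000007c000001fe000001dc000000d0 10 9) 0 0 (step_sound _ 70 [(rh3c3e23a02e82b2ed.shift 2 2), (rh5c5a2014709044d0.shift 2 2), rh8c464a5f2c066672, (rhc156fb3ec0abed94.shift 1 0)] (by decide +kernel))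
noncomputable def rh5593046b83d3e2ae : CRef := CRef.mk (Pat.mk 0xc0000000800000000000000000000000000000000 0x18000000380000003f000000ff0000007c00000076000000740000007000000050 10 8) 0 0 (step_sound _ 132 [(rh2faa1c4011751363.shift 1 0), (rh5c5a2014709044d0.shift 0 4), (rh75ea294132184f25.shift 1 4), (rh8bf8c7095bf3805c.shift 0 1), (rhdeca8db941583de2.shift 0 4)] (by decide +kernel))
noncomputable def rh9ac5d09a7c167aa9 : CRef := CRef.mk (Pat.mk 0x3000000020000000000000000000000000 0x58000000fc000000ff000000ff0000007f0000001e0000001c0000001c 10 8) 0 0 (step_sound _ 131 [(rh4c0fcb205717f138.shift 1 3), (rh5c84e0dc8d15ab27.shift 0 3), (rh76f196ebe344ffab.shift 1 3), rh85ff64098bacd32e, (rh96cd4aa0aa39e766.shift 1 0), (rha1ddadb9e3c2bfb6.shift 0 1)] (by decide +kernel))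
noncomputable def rh5fc1c29a6385ae62 : CRef := CRef.mk (Pat.mk 0x1800000010000000000000000000000000 0x7c0000007e0000077f000003fc000007fe000001ec0000007800000070 10 11) 0 0 (step_sound _ 133 [(rh04a46a812478d667.shift 1 2), (rh0d9c29c34b95a06f.shift 0 1), (rh8332a96f5dad25a2.shift 0 1), (rh99370bed037805ea.shift 1 2), (rhc846f5cb25d73868.shift 2 0), (rhcc105fcf32c4cfa3.shift 1 3)] (by decide +kernel))
noncomputable def rh5f34bed21ccf81cf : CRef := CRef.mk (Pat.mk 0x3000000020000000000000000000000000 0x100000001c0000001f000003fe000001ff0000001c0000001c0000001c 10 10) 0 0 (step_sound _ 131 [(rh19bdbbbe5db0166f.shift 2 1), (rh76f196ebe344ffab.shift 1 3), rh85ff64098bacd32e, (rh8ee80cc30e93a344.shift 2 3), (rha6576687d4f6663f.shift 0 3)] (by decide +kernel))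
noncomputable def rhb24313eeeda91205 : CRef := CRef.mk (Pat.mk 0x18000000100000000000000000000000000000000000000000 0x300000007400000076000000fe000000ff000003ec000000f8000003f0000000e000000020 10 10) 0 0 (step_sound _ 165 [(rh059ff69ab35c2b86.shift 1 2), rh439ce32b9ddbccc6, (rh5c5a2014709044d0.shift 1 5), (rh836f4ced76ca892c.shift 2 2), (rhb0121edee88fe839.shift 1 5)] (by decide +kernel))
noncomputable def rh04b60ac11c0ec28e : CRef := CRef.mk (Pat.mk 0x1800000010000000000000000000000000 0x3c0000007f0000007f000000df000000ff000000ef0000003c0000003c 10 8) 0 0 (step_sound _ 99 [rh35c3a6d4f214115e, (rh419596884cfad63a.shift 0 1), rh53d2ce2b75047b75, rh6c5752e04e1accae, rhcf6d76b59d05d021, rhf107ca3778754f11] (by decide +kernel))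
noncomputable def rheff6fe6ccd6595ce : CRef := CRef.mk (Pat.mk 0x3000000020000000000000000000000000 0x7800000078000000ff000000ff000000ee000000cc000000c8000000c0 10 8) 0 0 (step_sound _ 131 [(rh0a712c8957f6ac12.shift 2 0), (rh1c912726d79010c0.shift 0 3), (rh5b6f59ac5a6b9c78.shift 1 1), (rh5c84e0dc8d15ab27.shift 0 3), (rh799bcd04cdf8ef40.shift 1 2), (rha1ddadb9e3c2bfb6.shift 0 1)] (by decide +kernel))
noncomputable def rhe8b4942b6c20d40d : CRef := CRef.mk (Pat.mk 0x30000000200000000000000000 0x78000000fc000000ff000003fe000003bf0000001800000010 10 10) 0 0 (step_sound _ 102 [(rh04a46a812478d667.shift 2 1), (rh3482d20b1f9db469.shift 0 2), (rh441eff3820cfaf02.shift 0 2), (rh5a734b92f755bb04.shift 1 0), (rh99370bed037805ea.shift 2 1), (rha1fa50b1094f1f04.shift 0 1), (rha959354a207ce83c.shift 1 1), (rhf1f9c17aaf8a6884.shift 1 0), (rhf5ccad115e5d0ea6.shift 1 1)] (by decide +kernel))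
noncomputable def rh5b77f024097e35ed : CRef := CRef.mk (Pat.mk 0x180000001000000000000000000000000000000000 0x3c0000007e0000007e000000fb000000ff000000ef000000fc000000fc000000a0 10 8) 0 0 (step_sound _ 131 [(rh419596884cfad63a.shift 0 2), (rh468971f35ff3057e.shift 0 1), rh5d4eca8943518b1f, (rha19008afc55deb76.shift 0 1), (rha5a228b90b28e3e3.shift 0 1), (rhe27e7ba67b32a80b.shift 1 0)] (by decide +kernel))
noncomputable def rh1612dcdb4d62920f : CRef := CRef.mk (Pat.mk 0x18000000100000000000000000000000000000000000000000 0x30000000740000007e000000fe000000ff000003ec000000f8000003f0000000e000000020 10 10) 0 0 (step_sound _ 165 [(rh3c3e23a02e82b2ed.shift 1 5), rh439ce32b9ddbccc6, (rh679823a0df241fdd.shift 1 3), (rhb0121edee88fe839.shift 1 5), (rhf1e861ec4fa9edc3.shift 1 4)] (by decide +kernel))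
noncomputable def rh3e882967e5af41cb : CRef := CRef.mk (Pat.mk 0x100000001000000010000000000000000000000000 0x80000005f000000ff000003fe000001fe000003ff0000007c00000068 10 10) 0 0 (step_sound _ 101 [(rh70e33bfdf511e144.shift 4 0), rha844b3e1bfb97e10, (rhd462fa93b54f968f.shift 0 1)] (by decide +kernel))
noncomputable def rhc6d3d3bf0b55055c : CRef := CRef.mk (Pat.mk 0x100000001000000010000000000000000000000000 0x3000000070000001fe000003fe000001fe000003ff0000007800000068 10 10) 0 0 (step_sound _ 101 [(rh70e33bfdf511e144.shift 4 0), rha844b3e1bfb97e10, (rhb83fe70e181a6f56.shift 1 1)] (by decide +kernel))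
noncomputable def rh5bbea8fcf20d66d7 : CRef := CRef.mk (Pat.mk 0x200000002000000020000000000000000000000000 0x3800000078000000ff000001fe000001ff000001fc000000680000006000000040 10 9) 0 0 (step_sound _ 164 [(rh15e6f60c30fe7370.shift 0 2), (rhb1a251d9bff81766.shift 4 2), (rhbf735d6e48f06e60.shift 2 0)] (by decide +kernel))
noncomputable def rh963062772a391e7c : CRef := CRef.mk (Pat.mk 0x100000001000000010000000000000000000000000 0x2800000038000000380000003c000000f0000000ff000000fe0000003f00000020 10 8) 0 0 (step_sound _ 229 [(rh2d9fb7ccdcfc0559.shift 4 2), rh69df6907a58ca3cb, (rh835465ca3bbbfd42.shift 3 1), (rhaaa1c3a857c35d86.shift 3 1), (rhe25716203317ed02.shift 3 3)] (by decide +kernel))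
noncomputable def rh1dc7b7b62f6d0144 : CRef := CRef.mk (Pat.mk 0x10000000100000001000000000000000000000000000000000 0x2c0000007c0000007f000000ff000003ff000001fe000003fe000000380000003800000020 10 10) 0 0 (step_sound _ 133 [(rh14e0829dc73b6804.shift 3 3), (rh1bda36292e81e9f1.shift 1 1), (rh7382bcf3a493b666.shift 1 2), (rh8f36f3c00d186fc8.shift 1 3), (rh92bf5eb1987d3bea.shift 0 2), (rh95140e66541b69ed.shift 2 2), (rhde137c82765a9dfa.shift 3 0)] (by decide +kernel))
noncomputable def rh92b5e9ba7aa44702 : CRef := CRef.mk (Pat.mk 0x4000000040000000200000000000000000000000000000000 0x80000000c0000000c0000000e0000000f0000003e0000000e000000060000000e0000000e0000000a 10 6) 0 0 (step_sound _ 226 [(rh21e550b889eff11c.shift 0 2), (rh544d3caba1e1e2bb.shift 1 2), (rhc23ec26ef2c84235.shift 1 4), (rhd878704a81ae758f.shift 1 0)] (by decide +kernel))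
noncomputable def rhd67f8c07e4da6046 : CRef := CRef.mk (Pat.mk 0x8000000080000000400000000000000000000000000000000 0x100000001a0000001f0000007e0000007f0000000c0000001c0000001c0000001c00000014 10 7) 0 0 (step_sound _ 131 [(rh281c6819542c66e6.shift 2 1), rh37de7caed51a2d6f, (rh7a7e08304268422e.shift 2 3)] (by decide +kernel))
noncomputable def rh201d040373608dd2 : CRef := CRef.mk (Pat.mk 0x80000000800000004000000000000000000000000 0x80000001a0000001f0000003c0000007c0000007e0000003c00000004 10 7) 0 0 (step_sound _ 66 [(rh1ca3eff66d43e5b6.shift 0 1), (rh53c798c09177b7db.shift 2 0), (rh751f91025c6ba4fe.shift 2 2), (rhb8e5b18824fc4c63.shift 2 1), (rhe7e7de0708131dea.shift 1 1)] (by decide +kernel))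
noncomputable def rhc552d1388b5748f1 : CRef := CRef.mk (Pat.mk 0x8000000080000000400000000000000000000000000000000 0x180000001c0000007e0000007e0000007f0000007c000000380000003800000010 10 7) 0 0 (step_sound _ 131 [(rh23aad281f166fc15.shift 1 3), (rh5eb0ec0b09e475c2.shift 0 1), rh7625cffd4ecdfd0b, (rh7f8dbceedf3e679c.shift 2 1), (rhcfb77c71a84dded2.shift 2 2), (rhee179f52d21ca1dd.shift 2 3)] (by decide +kernel))
noncomputable def rh182b284d6144a03a : CRef := CRef.mk (Pat.mk 0x100000001000000008000000000000000000000000 0x100000001000000058000001df000000fe000001ff0000007800000028 10 9) 0 0 (step_sound _ 67 [(rh53c798c09177b7db.shift 3 0), (rhd918c3fd221dc9f8.shift 3 1), rhf94a05d72d2baf92] (by decide +kernel))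
noncomputable def rhca0dfc4f3139a01b : CRef := CRef.mk (Pat.mk 0x10000000100000000800000000000000000000000000000000 0x20000000380000003800000038000000300000003800000038000003ff000001fe000001f7000000780000003800000028 10 10) 0 0 (step_sound _ 228 [(rh2b956ac3cddeead1.shift 3 3), (rh7150b666d0193d36.shift 3 4), (rh96efd60ea8018344.shift 3 2), (rhc23ec26ef2c84235.shift 3 4), rhc378e8c2638142fa, (rhfe6d1b5dda5f3614.shift 3 4)] (by decide +kernel))
noncomputable def rh7e0942bc27721a4d : CRef := CRef.mk (Pat.mk 0x10000000100000000800000000000000000000000000000000 0x2000000028000000fe000000fe000000ff000000ff000000ff0000007800000038 10 8) 0 0 (step_sound _ 132 [(rh0140d4a558ae1e31.shift 0 1), (rh0cf5a7cf821aaa29.shift 1 0), (rh298f54403f2f8cbb.shift 1 1), (rh39fa30b267173ead.shift 1 1), (rh5eb0ec0b09e475c2.shift 1 1), (rh6b09c3667fd9f984.shift 1 1), (rh6ecad64dc7c48898.shift 0 2), (rh7a9c0526a804a4aa.shift 1 1), (rh8c6c6a9433862b44.shift 1 0), (rha5549d95109852ba.shift 1 0), (rhbe19b5ffa79c5f90.shift 1 1)] (by decide +kernel))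
noncomputable def rhf80408bde8ec5c9d : CRef := CRef.mk (Pat.mk 0x4000000040000000200000000000000000 0x40000000d0000007ff000003fe000007be000001f0000001a0 10 11) 0 0 (step_sound _ 101 [(rh8caffbd5b632cd00.shift 2 0), (rhaa2e585f6991dd97.shift 0 1), (rhf9366b6a121593ef.shift 5 0)] (by decide +kernel))
noncomputable def rh76ec6218dfb35d00 : CRef := CRef.mk (Pat.mk 0x100000001000000008000000000000000000000000 0x300000003000000030000003f7000001fe000001ff0000003800000020 10 10) 0 0 (step_sound _ 100 [(rh03ff6822a9bfe313.shift 1 1), (rh154fceed9981c1e0.shift 1 0), (rh23aad281f166fc15.shift 2 2), (rh5a9324b73f62489a.shift 3 2), rhdcfe6579d87ef2f9, (rhf9adc524e90a9f35.shift 1 1)] (by decide +kernel))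
noncomputable def rhaae3f29d41c2c744 : CRef := CRef.mk (Pat.mk 0x100000001000000008000000000000000000000000 0x100000001000000058000001df000000fe000001ff0000007800000028 10 9) 0 0 (step_sound _ 67 [(rh53c798c09177b7db.shift 3 0), (rhb8e5b18824fc4c63.shift 3 1), (rhd918c3fd221dc9f8.shift 3 1), rhf94a05d72d2baf92] (by decide +kernel))
noncomputable def rh580b5e62f62f8296 : CRef := CRef.mk (Pat.mk 0x10000000100000000800000000000000000000000000000000 0x280000003800000038000000380000003e000000ff0000007e00000036000000380000003800000008 10 8) 0 0 (step_sound _ 228 [(rhb77bfac3e9efecea.shift 3 4), (rhc23ec26ef2c84235.shift 3 4), (rhe00a1ec4f0777bf4.shift 2 2), (rhe16036ff578a11df.shift 3 4), rhff303f5b2a058de8] (by decide +kernel))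
noncomputable def rh75d28f38166a3dd9 : CRef := CRef.mk (Pat.mk 0x1000000010000000080000000000000000 0x1000000038000001ff000001fe000001ef0000007c0000007c 10 9) 0 0 (step_sound _ 99 [rh1709f68f2d81ad68, (rh4821dcf828b9d7bf.shift 3 0), rhcf280099010fac39] (by decide +kernel))
noncomputable def rh35c7a9e3930de761 : CRef := CRef.mk (Pat.mk 0x2000000020000000100000000000000000 0x18000000780000007c000001f8000001ff000000fe0000003c00000038 10 9) 0 0 (step_sound _ 100 [(rh062a21be4eebf336.shift 1 0), (rh5b3ac4d1047f65dd.shift 1 1), (rhcf80391c5046a495.shift 4 0), rhff93fb20e5e708e0] (by decide +kernel))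
noncomputable def rhbc00b10f77d17c2c : CRef := CRef.mk (Pat.mk 0x1000000010000000080000000000000000 0x80000003c0000003e000000fc0000007e0000001f0000007e0000007c 10 8) 0 0 (step_sound _ 99 [(rh5b3ac4d1047f65dd.shift 0 1), rhb282062aa449f974, (rhcf80391c5046a495.shift 3 0), (rhf9366b6a121593ef.shift 3 0)] (by decide +kernel))
noncomputable def rh316f3bb2ba6945da : CRef := CRef.mk (Pat.mk 0x10000000100000000800000000000000000000000000000000 0x28000001f8000001f8000003bc00000038000003ff000001fe000001f7000000780000003800000008 10 10) 0 0 (step_sound _ 228 [rh395deb412d81cada, (rh4e5e126dc1721c6a.shift 2 4), (rhb77bfac3e9efecea.shift 3 4), (rhc23ec26ef2c84235.shift 3 4), (rhe16036ff578a11df.shift 3 4)] (by decide +kernel))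
noncomputable def rh67b5081f62404876 : CRef := CRef.mk (Pat.mk 0x100000001000000008000000000000000000000000 0xc0000002c000000fc000000ff000000fe000000ff0000007f00000068 10 8) 0 0 (step_sound _ 100 [rh0140d4a558ae1e31, (rh39fa30b267173ead.shift 1 0), (rh4ad885ad0801799d.shift 1 1), (rh6b09c3667fd9f984.shift 1 0), rh76a5650c747403ba, (rh7a9c0526a804a4aa.shift 1 0), (rh98b33b038c403c93.shift 0 1), (rhb02c3d3d47781589.shift 1 0)] (by decide +kernel))
noncomputable def rh31600899b4b5b080 : CRef := CRef.mk (Pat.mk 0x4000000040000000200000000000000000 0x200000007000000070000007f7000003fe000007be000001f0000000f0 10 11) 0 0 (step_sound _ 101 [(rh062a21be4eebf336.shift 2 0), (rh0a59b57e5f4c4075.shift 2 0), (rhaa2e585f6991dd97.shift 0 1), (rhb31b24d4077d7e72.shift 2 0), (rhf9366b6a121593ef.shift 5 0)] (by decide +kernel))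
noncomputable def rh5e1a9efe840a8027 : CRef := CRef.mk (Pat.mk 0x8000000080000000400000000000000000000000000000000 0x140000001c0000001c000000180000007c0000003f0000001f0000001f0000001e0000000a 10 7) 0 0 (step_sound _ 131 [(rh281c6819542c66e6.shift 2 1), (rh328e0484b9031ea7.shift 1 2), rh3f0feb52aeb7a472, (rh7a7e08304268422e.shift 2 3)] (by decide +kernel))
noncomputable def rh58e085fc342f5f4b : CRef := CRef.mk (Pat.mk 0x100000001000000008000000000000000000000000 0x200000012000000170000003f0000001f0000001c000000180000000800000008 10 6) 0 0 (step_sound _ 67 [(rh007aa35a7d771519.shift 0 1), (rh53c798c09177b7db.shift 3 0), (rh751f91025c6ba4fe.shift 3 2), (rhb8e5b18824fc4c63.shift 3 1), (rhe83f0679b86b6627.shift 3 0)] (by decide +kernel))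
noncomputable def rh78b6d5dad73e5bc7 : CRef := CRef.mk (Pat.mk 0x10000000100000000800000000000000000000000000000000 0x28000001f8000001f8000003bc0000003e000000ff0000007e00000036000000380000003800000008 10 10) 0 0 (step_sound _ 228 [(rh4e5e126dc1721c6a.shift 2 4), (rhb77bfac3e9efecea.shift 3 4), (rhc23ec26ef2c84235.shift 3 4), (rhe16036ff578a11df.shift 3 4), rhff303f5b2a058de8] (by decide +kernel))
noncomputable def rhebd51c5ca64b5e2e : CRef := CRef.mk (Pat.mk 0x2000000020000000100000000000000000 0x1c0000001c0000005e000003ff000001ff000001ff0000007c00000078 10 10) 0 0 (step_sound _ 100 [(rh350dcf04c906c724.shift 1 0), (rh61c3190877e6c154.shift 1 0), rh87038755e88b67ec, rh9b24450bbec7a9d5, rhb19df9cb4cba100e, (rhca3982e579cf771d.shift 1 0), (rhcc506dddf8ac4957.shift 2 0), (rhe190574dc8ba41f9.shift 2 0), rhff93fb20e5e708e0] (by decide +kernel))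
noncomputable def rh7261ad93fc76c6b2 : CRef := CRef.mk (Pat.mk 0x1000000010000000080000000000000000 0x20000001e0000003f000001ff000000ff000001ef0000002e0000002c 10 9) 0 0 (step_sound _ 99 [(rh4821dcf828b9d7bf.shift 3 0), rh9586f1d20a33296b, rha643e1e6e5f2e950, (rhbb2636b86eb5dad1.shift 0 1), rhbeb480183e171164, rhd572e7b26600aeef] (by decide +kernel))
noncomputable def rhb3f718d084a74e70 : CRef := CRef.mk (Pat.mk 0x8000000080000000400000000000000000000000000000000 0x140000001c0000001e0000001f0000007b0000001f0000001c0000001c0000001c00000018 10 7) 0 0 (step_sound _ 131 [(rh23aad281f166fc15.shift 1 3), (rh328e0484b9031ea7.shift 1 2), (rh6c03a9ef5fb89cef.shift 2 3), rh753234e0e2a824dc, (rhbf000823819f4c0d.shift 2 2)] (by decide +kernel))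
noncomputable def rhfccfce80a774c109 : CRef := CRef.mk (Pat.mk 0x100000000c000000000000000000000000 0x3c0000003e000000ff0000007f000000ff0000007c0000001c00000004 10 8) 0 0 (step_sound _ 131 [rh0102db89e07e15e4, (rh0bb882ba86b2372d.shift 0 3), (rh8b797fb58e175636.shift 1 1)] (by decide +kernel))
noncomputable def rh46557af9c629c344 : CRef := CRef.mk (Pat.mk 0x100000000c0000000000000000 0x3c0000003e0000007e0000007c000000ff000000ff0000001c 10 8) 0 0 (step_sound _ 99 [(rh0bb882ba86b2372d.shift 0 2), (rhb98afeef0514d234.shift 1 0), rhdc6abb5934ea3318] (by decide +kernel))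
noncomputable def rhf8e4c66fd65f7899 : CRef := CRef.mk (Pat.mk 0x2000000018000000000000000000000000 0x80000003c0000007e000000ff000000ff000000fe0000003f0000002e0000000c 10 8) 0 0 (step_sound _ 132 [rh246b282717d5be18, (rh69012675dfdb1a5b.shift 1 3), (rhed0b2bf5e224f4dc.shift 1 0)] (by decide +kernel))
noncomputable def rhf2cac42316c036e2 : CRef := CRef.mk (Pat.mk 0x2000000018000000000000000000000000 0x780000007c000000fe000000ff000001fe000001de0000001800000008 10 9) 0 0 (step_sound _ 132 [(rh0bb882ba86b2372d.shift 1 3), rh51d0428d7c87547a, (rhb98afeef0514d234.shift 2 1)] (by decide +kernel))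
noncomputable def rhe2a6c5761ee5dc9f : CRef := CRef.mk (Pat.mk 0x400000003000000000000000000000000000000000 0xd0000000f0000000fe000001ff000003fc000001ec000000780000007000000050 10 10) 0 0 (step_sound _ 165 [(rh0bb882ba86b2372d.shift 2 4), (rh97d3b5058d6d12e3.shift 3 0), (rhdbaeaef4c0f08b25.shift 0 2)] (by decide +kernel))
noncomputable def rh5edd8c23db4a2196 : CRef := CRef.mk (Pat.mk 0x100000000c000000000000000000000000 0x140000003c0000003e0000007f0000007a000000ff000000fe0000001c00000004 10 8) 0 0 (step_sound _ 131 [(rh574fdbf07bdd18b9.shift 0 3), (rhad8d6d4f826ab8c6.shift 1 1), rhfbaa94218b087b89] (by decide +kernel))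
noncomputable def rh8ac21197ac17b33f : CRef := CRef.mk (Pat.mk 0x2000000018000000000000000000000000 0x8000000380000007c000000de000000fe000000fe0000006f0000003c0000003c 10 8) 0 0 (step_sound _ 132 [(rh0bb882ba86b2372d.shift 1 3), rh1d8d03da99376233, (rh574fdbf07bdd18b9.shift 1 3), (rhed0b2bf5e224f4dc.shift 1 0)] (by decide +kernel))
noncomputable def rhf05ef7a9c8aa47e0 : CRef := CRef.mk (Pat.mk 0x200000001800000000000000000000000000000000 0x8000000380000007c0000007c000000ff000000ff000001f8000001fc0000003c0000003c00000010 10 9) 0 0 (step_sound _ 164 [(rh0ee73126037644c5.shift 1 2), (rh4090d5ea912d9691.shift 1 0), (rh43fbfa4285643273.shift 1 1), (rh7e9a221777c46166.shift 1 1), (rh871d79ce753c0ee6.shift 1 2), (rhb98afeef0514d234.shift 2 2), (rhc05a499e415d1fb8.shift 2 1), (rhdf50a46af6161dca.shift 1 3), (rhe3f3dd1fcd3292c1.shift 0 2), (rhf2e84005dfb227c2.shift 1 1)] (by decide +kernel))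
noncomputable def rh48f50e0b43a763ca : CRef := CRef.mk (Pat.mk 0x20000000180000000000000000000000000000000000000000 0x3c0000007e000000ff000000ff0000001e000000ff0000003e0000003c0000003800000020 10 8) 0 0 (step_sound _ 196 [(rh246b282717d5be18.shift 0 2), (rh42f84f51dc54ec89.shift 1 1), (rh771960e736ba8bc2.shift 2 4), (rhd69c262cd33b94b3.shift 1 5), (rhdb0aa7c884ea1ab5.shift 1 0)] (by decide +kernel))
noncomputable def rh6ece376dd72ee8cf : CRef := CRef.mk (Pat.mk 0x4000000030000000000000000000000000 0x100000005c000000df000000fe000000ff0000002e0000002e 10 8) 0 0 (step_sound _ 99 [rh6f115afe44033480, (rh834ef1c974e4840e.shift 2 0), (rhd887058eaf5996cb.shift 2 1)] (by decide +kernel))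
noncomputable def rh9a37ee254dc74b56 : CRef := CRef.mk (Pat.mk 0x100000000c00000000000000000000000000000000 0x100000001c0000001c0000000e0000001f0000007e0000007f0000007c000000380000003800000010 10 7) 0 0 (step_sound _ 163 [(rh69012675dfdb1a5b.shift 0 4), (rha4d1945e3f6a7147.shift 1 1), rhf30336a899358e32] (by decide +kernel))
noncomputable def rhf07ae10ca0eb90e4 : CRef := CRef.mk (Pat.mk 0x100000000c0000000000000000000000000000000000000000 0x1c0000003c0000003f000000ff0000007f0000001f0000001c000000180000001c0000000c00000004 10 8) 0 0 (step_sound _ 195 [(rh2ff52c009bdbcd1e.shift 1 3), rh367498c60419c878, (rhd69c262cd33b94b3.shift 0 5)] (by decide +kernel))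
noncomputable def rhbd4a826f716d8a8f : CRef := CRef.mk (Pat.mk 0x100000000c000000000000000000000000 0x1200000036000000770000007f000000ff0000007f0000007a00000018 10 8) 0 0 (step_sound _ 131 [(rh69012675dfdb1a5b.shift 0 3), (rh6dadaa7f36b4718e.shift 1 0), rhc3845019cc79d747, (rhd69c262cd33b94b3.shift 0 3)] (by decide +kernel))
noncomputable def rhca6ef14062113750 : CRef := CRef.mk (Pat.mk 0x100000000c000000000000000000000000 0x380000003c000000fe0000007f000000ff000000fb0000003a00000010 10 8) 0 0 (step_sound _ 131 [(rh05ce325d0f0ece12.shift 0 1), (rh0bb882ba86b2372d.shift 0 3), (rh9f7ab0e599791379.shift 1 0)] (by decide +kernel))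
noncomputable def rh6176baa178a794bf : CRef := CRef.mk (Pat.mk 0x100000000c0000000000000000 0x80000003c0000003f0000007f0000007f000000ff000000ef0000000a 10 8) 0 0 (step_sound _ 99 [(rh0bb882ba86b2372d.shift 0 2), (rh347848bad4539a32.shift 1 0), rhb444b67150782f56] (by decide +kernel))
noncomputable def rh4d745623c576bccc : CRef := CRef.mk (Pat.mk 0x100000000c0000000000000000 0x1c0000001e0000007e0000007f0000001f0000003f0000001a 10 7) 0 0 (step_sound _ 99 [(rh16fc77129fed232e.shift 1 0), (rh69012675dfdb1a5b.shift 0 2), rh9d3bfcde6e7ea807] (by decide +kernel))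
noncomputable def rh79e42870edd3851a : CRef := CRef.mk (Pat.mk 0x100000000c000000000000000000000000 0x120000001e0000003e0000000f0000007f0000007f0000007e0000003800000030 10 7) 0 0 (step_sound _ 131 [rh26a5c0cef042a585, (rh69012675dfdb1a5b.shift 0 3), rhac11169acaa710d5] (by decide +kernel))
noncomputable def rh3f54054ea0230460 : CRef := CRef.mk (Pat.mk 0x100000000c0000000000000000000000000000000000000000 0x1c0000001c0000001c000000780000003f0000007c000000380000001c0000001c00000004 10 7) 0 0 (step_sound _ 195 [(rh2d3de79f4cfa2120.shift 2 0), (rh574fdbf07bdd18b9.shift 0 5), rh67d377f312b870c0] (by decide +kernel))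
noncomputable def rh513d4ea0b3dd509e : CRef := CRef.mk (Pat.mk 0x100000000c000000000000000000000000 0x40000001c0000001e0000001e0000007f0000007f0000007f000000770000003200000030 10 7) 0 0 (step_sound _ 131 [(rh0bb882ba86b2372d.shift 0 3), (rh56d642958c983090.shift 0 1), (rh574fdbf07bdd18b9.shift 0 3), rhcf847675bd7f1152] (by decide +kernel))
noncomputable def rh2f583c871f21de0e : CRef := CRef.mk (Pat.mk 0x20000000180000000000000000000000000000000000000000 0x8000000380000007c0000007e000000ff000000ff000001f8000001fc00000070000000380000001800000008 10 9) 0 0 (step_sound _ 196 [(rh08dc24c4b35e4d46.shift 2 3), (rh0ee7936b0cc327df.shift 0 4), (rh25efe895d4e37a89.shift 0 3), (rh361fe5238a16a888.shift 1 0), rh464925b3a0fca3f6, (rh6a2029e4052ddd21.shift 2 2), (rh7b6a934b198df3c4.shift 2 2), rh9b969a084434c70e, (rhb5fe5d40bf7848ef.shift 2 3)] (by decide +kernel))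
noncomputable def rha215a80a3ebf214b : CRef := CRef.mk (Pat.mk 0x20000000180000000000000000000000000000000000000000 0x10000000380000003e000000fe000000ff000000de000000f800000070000000380000003800000008 10 8) 0 0 (step_sound _ 196 [(rh0195977cb394eae6.shift 0 3), (rh45960694febdb9b8.shift 2 3), (rh495098a614986834.shift 1 1), (rh771960e736ba8bc2.shift 2 4), (rhd69c262cd33b94b3.shift 1 5), (rhfb220c9d8ea7f726.shift 1 0)] (by decide +kernel))
noncomputable def rhc42c30f7bea53246 : CRef := CRef.mk (Pat.mk 0x2000000010000000100000000000000000 0x78000000780000077f000003fe000001ff000000f800000010 10 11) 0 0 (step_sound _ 101 [(rh3f1961d8964fc53e.shift 2 1), rh847375d9fa4563ba, (rhf9366b6a121593ef.shift 4 0)] (by decide +kernel))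
noncomputable def rh588d5012e3c09bdf : CRef := CRef.mk (Pat.mk 0x100000000800000008000000000000000000000000 0x380000003800000078000000fe000000ff0000007f0000003800000030 10 8) 0 0 (step_sound _ 132 [(rh3f1961d8964fc53e.shift 1 2), rhc352a10b54abfbe1, (rhf9366b6a121593ef.shift 3 1)] (by decide +kernel))
noncomputable def rh6cd96ced2186112a : CRef := CRef.mk (Pat.mk 0x1000000008000000080000000000000000 0x3c000000fe000000ff0000007f0000007f0000002c0000000c 10 8) 0 0 (step_sound _ 100 [(rh4667e711860e7283.shift 1 1), rh863dbba31c1d2edf, (rhadf429772c25fde0.shift 3 0)] (by decide +kernel))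
noncomputable def rhb028ccf7e4b91d8b : CRef := CRef.mk (Pat.mk 0x2000000010000000100000000000000000 0x1800000078000001f8000001f7000001fe000003fe000000f800000070 10 10) 0 0 (step_sound _ 101 [rh01cf6295e0c64e9c, (rhadf429772c25fde0.shift 4 0), (rhc967d10a54c3a09d.shift 2 1)] (by decide +kernel))
noncomputable def rhd1ace82120da1a5b : CRef := CRef.mk (Pat.mk 0x1000000008000000080000000000000000 0x200000002000000170000007f000001df000000fe000001ff0000007800000028 10 9) 0 0 (step_sound _ 164 [(rh007aa35a7d771519.shift 0 1), (rh53c798c09177b7db.shift 3 0), rhf94a05d72d2baf92] (by decide +kernel))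
noncomputable def rh57abf7704ecc3e68 : CRef := CRef.mk (Pat.mk 0x200000001000000010000000000000000000000000 0x38000000ff000000ff000000fe000000f60000007c0000003800000028 10 8) 0 0 (step_sound _ 164 [(rh274a837cd7eaa569.shift 3 0), (rh455a65f0e5271e54.shift 0 2), (rhb4fabec9941b6921.shift 1 0)] (by decide +kernel))
noncomputable def rhba818d2d3ef4fe3c : CRef := CRef.mk (Pat.mk 0x100000000800000008000000000000000000000000 0xc0000001e0000001f0000007f0000001f0000000f0000003c0000001c00000014 10 7) 0 0 (step_sound _ 163 [(rh2d3003a2ab10eb31.shift 0 2), rh4cd7deaf53231997, (rh6bc015b9268c8423.shift 0 1)] (by decide +kernel))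
noncomputable def rhe5cc9dd015a58fd9 : CRef := CRef.mk (Pat.mk 0x40000000200000002000000000000000000000000000000000 0x900000079e000003fe000007ff000003fc000001fc000003fc0000005800000008 10 11) 0 0 (step_sound _ 197 [(rh1937038f2421d529.shift 2 1), (rh3d13bfb232eb31bc.shift 1 2), (rh8ab6185781c92367.shift 0 1), (rha9bb8c2bd208a34c.shift 2 0), (rhb2c94df29f612faf.shift 1 2), (rhe50aea03bcc52ce7.shift 0 1)] (by decide +kernel))
noncomputable def rhbf58e0b867acee90 : CRef := CRef.mk (Pat.mk 0x200000001000000010000000000000000000000000 0x3c000000be000007fe000003fe000007ff000001e8000001c800000100 10 11) 0 0 (step_sound _ 133 [(rh0a2ed8ce429d4a47.shift 0 3), (rh1601cffb1703b0e0.shift 1 1), (rh1a1fd027c66ae89c.shift 2 0), (rh44ff7a36cdb75c47.shift 1 2), (rh5aa2e975631ce584.shift 2 2), (rh703bedfd46a671fb.shift 1 1), (rh94c986cd7c09ed58.shift 2 2)] (by decide +kernel))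
noncomputable def rh4eab394f3d88c8a8 : CRef := CRef.mk (Pat.mk 0x2000000010000000100000000000000000 0x7c0000007c000001ef000000ff000001ff0000003800000018 10 9) 0 0 (step_sound _ 101 [rh7c2aab4360fe7eac, rh986931bf4806d074, (rhcf80391c5046a495.shift 4 0)] (by decide +kernel))
noncomputable def rha8f4b919d95cd067 : CRef := CRef.mk (Pat.mk 0x100000000800000008000000000000000000000000 0x40000000c0000001f0000007c0000007f0000007e0000007c0000002c00000004 10 7) 0 0 (step_sound _ 163 [(rh274a837cd7eaa569.shift 2 0), (rh6bc015b9268c8423.shift 0 1), (rhfbf147c3ee837a49.shift 0 1)] (by decide +kernel))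
noncomputable def rh21d5a7c28830d82b : CRef := CRef.mk (Pat.mk 0x80000000400000004000000000000000000000000 0xe0000002f0000007f0000007c0000007e0000007e0000007600000040 10 7) 0 0 (step_sound _ 131 [rh1a1fd027c66ae89c, (rhadf429772c25fde0.shift 2 1), (rhc0dad73b6d00ebef.shift 0 1), (rhf9366b6a121593ef.shift 2 1)] (by decide +kernel))
noncomputable def rh5cf1ca53fd51e29f : CRef := CRef.mk (Pat.mk 0x1000000008000000080000000000000000000000000000000000000000 0x100000001c0000001c0000000c0000007c0000001e0000007f0000003f0000001f0000001e0000001e00000014 10 7) 0 0 (step_sound _ 131 [(rh984bfc6de6c2c524.shift 2 1), (rhafedb74288b3aace.shift 2 1), (rhd65113e9a767e2fc.shift 0 1), (rhdfdec3abc73f8c21.shift 2 0)] (by decide +kernel))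
noncomputable def rh0a23a8ed22561cae : CRef := CRef.mk (Pat.mk 0x2000000010000000100000000000000000 0x3c0000003c000001ef000000ff000001ff0000007800000018 10 9) 0 0 (step_sound _ 101 [rh652a2b6e0e2d871b, rh986931bf4806d074, (rhcf80391c5046a495.shift 4 0)] (by decide +kernel))
noncomputable def rhdcccf9dd76ed795c : CRef := CRef.mk (Pat.mk 0x4000000020000000200000000000000000 0x5000000050000007ff000003fe000007fe000000a0000000a0 10 11) 0 0 (step_sound _ 102 [rhb248c13c8576a224, (rhbf5bcc34c6272d17.shift 1 0), (rhf9366b6a121593ef.shift 5 0)] (by decide +kernel))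
noncomputable def rhf709deadff72b472 : CRef := CRef.mk (Pat.mk 0x400000003000000000000000000000000000000000 0x4000000060000000e0000003e7000000fe000001f7000000f00000007000000050 10 10) 0 0 (step_sound _ 167 [(rh6e283bb7e2b432e4.shift 2 0), (rha61ca71592d97c28.shift 0 3), (rhaff4d66ab2235e4f.shift 4 4), (rhfe7c844806756e31.shift 3 4)] (by decide +kernel))
noncomputable def rh9cf91bf394ba9513 : CRef := CRef.mk (Pat.mk 0x100000000c00000000000000000000000000000000 0x40000001c0000003c000000780000007f0000007f000000780000003e0000001c00000014 10 7) 0 0 (step_sound _ 163 [(rh574adb8090a15211.shift 1 2), rh5927b56d5483fc75, (rh69012675dfdb1a5b.shift 0 4), (rhd69c262cd33b94b3.shift 0 4)] (by decide +kernel))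
noncomputable def rhdf4aecb93bded0d9 : CRef := CRef.mk (Pat.mk 0x100000000c00000000000000000000000000000000 0x80000003800000078000001fe000001fc000001ff000001fe0000007c00000030 10 9) 0 0 (step_sound _ 132 [(rh04c0b376dc9175e4.shift 1 1), (rh3315ac1b68d994fe.shift 1 1), (rh41c77f7776c8729c.shift 2 1), (rh790076309a278fef.shift 1 1), rh7a22a623eafb3ee7, (rh9b0464c3ef3b7fe1.shift 1 1), (rha04aef939eeceb49.shift 1 1), (rhd7e79ebf11e1b82c.shift 1 2), (rhf6518d10b206d2fa.shift 1 1)] (by decide +kernel))
noncomputable def rhd08837ad26abfb52 : CRef := CRef.mk (Pat.mk 0x20000000180000000000000000000000000000000000000000 0x2000000030000000f7000000ff000000de000000fe000000fe0000003c0000003800000010 10 8) 0 0 (step_sound _ 196 [(rh4efaf835c8850dd6.shift 0 2), (rhb073ba3846ab1aa6.shift 1 0), (rhd69c262cd33b94b3.shift 1 5), (rhf34d171be2990deb.shift 1 1)] (by decide +kernel))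
noncomputable def rh398e6ed542003175 : CRef := CRef.mk (Pat.mk 0x20000000180000000000000000 0x7c0000007c000000fe000000ff000000fe000000f000000070 10 8) 0 0 (step_sound _ 100 [(rh45960694febdb9b8.shift 2 0), (rh69012675dfdb1a5b.shift 1 2), (rh7d9e99733c09ecd8.shift 1 0), rh8ae039643f5cdd2c] (by decide +kernel))
noncomputable def rh3ce8f20ace9e854e : CRef := CRef.mk (Pat.mk 0x100000000c00000000000000000000000000000000 0x3c0000003e0000007e0000007b000000ff000000ff0000003c0000001c00000014 10 8) 0 0 (step_sound _ 163 [rh42f84f51dc54ec89, (rh69012675dfdb1a5b.shift 0 4), (rh8909603304e06231.shift 1 2), (rhbde007d47b9dc637.shift 0 2), (rhcd65a83c53680fbc.shift 0 1), (rhe2a8e5fabb2d2118.shift 0 1)] (by decide +kernel))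
noncomputable def rh7e2da6850b492c60 : CRef := CRef.mk (Pat.mk 0x100000000c000000000000000000000000 0x40000001c0000003e0000006f0000007f0000007f000000360000001600000006 10 7) 0 0 (step_sound _ 131 [(rh137b2950371a78fe.shift 0 1), (rh69012675dfdb1a5b.shift 0 3), (rh77e94ccb69d4bd71.shift 1 0), rhed0b2bf5e224f4dc] (by decide +kernel))
noncomputable def rh00d17bbf2af14b5a : CRef := CRef.mk (Pat.mk 0x200000001800000000000000000000000000000000 0x380000007c0000007c000001ff000000ff00000078000000fe000000fc0000003800000010 10 9) 0 0 (step_sound _ 164 [(rh25efe895d4e37a89.shift 0 2), (rh4257b45281b32ffb.shift 2 1), (rh5288fcf3817dd988.shift 0 3), (rh8b1e4cff90cee31c.shift 2 1), (rha6dc463e05a72db6.shift 1 0), (rhae3b05d4385c6977.shift 0 2), (rhe87fbb755ed1e0f4.shift 2 1), (rhfcaef3e3c1ff4815.shift 2 1)] (by decide +kernel))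
noncomputable def rh3e73715cf3389295 : CRef := CRef.mk (Pat.mk 0x100000000c0000000000000000000000000000000000000000 0x140000001c0000001e0000007f0000007e0000006f0000007f0000007c0000001c0000000800000008 10 7) 0 0 (step_sound _ 195 [(rh1a9a859e62870cc0.shift 0 2), rhb073ba3846ab1aa6, (rhd69c262cd33b94b3.shift 0 5)] (by decide +kernel))
noncomputable def rhd7b2c254fdc62d13 : CRef := CRef.mk (Pat.mk 0x100000000c00000000000000000000000000000000000000000 0x280000003e0000003f00000017f000003fe000007fe000003f8000003f80000038000000080 10 11) 0 0 (step_sound _ 165 [(rh16364df4d9d2489c.shift 0 2), (rh1b27c8bcf0d98c2e.shift 2 2), (rh1dc348dad9187f7e.shift 4 0), (rh5439552c12defe8d.shift 2 3), (rh6f115afe44033480.shift 2 2), (rh85dc669d43c2a37b.shift 2 4), (rh9cfc0a016ed330b5.shift 2 2), (rhcf9eae9d3e676dc6.shift 4 2), (rhf02c8537ba00a4d2.shift 2 2)] (by decide +kernel))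
noncomputable def rh3ab433327588b544 : CRef := CRef.mk (Pat.mk 0x80000000c000000000000000000000000 0x40000001f0000001f0000007e000001ff0000007f0000002f0000000e 10 9) 0 0 (step_sound _ 66 [(rh5626207874c7d417.shift 0 1), (rhcf80391c5046a495.shift 2 0), rhf1331084002bad05, (rhf9366b6a121593ef.shift 2 0)] (by decide +kernel))
noncomputable def rh821689beb105fd74 : CRef := CRef.mk (Pat.mk 0x80000000c00000000000000000000000000000000 0x1800000018000000380000007c000000ff0000007f0000007e0000005c00000040 10 8) 0 0 (step_sound _ 164 [(rh0bb882ba86b2372d.shift 0 4), (rha43a2bc2387711ff.shift 0 1), (rhef92cb2729a317b5.shift 1 0)] (by decide +kernel))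
noncomputable def rh85789f2249315fdc : CRef := CRef.mk (Pat.mk 0x80000000c00000000000000000000000000000000 0x1c0000001c0000001c000000380000007c0000003f0000007c0000003e0000001c0000001c 10 7) 0 0 (step_sound _ 164 [rh278f627e06e32a7b, (rh28801e1335bc91f6.shift 1 0), (rh69012675dfdb1a5b.shift 0 4)] (by decide +kernel))
noncomputable def rha296e223d6b6fa80 : CRef := CRef.mk (Pat.mk 0x1000000018000000000000000000000000 0x3e0000003e000000fc0000007e0000001f0000007c0000007c 10 8) 0 0 (step_sound _ 67 [(rh5626207874c7d417.shift 1 1), rhac16125c510d3b5b, rhb55edd686896bca6, (rhcf80391c5046a495.shift 3 0)] (by decide +kernel))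
noncomputable def rhfb5902b5b4da177f : CRef := CRef.mk (Pat.mk 0x100000001800000000000000000000000000000000 0x380000003800000038000000380000003c000000f8000000f8000000ff0000003f0000003800000008 10 8) 0 0 (step_sound _ 196 [(rh21f7432d2b85ec96.shift 3 0), (rh5f42ff55f8509a69.shift 0 1), (rh6c03a9ef5fb89cef.shift 3 3), (rhbf000823819f4c0d.shift 3 2)] (by decide +kernel))
noncomputable def rh314fe369aa8003b6 : CRef := CRef.mk (Pat.mk 0x80000000c00000000000000000000000000000000 0x400000014000000760000007e000000ff000000ff000000fc0000003c00000014 10 8) 0 0 (step_sound _ 164 [rh01ac25f99a074690, (rh0bb882ba86b2372d.shift 0 4), (rh69012675dfdb1a5b.shift 0 4), (rh76d50900e97466be.shift 1 2)] (by decide +kernel))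
noncomputable def rh1335630922a342be : CRef := CRef.mk (Pat.mk 0x100000001800000000000000000000000000000000 0x180000001c0000001c0000007f000000ff0000007f0000003a00000030 10 8) 0 0 (step_sound _ 99 [rh90e079309266c6d7, rhae07d40edd1e08c8, (rhf9366b6a121593ef.shift 3 1)] (by decide +kernel))
noncomputable def rhff32dff0876812c5 : CRef := CRef.mk (Pat.mk 0x2000000018000000000000000000000000 0x180000001c000000ff000000ff0000007e0000006e0000002c0000000c 10 8) 0 0 (step_sound _ 132 [rh04eda49f3cb0b040, (rh40ec1630c0822f1f.shift 0 1), (rh69012675dfdb1a5b.shift 1 3), (rhd69c262cd33b94b3.shift 1 3)] (by decide +kernel))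
noncomputable def rha0871934edfc98ef : CRef := CRef.mk (Pat.mk 0x2000000018000000000000000000000000 0x28000000380000003c000000fe000000ff0000001e0000007c0000003800000008 10 8) 0 0 (step_sound _ 132 [(rh8afa27c0ad27d325.shift 0 1), (rhd69c262cd33b94b3.shift 1 3), (rhfbaa94218b087b89.shift 1 0)] (by decide +kernel))
noncomputable def rhf8ccd500ddf48610 : CRef := CRef.mk (Pat.mk 0x100000001800000000000000000000000000000000 0x10000000100000007c000000fe000001ff0000007f0000003800000030 10 9) 0 0 (step_sound _ 99 [(rh4821dcf828b9d7bf.shift 3 1), (rh7e62201bce77aef2.shift 2 1), rheb4edfd4bd468719] (by decide +kernel))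
noncomputable def rh2c8341664be481de : CRef := CRef.mk (Pat.mk 0x1000000018000000000000000000000000 0x2000000030000000fe000000ff000000fe000000fe0000007800000038 10 8) 0 0 (step_sound _ 133 [(rh401ae5aae035d678.shift 0 1), (rh574fdbf07bdd18b9.shift 1 3), (rheeb1d6fbac75feed.shift 1 0)] (by decide +kernel))
noncomputable def rh2c31108b36053f2e : CRef := CRef.mk (Pat.mk 0x100000001800000000000000000000000000000000 0x18000000380000003800000077000000ff0000007e000000fc0000007e0000003c00000028 10 8) 0 0 (step_sound _ 165 [(rh28801e1335bc91f6.shift 2 0), (rh69012675dfdb1a5b.shift 1 4), (rhf9a76ed25c306ad0.shift 0 1)] (by decide +kernel))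
noncomputable def rh0e165e36f709888b : CRef := CRef.mk (Pat.mk 0x10000000180000000000000000 0x1000000010000000380000003e000000fe000000ff000000fe0000005e00000058 10 8) 0 0 (step_sound _ 101 [(rh574fdbf07bdd18b9.shift 1 2), rh65c32e5bd78e1e1a, (rhc97a13106628f0ea.shift 1 0)] (by decide +kernel))
noncomputable def rhb5b9bda2b4ce8647 : CRef := CRef.mk (Pat.mk 0x100000001800000000000000000000000000000000 0x3800000038000000380000003e000000fc000000fe000000f8000000ff0000007f0000003800000008 10 8) 0 0 (step_sound _ 196 [(rh05dfe4ec6924bbe6.shift 1 1), (rh160034fec264ff65.shift 0 1), (rh21f7432d2b85ec96.shift 3 0), (rh6c03a9ef5fb89cef.shift 3 3), (rhbf000823819f4c0d.shift 3 2)] (by decide +kernel))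
noncomputable def rh7a8678a64dd4070c : CRef := CRef.mk (Pat.mk 0x10000000180000000000000000 0x1800000038000000ff000000ff000000fe000000ee00000064 10 8) 0 0 (step_sound _ 101 [(rh0bb882ba86b2372d.shift 1 2), (rh574fdbf07bdd18b9.shift 1 2), (rh74b9253b4ff61667.shift 1 0), rh957d5f16a7e05ed0] (by decide +kernel))
noncomputable def rh9ad9165b41184340 : CRef := CRef.mk (Pat.mk 0x100000001800000000000000000000000000000000 0x800000038000000380000003f0000003e000000ff000000fe0000001e00000030000000380000003800000028 10 8) 0 0 (step_sound _ 196 [(rh05dfe4ec6924bbe6.shift 1 1), (rh0a834091b901c935.shift 1 1), (rh21f7432d2b85ec96.shift 3 0), (rh38bc65d567a835ba.shift 1 0), (rh3a54435cd254c743.shift 1 1), (rh4c6cb08dfd0a538b.shift 3 0), (rh794721999cc6fbb6.shift 0 4), (rhbffd327399299953.shift 3 0)] (by decide +kernel))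
noncomputable def rh612a016268fbfa6b : CRef := CRef.mk (Pat.mk 0x80000000c000000000000000000000000 0x1400000014000000760000007f000000ff0000007b0000005a00000018 10 8) 0 0 (step_sound _ 132 [(rh2da5358739ca2cfd.shift 1 2), rh47ded8b24b61ac63, (rh69012675dfdb1a5b.shift 0 3), (rh76d50900e97466be.shift 1 1)] (by decide +kernel))
noncomputable def rh5b5d2f5721865952 : CRef := CRef.mk (Pat.mk 0x80000000c00000000000000000000000000000000 0x40000001c0000001c0000003c0000000f0000003f0000007b0000001f0000001e00000014 10 7) 0 0 (step_sound _ 99 [(rh2e46de9788326312.shift 0 2), (rha9e77a1e55a91734.shift 0 1), rhb47ca8562b529964, rhbd3beeca14d9d47c, (rhcc974f6670564499.shift 0 2), (rhcf994b9f9901d332.shift 2 0)] (by decide +kernel))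
noncomputable def rh2225cfa59c190338 : CRef := CRef.mk (Pat.mk 0x100000001800000000000000000000000000000000 0x80000001800000038000000380000003e000000fe000003f7000001fe000001f7000000780000003800000028 10 10) 0 0 (step_sound _ 196 [(rh0ff5dff7dbf78a62.shift 1 0), (rh35d23f98a08e168e.shift 1 2), (rh3a54435cd254c743.shift 1 1), (rh4f1358f74d05cf1d.shift 0 1), (rh54247844c71c77a9.shift 1 1), rh5c13e33ab89721a1, (rh97254faed1157909.shift 1 1), (rhdcfe6579d87ef2f9.shift 0 1), (rhfc60b16e27af0449.shift 0 2)] (by decide +kernel))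
noncomputable def rhd6aaa0636c622c48 : CRef := CRef.mk (Pat.mk 0x300000000800000000000000000000000000000000 0x2000000038000000fe000000ff000001fe000001de0000007c0000003800000020 10 9) 0 0 (step_sound _ 132 [(rh34bcc63c19c2f907.shift 1 0), (rh574fdbf07bdd18b9.shift 1 4), (rh65c32e5bd78e1e1a.shift 0 2)] (by decide +kernel))
noncomputable def rhf66c02cae728ecc8 : CRef := CRef.mk (Pat.mk 0x18000000040000000000000000 0x8000000080000001c0000001f0000007c0000007f000000ff000000ef0000006e 10 8) 0 0 (step_sound _ 67 [(rh030fe0f3d948c4ad.shift 1 0), (rh0bb882ba86b2372d.shift 0 2), rh4aab338fbb7725cb, (rh574fdbf07bdd18b9.shift 0 2)] (by decide +kernel))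
noncomputable def rh2e87eece9e0c60fa : CRef := CRef.mk (Pat.mk 0xc000000020000000000000000000000000 0x100000005000000078000001fc000003ef000000fe0000007f0000007000000050 10 10) 0 0 (step_sound _ 100 [(rha61ca71592d97c28.shift 0 2), (rhaff4d66ab2235e4f.shift 4 3), (rheae5dc7663c5c5d2.shift 2 0), (rhfe7c844806756e31.shift 3 3)] (by decide +kernel))
noncomputable def rhfd755fc34088a6c1 : CRef := CRef.mk (Pat.mk 0x3000000008000000000000000000000000 0xc0000000c0000000e000000fc0000003f000000060000000600000006 10 8) 0 0 (step_sound _ 98 [(rh3e0f0780af2f5018.shift 1 0), (rh7401e8cf466f4e5b.shift 0 3), (rhaff4d66ab2235e4f.shift 2 3), (rhfe7c844806756e31.shift 1 3)] (by decide +kernel))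
noncomputable def rhdeecc9cf68bc11a7 : CRef := CRef.mk (Pat.mk 0x6000000010000000000000000000000000 0x3800000078000007ff000003ff000007be0000009c0000009c0000000c 10 11) 0 0 (step_sound _ 132 [(rh480231ab31e80384.shift 3 2), (rh8676ff876f66f9a9.shift 3 1), rhb212558f9af06859] (by decide +kernel))
noncomputable def rhb7f59f98f3a5c86a : CRef := CRef.mk (Pat.mk 0x180000000400000000000000000000000000000000 0x400000016000000770000007f000000ff000000ef0000005e0000001c00000010 10 8) 0 0 (step_sound _ 131 [(rh0bb882ba86b2372d.shift 0 4), (rh69012675dfdb1a5b.shift 0 4), (rh76d50900e97466be.shift 1 2), rhf930391a8c2bca31] (by decide +kernel))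
noncomputable def rh84b303a44c1bbb53 : CRef := CRef.mk (Pat.mk 0x6000000010000000000000000000000000 0x80000003b8000003b800000378000007fe000003fe000007f7000003900000038000000200 10 11) 0 0 (step_sound _ 135 [(rh0f4a0920b9f47778.shift 4 3), (rh13eafc24bba8dd4c.shift 0 1), (rh2fbbf879f99de263.shift 3 3), (rhb71f30d3745e4ca7.shift 4 0), (rhc083815ec94cd2b2.shift 4 3)] (by decide +kernel))
noncomputable def rh197924510e24ab99 : CRef := CRef.mk (Pat.mk 0x6000000010000000000000000000000000 0x780000007c000001ff0000007f000000ff0000003c0000003c0000002c 10 9) 0 0 (step_sound _ 132 [(rh0a692ad6ea08024e.shift 1 1), (rh2b558a945acd328a.shift 2 0), (rh3802234e5845b0b1.shift 1 1), (rh59c895b7f358e2bb.shift 1 0), (rha6bba8a7d79c4c5e.shift 0 1), rhac0bd488c08d002f, (rhaf1a017cee36fba7.shift 1 1), (rhd17e7ca7d253eefe.shift 1 1), (rhfb283df760d3d835.shift 2 0)] (by decide +kernel))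
noncomputable def rhdabe837f278f63db : CRef := CRef.mk (Pat.mk 0x300000000800000000000000000000000000000000 0x100000001c0000003c0000003e000001ff000000ff000001ef0000005c0000005c0000001c00000014 10 9) 0 0 (step_sound _ 163 [(rh480231ab31e80384.shift 2 3), (rh56fa62bc1061c6be.shift 0 2), (rh5793da7f8056b034.shift 1 2), (rh64a02f8e56d8a189.shift 1 1), (rh8f963b483016a80f.shift 0 4), rha497fb8b9ab0a5cc, (rhba656b59634b5042.shift 2 4), (rhfba8a95c9d8d620d.shift 2 4)] (by decide +kernel))
noncomputable def rhc5290bbc2f13e282 : CRef := CRef.mk (Pat.mk 0x18000000040000000000000000000000000000000000000000 0x180000001c0000001c0000001f0000003f0000007b0000003f0000002f0000001c0000001c0000001c00000010 10 7) 0 0 (step_sound _ 163 [(rh574fdbf07bdd18b9.shift 0 5), (rhc97a13106628f0ea.shift 0 3), (rhcac993f1ca3a509b.shift 1 0), (rheb6400f5a3abd72f.shift 0 2)] (by decide +kernel))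
noncomputable def rhd22ad3e99cff1d87 : CRef := CRef.mk (Pat.mk 0x180000000400000000000000000000000000000000 0x100000001c0000001c0000001e0000001f0000007e0000003f0000007c0000003e0000001c00000014 10 7) 0 0 (step_sound _ 131 [rh35fdc7c168ce1906, (rh69012675dfdb1a5b.shift 0 4), (rh9dac95677877f2d5.shift 0 1)] (by decide +kernel))
noncomputable def rh46ea5fea1339e10a : CRef := CRef.mk (Pat.mk 0x180000000400000000000000000000000000000000 0xc0000001c0000001c000000380000007f000000ff000000fc0000003e0000001c00000014 10 8) 0 0 (step_sound _ 131 [(rh0bb882ba86b2372d.shift 0 4), (rh27b711bf6368c6fa.shift 0 1), (rh28801e1335bc91f6.shift 1 0)] (by decide +kernel))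
noncomputable def rh65020c011f42dca1 : CRef := CRef.mk (Pat.mk 0x180000000400000000000000000000000000000000 0x1c0000001c0000001c0000003c0000007c0000003f0000007c0000003e0000001c00000014 10 7) 0 0 (step_sound _ 131 [(rh0bb882ba86b2372d.shift 0 4), (rh28801e1335bc91f6.shift 1 0), (rhf4eb9795ea80005a.shift 0 1)] (by decide +kernel))
noncomputable def rhc729cf98d3b2453f : CRef := CRef.mk (Pat.mk 0x1800000004000000000000000000000000 0x20000000e0000000e4000000c4000000e70000007e000000fe000000e8000000e000000080 10 8) 0 0 (step_sound _ 133 [(rh601478da40dcbc50.shift 1 2), (rhab1690a4dda61c82.shift 0 3), (rhb71f30d3745e4ca7.shift 2 0)] (by decide +kernel))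
noncomputable def rhea17b9275c713f79 : CRef := CRef.mk (Pat.mk 0x1800000004000000000000000000000000 0xe0000000e0000006f0000007f000000ff000000fc0000003400000034 10 8) 0 0 (step_sound _ 99 [(rh0745f26579185750.shift 1 0), (rh0bb882ba86b2372d.shift 0 3), rh35ea1cb7ef78eff7, (rh69012675dfdb1a5b.shift 0 3)] (by decide +kernel))
noncomputable def rh3bf8f40ac9f11b65 : CRef := CRef.mk (Pat.mk 0x180000000400000000000000000000000000000000 0x100000001c0000001c0000001e0000007f0000007e0000000f0000003c0000001c0000001c00000018 10 7) 0 0 (step_sound _ 131 [rh0de8197fe7e7276a, (rhd69c262cd33b94b3.shift 0 4), (rhda548ebf8fb911b0.shift 0 1)] (by decide +kernel))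
noncomputable def rhf0997ae2cb78eee8 : CRef := CRef.mk (Pat.mk 0x180000000400000000000000000000000000000000 0x400000016000000770000007f000000ff0000007c000000fc0000003800000010 10 8) 0 0 (step_sound _ 131 [(rh69012675dfdb1a5b.shift 0 4), (rh76d50900e97466be.shift 1 2), rh8f299c761058f2de, (rhd69c262cd33b94b3.shift 0 4)] (by decide +kernel))
noncomputable def rh1e47079993b7b4ae : CRef := CRef.mk (Pat.mk 0x60000000100000000000000000 0x380000003800000078000007fe000003fe000007f70000009000000080 10 11) 0 0 (step_sound _ 103 [(rh0f4a0920b9f47778.shift 4 2), rh13eafc24bba8dd4c, (rh2fbbf879f99de263.shift 3 2), (rh3d54e7f933686048.shift 4 2), (rhc083815ec94cd2b2.shift 4 2)] (by decide +kernel))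
noncomputable def rhc05d8b873621bb3f : CRef := CRef.mk (Pat.mk 0x300000000800000000000000000000000000000000 0x380000003c0000003f0000007e0000003f000001fe000000f8000001f80000007800000028 10 9) 0 0 (step_sound _ 132 [(rh137b2950371a78fe.shift 1 2), (rh183bd06bd8e4e4b2.shift 1 1), (rh2f2185ca5932e4e7.shift 1 1), (rh3ffe80aabd4a4874.shift 0 1), (rh48f682dae8e5e8f3.shift 0 1), (rh6d6a83dc6bea9179.shift 1 2), (rhbaaa87046b4b8846.shift 1 0), (rhe6ba0461fa0b765e.shift 1 0)] (by decide +kernel))
noncomputable def rh91b9a3e6b067156e : CRef := CRef.mk (Pat.mk 0x300000000800000000000000000000000000000000 0x2000000038000000380000003f000000fe000000f60000003e00000038000000380000003800000020 10 8) 0 0 (step_sound _ 132 [rh0d06f92226e9229b, (rh574fdbf07bdd18b9.shift 1 4), (rhda548ebf8fb911b0.shift 1 1)] (by decide +kernel))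
noncomputable def rh4ac48d7da475b24d : CRef := CRef.mk (Pat.mk 0x2000000018000000000000000000000000 0x180000001c000000ff000000ff0000003e0000006e0000002c0000000c 10 8) 0 0 (step_sound _ 132 [rh04eda49f3cb0b040, (rh38774a83d7c573ef.shift 1 1), (rh69012675dfdb1a5b.shift 1 3), (rhbde007d47b9dc637.shift 1 1), (rhd69c262cd33b94b3.shift 1 3)] (by decide +kernel))
noncomputable def rh8fb1859ca2254c9c : CRef := CRef.mk (Pat.mk 0x100000000c000000000000000000000000 0xc0000000c0000000e000000fc0000003f000000060000000600000006 10 8) 0 0 (step_sound _ 133 [(rh3e0f0780af2f5018.shift 1 0), (rh7401e8cf466f4e5b.shift 0 3), (rhaff4d66ab2235e4f.shift 2 3), (rhfe7c844806756e31.shift 1 3)] (by decide +kernel))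
noncomputable def rhd3c7667f9a808e1a : CRef := CRef.mk (Pat.mk 0x2000000018000000000000000000000000 0x280000007c0000007e000000ff000000ff000001f8000001fc000000f800000048 10 9) 0 0 (step_sound _ 132 [(rh0be81a1dbf0b29d2.shift 2 0), (rh25efe895d4e37a89.shift 0 1), (rh4b1e73b9054157cb.shift 2 1), (rh52cafd6532c2831d.shift 2 1), (rh6cbaa5c1a750d9b6.shift 2 1), (rh72ff52cf8f27cee7.shift 0 1), (rh9402f710b71ad099.shift 2 0), (rha85af438140d15d6.shift 1 1), (rhb429d7f60a568060.shift 0 1)] (by decide +kernel))
noncomputable def rh6f2ef2aa5df117ff : CRef := CRef.mk (Pat.mk 0x2000000018000000000000000000000000 0x80000003c0000007e000000ff000000ff000000de000000ff0000003e0000000c 10 8) 0 0 (step_sound _ 132 [(rh6cbaa5c1a750d9b6.shift 2 1), (rh77e94ccb69d4bd71.shift 2 0), (rhc79f52178ef670c1.shift 1 0), (rhcde230e1fccc7ea0.shift 2 1), rhd642b3f59e3b50e9, (rhd69c262cd33b94b3.shift 1 3)] (by decide +kernel))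
noncomputable def rhdae897e3fa7985f6 : CRef := CRef.mk (Pat.mk 0x4000000030000000000000000000000000 0xa0000000e0000000f0000000d0000001df000007fe000007ff000000e800000080 10 11) 0 0 (step_sound _ 102 [(rh3f396fc471e867d8.shift 2 1), (rh85c3c98d8ae88257.shift 0 2), (rh9a1ca3fcc2a1f654.shift 3 0), (rh9afc378c5309a9ff.shift 2 1)] (by decide +kernel))
noncomputable def rhb5881c3744c69d43 : CRef := CRef.mk (Pat.mk 0x30000000100000000000000000 0x20000000380000003800000058000003ff000001ff000000fe0000003000000030 10 10) 0 0 (step_sound _ 102 [(rh2820ca9a6c4f41b4.shift 1 2), (rh6ff9c86399f4b15d.shift 1 0), rhbf05abb6ce8df25d] (by decide +kernel))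
noncomputable def rh677bd55d775aadd9 : CRef := CRef.mk (Pat.mk 0x300000001000000000000000000000000000000000 0x1c0000001c000000ff000000ff0000003e0000001c0000001c0000001c00000010 10 8) 0 0 (step_sound _ 131 [(rh04eda49f3cb0b040.shift 0 1), (rh69012675dfdb1a5b.shift 1 4), rha962e706abc8eefb] (by decide +kernel))
noncomputable def rh0aa6ed44ce72b30a : CRef := CRef.mk (Pat.mk 0x30000000100000000000000000000000000000000000000000 0x50000000f7000000ff000000fe0000007e0000007e0000003c0000001000000010 10 8) 0 0 (step_sound _ 163 [(rh69012675dfdb1a5b.shift 1 5), (rh8013a37ff1de366f.shift 0 1), rh80a346eaab440d0d] (by decide +kernel))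
noncomputable def rh3ba291ac1cdb4675 : CRef := CRef.mk (Pat.mk 0x300000001000000000000000000000000000000000 0x8000000180000001c0000003e000000fe0000007e0000001f0000003c0000003c00000020 10 8) 0 0 (step_sound _ 131 [(rh0bb882ba86b2372d.shift 1 4), (rh882ec291dd2bfcc5.shift 1 0), (rhf971a0eefd196cc1.shift 0 1)] (by decide +kernel))
noncomputable def rhbb3e82cc6ba4a9dc : CRef := CRef.mk (Pat.mk 0x18000000080000000000000000000000000000000000000000 0x40000000c0000001e0000007e0000007c0000007f0000003f0000001f0000001600000002 10 7) 0 0 (step_sound _ 131 [rh272b64b32ebe9371, (rh274a837cd7eaa569.shift 2 1), (rh60dd36137b7966de.shift 1 3), (rh93132d5d08907e33.shift 1 1), (rhd2b286e370d4a8f3.shift 2 2)] (by decide +kernel))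
noncomputable def rh6823cebddb7e6f4c : CRef := CRef.mk (Pat.mk 0x3000000010000000000000000000000000 0x1800000018000000ff000000ff0000007e0000007e0000006c0000006c 10 8) 0 0 (step_sound _ 99 [rh04eda49f3cb0b040, (rha9a0d3d260e8190c.shift 1 0), (rhd69c262cd33b94b3.shift 1 3)] (by decide +kernel))
noncomputable def rhcbb39a832ab151d5 : CRef := CRef.mk (Pat.mk 0x18000000080000000000000000000000000000000000000000 0x26000000770000007f0000007f0000003f0000003e0000003c0000001c00000010 10 7) 0 0 (step_sound _ 162 [(rh574fdbf07bdd18b9.shift 0 5), (rh92844c5b4675d7e3.shift 1 0), (rhd69c262cd33b94b3.shift 0 5), (rhfe0fbe7b3a411b7b.shift 0 2)] (by decide +kernel))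
noncomputable def rhce09827b1b5b7fb7 : CRef := CRef.mk (Pat.mk 0x3000000010000000000000000000000000 0x180000001c000000ff000000ff0000007e0000006f0000003c0000003c 10 8) 0 0 (step_sound _ 99 [rh04eda49f3cb0b040, (rh0bb882ba86b2372d.shift 1 3), rh1d8d03da99376233, (rh574fdbf07bdd18b9.shift 1 3)] (by decide +kernel))
noncomputable def rh63f67ba5cb5d33ec : CRef := CRef.mk (Pat.mk 0x180000000800000000000000000000000000000000 0xc000001ff000000f8000001ff000000fe000000fc000000bc00000014 10 9) 0 0 (step_sound _ 165 [rh653931dc793eedd3, (rhed6b513ab8adfeeb.shift 2 1), (rhfa35e196e150edb4.shift 2 4)] (by decide +kernel))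
noncomputable def rhf52b86309afcb386 : CRef := CRef.mk (Pat.mk 0x180000000800000000000000000000000000000000 0x100000001c0000001c0000000c0000001f0000007c0000000f0000007c0000001c0000001c00000010 10 7) 0 0 (step_sound _ 130 [(rh0bb882ba86b2372d.shift 0 4), (rh511f16d6a8efd815.shift 0 1), rh6dacd702e55982e8] (by decide +kernel))
noncomputable def rh7df144059212fe08 : CRef := CRef.mk (Pat.mk 0x1800000008000000000000000000000000 0xc000000ac000000ef000000ff000000fb000000ff000000fe0000007e 10 8) 0 0 (step_sound _ 100 [(rh23a64b1fe2a6fce6.shift 1 0), (rh4f7ed37177e574c0.shift 0 1), rh636959f46954f4c5, rh823b30352035020e, (rhcb08e8f3e7744577.shift 1 0), (rhf875f8442d3dcb46.shift 1 0)] (by decide +kernel))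
noncomputable def rh5e5374a7bc65be68 : CRef := CRef.mk (Pat.mk 0x30000000100000000000000000000000000000000000000000 0xc0000001c000000ff000000ff0000003e0000007e0000007c0000003c0000001000000010 10 8) 0 0 (step_sound _ 163 [(rh69012675dfdb1a5b.shift 1 5), (rh98b9abb04bce08d9.shift 0 2), rhe9f1a4f8d1f8db55] (by decide +kernel))
noncomputable def rh23e19abe1349b4f6 : CRef := CRef.mk (Pat.mk 0x100000000800000008000000000000000000000000 0x3000000034000000fc000000ff000000ff000000ff0000003a00000030 10 8) 0 0 (step_sound _ 132 [(rh38dab74ff9e45985.shift 1 1), rh3bf5df795195e2a7, (rhf9366b6a121593ef.shift 3 1)] (by decide +kernel))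
noncomputable def rh18f6eb83fc6be369 : CRef := CRef.mk (Pat.mk 0x200000001000000010000000000000000000000000 0x6c0000006c000003ff000003fe000007fe000000be0000001800000008 10 11) 0 0 (step_sound _ 133 [(rh18c7076893a0e901.shift 0 2), (rh8f16c721cf495afe.shift 1 0), (rhf9366b6a121593ef.shift 4 1)] (by decide +kernel))
noncomputable def rhfe431251438ca40b : CRef := CRef.mk (Pat.mk 0x100000000800000008000000000000000000000000 0x30000000370000003f0000007f0000007f0000007c0000003c00000030 10 7) 0 0 (step_sound _ 132 [(rh558e95b38d1f6787.shift 0 1), (rhcf80391c5046a495.shift 3 1), (rhe3c77af5c1d096b6.shift 1 0)] (by decide +kernel))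
noncomputable def rh4041da2bd0bb57eb : CRef := CRef.mk (Pat.mk 0x100000000800000008000000000000000000000000 0x30000000f7000000ff0000001f0000007e0000007e0000003c00000030 10 8) 0 0 (step_sound _ 132 [(rh76ee5a7b6d8177ba.shift 0 1), (rhcf80391c5046a495.shift 3 1), (rhd23d673465039f60.shift 1 0), (rhf9366b6a121593ef.shift 3 1)] (by decide +kernel))
noncomputable def rhcfeced8de1f054b8 : CRef := CRef.mk (Pat.mk 0x200000001000000010000000000000000000000000 0x2000000020000003f7000001fe000001ff000000fe0000007000000060 10 10) 0 0 (step_sound _ 133 [(rh31a87a1ff12dd878.shift 0 2), (rh46449da90e7a78aa.shift 1 0), (rhf9366b6a121593ef.shift 4 1)] (by decide +kernel))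
noncomputable def rhbfaf3ca71776b1ae : CRef := CRef.mk (Pat.mk 0x2000000010000000100000000000000000 0x200000002e000003bf000001fe000003fe000000f800000078 10 10) 0 0 (step_sound _ 101 [(rh558e95b38d1f6787.shift 1 0), rhbf5bcc34c6272d17, (rhcf80391c5046a495.shift 4 0)] (by decide +kernel))
noncomputable def rh61f3a9c387c78d2e : CRef := CRef.mk (Pat.mk 0x800000004000000040000000000000000 0x180000001a0000007f0000007f0000007c0000003f0000001e 10 7) 0 0 (step_sound _ 99 [rh7dbaeac40021e7be, rh89c3c274f5fef566, rh91317bda041b6848, (rhcf80391c5046a495.shift 2 0)] (by decide +kernel))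
noncomputable def rh777d0cdf56688f4a : CRef := CRef.mk (Pat.mk 0x80000000400000004000000000000000000000000 0x180000003a0000007f0000007c0000007f0000003f0000003e00000008 10 7) 0 0 (step_sound _ 131 [(rhadf429772c25fde0.shift 2 1), (rhc5997b8545309636.shift 0 1), (rhf2907490ae93766a.shift 1 0), (rhf9366b6a121593ef.shift 2 1)] (by decide +kernel))
noncomputable def rh739faea8ac64e0f0 : CRef := CRef.mk (Pat.mk 0x200000001000000010000000000000000000000000 0x6c0000006c000003fe000003fe000007ff000001e0000000e000000060 10 11) 0 0 (step_sound _ 133 [(rh284f21bb42c27075.shift 3 0), (rh5d07dd39c13db33d.shift 0 1), (rh69534e111a75edab.shift 1 1), (rh81af6900ef6bfaa6.shift 2 0), (rh9753d1c3fd7605db.shift 1 1), (rhd23d673465039f60.shift 2 0), (rhe9bb08d929fde39b.shift 1 1), (rhf2ff441ffcf298f6.shift 1 2), (rhf62907259f9044a8.shift 1 3)] (by decide +kernel))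
noncomputable def rhf26674df91ddb951 : CRef := CRef.mk (Pat.mk 0x400000002000000020000000000000000000000000000000000000000000000000 0x3de000001fe000003bf00000078000001fc000001fc0000007c000000780000007000000040 10 10) 0 0 (step_sound _ 165 [(rh3115e5c752e50f9a.shift 0 4), (rh586561cf30402569.shift 4 3), (rh717ac2d9e652bef7.shift 4 3), (rhe5dcb514cb40ad9b.shift 2 0)] (by decide +kernel))
noncomputable def rh15f9910c563ca645 : CRef := CRef.mk (Pat.mk 0x4000000020000000200000000000000000 0x50000001d0000007fe000003ff000003fe000000e000000060 10 11) 0 0 (step_sound _ 102 [(rh31a87a1ff12dd878.shift 1 1), rh5ccd3fa49bfe440e, (rhcf80391c5046a495.shift 5 0)] (by decide +kernel))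
noncomputable def rh4848af384417bbb5 : CRef := CRef.mk (Pat.mk 0x4000000030000000000000000000000000 0xc0000000c0000000c0000000ff000000fe000001e70000006000000060 10 9) 0 0 (step_sound _ 99 [(rh149367f9f1f8871e.shift 2 2), (rh24066bf006a33453.shift 2 0), (rh5e601430b8bc2e39.shift 0 2)] (by decide +kernel))
noncomputable def rh4dd013fbcf7c85ec : CRef := CRef.mk (Pat.mk 0x20000000180000000000000000000000000000000000000000 0x50000000700000007000000770000003fe000001ff000000f0000000700000007000000010 10 11) 0 0 (step_sound _ 165 [(rh6310776df6edf86a.shift 2 2), (rh69d48c9fda51b0a9.shift 2 0), (rhb103f40a53fe1424.shift 0 4)] (by decide +kernel))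
noncomputable def rh212e83abeddf3636 : CRef := CRef.mk (Pat.mk 0x4000000030000000000000000000000000 0x400000004800000eef000007fe000003ff000001f0000000b0 10 12) 0 0 (step_sound _ 102 [(rh6310776df6edf86a.shift 3 0), rh6f0768ea674f126e, (rhfefd7be2d273f2ab.shift 2 0)] (by decide +kernel))
noncomputable def rh22ac7bc77a84e215 : CRef := CRef.mk (Pat.mk 0x2000000018000000000000000000000000 0x280000003c0000007e0000007f0000007f0000001e000000ff0000007e0000003c 10 8) 0 0 (step_sound _ 132 [rh0e8ccb1e962fbfb2, (rh2ed25abb4299060c.shift 1 0), (rh7f68e5f148a16ef7.shift 0 1), rhb70953b0f00faf03, (rhf78be5e591b64442.shift 1 0), (rhf7ac99fb4b62530f.shift 0 1), (rhfeb087bc77cb13bc.shift 1 0)] (by decide +kernel))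
noncomputable def rhbe1228287e9ee322 : CRef := CRef.mk (Pat.mk 0x2000000018000000000000000000000000 0x140000001c0000003c0000007f0000077f000003f8000003fe000001fc00000078 10 11) 0 0 (step_sound _ 101 [rh0761ae1ebc74edd4, (rh158772c1247c7b24.shift 2 0), rh482ed9420b64b11a, (rh57beafcfe3f21dae.shift 2 0), rh5d455d14c88e0c95, (rh6310776df6edf86a.shift 2 0), rh91ec4381d922e880, (rh93feb6bc77833c31.shift 1 0), (rh9832122a40749d15.shift 1 0)] (by decide +kernel))
noncomputable def rh760161602534bc9d : CRef := CRef.mk (Pat.mk 0x1000000008000000080000000000000000 0x3e0000003e000000f80000007e0000003f0000007c0000007c 10 8) 0 0 (step_sound _ 100 [(rh02bc00ae7352a0ed.shift 1 1), (rh4821dcf828b9d7bf.shift 3 0), rhb55edd686896bca6, (rhcf80391c5046a495.shift 3 0)] (by decide +kernel))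
noncomputable def rhb9598d43b4be4ab7 : CRef := CRef.mk (Pat.mk 0x100000000800000008000000000000000000000000 0xc0000003e000000fe000000f8000000fe000000df0000007c0000007c00000010 10 8) 0 0 (step_sound _ 132 [(rh9b33c7f4f5522a41.shift 0 1), (rhb5311841534a9399.shift 1 0), (rhcf80391c5046a495.shift 3 1), (rhf9366b6a121593ef.shift 3 1)] (by decide +kernel))
noncomputable def rh8d0712af433b97df : CRef := CRef.mk (Pat.mk 0x2000000010000000100000000000000000 0x20000000a0000003f7000001fe000001ff000000f000000070 10 10) 0 0 (step_sound _ 101 [rh1918d3bde075ffe1, (rh31a87a1ff12dd878.shift 0 1), (rhadf429772c25fde0.shift 4 0)] (by decide +kernel))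
noncomputable def rh58976c549395e201 : CRef := CRef.mk (Pat.mk 0x1000000008000000080000000000000000 0xc0000003c000000fe000000fb000000ff000000ff0000006f0000006c 10 8) 0 0 (step_sound _ 100 [rh40626de435e4721d, (rhadf429772c25fde0.shift 3 0), (rhc967d10a54c3a09d.shift 1 1)] (by decide +kernel))
noncomputable def rhe98d7aa269892431 : CRef := CRef.mk (Pat.mk 0x8000000040000000400000000000000000 0x1000000039000000fdf00000ffe00000fff000007e0000003e0 10 12) 0 0 (step_sound _ 103 [(rh2d10b9f8953effcb.shift 3 0), rhd87b3a0c62826559, (rhf91b1398c815afd2.shift 6 0)] (by decide +kernel))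
noncomputable def rhfab66ff68b020db3 : CRef := CRef.mk (Pat.mk 0x1000000008000000080000000000000000 0xc0000003c000000fc000001f8000003fe000001ef0000007c0000003c 10 10) 0 0 (step_sound _ 100 [(rh4821dcf828b9d7bf.shift 3 0), rh78915f497ef1fc94, (rh79434c86b5fbbc6f.shift 1 0), (rhc967d10a54c3a09d.shift 1 1)] (by decide +kernel))
noncomputable def rh9be1c2297351e379 : CRef := CRef.mk (Pat.mk 0x100000000800000008000000000000000000000000000000000000000000000000 0x100000001c0000001c0000000c000000780000001e0000007f0000007f0000007f0000001f0000001e0000001c00000010 10 7) 0 0 (step_sound _ 163 [(rh1fcfb3ba8021b3f8.shift 2 1), (rh4de12cc7feafb128.shift 2 1), (rh984bfc6de6c2c524.shift 2 2), (rhd65113e9a767e2fc.shift 0 2), rhe5dcb514cb40ad9b] (by decide +kernel))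
noncomputable def rh1e69d6504d0e18f0 : CRef := CRef.mk (Pat.mk 0x800000004000000040000000000000000000000000 0x60000001f0000007f000000fdf000007fe000007ff000007b0000003a000000180 10 12) 0 0 (step_sound _ 135 [(rh20ed14c9c2186eda.shift 4 0), (rh3f1961d8964fc53e.shift 4 2), (rh40c78e807f693bd9.shift 4 0), (rh91b291f6c4f423a4.shift 0 1), (rh9510e3a8ebd8211d.shift 4 1), (rhb9651e61fb7df6ef.shift 4 0), (rhc955d7cd5837b009.shift 4 0), (rhc967d10a54c3a09d.shift 4 2)] (by decide +kernel))
noncomputable def rh71d7bd80c87d22e7 : CRef := CRef.mk (Pat.mk 0x100000000800000008000000000000000000000000 0x380000007e000001f0000001fe000001ff0000007c0000003800000010 10 9) 0 0 (step_sound _ 132 [(rh36bb3c217d3b3bef.shift 2 2), (rh58c9a575776a0d32.shift 2 2), (rh78915f497ef1fc94.shift 0 1), (rh8223fe241cad16b2.shift 0 1), (rhcf80391c5046a495.shift 3 1), (rhfddba64e8ce86356.shift 1 0)] (by decide +kernel))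
noncomputable def rh59f78a8358ddd87f : CRef := CRef.mk (Pat.mk 0x10000000080000000800000000000000000000000000000000 0x140000001c0000001e000000780000000f0000007f0000003f0000001f0000001600000002 10 7) 0 0 (step_sound _ 195 [(rh215e11e099257d75.shift 3 3), rh272b64b32ebe9371, (rhc9cb3625ca5f3820.shift 0 3), (rhffb8e5993241bf15.shift 2 1)] (by decide +kernel))
noncomputable def rh0786e7f4ace5befc : CRef := CRef.mk (Pat.mk 0x8000000040000000400000000 0x60000000e0000001e0000001f0000003c0000007e0000007e0000003e 10 7) 0 0 (step_sound _ 131 [(rh751f91025c6ba4fe.shift 2 1), rhcb0aab56fc4b437b, (rhe7e7de0708131dea.shift 1 0)] (by decide +kernel))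
noncomputable def rh205ca9b77f75297d : CRef := CRef.mk (Pat.mk 0x300000001000000000000000000000000000000000 0x300000007e0000007f000000ff0000003e0000007f0000003e0000003c00000008 10 8) 0 0 (step_sound _ 131 [(rh69012675dfdb1a5b.shift 1 4), (rh7a1e67a95839be7d.shift 1 0), (rhb0ff435568afd074.shift 0 1)] (by decide +kernel))
noncomputable def rh1dfa4de543d8b90a : CRef := CRef.mk (Pat.mk 0x3000000010000000000000000000000000 0x8000000380000003800000030000000ff000000ff0000003e000000fc000000fe0000003c 10 8) 0 0 (step_sound _ 99 [rh080a7d01495a32ec, rh4efaf835c8850dd6, (rh69012675dfdb1a5b.shift 1 3)] (by decide +kernel))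
noncomputable def rh16bbdca667c1e9e9 : CRef := CRef.mk (Pat.mk 0x60000000200000000000000000 0xd8000000d8000007fc000003ff0000077e000000f000000030 10 11) 0 0 (step_sound _ 134 [(rh55919c76cd5903d0.shift 1 0), (rhf9366b6a121593ef.shift 5 0), rhfd19610254c50338] (by decide +kernel))
noncomputable def rhf27600335e15401d : CRef := CRef.mk (Pat.mk 0x6000000020000000000000000000000000 0xd8000000d8000001fc000001ff0000007c000000fc000000f8000000c0 10 9) 0 0 (step_sound _ 166 [(rh556947440f375986.shift 2 0), (rhf9366b6a121593ef.shift 5 1), (rhfd19610254c50338.shift 0 1)] (by decide +kernel))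
noncomputable def rh2109ddf01abb8586 : CRef := CRef.mk (Pat.mk 0x18000000080000000000000000 0x80000003e0000003e000000f80000007e0000001f0000007c0000007c 10 8) 0 0 (step_sound _ 132 [rh1eb305341025d702, (rh3f881f45696867b9.shift 1 1), (rhcf80391c5046a495.shift 3 0), (rhf9366b6a121593ef.shift 3 0)] (by decide +kernel))
noncomputable def rhef1506cc2df0b830 : CRef := CRef.mk (Pat.mk 0x1800000008000000000000000000000000 0x3c0000003f0000007f000000780000001f0000003c0000003c00000030 10 7) 0 0 (step_sound _ 164 [rh1829bd0a43b01967, (rh271ac9a0ccf7c588.shift 0 1), (rhcf80391c5046a495.shift 3 1), (rhf9366b6a121593ef.shift 3 1)] (by decide +kernel))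
noncomputable def rh246ec13b8729c8b3 : CRef := CRef.mk (Pat.mk 0x30000000100000000000000000 0x40000007c0000007e000001fe0000003e0000003f0000007c00000038 10 9) 0 0 (step_sound _ 133 [(rh240244faab929fca.shift 2 1), rh3d7abdae3a1cfb48, (rhcf80391c5046a495.shift 4 0)] (by decide +kernel))
noncomputable def rh4ee2c1de45ac4fbe : CRef := CRef.mk (Pat.mk 0x3000000010000000000000000000000000 0x780000007c000000ee000000ff0000003e0000007e0000007c00000070 10 8) 0 0 (step_sound _ 99 [(rh0bb882ba86b2372d.shift 1 3), (rh69012675dfdb1a5b.shift 1 3), (rhabf510eb79a74233.shift 1 0), (rhbc7bd45bdfb436c9.shift 0 1)] (by decide +kernel))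
noncomputable def rhea7186a406ad9d36 : CRef := CRef.mk (Pat.mk 0x3000000010000000000000000000000000 0x180000001c000000ff000000ff0000003e0000006e0000002c0000000c 10 8) 0 0 (step_sound _ 99 [rh04eda49f3cb0b040, (rh0bb882ba86b2372d.shift 1 3), (rh38774a83d7c573ef.shift 1 1), (rh69012675dfdb1a5b.shift 1 3)] (by decide +kernel))
noncomputable def rhb02fe6144c2745e7 : CRef := CRef.mk (Pat.mk 0x300000001000000000000000000000000000000000 0x80000001c0000001c0000001f000000ff0000003e0000007c0000003c0000003c00000008 10 8) 0 0 (step_sound _ 131 [(rh33eaaf64e8d5d2ad.shift 0 1), (rh69012675dfdb1a5b.shift 1 4), (rhad0c452a602b7d1b.shift 1 0)] (by decide +kernel))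
noncomputable def rhd42533736cfc4001 : CRef := CRef.mk (Pat.mk 0x30000000100000000000000000000000000000000000000000 0x2c0000007e000000ff000000ff0000003e0000001f0000007e0000003c0000001000000010 10 8) 0 0 (step_sound _ 163 [(rh246b282717d5be18.shift 0 2), (rh69012675dfdb1a5b.shift 1 5), rhe9f1a4f8d1f8db55] (by decide +kernel))
noncomputable def rh770829d8817bd02a : CRef := CRef.mk (Pat.mk 0x1000000010000000080000000000000000000000000000000000000000 0x200000012000000170000003f000001ff000000fc000001ef000000280000003c0000001c00000014 10 9) 0 0 (step_sound _ 131 [(rh007aa35a7d771519.shift 0 3), (rh3e5950ccac625272.shift 2 0), (rh751f91025c6ba4fe.shift 3 4), (rhb8e5b18824fc4c63.shift 3 3), (rhbab069099745da53.shift 0 2)] (by decide +kernel))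
noncomputable def rh2697dadeb710262b : CRef := CRef.mk (Pat.mk 0x80000000800000004000000000000000000000000 0x60000000e0000000e0000000f000000fc0000007e000000fe0000001e00000010 10 8) 0 0 (step_sound _ 66 [(rh47de8e38fc533d51.shift 1 0), (rhb8e5b18824fc4c63.shift 2 1), (rhcb0aab56fc4b437b.shift 0 1)] (by decide +kernel))
noncomputable def rh52674dd00ffc9ae6 : CRef := CRef.mk (Pat.mk 0x400000004000000020000000000000000000000000 0xa0000000e0000000f000000050000003de000001fe000003f7000000e00000002000000020 10 10) 0 0 (step_sound _ 69 [(rh53c798c09177b7db.shift 5 0), (rh6bd8f56ce05e09d3.shift 5 2), (rha40ce129b4b22ded.shift 0 1), (rhb8e5b18824fc4c63.shift 5 1), (rhe83f0679b86b6627.shift 5 0)] (by decide +kernel))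
noncomputable def rh17f10efccfccab5d : CRef := CRef.mk (Pat.mk 0x8000000080000000400000000000000000000000000000000 0x14000000fc000000fc000001df0000003c0000007e0000007e000000780000003c0000001c00000004 10 9) 0 0 (step_sound _ 227 [rh3e11c8c699073438, (rh4e5e126dc1721c6a.shift 1 4), (rhb77bfac3e9efecea.shift 2 4), (rhc23ec26ef2c84235.shift 2 4), (rhe16036ff578a11df.shift 2 4)] (by decide +kernel))
noncomputable def rh52352efcfa7c72c9 : CRef := CRef.mk (Pat.mk 0x4000000040000000200000000000000000 0x3800000038000000bc00000ffe000007fe000007f7000003f8000001f0 10 12) 0 0 (step_sound _ 101 [(rh0751f0bee56c491d.shift 2 0), rh236f503b34456405, (rh4f82b1f71b9de512.shift 1 0), (rh7d347aa489c33d28.shift 3 0), (rh9741a37276cac3c3.shift 1 0), (rhca3982e579cf771d.shift 2 0), (rhdefc3bfcc9ae1f83.shift 3 0), (rhe190574dc8ba41f9.shift 3 0)] (by decide +kernel))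
noncomputable def rh77f8af007f80ca57 : CRef := CRef.mk (Pat.mk 0x4000000040000000200000000000000000 0x8000000d8000000fc000003fe000003fe000003b7000001f0000000f0 10 10) 0 0 (step_sound _ 101 [(rh4821dcf828b9d7bf.shift 5 0), rh53317a5be734a67f, (rh9020c76c22e53739.shift 2 0), (rhbeb480183e171164.shift 2 0), (rhcbf86b24944d991b.shift 2 1), (rhed4055a04e1b5b02.shift 4 0)] (by decide +kernel))
noncomputable def rh05dde5b692d0c5fe : CRef := CRef.mk (Pat.mk 0x10000000100000000800000000000000000000000000000000 0x2800000038000000380000003c000000f0000000fc000000ff0000003f0000003000000030 10 8) 0 0 (step_sound _ 132 [(rh23aad281f166fc15.shift 2 3), (rh328e0484b9031ea7.shift 2 2), (rh6c03a9ef5fb89cef.shift 3 3), rh80a2b7303b437e0c, (rhbf000823819f4c0d.shift 3 2)] (by decide +kernel))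
noncomputable def rh60ee5c33be67cc03 : CRef := CRef.mk (Pat.mk 0x18000000080000000000000000 0x3c0000003e0000007c0000007f000000ff000000ef0000006a 10 8) 0 0 (step_sound _ 66 [(rh0bb882ba86b2372d.shift 0 2), (rh32dcda9829b4c309.shift 1 0), (rh574fdbf07bdd18b9.shift 0 2), rhafbb8e05c94a37fc] (by decide +kernel))
noncomputable def rh9f68157a36d99e08 : CRef := CRef.mk (Pat.mk 0x30000000100000000000000000 0x2000000020000007f7000003fe000003ff000000d0000000d0 10 11) 0 0 (step_sound _ 102 [rh5f7f4e84ffadfb33, (rhdc1641106d7e5aa2.shift 3 2), rhe8b9d79fcaff8faf] (by decide +kernel))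
noncomputable def rh1db62799df90c5c3 : CRef := CRef.mk (Pat.mk 0x18000000080000000000000000 0xc0000001e0000003e000000ff000000fe0000001f0000000e0000000c 10 8) 0 0 (step_sound _ 132 [(rh4d6605bc2ec4eb77.shift 0 1), rh5d984f7d764cabf5, (rhadf429772c25fde0.shift 3 0)] (by decide +kernel))
noncomputable def rh10156f93ae8be5ef : CRef := CRef.mk (Pat.mk 0x30000000100000000000000000 0x4000000068000003ef000007ff00000fff000000d0000000d0 10 12) 0 0 (step_sound _ 102 [rh0b0b23b75740bf8a, rh5cf6392ba09868a3, (rhdc1641106d7e5aa2.shift 3 2)] (by decide +kernel))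
noncomputable def rha7865d90e81be164 : CRef := CRef.mk (Pat.mk 0x18000000080000000000000000 0xc0000001c0000001e000001ff000000fe000001ef0000002c0000002c 10 9) 0 0 (step_sound _ 132 [(rh4821dcf828b9d7bf.shift 3 0), rh5d984f7d764cabf5, rhd9d8fd3702cedceb] (by decide +kernel))
noncomputable def rh8dac3fb3e2189d4a : CRef := CRef.mk (Pat.mk 0x3000000010000000000000000000000000 0x380000003c000000ff000000ff000001fe0000004e0000000c0000000c 10 9) 0 0 (step_sound _ 99 [(rh574fdbf07bdd18b9.shift 1 3), (rha29b6c4dc0e510b1.shift 1 0), rhbd028d509bd6fa5b] (by decide +kernel))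
noncomputable def rh5fd0fe4f49eae7cb : CRef := CRef.mk (Pat.mk 0x18000000080000000000000000 0xc0000003e0000003e0000007e000000f8000000ff0000002f0000000c 10 8) 0 0 (step_sound _ 132 [rh2f27692642871235, (rh4821dcf828b9d7bf.shift 3 0), (rhadf429772c25fde0.shift 3 0), (rhe5dc471d096ddd8d.shift 0 1)] (by decide +kernel))
noncomputable def rh8446c2b8042ee41e : CRef := CRef.mk (Pat.mk 0x3000000010000000000000000000000000 0x1c0000001e000000fe000000fe0000001f0000001c0000001c 10 8) 0 0 (step_sound _ 99 [(rh0bb882ba86b2372d.shift 1 3), (rh574fdbf07bdd18b9.shift 1 3), (rha3c7ab18665de4e2.shift 2 1), rhf971a0eefd196cc1] (by decide +kernel))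
noncomputable def rhbfc7f57ff5e95fff : CRef := CRef.mk (Pat.mk 0x30000000100000000000000000 0x140000007e0000007e000000fe0000003e000000ff0000005800000018 10 8) 0 0 (step_sound _ 133 [(rh4821dcf828b9d7bf.shift 4 0), (rh76f4e0a8f21ffd32.shift 1 1), (rh92c5866cf4cb982e.shift 2 1), rhc4d73a301927610f] (by decide +kernel))
noncomputable def rh8e534edd4429c9b6 : CRef := CRef.mk (Pat.mk 0xc000000040000000000000000 0x40000001f0000001f0000007f000000ff0000007c0000003400000024 10 8) 0 0 (step_sound _ 131 [(rh4821dcf828b9d7bf.shift 2 0), (rh92c5866cf4cb982e.shift 0 1), rh93b4f07a0165613d, (rhadf429772c25fde0.shift 2 0), (rhf369e82ded5bd0c7.shift 0 1)] (by decide +kernel))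
noncomputable def rh62b20bf095498d98 : CRef := CRef.mk (Pat.mk 0x3000000010000000000000000000000000 0x780000007c000000fe000000ff000001fe000001de0000001800000008 10 9) 0 0 (step_sound _ 99 [(rh0bb882ba86b2372d.shift 1 3), rh51d0428d7c87547a, (rhb98afeef0514d234.shift 2 1)] (by decide +kernel))
noncomputable def rhee3c3504f72dbe37 : CRef := CRef.mk (Pat.mk 0x8000000080000000400000000000000000000000000000000 0x100000001e0000001e0000001f0000001f0000007f0000001f0000000e000000180000001800000010 10 7) 0 0 (step_sound _ 131 [rh151f02452a2c17ff, (rh6b6a46b759602c97.shift 0 3), (rh7a7e08304268422e.shift 2 3)] (by decide +kernel))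
noncomputable def rhd288ef910fcf6c6b : CRef := CRef.mk (Pat.mk 0x1000000010000000080000000000000000000000000000000000000000 0x20000000300000003000000030000003ff000001fe000001ff00000070000000380000001800000008 10 10) 0 0 (step_sound _ 164 [(rh7a7e08304268422e.shift 3 4), (rhdcfe6579d87ef2f9.shift 0 2), (rhfb74650b571039c7.shift 1 0)] (by decide +kernel))
noncomputable def rha9ce4c363f53f7f2 : CRef := CRef.mk (Pat.mk 0x100000001000000008000000000000000000000000 0x80000003c0000003f000000ff0000007f0000001f0000003c0000003400000030 10 8) 0 0 (step_sound _ 131 [(rh0a2b0d1f4c03c9b1.shift 1 2), rh1829bd0a43b01967, (rh262f116af076d964.shift 0 1), (rh337fb33f398f5267.shift 1 2), (rh9cdee070315fb032.shift 3 2)] (by decide +kernel))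
noncomputable def rh14fa92eb3048f0d3 : CRef := CRef.mk (Pat.mk 0x800000008000000040000000000000000 0x14000000fc000000fc000001df0000003f0000007f0000007f0000007a00000030 10 9) 0 0 (step_sound _ 163 [rh2593e3f7b1f2a32b, (rh4e5e126dc1721c6a.shift 1 2), (rhb77bfac3e9efecea.shift 2 2), (rhc23ec26ef2c84235.shift 2 2), (rhe16036ff578a11df.shift 2 2)] (by decide +kernel))
noncomputable def rhacbe74e33579218e : CRef := CRef.mk (Pat.mk 0x800000008000000040000000000000000000000000000000000000000 0x140000001c0000001e0000001f000000fa000000ff0000003e000000180000001c0000000c00000004 10 8) 0 0 (step_sound _ 163 [(rh328e0484b9031ea7.shift 1 3), rh51b2e8a1ed96b14c, (rh5a9324b73f62489a.shift 2 4), (rh6c03a9ef5fb89cef.shift 2 4), (rhbf000823819f4c0d.shift 2 3)] (by decide +kernel))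
noncomputable def rhef7598a8ad3f23b1 : CRef := CRef.mk (Pat.mk 0x1000000010000000080000000000000000000000000000000000000000 0xc0000000c0000002e000000fe000000ff000000fe000000fe00000074000000780000001800000008 10 8) 0 0 (step_sound _ 164 [(rh0458b03499fb23ee.shift 1 0), (rh40560664baa911f8.shift 1 2), (rh51b2e8a1ed96b14c.shift 1 0), (rh76a5650c747403ba.shift 0 2), (rhc869f784f28ceae9.shift 1 3), (rhc977e1bf2d36a6f5.shift 1 3), (rhe7c87a164a16c836.shift 1 0), (rhf162f9196e5d6d28.shift 1 2)] (by decide +kernel))
noncomputable def rhb7d2251a2f0f92ec : CRef := CRef.mk (Pat.mk 0x20000000200000001000000000 0x180000007c0000007c000001ff000001fe000001df000000dc 10 9) 0 0 (step_sound _ 68 [(rh0a2b0d1f4c03c9b1.shift 2 0), (rh77257104e76df6ba.shift 2 0), (rh8034e92d1817eaa5.shift 1 0), (rh90c0b5a0aa25a821.shift 1 0), (rhb5d91e16ed1d3d72.shift 2 0), rhcf474b43285e2aaf, (rhfdeb493a4a1b3130.shift 1 0)] (by decide +kernel))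
noncomputable def rhb768422bed77d314 : CRef := CRef.mk (Pat.mk 0x80000000800000004000000000000000000000000 0x140000001c0000001c0000001f000000fc000000ff0000003c0000001800000010 10 8) 0 0 (step_sound _ 99 [(rh328e0484b9031ea7.shift 1 1), rh374daf305a99b62f, (rh5a9324b73f62489a.shift 2 2), (rh6c03a9ef5fb89cef.shift 2 2), (rhbf000823819f4c0d.shift 2 1)] (by decide +kernel))
noncomputable def rh1100dd559de3844b : CRef := CRef.mk (Pat.mk 0x300000001000000000000000000000000000000000 0x240000003c0000007c0000001f000000ff000000fe0000001c000000380000003800000028 10 8) 0 0 (step_sound _ 131 [(rh0bb882ba86b2372d.shift 1 4), (rh4d9e716459bcefbf.shift 1 0), (rh574fdbf07bdd18b9.shift 1 4), (rh7333dd4d9075bcb0.shift 0 2)] (by decide +kernel))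
noncomputable def rh376e7483ef8083b2 : CRef := CRef.mk (Pat.mk 0x6000000020000000000000000000000000 0x80000007ae000003fe000007ff000000580000005000000010 10 11) 0 0 (step_sound _ 135 [(rh2820ca9a6c4f41b4.shift 2 3), rh28d6b29d03b60942, (rh6b86d7ef2d7d4c53.shift 1 1), (rhdc1641106d7e5aa2.shift 4 3)] (by decide +kernel))
noncomputable def rh61b6ff9e097aa728 : CRef := CRef.mk (Pat.mk 0x1800000008000000000000000000000000 0x140000001c0000003e0000006f0000007f0000007f000000370000001600000006 10 7) 0 0 (step_sound _ 98 [(rhbde007d47b9dc637.shift 0 1), (rhd69c262cd33b94b3.shift 0 3), rhed0b2bf5e224f4dc, (rhf3fd1237618bb361.shift 0 1)] (by decide +kernel))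
noncomputable def rh34895972264dda4d : CRef := CRef.mk (Pat.mk 0x1800000008000000000000000000000000 0x26000000670000007f0000007f0000003f0000003e00000038 10 7) 0 0 (step_sound _ 98 [(rh34a51fdd9a0f01aa.shift 1 1), (rh69012675dfdb1a5b.shift 0 3), (rhd69c262cd33b94b3.shift 0 3), rhfe0fbe7b3a411b7b] (by decide +kernel))
noncomputable def rh8c7cdf23d070aadb : CRef := CRef.mk (Pat.mk 0x18000000080000000000000000000000000000000000000000 0x140000001c0000001c0000000c00000078000000ff0000007f0000007f0000003f0000001e0000001e 10 8) 0 0 (step_sound _ 131 [(rh157f2560bab4cd4a.shift 0 1), rh272b64b32ebe9371, (rh27905108af7989e0.shift 0 1), (rh87478d023b72c5ca.shift 1 1), rha9bb8c2bd208a34c, (rhb64fa7c48065f1dc.shift 0 3), rhb9b2972f58c6bbfc, (rhd3e0314606cfc48c.shift 2 0)] (by decide +kernel))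
noncomputable def rh677711ede478fb21 : CRef := CRef.mk (Pat.mk 0x18000000080000000000000000000000000000000000000000 0x140000001c0000001e0000000f0000001e0000007f000000ff0000007f000000ff0000001e00000016 10 8) 0 0 (step_sound _ 131 [(rh1a6a8bdf9dba289a.shift 0 1), rh272b64b32ebe9371, (rh93132d5d08907e33.shift 1 1), (rhbe917685f239389d.shift 1 2), (rhc0117486889ca05f.shift 0 3), (rhdc86d56c01e45573.shift 2 0), rhe391b1aaf40b2b9d, (rhf58ed7d7ca558428.shift 0 2), rhf7f65d4793124bfc] (by decide +kernel))
noncomputable def rhdb2a968d889383ac : CRef := CRef.mk (Pat.mk 0x60000000200000000000000000000000000000000000000000 0x400000007000000070000003be000001fe000003bf000001fc000000fc0000007c0000005800000008 10 10) 0 0 (step_sound _ 133 [(rh272b64b32ebe9371.shift 2 0), (rh2de27bb7bba618e8.shift 0 3), (rh3cfc8c917b5e6e0e.shift 2 1), (rh7d88c99c88a13827.shift 2 1), (rhb31291ab037e5234.shift 2 2), (rhe3533b853c774e11.shift 2 1), (rhe50aea03bcc52ce7.shift 0 1)] (by decide +kernel))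
noncomputable def rh0e12feeba353b4b6 : CRef := CRef.mk (Pat.mk 0x200000003000000000000000000000000000000000 0x2000000028000003bf000001ff000003fe000000fe0000007400000060 10 10) 0 0 (step_sound _ 100 [(rh4821dcf828b9d7bf.shift 4 1), rh6cee58d0f1a87727, (rhbf5bcc34c6272d17.shift 0 1)] (by decide +kernel))
noncomputable def rh84b6625487da15cb : CRef := CRef.mk (Pat.mk 0x100000001800000000000000000000000000000000 0x1800000018000000180000007f0000007f0000007f0000003c00000034 10 7) 0 0 (step_sound _ 99 [(rh4821dcf828b9d7bf.shift 3 1), rha6962320404b690b, (rhadf429772c25fde0.shift 3 1), (rhb9651e61fb7df6ef.shift 1 0)] (by decide +kernel))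
noncomputable def rhd37900bea04585bc : CRef := CRef.mk (Pat.mk 0x10000000180000000000000000000000000000000000000000 0x280000003c0000003f0000007f0000001f0000003f0000001f0000003c000000380000003800000008 10 7) 0 0 (step_sound _ 228 [(rh281c6819542c66e6.shift 3 2), (rh6c03a9ef5fb89cef.shift 3 4), rhc8f43f9ea392a74d, (rhd25bc288147da41d.shift 0 4)] (by decide +kernel))
noncomputable def rh9485e2eb6b6d4646 : CRef := CRef.mk (Pat.mk 0x1000000018000000000000000000000000 0x380000007f0000001f0000001f0000007e0000007e0000003c 10 7) 0 0 (step_sound _ 67 [rh1a6abc4cb2c4aae4, rh8afd548d94d4f1de, (rh8fa3e6caf2257465.shift 1 1), (rhcf80391c5046a495.shift 3 0)] (by decide +kernel))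
noncomputable def rh6bfaeb15ce5b7fa0 : CRef := CRef.mk (Pat.mk 0x4000000060000000000000000000000000 0x780000007c0000077f000003fe000007bf0000003f0000003c 10 11) 0 0 (step_sound _ 100 [(rh1717b78b8fc9e36f.shift 1 1), (rh26ccbd76a4f07c1f.shift 2 2), rh416852a9415d04c5, (rh654f35bb9bd7d6e6.shift 1 1), rh6625e51cf26481e6, (rh6ae5a4de3ca936a7.shift 2 1), rh76b243c31215b2b0, rhf376a83a820aa330, (rhfeb5eb62842ac1aa.shift 0 2)] (by decide +kernel))
noncomputable def rhd8a3a8fb37f1bf6f : CRef := CRef.mk (Pat.mk 0x2000000030000000000000000000000000 0x180000001c0000009e000003bf000003fe000003ff000003fe00000078 10 10) 0 0 (step_sound _ 102 [(rh2a7fc2ba0552f49e.shift 1 1), (rh2cf6baa02d8fc349.shift 1 0), (rh5d7b213d78c53728.shift 1 0), (rh6c1da8fae789e226.shift 1 0), rh71fe8b0d2a54be7b, rhd46f02e6a06a416e, (rhf0d3fbc52f4eed53.shift 1 1), (rhf864d0ce545cd5a7.shift 1 0)] (by decide +kernel))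
noncomputable def rhe3c3c81c59637546 : CRef := CRef.mk (Pat.mk 0x400000006000000000000000000000000000000000 0xa0000000f4000000fc000000fc0000075e000003fc000007fe000000ff000000bc00000088 10 11) 0 0 (step_sound _ 132 [(rh2a30e31143d7eafb.shift 1 1), (rh455f7b10361fdffb.shift 1 1), (rh4ef1bb7b40c5405e.shift 2 1), (rh6320ea0e21ea37ce.shift 1 1), (rh6625e51cf26481e6.shift 0 1), (rh9afc378c5309a9ff.shift 2 2), (rhd9603cda19fdae97.shift 1 1), (rhe0c2c833b9750f93.shift 2 1), (rhf9a986fc36560963.shift 2 0)] (by decide +kernel))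
noncomputable def rh4182721216e2a920 : CRef := CRef.mk (Pat.mk 0x30000000100000000000000000 0x10000000380000007c000001fe000003fe000001f7000000d400000090 10 10) 0 0 (step_sound _ 133 [(rh93b4f07a0165613d.shift 2 0), (rhbeadfa32e2689f87.shift 0 1), (rhcf80391c5046a495.shift 4 0)] (by decide +kernel))
noncomputable def rh01e82fc31db4f4a2 : CRef := CRef.mk (Pat.mk 0x300000001000000000000000000000000000000000 0x20000000300000003000000038000001ff000001fe000003f700000018000000380000003800000028 10 10) 0 0 (step_sound _ 100 [(rh215e11e099257d75.shift 4 2), rh967558bb4e4a39f1, (rhc77c4d6775dbaaf6.shift 1 2)] (by decide +kernel))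
noncomputable def rhccb295bdaa1ff114 : CRef := CRef.mk (Pat.mk 0x180000000800000000000000000000000000000000 0x100000001c0000001c0000003c000000f8000000fe000000f8000000ff0000007e0000003c00000014 10 8) 0 0 (step_sound _ 99 [(rh215e11e099257d75.shift 3 2), (rh5fc685152b5f0b6a.shift 1 1), rhd8032f56e47dfc26, (rhffb8e5993241bf15.shift 2 0)] (by decide +kernel))
noncomputable def rh333f2e394da72fa7 : CRef := CRef.mk (Pat.mk 0x30000000100000000000000000 0x380000003c000000fe0000003e000000f70000007e0000003c 10 8) 0 0 (step_sound _ 133 [rh0672c9237f8b7afd, (rh5aa2e975631ce584.shift 2 1), (rhadf429772c25fde0.shift 4 0), (rhf9366b6a121593ef.shift 4 0)] (by decide +kernel))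
noncomputable def rhaa61a1f2b1be9718 : CRef := CRef.mk (Pat.mk 0x3000000010000000000000000000000000 0x6000000060000007ef000007fe00000ff7000001f8000001f000000140 10 12) 0 0 (step_sound _ 134 [(rh10c36ae14e3811dc.shift 4 0), (rh1ff43a4d4e8fd855.shift 1 3), (rh5cf6392ba09868a3.shift 0 1), (rha2fd0e282b89f157.shift 1 1), (rhc7e428137b9465e3.shift 0 3), (rhcb536530d718d8fb.shift 1 1), (rhe088509686abc7a6.shift 1 1), (rhebc432cdcde2b3ee.shift 0 3)] (by decide +kernel))
noncomputable def rh85a0f298fbfc678f : CRef := CRef.mk (Pat.mk 0x3000000010000000000000000000000000 0x780000007c000001ff000001fe000001f7000000640000006000000060 10 9) 0 0 (step_sound _ 131 [(rh136a1a95fd901589.shift 0 3), (rh2b6fc48140a2bc0a.shift 2 2), (rh3285af83a6590a9b.shift 0 2), rhb4632218ebf8df89, (rhc61fdd8f9622301c.shift 1 1), (rhea07c87beae5a536.shift 0 2), (rheeee855fe3af3a44.shift 1 1)] (by decide +kernel))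
noncomputable def rh10685b4285fafce9 : CRef := CRef.mk (Pat.mk 0x300000001000000000000000000000000000000000 0x2000000038000000780000007c000003ff000007fe00000fd7000000f8000000f80000003800000028 10 12) 0 0 (step_sound _ 166 [(rh2363d6b8ea807ffd.shift 0 2), (rh502c81d6f7d1bcb7.shift 2 0), (rh5793da7f8056b034.shift 2 2), (rh5cf6392ba09868a3.shift 0 2), (rh64a02f8e56d8a189.shift 2 1), (rh94433c11a2b74c78.shift 1 2), (rha497fb8b9ab0a5cc.shift 1 0), (rhfb56f51c8f859b25.shift 2 2)] (by decide +kernel))
noncomputable def rh3ee7151eb59bbf4c : CRef := CRef.mk (Pat.mk 0x4000000060000000000000000000000000 0x140000003c0000007c000003ff000001fe000001df000000d800000090 10 10) 0 0 (step_sound _ 100 [rh42d80e229b12b718, (rha11dfd15f08f96e3.shift 3 3), (rhf8cdf05499d8df2b.shift 3 0)] (by decide +kernel))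
noncomputable def rhefbd0afe286e27cf : CRef := CRef.mk (Pat.mk 0x4000000060000000000000000000000000 0x70000000f8000001fc00000fff000007fe0000075f0000005800000008 10 12) 0 0 (step_sound _ 100 [rh6e772bf209b6671d, (rha11dfd15f08f96e3.shift 3 3), (rhb12ffaec36122c99.shift 1 2), (rhbe61e7082cea3179.shift 2 1)] (by decide +kernel))
noncomputable def rhd624c35f22e9b548 : CRef := CRef.mk (Pat.mk 0x80000000c000000000000000000000000 0x1400000014000000760000007f000000ff0000007b0000005a00000018 10 8) 0 0 (step_sound _ 132 [rh47ded8b24b61ac63, (rh574fdbf07bdd18b9.shift 0 3), (rh76d50900e97466be.shift 1 1), (rhd69c262cd33b94b3.shift 0 3)] (by decide +kernel))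
noncomputable def rhec052beb5d2d571d : CRef := CRef.mk (Pat.mk 0x100000001800000000000000000000000000000000 0x80000003800000038000000ff000000ff000000f8000000f00000007c0000003800000038 10 8) 0 0 (step_sound _ 100 [(rh02a5d9830fafa9ad.shift 2 0), (rh16e2b99240741605.shift 1 1), (rh1e7f51eda3853b0e.shift 3 0), (rh3d94452a2fb32e7c.shift 2 2), rh54d72730b199f96f, (rh7dfef7219656b4fa.shift 2 0), (rh96e447fa0a369afe.shift 0 1), (rhcf994b9f9901d332.shift 3 0)] (by decide +kernel))
noncomputable def rh8973ed2d98e368b9 : CRef := CRef.mk (Pat.mk 0x20000000300000000000000000000000000000000000000000 0x15000000170000001f0000003ef000001fe000007ff000001f0000001f00000017000000010 10 11) 0 0 (step_sound _ 199 [(rh0c53eed428a3dcbf.shift 1 2), (rh2446f3a8531e6acd.shift 4 1), (rh29155dfec1348a8d.shift 2 0), (rhcadd85ff2a73e8c7.shift 2 5), (rhf64d584a87793743.shift 0 2)] (by decide +kernel))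
noncomputable def rh0748ed3c061e30ee : CRef := CRef.mk (Pat.mk 0x80000000c00000000000000000000000000000000 0x140000001c0000001e0000001f0000007b0000001f0000001c0000001c0000001c00000010 10 7) 0 0 (step_sound _ 195 [(rh23aad281f166fc15.shift 1 3), (rh328e0484b9031ea7.shift 1 2), rh556f05fc988fab1c, (rh6c03a9ef5fb89cef.shift 2 3), (rhbf000823819f4c0d.shift 2 2)] (by decide +kernel))
noncomputable def rh7fa4a115c868d446 : CRef := CRef.mk (Pat.mk 0x2000000030000000000000000000000000 0x7c0000007c000001ef000000ff000001ff0000003800000018 10 9) 0 0 (step_sound _ 68 [rh7c2aab4360fe7eac, rhb87f9ac3cd41e2ad, (rhcf80391c5046a495.shift 4 0)] (by decide +kernel))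
noncomputable def rh6a6edd76d3e0608b : CRef := CRef.mk (Pat.mk 0x200000003000000000000000000000000000000000 0x40000000700000007000000078000000ec000000fc000003fe000001ff000003fe00000010 10 10) 0 0 (step_sound _ 68 [(rh1992fbf0832c9e2f.shift 2 2), (rh580df77fe152422b.shift 4 1), rh873bd9efae88f306, (rhbcf24f928762ca2f.shift 2 1), (rhc501d6f3e3da3be2.shift 1 1)] (by decide +kernel))
noncomputable def rh6f333f9d6139e76c : CRef := CRef.mk (Pat.mk 0x1000000018000000000000000000000000 0x1000000014000003b7000001fe000001ff0000002800000028 10 10) 0 0 (step_sound _ 67 [rh09c5b488e2054830, (rhcf80391c5046a495.shift 3 0), rhe44e7845e3eef174] (by decide +kernel))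
noncomputable def rhfcef8f1e82eabdfc : CRef := CRef.mk (Pat.mk 0x80000000c00000000000000000000000000000000 0x180000001c0000001c0000001f0000003f0000007b0000003f0000002f0000001c0000001c00000010 10 7) 0 0 (step_sound _ 164 [(rh574fdbf07bdd18b9.shift 0 4), (rh8bbc490fb2f91e31.shift 1 0), (rhc97a13106628f0ea.shift 0 2), (rheb6400f5a3abd72f.shift 0 1)] (by decide +kernel))
noncomputable def rh379b960844594841 : CRef := CRef.mk (Pat.mk 0x20000000300000000000000000000000000000000000000000 0x14000000178000001f8000003ef000001fe000007ff000001e4000001f00000017000000010 10 11) 0 0 (step_sound _ 199 [(rh1fbfd01c923fbf1f.shift 1 2), (rh2446f3a8531e6acd.shift 4 1), (rh460a433f40c0617a.shift 2 0), (rh8e5a074eca8e223f.shift 0 2), (rhcadd85ff2a73e8c7.shift 2 5)] (by decide +kernel))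
noncomputable def rhb1f0034b20b6a7b7 : CRef := CRef.mk (Pat.mk 0x80000000c000000000000000000000000 0x40000000c0000001c0000001c0000001f0000007e000000780000000f0000003c0000001c00000014 10 7) 0 0 (step_sound _ 163 [(rh281c6819542c66e6.shift 2 0), rh3a54435cd254c743, rh63af6d4aee3af36b, (rh6bc48c24b7c9344c.shift 2 1), (rh6c03a9ef5fb89cef.shift 2 2)] (by decide +kernel))
noncomputable def rh8aa5d81d41be6b3f : CRef := CRef.mk (Pat.mk 0x4000000060000000000000000000000000 0x1000000058000003de000001fc000003be000000bf000000bc 10 10) 0 0 (step_sound _ 100 [(rh3f396fc471e867d8.shift 2 1), rh6625e51cf26481e6, (rh9a93db625e0699b7.shift 3 0), (rha11dfd15f08f96e3.shift 3 3), (rhb12ffaec36122c99.shift 1 2)] (by decide +kernel))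
noncomputable def rh4a8ce0133b6fedd2 : CRef := CRef.mk (Pat.mk 0x4000000060000000000000000000000000 0x9000000098000003df000007fe000003ff000001ff000001fc 10 11) 0 0 (step_sound _ 100 [(rh3f396fc471e867d8.shift 2 1), rh6625e51cf26481e6, (rh715c5c4f9173fc73.shift 3 0), (rh85c3c98d8ae88257.shift 0 2)] (by decide +kernel))
noncomputable def rhef2e85ede6151cbe : CRef := CRef.mk (Pat.mk 0x100000001800000000000000000000000000000000 0x2800000038000000380000003c000001f0000001f8000000ff0000003f0000003000000030 10 9) 0 0 (step_sound _ 196 [(rh5a9324b73f62489a.shift 3 3), (rh6c03a9ef5fb89cef.shift 3 3), rh80a2b7303b437e0c, (rh9467613b0826e44c.shift 2 1), (rhbf000823819f4c0d.shift 3 2)] (by decide +kernel))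
noncomputable def rhba4d9c068c5eb59f : CRef := CRef.mk (Pat.mk 0x100000001800000000000000000000000000000000 0x2000000038000000b8000000bc000000fe000001f7000000fe000003ff000000f8000000e8000000a0 10 10) 0 0 (step_sound _ 166 [(rh0c53eed428a3dcbf.shift 0 1), (rh2446f3a8531e6acd.shift 3 0), (rh370fa11e5b2c6553.shift 1 1), (rh9a8448f7cbe7ab32.shift 0 1), (rhcadd85ff2a73e8c7.shift 1 4)] (by decide +kernel))
noncomputable def rhd083f92e2202c92e : CRef := CRef.mk (Pat.mk 0x3000000010000000000000000000000000 0xa0000002e0000003e000003fe000001fe000003df0000003e0000003e0000002e 10 10) 0 0 (step_sound _ 98 [(rh6deb4da6dba0a07f.shift 1 1), (rh7e162ae4b9567f73.shift 1 0), rh9be259fd197827c5, (rha19d65df1f3d6230.shift 1 1), (rhedf3a755fe019897.shift 1 3)] (by decide +kernel))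
noncomputable def rh16977a66f21a096a : CRef := CRef.mk (Pat.mk 0x30000000100000000000000000000000000000000000000000 0x280000003800000038000000f8000000de000000ff000000fc0000003c0000003800000030 10 8) 0 0 (step_sound _ 163 [rh589f8306b45c0137, (rh77bc54badc1a5185.shift 1 0), (rhd69c262cd33b94b3.shift 1 5)] (by decide +kernel))
noncomputable def rha80f42539989a813 : CRef := CRef.mk (Pat.mk 0x3000000010000000000000000000000000 0xa0000000e0000001e000003ff000001fe000001df000000fe0000003e0000000e 10 10) 0 0 (step_sound _ 98 [(rh6dd095e4025799a5.shift 1 1), (rh8f26fc1a2f189faa.shift 1 0), rh9be259fd197827c5, (rhbf01f2b3124a2dac.shift 0 1), (rhedf3a755fe019897.shift 1 3)] (by decide +kernel))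
noncomputable def rh185727ba34e8f706 : CRef := CRef.mk (Pat.mk 0x30000000100000000000000000000000000000000000000000 0x2000000030000000f7000000ff000000de000000fe000000fe0000003c0000003800000010 10 8) 0 0 (step_sound _ 163 [(rh4efaf835c8850dd6.shift 0 2), (rhb073ba3846ab1aa6.shift 1 0), (rhd69c262cd33b94b3.shift 1 5), (rhf34d171be2990deb.shift 1 1)] (by decide +kernel))
noncomputable def rhe3e77c4ce3e6477c : CRef := CRef.mk (Pat.mk 0x600000002000000000000000000000000000000000 0x4000000050000003fe000000fc000003fe000001fe000003b7000000f00000007e0000007800000050 10 10) 0 0 (step_sound _ 230 [(rh03dcc35e27895c8b.shift 0 2), (rh16cbd58a1619e6a8.shift 5 2), (rh1a2e6d57194f3059.shift 1 0), (rh8f199c21ca5afe1c.shift 2 1), (rhc8254e86b2cb59d5.shift 1 4)] (by decide +kernel))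
noncomputable def rh261da55b217c3628 : CRef := CRef.mk (Pat.mk 0x30000000100000000000000000 0x6000000068000003ef000007ff00000fdf000000d000000090 10 12) 0 0 (step_sound _ 102 [(rh519f6741bfad5fe3.shift 2 0), rh5cf6392ba09868a3, rh784469a9cba766f9, (rhe768eb3da7f6ff28.shift 3 0), (rhfa35e196e150edb4.shift 3 2)] (by decide +kernel))
noncomputable def rh7695196c91ad6f58 : CRef := CRef.mk (Pat.mk 0x18000000080000000000000000000000000000000000000000 0x140000001c0000001e000000780000000f0000007f0000003f0000001f0000001600000002 10 7) 0 0 (step_sound _ 131 [(rh215e11e099257d75.shift 3 3), rh272b64b32ebe9371, (rha7054fc384045257.shift 1 2), (rhc9cb3625ca5f3820.shift 0 3), (rhffb8e5993241bf15.shift 2 1)] (by decide +kernel))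
noncomputable def rh48288c1f36ce8487 : CRef := CRef.mk (Pat.mk 0x30000000100000000000000000000000000000000000000000 0x40000002c0000003e0000007e0000003e0000001e000000fe0000007f0000003e0000002400000004 10 8) 0 0 (step_sound _ 132 [(rh19e48db1e9b4e625.shift 3 1), (rh272b64b32ebe9371.shift 1 0), (rh5af1a2e609b00ebf.shift 1 3), (rh7226f38f0e9d0faa.shift 0 2), (rha7054fc384045257.shift 2 2)] (by decide +kernel))
noncomputable def rhd336b1709d4af42f : CRef := CRef.mk (Pat.mk 0x3000000010000000000000000000000000 0x3800000078000007ff000003ff000007dc000000cc0000008c0000000c 10 11) 0 0 (step_sound _ 134 [(rh15815aa9452e9695.shift 3 3), (rh4856477b63db5b7f.shift 1 2), (rh8eea156ffecb6be4.shift 3 3), (rhe768eb3da7f6ff28.shift 3 1), rhf7e2cbcffc0d71a8] (by decide +kernel))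
noncomputable def rhbae2fa6755412ec5 : CRef := CRef.mk (Pat.mk 0x300000001000000000000000000000000000000000 0xa0000002e0000003e000003fe000001fe000001df000000fe0000003e0000003e00000028 10 10) 0 0 (step_sound _ 130 [(rh2ee909af85bb60f5.shift 1 0), (rh6deb4da6dba0a07f.shift 1 2), (rh9be259fd197827c5.shift 0 1), (rhbd764d46830b940e.shift 1 2), (rhedf3a755fe019897.shift 1 4)] (by decide +kernel))
noncomputable def rhb36e7a98656aabc7 : CRef := CRef.mk (Pat.mk 0x8000000080000000400000000000000000000000000000000 0x140000001c0000001c0000001c0000001e0000001f0000007f0000001f0000000e0000001c0000001c00000010 10 7) 0 0 (step_sound _ 131 [rh56c296bfcf9f2810, (rhf10189e2d82521e0.shift 0 3), (rhfafeb437ceb8396d.shift 2 1)] (by decide +kernel))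
noncomputable def rh33cab5d239d7057a : CRef := CRef.mk (Pat.mk 0x1000000010000000080000000000000000 0x180000001e0000001f0000007f0000007f0000003c0000000c 10 7) 0 0 (step_sound _ 99 [(rh94c986cd7c09ed58.shift 1 1), (rhcf80391c5046a495.shift 3 0), rhe1a3c9cb7b0f5338] (by decide +kernel))
noncomputable def rh6e81d6e9ce41b0ea : CRef := CRef.mk (Pat.mk 0x100000001000000008000000000000000000000000 0x380000003c000001f7000000ff000001ff000000ff0000003c00000004 10 9) 0 0 (step_sound _ 131 [rh004d7bdebbc32a4f, (rh2018a47de441e643.shift 0 2), (rh58c777596eaeba5c.shift 3 2), (rh92c5866cf4cb982e.shift 1 2), (rhcf80391c5046a495.shift 3 1), (rhd5554c55e64988e1.shift 0 1)] (by decide +kernel))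
noncomputable def rh932ba4e185b5cf0d : CRef := CRef.mk (Pat.mk 0x1000000010000000080000000000000000 0x20000001e0000001f0000007f0000001f0000007e0000007800000038 10 7) 0 0 (step_sound _ 99 [(rh5aa2e975631ce584.shift 1 1), (rh92c5866cf4cb982e.shift 1 1), rhbeb480183e171164, (rhca75e2ac28e42eea.shift 1 0), rhda24218a4ea779a3] (by decide +kernel))
noncomputable def rh6f62765093a15472 : CRef := CRef.mk (Pat.mk 0x8000000080000000400000000000000000000000000000000 0x6000000160000007f0000007f0000007f0000007f0000003f0000003c00000014 10 7) 0 0 (step_sound _ 131 [(rh214a93cab20afe1d.shift 0 1), (rh23ddabe560a9fd17.shift 0 1), (rh27cce10220a2795e.shift 0 1), (rh39fa30b267173ead.shift 0 1), (rh41084cd88909ec2e.shift 0 1), (rh5d39ad2550ebda31.shift 0 2), (rh6b09c3667fd9f984.shift 0 1), (rh8a21cf73bec683e2.shift 0 1), rhb135396461c8673b, rhd6b46ef4d63f4f29] (by decide +kernel))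
noncomputable def rh41f8ab322e58fdfd : CRef := CRef.mk (Pat.mk 0x1000000010000000080000000000000000 0x20000003e0000003f000001ff000000ff000001ef0000006e0000002c 10 9) 0 0 (step_sound _ 99 [(rh4821dcf828b9d7bf.shift 3 0), rh61c3190877e6c154, (rh91317bda041b6848.shift 1 0), rhbeb480183e171164, rhd5554c55e64988e1, (rhfdeb493a4a1b3130.shift 0 1)] (by decide +kernel))
noncomputable def rh5d059f989ad2ca15 : CRef := CRef.mk (Pat.mk 0x2000000020000000100000000000000000 0x380000003c000000fe0000007e000000ff000000f800000078 10 8) 0 0 (step_sound _ 100 [(rh4d2712b69654471c.shift 1 0), (rh5aa2e975631ce584.shift 2 1), (rh92c5866cf4cb982e.shift 2 1), rh94405fde615e364a, (rhca75e2ac28e42eea.shift 2 0)] (by decide +kernel))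
noncomputable def rh133c407b4579212b : CRef := CRef.mk (Pat.mk 0x200000002000000000000000000000000000000000 0x3c0000007c0000003e000001ff000001ff000001ff000001fe000003fc00000068 10 10) 0 0 (step_sound _ 132 [(rh041257c903dcdf27.shift 1 0), rh059ffec2db449f2f, (rh107df9a6c443f1b7.shift 1 0), (rh23c1319be9904c3a.shift 1 0), (rh32004359cc199f88.shift 1 0), (rh33e87b1b42b8f979.shift 0 2), (rhcfc1f6de357690fc.shift 0 1), (rhd9fae741b684096a.shift 1 1), (rhfef93631424046d0.shift 1 1)] (by decide +kernel))
noncomputable def rh96e16775f0f99bf8 : CRef := CRef.mk (Pat.mk 0x1000000010000000000000000000000000 0x3800000038000000380000003f0000003e0000007f000000fe000000fe0000001800000018 10 8) 0 0 (step_sound _ 164 [(rh083f1e2ed55ea8f3.shift 1 0), (rh3b7519bf6de9c0eb.shift 1 2), (rh46ffe68c19a9638e.shift 3 1), rh557b92172e37c463, (rh818b39469c9ce443.shift 3 1), (rh8227d7c70689fe70.shift 3 1), (rh98f9594d29ea87e5.shift 1 0), (rha06b660268fc1c59.shift 3 0)] (by decide +kernel))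
noncomputable def rhe56ef72c8c191fe7 : CRef := CRef.mk (Pat.mk 0x800000008000000000000000000000000 0x1c0000001c0000001c0000001c0000001f0000007f0000007f000000fe0000003800000018 10 8) 0 0 (step_sound _ 163 [(rh166c9205cb10df98.shift 2 0), rh1a9e09f5a9602f9c, (rh3b7519bf6de9c0eb.shift 0 2), (rh4894811cc1c146d7.shift 2 0), rh8654ff227beb49f5, (rhe3d633f659155c01.shift 2 1), (rhe8a670b7aec680ed.shift 2 0), (rhfc60e486baaa63e2.shift 2 1)] (by decide +kernel))
noncomputable def rh8381af98fffebb96 : CRef := CRef.mk (Pat.mk 0x100000001000000000000000000000000000000000 0x280000003f0000003f0000007f000000ff00000018000000380000003800000028 10 8) 0 0 (step_sound _ 100 [(rh3e53d14085adc43a.shift 3 1), (rh659eb6aa1e5d49ed.shift 3 0), (rh91e89503dcfa7603.shift 3 0), (rhca4d5fc3d95c8c8e.shift 3 0), (rhd1eac5da36026ab9.shift 0 2), rhe5fc3a518128cb6e] (by decide +kernel))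
noncomputable def rh82a1288546b4efb3 : CRef := CRef.mk (Pat.mk 0x100000001000000000000000000000000000000000 0x280000003c000000ff000000fe000003bf000001ff000001ff000001f60000007e0000003800000028 10 10) 0 0 (step_sound _ 100 [(rh020140c103c93fec.shift 3 0), (rh3224ee3f059c17a0.shift 3 0), rh3c4277356470454e, (rhec4b4543fa4d8e74.shift 0 1), (rhfb24f9e5e729af53.shift 3 0)] (by decide +kernel))
noncomputable def rhcccc192d89916da3 : CRef := CRef.mk (Pat.mk 0x200000002000000000000000000000000000000000 0x5800000078000001fc000007fe000003ff000007fe000001ff00000058 10 11) 0 0 (step_sound _ 101 [(rh020140c103c93fec.shift 4 0), (rh2ed7975a0c2f40ae.shift 1 0), (rh3224ee3f059c17a0.shift 4 0), (rh91e89503dcfa7603.shift 4 0), rh9b27b88f02cd4850, (rhfb24f9e5e729af53.shift 4 0)] (by decide +kernel))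
noncomputable def rh394bdebfccbc6571 : CRef := CRef.mk (Pat.mk 0x200000002000000000000000000000000000000000 0x3000000070000000700000007000000030000001ff000001ff000000ff0000007f00000050 10 9) 0 0 (step_sound _ 101 [(rh020140c103c93fec.shift 4 0), (rh13953f598edca916.shift 4 1), (rh26ebbfb0cc6b103d.shift 4 1), (rh58c4739394a3deba.shift 4 1), (rh833f2fa0f35b1de8.shift 4 1), rh9b27b88f02cd4850, (rh9cfaabd3215f3fc8.shift 0 2), (rhca4d5fc3d95c8c8e.shift 4 0)] (by decide +kernel))
noncomputable def rhf8985d8fbc0e2f22 : CRef := CRef.mk (Pat.mk 0x200000002000000000000000000000000000000000 0x40000000700000007000000078000001e0000001ff000001ff000000ff0000007f00000050 10 9) 0 0 (step_sound _ 101 [rh3a19160c6b0679e0, (rh3df3c68f2a7fa7d4.shift 3 1), (rh5bdfaadaf543e34d.shift 3 1), (rh659eb6aa1e5d49ed.shift 4 0), (rh899ccf8276af9d97.shift 4 1), (rh9cfaabd3215f3fc8.shift 0 2), (rhef4211d0c904e20a.shift 4 1), (rhfb24f9e5e729af53.shift 4 0)] (by decide +kernel))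
noncomputable def rhb7b2a35b61db8da5 : CRef := CRef.mk (Pat.mk 0x20000000200000000000000000000000000000000000000000 0x500000007e0000007c000000fe00000038000001ff000000fe0000007f0000007000000050 10 9) 0 0 (step_sound _ 133 [(rh020140c103c93fec.shift 4 1), (rh0bfcbc591bbec471.shift 4 0), (rh3e53d14085adc43a.shift 4 2), (rh9b27b88f02cd4850.shift 0 1), (rhafa1db3d6b6f1c91.shift 1 3), (rhef4211d0c904e20a.shift 4 2), (rhfc60e486baaa63e2.shift 4 2)] (by decide +kernel))
noncomputable def rhb77bac0c3be1ae53 : CRef := CRef.mk (Pat.mk 0x20000000200000000000000000000000000000000000000000 0x500000007000000078000001f0000007e0000003ff000007fe0000007f0000007000000050 10 11) 0 0 (step_sound _ 133 [(rh2a35df86be462918.shift 4 0), (rh3a19160c6b0679e0.shift 0 1), (rh3e53d14085adc43a.shift 4 2), (rhabf613505aca0e70.shift 2 3), (rhcd38772cceaf9e75.shift 4 2), (rhfc60e486baaa63e2.shift 4 2)] (by decide +kernel))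
noncomputable def rhcec01876cced1c18 : CRef := CRef.mk (Pat.mk 0x20000000200000000000000000000000000000000000000000 0xe0000003e0000007e0000005e000003ff000003fe000003ff000001fe000003ff000001fa000000a8 10 10) 0 0 (step_sound _ 164 [(rh0dae5ca4b0ce4254.shift 0 1), (rh33e87b1b42b8f979.shift 0 3), (rh371bb2f35f6c62aa.shift 0 2), (rh3aa824e2076fe185.shift 0 1), (rh42f8737493a4c79d.shift 0 1), (rh514ce025aec1096a.shift 1 2), (rh6a74500a6376fb87.shift 0 2), (rh7f8f49a85013fa22.shift 1 2), (rh9d9c42549f83d3e7.shift 0 2), (rha36e99895ceb90da.shift 1 1), (rhc91a8f744023af2e.shift 1 0), (rhce298942c3869dfd.shift 1 1), (rhf356672fa4df665e.shift 1 2)] (by decide +kernel))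
noncomputable def rh688ae7cfd45822f7 : CRef := CRef.mk (Pat.mk 0x80000000800000000000000000000000000000000000000000 0x5000000170000001f0000003f8000007ff000007fe00003dff00001fff00003ffe0000077e00000378000003700000007000000040 10 14) 0 0 (step_sound _ 197 [(rh071e6c6c1cf6c00f.shift 1 1), (rh320c548abdc1c178.shift 2 2), (rh3689fcad572607e3.shift 2 2), (rh3a692dba7ea7c9d8.shift 2 3), (rh44a5617e46c59099.shift 3 3), (rh48a8dc30b4c30ee5.shift 0 2), (rh4f8222ed6e316715.shift 2 1), (rh61a03e7697b2c73a.shift 2 2), (rh620004ab448bdbb4.shift 2 2), (rh6f8f9eadf8c9637c.shift 2 2), rh7256c6a1332afe7d, (rh918485f06a99e63e.shift 2 2), (rhba0d21eaf7079814.shift 2 2), (rhd5833be5434b7b0e.shift 2 2), (rhd59a893fb1b38450.shift 2 3), (rhe80885fa6e9b2910.shift 2 2)] (by decide +kernel))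
noncomputable def rh54646ef058627d03 : CRef := CRef.mk (Pat.mk 0x1e00000000000000000000000000000000 0x8000000380000003800000038000000380000001e00000033000000380000003800000028 10 6) 0 0 (step_sound _ 100 [rhb204d54719ade79a, (rhe25b0a99195a5d59.shift 1 3)] (by decide +kernel))
noncomputable def rh144e7323669e9145 : CRef := CRef.mk (Pat.mk 0x6800000008000000000000000000000000000000000000000000000000 0x240000006c0000007c000000ec000000fe000000ff0000007e0000003c0000001c0000001c00000014 10 8) 0 0 (step_sound _ 163 [(rh0d6916c8cdb04161.shift 1 2), (rh5495182f3a3915a7.shift 1 0), (rh87ffd0db4b7d68dc.shift 0 1), (rh9ea0731981326ad3.shift 2 2), (rha8153b4865300357.shift 2 1), (rhac26b74c074df402.shift 0 1), (rhbfbe0dbc7479c78f.shift 2 2), (rhce605e8e2cc5a07c.shift 2 1), (rhdb8fb6a2b15b2e93.shift 1 4)] (by decide +kernel))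
noncomputable def rhb571af238c3df152 : CRef := CRef.mk (Pat.mk 0x340000000400000000000000000000000000000000 0x18000000780000007c000001f400000076000000fe0000007e000000ff0000003800000028 10 9) 0 0 (step_sound _ 132 [(rh33f7a40acc2d1639.shift 1 2), (rh60a781551e50bc18.shift 1 4), rhde06cb2bae39b80f, (rhff07ed552b644278.shift 1 1)] (by decide +kernel))
noncomputable def rh6552bc76b2855f31 : CRef := CRef.mk (Pat.mk 0x3400000004000000000000000000000000 0x180000007a0000007a000000ff000000fe00000076000001fe0000007e0000007600000002 10 9) 0 0 (step_sound _ 164 [(rh251a64182c0fd2b1.shift 1 1), rh45ac5dfb5da0d7b5, (rh79e9bc281e576a1f.shift 1 1), (rh8623373d165444cc.shift 1 1), (rh9a51e8e8346d3e9d.shift 1 1), (rh9fd46b63b13ae074.shift 1 1), (rhce39f909a275e848.shift 1 1), (rhf4bedc3d2dd36cd3.shift 1 1), (rhfa3fb64ab7f564bc.shift 1 1)] (by decide +kernel))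
noncomputable def rhf539750fe6c9ceb8 : CRef := CRef.mk (Pat.mk 0x6800000008000000000000000000000000 0x10000000740000007e0000007f000000ec0000007f0000001f0000001c00000014 10 8) 0 0 (step_sound _ 100 [(rh51ff335405c97b2c.shift 2 3), rhddab9b3974c8d097, rhe55ad8582c811631] (by decide +kernel))
noncomputable def rhb11a222ea33137df : CRef := CRef.mk (Pat.mk 0x1a0000000200000000000000000000000000000000 0x140000003c0000003f0000003f0000003b0000001f0000003b0000001f0000001f00000014 10 6) 0 0 (step_sound _ 131 [(rh026fcce36d2ae2e9.shift 0 1), (rh60a781551e50bc18.shift 0 4), rh6c53af37a943a608, (rh6e840cb0780c1aff.shift 0 1)] (by decide +kernel))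
noncomputable def rh2903d87cff5910f7 : CRef := CRef.mk (Pat.mk 0x340000000400000000000000000000000000000000 0x1800000078000000780000007e00000074000000fe000000fe000000ff0000003800000028 10 8) 0 0 (step_sound _ 132 [(rh225d159806ff43c9.shift 1 0), (rh2349d9d98ac40dd2.shift 1 2), rh2c9156e5e6fef1ea, (rh3ae567c18828c4dd.shift 1 1), (rhd351b5165b050003.shift 1 2), (rhdb911a29b693bced.shift 1 1)] (by decide +kernel))
noncomputable def rh319e7f1c02d4cfd9 : CRef := CRef.mk (Pat.mk 0xd0000000100000000000000000000000000000000000000000 0x1ef000000ff000001be000001d8000001fc000000fc00000038000000380000003800000028 10 9) 0 0 (step_sound _ 228 [(rh702f36abea75d05a.shift 2 0), (rh8c9a360103627e58.shift 0 3), (rha953cba4d69f91e5.shift 3 2), (rhaba5d968c67ffa00.shift 3 2), (rhb78e1cc0d3b973b2.shift 0 4), (rhbb6d6649386ad258.shift 2 1), (rhd412be1c2e6c3340.shift 0 3)] (by decide +kernel))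
noncomputable def rhea1dd589c4034ca5 : CRef := CRef.mk (Pat.mk 0xd0000000100000000000000000000000000000000000000000 0x20000001ef000001ff000001fe000001d80000007e000000f800000038000000380000003800000028 10 9) 0 0 (step_sound _ 228 [(rh0f075b5c3993aa92.shift 1 0), (rh33aaeb3768264def.shift 3 4), (rh481ce376ccd0a938.shift 3 2), (rh4988fc02517a5aa1.shift 3 0), (rh65d7e142f15bb3c7.shift 2 3), (rha953cba4d69f91e5.shift 3 2), (rhd7d7c0e05673f92f.shift 0 4)] (by decide +kernel))
noncomputable def rh02f8ad62a7894f8d : CRef := CRef.mk (Pat.mk 0x1a0000000200000000000000000000000000000000 0x1c0000001c0000001f0000003b0000001f0000007c0000001c0000001c00000014 10 7) 0 0 (step_sound _ 131 [rh06ce76e362484ad1, rh225d159806ff43c9, (rh60a781551e50bc18.shift 0 4)] (by decide +kernel))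
noncomputable def rh9884f6c92537ab5a : CRef := CRef.mk (Pat.mk 0x680000000800000000000000000000000000000000 0x50000000f4000000f4000001ff000001fe000000ec000003f8000000fe000000fc0000003c0000001c 10 10) 0 0 (step_sound _ 197 [(rh01cb4c870e2eb265.shift 2 1), (rh2f9dc738a7c3d488.shift 2 1), (rh3add872259fe71b0.shift 1 1), (rh590c65dcf940716e.shift 2 2), rh7dd41e745dd1255c, (rh8d8d40e0858d9b17.shift 2 1), (rh9fd46b63b13ae074.shift 2 2), (rhcb95ac54440dbbe5.shift 3 2), (rhe6d8f08fe1ff1956.shift 2 0), (rhe9fec957bec528f2.shift 2 1)] (by decide +kernel))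
noncomputable def rha30bf98e4197e859 : CRef := CRef.mk (Pat.mk 0x340000000400000000000000000000000000000000 0x180000007800000078000001f800000076000000fe000000fe000000ff0000003800000028 10 9) 0 0 (step_sound _ 132 [(rh225d159806ff43c9.shift 1 0), (rh5630cc8cd8543fa1.shift 1 2), (rh60a781551e50bc18.shift 1 4), rheea0447be313e983] (by decide +kernel))
noncomputable def rh77bb270ab5fc06b6 : CRef := CRef.mk (Pat.mk 0x68000000080000000000000000000000000000000000000000 0x140000001c0000003c0000006c0000004f000000ff0000007e0000003c0000001c00000010 10 8) 0 0 (step_sound _ 131 [(rh2e84606ae67e73ec.shift 2 2), (rh63836632d3662071.shift 2 2), rhac26b74c074df402, (rhb862e7c9d612b01e.shift 0 1), (rhb979880fa957efe1.shift 0 3), (rhe4bb6bc95360e733.shift 2 2)] (by decide +kernel))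
noncomputable def rhbe5a9f8e5a860cbd : CRef := CRef.mk (Pat.mk 0x68000000080000000000000000000000000000000000000000 0x140000001c0000003c0000006c0000005f000000ff0000007e0000003c0000001c00000014 10 8) 0 0 (step_sound _ 131 [(rh0b09374f69f41f42.shift 2 3), (rh2987daf8455076da.shift 2 0), (rh63836632d3662071.shift 2 2), rhac26b74c074df402, (rhb4eb12e434d69a35.shift 2 0), (rhb862e7c9d612b01e.shift 0 1), (rhb979880fa957efe1.shift 0 3)] (by decide +kernel))
noncomputable def rh0b2c725ff391ce49 : CRef := CRef.mk (Pat.mk 0x340000000400000000000000000000000000000000 0x380000003c0000003e000000760000003e000000fe0000007f0000003800000028 10 8) 0 0 (step_sound _ 132 [(rh01b171d6c5859c8f.shift 1 1), (rh225d159806ff43c9.shift 1 0), (rh60a781551e50bc18.shift 1 4), rhffdd145bcaf8ba27] (by decide +kernel))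
noncomputable def rhd79f3e75da8bb9a9 : CRef := CRef.mk (Pat.mk 0x1c00000004000000000000000000000000 0x380000003c000000f8000000fc0000001f000000f60000003e0000007c00000020 10 8) 0 0 (step_sound _ 163 [rh1a3ace50b41aa9b3, (rh1ca4d7c1783226ec.shift 0 1), (rh4821dcf828b9d7bf.shift 2 1)] (by decide +kernel))
noncomputable def rh9786e604204b100a : CRef := CRef.mk (Pat.mk 0x20000000e0000000000000000000000000 0x150000001f0000001f0000001e0000001bf000000fe0000007e0000007000000070 10 9) 0 0 (step_sound _ 165 [(rh46cd02f5d4ac962f.shift 3 0), (rh70e33bfdf511e144.shift 5 0), (rhbad7d2c4967a4005.shift 0 1)] (by decide +kernel))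
noncomputable def rha750b53ac57e1bfc : CRef := CRef.mk (Pat.mk 0x40000001c000000000000000000000000 0x7c0000007c0000007c0000003f0000001f0000001e00000008 10 7) 0 0 (step_sound _ 67 [(rh4a7027bf885367e8.shift 0 1), rh8458d8e5ffdb6347, (rha40d42a2e34c408d.shift 2 0)] (by decide +kernel))
noncomputable def rha30f06e7952b6b57 : CRef := CRef.mk (Pat.mk 0x38000000080000000000000000000000000000000000000000 0x38000000780000006e0000003e000000ff000000fe0000007c0000003c0000001c00000010 10 8) 0 0 (step_sound _ 162 [(rh1ed7a3503fa50fc8.shift 0 5), (rh2b172fe0c92822ec.shift 1 0), (rheea1a90336e79c71.shift 0 5)] (by decide +kernel))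
noncomputable def rh23c6be2fc78ced0a : CRef := CRef.mk (Pat.mk 0x3800000008000000000000000000000000 0x20000000ef0000007e000001f8000000fc0000007c0000005c 10 9) 0 0 (step_sound _ 101 [(rh31b6d69ad9c35c42.shift 0 1), (rh66e7ddb664a43b2b.shift 2 0), (rh8ee80cc30e93a344.shift 2 3), (rh97ee1d9c43e0ab4a.shift 1 1), (rh9909eeda0ef2ed2c.shift 2 3)] (by decide +kernel))
noncomputable def rh81395913110e99df : CRef := CRef.mk (Pat.mk 0xe00000002000000000000000000000000 0x280000003800000038000000380000001e0000003b000000180000001800000008 10 6) 0 0 (step_sound _ 132 [(rh377e25386d140c25.shift 1 0), (rheb0810cc63b001d8.shift 0 3)] (by decide +kernel))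
noncomputable def rh8247c586b07eb51b : CRef := CRef.mk (Pat.mk 0x70000000100000000000000000000000000000000000000000 0xe0000000e0000003f0000003fe0000007f000000de000000f8000000f8000000380000003800000008 10 10) 0 0 (step_sound _ 163 [(rh1ed7a3503fa50fc8.shift 1 5), (rh46b54d84ea53b726.shift 0 3), (rh7ca9f32377424d1d.shift 1 0)] (by decide +kernel))
noncomputable def rh7cd722868725bdd2 : CRef := CRef.mk (Pat.mk 0x100000007000000000000000000000000000000000 0x60000000700000007000000030000000f8000003bf000001fe000003ff00000018 10 10) 0 0 (step_sound _ 101 [(rh186ffb1ee09b2760.shift 0 1), (rh20bf6a1c5aef056c.shift 2 0), (rh5d54cb79a67f97ab.shift 4 1), (rha40d42a2e34c408d.shift 4 1)] (by decide +kernel))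
noncomputable def rhae16cf63d3d94478 : CRef := CRef.mk (Pat.mk 0x3800000000000000000000000000000000 0x80000007e0000003e0000007f0000001e0000000e0000000a 10 7) 0 0 (step_sound _ 130 [(rh2381ca26b8b38d1e.shift 1 3), (rh6783a1228c72cc85.shift 1 0), (rh9e97bba44c1b13e4.shift 0 3)] (by decide +kernel))
noncomputable def rh5ff6ac226a5bf89c : CRef := CRef.mk (Pat.mk 0x1c00000004000000000000000000000000 0x1c0000007c0000007f0000003c0000007c0000007c0000001c00000008 10 7) 0 0 (step_sound _ 163 [(rh4821dcf828b9d7bf.shift 2 1), (rh4e9ad071f9b133b6.shift 0 1), (rha5baf8521d23b420.shift 2 0), (rhb68fa3e039eca5da.shift 0 1)] (by decide +kernel))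
noncomputable def rh2ebd0c0485ebd0b9 : CRef := CRef.mk (Pat.mk 0x38000000080000000000000000000000000000000000000000 0x1000000038000000f80000003e000000380000003f0000007c0000003c0000001c0000001c00000004 10 8) 0 0 (step_sound _ 162 [rh7ca9f32377424d1d, (rhccd71378ffdd98cb.shift 1 2), (rheea1a90336e79c71.shift 0 5)] (by decide +kernel))
noncomputable def rh3f8e8a88b54bd904 : CRef := CRef.mk (Pat.mk 0x78000000000000000000000000 0x140000007c0000007f000000ff000000fc00000078000000300000003000000010 10 8) 0 0 (step_sound _ 134 [(rh33e738c4ed385b9f.shift 3 3), rh43cf76387227b704] (by decide +kernel))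
noncomputable def rh221b5d1fe911b595 : CRef := CRef.mk (Pat.mk 0x20000000e0000000000000000000000000000000000000000 0x280000003800000038000000330000001e0000003800000038000000380000003800000008 10 6) 0 0 (step_sound _ 164 [(rh3244c3cc8379b070.shift 0 5), (rh3f8336cb8cb5d15f.shift 1 0)] (by decide +kernel))
noncomputable def rh394361ca08c494f5 : CRef := CRef.mk (Pat.mk 0x40000001c000000000000000000000000 0x1e0000007f0000007c0000003c0000001f0000001c0000001c 10 7) 0 0 (step_sound _ 67 [(rh5d54cb79a67f97ab.shift 2 0), (rh8f7fca54f783b579.shift 2 0), rhd92b60b04c58c673, (rhdccce800e9843a20.shift 0 1)] (by decide +kernel))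
noncomputable def rhbcb8542015134e90 : CRef := CRef.mk (Pat.mk 0x1000000070000000000000000000000000 0x2800000038000000ff000000ff0000007e000000700000007c000001f000000070 10 9) 0 0 (step_sound _ 131 [rh82cae8e256599625, (rhb0715077b4f5a7a4.shift 2 0), (rhc02b3aee7ab87ee1.shift 1 3)] (by decide +kernel))
noncomputable def rh356647305a06a22a : CRef := CRef.mk (Pat.mk 0xe000000080000000000000000000000000000000000000000 0x140000001c0000003c0000000e000000f8000001ff000000fe000000fc0000001c00000008 10 9) 0 0 (step_sound _ 131 [(rh56259dd1390eee46.shift 2 1), (rh82064b552a8316fd.shift 1 3), (rhb1a251d9bff81766.shift 2 3), rhdfff2be1c9329f93] (by decide +kernel))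
noncomputable def rh2bd06bc6669b0f7f : CRef := CRef.mk (Pat.mk 0x1e000000000000000000000000 0x4000000070000000700000007000000070000001e000000370000000600000004 10 6) 0 0 (step_sound _ 129 [(rh3244c3cc8379b070.shift 0 3), rhef05a097fb30361b] (by decide +kernel))
noncomputable def rh7563d9153d53559e : CRef := CRef.mk (Pat.mk 0x40000001c0000000000000000000000000000000000000000 0xa0000007e0000007e0000007e000000f40000003c0000007f0000007e000000780000007000000050 10 8) 0 0 (step_sound _ 226 [(rh016b54debfd356a6.shift 1 3), rh57cbba5a837a214e, (rh70e33bfdf511e144.shift 2 2), (rhfb9fb48a5e63ed80.shift 1 4)] (by decide +kernel))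
noncomputable def rhb15c0b2c1fbeab87 : CRef := CRef.mk (Pat.mk 0x1000000070000000000000000000000000 0x2800000038000000ff000001ff000001fe000000700000007c0000007800000060 10 9) 0 0 (step_sound _ 131 [rh82cae8e256599625, (rhc02b3aee7ab87ee1.shift 1 3), (rhcf5cd50faddeb81f.shift 2 0)] (by decide +kernel))
noncomputable def rh3ee7e90b7310e7f5 : CRef := CRef.mk (Pat.mk 0xe000000080000000000000000000000000000000000000000 0x10000000140000007e0000007e0000001e0000007b0000003f0000003f0000001c0000001c00000010 10 7) 0 0 (step_sound _ 164 [(rh038a2f0e58a291cb.shift 1 0), (rh4a0b10776449c3e9.shift 1 5), (rhcb7d3441b9caf7a6.shift 0 1)] (by decide +kernel))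
noncomputable def rhdaeb720e80000457 : CRef := CRef.mk (Pat.mk 0x1c000000100000000000000000 0x3c000000fe0000007c0000001f0000001c000000fc0000003c 10 8) 0 0 (step_sound _ 131 [rh22e1977e178d5de6, rh53786a9e48cfd43d, (rh5452e32b1bab697a.shift 2 0), (rhc2c7bae8f445c890.shift 3 0)] (by decide +kernel))
noncomputable def rhf1b5f23473a42ebd : CRef := CRef.mk (Pat.mk 0x1c0000000000000000000000000000000000000000 0x20000003e0000003f000000ff0000003f000001fc000000fe000001fe0000003800000028 10 9) 0 0 (step_sound _ 132 [(rh504d42311766a87d.shift 1 0), (rh9909eeda0ef2ed2c.shift 1 4), (rhebafc6adaaf40015.shift 0 2)] (by decide +kernel))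
noncomputable def rh0925ebde9fff7ae0 : CRef := CRef.mk (Pat.mk 0x1e000000000000000000000000000000000000000000000000 0x4000000070000000700000007000000070000001e0000003f0000000300000003000000070000000700000005 10 6) 0 0 (step_sound _ 161 [(rheb0810cc63b001d8.shift 0 5), rhfd9d2189cde3b815] (by decide +kernel))
noncomputable def rh87d9accca43a6c1c : CRef := CRef.mk (Pat.mk 0x1e00000000000000000000000000000000 0x4000000070000000700000007000000370000001e00000003000000070000000700000005 10 6) 0 0 (step_sound _ 161 [(rh3244c3cc8379b070.shift 0 4), rhac3eebd81b176d84] (by decide +kernel))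
noncomputable def rhc077a8f719212a59 : CRef := CRef.mk (Pat.mk 0x380000000800000000000000000000000000000000 0xa0000000e0000000f0000000f4000000fe00000078000001e8000000ff000000fc000000fc00000014 10 9) 0 0 (step_sound _ 99 [(rh1b9022be4f7af407.shift 2 0), (rh215e11e099257d75.shift 3 2), (rh8304ee6af0832ecb.shift 1 1), rhc494255470982060] (by decide +kernel))
noncomputable def rh2d3c014332df24d2 : CRef := CRef.mk (Pat.mk 0x38000000080000000000000000000000000000000000000000 0xc0000003c0000003c0000003800000038000000ff000000fc0000007c0000001c0000001c00000004 10 8) 0 0 (step_sound _ 162 [(rh337acbd46267ebcc.shift 2 2), rh7ca9f32377424d1d, (rheea1a90336e79c71.shift 0 5)] (by decide +kernel))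
noncomputable def rha02c53edc53665f6 : CRef := CRef.mk (Pat.mk 0xe0000000800000000000000000000000000000000 0x40000001c0000001c0000001c0000003e0000001e0000007b000000ff000000ff0000003c00000034 10 8) 0 0 (step_sound _ 132 [(rh4a0b10776449c3e9.shift 1 4), rha9aaabd26cf40d39, rhcb7d3441b9caf7a6] (by decide +kernel))
noncomputable def rhd7aebce5a76e57d7 : CRef := CRef.mk (Pat.mk 0x1c000000100000000000000000000000000000000000000000 0x28000000380000007f000000ff0000003c000000f00000007c000001f8000000780000003800000020 10 9) 0 0 (step_sound _ 165 [(rh4a0b10776449c3e9.shift 2 5), rh8cf1175ecb9f87d6, (rhd7b7157bfd9ba941.shift 2 2)] (by decide +kernel))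
noncomputable def rh8f38fc98da92207f : CRef := CRef.mk (Pat.mk 0x1c00000002000000000000000000000000 0x2c0000003f0000003f0000001f000000370000001f0000003a0000000f0000000f00000005 10 6) 0 0 (step_sound _ 129 [rh37cf2709e392c4cb, rh951d465875853bec, (rhc02275ce183c9512.shift 0 1)] (by decide +kernel))
noncomputable def rhecb1044ef92447a4 : CRef := CRef.mk (Pat.mk 0x70000000100000000000000000000000000000000000000000 0x80000003800000078000000fe0000007c000000700000003e000000ff0000007f000000380000003800000008 10 8) 0 0 (step_sound _ 163 [rh3282d04705a6d685, (rhccd44ca82339b90d.shift 1 1), (rheea1a90336e79c71.shift 1 5)] (by decide +kernel))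
noncomputable def rhc1db6ca9f57ede64 : CRef := CRef.mk (Pat.mk 0x1c000000040000000000000000 0x30000000fe0000003f0000007f0000003f0000000c0000000c00000004 10 8) 0 0 (step_sound _ 131 [(rh4821dcf828b9d7bf.shift 2 0), rh6a487ccebd34fe8d, (rha8a46b79a442d67f.shift 0 1), (rhadf429772c25fde0.shift 2 0)] (by decide +kernel))
noncomputable def rhb0646b6bcb7b4242 : CRef := CRef.mk (Pat.mk 0x200000001c0000000000000000 0x2800000038000000380000003f0000007e000000fe000000fc0000001c0000007800000038 10 8) 0 0 (step_sound _ 100 [(rh174b21be798eff4d.shift 1 0), (rh80f90a60d87caa0d.shift 2 2), rhe1acdccc2f70c743] (by decide +kernel))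
noncomputable def rh9d792bb6b0d04c6e : CRef := CRef.mk (Pat.mk 0x7000000000000000000000000000000000 0x100000001c0000003c0000003f0000003c0000007f000000ff000003ff0000007c00000014 10 10) 0 0 (step_sound _ 131 [(rh185f35b8bd8ec37f.shift 1 3), (rh1de5f018e6410c20.shift 2 1), (rhc0d02dc204edf5d4.shift 2 0), (rhc35e41548bf9000c.shift 0 1), (rhed1b3e7d9cb86123.shift 0 3)] (by decide +kernel))
noncomputable def rhc722a55a89129e3c : CRef := CRef.mk (Pat.mk 0x38000000080000000000000000000000000000000000000000 0xc0000003c0000003c0000003800000038000000ff000000fc0000007c0000001c0000001c00000004 10 8) 0 0 (step_sound _ 162 [(rh06b485b5c2a8be04.shift 2 2), rh7ca9f32377424d1d, (rheea1a90336e79c71.shift 0 5)] (by decide +kernel))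
noncomputable def rhb6074191d19c0a3b : CRef := CRef.mk (Pat.mk 0xe0000000800000000000000000000000000000000 0x40000001c0000001c0000001c0000007e0000001e0000007a000000ff000000fe0000003800000030 10 8) 0 0 (step_sound _ 132 [(rh4a0b10776449c3e9.shift 1 4), (rh91df1142e0517553.shift 1 1), rha9aaabd26cf40d39] (by decide +kernel))
noncomputable def rhf02faa2f3dd33370 : CRef := CRef.mk (Pat.mk 0x1c0000001000000000000000000000000000000000 0x80000003a0000003a0000007f0000007f0000003c000000fc000001fe000001fc0000006000000060 10 9) 0 0 (step_sound _ 133 [(rh8f5489b12ed3fc23.shift 0 2), (rha9aaabd26cf40d39.shift 1 0), (rhae2edff970a530ce.shift 2 4)] (by decide +kernel))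
noncomputable def rhb806191e5ac12b4d : CRef := CRef.mk (Pat.mk 0x40000001c0000000000000000000000000000000000000000 0xa0000006e0000007e0000007e000000f40000003c0000007f0000003e0000007e0000007200000010 10 8) 0 0 (step_sound _ 226 [(rh016b54debfd356a6.shift 1 3), rh2ea9597219e1901e, (rh70e33bfdf511e144.shift 2 2), (rhfb9fb48a5e63ed80.shift 1 4)] (by decide +kernel))
noncomputable def rhfcbaea6e6b3d0170 : CRef := CRef.mk (Pat.mk 0x1000000070000000000000000000000000 0x2800000038000000ff000000ff000000fe00000070000001fc0000007c00000078 10 9) 0 0 (step_sound _ 131 [rh82cae8e256599625, (rhb77d359ee5ebc471.shift 2 0), (rhc02b3aee7ab87ee1.shift 1 3)] (by decide +kernel))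
noncomputable def rh15ea6d64aee70508 : CRef := CRef.mk (Pat.mk 0xe000000080000000000000000000000000000000000000000 0x1c0000001c0000003c0000001e0000007b0000007f0000003e0000003c0000001c00000004 10 7) 0 0 (step_sound _ 164 [(rh4a0b10776449c3e9.shift 1 5), (rh9003690463378585.shift 0 2), rhae87526d12dc1f20] (by decide +kernel))
noncomputable def rhc7624895d907c6f3 : CRef := CRef.mk (Pat.mk 0x1c000000200000000000000000000000000000000000000000 0x2800000038000000ff000000ff0000001c000000fc0000003c0000003c000000380000003800000020 10 8) 0 0 (step_sound _ 164 [(rh3916944cf6ca2673.shift 2 3), (rh89ade209b3e28f13.shift 2 5), rh8cf1175ecb9f87d6] (by decide +kernel))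
noncomputable def rh343507e8cc7b1ecc : CRef := CRef.mk (Pat.mk 0x100000003800000000000000000000000000000000 0x3c0000007f000000ff00000038000000fe000000fc0000007800000010 10 8) 0 0 (step_sound _ 101 [rh761d345321e64696, (rha40d42a2e34c408d.shift 4 1), (rhba50068e9a3167f6.shift 2 1), (rhc3388d33946c6d26.shift 0 2)] (by decide +kernel))
noncomputable def rh9e8a4b66ea4e6888 : CRef := CRef.mk (Pat.mk 0x80000001c0000000000000000 0x3c0000007c0000007f0000007f0000003c0000001800000018 10 7) 0 0 (step_sound _ 98 [rh9f1618b41d6cb1f1, (rhe2b63c00a3d7bb73.shift 0 2)] (by decide +kernel))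
noncomputable def rh3340f6ea0c10a952 : CRef := CRef.mk (Pat.mk 0x340000000400000000000000000000000000000000 0x2a0000003e0000003e0000003e000000760000003e0000007f0000003e0000003600000020 10 7) 0 0 (step_sound _ 132 [(rh2dc7a3b2b419a286.shift 0 2), (rh3c314ace9e06a5c5.shift 1 1), (rh5d60a9e0ddf3152b.shift 1 0), (rh60a781551e50bc18.shift 1 4)] (by decide +kernel))
noncomputable def rhd409c13671a1052a : CRef := CRef.mk (Pat.mk 0x34000000040000000000000000000000000000000000000000 0x18000000380000003c0000003400000076000000fe0000007f000000ff000000780000003800000028 10 8) 0 0 (step_sound _ 164 [(rh60a781551e50bc18.shift 1 5), rh70d64d46643c5890, (rh8007fd6e8f66c2f8.shift 1 2), (rhff07ed552b644278.shift 1 2)] (by decide +kernel))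
noncomputable def rh6c019fbc1f304840 : CRef := CRef.mk (Pat.mk 0x34000000040000000000000000000000000000000000000000 0x280000003a0000003e0000003e000000ff000000760000003e000000fe00000032000000380000003800000008 10 8) 0 0 (step_sound _ 228 [(rh02f1a9587eb333d0.shift 1 3), (rh1263e621052a4dec.shift 1 0), (rh2969ade003b41945.shift 1 3), (rh6fee64e4e81a8e1f.shift 1 4), (rh837cabd6954c84a4.shift 1 3), (rhb31a464fd516bbd5.shift 0 3), (rhce39f909a275e848.shift 1 3), (rhf8d89fdb850d7dcf.shift 1 4)] (by decide +kernel))
noncomputable def rh0b9c089e846c6d4a : CRef := CRef.mk (Pat.mk 0x680000000800000000000000000000000000000000 0x40000001c0000001c0000005c0000007c0000005f000000ec0000007f000000fe000000fc000000dc00000004 10 8) 0 0 (step_sound _ 195 [(rh2f5d0fe8da1cf95e.shift 2 3), (rh3098c4a3bff7088a.shift 1 1), (rh46984e7494d297f2.shift 2 1), (rh5dbd5f190139bd87.shift 0 2), (rh895960a8d60b102d.shift 2 1), (rh8bcd939120e0214f.shift 2 0), (rhd64fb1eaf660f663.shift 0 1)] (by decide +kernel))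
noncomputable def rh51f582449ee555b5 : CRef := CRef.mk (Pat.mk 0x340000000400000000000000000000000000000000 0x2a0000003e0000003e0000003e000000740000007e000000fe0000007f0000003800000028 10 8) 0 0 (step_sound _ 132 [(rh225d159806ff43c9.shift 1 0), (rh3ae567c18828c4dd.shift 1 1), (rhc1a174e7dc9dbeb2.shift 1 0), rhc4727a5316df72c8, (rhd351b5165b050003.shift 1 2), (rhdb911a29b693bced.shift 1 1)] (by decide +kernel))
noncomputable def rhe1ffd74729ef408f : CRef := CRef.mk (Pat.mk 0x1a000000020000000000000000000000000000000000000000 0x4000000070000000700000007000000070000000f0000001b0000000f0000000700000007000000070000000700000004 10 5) 0 0 (step_sound _ 225 [(rh0ba92f246018f4b7.shift 0 2), (rh4df8cdda64581453.shift 0 4), (rh6d0569de0453e71d.shift 0 2), rh7a71dfed531ef52e, (rha749589d3479e302.shift 0 4), (rha953cba4d69f91e5.shift 0 2)] (by decide +kernel))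
noncomputable def rh653ec202068b8bb2 : CRef := CRef.mk (Pat.mk 0x6800000008000000000000000000000000 0x140000007c0000007c0000007f000001fc000000ec000003f8000000fc000000fc00000034 10 10) 0 0 (step_sound _ 165 [(rh1a0dd3c509f76edb.shift 2 0), (rh20911cf897c69891.shift 2 0), (rh3949e660f4e383c0.shift 2 1), (rh3ebda8305d8372a9.shift 2 0), rh5567aa231d52384a, (rh76bdf8a12325492b.shift 2 0), (rh837cabd6954c84a4.shift 2 1), (rh8d8d40e0858d9b17.shift 2 0), (rh904edc0bea2fe90c.shift 2 0), (rhb0a706a8c4b36333.shift 2 0), (rhec7eb28d8de2c160.shift 3 1)] (by decide +kernel))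
noncomputable def rh75474a6dab75fb08 : CRef := CRef.mk (Pat.mk 0x340000000400000000000000000000000000000000 0x1800000038000000380000003800000076000000fe000000fe000000ff0000007800000028 10 8) 0 0 (step_sound _ 132 [rh0dd95a04ad0509d6, (rh225d159806ff43c9.shift 1 0), (rh60a781551e50bc18.shift 1 4), (rh92ed458b2a15017e.shift 1 1)] (by decide +kernel))
noncomputable def rh58cacedf5fd293ae : CRef := CRef.mk (Pat.mk 0x68000000080000000000000000000000000000000000000000 0x40000001c0000001c0000001c0000003c0000006c0000004f000000ff0000007e0000003c0000001c00000010 10 8) 0 0 (step_sound _ 131 [(rh07d6a436cf0eaa3c.shift 2 2), (rh2e84606ae67e73ec.shift 2 2), rhac26b74c074df402, (rhad1fead50175451d.shift 2 2), (rhb862e7c9d612b01e.shift 0 1), (rhb979880fa957efe1.shift 0 3), (rhe4bb6bc95360e733.shift 2 2)] (by decide +kernel))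
noncomputable def rh9545538496cfbe72 : CRef := CRef.mk (Pat.mk 0x340000000400000000000000000000000000000000 0xa0000003e0000003e0000003e000000760000003e0000007e0000007f0000003800000028 10 7) 0 0 (step_sound _ 132 [(rh60a781551e50bc18.shift 1 4), (rhc1a174e7dc9dbeb2.shift 1 0), rhffdd145bcaf8ba27] (by decide +kernel))
noncomputable def rh3ddc236cb123a8e7 : CRef := CRef.mk (Pat.mk 0x1c00000010000000000000000000000000 0x380000007a0000007e0000003c000000760000007e0000007f00000060 10 7) 0 0 (step_sound _ 163 [(rh15aa5e843f48a9d0.shift 1 1), (rh89c1e6298b045c49.shift 0 1), (rhc2c7bae8f445c890.shift 3 1), (rhdba532430bc3d5b3.shift 1 0)] (by decide +kernel))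
noncomputable def rh54f0e3674f71b3c2 : CRef := CRef.mk (Pat.mk 0x100000007000000000000000000000000000000000 0x6000000068000001ec000000fe0000007f000000f8000001fc0000007800000008 10 9) 0 0 (step_sound _ 163 [rh7a0d1612a1539ed5, (rhc02b3aee7ab87ee1.shift 1 4), (rhd8e93bbc8568df99.shift 2 4), (rhdbcea10a0fbe5ba6.shift 1 4)] (by decide +kernel))
noncomputable def rhc99cb9d2d41275f4 : CRef := CRef.mk (Pat.mk 0x40000001c00000000000000000000000000000000 0x280000003800000078000000fc0000003f000000fe000000fc0000003c00000038 10 8) 0 0 (step_sound _ 164 [rh203fcf2d5f60c0e4, (rh503e3e30361a1003.shift 1 0), (rha11dfd15f08f96e3.shift 1 4)] (by decide +kernel))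
noncomputable def rh33c453ef9fee7456 : CRef := CRef.mk (Pat.mk 0x70000000100000000000000000000000000000000000000000 0xe0000000e0000003e8000003fc0000007c000000de000000ff000000ff000000380000003800000008 10 10) 0 0 (step_sound _ 163 [(rh1ed7a3503fa50fc8.shift 1 5), rhf623ad399f04ad70, (rhfb39705ecca8d6b7.shift 2 3)] (by decide +kernel))
noncomputable def rh685a1613dd8c0dcf : CRef := CRef.mk (Pat.mk 0x3800000000000000000000000000000000 0x6000000060000007e0000003e0000007f0000000e0000000e00000004 10 7) 0 0 (step_sound _ 130 [(rh2381ca26b8b38d1e.shift 1 3), (rh9e97bba44c1b13e4.shift 0 3), (rhbfd0d94e2c701200.shift 1 0)] (by decide +kernel))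
noncomputable def rh402b7563b8599dd3 : CRef := CRef.mk (Pat.mk 0x70000000100000000000000000000000000000000000000000 0x80000000e0000003e8000003fc00000070000001fe000001ff0000007f000000780000003800000008 10 10) 0 0 (step_sound _ 163 [(rh1ba3b2be3d7dfa7d.shift 2 2), (rheea1a90336e79c71.shift 1 5), rhf623ad399f04ad70] (by decide +kernel))
noncomputable def rh4f4c97a5b2450f64 : CRef := CRef.mk (Pat.mk 0x38000000800000000000000000 0x20000000280000006f0000003e000001ff0000001600000016 10 9) 0 0 (step_sound _ 69 [rh0b8f5bb48328c60c, (rh68691964b29f233d.shift 3 2), (rhba65360472489f45.shift 2 2), (rhd5b85d579310c48e.shift 2 2)] (by decide +kernel))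
noncomputable def rhe2ec1ba10686a94f : CRef := CRef.mk (Pat.mk 0x8000000038000000000000000000000000 0x5000000078000001f8000001f80000003e000000ff0000007000000010 10 9) 0 0 (step_sound _ 133 [(rh467833d259f77041.shift 3 0), (rh9c0bfb86d38e7070.shift 2 3), rhde11f9c3c83cd3d6] (by decide +kernel))
noncomputable def rh80801d95d747262c : CRef := CRef.mk (Pat.mk 0x200000000e00000000000000000000000000000000000000000 0x40000001c0000001e0000007e0000006e7000001fe000007ff000007d8000001f0000001d000000040 10 11) 0 0 (step_sound _ 135 [(rh29e1c8f55dd0a1ee.shift 4 0), (rh8ee80cc30e93a344.shift 4 4), (rhc21a95c499b3efdb.shift 4 4), (rhfc5fe1e6cb33d77b.shift 0 1)] (by decide +kernel))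
noncomputable def rh4dea04c3533ff445 : CRef := CRef.mk (Pat.mk 0x20000000e0000000000000000000000000 0x1d0000003fe000007fe000007fe000007b7000000e0000000780000005000000040 10 11) 0 0 (step_sound _ 165 [(rh14e0829dc73b6804.shift 4 2), (rh27a278aa4a4c831e.shift 0 2), (rh592c5e4343ef6584.shift 3 0), (rh70e33bfdf511e144.shift 5 0)] (by decide +kernel))
noncomputable def rh1a2e655b8dba377c : CRef := CRef.mk (Pat.mk 0x1000000070000000000000000000000000 0x7f0000007e000003f7000000f80000003c0000002800000020 10 10) 0 0 (step_sound _ 69 [(rh389261f06bd3032b.shift 0 1), (rh5d54cb79a67f97ab.shift 4 0), (rh86e87edf7a950fde.shift 3 0)] (by decide +kernel))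
noncomputable def rh1085a199345ae278 : CRef := CRef.mk (Pat.mk 0x40000001c0000000000000000000000000000000000000000 0xa0000007e0000007e0000007e000000f40000003c0000007f0000007a000000780000007000000050 10 8) 0 0 (step_sound _ 226 [(rh016b54debfd356a6.shift 1 3), (rh14e0829dc73b6804.shift 1 4), (rh70e33bfdf511e144.shift 2 2), rhfbf50fe5ffe63618] (by decide +kernel))
noncomputable def rh3eb14177b0011b09 : CRef := CRef.mk (Pat.mk 0x1000000070000000000000000000000000 0x200000003800000038000000ff000001ff000001fe000000700000007c0000006800000060 10 9) 0 0 (step_sound _ 131 [(rh337c4dc5d8eec682.shift 2 0), rh90a7f95ce1789fab, (rhc02b3aee7ab87ee1.shift 1 3)] (by decide +kernel))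
noncomputable def rh2d7bcb472309de07 : CRef := CRef.mk (Pat.mk 0x3800000080000000000000000000000000 0xa0000000e0000002e0000006f0000003e000001ff0000001e0000001600000004 10 9) 0 0 (step_sound _ 101 [(rh68691964b29f233d.shift 3 3), rh6f6440b3faaa0fc4, (rhba65360472489f45.shift 2 3), (rhd5b85d579310c48e.shift 2 3)] (by decide +kernel))
noncomputable def rh0d489b418b790c15 : CRef := CRef.mk (Pat.mk 0x3800000008000000000000000000000000 0x100000001800000038000000780000003f0000007f0000007c0000003400000004 10 7) 0 0 (step_sound _ 98 [rh0fce3ac7a51ec0eb, (rh1ed7a3503fa50fc8.shift 0 3), (rheea1a90336e79c71.shift 0 3)] (by decide +kernel))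
noncomputable def rhe0629deda2d8ceaf : CRef := CRef.mk (Pat.mk 0x70000000100000000000000000000000000000000000000000 0x90000001b8000001f8000001f0000000fe000003f7000001fc000003e0000000e0000000e0000000e0 10 10) 0 0 (step_sound _ 166 [(rh5c03d187bd04a7ba.shift 2 0), (rh7740381954884b82.shift 0 3), (rh9909eeda0ef2ed2c.shift 3 5)] (by decide +kernel))
noncomputable def rh35a6cfea5b60a18a : CRef := CRef.mk (Pat.mk 0x20000000e0000000000000000000000000 0x50000003fe000007fe000003fe000007bf000000e0000000780000007000000050 10 11) 0 0 (step_sound _ 165 [rh08aad692b049ab9f, (rh14e0829dc73b6804.shift 4 2), (rh70e33bfdf511e144.shift 5 0), (rhce0dbaf0e28988d7.shift 1 0), (rhf88f108b5ba5cf55.shift 4 2)] (by decide +kernel))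
noncomputable def rh064a574f36fcc29b : CRef := CRef.mk (Pat.mk 0x40000001c0000000000000000000000000000000000000000 0xa0000007e0000007e0000007e000000f40000003c0000007f0000007e0000007a0000007000000050 10 8) 0 0 (step_sound _ 226 [(rh016b54debfd356a6.shift 1 3), rh0a1a9682e5ba63ae, (rh70e33bfdf511e144.shift 2 2), (rhfb9fb48a5e63ed80.shift 1 4)] (by decide +kernel))
noncomputable def rha8d8d79e075856bb : CRef := CRef.mk (Pat.mk 0x1000000070000000000000000000000000 0x2800000038000000ff000001ff000001fe000000700000007c0000007800000060 10 9) 0 0 (step_sound _ 131 [rh82cae8e256599625, (rhc02b3aee7ab87ee1.shift 1 3), (rhcc00d4ac6d2b9fd9.shift 2 0)] (by decide +kernel))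
noncomputable def rhe04aebb86690dcc5 : CRef := CRef.mk (Pat.mk 0x7000000000000000000000000000000000 0xb0000000b0000001f8000001f0000000fe000003ff000000f8000001f000000080 10 10) 0 0 (step_sound _ 100 [(rh4785ef24b36e1b2d.shift 2 0), (rhd5c548d17edfbb92.shift 0 1), (rhf0f55c4504412200.shift 1 3)] (by decide +kernel))
noncomputable def rh0e027e8c98177a44 : CRef := CRef.mk (Pat.mk 0x10000000700000000000000000000000000000000000000000 0x80000001a0000003f0000003e00000074000001fe0000007f0000007a0000003800000020 10 9) 0 0 (step_sound _ 195 [(rhac6c7b40bed53710.shift 2 2), (rhc02b3aee7ab87ee1.shift 1 5), rhe0960b2c8c7225c9] (by decide +kernel))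
noncomputable def rh68e7d45238d0b91d : CRef := CRef.mk (Pat.mk 0x8000000e000000000000000000000000000000000 0x400000007000000070000000b7000003fe000003ff000000e0000001fc000003f8000000f000000050 10 10) 0 0 (step_sound _ 165 [(rh075211c3608a5a57.shift 2 4), rh299a8c299b659b20, (rha82394195734f768.shift 0 1), (rhdcabb6991778c467.shift 3 1)] (by decide +kernel))
noncomputable def rh4471e11af86fdb6b : CRef := CRef.mk (Pat.mk 0x38000000800000000000000000000000000000000000000000 0x70000000f80000003e000001ff000001fc000000f8000000700000007000000010 10 9) 0 0 (step_sound _ 165 [(rh1a4ffbc6e00d148d.shift 0 1), (rha6fcd78aa4fac3f0.shift 2 0), (rhba65360472489f45.shift 2 5)] (by decide +kernel))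
noncomputable def rha117adfbffc3bd96 : CRef := CRef.mk (Pat.mk 0x7000000000000000000000000000000000 0x1d8000001f8000003f8000000fc0000007c000000ff0000007800000018 10 10) 0 0 (step_sound _ 166 [rh15086894a90631c4, (rh1ea354ed4246a050.shift 1 1), (rha11dfd15f08f96e3.shift 3 4)] (by decide +kernel))
noncomputable def rha2ae44b1bac75283 : CRef := CRef.mk (Pat.mk 0x400000001c00000000000000000000000000000000 0x3000000038000000f80000001f0000007f000000780000003800000018 10 8) 0 0 (step_sound _ 164 [rh264fcb90e9280a1c, (rh4fd54f6717f3e7ac.shift 2 4), (rh9c0bfb86d38e7070.shift 1 4)] (by decide +kernel))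
noncomputable def rh31562f538db804cb : CRef := CRef.mk (Pat.mk 0x70000000000000000000000000000000000000000000000000 0x80000000c0000000f000000077000000fe000003fe000003fc000001f8000000e0000000e000000020 10 10) 0 0 (step_sound _ 166 [(rh0d2cfc6b081b5b25.shift 3 0), (rh8ee80cc30e93a344.shift 3 5), (rh9909eeda0ef2ed2c.shift 3 5), (rha0ae8adeb1dbcf8d.shift 1 5), (rhe6befb8a81049afc.shift 0 3)] (by decide +kernel))
noncomputable def rh734ccb25fb3d81e5 : CRef := CRef.mk (Pat.mk 0x10000000e0000000000000000000000000000000000000000 0x80000003800000038000000300000003b0000001e0000003800000038000000380000003800000008 10 6) 0 0 (step_sound _ 164 [(rh3f8766e6ecb455ce.shift 0 5), (rhf932a137c0e56c04.shift 1 0)] (by decide +kernel))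
noncomputable def rh69f3eaab334835e1 : CRef := CRef.mk (Pat.mk 0x8000000380000000000000000000000000000000000000000 0x20000000e0000000e8000000e8000000e800000078000001ff000000fe000000fc000000fc00000014 10 9) 0 0 (step_sound _ 131 [(rh19b19bf0872cfe73.shift 2 1), (rh57045861078f78c7.shift 1 1), (rh57e0a2c0d32fb29c.shift 2 0), (rhf0f55c4504412200.shift 0 4)] (by decide +kernel))
noncomputable def rhe99e3ffc18351a7e : CRef := CRef.mk (Pat.mk 0x80000000e000000000000000000000000 0x3d0000003f0000007f0000001e0000003b0000001a00000018 10 7) 0 0 (step_sound _ 132 [rh2401a36a2d74fd25, (rh572132728df34c43.shift 1 3), (rh80f90a60d87caa0d.shift 1 3)] (by decide +kernel))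
noncomputable def rh7a1304ab945ceac5 : CRef := CRef.mk (Pat.mk 0x1c0000000000000000000000000000000000000000 0x80000003e0000003e0000003e0000001f0000003f000001fe000000fe000001fe0000003800000028 10 9) 0 0 (step_sound _ 132 [(rh621d5d105a890919.shift 1 0), (rh9909eeda0ef2ed2c.shift 1 4), (rha3cf5f63dc5c7c82.shift 0 2)] (by decide +kernel))
noncomputable def rhd4e5ca3004a30df4 : CRef := CRef.mk (Pat.mk 0x8000000380000000000000000000000000000000000000000 0x140000001c0000001c0000001c0000007c0000007f0000001f0000003e000000fc000000fe0000001c0000001c00000010 10 8) 0 0 (step_sound _ 194 [(rh2c203d75202fab70.shift 1 1), rhd5311f2d475a4f35, (rhd8e93bbc8568df99.shift 1 5)] (by decide +kernel))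
noncomputable def rh0095b02bbcc23d3c : CRef := CRef.mk (Pat.mk 0x40000001c0000000000000000000000000000000000000000 0xa0000000e0000000e0000007f0000007e0000006c0000003e000000fc0000001e0000000e0000000e00000008 10 8) 0 0 (step_sound _ 132 [(rh8ee80cc30e93a344.shift 1 4), (rh9909eeda0ef2ed2c.shift 1 4), rh9faffeb4e4e67cb8, (rhc21a95c499b3efdb.shift 1 4)] (by decide +kernel))
noncomputable def rh65410d0ed3c99dbb : CRef := CRef.mk (Pat.mk 0x10000000700000000000000000000000000000000000000000 0x28000001ff000001fe000001fe000000de000000700000003800000038000000380000003800000020 10 9) 0 0 (step_sound _ 228 [(rh6f2d9b7d1387c14d.shift 1 0), (rh70e33bfdf511e144.shift 4 2), (rhce0dbaf0e28988d7.shift 0 2), (rhfb9fb48a5e63ed80.shift 3 4)] (by decide +kernel))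
noncomputable def rh424dab44663bccaf : CRef := CRef.mk (Pat.mk 0x20000000e0000000000000000000000000000000000000000 0x50000003f0000003f0000003f0000007a0000001e0000003f0000003f0000003f0000002700000004 10 7) 0 0 (step_sound _ 225 [(rh016b54debfd356a6.shift 0 3), (rh70e33bfdf511e144.shift 1 2), rh839144991dbdc839, (rhfb9fb48a5e63ed80.shift 0 4)] (by decide +kernel))
noncomputable def rh3c4529c1c4a9a23f : CRef := CRef.mk (Pat.mk 0x100000007000000000000000000000000000000000 0x6800000078000000ff000000ff000000fe0000007000000070000000380000003800000038 10 8) 0 0 (step_sound _ 163 [(rh630af0346ed8b9af.shift 2 0), (rh82cae8e256599625.shift 0 1), (rhc02b3aee7ab87ee1.shift 1 4)] (by decide +kernel))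
noncomputable def rh3639993024f64385 : CRef := CRef.mk (Pat.mk 0x38000000200000000000000000000000000000000000000000 0x100000007c0000007f0000007f000000ff00000078000007ec000001fc0000006c000000740000007000000010 10 11) 0 0 (step_sound _ 167 [(rh38d1327d3ace6981.shift 2 0), (rh76b0173561f13a3a.shift 0 2), (rhc1db5918def9f13b.shift 3 5)] (by decide +kernel))
noncomputable def rh2cc2c1a70af66aeb : CRef := CRef.mk (Pat.mk 0x70000000400000000000000000 0x98000007f8000001ff000001fc000000f80000007c000003f0000000c0 10 11) 0 0 (step_sound _ 133 [(rhc38f566cab2818e5.shift 5 0), (rhc7419529367c802b.shift 2 0), (rhfc9986c06a779249.shift 0 1)] (by decide +kernel))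
noncomputable def rh395ebb0542c850a1 : CRef := CRef.mk (Pat.mk 0x380000000800000000000000000000000000000000 0x14000000fc000000fc000000ff000001ff00000078000000e8000000e8000000e8000000e000000020 10 9) 0 0 (step_sound _ 195 [(rh4c81e1dd5e495f71.shift 0 2), (rhb36b82c67c51173e.shift 2 0), (rhb5ba847c57864cbc.shift 2 3), (rhf60aa8aede119d3b.shift 0 5)] (by decide +kernel))
noncomputable def rhf59775ef15f1111b : CRef := CRef.mk (Pat.mk 0x7000000010000000000000000000000000 0x8000000f8000000fa000003ff000003fe0000007c000000de000000df000000da00000008 10 10) 0 0 (step_sound _ 99 [(rh1ed7a3503fa50fc8.shift 1 3), rh49880dae3501b459, (rh6ef713856e032bbe.shift 2 1)] (by decide +kernel))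
noncomputable def rh2464dcc0a6dcc887 : CRef := CRef.mk (Pat.mk 0x380000000800000000000000000000000000000000 0x14000000fc000000fc000000ff000001ff00000078000000e8000000e8000000e8000000e000000020 10 9) 0 0 (step_sound _ 195 [(rh4c81e1dd5e495f71.shift 0 2), (rh7c05a3b40581093c.shift 1 2), (rhb36b82c67c51173e.shift 2 0), (rhb5ba847c57864cbc.shift 2 3), (rhf60aa8aede119d3b.shift 0 5)] (by decide +kernel))
noncomputable def rhf18deccdb4e2feb6 : CRef := CRef.mk (Pat.mk 0x7000000010000000000000000000000000 0x8000000380000007a0000007f0000007e00000074000001fe000001df0000005a00000008 10 9) 0 0 (step_sound _ 99 [(rh2c2715cd92ffe81d.shift 2 1), rh49880dae3501b459, (rheea1a90336e79c71.shift 1 3)] (by decide +kernel))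
noncomputable def rh69c2bb830ad2c559 : CRef := CRef.mk (Pat.mk 0xe00000002000000000000000000000000000000000 0x4000000140000003e0000000f8000007b0000003ff000001fe000003fe00000050 10 11) 0 0 (step_sound _ 101 [(rh0517542449635797.shift 3 2), (rh1b9022be4f7af407.shift 4 0), (rh215e11e099257d75.shift 5 2), rh908f375a6db16047] (by decide +kernel))
noncomputable def rhaa5ada5d4fee1744 : CRef := CRef.mk (Pat.mk 0x80000003800000000000000000000000000000000 0x140000001c0000001c0000001c0000003c0000001f0000001f00000038000000ff0000003e0000003c00000014 10 8) 0 0 (step_sound _ 162 [rh70c4d2b1d830633a, (rhac6c7b40bed53710.shift 1 1), (rhc02b3aee7ab87ee1.shift 0 4)] (by decide +kernel))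
noncomputable def rhafa1bcab0f755782 : CRef := CRef.mk (Pat.mk 0x80000003800000000000000000000000000000000 0x140000001c0000001c0000001c0000003c000000ef000000ff000000380000003f0000003c0000003c00000014 10 8) 0 0 (step_sound _ 162 [(rh3acbd88906b33b56.shift 1 1), rh70c4d2b1d830633a, (rhc02b3aee7ab87ee1.shift 0 4)] (by decide +kernel))
noncomputable def rhbb57e16be8570b33 : CRef := CRef.mk (Pat.mk 0xe0000000000000000000000000000000000000000 0x1c0000001c0000007c0000001f000000fe0000007f000000ff0000001c00000014 10 8) 0 0 (step_sound _ 131 [rh504d42311766a87d, (rh9909eeda0ef2ed2c.shift 0 4), rhca18b078a5ac2818] (by decide +kernel))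
noncomputable def rhbdc58297f4ada56d : CRef := CRef.mk (Pat.mk 0xe000000100000000000000000000000000000000000000000 0x1c0000001c0000007c0000007c0000000e0000007c0000007f0000003e0000001c0000001c00000014 10 7) 0 0 (step_sound _ 163 [(rh27ba08add0e259d3.shift 1 0), (rh89ade209b3e28f13.shift 1 5), rhae87526d12dc1f20] (by decide +kernel))
noncomputable def rh095c6faf6e2f205b : CRef := CRef.mk (Pat.mk 0x380000000000000000000000000000000000000000 0xa0000000e0000000e000000770000003e0000000f0000000e0000000e0000000e00000008 10 7) 0 0 (step_sound _ 162 [(rh4c622fddc53a5f99.shift 0 5), (rh775ca1963e850b80.shift 0 4), (rh9e97bba44c1b13e4.shift 0 4), (rhd096b1ac1da4c257.shift 1 0)] (by decide +kernel))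
noncomputable def rhaf385c7152bca149 : CRef := CRef.mk (Pat.mk 0x1c00000008000000000000000000000000 0x1800000038000000780000003c0000007f0000001e0000001c00000018 10 7) 0 0 (step_sound _ 98 [(rh263d69a8836dd695.shift 1 0), (rh4dc133ee0ba1420a.shift 0 3)] (by decide +kernel))
noncomputable def rh31e078558f32939e : CRef := CRef.mk (Pat.mk 0x3800000010000000000000000000000000 0x20000000e0000000e0000000f0000000f000000078000000fe000000fe0000005f0000005c 10 8) 0 0 (step_sound _ 99 [(rh4dc133ee0ba1420a.shift 1 3), (rh52f182f1cf4c1b73.shift 1 0), rh94540f749735353b] (by decide +kernel))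
noncomputable def rh02489f86352c4312 : CRef := CRef.mk (Pat.mk 0x3800000010000000000000000000000000 0x20000000e0000000f0000000f0000000f000000078000000ff000000df000000f800000078 10 8) 0 0 (step_sound _ 102 [(rh996867534b37331a.shift 1 0), rhafef0e17e7c1df0c, (rhd5041491555e8d86.shift 3 3), (rhe8b0870ed1038143.shift 2 1)] (by decide +kernel))
noncomputable def rh5388eeaae42c1a43 : CRef := CRef.mk (Pat.mk 0x1c00000008000000000000000000000000 0x1c0000001c000000780000003c0000007f0000007f0000007400000024 10 7) 0 0 (step_sound _ 98 [(rh4dc133ee0ba1420a.shift 0 3), (rh6c78199793232d4b.shift 0 1), (rhdea4017e99b8203b.shift 1 0)] (by decide +kernel))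
noncomputable def rhcc62c5b16f9a2144 : CRef := CRef.mk (Pat.mk 0x1c00000008000000000000000000000000 0x1800000038000000780000003c0000001f0000007c0000003c00000018 10 7) 0 0 (step_sound _ 98 [(rh4dc133ee0ba1420a.shift 0 3), (rhc19b4746fc72ffe0.shift 2 0)] (by decide +kernel))
noncomputable def rh27772aac8581ecaf : CRef := CRef.mk (Pat.mk 0x3800000010000000000000000000000000 0x20000000e000000078000000fe000000fe000000ff0000007c 10 8) 0 0 (step_sound _ 99 [(rh0aa18554693611e3.shift 1 0), (rh4dc133ee0ba1420a.shift 1 3), rh869e0d4245d0d791] (by decide +kernel))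
noncomputable def rhefdc640d9e67b581 : CRef := CRef.mk (Pat.mk 0x1c00000008000000000000000000000000 0x40000000780000007c000000780000003c0000007f000000760000007e0000007c 10 7) 0 0 (step_sound _ 101 [(rh23b3d06c90421182.shift 1 0), (rh4a33c0d8c425c9c0.shift 1 0), (rhd5041491555e8d86.shift 2 3), rhe0fad38ed49cff54] (by decide +kernel))
noncomputable def rh2d9c510ace0b06f8 : CRef := CRef.mk (Pat.mk 0x3800000010000000000000000000000000 0x10000000100000001000000078000000fe000000fe000000ff0000007e 10 8) 0 0 (step_sound _ 99 [rh2a48209be788bf1a, (rh4dc133ee0ba1420a.shift 1 3)] (by decide +kernel))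
noncomputable def rhad46145e4e5b2ee1 : CRef := CRef.mk (Pat.mk 0x1c00000008000000000000000000000000 0x1800000018000000180000003c0000006f0000007c0000007c00000018 10 7) 0 0 (step_sound _ 98 [(rh124d32585ce22c6c.shift 2 0), (rh4dc133ee0ba1420a.shift 0 3), rhd7f5ef50c8b91a54] (by decide +kernel))
noncomputable def rh78afe1ab9a4457d4 : CRef := CRef.mk (Pat.mk 0xe0000000400000000000000000000000000000000 0x80000000e0000000e0000001e0000003c0000001e0000003c0000003f0000003f0000003e0000000a 10 6) 0 0 (step_sound _ 98 [(rh215e11e099257d75.shift 2 2), (rh3820f35d5e705bec.shift 2 0), (rhb8a3df6ac636a8e2.shift 0 2), rhd04aa5a4cbee6f23] (by decide +kernel))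
noncomputable def rhf5cabba8a8afdc0a : CRef := CRef.mk (Pat.mk 0x1c00000008000000000000000000000000 0x400000007c0000007e000000780000003c0000007f000000fe0000007c0000007c 10 8) 0 0 (step_sound _ 101 [(rh4a33c0d8c425c9c0.shift 1 0), (rhd5041491555e8d86.shift 2 3), (rhdb59aa989b81f6e7.shift 1 0), rhea1928bfc6ef875a] (by decide +kernel))
noncomputable def rh13ad38229604a564 : CRef := CRef.mk (Pat.mk 0x200000003000000010000000000000000000000000 0x48000001e80000007f000001ff000000f8000000fc00000048 10 9) 0 0 (step_sound _ 68 [(rh71222050f2c63a3a.shift 4 1), rh76d8cb5ee0ff15ba] (by decide +kernel))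
noncomputable def rhf90b901920b21f79 : CRef := CRef.mk (Pat.mk 0x80000000c0000000400000000 0x3000000030000000fc000000ff000000fc0000004f0000003c00000018 10 8) 0 0 (step_sound _ 131 [(rh5c5e593799055d58.shift 2 1), rh97276c1696b931f8] (by decide +kernel))
noncomputable def rh8b5ed875f83928a5 : CRef := CRef.mk (Pat.mk 0x80000000c0000000400000000 0x2000000030000000f8000000fc0000007e0000001f0000007c00000078 10 8) 0 0 (step_sound _ 131 [(rh5c5e593799055d58.shift 2 1), rhb015026092286517] (by decide +kernel))
noncomputable def rh39c25f8bcd73a86c : CRef := CRef.mk (Pat.mk 0x200000003000000010000000000000000000000000 0x10000001f00000007e000000fe000000fc000000ff0000000c 10 9) 0 0 (step_sound _ 68 [rh5a300d38aabc11db, (rh71222050f2c63a3a.shift 4 1)] (by decide +kernel))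
noncomputable def rhd7a1e48b540b6a87 : CRef := CRef.mk (Pat.mk 0x80000000c000000040000000000000000 0x1000000070000001fc0000007f000001ff000000fe0000001f000000370000003000000030 10 9) 0 0 (step_sound _ 132 [(rh0bb882ba86b2372d.shift 0 3), (rh2524814c2ad4e67e.shift 1 2), (rh3f6d7afb35da12f5.shift 1 0), (rhe7aa5fe83b948b4d.shift 0 1)] (by decide +kernel))
noncomputable def rh43f4908072eefd45 : CRef := CRef.mk (Pat.mk 0x100000001800000008000000000000000000000000 0xc0000002c000000fc0000003f0000007f000000fb0000003a00000010 10 8) 0 0 (step_sound _ 67 [(rh71222050f2c63a3a.shift 3 1), rh9677b9c8f6bd19b6] (by decide +kernel))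
noncomputable def rh304e4c36d4697052 : CRef := CRef.mk (Pat.mk 0x2000000030000000100000000000000000000000000000000000000000 0x8000000c8000001e800000078000003ff000000ff000000ff000000fc000000ec000000a0 10 10) 0 0 (step_sound _ 163 [(rh33b38de34a24084e.shift 1 2), (rh557b120f072744ca.shift 1 5), (rh7085f8a6bd829594.shift 0 1), (rh77523f3e8d1159d2.shift 1 0), (rh9a41c4d8f125b78b.shift 1 2)] (by decide +kernel))
noncomputable def rhfb963d1f0fa2c378 : CRef := CRef.mk (Pat.mk 0x80000000c0000000400000000 0x3000000030000000fc000000ff000000fc0000005e0000007c00000078 10 8) 0 0 (step_sound _ 131 [(rh5c5e593799055d58.shift 2 1), rhc4d70854ca67dde2] (by decide +kernel))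
noncomputable def rh729c886d0141e8a7 : CRef := CRef.mk (Pat.mk 0x200000003000000010000000000000000000000000 0x8000001e80000007f000001ff000001fe000000fc00000078 10 9) 0 0 (step_sound _ 99 [(rh15444abfedbc098e.shift 0 1), (rh33b38de34a24084e.shift 1 0), (rh4977e21bc2aa50cb.shift 1 2), (rh9a41c4d8f125b78b.shift 1 0), (rhdeaaf56d69c0283f.shift 1 0)] (by decide +kernel))
noncomputable def rh0c50e100f9ca1369 : CRef := CRef.mk (Pat.mk 0x10000000180000000800000000 0x6000000060000001fc000001fe000001fc000000be0000001f00000014 10 9) 0 0 (step_sound _ 132 [rh32ff629855eb733b, (rh5c5e593799055d58.shift 3 1)] (by decide +kernel))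
noncomputable def rhcd16e069687cef8a : CRef := CRef.mk (Pat.mk 0x80000000c0000000400000000 0x1f0000001f0000007a0000001f0000007c00000070 10 7) 0 0 (step_sound _ 131 [(rh5c5e593799055d58.shift 2 1), rh8906c265f75747d5] (by decide +kernel))
noncomputable def rh15cb96e1c4c10fbf : CRef := CRef.mk (Pat.mk 0x80000000c000000040000000000000000000000000 0x2000000060000007e7000001fe000001ff0000007c0000007000000030 10 11) 0 0 (step_sound _ 70 [(rh71222050f2c63a3a.shift 6 1), rhb3a993491ce0893b] (by decide +kernel))
noncomputable def rh41ec7b566f0145cd : CRef := CRef.mk (Pat.mk 0x100000001800000008000000000000000000000000 0x80000000c0000002c000000fc0000003f0000007c000000fe0000003c00000030 10 8) 0 0 (step_sound _ 67 [rh569769b7d589d3ae, (rh71222050f2c63a3a.shift 3 1)] (by decide +kernel))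
noncomputable def rh6ae2c9e0c4d6c6de : CRef := CRef.mk (Pat.mk 0x80000000c0000000400000000 0x3000000030000000fc000000ff000000f80000005f0000003c00000018 10 8) 0 0 (step_sound _ 131 [rh0844ac88dc47cc2a, (rh5c5e593799055d58.shift 2 1)] (by decide +kernel))
noncomputable def rhf7c727fdab08cc5d : CRef := CRef.mk (Pat.mk 0x30000000180000000000000000 0x3800000038000000780000007e0000001e0000001f0000000c 10 7) 0 0 (step_sound _ 66 [(rh53b3c253cb0c65f4.shift 1 2), rhaba870608dfb3747] (by decide +kernel))
noncomputable def rh0702544d54445d2a : CRef := CRef.mk (Pat.mk 0x180000000c0000000000000000000000000000000000000000 0x3000000038000000380000003f000000fc000000ff00000037000000360000000200000002 10 8) 0 0 (step_sound _ 130 [(rh4821dcf828b9d7bf.shift 2 2), rh635e736f0c3bf565, (rha2be8d18c9bb24c5.shift 1 3)] (by decide +kernel))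
noncomputable def rh40696bf1397b0c3f : CRef := CRef.mk (Pat.mk 0x200000003000000010000000000000000000000000 0x1000000018000001d8000001f80000007c000000f70000007e000000ff00000060 10 9) 0 0 (step_sound _ 68 [(rh71222050f2c63a3a.shift 4 1), rhdff8a3dd10a6161a] (by decide +kernel))
noncomputable def rhf617f3fbb062c739 : CRef := CRef.mk (Pat.mk 0x180000000c00000000000000000000000000000000 0x14000000340000001f000000ff0000007f0000003e0000001c00000014 10 8) 0 0 (step_sound _ 129 [(rh53b3c253cb0c65f4.shift 0 4), rh6a72bd1c09378eda] (by decide +kernel))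
noncomputable def rh83c166d6ea88d4c7 : CRef := CRef.mk (Pat.mk 0x300000001800000000000000000000000000000000 0x80000000800000028000000780000001f000000ff000000ff0000003c0000003c 10 8) 0 0 (step_sound _ 99 [rh1cacc180ee14230b, (rh4d5a6e4207309989.shift 1 1), (rh5000267ab24b42b7.shift 1 1), (rh60c99365efead4c5.shift 0 1), (rh6a4c3472cae795bb.shift 0 1), (rha374421dcb7e30b8.shift 1 1), rhaa3433a6e848c1d0] (by decide +kernel))
noncomputable def rh43cfb8b530e7d384 : CRef := CRef.mk (Pat.mk 0x180000000c000000000000000000000000 0x380000003c000000f40000003f000000fc0000007e0000003f0000003f 10 8) 0 0 (step_sound _ 100 [(rh24a1517134504796.shift 1 0), (rh90fadcd1817c0569.shift 1 0), rha675ee985195adce, (rhadcfb6bf23f31977.shift 2 0), rhb2129c1137b74b9c, (rhcc3128727e4d29c8.shift 1 0)] (by decide +kernel))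
noncomputable def rh4864ad46a5dff3cd : CRef := CRef.mk (Pat.mk 0x40000000600000002000000000000000000000000 0xe0000000f0000003e0000000e0000003e0000003c0000000c00000004 10 6) 0 0 (step_sound _ 194 [(rh5c5e593799055d58.shift 1 3), rhcc38a09cdd9a7f95] (by decide +kernel))
noncomputable def rh5033f3bd3d8fbcd0 : CRef := CRef.mk (Pat.mk 0x40000000600000002000000000000000000000000000000000 0x100000003000000070000000e8000003ff000001fe000003ff0000005000000050 10 10) 0 0 (step_sound _ 101 [rh1185ccc39417202e, (rh71222050f2c63a3a.shift 5 2)] (by decide +kernel))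
noncomputable def rh77b765dc3e39904a : CRef := CRef.mk (Pat.mk 0x1c00000008000000000000000000000000 0xc0000002c0000003f0000007f000000770000001e0000001c 10 7) 0 0 (step_sound _ 100 [(rh4429e38411189b30.shift 1 0), (rh6292bd8784ece55f.shift 1 3), (rhfd4d043292ee9723.shift 0 1)] (by decide +kernel))
noncomputable def rh3e9405368cff9580 : CRef := CRef.mk (Pat.mk 0x3800000010000000000000000000000000 0x80000000f8000000f8000000f800000078000000fe000000ef000000fc000000fc 10 8) 0 0 (step_sound _ 102 [(rh451bf24e1f077197.shift 1 1), rh49fa72fbd1bb2a6a, (rh4a33c0d8c425c9c0.shift 2 0), (rhd5041491555e8d86.shift 3 3)] (by decide +kernel))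
noncomputable def rhc08d770a05c7f75f : CRef := CRef.mk (Pat.mk 0x600000003000000000000000000000000000000000 0x300000003000000078000003f0000003fe000001ff000000ff000000a8 10 10) 0 0 (step_sound _ 100 [(rh4821dcf828b9d7bf.shift 4 1), rh58f7563fb63b5cca, (rhadf429772c25fde0.shift 4 1), (rhf7f7f91a4ee2713a.shift 2 0)] (by decide +kernel))
noncomputable def rhbcada92fc06e1246 : CRef := CRef.mk (Pat.mk 0x30000000100000001000000000 0x100000003800000038000000f80000003c000001df000000fe000001ef 10 9) 0 0 (step_sound _ 132 [(rh1741680720c097b4.shift 3 1), (rh1904b52b42aee148.shift 2 0), rhae8cf54fb44d6beb, (rhb2dc5819a19df02e.shift 3 0), (rhe354090eb2cccf47.shift 2 1)] (by decide +kernel))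
noncomputable def rh397a4c39c9ce72a0 : CRef := CRef.mk (Pat.mk 0x10000000180000000800000000 0x6000000060000001fc000001fe000001fc000000be0000001f00000014 10 9) 0 0 (step_sound _ 132 [(rh5c5e593799055d58.shift 3 1), rh9e0f7fac96fd34f0] (by decide +kernel))
noncomputable def rhe065fbb0d416adf2 : CRef := CRef.mk (Pat.mk 0x3800000000000000000000000000000000 0x80000000e0000000e0000000e0000000f0000003e000000770000000e0000000e0000000a 10 7) 0 0 (step_sound _ 130 [(rh185f35b8bd8ec37f.shift 0 3), (rh592c7139d2c44767.shift 0 3), (rh9c548838e8725ba1.shift 0 3), (rhc0d02dc204edf5d4.shift 1 0)] (by decide +kernel))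
noncomputable def rh9d8516423f5317b0 : CRef := CRef.mk (Pat.mk 0x80000000700000000000000000000000000000000 0x140000001c0000001c0000001c0000000f0000001c0000001c0000001c00000008 10 5) 0 0 (step_sound _ 131 [(rh33e738c4ed385b9f.shift 0 4), rh472f978379929ad7] (by decide +kernel))
noncomputable def rhf94aa546d3392929 : CRef := CRef.mk (Pat.mk 0xe000000080000000000000000000000000000000000000000 0x1c0000007c0000001e000000780000007f000000ff0000003c0000001c00000004 10 8) 0 0 (step_sound _ 164 [(rh4a0b10776449c3e9.shift 1 5), (rh76322a43e544c421.shift 0 1), rhae87526d12dc1f20] (by decide +kernel))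
noncomputable def rhff256dc5c4211d6e : CRef := CRef.mk (Pat.mk 0x3800000020000000000000000000000000 0x10000000700000007000000070000000700000003e00000037000000700000007000000050 10 7) 0 0 (step_sound _ 130 [(rh0de499e0455c9c14.shift 0 3), (rh0e2cddddafe6254b.shift 1 3), (rhb204d54719ade79a.shift 1 0)] (by decide +kernel))
noncomputable def rh5ca4095b82ba43a2 : CRef := CRef.mk (Pat.mk 0x80000001c000000000000000000000000 0x180000001c0000001e0000007f0000003c000000780000003800000018 10 7) 0 0 (step_sound _ 130 [(rh2676f81605dc5088.shift 1 0), (rhe2b63c00a3d7bb73.shift 0 3)] (by decide +kernel))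
noncomputable def rheb11f641d87e09c6 : CRef := CRef.mk (Pat.mk 0x80000001c0000000000000000000000000000000000000000 0x2e0000002f0000007f0000007f0000003c0000007800000078000000700000007000000010 10 7) 0 0 (step_sound _ 194 [(rhe2b63c00a3d7bb73.shift 0 5), (rhf61641ba8be3f123.shift 0 3), (rhfa4ea57fef3b18b4.shift 1 0)] (by decide +kernel))
noncomputable def rh774c6014be94a1d7 : CRef := CRef.mk (Pat.mk 0x10000000380000000000000000000000000000000000000000 0x7800000078000000df000000ff00000078000000f0000000f0000000f0000000e000000020 10 8) 0 0 (step_sound _ 198 [(rh2c690780c60c41d5.shift 1 2), (rh6870ff15d3813450.shift 3 5), (rh7d442f0866f8f568.shift 2 0), (rhd2344ec398f0b1d2.shift 0 3)] (by decide +kernel))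
noncomputable def rh8f12e3dbc3c82f77 : CRef := CRef.mk (Pat.mk 0x80000001c000000000000000000000000 0x180000003c0000007c0000001f0000003c000000780000003800000018 10 7) 0 0 (step_sound _ 130 [(rh00b51f3089dfef77.shift 2 0), (rhe2b63c00a3d7bb73.shift 0 3)] (by decide +kernel))
noncomputable def rhc6cd399cd747e6fb : CRef := CRef.mk (Pat.mk 0x10000000380000000000000000 0x7c000000ff000000fe000000fe00000078000000e000000020 10 8) 0 0 (step_sound _ 99 [(rh25eabfb947fe471d.shift 1 1), (rhe2b63c00a3d7bb73.shift 1 2), rhff4e8b836a77bf61] (by decide +kernel))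
noncomputable def rha7b404f14d625856 : CRef := CRef.mk (Pat.mk 0x80000001c00000000000000000000000000000000 0x7000000074000000760000007f0000003c000000780000007c0000007800000040 10 7) 0 0 (step_sound _ 165 [(rh6870ff15d3813450.shift 2 4), (rha521a9908f253aef.shift 1 0), (rhb0cac804ea819441.shift 0 1), (rhe81366dda0e030c5.shift 1 1)] (by decide +kernel))
noncomputable def rhdd7e69a92f649f9b : CRef := CRef.mk (Pat.mk 0x80000001c000000000000000000000000 0x340000003e000000fe000000ff0000001c000000780000003e0000001c 10 8) 0 0 (step_sound _ 68 [(rh149c9fe0b168effe.shift 0 1), (rh5d54cb79a67f97ab.shift 3 0), (rhb225947bb331c9a0.shift 1 0), (rhc2c7bae8f445c890.shift 3 0)] (by decide +kernel))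
noncomputable def rh1427318ef9f36a89 : CRef := CRef.mk (Pat.mk 0x80000001c000000000000000000000000 0x3f0000007f0000007f0000007f0000003c000000080000000800000008 10 7) 0 0 (step_sound _ 130 [rh8fa03fd98886174e, (rhe2b63c00a3d7bb73.shift 0 3)] (by decide +kernel))
noncomputable def rhc3ca2741297f9143 : CRef := CRef.mk (Pat.mk 0x80000001c000000000000000000000000 0x180000007c0000007c0000006f0000003c000000780000001e0000001c 10 7) 0 0 (step_sound _ 130 [(rh4a0c443977dceb7d.shift 2 0), rhc8fd73be9142664f, (rhe2b63c00a3d7bb73.shift 0 3)] (by decide +kernel))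
noncomputable def rh0832b965211470ed : CRef := CRef.mk (Pat.mk 0x80000001c0000000000000000000000000000000000000000 0x140000003c0000007c000000ff000000f80000003c000000780000003c0000001c0000001c00000010 10 8) 0 0 (step_sound _ 227 [(rh2e605f7329a87d11.shift 1 0), (rh70e33bfdf511e144.shift 3 2), (rh9889c73149ac941e.shift 0 4), (rhfb9fb48a5e63ed80.shift 2 4)] (by decide +kernel))
noncomputable def rh9c369f3fff4afa53 : CRef := CRef.mk (Pat.mk 0x80000001c000000000000000000000000 0x280000007c0000007e0000007f0000003c000000180000001800000018 10 7) 0 0 (step_sound _ 130 [(rh277c859a086d4f64.shift 1 0), (rhe2b63c00a3d7bb73.shift 0 3)] (by decide +kernel))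
noncomputable def rhc90c12f03894860b : CRef := CRef.mk (Pat.mk 0x70000000400000000000000000 0x800000078000000fc0000007e000000fe000000770000007000000070 10 8) 0 0 (step_sound _ 133 [rh27fe47b07a04e68c, rh8237cbe33088c1fb, (rhc2c7bae8f445c890.shift 5 0)] (by decide +kernel))
noncomputable def rh5dac91c6c7e4f307 : CRef := CRef.mk (Pat.mk 0x3800000000000000000000000000000000 0x400000007000000078000001ef0000007e000001f0000001f0000000f8000000d0 10 9) 0 0 (step_sound _ 101 [(rh20aaf61296e8852e.shift 3 0), (rh428561802c2dc291.shift 0 1), (rh8ee80cc30e93a344.shift 2 3), (rhc21a95c499b3efdb.shift 2 3)] (by decide +kernel))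
noncomputable def rhf9be8b9a2045b8e0 : CRef := CRef.mk (Pat.mk 0x3800000020000000000000000000000000 0x100000003000000030000000770000003e00000030000000700000007000000050 10 7) 0 0 (step_sound _ 130 [(rh0e2cddddafe6254b.shift 1 3), (rh6206d00fae46d42a.shift 1 2), (rh8798aed3f677fd89.shift 1 0), (rhd1d05263fabc0227.shift 0 3)] (by decide +kernel))
noncomputable def rha7ca5ce4dcf58ef2 : CRef := CRef.mk (Pat.mk 0x10000000700000000000000000000000000000000000000000 0x280000003c0000003c0000003c0000007f000000fe000000de000000780000003000000038000000380000003800000020 10 8) 0 0 (step_sound _ 195 [(rha1e2d5413beb0286.shift 0 3), (rhd5311f2d475a4f35.shift 1 0), (rhdbcea10a0fbe5ba6.shift 1 5)] (by decide +kernel))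
noncomputable def rh2d642d13ab4a23ab : CRef := CRef.mk (Pat.mk 0x10000000700000000000000000000000000000000000000000 0x2800000038000000380000003c000000ff000000fe0000003e0000007c000000f400000038000000380000003800000020 10 8) 0 0 (step_sound _ 228 [(rh0fa4a62bba50784f.shift 3 4), (rh6e1ce98cbceb55cc.shift 1 4), (rh70e33bfdf511e144.shift 4 2), rh8a5265175588d55d, (rh9df165c46a9b9b15.shift 1 3)] (by decide +kernel))
noncomputable def rhb577ad6d8927fe7d : CRef := CRef.mk (Pat.mk 0x20000000e00000000000000000000000000000000000000000 0x2000000070000003fe000007fe000003ff000007be000000e0000000e000000070000000700000007000000040 10 11) 0 0 (step_sound _ 229 [(rh04b8fe065591782f.shift 2 0), (rh14e0829dc73b6804.shift 4 4), (rh70e33bfdf511e144.shift 5 2), (rh8333c134d7a1b37a.shift 0 4)] (by decide +kernel))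
noncomputable def rh92c13d4776f7cb60 : CRef := CRef.mk (Pat.mk 0x40000001c00000000000000000000000000000000 0x680000007f0000007e000000fc0000003c0000007c0000007c0000007c00000030 10 8) 0 0 (step_sound _ 99 [(rh5d54cb79a67f97ab.shift 2 1), (rh8f7fca54f783b579.shift 2 1), rh90144ae0a3a36f02, (rhb66b2feed22d8dd1.shift 2 1)] (by decide +kernel))
noncomputable def rh6e1e4768f88a274e : CRef := CRef.mk (Pat.mk 0x7000000010000000000000000000000000 0xe0000001e0000007f8000001f00000007f000000fe0000003c0000003800000008 10 11) 0 0 (step_sound _ 99 [(rh1ed7a3503fa50fc8.shift 1 3), rh2b3c35784ea584fd, (rheea1a90336e79c71.shift 1 3)] (by decide +kernel))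
noncomputable def rh307ebe2cc213b726 : CRef := CRef.mk (Pat.mk 0xe000000000 0x3ff000001fe000003e7 10 10) 0 0 (step_sound _ 68 [(rh4f4774ab6982c560.shift 4 0), (rh8c12fdbbddc1e7ab.shift 2 1), rha5829d8a56d9db7b] (by decide +kernel))
noncomputable def rhdbd5045cbb63f6fc : CRef := CRef.mk (Pat.mk 0x1e00000000000000000000000000000000 0x40000000700000007000000070000001e00000007000000070000000700000005 10 5) 0 0 (step_sound _ 161 [(rh3244c3cc8379b070.shift 0 4), rhab18fa8083e0ce2e] (by decide +kernel))
noncomputable def rh8019f3b4979f31d0 : CRef := CRef.mk (Pat.mk 0x8000000380000000000000000000000000000000000000000 0x140000001c0000001c0000001c0000003c000000ff0000003f000000380000001f0000001c0000001c0000001c00000010 10 8) 0 0 (step_sound _ 194 [rh063fec094b95526c, (rhc02b3aee7ab87ee1.shift 0 5), (rhc4be6686b5840db5.shift 0 1)] (by decide +kernel))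
noncomputable def rh14cc813775df30ae : CRef := CRef.mk (Pat.mk 0x38000000200000000000000000000000000000000000000000 0x100000005c0000007f000000ff000001ff00000078000001ec0000006c0000007c000000740000007000000040 10 9) 0 0 (step_sound _ 167 [(rh21e1f907246ae682.shift 1 0), (rh76b0173561f13a3a.shift 0 2), (rhc1db5918def9f13b.shift 3 5)] (by decide +kernel))
noncomputable def rhd9c4e3bdfb3ca11e : CRef := CRef.mk (Pat.mk 0x70000000400000000000000000 0x98000007f8000001ff000001fc000000f80000007e0000005800000058 10 11) 0 0 (step_sound _ 133 [(rh80f9767143108c5e.shift 1 0), (rhc38f566cab2818e5.shift 5 0), (rhfc9986c06a779249.shift 0 1)] (by decide +kernel))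
noncomputable def rhd8de2a25ad06e539 : CRef := CRef.mk (Pat.mk 0x1e00000000000000000000000000000000 0x40000000700000007000000070000001e00000007000000070000000700000005 10 5) 0 0 (step_sound _ 97 [rh4fa4a750b8a07221, (rheb0810cc63b001d8.shift 0 3)] (by decide +kernel))
noncomputable def rhfe8cd866422d92d4 : CRef := CRef.mk (Pat.mk 0x700000000000000000000000000000000000000000 0x20000000f8000000f8000000ff0000007c000000fc000007f8000003f8000007f8000000e0000000a0 10 11) 0 0 (step_sound _ 134 [(rh621d5d105a890919.shift 3 0), (rh66f6486ccca341f1.shift 0 2), (rh9909eeda0ef2ed2c.shift 3 4)] (by decide +kernel))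
noncomputable def rh603ef889c5cdb424 : CRef := CRef.mk (Pat.mk 0xe00000000000000000000000000000000000000000 0x40000001c0000001c0000001c0000000e7000001fe00000fff000007f000000ff0000001c000000140 10 12) 0 0 (step_sound _ 135 [(rh105ea94b66ac3a6a.shift 0 2), (rh621d5d105a890919.shift 4 0), (rh9909eeda0ef2ed2c.shift 4 4)] (by decide +kernel))
noncomputable def rh2a0e1f3e71815f0c : CRef := CRef.mk (Pat.mk 0x8000000380000000000000000000000000000000000000000 0x140000001c0000001c0000001c0000003c000000ff0000003f0000003c0000001f0000001c0000001c0000001c00000010 10 8) 0 0 (step_sound _ 194 [rh063fec094b95526c, (rhc4be6686b5840db5.shift 0 1), (rhd8e93bbc8568df99.shift 1 5)] (by decide +kernel))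
noncomputable def rh28cda12711cbd45b : CRef := CRef.mk (Pat.mk 0x80000003800000000000000000000000000000000 0x100000001c0000001c0000001c00000018000000780000001f0000001c0000001c00000014 10 7) 0 0 (step_sound _ 99 [(rha56de7c48c25707a.shift 2 0), (rhf0f55c4504412200.shift 0 3)] (by decide +kernel))
noncomputable def rh6b39d73fbc5393c7 : CRef := CRef.mk (Pat.mk 0x100000007000000000000000000000000000000000 0xf0000001f000000077000000fe000003ee000001f8000000fc00000020 10 10) 0 0 (step_sound _ 102 [rh69a1910ba7c56987, (rh8ee80cc30e93a344.shift 3 3), (rh8f33f782395493f2.shift 3 1), (rh9909eeda0ef2ed2c.shift 3 3)] (by decide +kernel))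
noncomputable def rh57e7d2e24c98128a : CRef := CRef.mk (Pat.mk 0xe000000100000000000000000000000000000000000000000 0x40000001c0000001c0000007e0000000e0000000e0000007f0000007f0000003e0000001c0000001c00000004 10 7) 0 0 (step_sound _ 163 [(rh89ade209b3e28f13.shift 1 5), rh9c37146b9d5ffea0, (rhb4fae2a35f2d0761.shift 0 2)] (by decide +kernel))
noncomputable def rhbcbc4e0b5234994d : CRef := CRef.mk (Pat.mk 0x1c000000000000000000000000000000000 0x500000007000000070000000ff000001fe000000ff000000e0000000e0000000a0 10 9) 0 0 (step_sound _ 133 [rh47388e5afbca72b2, (rh592c7139d2c44767.shift 3 3), (rh6026caed551b3a1d.shift 1 3), (rh81388747ce38ab8a.shift 4 0), rhdeafe2bbb76028b4, (rhe9a088e560a11581.shift 1 3)] (by decide +kernel))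
noncomputable def rh8a2d3a174f92a142 : CRef := CRef.mk (Pat.mk 0x1000000070000000000000000000000000 0x28000001ff000003fe000001fe0000005e00000070000001fc000000b800000028 10 10) 0 0 (step_sound _ 164 [(rh093d3fa3e44e72dc.shift 1 0), (rh14e0829dc73b6804.shift 3 2), (rh70e33bfdf511e144.shift 4 0), rhce0dbaf0e28988d7] (by decide +kernel))
noncomputable def rhec212f8b7845da16 : CRef := CRef.mk (Pat.mk 0x40000001c000000000000000000000000 0x1c0000001c0000001c0000003c0000007f0000007f0000000e 10 7) 0 0 (step_sound _ 67 [rh204f57ff142cb424, (rh5d54cb79a67f97ab.shift 2 0), (rh6ebe84b28863371b.shift 0 1), (rha40d42a2e34c408d.shift 2 0)] (by decide +kernel))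
noncomputable def rh2aa710c3bf6986b6 : CRef := CRef.mk (Pat.mk 0x100000001a00000000000000000000000000000000 0x6800000068000003fe000001fe000001fa000000bb0000001f0000007e0000007e00000014 10 10) 0 0 (step_sound _ 99 [rh46b66620db6cdc3c, (rh4821dcf828b9d7bf.shift 3 1), (rhadf429772c25fde0.shift 3 1), (rhe8df5a27f91594d3.shift 0 2)] (by decide +kernel))
noncomputable def rhf74dad53096ddb9f : CRef := CRef.mk (Pat.mk 0x2000000034000000000000000000000000 0x40000000c0000006c0000007f0000003f0000001800000010 10 7) 0 0 (step_sound _ 99 [(rh33e738c4ed385b9f.shift 2 3), rhfc09cc3dd17a9ab1] (by decide +kernel))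
noncomputable def rh2247f959adb87b25 : CRef := CRef.mk (Pat.mk 0x100000001a00000000000000000000000000000000 0xc0000003e0000003e0000007e0000003b0000001f0000007e0000003c00000034 10 7) 0 0 (step_sound _ 99 [rh144d7e93122d3fbb, rhc263d9bc96e401f7, (rhcf80391c5046a495.shift 3 1), (rhf9366b6a121593ef.shift 3 1)] (by decide +kernel))
noncomputable def rhe2bbde8475172b59 : CRef := CRef.mk (Pat.mk 0x20000001a00000000000000000000000000000000 0x140000001c000000ff0000007f000000ff0000003b0000001e0000001f0000001f00000005 10 8) 0 0 (step_sound _ 163 [(rh052037c23179916b.shift 0 4), rh4481fbe4777aae53, (rh9653eb48015e6b5c.shift 0 1)] (by decide +kernel))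
noncomputable def rh93fe994bec7c0892 : CRef := CRef.mk (Pat.mk 0x6800000008000000000000000000000000 0x3000000036000000ff0000007c000000f80000007800000018 10 8) 0 0 (step_sound _ 132 [rh37a29303dae11418, (rheb0810cc63b001d8.shift 2 3)] (by decide +kernel))
noncomputable def rh0d188b366cd5e3df : CRef := CRef.mk (Pat.mk 0x1a000000020000000000000000 0xc0000003c000000fc0000003c0000001f0000001b0000001800000018 10 8) 0 0 (step_sound _ 98 [rh1ef270d12ce49980, (rheb0810cc63b001d8.shift 0 2)] (by decide +kernel))
noncomputable def rh97512bace34324cc : CRef := CRef.mk (Pat.mk 0x6800000008000000000000000000000000 0x30000000f0000003f0000001f6000000ff00000078000000f80000007800000018 10 10) 0 0 (step_sound _ 132 [(rh1ef270d12ce49980.shift 2 1), rh37a29303dae11418, (rh3f9c2fb96516703c.shift 3 3), (rh8b24b8cfbab3984a.shift 0 3)] (by decide +kernel))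
noncomputable def rh3fe68e6192d873ce : CRef := CRef.mk (Pat.mk 0x680000000800000000000000000000000000000000 0x20000000f8000000f8000001f0000000ec0000007f000001fc000000fe000000f400000054 10 9) 0 0 (step_sound _ 133 [(rh225d159806ff43c9.shift 2 0), (rh4bc13bb06b3e43a2.shift 2 0), (rh60a781551e50bc18.shift 2 4), rh70d2aaea1b6b8d6b] (by decide +kernel))
noncomputable def rh8c0834277eaf4035 : CRef := CRef.mk (Pat.mk 0x1e000000000 0xe7000001fe000001ff 10 9) 0 0 (step_sound _ 4 [(rh80fcd6d0a18cb2dd.shift 4 0), rh8986f1959d033ac4] (by decide +kernel))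
noncomputable def rhf362f33f760e64e3 : CRef := CRef.mk (Pat.mk 0x68000000080000000000000000000000000000000000000000 0x240000006c0000007c000000ec0000007c000000ff000000fe000000fc0000001c0000001c 10 8) 0 0 (step_sound _ 131 [(rh27338a2569843b0d.shift 1 1), (rh3e436aafaf341b4e.shift 2 0), rh87ffd0db4b7d68dc, (rh9ea0731981326ad3.shift 2 1), rhac26b74c074df402, (rhbfbe0dbc7479c78f.shift 2 1), (rhce605e8e2cc5a07c.shift 2 0), (rhdb8fb6a2b15b2e93.shift 1 3), (rhf1e36c7ded60206e.shift 2 0)] (by decide +kernel))
noncomputable def rhfd0d7b2488ceab15 : CRef := CRef.mk (Pat.mk 0x340000000400000000000000000000000000000000 0x18000000780000007c00000074000000760000003e0000007e0000007f0000007800000028 10 7) 0 0 (step_sound _ 132 [(rh1ea2981be3161ee8.shift 1 1), rh370b9ac2bb5e62f2, (rh60a781551e50bc18.shift 1 4), (rhff07ed552b644278.shift 1 1)] (by decide +kernel))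
noncomputable def rhcd8307c4962f2e38 : CRef := CRef.mk (Pat.mk 0x3400000004000000000000000000000000 0x80000003a0000003e0000007e000000ff000000760000003e0000007e0000003600000002 10 8) 0 0 (step_sound _ 164 [(rh13d5cd919b33e131.shift 1 0), (rh251a64182c0fd2b1.shift 1 1), (rh2969ade003b41945.shift 1 1), (rh2a6d5c55b06ff51d.shift 1 1), (rh2e67f0e2df8db188.shift 1 1), (rha5002fa4e88b7e0f.shift 1 1), (rhf86286d58174b205.shift 0 1), (rhf8cbe765fe6fad03.shift 1 1), (rhfa3fb64ab7f564bc.shift 1 1)] (by decide +kernel))
noncomputable def rh9d8984f050d9682b : CRef := CRef.mk (Pat.mk 0x340000000400000000000000000000000000000000 0xa0000007e0000007e0000007e000000740000003e0000007e0000007f0000003800000028 10 7) 0 0 (step_sound _ 132 [rh2c9156e5e6fef1ea, (rh6e840cb0780c1aff.shift 1 1), (rhc1a174e7dc9dbeb2.shift 1 0), (rhd351b5165b050003.shift 1 2), (rhe22119737b9ba021.shift 1 1)] (by decide +kernel))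
noncomputable def rh147394684dd207d1 : CRef := CRef.mk (Pat.mk 0xd00000001000000000000000000000000000000000 0x28000000b8000000f8000000ff000000fe000001df0000007800000038000000380000003800000038 10 9) 0 0 (step_sound _ 196 [(rh00bfd5526b53e1b1.shift 3 0), rh25cad17d2b440db4, (rh4c23923ee79d32ac.shift 3 3), (rh600d55775855330a.shift 3 1), (rh895960a8d60b102d.shift 3 1), (rh8bcd939120e0214f.shift 3 0), (rha953cba4d69f91e5.shift 3 1)] (by decide +kernel))
noncomputable def rh973b8a361e7f8310 : CRef := CRef.mk (Pat.mk 0x1a0000000200000000000000000000000000000000 0xc0000001c0000001c0000001f0000003b0000001f0000007c0000001c0000001c00000014 10 7) 0 0 (step_sound _ 131 [rh225d159806ff43c9, (rh60a781551e50bc18.shift 0 4), rhf06ed64c1e0bf66d] (by decide +kernel))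
noncomputable def rh73416441bd9286c2 : CRef := CRef.mk (Pat.mk 0x680000000800000000000000000000000000000000 0x14000000fc000001fc000000ff000001fc000000ec00000078000000fe0000005c0000001400000010 10 9) 0 0 (step_sound _ 197 [(rh0f6ae368daeb6b26.shift 2 1), (rh322d5241f316bb74.shift 3 0), (rh5567aa231d52384a.shift 0 1), (rh6a0461b741e751c5.shift 1 1), (rh8ebf7b6809b05354.shift 2 1), (rhc6cb77ba2652da94.shift 2 1), (rhdcc1d4a42750235b.shift 2 0), (rhe290e7a55488f919.shift 3 2), (rhfda5c04f11cd4f66.shift 2 2)] (by decide +kernel))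
noncomputable def rhefc3b1fff03c4e0b : CRef := CRef.mk (Pat.mk 0x340000000400000000000000000000000000000000 0x10000000780000007800000078000000760000003e000000fe000000ff0000003800000028 10 8) 0 0 (step_sound _ 132 [rh0dd95a04ad0509d6, (rh1f8c7a5ce240694d.shift 1 2), (rh225d159806ff43c9.shift 1 0), (rh60a781551e50bc18.shift 1 4)] (by decide +kernel))
noncomputable def rhb9aa307afeeed9d7 : CRef := CRef.mk (Pat.mk 0x680000000800000000000000000000000000000000 0x1c0000007c0000003c000000ff000000ec0000005c0000001c0000001c0000001c0000000c 10 8) 0 0 (step_sound _ 195 [(rh00bfd5526b53e1b1.shift 2 0), (rh2915a4f5aa0492ea.shift 2 1), (rh895960a8d60b102d.shift 2 1), (rh8bcd939120e0214f.shift 2 0), (rha953cba4d69f91e5.shift 2 1), (rhadec217e8c1fd67c.shift 0 3)] (by decide +kernel))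
noncomputable def rhb2d1f767866ee73c : CRef := CRef.mk (Pat.mk 0x200000003000000010000000000000000000000000 0xc0000000c0000001d0000001fc00000078000001fe000001fe000000ff0000006c 10 9) 0 0 (step_sound _ 68 [(rh71222050f2c63a3a.shift 4 1), rh9b6498a41d92bb15] (by decide +kernel))
noncomputable def rhf67279d9891d3593 : CRef := CRef.mk (Pat.mk 0x200000003000000010000000000000000000000000 0x10000000100000001e0000003e000000780000007e0000003f0000003f0000000c 10 7) 0 0 (step_sound _ 68 [(rh71222050f2c63a3a.shift 4 1), rheb946e21518e5dae] (by decide +kernel))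
noncomputable def rh743f354a2d3db657 : CRef := CRef.mk (Pat.mk 0x100000001800000008000000000000000000000000 0x6000000068000001fe000001ff000000ff0000003c0000007f000000170000000600000006 10 9) 0 0 (step_sound _ 196 [(rh5c5e593799055d58.shift 3 3), rh91284060757915b1] (by decide +kernel))
noncomputable def rhb4176456bf39f913 : CRef := CRef.mk (Pat.mk 0x200000003000000010000000000000000000000000 0x80000000c0000002c00000078000001ff000000ff000003fc0000007c 10 10) 0 0 (step_sound _ 99 [(rh1991636121d8236c.shift 2 0), (rh33b38de34a24084e.shift 1 0), (rh557b120f072744ca.shift 1 3), rh8bc6c073e14e6054, (rh9a41c4d8f125b78b.shift 1 0)] (by decide +kernel))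
noncomputable def rh19e7443885bf6cff : CRef := CRef.mk (Pat.mk 0x100000001800000008000000000000000000000000 0x1c0000001f0000007e0000003c000000fe000000360000002600000006 10 8) 0 0 (step_sound _ 196 [(rh5c5e593799055d58.shift 3 3), rha720cf6462d6b2cc] (by decide +kernel))
noncomputable def rhdd6b222d1170a2c3 : CRef := CRef.mk (Pat.mk 0x80000000c00000004000000000000000000000000 0x3000000030000000fc000000ff000000fc0000005e0000007c000000180000001800000008 10 8) 0 0 (step_sound _ 195 [(rh5c5e593799055d58.shift 2 3), rhbdf8633b60c8e358] (by decide +kernel))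
noncomputable def rhe8e2a99b9ee93faf : CRef := CRef.mk (Pat.mk 0x400000006000000020000000000000000000000000 0x3000000030000000b0000000e0000000e0000001fe000001fe000001ff00000040 10 9) 0 0 (step_sound _ 69 [(rh71222050f2c63a3a.shift 5 1), rh8990be8631dbe960] (by decide +kernel))
noncomputable def rh04d954122c5f2b71 : CRef := CRef.mk (Pat.mk 0x80000000c00000004000000000000000000000000 0x3000000030000000fe000000ff000000ff0000005e0000000c000000080000000800000008 10 8) 0 0 (step_sound _ 195 [(rh5c5e593799055d58.shift 2 3), rh848265988b731069] (by decide +kernel))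
noncomputable def rhf8a649a95825b74d : CRef := CRef.mk (Pat.mk 0x10000000100000001800000000 0x20000001ff000000fe000001fe000000f00000003c00000030 10 9) 0 0 (step_sound _ 133 [(rh22d86f446f3de558.shift 1 0), (rh87d5e4118780fa3b.shift 4 0), rhb0cda13961b370f1] (by decide +kernel))
noncomputable def rh6e7132e313b290c0 : CRef := CRef.mk (Pat.mk 0x2000000030000000000000000000000000 0x600000007000000078000000ff000001fe000001fc00000038000001f00000007000000030 10 9) 0 0 (step_sound _ 165 [(rh1d9456fbf898673e.shift 3 0), (rh2661918359e46607.shift 2 2), (rh4c854bee22ab9f2b.shift 0 1), (rh7a7e08304268422e.shift 4 2), (rhfafeb437ceb8396d.shift 4 0)] (by decide +kernel))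
noncomputable def rhed35b347661c6a28 : CRef := CRef.mk (Pat.mk 0x300000001800000000000000000000000000000000 0x40000000400000006c000000ec000000fe0000003f0000003c000000ff0000007f0000002c00000004 10 8) 0 0 (step_sound _ 197 [rha8658e87e735215a, (rhcf80391c5046a495.shift 4 2), (rhd8c2940d95b84964.shift 0 1)] (by decide +kernel))
noncomputable def rhc8b58f16612dae91 : CRef := CRef.mk (Pat.mk 0x3000000018000000000000000000000000 0x3e000000ff000000fe000000ff000000380000002c0000000c0000000c 10 8) 0 0 (step_sound _ 134 [(rh18965a982d73c794.shift 3 3), rhf5f1567ce759f425] (by decide +kernel))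
noncomputable def rh70145dea883e8db1 : CRef := CRef.mk (Pat.mk 0x300000001800000000 0x3c0000003f0000003c000000f80000001c00000008 10 8) 0 0 (step_sound _ 70 [(rh18965a982d73c794.shift 3 1), rh292877efce8ad133] (by decide +kernel))
noncomputable def rhe883effdbefb21b8 : CRef := CRef.mk (Pat.mk 0x300000001800000000000000000000000000000000 0x7c0000007e0000007e0000003f0000003c0000002f0000003c0000001c00000004 10 7) 0 0 (step_sound _ 163 [(rh0cb62f714892fb62.shift 0 1), (rh196d35a8ebe1d4ae.shift 0 3), rh283aa312fb7dd3b8, (rh93b435fd780d1d26.shift 0 2), (rhb5eb03994615239f.shift 0 2), (rhdafe50555a185756.shift 1 2)] (by decide +kernel))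
noncomputable def rhc79b33b208d02c9c : CRef := CRef.mk (Pat.mk 0x400000004000000060000000000000000000000000 0x28000000a8000007bf000007ff000003df000000f0000003fc000003f800000020 10 11) 0 0 (step_sound _ 165 [(rh9c6239243ddfb9af.shift 4 1), (rhbce45149dfb7f08d.shift 1 1), (rhc86e3ab3c2b165e9.shift 4 1), rhf8e06a87649cc99f] (by decide +kernel))
noncomputable def rh232c979fdf7760bf : CRef := CRef.mk (Pat.mk 0x30000000180000000000000000 0x1fe000001fe000001fe0000003f0000003c000000f000000070 10 9) 0 0 (step_sound _ 133 [rh06cd298a32559e23, rh4e7039937c3053b6, (rhcf80391c5046a495.shift 4 0), (rhf9366b6a121593ef.shift 4 0)] (by decide +kernel))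
noncomputable def rha57380472ea168d2 : CRef := CRef.mk (Pat.mk 0x3000000018000000000000000000000000 0x2c0000007c000001ef0000003f0000003c0000007f0000007f0000003c 10 9) 0 0 (step_sound _ 131 [rh04d8b7210bc3d265, rh1051338684e051f1, (rh93b435fd780d1d26.shift 0 1), rha7e54b8816916ea1, rhb405571a56e3f771, (rhc39e22ccd22dd120.shift 0 1), rhccf8de1073b7c25c] (by decide +kernel))
noncomputable def rh901c621ebf2e0816 : CRef := CRef.mk (Pat.mk 0x8000000080000000c000000000000000000000000 0x1c0000003e000000ff000000ff0000001c000000780000003800000018 10 8) 0 0 (step_sound _ 100 [(rh067a64cbf1611a87.shift 0 2), (rh1c4565005575659e.shift 2 2), (rh24228745fa22aa14.shift 0 2), rh3a893c1ac1fcc088] (by decide +kernel))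
noncomputable def rh54ba327179455f38 : CRef := CRef.mk (Pat.mk 0x10000000100000001800000000000000000000000000000000 0x280000003c000000f800000038000000ff000000fc0000001800000010 10 8) 0 0 (step_sound _ 99 [(rh42548283029e2a39.shift 3 1), rh6ccdf16c2c65d48e, (rhf9af042da61fc652.shift 3 1)] (by decide +kernel))
noncomputable def rh4b0d3e40217e1a27 : CRef := CRef.mk (Pat.mk 0x1000000018000000080000000000000000 0xc0000000c000000ee000000ff0000001f0000000f0000001c0000001c 10 8) 0 0 (step_sound _ 35 [rh3d0115037d24fd56, (rh71222050f2c63a3a.shift 3 0)] (by decide +kernel))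
noncomputable def rh24accb33f265256b : CRef := CRef.mk (Pat.mk 0x80000000c0000000400000000 0x3000000030000000fe000000ff000000fe0000004f0000000c00000008 10 8) 0 0 (step_sound _ 131 [rh319c1544cee1b6e9, (rh5c5e593799055d58.shift 2 1)] (by decide +kernel))
noncomputable def rhef27528eb598d818 : CRef := CRef.mk (Pat.mk 0x80000000c000000040000000000000000000000000 0x400000004000000150000003ff000000fe000001ff000003fc000000fe00000038 10 10) 0 0 (step_sound _ 70 [(rh71222050f2c63a3a.shift 6 1), rh73a7f30b759b12e9] (by decide +kernel))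
noncomputable def rhdec586a62631fa4f : CRef := CRef.mk (Pat.mk 0x200000003000000010000000000000000000000000 0x8000000ce000000ff0000003e000000ff0000007f0000003c0000000c 10 8) 0 0 (step_sound _ 68 [rh2373df08c726c618, (rh71222050f2c63a3a.shift 4 1)] (by decide +kernel))
noncomputable def rh9fc9d518f9c2f875 : CRef := CRef.mk (Pat.mk 0x18000000080000000000000000 0x80000003c000000fe000000ff0000001f0000007c0000002c0000000c 10 8) 0 0 (step_sound _ 132 [rh443808bba1b8dda1, (rh4667e711860e7283.shift 1 1), (rh9cdee070315fb032.shift 3 1), (rhadf429772c25fde0.shift 3 0), (rhf9366b6a121593ef.shift 3 0)] (by decide +kernel))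
noncomputable def rhb83e0725bc3f173f : CRef := CRef.mk (Pat.mk 0x20000000200000002000000000 0x10000000300000003000000020000003ff000001fe000003de 10 10) 0 0 (step_sound _ 133 [rh10abded420ae0fe9, (rh13b591e6d05322b1.shift 3 0), (rh5abfc4c9d959be03.shift 4 0), (rh771d065bdc85bf2d.shift 4 0)] (by decide +kernel))
noncomputable def rh3d09908a05430f28 : CRef := CRef.mk (Pat.mk 0x80000000c00000004000000000 0xf0000001f8000003ff000000fe000003ff000001b0 10 10) 0 0 (step_sound _ 135 [(rh5c5e593799055d58.shift 6 1), rh9c5f8e0698f982a3] (by decide +kernel))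
noncomputable def rh879d8f1fd9f8914f : CRef := CRef.mk (Pat.mk 0x200000003000000010000000000000000000000000 0x8000000180000001c0000007e0000003e0000007f000000fe000000e800000008 10 8) 0 0 (step_sound _ 130 [(rh7685fdec5701f5b2.shift 1 0), (rh879cdb683ee6f2d5.shift 0 3), (rh8c748e425f38599c.shift 1 1), (rhc4d4ffb49875abab.shift 1 3)] (by decide +kernel))
noncomputable def rhc17296f0ed4796e0 : CRef := CRef.mk (Pat.mk 0x18000000080000000000000000 0xc0000003c000000ff000000ff0000001f000000380000003800000038 10 8) 0 0 (step_sound _ 132 [rh1f3d44c7c5d62846, rh5a9edc3126445053, rh5bc87aa43f0e4902, (rhadf429772c25fde0.shift 3 0)] (by decide +kernel))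
noncomputable def rhccc80dc74d9ac898 : CRef := CRef.mk (Pat.mk 0x40000000600000002000000000000000000000000000000000 0x2000000030000000300000007000000068000003fe000001fe000003ff0000005000000050 10 10) 0 0 (step_sound _ 101 [rh11c013958dd50004, (rh71222050f2c63a3a.shift 5 2)] (by decide +kernel))
noncomputable def rhf855b3ae577d5d8b : CRef := CRef.mk (Pat.mk 0x1800000018000000000000000000000000 0x380000003e000000f30000001f0000007f0000001f0000003c0000001c 10 8) 0 0 (step_sound _ 164 [(rh1e309b005ffa1b36.shift 3 1), rh83494f4c10701f88, (rhdceb5e6cd223697b.shift 2 2)] (by decide +kernel))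
noncomputable def rh899268a47e256ebd : CRef := CRef.mk (Pat.mk 0x1800000018000000000000000000000000 0x180000001c000000370000001f0000007f000000770000002300000020 10 7) 0 0 (step_sound _ 130 [rh4a02c07793363ecd, (rh5651ddd344c7bab1.shift 0 1), (rhad5d8fc3675c15dd.shift 0 3)] (by decide +kernel))
noncomputable def rh6ac10a9b38be35b1 : CRef := CRef.mk (Pat.mk 0x18000000080000000000000000000000000000000000000000 0xfc000000ff0000001f0000000f0000007c0000001c0000001c0000001c00000014 10 8) 0 0 (step_sound _ 131 [rh11f438617dba768c, (rh334095361a798718.shift 0 3), (rha2d608bbf475f0c5.shift 2 0), (rhe1a3e820b9828b5e.shift 2 2)] (by decide +kernel))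
noncomputable def rha2ef8676983a20af : CRef := CRef.mk (Pat.mk 0x8000000180000000800000000 0x140000001c0000001c0000000c0000001f0000003f00000017 10 6) 0 0 (step_sound _ 131 [rh08e5dc8f14e55610, (rh0fcd25af66600f50.shift 2 0), (rhd4b4beefcd67f51e.shift 3 0)] (by decide +kernel))
noncomputable def rh4f94ee801193443e : CRef := CRef.mk (Pat.mk 0x1000000030000000100000000000000000000000000000000000000000 0xc0000001e0000003e000001ff000000fe0000003f000000380000003800000028 10 9) 0 0 (step_sound _ 133 [(rh041cc05cbaf54e71.shift 1 3), (rh18833fd667b702f5.shift 1 3), rh1e04270788712520, (rh478c4cadbcd4e066.shift 4 3)] (by decide +kernel))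
noncomputable def rh25fb31f1b530597d : CRef := CRef.mk (Pat.mk 0x180000000c0000000000000000 0x140000003c0000003e0000003f0000001f0000003f0000003400000014 10 6) 0 0 (step_sound _ 65 [(rh53b3c253cb0c65f4.shift 0 2), rhcc1063ef40861987] (by decide +kernel))
noncomputable def rhf715abcfe2f40554 : CRef := CRef.mk (Pat.mk 0x60000000300000000000000000000000000000000000000000 0x40000001c0000003c0000003c0000007e000000fc000000cf0000007c0000001e0000001c00000014 10 8) 0 0 (step_sound _ 163 [(rh53b3c253cb0c65f4.shift 2 5), rhc67c466f9c37a745] (by decide +kernel))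
noncomputable def rheb4e11f7bb7e050c : CRef := CRef.mk (Pat.mk 0x60000000300000000000000000000000000000000000000000 0x1c0000001c0000007e000003fc000003df0000003c0000001c0000001c00000004 10 10) 0 0 (step_sound _ 163 [(rh53b3c253cb0c65f4.shift 2 5), rha5ae74e011cadc32] (by decide +kernel))
noncomputable def rhbcd9915f1eb2ec5f : CRef := CRef.mk (Pat.mk 0x60000000300000000000000000000000000000000000000000 0x7000000074000000fc0000007f0000006c000003fc000003dc0000005c0000001c0000001c00000010 10 10) 0 0 (step_sound _ 163 [rh32a8a14bd49ce871, (rh53b3c253cb0c65f4.shift 2 5)] (by decide +kernel))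
noncomputable def rh8da2bae9524a5c62 : CRef := CRef.mk (Pat.mk 0x3000000018000000000000000000000000 0x28000000380000003a000001fe000000ff000001fe0000003e0000001e0000000f0000000e0000000a 10 9) 0 0 (step_sound _ 98 [rh45e7d612962c67a1, (rh53b3c253cb0c65f4.shift 1 3)] (by decide +kernel))
noncomputable def rhe961295699e2fb9d : CRef := CRef.mk (Pat.mk 0x60000000c0000000000000000000000000000000000000000 0xa0000000e0000001f0000003c0000000e0000003e0000007c0000001e0000000e0000000e0000000a 10 7) 0 0 (step_sound _ 164 [rh1fe623616d2caa97, (rhf48373e13d2bc128.shift 1 5)] (by decide +kernel))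
noncomputable def rhc0b2349921ba994f : CRef := CRef.mk (Pat.mk 0xe00000008000000000000000000000000000000000 0x2800000038000000b8000001be000001fe000000ff00000078000000780000003000000020 10 9) 0 0 (step_sound _ 132 [(rh4c5c51b0ae60cece.shift 2 4), (rh73f5f7cdf41b5bc9.shift 3 3), rh7b04a34830ed67aa] (by decide +kernel))
noncomputable def rh421caebf3a3d1610 : CRef := CRef.mk (Pat.mk 0xe0000000800000000000000000000000000000000 0x1f0000001f0000003b0000001e0000007f0000000f0000000f0000000700000001 10 7) 0 0 (step_sound _ 132 [(rh4a0b10776449c3e9.shift 1 4), (rh89ade209b3e28f13.shift 1 4), rhc13478f370f6082b] (by decide +kernel))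
noncomputable def rh772488fb4de55cc7 : CRef := CRef.mk (Pat.mk 0xe0000000800000000000000000000000000000000 0x10000000180000007b0000001e0000007c0000007e0000003e0000003c00000008 10 7) 0 0 (step_sound _ 132 [(rh4a0b10776449c3e9.shift 1 4), (rh89ade209b3e28f13.shift 1 4), rhab939494f8cae963] (by decide +kernel))
noncomputable def rh6be64cec6097b8f7 : CRef := CRef.mk (Pat.mk 0xe0000000800000000000000000000000000000000 0x10000000180000007b0000001e0000007e0000007f0000003e0000003e00000008 10 7) 0 0 (step_sound _ 132 [rh1f7e83878a023d26, (rh4a0b10776449c3e9.shift 1 4), (rh89ade209b3e28f13.shift 1 4), (rhae2edff970a530ce.shift 1 4)] (by decide +kernel))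
noncomputable def rhf8b90f15af31e507 : CRef := CRef.mk (Pat.mk 0x300000006000000000000000000000000000000000 0x64000001ec0000007c0000007f000000ee000000fc000000fc00000004 10 9) 0 0 (step_sound _ 163 [(rhb739f4f82bb681b4.shift 2 4), rhf133c02e7a4b8fd0] (by decide +kernel))
noncomputable def rhc5ad2b3c7699e852 : CRef := CRef.mk (Pat.mk 0x1800000030000000000000000000000000 0xa0000000e0000001e000000160000003e0000003f000001ff0000007e0000003e 10 9) 0 0 (step_sound _ 130 [rh85072b5a5fa9024d, (rhb739f4f82bb681b4.shift 1 3)] (by decide +kernel))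
noncomputable def rh27f5baee0cb45bde : CRef := CRef.mk (Pat.mk 0x1c000000100000000000000000000000000000000000000000 0x3000000030000000340000001c000000ff000000ff000000ff0000003f0000003800000038 10 8) 0 0 (step_sound _ 132 [(rh064eaf8217dcd832.shift 1 1), (rh47d496c746e800bc.shift 3 0), (rh531c61de825e979f.shift 1 2), (rh57c4fd68812abfd4.shift 1 1), rh899f99a8326717d2, (rh91b04dc3bc5faef4.shift 3 2), (rhab68bc3d7d3caea9.shift 0 1), (rhcaec38682c2c2c11.shift 1 0), (rhd3397a4ecc834565.shift 2 1)] (by decide +kernel))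
noncomputable def rh4ecd949b2ed6f3f4 : CRef := CRef.mk (Pat.mk 0xc0000001800000000000000000000000000000000 0x40000001e0000001f0000003b0000001f0000001f00000017000000070000000700000004 10 6) 0 0 (step_sound _ 161 [(rhb739f4f82bb681b4.shift 0 4), rhd67cff5336b3e58f] (by decide +kernel))
noncomputable def rh96a9f53cf0fe213a : CRef := CRef.mk (Pat.mk 0xc0000001800000000000000000000000000000000 0x50000000700000017000000330000001f0000001f0000000f0000000f0000000700000001 10 6) 0 0 (step_sound _ 161 [rh80c4ea117324393f, (rhb739f4f82bb681b4.shift 0 4)] (by decide +kernel))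
noncomputable def rh5b5bb1e64c5dd1cf : CRef := CRef.mk (Pat.mk 0x1c000000100000000000000000000000000000000000000000 0x3000000030000000f60000003c000000f6000000ff000000ff0000007f0000003800000038 10 8) 0 0 (step_sound _ 132 [(rh04b37f70534abf51.shift 1 1), (rh1e695808c0de29cd.shift 2 2), (rh3bad5e31dd21a024.shift 2 2), (rh967c45b253b3a6ea.shift 0 1), (rh9cb69fdef1cb5dd4.shift 1 2), (rhb54e8a20dcf7b414.shift 2 2), rhb6ca77cf24455fa0, (rhf5737d99539e8273.shift 0 2)] (by decide +kernel))
noncomputable def rh19458b9dfeac5756 : CRef := CRef.mk (Pat.mk 0x1800000010000000100000000000000000000000000000000000000000 0x30000000380000001e000000fe0000007f0000003f000000380000003800000008 10 8) 0 0 (step_sound _ 131 [(rh544d3caba1e1e2bb.shift 3 2), (rh86aa94d7c0c1e10d.shift 2 3), rhb46c5de3262124cc] (by decide +kernel))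
noncomputable def rh9ed8b9db3373038f : CRef := CRef.mk (Pat.mk 0xc000000080000000800000000000000000000000000000000 0x1c0000001c0000001c000000180000001c0000001c0000000f0000003c0000001c0000001c00000014 10 6) 0 0 (step_sound _ 130 [(rh0403932dd4ce1ae4.shift 2 3), (rh281c6819542c66e6.shift 2 1), (rh5e844bc12c95f56c.shift 0 1), rh65e1f408ec212917, (rhfafeb437ceb8396d.shift 2 1)] (by decide +kernel))
noncomputable def rhbee938b83373a933 : CRef := CRef.mk (Pat.mk 0x6000000040000000400000000 0x80000000c0000001c0000003c0000000e0000003f0000003f0000001a 10 6) 0 0 (step_sound _ 130 [(rh20966da26a1c2ae8.shift 1 0), rhb0974ed19162b895, (rhced6d86d2069808b.shift 2 0), (rhe744950f77206504.shift 1 0), (rhed79e5c5ffee0217.shift 1 0)] (by decide +kernel))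
noncomputable def rh35ce2ee6a40adb70 : CRef := CRef.mk (Pat.mk 0x20000000300000002000000000000000000000000000000000 0x44000001ee0000007e0000003f0000007c0000007c0000005400000010 10 9) 0 0 (step_sound _ 68 [rh0b03bd704974da61, (rh80b95cfeb9de7ca7.shift 2 1), (rhf9582ff5662029e8.shift 4 2)] (by decide +kernel))
noncomputable def rhfd534773e5ad9b1a : CRef := CRef.mk (Pat.mk 0xc000000180000000000000000000000000000000000000000 0x1c0000001e000000780000000f0000001f0000003f0000001f0000001e0000001c00000014 10 7) 0 0 (step_sound _ 193 [rh8a034a4a4067f89d, (rhb739f4f82bb681b4.shift 0 5)] (by decide +kernel))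
noncomputable def rh6dabd8abdd19ebdc : CRef := CRef.mk (Pat.mk 0xe000000020000000000000000000000000 0x1000000030000001be000000fe000001bf000001f8000001f800000070 10 9) 0 0 (step_sound _ 132 [(rh8f3463babc7ab034.shift 2 0), (rhad2697478edadd9f.shift 0 3), (rhb9dd680bb9375a9f.shift 3 1), (rhe1ef59f9ff87186c.shift 3 1)] (by decide +kernel))
noncomputable def rhe98683f765be8c46 : CRef := CRef.mk (Pat.mk 0x1c00000000000000000000000000000000 0x28000000780000007800000078000000ff0000003f000000f00000003e0000003800000020 10 8) 0 0 (step_sound _ 164 [(rh531376a1ff80a61c.shift 0 1), (rha11dfd15f08f96e3.shift 1 4), (rhb33d28e09672f37e.shift 1 0), (rhff7d63dcb3cf9f74.shift 1 4)] (by decide +kernel))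
noncomputable def rh6a00b76bca4b342c : CRef := CRef.mk (Pat.mk 0x3800000008000000000000000000000000 0x100000001c0000001c0000001c0000001f00000078000000080000001c0000001c00000014 10 7) 0 0 (step_sound _ 163 [(rha56de7c48c25707a.shift 2 0), (rhc71bbfc5ad055bcb.shift 2 0), (rhf60aa8aede119d3b.shift 0 4)] (by decide +kernel))
noncomputable def rhf6d721a6ab45faf2 : CRef := CRef.mk (Pat.mk 0x3800000008000000000000000000000000 0x100000001c0000001f0000003c0000006f0000003c0000001f0000001f 10 7) 0 0 (step_sound _ 67 [(rh215e11e099257d75.shift 3 1), (rhad0fc085c8ae8505.shift 0 1), rhef7fcd8843a7daa4] (by decide +kernel))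
noncomputable def rha746c5cea86d526f : CRef := CRef.mk (Pat.mk 0x10000000700000000000000000 0x1c0000007c000000ff000000ff0000007f0000007a0000005e00000018 10 8) 0 0 (step_sound _ 99 [rh8c7ae6458d3e00ae, (rhc02b3aee7ab87ee1.shift 1 2), (rhd8e93bbc8568df99.shift 2 2), (rhdbcea10a0fbe5ba6.shift 1 2)] (by decide +kernel))
noncomputable def rh59adab0d18867d05 : CRef := CRef.mk (Pat.mk 0x40000001c00000000000000000000000000000000 0x80000000e0000000e0000000e0000000c0000003e000000f70000000e0000000e0000000a 10 8) 0 0 (step_sound _ 101 [(rh274f391bfb400c5c.shift 1 0), (rh71efda916732b25a.shift 1 3), (rhbc0d8dfa38e316eb.shift 0 1)] (by decide +kernel))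
noncomputable def rh46ccf2e1334ffb73 : CRef := CRef.mk (Pat.mk 0x20000000e00000000000000000000000000000000 0x2000000038000000380000003b0000001e0000003b000000380000003800000028 10 6) 0 0 (step_sound _ 132 [(rh3244c3cc8379b070.shift 0 4), rhccea4a81276020a2] (by decide +kernel))
noncomputable def rhb823cfa8570b2c3d : CRef := CRef.mk (Pat.mk 0x20000000e00000000000000000000000000000000 0x4000000270000003f0000003f0000003e0000001e0000003b0000003f0000003f0000002d 10 6) 0 0 (step_sound _ 97 [rh19b19bf0872cfe73, rha56de7c48c25707a, rhc33b26f0d2268b52] (by decide +kernel))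
noncomputable def rhb2bcbdad32c734dc : CRef := CRef.mk (Pat.mk 0x80000003800000000000000000000000000000000 0x1c0000001c0000007c000001fe000000ff000001ff000000380000002c0000001c0000001c00000014 10 9) 0 0 (step_sound _ 195 [(rh018bd7ba5b9fdcee.shift 0 1), (rh4c11b7f724948335.shift 0 3), (rh621edf68a79a818d.shift 0 1), (rh6ab13829772c7201.shift 1 3), (rh9cc388a6d8f060be.shift 0 1), (rhce61442b3bb72f68.shift 0 3), (rhd4b7ae4fb217dec3.shift 2 0), rhd9f9474fb454d8f4, (rhfa9cf3b05e7f298d.shift 1 3)] (by decide +kernel))
noncomputable def rhbfcae866d090e2a5 : CRef := CRef.mk (Pat.mk 0x20000001c0000000000000000000000000000000000000000 0x50000000700000007000000720000003e0000007700000007000000070000000700000004 10 7) 0 0 (step_sound _ 161 [(rh44afbb496b7a3d6b.shift 0 2), (rha93a5dd541ab8209.shift 1 4), rhd45d22231f5021b8] (by decide +kernel))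
noncomputable def rhd7ec17b343a67c82 : CRef := CRef.mk (Pat.mk 0x10000000700000000000000000000000000000000000000000 0x2800000038000000380000003c0000007f0000007f0000003e0000007c000001f80000007c000000780000003800000020 10 9) 0 0 (step_sound _ 195 [(rh063fec094b95526c.shift 1 0), (rhd67b9da0472ba59a.shift 0 2), (rhd8e93bbc8568df99.shift 2 5)] (by decide +kernel))
noncomputable def rhf35d3a28a4876b36 : CRef := CRef.mk (Pat.mk 0x70000000100000000000000000000000000000000000000000 0x200000003800000038000000380000003000000070000000fe000000ff000000ff000000780000003800000008 10 8) 0 0 (step_sound _ 163 [(rh81d57862a6d13d96.shift 2 2), rhdcc9ef14b2d970c7, (rheea1a90336e79c71.shift 1 5)] (by decide +kernel))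
noncomputable def rh14cffe786069e5c6 : CRef := CRef.mk (Pat.mk 0x380000000800000000000000000000000000000000 0xc000000fc000000fc000000d80000007c000001f80000007e000000ff0000003000000010 10 9) 0 0 (step_sound _ 196 [rh1d48cf67de8abe39, (rh4821dcf828b9d7bf.shift 3 2), (rh88bc5692a6d7528b.shift 2 1), (rhadf429772c25fde0.shift 3 2)] (by decide +kernel))
noncomputable def rh06f95e67ce9ab22b : CRef := CRef.mk (Pat.mk 0x1000000070000000000000000000000000000000000000000000000000 0x20000000380000003800000018000000780000003e000000ff0000003e000000380000003800000008 10 8) 0 0 (step_sound _ 163 [(rh42d6387194f6eaa8.shift 1 2), (rh8fe4cd561418694a.shift 2 3), (rhc1b1c3bf8ba0229e.shift 2 3), rhdc523afd8b522c7a, (rhe1c32197ffb40f8f.shift 1 5)] (by decide +kernel))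
noncomputable def rh07f1d6a092d6d279 : CRef := CRef.mk (Pat.mk 0x10000000700000000000000000000000000000000000000000 0x28000000f8000000fc000000fc00000037000000fe0000003e00000038000000380000003800000020 10 8) 0 0 (step_sound _ 228 [(rh34cf05b5e3cd7d3c.shift 0 4), (rh70e33bfdf511e144.shift 4 2), (rhd17b02394cb1aa3a.shift 2 0)] (by decide +kernel))
noncomputable def rh6b9be9a32206c6ca : CRef := CRef.mk (Pat.mk 0x70000000100000000000000000000000000000000000000000 0x800000038000000f8000000f80000003e00000070000000fe000000ff000000ff000000780000003800000028 10 8) 0 0 (step_sound _ 163 [rh3282d04705a6d685, (rhad686df263cbf635.shift 1 0), (rheea1a90336e79c71.shift 1 5)] (by decide +kernel))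
noncomputable def rh3de2f244ff20ad77 : CRef := CRef.mk (Pat.mk 0x380000000800000000000000000000000000000000 0x140000003c0000007c0000006f0000003c0000001f0000001c0000001c0000001c00000008 10 7) 0 0 (step_sound _ 130 [(rh1ed7a3503fa50fc8.shift 0 4), rh956fad060d8f0c31, (rheea1a90336e79c71.shift 0 4)] (by decide +kernel))
noncomputable def rh6f5f97fd4eddd778 : CRef := CRef.mk (Pat.mk 0x20000000e00000000000000000000000000000000000000000 0x2000000070000003fe000003fe000003ff000001be000000e00000006000000070000000700000007000000040 10 10) 0 0 (step_sound _ 229 [(rh70e33bfdf511e144.shift 5 2), (rhb0662891be3a6b4b.shift 2 0), (rhbe2a9b7ef53a6edc.shift 0 4), (rhfb9fb48a5e63ed80.shift 4 4)] (by decide +kernel))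
noncomputable def rh5a48210e1871f8ad : CRef := CRef.mk (Pat.mk 0x1000000070000000000000000000000000 0x28000001ff000001fe000001fe00000018000000700000003c0000003800000028 10 9) 0 0 (step_sound _ 164 [(rh1c4e170256b7d441.shift 2 1), (rhbd277d3162960358.shift 2 0), rhce0dbaf0e28988d7, (rhfb9fb48a5e63ed80.shift 3 2)] (by decide +kernel))
noncomputable def rhf148ed6271dacdd5 : CRef := CRef.mk (Pat.mk 0x100000007000000000000000000000000000000000 0x60000000700000007000000030000000f8000003bf000001fe000003ff00000018 10 10) 0 0 (step_sound _ 101 [(rh186ffb1ee09b2760.shift 0 1), (rh9b5d94a5bb3a6631.shift 2 0), (rhc2c7bae8f445c890.shift 4 1), (rhc38f566cab2818e5.shift 4 1)] (by decide +kernel))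
noncomputable def rh41c76843b25d3406 : CRef := CRef.mk (Pat.mk 0x70000000100000000000000000000000000000000000000000 0x2000000038000000780000007c000000f0000000700000003e000000ff000000ff000000780000003800000008 10 8) 0 0 (step_sound _ 163 [(rh2e364a8d8483e4cf.shift 2 2), rhdcc9ef14b2d970c7, (rheea1a90336e79c71.shift 1 5)] (by decide +kernel))
noncomputable def rh5558519368d34552 : CRef := CRef.mk (Pat.mk 0x38000000080000000000000000000000000000000000000000 0x100000001c0000001c0000003c000001f80000007c000000d8000000ff000000fc0000003c0000001c00000014 10 9) 0 0 (step_sound _ 131 [(rh215e11e099257d75.shift 3 3), (rh3854429253eeadb4.shift 2 0), (rh49917ede3feeadc8.shift 0 1), (rh8a21c58704b1177a.shift 2 3)] (by decide +kernel))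
noncomputable def rh000abc0a9515a16b : CRef := CRef.mk (Pat.mk 0x70000000100000000000000000000000000000000000000000 0x80000003800000078000000f8000000fe000000700000003e000000ff000000ff000000380000003800000008 10 8) 0 0 (step_sound _ 163 [(rh270bda6cbb762371.shift 1 1), rh3282d04705a6d685, (rheea1a90336e79c71.shift 1 5)] (by decide +kernel))
noncomputable def rh89eca1c77199576e : CRef := CRef.mk (Pat.mk 0x3800000008000000000000000000000000 0x100000001c0000001c0000001c0000001f0000007c000000180000001c0000001c00000004 10 7) 0 0 (step_sound _ 163 [(rha7edc60fc34bffff.shift 1 4), (rha9fbfd4bb8cf890b.shift 0 4), (rhf5aa328f58c5513f.shift 2 0)] (by decide +kernel))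
noncomputable def rhd3fd80f9ed37d9c9 : CRef := CRef.mk (Pat.mk 0x10000000000000003000000020 0x180000001c0000001c000003ff000001fe000003bf0000003000000020 10 10) 0 0 (step_sound _ 132 [rh0b7fd83a52bc0633, (rhff0f29cb645b05f7.shift 4 0)] (by decide +kernel))
noncomputable def rhb52141407a61c1d9 : CRef := CRef.mk (Pat.mk 0x80000000000000018000000100000000000000000000000000000000000000000 0x1ef000001fe000003f700000018000000fe0000007e0000003e0000003c0000003800000028 10 10) 0 0 (step_sound _ 228 [(rh2176e6ef60746b39.shift 1 0), (rh3e582bf3fd71d79c.shift 3 3), (rh74ea168a1daf144c.shift 0 5)] (by decide +kernel))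
noncomputable def rhcf8912ed6eefabd3 : CRef := CRef.mk (Pat.mk 0x10000000000000003000000020 0x6000000068000001fe000001fe000000ff000000f70000007600000024 10 9) 0 0 (step_sound _ 132 [rh07e4953a45fdd6ab, (rhff0f29cb645b05f7.shift 4 0)] (by decide +kernel))
noncomputable def rhc66259cf5553012c : CRef := CRef.mk (Pat.mk 0x4000000000000000c00000008000000000000000000000000 0x100000001c0000003e000000780000001c000001f8000000ff000001fc0000001c 10 9) 0 0 (step_sound _ 163 [(rh4b224b7dc904c0da.shift 1 2), (rh90b558dcae53cbf1.shift 2 2), (rh9f22ed1db2116f25.shift 2 2), (rhb59840d60ceae331.shift 2 0), (rhbec796c3ea7a32e6.shift 1 2), rhdcfeb2add2ed8952] (by decide +kernel))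
noncomputable def rh84c9461e0b3ad4b6 : CRef := CRef.mk (Pat.mk 0x80000000000000018000000100000000000000000000000000000000000000000 0x1ef000001fe000003f7000000380000007e0000007e0000003e0000003c0000003000000020 10 10) 0 0 (step_sound _ 228 [(rh3e582bf3fd71d79c.shift 3 3), (rh74ea168a1daf144c.shift 0 5), (rh81fbd91f0d0a4c9e.shift 1 0)] (by decide +kernel))
noncomputable def rh9b693245fe57a75c : CRef := CRef.mk (Pat.mk 0x1000000010000000000000003000000000 0x2f000000fe000001ff000000100000003000000020 10 9) 0 0 (step_sound _ 68 [(rh55afc6a59410cf00.shift 4 0), (rhea57bde72c73aefe.shift 0 1)] (by decide +kernel))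
noncomputable def rh22dac57de0258124 : CRef := CRef.mk (Pat.mk 0x8000000080000000000000018 0x1c0000001e0000003f0000003f0000007f000000ff000000fc00000018 10 8) 0 0 (step_sound _ 131 [(rh2825958ace28257e.shift 2 0), (rhbf3ffd8a54ac7ec1.shift 2 0), (rhcb06ee2dce2fae1f.shift 0 1), rhccf489fe6dc40616, (rhe866fbd028d6d944.shift 3 0)] (by decide +kernel))
noncomputable def rh5a05262d244673f1 : CRef := CRef.mk (Pat.mk 0x800000008000000000000001000000000 0x340000007c000000ff000001ff000000ff000001f70000003000000030 10 9) 0 0 (step_sound _ 100 [(rh95a80f84f48ac358.shift 3 0), (rh97563a1086c82de7.shift 0 1), rhb3b944f4bba7f919, rhc2abfa85078319d8] (by decide +kernel))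
noncomputable def rh7e5246277077c6ce : CRef := CRef.mk (Pat.mk 0x100000001000000010000000000000000000000000 0x200000002f000000fe000001ff0000001800000010000000180000001800000008 10 9) 0 0 (step_sound _ 197 [(rh08d50fe567eb1045.shift 4 2), (rh1725eba4bd36066a.shift 3 0), (rh22d86f446f3de558.shift 1 2), (rhb6173807e51fd66e.shift 2 2), (rhd54e666b2cc83f9d.shift 0 3)] (by decide +kernel))
noncomputable def rhec1c8836866ae057 : CRef := CRef.mk (Pat.mk 0x8000000000000001800000010000000000000000000000000 0x20000000300000003000000038000000f800000038000000ff000000fe0000006e00000024 10 8) 0 0 (step_sound _ 68 [(rh15a7669017a630f7.shift 2 1), (rh92d527fd57e151ef.shift 3 2), (rhdb166a4c77dab147.shift 1 0), rhf27f4cfee173cfa4] (by decide +kernel))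
noncomputable def rh9ef567fc40ec8858 : CRef := CRef.mk (Pat.mk 0x800000000000000180000001000000000000000000000000000000000 0x80000002800000038000000ff000000fe0000007e0000003e00000028 10 8) 0 0 (step_sound _ 100 [(rh3a1cc22ead2eadb0.shift 3 2), (rh893d61229f052779.shift 3 0), (rhca7026333cddc622.shift 1 0), (rhf27f4cfee173cfa4.shift 0 1)] (by decide +kernel))
noncomputable def rha4c8e9cf94957b16 : CRef := CRef.mk (Pat.mk 0x200000000000000060000000400000000000000000000000000000000 0xe0000000e0000000e0000003c0000000f0000003e0000001e00000002 10 6) 0 0 (step_sound _ 98 [(rh15a7669017a630f7.shift 0 2), (rh50a14b5cf38c0cd7.shift 1 2), (rh893d61229f052779.shift 1 0), rhad8bb132ac84bcb2] (by decide +kernel))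
noncomputable def rhb9aaea6bb592eeb0 : CRef := CRef.mk (Pat.mk 0x4000000000000000c0000000800000000000000000000000000000000 0x1000000018000000180000001c000000780000001c0000007f0000007f0000007f0000003f00000014 10 7) 0 0 (step_sound _ 99 [(rh230ee59bbfb914bf.shift 2 0), (rh6149c36f4e47bf5e.shift 1 0), rh6d64ad01a7253191, (rhad8bb132ac84bcb2.shift 1 0), (rhb2ba62121c20819f.shift 2 0), rhca7026333cddc622, (rhdb166a4c77dab147.shift 0 1), (rhe507c0c498cf310c.shift 2 0)] (by decide +kernel))
noncomputable def rhe06f104444bfdc0c : CRef := CRef.mk (Pat.mk 0x8000000000000001800000010000000000000000000000000 0x340000003c000000ff00000038000000ff000000ef0000007c0000003c 10 8) 0 0 (step_sound _ 99 [(rh269d7405d929ef3e.shift 0 2), rh44da5d4ea4446af5, (rh7764931c977aa17d.shift 1 0), rh98dca482c599e716, (rha2e01a95e3487f82.shift 2 0), (rhb60afcb33fe46b8f.shift 0 2), rhe4ad4db2c44f1024] (by decide +kernel))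
noncomputable def rh3559b36c6af033f9 : CRef := CRef.mk (Pat.mk 0x4000000020000000000000006000000000 0x18000000190000001b8000003ff000003fe000003fe0000006800000020 10 10) 0 0 (step_sound _ 102 [rh56a2bd90bb29d120, (rh67a856a427ce9b0d.shift 3 1), (rh9a2904bbbc9328af.shift 3 0), (rhecb97fed8c7f1286.shift 5 0)] (by decide +kernel))
noncomputable def rh2cbae32b7fb91da2 : CRef := CRef.mk (Pat.mk 0x20000000100000000000000030 0x78000000fc000007fe000003ff000007fe000001fe00000070 10 11) 0 0 (step_sound _ 100 [(rh7a30e7ab72d4ee05.shift 1 0), (rhaab8f41331677a53.shift 2 0), (rhbb9f1ef96c38deb0.shift 3 0), (rhbd95598c92076158.shift 2 0), (rhe4a37f04189fe19b.shift 1 0), rhfbbce06132c75019] (by decide +kernel))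
noncomputable def rh2aaa1bfe613db9a2 : CRef := CRef.mk (Pat.mk 0x4000000020000000000000002000000000 0x5000000050000003ff000007fe000007be000000a800000020 10 11) 0 0 (step_sound _ 102 [(rh00d6a6e3c7e3bb40.shift 5 0), rh56a2bd90bb29d120, (rh63f557a9db44d0b2.shift 1 1)] (by decide +kernel))
noncomputable def rhc35087c9a8b55a47 : CRef := CRef.mk (Pat.mk 0x2000000010000000000000003000000000 0x500000007800000078000001ff000003fe000003ef0000007400000050 10 10) 0 0 (step_sound _ 101 [(rh03ff72220b1946bd.shift 2 0), (rh3a19539954ae406f.shift 4 0), (rh63f557a9db44d0b2.shift 0 1)] (by decide +kernel))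
noncomputable def rh8e1e0544940f5da0 : CRef := CRef.mk (Pat.mk 0x2000000010000000000000003000000000 0x3800000038000007fe000003ff000007de000001fe0000007000000010 10 11) 0 0 (step_sound _ 132 [(rh4a16ff1229c9cc4b.shift 1 0), (rh7a30e7ab72d4ee05.shift 1 1), (rhbb9f1ef96c38deb0.shift 3 1), (rhd63db467e92c08a7.shift 1 0), (rhfbbce06132c75019.shift 0 1)] (by decide +kernel))
noncomputable def rh4d05e269e4380b7c : CRef := CRef.mk (Pat.mk 0x300000000000000030000000000000000000000000 0x500000007000000070000001ef0000007e000001ef00000070000001f0000001f000000010 10 9) 0 0 (step_sound _ 133 [(rh281c6819542c66e6.shift 4 0), (rhac6464bb64255311.shift 4 2), (rhbce45149dfb7f08d.shift 0 1), (rhde16252fdba3f7e3.shift 3 2), (rhdeb858b99b7ebe3f.shift 1 1)] (by decide +kernel))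
noncomputable def rh9514aabc59d2ddb9 : CRef := CRef.mk (Pat.mk 0x30000000000000003000000000 0x500000007800000078000001ff000003fe000003ef0000007400000050 10 10) 0 0 (step_sound _ 133 [(rh3a19539954ae406f.shift 4 0), (rh63f557a9db44d0b2.shift 0 1), (rhc9b8e3f4ebc9676b.shift 2 0)] (by decide +kernel))
noncomputable def rhe35f62c8f2e7d1bb : CRef := CRef.mk (Pat.mk 0x300000000000000030000000000000000000000000 0xa2000000ee000000ee000001df000000fe000001ef00000076000001fe000001fa00000050 10 9) 0 0 (step_sound _ 163 [(rh01ed95bbcc628867.shift 2 2), (rh335f185818a0f322.shift 2 1), rh3ec9249463890fd0, (rhe4a8506e0094c347.shift 1 4), (rhe4fbe77d4a1a4300.shift 0 1), rhedf8eaab163fa27e, (rhf01fb3c15eae94f1.shift 0 1)] (by decide +kernel))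
noncomputable def rh75102959b6ac6c9c : CRef := CRef.mk (Pat.mk 0x60000000000000004000000000 0xc0000001c0000007c000003ff000003ff0000039f000000c8000000c0 10 10) 0 0 (step_sound _ 100 [(rh21f4692fef3e7280.shift 0 2), (rh4a1b52639b860c7d.shift 3 0), (rh9775f2dbe4aa3f3e.shift 2 0), (rhb4dd3024e9eddcfc.shift 2 0), (rhc85c69f7ba99ebc9.shift 1 1), (rhe4a8506e0094c347.shift 2 2), (rhfbd372f29bd5f32a.shift 1 2), (rhfbdfb4e52f05aa3e.shift 1 2)] (by decide +kernel))
noncomputable def rh7924449eb5b66482 : CRef := CRef.mk (Pat.mk 0x30000000000000003000000000 0x60000000f0000000fe000007ff000003ff000007ef0000007000000070 10 11) 0 0 (step_sound _ 132 [rh0bcb871449e259d8, rh90d41c558b4987da, (rhac640c8fd4633ef8.shift 4 0), (rhc2abfa85078319d8.shift 1 0)] (by decide +kernel))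
noncomputable def rh7e91f009aaf3fc18 : CRef := CRef.mk (Pat.mk 0x4000000000000000c000000080000000000000000000000000000000000000000 0x1c0000001c000000780000001c0000007f0000003f0000001f0000001e0000001800000010 10 7) 0 0 (step_sound _ 227 [rh81fbd91f0d0a4c9e, (rh9f22ed1db2116f25.shift 2 4), (rha52e0141694f1c7d.shift 2 4)] (by decide +kernel))
noncomputable def rhddd953f66b07e2b5 : CRef := CRef.mk (Pat.mk 0x1c0000000000000000000000000000000000000000 0x2000000028000001f80000007c0000003f000001ff000000fe000001fe0000003800000028 10 9) 0 0 (step_sound _ 132 [(rh504d42311766a87d.shift 1 0), (rh9909eeda0ef2ed2c.shift 1 4), (rhb64ced11764c4f9b.shift 0 2)] (by decide +kernel))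
noncomputable def rhf63213335d542f0f : CRef := CRef.mk (Pat.mk 0x380000000800000000000000000000000000000000 0x540000007c0000007c000000ef0000007e000001f8000000fc000000fc0000007c00000014 10 9) 0 0 (step_sound _ 133 [(rh35acd53df7e0601e.shift 1 3), (rh7f367d233bfbd0b8.shift 2 0), (rh9909eeda0ef2ed2c.shift 2 4), (rhb2afcb5db661472f.shift 0 4), rhdef651453cc06379] (by decide +kernel))
noncomputable def rh33a3d27a313cb95d : CRef := CRef.mk (Pat.mk 0x1c00000008000000000000000000000000 0x80000000b0000003f0000007f000000fe0000003e0000003e 10 8) 0 0 (step_sound _ 100 [(rh318586dd28765f42.shift 1 0), (rh6292bd8784ece55f.shift 1 3), rhe6c7dc04a8014e12] (by decide +kernel))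
noncomputable def rh2f6bbf726c7ed365 : CRef := CRef.mk (Pat.mk 0x20000000200000000000000040000000000000000000000000 0x160000001f0000001ff000003fe000007fe000003e0000001e0000001c000000140 10 11) 0 0 (step_sound _ 166 [(rha536be879703071c.shift 3 1), (rhb11d41c808e1ab4d.shift 5 2), rhd54cf7f2c92a600d] (by decide +kernel))
noncomputable def rh8632d229342d1f2b : CRef := CRef.mk (Pat.mk 0x10000000100000000000000020000000000000000000000000000000000000000000000000 0x10000000540000007c000001ff000001fe000003fe000001fe000003f4000000700000007000000010 10 10) 0 0 (step_sound _ 165 [(rh6b9b940c4dacb3ee.shift 4 4), (rha8895bfb685a08eb.shift 4 5), (rhc79cba6e01a09a40.shift 0 3), (rhda06ac844a39428a.shift 2 0), (rhf0470912dd9fa6ad.shift 2 2)] (by decide +kernel))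
noncomputable def rhf4b4d3bdbc63dce7 : CRef := CRef.mk (Pat.mk 0x1000000010000000000000002000000000 0x280000003800000038000000780000003e0000007e000000fe0000003f0000007c00000008 10 8) 0 0 (step_sound _ 164 [(rh331a739d7fcec445.shift 3 1), (rh75f0014aa71dd966.shift 3 0), rh900184c84ea946a4, (rhae6d80b882f6d1e6.shift 1 1)] (by decide +kernel))
noncomputable def rhca31953a2ca48d85 : CRef := CRef.mk (Pat.mk 0x20000000200000000000000040000000000000000000000000 0x1ff000003fe000007fe000003fc000003fc000000dc00000008 10 11) 0 0 (step_sound _ 70 [(rh7168ac0cbd0a8d0d.shift 0 1), (rhc79cba6e01a09a40.shift 1 0), (rhd4ab246f25327613.shift 5 1)] (by decide +kernel))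
noncomputable def rhbfd57b1ff3791843 : CRef := CRef.mk (Pat.mk 0x800000008000000000000001000000000 0x14000000fc000000ff0000007f0000000f0000000f0000003c0000001c 10 8) 0 0 (step_sound _ 67 [(rh7bb3397172a4bd53.shift 0 1), rha896d6370d3166dd, rhfa80626feb4e9cb5] (by decide +kernel))
noncomputable def rh13a27780dd8e0de1 : CRef := CRef.mk (Pat.mk 0x20000000200000000000000040000000000000000000000000 0x50000000f0000001f0000001fc000001ff000001fe000007de000001d8000001c0000001c000000140 10 11) 0 0 (step_sound _ 166 [(rh29dd3c721b94d407.shift 0 2), (rh95a80f84f48ac358.shift 5 2), rhd54cf7f2c92a600d, (rhdf63c40fddec9e17.shift 2 3)] (by decide +kernel))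
noncomputable def rh3385c146955f9d71 : CRef := CRef.mk (Pat.mk 0x10000000100000000000000020000000000000000000000000 0x80000003c000000be000000fe000001ff000003fe000000f4000000f0000000e0000000a0 10 10) 0 0 (step_sound _ 165 [(rh95a80f84f48ac358.shift 4 2), rhafb9bc650633ada4, (rhb11d41c808e1ab4d.shift 4 2), (rhcd81f9b5329bc49d.shift 0 2), (rhdfb6a1fad7423005.shift 1 2)] (by decide +kernel))
noncomputable def rhbec95f05617ba657 : CRef := CRef.mk (Pat.mk 0x10000000100000000000000020000000000000000000000000000000000000000000000000 0x10000000540000007c000001ff000001fe000003fe000001fe000003f4000000700000007000000010 10 10) 0 0 (step_sound _ 165 [(rh84e8b24e1b3c1ebb.shift 4 4), (rh900f1c31dc71257a.shift 4 5), (rhc79cba6e01a09a40.shift 0 3), (rhda06ac844a39428a.shift 2 0)] (by decide +kernel))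
noncomputable def rh3987cce04035db56 : CRef := CRef.mk (Pat.mk 0x8000000080000000000000010000000000000000000000000000000000000000000000000 0x8000000080000000c000000dc000000fe000001fe000001ff000000fe000001f8000000380000003800000008 10 9) 0 0 (step_sound _ 164 [(rh84e8b24e1b3c1ebb.shift 3 4), (rhbc555f7678e5e4f7.shift 0 3), (rhda06ac844a39428a.shift 1 0)] (by decide +kernel))
noncomputable def rh7991a08c6941ec65 : CRef := CRef.mk (Pat.mk 0x1000000010000000000000002000000000 0x380000003e000000ff0000003e000000f80000003e000000380000002800000028 10 8) 0 0 (step_sound _ 164 [(rh704aab2c1ac423df.shift 1 0), (rhb5bfb93a69499a93.shift 4 0), (rhe4bba266ab2ffc70.shift 0 2)] (by decide +kernel))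
noncomputable def rh3177b64d8a54ebc5 : CRef := CRef.mk (Pat.mk 0x1000000010000000000000002000000000 0x280000003800000038000000780000003e0000007e000000fe0000003f0000007c00000008 10 8) 0 0 (step_sound _ 164 [(rh331a739d7fcec445.shift 3 1), (rh75f0014aa71dd966.shift 3 0), rh8d30415f2aede268, (rhae6d80b882f6d1e6.shift 1 1)] (by decide +kernel))
noncomputable def rhc87f0b49808a2f49 : CRef := CRef.mk (Pat.mk 0x1000000010000000000000002000000000 0x280000003f0000003e0000007f0000001e0000001e0000007800000038 10 7) 0 0 (step_sound _ 68 [(rha364134fa6c8d704.shift 0 1), (rha896d6370d3166dd.shift 1 0), (rhfa80626feb4e9cb5.shift 1 0)] (by decide +kernel))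
noncomputable def rh6258ef385f74edd2 : CRef := CRef.mk (Pat.mk 0x2000000020000000000000004000000000 0x140000003c0000007c000001ff000001fe000003de000000fc000000f0 10 10) 0 0 (step_sound _ 102 [(rh0a5d8e16fec27a1d.shift 2 0), rh297d9bd9942a533c, (rh92756ea4bcdb4243.shift 1 0), (rh95a80f84f48ac358.shift 5 0), (rheea46d45d111f182.shift 1 0)] (by decide +kernel))
noncomputable def rh77317c1547ac9078 : CRef := CRef.mk (Pat.mk 0x2000000000000000100000001000000000000000000000000000000000 0x2800000038000000380000003800000038000003f7000001fe000001ff0000006800000040 10 10) 0 0 (step_sound _ 196 [rh03e4fbece7c43171, (rh08d50fe567eb1045.shift 4 3), (rh9fdf4b366b1cf3c3.shift 3 3)] (by decide +kernel))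
noncomputable def rh1c00f5979b1cab18 : CRef := CRef.mk (Pat.mk 0x1000000000000000080000000800000000000000000000000000000000 0x10000000100000001c0000001c0000001c0000003f0000007f0000001f00000014 10 7) 0 0 (step_sound _ 99 [(rh9c1db2c8967fb481.shift 3 3), (rha91a00b542328b7c.shift 3 2), rhbd83c65812941fce] (by decide +kernel))
noncomputable def rh4de50124d0eced12 : CRef := CRef.mk (Pat.mk 0x1000000000000000080000000800000000000000000000000000000000 0x140000001c0000001c0000000c0000000c0000003f0000007f0000001f00000014 10 7) 0 0 (step_sound _ 99 [rhbd83c65812941fce, (rhe25716203317ed02.shift 2 3), (rhfab507b382e88e61.shift 2 2)] (by decide +kernel))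
noncomputable def rh1dbc0c3c00fe8165 : CRef := CRef.mk (Pat.mk 0x200000000000000010000000100000000000000000000000000000000000000000 0x800000078000000f8000000fc000001fe000001ff000000fe0000003f0000003800000008 10 9) 0 0 (step_sound _ 132 [(rh64e6469e3d8ae03c.shift 3 3), (rh78b59af955bc1b62.shift 3 3), (rh7b0738bda60602f4.shift 3 0), (rha18d0a7a03848c24.shift 1 3), (rha37a68f5a639059c.shift 0 1), (rhbd83c65812941fce.shift 1 1)] (by decide +kernel))
noncomputable def rh76bb498ce350927e : CRef := CRef.mk (Pat.mk 0x20000000000000001000000010 0x50000001f0000001fc000003ff000003fe000003f8000000fe000000fe 10 10) 0 0 (step_sound _ 133 [(rh20c7eff3986ad746.shift 4 0), (rh21d9577c7fa7cf03.shift 1 0), rh7923c28a5ac3c549, (rhe1e174314381acb3.shift 1 0), (rhf586853559587d25.shift 3 0)] (by decide +kernel))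
noncomputable def rh771b28872d059d26 : CRef := CRef.mk (Pat.mk 0x2000000000000000100000001000000000000000000000000000000000 0x800000018000000380000003800000018000000f8000003ff000001fe000001ff0000006800000040 10 10) 0 0 (step_sound _ 196 [rh03e4fbece7c43171, (rh71fa527cefe48e5f.shift 2 3), (rha2167b53a5c2000b.shift 3 2)] (by decide +kernel))
noncomputable def rh4fafdf3131725c6e : CRef := CRef.mk (Pat.mk 0x40000000000000002000000020000000000000000000000000 0x3c0000003f0000003f0000007d7000001fe000007fe000003fc000000e0000000c0 10 11) 0 0 (step_sound _ 134 [(rh02ef15e22aa7db92.shift 5 1), rh35a5bdba78617102, (rh555cbb91242e3b3c.shift 2 1), (rh98458a3c45501d72.shift 3 2), (rhc858f29db662cee9.shift 2 0)] (by decide +kernel))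
noncomputable def rhd44dd051ab0fbf98 : CRef := CRef.mk (Pat.mk 0x800000008000000000000001000000000 0x140000001c0000007c0000007e0000007e0000001f0000003c0000001f0000001e00000004 10 7) 0 0 (step_sound _ 163 [(rh0527642580dffc14.shift 2 0), (rh331a739d7fcec445.shift 2 1), (rh3b527f975c154e6b.shift 1 2), (rh71b388b242d8d8f9.shift 0 2), (rhccbbf1d240d4b456.shift 0 1)] (by decide +kernel))
noncomputable def rhfb7066b1f95ea527 : CRef := CRef.mk (Pat.mk 0x80000000800000000000000100000000000000000 0x14000000ff000000fe0000007e0000001c0000000f0000003c0000001c00000004 10 8) 0 0 (step_sound _ 99 [(rh080f81be5c0438e5.shift 2 1), (rh0fd65e3cf503e830.shift 2 0), (rh3cc259109f65132a.shift 0 2), (rhfa80626feb4e9cb5.shift 0 1)] (by decide +kernel))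
noncomputable def rh6e30e5d7656d5c57 : CRef := CRef.mk (Pat.mk 0x20000000200000000000000040000000000000000000000000 0x500000007000000070000001f0000001f8000001f8000001ff000003fe000007de000001c8000001c0000001c000000140 10 11) 0 0 (step_sound _ 166 [(rh29dd3c721b94d407.shift 0 2), (rh48e8be196ceb46df.shift 2 2), (rh95a80f84f48ac358.shift 5 2), rhd54cf7f2c92a600d] (by decide +kernel))
noncomputable def rhc68389b2721f6f5a : CRef := CRef.mk (Pat.mk 0x40000000400000000000000020000000000000000000000000 0xa0000000e0000000f0000000f8000003de000003ff000000fe000001fe000000b80000003800000018 10 10) 0 0 (step_sound _ 133 [(rh53c798c09177b7db.shift 5 1), (rh6bd8f56ce05e09d3.shift 5 3), (rh79d50bdf67fa742a.shift 1 2), (rh81604a196d691a11.shift 5 1), rhd57b8f6651690285] (by decide +kernel))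
noncomputable def rh3559ac865bf9dfd2 : CRef := CRef.mk (Pat.mk 0x4000000040000000000000002000000000000000000000000000000000 0xa0000000e0000000e00000005000000078000003ff000000fe000001be000000b8000000780000007800000050 10 10) 0 0 (step_sound _ 165 [(rh3e5950ccac625272.shift 4 0), (rh6bd8f56ce05e09d3.shift 5 4), (rh81604a196d691a11.shift 5 2), (rhd57b8f6651690285.shift 0 1), (rhd918c3fd221dc9f8.shift 5 3)] (by decide +kernel))
noncomputable def rhdda64c4339b330e8 : CRef := CRef.mk (Pat.mk 0x400000004000000000000000200000000 0xa0000003e0000003f0000003f0000000e0000000c0000000e0000000e0000000a 10 6) 0 0 (step_sound _ 162 [(rh42b13f517e1a5248.shift 1 0), (rhb44f5b4f29314cd5.shift 1 0), (rhcb3e38b3aaeb4e3f.shift 0 2)] (by decide +kernel))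
noncomputable def rh14106c547cda1f08 : CRef := CRef.mk (Pat.mk 0x800000008000000000000000400000000 0x100000001c0000007c0000007e0000007f0000001f0000001c0000001c0000001c00000010 10 7) 0 0 (step_sound _ 163 [(rh1e99c2d4a6659bb2.shift 1 2), (rh661f92c9d230e342.shift 2 1), (rha920bb7694b4bb88.shift 1 1), (rhb44f5b4f29314cd5.shift 2 0), (rhd6022d4543077773.shift 2 1), (rhee6c4a8bf64855ae.shift 0 2), (rhf82fb4c850dd4fb8.shift 0 1)] (by decide +kernel))
noncomputable def rha2782b77f35287ac : CRef := CRef.mk (Pat.mk 0x2000000020000000000000001000000000000000000000000000000000 0x1fe000000fe0000007f000001ff000003ff000000fe0000003f00000028 10 10) 0 0 (step_sound _ 100 [(rh3efb9a01396ebf1d.shift 0 2), rh4ea12dfe6cf032f3, rh95bd821a053f6c3d, (rh9a67eeba1889ef35.shift 0 1), (rhf27044bfb2996f22.shift 4 2)] (by decide +kernel))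
noncomputable def rh507d98c7d69f3dda : CRef := CRef.mk (Pat.mk 0x1000000010000000000000000800000000 0x2800000038000000380000003f0000007e000000ff000000f8000000300000003800000038 10 8) 0 0 (step_sound _ 68 [(rh1476ac63767531cf.shift 0 1), (rh389316671f72e705.shift 3 0), (rha5dacef301d83d5b.shift 3 0), (rhf2bd6a03d3c00d1f.shift 2 0)] (by decide +kernel))
noncomputable def rh1fcc702045ad0007 : CRef := CRef.mk (Pat.mk 0x4000000040000000000000002000000000000000000000000000000000 0xa0000000f0000000f8000003fc000003ff000001fe000000bf000000f8000000fe000000380000002800000008 10 10) 0 0 (step_sound _ 197 [(rh00d6a6e3c7e3bb40.shift 5 3), (rhaa3b50e53036807a.shift 1 0), (rhc516513932b4235f.shift 1 3), (rhdde2abfde3a398b1.shift 0 1), (rhf24a5d4104195587.shift 2 3)] (by decide +kernel))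
noncomputable def rh15783940259c8be3 : CRef := CRef.mk (Pat.mk 0x8000000080000000800000000000000000000000000000000 0x40000000c0000000c0000001c0000001c0000001c0000001f0000001c0000001800000008 10 5) 0 0 (step_sound _ 226 [(rh114f4abf4ea101c9.shift 2 3), rh95b3fbdae8c28aa9, (rhc92af7fa9c5dc414.shift 2 3)] (by decide +kernel))
noncomputable def rh22ca6d02314c3d83 : CRef := CRef.mk (Pat.mk 0x1000000010000000100000000000000000 0x20000000300000007c000001ff000000fc000001fe000000f80000003000000030 10 9) 0 0 (step_sound _ 133 [(rh215e11e099257d75.shift 4 1), (rhcf4bc65093a4e1d8.shift 1 2), rhdb1dd28417af940b] (by decide +kernel))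
noncomputable def rhc114b4fb18a6e29f : CRef := CRef.mk (Pat.mk 0x4000000040000000400000000 0x80000007e0000007f0000003f0000000e0000000e0000000a 10 7) 0 0 (step_sound _ 130 [rhbf313311ee4ad040, (rhc4ec57a3756c3a6c.shift 1 0), (rhc9e58f3e04846938.shift 1 0)] (by decide +kernel))
noncomputable def rh60f99d686e877103 : CRef := CRef.mk (Pat.mk 0x200000002000000020000000000000000000000000 0x500000007000000070000001f7000001fe000003fe00000010 10 10) 0 0 (step_sound _ 69 [(rha78b327dad5d6a04.shift 4 0), (rhc4055b4872d6fb38.shift 4 1), (rhfd1941529bd4b34c.shift 0 1)] (by decide +kernel))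
noncomputable def rh24b1dbf21ed6a2ea : CRef := CRef.mk (Pat.mk 0x8000000080000000000000004 0x140000007c0000007e0000007f0000001c0000001c0000001c0000001c 10 7) 0 0 (step_sound _ 131 [(rh1e99c2d4a6659bb2.shift 1 1), (rh661f92c9d230e342.shift 2 0), (rhad5932cf3d0c4ad6.shift 2 0), (rhc235049a6009d34e.shift 2 0), (rhee6c4a8bf64855ae.shift 0 1)] (by decide +kernel))
noncomputable def rh5134c76dca6183fe : CRef := CRef.mk (Pat.mk 0x4000000040000000000000002000000000000000000000000000000000 0x40000001f0000007f7000003fe000007fe000003fc000001fe00000150 10 11) 0 0 (step_sound _ 101 [rh2d08f09ebdca139e, (rh95bd821a053f6c3d.shift 1 0), (rhf27044bfb2996f22.shift 5 2)] (by decide +kernel))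
noncomputable def rh2b4d882b5557df61 : CRef := CRef.mk (Pat.mk 0x1000000010000000000000000800000000 0x2000000038000000380000003f0000007e000000ff00000038000000700000003e00000038 10 8) 0 0 (step_sound _ 68 [(rh3de8f417101ecada.shift 0 1), (rhac4b4763407a46df.shift 1 0), (rhba8fc30eb353ed18.shift 3 0)] (by decide +kernel))
noncomputable def rhef9b9254f6a61e3b : CRef := CRef.mk (Pat.mk 0x2000000020000000000000001000000000 0x500000007800000078000001fc000001ff000003fe000003d8000001d800000018 10 10) 0 0 (step_sound _ 100 [(rh00d6a6e3c7e3bb40.shift 4 0), (rh2df78adbaa2bbff9.shift 1 0), (rh4d84806a2a59992b.shift 1 0), (rha85b8905bca11d1a.shift 1 0), (rhc0cce4142983bf3b.shift 1 0), (rhc7325bddb56d18d8.shift 3 0), rhfa478de624c980f4] (by decide +kernel))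
noncomputable def rh1d06746e031f426a : CRef := CRef.mk (Pat.mk 0x100000001000000010000000000000000000000000 0x280000003800000038000000180000003e0000007f0000007f000001ff0000007c0000003c 10 9) 0 0 (step_sound _ 99 [rh28b94a7d615f8eb4, (rh98720657c22acfec.shift 1 0), (rhfafeb437ceb8396d.shift 3 0)] (by decide +kernel))
noncomputable def rh423f2e421a8a535a : CRef := CRef.mk (Pat.mk 0x100000001000000010000000000000000000000000 0x200000007000000074000000fe0000003f000000fe000001ff0000007c00000028 10 9) 0 0 (step_sound _ 101 [rh3aee117dff14ea2f, (rh44f014140cfb6637.shift 1 1), (rh70e33bfdf511e144.shift 4 0)] (by decide +kernel))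
noncomputable def rh676d7705e0a25117 : CRef := CRef.mk (Pat.mk 0x8000000080000000800000000 0x140000001c0000001c0000000c0000003f000000ff000000fc 10 8) 0 0 (step_sound _ 130 [(rh0dbc8abee7ad42d4.shift 2 0), (rh114f4abf4ea101c9.shift 2 0), rh953b6b823cadbd70] (by decide +kernel))
noncomputable def rh1bbc0f3e0d5c33fd : CRef := CRef.mk (Pat.mk 0x200000002000000020000000000000000000000000 0x10000000700000007000000070000000e0000003ff000001fe000003fe00000050 10 10) 0 0 (step_sound _ 196 [(rh0d1407c04b207f88.shift 2 2), (rh114f4abf4ea101c9.shift 4 2), rh9ae448616b194e12] (by decide +kernel))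
noncomputable def rhf43082a93f969999 : CRef := CRef.mk (Pat.mk 0x10000000100000001000000000 0x28000001ff000000fe000000f70000007e000000f8000001a8 10 9) 0 0 (step_sound _ 132 [(rh0fcd25af66600f50.shift 3 0), (rhc9ac229b3c77cd55.shift 3 0), rhd9b688a83982a453] (by decide +kernel))
noncomputable def rhca39eb3ad325f3be : CRef := CRef.mk (Pat.mk 0x10000000100000001000000000000000000000000000000000 0x2800000038000000380000007f0000007e0000003f0000002c00000004 10 7) 0 0 (step_sound _ 100 [rh4033da14edae9dba, (rh6eff4158bb400f47.shift 3 1), (rhc4055b4872d6fb38.shift 3 2)] (by decide +kernel))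
noncomputable def rh311b71ca2e135817 : CRef := CRef.mk (Pat.mk 0x100000001000000008000000000000000000000000 0x8000001f8000001fc000000fa0000007f0000007f0000007f0000003c0000002c 10 9) 0 0 (step_sound _ 100 [(rh281c6819542c66e6.shift 3 0), rh3e9dcfbd2a6be8b6, (rhffd478464d8ad1ce.shift 2 2)] (by decide +kernel))
noncomputable def rh27cb9da9632fb4ff : CRef := CRef.mk (Pat.mk 0x200000002000000010000000000000000000000000 0x7e0000007c000001fe000001ff000003ff0000003e0000001800000008 10 10) 0 0 (step_sound _ 132 [(rh2bafbd31069253c4.shift 1 0), (rhb9fbe60b8bc385eb.shift 0 2), (rhf9366b6a121593ef.shift 4 1)] (by decide +kernel))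
noncomputable def rhb3b24b29137af70a : CRef := CRef.mk (Pat.mk 0x100000001000000008000000000000000000000000 0x1000000056000000ff000000ff000000ff0000007f0000003e00000012 10 8) 0 0 (step_sound _ 131 [rh15e8292744d6fee5, (rhb4b46e5d14d485b2.shift 0 1), (rhf9366b6a121593ef.shift 3 1)] (by decide +kernel))
noncomputable def rh8506f305adf93bf0 : CRef := CRef.mk (Pat.mk 0x100000001000000008000000000000000000000000 0xc0000003c0000007c000000fe000001fc000001df0000007c0000003c00000030 10 9) 0 0 (step_sound _ 131 [(rh271ac9a0ccf7c588.shift 0 1), (rh40babe7caac5898f.shift 1 0), (rhaf278bcf347a0eec.shift 2 1), (rhcf80391c5046a495.shift 3 1)] (by decide +kernel))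
noncomputable def rhca83dde831959f9e : CRef := CRef.mk (Pat.mk 0x800000008000000040000000000000000 0x1e0000007e0000007f0000003f0000003c0000001f0000000e 10 7) 0 0 (step_sound _ 98 [(rh5e0ceb282778b442.shift 0 1), rh920ec8f36d5beca2, (rhf9366b6a121593ef.shift 2 0)] (by decide +kernel))
noncomputable def rh5dbac1711410febe : CRef := CRef.mk (Pat.mk 0x4000000040000000200000000000000000 0xf0000003f8000003ff0000007e000001fe000000f800000070 10 10) 0 0 (step_sound _ 101 [(rh5e0ceb282778b442.shift 3 1), rhb46d9e884122668b, (rhcf80391c5046a495.shift 5 0)] (by decide +kernel))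
noncomputable def rh0537a84b74c2e55e : CRef := CRef.mk (Pat.mk 0x100000001000000008000000000000000000000000 0x780000007c000000f60000007e000001ff000000f8000000f8000000b0 10 9) 0 0 (step_sound _ 131 [(rh24489e57cccd618a.shift 1 0), rh8e9524bc069bc45f, (rhcf80391c5046a495.shift 3 1)] (by decide +kernel))
noncomputable def rhb8137687a51e06f8 : CRef := CRef.mk (Pat.mk 0x1000000010000000080000000000000000 0x18000000180000003e000000fe000000ff000000fe000001ff0000007000000070 10 9) 0 0 (step_sound _ 164 [(rh096155c38994c758.shift 3 1), (rh309442db7cce837b.shift 3 0), rh7acf51d71321c5a3, (rh9faeaf6c6d430213.shift 1 0), (rhafb52d84933e53c1.shift 2 0), (rhe16036ff578a11df.shift 3 2), (rhf34d07b617fbc9c9.shift 3 1)] (by decide +kernel))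
noncomputable def rh447916afd61631f3 : CRef := CRef.mk (Pat.mk 0x4000000040000000200000000000000000000000000000000000000000 0x20000000b8000001bc000003fc000003ff000003fe000001ff000000fe000000fe0000006a00000040 10 10) 0 0 (step_sound _ 164 [(rh1985be329fb1c83b.shift 2 2), (rh1c5c985466e56c20.shift 1 2), (rh4c5ce94480f60dfc.shift 1 3), (rh6595830873078df7.shift 1 0), (rh68c3b6ebec729627.shift 2 2), (rh832adf6e6cea5970.shift 1 2), (rh9346c506b57c5340.shift 1 2), (rhdd93fbd28436f6fb.shift 2 0), (rhe126f6762cddab01.shift 2 3), (rhfcc077ccf8c69996.shift 0 1)] (by decide +kernel))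
noncomputable def rh4a385da85d1575f0 : CRef := CRef.mk (Pat.mk 0x100000001000000008000000000000000000000000 0x7c0000007e000000ff000000fe000001ef000000ee000000e8000000a0 10 9) 0 0 (step_sound _ 131 [(rh0e3375dce6f1c205.shift 0 1), rh8e9524bc069bc45f, (rhf9366b6a121593ef.shift 3 1)] (by decide +kernel))
noncomputable def rhe6b9520e8e298f28 : CRef := CRef.mk (Pat.mk 0x100000001000000008000000000000000000000000 0x28000000780000003e000003f7000001fe000001ff0000003800000020 10 10) 0 0 (step_sound _ 100 [(rh5156e7176b703a30.shift 1 1), rh8335e0cf70f61262, (rhd7fec266624cb6ac.shift 1 2)] (by decide +kernel))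
noncomputable def rh63177d45b74b7d0d : CRef := CRef.mk (Pat.mk 0x1000000000000000080000000800000000000000000000000000000000 0x100000001000000018000000780000007e000001ef0000007c0000003c0000001c00000014 10 9) 0 0 (step_sound _ 196 [(rh0ae96ce48c114afa.shift 0 2), (rh3e5950ccac625272.shift 2 0), (rh751f91025c6ba4fe.shift 3 4), (rhada37fa49c06dbc6.shift 3 3), (rhd918c3fd221dc9f8.shift 3 3)] (by decide +kernel))
noncomputable def rhe1b60d0a7f8f8464 : CRef := CRef.mk (Pat.mk 0x40000000000000002000000020000000000000000000000000000000000000000000000000 0x40000000c0000000c8000000ec000001ff000001fc000001fe000001fc0000007e000000700000007000000040 10 9) 0 0 (step_sound _ 262 [(rh35b0acee8db960e4.shift 1 0), (rh92082a27065224e1.shift 0 4), (rhada37fa49c06dbc6.shift 5 5)] (by decide +kernel))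
noncomputable def rh3d9557b255584491 : CRef := CRef.mk (Pat.mk 0x200000000000000010000000100000000000000000000000000000000000000000 0x7c000000fe000000fe000001fe000001ff000000fe0000003f0000003800000018 10 9) 0 0 (step_sound _ 132 [(rh616de9c9b1826290.shift 1 3), (rh7b0738bda60602f4.shift 3 0), (rh8e10826bef9e44cd.shift 3 2), (rha37a68f5a639059c.shift 0 1), (rhb9b4ac77b2662539.shift 1 0), (rhfc80a6a15e1d3006.shift 1 3)] (by decide +kernel))
noncomputable def rhaab26449db5e3c90 : CRef := CRef.mk (Pat.mk 0x2000000000000000100000001000000000 0x2000000024000007f7000003fe000007ff000000fe000001ff000000c0 10 11) 0 0 (step_sound _ 165 [(rh1598ce99a52102bb.shift 0 1), (rh20c7eff3986ad746.shift 4 1), rh48c42b392ad0ea50] (by decide +kernel))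
noncomputable def rh4e927a0ff568a309 : CRef := CRef.mk (Pat.mk 0x2000000000000000100000001000000000000000000000000000000000 0x1000000030000000380000001f000000ff000003ff000001fe000001ff0000007c00000040 10 10) 0 0 (step_sound _ 196 [rh03e4fbece7c43171, (rh527895f4954d6693.shift 3 1), (rh5aee9f221a416f6b.shift 3 2), (rh71fa527cefe48e5f.shift 2 3), (rh86296e8207b29bc5.shift 0 1)] (by decide +kernel))
noncomputable def rh990e474255e56b5c : CRef := CRef.mk (Pat.mk 0x40000000000000002000000020000000000000000000000000 0x140000003c0000003c0000003ec000007de000001fe000007ff000001fc000001f0000001c0 10 11) 0 0 (step_sound _ 134 [rh01712bd2d2354871, (rh02ef15e22aa7db92.shift 5 1), (rhcf5e088641458cc1.shift 1 0)] (by decide +kernel))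
noncomputable def rh9f8c5d391bf28215 : CRef := CRef.mk (Pat.mk 0x10000000100000000000000020000000000000000000000000000000000000000000000000 0x200000003800000038000001ff000000ff000000fc0000007e00000078000001f0000003fc000001f8000003f0000000700000007000000010 10 10) 0 0 (step_sound _ 165 [(rh54a6c33b776e9697.shift 0 5), (rh6b9b940c4dacb3ee.shift 4 4), (rh900f1c31dc71257a.shift 4 5), (rhda06ac844a39428a.shift 2 0), (rhf0470912dd9fa6ad.shift 2 2)] (by decide +kernel))
noncomputable def rhd221b5d884d57877 : CRef := CRef.mk (Pat.mk 0x1000000010000000000000002000000000 0x280000003c0000003f000000ff000000fe000000f80000003e000000380000002800000020 10 8) 0 0 (step_sound _ 164 [(rh2baf535c4e12e961.shift 1 1), (rh607e40636d5f4898.shift 0 2), (rhb5bfb93a69499a93.shift 4 0)] (by decide +kernel))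
noncomputable def rh72dc822b47e8e562 : CRef := CRef.mk (Pat.mk 0x800000008000000000000001000000000 0x140000001c0000001c0000003c0000007e0000007f0000007c000000ff000000ff0000003c00000024 10 8) 0 0 (step_sound _ 163 [rh0fe4031a1163d6c2, (rh331a739d7fcec445.shift 2 1), (rh75f0014aa71dd966.shift 2 0), (rhae6d80b882f6d1e6.shift 0 1)] (by decide +kernel))
noncomputable def rh8fd49bd086fa2b2c : CRef := CRef.mk (Pat.mk 0x10000000100000000000000020000000000000000000000000 0xfc000001ff000003ff000001fe000001fe0000006e00000004 10 10) 0 0 (step_sound _ 69 [(rh869ce3375206f39a.shift 0 1), rhc79cba6e01a09a40, (rhd4ab246f25327613.shift 4 1)] (by decide +kernel))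
noncomputable def rh3480ed7049995bb9 : CRef := CRef.mk (Pat.mk 0x800000008000000000000001000000000 0x14000000ff000000fe0000007e0000001c0000000f0000003c0000001c 10 8) 0 0 (step_sound _ 67 [(rh13d4145ff8d9f755.shift 2 0), (rhb74834e80c2b83d3.shift 0 1), rhfa80626feb4e9cb5] (by decide +kernel))
noncomputable def rha3e03853bc61fe1e : CRef := CRef.mk (Pat.mk 0x100000001000000000000000200000000000000000 0x6000000070000000f0000000fc000001ff000003ef000000fc000001f8000001c0 10 10) 0 0 (step_sound _ 133 [rh6fcbca24b5c8d642, (rh8a23d7d5d1e6df4c.shift 0 1), (rh95a80f84f48ac358.shift 4 1), (rh99970a81bc8a0067.shift 1 1), (rhfc48474ddf3222e5.shift 2 0)] (by decide +kernel))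
noncomputable def rhe3e2df59e8ffb6ee : CRef := CRef.mk (Pat.mk 0x1000000010000000100000000000000000 0x280000002c000001ff000000fe000000ff0000007c0000001e0000001c 10 9) 0 0 (step_sound _ 133 [(rh12bba293d7caae5e.shift 0 1), (rh482e11812a6d5f7d.shift 1 0), (rhb730ba14aa32bdb3.shift 4 1)] (by decide +kernel))
noncomputable def rhffc973f651ea080b : CRef := CRef.mk (Pat.mk 0x8000000080000000800000000000000000000000000000000 0x40000000c0000000c0000001c0000001c0000001c0000001f0000001c0000001c00000008 10 5) 0 0 (step_sound _ 226 [(rh055eea5193a22998.shift 2 3), (rh0dbc8abee7ad42d4.shift 2 3), (rh114f4abf4ea101c9.shift 2 3), rh95b3fbdae8c28aa9, (rhb59840d60ceae331.shift 2 1)] (by decide +kernel))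
noncomputable def rh2ee64fd5895c5733 : CRef := CRef.mk (Pat.mk 0x800000008000000080000000000000000 0x14000001fc000000f8000001fe0000007f000000780000001e00000014 10 9) 0 0 (step_sound _ 164 [(rh756148500335bd23.shift 1 0), (rh87d5e4118780fa3b.shift 3 1), (rhe859b41fdcdeda4f.shift 0 1)] (by decide +kernel))
noncomputable def rha3916a34127b13d4 : CRef := CRef.mk (Pat.mk 0x80000000800000008000000000000000000000000 0xc0000001c0000003c0000007c0000006f0000007c0000001c0000001c0000001c00000014 10 7) 0 0 (step_sound _ 162 [(rh88d2999e6d9ce78f.shift 0 2), (rhb1a251d9bff81766.shift 2 2), (rhc040b0a6f0fc2e7a.shift 2 0), (rhd1779d7de7f8215b.shift 2 0)] (by decide +kernel))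
noncomputable def rh83c2ba9a3cf362d1 : CRef := CRef.mk (Pat.mk 0x8000000080000000800000000 0x140000003c0000007c0000003e0000007f0000007e00000074 10 7) 0 0 (step_sound _ 131 [rh274ede569a900641, (rh5abfc4c9d959be03.shift 2 0), (rhc9e58f3e04846938.shift 2 0)] (by decide +kernel))
noncomputable def rh9b67371d85151eb0 : CRef := CRef.mk (Pat.mk 0x1000000010000000100000000000000000000000000000000000000000 0x28000000ec000001ef000000fe000000ff000000fc000003fe0000003e000000380000003800000008 10 10) 0 0 (step_sound _ 261 [(rh5a3cc51575fa4456.shift 0 4), (rh87d5e4118780fa3b.shift 4 4), (rh9e186871ac04ebc5.shift 1 0)] (by decide +kernel))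
noncomputable def rh141e02ee5c699ab1 : CRef := CRef.mk (Pat.mk 0x4000000040000000000000002000000000000000000000000000000000 0xa0000000e0000000e000000050000000f8000003ff000001fe0000003e00000030000000700000007000000050 10 10) 0 0 (step_sound _ 165 [(rh3e5950ccac625272.shift 4 0), (rh496b9857cfb9b895.shift 0 2), (rh6bd8f56ce05e09d3.shift 5 4), (rh81604a196d691a11.shift 5 2), (rhd918c3fd221dc9f8.shift 5 3)] (by decide +kernel))
noncomputable def rh736cac7096fb1655 : CRef := CRef.mk (Pat.mk 0x8000000080000000000000004 0x140000007c0000007e0000007f0000003f0000003c0000001c0000001c 10 7) 0 0 (step_sound _ 131 [(rh1e99c2d4a6659bb2.shift 1 1), (rh661f92c9d230e342.shift 2 0), rh7e6f3f00866469c4, (rhad5932cf3d0c4ad6.shift 2 0), (rhee6c4a8bf64855ae.shift 0 1)] (by decide +kernel))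
noncomputable def rh053eb945b43e1f94 : CRef := CRef.mk (Pat.mk 0x400000004000000000000000200000000 0x80000000e0000000e0000000e0000000e0000000f0000003c0000000e0000000e00000006 10 6) 0 0 (step_sound _ 66 [(rh43ffdfde5e27da4c.shift 1 0), (rh4fe54de23e59d5cb.shift 1 1), rhf2bd6a03d3c00d1f, (rhf4b53f8ba1873014.shift 1 0)] (by decide +kernel))
noncomputable def rh20022dd1060e472a : CRef := CRef.mk (Pat.mk 0x40000000400000000000000020000000000000000000000000 0x80000000c000003fe000003fc000007ff000003fe0000077e0000012000000020 10 11) 0 0 (step_sound _ 69 [rh75a2a4e084c86050, (rhc5125d230af9c57b.shift 1 2), (rhf27044bfb2996f22.shift 5 1)] (by decide +kernel))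
noncomputable def rh8d771c825856927e : CRef := CRef.mk (Pat.mk 0x100000001000000000000000080000000000000000 0x2800000038000000380000003f0000007e000000ff0000003e000000f0000000380000001800000010 10 8) 0 0 (step_sound _ 100 [(rh1476ac63767531cf.shift 0 2), (rh4d6ac29ea467d737.shift 2 0), (rh8cdb937463140449.shift 1 1), (rhc0b1b6ec899c810a.shift 3 1), (rhd2e0c2164fc2be57.shift 3 0), (rhd3eb9e238cbe1301.shift 3 1), (rhf4dc67feed6eb8e3.shift 3 1)] (by decide +kernel))
noncomputable def rhb1f32ebee14af9ac : CRef := CRef.mk (Pat.mk 0x40000000400000000000000020000000000000000000000000 0x38000000f8000003f8000003ff000007ff000007bf000003f80000003c0000002800000020 10 11) 0 0 (step_sound _ 165 [(rh00d6a6e3c7e3bb40.shift 5 2), (rh2630d0c629a4eb76.shift 1 0), (rhac184e1f3b0426b7.shift 0 2)] (by decide +kernel))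
noncomputable def rh47df9a1c8cebdf08 : CRef := CRef.mk (Pat.mk 0x2000000000000000100000001000000000 0x50000001f0000001f8000003fe000001fe000001ff000000740000005400000010 10 10) 0 0 (step_sound _ 165 [(rha09a45910e7d8b21.shift 0 1), (rhbe1d2bd23b186e81.shift 4 0), (rhf27044bfb2996f22.shift 4 0), (rhf586853559587d25.shift 3 1)] (by decide +kernel))
noncomputable def rhf27f367f24051651 : CRef := CRef.mk (Pat.mk 0x400000000000000020000000200000000000000000 0x50000000d8000003de000001fc000001ff000001fc000000f0000000b0 10 10) 0 0 (step_sound _ 134 [(rh3230d86c0a1fec37.shift 1 1), (rh53c798c09177b7db.shift 5 0), rh92082a27065224e1, (rhada37fa49c06dbc6.shift 5 1)] (by decide +kernel))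
noncomputable def rh313572c4fe1120e1 : CRef := CRef.mk (Pat.mk 0x2000000000000000100000001000000000 0x28000003fe000001fe000001ff000000fe000001ff000000c0 10 10) 0 0 (step_sound _ 165 [(rh20c7eff3986ad746.shift 4 1), rh48c42b392ad0ea50, (rha09a45910e7d8b21.shift 0 1)] (by decide +kernel))
noncomputable def rh8a1f2fc198a4027f : CRef := CRef.mk (Pat.mk 0x40000000000000002000000020000000000000000000000000 0x1000000030000000ff000001fe000001ff000003fc000003fc0000017000000040 10 10) 0 0 (step_sound _ 165 [(rh0fb42eb329876923.shift 2 1), (rh17d7303830c72081.shift 4 1), (rh47e721e0117b8d5f.shift 4 0), (rh4e2cdebf2d4ec102.shift 1 1), rh73b6b1ed5aaee512] (by decide +kernel))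
noncomputable def rh904e353c94d1ba84 : CRef := CRef.mk (Pat.mk 0x10000000000000000800000008000000000000000000000000 0x100000001c0000001c0000001c0000003c0000001f0000000c0000001c0000001c0000001800000010 10 6) 0 0 (step_sound _ 163 [(rh29c9b1322ad230b7.shift 2 2), (rh47e721e0117b8d5f.shift 2 0), (rhb968b19b6969bddd.shift 0 2)] (by decide +kernel))
noncomputable def rh67f4b9da8d9e5aa4 : CRef := CRef.mk (Pat.mk 0x2000000000000000100000001000000000000000000000000000000000 0x8000003f8000001fc000003df000000ff000003ff000001fe000001ff0000006400000040 10 10) 0 0 (step_sound _ 196 [(rh2148ea6ec6872841.shift 2 3), (rh86296e8207b29bc5.shift 0 1), (rhb968b19b6969bddd.shift 1 3), (rhe859b41fdcdeda4f.shift 1 3), rhf768a620e3b9bcbe] (by decide +kernel))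
noncomputable def rh786c43b2d579623a : CRef := CRef.mk (Pat.mk 0x10000000000000000800000008000000000000000000000000 0x90000000f4000000fc000001f70000007f000001ff000000780000007800000050 10 9) 0 0 (step_sound _ 132 [(rh02ef15e22aa7db92.shift 3 1), rh2eb9cf04e04807b6, rh5987200f92fb5ebf] (by decide +kernel))
noncomputable def rh3b377d84a58a3ba4 : CRef := CRef.mk (Pat.mk 0x10000000000000002000000020000000000000000000000000 0x10000003de000003fc000007fe00000060000003bf000001fe000003fe00000050 10 11) 0 0 (step_sound _ 165 [(rh114f4abf4ea101c9.shift 4 2), (rh1ca5d8814de8cbb7.shift 1 2), rh5460b56682a2be2b] (by decide +kernel))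
noncomputable def rhb6617c0aa1242936 : CRef := CRef.mk (Pat.mk 0x40000000000000008000000080000000000000000000000000000000000000000 0x100000001c0000001c0000001c0000001f0000007f0000007f0000001f0000001c00000008 10 7) 0 0 (step_sound _ 131 [(rh4acffa486b180fab.shift 2 3), (rh4adbc7ca5220ba59.shift 0 1), (rh51a9ef21965626be.shift 2 3), (rha8ea3afa1f9312ff.shift 0 1), (rhc87aa7ca8966ecde.shift 2 2), rhd2fc8822b165c101, (rhf6acf8a9fbc33f25.shift 2 2)] (by decide +kernel))
noncomputable def rh81823458f22695be : CRef := CRef.mk (Pat.mk 0x10000000000000002000000020 0x280000003f0000007e000003ff000001ff000003fe0000007800000028 10 10) 0 0 (step_sound _ 132 [rh18d7d878a125a681, (rh268cd9853c5b608a.shift 1 0), (rha8895bfb685a08eb.shift 4 0), rhcc058e0aef347db0] (by decide +kernel))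
noncomputable def rh876ba6331cb35b48 : CRef := CRef.mk (Pat.mk 0x10000000000000002000000020000000000000000000000000 0x3fe000003fc000007ee00000070000003ff000001fe000003fe00000070 10 11) 0 0 (step_sound _ 165 [(rh1ca5d8814de8cbb7.shift 1 2), (rh3417a1fc43b9a869.shift 2 2), rh5460b56682a2be2b, (rhb59840d60ceae331.shift 4 0), (rhbec796c3ea7a32e6.shift 3 2), (rhe75dea9eacce1bfb.shift 4 2)] (by decide +kernel))
noncomputable def rh9b2a622728e21b3f : CRef := CRef.mk (Pat.mk 0x20000000000000004000000040000000000000000000000000 0x18000000f8000000f8000001bf000000fe000003ff000003fc0000007c00000070 10 10) 0 0 (step_sound _ 133 [(rh0588d2c7f2cab5e9.shift 5 1), (rh1c12d2623cd03f41.shift 2 0), (rh4e8d96d8aaebec6d.shift 2 2), (rh541215751b5fa84e.shift 1 1), (rhc4db3cc047de2844.shift 0 1)] (by decide +kernel))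
noncomputable def rh571ede69b24d62c6 : CRef := CRef.mk (Pat.mk 0x100000001000000010000000000000000000000000 0x200000007000000074000000fe0000003f000000fe000001ff0000007c00000028 10 9) 0 0 (step_sound _ 101 [rh653eb872e4ecfb9f, (rh70e33bfdf511e144.shift 4 0), (rh895de44449268f2d.shift 1 0)] (by decide +kernel))
noncomputable def rh260aca16c82f633d : CRef := CRef.mk (Pat.mk 0x10000000100000001000000000 0x28000000380000003800000018000003be000001fe000001ff 10 10) 0 0 (step_sound _ 131 [(rh0dbc8abee7ad42d4.shift 3 0), (rh114f4abf4ea101c9.shift 3 0), rh8c1a720845b17248] (by decide +kernel))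
noncomputable def rh3a7a0ade62172996 : CRef := CRef.mk (Pat.mk 0x1000000010000000100000000000000000 0x28000001fc000001ff000000fe000003bf000001fe000003ee00000068 10 10) 0 0 (step_sound _ 165 [(rh140de9975dee8df1.shift 1 1), rh155bfa54da17fcbd, (rh4529e7bea977502c.shift 3 1), (rh5890386c1f942fa1.shift 4 2), rha8378d11cc4f3845] (by decide +kernel))
noncomputable def rh48ffdabe102470ad : CRef := CRef.mk (Pat.mk 0x1000000000000000200000002000000000000000000000000000000000 0x20000000300000003000000018000000380000003f000000fe000001ef0000007c000000780000007000000050 10 9) 0 0 (step_sound _ 196 [(rh4d760d0d70847451.shift 4 3), (rh55f7723b8b306d34.shift 4 2), (rhb11a332281ceecc6.shift 4 0), (rhb6ecaddb58cefb16.shift 0 2), (rheea87a15177a5006.shift 3 4)] (by decide +kernel))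
noncomputable def rh9765f3bbeb172019 : CRef := CRef.mk (Pat.mk 0x40000000000000008000000080000000000000000000000000000000000000000 0xc0000001c0000003c0000007f0000003f0000007f0000003f0000001c00000004 10 7) 0 0 (step_sound _ 131 [(rh1d67a34712be4486.shift 2 1), (rh269647d82b3acda8.shift 2 3), (rh4adbc7ca5220ba59.shift 0 1), rh530b80a30abce58a, (rh5821fbafd875c628.shift 1 3)] (by decide +kernel))
noncomputable def rh6c1e5ea782e1ad99 : CRef := CRef.mk (Pat.mk 0x10000000000000002000000020000000000000000000000000 0x100000007000000078000000780000003f000000fe000001ff000001fc000001d80000008000000080 10 9) 0 0 (step_sound _ 165 [(rh127e6922b3d3439c.shift 0 2), (rh36d2592072881719.shift 2 2), (rhbab796f6dafe9186.shift 4 3), (rhf29f606cd0d24452.shift 2 0)] (by decide +kernel))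
noncomputable def rhc00484ed03960e38 : CRef := CRef.mk (Pat.mk 0x100000000000000020000000200000000000000000000000000000000000000000 0x380000003c000003ee000001fe000003ff000001fe000003fe000000f00000007000000010 10 10) 0 0 (step_sound _ 229 [(rh2aef90968dbc61ee.shift 2 4), (rh32b908245f6e0cc4.shift 2 2), (rh8374a7eb8cff44b6.shift 1 4), rha91a474dd5ddeddb, (rhb59840d60ceae331.shift 4 2), (rhe75dea9eacce1bfb.shift 4 4)] (by decide +kernel))
noncomputable def rh78836ac6262af889 : CRef := CRef.mk (Pat.mk 0x20000000000000004000000040000000000000000000000000 0x3800000038000003bf000003ff000003ff0000007c0000007800000038 10 10) 0 0 (step_sound _ 133 [(rh0588d2c7f2cab5e9.shift 5 1), rh7dff1061ccb583b5, (rh8aec81ebf4a8e7cc.shift 1 1)] (by decide +kernel))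
noncomputable def rh4f4c5945dfd675d5 : CRef := CRef.mk (Pat.mk 0x200000000000000010000000100000000000000000000000000000000000000000 0x70000000fc000000fe000001fe000001ff000000fe0000003f0000003800000010 10 9) 0 0 (step_sound _ 132 [(rh64e6469e3d8ae03c.shift 3 3), (rh64fba117378fad54.shift 1 2), (rha37a68f5a639059c.shift 0 1), (rha91a00b542328b7c.shift 4 3), (rhb9b4ac77b2662539.shift 1 0), (rhbd83c65812941fce.shift 1 1)] (by decide +kernel))
noncomputable def rh4469e8dec1665b41 : CRef := CRef.mk (Pat.mk 0x20000000000000001000000010000000000000000000000000 0x20000000380000003800000078000000f0000001ff000000ff000003ff000001ee000000c800000008 10 10) 0 0 (step_sound _ 196 [(rh2e6b1260b05906ef.shift 3 2), (rh3fb99eef2695e7e2.shift 2 2), (rh53350c5a66ffdddf.shift 2 2), (rh5892cc411840bbc9.shift 1 2), (rh6a5abedaa935b435.shift 1 2), rh7fbcc199cc9b1398, (rhc7d6198bc468f1f3.shift 3 2)] (by decide +kernel))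
noncomputable def rhb6c1cf4cd41e32b7 : CRef := CRef.mk (Pat.mk 0x10000000000000000800000008000000000000000000000000 0x100000001c0000001c0000001c000000180000007c0000000f0000001f0000007c0000001c0000001c 10 7) 0 0 (step_sound _ 163 [(rh29c9b1322ad230b7.shift 2 2), (rh527895f4954d6693.shift 2 0), (rh6b22f79f237076fd.shift 2 0), rh70318016e4b4063e, (rh828ea6ac1e11e833.shift 3 1), (rha4b7b1189c1fe21c.shift 0 2)] (by decide +kernel))
noncomputable def rh36defeb5f992b950 : CRef := CRef.mk (Pat.mk 0x200000000000000010000000100000000000000000000000000000000000000000 0x8000003f8000001f0000003df000000ff000003ff000001fe000001ff0000007c0000007800000020 10 10) 0 0 (step_sound _ 228 [(rh527895f4954d6693.shift 3 2), (rh71fa527cefe48e5f.shift 2 4), rh81d4f6eb0f9dfed6, (rh86296e8207b29bc5.shift 0 2), (rhe859b41fdcdeda4f.shift 1 4)] (by decide +kernel))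
noncomputable def rh12cd4aa0f0a063da : CRef := CRef.mk (Pat.mk 0x40000000000000002000000020000000000000000000000000 0x140000003c0000003c0000003ec000007de000001fe000007ff000001fc000001f0000001c0 10 11) 0 0 (step_sound _ 134 [(rh02ef15e22aa7db92.shift 5 1), rhb79d944f61474144, (rhcf5e088641458cc1.shift 1 0)] (by decide +kernel))
noncomputable def rh5ecb2aa249fdded9 : CRef := CRef.mk (Pat.mk 0x2000000020000000000000004000000000000000000000000000000000 0x400000007000000070000003fe000001fe000001f7000000fc000000f0000000e0000007f8000003f0000007e0000000a0 10 11) 0 0 (step_sound _ 102 [(rh4c22dacdbf550721.shift 0 3), (rh6b9b940c4dacb3ee.shift 5 2), (rh900f1c31dc71257a.shift 5 3), (rhf0470912dd9fa6ad.shift 3 0)] (by decide +kernel))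
noncomputable def rh489c6c0b342fd9c9 : CRef := CRef.mk (Pat.mk 0x800000008000000000000001000000000000000000000000000000000 0x800000028000000fc000001fe000001fe000001ff000000fe000001f800000028 10 9) 0 0 (step_sound _ 100 [(rh735b675c380a7f33.shift 0 1), (rh84e8b24e1b3c1ebb.shift 3 2), (rh900f1c31dc71257a.shift 3 3), (rhf0470912dd9fa6ad.shift 1 0)] (by decide +kernel))
noncomputable def rh6a1b4c803ad941f3 : CRef := CRef.mk (Pat.mk 0x800000008000000000000001000000000000000000000000000000000 0x8000000080000000c000000fc000000fe000001fe000001ff000000fe000001f800000028 10 9) 0 0 (step_sound _ 100 [(rh84e8b24e1b3c1ebb.shift 3 2), (rhbc555f7678e5e4f7.shift 0 1), (rhf0470912dd9fa6ad.shift 1 0)] (by decide +kernel))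
noncomputable def rhadfa78645aeab515 : CRef := CRef.mk (Pat.mk 0x800000008000000000000001000000000 0x140000001c0000001c0000007c0000007f0000007f0000007c0000001f0000001c0000001400000010 10 7) 0 0 (step_sound _ 163 [(rh2baf535c4e12e961.shift 0 1), (rh4d0d3497493227de.shift 2 1), (rh5492b0f18cbdd795.shift 1 0), (rh56252386d334285b.shift 3 1), (rhb5bfb93a69499a93.shift 3 0)] (by decide +kernel))
noncomputable def rhae664b585a9efae4 : CRef := CRef.mk (Pat.mk 0x20000000200000000000000040000000000000000000000000 0x1f7000003fe000007fc000007f8000003fc000003f800000080 10 11) 0 0 (step_sound _ 70 [(rh7168ac0cbd0a8d0d.shift 0 1), (rh735b675c380a7f33.shift 2 0), (rhd4ab246f25327613.shift 5 1)] (by decide +kernel))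
noncomputable def rhd716ac259e083026 : CRef := CRef.mk (Pat.mk 0x2000000020000000000000004000000000 0x500000007e000001fe000001f7000000700000003c000000f000000070 10 9) 0 0 (step_sound _ 69 [(rh13d4145ff8d9f755.shift 4 0), (rhb258e17d842d00ac.shift 0 1), (rhfa80626feb4e9cb5.shift 2 0)] (by decide +kernel))
noncomputable def rh3ef998049842d433 : CRef := CRef.mk (Pat.mk 0x200000002000000000000000400000000000000000 0x500000007000000070000001f0000001f8000001f8000001f7000003fe000007de000001f8000003f000000380 10 11) 0 0 (step_sound _ 134 [(rh0b08b7eb8652b435.shift 0 1), (rh48e8be196ceb46df.shift 2 1), (rh6fcbca24b5c8d642.shift 1 0), (rh9028022ce2490963.shift 3 1), (rh95a80f84f48ac358.shift 5 1)] (by decide +kernel))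
noncomputable def rh04bcfe49ccf7aee9 : CRef := CRef.mk (Pat.mk 0x1000000010000000100000000000000000 0x680000007c000001ff000000fe000000ff000000780000001e0000001c 10 9) 0 0 (step_sound _ 133 [(rh12bba293d7caae5e.shift 0 1), (rhb730ba14aa32bdb3.shift 4 1), (rhf7a27b74d706ef6a.shift 1 0)] (by decide +kernel))
noncomputable def rhca2e05aa884ace9f : CRef := CRef.mk (Pat.mk 0x2000000020000000200000000000000000000000000000000000000000 0x400000007000000070000000300000007000000070000001f7000001fe0000007e000000700000007000000050 10 9) 0 0 (step_sound _ 292 [(rh658b6914cd7e2dce.shift 4 0), (rhbcd882ecb4abcdcd.shift 0 1), (rhc05cde795a11620a.shift 4 5)] (by decide +kernel))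
noncomputable def rh0808223a156223a5 : CRef := CRef.mk (Pat.mk 0x800000008000000080000000000000000000000000000000000000000 0x1c0000001c0000001e000000780000001f0000007c0000007e0000001c0000001c0000000c00000004 10 7) 0 0 (step_sound _ 228 [(rh215e11e099257d75.shift 3 4), (rh3820f35d5e705bec.shift 3 2), (rh4603d8f188f19f9d.shift 1 4), rh74e0ce35ce2ed90a] (by decide +kernel))
noncomputable def rh2020246768c20ae0 : CRef := CRef.mk (Pat.mk 0x20000000200000002000000000 0x58000000f8000003ff000000fe000001ff000001f6000001d4 10 10) 0 0 (step_sound _ 164 [(rh07ff884a7eb6c0ed.shift 4 1), (rh4acffa486b180fab.shift 4 0), rh81eb359c6241da19, (rh8a8003629a3d7f4f.shift 3 0), (rhc05cde795a11620a.shift 4 1)] (by decide +kernel))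
noncomputable def rh04e212588941f96e : CRef := CRef.mk (Pat.mk 0x800000008000000080000000000000000000000000000000000000000 0x140000001c0000001c0000007c000000ff0000007c0000001c0000001c00000004 10 8) 0 0 (step_sound _ 131 [(rh5602f28a4d0f78ba.shift 2 0), (rhc4055b4872d6fb38.shift 2 3), (rhe832ac7d749a30b6.shift 0 3)] (by decide +kernel))
noncomputable def rh498e1a3348ea29ca : CRef := CRef.mk (Pat.mk 0x400000004000000040000000000000000000000000 0xa0000001e0000001e0000001e0000003d8000003f8000003ff000003ff0000017e000000f000000030 10 10) 0 0 (step_sound _ 101 [rh5c27bfd5be9f8bfe, (rhe0d7795d40999d76.shift 3 2), (rhfafeb437ceb8396d.shift 5 0)] (by decide +kernel))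
noncomputable def rh8a083d5d85248312 : CRef := CRef.mk (Pat.mk 0x2000000020000000200000000000000000 0x98000000d8000001ff000001fe000001ff000001fc0000002000000020 10 9) 0 0 (step_sound _ 132 [(rh5f5247c6f2b597b6.shift 2 0), (rhb1a251d9bff81766.shift 4 1), (rhe0756f75a710ea50.shift 0 2)] (by decide +kernel))
noncomputable def rhf70d323607b3bd82 : CRef := CRef.mk (Pat.mk 0x80000000800000008000000000000000000000000 0x100000003c0000003c000000ff0000007f000000ff000000f80000000c0000000c00000004 10 8) 0 0 (step_sound _ 164 [rh1d3aaceaaa1b7e66, (rh215e11e099257d75.shift 3 2), (rh284b6f634517640a.shift 0 3)] (by decide +kernel))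
noncomputable def rh07ae3ba596ae9c64 : CRef := CRef.mk (Pat.mk 0x400000004000000040000000000000000000000000 0x20000000600000007c0000007c000007ff000003fe0000077f0000003800000030 10 11) 0 0 (step_sound _ 101 [rh0ae168d870cbe998, (rh281c6819542c66e6.shift 5 0), (rh4e891e57aa454835.shift 3 2)] (by decide +kernel))
noncomputable def rh63a7df5ef502cb27 : CRef := CRef.mk (Pat.mk 0x400000004000000040000000000000000000000000 0xa0000000e0000001e0000003e0000003f0000003f8000003ff000001fe0000003e0000003000000030 10 10) 0 0 (step_sound _ 101 [(rh0272568b8a3cf228.shift 3 3), rh5571bf05f33ab1b9, (rhfafeb437ceb8396d.shift 5 0)] (by decide +kernel))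
noncomputable def rhe0e8177171b4d0e4 : CRef := CRef.mk (Pat.mk 0x80000000800000008000000000000000000000000 0x2200000022000000770000007f0000007f0000007c0000000c0000001c00000014 10 7) 0 0 (step_sound _ 67 [(rh49092ef4f76fd8bb.shift 2 0), (rh6dd06b7a3cf801bf.shift 0 2), (rha78b327dad5d6a04.shift 2 0), (rhc4055b4872d6fb38.shift 2 1)] (by decide +kernel))
noncomputable def rh9b05663645ed7068 : CRef := CRef.mk (Pat.mk 0x80000000a00000000000000000000000000000000 0x1c0000001c0000007c000000ff0000007f000000ff0000001a000000180000001800000010 10 8) 0 0 (step_sound _ 164 [(rh0b786d94a31538a6.shift 0 4), (rh6cc2182df80f964c.shift 0 2), (rh806084e72ee4aa6b.shift 1 2), rhec9c891138a7d63b, (rhedf3a755fe019897.shift 0 4)] (by decide +kernel))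
noncomputable def rh7db6accd0f5b0026 : CRef := CRef.mk (Pat.mk 0x80000000a00000000000000000000000000000000 0xbc000000fc000000fc000000fc0000007f000001ff0000007c000000780000001800000010 10 9) 0 0 (step_sound _ 164 [(rh0b786d94a31538a6.shift 0 4), (rh20aa34e4e9745eac.shift 1 2), rhec9c891138a7d63b] (by decide +kernel))
noncomputable def rhf046a4aedc1f07a7 : CRef := CRef.mk (Pat.mk 0x400000005000000000000000000000000000000000 0x5000000058000003ff000007fe00000fff000000dc0000009800000088 10 12) 0 0 (step_sound _ 133 [(rh8e60a6764ffb608e.shift 1 0), (rheb33f54d8a48f144.shift 3 1), (rhf7943763ae823400.shift 0 3)] (by decide +kernel))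
noncomputable def rh5f9debad0bfbc150 : CRef := CRef.mk (Pat.mk 0x1000000014000000000000000000000000 0xa0000006e0000007e000001ff000000fe000003fe000001d6000000d600000006 10 10) 0 0 (step_sound _ 133 [(rh00b82dee82872095.shift 2 1), (rh0b786d94a31538a6.shift 1 3), rh14b3094035c2337c, (rh6cc2182df80f964c.shift 1 1)] (by decide +kernel))
noncomputable def rhb901284aa2121ec3 : CRef := CRef.mk (Pat.mk 0x80000000a00000000000000000000000000000000 0x1c0000003c000000ff0000007c0000001f0000007c000000f80000003800000010 10 8) 0 0 (step_sound _ 164 [rh8ac6412e1c596c34, (rhdb7e8634d6e3b714.shift 0 1), (rhedf3a755fe019897.shift 0 4)] (by decide +kernel))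
noncomputable def rhd656019777d17a17 : CRef := CRef.mk (Pat.mk 0x4000000050000000000000000000000000 0x1000000030000000b8000003ff000007ff000007fe000007d0000001d0 10 11) 0 0 (step_sound _ 101 [rh1841b05e6131f29a, (rhb103f40a53fe1424.shift 1 2), (rhd445bb159633c76f.shift 3 0), (rhd8a12d3b5f530cda.shift 2 2)] (by decide +kernel))
noncomputable def rh6aa926cac47db966 : CRef := CRef.mk (Pat.mk 0x80000000a0000000000000000000000000000000000000000 0x550000007f0000007f000001ff0000007f000000ff0000003300000033000000070000000700000004 10 9) 0 0 (step_sound _ 196 [(rh0b786d94a31538a6.shift 0 5), rh71b555baa53c81f4, (rh8fba8df07c11ebda.shift 0 3), (rhae6e55cb240ddc0f.shift 0 3), (rhedf3a755fe019897.shift 0 5)] (by decide +kernel))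
noncomputable def rhf5152bee26033da4 : CRef := CRef.mk (Pat.mk 0x10000000140000000000000000000000000000000000000000 0x14a000001ee000001fe000001ff000000fe000003de000000fe000000f60000003e0000003800000008 10 10) 0 0 (step_sound _ 197 [(rh14b3094035c2337c.shift 0 2), (rh6cc2182df80f964c.shift 1 3), (rh977aba444621d326.shift 1 0), (rhd798540db137bee8.shift 2 3), (rhedf3a755fe019897.shift 1 5)] (by decide +kernel))
noncomputable def rh2a834fccc6aafbdb : CRef := CRef.mk (Pat.mk 0x80000000a0000000000000000000000000000000000000000 0xac000000fc000000fe000000ff0000007b000000ff000000ff000000780000003c0000001c00000004 10 8) 0 0 (step_sound _ 196 [(rh0b786d94a31538a6.shift 0 5), (rh3ed158102bf2f42f.shift 0 2), (rh92898492dca769be.shift 1 2), rh977aba444621d326, (rhbd550cd8fa844ca0.shift 0 3)] (by decide +kernel))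
noncomputable def rh4886718fdb011abe : CRef := CRef.mk (Pat.mk 0x4000000050000000000000000000000000000000000000000000000000 0xe0000001f000000ffc000007ff000003fe000007f7000003f8000000d0000000e0000000e0000000e000000080 10 12) 0 0 (step_sound _ 263 [(rh09ad43d40d62cff0.shift 2 4), (rh24441fffc7fbb558.shift 2 0), (rh33496af4aa941f7e.shift 0 5), (rh872134d73af78881.shift 6 4), (rh94f7f2f96cfd6a73.shift 2 4), (rha5458adfdeea8002.shift 3 3), (rhe7edfcf957d29562.shift 2 4)] (by decide +kernel))
noncomputable def rhbd541d61b16ce77f : CRef := CRef.mk (Pat.mk 0x80000000a000000000000000000000000000000000 0x140000001e0000001f8000003f8000000fe000007fe000007ff000001b00000010000000100 10 11) 0 0 (step_sound _ 104 [(rh03dcc9347608b61d.shift 3 1), (rh0e4a02fc3901042c.shift 2 3), (rh2e85506c45dc5ada.shift 4 0), (rhf1ec25591af62f0a.shift 0 2), (rhfd93f3a0aaa9a0a9.shift 4 1)] (by decide +kernel))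
noncomputable def rhd345028707b33bf9 : CRef := CRef.mk (Pat.mk 0x200000002800000000000000000000000000000000 0x170000001f4000001fe000003ff000001fe000003ef000000fc000000680000006000000040 10 10) 0 0 (step_sound _ 164 [(rh0a872a8f5835f3de.shift 1 2), (rh0ca9946cc40c6b43.shift 3 0), (rh2106538d638db26f.shift 1 2), (rh41e50fb3d4c65f57.shift 0 2), (rh8b54f13b445da029.shift 0 3), (rh9479ed1d78bbabd2.shift 2 2), (rh94e64fa54c21bdd1.shift 1 2), (rhe6ec12dfb20fea46.shift 0 2), (rhf13bbe9fd50bec71.shift 0 2)] (by decide +kernel))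
noncomputable def rhb0035408c0a5355c : CRef := CRef.mk (Pat.mk 0x4000000050000000000000000000000000 0x4000000040000003e7000001fe000001ff000001e0000000e0 10 10) 0 0 (step_sound _ 101 [(rh9ca31dd0e3db54c7.shift 1 0), (rha785a76e919a988f.shift 3 0), (rhf7943763ae823400.shift 0 2)] (by decide +kernel))
noncomputable def rhba94ba0f7e25ee96 : CRef := CRef.mk (Pat.mk 0x2000000028000000000000000000000000 0x1000000038000003bc000001fc000003fc0000003e0000003f0000001c 10 10) 0 0 (step_sound _ 134 [(rh0b786d94a31538a6.shift 2 3), (rh459379322a57ae67.shift 2 1), (rhb6ba02f1269b8695.shift 2 0), (rhedf3a755fe019897.shift 2 3), rhf50c8a852b546533] (by decide +kernel))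
noncomputable def rh322822905393f76b : CRef := CRef.mk (Pat.mk 0x80000000a00000000000000000000000000000000 0x50000001f0000003f000000ef0000007f000000ff0000001b0000001f0000000700000004 10 8) 0 0 (step_sound _ 164 [rh06d0361f8fca12be, (rh0b786d94a31538a6.shift 0 4), (rh459379322a57ae67.shift 0 2), (rh806084e72ee4aa6b.shift 1 2), (rhedf3a755fe019897.shift 0 4)] (by decide +kernel))
noncomputable def rha763c69da024b798 : CRef := CRef.mk (Pat.mk 0x80000000a000000000000000000000000 0x40000000e000000ef0000007f000000ff0000003c0000001f0000000e 10 8) 0 0 (step_sound _ 132 [(rh0b786d94a31538a6.shift 0 3), (rh134565e1148d5359.shift 0 1), (rh459379322a57ae67.shift 0 1), rhe2f1c268b7125242, (rhedf3a755fe019897.shift 0 3)] (by decide +kernel))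
noncomputable def rhf88e76e9292325c1 : CRef := CRef.mk (Pat.mk 0x40000000500000000000000000000000000000000000000000 0x200000006000000068000003ef000001fe000003ff000000f0000000f0000000e000000080 10 10) 0 0 (step_sound _ 165 [(rha18eab3eee93f195.shift 3 2), (rhc8441a30ab3f6f9d.shift 1 0), (rhf7943763ae823400.shift 0 4)] (by decide +kernel))
noncomputable def rh7e2a57d20ab1034e : CRef := CRef.mk (Pat.mk 0x100000001400000000000000000000000000000000 0xa0000000e0000000e0000000e000000ff0000007f0000007f000000fe0000007a00000038 10 8) 0 0 (step_sound _ 131 [(rh8c4c61d22b3d2c78.shift 1 1), rhd6b6143f73ac7a28, (rhff7d63dcb3cf9f74.shift 1 4)] (by decide +kernel))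
noncomputable def rh1b860bd76daa59eb : CRef := CRef.mk (Pat.mk 0x4000000050000000000000000000000000 0x780000007c000003ff000001fe000001bf000000b800000030 10 10) 0 0 (step_sound _ 101 [(rh3f396fc471e867d8.shift 2 1), (rh839c17f37d4a6d23.shift 1 0), (rhb6538064c4127579.shift 2 0), (rhc59f1e7e22bf1d64.shift 2 1), (rhf7943763ae823400.shift 0 2), (rhff7d63dcb3cf9f74.shift 3 3)] (by decide +kernel))
noncomputable def rh76887b6943dafd52 : CRef := CRef.mk (Pat.mk 0x4000000050000000000000000000000000 0x80000000e0000000e0000000f8000003fc0000007c0000007f000007fe000007ff000007f8000000a0 10 11) 0 0 (step_sound _ 166 [(rh0096c58fabcf040a.shift 1 0), (rh1530b38bd8da73e7.shift 3 0), rh2ebafd2af8c15c3a, (rh3555c33b815ef449.shift 4 1), rh67d63cdcce639d4e, (rh7cf7cebdd8dcde74.shift 2 2), (rhdaca1eb4e01514de.shift 2 0), (rhedeea6bc98bcb1f8.shift 1 1)] (by decide +kernel))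
noncomputable def rhfc04dc02be3adde2 : CRef := CRef.mk (Pat.mk 0x40000000500000000000000000000000000000000000000000 0x20000000700000007c000001ff0000007e000003ff000001fc000000f8000000e0000000a0 10 10) 0 0 (step_sound _ 165 [(rh3bce6f04498d69cf.shift 2 2), (rh99dd2a0a66189677.shift 2 0), (rhf7943763ae823400.shift 0 4)] (by decide +kernel))
noncomputable def rh8ddbf560c12f1191 : CRef := CRef.mk (Pat.mk 0x100000001400000000000000000000000000000000 0x1400000014000000f70000007f000000ff000000fa0000003800000038 10 8) 0 0 (step_sound _ 131 [(rh3f396fc471e867d8.shift 0 2), (rhafc1e2c616c48000.shift 1 1), rhd6b6143f73ac7a28, (rhd8a12d3b5f530cda.shift 0 3), (rhfefd7be2d273f2ab.shift 0 1)] (by decide +kernel))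
noncomputable def rha2fec7f4229a842d : CRef := CRef.mk (Pat.mk 0x10000000140000000000000000000000000000000000000000 0x8000000380000003c0000003e0000001e0000007e000001fc000000ff000001fe000001ff0000007800000008 10 9) 0 0 (step_sound _ 132 [(rh0cde2b9d746e7aa6.shift 2 3), (rh44ecf28552bcc392.shift 1 2), (rh4f849fc92a518aba.shift 1 1), (rh612080f68649a8d3.shift 1 2), (rh61634eff8569bfde.shift 1 1), rh78207ff94f7ae800, (rh8dd44acab8b95a10.shift 2 1), (rh943bd88417152cf4.shift 3 1), (rhc9c33beee25b2619.shift 1 1)] (by decide +kernel))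
noncomputable def rh7c023bd64f6e96dd : CRef := CRef.mk (Pat.mk 0x2000000028000000000000000000000000000000000000000000000000 0x100000007000000074000000770000003e000001ff000007ef000003fe000003ff000003fe000000f00000007000000040 10 11) 0 0 (step_sound _ 165 [(rh30ec13a66548b804.shift 0 2), (rh4b06b3493ba0d922.shift 2 0), (rh5ec485e6072ae23b.shift 0 3), (rh943bd88417152cf4.shift 4 2), (rha0979e8bdd1f49da.shift 2 2), (rhbe9fa85bd33ec5f8.shift 0 2), (rhc7b966d6b7526075.shift 0 1), (rhdde247ef5d49e4b8.shift 0 2), (rhf9f523c99699fa3d.shift 0 2)] (by decide +kernel))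
noncomputable def rh19113895e9d3af05 : CRef := CRef.mk (Pat.mk 0x400000005000000000000000000000000000000000 0x7000000078000003ff000007ff00000ffe000003f8000000f0000000e0 10 12) 0 0 (step_sound _ 133 [(rh0f85e7165603ae81.shift 0 3), (rh1841b05e6131f29a.shift 0 1), (rhd6b6143f73ac7a28.shift 2 0), (rhd8a12d3b5f530cda.shift 2 3), (rheb33f54d8a48f144.shift 3 1)] (by decide +kernel))
noncomputable def rhfbcff379bce9a10b : CRef := CRef.mk (Pat.mk 0x40000000000000002000000020000000000000000000000000 0x50000003fe000003fc000007ee000001fe000003ff000001c0000001c000000140 10 11) 0 0 (step_sound _ 230 [(rh20c7eff3986ad746.shift 5 3), rh6828643ae639187c, (rh7f735efeb968734d.shift 1 3)] (by decide +kernel))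
noncomputable def rh4cac17da26a5a718 : CRef := CRef.mk (Pat.mk 0x4000000000000000200000002000000000000000000000000000000000 0xe0000001e8000001fc000003ff000003fe000003fe000000fe00000050 10 10) 0 0 (step_sound _ 101 [(rh2dd4785ad1851971.shift 4 2), (rh5887b7a97269bbd5.shift 2 2), rh778f789b5d9848c2, (rha37a68f5a639059c.shift 1 0), (rha91a00b542328b7c.shift 5 2)] (by decide +kernel))
noncomputable def rh0e10fcd89e87bd36 : CRef := CRef.mk (Pat.mk 0x400000000000000020000000200000000000000000000000000000000000000000 0x140000001d4000003fc000003fc00000fae000001fe000003fe000003ff000001fe000000f80000007800000050 10 12) 0 0 (step_sound _ 164 [(rh070bdb1d5efed650.shift 2 1), (rh29791cd3689c3cf2.shift 2 0), (rh6516703c306d131d.shift 0 2), (rhb8cb09326598c2b2.shift 1 2), (rhc1398114b9f33fd4.shift 1 2), (rhcb576ad9789961b1.shift 1 0), (rhdc914f7856b3a267.shift 2 2), (rhf6f0dc19d76550d1.shift 2 0), (rhfff0b9842eb09ede.shift 1 2)] (by decide +kernel))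
noncomputable def rhe052d85784cc86f0 : CRef := CRef.mk (Pat.mk 0x40000000000000002000000020000000000000000000000000 0x140000003c0000003c0000003fc000007ce000001fe000007ff000001fc000001f0000001c0 10 11) 0 0 (step_sound _ 134 [(rh023af8fbb4f702fa.shift 1 0), (rh02ef15e22aa7db92.shift 5 1), rhb79d944f61474144] (by decide +kernel))
noncomputable def rh8e042e49ca5cb959 : CRef := CRef.mk (Pat.mk 0x20000000200000002000000000000000000000000000000000 0x500000007000000070000000380000007c000001f60000003e000000ff000000700000007000000050 10 9) 0 0 (step_sound _ 132 [(rh15977c0cf3782908.shift 0 1), (rh281c6819542c66e6.shift 4 1), (rh2ecdc1df8966cba8.shift 2 0), (rha6dfe1edc6ae80dd.shift 4 3), (rhfafeb437ceb8396d.shift 4 1)] (by decide +kernel))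
noncomputable def rh5e67b3380e93eb9f : CRef := CRef.mk (Pat.mk 0x200000002000000020000000000000000000000000 0x5800000058000003df000001fe000003ff000003bf000001fe000003fe00000050 10 10) 0 0 (step_sound _ 196 [(rh0dbc8abee7ad42d4.shift 4 2), rh9ae448616b194e12, (rhd1614adf0fa6a146.shift 0 3)] (by decide +kernel))
noncomputable def rhcef683cc7b2144d7 : CRef := CRef.mk (Pat.mk 0x1000000010000000000000002000000000000000000000000000000000 0x100000005400000074000001f7000001fe000003fe000001f8000003f000000050 10 10) 0 0 (step_sound _ 101 [(rh802a84fc9bf4f860.shift 0 2), (rh84e8b24e1b3c1ebb.shift 4 2), (rh900f1c31dc71257a.shift 4 3), (rhf0470912dd9fa6ad.shift 2 0)] (by decide +kernel))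
noncomputable def rh26a56fca6c6ba911 : CRef := CRef.mk (Pat.mk 0x100000001000000000000000200000000000000000 0xa0000000e0000000e0000000ff000001fe000003f7000001fe000001fe00000028 10 10) 0 0 (step_sound _ 37 [(rh61899e45fc95fa04.shift 0 1), rh802a84fc9bf4f860, (rhd4ab246f25327613.shift 4 0)] (by decide +kernel))
noncomputable def rh3cce190760233698 : CRef := CRef.mk (Pat.mk 0x20000000200000000000000040 0x500000007000000070000001f0000003fe000001ff000001fe000001f8000001e0000000e0 10 10) 0 0 (step_sound _ 133 [(rh56252386d334285b.shift 5 0), (rh71b388b242d8d8f9.shift 2 1), (rh86002f0f5d23ee8c.shift 2 0), (rh8a12ec1015e015a6.shift 0 1), (rhae6d80b882f6d1e6.shift 2 0), (rhe14adcaf6c23d52b.shift 4 0), (rhf434c943197213e0.shift 2 0)] (by decide +kernel))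
noncomputable def rheeb55bedcfdf9989 : CRef := CRef.mk (Pat.mk 0x200000002000000000000000400000000000000000 0x50000000780000007e000003fe000001ff000001fe0000007e00000020000000700000007000000010 10 10) 0 0 (step_sound _ 197 [(rh21654f62fd0c214c.shift 1 4), (rh44749d42c0651b04.shift 4 0), (rh6b47f3efb97a32bd.shift 2 1), (rh71b388b242d8d8f9.shift 2 3), (rh8a12ec1015e015a6.shift 0 3), (rha0095e9b4e2a5252.shift 1 0), (rhae6d80b882f6d1e6.shift 2 2), (rhc04fa491437a3258.shift 3 0), (rhf8d27c90a16f9a30.shift 1 0)] (by decide +kernel))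
end Crest.Agent.S0047.Helper85.Cert
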