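import Crest.Agent.Lib.S0047.Helper85CertPL9F0
import Crest.Agent.Lib.S0047.Helper85CertPL9F1
import Crest.Agent.Lib.S0047.Helper85CertPL9F2
import Crest.Agent.Lib.S0047.Helper85CertPL9F3
import Crest.Agent.Lib.S0047.Helper85CertPL9F4
import Crest.Agent.Lib.S0047.Helper85CertPL9F5
import Crest.Agent.Lib.S0047.Helper85CertPL9F6
set_option autoImplicit false
set_option linter.all false
set_option Elab.async false
namespace Crest.Agent.S0047.Helper85.Cert
open Crest.Agent.S0047.Helper85

noncomputable def rhd88959f8d66c3a37 : CRef := CRef.mk (Pat.mk 0x20000000200000000000000040000000000000000000000000 0x500000007000000070000001f0000001f8000001fc000001ff000001fe000007ce000001c8000001c0000001c000000140 10 11) 0 0 (step_sound _ 166 [(rh29dd3c721b94d407.shift 0 2), (rh58df37a6b7bf6668.shift 2 3), (rh95a80f84f48ac358.shift 5 2), rhd54cf7f2c92a600d] (by decide +kernel))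
noncomputable def rh5078b7a896914246 : CRef := CRef.mk (Pat.mk 0x100000001000000010000000000000000000000000 0x200000002c0000007f000000ff000003fe000003fe000003f60000003400000020 10 10) 0 0 (step_sound _ 101 [(rh1268edd22b308ad9.shift 0 1), (rh70e33bfdf511e144.shift 4 0), (rh882a6d1e3f0e8711.shift 1 0)] (by decide +kernel))
noncomputable def rha02f11da93804192 : CRef := CRef.mk (Pat.mk 0x100000001000000010000000000000000000000000 0x8000000280000003c000000f8000001f7000000fe000001ff0000003800000028 10 9) 0 0 (step_sound _ 195 [(rh114f4abf4ea101c9.shift 3 2), (rha1bf8c8c15060960.shift 0 2), (rhbba7d23481996066.shift 3 0)] (by decide +kernel))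
noncomputable def rhe34b01e666f5e28d : CRef := CRef.mk (Pat.mk 0x100000001000000010000000000000000000000000 0x800000008000000180000001e000001ff000001ff000001ff0000003c0000002c 10 9) 0 0 (step_sound _ 99 [rh71053f9fce0452b6, (rhc236464251baa3a3.shift 1 2), (rhfafeb437ceb8396d.shift 3 0)] (by decide +kernel))
noncomputable def rh0e344439e1416173 : CRef := CRef.mk (Pat.mk 0x100000001000000010000000000000000000000000 0x200000002000000070000000f0000003ff000001ff000003ff000001e800000028 10 10) 0 0 (step_sound _ 101 [(rh046c5eb18e55a239.shift 4 0), rh73aefb943d9cedfb, (rhd37b7930014719b7.shift 0 1)] (by decide +kernel))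
noncomputable def rh66c9dbaf3b451c11 : CRef := CRef.mk (Pat.mk 0x200000002000000020000000000000000000000000 0x5e000000fc000001fe00000fff00000ffe00000fde000001d000000140 10 12) 0 0 (step_sound _ 102 [(rh046c5eb18e55a239.shift 5 0), (rh40cec9647ff47b91.shift 1 0), (rhc0fff738f39710e4.shift 0 1)] (by decide +kernel))
noncomputable def rhdce4d21680c7a31b : CRef := CRef.mk (Pat.mk 0x200000002000000020000000000000000000000000 0x10000003de000003fc000007fe00000060000003bf000001fe000003fe00000050 10 11) 0 0 (step_sound _ 196 [(rh114f4abf4ea101c9.shift 4 2), (rh1ca5d8814de8cbb7.shift 1 2), rh5460b56682a2be2b] (by decide +kernel))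
noncomputable def rhe3b1d1b38e55e126 : CRef := CRef.mk (Pat.mk 0x100000001000000010000000000000000000000000 0x80000001c0000001e000000ff000000ff0000001f000000380000003800000028 10 8) 0 0 (step_sound _ 195 [(rh114f4abf4ea101c9.shift 3 2), (rh8374a7eb8cff44b6.shift 0 2), (rhbba7d23481996066.shift 3 0)] (by decide +kernel))
noncomputable def rh3caf0638f47279e0 : CRef := CRef.mk (Pat.mk 0x100000001000000010000000000000000000000000 0x380000003800000038000000780000001f000000fb0000001e0000003c0000003800000028 10 8) 0 0 (step_sound _ 163 [(rh29e7957465a35810.shift 0 2), (rhb1a251d9bff81766.shift 3 2), (rhc040b0a6f0fc2e7a.shift 3 0), (rhd1779d7de7f8215b.shift 3 0)] (by decide +kernel))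
noncomputable def rhaecb42dc5c9c24ee : CRef := CRef.mk (Pat.mk 0x8000000080000000800000000000000000000000000000000 0x180000001c0000001e0000001f0000007b0000001f0000000e0000007c0000001c0000001800000018 10 7) 0 0 (step_sound _ 196 [(rh215e11e099257d75.shift 3 3), (rh3820f35d5e705bec.shift 3 1), (rhcb7beb2c29474bd9.shift 0 3), (rhde7079fa9bb9c7d9.shift 1 0)] (by decide +kernel))
noncomputable def rh113cf0133e2043ac : CRef := CRef.mk (Pat.mk 0x200000002000000020000000000000000000000000 0x58000000fc000003df000000fe000001ff000003bf000001fe000003fe00000050 10 10) 0 0 (step_sound _ 196 [(rh0dbc8abee7ad42d4.shift 4 2), rh5460b56682a2be2b, (rh9b9c75f48c7e9549.shift 0 2)] (by decide +kernel))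
noncomputable def rh825a8854e76989b8 : CRef := CRef.mk (Pat.mk 0x10000000100000001000000000 0x2800000038000001ff000000fe000000ff000000180000001800000008 10 9) 0 0 (step_sound _ 132 [(rh1741680720c097b4.shift 3 1), (rh193da7fc9e1674f1.shift 3 0), (rh20966da26a1c2ae8.shift 3 0), (rh771d065bdc85bf2d.shift 3 0), (rhb0cde1b0940295d4.shift 0 1)] (by decide +kernel))
noncomputable def rh73dbe06746b9f3f8 : CRef := CRef.mk (Pat.mk 0x100000001000000010000000000000000000000000 0x80000003c0000007e000000ff000000ff0000001f000000780000003800000008 10 8) 0 0 (step_sound _ 99 [(rh356b7ff51db0ac10.shift 1 0), (rhba7575016301e561.shift 0 2), (rhfafeb437ceb8396d.shift 3 0)] (by decide +kernel))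
noncomputable def rh57902e2985529f2c : CRef := CRef.mk (Pat.mk 0x1000000010000000100000000000000000 0x8000001ef000001fe000003ff00000018000000180000001800000008 10 10) 0 0 (step_sound _ 163 [(rh0dbc8abee7ad42d4.shift 3 1), (rh114f4abf4ea101c9.shift 3 1), (rh1ca5d8814de8cbb7.shift 0 1), (rh37816854459689de.shift 3 0)] (by decide +kernel))
noncomputable def rh572ab01fda5e0d79 : CRef := CRef.mk (Pat.mk 0x1000000010000000100000000000000000000000000000000000000000 0x28000000780000001e000000ff000000fe000001ff000000380000003800000008 10 9) 0 0 (step_sound _ 132 [(rh5602f28a4d0f78ba.shift 3 0), (rh8ff3dde5b1c639e0.shift 3 2), (rh97850410b0905a10.shift 0 3), (rhfaa742efe15bd053.shift 1 3)] (by decide +kernel))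
noncomputable def rh6bfea180fb37e31a : CRef := CRef.mk (Pat.mk 0x400000004000000040000000000000000000000000 0xa0000000e0000000e0000000600000007f000003fe000000bf0000001000000010 10 10) 0 0 (step_sound _ 198 [rh1a2a8b6bfe595051, (rh1fcaf8cebe283679.shift 5 2), (rhc85cc95794737cf7.shift 5 3)] (by decide +kernel))
noncomputable def rhc983cc91ea01260d : CRef := CRef.mk (Pat.mk 0x800000008000000080000000000000000000000000000000000000000 0x14000001fc000000fc000001ee000000780000007e000000ff0000001c0000001c0000001c00000014 10 9) 0 0 (step_sound _ 164 [rh0428d8fa27ca7f9a, (rh70e33bfdf511e144.shift 3 2), (rhc37558fb0a20efbd.shift 1 4)] (by decide +kernel))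
noncomputable def rhaf2df474eacfe16a : CRef := CRef.mk (Pat.mk 0x100000001000000010000000000000000000000000 0x8000001ef000001fe000003ff0000003000000018000000180000001800000008 10 10) 0 0 (step_sound _ 195 [(rh114f4abf4ea101c9.shift 3 2), (rh1ca5d8814de8cbb7.shift 0 2), (rh95c36413021fa127.shift 3 0)] (by decide +kernel))
noncomputable def rh3e8d0a0b36d3ae10 : CRef := CRef.mk (Pat.mk 0x100000001000000010000000000000000000000000 0x1ef000000fe000000f70000007e000000f8000001b800000028 10 9) 0 0 (step_sound _ 68 [(rh6eff4158bb400f47.shift 3 0), (rhcab3157f7bdcba3e.shift 3 0), (rhd9b688a83982a453.shift 0 1)] (by decide +kernel))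
noncomputable def rh23715e8661c79456 : CRef := CRef.mk (Pat.mk 0x20000000200000002000000000 0x50000000770000007e0000007c000000ee0000007c0000005e 10 8) 0 0 (step_sound _ 133 [(rh1741680720c097b4.shift 4 1), rh70ceca9b490fcdaf, (rhced6d86d2069808b.shift 5 0)] (by decide +kernel))
noncomputable def rh3cd423d219ceb20e : CRef := CRef.mk (Pat.mk 0x80000000800000008000000000000000000000000 0xc0000001c0000003c0000007c0000006f0000007c000000780000001e0000001c00000014 10 7) 0 0 (step_sound _ 162 [(rh88d2999e6d9ce78f.shift 0 2), (rhb1a251d9bff81766.shift 2 2), (rhce4754e3752a4761.shift 1 0), (rhd1779d7de7f8215b.shift 2 0)] (by decide +kernel))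
noncomputable def rhef7e367b4621a187 : CRef := CRef.mk (Pat.mk 0x100000001000000010000000000000000000000000 0x280000003800000038000003f7000001fe000001ff00000020 10 10) 0 0 (step_sound _ 68 [(rh7c27da910ebbc97f.shift 0 1), (rh8ff3dde5b1c639e0.shift 3 0), (rhc4055b4872d6fb38.shift 3 1)] (by decide +kernel))
noncomputable def rhcb05ee77fb82240d : CRef := CRef.mk (Pat.mk 0x10000000100000001000000000 0x28000001ff000000fe000000ff000000300000003000000020 10 9) 0 0 (step_sound _ 132 [(rh1741680720c097b4.shift 3 1), (rh5abfc4c9d959be03.shift 3 0), (rhb0cde1b0940295d4.shift 0 1), (rhced6d86d2069808b.shift 4 0), (rhd2de1ce8c1d8cf00.shift 3 0)] (by decide +kernel))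
noncomputable def rh0b61cc1dd37c1052 : CRef := CRef.mk (Pat.mk 0x80000000c0000000000000000000000000000000000000000 0x1000000070000000f00000007e000000ff000000ff000000fe000000fc0000001c00000010 10 8) 0 0 (step_sound _ 196 [(rhc60a854d4315122d.shift 1 2), rhce6e0096503d366a, (rhd69c262cd33b94b3.shift 0 5)] (by decide +kernel))
noncomputable def rh9b9415ec200b8f61 : CRef := CRef.mk (Pat.mk 0x10000000180000000000000000000000000000000000000000 0x2c0000002c000000ef000000ff000001fe0000001e0000003c000000380000003800000020 10 9) 0 0 (step_sound _ 197 [(rh62a71ca5383c60c5.shift 0 3), (rh69012675dfdb1a5b.shift 1 5), rh7240e7c0b9915c4a, (rhd69c262cd33b94b3.shift 1 5)] (by decide +kernel))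
noncomputable def rh4eca893c264dd6ae : CRef := CRef.mk (Pat.mk 0x80000000c000000000000000000000000000000000000000000000000 0x1200000036000000770000007f000000ff0000007c0000007e000000fc0000001c0000001c00000014 10 8) 0 0 (step_sound _ 228 [(rh1086a548292901e5.shift 1 4), (rh69012675dfdb1a5b.shift 0 6), rhce5c1eef105b43d5] (by decide +kernel))
noncomputable def rh49e307cc0afeee07 : CRef := CRef.mk (Pat.mk 0x10000000180000000000000000000000000000000000000000 0x2000000068000000ef000000ff0000003e000000fe0000007e0000007c0000003800000020 10 8) 0 0 (step_sound _ 197 [rh0857967ab9f65280, (rh62a71ca5383c60c5.shift 0 3), (rh69012675dfdb1a5b.shift 1 5), (rhd69c262cd33b94b3.shift 1 5)] (by decide +kernel))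
noncomputable def rhdfc20cb5eece6a20 : CRef := CRef.mk (Pat.mk 0x1000000018000000000000000000000000 0x2800000068000000ec000000ff000000fe000000fe0000006800000068 10 8) 0 0 (step_sound _ 133 [(rh0bb882ba86b2372d.shift 1 3), (rh53679f57cdd158c0.shift 1 0), (rhd451f8edca502578.shift 1 0), (rhd8bd8e0a2e13c45e.shift 0 1)] (by decide +kernel))
noncomputable def rhd1168c2b0c1da390 : CRef := CRef.mk (Pat.mk 0x80000000c000000000000000000000000 0x3000000034000000760000007c000000ff0000007f000000f800000038 10 8) 0 0 (step_sound _ 132 [(rh0bb882ba86b2372d.shift 0 3), (rh69012675dfdb1a5b.shift 0 3), (rh947b7a19a918506b.shift 1 1), rhfaefdaba06cd7b88] (by decide +kernel))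
noncomputable def rh2c4bd01bcf547cc8 : CRef := CRef.mk (Pat.mk 0x1000000018000000000000000000000000 0x2c0000002c000000ef000000ff000000fe000000fe000000f400000070 10 8) 0 0 (step_sound _ 133 [(rh1086a548292901e5.shift 2 1), rh39b16c61b027d623, (rh69012675dfdb1a5b.shift 1 3)] (by decide +kernel))
noncomputable def rhe7da243cf692d80f : CRef := CRef.mk (Pat.mk 0x400000006000000000000000000000000 0x180000001a0000003b0000003f0000007f0000007f0000003f0000001f 10 7) 0 0 (step_sound _ 131 [(rh1086a548292901e5.shift 0 1), (rh39e0994130fb05b7.shift 0 1), rh4bd0c77b3aab850d, rh6fc3b60831003a94, (rhcde230e1fccc7ea0.shift 0 1)] (by decide +kernel))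
noncomputable def rhe189c423108cb08c : CRef := CRef.mk (Pat.mk 0x80000000c000000000000000000000000 0x3000000034000000760000007f0000007f0000007b0000003f0000001e 10 7) 0 0 (step_sound _ 132 [(rh1086a548292901e5.shift 1 1), rh6f1ab082d10dadca, (rhd69c262cd33b94b3.shift 0 3), rhe2a8e5fabb2d2118] (by decide +kernel))
noncomputable def rhcbb493e3f6973034 : CRef := CRef.mk (Pat.mk 0x1000000018000000000000000000000000 0x280000006e000000ee000000ff000000fe000000ee0000007c00000070 10 8) 0 0 (step_sound _ 133 [(rh69012675dfdb1a5b.shift 1 3), (rh8905127da3480c56.shift 1 0), (rhd69c262cd33b94b3.shift 1 3), (rhd8bd8e0a2e13c45e.shift 0 1)] (by decide +kernel))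
noncomputable def rh3b9515a6a3cdffe0 : CRef := CRef.mk (Pat.mk 0x1000000018000000000000000000000000 0x3c0000003e000000ef000000ff000000df0000007f0000003f0000003e 10 8) 0 0 (step_sound _ 131 [rh00eeda4981d839a8, rh0898acf46b3783a0, rh2952114d86a8ab63, rh4bee1a087d7a798a, rh682ade760733a6f8, rh6a5c1409aae8e013, rh6f2dce760555c886, rh74049d2216e8da9b] (by decide +kernel))
noncomputable def rh035770994105e47d : CRef := CRef.mk (Pat.mk 0x400000006000000000000000000000000000000000 0x2800000038000000380000003c0000007f000003ff000003ff000003ff000000fc000000f0 10 10) 0 0 (step_sound _ 132 [(rh07105c453cfb0948.shift 1 0), (rh0d44926e791670f3.shift 1 1), (rh1841b05e6131f29a.shift 0 1), (rh4d64d8174b81bca9.shift 1 2), rh7a15720c401fc00b, (rh88a1a5e979ea3934.shift 1 1), (rhae1ef08449b1432d.shift 0 3), (rhd6b6143f73ac7a28.shift 2 0), (rheff0b0af00d3c246.shift 0 1), (rhff82237f4f028ea9.shift 0 1)] (by decide +kernel))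
noncomputable def rhd234f37f52d735d2 : CRef := CRef.mk (Pat.mk 0x400000006000000000000000000000000000000000 0x1800000019000000190000001df000001fe000001ff000003e8000000e0000000e0 10 10) 0 0 (step_sound _ 132 [(rh3f396fc471e867d8.shift 2 2), (rh85c3c98d8ae88257.shift 0 3), (rhd6b6143f73ac7a28.shift 2 0), (rhd8a12d3b5f530cda.shift 2 3), (rhdb17f9d65a91b251.shift 3 1)] (by decide +kernel))
noncomputable def rhc162cbf9eeb893dd : CRef := CRef.mk (Pat.mk 0x1000000018000000000000000000000000 0x3c0000007c000000ef000000ff000000fb000000fe000000fe0000007e 10 8) 0 0 (step_sound _ 131 [rh357fbb7a21dfe169, (rh458da186430c632b.shift 0 1), (rh4a849ae4723e598b.shift 1 0), rh7d0a31c96b118879, (rh8fe15d633217c1c4.shift 0 1), rhb648d3fa3ea5157b, (rhc06ad09d29e34cca.shift 1 0), rhc2c2b50711241d7f, rhe735d1e6e68d8d79] (by decide +kernel))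
noncomputable def rhcc239bfec46a75c0 : CRef := CRef.mk (Pat.mk 0x80000000c000000000000000000000000 0x1000000034000000760000007f0000007f0000003f0000003e00000038 10 7) 0 0 (step_sound _ 132 [(rh1086a548292901e5.shift 1 1), (rh69012675dfdb1a5b.shift 0 3), rhb1968f7b81e4968d] (by decide +kernel))
noncomputable def rhf8bd7732e7be3d2f : CRef := CRef.mk (Pat.mk 0x3000000020000000000000000000000000 0x1c0000007c000000ff000001fc000001fc000001fc000001c0000000c0000000c0 10 9) 0 0 (step_sound _ 102 [(rh3c3e23a02e82b2ed.shift 2 3), rh960a6d587b8b4cda, (rhe741dc8654cad4e9.shift 3 0)] (by decide +kernel))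
noncomputable def rh25723fe2c9769ed7 : CRef := CRef.mk (Pat.mk 0x180000001000000000000000000000000000000000 0x3c0000007c0000001e0000007e000000ff000000ee0000000e0000000e00000008 10 8) 0 0 (step_sound _ 133 [(rh361e3604aca8c3f4.shift 1 0), (rh3c3e23a02e82b2ed.shift 1 4), (rh5c5a2014709044d0.shift 1 4), (rhc156fb3ec0abed94.shift 0 2)] (by decide +kernel))
noncomputable def rh0bc7850704dd32e7 : CRef := CRef.mk (Pat.mk 0x1800000010000000000000000000000000 0x3000000078000000f8000000fe000000ff000000ee0000006c00000068 10 8) 0 0 (step_sound _ 101 [(rh3c3e23a02e82b2ed.shift 1 3), (rh5c5a2014709044d0.shift 1 3), (rh875bbac55023815e.shift 1 0), rha2aa5240ec2fb9ed] (by decide +kernel))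
noncomputable def rh5c121c7bce9512ed : CRef := CRef.mk (Pat.mk 0x180000001000000000000000000000000000000000 0xc0000001c000001de000000fe000000ff000000ee0000002e0000000e00000008 10 9) 0 0 (step_sound _ 133 [(rh3c3e23a02e82b2ed.shift 1 4), (rh5c5a2014709044d0.shift 1 4), (rha8459d2c4b64189d.shift 1 0), (rhc156fb3ec0abed94.shift 0 2)] (by decide +kernel))
noncomputable def rh768a49ab79cc11d3 : CRef := CRef.mk (Pat.mk 0x180000001000000000000000000000000000000000 0x640000006c000000fe000000fe000000ff000000ee0000006e0000002e00000008 10 8) 0 0 (step_sound _ 133 [(rh3c3e23a02e82b2ed.shift 1 4), (rh5c5a2014709044d0.shift 1 4), (rh8a788bd0ac70215c.shift 1 0), (rha2aa5240ec2fb9ed.shift 0 1)] (by decide +kernel))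
noncomputable def rh5a718bf2cf350bc3 : CRef := CRef.mk (Pat.mk 0xc000000080000000000000000 0x40000001c0000001f0000003f000000ff0000007f0000007c0000007600000034 10 8) 0 0 (step_sound _ 68 [(rh008e852f7e9e2f3e.shift 0 1), (rh3c3e23a02e82b2ed.shift 0 2), (rh5c5a2014709044d0.shift 0 2), (rhb0121edee88fe839.shift 0 2), (rhdc704ca18e69510e.shift 1 0)] (by decide +kernel))
noncomputable def rh056a8c7882ab3829 : CRef := CRef.mk (Pat.mk 0x60000000400000000000000000 0x800000038000000f8000001fe000001ff000001fe000000ff0000003800000020 10 9) 0 0 (step_sound _ 100 [(rhb6727264509afb50.shift 1 0), (rhc59ba9a1f24cb412.shift 0 2), (rhdb3ff221baa4d983.shift 3 1)] (by decide +kernel))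
noncomputable def rhe12fefb7cc62dd7d : CRef := CRef.mk (Pat.mk 0xc00000008000000000000000000000000 0x40000005c0000007c0000007e000000ff0000007e0000007f000000770000003600000012 10 8) 0 0 (step_sound _ 100 [rh2821d2437b8de3fb, (rhd080829967d16b2a.shift 1 1), (rhd2491faf486785ec.shift 1 1), (rhd5b62721e2ff05b0.shift 1 0), (rhdb295ec562705fd3.shift 1 1), (rhfa81ce14c6422371.shift 1 1)] (by decide +kernel))
noncomputable def rhfee83efc1d234cb9 : CRef := CRef.mk (Pat.mk 0x180000001000000000000000000000000000000000 0x3400000074000000f6000000fe000000ff000000ee0000006e0000006e00000008 10 8) 0 0 (step_sound _ 133 [(rh0bc7c8527bd67b59.shift 1 1), (rh3c3e23a02e82b2ed.shift 1 4), (rha2aa5240ec2fb9ed.shift 0 1), (rhe6d18e8eb343bdea.shift 1 0)] (by decide +kernel))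
noncomputable def rh8d2c58665ea9a0fe : CRef := CRef.mk (Pat.mk 0x180000001000000000000000000000000000000000 0x3c0000007c000000ee000000fe000000ff000000ee0000006e0000002e00000008 10 8) 0 0 (step_sound _ 133 [(rh249d8b84525652fa.shift 1 0), (rh3c3e23a02e82b2ed.shift 1 4), (rh5c5a2014709044d0.shift 1 4), (rha2aa5240ec2fb9ed.shift 0 1), (rhb0121edee88fe839.shift 1 4)] (by decide +kernel))
noncomputable def rhbb2222967fd78c65 : CRef := CRef.mk (Pat.mk 0x1800000010000000000000000000000000 0x1c0000001f0000007f000000df000000ff000000ef0000002c0000002c 10 8) 0 0 (step_sound _ 99 [rh0496789963a892ce, rh8d3115d645de002c, rh8e8abd6ba079adb7, rhb364703c1ccff3b6, rhbf452253f699ef24, rhcead0e8c07db753c] (by decide +kernel))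
noncomputable def rh9b48d7a2c90b07de : CRef := CRef.mk (Pat.mk 0x6000000040000000000000000000000000 0xf0000001f0000007ff000003fe0000077f0000013c0000003800000030 10 11) 0 0 (step_sound _ 135 [(rh305c9b0c016ce9bb.shift 4 2), (rh5250b75544e595f0.shift 2 2), rh78f1bc07316387b2, (rh8963c5d57a021cfb.shift 4 2), (rh8da368902fea0612.shift 4 0), (rh92b0caa514b39a22.shift 2 0), (rhaa644370d44a8b9c.shift 2 0)] (by decide +kernel))
noncomputable def rh9ee275671d8796f5 : CRef := CRef.mk (Pat.mk 0x3000000020000000000000000000000000 0x7000000070000001f4000003ff000001fe000003ee000000c8000000c8000000c0 10 10) 0 0 (step_sound _ 131 [(rh0b01d292f713c566.shift 1 1), (rh1c912726d79010c0.shift 0 3), (rh60c323e8c53e543d.shift 1 1), (rhaf9843ced5136cd2.shift 1 1), (rhcc685291c4c7d597.shift 2 0)] (by decide +kernel))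
noncomputable def rhc790b4ef1d549d90 : CRef := CRef.mk (Pat.mk 0x1800000010000000000000000000000000 0x7c000000fc000000ff000000fb000000ff000000ef0000006c0000002c 10 8) 0 0 (step_sound _ 99 [(rh033eae1db6c483df.shift 1 0), (rh1615bc3a884beb0e.shift 1 0), (rh286cc68a5fbe430a.shift 1 0), rh5399cc7a53e3bd03, (rh66e2578a3b67b253.shift 1 1), rh7f771485e576b666, rh81d5ea09ab30a22c, rha72b23ab3700b1b9, (rhb55fe45d252655c9.shift 1 0)] (by decide +kernel))
noncomputable def rh399868a93679fa8c : CRef := CRef.mk (Pat.mk 0xc00000008000000000000000000000000 0x40000005c0000007c0000007e0000007f0000007f0000007f000000360000003400000030 10 7) 0 0 (step_sound _ 100 [(rh3c3e23a02e82b2ed.shift 0 3), rha6ea4e5497611205, (rhb0121edee88fe839.shift 0 3), (rhd080829967d16b2a.shift 1 1), (rhddbc2ac596079975.shift 0 2)] (by decide +kernel))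
noncomputable def rh7d0acc0df20c4eb8 : CRef := CRef.mk (Pat.mk 0x400000004000000040000000000000000000000000 0x6000000070000000f8000003ff000001ff000001ff000000f800000028 10 10) 0 0 (step_sound _ 101 [(rh281c6819542c66e6.shift 5 0), rh6ac38c0d6359570b, (rhb53b3c20d510f743.shift 3 1)] (by decide +kernel))
noncomputable def rh3db194c089839683 : CRef := CRef.mk (Pat.mk 0x100000001000000010000000000000000000000000 0x8000000380000003800000070000000f8000007ff000007fe000007ff000000e8000000a0 10 11) 0 0 (step_sound _ 101 [rh40cec9647ff47b91, (rh5a10b4f7ca279946.shift 1 1), (rh70e33bfdf511e144.shift 4 0)] (by decide +kernel))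
noncomputable def rh7db2b895c70a93d7 : CRef := CRef.mk (Pat.mk 0x200000002000000020000000000000000000000000 0x50000000700000007000000038000003ff000001fe000003ff0000005800000050 10 10) 0 0 (step_sound _ 100 [rh10f2b3129287c05e, rh1898030ce7222015, (rh68a777751bfeafdf.shift 4 2)] (by decide +kernel))
noncomputable def rhe07f7ebdfe868222 : CRef := CRef.mk (Pat.mk 0x100000001000000010000000000000000000000000 0x8000000380000003c000000f0000001ff000001ff000001ff000001ec0000018c 10 9) 0 0 (step_sound _ 101 [(rh0fa4a62bba50784f.shift 3 2), rh2dcb70cef80ae3cf, (rhaceecdc14555f89a.shift 2 0)] (by decide +kernel))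
noncomputable def rhe14afa5ef308a223 : CRef := CRef.mk (Pat.mk 0x400000004000000040000000000000000000000000 0x40000001e0000003e0000003f0000003f8000003ff000001ff000001bf000000b800000028 10 10) 0 0 (step_sound _ 101 [(rh68a777751bfeafdf.shift 5 2), rh6ac38c0d6359570b, (rhe977bb18bb02c222.shift 3 2), (rhee179f52d21ca1dd.shift 5 2)] (by decide +kernel))
noncomputable def rh504ad41edd1c56df : CRef := CRef.mk (Pat.mk 0x800000008000000080000000000000000000000000000000000000000 0x40000001c0000001c0000007c0000001f0000007f0000003e0000001f0000001c0000001c0000001c00000004 10 7) 0 0 (step_sound _ 226 [(rh26a9070bccc1ef24.shift 0 4), (rh544adc915ce4e2b5.shift 0 4), (rh56259dd1390eee46.shift 2 2), (rh75bcc01263973aae.shift 2 3), rh95a5826a1b373fec] (by decide +kernel))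
noncomputable def rhdc2c14d75ea4ef5b : CRef := CRef.mk (Pat.mk 0x20000000000000000000000000000000000000000000000000 0x5000000174000001fc000003fe000007ff000007ff000007ff000007ff000003ff000001fc000001fc00000050 10 11) 0 0 (step_sound _ 165 [(rh0593f0d8a4601370.shift 2 1), (rh2214d93bc190689e.shift 2 2), (rh2d66cdc9d4c64ed2.shift 2 1), (rh7236853e11f05bf7.shift 2 1), (rh72378ca4854ca59d.shift 0 1), (rh723db9fe2767360f.shift 2 2), (rh8bf2aad0e3bc79fb.shift 0 1), (rh9d0a6ba72aa88caf.shift 0 1), (rha42649ed2de08f41.shift 2 3), (rhbfc0e4d9c249c6c2.shift 2 1), (rhd1008913703b9b00.shift 2 0), (rhd5ab70764877306a.shift 2 1), (rhdcb93ced35a36c7d.shift 0 2), (rhe27533d77a4f1edc.shift 0 1), (rhf34c4e2e53417a6a.shift 2 0), (rhf7d07eb29a39252a.shift 2 2)] (by decide +kernel))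
end Crest.Agent.S0047.Helper85.Cert
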