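import Crest.Agent.Lib.S0047.Helper85CertPL10F0
import Crest.Agent.Lib.S0047.Helper85CertPL10F1
import Crest.Agent.Lib.S0047.Helper85CertPL10F2
import Crest.Agent.Lib.S0047.Helper85CertPL10F3
import Crest.Agent.Lib.S0047.Helper85CertPL10F4
set_option autoImplicit false
set_option linter.all false
set_option Elab.async false
namespace Crest.Agent.S0047.Helper85.Cert
open Crest.Agent.S0047.Helper85

noncomputable def rhd11382273a7e4e1b : CRef := CRef.mk (Pat.mk 0x100000000000000050000000000000000000000000 0x40000002c0000007e000000fe0000007e00000038000000770000007e0000003f00000028 11 8) 0 0 (step_sound _ 132 [(rh041ddc1d0a92e8ed.shift 2 1), rh310d8c1897d86d09, (rh34eef9ca963565ff.shift 1 2), (rhb95a54ace36dc081.shift 3 0), rhe2c24440905e1c2c, rhf15a1ce756bbc45e] (by decide +kernel))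
noncomputable def rhb780df3eb1e8e99d : CRef := CRef.mk (Pat.mk 0x8000000080000002800000000 0x140000001c0000001f0000007f0000007f0000003800000030 11 7) 0 0 (step_sound _ 131 [rh1191921b8898c443, (rh1741680720c097b4.shift 2 1), (rh426f403fa814630c.shift 3 0), (rh5abfc4c9d959be03.shift 2 0)] (by decide +kernel))
noncomputable def rh971061e71a624119 : CRef := CRef.mk (Pat.mk 0x100000000000000050000000000000000000000000 0x28000001ff000001fe000003be00000038000000770000007e0000003f00000028 11 10) 0 0 (step_sound _ 132 [(rh170c5db12d40392e.shift 3 1), rh310d8c1897d86d09, rh54241ed066c05db2, (rh971f41511bd3a7b8.shift 0 2), (rh9b8f7cfaa987950d.shift 3 0), (rhe5e051aa16641441.shift 3 0)] (by decide +kernel))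
noncomputable def rh7a15478bf4238e53 : CRef := CRef.mk (Pat.mk 0x8000000080000002800000000 0x140000007c000000ff0000007f0000003f0000003800000010 11 8) 0 0 (step_sound _ 131 [(rh1741680720c097b4.shift 2 1), rh2e4a14ffce9b24de, (rh426f403fa814630c.shift 3 0), (rh5abfc4c9d959be03.shift 2 0)] (by decide +kernel))
noncomputable def rhf3185d28170b3ead : CRef := CRef.mk (Pat.mk 0x2000000020000000a000000000000000000000000000000000 0x800000118000001bf00000ffe00000fff00000ffe00000ee0000003c0000001c0000001c000000040 11 12) 0 0 (step_sound _ 199 [(rh2e23ee94f3ec9f22.shift 1 1), (rh4066231165975f9b.shift 0 1), (rh4825c46f559aeb54.shift 1 4), (rh582109742dd3e578.shift 2 0), (rha96881e17a60b03a.shift 1 1), (rha9866805ab96b297.shift 2 1), (rhc4ae1709afd8ad30.shift 2 3), (rhd36d322168eb93c0.shift 2 1), (rhe65ef24f5c6f475d.shift 1 1), (rhff258c3cce1a4c52.shift 2 3)] (by decide +kernel))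
noncomputable def rh1dbe911ff620053e : CRef := CRef.mk (Pat.mk 0x100000001000000050000000200000000000000000 0x3f000000ff000000fe00000070000000380000001800000008 11 8) 0 0 (step_sound _ 101 [(rh2145e1d24b96a57e.shift 4 2), rh5e1639f7f74a5de2] (by decide +kernel))
noncomputable def rhfd992c87baf664b3 : CRef := CRef.mk (Pat.mk 0x600000004000000140000000000000000000000000 0x208000002080000070f00000ffe000003ff0000015000000ff8000007f000000ff8 11 12) 0 0 (step_sound _ 136 [(rh126557da767e56cc.shift 3 4), (rh336b89711aa97268.shift 0 3), (rh4da87348060446ce.shift 3 0), (rh6d659fe2506253e4.shift 4 2), (rh8c25cb665ab79ec0.shift 3 4)] (by decide +kernel))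
noncomputable def rhb28adfecc827b00d : CRef := CRef.mk (Pat.mk 0x60000000400000014000000000 0x140000003c0000003c00000f7f000007fe00000fff0000015800000118 11 12) 0 0 (step_sound _ 133 [rh7026ae958fd0d99c, (rhc89253ff58c66167.shift 5 1), (rhe072fffdd2fccf38.shift 5 1)] (by decide +kernel))
noncomputable def rh852d12c9d9e28128 : CRef := CRef.mk (Pat.mk 0x3000000020000000a000000000 0x4000000070000001f0000003b7000001fe000001ff000000e0000000c0 11 10) 0 0 (step_sound _ 164 [(rh92d527fd57e151ef.shift 4 1), rhc36cc9c38c1af9c1, (rhdf6eda84f2eabc48.shift 4 1), (rhf4bcdf19b6922e31.shift 4 1)] (by decide +kernel))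
noncomputable def rh0c7556aa6676df87 : CRef := CRef.mk (Pat.mk 0x60000000c000000080000002800000000000000000000000000000000 0x680000006e0000007f0000007c000003b8000001f0000003f00000007000000010 11 10) 0 0 (step_sound _ 197 [(rh2fe78cc5ca4405d8.shift 1 6), rhb5f8565f5ebda1d7] (by decide +kernel))
noncomputable def rhcea3c1c23dca195e : CRef := CRef.mk (Pat.mk 0xc0000000d000000080000001800000000000000000 0x8000000380000003800000038000000f8000000dc000000ff000001be0000003f00000028 11 9) 0 0 (step_sound _ 164 [(rh086f6046fa319626.shift 3 4), rha040a1a727b058b2, (rhac0d026bf1b92818.shift 3 0), (rhea93c7527f2c100c.shift 3 0)] (by decide +kernel))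
noncomputable def rh3444e63f6b9348c5 : CRef := CRef.mk (Pat.mk 0xc0000000d000000080000000000000000000000000 0x8000000b8000000b8000001b8000000f8000000dc000000ff0000003e0000003f00000028 11 9) 0 0 (step_sound _ 164 [(rh086f6046fa319626.shift 3 4), (rh3d698f173c8bf4e4.shift 3 3), rha040a1a727b058b2, (rha88074a3111006bb.shift 3 3)] (by decide +kernel))
noncomputable def rh650ff7bc031d69d1 : CRef := CRef.mk (Pat.mk 0x10000001d000000080000000000000000000000000 0x28000000380000003800000018000001dc000000ff0000003e0000003f00000028 11 9) 0 0 (step_sound _ 100 [(rh4e2b5ea0a9027acd.shift 3 1), (rh537071bc4ae65b3d.shift 3 0), (rh64c2947e2d06c6c8.shift 3 2), rh9873b41f3c8bad1b, (rhd916d7fcd727c3e4.shift 3 2), (rhecbbb221a43cdaac.shift 3 2)] (by decide +kernel))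
noncomputable def rh99b483060241dee5 : CRef := CRef.mk (Pat.mk 0xa000000180000000000000000 0x3e0000003e000000370000001f0000001b0000000f00000007 11 6) 0 0 (step_sound _ 98 [rh44db5328aa831181, (rhb739f4f82bb681b4.shift 0 2)] (by decide +kernel))
noncomputable def rh288925d9f25bc57d : CRef := CRef.mk (Pat.mk 0x38000000200000002000000000 0xc0000000c0000001c0000001c0000003f000000ff0000002f0000002c00000004 11 8) 0 0 (step_sound _ 132 [(rh592c1975d0380ab1.shift 0 1), rh87f355c0055501c3, (rhc89253ff58c66167.shift 4 1)] (by decide +kernel))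
noncomputable def rh3b61f21f696094cd : CRef := CRef.mk (Pat.mk 0xe000000080000002800000000 0x10000000f0000001f000000ef0000007e0000007b0000003a00000030 11 8) 0 0 (step_sound _ 100 [(rh3e34a007a92efc93.shift 0 1), rh8ae8a1ae5e711bfb, (rhff137c455409f0e3.shift 1 0)] (by decide +kernel))
noncomputable def rh37db226d070365fe : CRef := CRef.mk (Pat.mk 0x800000018000000100000005000000000000000000000000000000000 0x80000000d0000001dc000003f8000003ff00000777000003e0000007e0000000e000000020 11 11) 0 0 (step_sound _ 198 [rh8bc6dab553977be3, (rhe0df9d9f3714e240.shift 2 1), (rhf42d41e1ef4647c0.shift 2 5), (rhfb3d17e383b10002.shift 2 6)] (by decide +kernel))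
noncomputable def rh39a3b698da439483 : CRef := CRef.mk (Pat.mk 0x180000001000000040000000000000000000000000 0xa0000000e0000000e0000001ce000001fe000000ff000000670000000e0000000e00000008 11 9) 0 0 (step_sound _ 133 [(rh0a9dcd3f8a14b74e.shift 1 0), (rh205fcf80f36c4401.shift 0 3), (rh3c3e23a02e82b2ed.shift 1 4), (rh4ca5dae25f5c14ff.shift 1 4)] (by decide +kernel))
noncomputable def rh901f4572d8b6e38d : CRef := CRef.mk (Pat.mk 0x6000000040000001400000006000000000 0x8000000080000071f000007fe00000fff000001de0000017c0000001e 11 12) 0 0 (step_sound _ 132 [(rh3918eeb6c53434d8.shift 1 3), (rh554009a2f490582e.shift 0 3), (rhc5bc25a50fa28a78.shift 1 0), (rhfe573e726889db6b.shift 0 2)] (by decide +kernel))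
noncomputable def rh757b8c856fe9779b : CRef := CRef.mk (Pat.mk 0x1c0000001000000050000000000000002000000000000000000000000000000000 0xa0000000f0000000dc000000f800000050000003de000001fe000003ff000001c0000001c000000140 11 10) 0 0 (step_sound _ 132 [(rh46a9fe95438167a8.shift 3 3), (rh61737549170b20ff.shift 3 3), (rha3711ed12866f068.shift 3 3), rha8dd4fe2013a35ff] (by decide +kernel))
noncomputable def rh1295ca39ea8df563 : CRef := CRef.mk (Pat.mk 0x2000000020000000200000001000000000000000000000000000000000000000000000000000000000 0x2000000020000000300000003800000038000000ff000000fe0000003f000000380000003800000028 11 8) 0 0 (step_sound _ 196 [rhbd5585e56b08b904, (rheea67dfebd0f8008.shift 4 6)] (by decide +kernel))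
noncomputable def rh17fc1408289b8479 : CRef := CRef.mk (Pat.mk 0x80000000800000028000000000000001800000000 0x3cc000001f8000003b8000000ef0000007e000000f8 11 10) 0 0 (step_sound _ 34 [(rh5db979ee817d2c0a.shift 1 0), (rh71b06adb1bde91cb.shift 2 0), rha9628422bce4c73f, (rhe9937ce8bcea713a.shift 1 0)] (by decide +kernel))
noncomputable def rh96cde66d42a86399 : CRef := CRef.mk (Pat.mk 0x800000000000000060000000400000000000000000000000000000000 0x800000008000000f80000007e000000ff0000003c0000003c0000003800000020 11 8) 0 0 (step_sound _ 163 [(rh02ef15e22aa7db92.shift 2 2), (rh642acbf0c5e0a564.shift 0 2), rh71c4718db646c800] (by decide +kernel))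
noncomputable def rh9066c4001a6267ea : CRef := CRef.mk (Pat.mk 0x800000008000000280000000000000018000000000000000000000000000000000 0x3cc000001f8000003ba000001e7f00000ffe00001fff000005700000057000000020 11 14) 0 0 (step_sound _ 137 [(rh0692f2057e3370dc.shift 3 3), (rh1d372061ab4b7237.shift 4 3), (rh260ac7b49ae7b7c3.shift 4 3), (rh346e616115b63df7.shift 5 3), rha096a81150b01aff, (rha7020e7e7a1d82ed.shift 6 1), (rhd81e8d7b125b618f.shift 4 1)] (by decide +kernel))
noncomputable def rh1e2a89c78bab3c28 : CRef := CRef.mk (Pat.mk 0xf000000020000000000000000000000000 0x6000000060000000f000000fe0000003f0000000e0000000e00000006 11 8) 0 0 (step_sound _ 131 [(rh2efad3051cff7df1.shift 0 3), (rh70543c5e7e75eabe.shift 1 3), (rh775ca1963e850b80.shift 1 3), rhd74bb3bc4ff8d3e6, (rheae1728ff4a56756.shift 2 3)] (by decide +kernel))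
noncomputable def rh99cae520d6af04ff : CRef := CRef.mk (Pat.mk 0x60000000000000002000000020 0x40000001c0000001c0000001d0000007ff000007fe00000fce000000bc000000fc 11 12) 0 0 (step_sound _ 100 [(rh011831950e257566.shift 3 1), rh103b4ef66905a7d7, (rh175cead9898869a5.shift 2 2), (rh47d7c26af3f1df09.shift 1 2), rh8fa8434912cf37bb, (rh9afde6322e91a92c.shift 1 0), (rhfd3569fdf490dc54.shift 1 2)] (by decide +kernel))
noncomputable def rh2713450bd12e7977 : CRef := CRef.mk (Pat.mk 0x8000000000000001c000000040000000000000000 0x600000006800000068000000f8000000ff000000f40000003000000030 11 8) 0 0 (step_sound _ 131 [(rh5c5e593799055d58.shift 2 2), rh75b8c67102b969b0] (by decide +kernel))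
noncomputable def rha4e2c59913e4a8a2 : CRef := CRef.mk (Pat.mk 0x30000000300000002000000080000000000000000000000000 0x500000007000000078000001ac000001ff000001be000001ff000000ce0000018e0000018a00000180 11 9) 0 0 (step_sound _ 163 [(rh0b4b70be62215122.shift 3 0), (rha04f68600f9a529d.shift 0 1), (rhb12ffaec36122c99.shift 0 4), (rhcf86d050071af9b3.shift 2 4)] (by decide +kernel))
noncomputable def rhc3599917cbba57e7 : CRef := CRef.mk (Pat.mk 0x2000000020000000a0000000a00000000 0x770000003e0000007f0000007a0000001f0000000e00000008 11 7) 0 0 (step_sound _ 162 [rh41f3b2531f84bc22, (rhbaefcd01e0a8bca3.shift 1 1)] (by decide +kernel))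
noncomputable def rh3dec03e8b0100650 : CRef := CRef.mk (Pat.mk 0x34000000340000002000000000000000000000000000000000 0xa0000000e0000000e0000000e0000003600000036000000670000003e0000003f0000000e0000000a 11 7) 0 0 (step_sound _ 101 [(rh7b1f1fb55310c477.shift 4 2), rhfd4f43320c091382] (by decide +kernel))
noncomputable def rh23efbf14960780bd : CRef := CRef.mk (Pat.mk 0x8000000080000000400000004 0x140000007c0000007f000000ff0000007c00000018000000180000001c00000004 11 8) 0 0 (step_sound _ 131 [(rh34c0dc43c7a68784.shift 0 1), (rheea67dfebd0f8008.shift 2 0)] (by decide +kernel))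
noncomputable def rh618eac22275a2a58 : CRef := CRef.mk (Pat.mk 0x400000000000000020000000200000000000000000000000000000000 0xa0000003e0000003f0000003f0000000e0000000e0000000e0000000200000002000000070000000700000005 11 6) 0 0 (step_sound _ 194 [rh648e4b160e405460, (rhd918c3fd221dc9f8.shift 1 3), (rhfcb2054b994b665b.shift 0 4)] (by decide +kernel))
noncomputable def rhf1f920137649fef6 : CRef := CRef.mk (Pat.mk 0x20000000a0000000a0000000a000000000 0xc0000000c0000007c0000003e0000007bf000000fe000000ee00000080 11 11) 0 0 (step_sound _ 135 [(rh15c2321f8ed670ce.shift 4 1), (rh2f2c0929e2e08300.shift 0 1), (rh661fe274e172bbaf.shift 4 0), (rh829cc808255f735e.shift 4 0), (rh9258736a7488cc35.shift 4 1)] (by decide +kernel))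
noncomputable def rh1beedcd5efdf57b3 : CRef := CRef.mk (Pat.mk 0x8000000280000002800000020 0x14000000fc0000007c000000fc000000780000002f0000003c00000030 11 8) 0 0 (step_sound _ 101 [rh621a13966e3c372e, (rh839093b1409ed775.shift 2 0), (rh9258736a7488cc35.shift 2 0), (rhafab112a4c4dda0f.shift 3 0), (rhc85cc95794737cf7.shift 4 0)] (by decide +kernel))
noncomputable def rhb82347162e90fd4f : CRef := CRef.mk (Pat.mk 0x200000002000000020000000e000000200000000c00000004 0x3d0000005f000000fa0000007e0000002e000000280000002c00000004 11 8) 0 0 (step_sound _ 131 [(rh3c88ce959c0e423f.shift 2 0), (rha3c433945bd4ffeb.shift 0 1)] (by decide +kernel))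
noncomputable def rh1d9f620361a3bb93 : CRef := CRef.mk (Pat.mk 0x600000002000000000000000000000000000000000 0x40000000400000f8e000007fe00000fff000001c8000001c8000001c000000100 11 12) 0 0 (step_sound _ 167 [(rh2820ca9a6c4f41b4.shift 2 4), (rh352b7f91eba0c81f.shift 4 4), rh43f8d91c52a7bd75, (rh65798d1d5ff04bc8.shift 1 4)] (by decide +kernel))
noncomputable def rhfb576e92042bed25 : CRef := CRef.mk (Pat.mk 0x40000000000000002000000020000000000000000000000000000000000000000000000000 0x40000000400000006000000070000003ff000003fe000003ff000007f0000000700000007000000050 11 11) 0 0 (step_sound _ 165 [(rh2d9fb7ccdcfc0559.shift 5 4), (rh3462e300be246a20.shift 2 0), (rh4436aed01aabf9b9.shift 2 1), (rh8fc171977aa410fe.shift 0 4), (rha91a00b542328b7c.shift 5 4)] (by decide +kernel))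
noncomputable def rh0f3723cd7fc9b889 : CRef := CRef.mk (Pat.mk 0x800000008000000000000001000000010000000000000000000000000000000000000000000000000 0x800000018000000100000003f000000ff000000ff0000003f00000038000000380000003800000028 11 8) 0 0 (step_sound _ 260 [rh949095b30c3e0b8a, (rhcfdf45280693d3da.shift 3 6)] (by decide +kernel))
noncomputable def rh1fe70d47f563dc5a : CRef := CRef.mk (Pat.mk 0x800000000000000060000000400000000000000000000000000000000 0x800000008000000f80000007e000000ff0000003c0000003c0000003800000020 11 8) 0 0 (step_sound _ 163 [(rh02ef15e22aa7db92.shift 2 2), rh0beb57aeb9b7a753, (rhb4e9515fad555d6d.shift 0 2)] (by decide +kernel))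
noncomputable def rha5a21e1a73827dd8 : CRef := CRef.mk (Pat.mk 0x1000000010000000100000005000000000 0x1ef000000fe000001de0000003e0000007400000020 11 9) 0 0 (step_sound _ 37 [(rh263fba80d91f9897.shift 0 1), (rh55afc6a59410cf00.shift 4 0)] (by decide +kernel))
noncomputable def rhf60ad01df0174b74 : CRef := CRef.mk (Pat.mk 0x20000000600000004000000100000000000000000000000000 0x18000000180000001800000fff000007fe00000f7f00000118000003980000038000000280 11 12) 0 0 (step_sound _ 167 [(rh5fd19c59ce6eac07.shift 4 0), (rh7cc0287deada829a.shift 0 2), (rha9fbfd4bb8cf890b.shift 2 5), (rhe2f93f751a1b2a86.shift 4 2)] (by decide +kernel))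
noncomputable def rh120e1a88548d37a3 : CRef := CRef.mk (Pat.mk 0x80000000c000000080000002800000000 0x20000000200000017000001df000000ff000001ef0000003800000030 11 9) 0 0 (step_sound _ 130 [(rh50fbb5868c909700.shift 2 1), rh7679ee4327fa1124] (by decide +kernel))
noncomputable def rh00c3888597a1893b : CRef := CRef.mk (Pat.mk 0xe0000000000000008000000000 0xf0000000fc000001fc000000ff000003fe000000e7000000a000000080 11 10) 0 0 (step_sound _ 134 [(rh054b4055d420681e.shift 6 0), (rh46db19d9364aebc6.shift 2 1), (rh95a80f84f48ac358.shift 6 0), rh96f9fa58983f7f52, (rhb11d41c808e1ab4d.shift 6 0)] (by decide +kernel))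
noncomputable def rh45485228567d3685 : CRef := CRef.mk (Pat.mk 0x2000000070000000100000014000000000000000000000000000000000 0x200000007000000050000001de000001ff000001fe000001e0000000a0 11 9) 0 0 (step_sound _ 102 [rh02f438dd9c55f41f, (rh2613c889e411427e.shift 5 3)] (by decide +kernel))
noncomputable def rh6db7d6fffe05346a : CRef := CRef.mk (Pat.mk 0x1e0000000000000008000000000 0x377000001fe000000ff0000008000000080 11 10) 0 0 (step_sound _ 68 [rh0f9c30bc5d168230, (rh80fcd6d0a18cb2dd.shift 4 2)] (by decide +kernel))
noncomputable def rhfd02df960562ce8d : CRef := CRef.mk (Pat.mk 0x8000000f8000000000000014000000040000000000000000000000000 0x8000000f800000018000001de000001ff000001fe000001e0000000a0 11 9) 0 0 (step_sound _ 164 [rh0072bdce1b7039e6, (rheb0810cc63b001d8.shift 3 5)] (by decide +kernel))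
noncomputable def rh837faecd64f19141 : CRef := CRef.mk (Pat.mk 0x380000000000000050000000000000000000000000 0x2000000020000001e0000000f8000000dc000000770000007e0000003f00000028 11 9) 0 0 (step_sound _ 166 [(rh00c1a02c588da1b0.shift 3 2), (rh2c72ba305cb936d9.shift 2 0), (rh500a083f39e7580c.shift 3 2), (rh6fa74b591035993a.shift 0 1)] (by decide +kernel))
noncomputable def rhfaaa129303f8acad : CRef := CRef.mk (Pat.mk 0x300000000000000080000000000000000000000000 0x140000015c0000015c000007ff000003fe0000079f00000088000001c0000001c000000140 11 11) 0 0 (step_sound _ 166 [(rh01b20d24b8342407.shift 3 0), (rh97176d4945c8430a.shift 1 0), (rha221374f592eb9e9.shift 2 2), (rhbcff1745f95e591b.shift 1 0), (rhf7aeba75fcdcc417.shift 0 3), (rhfe6177b7a19d6b1f.shift 2 0)] (by decide +kernel))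
noncomputable def rh66030455abfa3d21 : CRef := CRef.mk (Pat.mk 0x380000000000000050000000000000000000000000 0x200000002000000030000000f8000000dc00000077000000fe000000ff000000a0 11 8) 0 0 (step_sound _ 166 [(rh33d3f1ba39b8bd00.shift 3 0), (rh6fa74b591035993a.shift 0 1), (rha7df28b5855c75d7.shift 3 2)] (by decide +kernel))
noncomputable def rh5e7d8791e0859cb8 : CRef := CRef.mk (Pat.mk 0x7800000000000000100000002000000020 0xc70000007e0000001e000000140000003e00000077 11 8) 0 0 (step_sound _ 36 [(rh6f1cbe15c631ee70.shift 4 0), rhf03d44b182dcee0d] (by decide +kernel))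
noncomputable def rhb58070d217793fe2 : CRef := CRef.mk (Pat.mk 0x4000000060000000400000004000000000 0xa0000000e0000000f8000000f8000003df0000007e0000007f000000dc0000001c 11 10) 0 0 (step_sound _ 166 [(rh32431e66bbf434a4.shift 5 2), (rh44f453b84f013105.shift 6 1), (rh769be3fe24eee174.shift 5 2), (rhc85cc95794737cf7.shift 5 2), rhd5c8c3c53a192053] (by decide +kernel))
noncomputable def rh831a0edf08a7c1b5 : CRef := CRef.mk (Pat.mk 0x180000000c000000000000001000000000000000000000000000000000 0x140000001f0000003f0000003f0000001c0000001f000000380000001000000010000000380000003800000028 11 6) 0 0 (step_sound _ 193 [rh18d920784454853f, (rh53b3c253cb0c65f4.shift 0 6)] (by decide +kernel))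
noncomputable def rh4354c97485c39f4d : CRef := CRef.mk (Pat.mk 0x1f000000000000000000000002 0x60000001e0000007e0000001e0000007f0000000e0000000e00000002 11 7) 0 0 (step_sound _ 131 [(rh33e738c4ed385b9f.shift 0 3), (rha266b74441f512ef.shift 1 0)] (by decide +kernel))
noncomputable def rhbde30269090920f5 : CRef := CRef.mk (Pat.mk 0x800000038000000080000000000000010 0x180000003f000000ff000000fe00000038000000380000001000000010 11 8) 0 0 (step_sound _ 68 [(rh9e07f76261b05888.shift 3 0), (rha19530e04ceccd54.shift 0 2)] (by decide +kernel))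
noncomputable def rh4bc4fba91d25d6d1 : CRef := CRef.mk (Pat.mk 0x20000000600000005000000000 0x28000000398000003b800000fb800000fff000007fe00000ff7000001a0 11 12) 0 0 (step_sound _ 133 [(rh2145e1d24b96a57e.shift 5 1), rhcf7ea911c0c84035] (by decide +kernel))
noncomputable def rhb3a875fec6f3328c : CRef := CRef.mk (Pat.mk 0x10000000300000002800000000 0x7e000001ff000001f8000000fc000001f8000001d0 11 9) 0 0 (step_sound _ 132 [(rh2145e1d24b96a57e.shift 4 1), rh529ec30bcc041704] (by decide +kernel))
noncomputable def rh6abfc71ce9dbe3ce : CRef := CRef.mk (Pat.mk 0x80000001c000000040000000000000010 0x620000006a0000007f0000007f0000007e000000140000001000000010 11 7) 0 0 (step_sound _ 163 [(rh5c5e593799055d58.shift 2 2), rhf62fd789b874bcd8] (by decide +kernel))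
noncomputable def rhc9938d647a51e764 : CRef := CRef.mk (Pat.mk 0x8000000180000001400000000 0x3f000000ff000000ff0000007c0000001c00000008 11 8) 0 0 (step_sound _ 131 [(rh2145e1d24b96a57e.shift 3 1), rh9e5aee0b17156d24] (by decide +kernel))
noncomputable def rh6ad555b44fde5650 : CRef := CRef.mk (Pat.mk 0x18000000040000000000000014000000000000000000000000 0x1c0000007c0000001f0000007e000000fc000000fc000000140000000e0000000e0000000a 11 8) 0 0 (step_sound _ 227 [(rh252d2b79a9776521.shift 0 3), (rh32d5e450774e6499.shift 1 3), (rhccb0eb046a7db929.shift 1 3), (rhcdfba260e5024b09.shift 1 0)] (by decide +kernel))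
noncomputable def rh3fae15806b141bf9 : CRef := CRef.mk (Pat.mk 0x2000000060000000100000000000000040 0x1f0000001f0000007bf000003fe000007f70000006000000040 11 11) 0 0 (step_sound _ 70 [(rh9e07f76261b05888.shift 5 0), (rhf0b309febaccae9f.shift 0 1)] (by decide +kernel))
noncomputable def rh1526b1cb338caac7 : CRef := CRef.mk (Pat.mk 0x30000000080000000000000028000000000000000000000000 0x3e000000ff000000fe0000003e000000f800000078000000280000001c0000001c00000014 11 8) 0 0 (step_sound _ 228 [(rh32d5e450774e6499.shift 2 3), (rh369b46dbf20fdf3c.shift 1 3), (rhc88e1e309e589821.shift 0 3), (rhcdfba260e5024b09.shift 2 0), (rhec43871de1216a7b.shift 1 3)] (by decide +kernel))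
noncomputable def rhe7bedf9e10ed3625 : CRef := CRef.mk (Pat.mk 0x180000001800000000 0x3c0000003e000000f7000000ff000000de00000050 11 8) 0 0 (step_sound _ 69 [(rh2612b4f73ba7c3b3.shift 2 1), (rh3c004dd0a2e87afb.shift 2 0), rh8d06b787ce6d8851] (by decide +kernel))
noncomputable def rh6c223df33e692b1c : CRef := CRef.mk (Pat.mk 0x40000000600000000000000000 0x140000001f8000001f8000007fc00000fff000007fe0000075f00000008 11 12) 0 0 (step_sound _ 68 [(rh3e0b38310ac09007.shift 1 2), (rh7854431dc46f5634.shift 3 1), (rha4e887c2a2a0f60b.shift 1 1), rhab487c3c61f837dc, (rhff7d63dcb3cf9f74.shift 3 2)] (by decide +kernel))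
noncomputable def rh6ec8cf01606a08ea : CRef := CRef.mk (Pat.mk 0x2000000030000000000000004000000000 0x500000007c000000fc000000fc000000700000007e000003e70000004000000040 11 10) 0 0 (step_sound _ 70 [(rh1da975612a8179ce.shift 0 1), (rh4d760d0d70847451.shift 5 0), (rh4f828ba34ace724d.shift 3 0), (rh78c7f3b6ffd4fc5f.shift 2 1), (rh92ad2395f211b1ca.shift 2 1)] (by decide +kernel))
noncomputable def rh8c79c888b6d52d18 : CRef := CRef.mk (Pat.mk 0x1e0000000400000000 0x3f0000003f000000370000001e0000000f00000002 11 6) 0 0 (step_sound _ 33 [rh030c003e388f4659, (rheb0810cc63b001d8.shift 0 1)] (by decide +kernel))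
noncomputable def rh32aa528518855c66 : CRef := CRef.mk (Pat.mk 0x18000000080000000000000028 0x3c000000fc000000ff000001ff000000f8000001ec0000002800000028 11 9) 0 0 (step_sound _ 132 [(rh9e3edb185cc347de.shift 3 0), rheb369745b6a69491] (by decide +kernel))
noncomputable def rh8d60ccb3b32c25bb : CRef := CRef.mk (Pat.mk 0x18000000080000000000000020 0x54000000de000001ff000000fe000001ef0000002000000020 11 9) 0 0 (step_sound _ 101 [(rh00eb2e4956d7bb59.shift 2 0), rh195acc5d3c78874d, (rh352b7f91eba0c81f.shift 2 2), (rh412f1f80a1be7ac3.shift 2 0), (rh5db58b4f33078050.shift 2 0)] (by decide +kernel))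
noncomputable def rh14130aad1b9507ad : CRef := CRef.mk (Pat.mk 0x100000003000000000000000a00000000000000000 0xc0000001c0000001e000001fe000000fe000000df000000ee000000ae0000000a 11 9) 0 0 (step_sound _ 163 [(rh39043eae2282047b.shift 1 0), (rh3c3e23a02e82b2ed.shift 1 4), (rh5c5a2014709044d0.shift 1 4), (rh9573bebbd0dfe75e.shift 0 1)] (by decide +kernel))
noncomputable def rh062e468af6188d00 : CRef := CRef.mk (Pat.mk 0x8000000180000000000000010 0x140000001f0000003f0000003f0000001c0000000c0000007c0000001f00000014 11 7) 0 0 (step_sound _ 131 [(rh1161126bc67eaa28.shift 0 1), (rh2ae3e6277b6c452e.shift 2 0), (rh54abdced1742da06.shift 3 0), rhb29c6cf5970e66d5] (by decide +kernel))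
noncomputable def rhbe2d79be101f5cb2 : CRef := CRef.mk (Pat.mk 0xc00000008000000080000002800000000 0x20000004a0000005b000003ff000003ff000007ff0000003800000020 11 11) 0 0 (step_sound _ 132 [(rh2f68792b6b779e96.shift 3 1), rhfcb4dca7eb69d1a5] (by decide +kernel))
noncomputable def rhd4ec2a3f7cfd0e85 : CRef := CRef.mk (Pat.mk 0x1000000010000000100000003800000000 0x1ef000000ff000001ff0000003e000000f8000000c0 11 9) 0 0 (step_sound _ 67 [rh129ad9219ced47ee, (rh8a4191860a6caed0.shift 0 1), (rhe2b63c00a3d7bb73.shift 1 1)] (by decide +kernel))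
noncomputable def rh2d90c7d6e8217869 : CRef := CRef.mk (Pat.mk 0x30000000200000000000000080 0x78000000fc000003fe000003fe000007bf0000009800000080 11 11) 0 0 (step_sound _ 102 [(rh3876d507952a5dd4.shift 3 1), (rh5f6d468375297b0e.shift 0 1), (rh6e58a0bd8960d1a6.shift 3 0), (rhaad8aca116efc48f.shift 3 0), (rhdb90f1f50322779b.shift 2 2)] (by decide +kernel))
noncomputable def rh7351e858a26a73d2 : CRef := CRef.mk (Pat.mk 0x18000000100000000000000010 0x1c0000003c0000001f0000001f0000001f0000001f00000014 11 6) 0 0 (step_sound _ 131 [(rh9e07f76261b05888.shift 3 0), rhe44dac9fb89bbdf2] (by decide +kernel))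
noncomputable def rh7c24aae91f3b9095 : CRef := CRef.mk (Pat.mk 0x80000001800000010000000000000004000000000 0xc0000000c0000001f000001ff000000ff000000ec0000004000000040 11 9) 0 0 (step_sound _ 195 [(rh2145e1d24b96a57e.shift 3 3), rhd4dbfbae754b5cd9] (by decide +kernel))
noncomputable def rh5e8559b11ef74ed9 : CRef := CRef.mk (Pat.mk 0x800000018000000100000000000000000 0x3e0000003e000001ff000000ff000001df000000360000000600000006 11 9) 0 0 (step_sound _ 132 [(rh3087ddaea48372a3.shift 1 2), (rh8df9cd58bb9400a6.shift 0 2), (rhc45db3510091a358.shift 0 1), rhcffd5f674ea5bb54, (rhe1d4ac11b9e7121c.shift 2 2)] (by decide +kernel))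
noncomputable def rh8a821bba272de551 : CRef := CRef.mk (Pat.mk 0x18000000100000000000000010 0x300000003c0000007f0000001f0000007f000000770000003600000012 11 7) 0 0 (step_sound _ 131 [rh640b55d3c042aa7c, (rh9e07f76261b05888.shift 3 0)] (by decide +kernel))
noncomputable def rh3fe29c1e3b6548a8 : CRef := CRef.mk (Pat.mk 0x200000006000000000000001400000000000000000 0x980000009800000fff000007fe00000f7f0000015c0000015c00000014 11 12) 0 0 (step_sound _ 102 [rh09261e4e200c919c, (rh7b1f1fb55310c477.shift 5 1)] (by decide +kernel))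
noncomputable def rh74749a053c5e9458 : CRef := CRef.mk (Pat.mk 0x800000018000000000000005000000000 0x34000000b4000000f7000000ff000000fb000000fa0000007000000050 11 8) 0 0 (step_sound _ 68 [(rh7b1f1fb55310c477.shift 3 0), rha1fcc3049efbe560] (by decide +kernel))
noncomputable def rh0af89dee0b6b377d : CRef := CRef.mk (Pat.mk 0x40000000c0000001800000028000000000000000000000000 0x1800000018000000780000007c0000006f0000007800000038000000600000006000000060 11 7) 0 0 (step_sound _ 195 [(rh4c60faed9e5f228f.shift 2 3), (rhc0ddb33d3a52722b.shift 0 3), rhfac2233388ad3823] (by decide +kernel))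
noncomputable def rhd47976dfded143c6 : CRef := CRef.mk (Pat.mk 0x60000000400000000000000100 0x1a0000001f000000fff000007fe00000fdf0000019000000180 11 12) 0 0 (step_sound _ 100 [(rh3918eeb6c53434d8.shift 1 2), (rh60bd0ec26cde1ae5.shift 3 0), (rh8f608fc770a6e29a.shift 0 2), (rhaafd004c656ece77.shift 1 0)] (by decide +kernel))
noncomputable def rh23320090cac71732 : CRef := CRef.mk (Pat.mk 0x500000006000000000 0x78000000fc000003fe000003fe0000007f00000018 11 10) 0 0 (step_sound _ 69 [(rh01ef127f423122a8.shift 2 0), rh5f6d468375297b0e, (rh8fd9dccc504587e6.shift 3 0), (rh93dada6cc3ed2a8c.shift 2 1), (rha14478d91faf3ae3.shift 2 1)] (by decide +kernel))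
noncomputable def rh6cc979882aef59d3 : CRef := CRef.mk (Pat.mk 0x100000000000000050000000000000000000000000 0x38000000f8000000f8000003ff000001fe000003ff00000070000000780000005800000048 11 10) 0 0 (step_sound _ 165 [(rh32c59cbf0a31b488.shift 1 2), (rh4a9c389e737e2630.shift 2 1), (rh51e54745280eb8a0.shift 2 0), (rh55c75d82b1c35d1c.shift 1 0), (rh6a0b830e2b229893.shift 2 1), (rh80b03c72746ea49c.shift 2 1), (rh9a743f7f2188ad19.shift 1 2), rhbbecd3f8025dbe78, (rhbf2fee8a436ab7ae.shift 1 1)] (by decide +kernel))
noncomputable def rhcb0eda9403691a74 : CRef := CRef.mk (Pat.mk 0x60000001400000004000000000 0x18000000380000003f000000fe000001ff000000dc0000001c 11 9) 0 0 (step_sound _ 100 [(rh3918eeb6c53434d8.shift 1 2), (rha6cbcd11f918f69d.shift 0 2), rhbe7b968eae445e4c, (rhcb43428bb87ea4d7.shift 2 2), (rhe28dc3223a412fc9.shift 4 2)] (by decide +kernel))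
noncomputable def rh1e18f4e94741cc5f : CRef := CRef.mk (Pat.mk 0x7000000000 0x3c0000007c0000001f0000007f000001fe0000002e 11 9) 0 0 (step_sound _ 35 [rh200f0fc9d2321d44, rh267112a29e3f49f7, (rh775ca1963e850b80.shift 1 0), (rh875ee7c4c1e718c0.shift 0 1), (rhe98fd16c4771a217.shift 1 0)] (by decide +kernel))
noncomputable def rhc7788103301c9d2c : CRef := CRef.mk (Pat.mk 0x2000000020000001e00000000 0x21000000370000003e000000160000003e0000001e0000000b 11 6) 0 0 (step_sound _ 1 [rh2f9fb36c8732446b, rheb0810cc63b001d8] (by decide +kernel))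
noncomputable def rh93edd3a8ae073906 : CRef := CRef.mk (Pat.mk 0x400000000000000000000000f0000000000000005000000000 0x280000007800000078000000700000003f000000fe0000002e0000007000000050 11 8) 0 0 (step_sound _ 99 [rh03fd63e952d89938, (rh592c7139d2c44767.shift 1 2), (rhd5eb272e07a4e288.shift 2 3), (rhfe11e02935a828dd.shift 1 0)] (by decide +kernel))
noncomputable def rhc12c52c05412674f : CRef := CRef.mk (Pat.mk 0x6000000000000000440000007800000000 0x20000000200000007c000001ff0000005c000000560000007e00000007 11 9) 0 0 (step_sound _ 34 [(rh3244c3cc8379b070.shift 1 1), rh99777fad7eefa1cd] (by decide +kernel))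
noncomputable def rh325939e17746fd96 : CRef := CRef.mk (Pat.mk 0x6000000000000000400000007800000000 0x3de000001fc000003de0000004e0000007e000000c7 11 10) 0 0 (step_sound _ 66 [rh31360ed77236e21b, (rh3f8766e6ecb455ce.shift 2 1)] (by decide +kernel))
noncomputable def rh5bbac8cf5e99b328 : CRef := CRef.mk (Pat.mk 0x6000000000000000040000003800000000 0x3c0000003c000003ff000003fe0000039f000000160000003e00000007 11 10) 0 0 (step_sound _ 131 [(rh1388a08177d81093.shift 1 0), (rh1c75fa13126d35a4.shift 0 1), (rh2d565dc9c7674746.shift 1 1), (rh61ca003a709ba163.shift 2 1), rh65b89aeea0165deb, rh8ff9c359f9691172] (by decide +kernel))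
noncomputable def rh5eb33890a4778c5d : CRef := CRef.mk (Pat.mk 0x1800000000000000100000001f000000000 0x50000003fc000001f80000037c0000016f000001fe0000005f 11 10) 0 0 (step_sound _ 133 [(rh67ccea158d5c0356.shift 1 0), (rh950bb586f5508cff.shift 1 0), rhc1e1d6f4148d1c1b, (rhf33c79cf3b0bd656.shift 2 1)] (by decide +kernel))
noncomputable def rh04ffeb8fc9cc4a8a : CRef := CRef.mk (Pat.mk 0x100000000000000000000000e000000100000000500000000 0x50000002700000027000000760000003e000000320000001700000015 11 7) 0 0 (step_sound _ 100 [(rhe25b0a99195a5d59.shift 1 2), rhfaa69a5417a46e76] (by decide +kernel))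
noncomputable def rhdee7f447d061d812 : CRef := CRef.mk (Pat.mk 0x100000000000000000000001f8000000000000005000000000 0x1ff000000fe000001ef000000ec000003f80000002c0000007000000050 11 10) 0 0 (step_sound _ 134 [(rh33e738c4ed385b9f.shift 3 3), rhd6ef360aa93c0eb8] (by decide +kernel))
noncomputable def rh99fb24907bcfa657 : CRef := CRef.mk (Pat.mk 0x100000000000000000000001f8000000000000005000000000 0x40000001ff000000fe000001ef0000076c000003f80000002c0000007000000050 11 11) 0 0 (step_sound _ 137 [(rh428265de8cd3cd2d.shift 5 3), rhf9c58181f488be4c] (by decide +kernel))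
noncomputable def rh4491d2f17daad97e : CRef := CRef.mk (Pat.mk 0x800000000000000000000003800000000 0x20000000250000007f0000007f000001ef000000fe000001d7 11 9) 0 0 (step_sound _ 34 [(rh1d03ec6859586f19.shift 1 0), (rh394e80a462af5b2f.shift 1 0), rh3b7e3c34d0b1529c, rh592c7139d2c44767] (by decide +kernel))
noncomputable def rh97acaebcd577be02 : CRef := CRef.mk (Pat.mk 0x200000000000000020000000e00000000 0x740000003f0000007f0000007a0000003f00000075 11 7) 0 0 (step_sound _ 97 [(rh55afc6a59410cf00.shift 1 0), rhaab46d25cf48b100] (by decide +kernel))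
noncomputable def rhcc8ea289b2eb5cda : CRef := CRef.mk (Pat.mk 0x200000002000000000000000f800000000 0xa0000000e0000015e000001ff000001bf000001ff0000018e000000fc00000058 11 9) 0 0 (step_sound _ 131 [rh086da7f20c9bb6c1, rh0ac1df80bab6e43c, (rh2b469a46fc262367.shift 2 0), (rh4366f52edb0e2cba.shift 2 0), rhb6dbc95deddfb630] (by decide +kernel))
noncomputable def rh0ed3c2da8103379f : CRef := CRef.mk (Pat.mk 0x200000002000000080000000f800000000 0xa0000000e0000015e000001ff000001bf000001ff0000008e000000fe00000057 11 9) 0 0 (step_sound _ 131 [rh19a2f9cbc5e41178, (rh2bc2e71fb8c17aa9.shift 1 0), (rh4366f52edb0e2cba.shift 2 0), rhb6dbc95deddfb630, (rhd0f1598a3000a201.shift 2 0), rheda588da90e4692b] (by decide +kernel))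
noncomputable def rhd1d4c99b9e4fbd7b : CRef := CRef.mk (Pat.mk 0x200000002000000100000000e00000000 0x3d0000001f0000003b00000012000000320000003e00000074 11 7) 0 0 (step_sound _ 36 [(rh33e738c4ed385b9f.shift 1 1), rhe459bde7488a5de0] (by decide +kernel))
noncomputable def rh3fb662b1cdbda0fa : CRef := CRef.mk (Pat.mk 0x40000000200000002000000020000000f00000000 0x3d0000001f0000003a000000120000003a0000003f00000070 11 7) 0 0 (step_sound _ 161 [(rh2f68792b6b779e96.shift 1 2), rh374ac93676df4ab5] (by decide +kernel))
noncomputable def rh5429407cad00ad17 : CRef := CRef.mk (Pat.mk 0x800000000000000000000003c00000004 0x70000007f0000007f000001ec000000fc000001c4 11 9) 0 0 (step_sound _ 99 [(rh3c88ce959c0e423f.shift 2 0), rhaa71322216afb057] (by decide +kernel))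
noncomputable def rh8489fd97ae143fe2 : CRef := CRef.mk (Pat.mk 0xc00000000000000400000003c00000002 0x40000007e00000077000000c3000000fe000001c3 11 9) 0 0 (step_sound _ 33 [rh66d3dc736bf9e8f2, rheb0810cc63b001d8] (by decide +kernel))
noncomputable def rh034c36b72ab77023 : CRef := CRef.mk (Pat.mk 0x1800000000000000800000007800000004 0x140000001c0000001c0000007c0000007f0000017f000001fb000001ff00000196000001fc00000386 11 10) 0 0 (step_sound _ 163 [(rh26e38b11d848fc1f.shift 1 0), rhc9aa9684071e23f8, (rhcea9fbc079b423fb.shift 0 1), (rhdb07e5f62a137f51.shift 3 0)] (by decide +kernel))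
noncomputable def rhd2849570af66b001 : CRef := CRef.mk (Pat.mk 0x30000000000000000000000020 0xa000000ee000000fe000001ff000000fe000001ff0000002000000020 11 9) 0 0 (step_sound _ 99 [(rh5cf7c461bdd0bb27.shift 1 2), (rh8adf3e63048ba3cf.shift 1 2), (rh913012cd9531b008.shift 2 0), (rh9213876b576aa1f5.shift 0 2), (rha9ceffcd8583f456.shift 1 2), (rhcd042805d4311913.shift 1 2)] (by decide +kernel))
noncomputable def rh63d8a98bd59a57f1 : CRef := CRef.mk (Pat.mk 0xc00000000000000000000003c00000000 0x390000003f00000077000000230000003e00000007 11 7) 0 0 (step_sound _ 1 [rh3793918b351e905b, (rh80fcd6d0a18cb2dd.shift 1 0)] (by decide +kernel))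
noncomputable def rh5edf8457c3a99695 : CRef := CRef.mk (Pat.mk 0x1800000000000000000000007000000000 0xa0000007ff000003fe000003e7000000ce0000007c0000002e 11 11) 0 0 (step_sound _ 35 [(rh592c7139d2c44767.shift 1 0), rh67fd481b9b1a9fa3] (by decide +kernel))
noncomputable def rh125fa52a139b27ba : CRef := CRef.mk (Pat.mk 0x5800000000000000000000007800000004 0x1dc000000f800000080000001c7000001fe00000386 11 10) 0 0 (step_sound _ 34 [rhde2d2a9d706f4536, (rheb0810cc63b001d8.shift 1 0)] (by decide +kernel))
noncomputable def rh75efc8dc590d9653 : CRef := CRef.mk (Pat.mk 0x180000000000000000 0x80000000ea000000fe000000fe000003ff000001fe000003ef00000008 11 10) 0 0 (step_sound _ 69 [(rh22d326bdf3fdc35e.shift 0 1), (rh387d620ce7054002.shift 0 1), (rh392d7678b3ef63ac.shift 0 1), (rh6751015dfcbdc85d.shift 2 1), (rhdc8d684aeb98c0f7.shift 1 0), (rhe5bc284bcfc683a2.shift 0 1)] (by decide +kernel))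
noncomputable def rhbd23a638a4b78b06 : CRef := CRef.mk (Pat.mk 0x200000002000000000000000e00000000 0x740000003f0000007f0000007a0000003f00000075 11 7) 0 0 (step_sound _ 65 [(rh55afc6a59410cf00.shift 1 0), rhaab46d25cf48b100] (by decide +kernel))
noncomputable def rh3c4e370da9f369f3 : CRef := CRef.mk (Pat.mk 0x200000002000000000000000f000000000 0x14000001ff000000ff000001ff0000078e000003fc0000071e 11 11) 0 0 (step_sound _ 40 [rh7fa91500a39c2ef7, (rh9890f9d77740bbed.shift 4 1), (rha93a5dd541ab8209.shift 5 0)] (by decide +kernel))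
noncomputable def rh7bd3f50627cc9f27 : CRef := CRef.mk (Pat.mk 0x800000008000000000000003c00000000 0x200000007c000001ff000003ff000001fe000003ff000000e8000000fc000001c0 11 10) 0 0 (step_sound _ 132 [(rh00912069ccfeaeac.shift 2 0), (rh31778edecfb69d82.shift 2 0), (rh5596e294f7d67678.shift 0 1), (rh60b69dc9c301c295.shift 0 1), (rh803a84c7316e091d.shift 0 1), (rha419374a63c09110.shift 0 1)] (by decide +kernel))
noncomputable def rhce28fa6251beac29 : CRef := CRef.mk (Pat.mk 0x1000000010000000400000006000000000 0x1c000000bc000003ff000001fe000003ff000000400000006000000020 11 10) 0 0 (step_sound _ 134 [(rh1926982ee5082ead.shift 3 0), (rh3533d4ae0e68498c.shift 5 0), rh3e7d13c1d4d72f84, (rhb9c8d668c3335771.shift 1 3)] (by decide +kernel))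
noncomputable def rh6570b5232bba9904 : CRef := CRef.mk (Pat.mk 0x10000000200000002000000020000000f00000000 0x3d0000001f0000003a000000120000003a0000003f00000070 11 7) 0 0 (step_sound _ 161 [(rh50fbb5868c909700.shift 0 2), rh8a061d88a80f225b] (by decide +kernel))
noncomputable def rhb9a6451dc6ade2c8 : CRef := CRef.mk (Pat.mk 0x1000000000000000000000007800000000 0x140000001c0000003c0000003c000000fc000003ff000001fe000003ff000001c0000000f8000001a0 11 10) 0 0 (step_sound _ 134 [(rh60024074442e9585.shift 3 0), (rhd8df6aa09bea8ca8.shift 3 0), rhdf39ffc9889a54dd, (rhfcaa779777735728.shift 1 3)] (by decide +kernel))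
noncomputable def rh3574cff7a1ded034 : CRef := CRef.mk (Pat.mk 0x200000000000000000000000f800000000 0x50000000700000007000000020000001b7000000fe0000004e 11 9) 0 0 (step_sound _ 71 [rh185dd998403af86c, (rh33e738c4ed385b9f.shift 4 1)] (by decide +kernel))
noncomputable def rh1146c01cf794fa61 : CRef := CRef.mk (Pat.mk 0x180000001e000000000000000a00000000 0xfe0000007f000000ff0000001e0000007e000000140000000e0000000a 11 8) 0 0 (step_sound _ 130 [(rh347cd48e044256c4.shift 0 1), rh3e5e819d955c7548, (rh79b3c29022acbdf3.shift 1 3)] (by decide +kernel))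
noncomputable def rh5217d3d11556d9a6 : CRef := CRef.mk (Pat.mk 0x3c000000000000000800000000 0x3800000038000000780000003c0000007f000000170000001800000018 11 7) 0 0 (step_sound _ 65 [(rh80fcd6d0a18cb2dd.shift 1 2), rh8bb334baa29c29dd] (by decide +kernel))
noncomputable def rh1f8289e1f3bd8bdc : CRef := CRef.mk (Pat.mk 0x100000001e00000000 0x29000001ff000000ff000001df0000001f0000001e0000000b 11 9) 0 0 (step_sound _ 132 [(rh50bf2dc507802e74.shift 3 0), (rh51f3d73fa267b352.shift 3 0), rh713a114fc7d0e175, rh9e6d89b890d1e7b2] (by decide +kernel))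
noncomputable def rh346667edc7d69bf6 : CRef := CRef.mk (Pat.mk 0x10000000100000001e00000000 0x210000003b0000001f0000001a0000001f0000001e00000034 11 6) 0 0 (step_sound _ 4 [(rhe25b0a99195a5d59.shift 1 0), rhf79ed76f3c4e9130] (by decide +kernel))
noncomputable def rh51db979f1b467076 : CRef := CRef.mk (Pat.mk 0x10000000100000001e000000100000000000000000 0xc0000003e000000f60000003e0000001f0000001e000000140000000400000004 11 8) 0 0 (step_sound _ 197 [(rhbaefcd01e0a8bca3.shift 4 2), rhd45a113d3ea47aec] (by decide +kernel))
noncomputable def rhe4d1a2377ebfa79a : CRef := CRef.mk (Pat.mk 0x20000001200000002000000020000000000000000 0x2000000038000001fd000001ff000001ff000001fb000003fe000001fa000001fa0000003800000028 11 10) 0 0 (step_sound _ 196 [(rh085ebf6a07cd0197.shift 0 1), (rh208a4c077a50bdfe.shift 0 2), (rhbdfbf4119de2660c.shift 2 0), (rhd4a9e6bbb0fa5904.shift 0 2), (rhf0654b3d57fb175c.shift 0 1), (rhfc0cc9a4b2751b8c.shift 0 1)] (by decide +kernel))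
noncomputable def rh0b8673030da2e655 : CRef := CRef.mk (Pat.mk 0x20000000200000012000000060000000200000002000000000000000000000000 0xc0000003e0000003b000000320000003e000000330000003f0000003c0000003800000028 11 6) 0 0 (step_sound _ 128 [rh669e600f9efad4d4, (rh932754581e0f4330.shift 0 3)] (by decide +kernel))
noncomputable def rh39187e4877609442 : CRef := CRef.mk (Pat.mk 0x200000012000000060000000200000002000000000000000000000000 0x250000007f0000003f0000007b000000320000003e0000007b0000003e0000007f0000003f00000029 11 7) 0 0 (step_sound _ 164 [rh151fc6167f2ec302, (rh1dc3e866f7ab4752.shift 0 4), (rh3ce9345fc27dc515.shift 0 3), rhd549305626bf4d1e] (by decide +kernel))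
noncomputable def rh667ef5be7b36e50a : CRef := CRef.mk (Pat.mk 0x4000000008000000480000000800000008 0x80000000d0000000fc000000df000000cc000000e8000000f800000028 11 8) 0 0 (step_sound _ 130 [rhb274fff21168a506, (rhffd04209dc8ea796.shift 2 0)] (by decide +kernel))
noncomputable def rhce02adc732b2b6d2 : CRef := CRef.mk (Pat.mk 0x1000000002000000120000000200000002000000010000000000000000 0x50000000f0000001f0000003b000000120000001a0000001a0000000f0000000700000004 11 6) 0 0 (step_sound _ 65 [rh6879d95c39bee3c4, (rh932754581e0f4330.shift 0 1)] (by decide +kernel))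
noncomputable def rh5d5e17a25fe34856 : CRef := CRef.mk (Pat.mk 0x10000000000000001200000002000000020000000100000000 0x2000000038000001f8000000f8000001f8000001f8000000fa0000003e0000003a0000002b00000001 11 9) 0 0 (step_sound _ 0 [(rhed423986c2f53d73.shift 1 1), rheea67dfebd0f8008] (by decide +kernel))
noncomputable def rhb4c82d8bd6f82432 : CRef := CRef.mk (Pat.mk 0x120000001200000002000000010000000000000000 0x28000000380000003800000070000003fe000001fe000001ea000000070000000700000004 11 10) 0 0 (step_sound _ 196 [(rh9683226d80df13c5.shift 3 3), rhd0fed9a58a9a7bc3, rhf17adb0b40c847fd] (by decide +kernel))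
noncomputable def rh0d40d43d4f455187 : CRef := CRef.mk (Pat.mk 0x120000001200000002000000010000000000000000 0x800000018000000380000001e0000003e0000003a0000003f0000003f0000000c 11 6) 0 0 (step_sound _ 65 [(rh30066e061615c9f2.shift 1 0), (rh932754581e0f4330.shift 0 1)] (by decide +kernel))
noncomputable def rh5ab4287804891cf4 : CRef := CRef.mk (Pat.mk 0x90000000900000001000000010000000000000000 0x40000000c0000001c0000001f0000001f0000000d0000001f0000001f00000016 11 5) 0 0 (step_sound _ 33 [rh937305be31862c03, (rhd3458b32566d63f7.shift 0 1)] (by decide +kernel))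
noncomputable def rhcd1581910059398c : CRef := CRef.mk (Pat.mk 0x200000012000000060000000300000000000000000000000000000000 0x2b0000003e0000003e000001fb000000fe000001fe0000003800000028 11 9) 0 0 (step_sound _ 164 [(rh361cc68994bd8a63.shift 0 4), rhd55930eb5c3e9d78] (by decide +kernel))
noncomputable def rhe255f8fdc9c5150f : CRef := CRef.mk (Pat.mk 0x2000000020000001a00000002000000000000000000000000 0x20000000380000003d0000007f0000003e0000007b000000fa000000fa000000f80000003800000028 11 8) 0 0 (step_sound _ 196 [(rh10c45420489fc1ce.shift 0 1), rh46b64e4ed8b2696c, (rhb45d382401969cd5.shift 0 3), (rhbda6eb6509751717.shift 0 3), (rhf1e7e06c189b7430.shift 3 1)] (by decide +kernel))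
noncomputable def rhda6e1f2ca2751ef1 : CRef := CRef.mk (Pat.mk 0x20000000200000012000000020000000300000000000000000000000000000000 0x2d0000003f0000007f0000003e0000007b000000360000003e0000003b0000003e0000003f0000003f0000002d 11 7) 0 0 (step_sound _ 162 [(rh111ae09220e2a8ce.shift 0 2), (rh1148744b53f3df58.shift 0 5), rh3e6f0329cd6b2321] (by decide +kernel))
noncomputable def rh59f96a820dec261a : CRef := CRef.mk (Pat.mk 0x100000000a00000003000000000000000000000000 0x2800000038000000380000003800000070000000fe000000fb000000f80000003800000028 11 8) 0 0 (step_sound _ 132 [(rh5066fd73349e34cf.shift 3 0), (rhb2a0b9ccfb5cecd5.shift 0 3)] (by decide +kernel))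
noncomputable def rha0e8f30c75586568 : CRef := CRef.mk (Pat.mk 0x60000000200000018000000000000000000000000 0x280000003800000038000000780000003e0000007b000000f8000000f8000000f800000028 11 8) 0 0 (step_sound _ 164 [(rh185c6e3748bd1404.shift 0 4), rh5c78959f44856e3d, (rhc49d89284dfb5791.shift 3 0), (rhec3ef0639abee917.shift 0 2)] (by decide +kernel))
noncomputable def rh61e0907026ee9772 : CRef := CRef.mk (Pat.mk 0x400000004000000240000000c000000050000000000000000 0x400000004000000240000006c0000007e000000f70000007c000000fc 11 8) 0 0 (step_sound _ 100 [rh5d9de47ede433ff0, (rh834ef1c974e4840e.shift 1 0), (rh9c0ab0af19c4d8a6.shift 0 2), (rhc67cac0f58da235d.shift 2 3)] (by decide +kernel))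
noncomputable def rh697eccabb79ec499 : CRef := CRef.mk (Pat.mk 0x20000000200000012000000030000000000000000 0x29000001ff000000ff000001fe0000007b0000003a0000003f0000003800000028 11 9) 0 0 (step_sound _ 164 [(rh0346534b6d09535f.shift 0 2), rh10c45420489fc1ce, rh552fe875efbebbf5, (rh84b51cd5247c85e4.shift 0 1), (rhb45d382401969cd5.shift 0 2)] (by decide +kernel))
noncomputable def rh863b22b7f66fc24c : CRef := CRef.mk (Pat.mk 0x2000000120000000200000002000000000000000000000000 0x7b0000007e0000007f0000003a0000001f0000003f00000005 11 7) 0 0 (step_sound _ 65 [(rh554cda0d83767376.shift 0 1), rh8cdd36b03d57a2f6, rh9c6daa4e67941a37, rhf2b7d58ac22c102c] (by decide +kernel))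
noncomputable def rh5c289d79768c0e51 : CRef := CRef.mk (Pat.mk 0x80000000800000048000000080000000c00000000000000000000000000000000 0xb0000007f8000003ff000007ec000001d8000007f8000003ec000007f8000000f8000000f0000000a0 11 11) 0 0 (step_sound _ 166 [(rh1ad355b1c1cceff1.shift 4 2), (rh418c97a69b893261.shift 2 0), (rh84b09c9de005157a.shift 2 4), (rhd35706c1bd5e818c.shift 0 3)] (by decide +kernel))
noncomputable def rhfb62c099d1a6601c : CRef := CRef.mk (Pat.mk 0x400000004000000240000000400000005000000000000000000000000 0x3400000034000000f40000007c000000fe000000f70000007c0000007c00000060 11 8) 0 0 (step_sound _ 163 [(rh1678462628eab72f.shift 2 0), (rh185c6e3748bd1404.shift 1 4), rh7d68c78d7e70804b, (rh84f01cf2134210c0.shift 1 3)] (by decide +kernel))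
noncomputable def rh45fe544c996230b4 : CRef := CRef.mk (Pat.mk 0x80000000800000048000000280000000c00000000 0x20000000e0000000f0000000fc000000cf000000e8000000f8000000cc00000080 11 8) 0 0 (step_sound _ 70 [rh12ced68d4dfaa82a, (rhb2a0b9ccfb5cecd5.shift 2 1)] (by decide +kernel))
noncomputable def rh6a8864537193c72b : CRef := CRef.mk (Pat.mk 0x40000000200000002000000120000000a0000000200000000000000000000000000000000 0x2c0000003e0000003b0000003b0000007a000000fe000000fb000000f8000000380000003800000028 11 8) 0 0 (step_sound _ 164 [(rh5066fd73349e34cf.shift 3 1), rh6e97f11c1c12b6ea, (rh760717e835f8c2f3.shift 0 4)] (by decide +kernel))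
noncomputable def rh517e324c41c160e4 : CRef := CRef.mk (Pat.mk 0x100000000300000012000000000000000000000000 0x28000000380000003800000030000000300000007b000000fe000000f8000000f800000028 11 8) 0 0 (step_sound _ 99 [(rh5419adcd928dba20.shift 0 3), (rhc49d89284dfb5791.shift 3 0)] (by decide +kernel))
noncomputable def rhf7c084106284a5a9 : CRef := CRef.mk (Pat.mk 0x100000000200000012000000020000000000000000 0x280000003800000038000000380000007b000000fe000000fb000000f800000028 11 8) 0 0 (step_sound _ 99 [(rh01e48cd9f335aa73.shift 0 2), (rhbc4e18284fd83d3e.shift 3 0)] (by decide +kernel))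
noncomputable def rhd538c3600d8b9013 : CRef := CRef.mk (Pat.mk 0x10000001200000002000000120000000200000002000000000000000000000000 0x2800000038000000390000003b0000003e0000003a0000003e0000003b0000003a0000003f0000002700000005 11 6) 0 0 (step_sound _ 65 [rh6eff4158bb400f47, (rh7182f16bf12a46dd.shift 0 1), rhb8226ab22f89206c] (by decide +kernel))
noncomputable def rh8fa1abc39499f16a : CRef := CRef.mk (Pat.mk 0x11000000020000001200000002000000000000000000000000 0x28000000380000003c0000003f0000003700000032000000360000003e000000380000003800000020 11 6) 0 0 (step_sound _ 164 [(rh14780365a7a33774.shift 1 0), (rh5a286173e26e7942.shift 0 2), (rh6a4e298f8c49b17e.shift 0 3), (rh99f8d5a2b6c1c051.shift 0 1), (rhd60a9635b04b5467.shift 3 1), (rhdd1f7dce9b092aba.shift 0 3)] (by decide +kernel))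
noncomputable def rhefc574a130a879aa : CRef := CRef.mk (Pat.mk 0x10000000020000001200000002000000020000000000000000 0x2d0000003f0000003b000000360000003e0000003a0000003800000020 11 6) 0 0 (step_sound _ 192 [rhe8dbeb600ab695c8, (rhffd04209dc8ea796.shift 0 2)] (by decide +kernel))
noncomputable def rh24f3fd8c1fc167f8 : CRef := CRef.mk (Pat.mk 0x13000000000000001200000002000000000000000000000000 0x28000000f8000000f8000000ff00000078000000360000003e000000380000003800000020 11 8) 0 0 (step_sound _ 164 [(rh09191afbd71d6a2f.shift 3 1), (rh168fed7625321222.shift 3 1), (rh70e10ab69a6267b7.shift 1 3), (rh767ae4bed8f13527.shift 1 1), (rh793eb10cafbc71e3.shift 3 0), (rh79aa44d07f39f3b5.shift 0 1), (rhd60a9635b04b5467.shift 3 1)] (by decide +kernel))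
noncomputable def rhb80bcb3ed4ba4e0f : CRef := CRef.mk (Pat.mk 0x11000000020000001200000002000000000000000000000000 0x28000001f8000000ff000000fb0000003a000000360000003e000000380000003800000020 11 9) 0 0 (step_sound _ 193 [rh468092fe94881311, (rh50fbb5868c909700.shift 0 3)] (by decide +kernel))
noncomputable def rhcfb3a683dd36fba7 : CRef := CRef.mk (Pat.mk 0x8000000000000000900000001000000010000000100000000 0x140000007c0000007e0000007e0000001c0000001b0000001f0000001d0000001f00000012 11 7) 0 0 (step_sound _ 33 [rh55afc6a59410cf00, rhdee583b821064f04] (by decide +kernel))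
noncomputable def rhfbb2847c953bd96e : CRef := CRef.mk (Pat.mk 0x1000000000000000120000000200000002000000020000000100000000 0x28000000f8000000fc000000fc00000038000000360000003e0000003a0000003a0000002300000001 11 8) 0 0 (step_sound _ 0 [(rhdee583b821064f04.shift 1 1), rheea67dfebd0f8008] (by decide +kernel))
noncomputable def rh8a88f43c78865f21 : CRef := CRef.mk (Pat.mk 0x800000000000000090000000100000001000000010000000000000000 0x140000007c0000007e0000007e0000001c0000001b0000001f0000001d0000001f0000001300000002 11 7) 0 0 (step_sound _ 33 [(rhd3458b32566d63f7.shift 0 1), rheeac48e91837af71] (by decide +kernel))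
noncomputable def rhf0e1bc7042eb8614 : CRef := CRef.mk (Pat.mk 0x1000000002000000120000000200000002000000000000000000000000 0x20000000350000003f0000003b0000003a0000003e0000003a0000002f0000000700000005 11 6) 0 0 (step_sound _ 224 [rh42e91f4e4bd7f83a, (rhffd04209dc8ea796.shift 0 3)] (by decide +kernel))
noncomputable def rh7e5d763c916526e5 : CRef := CRef.mk (Pat.mk 0x1000000002000000120000000200000002000000000000000000000000 0x28000000380000003d0000001f0000003b0000003a0000003e0000003a0000002f0000000700000005 11 6) 0 0 (step_sound _ 224 [rh64baeef8609297bc, (rhffd04209dc8ea796.shift 0 3)] (by decide +kernel))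
noncomputable def rh2b756de00f35f3dc : CRef := CRef.mk (Pat.mk 0x110000000200000012000000020000000000000000 0x2d0000003f0000003a0000003a000001fe000000f800000028 11 9) 0 0 (step_sound _ 161 [(rh50fbb5868c909700.shift 0 2), rhe2ce0e2148fae60f] (by decide +kernel))
noncomputable def rh0550fba0bd4472a0 : CRef := CRef.mk (Pat.mk 0x8000000000000000800000001000000000000000000000000 0x80000001c000000fc0000007c000000fc0000003c0000001c000000ff0000007c0000001c00000010 11 8) 0 0 (step_sound _ 163 [(rh0515df9305f7b8bc.shift 0 2), (rh09191afbd71d6a2f.shift 2 1), (rh657a1db8e51f65d6.shift 0 1), (rh97e546f54c9b66db.shift 2 2), (rhc5e89a5691ea14f2.shift 2 1), rhe3f21d896db8758a, (rhf86145b89c5a3480.shift 2 3)] (by decide +kernel))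
noncomputable def rh3f7d37c01aba03ab : CRef := CRef.mk (Pat.mk 0x1300000000000000120000000200000002000000000000000000000000 0x1000000038000001f8000000fe000000fb000000380000003a000001fe000000fa0000003f0000002700000005 11 9) 0 0 (step_sound _ 65 [rh1caf50800004911d, (rh2bbc9773ea5adc10.shift 0 1), rh6eff4158bb400f47] (by decide +kernel))
noncomputable def rh48666bff44bc2624 : CRef := CRef.mk (Pat.mk 0x2000000120000000200000000 0x50000003f0000001f0000007a0000007e0000007f00000008 11 7) 0 0 (step_sound _ 129 [(rh343697bfcf599c0f.shift 0 1), (rh5e3c9c9c0c95dbf0.shift 0 1), (rhc85cc95794737cf7.shift 0 1), rhce730be683b2bf09] (by decide +kernel))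
noncomputable def rhca7ee318956983a9 : CRef := CRef.mk (Pat.mk 0x120000000200000002000000020000000000000000 0x1800000018000000780000007e0000007f0000003a0000003f0000003d00000020 11 7) 0 0 (step_sound _ 64 [rh553842820ee0f203, (rh932754581e0f4330.shift 0 1)] (by decide +kernel))
noncomputable def rh8518005625bff8f2 : CRef := CRef.mk (Pat.mk 0x4000000040000000c00000005000000040000000000000000 0x700000007200000076000000fc0000007e000000f70000003c0000003400000020 11 8) 0 0 (step_sound _ 132 [(rh34290afd4148b42f.shift 1 3), (rh352b7f91eba0c81f.shift 1 3), rh58729217e40e56fa, (rh9669dbd08e52855f.shift 1 2), (rh9c0ab0af19c4d8a6.shift 0 3)] (by decide +kernel))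
noncomputable def rh8a6ae825e155976a : CRef := CRef.mk (Pat.mk 0x4000000040000000c0000000500000004000000000000000000000000 0x500000007200000076000000fc0000007e000000f70000007c000000f80000003800000028 11 8) 0 0 (step_sound _ 225 [(rh50fbb5868c909700.shift 1 4), rhc32d14f628071338] (by decide +kernel))
noncomputable def rhfb8305f532108368 : CRef := CRef.mk (Pat.mk 0x40000000c0000000500000004000000000000000000000000 0x10000000f40000007e000000f7000001fc000000fe000001fe00000002 11 9) 0 0 (step_sound _ 67 [(rhd3458b32566d63f7.shift 2 2), rhe1f49f92fb66316b] (by decide +kernel))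
noncomputable def rh5793e3518839d4b5 : CRef := CRef.mk (Pat.mk 0x10000000100000001000000010 0x380000003800000038000000770000003e0000003f00000010 11 7) 0 0 (step_sound _ 132 [(rh25c51f2550397a72.shift 0 1), (rh44f453b84f013105.shift 4 0), (rhc85cc95794737cf7.shift 3 1)] (by decide +kernel))
noncomputable def rh37c0f6c7fe66a183 : CRef := CRef.mk (Pat.mk 0x1000000010000000100000001000000000 0x280000003800000010000001ff000000fe000001ef 11 9) 0 0 (step_sound _ 35 [rh45176feb9ae59a22, (rh932754581e0f4330.shift 3 0)] (by decide +kernel))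
noncomputable def rh958f7c56f83bf864 : CRef := CRef.mk (Pat.mk 0xe00000004000000000000000000000000 0x1e0000003f000001fb000000fe000001fc000000780000007000000030 11 9) 0 0 (step_sound _ 132 [(rh007c765085d47e8d.shift 1 3), (rh3fc3a7fb6866dcd4.shift 1 3), (rh884afd10ccf552b1.shift 1 1), rhaf6254849ebaff5c, (rhb8de41a89a9d4634.shift 1 3), (rhdbe30b89b8872db3.shift 1 3), (rhfde02f38cc3d84db.shift 2 1)] (by decide +kernel))
noncomputable def rh59008422bece86f5 : CRef := CRef.mk (Pat.mk 0x10000000500000005000000000 0x280000007800000078000001ff000001ff000000fe000003f0000003d800000088 11 10) 0 0 (step_sound _ 132 [(rh1741680720c097b4.shift 3 1), (rh18dc86be075ab705.shift 1 0), (rh1e6b4cbeee7f35ff.shift 3 1), (rh7a38aa8d9605e9d8.shift 3 1), (rh9410779e1b317013.shift 3 0), rhb019108111c2f994] (by decide +kernel))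
noncomputable def rh64a2ba9fbfdb5a9f : CRef := CRef.mk (Pat.mk 0x8000000280000002800000000 0x78000000fc000000f80000007f000000fe000001e800000040 11 9) 0 0 (step_sound _ 68 [(rh56980d4b3c6ac23a.shift 1 1), (rh8ee80cc30e93a344.shift 2 1), (rha9fbfd4bb8cf890b.shift 0 2), (rhae2bdb3c46edd9bf.shift 2 0), (rhded5813b939f1319.shift 0 1)] (by decide +kernel))
noncomputable def rhebe4e6a2f627d52d : CRef := CRef.mk (Pat.mk 0x20000000a0000000a000000000 0x5000000070000001fe000001fe000001f7000000f0000001b800000010 11 9) 0 0 (step_sound _ 133 [rh4340e91599d73a17, (rh4f8dccb4319ca5c2.shift 4 1), (rh5566a532e71d371e.shift 4 1), (rh9f0212359c7333ba.shift 3 0), (rhc85cc95794737cf7.shift 4 1)] (by decide +kernel))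
noncomputable def rh0aa175c922eeb3f4 : CRef := CRef.mk (Pat.mk 0x2000000180000000a000000000000000000000000 0x7000000070000007f3000003fe000007fb000000f0000000e0000000e0 11 11) 0 0 (step_sound _ 130 [(rhcb763b151dc90fdc.shift 0 3), (rhf443821dde1fafe8.shift 2 0)] (by decide +kernel))
noncomputable def rh92a1592b2111889d : CRef := CRef.mk (Pat.mk 0x800000008000000280000002800000000 0x140000001c0000007c00000078000001ff000003fc000001f8000003ac00000004 11 10) 0 0 (step_sound _ 68 [(rh157b220518f94713.shift 2 0), rhca9ffbacb5566d2f, (rhe3f612f8f5dcfdf1.shift 2 1)] (by decide +kernel))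
noncomputable def rh1d631b1d669ee842 : CRef := CRef.mk (Pat.mk 0x20000000e00000008000000000000000000000000 0x7000000070000007f3000003fe000007f8000000f0000000e0000000e0 11 11) 0 0 (step_sound _ 132 [(rh3244c3cc8379b070.shift 0 4), (rhf443821dde1fafe8.shift 2 0)] (by decide +kernel))
noncomputable def rh3b2521151ef2d08d : CRef := CRef.mk (Pat.mk 0x80000003c00000028 0x60000000f7000000ff0000007c0000003e00000028 11 8) 0 0 (step_sound _ 69 [(rh33e738c4ed385b9f.shift 2 1), rhe26015cc553e23ab] (by decide +kernel))
noncomputable def rh5eca447a38a9245a : CRef := CRef.mk (Pat.mk 0x10000000500000005000000000 0x280000007800000078000001ff000001ff0000077e000003f0000007d800000088 11 11) 0 0 (step_sound _ 132 [(rh1e6b4cbeee7f35ff.shift 3 1), (rh359bed9350504dcd.shift 1 0), rhb019108111c2f994, (rhc85cc95794737cf7.shift 3 1), (rhe976514856156274.shift 3 0)] (by decide +kernel))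
noncomputable def rh60d66774b56d7c38 : CRef := CRef.mk (Pat.mk 0x40000000400000004000000000 0xa0000000ff000001fe000000ff000000600000006000000020 11 9) 0 0 (step_sound _ 134 [(rh20966da26a1c2ae8.shift 5 0), (rh968ba7b0df7e4096.shift 5 0), rhbfd51b6e96300e58, (rhc85cc95794737cf7.shift 5 1)] (by decide +kernel))
noncomputable def rh8b1865c1348c488e : CRef := CRef.mk (Pat.mk 0x20000001a00000002000000000 0x50000001fe000000fe000001bf000001b00000013000000010 11 9) 0 0 (step_sound _ 133 [rh0b8037bf163fee66, (rh1741680720c097b4.shift 4 1), (rh3b734c5288922837.shift 4 0), (rh968ba7b0df7e4096.shift 4 0)] (by decide +kernel))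
noncomputable def rhd0a3cae59c969856 : CRef := CRef.mk (Pat.mk 0x2000000020000001a0000000a000000000 0xee000000fe000001ff000007b0000001b000000110 11 11) 0 0 (step_sound _ 36 [(rh932754581e0f4330.shift 4 0), rhf0797a1dd5ea0166] (by decide +kernel))
noncomputable def rhb514e27833d3e7bf : CRef := CRef.mk (Pat.mk 0x2000000020000001800000002000000000 0x50000001fe000000fe000001bf000001b00000013000000010 11 9) 0 0 (step_sound _ 69 [rh0b8037bf163fee66, (rh1741680720c097b4.shift 4 1), (rh3b734c5288922837.shift 4 0), (rh968ba7b0df7e4096.shift 4 0)] (by decide +kernel))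
noncomputable def rh3d7180357b6c80ae : CRef := CRef.mk (Pat.mk 0x4000000040000000000000004000000000 0xa0000000ff000001fe000000ff000000600000006000000020 11 9) 0 0 (step_sound _ 70 [(rh1741680720c097b4.shift 5 1), (rh3b734c5288922837.shift 5 0), (rh968ba7b0df7e4096.shift 5 0), rhe0952df1dada1713] (by decide +kernel))
noncomputable def rhd92f477b7f7cb5ca : CRef := CRef.mk (Pat.mk 0x8000000080000006000000020000000000000000000000000 0x100000007000000070000001f7000001be000007ff000003e0000007e0000003c00000038000000280 11 11) 0 0 (step_sound _ 165 [(rh884a35a1fc1cc427.shift 0 2), (rh9ebd639649ea671c.shift 2 4), rhe9a9455e9d8d4648, (rhff57cb668796cf94.shift 2 2)] (by decide +kernel))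
noncomputable def rhcd216bd8d0f5a607 : CRef := CRef.mk (Pat.mk 0x200000002000000180000000b000000000 0x9e000000fe000001ff000001a0000001b000000110 11 9) 0 0 (step_sound _ 69 [(rh932754581e0f4330.shift 4 0), rhcc26e19be369589b] (by decide +kernel))
noncomputable def rh64bee028a02ea910 : CRef := CRef.mk (Pat.mk 0x1000000010000000c0000000080000000000000000 0x20000000600000016000000160000007f0000007e000000cf0000000e0000000e00000002 11 8) 0 0 (step_sound _ 131 [(rh00d6a6e3c7e3bb40.shift 3 1), (rh020ca63e1c556b6b.shift 0 1), (rh823b16802d718a31.shift 0 3), rha08d1dd2d019c5fa] (by decide +kernel))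
noncomputable def rh60e3a6ab9c03ef60 : CRef := CRef.mk (Pat.mk 0x1000000018000000c00000005000000000 0x7c0000007f0000005f0000007f0000007f000000d7000000d400000080 11 8) 0 0 (step_sound _ 131 [(rh3946191bcb73e5c1.shift 0 1), rh5cba910a57155187, (rhc5de389ce0cd865a.shift 0 1), (rhe5e417626bf374c0.shift 0 1)] (by decide +kernel))
noncomputable def rh9975e231aa9016d9 : CRef := CRef.mk (Pat.mk 0x800000008000000680000002800000000 0x4000000fc0000007c000000fc000001ef0000007c000000680000006c00000044 11 9) 0 0 (step_sound _ 163 [(rh1741680720c097b4.shift 2 2), rh22741f766cdcd070, (rh3ca48e2a6d60153d.shift 2 1), (rhb10e278d3b513310.shift 2 0)] (by decide +kernel))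
noncomputable def rh72734bcc1c640679 : CRef := CRef.mk (Pat.mk 0x2000000180000000a000000000000000000000000 0x7800000078000007fe000003fe000007fb000000f0000000e0000000e0 11 11) 0 0 (step_sound _ 130 [(rh048783a900402b25.shift 0 3), (rh0786c19de25163c7.shift 1 3), (rh2e073d59c97b9182.shift 0 3), (rhe0b35af09c3d563c.shift 0 2), (rhf443821dde1fafe8.shift 2 0)] (by decide +kernel))
noncomputable def rh9e9652ccf8412afe : CRef := CRef.mk (Pat.mk 0xa000000180000000800000000 0x2000000038000000f8000000ff000000fe000000f8000000f8000000f0 11 8) 0 0 (step_sound _ 100 [(rh00c8c792145accd6.shift 3 0), (rh22a062da1374eec3.shift 1 1), (rh980e539dadfc7579.shift 0 2), (rhd8983fe52c825997.shift 1 0), (rhdda8e39bca858a65.shift 1 1)] (by decide +kernel))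
noncomputable def rh4cc65e215cebe184 : CRef := CRef.mk (Pat.mk 0x1000000014000000300000001400000000 0x7e7000003fe000007f6000001b4000001f4000001e0 11 11) 0 0 (step_sound _ 133 [(rh2f68792b6b779e96.shift 4 1), rh2fcd984922253877] (by decide +kernel))
noncomputable def rh346dbcf0ebafb402 : CRef := CRef.mk (Pat.mk 0x40000001800000010 0x60000003e0000003f000000ff000001ff0000007e00000010 11 9) 0 0 (step_sound _ 67 [(rh3c3e23a02e82b2ed.shift 0 1), rh40e9152650ee259d, (rh5c5a2014709044d0.shift 0 1), (rh984050ca1417316e.shift 1 0)] (by decide +kernel))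
noncomputable def rhe44160d303a8369e : CRef := CRef.mk (Pat.mk 0x3000000070000000500000000000000000 0x390000003b0000003f000000370000007f000000d70000000700000005 11 8) 0 0 (step_sound _ 164 [(rh2ddd6c94c59240f8.shift 4 2), (rh7b9fbdf6d2d059e4.shift 3 2), rh8ab2644579203e88] (by decide +kernel))
noncomputable def rh0b631cd33528a290 : CRef := CRef.mk (Pat.mk 0x4000000380000001000000000 0xa0000000e0000000e000003fe000001fc000001ff00000038000000f000000060 11 10) 0 0 (step_sound _ 133 [(rh4bb5aa060aebbbf3.shift 1 1), rh5fa7c67df0189e20, rh617d801057da5ed4, (rh8ff5fe930dd74c90.shift 3 0), (rha6864009d57c1d37.shift 3 0), rhb7b80f16ad7cffcc] (by decide +kernel))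
noncomputable def rh11f7664b414f842b : CRef := CRef.mk (Pat.mk 0x2000000020000001a0000000a00000000 0x3f0000001f0000003b0000003e0000001f0000001b0000000b00000001 11 6) 0 0 (step_sound _ 32 [(rh02de12a5369ab4b4.shift 0 1), rh932754581e0f4330] (by decide +kernel))
noncomputable def rhe66ddd7f14d56622 : CRef := CRef.mk (Pat.mk 0x2000000180000000a000000000000000000000000 0x7000000070000007fe000003ff000007fb000000f0000000e0000000e0 11 11) 0 0 (step_sound _ 130 [(rh0786c19de25163c7.shift 1 3), (rh50cd11c9ca068ca2.shift 0 3), (rhd526f9b20c752965.shift 0 3), (rhf443821dde1fafe8.shift 2 0)] (by decide +kernel))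
noncomputable def rh68dde72b8cf8910c : CRef := CRef.mk (Pat.mk 0x7000000000000000200000000000000000 0x140000001c0000001c0000001c000000ff0000007e0000001f0000003e0000001f0000000e 11 8) 0 0 (step_sound _ 131 [rh4845ef54654f8111, (rh592c7139d2c44767.shift 1 3), (rh61325f73ebf98108.shift 1 4), rh7c318a1e29af1556, (rh9e97bba44c1b13e4.shift 1 3)] (by decide +kernel))
noncomputable def rhf7a638f47d9afeb4 : CRef := CRef.mk (Pat.mk 0x160000000c000000000000000000000000 0x800000038000000380000003a0000003b0000003e000000360000003c000000f80000003000000020 11 8) 0 0 (step_sound _ 100 [rh0b22bd13248ed21e, (rhf48373e13d2bc128.shift 1 3)] (by decide +kernel))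
noncomputable def rh6f2b076394907b3d : CRef := CRef.mk (Pat.mk 0x3000000010000000500000001000000000 0xf000000ff000000fe000000f00000001e00000008 11 8) 0 0 (step_sound _ 131 [(rh50fbb5868c909700.shift 3 1), rh91d87c54e639c7ea] (by decide +kernel))
noncomputable def rhc70edd329c35d2db : CRef := CRef.mk (Pat.mk 0x100000000800000008000000280000000800000000 0x3800000078000000ee000000fe000000780000000f00000004 11 8) 0 0 (step_sound _ 34 [(rh6ce2ca770341e756.shift 0 1), (rh932754581e0f4330.shift 2 0)] (by decide +kernel))
noncomputable def rhc13fc2f8e7d078a2 : CRef := CRef.mk (Pat.mk 0x10000000100000005000000050 0x2000000030000000fa0000009e000007ff000003fe000007f700000050 11 11) 0 0 (step_sound _ 131 [rhe3163775dd44001e, (rhffd04209dc8ea796.shift 3 0)] (by decide +kernel))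
noncomputable def rh92d224a21890c9cc : CRef := CRef.mk (Pat.mk 0x2000000020000000a000000020 0x4000000060000001f000000130000003f7000001fe000001f700000020 11 10) 0 0 (step_sound _ 132 [(rh1c824048914489cb.shift 0 1), (rhffd04209dc8ea796.shift 4 0)] (by decide +kernel))
noncomputable def rh4a6028d5f8c9a5fe : CRef := CRef.mk (Pat.mk 0xe00000002000000020000000200000000 0x610000003f0000003e000000170000003e00000074 11 7) 0 0 (step_sound _ 128 [rh40dd638581946403, (rh50fbb5868c909700.shift 0 1)] (by decide +kernel))
noncomputable def rhe9fc8535327a5549 : CRef := CRef.mk (Pat.mk 0x2000000120000000a0000000a0000000000000000 0x380000003a0000007a000000fe000000fb000000f100000020 11 8) 0 0 (step_sound _ 64 [(rh932754581e0f4330.shift 0 1), rhdbc40339b2f69c46] (by decide +kernel))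
noncomputable def rhb75afbad3a4451c1 : CRef := CRef.mk (Pat.mk 0x800000008000000280000002800000000 0x140000001c0000001c0000006c0000007f000003f8000001f8000003ec00000004 11 10) 0 0 (step_sound _ 68 [rh0227936f8438de9d, (rh157b220518f94713.shift 2 0), (rhd6966d14ea9c35d7.shift 2 1), (rhed089e533d29058f.shift 2 1)] (by decide +kernel))
noncomputable def rh8c43b87d08b08d11 : CRef := CRef.mk (Pat.mk 0x1000000010000000500000005000000000 0xb0000000f0000001f8000007f7000003fe000007d700000080 11 11) 0 0 (step_sound _ 165 [(rhbaefcd01e0a8bca3.shift 4 1), rhc3f5f17c14b47146] (by decide +kernel))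
noncomputable def rh050df855956b14ee : CRef := CRef.mk (Pat.mk 0x10000000100000005000000050 0x20000000b8000000d8000001f8000007f7000003fe000007d7 11 11) 0 0 (step_sound _ 131 [rh3a4858a4eef44ef2, (rhffd04209dc8ea796.shift 3 0)] (by decide +kernel))
noncomputable def rh0cc6290014c7dc6c : CRef := CRef.mk (Pat.mk 0x2000000080000000a000000000 0x5000000070000000700000007e000001fe00000f7f000007fe00000fbe00000010 11 12) 0 0 (step_sound _ 69 [(rh0a5fa27a725643d1.shift 2 1), (rh2397a20f14b89e20.shift 1 0), (rh6515ed09e3e9edab.shift 2 0), (rh8f62166d4ab3b392.shift 0 1), rhe1b9385ad0fe0b1e] (by decide +kernel))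
noncomputable def rhfdc38974cd83784a : CRef := CRef.mk (Pat.mk 0xc00000004000000140000001400000000 0x280000003800000038000001f2000000ff000001ff0000001c0000001600000002 11 9) 0 0 (step_sound _ 129 [(rh50fbb5868c909700.shift 1 1), rhad17d5ce0aa2dbb4] (by decide +kernel))
noncomputable def rh377a350270327f66 : CRef := CRef.mk (Pat.mk 0x18000000100000005000000050000000000000000000000000 0x40000001f0000007f0000007f000000df0000000f0000000200000002 11 8) 0 0 (step_sound _ 99 [rh8fa17edb0a5742a5, (rh932754581e0f4330.shift 3 2)] (by decide +kernel))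
noncomputable def rhed2e036209205dbe : CRef := CRef.mk (Pat.mk 0x10000000100000005000000010 0x1000000030000000f80000003e0000007f0000007f00000010 11 8) 0 0 (step_sound _ 133 [rhb7e85cf2364d802f, (rhbaefcd01e0a8bca3.shift 4 0)] (by decide +kernel))
noncomputable def rh5a30fd26a342a54a : CRef := CRef.mk (Pat.mk 0x200000002000000080000000a000000000 0x5000000070000001fe000001fe000001f7000000f0000001b800000010 11 9) 0 0 (step_sound _ 69 [rh4340e91599d73a17, (rh4f8dccb4319ca5c2.shift 4 1), (rh5566a532e71d371e.shift 4 1), (rh9f0212359c7333ba.shift 3 0), (rhc85cc95794737cf7.shift 4 1)] (by decide +kernel))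
noncomputable def rhaa077401de9fb841 : CRef := CRef.mk (Pat.mk 0x4000000040000001400000004000000000 0x140000003c000000bc000003ff000003fe000001df0000005800000018 11 10) 0 0 (step_sound _ 135 [(rh2f68792b6b779e96.shift 6 1), rh3491dac3031831bc] (by decide +kernel))
noncomputable def rh1176e28110b6206b : CRef := CRef.mk (Pat.mk 0x2000000020000000a000000020000000000000000000000000 0x20000005e0000007e0000003e000000ff0000003e0000001f0000000c0000000c 11 8) 0 0 (step_sound _ 100 [(rh932754581e0f4330.shift 4 2), rhb56913a33a057c44] (by decide +kernel))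
noncomputable def rh8bb77a2b8e8bf147 : CRef := CRef.mk (Pat.mk 0x800000008000000200000002800000000 0x140000007f0000007e0000006f0000003e0000006e00000004 11 7) 0 0 (step_sound _ 67 [(rh3b734c5288922837.shift 2 0), rh8e09ad4dde25dbfc, (rh968ba7b0df7e4096.shift 2 0), (rhc85cc95794737cf7.shift 2 1)] (by decide +kernel))
noncomputable def rhbfe6730dd07523cb : CRef := CRef.mk (Pat.mk 0x1000000018000000080000002000000020 0x3e0000003e000000f7000000ff0000001f0000003000000020 11 8) 0 0 (step_sound _ 68 [(rha07f74d781ebe6d1.shift 0 2), (rhbe0e43a3bc50a43f.shift 4 0)] (by decide +kernel))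
noncomputable def rh83ddd36dd76561dc : CRef := CRef.mk (Pat.mk 0xc000000040000001000000004000000000 0x28000000394000003bc0000033c000003ff000003fe000001df0000005800000018 11 10) 0 0 (step_sound _ 101 [(rh0bb882ba86b2372d.shift 3 3), (rh3212f2140e93399a.shift 2 1), (rh69012675dfdb1a5b.shift 3 3), rh7d554b7ee4fde594] (by decide +kernel))
noncomputable def rhe35f03accbf9a2bd : CRef := CRef.mk (Pat.mk 0x400000004000000040000001000000010000000000 0x20000000740000007c0000005c000003ff000003fe000001ff0000033c00000018 11 10) 0 0 (step_sound _ 198 [(rh5abfc4c9d959be03.shift 5 2), (rh771d065bdc85bf2d.shift 5 2), rha445085d632a9040, (rheeb232cfd22c46b1.shift 2 1)] (by decide +kernel))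
noncomputable def rh7923d26ec3cc7b73 : CRef := CRef.mk (Pat.mk 0x400000004000000040000001000000000000000000 0xa0000000f4000000fc0000005c000003ff000003fe000001bf0000001800000018 11 10) 0 0 (step_sound _ 198 [(rh20966da26a1c2ae8.shift 5 2), (rh25208373db83e521.shift 6 2), (rh5abfc4c9d959be03.shift 5 2), rha445085d632a9040] (by decide +kernel))
noncomputable def rhe73f9bc2c5f53c07 : CRef := CRef.mk (Pat.mk 0x2000000020000000a0000000a000000000 0x40000000600000007c0000003e000001fe000001ff000000fe000001af00000008 11 9) 0 0 (step_sound _ 68 [(rh1174afd68e3cadf8.shift 3 1), rh88b185e3ce36059b, (rha578d43e202977bb.shift 4 1), (rhaf2c4cde477923c8.shift 1 1)] (by decide +kernel))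
noncomputable def rhc401d859d3ec4696 : CRef := CRef.mk (Pat.mk 0x800000008000000080000000800000000 0xf70000007e000000ef0000001f0000000f00000005 11 8) 0 0 (step_sound _ 34 [rh907eb815e74ce3d5, (rh932754581e0f4330.shift 2 0)] (by decide +kernel))
noncomputable def rhac1afa8b51c36706 : CRef := CRef.mk (Pat.mk 0x1000000010000000400000005000000000 0x280000003f000000fe000000ff00000070000000ff0000007e000000df00000008 11 8) 0 0 (step_sound _ 164 [(rh7ac706b3540cbe51.shift 3 0), (rha227e5c849a93908.shift 3 0), (rhb87be740634f8d44.shift 0 2), (rhc3f24256494b42ed.shift 0 1), (rhd02fe64ad940c860.shift 0 1), (rhebbd60f51169200a.shift 3 1)] (by decide +kernel))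
noncomputable def rhad62162a64750d72 : CRef := CRef.mk (Pat.mk 0x3000000018000000400000004000000000 0x7c0000007c000000ff000000ff000000380000006c0000004c0000000c 11 8) 0 0 (step_sound _ 134 [(rh18965a982d73c794.shift 3 3), rh970a9e32a933cbaf] (by decide +kernel))
noncomputable def rhd3ba7d7ad3ebdc7e : CRef := CRef.mk (Pat.mk 0x6000000020000000800000008000000000 0x5000000074000000ff000003fe000000fe0000007c000003fc000000dc0000009800000018 11 10) 0 0 (step_sound _ 102 [(rhca94c012be5d171c.shift 2 1), (rhcb6952fe9694bd0c.shift 5 1), (rhcc6a332d34c97659.shift 2 0), (rhf63b1c5436300acc.shift 0 1)] (by decide +kernel))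
noncomputable def rh03c1bd4afc638b96 : CRef := CRef.mk (Pat.mk 0x1000000010000000400000005000000000 0x28000000ff000000fe000000ff000000580000005800000008 11 8) 0 0 (step_sound _ 68 [(rh1741680720c097b4.shift 3 1), (rh3b734c5288922837.shift 3 0), (rh968ba7b0df7e4096.shift 3 0), rhe9395212fbbe20e0] (by decide +kernel))
noncomputable def rhdfee837014241117 : CRef := CRef.mk (Pat.mk 0x8000000280000002800000000 0x140000007f0000007e0000006f0000003e0000006e00000004 11 7) 0 0 (step_sound _ 131 [(rh3b734c5288922837.shift 2 0), rh8e09ad4dde25dbfc, (rh968ba7b0df7e4096.shift 2 0), (rhc85cc95794737cf7.shift 2 1)] (by decide +kernel))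
noncomputable def rh8db23a47e2bea1ec : CRef := CRef.mk (Pat.mk 0x800000008000000280000002800000000 0x770000007e0000006f000000680000006c00000044 11 7) 0 0 (step_sound _ 132 [(rh2f68792b6b779e96.shift 3 1), rhf04d71ab4e6323ad] (by decide +kernel))
noncomputable def rh0382f0545734a339 : CRef := CRef.mk (Pat.mk 0x8000000020000000a0000000a00000000000000000 0x1d0000001fe000001fe000007bf000003e0000007b00000031000000200 11 11) 0 0 (step_sound _ 165 [(rh050ba4845bc36a47.shift 4 1), (rh1741680720c097b4.shift 4 2), (rh476e93239feff8f4.shift 4 0), (rh4e8f789bb0ee14c1.shift 0 2), (rhee7e519fbb626e2a.shift 4 1)] (by decide +kernel))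
noncomputable def rhf6a35132626fa529 : CRef := CRef.mk (Pat.mk 0x8000000020000000a0000000a00000000 0x2000000020000000f70000007f000000fb0000003e000000fb000000f0 11 8) 0 0 (step_sound _ 68 [(rh01e48cd9f335aa73.shift 0 1), (rh92804a1c675173ab.shift 0 1), rhcd82cfdc640cd188, (rhdacff0e0b97ba728.shift 0 1)] (by decide +kernel))
noncomputable def rhd02a409f46aa0095 : CRef := CRef.mk (Pat.mk 0xa000000020000000a0000000a0000000000000000 0x10000002b0000003f0000007b0000003e0000007b0000003100000020 11 7) 0 0 (step_sound _ 192 [rh9facba5c2666603a, (rhffd04209dc8ea796.shift 0 2)] (by decide +kernel))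
noncomputable def rh1d6603713ae3742f : CRef := CRef.mk (Pat.mk 0x8000000020000000a0000000a00000000 0x140000007f0000003f0000007a0000003e0000001b00000011 11 7) 0 0 (step_sound _ 99 [(rh1741680720c097b4.shift 2 1), (rh25208373db83e521.shift 3 0), rh73d255c1c427e665, (rh7eb4a07d72ad7934.shift 2 0)] (by decide +kernel))
noncomputable def rh1d88455a9660a97d : CRef := CRef.mk (Pat.mk 0x40000000a000000020000000a0000000200000000 0x140000001f0000001f0000001f0000000a0000007b0000003e0000007300000001 11 7) 0 0 (step_sound _ 161 [(rh2f68792b6b779e96.shift 1 2), rh42172cdd5b3a4df5] (by decide +kernel))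
noncomputable def rhee9382026279a95a : CRef := CRef.mk (Pat.mk 0x40000000a000000020000000a0000000200000000 0x140000001c0000007c0000003e0000006b0000007b0000007e0000007300000001 11 7) 0 0 (step_sound _ 68 [rh5710f30ba40ee3ec, (rh92804a1c675173ab.shift 0 1), (rhff6dff88646a8766.shift 0 1)] (by decide +kernel))
noncomputable def rh1e9214321d63d1cb : CRef := CRef.mk (Pat.mk 0xa000000020000001a00000002 0x140000001d0000007f0000003f0000006b0000007a0000007a00000052 11 7) 0 0 (step_sound _ 131 [rh58fa94d280cdd308, (rh6e37dd25461b9f64.shift 2 0), (rh9c8f00d278e046ae.shift 3 0), (rhadd570ecb99b15d2.shift 2 0), rhe4795f5428ac9029] (by decide +kernel))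
noncomputable def rhb7d3406477f39467 : CRef := CRef.mk (Pat.mk 0x8000000020000000a0000000a0 0x3d0000003fe000001fe000001bf000000a0000000a0 11 10) 0 0 (step_sound _ 101 [(rh1741680720c097b4.shift 4 0), rh337895a57f0b07dc, (rh8cced43fc58d1ba9.shift 4 0), (rha9a823f1b3d79c28.shift 4 0)] (by decide +kernel))
noncomputable def rhdcc4cf1e773158b3 : CRef := CRef.mk (Pat.mk 0x8000000020000000a0000000a00000000 0x2000000025000000ff0000007f000000f30000003e000000fb000000f0 11 8) 0 0 (step_sound _ 68 [(rh01e48cd9f335aa73.shift 0 1), rh831255680288ebf0, (rh92804a1c675173ab.shift 0 1), (rhdacff0e0b97ba728.shift 0 1)] (by decide +kernel))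
noncomputable def rh6c580f24b1805cb1 : CRef := CRef.mk (Pat.mk 0x40000001800000000000000080000000800000000 0x2000000020000000ee000003ff000001f8000003f8000000e8000000f800000010 11 10) 0 0 (step_sound _ 133 [(rh167fff566cb27b75.shift 2 3), (rh2b4a824cd219d78c.shift 3 0), (rh3cb87dbec799b835.shift 1 1), (rh8c12fdbbddc1e7ab.shift 0 4)] (by decide +kernel))
noncomputable def rh12c66d0d164891af : CRef := CRef.mk (Pat.mk 0x8000000020000000a0000000a 0x3d0000003f0000003f0000007b0000003e0000007a 11 7) 0 0 (step_sound _ 97 [rh8cced43fc58d1ba9, rh974322ba49d49102, rha9a823f1b3d79c28, rhc85cc95794737cf7] (by decide +kernel))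
noncomputable def rh81d48075f2176c51 : CRef := CRef.mk (Pat.mk 0x180000006000000028000000000000000000000000000000000 0x10000000300000007000000070000003fc000079fe00003f7f00007ef800003c38000038080000380000002800 11 15) 0 0 (step_sound _ 198 [(rh36eba2a3de447758.shift 3 5), (rh65b7a2dc2c4933e7.shift 0 2), (rhda013643f001220b.shift 7 0)] (by decide +kernel))
noncomputable def rhb5ef26bf4695eaed : CRef := CRef.mk (Pat.mk 0x100000001c000000000000000000000000 0x2800000038000003ff000001ff000003fc000000f80000001c000000f80000003000000020 11 10) 0 0 (step_sound _ 164 [(rh038de9f6952c0fd9.shift 3 2), (rh1b1afed5a1347ef8.shift 2 0), (rh5cd7d2e3c9555616.shift 0 2)] (by decide +kernel))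
noncomputable def rh916034a89186610e : CRef := CRef.mk (Pat.mk 0x20000001800000008000000000000000000000000 0x7000000070000007ff000003fc000007e8000000e0000000e0000000a0 11 11) 0 0 (step_sound _ 133 [(rh3fae8e67c4c70b95.shift 1 3), (rh769b7ce4845b4458.shift 2 0), rh877b9c6732d1c2e9, (rhd0421c4690b8aace.shift 0 4)] (by decide +kernel))
noncomputable def rh0ee9a4e47ca3d8d7 : CRef := CRef.mk (Pat.mk 0x1800000060000000280000000000000000000000000 0x1000000030000000700000187000001bfc000079fe00003f7f00007ef8000038380000380800002800 11 15) 0 0 (step_sound _ 166 [(rh36eba2a3de447758.shift 3 4), (rh65b7a2dc2c4933e7.shift 0 1), (rhcb314c62841a3e20.shift 7 0)] (by decide +kernel))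
noncomputable def rh7ed6dae75974423e : CRef := CRef.mk (Pat.mk 0x10000000c00000004000000000000000000000000 0x3800000038000003fb000001fe000003fc000000780000007000000070 11 10) 0 0 (step_sound _ 132 [(rh3eaae551e8b43605.shift 0 1), (rh3fae8e67c4c70b95.shift 0 3), (rhb672eeb7638a6f28.shift 0 3), (rhe733026cd9f55f1f.shift 2 0), (rhf863e0ba8a56c0f4.shift 0 3), rhfdd7deadf65189bd] (by decide +kernel))
noncomputable def rh3f1436b8303ab6aa : CRef := CRef.mk (Pat.mk 0x800000008000000010000000c000000040 0x50000000700000007c000001f0000007f70000007e000000e700000040 11 11) 0 0 (step_sound _ 69 [(rh4c1da394ff107098.shift 0 1), (rh61dd7a43c077bcae.shift 2 0), (rh6b094f5d781b597a.shift 3 0), (rh7d376f9f843ebfd1.shift 2 0)] (by decide +kernel))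
noncomputable def rh45ad8a9e130f3cac : CRef := CRef.mk (Pat.mk 0x80000000b00000001000000000000000000000000 0x140000001c0000001c000000180000001b0000007f0000007e0000007c00000014 11 7) 0 0 (step_sound _ 99 [rh1c274868b21f9e7f, rh31af5fe07e2f2999, (rh92bac075817e2a53.shift 2 1), (rha59571ef3a5e3ace.shift 0 2), rha80da23c72f9ddc6, (rhc5ae37f539ff23ce.shift 0 2)] (by decide +kernel))
noncomputable def rhbfe3179a23b3f114 : CRef := CRef.mk (Pat.mk 0x18000000600000002800000000000000000 0x1000000030000000700000007000001bfc0000f9fe00007f7f0000fef80000383800003808 11 16) 0 0 (step_sound _ 134 [(rh36eba2a3de447758.shift 3 3), (rh5464b7b11ed67cae.shift 7 0), rh65b7a2dc2c4933e7] (by decide +kernel))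
noncomputable def rhea6f1441a86601f2 : CRef := CRef.mk (Pat.mk 0x100000001c000000100000001000000000 0xa0000000e0000000e0000000f0000007f0000007c000000180000003000000020 11 7) 0 0 (step_sound _ 131 [rh15deb61af2ac18ad, (rh50fbb5868c909700.shift 3 1)] (by decide +kernel))
noncomputable def rheb6317abdf1b222d : CRef := CRef.mk (Pat.mk 0x28000000200000002800000000 0xa0000001e000003be000001fe000003ff000001ee0000006800000040 11 10) 0 0 (step_sound _ 133 [(rh0223dd7dc184316d.shift 0 1), (rh5abfc4c9d959be03.shift 4 0), (rhda584fc24f16bade.shift 1 1), (rhdc8c05ba9d0622cf.shift 2 0)] (by decide +kernel))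
noncomputable def rh72e5ad6e78acbba9 : CRef := CRef.mk (Pat.mk 0x380000002000000028 0x1e0000003e0000001f0000003e000000ff0000002f0000002c 11 8) 0 0 (step_sound _ 100 [(rh7b83db2af9c81183.shift 1 0), rh99b7f9be74bfeae7, rhc75459b5a1471987, (rhc89253ff58c66167.shift 4 0)] (by decide +kernel))
noncomputable def rhee6346c05b5c0165 : CRef := CRef.mk (Pat.mk 0xe0000000800000002 0x10000000f0000001f000000ef000000fe000001fb00000012 11 9) 0 0 (step_sound _ 68 [(rh45f730bcf36fcf64.shift 0 1), rh9b0cad5576ee35a9, rhb5ed605c0753e267, (rhc1ebf07c9057cd37.shift 1 1)] (by decide +kernel))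
noncomputable def rh6a5d885a67a8a668 : CRef := CRef.mk (Pat.mk 0x280000002000000028 0x100000007a0000007e0000007e000007fe000003fe000003af0000002c 11 11) 0 0 (step_sound _ 68 [(rh4d1b4a14b2837a43.shift 1 0), (rh56d750a097414d5e.shift 2 0), (rh8500cd69be4b12f2.shift 1 0), (rha4ffd25f9824109a.shift 1 0), (rhb2d74f9ae6111727.shift 1 0), (rhe48623413666a5c2.shift 2 0), rhf98b800119c6ef20] (by decide +kernel))
noncomputable def rh63a031f964c89818 : CRef := CRef.mk (Pat.mk 0x30000000c0000000800000000 0x440000007c0000007c000001f8000007ff000003fc000007f800000030 11 11) 0 0 (step_sound _ 68 [(rh0fea2e709dbabdc5.shift 2 0), (rh167fff566cb27b75.shift 1 1), (rh73356946dc9821bc.shift 1 1), rhaf8a3b43050ac034, (rhbda9a27163266cd1.shift 0 2), (rhd3237108b29eb13d.shift 1 1), (rhea8024f69d23ee02.shift 1 1)] (by decide +kernel))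
noncomputable def rhea9d76a9bbea3b7a : CRef := CRef.mk (Pat.mk 0x30000000c0000000800000000 0x400000007000000070000001f0000007fb000003fe000007f800000030 11 11) 0 0 (step_sound _ 68 [(rh09d4dfe75d4407d6.shift 0 2), (rh0fea2e709dbabdc5.shift 2 0)] (by decide +kernel))
noncomputable def rh2e8f472a6c14e2b9 : CRef := CRef.mk (Pat.mk 0x780000000000000010 0x3c000000ff0000003c000000dc000000f80000001000000010 11 8) 0 0 (step_sound _ 102 [rh312cec4677e3a0ec, (rh33e738c4ed385b9f.shift 3 2)] (by decide +kernel))
noncomputable def rhb15385b57be336da : CRef := CRef.mk (Pat.mk 0x80000000b0000000a00000008000000000000000000000000 0xf0000000f8000000fb000001fe000000f8000001f00000006000000060 11 9) 0 0 (step_sound _ 100 [(rh55afc6a59410cf00.shift 3 2), rh845749c14cd20ed8] (by decide +kernel))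
noncomputable def rh1da675171d33b3c0 : CRef := CRef.mk (Pat.mk 0x80000000f00000008000000000 0x2800000178000001f8000001f0000001f8000000bf000001fe0000009f00000010 11 9) 0 0 (step_sound _ 100 [(rh3244c3cc8379b070.shift 3 2), rh3d390ec1a9997004] (by decide +kernel))
noncomputable def rh54c0e32793124138 : CRef := CRef.mk (Pat.mk 0x1e000000100000001000000000 0x28000000380000003c0000003c000000370000003e0000001b0000003000000020 11 6) 0 0 (step_sound _ 132 [(rh33e738c4ed385b9f.shift 1 3), rhe64a235f1bdbe845] (by decide +kernel))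
noncomputable def rh864a8b3d438149b9 : CRef := CRef.mk (Pat.mk 0x1c0000002000000008 0x3e0000003e0000000f0000006e0000007c0000006800000008 11 7) 0 0 (step_sound _ 69 [rh82318997fc77e05e, (rhe25b0a99195a5d59.shift 2 1)] (by decide +kernel))
noncomputable def rh6ceb2df1d60d1b68 : CRef := CRef.mk (Pat.mk 0x800000018000000700000005000000000000000000000000000000000 0x500000007000000170000001f0000001b0000007f000000df0000000f000000070000000400000004 11 8) 0 0 (step_sound _ 163 [rh0ea13e2571c2ffa0, (rhe25b0a99195a5d59.shift 3 4)] (by decide +kernel))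
noncomputable def rhea86dd4d40619aff : CRef := CRef.mk (Pat.mk 0x1000000030000000000000002000000000 0x280000003e0000007f000000fe000000ff0000001800000038000000380000003800000008 11 8) 0 0 (step_sound _ 164 [(rh09394ddf47a8cae2.shift 1 2), (rh54abdced1742da06.shift 4 1), (rhea7cc32a2d3e8797.shift 3 0), rhf3490897665ff330] (by decide +kernel))
noncomputable def rh03c576d9c9ec39aa : CRef := CRef.mk (Pat.mk 0x100000003c000000000000000000000000 0x3f000000ff000000ff0000001f0000003f0000006c0000000c0000000c 11 8) 0 0 (step_sound _ 131 [(rh417f1d57d7a01276.shift 0 1), rh91cb09bea1119845, rh995f26b13681956b, (rhbe5fc5902345a0b9.shift 0 3), rhc9f5da2815d3390f, (rhd56aebe36fb3e5e8.shift 0 1)] (by decide +kernel))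
noncomputable def rh82218c82100c2377 : CRef := CRef.mk (Pat.mk 0x200000006800000100000000400000000000000000 0x54000000fe000001ff000001ff0000007f0000006c000003dc0000007c0000001c00000004 11 10) 0 0 (step_sound _ 197 [(rh42b7bfc600da31dd.shift 1 3), rhab936c86cd69fe5e, (rhc4056fefc2c1d7af.shift 1 4), (rhfc77473044a95557.shift 5 2)] (by decide +kernel))
noncomputable def rhb6363206d06ef786 : CRef := CRef.mk (Pat.mk 0x2000000078000000000000000000000000 0x4c0000005c000000df0000007c00000078000000fc0000000c0000000c 11 8) 0 0 (step_sound _ 71 [(rh96851dee118c1ba3.shift 3 2), rhb58a40eead6e74d8] (by decide +kernel))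
noncomputable def rhf37594fd4701bff9 : CRef := CRef.mk (Pat.mk 0x80000001a000000100000001000000000 0x3e0000003e000000370000001f0000001f000000180000001800000008 11 6) 0 0 (step_sound _ 129 [rh242a147d435a4757, (rh41b4ffe1b33a1fe8.shift 0 2), (rhce2dbe6d9b8586ea.shift 0 2), (rhd8be3b7ca6adb62f.shift 0 3)] (by decide +kernel))
noncomputable def rhdcc49814a30aee5c : CRef := CRef.mk (Pat.mk 0x80000001a00000010000000100000000000000000 0x3f0000003f000000370000001f0000001e0000001f0000001f0000000f00000005 11 6) 0 0 (step_sound _ 161 [rh15b73db4cdb6b203, (rh610498e3fd089ef0.shift 0 1), (rhd01ec37b6070748d.shift 0 1), (rhd8be3b7ca6adb62f.shift 0 4)] (by decide +kernel))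
noncomputable def rh989a5ee6cc9e04e5 : CRef := CRef.mk (Pat.mk 0x200000006800000000000000400000000000000000 0x14000000fc000000fc000000df0000007c0000006c0000003f0000007f0000001f00000016 11 8) 0 0 (step_sound _ 163 [(rh10ffd61acd546a07.shift 2 4), (rh1e4a5db1103b3ca4.shift 2 0), rh48cdcb9f361609b6, (rhce2dbe6d9b8586ea.shift 2 3), rhdae13ec796e7a11f] (by decide +kernel))
noncomputable def rha854c2157615d06c : CRef := CRef.mk (Pat.mk 0xc0000002000000028000000000 0x2800000038000000b8000000fc000003fe00000fff000006f000000070 11 12) 0 0 (step_sound _ 72 [rh7b9907b777b93cda, (rh83ec37ff6e78b01f.shift 5 2), (rhe0c5cfb61b3c2680.shift 5 0)] (by decide +kernel))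
noncomputable def rhc40e4b265e7b571d : CRef := CRef.mk (Pat.mk 0x2000000180000000800000000 0x40000001c000001fc000000fc000000ff000000780000001800000010 11 9) 0 0 (step_sound _ 99 [rh06492cc5cdc11bb8, (rh63d8ab9fde333f42.shift 2 0), (rh9ebd639649ea671c.shift 0 2)] (by decide +kernel))
noncomputable def rh54688b88bc611f98 : CRef := CRef.mk (Pat.mk 0x180000000a0000000000000000 0x7000000070000003ff000001ff000003fb0000007000000060 11 10) 0 0 (step_sound _ 98 [(rh0d5016f56fe25621.shift 0 2), (rh50cd11c9ca068ca2.shift 0 2), (rh9fdd2b2a6256ef29.shift 1 0), (rhd526f9b20c752965.shift 0 2)] (by decide +kernel))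
noncomputable def rh61f3827ef0b2f77a : CRef := CRef.mk (Pat.mk 0x4000000040000000700000000000000000000000000000000 0x180000001c000000fe0000007f000000f8000000380000003800000030 11 8) 0 0 (step_sound _ 131 [(rh096767d96a1b3292.shift 0 3), (rh549503f6ee9fac0a.shift 0 3), (rhc37293dcc228fcf4.shift 0 3), (rhd132b680030c88e0.shift 0 1), (rhf8bc223456244c8a.shift 1 0)] (by decide +kernel))
noncomputable def rhe291399706d7a6c3 : CRef := CRef.mk (Pat.mk 0x40000000180000001a000000080000000800000000 0xa0000000e8000000e8000000c8000000ff000000fb000000cc0000008c00000004 11 8) 0 0 (step_sound _ 34 [(rh932754581e0f4330.shift 2 0), (rhcb1fd546cf37b90b.shift 0 1)] (by decide +kernel))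
noncomputable def rh6c540305211cb1a0 : CRef := CRef.mk (Pat.mk 0x3000000014000000000000000000000000 0x20000001f00000007c000007f7000003fe000007f6000000e0000000c0000000c0 11 11) 0 0 (step_sound _ 131 [(rh72e22f8ff4816922.shift 0 3), (rh856338e71b3353bf.shift 2 0), (rha0f541aa9ffae9a1.shift 0 3), (rhd526f9b20c752965.shift 1 3)] (by decide +kernel))
noncomputable def rh444668fa980be127 : CRef := CRef.mk (Pat.mk 0x8000000080000000a000000000000000800000000 0x1000000038000000780000007f000000ff0000007b000000380000000800000008 11 8) 0 0 (step_sound _ 196 [rh07c849dd2522cd1d, (rh08d50fe567eb1045.shift 3 2), (rh5890386c1f942fa1.shift 3 3), (rh87d5e4118780fa3b.shift 3 2), rhf625949cd9d759f5] (by decide +kernel))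
noncomputable def rhb54fa3670aac6fc0 : CRef := CRef.mk (Pat.mk 0x10000000140000000000000010000000000000000000000000 0x80000003f0000003e000000360000001800000018000000380000003800000028 11 6) 0 0 (step_sound _ 132 [(rh771d065bdc85bf2d.shift 3 2), (rh9e78c8d0a6e73966.shift 1 2), rhae22312bdf0198a3, (rhcab3157f7bdcba3e.shift 3 1)] (by decide +kernel))
noncomputable def rh1d249646dc9164f7 : CRef := CRef.mk (Pat.mk 0x1000000010000000100000005000000000 0x1ef000000fe000001de0000003e0000007400000020 11 9) 0 0 (step_sound _ 37 [(rh28ca3cd17e964e5e.shift 0 1), (rh55afc6a59410cf00.shift 4 0)] (by decide +kernel))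
noncomputable def rh7c5e8a18f31458dd : CRef := CRef.mk (Pat.mk 0x60000000200000000000000020 0x58000000dc000003ff000001fe0000003e0000003800000020 11 10) 0 0 (step_sound _ 100 [(rh1c37177b4d6b0603.shift 3 0), (rh229c09c92f6aae24.shift 1 0), (rhd1f9989d6034576a.shift 4 0), (rhdca79a1b33d9fffe.shift 0 1)] (by decide +kernel))
noncomputable def rh250020c4fdae81de : CRef := CRef.mk (Pat.mk 0x60000000200000000000000020 0x58000000dc000000ff0000007e000000fe0000003800000020 11 8) 0 0 (step_sound _ 100 [(rh229c09c92f6aae24.shift 1 0), (rha226637036f4c99f.shift 1 0), (rhd1f9989d6034576a.shift 4 0), (rhdca79a1b33d9fffe.shift 0 1)] (by decide +kernel))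
noncomputable def rhbbde55dbe637d502 : CRef := CRef.mk (Pat.mk 0x3000000010000000000000005000000000 0x1800000018000001df000000fe000000ff000000dc0000005000000040 11 9) 0 0 (step_sound _ 131 [(rh1c37177b4d6b0603.shift 2 1), (rh3f32bc372c9a05f1.shift 0 1), (rh9f9ff4e1a52e6406.shift 1 0), (rha226637036f4c99f.shift 0 1)] (by decide +kernel))
noncomputable def rh9fe475f84662ade7 : CRef := CRef.mk (Pat.mk 0x10000000100000001000000010 0x2800000038000000380000003800000030000003ff000001fe000003bf00000010 11 10) 0 0 (step_sound _ 132 [(rh37d6aef4518dde76.shift 1 0), (rh44f453b84f013105.shift 4 0), (rh76cfb5260dc15fcc.shift 0 1), (rhe01cfd8f0577defd.shift 3 1)] (by decide +kernel))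
noncomputable def rh533b2f245a2f50c1 : CRef := CRef.mk (Pat.mk 0xc00000004000000000000001400000000 0x7a0000007f0000007e0000003c0000001c00000018 11 7) 0 0 (step_sound _ 66 [(rh2f68792b6b779e96.shift 2 1), rh8e9d21beb3abf0df] (by decide +kernel))
noncomputable def rh07f6ea9a5c0ddf02 : CRef := CRef.mk (Pat.mk 0x3000000010000000000000005000000000 0x1ef000000fe000001de0000003e0000007400000020 11 9) 0 0 (step_sound _ 68 [(rh2f68792b6b779e96.shift 4 1), rhedb5dfd8ecce1641] (by decide +kernel))
noncomputable def rhb41a7341274b537b : CRef := CRef.mk (Pat.mk 0x3800000010000000100000005000000000 0xa0000000e0000000e0000000e000000070000003e0000007f0000003e0000007000000020 11 7) 0 0 (step_sound _ 130 [(rh775ca1963e850b80.shift 0 3), (rha03f6e28ea70fc7d.shift 1 3), (rhb0a768a6b1ee6221.shift 1 0), (rhfcb55d5dc3b78d1f.shift 0 3)] (by decide +kernel))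
noncomputable def rh2e864f45b346e189 : CRef := CRef.mk (Pat.mk 0x800000008000000000000000800000000 0x140000001c0000001e00000078000001ff000000ff000001dc0000001800000010 11 9) 0 0 (step_sound _ 163 [(rh9d7136f310a6612d.shift 0 2), (rhae88588f2a5a9d28.shift 0 1), (rhc108617956a6b971.shift 1 2), (rhf9d2a08dfa934231.shift 3 0)] (by decide +kernel))
noncomputable def rh80f921ced2958b6d : CRef := CRef.mk (Pat.mk 0x8000000080000000800000000 0x100000001c0000001c00000008000001ff000000fe000001d4 11 9) 0 0 (step_sound _ 131 [(rh20966da26a1c2ae8.shift 2 0), rh4a9a36c85ebb9e7a, (rhc4ec57a3756c3a6c.shift 2 0), (rhced6d86d2069808b.shift 3 0)] (by decide +kernel))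
noncomputable def rh91ad7529bfd7abdb : CRef := CRef.mk (Pat.mk 0x10000000100000001000000050000000000000000000000000 0x2000000030000000ba0000009a000003ff000001fe000003ff00000054000000e4000000e0000000a0 11 10) 0 0 (step_sound _ 227 [rhfb814f879d38649d, (rhffd04209dc8ea796.shift 3 3)] (by decide +kernel))
noncomputable def rh5291e25ed7012523 : CRef := CRef.mk (Pat.mk 0x1000000010000000100000000000000050000000000000000000000000 0x28000000380000003800000018000001f8000001f7000001fe000001ff00000070000000e0000000c0000000c0 11 9) 0 0 (step_sound _ 132 [(rh4b28f426cd4a9b08.shift 0 3), (rh56361ecf47c1e21c.shift 2 0), (rh68b3b2121c44e92c.shift 1 3), (rhd29a1fb688eae70f.shift 4 2)] (by decide +kernel))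
noncomputable def rh470643bab8fffb15 : CRef := CRef.mk (Pat.mk 0x10000000100000001000000000 0x28000000f8000001fe000000fe000000770000003e0000002f 11 9) 0 0 (step_sound _ 132 [(rh1741680720c097b4.shift 3 1), (rh5abfc4c9d959be03.shift 3 0), rh9bd30bafdc0b025d, (rhced6d86d2069808b.shift 4 0)] (by decide +kernel))
noncomputable def rh6ba47a622f27775f : CRef := CRef.mk (Pat.mk 0x3000000010000000000000004000000000 0x740000007c0000007f000000ff000001fe000000ee0000006400000060 11 9) 0 0 (step_sound _ 99 [(rh0bb882ba86b2372d.shift 1 3), rh299a3423a963484a, (rh574fdbf07bdd18b9.shift 1 3), (rhba83a74241658d71.shift 1 0), (rhccbdec3f98d3aa3c.shift 1 0), (rhea5e4de8d1095203.shift 1 0)] (by decide +kernel))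
noncomputable def rhdd870808d408587f : CRef := CRef.mk (Pat.mk 0x180000000e000000000000002000000000 0x3e0000007e0000007f0000001f000000fe000000170000003200000030 11 8) 0 0 (step_sound _ 100 [(rha82bf9e83b78fa91.shift 0 1), (rhb447f348b8f2aaa5.shift 0 2), (rhe3a58a53c330a740.shift 1 0), (rhf338f2e71c3bfb47.shift 0 1)] (by decide +kernel))
noncomputable def rhf085eb1448784a41 : CRef := CRef.mk (Pat.mk 0x3c0000000c00000000 0x3e0000007e0000006e0000003f0000001c00000014 11 7) 0 0 (step_sound _ 98 [(rh3244c3cc8379b070.shift 1 2), rh47ec1b468f1f9303] (by decide +kernel))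
noncomputable def rh043cfd66d9b87d84 : CRef := CRef.mk (Pat.mk 0x1800000008000000000000002000000000 0xf8000000f8000003fc000001f8000003ff000000f70000003000000030 11 10) 0 0 (step_sound _ 134 [(rh0eb10737238714ef.shift 2 3), (rh2a3c9de1e1d41a43.shift 2 1), rh756f03c8bf9075a2, (rhee3ceee05362554c.shift 2 1), (rhfea279949e69cda5.shift 2 3)] (by decide +kernel))
noncomputable def rh74b8106c56bebbd5 : CRef := CRef.mk (Pat.mk 0x600000006000000040 0xf8000001fc000001ff0000007e000001fe00000058 11 9) 0 0 (step_sound _ 68 [(rh08eb58b4c84ee8e1.shift 3 0), (rh6292bd8784ece55f.shift 3 1), rhdca79a1b33d9fffe, (rhdeca8db941583de2.shift 2 1)] (by decide +kernel))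
noncomputable def rh44874b9bdd8adfa4 : CRef := CRef.mk (Pat.mk 0xc00000004000000000000001000000000 0x1e0000003f0000007f0000007f0000007c000000380000001800000018 11 7) 0 0 (step_sound _ 99 [(rh15115c16165f7f79.shift 2 0), rh507f34993183e23d, (rh5e3e18b676d4791c.shift 1 0), rhd68a8a38de7a9755, rhe3a58a53c330a740] (by decide +kernel))
noncomputable def rh4b899b3d8a1df3a5 : CRef := CRef.mk (Pat.mk 0x1000000010000000000000005000000000 0x28000000380000003e0000007e0000007e000000ff000000fe0000003f0000007000000060 11 8) 0 0 (step_sound _ 68 [(rh5abfc4c9d959be03.shift 3 0), (rh66ccce025332e556.shift 0 1), (rh75ca476f94ddea04.shift 1 0), (rh7ab05995045277ae.shift 1 1), (rha087c6594f4bfb59.shift 3 0), (rhced6d86d2069808b.shift 4 0)] (by decide +kernel))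
noncomputable def rh13eff1d4dd4e471e : CRef := CRef.mk (Pat.mk 0x1000000000000000500000000000000000 0x280000003800000038000000f8000001fe000001fe000001fe000000770000007e0000002f 11 9) 0 0 (step_sound _ 100 [rh00e0f83c9f111848, (rh32bf1dcf781b6aec.shift 1 1), rh58f18c95dfe65d0f, rh5ab2de56e0224e22, rh9157b4ce5c9a47da, rhf07d06d8067d9419, (rhf1c3b1ce18004698.shift 1 1), rhf41dbcb3d331f5d3] (by decide +kernel))
noncomputable def rh7bad29da644c8805 : CRef := CRef.mk (Pat.mk 0x80000000c000000080000002800000000 0x80000001c0000001f0000007f0000007f0000002b00000023 11 7) 0 0 (step_sound _ 130 [(rh50fbb5868c909700.shift 2 1), rha105a9ed874ba437] (by decide +kernel))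
noncomputable def rh0062c6d917dc4508 : CRef := CRef.mk (Pat.mk 0x180000000000000050000000000000000000000000 0x2000000028000003ff000001fe000003ff00000050000000580000001800000008 11 10) 0 0 (step_sound _ 132 [(rh01483ff9cba2f6ac.shift 3 0), (rh79e1194ba4b8d231.shift 0 2), (rh9b323ef5a488003e.shift 3 0), rh9de39dd7316d23ce] (by decide +kernel))
noncomputable def rhc18243d2643d900d : CRef := CRef.mk (Pat.mk 0x180000001000000010000000000000000000000000 0x3a7000001fe000003ff00000010000000380000003800000008 11 10) 0 0 (step_sound _ 68 [(rh5e0810cfbc8df032.shift 0 1), (rhcab3157f7bdcba3e.shift 3 0), (rhd5f3672bdd02e5db.shift 2 1), (rhe4441baab75a6f73.shift 3 0)] (by decide +kernel))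
noncomputable def rh6aaab34bccad927c : CRef := CRef.mk (Pat.mk 0x180000000000000050000000000000000000000000 0x80000000d8000003df000001fe000003ff000000700000007c0000003800000008 11 10) 0 0 (step_sound _ 165 [(rh11dc20e5a0378c82.shift 0 2), (rh36d3c305ab2d14a2.shift 0 2), (rh42536ef9ce021db6.shift 2 2), (rh55ba35afca77bd3b.shift 2 2), (rh9eb3d5c21fe88732.shift 2 1), rha28e0db9e79379bd] (by decide +kernel))
noncomputable def rh3ed3c0aa455b70c6 : CRef := CRef.mk (Pat.mk 0xc0000000800000028000000000000000000000000 0x140000001c0000001c000000180000001c0000007f0000007f00000038000000700000007000000060 11 7) 0 0 (step_sound _ 132 [(rh4ca5dae25f5c14ff.shift 0 4), (rh54672b8610874b11.shift 0 1), (rhc558f0574168f5bd.shift 1 0), (rhdeca8db941583de2.shift 0 4)] (by decide +kernel))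
noncomputable def rh7ae1a5d2b876aec2 : CRef := CRef.mk (Pat.mk 0x180000000000000050000000000000000000000000 0xc0000001de000001fe000000fe000000770000003e0000003f00000008 11 9) 0 0 (step_sound _ 132 [(rh01483ff9cba2f6ac.shift 3 0), (rha3e58f5f7aaf8466.shift 1 0), (rha77fe45deddd9da7.shift 1 1), (rhad1ca36b18ae3f16.shift 0 1)] (by decide +kernel))
noncomputable def rhe56d07b27c680358 : CRef := CRef.mk (Pat.mk 0x3800000040000000500000000000000000 0xf8000000dc000000770000003e0000003f 11 8) 0 0 (step_sound _ 134 [rh6fa74b591035993a, (rhe25b0a99195a5d59.shift 3 3)] (by decide +kernel))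
noncomputable def rhf3ab5cab7c22bf66 : CRef := CRef.mk (Pat.mk 0x3800000000000000500000000000000000 0x20000001e0000000fc000000dc000000770000007e0000003f 11 9) 0 0 (step_sound _ 134 [(rh22de5993038d04b0.shift 2 1), rh6fa74b591035993a, (rhfcffa0a9e99c8fd4.shift 3 1)] (by decide +kernel))
noncomputable def rh66940a3e02f214c7 : CRef := CRef.mk (Pat.mk 0x3800000000000000500000000000000000 0xa0000000e0000000e0000001c0000000f8000000fc000000770000007e0000003f 11 9) 0 0 (step_sound _ 134 [rh6fa74b591035993a, (rhe87be6ca2e581b4d.shift 3 1), (rhfcffa0a9e99c8fd4.shift 3 1)] (by decide +kernel))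
noncomputable def rh6055e3d355cbb9ea : CRef := CRef.mk (Pat.mk 0x380000000000000050000000000000000000000000 0xa0000000e0000000e0000000e0000000f8000000fc00000077000001fe000000ff00000080 11 9) 0 0 (step_sound _ 166 [(rh6fa74b591035993a.shift 0 1), (rhe84c35e83a304151.shift 3 0), (rhe87be6ca2e581b4d.shift 3 2), (rhf7feb30212101096.shift 3 1)] (by decide +kernel))
noncomputable def rhae31481a56b2fa9f : CRef := CRef.mk (Pat.mk 0x4000000060000000400000014000000000000000000000000 0x180000003e0000003e0000003f0000001c000000380000003000000030 11 6) 0 0 (step_sound _ 195 [(rh2f68792b6b779e96.shift 2 3), rh87701f8b023a41f9] (by decide +kernel))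
noncomputable def rh751628d5bf306102 : CRef := CRef.mk (Pat.mk 0x80000000c000000080000001000000000 0x40000000700000007000000030000001fc000000ff000000f80000001000000010 11 9) 0 0 (step_sound _ 97 [(rh4c6c701e9d985463.shift 1 0), (rh8ee80cc30e93a344.shift 0 2), (rhcf86d050071af9b3.shift 0 2), (rhff7d63dcb3cf9f74.shift 0 3)] (by decide +kernel))
noncomputable def rh332628df77a0c5e5 : CRef := CRef.mk (Pat.mk 0x2000000030000000200000004000000000 0x100000001c0000001c0000000c0000007f7000003fe000003e70000004000000040 11 11) 0 0 (step_sound _ 99 [(rh3918eeb6c53434d8.shift 0 2), (rh4c6c701e9d985463.shift 3 0), (rhb12ffaec36122c99.shift 0 2), (rhcf86d050071af9b3.shift 2 2)] (by decide +kernel))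
noncomputable def rh6de5ed0e2f04fd36 : CRef := CRef.mk (Pat.mk 0x400000007000000000000000a00000002 0x20000000380000003800000018000000fe0000007f0000007c0000000e00000006 11 8) 0 0 (step_sound _ 34 [rh2e0a460e68f3a647, (rh3c88ce959c0e423f.shift 1 0)] (by decide +kernel))
noncomputable def rh30026ffe49bb7ead : CRef := CRef.mk (Pat.mk 0x20000000300000000000000050 0x50000000700000007c000000fc000000fc000003f7000001fe000003fe00000050 11 10) 0 0 (step_sound _ 133 [(rh1978fdf87ac449a5.shift 4 0), (rh2450e95985d5ffe1.shift 4 0), (rh319673309b7ac683.shift 4 0), (rh8e17b3649e33c45c.shift 0 1), (rhdd9761ac388fc631.shift 2 1)] (by decide +kernel))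
noncomputable def rhe803dfaba74be26c : CRef := CRef.mk (Pat.mk 0xe000000000000000a0000000000000000000000000 0x8e000001fe000001ff000000ee000003fc000001fe00000050 11 10) 0 0 (step_sound _ 164 [(rh20c4d2a5d3665060.shift 0 4), (rh6fa74b591035993a.shift 1 1), (rha0f9deb27daf9f34.shift 3 1), (rha6068d7ce29c3f18.shift 1 0), (rhbb13f9e1d387f64a.shift 1 4)] (by decide +kernel))
noncomputable def rha3e6a2b0c2865179 : CRef := CRef.mk (Pat.mk 0xf000000000000000000000006000000040 0xe000000fc0000001c0000000f0000007e000000e7 11 8) 0 0 (step_sound _ 99 [rh2537d4e6153cc87b, (rh80fcd6d0a18cb2dd.shift 3 3)] (by decide +kernel))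
noncomputable def rh2ff01c8a71fbee02 : CRef := CRef.mk (Pat.mk 0xe000000000000000a0000000000000000 0x10000000780000003f00000078000000ee0000007c000000fc 11 8) 0 0 (step_sound _ 132 [(rh3fc3a7fb6866dcd4.shift 1 3), (rh7b9364b1e35b54aa.shift 0 1), rhb2946cc8526c117e] (by decide +kernel))
noncomputable def rhd974b9837c791fef : CRef := CRef.mk (Pat.mk 0xe000000020000000a0000000000000000000000000 0xc000000af000000fe000001bf000000ee000000fc0000007000000050 11 9) 0 0 (step_sound _ 164 [(rh09de0bc8905419b0.shift 0 2), (rh3e337bea931a14c4.shift 4 1), rhfbba5d2f2b5f3e91] (by decide +kernel))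
noncomputable def rh884cb91350a013c4 : CRef := CRef.mk (Pat.mk 0x300000000000000050000000000000000000000000 0x4000000070000000f0000000f8000007f7000003fe000003ff00000070000001e0000000e0000000e0 11 11) 0 0 (step_sound _ 133 [(rh03ce508ffa76637b.shift 2 1), (rh1eae86dfe440adb2.shift 4 1), (rh4ef16ce6e68696a8.shift 2 1), (rh709d740bed09ae1a.shift 2 0), (rhe6fba04273f45a8f.shift 2 0), rhf3a50288021ba7a5] (by decide +kernel))
noncomputable def rh7af364d3fd790b5c : CRef := CRef.mk (Pat.mk 0x300000000000000050000000000000000000000000 0x20000001f0000003f0000001f0000003fc000000770000007e0000003f00000028 11 10) 0 0 (step_sound _ 132 [(rh215e11e099257d75.shift 4 2), rh66d42483be47dcf1, (rhd19d31b13e48b44b.shift 0 1), (rhfbb017645cf80f24.shift 2 0)] (by decide +kernel))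
noncomputable def rhe6b710d82244e4d8 : CRef := CRef.mk (Pat.mk 0x2000000030000000000000004000000000 0x50000000700000007c000000fc000000fc000003f7000001fe000003ee0000004000000040 11 10) 0 0 (step_sound _ 165 [(rh2450e95985d5ffe1.shift 4 1), (rh8e17b3649e33c45c.shift 0 2), (rhb5bfb93a69499a93.shift 5 0), (rhdd9761ac388fc631.shift 2 2)] (by decide +kernel))
noncomputable def rh096dafb5cc3095a3 : CRef := CRef.mk (Pat.mk 0x8000000040000000400000004 0x140000001c0000001c000000fc0000007f000000ff0000001c0000001c0000000c0000000400000004 11 8) 0 0 (step_sound _ 131 [(rh1006c02ae4212ff0.shift 2 0), (rh8cdb253dfd9239ff.shift 0 1)] (by decide +kernel))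
noncomputable def rh9bcbedfba2691f76 : CRef := CRef.mk (Pat.mk 0x1e00000000000000080000000400000004 0xe30000007e00000078000000280000007c000000ee 11 8) 0 0 (step_sound _ 35 [rh35182b5f590c2d9c, (rhee230b994cc8b773.shift 2 0)] (by decide +kernel))
noncomputable def rha14ed326320b93aa : CRef := CRef.mk (Pat.mk 0x10000000100000002000000020000000000000000000000000000000000000000000000000 0x1000000030000000200000007e000001fe000001fe0000007f000000700000007000000050 11 9) 0 0 (step_sound _ 165 [rh190d2be3e099fc6d, (rhcfdf45280693d3da.shift 4 5)] (by decide +kernel))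
noncomputable def rh102f5f0af19568a9 : CRef := CRef.mk (Pat.mk 0x4000000000000000a000000020000000a00000004000000000000000000000000 0x40000001e0000001a0000001a0000000a0000001f0000001f0000001f00000014 11 5) 0 0 (step_sound _ 97 [rh0f43ae2d40d85119, (rh55afc6a59410cf00.shift 1 2)] (by decide +kernel))
noncomputable def rh2dbb1f7265820c48 : CRef := CRef.mk (Pat.mk 0x200000000000000050000000100000005000000000 0x1a0000001e0000007ff000003fe000007df000000d0000000d00000005000000040 11 11) 0 0 (step_sound _ 164 [(rh036755447eb5ec9f.shift 0 1), (rh14cfe43629e24c8a.shift 3 1), (rh7e601e72ec44c1d6.shift 3 0), (rhcf5ca4b4f4ba73ee.shift 0 1), (rhd31f73ee799621da.shift 0 1)] (by decide +kernel))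
noncomputable def rh62c26be155e1a671 : CRef := CRef.mk (Pat.mk 0x80000000800000000000000300000001000000000000000000000000000000000 0x8000000080000000f0000003e000000ff0000000e0000000e0000000e00000002 11 8) 0 0 (step_sound _ 163 [rhdf8e010e37f1ec4d, (rhff0f29cb645b05f7.shift 3 4)] (by decide +kernel))
noncomputable def rh069fc8ddb2e76e5e : CRef := CRef.mk (Pat.mk 0xc00000000000000140000001400000010 0x1e0000003f0000003f000000ff0000007c000000f6000000140000001400000010 11 8) 0 0 (step_sound _ 132 [(rh11c908474401bff1.shift 3 0), (rh37fce8d89d87d5f3.shift 1 1), (rh499c75226f92534c.shift 2 0), (rha56347a8e8d44bc7.shift 0 1), (rha761300b78595edf.shift 2 1)] (by decide +kernel))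
noncomputable def rhbf0799446670eef2 : CRef := CRef.mk (Pat.mk 0x2000000020000000a0000000a000000040000000000000000 0x3d0000001f0000007a0000001f0000000a0000001f0000000f00000001 11 7) 0 0 (step_sound _ 65 [rh4fd9902ec0ab769c, (rh55afc6a59410cf00.shift 1 1)] (by decide +kernel))
noncomputable def rh1e1d744b7844ed1f : CRef := CRef.mk (Pat.mk 0x1000000004000000140000001400000000000000000000000000000000 0xa0000001e0000001e000000f40000007f0000001c0000000e0000000e0000000e00000008 11 8) 0 0 (step_sound _ 226 [(rh1741680720c097b4.shift 1 4), (rh5abfc4c9d959be03.shift 1 3), (rhd0152085bc607411.shift 0 3), (rhdc5b80dfc687b44e.shift 1 0)] (by decide +kernel))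
noncomputable def rh00d75e3d69a237d5 : CRef := CRef.mk (Pat.mk 0x1000000004000000140000001400000000000000000000000000000000 0x280000003a0000003e0000001e000000f40000007f0000001c0000000e0000000e0000000e00000008 11 8) 0 0 (step_sound _ 226 [(rh1741680720c097b4.shift 1 4), (rh5abfc4c9d959be03.shift 1 3), (rhd0152085bc607411.shift 0 3), (rhe2c3cad886edde82.shift 1 0)] (by decide +kernel))
noncomputable def rh843139dc320e2610 : CRef := CRef.mk (Pat.mk 0x1000000004000000140000001400000000000000000000000000000000 0x2800000038000000380000007a0000003e00000036000000f40000007f0000001c0000000e0000000e0000000e00000008 11 8) 0 0 (step_sound _ 226 [(rh5abfc4c9d959be03.shift 1 3), (rha9a823f1b3d79c28.shift 1 4), rhaf07d1b336a18296, (rhd0152085bc607411.shift 0 3)] (by decide +kernel))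
noncomputable def rh3fde05aaa2238d7d : CRef := CRef.mk (Pat.mk 0x6000000000000000200000002 0xa0000007e0000007f0000007e0000001e0000000e0000000e00000002 11 7) 0 0 (step_sound _ 130 [(rh04253f50b6dd0619.shift 1 0), rh1d355069ad853247] (by decide +kernel))
noncomputable def rhb3f7ef5c683e1566 : CRef := CRef.mk (Pat.mk 0x8000000020000000a0000000a000000000000000000000000 0x5000000070000003f0000001f000000320000001e0000000e000000070000000700000001 11 6) 0 0 (step_sound _ 193 [(rh1741680720c097b4.shift 0 3), (rh20e56a1196e70fcc.shift 0 2), (rh5abfc4c9d959be03.shift 0 2), rh85689fdf82ca0855, (rhced6d86d2069808b.shift 1 2)] (by decide +kernel))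
noncomputable def rh613c322e4a911552 : CRef := CRef.mk (Pat.mk 0x600000002000000000000000000000000000000000 0x4000001040000078e000003fe000007ff000003c8000003c8000003c000000100 11 11) 0 0 (step_sound _ 167 [(rh2820ca9a6c4f41b4.shift 2 4), (rh352b7f91eba0c81f.shift 4 4), rh9f92e6731b01fae9, (rhe62b1c5762fa02bb.shift 5 1)] (by decide +kernel))
noncomputable def rhe6ceff12fbdef02f : CRef := CRef.mk (Pat.mk 0x180000000000000000000000280000002000000000 0xa0000000e0000001e0000003f0000003ff000001fe000003e7000000e00000007c0000003000000010 11 10) 0 0 (step_sound _ 165 [rh2b2d795c8f499164, (rh6ab7bf4be0542dc5.shift 2 1), rh98643480cb9ce90c, (rha304ed6cc32254ea.shift 2 3), (rhfae129319be76921.shift 0 4), (rhfb97c01108f1802d.shift 0 4), (rhfe3c457d1e27e17e.shift 0 1)] (by decide +kernel))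
noncomputable def rh7d888307fb598e10 : CRef := CRef.mk (Pat.mk 0x80000000800000000000000060000000400000000000000000000000000000000 0x800000008000000780000003e0000007f00000038000000380000003800000020 11 7) 0 0 (step_sound _ 163 [(rh3c88ce959c0e423f.shift 2 4), rhc647fa9fab64b0e9] (by decide +kernel))
noncomputable def rh94088bcc29993153 : CRef := CRef.mk (Pat.mk 0x80000000800000000000000060000000400000000000000000000000000000000 0x800000028000000f80000007e000000ff00000078000000780000007800000020 11 8) 0 0 (step_sound _ 163 [(rh3c88ce959c0e423f.shift 2 4), rhc8a868d185606470] (by decide +kernel))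
noncomputable def rh97acc462d31b99ef : CRef := CRef.mk (Pat.mk 0x4000000040000000400000002000000000000000000000000000000000000000000000000000000000 0x4000000040000000600000007000000070000000ff000000fe0000007f000000780000007000000050 11 8) 0 0 (step_sound _ 197 [rh9fb69c8b84e034c6, (rheea67dfebd0f8008.shift 5 6)] (by decide +kernel))
noncomputable def rha7fc470c3df25e98 : CRef := CRef.mk (Pat.mk 0x10000000000000005000000000000000000000000000000000 0x80000003800000078000000fe000000fe00000030000000770000007e0000003f0000003800000020 11 8) 0 0 (step_sound _ 164 [rh1dd8e165d195c88f, (rh4f10e8760ea878d2.shift 1 3), (rh4fbf8492de6446b7.shift 1 0), (rh5d96340f5291914f.shift 0 1), (rha27b24f8155da443.shift 0 1), (rhe5e051aa16641441.shift 3 1), (rhf782fdc940293990.shift 0 2)] (by decide +kernel))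
noncomputable def rh7e01812e665f4f23 : CRef := CRef.mk (Pat.mk 0x80000000000000028000000000000000000000000 0x1c0000001c0000003c0000007f0000007f0000007e00000038000000380000001800000010 11 7) 0 0 (step_sound _ 131 [(rh26c1cdea48278a44.shift 2 0), (rh6199a457ed2a1ddd.shift 2 1), (rh7e1813badea3d85a.shift 0 2), (rh8320115756cc6528.shift 1 0), (rh89d61b4dc60eb422.shift 2 0), (rh971cc36808473422.shift 1 0), (rhae70c0c7f629c35c.shift 0 1), (rhd8d4a3e18b9bc051.shift 2 2), (rhdb7136dcf135a6a0.shift 0 1)] (by decide +kernel))
noncomputable def rhea1e9661bc18230d : CRef := CRef.mk (Pat.mk 0x10000000000000005000000000000000000000000000000000 0x280000003800000078000000fe000000fe000000fe000000770000007e0000003f0000003000000020 11 8) 0 0 (step_sound _ 164 [(rh32bf1dcf781b6aec.shift 1 3), (rh461482ecc5c54f5a.shift 1 1), (rh489ab27b9299905a.shift 0 2), rh662936398521f124, (rh959e8c42a8ee78fc.shift 0 1), (rhc13f3f7c46dbedec.shift 0 2), (rhdce4d1b60cbd1315.shift 1 2), (rhe56e24c4d2d4c995.shift 0 2)] (by decide +kernel))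
noncomputable def rh4104495052eeb552 : CRef := CRef.mk (Pat.mk 0x100000000000000050000000000000000000000000 0x28000003f8000001f8000001fc0000007c000000770000007e0000003f00000028 11 10) 0 0 (step_sound _ 132 [(rh051147f7595abe9f.shift 2 0), (rh1b6b46f2866dcae5.shift 3 0), rh28382acb8568db5c, rh310d8c1897d86d09, (rhb95a54ace36dc081.shift 3 0), (rhdb3f01ce4e3324d2.shift 2 2)] (by decide +kernel))
noncomputable def rhc0fd4ee1dcd97bfd : CRef := CRef.mk (Pat.mk 0x100000000000000050000000000000000000000000 0x2800000078000001fc000000f80000003c000000770000007e0000003f00000028 11 9) 0 0 (step_sound _ 132 [(rh1b6b46f2866dcae5.shift 3 0), rh310d8c1897d86d09, (rh4bb6d968d72b861b.shift 2 2), (rhb95a54ace36dc081.shift 3 0), rhc8a3697d74d20f16, rhd9ab7ae31bc0d353] (by decide +kernel))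
noncomputable def rh81d8067f3b976c62 : CRef := CRef.mk (Pat.mk 0x100000000000000050000000000000000000000000 0x2800000078000000fe000000fc00000038000000770000007e0000003f00000028 11 8) 0 0 (step_sound _ 132 [(rh1b6b46f2866dcae5.shift 3 0), rh310d8c1897d86d09, (rh4f10e8760ea878d2.shift 1 2), (rhb95a54ace36dc081.shift 3 0), rhe2c24440905e1c2c, rhf15a1ce756bbc45e] (by decide +kernel))
noncomputable def rh11f6e3da6d4fa3c3 : CRef := CRef.mk (Pat.mk 0x80000000000000028000000000000000000000000 0x140000003c0000007f0000007e0000007e000000380000003c0000001c00000014 11 7) 0 0 (step_sound _ 131 [(rh32bf1dcf781b6aec.shift 0 2), (rh654532559c4e3662.shift 1 0), (rh738feff674d58b9d.shift 2 0), (rhc34bd1e15220d0e2.shift 2 0), (rhc7cc0e5d723530e1.shift 2 0), (rhf1157099ae70afd3.shift 2 0)] (by decide +kernel))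
noncomputable def rhc6277b6d24ad0eb2 : CRef := CRef.mk (Pat.mk 0x100000000000000050000000000000000000000000 0x2800000078000000fc000000fc0000003c000000770000007e0000003f00000028 11 8) 0 0 (step_sound _ 132 [(rh1b6b46f2866dcae5.shift 3 0), rh310d8c1897d86d09, (rh7a005c8ef556774f.shift 2 2), (rhb95a54ace36dc081.shift 3 0), rhe2c24440905e1c2c, rhf15a1ce756bbc45e] (by decide +kernel))
noncomputable def rhde1334193987edf1 : CRef := CRef.mk (Pat.mk 0x80000000000000028000000000000000000000000 0x140000003c0000007f0000007e0000007e000000380000003e0000001c00000014 11 7) 0 0 (step_sound _ 131 [(rh32bf1dcf781b6aec.shift 0 2), (rh59f64393abefc566.shift 1 0), (rh834291253bf4364d.shift 1 0), (rh99bfff0e0874b450.shift 1 0), (rhc7cc0e5d723530e1.shift 2 0)] (by decide +kernel))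
noncomputable def rhb7e92a280f310265 : CRef := CRef.mk (Pat.mk 0x1000000010000000500000001000000000 0x280000003e00000074000000760000003e0000002f 11 7) 0 0 (step_sound _ 133 [(rh2f68792b6b779e96.shift 4 1), rhc7629baa6e4455ab] (by decide +kernel))
noncomputable def rhecaf207d4cb90c42 : CRef := CRef.mk (Pat.mk 0x1000000010000000500000001000000000 0x280000003e0000001e000000770000003e0000002e 11 7) 0 0 (step_sound _ 133 [(rh2f68792b6b779e96.shift 4 1), rh968f2b362179c77b] (by decide +kernel))
noncomputable def rhda30a24dd327cd12 : CRef := CRef.mk (Pat.mk 0x100000000000000050000000000000000000000000 0x2800000078000000fe000000fc0000003c000000770000007e0000003f00000028 11 8) 0 0 (step_sound _ 132 [(rh1b6b46f2866dcae5.shift 3 0), rh310d8c1897d86d09, (rh32bf1dcf781b6aec.shift 1 2), (rhb95a54ace36dc081.shift 3 0), rhe2c24440905e1c2c, rhf15a1ce756bbc45e] (by decide +kernel))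
noncomputable def rh8a6314c76b1854ea : CRef := CRef.mk (Pat.mk 0x100000001c00000010000000100000000000000000 0x20000000f00000001c0000007f0000007f0000001e0000001c 11 8) 0 0 (step_sound _ 35 [rh49f43361b9dcd7bb, (rh79877ebd3ef475dd.shift 3 1)] (by decide +kernel))
noncomputable def rh9fed0a5e9ca7f9e3 : CRef := CRef.mk (Pat.mk 0x1c0000000000000010000000000000000000000000 0x28000000380000003f000000fe000000ff000000f80000001c000000180000001e000000780000003800000028 11 8) 0 0 (step_sound _ 132 [(rh0a6888916bcef86b.shift 3 0), (rh522bf57a2779c6cd.shift 0 2), (rha514f8dba0ea8950.shift 1 0), (rhb1a251d9bff81766.shift 3 2)] (by decide +kernel))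
noncomputable def rhb513563d96c144cf : CRef := CRef.mk (Pat.mk 0x1c000000000000001000000000000000000000000000000000 0x280000003800000038000000780000001c0000007f0000007f0000001e0000003e0000003c00000028 11 7) 0 0 (step_sound _ 164 [(rhb1a251d9bff81766.shift 3 3), (rhb1d11c1aded7cb73.shift 0 2), (rhc46b61bcbcf6c641.shift 3 0), (rhf8ffff819bbdc349.shift 1 1)] (by decide +kernel))
noncomputable def rhbff62be6e9238ade : CRef := CRef.mk (Pat.mk 0x1c000000000000001000000000000000000000000000000000 0x28000000380000003800000038000000f80000001c000000ff0000007f000000360000003e0000003800000028 11 8) 0 0 (step_sound _ 164 [rh288a24945c52f827, (rh82064b552a8316fd.shift 2 3), (rhc46b61bcbcf6c641.shift 3 0)] (by decide +kernel))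
noncomputable def rh330346beed0a8ea1 : CRef := CRef.mk (Pat.mk 0x18000000000000003000000020000000000000000000000000 0x180000005c000003ff000001fe000003ff000003fc000000fc 11 10) 0 0 (step_sound _ 100 [rh08552446727a9e55, rh21a8e97c97ff1599, (rh5ff4132ef1826152.shift 2 0), (rhab71232b46ab24fb.shift 0 2), (rhb1d9a681991376a4.shift 3 0)] (by decide +kernel))
noncomputable def rhbba035682d955688 : CRef := CRef.mk (Pat.mk 0x3800000000000000300000000000000000000000000000000000000000 0x2000000038000001ff000000ff0000005e000003fe000001fe000003f800000028 11 10) 0 0 (step_sound _ 132 [(rh52b030722b817e10.shift 1 0), (rh7d7eaefe27cdd7b0.shift 4 4), (rha22b2c434a94ac1f.shift 1 3), (rhba7913251f9756ba.shift 0 2)] (by decide +kernel))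
noncomputable def rh696f70add39a1b0a : CRef := CRef.mk (Pat.mk 0x70000000000000006000000000000000000000000000000000 0x50000000700000007000000070000001e000000070000003bf000001fe000003be0000007c0000007c00000054 11 10) 0 0 (step_sound _ 165 [(rh215e11e099257d75.shift 5 3), (rh58813fc22ac00b8a.shift 2 0), (rh8da800ba2dfc5467.shift 2 2), rhab97f66a0bf09b10] (by decide +kernel))
noncomputable def rh0b2f481c8810568a : CRef := CRef.mk (Pat.mk 0x38000000000000003000000000 0x5000000070000000700000007f000003ff000001ff000001f700000038000000300000003000000010 11 10) 0 0 (step_sound _ 133 [(rh00d6a6e3c7e3bb40.shift 4 0), rh726c8b96f75457cb, (rh75d356368853a2f4.shift 0 1), (rhecb97fed8c7f1286.shift 4 0)] (by decide +kernel))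
noncomputable def rhd365d685c29c72ea : CRef := CRef.mk (Pat.mk 0x1c000000000000001000000000000000000000000000000000 0x28000000380000003800000038000000f00000001c000001ff000000ff000001fe0000003f0000003800000028 11 9) 0 0 (step_sound _ 164 [rh288a24945c52f827, (rh5b00b7576ab0ca1f.shift 0 1), (rh64cd1b8a73ec7084.shift 1 3), rh94a06ce0ffcca136, (rha514f8dba0ea8950.shift 1 1), (rhb1d11c1aded7cb73.shift 0 2), (rhe3b2d087b39027eb.shift 1 1)] (by decide +kernel))
noncomputable def rh4cc4bdd86867ab77 : CRef := CRef.mk (Pat.mk 0x3000000000000001e00000000 0x28000000380000003c0000001e000000130000003b0000001e0000000c 11 6) 0 0 (step_sound _ 65 [(rh3244c3cc8379b070.shift 0 1), rh466bcf7c3eeeaf23] (by decide +kernel))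
noncomputable def rhbfd7769832fb2b0b : CRef := CRef.mk (Pat.mk 0xc00000003000000000000000000000000 0x400000007000000070000007fc000003fe000007fb000000700000007000000050 11 11) 0 0 (step_sound _ 132 [(rhc0ecd7996045652c.shift 2 0), (rhca9569cc80abfe76.shift 0 3)] (by decide +kernel))
noncomputable def rheb23858b6133e0b6 : CRef := CRef.mk (Pat.mk 0x4000000000000003c00000000000000000000000000000000 0x4000000240000007e0000007e000000380000001f0000001c 11 7) 0 0 (step_sound _ 98 [rh05c95b9827e03232, (rheb0810cc63b001d8.shift 1 3)] (by decide +kernel))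
noncomputable def rh115b873ee6627241 : CRef := CRef.mk (Pat.mk 0x1c00000000000000000000000000000000 0xc0000003e7000001ff000003fc000001e0000001e000000040 11 10) 0 0 (step_sound _ 133 [(rh0d378fd9e8917c5a.shift 0 3), (rh15fe1dc05343eb00.shift 2 0), (rh19e30118a9aaba14.shift 1 3), (rh3fc3a7fb6866dcd4.shift 2 3), (rhe55b0dbbf3210617.shift 0 3)] (by decide +kernel))
noncomputable def rh3bd8f8dfd61d4ebe : CRef := CRef.mk (Pat.mk 0x2000000000000000e0000000000000000000000000000000000000000 0x62000001f3000000fe000001ff000000fc000000f80000003800000020 11 9) 0 0 (step_sound _ 164 [(rh15fe1dc05343eb00.shift 1 1), (rh3b00e9e9432b8f40.shift 0 4), (rh3fc3a7fb6866dcd4.shift 1 4), (rh65601db2936d33af.shift 0 3), rh96508bc538d9b00b] (by decide +kernel))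
noncomputable def rhc35419bfa9a392bc : CRef := CRef.mk (Pat.mk 0x100000001e000000100000000000000000000000000000000000000000 0x280000003c0000003e0000001c0000001e0000001f000000320000003f0000003b0000003900000028 11 6) 0 0 (step_sound _ 161 [rh392a4c9400b5f532, (rheb0810cc63b001d8.shift 0 5)] (by decide +kernel))
noncomputable def rhdd792f8deb1f268c : CRef := CRef.mk (Pat.mk 0x1e00000010000000000000000000000000 0x280000003c0000003c0000003c0000001e0000001f0000001f0000000200000002 11 6) 0 0 (step_sound _ 164 [(rh33e738c4ed385b9f.shift 1 4), rhe8cfa6ccac24dcd4] (by decide +kernel))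
noncomputable def rhdc612cfc613942e9 : CRef := CRef.mk (Pat.mk 0x100000001e000000100000000000000000 0x28000001fe000000fc000001dc0000001e0000001f0000000a00000002 11 9) 0 0 (step_sound _ 65 [(rhe4f81265b8d9c77d.shift 1 0), (rheb0810cc63b001d8.shift 0 2)] (by decide +kernel))
noncomputable def rh1508362ecb14c35c : CRef := CRef.mk (Pat.mk 0x38000000200000000000000000000000000000000000000000 0x5000000070000000780000006800000038000001ff000001fe000001ff0000007e0000007000000050 11 9) 0 0 (step_sound _ 133 [(rh29acd19c91e50426.shift 2 0), (rh29c7f09abebff0dd.shift 1 0), (rh6802be5813006fd7.shift 1 2), (rh91f1fa2aa9b3d59c.shift 1 1), (rh95b45245f8c4f3cb.shift 2 0), (rhdc0970333a4ee8d1.shift 0 3), (rhef8b2808b3e7db63.shift 2 0)] (by decide +kernel))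
noncomputable def rhb405fdade46b3c5a : CRef := CRef.mk (Pat.mk 0x200000003c0000002200000020000000000000000000000000 0x230000003e00000023000000370000007f0000007500000040 11 7) 0 0 (step_sound _ 68 [rh6aeb0c5aaad6aab2, (rh79877ebd3ef475dd.shift 4 2)] (by decide +kernel))
noncomputable def rh0a6e5d2ca6062bbd : CRef := CRef.mk (Pat.mk 0x10000000d00000000000000000000000000000000000000000 0x28000000380000003f0000003e0000007f000000be000000d8000000dc000000f8000000f80000003800000008 11 8) 0 0 (step_sound _ 132 [(rh20d373c27a2bd3bd.shift 3 0), (rh331f9544ec9699d1.shift 3 2), (rh3a3768b6a78879cf.shift 2 0), (rhaf7955adbc1f7ff4.shift 3 1), rhc18821b5148ee6bb, (rhca073b25fa7f71ec.shift 3 1), (rhcefad22a75b02b0e.shift 0 3), (rhd82e81b6790a3a74.shift 2 2)] (by decide +kernel))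
noncomputable def rh40be6f23a729cbdd : CRef := CRef.mk (Pat.mk 0x42000000580000004000000040000000000000000000000000 0x28000000b8000000ff000000fe000000770000005800000058000000f8000000b80000003800000008 11 8) 0 0 (step_sound _ 229 [rhaa9565b62b1c4431, (rhffd04209dc8ea796.shift 5 3)] (by decide +kernel))
noncomputable def rhca1c4134b84dc6e5 : CRef := CRef.mk (Pat.mk 0x60000000c00000004000000000000000000000000 0x12000000160000003c0000007f0000007f0000007c0000003c 11 7) 0 0 (step_sound _ 132 [rh501ef582c471162c, (rhf48373e13d2bc128.shift 1 4)] (by decide +kernel))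
noncomputable def rh8cdd0a5b328cf224 : CRef := CRef.mk (Pat.mk 0x700000004000000000000000000000000000000000 0xe0000000e0000003e0000001f70000007e0000005f000000f8000000fc000000e0000000a0 11 10) 0 0 (step_sound _ 198 [(rha092f041706d96bb.shift 4 0), (rhb5b51bf4baf51a55.shift 2 2), (rhdda18f14314c6e63.shift 0 4), (rhf0104ee410e7a142.shift 3 1)] (by decide +kernel))
noncomputable def rha9662256125c1e46 : CRef := CRef.mk (Pat.mk 0x1e0000001800000000000000000000000000000000 0x80000000c0000005e000000df000000fe000000fc0000003c00000028 11 8) 0 0 (step_sound _ 129 [(rh1d377e1378edf1ee.shift 1 0), (rheb0810cc63b001d8.shift 0 4)] (by decide +kernel))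
noncomputable def rhf06844cea79d5a1b : CRef := CRef.mk (Pat.mk 0x1e0000001800000000000000000000000000000000 0x80000000c0000005e000000df000000fc000000fe0000003c00000028 11 8) 0 0 (step_sound _ 129 [(rh879b344a521d3a6e.shift 1 0), (rheb0810cc63b001d8.shift 0 4)] (by decide +kernel))
noncomputable def rh80d9feb50c6281ac : CRef := CRef.mk (Pat.mk 0x1e0000001a00000000000000000000000000000000 0x400000004000000040000001e0000001e000001ff000000ff000001ff00000005 11 9) 0 0 (step_sound _ 99 [(rh40241bd608e5be1a.shift 2 1), (rh50ebe921f62fdd5b.shift 1 1), rh9e89289cda76e9bc] (by decide +kernel))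
noncomputable def rh50d93253920fc8c3 : CRef := CRef.mk (Pat.mk 0x1c000000100000000000000000000000000000000000000000 0xc0000000c0000000c0000001c0000007f000001ff000000ff000001fe0000007c00000014 11 9) 0 0 (step_sound _ 163 [(rh198b6a36bbe1d5da.shift 0 2), rh2589220a6e0f6ec8, (rh3482853f8f968b55.shift 0 2), (rh39cf8f5cf7454cde.shift 0 2), (rh676080c78b26eeca.shift 1 1), (rh9be70fe1e0b2e78e.shift 0 2), rhd46afc3cf5c241af, (rhf84e7988c48b12f8.shift 1 1)] (by decide +kernel))
noncomputable def rh419642fb1d957782 : CRef := CRef.mk (Pat.mk 0x1c000000100000001000000000 0x2000000030000000f40000001c000003fe000001fe000003ef 11 10) 0 0 (step_sound _ 132 [(rh20966da26a1c2ae8.shift 3 0), rh35f07104cbd8c339, (rh45a544b226141825.shift 1 0), (rhced6d86d2069808b.shift 4 0)] (by decide +kernel))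
noncomputable def rhf9b3633ff0f8b115 : CRef := CRef.mk (Pat.mk 0x1c00000010000000100000000000000000 0x20000000fc0000001c000003fe000001fe000003ef00000024 11 10) 0 0 (step_sound _ 164 [(rh1eeec04e73117746.shift 2 2), (rh35f07104cbd8c339.shift 0 1), (rhf36903c41873b9b5.shift 1 0)] (by decide +kernel))
noncomputable def rha166954c66248018 : CRef := CRef.mk (Pat.mk 0x38000000000000002000000000000000000000000000000000 0x10000000180000001800000038000001ff000001fe000001ff0000007e0000007400000050 11 9) 0 0 (step_sound _ 165 [(rh1d9bd194482dcbcf.shift 1 0), (rh56259dd1390eee46.shift 4 1), (rhf2ba1acd08924baa.shift 0 1), (rhf9a6286f1d5377a2.shift 4 3)] (by decide +kernel))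
noncomputable def rh1b941909176680ad : CRef := CRef.mk (Pat.mk 0x1c000000100000001000000000 0x1800000038000000fc0000001c000003de000001fe000003ef 11 10) 0 0 (step_sound _ 132 [(rh1eeec04e73117746.shift 2 1), rh35f07104cbd8c339, (rh79bf920132cab629.shift 3 1)] (by decide +kernel))
noncomputable def rhd8b55d9859b44213 : CRef := CRef.mk (Pat.mk 0x38000000000000002000000000000000000000000000000000 0x5000000070000000780000006800000038000001ff000001fe000001ff0000007e0000007000000050 11 9) 0 0 (step_sound _ 165 [(rh29acd19c91e50426.shift 2 0), (rh29c7f09abebff0dd.shift 1 0), (rh6802be5813006fd7.shift 1 2), (rh91f1fa2aa9b3d59c.shift 1 1), (rh95b45245f8c4f3cb.shift 2 0), (rhdc0970333a4ee8d1.shift 0 3), (rhef8b2808b3e7db63.shift 2 0)] (by decide +kernel))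
noncomputable def rhd272f19b2cc2ef9e : CRef := CRef.mk (Pat.mk 0x100000000000000070000000000000000000000000 0x2800000038000000b80000009000001fd700000ffe00001fe70000004000000040 11 13) 0 0 (step_sound _ 135 [(rh834ef1c974e4840e.shift 3 0), (rh856d1b7eb2ef2fa4.shift 3 2), (rh8d48f12d8f37bf73.shift 0 2), (rhcf4c94282153829f.shift 4 0)] (by decide +kernel))
noncomputable def rh5db2fb6b1b085bf6 : CRef := CRef.mk (Pat.mk 0x80000000000000030000000100000000000000000000000000000000000000000 0x8000000cc000001ff000001fe000003ff000000fe000000ee0000000e00000008 11 10) 0 0 (step_sound _ 163 [(rh03989166a49e3279.shift 2 2), (rh181e39c244b72564.shift 0 2), (rh4ae1ed63dfe3a398.shift 1 0), (rh6b917285a360d28f.shift 1 4), (rhd69c262cd33b94b3.shift 1 5)] (by decide +kernel))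
noncomputable def rh1f4461169699bddd : CRef := CRef.mk (Pat.mk 0x1000000010000000400000006000000020 0x1c0000003c000007ff000003fe000007de000000400000006000000020 11 11) 0 0 (step_sound _ 134 [(rh3a55ea830922e418.shift 0 3), (rhee230b994cc8b773.shift 5 0)] (by decide +kernel))
noncomputable def rh168eed58f54b8e14 : CRef := CRef.mk (Pat.mk 0x180000001c 0x3e0000003e000000370000001f0000003f 11 6) 0 0 (step_sound _ 1 [rh53b3c253cb0c65f4, rha7ad2ca92ad837ca] (by decide +kernel))
noncomputable def rha36d244176650b75 : CRef := CRef.mk (Pat.mk 0x20000000300000000000000030 0x7c000000fc000007ff000003fe000007be0000003000000030 11 11) 0 0 (step_sound _ 100 [(rh278d046278528ed5.shift 4 0), (rh3fc518ddb23c627f.shift 0 2), (rh7e75b96614d0a576.shift 2 0), (rh8d5f02be317e83e7.shift 1 0), (rhbb9f1ef96c38deb0.shift 3 0)] (by decide +kernel))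
noncomputable def rh6dae128a2277e056 : CRef := CRef.mk (Pat.mk 0x40000000300000001400000000000000000000000000000000 0x20000000380000003f0000003e00000077000000340000001e0000007f0000007f0000003a0000002a 11 7) 0 0 (step_sound _ 131 [(rh53b3c253cb0c65f4.shift 1 4), rh880dc79d55649aee] (by decide +kernel))
noncomputable def rh971fd3aaf2005346 : CRef := CRef.mk (Pat.mk 0x10000000000000003000000038 0x80000009e000001de000001df000003ff000001fe000003ef000000b800000038 11 10) 0 0 (step_sound _ 101 [rh2b48935e0a4e3312, (rh347cc5eb7f664f7a.shift 2 0), (rh4c61a8d65f05c464.shift 4 0), (rhe6cbd62170d7072b.shift 2 0)] (by decide +kernel))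
noncomputable def rhb43e98b6b4ad154f : CRef := CRef.mk (Pat.mk 0x8000000090000000900000008000000000000000000000000000000000 0x80000009800000098000000d8000001ff0000017e0000003f0000003800000028 11 9) 0 0 (step_sound _ 132 [(rh3ae0eea17cd22d4e.shift 2 3), (rh59071b9e192e4f48.shift 3 1), (rh62395aebb6e654b0.shift 1 0), (rh6fac5d0f2197d8da.shift 0 2), (rhd2170296de3090c7.shift 3 3), (rhe95a2e51b0ee5fdb.shift 3 1)] (by decide +kernel))
noncomputable def rhd5e11b898cef5ff9 : CRef := CRef.mk (Pat.mk 0x22000000020000001a000000120000000000000000 0x40000001e0000007f0000001b0000001a0000001b0000000f00000005 11 7) 0 0 (step_sound _ 194 [(rhbaefcd01e0a8bca3.shift 1 2), rhcbf92cc2cc5b552a] (by decide +kernel))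
noncomputable def rhdf07bfac3d4ba63e : CRef := CRef.mk (Pat.mk 0x220000003a000000120000000000000000 0x5000000070000003f0000003f0000003a0000003b0000001b0000000f00000005 11 6) 0 0 (step_sound _ 161 [(rh1741680720c097b4.shift 0 2), (rh193da7fc9e1674f1.shift 0 1), rh1a734044ab00d7be, (rh3b734c5288922837.shift 0 1), (rh771d065bdc85bf2d.shift 0 1)] (by decide +kernel))
noncomputable def rhf16a50770044833c : CRef := CRef.mk (Pat.mk 0x20000000020000001a0000001200000000000000000000000000000000 0x1000000070000001f0000007e0000001b0000001b0000001300000007000000070000000700000001 11 7) 0 0 (step_sound _ 97 [(rh8cdd36b03d57a2f6.shift 0 1), (rhe6f55cd455b0acdd.shift 0 2), rhe84e00c98653ad0c, (rhf517b930ee0bd92d.shift 0 1)] (by decide +kernel))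
noncomputable def rh6d19e407fc243c07 : CRef := CRef.mk (Pat.mk 0x2000000080000000e8000000480000004000000000000000000000000000000000 0x40000001c0000009c000000bc000000ac000000ec0000006c000000ff0000003f0000001f0000001c0000001c 11 8) 0 0 (step_sound _ 131 [(rh2dd41b998c5485fc.shift 2 0), (rh3fcc71b5c700255f.shift 2 0), (rh753aa2775ceafc40.shift 1 1), (rh7cf77bd26e4d39cf.shift 2 1), (rh7eaef58a902411ae.shift 2 3), (rhc72aca1629e66c02.shift 0 1), rhf60ba85d43d207d5] (by decide +kernel))
noncomputable def rhdd03417a643f9232 : CRef := CRef.mk (Pat.mk 0x1000000010000000400000006000000020 0x1c0000003c000003ff000001fe000003df000000400000006000000020 11 10) 0 0 (step_sound _ 134 [(rhee230b994cc8b773.shift 5 0), (rhf80f1e5c8c8f2ad1.shift 0 3)] (by decide +kernel))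
noncomputable def rha56d34e202d37108 : CRef := CRef.mk (Pat.mk 0x38000000020000000000000000000000000 0x18000003de000000fc000000fe0000001f0000001c 11 10) 0 0 (step_sound _ 102 [rhbc9997d46549d74b, (rhca9569cc80abfe76.shift 5 3)] (by decide +kernel))
noncomputable def rheaa0f4668048eae4 : CRef := CRef.mk (Pat.mk 0x3c0000002000000000000000180000000000000000 0x640000003e00000027000001e3000000fe000001ff00000040 11 9) 0 0 (step_sound _ 69 [(rh0ed4768e422efdec.shift 1 1), (rh1199a7e8b12afa67.shift 1 1), (rh59199e7aa8f0e169.shift 1 0), (rh6a2909ef21f12ccd.shift 2 1), (rha0f3417ccc3999b9.shift 0 1), (rhaf116c0614ce4772.shift 1 1)] (by decide +kernel))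
noncomputable def rh4a77588d74354765 : CRef := CRef.mk (Pat.mk 0x10000000000000000c00000018000000000000000000000000 0x10000000700000003f0000001f0000003f0000000f00000007 11 7) 0 0 (step_sound _ 129 [(rhb739f4f82bb681b4.shift 0 3), rhce38425d4e2829b9] (by decide +kernel))
noncomputable def rh185d60e52c292ba9 : CRef := CRef.mk (Pat.mk 0xa0000000a00000000000000000 0x500000005000000eff000007fe00000ebf000000a0000000a0 11 12) 0 0 (step_sound _ 102 [(rh09e3b3c49517183d.shift 4 2), (rh2820ca9a6c4f41b4.shift 2 2), rh47a45f5fe0ea34a3, (rh480231ab31e80384.shift 4 1)] (by decide +kernel))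
noncomputable def rh50ed14f29fa25040 : CRef := CRef.mk (Pat.mk 0x280000002800000000000000000000000000000000 0x10000000700000007000000070000001f80000007e0000002f00000078000000780000007000000050 11 9) 0 0 (step_sound _ 164 [(rh2820ca9a6c4f41b4.shift 0 4), (rh53d09f8f3c219c98.shift 1 0), (rhd8b43b15431aaa50.shift 2 2), (rheebae8db1e5275f8.shift 2 2)] (by decide +kernel))
noncomputable def rh7ce41ffcd758e4f3 : CRef := CRef.mk (Pat.mk 0x3800000028000000000000001000000000 0x4000000040000000c000000ef0000007c00000028000001e8000000fc000001fe 11 9) 0 0 (step_sound _ 162 [(rh4df35fbc131eb4ae.shift 0 4), (rha0c0e9a3a194db35.shift 0 2), (rha2be28babbf1930c.shift 1 0), (rhf8482072d8419c4f.shift 2 2)] (by decide +kernel))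
noncomputable def rha41e290585b5a2e7 : CRef := CRef.mk (Pat.mk 0x2800000028000000000000001000000000000000000000000000000000000000000000000000000000 0x80000002800000028000001f8000000fc000001ff000000ff000000ff0000003f000000380000003800000028 11 9) 0 0 (step_sound _ 196 [(rh282c644e8a56a33f.shift 1 6), (rh6b9b940c4dacb3ee.shift 3 5), rh86e4635f71e0311f, rh984333f8db26a9cb] (by decide +kernel))
noncomputable def rh2abb6842dce7ff31 : CRef := CRef.mk (Pat.mk 0x800000008000000080000001000000000000000000000000000000000000000000000000000000000 0x800000008000000180000003800000038000000ff000000fe0000003f000000380000003800000028 11 8) 0 0 (step_sound _ 196 [rh01f6d66665498dec, (rhbe0e43a3bc50a43f.shift 3 6)] (by decide +kernel))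
noncomputable def rhe1245885b6e61581 : CRef := CRef.mk (Pat.mk 0x2000000020000000200000001000000000000000000000000000000000000000000000000000000000 0x2000000020000000300000003800000038000000ff000000fe0000003f000000380000003000000020 11 8) 0 0 (step_sound _ 196 [rh2dbc64f0640ec064, (rheea67dfebd0f8008.shift 4 6)] (by decide +kernel))
noncomputable def rh471a8865ff595561 : CRef := CRef.mk (Pat.mk 0x280000002800000000000000000000000000000000 0x10000000700000007e000001fe000001f60000007e0000002f00000078000000780000007000000050 11 9) 0 0 (step_sound _ 164 [(rh2820ca9a6c4f41b4.shift 0 4), (rh53d09f8f3c219c98.shift 1 0), (rh9b23085674443771.shift 1 0), (rhd8b43b15431aaa50.shift 2 2)] (by decide +kernel))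
noncomputable def rhf65b8baf4c258380 : CRef := CRef.mk (Pat.mk 0x1c000000080 0x5000000070000003f0000001f0000003ff000001fe000000ff 11 10) 0 0 (step_sound _ 37 [(rh0eae33882592b77b.shift 4 0), (rh4c622fddc53a5f99.shift 3 1), (rh9fdbaef37aa8be4a.shift 1 0), rha1f0678f77f4164b] (by decide +kernel))
noncomputable def rh6546e41d33440a85 : CRef := CRef.mk (Pat.mk 0x6000000140000001400000000000000000 0xb8000000b800000fff000007fe00000f7f0000015c0000011c00000014 11 12) 0 0 (step_sound _ 165 [rh16021e06828da2d4, (rhc89253ff58c66167.shift 5 2), (rhe072fffdd2fccf38.shift 5 2)] (by decide +kernel))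
noncomputable def rh583c528bca1f116b : CRef := CRef.mk (Pat.mk 0x4000000140000000400000004000000000 0x18000000180000003f000000fe000001ff0000005c000000dc00000094 11 9) 0 0 (step_sound _ 133 [(rh50fbb5868c909700.shift 5 1), rh8803862c010976ab] (by decide +kernel))
noncomputable def rh063d562a781e113c : CRef := CRef.mk (Pat.mk 0x18000000000000001000000010 0x140000001f0000003f0000003f0000001c0000001c0000001c00000010 11 6) 0 0 (step_sound _ 131 [(rh2613c889e411427e.shift 3 0), rha2219a5852b9dcdd] (by decide +kernel))
noncomputable def rh4bbe2dd9ddc3e248 : CRef := CRef.mk (Pat.mk 0x30000000400000005000000050000000400000008000000000 0x140000001c0000001c0000001c000001dc000000fc0000005f0000005c0000005800000050000000d000000080 11 9) 0 0 (step_sound _ 38 [(rh55afc6a59410cf00.shift 6 0), (rhfd5a0a4edb543b6b.shift 0 1)] (by decide +kernel))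
noncomputable def rh38e981c4be77e5b9 : CRef := CRef.mk (Pat.mk 0x80000000a0000000a000000000000000000000000 0x140000001f0000001b0000001b0000000b0000001e0000001f00000014 11 5) 0 0 (step_sound _ 67 [(rh367118e0bf0473e0.shift 2 0), (rh4fdc6f52013f1505.shift 0 1), (rh6c59ce14113da07f.shift 3 0), (rh8cdd36b03d57a2f6.shift 2 0)] (by decide +kernel))
noncomputable def rhf287155d07985f5c : CRef := CRef.mk (Pat.mk 0x20000000280000002800000000000000000000000000000000 0x4000000140000003e0000007c0000006f0000002c000000780000007e0000005c00000014 11 7) 0 0 (step_sound _ 101 [(rh19a8b91109d77b18.shift 0 1), (rh8cdd36b03d57a2f6.shift 4 1), (rhd69d3066ba9e2dc4.shift 1 0), (rhf46dfbafcd6b1070.shift 0 1)] (by decide +kernel))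
noncomputable def rhcee615d3493d89bf : CRef := CRef.mk (Pat.mk 0x28000000280000000800000000 0x140000001c0000001c0000001c0000039f000001fc000003af0000007800000030 11 10) 0 0 (step_sound _ 131 [(rh1741680720c097b4.shift 2 1), rh5e34b90da737a2ee, (rh7430a052bcb4bacd.shift 0 1), (rhb7a56f3b94ab4eb9.shift 0 1), (rhc1fec1a57e249d27.shift 2 1)] (by decide +kernel))
noncomputable def rhd32c50dd4e5e7974 : CRef := CRef.mk (Pat.mk 0x20000001a0000000a00000002000000040000000000000000 0x40000001f00000017000000130000001a0000000a0000000a0000001f0000000700000001 11 5) 0 0 (step_sound _ 65 [(rh55afc6a59410cf00.shift 1 1), rh609661b4decca647] (by decide +kernel))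
noncomputable def rhe9b32ae5fe10c204 : CRef := CRef.mk (Pat.mk 0x2000000020000000a000000020000000000000000000000000 0x1e0000003e0000003e000000ff0000003e0000001f0000000800000008 11 8) 0 0 (step_sound _ 100 [rh8e935d472878a1ec, (rh932754581e0f4330.shift 4 2)] (by decide +kernel))
noncomputable def rh20dc29de5ba83ef9 : CRef := CRef.mk (Pat.mk 0x70000000000000002000000028000000280000002000000000 0x38000000380000007f7000003fe000007ce000001a80000002c0000002c0000006400000040 11 11) 0 0 (step_sound _ 199 [(rh0fa42e2ef604ff06.shift 2 1), (rh3fc3a7fb6866dcd4.shift 4 5), (rh533df5c46f4783d4.shift 4 5), (rh9807377e128dab9d.shift 4 0), (rha7257c5fe7487efa.shift 0 5)] (by decide +kernel))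
noncomputable def rh1f7f023ef2380afc : CRef := CRef.mk (Pat.mk 0x2000000028000000280000003000000000 0x140000001c0000001c0000038f000003fc000007ef0000002c0000007c00000040 11 11) 0 0 (step_sound _ 38 [(rh21ed75f35d05e163.shift 0 1), (rh55afc6a59410cf00.shift 5 0)] (by decide +kernel))
noncomputable def rh506ac2614fc84acb : CRef := CRef.mk (Pat.mk 0x28000000280000002000000000 0x28000000380000003c000000fe4000007fc00000ffc000001af000001f80000005c 11 12) 0 0 (step_sound _ 133 [(rh0363d47a46978688.shift 2 1), rh16fb77bd2911dcdf, (rh447ac240b95e4617.shift 3 1), (rh44d819a529f1e8a0.shift 2 0), (rhb034511df68c2fcf.shift 2 1)] (by decide +kernel))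
noncomputable def rh35028d00038b5481 : CRef := CRef.mk (Pat.mk 0x8000000280000002800000008000000000000000000000000 0x40000003f0000007c000000280000007c000001f8000000600000004000000040 11 9) 0 0 (step_sound _ 226 [rh2c39ad5224ea3032, (rhffd04209dc8ea796.shift 2 3)] (by decide +kernel))
noncomputable def rhab94580b748c7a26 : CRef := CRef.mk (Pat.mk 0x1800000010000000500000005000000000 0xa0000000e0000000e00000006000000fe000000ff0000005f0000005000000050 11 8) 0 0 (step_sound _ 99 [rh5d87272bacbf7dbb, (rh7b1f1fb55310c477.shift 3 0)] (by decide +kernel))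
noncomputable def rhfc89d6d18ac1ed0f : CRef := CRef.mk (Pat.mk 0x3000000020000000a0000000a0000000a0000000000000000 0xc0000000d3000000fe000000fa000000ea0000003f0000001900000010 11 8) 0 0 (step_sound _ 64 [(rh932754581e0f4330.shift 0 1), rhe2189dcdfddcb2d1] (by decide +kernel))
noncomputable def rh14c4335c03ecb6d3 : CRef := CRef.mk (Pat.mk 0x8000000080000002c00000028000000000000000000000000 0x100000007c0000004f0000007c0000007c0000002c00000078000000600000004000000040 11 7) 0 0 (step_sound _ 226 [rhac540468aa89905e, (rhffd04209dc8ea796.shift 2 3)] (by decide +kernel))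
noncomputable def rh626e05bf5de45a7b : CRef := CRef.mk (Pat.mk 0x200000003000000030000000a00000000000000000 0xa0000000e0000001f0000007e0000003e0000003e000001ee0000000e0000000a 11 9) 0 0 (step_sound _ 164 [(rh50fbb5868c909700.shift 4 2), rhfc1af852580fe1cb] (by decide +kernel))
noncomputable def rh3f873d66945197af : CRef := CRef.mk (Pat.mk 0x10000000100000001800000050 0x1c0000001e0000007f0000007f0000001e000000f0 11 8) 0 0 (step_sound _ 131 [rh4e0fe334b2f480a9, (rhffd04209dc8ea796.shift 3 0)] (by decide +kernel))
noncomputable def rhc5184e848fb97d97 : CRef := CRef.mk (Pat.mk 0x300000003000000020000000a00000000000000000 0xa0000002e0000002f0000007e0000003e0000003e000001fe0000000e0000000e 11 9) 0 0 (step_sound _ 100 [(rh2e56d16230636d71.shift 1 0), (rh503dd4575245365b.shift 4 2), (rh8c25cb665ab79ec0.shift 2 2), rhfc1af852580fe1cb] (by decide +kernel))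
noncomputable def rha9d34f2bdf482a27 : CRef := CRef.mk (Pat.mk 0x60000000400000014000000100000000000000000000000000 0x180000021800001f1f00001ffe00003fff0000017c0000019c000003940000038000000280 11 14) 0 0 (step_sound _ 196 [(rh3918eeb6c53434d8.shift 1 5), (rh4a0330821bc45ec1.shift 0 2), (rh7226006b43d922d9.shift 3 0), (rh8ee80cc30e93a344.shift 3 5)] (by decide +kernel))
noncomputable def rh31cdbcbe91155d91 : CRef := CRef.mk (Pat.mk 0x20000000a0000000a0000001a00000000 0x1b0000001e0000000b000001fb000000fe000000e3 11 9) 0 0 (step_sound _ 34 [(rh3244c3cc8379b070.shift 0 1), rh3706313137cb9351] (by decide +kernel))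
noncomputable def rhc898514f55260c5a : CRef := CRef.mk (Pat.mk 0x8000000280000002800000000000000000000000000000000 0x20000000280000002c000001fc000000ff0000007c0000005c00000004 11 9) 0 0 (step_sound _ 99 [(rh6eff4158bb400f47.shift 2 1), (rh7fac2c8e2d88798e.shift 2 1), (rhc8fd50c44a2112a0.shift 0 2), (rhe2d5d430f2eaeab7.shift 2 0)] (by decide +kernel))
noncomputable def rh7653773348b00d7d : CRef := CRef.mk (Pat.mk 0x20000000a0000000a0000000000000000000000000 0x100000003a000000be000000ae000000bf000001fe000003bf0000011c00000118 11 10) 0 0 (step_sound _ 102 [(rh2b0ca75d642a5639.shift 3 1), (rh53a9eca71b4a4b8f.shift 4 0), (rha9fbfd4bb8cf890b.shift 2 3), rhc31081148da403cc] (by decide +kernel))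
noncomputable def rhc7b837258fbebebb : CRef := CRef.mk (Pat.mk 0x400000007000000050000000400000000000000000 0x18000000180000007f0000007e0000005f000000ec000000ac0000000c 11 8) 0 0 (step_sound _ 71 [(rh55afc6a59410cf00.shift 6 1), rhf72e794c6d2123d7] (by decide +kernel))
noncomputable def rh838eef74c2246eae : CRef := CRef.mk (Pat.mk 0x2800000028000000200000002000000000 0x4e0000007c0000002c0000006f0000003e00000017 11 7) 0 0 (step_sound _ 134 [(rh2f68792b6b779e96.shift 5 1), rh606a077064ec8983] (by decide +kernel))
noncomputable def rhbcd3cbcdb43b59bb : CRef := CRef.mk (Pat.mk 0x20000000140000001400000010000000180000000000000000 0x20000000e0000000e0000000e000000270000003e0000001600000016000000370000001e0000000300000002 11 6) 0 0 (step_sound _ 196 [(rh2f68792b6b779e96.shift 4 3), rhf71290cdca47bb72] (by decide +kernel))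
noncomputable def rh39d5321b07baa302 : CRef := CRef.mk (Pat.mk 0xa0000000a00000008000000080000000000000000000000000 0x3000000030000001fe000000fe000000bf000000b8000000f8000001f8000001c000000140 11 9) 0 0 (step_sound _ 71 [(rh7928877f9bf74a91.shift 6 1), (rh8cdd36b03d57a2f6.shift 6 0), (rhfd9ad8845faa4749.shift 0 1)] (by decide +kernel))
noncomputable def rhb1a5f41182847451 : CRef := CRef.mk (Pat.mk 0xa0000000a0000000800000008000000000 0x3000000030000001fe000000fe000000bf000001b8000001f800000038 11 9) 0 0 (step_sound _ 134 [rh392ef6bd1388ece2, (rh50fbb5868c909700.shift 6 1)] (by decide +kernel))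
noncomputable def rhcaac1058ec80d2f0 : CRef := CRef.mk (Pat.mk 0x100000001400000014000000100000000000000000000000000000000000000000 0x20000000e0000000e0000000e000001e7000001fe000003f700000016000000160000000e0000000e0000000e0000000e00000002 11 10) 0 0 (step_sound _ 261 [(rh2f68792b6b779e96.shift 4 5), rhafc330fa94b625c0] (by decide +kernel))
noncomputable def rh34fb85d9428bf1e2 : CRef := CRef.mk (Pat.mk 0x1800000018000000100000000000000000 0x170000001f0000001b0000001f0000001f0000001c 11 5) 0 0 (step_sound _ 36 [rh4ff01b819e804d23, (rh7b1f1fb55310c477.shift 3 0)] (by decide +kernel))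
noncomputable def rh7738edea0a80831f : CRef := CRef.mk (Pat.mk 0x700000008000000000000000000000000 0x60000001ef000000fc000001fc000000e0000000e0 11 9) 0 0 (step_sound _ 100 [(rh579b5e7b6de617a8.shift 1 0), (rhd6e447e81774439e.shift 0 3)] (by decide +kernel))
noncomputable def rhccf2888c25c7bb38 : CRef := CRef.mk (Pat.mk 0x2000000020000000a0000000a000000100000000000000000000000000000000000000000 0x700000003e0000007f0000000a0000003b0000003b0000003900000010000000180000001800000008 11 7) 0 0 (step_sound _ 160 [rh1abf0c62171971e1, (rh79877ebd3ef475dd.shift 0 5)] (by decide +kernel))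
noncomputable def rha2eb543c9d6fcc7d : CRef := CRef.mk (Pat.mk 0x2000000020000000a0000000a000000100000000000000000 0x700000003e0000007f0000000a0000001f000000130000001100000010 11 7) 0 0 (step_sound _ 64 [(rh79877ebd3ef475dd.shift 0 2), rhb2922a825c141f9f] (by decide +kernel))
noncomputable def rh51dac7940c952d38 : CRef := CRef.mk (Pat.mk 0x2000000060000000c000000000000000000000000 0x30000000320000003e0000003e0000003f0000001f0000003f 11 6) 0 0 (step_sound _ 100 [rhf41b6a577c1f3b29, (rhf48373e13d2bc128.shift 1 3)] (by decide +kernel))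
noncomputable def rh296b31ad3f3e7c93 : CRef := CRef.mk (Pat.mk 0x400000002000000020000001a000000300000000000000000 0x4000000c6000000c2000000fa000000fb000000ef00000025 11 8) 0 0 (step_sound _ 65 [rh1dd4fde481bdd1db, (rhbaefcd01e0a8bca3.shift 1 2)] (by decide +kernel))
noncomputable def rhe6712df4be16eae5 : CRef := CRef.mk (Pat.mk 0x300000006000000080000000a000000000000000000000000 0xf000000de000000c8000000fe000000f8000000f000000020 11 8) 0 0 (step_sound _ 163 [(rh6ae02b164d671836.shift 1 0), (rhf48373e13d2bc128.shift 0 5)] (by decide +kernel))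
noncomputable def rh76b5394cbcca34fd : CRef := CRef.mk (Pat.mk 0x10000000100000005000000050000000000000000000000000 0x100000001b0000005b0000007f0000005f000000ff000000d40000008000000080 11 8) 0 0 (step_sound _ 195 [(rh50fbb5868c909700.shift 3 3), rh75ccc833f6e37610] (by decide +kernel))
noncomputable def rh66ebb3e1a2f3d81f : CRef := CRef.mk (Pat.mk 0x3000000030000000a0000000a0000000000000000000000000 0xa0000000e0000002e00000027000000be000000ff000000be000001fe0000018e0000010600000100 11 9) 0 0 (step_sound _ 132 [(rh2e56d16230636d71.shift 1 1), (rh503dd4575245365b.shift 4 3), rh5dea37153fd55553, (rh8c25cb665ab79ec0.shift 2 3)] (by decide +kernel))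
noncomputable def rh114721a21ec866dc : CRef := CRef.mk (Pat.mk 0x200000003000000080000000000000000000000000 0x10000000300000003c000001fe0000007e0000007f00000050 11 9) 0 0 (step_sound _ 101 [rh3c2258341d967ee6, (rh8c25cb665ab79ec0.shift 2 3), (rhc4d7821f25b3c7ad.shift 2 0)] (by decide +kernel))
noncomputable def rhad3364f616e417b2 : CRef := CRef.mk (Pat.mk 0x400000004000000040000000400000000000000000000000000000000000000000 0x40000007e7000003fe000007ff000000c0000000e0000000e0000000e0000000a0 11 11) 0 0 (step_sound _ 134 [rh78e696782b8570d4, (rhd29a1fb688eae70f.shift 6 3), (rhdd46fb357a4d0dd3.shift 4 2), (rhef928aea422fabf8.shift 3 2)] (by decide +kernel))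
noncomputable def rhdea8ac49a1c8f649 : CRef := CRef.mk (Pat.mk 0x400000004000000040000000400000000000000000000000000000000000000000 0x40000007e7000003fe000007ff00000060000000e0000000e0000000e0000000a0 11 11) 0 0 (step_sound _ 134 [(rh101597249a6996cb.shift 3 0), rh78e696782b8570d4, (rh7928877f9bf74a91.shift 5 3), (rh8d8bfe45b7d5275a.shift 5 1)] (by decide +kernel))
noncomputable def rhe03a360b7f4b0afa : CRef := CRef.mk (Pat.mk 0x4000000040000000400000004000000000000000000000000 0x40000007e0000003e000000770000000e0000000e0000000e 11 7) 0 0 (step_sound _ 66 [(rh7928877f9bf74a91.shift 1 1), (rh8cdd36b03d57a2f6.shift 1 0), rhdd46fb357a4d0dd3] (by decide +kernel))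
noncomputable def rh5edc84eff11dfa65 : CRef := CRef.mk (Pat.mk 0x100000005000000050000000000000000000000000 0x2800000038000000380000001c0000007f000000ff0000005f000000fe0000002c0000002c00000020 11 8) 0 0 (step_sound _ 131 [(rh0e2f91ed1c4fb12e.shift 0 1), (rh8498e7a7baf18b19.shift 3 2), (rh8c25cb665ab79ec0.shift 1 3), (rhe65e0f83558a6229.shift 1 0)] (by decide +kernel))
noncomputable def rhe589bf6613fe1559 : CRef := CRef.mk (Pat.mk 0x20000000200000002000000000000000000000000000000000 0x1000000030000000300000007f000001fe0000007f0000007000000050 11 9) 0 0 (step_sound _ 101 [(rh3c1d48e9c80e9494.shift 0 2), (rh47992774edf9829f.shift 4 0), (rh8cdd36b03d57a2f6.shift 4 1), (rh8ff3dde5b1c639e0.shift 4 1), (rhc4526fc8abf298b6.shift 4 1)] (by decide +kernel))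
noncomputable def rhd4cafaedc0181aa0 : CRef := CRef.mk (Pat.mk 0x2800000028000000200000002000000020000000000000000000000000 0x5e0000007c000000280000007f0000003e00000067000000700000007000000010 11 7) 0 0 (step_sound _ 70 [(rhd3458b32566d63f7.shift 5 2), rhe3094f8076c2f4c6] (by decide +kernel))
noncomputable def rh35aeddda23b83f23 : CRef := CRef.mk (Pat.mk 0x80000002800000020000000200000000000000000 0x44000001ff0000037c00000328000007fc000003e8000007c000000080 11 11) 0 0 (step_sound _ 165 [(rh2c718f29f451ad95.shift 2 2), (rh39f5bd8f2d7b6f19.shift 1 1), rh662357ae368565a2, (rhced6d86d2069808b.shift 5 1), (rhd7429d15a03f54e4.shift 2 1)] (by decide +kernel))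
noncomputable def rhe864e76d6eabcb1f : CRef := CRef.mk (Pat.mk 0x800000028000000200000002000000000 0x44000001ff0000007c000000280000007c000001f800000040 11 9) 0 0 (step_sound _ 133 [(rh2c718f29f451ad95.shift 2 1), (rh39f5bd8f2d7b6f19.shift 1 0), (rhced6d86d2069808b.shift 5 0), (rhd7429d15a03f54e4.shift 2 0), rhec3b04ee07c6d421] (by decide +kernel))
noncomputable def rh67e1b974d4e6e234 : CRef := CRef.mk (Pat.mk 0x1c000000020000000000000000000000000 0xc000001ef0000007e0000007f0000000e0000000e 11 9) 0 0 (step_sound _ 100 [rha52595e6c7ca9c34, (rhca9569cc80abfe76.shift 4 3)] (by decide +kernel))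
noncomputable def rhc3274f47493954c4 : CRef := CRef.mk (Pat.mk 0x20000001c000000000 0xe0000000e0000007f0000007e000001ef0000000c 11 9) 0 0 (step_sound _ 68 [(rh09d4dfe75d4407d6.shift 4 1), rh77054c4d4cd35619] (by decide +kernel))
noncomputable def rha9927c6825142fe2 : CRef := CRef.mk (Pat.mk 0xe000000080000000800000000000000000 0x60000000780000007c0000007f000000fe000000bf000000b8000000b800000028 11 8) 0 0 (step_sound _ 166 [rh7a21a23a3e1b3ab7, (rh7b1f1fb55310c477.shift 6 1)] (by decide +kernel))
noncomputable def rhba3a66fd912fce1f : CRef := CRef.mk (Pat.mk 0x1e0000005000000010000000000000000000000000 0xa0000000f8000000e8000000ff0000005f000000f8000000e0000000e0000000a0 11 8) 0 0 (step_sound _ 131 [rh76f1d833527443c9, (rhb739f4f82bb681b4.shift 0 4)] (by decide +kernel))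
noncomputable def rhfefd4e90955fd925 : CRef := CRef.mk (Pat.mk 0xe00000014000000040000000000000000 0x8000000380000003800000038000000380000003e000000170000003e0000003800000020 11 6) 0 0 (step_sound _ 132 [(rh37503d0bd5fa51fe.shift 1 0), (rhaf9f2efc81a8312b.shift 0 3)] (by decide +kernel))
noncomputable def rh58a507c00e5e5487 : CRef := CRef.mk (Pat.mk 0x20000000e00000010000000040000000000000000 0x80000003800000038000000380000003b0000001e000000100000003e0000003800000020 11 6) 0 0 (step_sound _ 132 [(rh3244c3cc8379b070.shift 0 4), (rh37503d0bd5fa51fe.shift 1 0)] (by decide +kernel))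
noncomputable def rh8651862b85b4b6a8 : CRef := CRef.mk (Pat.mk 0x38000000a000000020000000000000000000000000 0x40000015c000001fc000001dc000001f8000000be000001ff000001cc000001c000000140 11 9) 0 0 (step_sound _ 132 [(rh2276944c880ac368.shift 2 3), (rh2f2ef65ea98d3cdc.shift 1 0), (rh66f34fde7f007287.shift 2 2), (rhb525d050a05c0391.shift 0 2), (rhe44064147ce1f025.shift 2 3)] (by decide +kernel))
noncomputable def rh130c9f5f3f402bf4 : CRef := CRef.mk (Pat.mk 0x10000000e00000010000000040000000000000000 0x80000003800000038000000380000003b0000001e000000100000003e0000003800000020 11 6) 0 0 (step_sound _ 132 [(rh37503d0bd5fa51fe.shift 1 0), (rh3f8766e6ecb455ce.shift 0 4)] (by decide +kernel))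
noncomputable def rh8fa629d0ae3d0ceb : CRef := CRef.mk (Pat.mk 0xe00000014000000040000000000000000 0x800000038000000380000003a0000007b0000003e000000160000003e0000003800000020 11 7) 0 0 (step_sound _ 132 [(rh37503d0bd5fa51fe.shift 1 0), (rhd8b43b15431aaa50.shift 1 1), (rhed9a93d9f6a3fb5f.shift 0 2)] (by decide +kernel))
noncomputable def rh0d6129c131c79948 : CRef := CRef.mk (Pat.mk 0x1c00000050000000100000000000000000 0xe0000000ff0000005f000000f8000000f0000000b0 11 8) 0 0 (step_sound _ 133 [(rh3b00e9e9432b8f40.shift 1 3), (rh8ee2a622c0b50b2d.shift 1 0), (rhd4d36b4007f546b1.shift 2 1), rheeb4e593f89f937e] (by decide +kernel))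
noncomputable def rhf009e5eaf9a046d0 : CRef := CRef.mk (Pat.mk 0x300000002000000030000000a00000000000000000 0x20000002e0000002e0000007e0000003f0000003e000001ef0000002e0000000a 11 9) 0 0 (step_sound _ 98 [(rh354494b699415cbd.shift 1 1), (rh36cf33ca80b33456.shift 2 2), (rhaa009a6c766d865d.shift 1 0), (rhff8326e31a7c12c8.shift 0 2)] (by decide +kernel))
noncomputable def rh2612b0237b9ea3a3 : CRef := CRef.mk (Pat.mk 0x20000000200000003000000080000000000000000000000000 0xa0000000e0000005e0000007e0000003f0000003e000001ef0000007e0000007a00000050 11 9) 0 0 (step_sound _ 101 [(rh6a56790be92093bf.shift 4 2), (rha89fdb7714735dde.shift 0 1), (rhc850b49d039efae1.shift 4 0)] (by decide +kernel))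
noncomputable def rhf2b78dea213e451a : CRef := CRef.mk (Pat.mk 0xa0000000300000002000000030000000000000000000000000 0xa0000002e000001ef0000003e0000003f0000007e0000002e0000002e00000002 11 9) 0 0 (step_sound _ 162 [(rh2b75b59b91c70173.shift 0 4), (rh6a049b1be3759e47.shift 1 1), (rh7551d0bd36016173.shift 1 0), (rh7d44b6060fe480d4.shift 2 5)] (by decide +kernel))
noncomputable def rhb407d0cc461bc9ee : CRef := CRef.mk (Pat.mk 0x80000000300000002000000020000000000000000000000000 0x500000007a0000007e000001ef0000003e0000003f0000007e0000005e0000000e0000000a 11 9) 0 0 (step_sound _ 197 [(rh193da7fc9e1674f1.shift 4 2), (rh8797c67fe3ac847a.shift 4 3), rhb870d6be9feaa3b5] (by decide +kernel))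
noncomputable def rh61ee2e33dba8fc79 : CRef := CRef.mk (Pat.mk 0x30000001200000003800000000 0x1c0000003c0000001f0000001c0000003c000001f80000003800000010 11 9) 0 0 (step_sound _ 70 [(rh2fe78cc5ca4405d8.shift 4 2), rh9cca237aac7b4235] (by decide +kernel))
noncomputable def rh1706a200d7c3345d : CRef := CRef.mk (Pat.mk 0x120000005300000018000000000000000000000000 0xa0000000fc000000ec000000fe0000005b000000fc000000ef000000ec000000a0 11 8) 0 0 (step_sound _ 163 [rh3dd05366b2cb124c, (rhb2a0b9ccfb5cecd5.shift 0 4)] (by decide +kernel))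
noncomputable def rhc5044c0621166276 : CRef := CRef.mk (Pat.mk 0x12000000530000001800000000000000000000000000000000 0x80000000e8000000f8000001ec000000fe0000005b000000fe000000ec000000ec000000a800000080 11 9) 0 0 (step_sound _ 134 [(rh0fa3978fcca1633b.shift 0 2), rh45a7d24dda29117d, (rh52650bdf03a7e73a.shift 0 1), (rhc9613b64f97b2b97.shift 0 1), (rheba1e230884d801b.shift 0 1)] (by decide +kernel))
noncomputable def rh3ff7afd14124f562 : CRef := CRef.mk (Pat.mk 0x20000000340000000000000000000000000000000000000000 0xa0000000e0000000e0000000e0000000e0000003f0000003e000000070000000e0000000e0000000e0000000a 11 6) 0 0 (step_sound _ 163 [(rh21d582c147e7e118.shift 0 4), (rh34982d97c762414c.shift 1 0), (rh592c7139d2c44767.shift 0 4), (rhf015c446b680a84f.shift 0 5)] (by decide +kernel))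
noncomputable def rh10576f15fb4019ea : CRef := CRef.mk (Pat.mk 0x38000001200000003000000000000000000000000000000000 0x1000000038000001f80000003c0000001c0000001f0000003c0000001c 11 9) 0 0 (step_sound _ 166 [rh311621d3ecaf757a, (rh361cc68994bd8a63.shift 4 4)] (by decide +kernel))
noncomputable def rh4f31af7b5ffb7400 : CRef := CRef.mk (Pat.mk 0x180000005300000012000000000000000000000000 0xa0000000ec000000ef000000fc0000005b000000fe000000ec000000fc000000a0 11 8) 0 0 (step_sound _ 99 [rh482664d5b1c7deab, (rh5419adcd928dba20.shift 0 3)] (by decide +kernel))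
noncomputable def rh338c416d5792250e : CRef := CRef.mk (Pat.mk 0x18000000530000001200000000000000000000000000000000 0x80000000a8000000ec000000ec000000fe0000005b000000fe000001ec000000f8000000e800000080 11 9) 0 0 (step_sound _ 198 [(rh1d3c741c8e74a03e.shift 0 1), (rh253476109c64ddf8.shift 0 1), rh4db9872ba4da4394, (rh5cdf77804fbf687f.shift 0 2), (rh666dafc1813a67c7.shift 0 4)] (by decide +kernel))
noncomputable def rhd2da3a221a6cd03d : CRef := CRef.mk (Pat.mk 0x34000000200000000000000000000000000000000000000000 0xa0000000e0000000e0000000e000000070000003e0000003f0000000e0000000e0000000e0000000e0000000a 11 6) 0 0 (step_sound _ 195 [(rh01ee6523ba01286a.shift 1 0), (rh775ca1963e850b80.shift 0 5), (rhd1d05263fabc0227.shift 0 5), (rhdceeca65bdd8095a.shift 0 5)] (by decide +kernel))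
noncomputable def rh264f35ebcaeed4db : CRef := CRef.mk (Pat.mk 0x100000005300000052000000020000000000000000000000000000000000000000 0xa0000000e0000000f80000005300000ffe000007ef00000ff8000007e8000000e0000000e0000000a0 11 12) 0 0 (step_sound _ 166 [(rh1cc5a25ac290d6f6.shift 3 0), (rh8c5fd80fd73a38b4.shift 5 3), (rh8e96100f5902472c.shift 3 4), (rh9372c357ed29dbc7.shift 0 2), (rhb858bac114020475.shift 0 3)] (by decide +kernel))
noncomputable def rh18b849cc917c3f18 : CRef := CRef.mk (Pat.mk 0x10000000530000005200000000000000000000000000000000 0xa0000000e0000000e0000000f80000005b0000007e000000ec000000f8000000e800000080 11 8) 0 0 (step_sound _ 131 [(rh5419adcd928dba20.shift 0 4), (rhf12bda883cc5b111.shift 2 0)] (by decide +kernel))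
noncomputable def rh0d4440fc287ac4cc : CRef := CRef.mk (Pat.mk 0x10000000130000001200000002000000000000000000000000000000000000000000000000 0x110000001b0000001e0000000f0000000b0000000f00000007000000070000000700000005 11 5) 0 0 (step_sound _ 227 [rh064c68f904137edb, (rh5419adcd928dba20.shift 0 7)] (by decide +kernel))
noncomputable def rh5fe921d38b743f6a : CRef := CRef.mk (Pat.mk 0x10000000d000000000 0xe0000000e0000007f0000007e000000ff0000000c 11 8) 0 0 (step_sound _ 67 [(rh5419adcd928dba20.shift 3 1), rh805915b4e9fd2b90] (by decide +kernel))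
noncomputable def rh76c244aa15df64f0 : CRef := CRef.mk (Pat.mk 0x10000000d00000000000000000000000000000000000000000 0x280000003e0000007e0000007e000000d8000000380000007e0000007e0000003f00000028 11 8) 0 0 (step_sound _ 132 [(rh116b4ffcf41d9553.shift 3 1), (rh21950a721262aa62.shift 3 1), (rh79c806ec3ffd947e.shift 3 0), rh8dbc737b6b00a005, (rhb8f619541c88a58d.shift 3 1), rhbb092c1341d9d4ee, (rhcce989334ed6a24d.shift 1 3), (rhceb5f5a915f974ce.shift 3 2)] (by decide +kernel))
noncomputable def rhd03e653b1afbf228 : CRef := CRef.mk (Pat.mk 0x8000000298000002d0000000000000000000000000000000000000000000000000 0x51c0000073c000007cf00000298000007d800001f78000007fc00000778000007280000070000000500 11 13) 0 0 (step_sound _ 169 [rh180115af8c5a2dd9, (rh6a6424593d1db86c.shift 2 2), (rh9853d0e2ef0431f8.shift 6 3), (rhc8825735424913d5.shift 6 4), (rhcfd9c2706f07f9e1.shift 3 2)] (by decide +kernel))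
noncomputable def rh11594ac1b94731f5 : CRef := CRef.mk (Pat.mk 0x11000000130000001a0000000000000000000000000 0x3f000000fe000001de000001b4000001be00000098000000f8000000b0 11 9) 0 0 (step_sound _ 196 [(rh2145e1d24b96a57e.shift 4 3), rh9d72c88d90e399a3] (by decide +kernel))
noncomputable def rha4b532b8e428408e : CRef := CRef.mk (Pat.mk 0x11000000530000005a00000000000000000000000000000000 0x20000000e0000000e8000000e8000007ec000007fd0000075b000000da000000ef000000fe000000e800000080 11 11) 0 0 (step_sound _ 97 [rh0fcd8707215cdd65, (rh7b1f1fb55310c477.shift 0 2)] (by decide +kernel))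
noncomputable def rh62c23b6d281ab048 : CRef := CRef.mk (Pat.mk 0x2000000030000002000000006000000240 0x2800000028000001ef000001fe0000039f0000007c000003de 11 10) 0 0 (step_sound _ 36 [(rh3918eeb6c53434d8.shift 1 0), (rh5bb78067c54b222b.shift 3 0), rh8cd7489d546681e3, (rh9d85c7883b0b77b1.shift 1 0)] (by decide +kernel))
noncomputable def rh8850c40920e2a9fa : CRef := CRef.mk (Pat.mk 0x280000020000000060000000c000000000000000000000000000000000 0x140000001c0000001c000001cf000001fc0000039f0000007f000000fc000001dc0000001c0000001c00000014 11 10) 0 0 (step_sound _ 163 [rh9a5f10fe31ba67ef, (rhab22b5b56e7b3243.shift 3 4)] (by decide +kernel))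
noncomputable def rh550f73316467ba61 : CRef := CRef.mk (Pat.mk 0x5000000400000000c000000180000000000000000000000000 0x2800000038000000380000003f000003be000003f700000738000000fe000001f8000003b80000003800000038 11 11) 0 0 (step_sound _ 132 [rh6d4e4c3840669ae3, (rhab22b5b56e7b3243.shift 4 3)] (by decide +kernel))
noncomputable def rh0e285a00927f2bff : CRef := CRef.mk (Pat.mk 0x280000020000000060000000c0000000000000000000000000 0x1ff000001fe0000039000000078000000fc000001dc000000f8000000f8 11 10) 0 0 (step_sound _ 132 [rh207b61bdf96fe804, (rhb739f4f82bb681b4.shift 3 3)] (by decide +kernel))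
noncomputable def rh95858fe2cb5f576b : CRef := CRef.mk (Pat.mk 0x20000000000000018000000300000000000000000000000000 0x500000007e000000fe0000007f00000070000001f0000003f0000000700000007000000050 11 10) 0 0 (step_sound _ 133 [(rhab22b5b56e7b3243.shift 5 3), rhd1788fea4fe75689] (by decide +kernel))
noncomputable def rhc30f552d80156b57 : CRef := CRef.mk (Pat.mk 0x28000002000000002000000000 0x100000001c0000001e0000003e000001ff000001fe0000039f0000003400000030 11 10) 0 0 (step_sound _ 100 [(rh16f04c9d7fe4feb3.shift 1 2), (rh33f26072e0c5c9bf.shift 1 2), (rh3d40c39e665f4252.shift 0 1), (rh41220747ddf1f4e2.shift 2 0), (rh43547bf3236f664a.shift 1 2)] (by decide +kernel))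
noncomputable def rh895c8d92f71e4201 : CRef := CRef.mk (Pat.mk 0x200000020000000070000000c0000000000000000000000000 0x1de000001fe000003bf00000070000000fc000001dc000000f8000000f8 11 10) 0 0 (step_sound _ 101 [(rh53accf02d6881fd3.shift 2 0), (rh5419bc9b2708b087.shift 0 2), (rhb4fe0617d4021d44.shift 0 2), (rhcefcfd066af8969c.shift 2 2)] (by decide +kernel))
noncomputable def rh2764647a7f64ae0e : CRef := CRef.mk (Pat.mk 0x100000000000000070000000c000000000000000000000000000000000 0x28000000380000003800000030000000f8000000fc0000003f00000070000000f8000001b8000000b8000000b800000028 11 9) 0 0 (step_sound _ 196 [(rh046c5eb18e55a239.shift 4 2), rh2aab05ef75a2ecec, (rh4f944cb3974d01ff.shift 3 0), (rh70e33bfdf511e144.shift 4 2), (rhf6ca3c18e3f5ead9.shift 4 4)] (by decide +kernel))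
noncomputable def rh9dd15a6a4970d847 : CRef := CRef.mk (Pat.mk 0x100000000000000070000000c000000000000000000000000000000000 0x28000000f8000000fc0000003f00000070000000f8000001b8000000b8000000b800000028 11 9) 0 0 (step_sound _ 196 [(rh046c5eb18e55a239.shift 4 2), (rh0d778990f1c01716.shift 3 0), rh2aab05ef75a2ecec, (rh70e33bfdf511e144.shift 4 2), (rhf6ca3c18e3f5ead9.shift 4 4)] (by decide +kernel))
noncomputable def rh109452709f8ff056 : CRef := CRef.mk (Pat.mk 0x100000000000000070000000c000000000000000000000000000000000 0x38000001fe000001fe0000003f00000070000000f0000001b8000000b8000000b800000028 11 9) 0 0 (step_sound _ 196 [(rh046c5eb18e55a239.shift 4 2), rh2aab05ef75a2ecec, (rh6d94e1fa7d25aaa3.shift 1 2), (rh70e33bfdf511e144.shift 4 2)] (by decide +kernel))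
noncomputable def rh9817f5dae4102cf7 : CRef := CRef.mk (Pat.mk 0x2000000400000000c000000180000000000000000000000000 0x80000003c0000003c000003ff000003fe0000075f000000f8000001f8000000780000002000000020 11 11) 0 0 (step_sound _ 198 [(rh32ee455dbf038758.shift 2 0), (rh3f1cf80fae075308.shift 1 2), (rh6a7a928648825441.shift 2 3), (rhafa1d3932d0fade7.shift 3 0), (rhce6db692d8ff3ea9.shift 0 2)] (by decide +kernel))
noncomputable def rha7387374cffa9e04 : CRef := CRef.mk (Pat.mk 0x8000000000000003000000060000000000000000000000000 0x140000001c0000001c0000001c0000001c0000000c0000001c0000003c0000007f0000001c0000001c00000014 11 7) 0 0 (step_sound _ 131 [rha0b43024f8325ddc, (rhb739f4f82bb681b4.shift 2 3)] (by decide +kernel))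
noncomputable def rh4d2f60b35f6ed0a3 : CRef := CRef.mk (Pat.mk 0x1000000200000000700000004000000000000000000000000000000000 0x2800000038000000380000003f000000ff000001ff000003be000000740000005e00000038000000380000003800000028 11 10) 0 0 (step_sound _ 196 [(rh155e15ebc05dcabe.shift 1 0), (rh1dad4622b44b500b.shift 3 1), (rh4d7ddf60dd370de9.shift 3 4), (rh5425a8da46388d02.shift 3 0), (rh9ee07d9e6562d233.shift 1 0), rhb08ecb800557cf42, (rhde5eb7ef104fcd5f.shift 0 4), (rhe5c99c8a0a047532.shift 2 4), (rhe94e347df672e88b.shift 1 1)] (by decide +kernel))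
noncomputable def rh36f46c73b21ae44f : CRef := CRef.mk (Pat.mk 0x30000002000000026000000040 0x380000003c000003ff000001fe000001ff000003bc0000027000000040 11 10) 0 0 (step_sound _ 133 [(rhc6fb4954afe41a7a.shift 0 1), (rhff0f29cb645b05f7.shift 5 0)] (by decide +kernel))
noncomputable def rh0ff734a5ecd5427a : CRef := CRef.mk (Pat.mk 0x2000000400000000c000000080 0x20000000380000003c0000007c000003ff000003ff0000077f000000d8000000d0 11 11) 0 0 (step_sound _ 102 [rh01f9765f4ae61421, (rh0e2ea0b633287d00.shift 1 0), (rh2b1c5dde715fb1bb.shift 1 1), (rh6a7a928648825441.shift 2 0), (rh8a959940983384ce.shift 5 0), (rha645ef21700d76bc.shift 1 0)] (by decide +kernel))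
noncomputable def rh05cf93dd8bd64673 : CRef := CRef.mk (Pat.mk 0x100000000800000060000000c000000000 0xc0000000c000000ee000000ff0000003f0000007f000000fc0000002c 11 8) 0 0 (step_sound _ 67 [rh14ae4ace2944d8da, (rhab22b5b56e7b3243.shift 3 1)] (by decide +kernel))
noncomputable def rh621ff7933844a4eb : CRef := CRef.mk (Pat.mk 0x4000000020000001800000030000000000000000000000000000000000 0x40000003c0000003c000001be000001ff000000fe000001ff0000033800000038000000700000007000000050 11 10) 0 0 (step_sound _ 165 [rh84a65f84abb47fd7, (rhab22b5b56e7b3243.shift 5 4)] (by decide +kernel))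
noncomputable def rh6a470dc87e2b61e0 : CRef := CRef.mk (Pat.mk 0x400000002000000180000003000000000000000000 0x40000003c0000003c000001be000001ff000000fe000001ff000003780000007800000050 11 10) 0 0 (step_sound _ 101 [rh3bd2199e0c2379d4, (rhab22b5b56e7b3243.shift 5 2)] (by decide +kernel))
noncomputable def rhcaea775ea7dbf21f : CRef := CRef.mk (Pat.mk 0x2000000010000000c000000180000000000000000000000000 0x800000018000000780000005e000000ff000001ff0000007f0000003c0000002c 11 9) 0 0 (step_sound _ 132 [(rhab22b5b56e7b3243.shift 4 3), rhe8d69a61828228e5] (by decide +kernel))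
noncomputable def rh06d784802dc93223 : CRef := CRef.mk (Pat.mk 0x4000000020000001800000030000000000000000000000000 0x400000006000000070000000300000007000000070000001f0000003f0000000f0000000700000005 11 6) 0 0 (step_sound _ 129 [(rhab22b5b56e7b3243.shift 1 3), rhb38fac54101acf68] (by decide +kernel))
noncomputable def rha83ef410f709505b : CRef := CRef.mk (Pat.mk 0x800000000000000300000006000000000000000000000000000000000 0x140000001c0000001c0000001c0000000c0000001c0000001f0000003c0000007f0000001c0000001c0000001c00000014 11 7) 0 0 (step_sound _ 163 [rh4a13297de5160b45, (rhb739f4f82bb681b4.shift 2 4)] (by decide +kernel))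
noncomputable def rhc1cbd28d5f80dc6c : CRef := CRef.mk (Pat.mk 0x1800000098000000000000000000000000 0x1c0000007e0000000f0000001e000000fe0000007c0000001c0000000c 11 8) 0 0 (step_sound _ 101 [(rh2fe78cc5ca4405d8.shift 3 3), rhe586d2d758663a33] (by decide +kernel))
noncomputable def rh8d95ec08db57a7da : CRef := CRef.mk (Pat.mk 0x8000000098000000d8000000000000000000000000 0x1c0000007c0000008f000000df000000df0000007b0000005a00000048 11 8) 0 0 (step_sound _ 163 [(rh3e595262c1b737ad.shift 3 2), (rh57c2f33d7db628c6.shift 0 2), (rh9607ace265ad3036.shift 1 2), rhdb02de0f4d26f910] (by decide +kernel))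
noncomputable def rh4e012199da693222 : CRef := CRef.mk (Pat.mk 0x800000009800000090000000100000000000000000 0xe0000008f000000df000000ff0000007f000000ef00000068 11 8) 0 0 (step_sound _ 99 [rh552181e1518816ab, rh5b3d05cb1be31281, rh8fe7b194326bff87, rhb647b3f6aec79f61, (rhd5d00515eae22b96.shift 0 1), rhda806c3ce0d1aa81, rhdbee3bef1c4e3ea9] (by decide +kernel))
noncomputable def rhf5610f28c154bd32 : CRef := CRef.mk (Pat.mk 0x800000009800000098000000000000000000000000 0x1c0000007c0000008f000000df000000ff000000780000005c0000004c 11 8) 0 0 (step_sound _ 102 [(rh5419adcd928dba20.shift 3 3), rhf1ad2062da72bdd9] (by decide +kernel))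
noncomputable def rhc315171b4855029f : CRef := CRef.mk (Pat.mk 0x800000001800000098000000000000000000000000 0x1c0000007e000000ef0000001f000000df0000007f000000fc0000001c 11 8) 0 0 (step_sound _ 163 [(rh3887d3ade0122d59.shift 0 2), (rh9607ace265ad3036.shift 1 2), rhe140dbcb7e2278fc] (by decide +kernel))
noncomputable def rh165106d265b7ffbf : CRef := CRef.mk (Pat.mk 0x180000009800000000000000000000000000000000 0xc0000000c0000001e000000ff0000007f000000780000003800000028 11 8) 0 0 (step_sound _ 133 [rh2c9421166c149f25, (rh2fe78cc5ca4405d8.shift 3 4)] (by decide +kernel))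
noncomputable def rh0681838aaf58b2e3 : CRef := CRef.mk (Pat.mk 0x800000009800000090000000000000000000000000000000000000000000000000 0x80000000c0000008c000000dc000000ff0000007f000000ff0000007c000000380000003800000028 11 8) 0 0 (step_sound _ 164 [(rh56259dd1390eee46.shift 3 2), (rh671c85f63984b171.shift 1 0), (rh89eaee7c446d67a4.shift 0 3), (rhf9a6286f1d5377a2.shift 3 4)] (by decide +kernel))
noncomputable def rh91b7297d1d11cb65 : CRef := CRef.mk (Pat.mk 0x800000009800000090000000100000000000000000 0xc0000000c0000008f000000df000000fb0000007f0000004f0000004c 11 8) 0 0 (step_sound _ 67 [(rh0fbbb92589a12005.shift 3 0), rhbe09cb6432a99104, (rheef5a9e18a9841c8.shift 1 0)] (by decide +kernel))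
noncomputable def rh372e62844d3a064e : CRef := CRef.mk (Pat.mk 0x800000009800000090000000100000000000000000 0xe0000008f000000de000000fe0000007f0000006f0000006c 11 8) 0 0 (step_sound _ 99 [(rh29a893126ffc9f0f.shift 1 1), (rh494b2001d0112460.shift 1 0), rh5b3d05cb1be31281, rh5f326d6d5583448a, rh8ccb459d17dc2974, rhb647b3f6aec79f61, (rhfecf5583f0d8e00d.shift 2 0)] (by decide +kernel))
noncomputable def rh34d9647c88edaeb4 : CRef := CRef.mk (Pat.mk 0x1000000013800000120000000200000000000000000 0x1c0000003c0000011f000001b8000001fe000000fe000000dc000000cc 11 9) 0 0 (step_sound _ 100 [rh55ca989805c7ec60, (rh64dd1c3b293b78d8.shift 1 0), (rh6fd417f4c9117c4d.shift 3 0), (rh77737e3cf784e2f5.shift 1 0), (rha4777842c0fdd9fe.shift 1 0), (rhfa192cc3bf3fd6ba.shift 1 1)] (by decide +kernel))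
noncomputable def rh0663dc229492a41a : CRef := CRef.mk (Pat.mk 0x800000001800000018000000000000000000000000 0x1c0000007e000000ef0000001f0000003f0000007c0000001f0000000c 11 8) 0 0 (step_sound _ 163 [(rh3887d3ade0122d59.shift 0 2), (rh3e595262c1b737ad.shift 3 2), (rh55a1f6c57a317ce6.shift 3 1), rh59d15a48ea4bcb1f, (rh9607ace265ad3036.shift 1 2)] (by decide +kernel))
noncomputable def rh04cb54f9f0d16f6b : CRef := CRef.mk (Pat.mk 0x8000000018000000180000000000000000 0x1e0000007e000000ef0000001f0000003f0000003700000016 11 8) 0 0 (step_sound _ 131 [(rh3887d3ade0122d59.shift 0 1), (rh55a1f6c57a317ce6.shift 3 0), rh825ca3ba4b7c44da] (by decide +kernel))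
noncomputable def rha3739a8c726dfb77 : CRef := CRef.mk (Pat.mk 0x1800000018000000000000000000000000 0x1c0000003e0000000f0000001f0000001f0000003f0000000f0000000c 11 6) 0 0 (step_sound _ 163 [(rh05607e02b2ff73f6.shift 0 2), (rh3e595262c1b737ad.shift 3 2), (rh57c2f33d7db628c6.shift 0 2), rh65f11cc7f94d1d6e] (by decide +kernel))
noncomputable def rha449709049ab36dc : CRef := CRef.mk (Pat.mk 0x3000000030000000000000000000000000 0xa0000000e0000003e000000ff0000001f0000003e0000007f000000760000002600000002 11 8) 0 0 (step_sound _ 164 [(rh3e595262c1b737ad.shift 4 2), (rh55a1f6c57a317ce6.shift 4 1), (rh9607ace265ad3036.shift 2 2), rha666e25fa22d2776] (by decide +kernel))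
noncomputable def rh08c31eec8ab2c0af : CRef := CRef.mk (Pat.mk 0x1800000018000000000000000000000000 0x1c0000007c0000000f0000001f0000001f0000001f0000001f0000001c 11 7) 0 0 (step_sound _ 163 [(rh05607e02b2ff73f6.shift 0 2), (rh3e595262c1b737ad.shift 3 2), rh51ffab36a542e5c4, (rh57c2f33d7db628c6.shift 0 2), (rh9607ace265ad3036.shift 1 2)] (by decide +kernel))
noncomputable def rhe70b8101217e2da7 : CRef := CRef.mk (Pat.mk 0x3000000120000000000000000000000000000000000000000000000000 0x1000000010000000180000003c000001fe0000007e000001ff0000007c000000740000007000000050 11 9) 0 0 (step_sound _ 198 [(rh2fe78cc5ca4405d8.shift 4 6), rhb3e1ce33d5351fde] (by decide +kernel))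
noncomputable def rhdcda7c5e4a30ccbd : CRef := CRef.mk (Pat.mk 0x1000000013800000120000000000000000000000000000000000000000000000000 0x108000001b8000003ff000006ff000003fe000007ff000000700000007000000050 11 11) 0 0 (step_sound _ 165 [(rh41ec28e15f794d20.shift 4 0), (rh6f3aa9447f6b7f36.shift 0 2), (rh794c87c08b797b4d.shift 0 2), (rh7a5bceb6280a3a92.shift 4 2), (rh887e9d0f6f08a8ad.shift 0 1), (rh8d7603b4f20f6003.shift 2 2), (rh9cff5c173fce1407.shift 1 2), (rhaae70f72dec4c0c8.shift 0 2), (rhbd8f6b9a0f7da141.shift 1 0), (rhbea25f80d2d8b935.shift 2 0)] (by decide +kernel))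
noncomputable def rhcc11cb5861f8fd1f : CRef := CRef.mk (Pat.mk 0x1800000038000000000000000000000000 0x1e0000007e0000000f0000001e0000003f0000007c0000002400000020 11 7) 0 0 (step_sound _ 130 [rh6ed61943dc999346, (rhb739f4f82bb681b4.shift 1 3)] (by decide +kernel))
noncomputable def rh8f3dd110229a90d5 : CRef := CRef.mk (Pat.mk 0x70000000c00000000000000000000000000000000000000000 0x280000003800000078000000f80000003e00000070000000ff0000007e000001ff000000f8000000b800000028 11 9) 0 0 (step_sound _ 132 [(rh3d163e0fdb4518ff.shift 3 1), (rh4a27b7771027f174.shift 1 0), (rh56a0d0b052411934.shift 0 1), (rh74a1b710dadeb20d.shift 0 1), (rh89032a7fa0eebb4e.shift 0 1), (rhb3f1ac211419de2f.shift 0 1), (rhc4cf41027497d95b.shift 1 3), (rhcdfeb5224eacff6f.shift 1 0), (rhf0e1328955fbbd0e.shift 1 3)] (by decide +kernel))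
noncomputable def rh30de1620b7ce516e : CRef := CRef.mk (Pat.mk 0x20000000270000002400000004000000000000000000000000000000000 0x1800000078000001f80000023c00000370000003ff000001fe0000039f000001b80000003800000028 11 10) 0 0 (step_sound _ 132 [(rh2d380cf28cc07f36.shift 1 3), (rh6232f28b53359c0e.shift 3 1), (rh9808a3d5a20574da.shift 3 2), (rh9c90185550e1b0e8.shift 0 2), (rha1c11260a0c18bfc.shift 1 3), (rhbb8131469b969de7.shift 1 2), (rhc6154a72398b29ec.shift 3 0)] (by decide +kernel))
noncomputable def rh73ed2f5348089ebc : CRef := CRef.mk (Pat.mk 0x20000000260000002400000004000000000000000000000000000000000 0x20000000200000022c0000037c000003ff000001fe000003bf000001bc000000bc0000003c 11 10) 0 0 (step_sound _ 132 [(rh4cea0f098a372db2.shift 2 1), (rh553bc4b042962c9a.shift 1 2), (rh86973a50064f5654.shift 2 3), (rh87c5915999756df4.shift 0 1), (rh895bf40b44a59989.shift 3 1), (rhb1348edb38c47c92.shift 1 1), rhc5722af8562f44a6, (rhc6154a72398b29ec.shift 3 0), (rhd4c072e2480dabe1.shift 3 2), (rhf91ea5db2ab21e31.shift 3 1)] (by decide +kernel))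
noncomputable def rhbdad035fa4559cff : CRef := CRef.mk (Pat.mk 0x2000000026000000260000000000000000000000000 0x140000001c0000001c000003ff000001fe000003bf0000037c0000037c000001f0000003fc000003fe 11 10) 0 0 (step_sound _ 196 [(rh3482ec0e1ecb7f35.shift 4 2), (rh3e5a4a6f3b5b9f73.shift 2 0), (rh67613b5455c75571.shift 0 2), (rh80d6d88d2c89867a.shift 1 0), (rh9b2efa5b37e02f19.shift 4 0), (rhcb422f98e6287499.shift 1 0)] (by decide +kernel))
noncomputable def rh77ce5dd96bed9d0b : CRef := CRef.mk (Pat.mk 0x1800000098000000000000000000000000 0x1c0000003c0000000f0000001f000000df0000007e000000ff0000000c 11 8) 0 0 (step_sound _ 163 [(rh55a1f6c57a317ce6.shift 3 1), (rh57c2f33d7db628c6.shift 0 2), rh6e3123f5e325b3d4] (by decide +kernel))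
noncomputable def rhd210d12044a8a0de : CRef := CRef.mk (Pat.mk 0x3000000030000000000000000000000000 0xa0000003e000000ff0000001e0000003e0000003e0000007e0000003600000036 11 8) 0 0 (step_sound _ 98 [(rh18f520b5ca350a1f.shift 1 0), (rha8c0be05041642b9.shift 1 1), rhc25cfd4084c184c3, (rhf412f26a673a1e39.shift 1 1)] (by decide +kernel))
noncomputable def rh88fe6911110f4f25 : CRef := CRef.mk (Pat.mk 0x300000003000000020000000000000000000000000 0xa0000000e0000003f0000001e0000003e0000003e000000760000000e0000000e0000000a 11 7) 0 0 (step_sound _ 130 [(rh39f426ebe0691969.shift 1 3), (rh47b31ac0182b6322.shift 1 0), (rhc7dede0fb202ec29.shift 0 1), (rhe25176f89823b1c7.shift 1 4)] (by decide +kernel))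
noncomputable def rhc60c159f9fad40ac : CRef := CRef.mk (Pat.mk 0x1800000018000000000000000000000000 0x1c0000003c0000000f0000001f0000001b0000001f0000001f00000018 11 6) 0 0 (step_sound _ 163 [(rh3e595262c1b737ad.shift 3 2), (rh55a1f6c57a317ce6.shift 3 1), (rh57c2f33d7db628c6.shift 0 2), rhe5b345379eba8d20] (by decide +kernel))
noncomputable def rhd5f0ba255d2ba158 : CRef := CRef.mk (Pat.mk 0x100000000300000003000000000000000000000000000000000 0xa000001fe000000ff000001de0000003e0000003e0000006e0000007e0000007a00000050 11 9) 0 0 (step_sound _ 130 [(rh6d5c144488a76d86.shift 1 0), (rh8b956398171780c3.shift 0 1), (rha8c0be05041642b9.shift 1 2), (rhe25176f89823b1c7.shift 1 4)] (by decide +kernel))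
noncomputable def rhd2941f21ef6d1c2a : CRef := CRef.mk (Pat.mk 0x1c00000018000000080000000000000000 0x50000000700000007000000030000001f0000001f0000001f0000007800000018 11 7) 0 0 (step_sound _ 35 [(rh71222050f2c63a3a.shift 3 0), rhb6ec980e4db75945] (by decide +kernel))
noncomputable def rh08acbc350776fbbf : CRef := CRef.mk (Pat.mk 0x1800000018000000080000000800000000 0x50000000700000007000000070000001f0000001f0000000f0000007c00000010 11 7) 0 0 (step_sound _ 36 [(rh55afc6a59410cf00.shift 3 0), (rh5eec8dd53909ee3a.shift 0 1)] (by decide +kernel))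
noncomputable def rh5d128025ce3ec9b7 : CRef := CRef.mk (Pat.mk 0x1800000018000000080000000000000000 0x40000001f0000001f0000007b0000003f0000003f 11 7) 0 0 (step_sound _ 35 [(rh71222050f2c63a3a.shift 3 0), rhda180998261e7d05] (by decide +kernel))
noncomputable def rhbb65739c4a72ba3b : CRef := CRef.mk (Pat.mk 0x2200000026000000260000000000000004000000000000000000000000000000000 0x10000002300000037000000370000001bf000003fe000003ff0000003c0000001c00000004 11 10) 0 0 (step_sound _ 133 [rh585d3e68867fb9af, (rh88ee54e5cbfa5412.shift 4 3), (rh94a90e3ea5ec1f05.shift 4 3), (rhf842a985fdead960.shift 4 3)] (by decide +kernel))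
noncomputable def rhdf9be6e9b58d4bda : CRef := CRef.mk (Pat.mk 0x80000001800000018000000000000000000000000 0x40000000f0000001f0000001f0000003f0000001f0000001c 11 6) 0 0 (step_sound _ 67 [(rh4053c12da95c0aa0.shift 3 0), (rh46530d756bdf8511.shift 2 0), (rhb4ade5676c67b813.shift 0 1)] (by decide +kernel))
noncomputable def rhcc37e2d8d0014ed5 : CRef := CRef.mk (Pat.mk 0x20000000060000000e0000000400000000000000000 0x14000001ff000001fe000003bf0000007c000000fc000000740000003000000030 11 10) 0 0 (step_sound _ 196 [(rh6333f1db26f97d95.shift 4 0), (rhc3f3a0da4e5d645b.shift 0 2), (rhd5a364a75d7e2018.shift 3 1), (rhd6b9d9d01a8bb3b0.shift 4 0), (rhddd42590a74ba97a.shift 3 1)] (by decide +kernel))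
noncomputable def rh3fe3ff97f384a00a : CRef := CRef.mk (Pat.mk 0x1800000098000000000000000000000000 0xe0000000e0000000f0000001f000000ff000000740000003e0000003e 11 8) 0 0 (step_sound _ 101 [(rh2fe78cc5ca4405d8.shift 3 3), rh3fe4de0288901bd1] (by decide +kernel))
noncomputable def rhe259cd048fff11fe : CRef := CRef.mk (Pat.mk 0x1800000098000000000000000000000000 0x40000001f000000ff0000007c0000003e000000ff 11 8) 0 0 (step_sound _ 101 [(rh2fe78cc5ca4405d8.shift 3 3), rh8d909b2850c34bdb] (by decide +kernel))
noncomputable def rh95e249c7a1a76d6d : CRef := CRef.mk (Pat.mk 0x20000000060000000e000000020 0x4000001ff000001fe000003bf0000007c000000fc00000034 11 10) 0 0 (step_sound _ 132 [(rh1f72e38f783022bd.shift 4 0), (rh7a38e9ea2da2bd89.shift 2 0), rhc3f3a0da4e5d645b, (rhed63fd067d271cbc.shift 3 0)] (by decide +kernel))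
noncomputable def rh32f86f4d2497b12a : CRef := CRef.mk (Pat.mk 0x20000005200000053000000100000000000000000 0xa0000000e0000000e0000007e800000ff8000007ef00000ffe00000053000000f8000000e0000000a0 11 12) 0 0 (step_sound _ 166 [(rh4fbf6ea7ccb28316.shift 5 0), rh5c1c29f31372737a, (rh73c1788f824bb73c.shift 3 3), (rhf591575282a31422.shift 3 0), rhfab7a04b339a3133] (by decide +kernel))
noncomputable def rhda19cf75efd906a0 : CRef := CRef.mk (Pat.mk 0x520000005300000010000000000000000000000000 0x80000000e8000000f8000000ec0000007e0000005b000000f8000000e0000000e0000000a0 11 8) 0 0 (step_sound _ 163 [(rh4ef25dfc35592ecd.shift 2 0), (rhb2a0b9ccfb5cecd5.shift 0 4)] (by decide +kernel))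
noncomputable def rhfa6264abc9c78c82 : CRef := CRef.mk (Pat.mk 0x2000000120000001300000010 0x50000000700000007000000070000000f0000000b0000000f0000001e0000001b00000011 11 5) 0 0 (step_sound _ 67 [(rhb2a0b9ccfb5cecd5.shift 0 1), rhd7a7f894d5349121] (by decide +kernel))
noncomputable def rh4384f0ec9f68657d : CRef := CRef.mk (Pat.mk 0xd000000010000000000000000000000000 0xc000000ff0000007e0000007f0000000e0000000e 11 8) 0 0 (step_sound _ 99 [rh951646e778c28188, (rhb2a0b9ccfb5cecd5.shift 3 3)] (by decide +kernel))
noncomputable def rh5e95696dc50dc109 : CRef := CRef.mk (Pat.mk 0xd000000010000000000000000000000000 0x280000003f0000007e0000007e00000038000000d80000007e0000007e0000003e00000028 11 8) 0 0 (step_sound _ 164 [(rh020e7f4030ce0854.shift 1 0), (rh0bf089275365921a.shift 3 1), (rh219c4c489d480265.shift 0 2), (rh5a8d2816e4d2b751.shift 0 1), (rh767298da26e1abcd.shift 3 0), (rh92dd5669f32a5756.shift 3 2), (rhaf7955adbc1f7ff4.shift 3 0), (rhd4a6d65585883554.shift 3 1)] (by decide +kernel))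
noncomputable def rhc1ac41a7e6439bfa : CRef := CRef.mk (Pat.mk 0x2d000000298000000800000000000000000 0x500000007000000072800000778000007fc00001f78000007d800000298000007cf0000073c0000051c 11 13) 0 0 (step_sound _ 169 [(rh6126f4d0a8025a48.shift 6 0), rh6922f39b4fa3d060, (rha00f4d7cbb2d30d4.shift 6 0), (rhe372a1dc59c4f701.shift 3 0), (rhea5dbf8fa2fe87df.shift 2 0)] (by decide +kernel))
noncomputable def rh1d4636c800373659 : CRef := CRef.mk (Pat.mk 0x1a000000130000001100000000000000000 0xb0000000f800000098000001be000001b4000001de000000fe0000003f 11 9) 0 0 (step_sound _ 36 [(rh71222050f2c63a3a.shift 4 0), rhd9912f4c9e77498f] (by decide +kernel))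
noncomputable def rh43c3cc46503885f1 : CRef := CRef.mk (Pat.mk 0x5a00000053000000110000000000000000000000000000000000000000 0x80000000e8000000fe000000ef000000da0000075b000007fd000007ec000000e8000000e8000000e000000020 11 11) 0 0 (step_sound _ 257 [(rh5c5e593799055d58.shift 0 5), rh9455f0c76bfc5a1e] (by decide +kernel))
noncomputable def rh2c42967536052f8f : CRef := CRef.mk (Pat.mk 0x240000000600000020000000030000000200000000000000000 0x3de0000007c0000039f000001fe000001ef0000002800000028 11 10) 0 0 (step_sound _ 164 [rh230fb582342574f1, (rh2b3584ef0f05e9c2.shift 3 5), (rha4e887c2a2a0f60b.shift 1 4), (rhcd7637599a0e7f5b.shift 1 0)] (by decide +kernel))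
noncomputable def rh50dfd726f3f74765 : CRef := CRef.mk (Pat.mk 0xc000000060000002000000002800000000000000000000000000000000 0x140000001c0000001c000001dc000000fc0000007f0000039f000001fc000001cf0000001c0000001c00000014 11 10) 0 0 (step_sound _ 195 [(rh24ae073cf30720c4.shift 3 6), rh405f879112ad096e] (by decide +kernel))
noncomputable def rh03e0b62c5841ad7a : CRef := CRef.mk (Pat.mk 0x180000000c000000400000000500000000000000000000000000000000000000000 0x3800000038000003b8000001f8000000fe00000738000003f7000003be0000003f000000380000003800000028 11 11) 0 0 (step_sound _ 228 [(rh24ae073cf30720c4.shift 4 7), rh9114e23d38999422] (by decide +kernel))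
noncomputable def rhd875b3490c8cb4f6 : CRef := CRef.mk (Pat.mk 0xc000000060000002000000002800000000 0xf8000000f8000001dc000000fc0000007800000390000001fe000001ff 11 10) 0 0 (step_sound _ 100 [(rh53b3c253cb0c65f4.shift 3 3), rh8d73cdbede91099e] (by decide +kernel))
noncomputable def rh9f693402ac130a33 : CRef := CRef.mk (Pat.mk 0x300000001800000000000000020000000000000000000000000 0x500000007000000070000003f0000001f0000000700000007f000000fe0000007e00000050 11 10) 0 0 (step_sound _ 165 [(rh24ae073cf30720c4.shift 5 5), rh508f1ea381d979ef] (by decide +kernel))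
noncomputable def rh2aefbe46222f9d26 : CRef := CRef.mk (Pat.mk 0x2000000200000000280000000000000000000000000000000000000000 0x30000000340000039f000001fe000001ff0000003e0000001e0000001c00000010 11 10) 0 0 (step_sound _ 164 [(rh347286d342cd1ea3.shift 0 1), (rh72aeed295660e07e.shift 2 0), (rhcb80472e20cd3872.shift 1 4), (rhcc2b60f0e2d6a7d9.shift 1 4), (rhe5a9f5da05e448ca.shift 1 4)] (by decide +kernel))
noncomputable def rhd72d18b54e6d4ce2 : CRef := CRef.mk (Pat.mk 0xc000000070000002000000002000000000 0xf8000000f8000001dc000000fc00000070000003bf000001fe000001de 11 10) 0 0 (step_sound _ 133 [(rh20fba46a44ebde5a.shift 2 3), rh996f711c834c6ef4, rha9e1dc8c38c3c0f9, (rhfaa48b7ccdf5afa0.shift 2 0)] (by decide +kernel))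
noncomputable def rh5fe53930299374d7 : CRef := CRef.mk (Pat.mk 0xc00000007000000000000000100000000000000000000000000000000000000000 0x28000000b8000000b8000001b8000000f8000000700000003f000000fc000000f800000030000000380000003800000028 11 9) 0 0 (step_sound _ 196 [(rh215e11e099257d75.shift 4 4), (rh4d15f17881099817.shift 3 0), (rhb730ba14aa32bdb3.shift 4 4), (rhd8ec223adb5076fe.shift 4 3), (rhf7b1045a5252272f.shift 0 4)] (by decide +kernel))
noncomputable def rh8f056b0cd2a42e96 : CRef := CRef.mk (Pat.mk 0xc00000007000000000000000100000000000000000 0x28000000b8000000b8000001b8000000f8000000700000003f000000fc000000f800000028 11 9) 0 0 (step_sound _ 100 [(rh215e11e099257d75.shift 4 1), (rhb730ba14aa32bdb3.shift 4 1), (rhd8ec223adb5076fe.shift 4 0), (rhf1257cda8a5737b7.shift 3 0), (rhf7b1045a5252272f.shift 0 1)] (by decide +kernel))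
noncomputable def rh8d8527c3da9c3a21 : CRef := CRef.mk (Pat.mk 0xc00000007000000000000000100000000000000000 0x28000000b8000000b8000001b8000000f0000000700000003f000001fe000001fe00000038 11 9) 0 0 (step_sound _ 100 [(rh215e11e099257d75.shift 4 1), (rhb0c48753ecbe1b73.shift 1 0), (rhb730ba14aa32bdb3.shift 4 1), (rhf7b1045a5252272f.shift 0 1)] (by decide +kernel))
noncomputable def rhf56f93a825d95b4b : CRef := CRef.mk (Pat.mk 0x180000000c0000004000000002000000000000000000000000000000000 0x200000002000000078000001f8000000f80000075f000003fe000003ff0000003c0000003c00000008 11 11) 0 0 (step_sound _ 134 [(rh11134214925c0234.shift 2 2), (rh802365df4de5c77c.shift 2 3), rhad308749af40192a, (rhd8da32cc45a431bb.shift 3 3), (rhe39713d254460f5f.shift 1 1)] (by decide +kernel))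
noncomputable def rh68c2d74652865ed7 : CRef := CRef.mk (Pat.mk 0x600000003000000000000000080000000000000000000000000000000000000000 0x140000001c0000001c0000007f0000003c0000001c0000000c0000001c0000001c0000001c0000001c00000014 11 7) 0 0 (step_sound _ 227 [(rh53b3c253cb0c65f4.shift 2 7), rh8462978cd0882edc] (by decide +kernel))
noncomputable def rh7403eae67d68fbf1 : CRef := CRef.mk (Pat.mk 0x400000007000000200000000100000000000000000000000000000000000000000 0x280000003800000038000000380000005e00000074000003be000001ff000000ff0000003f000000380000003800000028 11 10) 0 0 (step_sound _ 196 [(rh4d9128180b38b07f.shift 3 2), (rh51ca07a546da8971.shift 1 0), (rh5ff52a3c69824ec5.shift 0 1), (rh69ed70742523634f.shift 3 2), (rh75ab280807132a22.shift 2 2), (rh915387b3efca5388.shift 1 2), (rhb6960c168faf3f9b.shift 1 1), (rhdcfe39d6ffe9af6c.shift 0 4), (rhebbe10d3cc837498.shift 3 0)] (by decide +kernel))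
noncomputable def rhd763d1845c994759 : CRef := CRef.mk (Pat.mk 0x4000000260000002000000003000000000000000000000000000000000 0x4000000270000003bc000001ff000001fe000003ff0000003c00000038 11 10) 0 0 (step_sound _ 101 [(rh04253f50b6dd0619.shift 5 3), rh9eb3294345270165] (by decide +kernel))
noncomputable def rhe83587758e930fb9 : CRef := CRef.mk (Pat.mk 0x80000000c000000400000000200000000000000000000000000000000000000000 0xd0000000d80000077f000003ff000003ff0000007c0000003c0000003800000020 11 11) 0 0 (step_sound _ 166 [(rh50cd906cb8012e60.shift 1 0), (rh802365df4de5c77c.shift 2 4), (rh81b70a595835fc77.shift 5 2), (rh8738f91182ee24db.shift 1 3), (rhd65cfe46482e31da.shift 1 0), (rhf8286d0e4b15d00c.shift 0 1)] (by decide +kernel))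
noncomputable def rh57e0659283dab62e : CRef := CRef.mk (Pat.mk 0xc0000000600000000800000010000000000000000000000000 0x2c000000fc0000007f0000003f000000ff000000ee0000000c0000000c 11 8) 0 0 (step_sound _ 163 [(rh24ae073cf30720c4.shift 3 5), rhe48cf2ee08925386] (by decide +kernel))
noncomputable def rh50a27d952c89a0be : CRef := CRef.mk (Pat.mk 0x30000000180000000200000004000000000000000000000000000000000 0x5000000070000000700000003800000338000001ff000000fe000001ff000001be0000003c0000003c00000004 11 10) 0 0 (step_sound _ 197 [(rh24ae073cf30720c4.shift 5 6), rhf832df4217ee9573] (by decide +kernel))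
noncomputable def rh4e9fb7ff3b90b6c4 : CRef := CRef.mk (Pat.mk 0x30000000180000000200000004000000000000000000000000000000000 0x500000007800000378000001ff000000fe000001ff000001be0000003c0000003c00000004 11 10) 0 0 (step_sound _ 197 [(rh24ae073cf30720c4.shift 5 6), rhbc4370e05320c4f7] (by decide +kernel))
noncomputable def rh872f6d925f8e4a03 : CRef := CRef.mk (Pat.mk 0x180000000c000000010000000200000000000000000 0x2c0000003c0000007f000001ff000000ff0000005e000000780000001800000008 11 9) 0 0 (step_sound _ 132 [(rh24ae073cf30720c4.shift 4 4), rha863d1389ac1818e] (by decide +kernel))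
noncomputable def rhca4a6ed3ed008a1a : CRef := CRef.mk (Pat.mk 0x3000000018000000020000000400000000000000000000000000000000 0x5000000070000000f0000003f0000001f000000070000000700000003000000070000000600000004 11 6) 0 0 (step_sound _ 193 [(rh24ae073cf30720c4.shift 1 6), rh947ba66dba122fe0] (by decide +kernel))
noncomputable def rh455576cdad266006 : CRef := CRef.mk (Pat.mk 0x600000003000000000000000080000000000000000000000000000000000000000 0x140000001c0000001c0000001c0000007f0000003c0000001f0000001c0000000c0000001c0000001c0000001c00000014 11 7) 0 0 (step_sound _ 227 [(rh53b3c253cb0c65f4.shift 2 7), rha62fa7c6bc99a4f4] (by decide +kernel))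
noncomputable def rh054fd987d12321e1 : CRef := CRef.mk (Pat.mk 0x9800000018000000000000000000000000 0xc0000001c0000007c000000fe0000001e0000000f0000007e0000001c 11 8) 0 0 (step_sound _ 133 [(rh361cc68994bd8a63.shift 3 3), rhe4e1eb37f7675b59] (by decide +kernel))
noncomputable def rhcaf90551c8c337cd : CRef := CRef.mk (Pat.mk 0xd800000098000000800000000000000000 0x480000005a0000007b000000df000000df0000008f0000007c0000001c 11 8) 0 0 (step_sound _ 67 [(rh0bb3bf9cae16a8bf.shift 1 0), (rh44b9c313859deb90.shift 0 1), rh72b06522cc100222, (rhea7a1800d6f053bd.shift 3 0)] (by decide +kernel))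
noncomputable def rh19b92fdfccbf80a7 : CRef := CRef.mk (Pat.mk 0x1000000090000000980000008000000000 0x68000000ef0000007f000000ff000000df0000008f0000000e 11 8) 0 0 (step_sound _ 99 [rh000505123efe701c, rh3d9652a46b5afaaf, rh5c067f23dc981b00, rh60c8ec712214929c, rh66c7c83a7c9c6108, rh67f2113018289d23, rhaf2fa9cc7c8459c0] (by decide +kernel))
noncomputable def rh304d90b17b3d1bf7 : CRef := CRef.mk (Pat.mk 0x9800000098000000800000000000000000 0x4c0000005c00000078000000ff000000df0000008f0000007c0000001c 11 8) 0 0 (step_sound _ 134 [rh89290c838bbe6e6a, (rhb2a0b9ccfb5cecd5.shift 3 3)] (by decide +kernel))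
noncomputable def rh7ad8fd78580865b8 : CRef := CRef.mk (Pat.mk 0x9800000018000000800000000000000000 0x1c000000fc0000007f000000df0000001f000000ef0000007e0000001c 11 8) 0 0 (step_sound _ 67 [(rh0bb3bf9cae16a8bf.shift 1 0), (rh6919d3368f73c4bc.shift 0 2), rhb7e2989563844cba] (by decide +kernel))
noncomputable def rh240420ae2a2f0953 : CRef := CRef.mk (Pat.mk 0x98000000180000000000000000 0x2800000038000000780000007f000000ff0000001e0000000c0000000c 11 8) 0 0 (step_sound _ 101 [(rh361cc68994bd8a63.shift 3 2), rha14c2b9714264759] (by decide +kernel))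
noncomputable def rh1b1165d17c9de3c4 : CRef := CRef.mk (Pat.mk 0x9000000098000000800000000000000000 0x2800000038000000380000007c000000ff0000007f000000ff000000dc0000008c0000000c00000008 11 8) 0 0 (step_sound _ 164 [(rh307cfb036978c820.shift 0 1), (rh68a777751bfeafdf.shift 3 2), (rhc0c71ca73184d2dd.shift 1 2), (rhfafeb437ceb8396d.shift 3 0)] (by decide +kernel))
noncomputable def rh6af52ecd2e6fb4dc : CRef := CRef.mk (Pat.mk 0x100000009000000098000000800000000000000000 0x4c0000004f0000007f000000fb000000df0000008f0000000c0000000c 11 8) 0 0 (step_sound _ 163 [(rh3a72e7892db5eaa9.shift 1 1), (rh6a6060c6b6bde3df.shift 3 2), rha268e490b831f7fa] (by decide +kernel))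
noncomputable def rhfac18d32976330ea : CRef := CRef.mk (Pat.mk 0x1000000090000000980000008000000000 0x6c0000006f0000007f000000fe000000de0000008f0000000e 11 8) 0 0 (step_sound _ 99 [rh19d86e0e6100e54a, (rh48f0f2a388c47970.shift 2 0), rh5c067f23dc981b00, rh66c7c83a7c9c6108, (rh763dc42a4ad21787.shift 1 0), (rhe9a65a40f6d46941.shift 0 1), (rhec7a26f00502793c.shift 1 0)] (by decide +kernel))
noncomputable def rh268ad5d82a79764b : CRef := CRef.mk (Pat.mk 0x200000012000000138000001000000000000000000 0xcc000000dc000000fe000001fe000001b80000011f0000003c0000001c 11 9) 0 0 (step_sound _ 132 [rh4e571ac04d875ce5, (rh622e057eef4d3aff.shift 1 3), (rh6859698ba935c3fa.shift 1 1), (rhd0de0a6d6677bb9a.shift 1 0), (rhdc16ca0ec7cd960f.shift 3 1), (rhf242e6ffc3620de2.shift 1 2)] (by decide +kernel))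
noncomputable def rhea217decea915712 : CRef := CRef.mk (Pat.mk 0x1800000018000000800000000000000000 0xc0000001f0000007c0000003f0000001f000000ef0000007e0000001c 11 8) 0 0 (step_sound _ 67 [(rh0bb3bf9cae16a8bf.shift 1 0), (rh34edcf02e53cccbb.shift 0 1), (rh84d1c02a8954c6a8.shift 3 1), rhb7e2989563844cba, (rhea7a1800d6f053bd.shift 3 0)] (by decide +kernel))
noncomputable def rh44169d92ae4dc8a2 : CRef := CRef.mk (Pat.mk 0x1800000018000000800000000000000000 0x16000000370000003f0000001f000000ef0000007e0000001e 11 8) 0 0 (step_sound _ 67 [(rh84d1c02a8954c6a8.shift 3 1), rh9b9e1e56ee8b0a25, rhb7e2989563844cba] (by decide +kernel))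
noncomputable def rh947bce8d427032cd : CRef := CRef.mk (Pat.mk 0x1800000018000000000000000000000000 0xc0000000f0000003f0000001f0000001f0000000f0000003e0000001c 11 6) 0 0 (step_sound _ 67 [rh72b06522cc100222, rh89fdf87e8478868f, (rhea7a1800d6f053bd.shift 3 0), (rhf22114a5e6576c41.shift 0 1)] (by decide +kernel))
noncomputable def rhe9f3d979a869a778 : CRef := CRef.mk (Pat.mk 0x30000000300000000000000000000000000000000000000000 0x200000026000000760000007f0000003e0000001f000000ff0000003e0000000e0000000a 11 8) 0 0 (step_sound _ 132 [(rh0bb3bf9cae16a8bf.shift 2 2), rh2ec9bec26513eaac, (rh84d1c02a8954c6a8.shift 4 3), (rhea7a1800d6f053bd.shift 4 2)] (by decide +kernel))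
noncomputable def rh2db71b84064a6baa : CRef := CRef.mk (Pat.mk 0x1800000018000000000000000000000000 0x1c0000001f0000001f0000001f0000001f0000000f0000007c0000001c 11 7) 0 0 (step_sound _ 67 [(rh0bb3bf9cae16a8bf.shift 1 0), rh72b06522cc100222, rh89fdf87e8478868f, (rhcb31140cc6786bc7.shift 0 1), (rhea7a1800d6f053bd.shift 3 0)] (by decide +kernel))
noncomputable def rhf92a3c5441347395 : CRef := CRef.mk (Pat.mk 0x12000000030000000000000000000000000 0x5000000070000000740000007c000001ff0000007e000001fe0000003c000000180000001000000010 11 9) 0 0 (step_sound _ 134 [(rh361cc68994bd8a63.shift 4 3), rh8aa57fc5ecb2b738] (by decide +kernel))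
noncomputable def rhda13e6b5106d9f09 : CRef := CRef.mk (Pat.mk 0x1200000013800000100 0x500000007000000070000007ff000003fe000006ff000003ff000001b800000108 11 11) 0 0 (step_sound _ 101 [(rh2230d0adc6913184.shift 4 0), (rh3c3bf765ee1a74b8.shift 4 0), (rh4ec170dbad1f7a5d.shift 1 0), (rh503845878d31a61c.shift 2 1), (rh57aa3fd6fed9606e.shift 0 1), (rh749ebde5973bae33.shift 2 0), rhb30ac121d1713613, rhb5f1fcab58481656, (rhbb8966640ea46563.shift 1 0), rhdaa47d1c0cb14cee] (by decide +kernel))
noncomputable def rhdafe3effcc3a252c : CRef := CRef.mk (Pat.mk 0x3800000018000000000000000000000000 0x20000000240000007c0000003f0000001e0000000f0000007e0000001e 11 7) 0 0 (step_sound _ 98 [rh49e900ce8c120465, (rh53b3c253cb0c65f4.shift 1 3)] (by decide +kernel))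
noncomputable def rh915ce0672efde9d3 : CRef := CRef.mk (Pat.mk 0xc0000000700000000000000000000000000000000000000000 0x28000000b8000000f8000001ff0000007e000000ff000000700000003e000000f8000000780000003800000028 11 9) 0 0 (step_sound _ 228 [(rh124e1422b028ecf1.shift 1 1), (rh34683d25e468c185.shift 1 1), (rh8f25df1c4401e6bf.shift 0 1), (rh98da1e0657fbd66a.shift 1 0), (rh99aef4d300741b93.shift 0 4), (rha3c927d637f04d80.shift 1 0), (rha5370a3fd8912186.shift 0 4), (rha8aa095f1119834e.shift 0 2), (rhc044b154f812082b.shift 3 3)] (by decide +kernel))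
noncomputable def rh324fe242da354e75 : CRef := CRef.mk (Pat.mk 0x40000002400000027000000200000000000000000000000000 0x2800000038000001b80000039f000001fe000003ff000003700000023c000001f80000007800000018 11 10) 0 0 (step_sound _ 196 [(rh31fe8b3434106052.shift 3 4), (rh35bb304cc4309780.shift 1 1), (rh4abcf44e69cbc844.shift 3 1), (rh62fb5e3e74b8fb98.shift 1 3), (rhbea923bc6549af5d.shift 0 3), (rhd56823fa0d7fad70.shift 3 3), (rhf612f18c17235cc7.shift 1 0)] (by decide +kernel))
noncomputable def rhd23fb0897235b2d8 : CRef := CRef.mk (Pat.mk 0x400000024000000260000002000000000000000000 0x3c000000bc000001bc000003bf000001fe000003ff0000037c0000022c0000002000000020 11 10) 0 0 (step_sound _ 164 [(rh09adab11a4f2061a.shift 3 2), (rh0d198e7b3b22188e.shift 3 2), (rh31fe8b3434106052.shift 3 3), (rh7ef08bf5d1d867f2.shift 0 1), (rh8df69e6ea7040845.shift 1 2), (rh9d60f8f4abd471d2.shift 2 1), (rhad87d98ff58cc971.shift 1 0), (rhaf0cdc8d03649a0d.shift 2 2), (rhb0518316f1151406.shift 0 1), (rhb8f4a4cacd51d366.shift 3 2)] (by decide +kernel))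
noncomputable def rhec8fd9c0afdec7bb : CRef := CRef.mk (Pat.mk 0x26000000260000002000000000000000000000000000000000000000000 0x3fe000003fc000001f00000037c0000037c000003bf000001fe000003ff0000001c0000001c00000014 11 10) 0 0 (step_sound _ 132 [(rh10b09c4a1821db2a.shift 4 2), (rh323ae5e6f1c52cc0.shift 1 4), (rh59f92a84afa916ea.shift 4 3), (rha924d3a44abce706.shift 1 3), rhaca9071dad644d9d, (rhe59676039f82dea6.shift 2 2)] (by decide +kernel))
noncomputable def rha863cc305a27ae62 : CRef := CRef.mk (Pat.mk 0x9800000018000000000000000000000000 0xc000000ff0000007e000000df0000001f0000000f0000003c0000001c 11 8) 0 0 (step_sound _ 67 [(rh58aa5b6c63757ef2.shift 0 1), rh72b06522cc100222, (rh84d1c02a8954c6a8.shift 3 1)] (by decide +kernel))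
noncomputable def rh0b8f95f95ba0e04e : CRef := CRef.mk (Pat.mk 0x300000003000000000000000000000000000000000 0x36000000360000007e0000003e0000003e0000001e000000ff0000003e0000000a 11 8) 0 0 (step_sound _ 162 [(rh03bee4f9a5b24ce0.shift 1 2), rh6b437b38cf380395, (rhaf64c2d177688631.shift 1 1), (rhb285e473347a5781.shift 1 1)] (by decide +kernel))
noncomputable def rhbe8d6c128bbcc2b1 : CRef := CRef.mk (Pat.mk 0x20000000300000003000000000000000000000000000000000 0xa0000000e0000000e000000760000003e0000003e0000001e0000003f0000000e0000000a 11 7) 0 0 (step_sound _ 162 [(rh4a06101f9b0851f6.shift 1 0), (rh7dcc577706dd2abd.shift 1 4), (rhd268c6b2d65bf10d.shift 1 4), rhd56ee488268b9963] (by decide +kernel))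
noncomputable def rh2ff5af9726fbdf8c : CRef := CRef.mk (Pat.mk 0x1800000018000000000000000000000000 0x180000001f0000001f0000001b0000001f0000000f0000003c0000001c 11 6) 0 0 (step_sound _ 67 [(rh3091e8c1b6132e4c.shift 0 1), rh72b06522cc100222, (rh84d1c02a8954c6a8.shift 3 1), (rhea7a1800d6f053bd.shift 3 0)] (by decide +kernel))
noncomputable def rhaab590536ec4d68c : CRef := CRef.mk (Pat.mk 0x300000003000000100000000000000000000000000 0x500000007a0000007e0000006e0000003e0000003e000001de000000ff000001fe0000000a 11 9) 0 0 (step_sound _ 162 [rh023cc353334a8e25, (rh03bee4f9a5b24ce0.shift 1 2), (rhd268c6b2d65bf10d.shift 1 4), (rhe8169dd67fe0da8d.shift 1 0)] (by decide +kernel))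
noncomputable def rhc8bc1f21a27694f7 : CRef := CRef.mk (Pat.mk 0x8000000180000001c00000000000000000000000000000000 0x18000000780000001f0000001f0000001f00000003000000070000000700000005 11 7) 0 0 (step_sound _ 227 [rh01539ed7ad259daf, (rh2145e1d24b96a57e.shift 3 4)] (by decide +kernel))
noncomputable def rhac1bfbf9dd6f9092 : CRef := CRef.mk (Pat.mk 0x800000008000000180000001800000000000000000000000000000000 0x100000007c0000000f0000001f0000001f00000007000000070000000700000005 11 7) 0 0 (step_sound _ 228 [(rh2f68792b6b779e96.shift 3 4), rh3a80149b67bb3b83] (by decide +kernel))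
noncomputable def rh6db551f9eb3fc3d1 : CRef := CRef.mk (Pat.mk 0x8000000180000001800000000 0x3f0000003f0000007b0000001f0000001f00000004 11 7) 0 0 (step_sound _ 131 [(rh2145e1d24b96a57e.shift 3 1), rh50e5c06b96678ecb] (by decide +kernel))
noncomputable def rha93744f40c74d48e : CRef := CRef.mk (Pat.mk 0x400000000000000260000002600000022000000000 0x40000001c0000003c000003ff000003fe000001bf00000370000003700000023000000010 11 10) 0 0 (step_sound _ 165 [(rh102916a627c132e0.shift 4 1), (rh195e6cef759c37f2.shift 0 1), (rh3d47d54124e35533.shift 4 0), (rhf32e81d879b06dff.shift 4 0)] (by decide +kernel))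
noncomputable def rh3136a2b4b35d10ea : CRef := CRef.mk (Pat.mk 0x18000000180000000800000000 0x1c0000001f0000003f0000001f0000001f0000000f00000004 11 6) 0 0 (step_sound _ 131 [(rh2ddd6c94c59240f8.shift 3 1), rh539c81030335efaf, (rh7b9fbdf6d2d059e4.shift 2 1)] (by decide +kernel))
noncomputable def rh15c513a92f9543b7 : CRef := CRef.mk (Pat.mk 0x40000000e00000006000000200000000000000000000000000 0x300000003000000074000000fc0000007c000003bf000001fe000001ff00000014 11 10) 0 0 (step_sound _ 68 [(rh18292bb1ef730b41.shift 4 2), (rh3c77985752ac3c45.shift 3 1), rh68dffe739d2f7874, (rh93b0e93fb9f63408.shift 3 1), (rhc1ff5c2cbf72ce3c.shift 4 0)] (by decide +kernel))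
noncomputable def rh179ebff7e77cc28e : CRef := CRef.mk (Pat.mk 0x9800000018000000000000000000000000 0x3e0000003e00000074000000ff0000001f0000000f0000000e0000000e 11 8) 0 0 (step_sound _ 133 [(rh361cc68994bd8a63.shift 3 3), rhbfb91f3cc31a773e] (by decide +kernel))
noncomputable def rh1d79788967e8094e : CRef := CRef.mk (Pat.mk 0x980000001800000000 0xff0000003e0000007c000000ff0000001f00000004 11 8) 0 0 (step_sound _ 69 [(rh361cc68994bd8a63.shift 3 1), rh749224aef82538f0] (by decide +kernel))
noncomputable def rh0e37a7fe23de80cb : CRef := CRef.mk (Pat.mk 0x20000000e00000006000000200000000000000000000000000 0x34000000fc0000007c000003bf000001fe000001ff00000004 11 10) 0 0 (step_sound _ 68 [(rh06c72b10a7f52c35.shift 3 2), (rh2b321b3bba2075df.shift 2 0), rh68dffe739d2f7874, (rhd8c1c87541a7b7cb.shift 4 1)] (by decide +kernel))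
noncomputable def rh68700bfc2d34e2b9 : CRef := CRef.mk (Pat.mk 0x8000000480000000c00000048000000000000000000000000000000000 0x280000007e000000ff000007be000000f8000007fe000000ff0000007e0000003800000028 11 11) 0 0 (step_sound _ 132 [(rh0ea3d6cbc51cea60.shift 3 1), rh2caae751c885d864, (rh7c6eff545af140bc.shift 3 2), (rh7fa4493a99c3bc1f.shift 3 3), (rhb927bcae22c2e7c1.shift 3 0), (rhc5f4d1574c7890d6.shift 3 3)] (by decide +kernel))
noncomputable def rhe5f8141d56fcbcca : CRef := CRef.mk (Pat.mk 0x1200000003000000130000000000000000000000000 0x1ff000000fe000001af0000003e000001fe0000000e0000000400000004 11 9) 0 0 (step_sound _ 197 [(rh5c5e593799055d58.shift 4 3), rhf1ebe39139409e50] (by decide +kernel))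
noncomputable def rh114ae3d38be02a22 : CRef := CRef.mk (Pat.mk 0x10000000130000001600000000000000000000000000000000 0x50000007f0000003f0000006f0000003e0000001b0000001700000006000000070000000700000001 11 7) 0 0 (step_sound _ 193 [(rh225b49a2593a35ce.shift 0 4), (rh566659606c8abe04.shift 0 3), rh6d9172875361fe79, (rh70e33bfdf511e144.shift 1 1), (rh7ff002cb0ecfac78.shift 0 3), (rhb0097c94de2e9b0e.shift 0 4)] (by decide +kernel))
noncomputable def rh35d4f44cf803a98c : CRef := CRef.mk (Pat.mk 0x20000001800000050000000180000000000000000000000000000000000000000 0x20000000e0000000e0000000fc000000ef000000f800000058000000f8000000ec000000fc000000e0000000e000000020 11 8) 0 0 (step_sound _ 195 [(rh5547deaa0b4f4876.shift 0 5), (rh9186c01de5c9f8d6.shift 2 1), (rhfb832b2ac5042e07.shift 2 1), (rhfcae62fd61c85f97.shift 2 0)] (by decide +kernel))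
noncomputable def rh0df37c83fe21a7ea : CRef := CRef.mk (Pat.mk 0x600000014000000060000000000000000000000000000000000000000 0x800000038000000380000003f0000003b0000003f000000160000003e0000003b0000003f000000380000003800000008 11 6) 0 0 (step_sound _ 193 [(rh86d8d3372e805f77.shift 0 2), (rh9186c01de5c9f8d6.shift 0 1), (rhb6428504fe0baec6.shift 0 3), (rhfb832b2ac5042e07.shift 0 1), rhfcae62fd61c85f97] (by decide +kernel))
noncomputable def rh7dd497fa669bbc50 : CRef := CRef.mk (Pat.mk 0x100000001300000012000000000000000000000000000000000000000000000000 0xd0000000f0000000f0000001e0000001b0000001f000000070000000300000003000000070000000700000005 11 5) 0 0 (step_sound _ 194 [(rh2fe78cc5ca4405d8.shift 0 6), rhdbbcbf2be800a0a4] (by decide +kernel))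
noncomputable def rh1cfda6d6c618c798 : CRef := CRef.mk (Pat.mk 0x180000009000000010000000000000000000000000 0x40000001e000000fe0000007f0000003f0000003f00000030 11 8) 0 0 (step_sound _ 133 [(rh2fe78cc5ca4405d8.shift 3 4), rhe30632ef3b921b54] (by decide +kernel))
noncomputable def rh04463472b24f2e9a : CRef := CRef.mk (Pat.mk 0x400000004c00000048000000080000000000000000000000000000000000000000 0x420000006f0000007b0000003f0000007f0000003c0000001c0000001c00000014 11 7) 0 0 (step_sound _ 131 [rh4e246daef4128b76, (rh7f4a2d2649a1a789.shift 2 1), (rh8cdd36b03d57a2f6.shift 2 2), (rhf10e92a230531025.shift 2 0), (rhf785395473d8d5ae.shift 0 3)] (by decide +kernel))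
noncomputable def rh108a9390f3894c11 : CRef := CRef.mk (Pat.mk 0x100000001300000012000000020000000000000000000000000 0xe0000000e0000010e000001be000001fe000000fe0000009f0000009e0000001a 11 9) 0 0 (step_sound _ 100 [(rh0fbbb92589a12005.shift 4 1), rh465c3fc2e2dd03e5, (rh8afb74697d609424.shift 2 0)] (by decide +kernel))
noncomputable def rh2cff7fb4dcb84e79 : CRef := CRef.mk (Pat.mk 0x480000000c000000480000000800000000000000000 0x28000000380000007e000000ff000007fe000000f8000007be000000ff0000007e00000028 11 11) 0 0 (step_sound _ 164 [(rh03787e581418bf47.shift 3 2), (rh447d825f69f6cd0d.shift 3 1), rh9685487160fc204f, (rha8b0985656d36605.shift 3 2), (rhc1279b299f75d50e.shift 3 0), (rhebbf48b1a3ae19f7.shift 3 2)] (by decide +kernel))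
noncomputable def rh0c7f8a486e7743aa : CRef := CRef.mk (Pat.mk 0x13000000030000001200000000000000000 0x4000000040000000e000001fe0000003e000001af000000fe000001ff 11 9) 0 0 (step_sound _ 37 [(rh7b1f1fb55310c477.shift 4 0), rh8ac93a77fd07b191] (by decide +kernel))
noncomputable def rh6b7ac2f6f1469331 : CRef := CRef.mk (Pat.mk 0x16000000130000001000000000000000000000000000000000 0x1000000070000000700000006000000170000001b0000003e0000006f0000003f0000007f00000005 11 7) 0 0 (step_sound _ 129 [(rh01e7a5813b8e330e.shift 0 3), rh087463af8fb1450f, (rh215e11e099257d75.shift 1 3), (rh3227f9918bb30abf.shift 0 1), (rh35b3e8f23ae0e21b.shift 0 1), (rh4c145d583973abd2.shift 0 1)] (by decide +kernel))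
noncomputable def rhd03f2c4bd56bc8b3 : CRef := CRef.mk (Pat.mk 0x1800000050000000180000000200000000000000000000000000000000 0x20000000e0000000e0000000fc000000ec000000f800000058000000f8000000ef000000fc000000e0000000e000000020 11 8) 0 0 (step_sound _ 195 [(rh2fb729f63f5551ca.shift 2 0), (rh3dc4058870a99848.shift 2 1), (rh8e1a2b0d48cea5a0.shift 0 3), (rhcc8170b99db4d29b.shift 2 2)] (by decide +kernel))
noncomputable def rh994b090cec6360ff : CRef := CRef.mk (Pat.mk 0x600000014000000060000000000000000000000000000000000000000 0x800000038000000380000003f0000003b0000003e000000160000003f0000003b0000003f000000380000003800000008 11 6) 0 0 (step_sound _ 193 [(rh29e0362802793f45.shift 0 3), rh2fb729f63f5551ca, (rh3dc4058870a99848.shift 0 1), (rh4560fd3df9297354.shift 0 1), (rhcc8170b99db4d29b.shift 0 2)] (by decide +kernel))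
noncomputable def rh850510bee41a6726 : CRef := CRef.mk (Pat.mk 0x120000001300000010000000000000000000000000 0x500000007000000070000000300000003000000070000001f0000001b0000001e0000000f0000000f0000000d 11 5) 0 0 (step_sound _ 162 [rh30927b22468634ad, (rh361cc68994bd8a63.shift 0 4)] (by decide +kernel))
noncomputable def rhe7cbb8bdd1490528 : CRef := CRef.mk (Pat.mk 0x10000000900000001800000000 0x300000003f0000003f0000007f000000fe0000001e00000004 11 8) 0 0 (step_sound _ 69 [(rh361cc68994bd8a63.shift 3 1), rhc3f641f5eb4080d1] (by decide +kernel))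
noncomputable def rhecfc61122a569668 : CRef := CRef.mk (Pat.mk 0x8000000480000004c00000040 0x140000001c0000001c0000003c0000007f0000003f0000007b0000006f00000042 11 7) 0 0 (step_sound _ 131 [(rh21828636a210c6c1.shift 2 1), (rh24b600d4271b3731.shift 0 1), rh357b9c672587cd84, (rhc85cc95794737cf7.shift 2 1), (rhd2ae83612e3f2da5.shift 2 1)] (by decide +kernel))
noncomputable def rhed0f11e666e73b84 : CRef := CRef.mk (Pat.mk 0x200000012000000130000001000000000000000000 0x1a0000009e0000009f000000fe000001fe000001be0000010e0000000e0000000e 11 9) 0 0 (step_sound _ 164 [rh0155fe3b33f0166f, (rh4028bfb90d696872.shift 2 2), (rh6a6060c6b6bde3df.shift 4 2)] (by decide +kernel))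
noncomputable def rh897bded324545920 : CRef := CRef.mk (Pat.mk 0x400000004c00000041000000000000000000000000000000000 0xa8000000f8000000f800000078000004fe000006ff000007fe000003ff000003f0000002f0000000f0 11 11) 0 0 (step_sound _ 131 [(rh62e1be487d928a58.shift 1 2), (rh74300a63a274f3fb.shift 3 0), (rhaa26c83b691e7073.shift 0 3), (rhd79f87ddfcd82202.shift 2 0)] (by decide +kernel))
noncomputable def rh0ecac440ff9550d9 : CRef := CRef.mk (Pat.mk 0x680000000c000000000000000000000000000000000000000000000000 0x140000001c0000001c0000003c0000003f0000006c0000003c0000001c0000000c0000000c0000001c0000001c00000014 11 7) 0 0 (step_sound _ 196 [rh1e9f113a71b5ee3b, (rh3fc040e777f1679e.shift 2 6)] (by decide +kernel))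
noncomputable def rh62bce27065a7cac3 : CRef := CRef.mk (Pat.mk 0x1a0000000300000001000000000 0x7f000000fe000001be0000003e0000003e0000002e 11 9) 0 0 (step_sound _ 133 [rh07d46695a29f51c9, (rh5c5e593799055d58.shift 4 1)] (by decide +kernel))
noncomputable def rhdd194bb14564b4a7 : CRef := CRef.mk (Pat.mk 0x1a000000030000000000000000000000000 0x180000007f000001fe000001be000001be000001fc000001d800000018 11 9) 0 0 (step_sound _ 68 [(rh1312039aa32adc11.shift 0 1), (rh4821dcf828b9d7bf.shift 4 0), (rhc712e73f16bb08c0.shift 1 0), (rhcf80391c5046a495.shift 4 0)] (by decide +kernel))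
noncomputable def rh1ce1159d9b391a03 : CRef := CRef.mk (Pat.mk 0x18000000030000000000000000000000000 0xc000001ef0000007e0000007f0000000e0000000e 11 9) 0 0 (step_sound _ 134 [rh92fcce1eb30b23fe, (rhca9569cc80abfe76.shift 4 3)] (by decide +kernel))
noncomputable def rhf82d27317bfadf32 : CRef := CRef.mk (Pat.mk 0x200000000680000020c0000000800000000000000000000000000000000 0x20000000a0000003e40000006c000003ef000001fb000000ff000000fe000000fc00000014 11 10) 0 0 (step_sound _ 99 [(rh5192e84255fe3228.shift 2 1), (rh56259dd1390eee46.shift 2 0), (rh8cdd36b03d57a2f6.shift 2 1), (rha334c4d7dc168003.shift 0 1), (rhda88202a27137cb5.shift 2 1), (rhe286c75f2739cce2.shift 2 2)] (by decide +kernel))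
noncomputable def rh3156fcc0c20d2471 : CRef := CRef.mk (Pat.mk 0x800000009a0000008300000002000000000000000000000000 0xd0000002f000000ff000000da000000fb0000007e000000ff0000007f00000029 11 8) 0 0 (step_sound _ 193 [rh17f9c7eb2b378887, (rh330a005829cdd297.shift 0 3), (rhdc5671191cba2261.shift 0 2), (rhefb41fb43257ec4b.shift 0 2)] (by decide +kernel))
noncomputable def rhf8a2ee5dad62ea5b : CRef := CRef.mk (Pat.mk 0x200000002680000020c00000000000000000000000000000000 0x3a0000027e0000036e000003fc000001ef0000017e0000017e00000050 11 10) 0 0 (step_sound _ 133 [(rh1c62b6193297d9e3.shift 2 4), rhd46fe2ebec66b80a] (by decide +kernel))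
noncomputable def rh0663fcc719721e93 : CRef := CRef.mk (Pat.mk 0x400000004c00000045800000040000000000000000000000000 0x80000000f4000000fc0000007c000004ff000006de000007df000003df0000029f0000021c00000014 11 11) 0 0 (step_sound _ 195 [(rh374e1de1c4fe1205.shift 2 0), (rh98cacf36ec4a43e1.shift 3 1), (rh9b201febc664e1f0.shift 0 1), (rhb1d67fc1961ad803.shift 2 0)] (by decide +kernel))
noncomputable def rhe149352b5e4047f1 : CRef := CRef.mk (Pat.mk 0x1a00000003000000000000000000000000000000000 0x3f000001fe000001be000001b0000001f8000001fe0000007800000020 11 9) 0 0 (step_sound _ 100 [(rh1d187b97af6ae007.shift 1 1), rh21e37028b25b9b71, (rh4821dcf828b9d7bf.shift 4 1), (rhcf80391c5046a495.shift 4 1)] (by decide +kernel))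
noncomputable def rh115377d93ef986b3 : CRef := CRef.mk (Pat.mk 0x820000001a000000830000000000000000000000000000000000000000 0x5000000070000000f0000002f000000fe0000001b000000f30000007e0000003f0000003f0000002f00000005 11 8) 0 0 (step_sound _ 257 [rh32706befdc48ca59, (rh9a369cb82ea472da.shift 0 5), (rhb77bfac3e9efecea.shift 0 5), (rhc85cc95794737cf7.shift 0 5), (rhe62cab2ff5ad6fe2.shift 0 5)] (by decide +kernel))
noncomputable def rh8efa8922863c0551 : CRef := CRef.mk (Pat.mk 0x800000009a000000820000000000000000000000000000000000000000 0x100000001d0000001f0000002f000000ff000000db000000ff0000007d0000007f0000007c0000003c00000010 11 8) 0 0 (step_sound _ 163 [rh2f7080a659d9bd96, (rh3258de4c99bac8dd.shift 0 2), (rh3b98e4e94e21440c.shift 0 2), (rh5ee9775f641b57d0.shift 0 4), (rhafbf85665ef748c4.shift 0 2), (rhb0604cff2cc02db5.shift 0 1), (rhdda086268259557e.shift 0 1)] (by decide +kernel))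
noncomputable def rhc927fb7e06afd25c : CRef := CRef.mk (Pat.mk 0x800000009a000000820000000000000000000000000000000000000000 0x10000000180000001c0000002c000000fc000000db000000ff0000007f000000ff0000007c0000003c00000010 11 8) 0 0 (step_sound _ 163 [(rh5ee9775f641b57d0.shift 0 4), (rh74eafca2790cf938.shift 0 1), (rh8f5a0debc14c64f6.shift 0 2), (rhafbf85665ef748c4.shift 0 2), rhdc8ca092e87e77e8, (rhfe2b17b9d852adf5.shift 0 1)] (by decide +kernel))
noncomputable def rhf9add88e4ecba1a6 : CRef := CRef.mk (Pat.mk 0x600000000c000000000000000000000000 0x140000001c0000001c0000000c0000007c0000003c0000007f0000001f00000014 11 7) 0 0 (step_sound _ 131 [rh28c83b49a2811bf9, (rhb2a0b9ccfb5cecd5.shift 2 3)] (by decide +kernel))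
noncomputable def rh871d914b7a492efe : CRef := CRef.mk (Pat.mk 0x1e00000012000000000000000000000000 0x40000000c0000003f0000001e0000001a0000003f0000003f00000028 11 6) 0 0 (step_sound _ 164 [(rh33e738c4ed385b9f.shift 1 4), rh590f99e31ac51683] (by decide +kernel))
noncomputable def rhed26c2cf94eee351 : CRef := CRef.mk (Pat.mk 0x680000000800000000000000000000000000000000 0x140000001c0000001f0000003f000000ff0000006c0000001c0000001c0000001c0000001c00000014 11 8) 0 0 (step_sound _ 195 [(rh1ff9a3ead91e5897.shift 2 0), (rh429e0350fe767c28.shift 2 2), (rhaf7955adbc1f7ff4.shift 2 1), (rhb9a02b14ad2280dd.shift 2 1), (rhe7744232a23032a1.shift 2 2), (rheef59bf9490c3af8.shift 0 3)] (by decide +kernel))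
noncomputable def rh08e8ce1cbd12124b : CRef := CRef.mk (Pat.mk 0x180000008a000000000000000000000000 0xe0000000f0000001c000000ff0000007f0000000e0000000c 11 8) 0 0 (step_sound _ 98 [rh4641d5417c88831f, (rh53b3c253cb0c65f4.shift 0 3)] (by decide +kernel))
noncomputable def rh4c2de4351f2887c2 : CRef := CRef.mk (Pat.mk 0x6000000028000000000000000000000000 0x3f0000007c00000070000000fc0000003e000000f800000078 11 8) 0 0 (step_sound _ 100 [(rh53b3c253cb0c65f4.shift 2 3), rhb86e2aa155f10c64] (by decide +kernel))
noncomputable def rhd6aab0dd18f4d8ed : CRef := CRef.mk (Pat.mk 0x80000000180000008a000000000000000000000000 0x20000000f000000018000000ff0000007f0000003e0000003c 11 8) 0 0 (step_sound _ 98 [(rh53b3c253cb0c65f4.shift 0 3), rh70186197807e9c1d] (by decide +kernel))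
noncomputable def rhb9d707a1c8baab63 : CRef := CRef.mk (Pat.mk 0x80000000980000008a00000000000000000000000000000000 0xc0000002e000000ff000000dc000000fe0000007f0000007e0000007c00000028 11 8) 0 0 (step_sound _ 132 [(rh261621c8b72adfe9.shift 0 1), rh46ab0c2a9b9b319e, (rhaccdba7baad01112.shift 0 1), (rhd3f17668cbdbc349.shift 1 1), (rhec8e258b8e00c7b4.shift 3 0)] (by decide +kernel))
noncomputable def rh33f06da659b29cb1 : CRef := CRef.mk (Pat.mk 0x80000000980000008a00000000000000000000000000000000 0xc0000002c000000fc000000d8000000ff0000007e0000007f0000007c00000028 11 8) 0 0 (step_sound _ 130 [(rh53b3c253cb0c65f4.shift 0 4), rha2b2cab58841e619] (by decide +kernel))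
noncomputable def rh82fdfb986da5f0ac : CRef := CRef.mk (Pat.mk 0x800000001800000092000000000000000000000000 0x50000000f0000002f000000ff0000001f000000fe0000003f0000003f00000005 11 8) 0 0 (step_sound _ 101 [(rh2fe78cc5ca4405d8.shift 3 3), rh50ea659c5a13b7a6] (by decide +kernel))
noncomputable def rhf2b9b79c30e7267c : CRef := CRef.mk (Pat.mk 0x800000001800000092000000000000000000000000000000000000000000000000 0x80000002a000000ff0000001f000000fe00000036000000340000003c000000380000003800000028 11 8) 0 0 (step_sound _ 197 [(rh2fe78cc5ca4405d8.shift 3 6), rh38a984a8f4da7107] (by decide +kernel))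
noncomputable def rhe2679aa9fbe49bd9 : CRef := CRef.mk (Pat.mk 0x1a0000001200000000000000000000000000000000 0x4000000040000000e0000000f0000001f0000001e0000007f0000007f0000003d00000028 11 7) 0 0 (step_sound _ 131 [rh46ab0c2a9b9b319e, (rh9e086e2a41e8f3a8.shift 0 2), (rhd8be3b7ca6adb62f.shift 0 4), (rhff6d5b43c9bc859b.shift 0 1)] (by decide +kernel))
noncomputable def rh26a98646e59f1aad : CRef := CRef.mk (Pat.mk 0x1a000000920000000000000000000000000000000000000000 0x50000000f0000000f0000001f0000001b000000fe0000000f0000000f0000000f0000000700000004 11 8) 0 0 (step_sound _ 129 [(rh0b2269650396b9a9.shift 0 2), (rh10a2242b8608ecb8.shift 0 1), (rh4b89a18dc1079b2f.shift 0 1), (rh5e34f11c52116384.shift 0 2), (rh6fc706adb2aaec4b.shift 0 1), rh77fa0a4f85863652, (rh7ecc293e0f10e07d.shift 0 3)] (by decide +kernel))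
noncomputable def rh8fe52b68cb76e8be : CRef := CRef.mk (Pat.mk 0x180000008e00000000000000000000000000000000 0xc0000000e0000001f0000001b000000fe0000007c0000001c0000001c00000014 11 8) 0 0 (step_sound _ 132 [(rh1464a7cb3798a7af.shift 0 1), rha9745e06398f7c24, (rhb8546cc3e1ee40c7.shift 1 3), (rhbbe16ff26f7822db.shift 1 1)] (by decide +kernel))
noncomputable def rh0022f7d4027408d1 : CRef := CRef.mk (Pat.mk 0x300000011400000000000000000000000000000000 0x1e0000003e00000036000001fe0000001f0000007f0000003a00000002 11 9) 0 0 (step_sound _ 131 [(rh53b3c253cb0c65f4.shift 1 4), rh644a26da51ca3a63] (by decide +kernel))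
noncomputable def rh6e85bb2b9f609f4d : CRef := CRef.mk (Pat.mk 0x8000000180000008e0000000000000000 0xd0000000f0000001f0000001b000000fe0000007300000010 11 8) 0 0 (step_sound _ 68 [(rh1460cc66e5c90c7e.shift 0 1), (rh55a1f6c57a317ce6.shift 3 0), (rhb8546cc3e1ee40c7.shift 1 1)] (by decide +kernel))
noncomputable def rh966ea488321e710f : CRef := CRef.mk (Pat.mk 0x40000000c00000005800000000000000000000000000000000 0x140000001c0000003c000000fc000000de0000005f0000005f000000ff000000f4000000a0 11 8) 0 0 (step_sound _ 195 [(rh13fd9e8f08c02c3d.shift 3 0), (rh92f9d0d45b5b8cde.shift 0 1), (rhdfa2794131594932.shift 2 1)] (by decide +kernel))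
noncomputable def rh44be5062d93497ed : CRef := CRef.mk (Pat.mk 0xc000000010000000000000000000000000 0x2800000038000000780000007e000000ff0000007e0000007f0000003e0000002e 11 8) 0 0 (step_sound _ 99 [rh3ddcd74eb48bb311, (rh64fd5766270a6a1e.shift 1 0), (rh7502a9258f92337c.shift 3 0), (rhd06a3fb214439eaf.shift 2 3)] (by decide +kernel))
noncomputable def rh363fbca1be6a5c9f : CRef := CRef.mk (Pat.mk 0x410000004c00000040000000000000000000000000000000000 0xf0000002f0000003f0000003ff000007fe000006ff000004fe00000078000000f8000000f8000000a8 11 11) 0 0 (step_sound _ 195 [(rh34504ae126c5d9d5.shift 2 2), (rh854fdc369b550b27.shift 1 0), (rh9eee4c6bb46bd9bb.shift 0 5), (rhc135a6f699b09cdd.shift 3 0)] (by decide +kernel))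
noncomputable def rh1937a365b56aac58 : CRef := CRef.mk (Pat.mk 0xc000000680000000000000000000000000000000000000000 0x140000001c0000001c0000000c0000000c0000001c0000003c0000006c0000003f0000003c0000001c0000001c00000014 11 7) 0 0 (step_sound _ 196 [rhb3ae00103589d4de, (rhd6e447e81774439e.shift 2 5)] (by decide +kernel))
noncomputable def rha69d707f507555e6 : CRef := CRef.mk (Pat.mk 0x1000000030000001a00000000000000000 0x2e0000003e0000003e000001be000000fe0000007f 11 9) 0 0 (step_sound _ 37 [(rh7b1f1fb55310c477.shift 4 0), rhd798ef74f959d1d1] (by decide +kernel))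
noncomputable def rh79a56eb1e75aa4e3 : CRef := CRef.mk (Pat.mk 0x30000001a0000000000000000000000000 0x18000001d8000001fc000001be000001be000001fe0000007f00000018 11 9) 0 0 (step_sound _ 164 [(rh5d54cb79a67f97ab.shift 4 1), (rh7a1a944dcc203504.shift 1 0), (rhc2c7bae8f445c890.shift 4 1), (rhf4db68b9f29d9cf4.shift 0 1)] (by decide +kernel))
noncomputable def rhf211f32e160f9b6b : CRef := CRef.mk (Pat.mk 0x300000018000000000 0xe0000000e0000007f0000007e000001ef0000000c 11 9) 0 0 (step_sound _ 38 [(rh09d4dfe75d4407d6.shift 4 1), rh9c411d2b2e3d0c6d] (by decide +kernel))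
noncomputable def rh619745615ed59603 : CRef := CRef.mk (Pat.mk 0x80000020c00000068000002000000000000000000 0x14000000fc000000fe000000ff000001fb000003ef0000006c000003e4000000a000000020 11 10) 0 0 (step_sound _ 195 [(rh03dfdf12d5937476.shift 2 2), (rh083c4fbc294a24b8.shift 2 0), (rh68a777751bfeafdf.shift 2 3), (rha77f215723363df0.shift 2 3), (rhaa074bc79cbd73ab.shift 0 2), (rhc85cc95794737cf7.shift 2 3)] (by decide +kernel))
noncomputable def rh99ab794fae62d76f : CRef := CRef.mk (Pat.mk 0x2000000830000009a000000800000000000000000 0x290000007f000000ff0000007e000000fb000000da000000ff0000002f0000000d 11 8) 0 0 (step_sound _ 65 [(rh0095f0d853411769.shift 0 1), (rh36e6bb6cca6188da.shift 0 1), rhb0c0caaae9278097, rhda5b5ea9190c0809] (by decide +kernel))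
noncomputable def rh8b24bd8bc5caa563 : CRef := CRef.mk (Pat.mk 0x20c000002680000020000000000 0x500000017e0000017e000001ef000003fc0000036e0000027e0000003a 11 10) 0 0 (step_sound _ 101 [rhc0239ae2c177fbc9, (rhc10214bf3fe8094a.shift 2 2)] (by decide +kernel))
noncomputable def rhc7b8d1e7ad37ade7 : CRef := CRef.mk (Pat.mk 0x4000000458000004c00000040000000000000000000000000000000000 0x140000021c0000029f000003df000007df000006de000004ff0000007c000000fc000000f400000080 11 11) 0 0 (step_sound _ 131 [(rh22da7bfa02527236.shift 0 1), (rh443239dc925135e3.shift 2 1), (rh5e510c163318571c.shift 3 0), (rhd56637c057a804d1.shift 2 1)] (by decide +kernel))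
noncomputable def rhf1f24d7bc0d37d85 : CRef := CRef.mk (Pat.mk 0x30000001a00000000000000000 0x2000000078000001fe000001f8000001b0000001be000001fe0000003f 11 9) 0 0 (step_sound _ 132 [(rh329e621625bc6172.shift 1 0), (rh5d54cb79a67f97ab.shift 4 0), rhb7b6bcee7ef4e0aa, (rhc2c7bae8f445c890.shift 4 0)] (by decide +kernel))
noncomputable def rh745fff7166ee2604 : CRef := CRef.mk (Pat.mk 0x830000001a0000008200000000000000000000000000000000 0x50000002f0000003f0000003f0000007e000000f30000001b000000fe0000002f0000000f0000000700000005 11 8) 0 0 (step_sound _ 97 [(rh06ddc8bd010ad99c.shift 0 2), (rh8cdd36b03d57a2f6.shift 0 1), (rha613ffd40b6c9d24.shift 0 1), rhc05d451ce3dd5e48, (rhe4441baab75a6f73.shift 0 1)] (by decide +kernel))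
noncomputable def rhce5009aae41255e5 : CRef := CRef.mk (Pat.mk 0x820000009a0000008000000000000000000000000000000000 0x100000003c0000007c0000007f0000007d000000ff000000db000000ff0000002f0000001f0000001d00000010 11 8) 0 0 (step_sound _ 195 [(rh04d899bdc6923101.shift 0 2), (rh281da4ebeab7dbf4.shift 0 2), rh4d1b6788968d44bb, (rh9707a54741bc1ea1.shift 0 2), (rhce2dbe6d9b8586ea.shift 0 4), (rhe65292560721a966.shift 0 5), (rhee4228e527646439.shift 0 1)] (by decide +kernel))
noncomputable def rhc22bffc2451f8523 : CRef := CRef.mk (Pat.mk 0x820000009a0000008000000000000000000000000000000000 0x100000003c0000007c000000ff0000007f000000ff000000db000000fc0000002c0000001c0000001800000010 11 8) 0 0 (step_sound _ 195 [(rh10c45aaeb58193e7.shift 0 3), rh5044f69ea7942337, (rhad9f103db8ba9058.shift 0 2), (rhce2dbe6d9b8586ea.shift 0 4), (rhd905c2f9447a38a2.shift 0 3), (rhe65292560721a966.shift 0 5)] (by decide +kernel))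
noncomputable def rh1b285008457007f1 : CRef := CRef.mk (Pat.mk 0xc0000006000000000000000000000000000000000 0x140000001f0000007f0000003c0000007c0000000c0000001c0000001c00000014 11 7) 0 0 (step_sound _ 131 [(rh5419adcd928dba20.shift 2 4), rha453364a09cfcd2b] (by decide +kernel))
noncomputable def rh7f9d86ec85f2ce4f : CRef := CRef.mk (Pat.mk 0x120000001e000000000000000000000000 0x280000003f0000003f0000001a0000001e0000003f0000000c00000004 11 6) 0 0 (step_sound _ 68 [rhc958543207087f44, (rhe25b0a99195a5d59.shift 1 2)] (by decide +kernel))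
noncomputable def rhf436605080bdafc9 : CRef := CRef.mk (Pat.mk 0x8000000680000000000000000000000000000000000000000 0x140000001c0000001c0000001c0000001c0000006c000000ff0000003f0000001f0000001c00000014 11 8) 0 0 (step_sound _ 131 [(rh12fd6cfd9e568046.shift 2 2), (rh1f25bef8f9fe2597.shift 2 1), (rh68ae1f970aee6840.shift 0 1), (rha749589d3479e302.shift 2 3), (rhb96a5d92e5ca5e99.shift 2 0), (rhceb5f5a915f974ce.shift 2 2)] (by decide +kernel))
noncomputable def rh47b1b3be31b20e12 : CRef := CRef.mk (Pat.mk 0x8a000000180000000000000000 0xc0000000e0000007f000000ff0000001c0000000f0000000e 11 8) 0 0 (step_sound _ 98 [(rhb739f4f82bb681b4.shift 0 2), rhe41d4a35f747dace] (by decide +kernel))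
noncomputable def rh4d3c3bdbe9d5bc09 : CRef := CRef.mk (Pat.mk 0x28000000600000000000000000 0x78000000f80000003e000000fc000000700000007c0000003f 11 8) 0 0 (step_sound _ 100 [rh8f62f24ee490e84a, (rhb739f4f82bb681b4.shift 2 2)] (by decide +kernel))
noncomputable def rhdd6748ca2c474ce8 : CRef := CRef.mk (Pat.mk 0x8a000000180000008000000000 0x3c0000003e0000007f000000ff00000018000000f000000020 11 8) 0 0 (step_sound _ 98 [rh867cad3b24fbb13a, (rhb739f4f82bb681b4.shift 0 2)] (by decide +kernel))
noncomputable def rhabb5b4dbad6efe22 : CRef := CRef.mk (Pat.mk 0x8a00000098000000800000000000000000 0x280000007c0000007e0000007f000000fe000000dc000000ff0000002e0000000c 11 8) 0 0 (step_sound _ 132 [(rh3537eeea6d3a9085.shift 0 1), (rh4c8a13d81ff46705.shift 1 1), rh53ccc6d2fd87d9c1, (rhbcde47e7dc71a931.shift 3 0), (rhcb63864de3ca432b.shift 0 1)] (by decide +kernel))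
noncomputable def rh788dffbefbaa2132 : CRef := CRef.mk (Pat.mk 0x8a00000098000000800000000000000000 0x280000007c0000007f0000007e000000ff000000d8000000fc0000002c0000000c 11 8) 0 0 (step_sound _ 130 [rh97d114dade78781e, (rhb739f4f82bb681b4.shift 0 3)] (by decide +kernel))
noncomputable def rhc6c0ecd3ab69f345 : CRef := CRef.mk (Pat.mk 0x920000001800000080000000000000000000000000 0x50000003f0000003f000000fe0000001f000000ff0000002f0000000f00000005 11 8) 0 0 (step_sound _ 165 [(rh361cc68994bd8a63.shift 3 4), rh8ae4ebadcf947405] (by decide +kernel))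
noncomputable def rh2686e8f9b97da527 : CRef := CRef.mk (Pat.mk 0x9200000018000000800000000000000000 0x2800000038000000380000003c0000003400000036000000fe0000001f000000ff0000002a00000008 11 8) 0 0 (step_sound _ 133 [(rh361cc68994bd8a63.shift 3 3), rh70984efee0ec0098] (by decide +kernel))
noncomputable def rh7904226f6a3a1693 : CRef := CRef.mk (Pat.mk 0x120000001a00000000000000000000000000000000 0x280000003d0000007f0000007f0000001e0000001f0000000f0000000e0000000400000004 11 7) 0 0 (step_sound _ 163 [(rh3537eeea6d3a9085.shift 0 2), (rha7ce9b621bac07ab.shift 0 2), (rhda02c4ce0b224328.shift 0 4), rhf9d43bd86e72e6b1] (by decide +kernel))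
noncomputable def rhb1d02b164d1b8912 : CRef := CRef.mk (Pat.mk 0x920000001a00000000000000000000000000000000 0x4000000070000000f0000000f0000000f000000fe0000001b0000001f0000000f0000000f00000005 11 8) 0 0 (step_sound _ 193 [(rh3444fcf5222dba1a.shift 0 2), (rh442e0888e08270bc.shift 0 3), rh90103010c3888027, (rh9515dfafda03aa8f.shift 0 1), rhae524631be56ac83, rhccbd3a26fdc13d05, (rhdfa8712e4a8a2f2d.shift 0 3)] (by decide +kernel))
noncomputable def rhe94dde7acb7bc0c6 : CRef := CRef.mk (Pat.mk 0x8e00000018000000000000000000000000 0x140000001c0000001c0000007c000000fe0000001b0000001f0000000e0000000c 11 8) 0 0 (step_sound _ 132 [(rh361215bab1155e5e.shift 1 3), (rh5ba2d67652840f34.shift 1 2), rha6d11962485cf589, rhb2e4c02625a00096] (by decide +kernel))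
noncomputable def rh2f367f208ca57fa4 : CRef := CRef.mk (Pat.mk 0x114000000300000000000000000 0x20000003a0000007f0000001f000001fe000000360000003e0000001e 11 9) 0 0 (step_sound _ 99 [rh54091e9a6430fdf9, (rhb739f4f82bb681b4.shift 1 2)] (by decide +kernel))
noncomputable def rhb1ee3983cd72b21d : CRef := CRef.mk (Pat.mk 0x8e00000018000000080000000000000000 0x1000000073000000fe0000001b0000001f0000000f0000000d 11 8) 0 0 (step_sound _ 132 [(rh361215bab1155e5e.shift 1 3), rh7476e0c8eef8682e, (rh84d1c02a8954c6a8.shift 3 1)] (by decide +kernel))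
noncomputable def rhd5e28e3d5497d383 : CRef := CRef.mk (Pat.mk 0x58000000c000000040000000000000000000000000 0xa0000000f4000000ff0000005f0000005f000000de000000fc0000003c0000001c00000014 11 8) 0 0 (step_sound _ 99 [rh1e60a8eb99e71d69, (rh8ebc87e747817602.shift 3 2), (rhe3603587793e8bf0.shift 2 0)] (by decide +kernel))
noncomputable def rh37cdeddc2c273c4e : CRef := CRef.mk (Pat.mk 0x10000000c000000000000000000000000000000000 0x2e0000003e0000007f0000007e000000ff0000007e000000780000003800000028 11 8) 0 0 (step_sound _ 163 [(rh0a1636e762a4507b.shift 3 2), (rh7dbf15a8a6671efa.shift 1 0), (rha7b253017a5af1e0.shift 2 4), (rhee0dd698f306bede.shift 0 3)] (by decide +kernel))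
noncomputable def rh75faf5ab11f20ff7 : CRef := CRef.mk (Pat.mk 0x880000009800000080000000000000000000000000 0x1000000078000000780000007a000000ff000000de000000fe0000007e0000007e00000028 11 8) 0 0 (step_sound _ 195 [(rh70e33bfdf511e144.shift 3 1), (rh7272925cd043c56a.shift 2 2), (rh864969a68fdcd72f.shift 3 1), rhcc249fb6f854e811] (by decide +kernel))
noncomputable def rh2d15d05c7e4c2437 : CRef := CRef.mk (Pat.mk 0x880000009800000080000000000000000000000000 0x40000005c0000005c0000007a000000ff000000de000000fe0000007e0000007e00000028 11 8) 0 0 (step_sound _ 195 [(rh2997503d57fc5b3f.shift 2 2), (rh70e33bfdf511e144.shift 3 1), rhcc249fb6f854e811, (rhe380c42df720a63d.shift 2 3)] (by decide +kernel))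
noncomputable def rh352b462145d12926 : CRef := CRef.mk (Pat.mk 0x180000001800000030000000000000000000000000 0xc0000001f0000001f0000001f0000003e0000002f0000000c0000000c 11 6) 0 0 (step_sound _ 196 [rh1b41d27cfd59ec1e, (rh55afc6a59410cf00.shift 4 2)] (by decide +kernel))
noncomputable def rh2f1b1363c0bb3c54 : CRef := CRef.mk (Pat.mk 0x800000008000000180000008800000000 0x50000000f0000001f0000001f000000fe00000017 11 8) 0 0 (step_sound _ 36 [(rh55afc6a59410cf00.shift 3 0), rhb60019bf24e8e2f7] (by decide +kernel))
noncomputable def rh7c7d2381c9e78dd7 : CRef := CRef.mk (Pat.mk 0x880000001800000080000000000000000000000000 0x3c0000003c0000007f000000ff0000001f000000f6000000360000003600000020 11 8) 0 0 (step_sound _ 164 [(rh83e0ea970ce6b27c.shift 0 1), (rhb892a13fad614fbc.shift 0 2), (rhf28af477d48853a0.shift 3 0)] (by decide +kernel))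
noncomputable def rh3ebe9cd52aa19b5e : CRef := CRef.mk (Pat.mk 0x800000008000000180000008800000000 0x140000001f0000000f0000001f000000fe00000017 11 8) 0 0 (step_sound _ 36 [rh1fe34a1840558858, (rh55afc6a59410cf00.shift 3 0)] (by decide +kernel))
noncomputable def rh80c7a9dd9cc7886b : CRef := CRef.mk (Pat.mk 0x98000000180000000000000000 0x28000000780000007f000000ff0000001e0000000c00000008 11 8) 0 0 (step_sound _ 101 [(rh361cc68994bd8a63.shift 3 2), rh6c3665f7258cf5b7] (by decide +kernel))
noncomputable def rh56bbf4bdfab9feba : CRef := CRef.mk (Pat.mk 0x80000000980000008800000000000000000000000000000000 0x280000007e0000007e000000fe000000de000000ff0000007a000000780000007800000010 11 8) 0 0 (step_sound _ 99 [(rh215e11e099257d75.shift 3 2), (rh2a0293148cd86a75.shift 0 1), (rh94e66bb224d09075.shift 3 1), (rhf8fac699c81dd447.shift 2 0)] (by decide +kernel))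
noncomputable def rh2403846c030140b5 : CRef := CRef.mk (Pat.mk 0x80000000980000008800000000000000000000000000000000 0x280000007e0000007e000000fe000000de000000ff0000007a0000005c0000005c00000004 11 8) 0 0 (step_sound _ 99 [(rh215e11e099257d75.shift 3 2), (rh2a0293148cd86a75.shift 0 1), (rhd3ce7047182a729e.shift 2 0), (rhd8480aedf4075c15.shift 2 0)] (by decide +kernel))
noncomputable def rh0d0ba2b229dd18ce : CRef := CRef.mk (Pat.mk 0x3000000018000000180000000000000000 0xc0000000c0000002f0000003e0000001f0000001f0000001f0000000c 11 6) 0 0 (step_sound _ 36 [(rh2f68792b6b779e96.shift 4 1), rhb37d14f122c088ac] (by decide +kernel))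
noncomputable def rh895fadf9a9bee6e3 : CRef := CRef.mk (Pat.mk 0x8800000018000000080000000800000000 0x17000000fe0000001f0000001f0000000f00000005 11 8) 0 0 (step_sound _ 132 [rh0d8136bd6128e270, (rh2f68792b6b779e96.shift 3 1)] (by decide +kernel))
noncomputable def rh04e387602a7c0372 : CRef := CRef.mk (Pat.mk 0x800000001800000088000000000000000000000000 0x200000003600000036000000f60000001f000000ff0000007f0000003c0000003c 11 8) 0 0 (step_sound _ 100 [(rh568cd1b47d7a750f.shift 3 0), rhe38b68c8ab6caeed, rhfa7bd6340f8a3dcc] (by decide +kernel))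
noncomputable def rh785844d48e80a5e6 : CRef := CRef.mk (Pat.mk 0x8800000018000000080000000800000000 0x17000000fe0000001f0000000f0000001f00000014 11 8) 0 0 (step_sound _ 132 [rh18e79115a2337ea7, (rh2f68792b6b779e96.shift 3 1)] (by decide +kernel))
noncomputable def rh9a02f26b0aee95ad : CRef := CRef.mk (Pat.mk 0x1800000098000000000000000000000000 0x80000000c0000001e000000ff0000007f0000007800000028 11 8) 0 0 (step_sound _ 101 [rh0c9a0b8509243af2, (rh2fe78cc5ca4405d8.shift 3 3)] (by decide +kernel))
noncomputable def rh55962dc2b8903d96 : CRef := CRef.mk (Pat.mk 0x300000001800000088000000000000000000000000 0x240000003f0000001f000000fc000000780000003e0000003c 11 8) 0 0 (step_sound _ 68 [(rh56df763e998d2720.shift 0 1), (rha9efec28f6d60d2f.shift 3 0), (rhad21234594a447e7.shift 1 0), (rhc59aaa550078c212.shift 2 1)] (by decide +kernel))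
noncomputable def rh15982f933753baf2 : CRef := CRef.mk (Pat.mk 0x1800000098000000000000000000000000 0x40000001c000000ff0000007f0000007e0000003e 11 8) 0 0 (step_sound _ 101 [(rh2fe78cc5ca4405d8.shift 3 3), rhbc740a9bd804b559] (by decide +kernel))
noncomputable def rhb95a22f2b9302cc9 : CRef := CRef.mk (Pat.mk 0x300000001800000088000000000000000000000000 0x200000003c0000001f000000ff0000007f000000fe0000003e 11 8) 0 0 (step_sound _ 100 [(rh062082513cb4bda6.shift 1 0), rh8decb7cd999ad66c, rh9e141fa6bc2add05, (rhf6237156212ce777.shift 3 0)] (by decide +kernel))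
noncomputable def rhdb2f998f3bb74758 : CRef := CRef.mk (Pat.mk 0x18000000980000000000000000000000000000000000000000 0xe0000000f0000001e000000ff0000007c0000003f0000003e0000003800000008 11 8) 0 0 (step_sound _ 132 [(rh1864e4c677b30864.shift 1 2), (rh374f969bc1712915.shift 3 0), (rh3cb04db3dd2b6a55.shift 3 2), (rh6863421a6347e34a.shift 1 2), (rhca91724c46c4bf27.shift 0 2)] (by decide +kernel))
noncomputable def rhfd132c3fbec0b454 : CRef := CRef.mk (Pat.mk 0x1800000098000000000000000000000000 0xc0000000c0000001e000000ff0000007f0000007a0000002a 11 8) 0 0 (step_sound _ 101 [rh1984326cfb65449e, (rh2fe78cc5ca4405d8.shift 3 3)] (by decide +kernel))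
noncomputable def rhfe160c27a9ce2773 : CRef := CRef.mk (Pat.mk 0x88000000180000003000000000 0x3c0000003e00000078000000fc0000001f0000003f00000024 11 8) 0 0 (step_sound _ 132 [(rh6c8167589800f476.shift 1 0), (rh990803f6d6d788b5.shift 2 0), rhd5007eef8cf1dde8, (rhd921c046084f56e1.shift 3 0)] (by decide +kernel))
noncomputable def rh2dbc52c9ebd6da8b : CRef := CRef.mk (Pat.mk 0x980000001800000000 0x3e0000007e0000007f000000ff0000001c00000004 11 8) 0 0 (step_sound _ 69 [(rh361cc68994bd8a63.shift 3 1), rh95a94dab6b2ebe5b] (by decide +kernel))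
noncomputable def rh37167456fdd659c7 : CRef := CRef.mk (Pat.mk 0x88000000180000003000000000 0x3e000000fe0000007f000000ff0000001f0000003c00000020 11 8) 0 0 (step_sound _ 100 [(rh26ffcb37093465b4.shift 0 1), (rh6ba594de584a9e3c.shift 1 1), (rh8b45a73eaadf2a53.shift 3 0), (rhb2155e26bd351a50.shift 0 1)] (by decide +kernel))
noncomputable def rh0995b9f3b633202e : CRef := CRef.mk (Pat.mk 0x98000000180000000000000000 0x8000000380000003e0000003f0000007c000000ff0000001e0000000f0000000e 11 8) 0 0 (step_sound _ 132 [(rh0e0b417350209c69.shift 3 1), (rh503dd4575245365b.shift 3 1), (rh802f2cf61dd9852b.shift 1 1), (rh9dbc063ae34b2487.shift 1 2), rhfcea001bcbe5521c] (by decide +kernel))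
noncomputable def rh682dbe6c92e98057 : CRef := CRef.mk (Pat.mk 0x98000000180000000000000000 0x2a0000007a0000007f000000ff0000001e0000000c0000000c 11 8) 0 0 (step_sound _ 101 [(rh361cc68994bd8a63.shift 3 2), rhad8bc96c530e2248] (by decide +kernel))
noncomputable def rh60b4ba5cd874f657 : CRef := CRef.mk (Pat.mk 0x880000009800000080000000000000000000000000 0x7c000000fc0000007f000000ff000000df000000be0000003e0000003e00000028 11 8) 0 0 (step_sound _ 164 [(rh20277466cec22ba9.shift 1 1), (rh83e0ea970ce6b27c.shift 0 1), rha8283d89e419fa81, (rhd6462a555c5a1f5d.shift 1 1), (rhe055638bb88dfdce.shift 0 2), (rhf6a3776b7cfca2ba.shift 1 1)] (by decide +kernel))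
noncomputable def rhbea189d2973dddac : CRef := CRef.mk (Pat.mk 0x180000001800000000000000000000000000000000 0x800000018000000180000001c0000001f0000003f0000007f0000001e00000002 11 7) 0 0 (step_sound _ 99 [(rh0bb3bf9cae16a8bf.shift 1 1), (rh84d1c02a8954c6a8.shift 3 2), rhb83153b422032711] (by decide +kernel))
noncomputable def rh36d9cf5aadd22583 : CRef := CRef.mk (Pat.mk 0x98000000180000000000000000 0x20000000380000007f000000ff0000001e0000000f0000000e 11 8) 0 0 (step_sound _ 101 [(rh361cc68994bd8a63.shift 3 2), rhd76a106ffd3063e5] (by decide +kernel))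
noncomputable def rh6f10328fcc6f4b35 : CRef := CRef.mk (Pat.mk 0x9800000098000000800000000000000000 0x2d0000007f0000007f0000007b000000ff000000df0000008f0000000c00000004 11 8) 0 0 (step_sound _ 164 [(rh1e309b005ffa1b36.shift 3 1), rh2a1fd7fed73c117a, (rh68a777751bfeafdf.shift 3 2)] (by decide +kernel))
noncomputable def rh90d55fb789fc3fbb : CRef := CRef.mk (Pat.mk 0x8800000018000000100000001000000000 0x40000000400000027000000ff0000001f0000003f0000007f0000002f 11 8) 0 0 (step_sound _ 132 [(rh04e571695666b5c1.shift 3 1), (rh3f59e6a013622bb8.shift 0 1), rhc7bb724af1b99250] (by decide +kernel))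
noncomputable def rh68c4715d5bccaa53 : CRef := CRef.mk (Pat.mk 0x880000009800000080000000000000000000000000 0x140000007f000000ff0000007f000000fc000000df000000bf0000003f0000003e0000002a 11 8) 0 0 (step_sound _ 164 [(rh127bebb648a3946c.shift 0 1), rh18a6c5132bf7b5f9, (rh2a6f1d245b226674.shift 0 1), (rh43ff0f3d226ab0a1.shift 1 1), (rh45933d6a9168fb6a.shift 0 1), rha8283d89e419fa81, (rhf6a3776b7cfca2ba.shift 1 1)] (by decide +kernel))
noncomputable def rh881f465631063b54 : CRef := CRef.mk (Pat.mk 0x80000001800000018000000000000000000000000 0x60000000f0000001b0000001f0000003f0000001f0000001c 11 6) 0 0 (step_sound _ 67 [(rh11a24f01974d17ff.shift 0 1), (rh4053c12da95c0aa0.shift 3 0), (rh46530d756bdf8511.shift 2 0), (rh6eff4158bb400f47.shift 2 0)] (by decide +kernel))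
noncomputable def rh6273389afdb941c7 : CRef := CRef.mk (Pat.mk 0x80000001800000018000000000000000000000000 0x170000001f0000001b0000001f0000001f0000001c0000000c 11 5) 0 0 (step_sound _ 68 [rh2ff17fcc4643d715, (rh7b1f1fb55310c477.shift 3 1)] (by decide +kernel))
noncomputable def rh6c7e6ac042c4520b : CRef := CRef.mk (Pat.mk 0x800000018000000000000000000000000 0x40000001c0000001c0000003c0000000f0000001c0000001f0000001f00000014 11 6) 0 0 (step_sound _ 163 [(rh70e33bfdf511e144.shift 3 0), rhd938cdd7904ec712, (rhe380c42df720a63d.shift 2 2), rhf802231a6ce9cf4e] (by decide +kernel))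
noncomputable def rh434dac873746161f : CRef := CRef.mk (Pat.mk 0x800000009800000088000000000000000000000000 0x280000003e0000003e000000be000000df000000ff0000007f000000fc0000007c 11 8) 0 0 (step_sound _ 100 [(rh4e3d17ed4e0bd162.shift 1 0), rh695e4327c06d4c46, (rh94c5fc1c0baff1ef.shift 0 1), (rh9ab9340be25a56d2.shift 1 0), (rhc4ef6306db5f37fa.shift 1 0), rhe38b68c8ab6caeed] (by decide +kernel))
noncomputable def rh6aff1865bff15bda : CRef := CRef.mk (Pat.mk 0x1800000018000000000000000000000000 0x20000001e0000007f0000003f0000001f0000001c000000180000001800000008 11 7) 0 0 (step_sound _ 163 [(rh55a1f6c57a317ce6.shift 3 1), (rh9607ace265ad3036.shift 1 2), rhdc88b98d162f9d3e] (by decide +kernel))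
noncomputable def rhfcd228b0bfc7d7e2 : CRef := CRef.mk (Pat.mk 0x1800000098000000000000000000000000 0xe0000000f0000001e000000ff0000007f0000003800000020 11 8) 0 0 (step_sound _ 101 [(rh2fe78cc5ca4405d8.shift 3 3), rhc22b258d349666c3] (by decide +kernel))
noncomputable def rh7fe7a5c3d7ce3e76 : CRef := CRef.mk (Pat.mk 0x80000000980000009800000000000000000000000000000000 0x40000000c0000008f000000df000000ff0000007b0000007f0000007f0000002d 11 8) 0 0 (step_sound _ 100 [(rh56259dd1390eee46.shift 3 0), rh89e078b72c74d685, (rhfc7c29d8e65d775f.shift 3 2)] (by decide +kernel))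
noncomputable def rh91f45e7e2f61b0eb : CRef := CRef.mk (Pat.mk 0x10000000100000001800000088000000000000000000000000 0x2f0000007f0000003f0000001f000000ff000000270000000400000004 11 8) 0 0 (step_sound _ 100 [(rh745b51dea8c0dbab.shift 0 2), rhc22507c45ae387cb, (rhf8edb192cdea7ada.shift 3 2)] (by decide +kernel))
noncomputable def rha46203252e5fd43d : CRef := CRef.mk (Pat.mk 0x80000000980000008800000000000000000000000000000000 0x2a0000003e0000003f000000bf000000df000000fc0000007f000000ff0000007f00000014 11 8) 0 0 (step_sound _ 132 [(rh6394440062ca24cf.shift 0 1), (rh849ec24df820f59e.shift 1 1), (rh85d77ecd2c80b326.shift 0 1), (rh94c5fc1c0baff1ef.shift 0 2), (rh9ab9340be25a56d2.shift 1 1), rh9d3183d7ed960406, (rhd5e7e24ce050b165.shift 0 1)] (by decide +kernel))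
noncomputable def rhac510116605cbe6d : CRef := CRef.mk (Pat.mk 0x18000000180000000800000000 0x1c0000001f0000003f0000001f0000001b0000000f00000006 11 6) 0 0 (step_sound _ 131 [(rh1741680720c097b4.shift 2 1), (rh2ddd6c94c59240f8.shift 3 1), (rh7b9fbdf6d2d059e4.shift 2 1), rh885294b399fd80ba] (by decide +kernel))
noncomputable def rhae8116c38b2cc285 : CRef := CRef.mk (Pat.mk 0x18000000180000000800000000 0xc0000001c0000001f0000001f0000001b0000001f00000017 11 5) 0 0 (step_sound _ 132 [(rh5c5e593799055d58.shift 3 1), rh91c784c502e01b6d] (by decide +kernel))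
noncomputable def rh63854c53d4df3dc8 : CRef := CRef.mk (Pat.mk 0x180000000800000000000000000000000000000000 0x140000001f0000001f0000001c0000000f0000003c0000001c0000001c00000004 11 6) 0 0 (step_sound _ 99 [(rh215e11e099257d75.shift 3 2), (rh980a0f4b95aa17ea.shift 0 1), (rhd8480aedf4075c15.shift 2 0), (rhdb4a5c205b7a376d.shift 0 2)] (by decide +kernel))
noncomputable def rhdbd1d7167f227956 : CRef := CRef.mk (Pat.mk 0x100000000300000011000000000000000000000000000000000 0x40000000ec0000007c000001ff0000003e000001ff0000001f0000001e0000000e0000000a 11 9) 0 0 (step_sound _ 197 [(rh10bd3878568a60dd.shift 1 3), (rh9cdee070315fb032.shift 4 3), (rhcf80391c5046a495.shift 4 2), rhe6e63a779abd1172, (rhf9366b6a121593ef.shift 4 2)] (by decide +kernel))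
noncomputable def rh25da0fd53ac7175a : CRef := CRef.mk (Pat.mk 0x800000009800000088000000000000000000000000 0x60000000760000007e000000f6000000df000000ff0000007f0000003c0000003c 11 8) 0 0 (step_sound _ 100 [rh102126d77a916feb, (rh2a086e262886067d.shift 3 0), rh6e18dc207937a3e2, rhabea99c895985add] (by decide +kernel))
noncomputable def rhdaaa23b1a383527d : CRef := CRef.mk (Pat.mk 0x1800000098000000000000000000000000 0x80000000c0000001e000000ff0000007f0000007800000028 11 8) 0 0 (step_sound _ 101 [(rh2fe78cc5ca4405d8.shift 3 3), rhc95f5c4a53049308] (by decide +kernel))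
noncomputable def rh6c18fb4bb5892734 : CRef := CRef.mk (Pat.mk 0x1800000098000000000000000000000000 0x80000000c0000001f000000ff0000007c0000007e0000003e 11 8) 0 0 (step_sound _ 68 [(rh1864e4c677b30864.shift 1 0), rh26fc3e56364a2a1f, (rh3cb04db3dd2b6a55.shift 3 0)] (by decide +kernel))
noncomputable def rh0130ce542497a6ac : CRef := CRef.mk (Pat.mk 0x180000001800000010000000000000000000000000 0x20000000a0000000f0000001f0000001f0000007f0000000f0000000e00000002 11 7) 0 0 (step_sound _ 195 [(rh2145e1d24b96a57e.shift 3 3), rha5466266ae6fdb6a] (by decide +kernel))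
noncomputable def rhfbfedb54e9617074 : CRef := CRef.mk (Pat.mk 0x88000000980000009800000000 0x64000000760000007f000000ff000000df0000009f00000006 11 8) 0 0 (step_sound _ 100 [(rh0b27d9eb03cc6e70.shift 1 1), (rh82d74fa7e4e9dd9d.shift 0 1), (rhb7d54fcdc47cf41f.shift 0 1), (rhd2470a76bbb81f75.shift 3 1), rhdb2481e9b51b6822] (by decide +kernel))
noncomputable def rh2887c5c81ea7506e : CRef := CRef.mk (Pat.mk 0x880000001800000018000000000000000000000000 0x5000000270000003700000077000000ff0000001f0000001f000000370000003700000035 11 8) 0 0 (step_sound _ 164 [(rh17fd23ce851b0345.shift 3 0), (rh4df73a097f5e9d23.shift 1 3), (rh566659606c8abe04.shift 3 2), (rh82d74fa7e4e9dd9d.shift 0 3), (rhac7df607e0efe43d.shift 1 3), (rhb7d54fcdc47cf41f.shift 0 3), rhd50d7aa19036034f] (by decide +kernel))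
noncomputable def rhb02b6849f97305e9 : CRef := CRef.mk (Pat.mk 0x1800000098000000000000000000000000 0x80000001c000000ff000000770000003e0000003e 11 8) 0 0 (step_sound _ 101 [(rh2fe78cc5ca4405d8.shift 3 3), rhf43bcee5f5875b16] (by decide +kernel))
noncomputable def rhfb8ba9235e7bd91e : CRef := CRef.mk (Pat.mk 0x800000001800000088000000000000000000000000 0x2800000038000000380000003000000034000000ff0000001f000000fc000000780000003800000038 11 8) 0 0 (step_sound _ 164 [rh03cffd233922a240, (rha0e0e817cff0766c.shift 3 0), (rhdc3d9be1e8b9b02a.shift 3 0), (rhf9366b6a121593ef.shift 3 1)] (by decide +kernel))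
noncomputable def rh853d39100b6037d8 : CRef := CRef.mk (Pat.mk 0x1100000003000000100000000000000000000000000 0xa0000000e0000001e0000001f000001ff0000003e000001ff0000007c000000ec00000040 11 9) 0 0 (step_sound _ 101 [(rh0deeb12e87690a34.shift 0 1), (rh7e1098702e50f2b0.shift 4 1), (rhc2c7bae8f445c890.shift 4 1), (rhc38f566cab2818e5.shift 4 1), (rhe506fe9683aa44bd.shift 1 0)] (by decide +kernel))
noncomputable def rhb6743efcec4278a1 : CRef := CRef.mk (Pat.mk 0x880000009800000080000000000000000000000000 0x3c0000003c0000007f000000ff000000df000000f60000007e0000007600000060 11 8) 0 0 (step_sound _ 164 [(rh00da3380ab0ad3f9.shift 3 0), (rh5efecdc999974cf1.shift 0 2), (rh8f26fa7cae4f34bd.shift 0 3), (rh999751bc28d9bdfc.shift 0 1)] (by decide +kernel))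
noncomputable def rh3b6e445a047875a2 : CRef := CRef.mk (Pat.mk 0x98000000180000000000000000 0x28000000780000007f000000ff0000001e0000000c00000008 11 8) 0 0 (step_sound _ 101 [(rh361cc68994bd8a63.shift 3 2), rh8fb48b72223b6dd4] (by decide +kernel))
noncomputable def rh4b43a0f26c39d442 : CRef := CRef.mk (Pat.mk 0x98000000180000000000000000 0x3e0000007e0000007c000000ff0000001f0000000c00000008 11 8) 0 0 (step_sound _ 132 [(rh503dd4575245365b.shift 3 1), (rh9dbc063ae34b2487.shift 1 2), rha278d84bed714c47] (by decide +kernel))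
noncomputable def rh85bdbff551841f73 : CRef := CRef.mk (Pat.mk 0x100000001800000018000000000000000000000000 0x20000000e0000000f0000007f0000001f0000001f0000000f0000000a00000002 11 7) 0 0 (step_sound _ 67 [(rh71222050f2c63a3a.shift 3 1), rhac2c4bad895d7af0] (by decide +kernel))
noncomputable def rh51a387732be950ad : CRef := CRef.mk (Pat.mk 0x980000009800000088000000000000000000000000 0x60000009f000000df000000ff0000007f0000007600000064 11 8) 0 0 (step_sound _ 100 [(rh19b5534be8b89873.shift 0 1), (rh3f27d278502c088f.shift 0 1), (rh7e598db8ad366140.shift 3 0), (rh81f9e706880a3c91.shift 1 0), rh8fea55a87ae27512] (by decide +kernel))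
noncomputable def rhf0002c2140257e35 : CRef := CRef.mk (Pat.mk 0x18000000180000008800000000000000000000000000000000 0x3500000037000000370000001f0000001f000000ff00000077000000370000002700000005 11 8) 0 0 (step_sound _ 132 [(rh36d02af028602191.shift 3 3), (rh3f27d278502c088f.shift 0 2), (rh4c145d583973abd2.shift 3 1), (rh4da28933022c17cc.shift 1 2), (rh8fea55a87ae27512.shift 0 1), (rhc184c7fb8eff9d78.shift 1 2), rhdbcf65c6a222b644] (by decide +kernel))
noncomputable def rh87e103c08857fda2 : CRef := CRef.mk (Pat.mk 0x980000001800000000 0x3e0000003e00000077000000ff0000001c00000008 11 8) 0 0 (step_sound _ 69 [(rh361cc68994bd8a63.shift 3 1), rhab72004c7ab4433a] (by decide +kernel))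
noncomputable def rh76610f338794f13c : CRef := CRef.mk (Pat.mk 0x8800000018000000800000000000000000000000000000000000000000 0x380000003800000078000000fc0000001f000000ff0000003400000030000000380000003800000028 11 8) 0 0 (step_sound _ 164 [(rh2fb375efb6f30777.shift 3 0), (rh64d0dfaf00c250e1.shift 0 4), (rh711cedfac771e4e0.shift 3 3), (rhc38f566cab2818e5.shift 3 3)] (by decide +kernel))
noncomputable def rh22c3b51a9f7ff173 : CRef := CRef.mk (Pat.mk 0x100000001c000000100000000000000000 0xc0000000c0000000f0000007f0000001c0000001e0000007c0000003c 11 7) 0 0 (step_sound _ 131 [rh5db8d9fe6e31c388, rhd8c022ec3f101323, (rhda1ad26c7481a7b4.shift 2 0), (rhfc7c29d8e65d775f.shift 3 1)] (by decide +kernel))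
noncomputable def rh2e37fabfa5b89454 : CRef := CRef.mk (Pat.mk 0x1800000030000000000000000000000000 0x28000000380000003c0000001c0000007c0000001e0000003f0000003f0000001c0000000c 11 7) 0 0 (step_sound _ 130 [(rhb739f4f82bb681b4.shift 1 3), rhf3f3e1046e72d057] (by decide +kernel))
noncomputable def rhb66e42c2bcaed984 : CRef := CRef.mk (Pat.mk 0x800000001800000090000000000000000000000000 0x280000003c0000003c0000001f000000ff0000001f000000fb000000330000002000000020 11 8) 0 0 (step_sound _ 101 [(rh2fe78cc5ca4405d8.shift 3 3), rh7e10c24fd59f9f35] (by decide +kernel))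
noncomputable def rh7b32d4fbc66d3a35 : CRef := CRef.mk (Pat.mk 0x9000000018000000300000001000000000 0xc0000000c0000000f000000ff0000001f0000003f0000007c0000002c 11 8) 0 0 (step_sound _ 67 [(rh0b0198cd56a23f60.shift 1 0), (rha1aceac9a0d82655.shift 0 1), (rhc0f6a93bf472824a.shift 1 0), rhed346f6a8bcd737d] (by decide +kernel))
noncomputable def rh98eea7ba4475bf73 : CRef := CRef.mk (Pat.mk 0x10000000130000001600000000000000000000000000000000000000000 0xe0000001f0000000b0000001f0000001b00000017e000000fe000000ff0000007c0000007000000050 11 9) 0 0 (step_sound _ 229 [(rh17c4d40f6ee5bd2b.shift 4 3), rh2dca028fa74b9146, (rh70e33bfdf511e144.shift 5 2), (rhb23658ecdd7ce5df.shift 4 4)] (by decide +kernel))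
noncomputable def rh205d6dbd42673222 : CRef := CRef.mk (Pat.mk 0x8000000018000000100000000000000000000000000000000000000000 0x280000003c0000003c0000001f000000ff0000001f0000003f0000007b0000003e000000380000003800000028 11 8) 0 0 (step_sound _ 132 [(rh3ad7748a38bc8561.shift 0 3), (rh8df7e1e14f0bb9c4.shift 1 0), (rhb1a251d9bff81766.shift 3 3), (rhf9a6286f1d5377a2.shift 3 3)] (by decide +kernel))
noncomputable def rhc7af8fe06eef3c52 : CRef := CRef.mk (Pat.mk 0x800000018000000900000001800000000 0x140000001f0000001f000000df0000007f00000027 11 8) 0 0 (step_sound _ 67 [(rh24a34f35aea5db15.shift 2 0), rha8fb67dbb98f8cb3, rhbb66889bafd98e97, (rhc355bcc39d2b9dce.shift 1 0)] (by decide +kernel))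
noncomputable def rh75fc9d7b44deae76 : CRef := CRef.mk (Pat.mk 0x800000001800000010000000080000000000000000 0xc0000001e000000ff0000001e0000001c0000000f0000000e0000000c 11 8) 0 0 (step_sound _ 99 [(rh6e31a49a06f80b55.shift 0 1), (rh84d1c02a8954c6a8.shift 3 1), (rh8838b43a888e502e.shift 2 0), (rhea7a1800d6f053bd.shift 3 0)] (by decide +kernel))
noncomputable def rhcba4f8e70cf873cf : CRef := CRef.mk (Pat.mk 0x8000000018000000180000000800000000 0x40000001f000000ff0000001f0000001f0000000f00000004 11 8) 0 0 (step_sound _ 132 [(rh5c5e593799055d58.shift 3 1), rhc9a0546ad5a0f0e0] (by decide +kernel))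
noncomputable def rh61b1d8c802358b1c : CRef := CRef.mk (Pat.mk 0x8000000098000000900000000000000000000000000000000000000000 0xc0000008c000000df000000ff0000007f0000007f0000007e0000003800000028 11 8) 0 0 (step_sound _ 132 [(rh374f969bc1712915.shift 3 0), (rh412229cdb1cd8fa9.shift 1 0), (rh43d8dfd721575dfb.shift 3 1), (rhb7c0505f48595f23.shift 3 1), (rhd1779d7de7f8215b.shift 3 1), (rhfff1851188ddc2b9.shift 0 2)] (by decide +kernel))
noncomputable def rhd40c8de2db66029c : CRef := CRef.mk (Pat.mk 0x1800000090000000000000000000000000 0x28000000380000003c0000001c0000001c0000001f000000ff0000007e0000007e0000002c 11 8) 0 0 (step_sound _ 101 [(rh2fe78cc5ca4405d8.shift 3 3), rhe9cca8dea0611666] (by decide +kernel))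
noncomputable def rh7a4c84f1fe5219da : CRef := CRef.mk (Pat.mk 0x100000001c00000010000000000000000000000000 0x3c0000007c0000001e0000001c0000007f0000000f0000000c0000000c 11 7) 0 0 (step_sound _ 99 [rh0027df1486d34edd, (rh1e309b005ffa1b36.shift 3 1), (rh813ca14480bbb9b2.shift 0 2), (rhe24448ac32e0808b.shift 2 1)] (by decide +kernel))
noncomputable def rhb146522eaf46ce0e : CRef := CRef.mk (Pat.mk 0x30000000180000000000000000000000000000000000000000 0xc0000001c0000003f0000003f0000001e0000007c0000001c0000003c0000003800000028 11 7) 0 0 (step_sound _ 162 [(rh53b3c253cb0c65f4.shift 1 5), rhf3b1dbed8bb728bd] (by decide +kernel))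
noncomputable def rh485d5d1091f8863b : CRef := CRef.mk (Pat.mk 0x90000000180000008000000000000000000000000000000000 0x200000002000000033000000fb0000001f000000ff0000001f0000003c0000003c00000028 11 8) 0 0 (step_sound _ 197 [(rh361cc68994bd8a63.shift 3 5), rh792b977b15424bfb] (by decide +kernel))
noncomputable def rh9a2323abfa7bcb33 : CRef := CRef.mk (Pat.mk 0x10000000300000001800000090000000000000000000000000 0x2c0000007c0000003f0000001f000000ff0000000f0000000c0000000c 11 8) 0 0 (step_sound _ 163 [(rh20ee5c2c4c3a9878.shift 1 3), (rh8dce9a5566bc2590.shift 1 2), (rhbe59e18e48858fcd.shift 0 1), rhc080c164e26de3fc] (by decide +kernel))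
noncomputable def rh6922d4fc563d8b18 : CRef := CRef.mk (Pat.mk 0x1600000013000000100000000000000000000000000 0x50000000700000007c000000ff000000fe0000017e000001b0000001f0000000b0000001f0000000e0 11 9) 0 0 (step_sound _ 101 [(rh000637b5a81e86aa.shift 4 1), (rh006876c1e6309827.shift 0 2), (rh103d3624dacc023c.shift 4 0), (rh215e11e099257d75.shift 5 2)] (by decide +kernel))
noncomputable def rh4b60885a083ed149 : CRef := CRef.mk (Pat.mk 0x10000000180000008000000000000000000000000000000000 0x2800000038000000380000003e0000007b0000003f0000001f000000ff0000001f0000003c0000003c00000028 11 8) 0 0 (step_sound _ 228 [(rh281c6819542c66e6.shift 3 2), rh621c8e6e4c382761, (rhc8cdf55a7120aa2f.shift 1 4), (rhfafeb437ceb8396d.shift 3 2)] (by decide +kernel))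
noncomputable def rh07c1fdc030d26807 : CRef := CRef.mk (Pat.mk 0x1800000090000000180000000800000000 0x270000007f000000df0000001f0000001f00000014 11 8) 0 0 (step_sound _ 99 [rh0668c447fd80549a, (rh677e6fbb651585de.shift 1 0), rh984d0bb33cb7a1e4, (rhe5ecef804aa4c1a7.shift 2 0)] (by decide +kernel))
noncomputable def rh214cbfe9d4c17e50 : CRef := CRef.mk (Pat.mk 0x80000001000000018000000800000000000000000 0xc0000000e0000000f0000001c0000001e000000ff0000001e0000000c 11 8) 0 0 (step_sound _ 131 [(rh3e595262c1b737ad.shift 3 2), (rh55a1f6c57a317ce6.shift 3 1), rhc22f9159d6a5ce2c, (rhdeffc169d2474e23.shift 2 1)] (by decide +kernel))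
noncomputable def rh153d5e4865e68447 : CRef := CRef.mk (Pat.mk 0x80000001800000018000000800000000000000000 0x40000000f0000001f0000001f000000ff0000001f00000004 11 8) 0 0 (step_sound _ 68 [(rh7b1f1fb55310c477.shift 3 1), rh7e470994962646e0] (by decide +kernel))
noncomputable def rh1a45eedda6aae79b : CRef := CRef.mk (Pat.mk 0x90000000980000008000000000 0x28000000380000007e0000007f0000007f000000ff000000df0000008c0000000c 11 8) 0 0 (step_sound _ 132 [(rh0e0b417350209c69.shift 3 1), rh1ef0b1baa5117ea5, (rh3f0b32771864e6b9.shift 3 1), (rh7a7e08304268422e.shift 3 1), (rhc9b7a010d6829066.shift 3 1), (rhe145bdbd45fce79b.shift 1 2)] (by decide +kernel))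
noncomputable def rh7917668eb4ef5509 : CRef := CRef.mk (Pat.mk 0x90000000180000000000000000000000000000000000000000 0x2c0000007e0000007e000000ff0000001f0000001c0000001c0000003c0000003800000028 11 8) 0 0 (step_sound _ 197 [(rh361cc68994bd8a63.shift 3 5), rhdfbfe4045a3cb2d4] (by decide +kernel))
noncomputable def rhaf15aee0e74a10d5 : CRef := CRef.mk (Pat.mk 0x800000001800000030000000000000000000000000 0x280000003e000000fe0000007e000000df0000001f0000003e000000780000003800000008 11 8) 0 0 (step_sound _ 163 [(rh5d54cb79a67f97ab.shift 3 1), rh7d02066301e5f73e, (rh7e1098702e50f2b0.shift 3 1), (rhb87517dacb3a932e.shift 0 1), (rhc2c7bae8f445c890.shift 3 1)] (by decide +kernel))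
noncomputable def rhad0249590c2365b2 : CRef := CRef.mk (Pat.mk 0xc00000048000000000000000000000000 0x140000001c0000001e0000003e0000000f0000000f0000007c0000001f0000003f00000016 11 7) 0 0 (step_sound _ 100 [rh2659dcb3a9fa0a38, (rh2fe78cc5ca4405d8.shift 2 3)] (by decide +kernel))
noncomputable def rh9ad6dc7fcbf53d5a : CRef := CRef.mk (Pat.mk 0x180000003000000000000000000000000000000000 0x1c0000001e0000001f0000001e0000003f0000001f0000001f0000000e00000008 11 6) 0 0 (step_sound _ 162 [(rhb739f4f82bb681b4.shift 1 4), rhb92090e8511d837d] (by decide +kernel))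
noncomputable def rh275bc02d21db176c : CRef := CRef.mk (Pat.mk 0x800000001800000090000000000000000000000000 0xfc0000007c000000df0000001e000000ff0000007f0000003400000020 11 8) 0 0 (step_sound _ 101 [rh0388966cb86147a0, (rh2fe78cc5ca4405d8.shift 3 3)] (by decide +kernel))
noncomputable def rhd1fc514995c2c7a8 : CRef := CRef.mk (Pat.mk 0x18000000980000000000000000 0x2000000038000000380000001e0000001f0000001f000000ff0000006f00000008 11 8) 0 0 (step_sound _ 69 [(rh2fe78cc5ca4405d8.shift 3 2), rh4f629e741eaf2f2f] (by decide +kernel))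
noncomputable def rh572691b25526a508 : CRef := CRef.mk (Pat.mk 0x100000001300000013000000000000000000000000000000000 0x280000012f000001be000001f7000000fe000001fe000000fe0000000a 11 9) 0 0 (step_sound _ 100 [rh34f5a062295e93c8, (rh362104532586ff12.shift 2 1), (rhea7a1800d6f053bd.shift 4 1)] (by decide +kernel))
noncomputable def rh2834f84bf39b863c : CRef := CRef.mk (Pat.mk 0x180000001800000000000000000000000000000000 0x1000000010000000170000001f0000001f0000007f0000007f0000003e00000004 11 7) 0 0 (step_sound _ 100 [(rh0eb1d62610945562.shift 1 1), (rh1864e4c677b30864.shift 1 1), (rh267543c1c418c231.shift 3 1), rh77f0c98dc9b6febd, (rh9244c5bcf2879a12.shift 0 1), (rh9a3dc9c5ba421121.shift 0 1)] (by decide +kernel))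
noncomputable def rh707d0aca0c1627c3 : CRef := CRef.mk (Pat.mk 0x30000000200000000000000000000000000000000000000000 0x1000000070000000700000007000000030000000300000003e000000fe0000007f000000700000007000000050 11 8) 0 0 (step_sound _ 133 [(rh8df7e1e14f0bb9c4.shift 2 0), (rhb1630857686cadbd.shift 0 3), (rhb1a251d9bff81766.shift 4 3), (rhd1779d7de7f8215b.shift 4 1)] (by decide +kernel))
noncomputable def rh2f9fd7c8df766952 : CRef := CRef.mk (Pat.mk 0x2000000030000000600000002000000000 0xc0000000c0000001e0000003e0000003e0000007f000000ee0000004e 11 8) 0 0 (step_sound _ 132 [(rh50fbb5868c909700.shift 4 1), rh77c0985422bb6b3a] (by decide +kernel))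
noncomputable def rh8ce4b057a4b9b57c : CRef := CRef.mk (Pat.mk 0x1000000003000000060000000000000000000000000 0x4000000074000001ff000000fe000001bf0000003e0000007e000000fe0000001800000018 11 9) 0 0 (step_sound _ 100 [(rh099b5954991f70ca.shift 1 0), (rh319e69aa992e117c.shift 1 0), (rh806ebeff7d7374dd.shift 1 1), rhb98b1e1bf6b81df2, (rhbb209563535988dc.shift 1 0), (rhd29a6049a581a13e.shift 1 0)] (by decide +kernel))
noncomputable def rh12eb1e9fcc57aeb2 : CRef := CRef.mk (Pat.mk 0x30000000180000008000000000000000000000000000000000 0x800000038000000780000003e0000001f000000df0000007e000000fe0000003e00000028 11 8) 0 0 (step_sound _ 131 [rh0352652a150262a7, (rh4821dcf828b9d7bf.shift 3 2), (rh9cdee070315fb032.shift 3 3), (rhcf80391c5046a495.shift 3 2), (rheececee03f0139a0.shift 0 2)] (by decide +kernel))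
noncomputable def rh7551884517a6ddc6 : CRef := CRef.mk (Pat.mk 0x480000000c0000000000000000000000000000000000000000 0x160000003f0000001f0000007c0000000f0000000f0000003e0000001e0000001c00000014 11 7) 0 0 (step_sound _ 196 [(rh361cc68994bd8a63.shift 2 5), rh7e848efb8d982501] (by decide +kernel))
noncomputable def rhe973306ba8c4a2c8 : CRef := CRef.mk (Pat.mk 0x3000000018000000000000000000000000 0x80000000e0000001f0000001f0000003f0000001e0000001f0000001e0000001c 11 6) 0 0 (step_sound _ 98 [(rh53b3c253cb0c65f4.shift 1 3), rh65b38700463f72d8] (by decide +kernel))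
noncomputable def rh6b583cc9d1df7f55 : CRef := CRef.mk (Pat.mk 0x9000000018000000800000000000000000 0x20000000340000007f000000ff0000001e000000df0000007c000000fc 11 8) 0 0 (step_sound _ 133 [(rh361cc68994bd8a63.shift 3 3), rh629f428e265e84f2] (by decide +kernel))
noncomputable def rh138ff8ab3f71eb6c : CRef := CRef.mk (Pat.mk 0x98000000180000000000000000000000000000000000000000 0x80000006f000000ff0000001f0000001f0000001e000000380000003800000020 11 8) 0 0 (step_sound _ 197 [rh13fa413d3c505cf4, (rh361cc68994bd8a63.shift 3 5)] (by decide +kernel))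
noncomputable def rha0aeb04af04ced2f : CRef := CRef.mk (Pat.mk 0x130000001300000010000000000 0xa000000fe000001fe000000fe000001f7000001be0000012f00000028 11 9) 0 0 (step_sound _ 132 [(rh3e595262c1b737ad.shift 4 1), (rh495a39b8a06d7922.shift 2 2), rh76cfc3ef0abb6ecd] (by decide +kernel))
noncomputable def rhad3135c78f6827a8 : CRef := CRef.mk (Pat.mk 0x1800000018000000000000000000000000 0x40000003e0000007f0000007f0000001f0000001f000000170000001000000010 11 7) 0 0 (step_sound _ 164 [(rh0f675cdb19e6625e.shift 0 2), (rh2f863cf429200cdd.shift 0 2), (rh4a445c3657611769.shift 0 1), (rh9dbc063ae34b2487.shift 1 3), (rhf1c9d6926074991b.shift 1 2), (rhf53bfbcd8330112c.shift 3 0)] (by decide +kernel))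
noncomputable def rh24b62fbeb41ef600 : CRef := CRef.mk (Pat.mk 0x20000000300000000000000000000000000000000000000000 0x5000000070000000700000007f000000fe0000003e000000300000003000000070000000700000007000000010 11 8) 0 0 (step_sound _ 229 [(rh281c6819542c66e6.shift 4 2), (rh7a7e08304268422e.shift 4 4), rh7aa38ad90b8e122c, (rhc8cdf55a7120aa2f.shift 2 4)] (by decide +kernel))
noncomputable def rh2838f87127111def : CRef := CRef.mk (Pat.mk 0x20000000600000003000000020000000000000000000000000 0x4e000000ee0000007f0000003e0000003e0000001e0000000c0000000c 11 8) 0 0 (step_sound _ 100 [(rh932754581e0f4330.shift 4 2), rhb6302070114b5712] (by decide +kernel))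
noncomputable def rh00c1103241d5596e : CRef := CRef.mk (Pat.mk 0x60000000300000010000000000000000000000000000000000 0x1800000018000000fe0000007e0000003e000001bf000000fe000001ff0000007400000040 11 9) 0 0 (step_sound _ 196 [(rh3b0397c76d601574.shift 1 0), (rh7bd05258f0c27458.shift 1 2), (rha92a316f980eef78.shift 1 4), (rhd87d9ca36e5da2f6.shift 1 2), (rhe47e8eed47870ef2.shift 1 2), rhefeb556baf70b91f] (by decide +kernel))
noncomputable def rh8bd2bde92409bcf3 : CRef := CRef.mk (Pat.mk 0x800000009800000080000000100000000000000000 0x2800000078000000780000007c000000fc000000dc000000ff0000007f0000006f0000006c 11 8) 0 0 (step_sound _ 100 [(rh0d44b57544dae185.shift 1 1), (rh4ee8738dfb755be0.shift 1 1), (rh790dd60b33a05df0.shift 3 1), (rha0b68b90090a22a8.shift 3 0), rhcec4d3c3cb7c5520, (rhd65e234e33e3a1b6.shift 3 1)] (by decide +kernel))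
noncomputable def rha5b0a1800cb58b7d : CRef := CRef.mk (Pat.mk 0x8000000098000000800000001000000000000000000000000000000000 0x80000000c0000008c000000dc000000ff0000007f0000007f0000007e0000003800000028 11 8) 0 0 (step_sound _ 164 [(rh374f969bc1712915.shift 3 0), (rh412229cdb1cd8fa9.shift 1 0), (rhcec4d3c3cb7c5520.shift 0 2), (rhd1779d7de7f8215b.shift 3 1), (rhf9a6286f1d5377a2.shift 3 3)] (by decide +kernel))
noncomputable def rh6d1e4de5ac331025 : CRef := CRef.mk (Pat.mk 0x10000000030000000100000003000000000 0x28000000380000003e000001fe000000380000001f0000007c00000008 11 9) 0 0 (step_sound _ 132 [(rh1726a00b0a8befd0.shift 3 0), (rh1741680720c097b4.shift 3 1), (rh3b734c5288922837.shift 3 0), rh45c4a0d10231175c, (rh968ba7b0df7e4096.shift 3 0)] (by decide +kernel))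
noncomputable def rh18c3eb592fadc9b2 : CRef := CRef.mk (Pat.mk 0x20000002000000006000000000000000000000000000000000 0x30000000300000039e000001fe000003ff0000003c0000001c00000014 11 10) 0 0 (step_sound _ 132 [(rh2d3d2386ddc6714e.shift 2 3), (rh34097ee86ed23e08.shift 3 2), (rh40789fe01e004519.shift 2 3), rh77ad0e2373d51fe3, (rhc1d9d95268728087.shift 2 3), (rhfe448189e7c42541.shift 1 3)] (by decide +kernel))
noncomputable def rhb36315a023afb6dc : CRef := CRef.mk (Pat.mk 0x30000001000000003000000000000000000000000000000000 0x2000000038000003df000000fe000001ff0000001e0000001e0000001e 11 10) 0 0 (step_sound _ 134 [(rh1f36686c55693598.shift 3 4), (rh43de8ae96dd6be70.shift 1 2), (rhaca319b46cef3987.shift 3 3), rhe321103aa6877baa, (rhefb19ffaaa7a0748.shift 2 3)] (by decide +kernel))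
noncomputable def rh1132ac95adc5b569 : CRef := CRef.mk (Pat.mk 0x30000001000000003000000000 0x1e0000001e0000001e000001ff000000fe000003df0000003800000020 11 10) 0 0 (step_sound _ 102 [(rh7beb340e8ab4fee6.shift 3 0), (rh8bf81726e45dde6c.shift 0 1), (rh8f3f190a028f8b1d.shift 1 1), (rhadc58f335021d7cb.shift 2 2), (rhf1af73716833b731.shift 3 2)] (by decide +kernel))
noncomputable def rhe133e1a89451be71 : CRef := CRef.mk (Pat.mk 0x60000002000000002000000000 0x140000001c0000003c000003ff000001fe0000039e0000003000000030 11 10) 0 0 (step_sound _ 100 [(rh107d500764a21788.shift 3 0), (rh159afff2322e29cb.shift 0 1), (rh29ae7a2b4f5dbf8e.shift 2 2), (rh90c8fdb25c0d8c07.shift 1 2), (rh9a42f4164057f645.shift 2 2), (rhf8e735c4fd37dbb2.shift 2 2)] (by decide +kernel))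
noncomputable def rhcacf3bbd1dc54501 : CRef := CRef.mk (Pat.mk 0x100000005300000052000000000000000000000000 0x85000000ef000000ff000000ef000000ff0000005b000000ff000001cd0000008800000088 11 9) 0 0 (step_sound _ 99 [(rh5419adcd928dba20.shift 0 3), rhd2f94996606a518c] (by decide +kernel))
noncomputable def rh753fb96b90e4861e : CRef := CRef.mk (Pat.mk 0x1000000053000000520000000000000000000000000 0xad000000eff00000efe00000ffe000005b000000ff0000006d00000028000000080 11 12) 0 0 (step_sound _ 165 [(rh12452934acb847d5.shift 4 2), (rh33e7a495eac38d87.shift 0 2), (rha7bdfb184f334248.shift 4 0), (rhb54ac9c83303b741.shift 4 2)] (by decide +kernel))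
noncomputable def rhaf883e5be8160833 : CRef := CRef.mk (Pat.mk 0x10000000530000005200000000000000000000000000000000 0x5000000a7000000ef000000ef000000fe0000005b000000ff0000002f0000000f0000000c00000004 11 8) 0 0 (step_sound _ 131 [(rh5419adcd928dba20.shift 0 4), rhba6e370ccc42cc9e] (by decide +kernel))
noncomputable def rhd8d740ca0504a2ce : CRef := CRef.mk (Pat.mk 0x30000000a6000000a40000000000000000 0xa0000015e000001df000001df000000f7000000b6000001ff0000014b00000001 11 9) 0 0 (step_sound _ 67 [(rh2fe78cc5ca4405d8.shift 1 2), rha43034eb51ef7ac2] (by decide +kernel))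
noncomputable def rhbaa71c9d75a7314c : CRef := CRef.mk (Pat.mk 0x1000000018000000800000000000000000000000000000000000000000 0x28000000380000003800000038000000180000001800000018000000fe0000007f0000007e0000003e0000003800000028 11 8) 0 0 (step_sound _ 260 [(rh281c6819542c66e6.shift 3 3), (rh7c34d3a7187b7bcc.shift 3 2), (rh976a48eb1c80a12f.shift 3 5), rhde5eb1a8b116c960] (by decide +kernel))
noncomputable def rh8ca3a0eb7c389e6f : CRef := CRef.mk (Pat.mk 0x18000000130000001000000000000000000000000000000000 0x40000000c0000000e0000000f0000001f0000001b0000001300000007000000070000000700000005 11 5) 0 0 (step_sound _ 227 [rh45c05a24016b9b7d, (rhe072fffdd2fccf38.shift 3 4)] (by decide +kernel))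
noncomputable def rh7d9fbbc1269a2662 : CRef := CRef.mk (Pat.mk 0xb0000000a0000000a00000008000000000000000000000000 0x50000001f0000001d0000001b0000000b0000000a0000000c0000001c0000001c00000010 11 5) 0 0 (step_sound _ 66 [rh5fa9d562b6da9f52, (rh79877ebd3ef475dd.shift 2 2)] (by decide +kernel))
noncomputable def rh7a660bd3cbe149f4 : CRef := CRef.mk (Pat.mk 0x20000005300000050000000010000000100000000000000000000000000000000 0xa0000000e0000000e20000005300000ffe000007ef00000ff9000000e8000000e0000000e000000020 11 12) 0 0 (step_sound _ 195 [rh15a79ab9d9fb4852, (rh54f4f1b09d97a5c8.shift 0 4), (rh825d374ef4df7137.shift 0 5), (rh924440236f79521c.shift 0 2), (rhc65a161322ea38e8.shift 0 3)] (by decide +kernel))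
noncomputable def rh4497336fe401bfaa : CRef := CRef.mk (Pat.mk 0x22000000220000000200000002000000000 0x22000000320000001fc000001fe000003df 11 10) 0 0 (step_sound _ 36 [rh5b24428cf47ab41a, (rh932754581e0f4330.shift 4 0)] (by decide +kernel))
noncomputable def rh83607a9f03da2e1b : CRef := CRef.mk (Pat.mk 0x800000029800000288000000080000000000000000000000000000000000000000 0x5000000070000000730000007f00000029800007fff00003f7e00007ff700000774000007000000070000000100 11 15) 0 0 (step_sound _ 198 [(rh134e08ec0e30f604.shift 0 1), (rh3c36a67773760226.shift 3 0), (rh53e2fbdb2f900359.shift 3 3), (rh825d374ef4df7137.shift 3 5), (rhc65a161322ea38e8.shift 3 3)] (by decide +kernel))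
noncomputable def rh85edcede12dc3be3 : CRef := CRef.mk (Pat.mk 0x9000000018000000080000000800000000 0x140000001c0000001c0000000f000000ff0000001b0000001f0000000f00000005 11 8) 0 0 (step_sound _ 133 [(rh361cc68994bd8a63.shift 3 3), rh4c66494152f7b888] (by decide +kernel))
noncomputable def rha6f9e6edfaca0c1f : CRef := CRef.mk (Pat.mk 0x400000014c00000160000000040000000000000000000000000000000000000000 0x2800000038000000398000003fc0000014c000003ee000003bf000003fa000003bf0000038a0000038000000280 11 10) 0 0 (step_sound _ 165 [(rh2ca1500e879a3c28.shift 4 1), (rh36f14af10f5cbc65.shift 0 2), (rh409f2fb3048749e4.shift 5 0), (rhe757a7284fc1c5ca.shift 4 2)] (by decide +kernel))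
noncomputable def rh1142c1444fb4b690 : CRef := CRef.mk (Pat.mk 0x18000000080000000800000000 0x140000001c0000001c0000001f0000001f0000001b0000000f0000003f00000014 11 6) 0 0 (step_sound _ 131 [(rh57c9f7722111bedd.shift 2 1), (rh771d065bdc85bf2d.shift 2 0), rhb04e9ea3a24e37dc, rhf3d11b058448e968] (by decide +kernel))
noncomputable def rh41903644bede61ad : CRef := CRef.mk (Pat.mk 0x98000000c000000008000000000000000000000000 0x8000000080000000800000098000000ff0000007e000000fc0000007e00000014 11 8) 0 0 (step_sound _ 100 [(rh35a0970f257c7e59.shift 3 2), (rh841553787619cd75.shift 0 2), (rhc5d612d5c96f0ab7.shift 2 3), (rhf88af106cced78d5.shift 1 0)] (by decide +kernel))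
noncomputable def rh88dc95f1cbd11cd4 : CRef := CRef.mk (Pat.mk 0x14400000160000000040000000000000000000000000000000000000000 0x28000000380000003800000038400000144000003e6000003bf000003fe000003bf0000038a0000038000000280 11 10) 0 0 (step_sound _ 165 [(rh2ca1500e879a3c28.shift 4 1), (rh409f2fb3048749e4.shift 5 0), (rh6a63694b978e6cfd.shift 2 5), (rh947def519bf6b50f.shift 0 2), (rhf25fd84660e6ca78.shift 4 2)] (by decide +kernel))
noncomputable def rhaa9801d59b291a9e : CRef := CRef.mk (Pat.mk 0x4300000058000000000000000000000000 0xa0000000e0000000e00000004300000ffe000007e000000fe0000000a0 11 12) 0 0 (step_sound _ 98 [(rh09d4dfe75d4407d6.shift 0 3), (rhbb05b70f2cc6adab.shift 2 0)] (by decide +kernel))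
noncomputable def rh824c7734b8d888cf : CRef := CRef.mk (Pat.mk 0x10000000530000005000000001000000000000000000000000000000000000000000000000 0xa5000000e7000000ff0000005300000ffe000007ef00000fff000007ff000000e5000000e0000000e0000000a0 11 12) 0 0 (step_sound _ 198 [(rh0640759f80205b45.shift 5 4), (rh163e1aad45935486.shift 4 5), (rh365d216e501145c4.shift 3 5), (rh5545f6d56d702cfe.shift 0 3), (rh9c0034e6ceb4a021.shift 0 3), rhcfce211eb30c3960] (by decide +kernel))
noncomputable def rhd7093c7c148699e1 : CRef := CRef.mk (Pat.mk 0x10000000130000001800000000000000000000000000000000 0x50000000f0000001f0000000f0000001f0000001b0000001f00000003000000070000000700000004 11 5) 0 0 (step_sound _ 129 [rh1eda6d15c44d682a, (rh5419adcd928dba20.shift 0 4)] (by decide +kernel))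
noncomputable def rh12c6b1a0df304049 : CRef := CRef.mk (Pat.mk 0x240000000600000022000000000000000000000000000000000 0x80000001c0000001c000003ff0000007e000003ff0000003e0000007e0000003c00000014 11 10) 0 0 (step_sound _ 100 [(rh33c3b1b84879eec1.shift 1 1), (rh3c5302402d46d365.shift 2 2), (rh95a34d8fb4b05711.shift 1 1), (rha05497a58fc36755.shift 1 0), (rha345732665d48f90.shift 4 0), (rhaf9987066762cdec.shift 0 2)] (by decide +kernel))
noncomputable def rh930cfede785f8247 : CRef := CRef.mk (Pat.mk 0x600000003000000118000000000000000000000000 0x6c000000ec0000007f0000003c000001f80000004c0000000c0000000c 11 9) 0 0 (step_sound _ 131 [(rh53b3c253cb0c65f4.shift 2 4), rhc6042348dd477019] (by decide +kernel))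
noncomputable def rh4ae338b43edfa2b5 : CRef := CRef.mk (Pat.mk 0x800000001800000088000000000000000000000000 0x200000003600000037000000f70000001f000000ff0000007f0000007e0000007c 11 8) 0 0 (step_sound _ 100 [(rh16f30ea31c710a8b.shift 3 0), rh3710c7699ec5290d, rh7f641414983bfe26, (rhbc19a59b7772b8df.shift 3 0)] (by decide +kernel))
noncomputable def rh28b1e98ec66218c8 : CRef := CRef.mk (Pat.mk 0xb00000009800000088000000080000000000000000 0x67000000bf000000db000000ff0000007f0000007500000040 11 8) 0 0 (step_sound _ 163 [(rh6cdc1ee8d9ae9908.shift 0 1), (rh72da4a559e707d7e.shift 0 1), (rh7881bba1e7287282.shift 3 0), rhf3b221ba133fd01a] (by decide +kernel))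
noncomputable def rh548ca4bff0c63682 : CRef := CRef.mk (Pat.mk 0x480000000d00000004000000000000000000000000000000000 0x2800000038000001bf000001be000007ff000000dc000000f8000001b8000001f8000001e800000140 11 11) 0 0 (step_sound _ 132 [(rh08d77ba7f1022a52.shift 3 0), (rh46d02cd886b7cc0f.shift 3 1), (rh55f8136c35677b47.shift 0 1), (rh5a6f1d5491640e22.shift 3 1), (rhafbf85665ef748c4.shift 3 1)] (by decide +kernel))
noncomputable def rhf1ee9599c6364360 : CRef := CRef.mk (Pat.mk 0x480000000d00000004000000000000000000000000000000000 0x2800000038000001bf000001be000007ff000000dc000001f8000001b8000001f8000001e800000140 11 11) 0 0 (step_sound _ 132 [(rh08d77ba7f1022a52.shift 3 0), (rh0ccd981584f546e3.shift 0 1), (rh215715478c21303e.shift 3 1), (rh46d02cd886b7cc0f.shift 3 1), (rh55f8136c35677b47.shift 0 1), (rhafbf85665ef748c4.shift 3 1)] (by decide +kernel))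
noncomputable def rhe7ca4ad343c9618d : CRef := CRef.mk (Pat.mk 0x100000000300000011000000030000000000000000000000000 0x2000000028000001fe0000003e000003de000000fe000001cf0000000200000002 11 10) 0 0 (step_sound _ 102 [(rh1f36686c55693598.shift 3 3), (rh241ddf12d4fc9298.shift 3 3), rh62207ab9a9027373, (rh9128edfd050b394d.shift 1 2)] (by decide +kernel))
noncomputable def rhb23d3d967d0a3756 : CRef := CRef.mk (Pat.mk 0x80000000180000008a00000000000000000000000000000000 0x8000000380000003c00000037000000ff0000001f000000fe000000770000003e0000003f00000028 11 8) 0 0 (step_sound _ 132 [rh392e38e68fccc61b, (rh8387c53dbad1e726.shift 0 3), (rha0cb42e04dcc001b.shift 1 0), (rhe9828b39fc7aa316.shift 0 2), rhebff3093b63dead8] (by decide +kernel))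
noncomputable def rhf66f8e85b0cdbba5 : CRef := CRef.mk (Pat.mk 0x180000000c000000010000000000000000000000000 0x28000000380000003f0000003e000001ff000000fc00000018000000380000003800000028 11 9) 0 0 (step_sound _ 132 [(rh24ae073cf30720c4.shift 4 4), rhfbb2112bee4cb407] (by decide +kernel))
noncomputable def rhb4eea5237e38e897 : CRef := CRef.mk (Pat.mk 0x80000000c0000004d0000000000000000000000000 0x28000000380000003f0000003e000000ff000000fc000007d8000000380000003800000028 11 11) 0 0 (step_sound _ 132 [(rh086f6046fa319626.shift 3 3), (rh41955519f857d4d5.shift 4 3), rhfbb2112bee4cb407] (by decide +kernel))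
noncomputable def rha86ee109c380c6a8 : CRef := CRef.mk (Pat.mk 0x80000000c0000000d0000000000000000000000000 0x2800000038000001bf000001be000000ff000000fc000000d8000000380000003800000028 11 9) 0 0 (step_sound _ 132 [(rh086f6046fa319626.shift 3 3), (rh4ee6575ab943a406.shift 3 2), (rhe36f123e897478d4.shift 3 2), rhfbb2112bee4cb407] (by decide +kernel))
noncomputable def rhf31c17a20dbb5362 : CRef := CRef.mk (Pat.mk 0xc00000001800000000000000000000000000000000 0x80000003c0000007f000000ff0000001f0000001e0000003c0000003c00000030 11 8) 0 0 (step_sound _ 164 [rh9618aebb3254c159, (rhb2a0b9ccfb5cecd5.shift 3 4)] (by decide +kernel))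
noncomputable def rh8208c80aa10a49f1 : CRef := CRef.mk (Pat.mk 0x180000009800000000000000000000000000000000 0x2000000060000000f0000001f000000df0000007f000000fe0000003e00000004 11 8) 0 0 (step_sound _ 100 [(rh1864e4c677b30864.shift 1 1), (rh3cb04db3dd2b6a55.shift 3 1), rh799c2abe711505b9] (by decide +kernel))
noncomputable def rhd5b58ffc4b063a98 : CRef := CRef.mk (Pat.mk 0x2200000006000000240000000000000000000000000 0x140000003c0000007e0000003e000003ff0000007e000003ff0000001c0000001c00000008 11 10) 0 0 (step_sound _ 196 [(rh22f1f92f6501bdc8.shift 1 1), rh3ebec17117179133, (rh600606c7176b9038.shift 1 1), (rh74da613a42b2435e.shift 2 2), (rh79b7e25a3d01db4f.shift 1 1), (rhff28e042d2131524.shift 4 3)] (by decide +kernel))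
noncomputable def rhfb343cc7aab2c1f9 : CRef := CRef.mk (Pat.mk 0x11800000030000000600000000000000000 0xc0000000c0000004c000001f80000003c0000007f000000ec0000006c 11 9) 0 0 (step_sound _ 99 [rhb02af54323d2bd4e, (rhb739f4f82bb681b4.shift 2 2)] (by decide +kernel))
noncomputable def rhdfc8cc0aa2e1aa83 : CRef := CRef.mk (Pat.mk 0x880000001800000080000000000000000000000000 0x7c0000007e0000007f000000ff0000001f000000f7000000370000003600000020 11 8) 0 0 (step_sound _ 164 [(rh3f9dea3242f3564d.shift 0 1), (rha8b02da4b279b3fc.shift 3 0), (rhf84a849e5c39836f.shift 0 3), (rhf95abc4b8f36a2a2.shift 3 0)] (by decide +kernel))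
noncomputable def rhb02f0bc517cf4697 : CRef := CRef.mk (Pat.mk 0x80000008800000098000000b000000000 0x40000000750000007f000000ff000000db000000bf00000067 11 8) 0 0 (step_sound _ 35 [(rh491619d7874bdd53.shift 0 1), (rh6fe090fbac8927f0.shift 3 0), rhae2d772bc0db32c8, rhb01d4968ebaf11af] (by decide +kernel))
noncomputable def rh526280c0f3608c07 : CRef := CRef.mk (Pat.mk 0x40000000d00000048000000000000000000000000000000000 0x140000001e8000001f8000001b8000000f8000000dc000007ff000001be000001bf0000003800000028 11 11) 0 0 (step_sound _ 196 [rh34b115b9abe9c016, (rh99946c4571618242.shift 3 1), (rhce2dbe6d9b8586ea.shift 3 4), (rhebd34c600eca3907.shift 3 2), (rhf0157adac5d0436a.shift 3 3)] (by decide +kernel))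
noncomputable def rh0122fb108de911f4 : CRef := CRef.mk (Pat.mk 0x40000000d00000048000000000000000000000000000000000 0x140000001e8000001f8000001b8000001f8000000dc000007ff000001be000001bf0000003800000028 11 11) 0 0 (step_sound _ 196 [rh34b115b9abe9c016, (rh3b18d37bfe48b686.shift 3 2), rhb2867f2798b48bca, (rhce2dbe6d9b8586ea.shift 3 4), (rhebd34c600eca3907.shift 3 2), (rhf0157adac5d0436a.shift 3 3)] (by decide +kernel))
noncomputable def rh484872278cca3393 : CRef := CRef.mk (Pat.mk 0x300000011000000030000001000000000000000000 0x200000002000001cf000000fe000003de0000003e000001fe0000002800000020 11 10) 0 0 (step_sound _ 166 [rh2a0e5cf53a4f9ae0, (rhe80c67fb403a51c5.shift 3 4), (rheb0ee1f47322713f.shift 1 4), (rhf1af73716833b731.shift 3 4)] (by decide +kernel))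
noncomputable def rh3239e164e599a8a2 : CRef := CRef.mk (Pat.mk 0x8a000000180000008000000000000000000000000000000000 0x280000003f0000003e00000077000000fe0000001f000000ff000000370000003c0000003800000008 11 8) 0 0 (step_sound _ 196 [(rh6149dc8e4065094c.shift 0 2), (rh6ac4b2e369bb6930.shift 1 0), (rhed262fbe22d2ce59.shift 0 2), (rhf36bdbce7d993ab7.shift 0 5), (rhfded4b9358629068.shift 0 2)] (by decide +kernel))
noncomputable def rh2f6b7f123cde54e3 : CRef := CRef.mk (Pat.mk 0x10000000c00000018000000000000000000000000000000000 0x28000000380000003800000018000000fc000001ff0000003e0000003f0000003800000028 11 9) 0 0 (step_sound _ 164 [rh5cc81fc46cef30c9, (rhab22b5b56e7b3243.shift 4 4)] (by decide +kernel))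
noncomputable def rhd70322f973b1bba8 : CRef := CRef.mk (Pat.mk 0x4d0000000c00000008000000000000000000000000000000000 0x280000003800000038000007d8000000fc000000ff0000003e0000003f0000003800000028 11 11) 0 0 (step_sound _ 164 [rh5cc81fc46cef30c9, (rh6e1685e3533aff0e.shift 3 5), (rh90982cf581ae3e69.shift 4 5)] (by decide +kernel))
noncomputable def rhae3de097df4cda21 : CRef := CRef.mk (Pat.mk 0xd0000000c00000008000000000000000000000000000000000 0x280000003800000038000000d8000000fc000000ff000001be000001bf0000003800000028 11 9) 0 0 (step_sound _ 164 [rh5cc81fc46cef30c9, (rh6e1685e3533aff0e.shift 3 5), (rh79af9630897d4dad.shift 3 2), (rh95f309aa0679dd13.shift 3 2)] (by decide +kernel))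
noncomputable def rh096936c88306be10 : CRef := CRef.mk (Pat.mk 0x18000000c0000000000000000000000000 0x300000003c0000003c0000001e0000001f000000ff0000007f0000003c00000008 11 8) 0 0 (step_sound _ 100 [rh35dc10967ca0d078, (rh5419adcd928dba20.shift 3 3)] (by decide +kernel))
noncomputable def rh1ba8cabd555a5a99 : CRef := CRef.mk (Pat.mk 0x9800000018000000000000000000000000 0x40000003e000000fe0000007f000000df0000001f0000000f0000000600000002 11 8) 0 0 (step_sound _ 164 [(rh503dd4575245365b.shift 3 2), (rh9dbc063ae34b2487.shift 1 3), rhcab9ceebcc02058a] (by decide +kernel))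
noncomputable def rhe50a986e35445de1 : CRef := CRef.mk (Pat.mk 0x30000000600000000000000000000000000000000000000000 0x1000000010000000180000003c0000007e000000ff000000ff0000007f0000007400000050 11 8) 0 0 (step_sound _ 195 [rh8f106a36f781de98, (rhb739f4f82bb681b4.shift 2 5)] (by decide +kernel))
noncomputable def rh021c190933623e2d : CRef := CRef.mk (Pat.mk 0x400000000c000000180000000000000000000000000000000000000000 0x100000001800000018000000780000000f0000001f0000003f0000001f0000001e0000001c00000014 11 7) 0 0 (step_sound _ 193 [rh9f388a47a3932113, (rhb739f4f82bb681b4.shift 0 5)] (by decide +kernel))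
noncomputable def rhc669f5ac298842f8 : CRef := CRef.mk (Pat.mk 0x500000005300000012000000000000000000000000 0x50000000f0000000f0000002f000000ff0000005b000000ff000000ed000000e8000000a0 11 8) 0 0 (step_sound _ 163 [rh1d3c741c8e74a03e, (rh344b027b4f3519e9.shift 0 2), (rh5361af828aa1d44c.shift 0 3), (rh5377837824fa2ef4.shift 0 3), (rhd299ff6330c48d25.shift 0 2)] (by decide +kernel))
noncomputable def rh7648cad57620cdad : CRef := CRef.mk (Pat.mk 0x800000001e000000100000000000000000 0x20000000380000003c0000007c000000fc0000001e0000001f0000000a00000002 11 8) 0 0 (step_sound _ 132 [(rh33e738c4ed385b9f.shift 1 3), rh62e055f989dbc89e] (by decide +kernel))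
noncomputable def rh4a65a686e79391d2 : CRef := CRef.mk (Pat.mk 0x5800000053000000120000000000000000 0x80000000e8000000f8000000ec000000780000005b000000fe000000e0000000a0 11 8) 0 0 (step_sound _ 163 [rh79ae2c44f7a47ff7, (rh9609e3246e00889e.shift 2 1), (rhe072fffdd2fccf38.shift 3 2)] (by decide +kernel))
noncomputable def rh198589ffa2b4e4a6 : CRef := CRef.mk (Pat.mk 0x8800000018000000100000000000000000 0x300000003400000076000000fc0000001e0000001f0000001f0000001f 11 8) 0 0 (step_sound _ 132 [(rh765f43df902bcc8e.shift 3 0), (rhcd8f1cf8d3adaf40.shift 1 1), rhd6ccb4d6ffaa9651] (by decide +kernel))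
noncomputable def rhe62d9e28e7df81f4 : CRef := CRef.mk (Pat.mk 0x18000000900000000000000000000000000000000000000000 0x4000000140000001c0000001e000000ff0000007f0000007f0000003e0000003a00000028 11 8) 0 0 (step_sound _ 165 [(rh2fe78cc5ca4405d8.shift 3 5), rhba274d6e590d481b] (by decide +kernel))
noncomputable def rh9673e6aa92087b31 : CRef := CRef.mk (Pat.mk 0x1200000003000000020000000000000000000000000 0x10000001f0000000300000003e0000007e0000007f00000050 11 9) 0 0 (step_sound _ 167 [rh23309c12ea1b770a, (rhb2a0b9ccfb5cecd5.shift 4 4)] (by decide +kernel))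
noncomputable def rh7a16261a11326e73 : CRef := CRef.mk (Pat.mk 0x1800000098000000000000000000000000 0xc0000000c0000000c0000001e000000fe0000007c000000ff0000002c 11 8) 0 0 (step_sound _ 101 [(rh2fe78cc5ca4405d8.shift 3 3), rh8737852ae1b667cd] (by decide +kernel))
noncomputable def rh0172767aedda05bc : CRef := CRef.mk (Pat.mk 0x3000000130000000000000000000000000 0x80000003c000001fe000000fe0000007f0000007c 11 9) 0 0 (step_sound _ 102 [rh15bafa484cffe81c, (rh2fe78cc5ca4405d8.shift 4 3)] (by decide +kernel))
noncomputable def rh219fbbb4fa2f181a : CRef := CRef.mk (Pat.mk 0xc00000001800000080000000000000000000000000 0x1c0000001c000000fc0000001f000000ff0000007f0000003c00000034 11 8) 0 0 (step_sound _ 164 [rh0e046421f1faabc6, (rhb2a0b9ccfb5cecd5.shift 3 4)] (by decide +kernel))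
noncomputable def rhde7c8cd0215b96ef : CRef := CRef.mk (Pat.mk 0x480000004c000000400000000000000000000000000000000000000000 0x40000001c0000001c000000180000004c0000006c0000007c0000003f0000007f0000003f0000001c00000014 11 7) 0 0 (step_sound _ 163 [(rh12452934acb847d5.shift 2 4), (rh4a22cf2325b02851.shift 2 2), rh4bff7a57d5d2fae7, (rh4c145d583973abd2.shift 2 2), (rhae622559812d8eef.shift 2 1)] (by decide +kernel))
noncomputable def rhe447669f1ab1ee19 : CRef := CRef.mk (Pat.mk 0xc00000001800000000000000000000000000000000 0x2800000038000000380000003800000038000000f80000001f0000003f0000003f0000003c0000000c 11 8) 0 0 (step_sound _ 164 [rh6c5ab5ad4f00c453, (rhb2a0b9ccfb5cecd5.shift 3 4)] (by decide +kernel))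
noncomputable def rh513169ec2687957d : CRef := CRef.mk (Pat.mk 0x50000000530000001200000000000000000000000000000000 0xa0000000e0000000e0000000d00000005b000000fe000001ec000000f8000000e800000080 11 9) 0 0 (step_sound _ 131 [(rh5419adcd928dba20.shift 0 4), (rhf2166cfa65fe6d40.shift 2 0)] (by decide +kernel))
noncomputable def rh71a8867da6a7311e : CRef := CRef.mk (Pat.mk 0x4000000400000000c000000480000000000000000000000000000000000000000 0x140000003c000000780000000f0000007c00000018000000180000001c0000001c00000014 11 7) 0 0 (step_sound _ 164 [(rh2fe78cc5ca4405d8.shift 2 5), rh3a43ec8eb95ed998] (by decide +kernel))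
noncomputable def rh642504e1dcba070d : CRef := CRef.mk (Pat.mk 0x1000000014c0000004800000008000000000000000000000000000000000000000000000000 0x2800000038000000380000003800000014c000003f8000007bf000003fc000003bc0000021c0000001c0000001c00000014 11 11) 0 0 (step_sound _ 163 [(rh37d1cdf84fe36e56.shift 2 3), (rh6eff4158bb400f47.shift 2 3), (rh7f4a2d2649a1a789.shift 2 2), (rhaa7a7a0fc4868fd8.shift 0 1), (rhcaf75b0449f51db2.shift 2 0), (rhcc4c470e0293ae77.shift 1 3)] (by decide +kernel))
noncomputable def rhc1866ef571bb179e : CRef := CRef.mk (Pat.mk 0x100000000000000030000000600000000000000000000000000000000000000000 0x10000000380000003c00000078000000ff000000fe0000007f0000007000000050 11 8) 0 0 (step_sound _ 195 [(rhb739f4f82bb681b4.shift 2 5), rhdf7831faa4719673] (by decide +kernel))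
noncomputable def rhadd924ba4d280e63 : CRef := CRef.mk (Pat.mk 0x82000000b0000000a600000000 0x40000000c0000001c7000001d7000001ff000001df000001f7000000a700000005 11 9) 0 0 (step_sound _ 100 [(rh0dda944375fef289.shift 1 2), (rh1e3402c4d7921992.shift 4 1), rh859fe1bb7f85965f] (by decide +kernel))
noncomputable def rh75ac84bf5687e886 : CRef := CRef.mk (Pat.mk 0x4000000000000000c000000480000000000000000000000000000000000000000 0xc0000000c000000080000000f0000007f0000003f0000001f0000001e0000001c00000014 11 7) 0 0 (step_sound _ 164 [(rh2fe78cc5ca4405d8.shift 2 5), rh3658121b6a5f7e09] (by decide +kernel))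
noncomputable def rh0528b559ca1e2d19 : CRef := CRef.mk (Pat.mk 0x4000000480000000c0000004000000000 0x140000001c0000001c000000180000001c0000007c0000000f0000007c0000001c 11 7) 0 0 (step_sound _ 100 [(rh361cc68994bd8a63.shift 2 2), rhc2a561e044383ce0] (by decide +kernel))
noncomputable def rhacaff97b0e3807c9 : CRef := CRef.mk (Pat.mk 0x4000000480000000c0000004000000000000000000000000000000000 0x140000001c0000001c000000180000001c0000007c0000000f0000007c000000180000001c0000001c00000004 11 7) 0 0 (step_sound _ 196 [rh01fc812f6b471bce, (rh361cc68994bd8a63.shift 2 5)] (by decide +kernel))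
noncomputable def rh67ba8ec9a7047d20 : CRef := CRef.mk (Pat.mk 0x4000000480000000c00000040000000000000000000000000 0x140000001c0000001c000000180000001c0000007c0000000f000000780000001c0000001c00000014 11 7) 0 0 (step_sound _ 164 [(rh361cc68994bd8a63.shift 2 4), rhaedbbc3f2252824b] (by decide +kernel))
noncomputable def rh3003a4bc6a3ef518 : CRef := CRef.mk (Pat.mk 0x20000002200000022000000000 0x50000003ff000001fe000001fe000003300000023000000010 11 10) 0 0 (step_sound _ 133 [(rh1741680720c097b4.shift 4 1), (rh402d223d12d7377d.shift 4 0), (rh771d065bdc85bf2d.shift 4 0), rhf0c92708795ef30f] (by decide +kernel))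
noncomputable def rhc5855fb6b24f1cbd : CRef := CRef.mk (Pat.mk 0x410000005000000053000000100000000000000000 0x85000000ef000000ff0000006f0000007e00000053000000ff000000e5000000a1 11 8) 0 0 (step_sound _ 70 [rh07071eb8e736d321, (rh6eff4158bb400f47.shift 5 0), (rh8ff3dde5b1c639e0.shift 5 0), (rhc4526fc8abf298b6.shift 5 0)] (by decide +kernel))
noncomputable def rhc8b51acf2887910d : CRef := CRef.mk (Pat.mk 0x4000000400000000c00000018000000000000000000000000 0x180000003c0000007c0000000f0000001f0000003f0000001700000002 11 7) 0 0 (step_sound _ 129 [rh43330323687aa57d, (rhb739f4f82bb681b4.shift 0 3)] (by decide +kernel))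
noncomputable def rh9adac4a8913a53f1 : CRef := CRef.mk (Pat.mk 0x4000000400000000c00000018000000000000000000000000 0x1c0000003c000000780000000f0000001f0000003f0000001700000002 11 7) 0 0 (step_sound _ 129 [rh8ad65fd891c3780e, (rhb739f4f82bb681b4.shift 0 3)] (by decide +kernel))
noncomputable def rh6d856e25e8b5831a : CRef := CRef.mk (Pat.mk 0x6000000030000000000000000000000000 0x50000000740000007f000000ff000000ff0000007e0000003c000000180000001000000010 11 8) 0 0 (step_sound _ 99 [(rh53b3c253cb0c65f4.shift 2 3), rhcff18c04c2722163] (by decide +kernel))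
noncomputable def rh0e44e2464745dc56 : CRef := CRef.mk (Pat.mk 0x180000000c00000040000000000000000000000000 0x140000001c0000001e0000001f0000003f0000001f0000000f00000078000000180000001800000010 11 7) 0 0 (step_sound _ 129 [(rh53b3c253cb0c65f4.shift 0 4), rhdebb09b1385fd0ad] (by decide +kernel))
noncomputable def rh60fbd9faab3c690f : CRef := CRef.mk (Pat.mk 0x12000000530000005000000000000000000000000000000000 0xa0000000e8000000ed000000ff0000005b000000ff0000002f0000000f0000000f00000005 11 8) 0 0 (step_sound _ 131 [(rh0fa3978fcca1633b.shift 0 2), rh179d065fc6281018, (rh1807c9f74b6a41cb.shift 0 2), (rh5071b108d0db1464.shift 0 1), (rh885fe8119fcfa194.shift 0 1)] (by decide +kernel))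
noncomputable def rh514c86257871abd1 : CRef := CRef.mk (Pat.mk 0x100000001e0000008000000000000000000000000000000000 0x20000000a0000001f0000001e000000fc0000007c0000003c0000003800000020 11 8) 0 0 (step_sound _ 132 [rh0ba522a57a5909fc, (rhe25b0a99195a5d59.shift 1 4)] (by decide +kernel))
noncomputable def rh5dc03078a917eef1 : CRef := CRef.mk (Pat.mk 0x12000000530000005800000000000000000000000000000000 0xa0000000e0000000fe0000005b00000078000000ec000000f8000000e800000080 11 8) 0 0 (step_sound _ 99 [rh4203fa5c42bc6e1c, (rhedfee947f5d4a3b8.shift 2 2), (rhf9af042da61fc652.shift 3 1)] (by decide +kernel))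
noncomputable def rha923c0aeb299bc9c : CRef := CRef.mk (Pat.mk 0x100000001800000088000000000000000000000000 0x1f0000001f0000001f0000001e000000fc000000760000003400000030 11 8) 0 0 (step_sound _ 100 [(rh2362599204ec8476.shift 3 2), (rh45d94834518128a6.shift 0 2), (rhc8e846e7295b45af.shift 1 0)] (by decide +kernel))
noncomputable def rh46453e6406670044 : CRef := CRef.mk (Pat.mk 0x9000000018000000000000000000000000 0x280000003a0000003e0000007f0000007f000000ff0000001e0000001c0000001400000004 11 8) 0 0 (step_sound _ 133 [(rh361cc68994bd8a63.shift 3 3), rh5a8b383049b3966d] (by decide +kernel))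
noncomputable def rhf07cb2a67e68de3d : CRef := CRef.mk (Pat.mk 0x20000000300000012000000000 0x500000007f0000007e0000003e00000030000001f000000010 11 9) 0 0 (step_sound _ 39 [(rh5419adcd928dba20.shift 4 1), rh868f0daa384fb195] (by decide +kernel))
noncomputable def rha38f5fb883666c3d : CRef := CRef.mk (Pat.mk 0x9800000018000000000000000000000000 0x2c000000ff0000007c000000fe0000001e0000000c0000000c0000000c 11 8) 0 0 (step_sound _ 133 [(rh361cc68994bd8a63.shift 3 3), rhb0c37e4cd180c315] (by decide +kernel))
noncomputable def rh0b0406e4eac4597b : CRef := CRef.mk (Pat.mk 0x1300000003000000000 0x7c0000007f000000fe000001fe0000003c00000008 11 9) 0 0 (step_sound _ 70 [(rh361cc68994bd8a63.shift 4 1), rhda15d54c38faf237] (by decide +kernel))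
noncomputable def rh9a3109cd83262654 : CRef := CRef.mk (Pat.mk 0x8000000018000000c00000000000000000 0x340000003c0000007f000000ff0000001f000000fc0000001c0000001c 11 8) 0 0 (step_sound _ 68 [(rh5419adcd928dba20.shift 3 2), rhcdc39d7fefdeafac] (by decide +kernel))
noncomputable def rhfbf12853bbf4c7cc : CRef := CRef.mk (Pat.mk 0x400000004c0000004800000000000000000000000000000000 0x140000001c0000003f0000007f0000003f0000007c0000006c0000004c000000180000001c0000001c00000004 11 7) 0 0 (step_sound _ 195 [(rh0661b8a2baeb8fbf.shift 2 0), (rh566659606c8abe04.shift 2 3), (rh7552f018eb36ad91.shift 2 0), (rhc47fe1bc6b175f77.shift 2 2), (rhdca10c114ac8d0d1.shift 0 4)] (by decide +kernel))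
noncomputable def rhfa10f39de66dbebd : CRef := CRef.mk (Pat.mk 0x18000000c00000000000000000000000000000000000000000 0xc0000003c0000003f0000003f0000001f000000f80000003800000038000000380000003800000028 11 8) 0 0 (step_sound _ 164 [rh1c224babb4d88e7b, (rh5419adcd928dba20.shift 3 5)] (by decide +kernel))
noncomputable def rhcc78711603d45329 : CRef := CRef.mk (Pat.mk 0x120000005300000050000000000000000000000000 0x80000000e8000000f8000001ec000000fe0000005b000000d0000000e0000000e0000000a0 11 9) 0 0 (step_sound _ 163 [(rhae6bc65f567384e5.shift 2 0), (rhb2a0b9ccfb5cecd5.shift 0 4)] (by decide +kernel))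
noncomputable def rh923dacff63bee0ac : CRef := CRef.mk (Pat.mk 0x480000000c000000400000000400000000 0x140000001c0000001c00000018000000180000007c0000000f000000780000003c00000014 11 7) 0 0 (step_sound _ 132 [rh1248be38b77a506d, (rh361cc68994bd8a63.shift 2 3)] (by decide +kernel))
noncomputable def rhabd30c7321cdcd9c : CRef := CRef.mk (Pat.mk 0x8000000480000014c00000100000000000000000000000000 0x140000001c0000001c0000021c000003bc000003fc000007bf000003f80000014c00000380000003800000038000000280 11 11) 0 0 (step_sound _ 227 [(rh1741680720c097b4.shift 2 4), (rh3fe749ba9ec07189.shift 0 4), (rh7d411ba98e3a93d9.shift 1 0), (rh84d95ab90794ade2.shift 2 4), (rhd2ae83612e3f2da5.shift 2 4), (rhdcfb1056cc23e520.shift 2 4)] (by decide +kernel))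
noncomputable def rh5a2b3341a9d5e97b : CRef := CRef.mk (Pat.mk 0x60000000300000000000000010 0x50000000700000007f000000fe000000ff000000780000003c0000003800000010 11 8) 0 0 (step_sound _ 67 [(rh53b3c253cb0c65f4.shift 2 2), rh877b7d5e9e713ec3] (by decide +kernel))
noncomputable def rh320316716db093d1 : CRef := CRef.mk (Pat.mk 0xa6000000b0000000820000000000000000000000000000000000000000 0x5000000a7000001f7000001df000001ff000001d7000001c7000000c000000040 11 9) 0 0 (step_sound _ 164 [(rh3a361e0a6d352e99.shift 4 0), (rh6a63694b978e6cfd.shift 1 5), (rhd0b2ad0c4f69be75.shift 0 2)] (by decide +kernel))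
noncomputable def rh0a679c0d5a703e6b : CRef := CRef.mk (Pat.mk 0x480000000c000000000000000400000000 0x140000001c0000001e0000001f0000003f0000007f0000000f000000080000000c0000000c 11 7) 0 0 (step_sound _ 132 [(rh361cc68994bd8a63.shift 2 3), rhdccf2ef9f7ef7b09] (by decide +kernel))
noncomputable def rh12cf2f7531cecba8 : CRef := CRef.mk (Pat.mk 0x400000000c000000480000000400000000000000000000000000000000 0x1c0000007c0000000f0000007c0000001c000000180000001c0000001c00000014 11 7) 0 0 (step_sound _ 164 [rh150d4f5f78eded93, (rh2fe78cc5ca4405d8.shift 2 5)] (by decide +kernel))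
noncomputable def rh6c0846173ba7ca35 : CRef := CRef.mk (Pat.mk 0x400000000c000000480000000400000000000000000000000000000000 0x40000001c0000001c000000180000007c0000000f0000007c0000001c000000180000001c0000001c00000014 11 7) 0 0 (step_sound _ 164 [(rh2fe78cc5ca4405d8.shift 2 5), rh59fca6dfe442a80e] (by decide +kernel))
noncomputable def rh021cf3370c48da42 : CRef := CRef.mk (Pat.mk 0x400000000c000000480000000400000000000000000000000000000000 0x140000001c0000001c000000780000000f0000007c0000001c000000180000001c0000001c00000014 11 7) 0 0 (step_sound _ 164 [rh10b87ce7d0e57930, (rh2fe78cc5ca4405d8.shift 2 5)] (by decide +kernel))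
noncomputable def rhb5a897b61222d198 : CRef := CRef.mk (Pat.mk 0x2200000022000000020000000000000000000000000 0x100000023000000330000001fe000001fe000003ff00000050 11 10) 0 0 (step_sound _ 69 [(rh6eff4158bb400f47.shift 4 0), (rh98c791f5356d08f7.shift 0 1), (rhc4526fc8abf298b6.shift 4 0), (rhcae87bda2c3c01d2.shift 4 0)] (by decide +kernel))
noncomputable def rh49d0e69a82703da1 : CRef := CRef.mk (Pat.mk 0x10000000530000005000000041000000000000000000000000 0xa1000000e5000000ff000000530000007e0000006f000000ff000000ef00000085 11 8) 0 0 (step_sound _ 198 [(rh1741680720c097b4.shift 5 3), (rh20966da26a1c2ae8.shift 5 2), (rh771d065bdc85bf2d.shift 5 2), rhf98c79e97886cea8] (by decide +kernel))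
noncomputable def rh6990a3a459d8bbbd : CRef := CRef.mk (Pat.mk 0x180000000c000000400000000400000000 0x2000000170000003f0000001f0000000f0000007c0000003c00000018 11 7) 0 0 (step_sound _ 97 [rh2a54feb32e287a2a, (rh53b3c253cb0c65f4.shift 0 3)] (by decide +kernel))
noncomputable def rh699fc356a44e4b21 : CRef := CRef.mk (Pat.mk 0x180000000c000000400000000400000000 0x2000000170000003f0000001f0000000f000000780000003c0000001c 11 7) 0 0 (step_sound _ 97 [(rh53b3c253cb0c65f4.shift 0 3), rhd3e048f6f2700d78] (by decide +kernel))
noncomputable def rh88d204c78b4932f6 : CRef := CRef.mk (Pat.mk 0x480000004c0000004000000004000000000000000000000000 0x140000007c0000006f0000007f0000003e0000007e0000003800000008 11 7) 0 0 (step_sound _ 130 [(rh71222050f2c63a3a.shift 2 2), rhe77c671bbf8af64e] (by decide +kernel))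
noncomputable def rh4baf57d32413ddf2 : CRef := CRef.mk (Pat.mk 0x2400000006000000200000000200000002000000000000000000000000000000000 0x3c000000060000007df000001fe000001ff000003fc000001fc000003fc00000050 11 11) 0 0 (step_sound _ 69 [(rh633162873200dccf.shift 2 0), rh938fee741ae8c399, (rha14815315220948e.shift 0 1), (rhb4847598120781e2.shift 2 1), (rhbf0e7f05f021e673.shift 2 0)] (by decide +kernel))
noncomputable def rh78f10a3797eb79b2 : CRef := CRef.mk (Pat.mk 0x240000000600000020000000060000000200000000000000000 0x3d0000000780000079e000001fe0000003f0000002000000020 11 11) 0 0 (step_sound _ 199 [rh06ce298a3fe16b1e, (rh361cc68994bd8a63.shift 5 5)] (by decide +kernel))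
noncomputable def rh26237c9a31ac9d6b : CRef := CRef.mk (Pat.mk 0x480000004c0000004000000004000000000000000000000000 0x140000007c0000006f000000fe0000003f000000ff0000003a0000000a 11 8) 0 0 (step_sound _ 130 [rh66d7d957262451f6, (rh71222050f2c63a3a.shift 2 2)] (by decide +kernel))
noncomputable def rh59558f3f059a3384 : CRef := CRef.mk (Pat.mk 0x120000001300000010000000010000000000000000000000000 0x50000001f0000001bc000001f7000000fe000001ff000000e000000020 11 9) 0 0 (step_sound _ 132 [(rh71222050f2c63a3a.shift 4 2), rhda7d023048e1c25d] (by decide +kernel))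
noncomputable def rhe134e4ebe5964e08 : CRef := CRef.mk (Pat.mk 0x80000000980000008000000008000000000000000000000000 0x680000007800000078000000fc000000de000000fe0000007e000000ff0000006800000008 11 8) 0 0 (step_sound _ 196 [(rh00d6a6e3c7e3bb40.shift 3 2), rh245461de05104160, (rh37919f801f1ce004.shift 1 2), (rh580df77fe152422b.shift 3 2), (rh8b70c0a9754d5d0f.shift 1 1), (rhc53efc28458cf0f1.shift 3 3)] (by decide +kernel))
noncomputable def rh08061c855f91acd1 : CRef := CRef.mk (Pat.mk 0x120000000300000010000000010000000000000000000000000 0x10000001f40000003c000003ff000000fe000000f70000002000000020 11 10) 0 0 (step_sound _ 198 [(rh361cc68994bd8a63.shift 4 5), rhb7e0e88acbd91ebd] (by decide +kernel))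
noncomputable def rh4d43ad351fdc0929 : CRef := CRef.mk (Pat.mk 0x100000001300000010000000010000000000000000000000000 0x28000000380000003800000070000001ff000001be000001fe000000f6000000fe000000be0000002a 11 9) 0 0 (step_sound _ 132 [(rh215e11e099257d75.shift 4 2), rhdbfe0ac61c7ad8ea, (rhe0103a30a4bb50ef.shift 2 0), (rhffb8e5993241bf15.shift 3 0)] (by decide +kernel))
noncomputable def rhec1bdb9c8dc2d9eb : CRef := CRef.mk (Pat.mk 0xc000000480000000c00000000000000000000000000000000 0x80000000f0000007f0000001f0000001b000000170000001700000005 11 7) 0 0 (step_sound _ 164 [(rh361cc68994bd8a63.shift 2 4), rhe0fb486e1d67251b] (by decide +kernel))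
noncomputable def rhf029775f4bbf9be2 : CRef := CRef.mk (Pat.mk 0x240000002700000020000000060000000000000000000000000 0x80000000e000000fe0000007f800000de0000007d0000003700000023f000000fe000001ff0000002800000020 11 12) 0 0 (step_sound _ 230 [(rh55444531b9b63c3b.shift 3 4), rha4ede06beaea1436, (rhb25a4f0c78afc919.shift 5 2)] (by decide +kernel))
noncomputable def rh42f8faeb11e99424 : CRef := CRef.mk (Pat.mk 0x80000000e000000000000000c00000000000000000 0x1000000010000000bf000000fe0000007f000003fc000003fc00000038 11 10) 0 0 (step_sound _ 132 [(rh1fb2e55b8f7caa8c.shift 2 1), (rh3e4b9488ac4c48cd.shift 0 3), (rh610a03db0201f82e.shift 1 1), (rh775ca1963e850b80.shift 2 3), rh9dd4ddf5252c2eaa, (rhe4587ad40d32b3ec.shift 2 0)] (by decide +kernel))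
noncomputable def rheba865d9af8ecbf2 : CRef := CRef.mk (Pat.mk 0xc000000400000000c000000000000000000000000000000000 0xb8000000f80000077f000003fe000007ff000000f8000000f8000000a8 11 11) 0 0 (step_sound _ 166 [(rh48daaf0a2d62fac8.shift 5 0), rh58019a51ab997b73, (rhbb8a11291ee9661c.shift 5 0), (rhf7373bebb6e77c93.shift 3 2), (rhffb8e5993241bf15.shift 5 1)] (by decide +kernel))
noncomputable def rhea95dc06a9596e9d : CRef := CRef.mk (Pat.mk 0x8000000018000000800000001800000000000000000000000000000000 0x280000003800000038000000f00000001e000000fe0000007f0000007e0000003f0000003800000028 11 8) 0 0 (step_sound _ 164 [(rh0069bdff5bba684b.shift 1 2), (rh038de9f6952c0fd9.shift 3 3), (rh6e4c5959d08fc253.shift 3 3), rhf027e97003782b3f] (by decide +kernel))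
noncomputable def rh8888b2d1873f284f : CRef := CRef.mk (Pat.mk 0x6000000030000000000000001000000000000000000000000000000000 0x10000000540000007f0000003c0000002f0000007e000000ff0000001e0000001e0000000a 11 8) 0 0 (step_sound _ 195 [rh3e58fe2d2921fb54, (rh53b3c253cb0c65f4.shift 2 6)] (by decide +kernel))
noncomputable def rh2a545505b97c53b3 : CRef := CRef.mk (Pat.mk 0x400000004c0000004000000004000000000000000000000000000000000 0x100000001c0000001c0000003c0000007f8000006f800000fff000003fe000007bf000003f8000001f800000068 11 12) 0 0 (step_sound _ 135 [(rh1d30244e505db623.shift 6 1), (rh419eabb636029f58.shift 5 2), rh7ff24e9910814271, (rh8c13758325b96cc6.shift 4 0), (rh8fdbdec203cb1cdd.shift 4 0), (rhc56c6c11892e8cee.shift 5 2), (rhde59bdf6ec1d0048.shift 3 3)] (by decide +kernel))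
noncomputable def rh73dc506111e8f926 : CRef := CRef.mk (Pat.mk 0x10000000030000001000000001800000000000000000000000000000000 0x28000000380000003800000030000001fe0000003e000001df000000fe000001f70000003e0000003e0000001a 11 9) 0 0 (step_sound _ 133 [rh56d213915283b23a, (rh75fdf9d2ef09ef47.shift 2 0), (rh829c8e40a8b7db76.shift 0 3), (rhc1d9d95268728087.shift 1 3), (rhe2892c72bc3d22be.shift 0 1), (rhfb1645681424094f.shift 2 1)] (by decide +kernel))
noncomputable def rha812499c98bcf8fe : CRef := CRef.mk (Pat.mk 0x400000000600000000000000000000000000000000000000000 0x18000000180000073f000003fe000003ff0000003c0000001c0000001c00000004 11 11) 0 0 (step_sound _ 164 [(rh160ea79b42883ba9.shift 2 4), (rhcf9a78d1490ec868.shift 1 0), (rhd858f25f2ab2a781.shift 2 4), (rhd89acbbc145658f1.shift 0 4), (rhe5a9f5da05e448ca.shift 2 4), (rhf4dab9b0399f5ba5.shift 3 1)] (by decide +kernel))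
noncomputable def rh2dc814becbd30143 : CRef := CRef.mk (Pat.mk 0x20000000260000002000000002000000000000000000000000000000000 0xa0000000e8000003fc0000037c000007de000001fe000003ff000001f8000000f800000020 11 11) 0 0 (step_sound _ 134 [(rh0627db7446bbd39d.shift 5 1), (rh5c936e83d940d161.shift 3 1), (rh60bb6fceb47db467.shift 4 1), (rh85554d215de2c664.shift 2 1), (rh8c13758325b96cc6.shift 3 0), (rhce83aeb1371d8894.shift 0 1), (rhcea783c954a2d6f0.shift 3 2), (rhffc7a7eca813047e.shift 2 1)] (by decide +kernel))
noncomputable def rhe08f5dd0c8e7e638 : CRef := CRef.mk (Pat.mk 0x1e00000000000000080000000000000000 0x200000003c0000003f0000007b0000003f0000001e000000370000000f0000000f00000001 11 7) 0 0 (step_sound _ 164 [(rh33e738c4ed385b9f.shift 1 4), rh9db06bba7090f27b] (by decide +kernel))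
noncomputable def rh2863c15217e131f1 : CRef := CRef.mk (Pat.mk 0x1000000003400000010000000100000000000000000 0x280000003a0000003e00000036000001fe000000360000003f0000001f0000000e0000000a 11 9) 0 0 (step_sound _ 164 [(rh30c061e58ebf1ac8.shift 3 1), (rh3290eb83f8a84c79.shift 3 2), (rh3b734c5288922837.shift 3 1), rhbfc2f3e41b58f00c] (by decide +kernel))
noncomputable def rh918aa14e37b6d74d : CRef := CRef.mk (Pat.mk 0x800000009800000080000000080000000000000000 0x2800000038000000380000003800000038000000f8000000df000000ff0000007f0000005c00000044 11 8) 0 0 (step_sound _ 164 [(rh00d6a6e3c7e3bb40.shift 3 1), (rh580df77fe152422b.shift 3 1), (rha77af79271140777.shift 3 1), rhdbe41a1357f1b6ca] (by decide +kernel))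
noncomputable def rh621901e8c1a29869 : CRef := CRef.mk (Pat.mk 0x4000000400000004c0000004800000000 0x8000000380000007e0000003e0000007f0000006f0000007c00000014 11 7) 0 0 (step_sound _ 98 [(rh2145e1d24b96a57e.shift 2 1), rhb12cbe4add7d2278] (by decide +kernel))
noncomputable def rh47826ed5265ee684 : CRef := CRef.mk (Pat.mk 0x2000000020000002000000006000000240 0x50000003fc000001fc000003fc000001ff000001fe000007df00000060000003c0 11 11) 0 0 (step_sound _ 197 [(rh01b556f5b44ddd85.shift 2 0), rh1c31f0295ed8bf13, rhb5c8bdec0f3bc692, (rhc7fbe9ba8ded2067.shift 2 0), (rhf89e390102aa7b90.shift 2 2)] (by decide +kernel))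
noncomputable def rhd7cf13f167b11cb7 : CRef := CRef.mk (Pat.mk 0x2000000060000002000000006000000240 0x20000000200000003f000001fe0000079e00000078000003d0 11 11) 0 0 (step_sound _ 7 [(rh2fe78cc5ca4405d8.shift 5 0), rh95b5369a1a05bbc0] (by decide +kernel))
noncomputable def rhaea40f67d432df92 : CRef := CRef.mk (Pat.mk 0x4000000400000004c0000004800000000 0xa0000003a000000ff0000003f000000fe0000006f0000007c00000014 11 8) 0 0 (step_sound _ 98 [(rh2145e1d24b96a57e.shift 2 1), rhc3a6f30cdb6b2e19] (by decide +kernel))
noncomputable def rhd013f3b735376d6b : CRef := CRef.mk (Pat.mk 0x1000000100000001300000012000000000 0x20000000e0000001ff000000fe000001f7000001bc000001f000000050 11 9) 0 0 (step_sound _ 100 [(rh2145e1d24b96a57e.shift 4 1), rha6e58571f34b8ac6] (by decide +kernel))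
noncomputable def rh2c13f0a726ef8d9b : CRef := CRef.mk (Pat.mk 0x8000000800000009800000080000000000000000000000000 0x800000068000000ff0000007e000000fe000000de000000fc000000780000007800000068 11 8) 0 0 (step_sound _ 100 [(rh0588d2c7f2cab5e9.shift 3 1), (rh28afc5b167f84184.shift 3 1), (rh576433bffeee19b4.shift 1 0), (rh6336d1d21e31726a.shift 0 3), (rh94dbce66c1c40cb4.shift 3 0), (rhfcac32312a33016d.shift 1 0)] (by decide +kernel))
noncomputable def rh1ba9e153b8a51574 : CRef := CRef.mk (Pat.mk 0x1000000100000000300000012000000000 0x2000000020000000f7000000fe000003ff0000003c000001f400000010 11 10) 0 0 (step_sound _ 38 [(rh2fe78cc5ca4405d8.shift 4 1), rh955722fc2f2efa01] (by decide +kernel))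
noncomputable def rh7f79339c6c712dea : CRef := CRef.mk (Pat.mk 0x1000000100000001300000010000000000000000000000000000000000 0x2a000000be000000fe000000f6000001fe000001be000001ff00000070000000380000003800000028 11 9) 0 0 (step_sound _ 196 [(rh14e0829dc73b6804.shift 3 4), (rh70e33bfdf511e144.shift 4 2), (rh99eb8e58ea308aac.shift 2 4), rhea2d14b08f62e087] (by decide +kernel))
noncomputable def rhb2c496d3c949fac4 : CRef := CRef.mk (Pat.mk 0xc000000480000000c00000000 0x500000017000000170000001b0000001f0000007f0000000f00000008 11 7) 0 0 (step_sound _ 68 [(rh2fe78cc5ca4405d8.shift 2 2), rh9a458d5acd6e929b] (by decide +kernel))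
noncomputable def rhaeb229159cdcc6c8 : CRef := CRef.mk (Pat.mk 0x600000020000000270000002400000000000000000000000000000000000000000 0x2000000028000001ff000000fe0000023f00000370000007d000000de0000007f800000fe0000000e000000080 11 12) 0 0 (step_sound _ 134 [(rh06ed343eea56828a.shift 3 0), (rh8d7fc33fea31a034.shift 5 3), (rha692355d74c700e3.shift 0 5)] (by decide +kernel))
noncomputable def rhb911ae3253b2298e : CRef := CRef.mk (Pat.mk 0xc000000000000000e0000000800000000000000000 0x38000003fc000003fc0000007f000000fe000000bf0000001000000010 11 10) 0 0 (step_sound _ 100 [(rh34e5ca8b604facc8.shift 2 0), (rh3d71f62bbb3749ab.shift 1 2), (rh592c7139d2c44767.shift 2 2), (rh73faee46f37747b5.shift 0 2), (rha223b06eb4ab7e9f.shift 0 2), (rhc8042b0fb2aad760.shift 2 2)] (by decide +kernel))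
noncomputable def rheb821b4b96ee0907 : CRef := CRef.mk (Pat.mk 0xc000000400000000c000000000 0xa8000000f8000000f8000007ff000003fe0000077f000000f8000000b8 11 11) 0 0 (step_sound _ 70 [(rh055d0d8807ebf4ec.shift 3 0), (rh14e0829dc73b6804.shift 5 0), (rh765b1706fd596fc7.shift 5 0), (rh9bd84e06d77e62f6.shift 5 0), rhdae95ac0e3a52249] (by decide +kernel))
noncomputable def rh5a24640e6e992a68 : CRef := CRef.mk (Pat.mk 0x18000000800000001800000080000000000000000000000000 0x28000000380000003f0000007e0000007f000000fe0000001e000000f0000000380000003800000028 11 8) 0 0 (step_sound _ 164 [(rh007b8c853ca5ccaf.shift 3 2), (rh035135cb4492b28a.shift 0 4), (rh1c7ce97be2832ce9.shift 1 4), (rhc46b61bcbcf6c641.shift 3 0)] (by decide +kernel))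
noncomputable def rh5443fc6426374187 : CRef := CRef.mk (Pat.mk 0x100000000000000030000000600000000000000000 0xa0000001e0000001e000000ff0000007e0000002f0000003c0000007f0000005400000010 11 8) 0 0 (step_sound _ 99 [rh5296067face89885, (rhb739f4f82bb681b4.shift 2 2)] (by decide +kernel))
noncomputable def rhe7e07565d88eec2b : CRef := CRef.mk (Pat.mk 0x4000000400000004c00000040000000000000000000000000000000000 0x68000001f8000003f8000007bf000003fe00000fff000006f8000007f8000003c0000001c0000001c000000100 11 12) 0 0 (step_sound _ 231 [(rh335e4eef3a2fa899.shift 5 1), (rh465a7f904eca742d.shift 5 0), (rh8ee2377f4e4c5111.shift 4 2), (rha9eb02e50056ec0b.shift 6 0), (rhcdf27cf301cddb97.shift 3 2), (rhee35aaf9f3163920.shift 4 2), (rhfaff0a5379d4fb26.shift 0 4)] (by decide +kernel))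
noncomputable def rha63a42b47bdcdb95 : CRef := CRef.mk (Pat.mk 0x1800000100000000300000010000000000000000000000000000000000 0x1a0000003e0000003e000001f7000000fe000001df0000003e000001fe00000030000000380000003800000028 11 9) 0 0 (step_sound _ 229 [(rh03bc41e3a8fe0aa0.shift 0 2), (rh16748337a2d58898.shift 2 0), (rh29ae7a2b4f5dbf8e.shift 1 6), (rha8bb2498a63ff4be.shift 0 4), (rhd11ff76a54243cb4.shift 0 4), (rhdfff079651de7409.shift 2 4)] (by decide +kernel))
noncomputable def rhcee0e222e56a521a : CRef := CRef.mk (Pat.mk 0x60000004000000000000000000 0x40000001c0000001c0000003c000003ff000003fe0000073f0000001800000018 11 11) 0 0 (step_sound _ 100 [(rh09fc92316032eb8e.shift 3 0), (rh16f04c9d7fe4feb3.shift 2 2), (rh30f88917ca897635.shift 2 2), (rhbfede768b9b07797.shift 0 2), (rhc967000a799847f7.shift 2 2), (rhcde82a51d5a1e484.shift 1 1)] (by decide +kernel))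
noncomputable def rh360c8195a0348a12 : CRef := CRef.mk (Pat.mk 0x200000020000000260000002000000000000000000 0x20000000f8000001f8000003ff000001fe000007de0000037c000003fc000000e8000000a0 11 11) 0 0 (step_sound _ 166 [(rh178b6535a0f33072.shift 3 1), (rh676396a51c9b450e.shift 4 2), (rh8ee2377f4e4c5111.shift 3 0), (rh93264c6399d0006d.shift 5 0), (rhb718edc4cc2c5de4.shift 0 2), (rhbdabd635878d8057.shift 3 0), (rhea40c50fc8074582.shift 2 0), (rhfa0177f78dd4f8b6.shift 2 0)] (by decide +kernel))
noncomputable def rh614ec2e2158f857a : CRef := CRef.mk (Pat.mk 0x8000000000000001e0000000000000000000000000000000000000000 0x10000000f0000000f000000370000001e0000003f0000007b0000003f0000003c00000020 11 7) 0 0 (step_sound _ 132 [rh4f75e53833bf940c, (rhe25b0a99195a5d59.shift 1 4)] (by decide +kernel))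
noncomputable def rh051e06058c097084 : CRef := CRef.mk (Pat.mk 0x1000000010000000340000010000000000000000000000000000000000 0xa0000000e0000001f0000003f00000036000001fe000000360000003e0000003a00000028 11 9) 0 0 (step_sound _ 132 [(rh46baee19951a66e7.shift 3 2), (rh7be43c0ff37a6d8f.shift 0 1), (rh8cfb1a99ecfeaa6e.shift 3 0), (rhf5becaca8d13cfd1.shift 3 0)] (by decide +kernel))
noncomputable def rh972e0c8c448dc7f0 : CRef := CRef.mk (Pat.mk 0x80000008000000098000000800000000000000000000000000000000000000000 0x440000005c0000007f000000ff000000df000000f80000003800000038000000380000003800000028 11 8) 0 0 (step_sound _ 164 [(rh0422659553463b6c.shift 3 0), (rh0588d2c7f2cab5e9.shift 3 3), (rh28afc5b167f84184.shift 3 3), (rhfffef3ab1033e99b.shift 0 4)] (by decide +kernel))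
noncomputable def rhf535ff9d10bbeede : CRef := CRef.mk (Pat.mk 0x4000000000000000c0000002000000000000000000000000000000000 0xc0000000c0000000c0000000c0000007e0000001f0000001f0000001f0000000c 11 7) 0 0 (step_sound _ 131 [(rh01f1789c6f1ad086.shift 0 2), (rh0588d2c7f2cab5e9.shift 2 2), (rh28afc5b167f84184.shift 2 2), (rha3737a00c5f32574.shift 1 3), rhb0ef7ff0a327c555] (by decide +kernel))
noncomputable def rh82020676477aefbf : CRef := CRef.mk (Pat.mk 0xc0000006000000004000000000 0xa0000000f8000003fc000001f8000001ff000000fe000007ff0000005800000058 11 11) 0 0 (step_sound _ 101 [(rh22ee824e84634542.shift 3 0), (rh252d91a4ec30bcff.shift 2 0), (rh7187f5e688d8c92c.shift 2 0), (rh8c786e1f2e764b93.shift 2 0), (rhab1a9ca8a4af84de.shift 2 0), (rhac33eef3adcbbdb3.shift 1 0), rhbef556ba51f4410a, (rhc6aa8af222c5b50d.shift 2 0)] (by decide +kernel))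
noncomputable def rh5b846adc08579167 : CRef := CRef.mk (Pat.mk 0x200000010000000060000000000000000000000000 0x8000000580000007f000000fe000000ff000001bf00000060000000700000007000000050 11 9) 0 0 (step_sound _ 133 [(rh14e0829dc73b6804.shift 4 2), (rh42ba1a28775cd8b8.shift 0 2), rh68a186acfea4da16, (rh70e33bfdf511e144.shift 5 0), (rhcac7b5ab7a0bfdd2.shift 4 0)] (by decide +kernel))
noncomputable def rhe886177dd726eaa8 : CRef := CRef.mk (Pat.mk 0x10000000580000003000000000000000000000000000000000 0x1000000058000000ff000000ef000000fc000000fc000000e0 11 8) 0 0 (step_sound _ 134 [rha61a6c25b28d01ff, (rhf48373e13d2bc128.shift 3 4)] (by decide +kernel))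
noncomputable def rhd513268148236a10 : CRef := CRef.mk (Pat.mk 0x80000004800000018000000500000000000000000 0x40000000f0000007f0000001b000000ff0000000f0000000c 11 8) 0 0 (step_sound _ 69 [rh05d0835eee0f2b5e, (rhf48373e13d2bc128.shift 3 2)] (by decide +kernel))
noncomputable def rhc9885e7088390f13 : CRef := CRef.mk (Pat.mk 0x40000000c000000000000000c000000280 0xa0000001f8000007f8000003fc000003ff000001fe0000003f000000d000000790 11 11) 0 0 (step_sound _ 101 [(rh2ecf1942118628b6.shift 2 0), (rh4a990e61cab69f22.shift 2 0), (rh517ff4d206a7b5f1.shift 1 0), (rh575a795d9cc3fe68.shift 1 0), (rh5a486e801b4cc36e.shift 3 0), (rh6789ec82474e95b6.shift 2 2), rh83f1b22257ae680c, (rh9c2f0cab5f877e58.shift 3 0), (rha0b477990853c656.shift 0 2), (rhd43d4066ff54649c.shift 2 0)] (by decide +kernel))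
noncomputable def rh533bb78ea0b9c854 : CRef := CRef.mk (Pat.mk 0x200000002000000020 0x500000007000000078000000780000007f000001fe000000ff0000007e00000020 11 9) 0 0 (step_sound _ 101 [(rh1741680720c097b4.shift 4 0), (rh59c45728c1ba2cdf.shift 4 0), (rh75f1962798d6c55a.shift 1 0), (rh7efb698069e7d046.shift 3 0), (rha190517b642f9bd8.shift 1 0), rhde88f12b974d6cb1] (by decide +kernel))
noncomputable def rh1603af9c88770132 : CRef := CRef.mk (Pat.mk 0x10000000100000001000000010 0x2800000038000000380000003800000018000000ff0000007e0000003f00000010 11 8) 0 0 (step_sound _ 132 [(rh22e55772dfe04723.shift 1 0), (rh3ca48e2a6d60153d.shift 3 0), (rh66ee4e4e1313f0fc.shift 3 1), (rh94c96b535956cd72.shift 0 1)] (by decide +kernel))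
noncomputable def rh9622229bfa8d725d : CRef := CRef.mk (Pat.mk 0x10000000100000001000000010 0x2800000038000000380000003800000030000000ff0000007e0000003f00000010 11 8) 0 0 (step_sound _ 132 [(rh44f453b84f013105.shift 4 0), (rh643e8380decb1b24.shift 1 0), (rh94c96b535956cd72.shift 0 1), (rhe01cfd8f0577defd.shift 3 1)] (by decide +kernel))
noncomputable def rha053553bf26fa50b : CRef := CRef.mk (Pat.mk 0x20000001e00000020000000a400000020000000000000000000000000 0x50000000700000037000000370000003f0000003e0000001e000000e3000000bc000001f8000001d80000005000000040 11 9) 0 0 (step_sound _ 161 [rhab14947a4a0f4693, (rheb0810cc63b001d8.shift 0 5)] (by decide +kernel))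
noncomputable def rhc9dddadaaa568836 : CRef := CRef.mk (Pat.mk 0x300000008000000290000000800000000000000000 0x1000000070000000740000007470000077e000007e7000002f0000007800000070000000500 11 11) 0 0 (step_sound _ 134 [(rh25de839e9c008433.shift 4 0), (rh2dfc1c827c175a7b.shift 4 0), (rh4103e9b282220a03.shift 3 2), (rh4c1da394ff107098.shift 0 4)] (by decide +kernel))
noncomputable def rh5d00be0cbd941e27 : CRef := CRef.mk (Pat.mk 0x1e00000000 0x50000002f0000003f0000003f0000003f0000003f0000001e0000000b 11 6) 0 0 (step_sound _ 68 [rh04aab6b0444f1dac, (rh33e738c4ed385b9f.shift 1 1)] (by decide +kernel))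
noncomputable def rh172c9ba43a404eb0 : CRef := CRef.mk (Pat.mk 0x80000004000000048000000400000000000000000 0x3c0000003f0000003c000000fc00000078000000fc0000003c00000010 11 8) 0 0 (step_sound _ 100 [(rh18c294c46dc722b1.shift 2 0), (rh4c6788d72aa0532b.shift 2 0), rh88b7cc1325ff4fa7, (rhabf575676fe0ef70.shift 3 2)] (by decide +kernel))
noncomputable def rhd3e4cb270f5d44a8 : CRef := CRef.mk (Pat.mk 0x8000000080000004800000048 0x200000002000000370000007f0000003f0000007f00000048 11 7) 0 0 (step_sound _ 100 [(rh2f68792b6b779e96.shift 3 0), rh3bcf40cad6265f9d] (by decide +kernel))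
noncomputable def rh07b57f663902cd85 : CRef := CRef.mk (Pat.mk 0x300000010000000020000000000000000000000000 0x2c0000003c0000007c0000007e000000fe000001ff0000002c0000007c0000007000000050 11 9) 0 0 (step_sound _ 133 [(rh01483ff9cba2f6ac.shift 4 0), rh35ee0669004f7c68, (rh74283201576614cd.shift 0 2), (rhb1a251d9bff81766.shift 4 2)] (by decide +kernel))
noncomputable def rh60b6dbf6742e0570 : CRef := CRef.mk (Pat.mk 0x1e000000000000000000000000 0x300000007000000070000003f0000001e000000370000000300000003 11 6) 0 0 (step_sound _ 68 [rh9d4ef337a2a45595, (rhe25b0a99195a5d59.shift 1 2)] (by decide +kernel))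
noncomputable def rh49a276bd19e1c480 : CRef := CRef.mk (Pat.mk 0x50000000d000000400000000800000000000000000 0x2800000038000000380000003800000058000000dc000007ff000000be000000bf00000028 11 11) 0 0 (step_sound _ 100 [(rh361f97a87e2d3c75.shift 3 1), (rh373f3823e471b2e8.shift 3 1), (rh702c622b4ed85d09.shift 3 1), (rh8c3824639aafa6dc.shift 3 1), (rhb590877b0889964f.shift 3 0), rhe8b8def904fbed69] (by decide +kernel))
noncomputable def rh73f62f383cf149a4 : CRef := CRef.mk (Pat.mk 0x1800000030000000000000000000000000 0x200000003c0000007f0000007f0000001f0000003f0000001f0000000c00000008 11 7) 0 0 (step_sound _ 163 [(rh11e0cfc1c5a72355.shift 3 2), (rh2d88b668e01fb7c5.shift 0 2), (rha1dc6eb332887697.shift 0 2), rhb9988305d84344f9, (rhcbf8fb04cabf3ba4.shift 0 1)] (by decide +kernel))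
noncomputable def rh6d8943feefcd9506 : CRef := CRef.mk (Pat.mk 0x30000000600000000000000000 0x5800000078000000ff000001fe000001f70000007e0000003f00000010 11 9) 0 0 (step_sound _ 133 [(rh645d4e9c89254357.shift 4 0), (rh88996b46eb4d8258.shift 2 0), (rh9c6999c04f9c8f1f.shift 0 1), (rhace0efcbe16d0979.shift 0 1), (rhc90840db7d6596d5.shift 0 1), (rhd98f850c0bd2fe54.shift 2 1)] (by decide +kernel))
noncomputable def rh3f9201bf9e8bfd15 : CRef := CRef.mk (Pat.mk 0xe000000000000000000000000 0x300000007000000070000007f0000003e000000070000000300000003 11 7) 0 0 (step_sound _ 100 [(rh21460d2d48a35cb8.shift 0 1), (rh22b38309c56a80eb.shift 0 3), (rh338840d5137dcab7.shift 0 2), rh9d4ef337a2a45595] (by decide +kernel))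
noncomputable def rhbffd2f4c2009d0e4 : CRef := CRef.mk (Pat.mk 0x40000000180000004000000000000000000000000000000000 0x300000003c0000003f000000ff0000001c000000ff0000003f0000003c0000003800000008 11 8) 0 0 (step_sound _ 132 [(rh58bfa41d6562f9d8.shift 1 1), (rh7f0feb9d0da09cbe.shift 2 1), (rhaaf2c07d9f4fe4fc.shift 0 2), (rhcbc2210cc93681ef.shift 3 0), (rhd51ea6e961e524bd.shift 2 1)] (by decide +kernel))
noncomputable def rh14e8bca9e3c1d535 : CRef := CRef.mk (Pat.mk 0x10000000180000001000000000000000000000000000000000 0x1c0000001c0000001c0000001f0000003f0000003f0000003800000008 11 6) 0 0 (step_sound _ 100 [(rh01483ff9cba2f6ac.shift 3 0), (rh6eff4158bb400f47.shift 3 1), (rhbaff7ec0fcc038ba.shift 3 0), (rhe286c75f2739cce2.shift 3 2), (rhe4a9f2b3c647e2c8.shift 0 2)] (by decide +kernel))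
noncomputable def rhdd2569ade649e815 : CRef := CRef.mk (Pat.mk 0x10000000180000001000000000 0x8000000380000003f0000003f0000001f0000001c0000001c0000001c 11 6) 0 0 (step_sound _ 132 [(rh03dfdf12d5937476.shift 3 0), rh07d1eef3f16e05f3, (rh1741680720c097b4.shift 3 1), (rh42ab489a1be3958e.shift 3 1), (rh976a48eb1c80a12f.shift 3 1)] (by decide +kernel))
noncomputable def rh035b244c5cf67a2c : CRef := CRef.mk (Pat.mk 0x200000002400000020000000000000000000000000 0x40000001c0000001c000000180000007c0000003f0000007c0000001c0000001c00000014 11 7) 0 0 (step_sound _ 131 [(rh22e203964f906d4b.shift 1 3), (rh2e8efbc4684aef7b.shift 1 3), rhab4495bbbbdf0ef6, (rhabf575676fe0ef70.shift 2 3)] (by decide +kernel))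
noncomputable def rh80e7e386883f3c18 : CRef := CRef.mk (Pat.mk 0x20000000240000002000000000000000000000000000000000 0x140000001c0000001c0000007c0000003f0000007c000000180000001c0000001c00000004 11 7) 0 0 (step_sound _ 163 [(rh22e203964f906d4b.shift 1 4), (rh2e8efbc4684aef7b.shift 1 4), (rhabf575676fe0ef70.shift 2 4), rhebe0e9e497976780] (by decide +kernel))
noncomputable def rh9c602f9f7d7ac4cc : CRef := CRef.mk (Pat.mk 0x1000000010000000180000004800000000 0xc0000001f0000001f0000001f0000007f00000037 11 7) 0 0 (step_sound _ 36 [rh1d2e5e4940811c71, (rh4638e5e0cb0765b6.shift 2 0)] (by decide +kernel))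
noncomputable def rh6169e6244bd2fded : CRef := CRef.mk (Pat.mk 0x4800000018000000100000001000000000 0x370000007f0000001f0000001f0000001f0000000c 11 7) 0 0 (step_sound _ 132 [(rh8d930ef2202f3fb0.shift 2 1), rhdf0a79c0cd399351] (by decide +kernel))
noncomputable def rh1bf1096f54cec4b3 : CRef := CRef.mk (Pat.mk 0x80000000300000002000000000000000000000000000000000 0x1000000050000001f0000000300000003e0000007e0000007f0000007000000010 11 9) 0 0 (step_sound _ 101 [(rh01483ff9cba2f6ac.shift 4 0), (rh02424fb9949006b2.shift 4 0), (rh54808b4dc6579a6d.shift 4 1), (rhb1a251d9bff81766.shift 4 2), (rhc80d5f14d605f5ad.shift 0 2)] (by decide +kernel))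
noncomputable def rhfba26399ed130f9f : CRef := CRef.mk (Pat.mk 0x80000000300000002000000000000000000000000000000000 0x1000000050000001f00000003c0000003e0000007e0000007f0000007000000010 11 9) 0 0 (step_sound _ 101 [(rh01483ff9cba2f6ac.shift 4 0), (rh02424fb9949006b2.shift 4 0), (rh2e0c11363345b2a8.shift 0 2), (rh54808b4dc6579a6d.shift 4 1), (rhb1a251d9bff81766.shift 4 2)] (by decide +kernel))
noncomputable def rh6fb2633b2cc8f47e : CRef := CRef.mk (Pat.mk 0x2000000030000000800000000000000000 0x10000000700000007f0000007e0000003e00000030000001f00000005000000010 11 9) 0 0 (step_sound _ 165 [(rh281c6819542c66e6.shift 4 0), (rh3df1c703e1be13a8.shift 4 1), (rh5341bed829e60292.shift 4 1), (rh976a48eb1c80a12f.shift 4 2), (rhe016deb2a7cf74c4.shift 0 1)] (by decide +kernel))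
noncomputable def rh32474fca62482b3e : CRef := CRef.mk (Pat.mk 0x2000000030000000800000000000000000 0x10000000700000007f0000007e0000003e0000003c000001f00000005000000010 11 9) 0 0 (step_sound _ 165 [(rh281c6819542c66e6.shift 4 0), (rh2bfccbb2e18ed84f.shift 0 1), (rh3df1c703e1be13a8.shift 4 1), (rh5341bed829e60292.shift 4 1), (rh976a48eb1c80a12f.shift 4 2)] (by decide +kernel))
noncomputable def rh48665dc70a24146c : CRef := CRef.mk (Pat.mk 0x80000001800000018000000000000000000000000 0x30000000390000001f0000001f0000001f0000001f0000000c 11 6) 0 0 (step_sound _ 68 [rh3ff339273fa6abe7, (rh7b1f1fb55310c477.shift 3 1)] (by decide +kernel))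
noncomputable def rh35c11f4dc8fea699 : CRef := CRef.mk (Pat.mk 0x80000001800000018000000000000000000000000 0x170000001f0000001b0000001f0000001f0000001c0000000c 11 5) 0 0 (step_sound _ 68 [rh51dce1adcca208e9, (rh7b1f1fb55310c477.shift 3 1)] (by decide +kernel))
noncomputable def rh7e1fb88558a279d8 : CRef := CRef.mk (Pat.mk 0x80000001800000018000000000000000000000000 0x18000000180000001f0000001f0000001f0000000e0000000c0000000c 11 5) 0 0 (step_sound _ 195 [(rh2145e1d24b96a57e.shift 3 3), rhb67c8be048ec0d92] (by decide +kernel))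
noncomputable def rhf3451e76bf508732 : CRef := CRef.mk (Pat.mk 0x80000004000000048000000400000000000000000 0x140000001c0000001c0000000c0000000c000000ff0000007f000000df0000001f00000014 11 8) 0 0 (step_sound _ 100 [rh0231ec99e46fa749, (rhabf575676fe0ef70.shift 3 2), (rhc8450956778d39a6.shift 1 2)] (by decide +kernel))
noncomputable def rhaaf5d32724e3a574 : CRef := CRef.mk (Pat.mk 0x80000004000000048000000400000000000000000 0x140000001c0000003f0000003f000000ff0000007c000000d80000001800000018 11 8) 0 0 (step_sound _ 100 [(rh07142bfaba471b53.shift 2 2), (rhabf575676fe0ef70.shift 3 2), rhef65897c658ee376] (by decide +kernel))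
noncomputable def rh3d5bde7a1774284b : CRef := CRef.mk (Pat.mk 0x80000004000000048000000400000000000000000 0x140000001c0000001c0000000c000000fe0000007f000000df0000001f00000014 11 8) 0 0 (step_sound _ 100 [rh156b32dda5c9496d, (rhabf575676fe0ef70.shift 3 2), (rhc8450956778d39a6.shift 1 2)] (by decide +kernel))
noncomputable def rh0b87607a3b7411aa : CRef := CRef.mk (Pat.mk 0x800000008000000100000001800000000 0x1e0000007f0000003f0000001f0000001f00000006 11 7) 0 0 (step_sound _ 67 [(rh2145e1d24b96a57e.shift 3 1), rhcf61ddbe58455c74] (by decide +kernel))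
noncomputable def rhd654371fd3aa0ef0 : CRef := CRef.mk (Pat.mk 0x80000004000000048000000400000000000000000 0x140000001c0000001c0000003c000000cf0000007f000000df0000001f00000014 11 8) 0 0 (step_sound _ 100 [(rhabf575676fe0ef70.shift 3 2), rhc598be0c13e68085] (by decide +kernel))
noncomputable def rhba7675ec64d4f9a8 : CRef := CRef.mk (Pat.mk 0x1000000080000000900000008000000000000000000000000000000000 0x28000000380000003e0000007f0000007e000000ff000000fc000001bf0000007e0000003f0000003800000028 11 9) 0 0 (step_sound _ 196 [(rh2049923f665ae8d1.shift 3 4), (rh333c1cc79040032b.shift 3 1), rh55c6fc656279cce9, rh8bf9aae77d1af9ce, (rhe10e4699e05d08a7.shift 3 1), (rhe8ecc54b19ff96dd.shift 3 0), (rhf63e6767a4d7973d.shift 0 4)] (by decide +kernel))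
noncomputable def rh6a240fb890814e03 : CRef := CRef.mk (Pat.mk 0xc00000020000000a400000020000000000000000000000000 0x150000001d0000001df000001f8000000bc000001e0000001c0000001c000000140 11 9) 0 0 (step_sound _ 164 [(rh3a84ceaebb2079b6.shift 2 0), (rh4103e9b282220a03.shift 1 3), (rhe05a623aedd4e020.shift 0 5)] (by decide +kernel))
noncomputable def rhb74edf5ef6a06276 : CRef := CRef.mk (Pat.mk 0x30000001000000006000000000000000000000000000000000 0x1000000010000001dc000000f8000001be0000007e0000007f0000007c0000007c00000014 11 9) 0 0 (step_sound _ 198 [(rh31d55dd32e48ae3d.shift 2 5), rh423ae7b60df2f96f, (rhadc58f335021d7cb.shift 2 5), (rhaf922d1987d13d46.shift 3 3), (rhb1b5db3d9517e810.shift 2 5)] (by decide +kernel))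
noncomputable def rh3f4b0242c2f513d5 : CRef := CRef.mk (Pat.mk 0x3000000100000001200000010000000000000000000000000000000000 0x1800000038000003fe000001fe0000037f0000007c0000007c0000007400000050 11 10) 0 0 (step_sound _ 166 [rh0697000f3b535ce6, (rhabf575676fe0ef70.shift 5 4), (rhc8450956778d39a6.shift 3 4)] (by decide +kernel))
noncomputable def rh9859768d59d980ab : CRef := CRef.mk (Pat.mk 0x3000000100000001200000010000000000000000000000000000000000 0x58000000780000037e000001fe0000037f0000007c0000007c0000007400000050 11 10) 0 0 (step_sound _ 166 [rh3336ae87369c75a7, (rhabf575676fe0ef70.shift 5 4)] (by decide +kernel))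
noncomputable def rh4605447f0db20e8a : CRef := CRef.mk (Pat.mk 0x8000000480000000800000000000000000000000000000000 0x1a0000001e0000001f0000003f000000ff0000001f000000080000001c0000001c00000014 11 8) 0 0 (step_sound _ 164 [(rh51246ab843efda05.shift 2 4), (rh5ff7e8d752bed2cb.shift 2 4), rh7908a9d34a127dd9, (rh9d09f0c7c2ebab65.shift 2 4)] (by decide +kernel))
noncomputable def rh29222a106528b084 : CRef := CRef.mk (Pat.mk 0x18000000180000000800000000 0xc0000001f0000001f0000001f0000001f0000003900000030 11 6) 0 0 (step_sound _ 132 [rh0d118e66e2b84d4c, (rh5c5e593799055d58.shift 3 1)] (by decide +kernel))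
noncomputable def rh1ba3b894affed3d7 : CRef := CRef.mk (Pat.mk 0x18000000180000000800000000 0xc0000001c0000001f0000001f0000001b0000001f00000017 11 5) 0 0 (step_sound _ 132 [(rh5c5e593799055d58.shift 3 1), rh6f7ec10b9eb63278] (by decide +kernel))
noncomputable def rh5b87088426101f07 : CRef := CRef.mk (Pat.mk 0x1800000018000000080000000000000000 0xc0000000c0000000e0000001f0000001f0000001f0000001800000018 11 5) 0 0 (step_sound _ 35 [rh211ee05fdeebdd03, (rh71222050f2c63a3a.shift 3 0)] (by decide +kernel))
noncomputable def rh9bcf9ecbfdfbd67f : CRef := CRef.mk (Pat.mk 0x4000000048000000400000000800000000000000000000000000000000 0x140000001f000000df0000007f000000ff0000000c0000000c0000001c0000001c00000014 11 8) 0 0 (step_sound _ 196 [rh13400fc696ce1b53, (rhabf575676fe0ef70.shift 3 5), (rhc8ffc5931fd66d8a.shift 1 5)] (by decide +kernel))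
noncomputable def rh09189158af2531ca : CRef := CRef.mk (Pat.mk 0x40000000480000004000000008000000000000000000000000 0x1800000018000000d80000007c000000ff0000003f0000003f0000001c00000014 11 8) 0 0 (step_sound _ 164 [rh3e6a8df52d1564fe, (rh7e2356b24464a5ca.shift 2 0), (rhabf575676fe0ef70.shift 3 4)] (by decide +kernel))
noncomputable def rhcf2cb4ea231a1d58 : CRef := CRef.mk (Pat.mk 0x40000000480000004000000008000000000000000000000000 0x140000001f000000df0000007f000000fe0000000c0000001c0000001c00000014 11 8) 0 0 (step_sound _ 164 [rh65cb7595cdf1abd5, (rhabf575676fe0ef70.shift 3 4), (rhc8ffc5931fd66d8a.shift 1 4)] (by decide +kernel))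
noncomputable def rhf4adc66ab9241754 : CRef := CRef.mk (Pat.mk 0x1800000010000000080000000800000000 0x60000001f0000001f0000003f0000007f0000001e 11 7) 0 0 (step_sound _ 99 [rh0c8050c70725ca58, (rh71222050f2c63a3a.shift 3 0)] (by decide +kernel))
noncomputable def rh9312989514f47adb : CRef := CRef.mk (Pat.mk 0x40000000480000004000000008000000000000000000000000 0x140000001f000000df0000007f000000cf0000003c0000001c0000001c00000014 11 8) 0 0 (step_sound _ 164 [rh8b532b5433ea91d8, (rhabf575676fe0ef70.shift 3 4)] (by decide +kernel))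
noncomputable def rh008866b29fc39913 : CRef := CRef.mk (Pat.mk 0x8000000090000000800000001000000000000000000000000000000000 0x28000000380000003f0000007e000001bf000000fc000000ff0000007e0000007f0000003e0000003800000028 11 9) 0 0 (step_sound _ 164 [(rh06a249db0ec2b074.shift 3 1), (rh2cc64937851c7d51.shift 3 2), rh364574667b51295a, (rh5630a3094bbb3d03.shift 3 2), (rh7b3ed3f133a6b817.shift 3 2), (rhb01947e4a4d2653d.shift 0 2), (rhb4a4e1783f20f145.shift 0 3)] (by decide +kernel))
noncomputable def rhf7f02d10f9be20c2 : CRef := CRef.mk (Pat.mk 0x20000000a4000000200000000c0000000000000000 0x140000001c0000001c0000001e0000000bc000001f8000001df000001d000000150 11 9) 0 0 (step_sound _ 100 [(rh1c53595118beee12.shift 1 0), (rh325f472a813d525a.shift 2 0), (rh789226c9a89b143a.shift 0 2)] (by decide +kernel))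
noncomputable def rhadd1e8ec706592ec : CRef := CRef.mk (Pat.mk 0x600000010000000030000000000000000000000000 0x140000007c0000007c0000007f0000007e000001be000000f8000001dc0000001000000010 11 9) 0 0 (step_sound _ 102 [(rh6fba981bb8ec7da0.shift 2 2), (rh76a1a383dec59852.shift 0 2), (rh8886afe3c5704de8.shift 2 2), (rhefb19ffaaa7a0748.shift 2 2), (rhf8a608ae1df96a14.shift 3 0)] (by decide +kernel))
noncomputable def rhe77c15a57b56ff70 : CRef := CRef.mk (Pat.mk 0x10000000120000001000000003000000000 0x50000000740000007c0000007c0000037f000001fe000003fe0000003800000018 11 10) 0 0 (step_sound _ 102 [rh2cc8c383450f0fb2, (rhabf575676fe0ef70.shift 5 2), (rhc8ffc5931fd66d8a.shift 3 2)] (by decide +kernel))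
noncomputable def rh185ce3289cc92d29 : CRef := CRef.mk (Pat.mk 0x10000000120000001000000003000000000 0x50000000740000007c0000007c0000037f000001fe0000037e0000007800000058 11 10) 0 0 (step_sound _ 102 [(rhabf575676fe0ef70.shift 5 2), rhfc5f126f3d086340] (by decide +kernel))
noncomputable def rhc46dc051f1ca46f8 : CRef := CRef.mk (Pat.mk 0x80000004800000008000000000000000000000000 0x140000001c0000001c000000080000001f000000ff0000003f0000001f0000001e0000001a 11 8) 0 0 (step_sound _ 132 [rh3cd50a6c9d499178, (rh51246ab843efda05.shift 2 3), (rh5ff7e8d752bed2cb.shift 2 3), (rh9d09f0c7c2ebab65.shift 2 3)] (by decide +kernel))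
noncomputable def rh525ac2be3dc6e86e : CRef := CRef.mk (Pat.mk 0x1800000052000000100000000000000000000000000000000000000000 0xa0000000f8000000ec000000f80000005f000000f8000001e0000000e0000000e0000000e000000020 11 9) 0 0 (step_sound _ 195 [(rh39f426ebe0691969.shift 0 5), (rh6d571b54e8dd9e33.shift 0 6), (rhc924e5f7a4031fcc.shift 1 5), (rhe711ab32b97f2a93.shift 2 0)] (by decide +kernel))
noncomputable def rhb0d145f06d1092b8 : CRef := CRef.mk (Pat.mk 0x180000001a00000010000000000000000000000000 0x4000000040000000e0000000f0000003f0000001e0000001b000000070000000700000005 11 6) 0 0 (step_sound _ 130 [(rh33e738c4ed385b9f.shift 1 4), rhffab62ae2f7daf49] (by decide +kernel))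
noncomputable def rhc2faa7bced880d3a : CRef := CRef.mk (Pat.mk 0x180000001a00000010000000000000000000000000 0x4000000040000000e0000000f0000001f0000001e0000003b000000070000000700000005 11 6) 0 0 (step_sound _ 130 [(rhe25b0a99195a5d59.shift 1 3), rhffab62ae2f7daf49] (by decide +kernel))
noncomputable def rh014604b67fba4446 : CRef := CRef.mk (Pat.mk 0x30000000a4000000200000000000000000000000000000000000000000 0x140000001f0000001d8000001f7000000be000001f0000003c0000001c0000001c0000001c000000040 11 10) 0 0 (step_sound _ 196 [(rh39f426ebe0691969.shift 1 5), (rhc19018457b391e9a.shift 0 5), (rhc924e5f7a4031fcc.shift 2 5), (rhe711ab32b97f2a93.shift 3 0)] (by decide +kernel))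
noncomputable def rha349b2c022b83c66 : CRef := CRef.mk (Pat.mk 0x1a00000052000000100000000000000000000000000000000000000000 0xa0000000f8000000ec000000ff0000005b000000f8000001e0000000e0000000e0000000e000000020 11 9) 0 0 (step_sound _ 195 [(rh086f6046fa319626.shift 0 6), (rhe711ab32b97f2a93.shift 2 0)] (by decide +kernel))
noncomputable def rhd4ca6034e516fa2c : CRef := CRef.mk (Pat.mk 0x10000000c0000000900000008000000000 0x20000000380000003f000000fe00000077000000fc000000f8000001dc00000008 11 9) 0 0 (step_sound _ 70 [(rh08436c2649689ebd.shift 2 1), (rh473b2f7acaa88f87.shift 2 1), (rh48255c8b9ae8e2b9.shift 3 1), rh79ff9215affe8d90, (rhf762bcda196c9e5f.shift 2 1)] (by decide +kernel))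
noncomputable def rh407cd103b36d21d5 : CRef := CRef.mk (Pat.mk 0x100000005200000018000000000000000000000000 0x20000000e0000000e0000000e0000001e0000000f80000005f000000f8000000ec000000f8000000a0 11 9) 0 0 (step_sound _ 131 [(rh7dcc577706dd2abd.shift 0 3), (rhc924e5f7a4031fcc.shift 1 3), (rhcd6baf37b3e5de21.shift 0 3), (rhd237ec9025fa3782.shift 2 0)] (by decide +kernel))
noncomputable def rhd0dab9f79b3c6423 : CRef := CRef.mk (Pat.mk 0x100000001a0000001800000000000000000000000000000000 0x500000007000000070000001b0000001e0000003f0000000f0000000e0000000400000004 11 6) 0 0 (step_sound _ 162 [rh123d23770c8246c3, (rhe25b0a99195a5d59.shift 1 4)] (by decide +kernel))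
noncomputable def rhbb883f851272355c : CRef := CRef.mk (Pat.mk 0x100000001a0000001800000000000000000000000000000000 0x500000007000000070000003b0000001e0000001f0000000f0000000e0000000400000004 11 6) 0 0 (step_sound _ 162 [rh123d23770c8246c3, (rh33e738c4ed385b9f.shift 1 5)] (by decide +kernel))
noncomputable def rhfdbcc17ea5e80034 : CRef := CRef.mk (Pat.mk 0x20000000a400000030000000000000000000000000 0x40000001c0000001c0000001c0000003c0000001f0000000be000001f7000001d8000001f000000140 11 10) 0 0 (step_sound _ 132 [(rh7dcc577706dd2abd.shift 1 3), (rh97e8acde19298b21.shift 0 3), (rhc924e5f7a4031fcc.shift 2 3), (rhd237ec9025fa3782.shift 3 0)] (by decide +kernel))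
noncomputable def rh5ae22d7e226b8316 : CRef := CRef.mk (Pat.mk 0x10000000520000001a000000000000000000000000 0x20000000e0000000e0000000e0000001e0000000f80000005b000000ff000000ec000000f8000000a0 11 9) 0 0 (step_sound _ 131 [(rh6e1685e3533aff0e.shift 0 3), (rhd237ec9025fa3782.shift 2 0)] (by decide +kernel))
noncomputable def rhbf7bc5cb9a186b16 : CRef := CRef.mk (Pat.mk 0x8000000090000000c00000001000000000000000000000000000000000 0x8000001dc000000f8000000fc00000077000000fe0000003f0000003800000020 11 9) 0 0 (step_sound _ 198 [(rh0109c1f5b269e043.shift 2 6), rh3b58d44778ab34ea, (rh6b20c526ec8deffc.shift 2 5), (rhb63f16694a63b337.shift 2 5), (rhdb18e2fc0ad93a02.shift 3 1)] (by decide +kernel))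
noncomputable def rhc8cc1e6eab5ae4c2 : CRef := CRef.mk (Pat.mk 0x180000000e000000000000000000000000 0x370000003f0000003f0000001f0000001e0000003b0000003800000038 11 6) 0 0 (step_sound _ 100 [rh296efd781cdbe563, (rha946fad2fc4bfc18.shift 0 1), rhb4ad437697e531bf, (rhbbe16ff26f7822db.shift 1 0)] (by decide +kernel))
noncomputable def rh1c61f5234181a548 : CRef := CRef.mk (Pat.mk 0x180000000e000000000000000000000000 0x10000003700000037000000370000001f0000001e0000003f0000003c00000038 11 6) 0 0 (step_sound _ 100 [rh296efd781cdbe563, rh4943ef6bf3d7ba14, rhcaf6b0cfda18e649, (rhe49fd810008e80f2.shift 0 1), rhed9575cdee0ab1ad] (by decide +kernel))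
noncomputable def rhcd2d76370eae87a1 : CRef := CRef.mk (Pat.mk 0x180000000e000000000000000000000000 0xb0000000b0000001f0000001e000000370000003c0000003c 11 6) 0 0 (step_sound _ 100 [rh571324f3faacc069, (rhbbe16ff26f7822db.shift 1 0), rhcaf6b0cfda18e649] (by decide +kernel))
noncomputable def rh072a5dd1a0637753 : CRef := CRef.mk (Pat.mk 0x10000000180000008000000000000000000000000000000000 0x2000000038000000380000003c0000001f0000003e000000fe00000078000000380000003800000028 11 8) 0 0 (step_sound _ 132 [(rh2f4077820d6815e0.shift 3 3), rh491d564e0654bc4c, (rhb2c24aa65dd14528.shift 3 3), (rhee29f156cbe62897.shift 3 2)] (by decide +kernel))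
noncomputable def rhcd7793475694b412 : CRef := CRef.mk (Pat.mk 0x180000000c000000000000000000000000 0x300000003b0000003f0000001f0000001f0000003f0000003400000034 11 6) 0 0 (step_sound _ 97 [(rh53b3c253cb0c65f4.shift 0 3), rh5a881d1013c063aa] (by decide +kernel))
noncomputable def rh820020f8e153a494 : CRef := CRef.mk (Pat.mk 0xe00000018000000000000000000000000 0x38000000380000003b0000001e0000001f0000003f0000003f00000037 11 6) 0 0 (step_sound _ 132 [rh16d6cacb0bf125e1, (rh5ba2d67652840f34.shift 1 2), (rhd07c256e62afe48e.shift 0 1), rhd32d93bb27bf5ea3] (by decide +kernel))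
noncomputable def rh054d5ffc4b204c85 : CRef := CRef.mk (Pat.mk 0xe0000001800000000000000000000000000000000 0x380000003c0000003f0000001e0000001f00000037000000370000003700000001 11 6) 0 0 (step_sound _ 164 [(rh5e8a0bfcf7618516.shift 0 2), (rh8c7c8a0d99f0a4c8.shift 0 4), (rhc88fbed68430372d.shift 0 2), (rhd32d93bb27bf5ea3.shift 0 1), rhd7b9ae8619b220a0] (by decide +kernel))
noncomputable def rh4b2c5659ac9668f1 : CRef := CRef.mk (Pat.mk 0xe000000180000000000000000 0x3c0000003c000000370000001e0000001f0000000b0000000b 11 6) 0 0 (step_sound _ 100 [rh4e0e32e3c9a864dd, (rh5ba2d67652840f34.shift 1 1), rhc88fbed68430372d] (by decide +kernel))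
noncomputable def rh9a763c0452f69ede : CRef := CRef.mk (Pat.mk 0x80000000180000001000000000000000000000000000000000 0x28000000380000003800000078000000fe0000003e0000001f0000003c000000380000003800000020 11 8) 0 0 (step_sound _ 196 [(rh6ef0c00f4cfeb141.shift 3 1), (rh807a3fca9b5109b0.shift 3 0), (rh9c4169708e16af39.shift 3 1), (rhf74fec80e14cc60c.shift 0 3)] (by decide +kernel))
end Crest.Agent.S0047.Helper85.Cert
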