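import Crest.Agent.Lib.S0047.Helper85CertPL10F0
import Crest.Agent.Lib.S0047.Helper85CertPL10F1
import Crest.Agent.Lib.S0047.Helper85CertPL10F2
import Crest.Agent.Lib.S0047.Helper85CertPL10F3
import Crest.Agent.Lib.S0047.Helper85CertPL10F4
set_option autoImplicit false
set_option linter.all false
set_option Elab.async false
namespace Crest.Agent.S0047.Helper85.Cert
open Crest.Agent.S0047.Helper85

noncomputable def rh30125e60b94f4975 : CRef := CRef.mk (Pat.mk 0xc00000018000000000000000000000000 0x34000000340000003f0000001f0000001f0000003f0000003b00000030 11 6) 0 0 (step_sound _ 129 [(rhb739f4f82bb681b4.shift 0 3), rhd28f9afb4cdfe2b4] (by decide +kernel))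
noncomputable def rhe48c9cca00efc867 : CRef := CRef.mk (Pat.mk 0x180000001e000000000000000000000000 0x2800000038000000380000003a0000001f0000001e0000000f0000000600000006 11 6) 0 0 (step_sound _ 129 [rh1db441d980c86e58, (rh3244c3cc8379b070.shift 0 3)] (by decide +kernel))
noncomputable def rhb217ef37564e58e4 : CRef := CRef.mk (Pat.mk 0x90000000180000008000000000000000000000000000000000 0x38000000f80000003e000000ff0000003e0000007f0000003e00000028 11 8) 0 0 (step_sound _ 197 [(rh361cc68994bd8a63.shift 3 5), rh95d77b23a67733e9] (by decide +kernel))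
noncomputable def rh946eaac07f7784ca : CRef := CRef.mk (Pat.mk 0x300000001800000000000000000000000000000000 0x380000007e0000003f000000380000001f0000003c0000003800000030 11 7) 0 0 (step_sound _ 99 [(rh74d112e91e138932.shift 0 1), rhc5f1ce49ef2a953b, (rhcf80391c5046a495.shift 3 1), (rhf9366b6a121593ef.shift 3 1)] (by decide +kernel))
noncomputable def rhaa43c7f43c0173bc : CRef := CRef.mk (Pat.mk 0x180000000e000000000000000000000000 0x28000000380000003c000000370000001f0000001e0000003f0000003f0000003f 11 6) 0 0 (step_sound _ 100 [rh296efd781cdbe563, rh4943ef6bf3d7ba14, rhd345c0e03812d7e5, rhd409a37f822dd92f, rhed9575cdee0ab1ad, rhf8043cb25648cc76] (by decide +kernel))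
noncomputable def rh77d59cd35cdbcca1 : CRef := CRef.mk (Pat.mk 0x180000000e000000000000000000000000 0x180000003c0000003f0000001f0000001e000000370000003e0000003f 11 6) 0 0 (step_sound _ 100 [(rhbbe16ff26f7822db.shift 1 0), rhd409a37f822dd92f, (rhea719cc8bd0bdd28.shift 1 1), rhfc942743fe200943] (by decide +kernel))
noncomputable def rh3279312772f7e041 : CRef := CRef.mk (Pat.mk 0x480000000c0000004000000000000000000000000000000000 0x2800000038000000380000003c0000007f0000001f000000fb0000003a0000003a0000003800000008 11 8) 0 0 (step_sound _ 196 [(rh361cc68994bd8a63.shift 2 5), rhf1fd33c505c7091a] (by decide +kernel))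
noncomputable def rh69b164397e5d9779 : CRef := CRef.mk (Pat.mk 0x90000000180000008000000000000000000000000000000000 0x20000000300000003000000038000000f80000001e000000f80000003e0000007f0000003e00000028 11 8) 0 0 (step_sound _ 197 [(rh361cc68994bd8a63.shift 3 5), rhdd402864450199d0] (by decide +kernel))
noncomputable def rhbeaf0188982f60ac : CRef := CRef.mk (Pat.mk 0x180000000c0000000000000000000000000000000000000000 0xc0000001e0000001f0000001f0000003b0000001f0000001f0000000700000005 11 6) 0 0 (step_sound _ 161 [(rh53b3c253cb0c65f4.shift 0 5), rhc0182c8d0b054a6a] (by decide +kernel))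
noncomputable def rh472a81033da60523 : CRef := CRef.mk (Pat.mk 0x1e0000001800000000000000000000000000000000 0x6000000060000000f0000001e0000001f0000003a000000380000003800000028 11 6) 0 0 (step_sound _ 129 [rh888af1acddc56e31, (rheb0810cc63b001d8.shift 0 4)] (by decide +kernel))
noncomputable def rhab090e887f6febe6 : CRef := CRef.mk (Pat.mk 0x80000000180000009000000000 0x280000003e0000007f0000003e000000ff0000003e000000f800000038 11 8) 0 0 (step_sound _ 37 [(rh2fe78cc5ca4405d8.shift 3 1), rh50b051aa7c694ba5] (by decide +kernel))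
noncomputable def rh0b73329dc7fb7468 : CRef := CRef.mk (Pat.mk 0x18000000300000000000000000 0x30000000380000003c0000001f000000380000003f0000007e00000038 11 7) 0 0 (step_sound _ 131 [(rh4357cdcd5863ddab.shift 0 1), rhb76fdee70b40c51d, (rhc2c7bae8f445c890.shift 3 0), (rhc38f566cab2818e5.shift 3 0)] (by decide +kernel))
noncomputable def rh7a9c176b41f33f08 : CRef := CRef.mk (Pat.mk 0xe0000001800000000000000000000000000000000 0x3f0000003f0000003f0000001e0000001f000000370000003c0000003800000028 11 6) 0 0 (step_sound _ 164 [(rh5e8a0bfcf7618516.shift 0 2), (rh7b99c5f05d8bab31.shift 0 4), (rh8c7c8a0d99f0a4c8.shift 0 4), rh9d5427592fa4c22e, (rhd32d93bb27bf5ea3.shift 0 1), (rhfa0b9f2ac7f35f1c.shift 0 2)] (by decide +kernel))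
noncomputable def rhfedf84b691e9777f : CRef := CRef.mk (Pat.mk 0xe00000018000000000000000000000000 0x3f0000003e000000370000001e0000001f0000003f0000003c00000018 11 6) 0 0 (step_sound _ 132 [(rh34b1188e635efc8d.shift 1 1), rh427cbdb3921c467d, (rh5ba2d67652840f34.shift 1 2), (rh7b99c5f05d8bab31.shift 0 3)] (by decide +kernel))
noncomputable def rhd987c00ad596fd74 : CRef := CRef.mk (Pat.mk 0x400000000c0000004800000000000000000000000000000000 0x8000000380000003a0000003a000000fb0000001f0000007f0000003c000000380000003800000028 11 8) 0 0 (step_sound _ 132 [(rh2fe78cc5ca4405d8.shift 2 4), rh46ea978e73a63d93] (by decide +kernel))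
noncomputable def rh9a25c254f9e40f0d : CRef := CRef.mk (Pat.mk 0x80000000180000009000000000000000000000000000000000 0x280000003e0000007f0000003e000000f80000001e000000f800000038000000300000003000000020 11 8) 0 0 (step_sound _ 133 [(rh2fe78cc5ca4405d8.shift 3 4), rhf55f896d9ee6c18c] (by decide +kernel))
noncomputable def rh8bbecd887a5e2f2a : CRef := CRef.mk (Pat.mk 0xc000000180000000000000000 0x5000000070000001f0000001f0000003b0000001f0000001f0000001e0000000c 11 6) 0 0 (step_sound _ 97 [rh5e09765efed1d665, (rhb739f4f82bb681b4.shift 0 2)] (by decide +kernel))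
noncomputable def rh703c167f89b8e3c6 : CRef := CRef.mk (Pat.mk 0xe00000018000000000000000000000000 0x5000000070000000f0000003f0000001e0000001f0000003f0000001f00000015 11 6) 0 0 (step_sound _ 132 [rh47ab4e093dedf82b, rh6bb130905d49e62c, rh93dd27b7c6d53f09, (rh9b6d7c3a28947468.shift 0 1), (rhe1e9e1ac7d23d82b.shift 0 1), (rhf050ce75faee0819.shift 0 1)] (by decide +kernel))
noncomputable def rhf200a865d2d6ce50 : CRef := CRef.mk (Pat.mk 0xe00000018000000000000000000000000 0x2f0000003e0000003f0000001e0000001f0000003b0000003a00000030 11 6) 0 0 (step_sound _ 132 [(rh34b1188e635efc8d.shift 1 1), rh6bb130905d49e62c, rh7b6a14114925bc07, rh904dde34019d6263] (by decide +kernel))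
noncomputable def rh5dea21a0007b8ea4 : CRef := CRef.mk (Pat.mk 0x80000000180000003000000000000000000000000000000000 0x180000003e000000ff0000001e0000003e0000007e0000007f0000003e0000002a 11 8) 0 0 (step_sound _ 162 [rh045f01a00b6956e6, (rhb739f4f82bb681b4.shift 1 4)] (by decide +kernel))
noncomputable def rh1ee41a60a9fe970f : CRef := CRef.mk (Pat.mk 0x80000000180000003000000000000000000000000000000000 0x8000000180000003e000000ff0000003e0000003f0000003e0000006e0000002600000002 11 8) 0 0 (step_sound _ 162 [rh0c503b406e4a39bf, (rhb739f4f82bb681b4.shift 1 4)] (by decide +kernel))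
noncomputable def rh3c2579384253b4cd : CRef := CRef.mk (Pat.mk 0xe00000018000000000000000000000000 0x2e0000003e0000003f0000001e0000001b0000003f0000003f00000030 11 6) 0 0 (step_sound _ 132 [(rh34b1188e635efc8d.shift 1 1), rh7b6a14114925bc07, (rhe1e9e1ac7d23d82b.shift 0 1)] (by decide +kernel))
noncomputable def rh571182b626beeb63 : CRef := CRef.mk (Pat.mk 0x80000000180000009000000000000000000000000000000000 0x80000001800000038000000f800000038000000f80000003e0000007f0000003e00000028 11 8) 0 0 (step_sound _ 133 [(rh2fe78cc5ca4405d8.shift 3 4), rhce3f203d8ba3bf0f] (by decide +kernel))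
noncomputable def rhcb465d5595a1843e : CRef := CRef.mk (Pat.mk 0xe00000018000000000000000000000000 0x50000000700000017000000370000001e0000001f0000000f0000000f00000005 11 6) 0 0 (step_sound _ 132 [(rh34b1188e635efc8d.shift 1 1), rh47ab4e093dedf82b, rha42c44bab2555fff] (by decide +kernel))
noncomputable def rh89e056a7f9c07dd9 : CRef := CRef.mk (Pat.mk 0xe00000018000000000000000000000000 0x50000002f0000003f0000003f0000001e0000001f000000370000003f0000003f 11 6) 0 0 (step_sound _ 132 [rh47ab4e093dedf82b, rh5df458f217f5fa5d, rh7b6a14114925bc07, rh904dde34019d6263, rh93dd27b7c6d53f09] (by decide +kernel))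
noncomputable def rha1c2884e0d3a0d90 : CRef := CRef.mk (Pat.mk 0x8800000018000000100000000000000000 0x34000000fc0000001e0000001f0000001f0000001f 11 8) 0 0 (step_sound _ 36 [(rh7b1f1fb55310c477.shift 3 0), rh9349d0740061acb4] (by decide +kernel))
noncomputable def rh91c014af4e79112e : CRef := CRef.mk (Pat.mk 0x80000000180000003000000000000000000000000000000000 0x80000001800000038000000f80000003e0000003f0000003e0000007f0000003e00000028 11 8) 0 0 (step_sound _ 162 [rh334f6f19eb2bfde8, (rhb739f4f82bb681b4.shift 1 4)] (by decide +kernel))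
noncomputable def rhc216ad8b376602f0 : CRef := CRef.mk (Pat.mk 0x180000000e00000000000000000000000000000000 0x150000001f0000003f0000001f0000001e0000003f0000000f0000000700000005 11 6) 0 0 (step_sound _ 132 [(rh1476d3cafc39d63d.shift 0 1), (rh1d3c84db45283e6c.shift 0 1), (rh3ae1006c02f45f5c.shift 0 1), (rh86e9b23779442736.shift 0 1), (rh8e53d4e5cc04c5ec.shift 0 2), rhd2f5c8a2a41ced53] (by decide +kernel))
noncomputable def rh202ca25c4a9406c1 : CRef := CRef.mk (Pat.mk 0x180000000e000000000000000000000000 0x300000003a0000003b0000001f0000001e0000003f0000003e0000002f 11 6) 0 0 (step_sound _ 100 [rh1476d3cafc39d63d, rh82c0aabd175b4f5d, rhb1fcd5cb009a8ef9, (rhea719cc8bd0bdd28.shift 1 1)] (by decide +kernel))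
noncomputable def rh0d6e48d71e9a5bca : CRef := CRef.mk (Pat.mk 0x3000000018000000800000000000000000 0x2a0000003e0000007f0000007e0000003e0000001e000000ff0000003e00000018 11 8) 0 0 (step_sound _ 98 [(rh53b3c253cb0c65f4.shift 1 3), rhc7147b2ad9196ba8] (by decide +kernel))
noncomputable def rh2e11835ca1037f2b : CRef := CRef.mk (Pat.mk 0x300000001800000080000000000000000000000000 0x2000000260000006e0000003e0000003f0000003e000000ff0000003e0000001800000008 11 8) 0 0 (step_sound _ 130 [(rh53b3c253cb0c65f4.shift 1 4), rh692f9bc9de004ce9] (by decide +kernel))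
noncomputable def rhf0cf17bb51bad60e : CRef := CRef.mk (Pat.mk 0x180000000e000000000000000000000000 0x300000003f0000003f0000001b0000001e0000003f0000003e0000002e 11 6) 0 0 (step_sound _ 100 [rh82c0aabd175b4f5d, rh86e9b23779442736, (rhea719cc8bd0bdd28.shift 1 1)] (by decide +kernel))
noncomputable def rhc03510639dda1889 : CRef := CRef.mk (Pat.mk 0x900000001800000080000000000000000000000000 0x280000003e0000007f0000003e000000f800000038000000f8000000380000001800000008 11 8) 0 0 (step_sound _ 165 [(rh361cc68994bd8a63.shift 3 4), rh7942f5f980a7f671] (by decide +kernel))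
noncomputable def rhd6a5575f5ba758ab : CRef := CRef.mk (Pat.mk 0x180000000e00000000000000000000000000000000 0x50000000f0000000f0000001f0000001e00000037000000170000000700000005 11 6) 0 0 (step_sound _ 132 [rh90ec1f2afa9b016c, rhd2f5c8a2a41ced53, (rhea719cc8bd0bdd28.shift 1 2)] (by decide +kernel))
noncomputable def rh43bf6c62933c6c4d : CRef := CRef.mk (Pat.mk 0x180000000e00000000000000000000000000000000 0x3f0000003f000000370000001f0000001e0000003f0000003f0000002f00000005 11 6) 0 0 (step_sound _ 132 [(rh1181a14b3e7c5f21.shift 0 3), (rh82c0aabd175b4f5d.shift 0 1), (rh8e53d4e5cc04c5ec.shift 0 2), (rhb1fcd5cb009a8ef9.shift 0 1), rhd2f5c8a2a41ced53] (by decide +kernel))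
noncomputable def rh9f9637d38e066335 : CRef := CRef.mk (Pat.mk 0x10000000180000008800000000 0x1f0000001f0000001f0000001e000000fc00000034 11 8) 0 0 (step_sound _ 132 [(rh5c5e593799055d58.shift 3 1), rh744abc307a93f0b2] (by decide +kernel))
noncomputable def rh190b109923747d3f : CRef := CRef.mk (Pat.mk 0x300000001800000080000000000000000000000000 0x280000003e0000007f0000003e0000003f0000003e000000f8000000380000001800000008 11 8) 0 0 (step_sound _ 130 [(rh53b3c253cb0c65f4.shift 1 4), rhed67f212fb009fa6] (by decide +kernel))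
noncomputable def rha70e810806ab9050 : CRef := CRef.mk (Pat.mk 0x300000001800000080000000000000000000000000 0x8000000080000001c0000001e0000003c0000003e000000ff0000007f0000003c00000030 11 8) 0 0 (step_sound _ 130 [rh496edddf92f724c9, (rh53b3c253cb0c65f4.shift 1 4)] (by decide +kernel))
noncomputable def rh2ebc2640428523ba : CRef := CRef.mk (Pat.mk 0x900000001800000080000000000000000000000000 0x80000001c0000001f000000ff0000001e000000fe0000007e0000003c00000030 11 8) 0 0 (step_sound _ 165 [(rh361cc68994bd8a63.shift 3 4), rhf68b21f01f436072] (by decide +kernel))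
noncomputable def rh054a52b37174426c : CRef := CRef.mk (Pat.mk 0x180000000c0000000000000000000000000000000000000000 0x7000000070000000f0000001f0000001f0000003f0000003f0000003f0000000700000005 11 6) 0 0 (step_sound _ 161 [rh22a0c9ea420e0993, (rh53b3c253cb0c65f4.shift 0 5)] (by decide +kernel))
noncomputable def rh52be17a951278ccb : CRef := CRef.mk (Pat.mk 0x180000001e000000400000000000000000 0x50000000f0000003f000000070000001f0000001e0000007c0000003f0000001f 11 7) 0 0 (step_sound _ 130 [(rh1b92fd512ce175c8.shift 0 2), (rh626b92010afc5fd0.shift 0 1), rha1634b822c96efb0, rhc058333cdb053d60, rhf1ce017301ab642c] (by decide +kernel))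
noncomputable def rhd82fc0b1dd8ec3bc : CRef := CRef.mk (Pat.mk 0x180000000e0000000000000000000000000000000000000000 0x50000000f0000000f0000001f0000001e0000003b0000001f0000001f0000000700000005 11 6) 0 0 (step_sound _ 164 [rh17c5c960d4b2ac6b, (rhd345c0e03812d7e5.shift 0 2), (rhea719cc8bd0bdd28.shift 1 3)] (by decide +kernel))
noncomputable def rhdd1da356b4875626 : CRef := CRef.mk (Pat.mk 0x180000000e000000000000000000000000 0xb0000000b0000001f0000001e000000370000003e0000003f 11 6) 0 0 (step_sound _ 100 [rh0ef8ce2735b84788, rh571324f3faacc069, (rhea719cc8bd0bdd28.shift 1 1)] (by decide +kernel))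
noncomputable def rhd511108538194089 : CRef := CRef.mk (Pat.mk 0x80000000180000003000000000000000000000000000000000 0x300000003c0000007f000000ff0000003e0000003c0000001e0000001c0000000800000008 11 8) 0 0 (step_sound _ 162 [rh81d82b1e25193e51, (rhb739f4f82bb681b4.shift 1 4)] (by decide +kernel))
noncomputable def rh223ff4c58b174ec2 : CRef := CRef.mk (Pat.mk 0x800000001800000090000000000000000000000000 0x300000003c0000007e000000fe0000001e000000ff0000001f0000001c00000008 11 8) 0 0 (step_sound _ 101 [rh12e321b6dac0b365, (rh2fe78cc5ca4405d8.shift 3 3)] (by decide +kernel))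
noncomputable def rh906f261d00c3864e : CRef := CRef.mk (Pat.mk 0xc00000018000000000000000000000000 0x5000000070000003f0000003f0000003f0000001f0000001f0000000f0000000700000007 11 6) 0 0 (step_sound _ 129 [rh236de1b73a857414, (rhb739f4f82bb681b4.shift 0 3)] (by decide +kernel))
noncomputable def rh10a4b88b2a405bd0 : CRef := CRef.mk (Pat.mk 0x400000001e0000001800000000000000000000000000000000 0x1f0000003f0000007c0000001e0000001f000000070000003f0000000f00000005 11 7) 0 0 (step_sound _ 130 [(rh08b1006b68c2c230.shift 0 1), (rh0bdad21bd025180b.shift 0 3), (rh8bf61a7d74ffd669.shift 0 1), rhad0643c423a787fa, (rhcf42599d162036f6.shift 0 1)] (by decide +kernel))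
noncomputable def rh559c2445c8371a45 : CRef := CRef.mk (Pat.mk 0xe00000018000000000000000000000000 0x5000000070000001f0000001f0000003b0000001e0000001f0000000f0000000f00000005 11 6) 0 0 (step_sound _ 132 [(rh34b1188e635efc8d.shift 1 1), rh453dea99e34b074c, (rhfa0b9f2ac7f35f1c.shift 0 1)] (by decide +kernel))
noncomputable def rh0ec286c94510798e : CRef := CRef.mk (Pat.mk 0xe000000180000000000000000 0x3f0000003e000000370000001e0000001f0000000b0000000b 11 6) 0 0 (step_sound _ 100 [(rh34b1188e635efc8d.shift 1 0), rh4e0e32e3c9a864dd, (rhc84da098c5c30e18.shift 0 2)] (by decide +kernel))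
noncomputable def rh6288f13a9ac181e9 : CRef := CRef.mk (Pat.mk 0x30000000180000008000000000000000000000000000000000 0x40000002c0000003f00000038000001ff0000007e000001ff0000003c00000008 11 9) 0 0 (step_sound _ 100 [(rh164774969be14489.shift 0 1), (rh35660859d754aa44.shift 1 0), (rh5a7dce561d0bf78d.shift 3 2), (rhdf4967501ae7db6e.shift 1 1), (rhe04cc3e1fefcc74f.shift 0 1)] (by decide +kernel))
noncomputable def rhc6d9084500b9aa8f : CRef := CRef.mk (Pat.mk 0x8000000018000000300000000000000000 0x80000003c000001ff0000007e000001ff000000380000003f0000002c00000004 11 9) 0 0 (step_sound _ 164 [(rha2ea393c84cb5419.shift 0 2), (rha7e5b30d6e5612d1.shift 3 1), rhb4d8c58419fd7da0, (rhe0155425c36a088d.shift 1 1), (rhe40a94b4fea11b97.shift 1 1)] (by decide +kernel))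
noncomputable def rhda3a080c331632c1 : CRef := CRef.mk (Pat.mk 0x20000000200000003000000110000000000000000000000000 0x4a000000fe0000003e0000007f000001fe0000006f0000002e0000000a 11 9) 0 0 (step_sound _ 101 [rh9aab5f5284d74efc, (rhcf494ec0779d352f.shift 1 0), (rhf8edb192cdea7ada.shift 4 2)] (by decide +kernel))
noncomputable def rh5368f09dd0505cdb : CRef := CRef.mk (Pat.mk 0x11000000030000000200000002000000000 0xa0000002e0000006f000001fe0000007f0000003e000000fe0000004a 11 9) 0 0 (step_sound _ 133 [(rh04e571695666b5c1.shift 4 1), (rh81b7b4d5d31559c0.shift 1 1), rhda752323107a17fa] (by decide +kernel))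
noncomputable def rh601f9d40da627e7e : CRef := CRef.mk (Pat.mk 0xc0000004800000000000000000000000000000000 0x14000000140000003f0000001f0000007f0000000b0000000f0000000700000005 11 7) 0 0 (step_sound _ 132 [(rh2fe78cc5ca4405d8.shift 2 4), rhff298fa34b9130d4] (by decide +kernel))
noncomputable def rhc0cc95236e7602d5 : CRef := CRef.mk (Pat.mk 0x400000000c0000001800000000000000000000000000000000 0x3e0000003e000000ff0000001f0000001f00000033000000370000003700000005 11 8) 0 0 (step_sound _ 161 [rh36208e3d15ca56f9, (rhb739f4f82bb681b4.shift 0 4)] (by decide +kernel))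
noncomputable def rh8cd766a5f04f6584 : CRef := CRef.mk (Pat.mk 0x400000000c00000018000000000000000000000000 0x200000003e0000003e000000f70000001f0000001f0000003b0000003b00000030 11 8) 0 0 (step_sound _ 129 [(rhb739f4f82bb681b4.shift 0 3), rhe941ea76d235780e] (by decide +kernel))
noncomputable def rh69d594c8155febc7 : CRef := CRef.mk (Pat.mk 0x400000000c000000480000000000000000000000000000000000000000 0x100000001800000018000000780000001f0000007c00000018000000180000001c0000001c00000014 11 7) 0 0 (step_sound _ 164 [(rh2fe78cc5ca4405d8.shift 2 5), rhccf451b3d32157e7] (by decide +kernel))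
noncomputable def rh3d61fb6a3e210df5 : CRef := CRef.mk (Pat.mk 0x480000000c000000000000000000000000 0x5000000070000000f0000000b0000007f0000001f0000003f0000001400000014 11 7) 0 0 (step_sound _ 132 [(rh361cc68994bd8a63.shift 2 3), rh380af03c606c0198] (by decide +kernel))
noncomputable def rhea382b8d8861bafd : CRef := CRef.mk (Pat.mk 0x180000000c000000400000000000000000 0x50000003700000037000000330000001f0000001f000000ff0000003e0000003e 11 8) 0 0 (step_sound _ 97 [(rh53b3c253cb0c65f4.shift 0 3), rhdf2d4f2624c24339] (by decide +kernel))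
noncomputable def rh510c856b46f96f02 : CRef := CRef.mk (Pat.mk 0x180000000c00000040000000000000000000000000 0x300000003b0000003b0000001f0000001f000000f70000003e0000003e00000020 11 8) 0 0 (step_sound _ 129 [rh153f4a188994e5ae, (rh53b3c253cb0c65f4.shift 0 4)] (by decide +kernel))
noncomputable def rhef757df3cb219fc1 : CRef := CRef.mk (Pat.mk 0x480000000c00000040000000000000000000000000 0x140000001c0000001c00000018000000180000007c0000001f00000078000000180000001800000010 11 7) 0 0 (step_sound _ 164 [(rh361cc68994bd8a63.shift 2 4), rh52575ee6251432ed] (by decide +kernel))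
noncomputable def rh46e6b6f9ad96fa56 : CRef := CRef.mk (Pat.mk 0x180000000c000000000000000000000000 0x10000000100000003c0000001f0000001f0000003b0000003200000032 11 6) 0 0 (step_sound _ 97 [(rh53b3c253cb0c65f4.shift 0 3), rhe7fcf800cddab5e6] (by decide +kernel))
noncomputable def rh9d4d45359d43f5fa : CRef := CRef.mk (Pat.mk 0x60000000300000010000000000 0x50000000fe000000fe000000ff000000700000007c000001f000000050 11 9) 0 0 (step_sound _ 67 [(rh53b3c253cb0c65f4.shift 2 2), rha12d907a2aee9964] (by decide +kernel))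
noncomputable def rh12ffacdb165c2351 : CRef := CRef.mk (Pat.mk 0x480000000c000000000000000000000000 0x100000001a0000003b0000007f0000001f0000003f0000003400000034 11 7) 0 0 (step_sound _ 132 [rh05efa24174829a5a, (rh361cc68994bd8a63.shift 2 3)] (by decide +kernel))
noncomputable def rh3d86b95635e4d351 : CRef := CRef.mk (Pat.mk 0x180000000c000000000000000000000000 0x12000000160000003f0000001f0000001f0000003f0000003200000032 11 6) 0 0 (step_sound _ 97 [rh0c18011abe29da27, (rh53b3c253cb0c65f4.shift 0 3)] (by decide +kernel))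
noncomputable def rh274149d144790cd2 : CRef := CRef.mk (Pat.mk 0x6000000030000000000000000000000000 0xfe000000fe000000ff0000006c0000007c000000fc000000d0000000d0 11 8) 0 0 (step_sound _ 99 [(rh53b3c253cb0c65f4.shift 2 3), rheb673eff2b1e7ce1] (by decide +kernel))
noncomputable def rh6fe43fd4a1bef28e : CRef := CRef.mk (Pat.mk 0x180000000e0000000000000000000000000000000000000000 0x4000000150000001f0000003f0000001f0000001e0000003b00000037000000370000000700000005 11 6) 0 0 (step_sound _ 164 [rh4ac3f56766ee3cb3, (rh59dccf8b901e9a13.shift 0 1), (rhbbe16ff26f7822db.shift 1 2), (rhf5e1b45733236866.shift 0 2)] (by decide +kernel))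
noncomputable def rha18c9de9261a2013 : CRef := CRef.mk (Pat.mk 0x480000000c000000000000000000000000000000000 0x200000007000000078000007fe000001fe000003ff0000037c0000037000000030 11 11) 0 0 (step_sound _ 165 [(rh0b25d87d9089c6f0.shift 3 2), rh0c32cda3e1077eca, (rh22d3ee7a85991641.shift 2 4), (rh44d469ce9238181e.shift 3 1), (rhc0eb320c9cb95511.shift 2 1), (rhfce4aa27df554617.shift 4 1)] (by decide +kernel))
noncomputable def rha5efaada3d936b3a : CRef := CRef.mk (Pat.mk 0x20000000600000003000000000000000000000000000000000 0x5e000000de000000fe0000007e0000003e0000001e0000001f0000000e0000000a 11 8) 0 0 (step_sound _ 164 [(rh2d093a50830e3e0a.shift 1 2), rh307d3bd6eeebd30e, (rh59ef90f1a341f5f8.shift 1 4), (rh7ec82f386c656a01.shift 1 2), (rh88c66cd595bb6a28.shift 1 2), (rh944b6a1fe0dae62b.shift 1 2), (rhaa7d9c57c9fc55cd.shift 2 2)] (by decide +kernel))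
noncomputable def rhc8cc1e49564e2a6c : CRef := CRef.mk (Pat.mk 0x8000000180000000c0000004000000000 0x50000000700000007000000170000001f0000001f0000000c0000007800000010 11 7) 0 0 (step_sound _ 35 [(rh010d64595b166c7e.shift 0 1), (rhf8edb192cdea7ada.shift 2 0)] (by decide +kernel))
noncomputable def rhd0855cf357949bed : CRef := CRef.mk (Pat.mk 0xc00000018000000000000000000000000 0x32000000320000003b0000001f0000001f0000003c0000001000000010 11 6) 0 0 (step_sound _ 129 [(rhb739f4f82bb681b4.shift 0 3), rhd25b7cb33bfae79b] (by decide +kernel))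
noncomputable def rh52e24658118fe9fc : CRef := CRef.mk (Pat.mk 0x100000000300000006000000000000000000000000000000000 0x50000001f00000007c00000070000000ff000000fe000000fe00000050 11 9) 0 0 (step_sound _ 163 [(rhb739f4f82bb681b4.shift 2 4), rhdf6036b464d8644a] (by decide +kernel))
noncomputable def rhdbcf8328607eeafe : CRef := CRef.mk (Pat.mk 0xc00000048000000000000000000000000 0x34000000340000003f0000001f0000007f0000003b0000001a00000010 11 7) 0 0 (step_sound _ 100 [(rh2fe78cc5ca4405d8.shift 2 3), rh3d1b39d6cb648e17] (by decide +kernel))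
noncomputable def rh08d27a92d15c851f : CRef := CRef.mk (Pat.mk 0xc00000018000000000000000000000000 0x32000000320000003f0000001f0000001f0000003f0000001600000012 11 6) 0 0 (step_sound _ 129 [rh23b5418887e9bd84, (rhb739f4f82bb681b4.shift 0 3)] (by decide +kernel))
noncomputable def rh5fa84d4def50b610 : CRef := CRef.mk (Pat.mk 0x3000000060000000000000000000000000 0xd0000000d0000000fc0000007c0000006c000000ff000000fe000000fe 11 8) 0 0 (step_sound _ 131 [(rhb739f4f82bb681b4.shift 2 3), rhe59dd96a841f4b3d] (by decide +kernel))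
noncomputable def rhf0e930fd1a0c36d6 : CRef := CRef.mk (Pat.mk 0xe0000001800000000000000000000000000000000 0x50000000700000037000000370000003b0000001e0000001f0000003f0000001f0000001500000004 11 6) 0 0 (step_sound _ 164 [(rh5ba2d67652840f34.shift 1 3), (rh81026b1e290fdb89.shift 0 1), (rha370f42b5e8577d7.shift 0 1), rhbd978bb55b8ed546] (by decide +kernel))
noncomputable def rh349d58c9ce22a316 : CRef := CRef.mk (Pat.mk 0xc000000480000000000000000000000000 0x30000003700000037c000003ff000001fe000007fe000000780000007000000020 11 11) 0 0 (step_sound _ 101 [(rh1a842b6634f135c1.shift 3 0), (rh4e81d3b3f50c5256.shift 2 3), (rh6dd2cd80f5214abb.shift 2 1), (rh7d798db8909d0d7c.shift 4 2), (rhc41ee8b4f645d521.shift 3 1), (rhd687db5de8577fa4.shift 0 1)] (by decide +kernel))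
noncomputable def rh3aa30f230ce1a839 : CRef := CRef.mk (Pat.mk 0x3000000060000000200000000000000000 0xa0000000e0000001f0000001e0000003e0000007e000000fe000000de0000005e 11 8) 0 0 (step_sound _ 100 [rh1eb5fe95185378c3, (rh60fdf741d372d4ec.shift 1 0), (rh6825a1a3bcc807a9.shift 1 0), (rh6dad6ee62db31490.shift 1 0), (rh8354f06d9a428f7c.shift 1 0), (rha2e41cc1c66f1e65.shift 2 0), (rhd846878614c9ddf8.shift 1 0)] (by decide +kernel))
noncomputable def rh82b47c2e4c1271b7 : CRef := CRef.mk (Pat.mk 0x400000000c000000180000000800000000000000000000000000000000 0x10000000780000000c0000001f0000001f00000017000000070000000700000005 11 7) 0 0 (step_sound _ 227 [(rh04e571695666b5c1.shift 2 4), rhaf29efc83d985d94] (by decide +kernel))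
noncomputable def rhf1b99d9e3865086c : CRef := CRef.mk (Pat.mk 0x400000000c0000004800000000000000000000000000000000 0x140000001c0000001c0000000c0000007c0000001f0000007f0000001f0000001e0000001c00000014 11 7) 0 0 (step_sound _ 132 [rh0b3a6b8996b64a24, (rh2fe78cc5ca4405d8.shift 2 4)] (by decide +kernel))
noncomputable def rh76aa0c26063a21b3 : CRef := CRef.mk (Pat.mk 0x100000000300000006000000000000000000000000000000000 0x1800000058000001f80000007c0000007f00000038000000380000003800000028 11 9) 0 0 (step_sound _ 163 [rha38de66d52c03900, (rhb739f4f82bb681b4.shift 2 4)] (by decide +kernel))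
noncomputable def rh4d91c36cf6afa969 : CRef := CRef.mk (Pat.mk 0x800000001800000030000000000000000000000000 0x280000003e0000007e0000007f000000f80000003e0000003f0000003e0000002c00000020 11 8) 0 0 (step_sound _ 130 [rh4901a2d77b080ae4, (rhb739f4f82bb681b4.shift 1 3)] (by decide +kernel))
noncomputable def rhc0938b3afebf5161 : CRef := CRef.mk (Pat.mk 0x300000006000000000000000000000000000000000 0x600000007800000078000000380000007c0000007f000000fc000000fc0000007800000028 11 8) 0 0 (step_sound _ 163 [rh04299c629ad76e66, (rhb739f4f82bb681b4.shift 2 4)] (by decide +kernel))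
noncomputable def rh323755f641989bdf : CRef := CRef.mk (Pat.mk 0x1000000003000000060000000000000000000000000 0x10000000d0000003d80000007c0000007f000000fc000000e8000000c0 11 10) 0 0 (step_sound _ 131 [rh96287fd3c73c90f7, (rhb739f4f82bb681b4.shift 2 3)] (by decide +kernel))
noncomputable def rhada4234a2cce1694 : CRef := CRef.mk (Pat.mk 0x480000000c0000000800000000 0x140000001f0000003f0000003f0000007c0000000f0000000c00000004 11 7) 0 0 (step_sound _ 100 [(rh361cc68994bd8a63.shift 2 2), rhbb2d6aeabd67d9ef] (by decide +kernel))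
noncomputable def rh261284cc881c7350 : CRef := CRef.mk (Pat.mk 0x480000000c0000004000000000000000000000000000000000 0x140000001c0000001e0000001f0000007f0000001f0000007c0000000c0000001c0000001c00000014 11 7) 0 0 (step_sound _ 196 [rh030c6bed5c408727, (rh361cc68994bd8a63.shift 2 5)] (by decide +kernel))
noncomputable def rha4a56214c19cefc0 : CRef := CRef.mk (Pat.mk 0x6000000030000001000000000000000000 0x280000003800000038000000380000007f0000007c000001f80000005800000018 11 9) 0 0 (step_sound _ 99 [rh4f8abe6408e85f42, (rh53b3c253cb0c65f4.shift 2 3)] (by decide +kernel))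
noncomputable def rh80952682a045547c : CRef := CRef.mk (Pat.mk 0x30000000180000008000000000000000000000000000000000 0x200000002c0000003e0000003f0000003e000000f80000007f0000007e0000003e00000028 11 8) 0 0 (step_sound _ 162 [(rh53b3c253cb0c65f4.shift 1 5), rh9089da2fbf3ae453] (by decide +kernel))
noncomputable def rh02057e1ba2c823ee : CRef := CRef.mk (Pat.mk 0x600000003000000000000000000000000000000000 0x2800000078000000fc000000fc0000007f0000007c00000038000000780000007800000060 11 8) 0 0 (step_sound _ 131 [(rh53b3c253cb0c65f4.shift 2 4), rhbf4fc524e3fae0da] (by decide +kernel))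
noncomputable def rhf6962095b04f8e1c : CRef := CRef.mk (Pat.mk 0x6000000030000001000000000000000000 0xc0000000e8000000fc0000007f0000007c000003d8000000d000000010 11 10) 0 0 (step_sound _ 99 [(rh53b3c253cb0c65f4.shift 2 3), rhd65f2c0d4e8b6a92] (by decide +kernel))
noncomputable def rh334af22a1d14a889 : CRef := CRef.mk (Pat.mk 0x80000000c0000004800000000000000000000000000000000 0x40000000c0000000f0000007c0000003f0000003f0000001f00000014 11 7) 0 0 (step_sound _ 132 [rh282f3ca4f92ae578, (rh2fe78cc5ca4405d8.shift 2 4)] (by decide +kernel))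
noncomputable def rh6b314d805423921c : CRef := CRef.mk (Pat.mk 0x180000000c000000180000000000000000000000000000000000000000 0x1c0000001c0000001f0000003f0000003f0000001f0000001700000005 11 6) 0 0 (step_sound _ 131 [(rh2d5442cbf338480d.shift 2 3), (rh70e2db778ce43bdb.shift 0 1), (rh8cdd36b03d57a2f6.shift 2 2), rhaf29efc83d985d94, (rhbaff7ec0fcc038ba.shift 2 1), (rhd1779d7de7f8215b.shift 2 1)] (by decide +kernel))
noncomputable def rhb5893d6099b87ad6 : CRef := CRef.mk (Pat.mk 0x1800000030000000000000000000000000 0x1c0000003c0000002f0000003c0000003f0000007f0000007e0000007c 11 7) 0 0 (step_sound _ 99 [(rh7802b0788f140374.shift 1 0), rh7aae4a9e4ea5d4dd, rh99a1478ea677def6, rhb93224236df94bf8] (by decide +kernel))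
noncomputable def rh6c4ec236dd77867e : CRef := CRef.mk (Pat.mk 0x480000001e0000000000000008000000000000000000000000 0x40000007f0000001e0000003b0000001f000000170000000700000005 11 7) 0 0 (step_sound _ 197 [rh5d1aa9ef13560b15, (rhb2a0b9ccfb5cecd5.shift 2 5)] (by decide +kernel))
noncomputable def rh51d3409241131cf6 : CRef := CRef.mk (Pat.mk 0x1e00000000000000000000000000000000 0x1d0000001f0000003f0000001e00000033000000070000000700000005 11 6) 0 0 (step_sound _ 164 [rh14eb95dd45d59e78, (rh33e738c4ed385b9f.shift 1 4)] (by decide +kernel))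
noncomputable def rh072efd4383eb7b79 : CRef := CRef.mk (Pat.mk 0x1e00000010000000000000000000000000 0x28000000380000003c000000370000001e0000001b0000003e0000003a00000020 11 6) 0 0 (step_sound _ 164 [(rh33e738c4ed385b9f.shift 1 4), rh7c5fde83caa4deec] (by decide +kernel))
noncomputable def rhc73ed2e32c3eb444 : CRef := CRef.mk (Pat.mk 0x1e0000000000000000000000000000000000000000 0x3d0000001f0000003f0000001e0000000b00000007000000070000000700000005 11 6) 0 0 (step_sound _ 196 [(rh33e738c4ed385b9f.shift 1 5), rhe57ef2155c8e2288] (by decide +kernel))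
noncomputable def rh6654b27ce4137da9 : CRef := CRef.mk (Pat.mk 0x1e0000001000000000000000000000000000000000 0x10000000f0000001f0000000f0000001e0000001b00000017000000170000000700000005 11 5) 0 0 (step_sound _ 193 [(rh3244c3cc8379b070.shift 0 5), rh82d32f9d766adbc0] (by decide +kernel))
noncomputable def rh118bdaeae5c989d0 : CRef := CRef.mk (Pat.mk 0x8000000000000001e0000004800000000 0x500000007000000170000001f0000003b0000001e0000007f00000004 11 7) 0 0 (step_sound _ 37 [rh34400af5ddfdd0c3, (rh5419adcd928dba20.shift 2 1)] (by decide +kernel))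
noncomputable def rh7f61594068ffd494 : CRef := CRef.mk (Pat.mk 0x1e000000000000000000000000 0x50000000700000007000000330000001e0000003f0000001f0000001d 11 6) 0 0 (step_sound _ 68 [rh63ffc985bf14f4e6, (rhe25b0a99195a5d59.shift 1 2)] (by decide +kernel))
noncomputable def rha8c93f7298790c02 : CRef := CRef.mk (Pat.mk 0x100000001e00000000000000000000000000000000 0x200000003a0000003e0000001b0000001e000000370000003c0000003800000028 11 6) 0 0 (step_sound _ 100 [rh34290cae350c1386, (rhe25b0a99195a5d59.shift 1 3)] (by decide +kernel))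
noncomputable def rhedf6979ec7de1671 : CRef := CRef.mk (Pat.mk 0x1e000000000000000000000000 0x50000000700000007000000070000000b0000001e0000003f0000001f0000003d 11 6) 0 0 (step_sound _ 68 [rh4393c22de2396d83, (rhe25b0a99195a5d59.shift 1 2)] (by decide +kernel))
noncomputable def rh00d429a660656be1 : CRef := CRef.mk (Pat.mk 0x100000001e00000000000000000000000000000000 0x50000000700000017000000170000001b0000001e0000000f0000001f0000000f00000001 11 5) 0 0 (step_sound _ 97 [(rheb0810cc63b001d8.shift 0 3), rhf18c3d20371bd060] (by decide +kernel))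
noncomputable def rh862c827e19946a90 : CRef := CRef.mk (Pat.mk 0x8000000018000000180000000000000000 0x3c0000007e000001ff0000001e0000001c0000000f0000000e 11 9) 0 0 (step_sound _ 132 [rh45d7679e9bcbf258, (rh503dd4575245365b.shift 3 1), (rh8e01103cadbef439.shift 2 2)] (by decide +kernel))
noncomputable def rhe3dd063c56f0b6b7 : CRef := CRef.mk (Pat.mk 0x400000000c00000048000000000000000000000000 0x140000001c0000001f0000001f0000007c0000000f0000007c0000001c0000001c00000014 11 7) 0 0 (step_sound _ 100 [(rh2fe78cc5ca4405d8.shift 2 3), rh99720c05613369c0] (by decide +kernel))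
noncomputable def rh0994b7c96ddd9c55 : CRef := CRef.mk (Pat.mk 0x18000000880000000800000000000000000000000000000000 0x2800000038000000ff00000078000000ff0000007c0000001c00000014 11 8) 0 0 (step_sound _ 99 [(rh589345da44c3b4b3.shift 0 2), (rh8aec56c4ee12918c.shift 2 1), (rh8cdd36b03d57a2f6.shift 2 1), (rh984bfc6de6c2c524.shift 2 0), (rh9d2923fa1db00f1a.shift 0 2)] (by decide +kernel))
noncomputable def rh92d3ec23f10336b2 : CRef := CRef.mk (Pat.mk 0x1800000088000000080000000000000000 0x3800000038000000ff00000078000000f800000078 11 8) 0 0 (step_sound _ 35 [(rh2f68792b6b779e96.shift 3 1), rh9d2923fa1db00f1a] (by decide +kernel))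
noncomputable def rhedfae98224f65759 : CRef := CRef.mk (Pat.mk 0x10000000030000001100000001000000000 0x68000001fe00000074000001fe000000fe000001ef 11 9) 0 0 (step_sound _ 132 [(rh4631e385ee25dded.shift 2 0), (rh5aa5e9dc84124dd6.shift 1 1), rhab71d927b394ad46] (by decide +kernel))
noncomputable def rh7e197d3cdcc83a0a : CRef := CRef.mk (Pat.mk 0x30000001100000001000000000 0x280000003800000038000000380000001e00000034000001be000000fe000001ef 11 9) 0 0 (step_sound _ 132 [(rh20e56a1196e70fcc.shift 3 0), (rh30c061e58ebf1ac8.shift 3 0), rhab71d927b394ad46] (by decide +kernel))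
noncomputable def rhd719f2daf5a076c7 : CRef := CRef.mk (Pat.mk 0x8800000018000000880000000800000000 0x20000000200000006f000000ff00000038000000fe0000007800000030 11 8) 0 0 (step_sound _ 36 [(rh55afc6a59410cf00.shift 3 0), rhd4a56ae6a8c8936a] (by decide +kernel))
noncomputable def rh8631b64a23f10040 : CRef := CRef.mk (Pat.mk 0x8000000098000000900000000800000000000000000000000000000000 0x60000001e0000000b8000001fe0000007e000001ff0000007e0000002e0000000a 11 9) 0 0 (step_sound _ 132 [(rh145aabc5fe9b3110.shift 1 2), (rh36c2ae8404e63c83.shift 1 2), (rh5d7a1789ccad5d1e.shift 1 1), rh9e35efc064b47c7a, (rhcfe6aac14436f88b.shift 1 1), (rhf052087f74fce7de.shift 3 1)] (by decide +kernel))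
noncomputable def rh564c2942b28e5537 : CRef := CRef.mk (Pat.mk 0x800000001800000080000000080000000000000000 0x280000003c0000007e0000007f0000007e000000ff00000038000001fc0000006c0000004c00000040 11 9) 0 0 (step_sound _ 164 [(rh00d6a6e3c7e3bb40.shift 3 1), (rh3efafc482874f7b3.shift 3 1), (rh580df77fe152422b.shift 3 1), (rh61628f55c6672d20.shift 0 1), rhe512756101d0a81f] (by decide +kernel))
noncomputable def rhcdb1c462cc91ec84 : CRef := CRef.mk (Pat.mk 0x400000000c0000004800000004000000000000000000000000 0x10000000180000007c0000001f0000007c0000001c0000007c0000000f000000180000001800000010 11 7) 0 0 (step_sound _ 132 [(rh2fe78cc5ca4405d8.shift 2 4), rh5b0049d2743bc7d8] (by decide +kernel))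
noncomputable def rh5417c5420dc12940 : CRef := CRef.mk (Pat.mk 0x180000000000000008000000000000000000000000 0x140000001c0000001c0000001c0000001f000000380000001f0000003c0000001c0000001c00000014 11 6) 0 0 (step_sound _ 131 [(rh215e11e099257d75.shift 3 2), (rh67b54a9440e7e5d6.shift 0 2), rhcdeff3e0b53e1aa2, (rhffb8e5993241bf15.shift 2 0)] (by decide +kernel))
noncomputable def rhaff899883e808bfa : CRef := CRef.mk (Pat.mk 0xd00000009c0000000800000000 0x80000004c0000007f0000007f000000df0000009c0000001f00000006 11 8) 0 0 (step_sound _ 132 [(rh5c5e593799055d58.shift 3 1), rh9a1b2bdd1128b436] (by decide +kernel))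
noncomputable def rhb78c98789a7b83bf : CRef := CRef.mk (Pat.mk 0x3800000000000000000000000000000000 0x140000003c0000007e0000003f000000780000003f000000fc000000fc0000001c 11 8) 0 0 (step_sound _ 163 [rh3b7821dc02172101, rh7e91eb228d58437f, (rhf28eafe585dd74a1.shift 1 0), (rhf60aa8aede119d3b.shift 0 4)] (by decide +kernel))
noncomputable def rh63acaa2bce42acd5 : CRef := CRef.mk (Pat.mk 0xf000000000000000000000000000000000 0x100000007f000000fe0000006e000000700000007000000050 11 8) 0 0 (step_sound _ 131 [(rh138c3774b73e0afc.shift 0 3), (rh592c7139d2c44767.shift 1 3), (rh5e680aec5abf9fa7.shift 1 0), (rhd5eb272e07a4e288.shift 2 4)] (by decide +kernel))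
noncomputable def rh6ef05681711ab4db : CRef := CRef.mk (Pat.mk 0x80000009c000000d000000000000000000000000000000000 0x60000001f0000009c000000df0000007f0000007f0000004c00000008 11 8) 0 0 (step_sound _ 100 [rh5f22729d34fd96b7, (rh7b1f1fb55310c477.shift 3 2)] (by decide +kernel))
noncomputable def rhb0dea6fdd0a1526b : CRef := CRef.mk (Pat.mk 0x3800000000000000000000000000000000 0x1c000000fc000000fc0000003f000000780000003f0000007e0000003c00000014 11 8) 0 0 (step_sound _ 99 [(rh830e05547fcb0a5f.shift 0 1), (rhba1028e35a2a8d1b.shift 1 0), rhdb6ad9054628f17c, (rhf0f55c4504412200.shift 0 3)] (by decide +kernel))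
noncomputable def rhef59946f39474af2 : CRef := CRef.mk (Pat.mk 0xf00000000000000000 0x5000000070000000700000006e000000fe0000007f00000010 11 8) 0 0 (step_sound _ 67 [(rh3fb0a128b2bc958c.shift 1 0), (rh598c96e05d977516.shift 0 1), (rh775ca1963e850b80.shift 1 1), (rheae1728ff4a56756.shift 2 1)] (by decide +kernel))
noncomputable def rh16c9df4d331de6da : CRef := CRef.mk (Pat.mk 0x1c00000000000000000000000000000000 0x10000000700000007000000070000000770000003e00000067000000700000007000000050 11 7) 0 0 (step_sound _ 133 [(rh775ca1963e850b80.shift 0 3), (rh7deea0bc0ad27682.shift 1 0), (rh9e97bba44c1b13e4.shift 0 3)] (by decide +kernel))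
noncomputable def rh5a731e8267f3856a : CRef := CRef.mk (Pat.mk 0x100000001e00000000000000000000000000000000 0x200000003c0000003e0000001c0000001e000000370000003a0000003a00000028 11 6) 0 0 (step_sound _ 100 [rh3c137172e8bf67cd, (rhe25b0a99195a5d59.shift 1 3)] (by decide +kernel))
noncomputable def rhcd295640f4561c2b : CRef := CRef.mk (Pat.mk 0x1c0000000000000000000000000000000000000000 0x500000007000000070000000670000003e0000007700000070000000700000007000000010 11 7) 0 0 (step_sound _ 165 [(rh093923d1bb159634.shift 1 0), (rh0d378fd9e8917c5a.shift 0 4), (rh592c7139d2c44767.shift 0 4)] (by decide +kernel))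
noncomputable def rh3d15627620a6f3cc : CRef := CRef.mk (Pat.mk 0x1e00000010000000000000000000000000 0x280000003a0000003a000000370000001e0000001c0000003e0000003c00000020 11 6) 0 0 (step_sound _ 164 [(rh33e738c4ed385b9f.shift 1 4), rh4edcab1042ad8413] (by decide +kernel))
noncomputable def rhbad411e9bcb7ff88 : CRef := CRef.mk (Pat.mk 0x800000001800000090000000000000000000000000 0x20000000380000003800000018000000f80000003e000000ff0000007e0000007e00000024 11 8) 0 0 (step_sound _ 101 [(rh2fe78cc5ca4405d8.shift 3 3), rhf47cac560d14befd] (by decide +kernel))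
noncomputable def rh83b837165b5b1863 : CRef := CRef.mk (Pat.mk 0x400000000c00000018000000000000000000000000 0x1f0000003f0000007c0000001f0000001f0000000f0000000a00000002 11 7) 0 0 (step_sound _ 129 [rh94fae7140a55804b, (rhb739f4f82bb681b4.shift 0 3)] (by decide +kernel))
noncomputable def rh20de63f6c5db003b : CRef := CRef.mk (Pat.mk 0x400000000c00000018000000000000000000000000 0x200000003000000030000000fc0000001f0000001f0000003f0000003e0000003f 11 8) 0 0 (step_sound _ 129 [rh045c317711053cbf, (rhb739f4f82bb681b4.shift 0 3)] (by decide +kernel))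
noncomputable def rhac991a4f12fc5353 : CRef := CRef.mk (Pat.mk 0x80000000180000009000000000000000000000000000000000 0x280000003800000038000000f000000038000000f80000003e0000007f0000003e00000028 11 8) 0 0 (step_sound _ 133 [rh1a4f0ca0d1e7f52b, (rh2fe78cc5ca4405d8.shift 3 4)] (by decide +kernel))
noncomputable def rh1faf20425f8242e6 : CRef := CRef.mk (Pat.mk 0x80000000180000003000000000000000000000000000000000 0x280000003800000038000000f00000003e000000380000003e0000007f0000003e00000028 11 8) 0 0 (step_sound _ 162 [rh1a4f0ca0d1e7f52b, (rhb739f4f82bb681b4.shift 1 4)] (by decide +kernel))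
noncomputable def rh55718618151450e2 : CRef := CRef.mk (Pat.mk 0x800000001800000030000000000000000000000000 0x20000000380000003e0000003e000000f80000003f0000003f0000006f0000006c00000064 11 8) 0 0 (step_sound _ 98 [rh4030708c62e2bd2f, rha46ada95e0c402f9, (rha617fbe34284e1f6.shift 1 0), rhc8c655bae42dfb9f, (rhe285b3e39c6850e0.shift 1 0)] (by decide +kernel))
noncomputable def rh85f4812a37eb5c26 : CRef := CRef.mk (Pat.mk 0x100000000300000002000000000000000000000000000000000 0x500000007c000000fc000000fe000001f0000000780000003e0000007e000000ff0000007c00000050 11 9) 0 0 (step_sound _ 197 [(rh43cc7ca75760bcf8.shift 1 0), (rh53add0a816e2f5e7.shift 1 3), rh5fcc55c5b26d6546, (rh715bb0b4ad87df65.shift 4 1), (rh807a3fca9b5109b0.shift 4 0), (rha80f473e899b2d1f.shift 4 1)] (by decide +kernel))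
noncomputable def rh82a40efcbd3bd6c6 : CRef := CRef.mk (Pat.mk 0x100000000300000012000000000000000000000000000000000 0x70000000fc000003d70000007e000001ff000000fc000001fc000000fc00000054 11 10) 0 0 (step_sound _ 163 [(rhb2afcb5db661472f.shift 0 4), (rhb33adeffb73ebed9.shift 0 1), rhb7a71fad737d2a0c, (rhc92c11e8da6c894f.shift 0 4)] (by decide +kernel))
noncomputable def rh618941b75d711384 : CRef := CRef.mk (Pat.mk 0xc00000018000000000000000000000000 0x140000001f0000003f0000003f0000000c0000001f0000001f0000003f0000003f00000012 11 6) 0 0 (step_sound _ 129 [rh2b97da2816c0e8d3, (rhb739f4f82bb681b4.shift 0 3)] (by decide +kernel))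
noncomputable def rh97b6305f12f2f37c : CRef := CRef.mk (Pat.mk 0x90000000180000008000000000000000000000000000000000 0x240000007e0000007e000000ff0000003e000000f800000018000000380000003800000020 11 8) 0 0 (step_sound _ 197 [(rh361cc68994bd8a63.shift 3 5), rh949baa30f499cac1] (by decide +kernel))
noncomputable def rh96ee2dc24076f714 : CRef := CRef.mk (Pat.mk 0x180000000c000000400000000000000000 0x20000000a0000000f0000001f0000001f0000007c0000003f0000001f 11 7) 0 0 (step_sound _ 97 [(rh53b3c253cb0c65f4.shift 0 3), rh8f75fe575172d0a8] (by decide +kernel))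
noncomputable def rh6f09e1fdf640fcde : CRef := CRef.mk (Pat.mk 0x180000000c00000040000000000000000000000000 0x3f0000003e0000003f0000001f0000001f000000fc000000300000003000000020 11 8) 0 0 (step_sound _ 129 [(rh53b3c253cb0c65f4.shift 0 4), rh6cacf7b33b9135a2] (by decide +kernel))
noncomputable def rh7a69c53827f5f79b : CRef := CRef.mk (Pat.mk 0x900000001800000080000000000000000000000000 0x280000003e0000007f0000003e000000f800000038000000f0000000380000003800000028 11 8) 0 0 (step_sound _ 165 [rh201b5bea4ca20ac5, (rh361cc68994bd8a63.shift 3 4)] (by decide +kernel))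
noncomputable def rh65e980b5cd96fc46 : CRef := CRef.mk (Pat.mk 0x300000001800000080000000000000000000000000 0x280000003e0000007f0000003e000000380000003e000000f0000000380000003800000028 11 8) 0 0 (step_sound _ 130 [rh201b5bea4ca20ac5, (rh53b3c253cb0c65f4.shift 1 4)] (by decide +kernel))
noncomputable def rh3bff2630b8a67c2d : CRef := CRef.mk (Pat.mk 0x30000000180000008000000000000000000000000000000000 0x640000006c0000006f0000003f0000003f000000f80000003e0000003e0000003800000020 11 8) 0 0 (step_sound _ 194 [(rh37bd57b80fc3454b.shift 0 3), (rh37c4c4b1de5e582f.shift 0 3), (rh580ed7aabfd5da57.shift 1 0), (rh59e1577dccfbc916.shift 1 2), (rh626d78fccfc43ce8.shift 0 3)] (by decide +kernel))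
noncomputable def rh0c20396907db4912 : CRef := CRef.mk (Pat.mk 0x20000000300000010000000000000000000000000000000000 0x500000007c000000ff0000007e0000003e00000078000001f0000000fe000000fc0000007c00000050 11 9) 0 0 (step_sound _ 133 [(rh2333d5e575238ae4.shift 4 2), (rh399e79f70837a3e7.shift 1 3), (rh9a10ede7917326db.shift 4 1), (rhabb0d11f97e4225e.shift 0 2), (rhb2c24aa65dd14528.shift 4 3), (rhf0c88dddd9db10b4.shift 1 0)] (by decide +kernel))
noncomputable def rh709e2b40acabf1e0 : CRef := CRef.mk (Pat.mk 0x12000000030000001000000000000000000 0x54000000fc000001fc000000fc000001ff0000007e000003d7000000fc00000070 11 10) 0 0 (step_sound _ 99 [rha35cbb59ea77a159, (rhab2d0b2fbf579746.shift 0 1), (rhb103f40a53fe1424.shift 0 2), (rhb12ffaec36122c99.shift 0 2)] (by decide +kernel))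
noncomputable def rha9da8fb05070258e : CRef := CRef.mk (Pat.mk 0x180000000c0000000000000000000000000000000000000000 0x120000003f0000003f0000001f0000001f0000000c0000003f0000003f0000001f00000014 11 6) 0 0 (step_sound _ 161 [(rh53b3c253cb0c65f4.shift 0 5), rh8a1c00e817e6cb44] (by decide +kernel))
noncomputable def rh4dee0cfd090e16ec : CRef := CRef.mk (Pat.mk 0x400000001e000000000000000000000000 0x1f0000001f0000007c0000001e0000003f0000003f0000003c 11 7) 0 0 (step_sound _ 68 [rh39a7e74943ed215e, (rhe25b0a99195a5d59.shift 1 2)] (by decide +kernel))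
noncomputable def rh4c9dee472e79d19d : CRef := CRef.mk (Pat.mk 0x1e000000400000000000000000 0x3c0000003f0000003f0000001e0000007c0000001f0000001f 11 7) 0 0 (step_sound _ 132 [(rh33e738c4ed385b9f.shift 1 3), rh3c71753d3aebe9f5] (by decide +kernel))
noncomputable def rhee152d645edfe06b : CRef := CRef.mk (Pat.mk 0x100000001000000010000000000000000000000000 0x800000018000000180000003e000000ff000000ff00000028 11 8) 0 0 (step_sound _ 68 [(rh8cdd36b03d57a2f6.shift 3 0), (rh8ff3dde5b1c639e0.shift 3 0), (rhc4526fc8abf298b6.shift 3 0), (rhe4018ab1ba2a7447.shift 0 1)] (by decide +kernel))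
noncomputable def rh3826d9e8c8d27811 : CRef := CRef.mk (Pat.mk 0x40000000400000004000000000000000200000000000000000000000000000000000000000 0x4000000040000000700000007000000030000001fe000001fe000001ff0000007e00000050 11 9) 0 0 (step_sound _ 197 [rh4b5a8ea8d9b7a3a1, (rheea67dfebd0f8008.shift 5 5)] (by decide +kernel))
noncomputable def rh761ad74695cf638c : CRef := CRef.mk (Pat.mk 0x20000000280000002000000020000000000000000000000000 0x2f0000007e000001f7000000340000003c0000007000000040 11 9) 0 0 (step_sound _ 68 [(rh79877ebd3ef475dd.shift 4 2), rh7e064aff630bcc72] (by decide +kernel))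
noncomputable def rh700be9f20ffb0ebf : CRef := CRef.mk (Pat.mk 0x280000002000000020000000400000000000000000 0x80000000f0000007e000001f700000024000001e40000007000000010 11 9) 0 0 (step_sound _ 69 [rh33c00d0e1736d36c, (rh55afc6a59410cf00.shift 5 1)] (by decide +kernel))
noncomputable def rhad1551ce596c7f03 : CRef := CRef.mk (Pat.mk 0x80000000a00000008000000000000000000000000000000000000000000000000 0x10000000180000000f0000007c0000007f000000fc0000001c0000001c0000001c00000014 11 8) 0 0 (step_sound _ 163 [(rh025ed86d449e9649.shift 0 1), (rh1a9fb850c5b83564.shift 0 4), rh5e255e3181ff305d, (rh61a6fa8e2424243b.shift 0 2), (rh6eff4158bb400f47.shift 2 3)] (by decide +kernel))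
noncomputable def rh09c7b9a895bcde59 : CRef := CRef.mk (Pat.mk 0x80000001e00000008000000000000000000000000 0x1b0000001e0000003c000000ff000000ff0000000c 11 8) 0 0 (step_sound _ 100 [rh803fe4953964bd13, (rhe25b0a99195a5d59.shift 1 3)] (by decide +kernel))
noncomputable def rhfba4d5a780698985 : CRef := CRef.mk (Pat.mk 0x8000000080000000800000000000000000000000000000000 0x1000000018000000180000007c000000ff000000ff000000fc00000014 11 8) 0 0 (step_sound _ 99 [(rh6c59ce14113da07f.shift 3 1), (rh6eff4158bb400f47.shift 2 1), (rh83162f1bd7e5cda0.shift 2 0), (rha0d338b7dc9b2b15.shift 0 2), (rhcab3157f7bdcba3e.shift 2 1)] (by decide +kernel))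
noncomputable def rhc39e436a354fc7ee : CRef := CRef.mk (Pat.mk 0x40000000400000008000000080000000000000000000000000000000000000000 0x40000001c0000001800000018000001ff000000fe000001fc000000fc00000014 11 9) 0 0 (step_sound _ 131 [rh03245625fa792e25, (rhcfdf45280693d3da.shift 2 4)] (by decide +kernel))
noncomputable def rh7c0f92433c029729 : CRef := CRef.mk (Pat.mk 0x1000000000000000000000001e00000000000000000000000000000000 0x1000000010000000100000003f0000003f0000003f0000000b00000003 11 6) 0 0 (step_sound _ 100 [rh23bdad87ce689126, (rhe25b0a99195a5d59.shift 1 3)] (by decide +kernel))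
noncomputable def rh22d8ada988bec15c : CRef := CRef.mk (Pat.mk 0x800000000000000040000000500000004000000000000000000000000000000000 0x8c0000008c000007cf000003fe000007ff0000000e0000000e0000000e0000000a 11 11) 0 0 (step_sound _ 165 [(rh6f73b9c71a432ab4.shift 1 0), (rha11dfd15f08f96e3.shift 3 5), (rhc59ba9a1f24cb412.shift 0 4), (rhea4157a0a89ac41d.shift 3 4)] (by decide +kernel))
noncomputable def rh76f4c04d6f7ed192 : CRef := CRef.mk (Pat.mk 0x400000005000000040000000000000000000000000 0x8000000080000004f000000fe00000fff000007f000000fe0000000e0 11 12) 0 0 (step_sound _ 70 [(rh6eff4158bb400f47.shift 5 0), rhc2c5b454d3fc08c8, (rhe72a2ee9a383cd6d.shift 3 1), rhf7c8340f7faf0b64] (by decide +kernel))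
noncomputable def rh08f8d60ad39b4c85 : CRef := CRef.mk (Pat.mk 0x100000001400000010000000100000000000000000 0x20000000f00000001e0000007f0000007f0000001e0000001c 11 8) 0 0 (step_sound _ 165 [rh209089118260a890, (rh2f68792b6b779e96.shift 4 2)] (by decide +kernel))
noncomputable def rh49781100753f59b4 : CRef := CRef.mk (Pat.mk 0x20000000280000002000000000000000000000000000000000 0x600000006000003e7000001fe000003ff000003f7000000f70000000700000005 11 10) 0 0 (step_sound _ 164 [(rh5362f7092d8ac125.shift 2 2), rh6f73b9c71a432ab4, (rha11dfd15f08f96e3.shift 2 5)] (by decide +kernel))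
noncomputable def rhf231a5a9eff862a9 : CRef := CRef.mk (Pat.mk 0x40000000400000000000000080000000800000000000000000000000000000000 0x40000001c0000001800000018000001ff000000fe000001fc000000fc00000014 11 9) 0 0 (step_sound _ 195 [rh03245625fa792e25, (rhcfdf45280693d3da.shift 2 4)] (by decide +kernel))
noncomputable def rh2267719737338dc0 : CRef := CRef.mk (Pat.mk 0x4000000000000000000000007800000028000000000000000000000000 0x400000004000000046000000fe00000038000000ff000000ff000001ff 11 9) 0 0 (step_sound _ 100 [(rh18965a982d73c794.shift 3 3), rhba373bd106aae536] (by decide +kernel))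
noncomputable def rh3cbadfb28319af9d : CRef := CRef.mk (Pat.mk 0x800000008000000080000001800000000000000000000000000000000 0x40000002f0000007c000003fe000001fc000003e4000000f0000000f0000000f0 11 10) 0 0 (step_sound _ 130 [rh4fda2875458bf896, (rh932754581e0f4330.shift 2 3)] (by decide +kernel))
noncomputable def rha888b10b4f1bf4fd : CRef := CRef.mk (Pat.mk 0x4000000040000000000000002000000020000000000000000000000000000000000000000000000000 0x400000007f0000003e000000ff000001fc000001fe000001fc00000060000000700000007000000050 11 9) 0 0 (step_sound _ 261 [(rh1006c02ae4212ff0.shift 5 6), rhc0949c731826503b] (by decide +kernel))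
noncomputable def rh4e755fdd2d32ccf0 : CRef := CRef.mk (Pat.mk 0x20000000200000001000000010000000100000001000000000 0x2000000068000000de000000ff000000ff0000003600000036 11 8) 0 0 (step_sound _ 131 [(rh50fbb5868c909700.shift 3 1), rh79ee43511792b1e1] (by decide +kernel))
noncomputable def rh9cb3d89c251a6e9b : CRef := CRef.mk (Pat.mk 0x50000000100000000800000008000000080000000c0000000000000000 0x4000000050000000740000006f0000007f0000007c0000007e000000f000000040 11 8) 0 0 (step_sound _ 68 [rh3bc71838741b770c, (rh55afc6a59410cf00.shift 3 1)] (by decide +kernel))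
noncomputable def rh04de56d735a9e68f : CRef := CRef.mk (Pat.mk 0x400000004000000050000000000000000000000000 0x28000000380000003800000078000003ff000000fe000001ff0000008000000080 11 10) 0 0 (step_sound _ 101 [(rh2e87cec0217dd9fc.shift 3 0), (rh647faed73cd07a03.shift 0 2), (rha11dfd15f08f96e3.shift 3 3), (rha4e887c2a2a0f60b.shift 1 2)] (by decide +kernel))
noncomputable def rh202014a2c2d5e3b8 : CRef := CRef.mk (Pat.mk 0x500000001000000008000000080000000a0000000000000000000000000000000000000000 0x50000000f4000001ee000003fe000001ff000003ff000000f80000001c0000001c00000014 11 10) 0 0 (step_sound _ 131 [(rh15b80fc61fcc9873.shift 0 3), rh1b8787380a02563c, (rh5ad9898cc32ef511.shift 2 2), rh66e8ee5080f80181, (rhabaa648d2bc9d61c.shift 0 3)] (by decide +kernel))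
noncomputable def rh171839d3af403c75 : CRef := CRef.mk (Pat.mk 0x400000004000000050000000000000000000000000 0x28000000380000003800000078000003df000003fe000007ff0000008000000080 11 11) 0 0 (step_sound _ 101 [(rh209658185e438b00.shift 2 2), (rh9ec4b189858e6030.shift 0 1), (rha2b6411962a48741.shift 2 2), (rha4e887c2a2a0f60b.shift 1 2), (rhfa16db25eed4ca1f.shift 3 0)] (by decide +kernel))
noncomputable def rh5ed31cf4a91e3e2c : CRef := CRef.mk (Pat.mk 0x2000000020000000000000001000000014000000000000000000000000 0x220000007a000000df000000ff000000de000000fc0000003400000020 11 8) 0 0 (step_sound _ 164 [(rh1006c02ae4212ff0.shift 4 3), rh558c3998e2cde4b9] (by decide +kernel))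
noncomputable def rh00cd23a2b69d9aa2 : CRef := CRef.mk (Pat.mk 0x400000004000000050000000000000000000000000 0x18000000180000003c0000007c0000007f000001fe000003ff000000d800000098 11 10) 0 0 (step_sound _ 70 [rh2bfe856890cc7bfc, (rh5ad9898cc32ef511.shift 5 0), (rh70cb005c6b5dfcf7.shift 2 1), (rhabaa648d2bc9d61c.shift 3 1)] (by decide +kernel))
noncomputable def rhfcd222f09d7ffee5 : CRef := CRef.mk (Pat.mk 0x4000000000000000000000002000000020000000280000006000000000 0x100000007c0000001c0000001c0000003c000001ff000000f8000001fc00000008 11 9) 0 0 (step_sound _ 132 [rh1c9562354fb9bfb9, (rh50fbb5868c909700.shift 4 1)] (by decide +kernel))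
noncomputable def rh01deed0e50a08cd0 : CRef := CRef.mk (Pat.mk 0x40000000400000000000000028000000280000000000000000 0x1c0000005c0000007c0000003f0000003e0000006f0000007c0000002c 11 7) 0 0 (step_sound _ 133 [(rh1006c02ae4212ff0.shift 5 2), rh54e59b241c89eaac] (by decide +kernel))
noncomputable def rh813904aa1244bb50 : CRef := CRef.mk (Pat.mk 0xa0000000200000000000000014000000140000000000000000 0xe000000ae000000bf000001df000000fc000000f70000003e00000016 11 9) 0 0 (step_sound _ 132 [(rh1006c02ae4212ff0.shift 4 2), rhcb7b84b16530ed43] (by decide +kernel))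
noncomputable def rhd902fb7cdfc92f6c : CRef := CRef.mk (Pat.mk 0x28000000080000000400000004000000050000000000000000000000000 0x8000002bc000007bc0000077c00001fff00000ffe00001f1f0000021800000018 11 13) 0 0 (step_sound _ 101 [(rh2a88381d1f715fb7.shift 3 0), (rha11dfd15f08f96e3.shift 3 3), rhcea113df8f1ef6c1, (rhfb46419da33febf8.shift 1 2)] (by decide +kernel))
noncomputable def rh035b4fb2f9bf6f1a : CRef := CRef.mk (Pat.mk 0x1000000010000000100000001800000000 0x80000005e000000f8000000f7000000fe000001e7 11 9) 0 0 (step_sound _ 37 [(rh55afc6a59410cf00.shift 4 0), rh7588d1bd0aa7392a] (by decide +kernel))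
noncomputable def rha000b4775368424a : CRef := CRef.mk (Pat.mk 0x800000008000000080000000c00000000000000000000000000000000 0x40000002f0000007c000003fe000001fc000003f0000000f0000000f0000000f0 11 10) 0 0 (step_sound _ 132 [rh4fda2875458bf896, (rh55afc6a59410cf00.shift 3 3)] (by decide +kernel))
noncomputable def rhaabdda617c8e6d75 : CRef := CRef.mk (Pat.mk 0x4000000040000000400000006000000000000000000000000000000000 0x3e0000007c000001fe000003ff0000007e0000001f0000001c0000001c00000014 11 10) 0 0 (step_sound _ 229 [rh47cb857be132e4af, (rh50fbb5868c909700.shift 5 4)] (by decide +kernel))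
noncomputable def rh74ef59420f20c3eb : CRef := CRef.mk (Pat.mk 0x2000000020000000300000001000000000000000000000000000000000 0x1c0000003c00000fef000007fe00000f9f0000001c0000001c0000000c0000000c 11 12) 0 0 (step_sound _ 100 [rh11ee7cda1fa8bef4, (rh71222050f2c63a3a.shift 4 2)] (by decide +kernel))
noncomputable def rh5c500c7b2d056dff : CRef := CRef.mk (Pat.mk 0x60000000400000001800000000000000000000000000000000 0x1c0000001c0000001e0000007c000000de0000001f0000001f0000001f0000001c00000004 11 8) 0 0 (step_sound _ 195 [(rh08436c2649689ebd.shift 1 5), (rh2be070733f81f31a.shift 2 3), (rh8139b293fe6a9b84.shift 2 1), rh842628af7dbcb5c0] (by decide +kernel))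
noncomputable def rh1b9692e736c0c85f : CRef := CRef.mk (Pat.mk 0x200000002800000020000000000000000000000000 0x1ef000000fe000001ef000001fc000003fe00000070 11 10) 0 0 (step_sound _ 132 [(rh0fa479cea2267816.shift 1 3), (rha11dfd15f08f96e3.shift 2 4), (rha4e887c2a2a0f60b.shift 0 3), (rha570515a9fdc7c45.shift 1 0)] (by decide +kernel))
noncomputable def rh7e3bfa95db5ec226 : CRef := CRef.mk (Pat.mk 0x40000000400000005000000000000000000000000000000000 0x1c0000003c0000007c0000007f000001fe000003df000000f8000000f8000000a0 11 10) 0 0 (step_sound _ 102 [(rh47992774edf9829f.shift 5 0), (rh8ff3dde5b1c639e0.shift 5 1), (rhb60cd09439e94a84.shift 0 1), (rhc486ae0fcc44be52.shift 3 2)] (by decide +kernel))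
noncomputable def rh76f255b113e826c7 : CRef := CRef.mk (Pat.mk 0x100000001000000000000000080000001a00000000000000000000000000000000 0x4000000140000001c0000000e0000001f0000001e0000003b000000170000001700000005 11 6) 0 0 (step_sound _ 195 [(rh1006c02ae4212ff0.shift 3 4), rh682209e4ae1c2abc] (by decide +kernel))
noncomputable def rh9b67b2a6ae07e8ba : CRef := CRef.mk (Pat.mk 0x100000001000000000000000080000001a00000000000000000000000000000000 0x5000000170000001f0000000f0000003f0000001e0000003b000000170000001700000005 11 6) 0 0 (step_sound _ 195 [(rh1006c02ae4212ff0.shift 3 4), rhcc8a9db642683d75] (by decide +kernel))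
noncomputable def rh272374e714aa7152 : CRef := CRef.mk (Pat.mk 0x280000000800000000000000040000000d00000000000000000000000000000000 0x280000003c00000076000001fc000000ff000001fc000000380000003800000030 11 9) 0 0 (step_sound _ 194 [(rh1006c02ae4212ff0.shift 2 4), rhe699f14b9fd879b1] (by decide +kernel))
noncomputable def rhfb2233e5166ae550 : CRef := CRef.mk (Pat.mk 0x4000000040000000d00000000000000000000000000000000000000000 0x2000000060000003f8000003d000001fdf00000ffe00001fff000000a0000000a0 11 13) 0 0 (step_sound _ 103 [rh00f115586ea90d40, (rh3b5346b2e316d790.shift 6 2), (rh700bedf92a002ef8.shift 5 2), (rhc140869848ea0f2e.shift 6 3)] (by decide +kernel))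
noncomputable def rh4b13a98afe2034a5 : CRef := CRef.mk (Pat.mk 0x1400000005000000000000000200000002800000000 0x15e000001fc000003ae000001fe000001ef0000000e 11 10) 0 0 (step_sound _ 133 [(rh04253f50b6dd0619.shift 5 1), rh6545a4e439291a03] (by decide +kernel))
noncomputable def rh6a9e59f6a16ed1cd : CRef := CRef.mk (Pat.mk 0x1000000000000000180000001e0000000000000000000000000000000000000000 0x1000000070000001f000000070000001f0000001e000000fb0000007f000001ff0000001c00000010 11 9) 0 0 (step_sound _ 194 [(rh30e0599416abe2db.shift 0 2), (rh88129595a1b18399.shift 0 2), (rhdb27c4c84f54592d.shift 1 2), rhe9cb17415891995a] (by decide +kernel))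
noncomputable def rh835921a06e9850f5 : CRef := CRef.mk (Pat.mk 0x20000000200000001000000010000000100000000800000000 0x240000006c000000de000000ff000000f70000001e0000001e 11 8) 0 0 (step_sound _ 36 [(rh932754581e0f4330.shift 3 0), rhb15c309f54c29952] (by decide +kernel))
noncomputable def rh0a6962e251b8d693 : CRef := CRef.mk (Pat.mk 0xa000000020000000100000001800000010000000080000000000000000 0x80000000ac000000ec000000dc000003fe000000fc000000df000000d400000080 11 10) 0 0 (step_sound _ 163 [(rh3cb04db3dd2b6a55.shift 3 1), (rh49d969b7d2890216.shift 1 0), (rh6bcbe5f517d76cf6.shift 0 1)] (by decide +kernel))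
noncomputable def rhc88e0bedb89b256e : CRef := CRef.mk (Pat.mk 0xa000000020000000100000001800000010000000080000000000000000 0x80000000a8000000ea000001db000003ff000003ff000000de000000d400000080 11 10) 0 0 (step_sound _ 163 [(rh3cb04db3dd2b6a55.shift 3 1), (rh47529ab2d064fbe4.shift 0 1), (rh49d969b7d2890216.shift 1 0), (rhfc7c29d8e65d775f.shift 3 2)] (by decide +kernel))
noncomputable def rhdac3170aa5582027 : CRef := CRef.mk (Pat.mk 0x300000003000000020000000100000000000000000 0xf0000003e000000ff000000770000003e0000002f0000000a 11 8) 0 0 (step_sound _ 69 [(rh7b1f1fb55310c477.shift 4 1), rha6ed65557d02c756] (by decide +kernel))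
noncomputable def rhf40238cb0568def2 : CRef := CRef.mk (Pat.mk 0x1000000018000000100000000800000000 0x20000000e0000000f0000001f0000001f0000007f0000001f00000017 11 7) 0 0 (step_sound _ 131 [rh6bcbe5f517d76cf6, rh700ceb092f4d003b, (rhfc7c29d8e65d775f.shift 3 1)] (by decide +kernel))
noncomputable def rh1adafa96e421417e : CRef := CRef.mk (Pat.mk 0x40000000400000002000000030000000200000001000000000 0x58000000df000001be000001ff000001be0000003e0000002e 11 9) 0 0 (step_sound _ 132 [rh3578f73a48128916, (rh663ef16a1cc80197.shift 1 0), (rhfc7c29d8e65d775f.shift 4 1)] (by decide +kernel))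
noncomputable def rh436e233317bd9028 : CRef := CRef.mk (Pat.mk 0x100000001000000010000000000000000e0000000800000004 0x1000000070000001f0000001700000033000000630000007e0000007f00000004 11 7) 0 0 (step_sound _ 68 [(rh37aed1c9caf4a2d8.shift 1 1), (rh59810ecc3e5f50ca.shift 1 1), rh9aa138e5ed752369, rhc2b8be80fcf1ca23] (by decide +kernel))
noncomputable def rhb71555a6b2173205 : CRef := CRef.mk (Pat.mk 0x100000001000000010000000080000000000000000000000000000000000000000 0x10000000100000001c0000001c0000000c0000003f0000003f0000001f00000014 11 6) 0 0 (step_sound _ 131 [rhe9f3cd6b8675ca86, (rheea67dfebd0f8008.shift 3 4)] (by decide +kernel))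
noncomputable def rh72361a4e31f73b95 : CRef := CRef.mk (Pat.mk 0x500000001000000008000000080000000800000008000000000000000000000000 0x400000005000000070000001e8000000fc000001ff000000380000001c0000001c00000004 11 9) 0 0 (step_sound _ 68 [rh758e9bbe779cf854, (rhd3458b32566d63f7.shift 3 2)] (by decide +kernel))
noncomputable def rh790ba1b68aaa091c : CRef := CRef.mk (Pat.mk 0x500000001000000008000000080000000800000008000000000000000000000000 0x400000005000000070000001e8000000fc000001ff0000002c0000001c0000001c00000010 11 9) 0 0 (step_sound _ 66 [(rh79877ebd3ef475dd.shift 2 2), rhc37547785f3a6fed] (by decide +kernel))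
noncomputable def rhc50ddccbf5e8e3a2 : CRef := CRef.mk (Pat.mk 0xa000000020000000100000001000000010000000100000000000000000000000000000000000000000 0x80000000a0000000e0000000d0000007ff000007fe000007ff0000001800000018000000380000003800000028 11 11) 0 0 (step_sound _ 131 [rh158832cbdbdadb16, (rh79877ebd3ef475dd.shift 3 4)] (by decide +kernel))
noncomputable def rh433e05a89582881d : CRef := CRef.mk (Pat.mk 0x4000000040000000000000002000000030000000200000004000000000000000000000000000000000 0x40000000c00000008000000fee000007fe00000fbf0000006000000060000000700000007000000050 11 12) 0 0 (step_sound _ 133 [(rh55afc6a59410cf00.shift 5 3), rh99bc91b1ba07d589] (by decide +kernel))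
noncomputable def rh358acb7a33bade88 : CRef := CRef.mk (Pat.mk 0x800000008000000080000000800000000 0x50000000f0000001f000000ef0000007e000000f7 11 8) 0 0 (step_sound _ 130 [(rh50fbb5868c909700.shift 2 1), rh5c4d6cf63f012dff] (by decide +kernel))
noncomputable def rh77396f7e92937f73 : CRef := CRef.mk (Pat.mk 0x80000000e000000000000000000000000 0x7b0000003e000000770000003e0000003e 11 7) 0 0 (step_sound _ 100 [(rh06db8ceda6269a47.shift 0 2), (rh27ce058b59d72f64.shift 0 2), rh8210f0f6fce1013d, (rha93a5dd541ab8209.shift 1 2)] (by decide +kernel))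
noncomputable def rhfc86d696e8332dba : CRef := CRef.mk (Pat.mk 0x4000000070000000000000000000000000 0x30000000700000007000000f7f000007fe00000fb70000003000000030 11 12) 0 0 (step_sound _ 69 [(rh0d3a2396f8aa48c1.shift 0 2), (rh1c37a598ea221ac6.shift 1 0), (rh4821dcf828b9d7bf.shift 5 0), (rh9057b17c674e45b5.shift 2 0)] (by decide +kernel))
noncomputable def rhb7d23b6bb2da63f4 : CRef := CRef.mk (Pat.mk 0x80000000e000000000000000000000000 0x1fc000000fe000001f70000003e0000003f 11 9) 0 0 (step_sound _ 100 [rh003dbf716239235a, (rh27ce058b59d72f64.shift 0 2), (rh5e265b5b30f99924.shift 0 2), (rha93a5dd541ab8209.shift 1 2)] (by decide +kernel))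
noncomputable def rhc542987a64a5d44f : CRef := CRef.mk (Pat.mk 0xa0000000a0000000000000000000000000 0xc000001ff000000fe0000007f0000000e0000000e 11 9) 0 0 (step_sound _ 100 [rh03a6dd68f8b603b4, (rh9f2591205204f08d.shift 4 3), (rha3fd83893c3ef42f.shift 2 2), (rhb3f0701341c741cf.shift 2 2), (rhe33d9496e10d8eb0.shift 2 3)] (by decide +kernel))
noncomputable def rh8c3f52ee6afc6884 : CRef := CRef.mk (Pat.mk 0x8000000080000000000000005000000050000000000000000000000000 0x28000000b8000001f800000078000000580000007f0000003e0000003f00000028 11 9) 0 0 (step_sound _ 198 [(rh04253f50b6dd0619.shift 6 3), rhb9bc3cb53b09db52] (by decide +kernel))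
noncomputable def rhe3c4d3dbf74f9cd1 : CRef := CRef.mk (Pat.mk 0x80000002800000008000000000000000400000005000000000000000000000000000000000 0x800000038000000f8000002bf000003ff00000f7f000007ff00000fdf00000038000000380000003800000028 11 12) 0 0 (step_sound _ 164 [(rh04abb22aa9df78eb.shift 1 2), (rh1ea1ceb05ac4327d.shift 2 1), (rh2420647470b2a10b.shift 0 3), rh8f226da121d4059b, (rh9c9fbf6f36d0eecd.shift 1 1), (rhc595c752673fc9ce.shift 1 2), (rhdd1bb1708ee682dc.shift 1 4)] (by decide +kernel))
noncomputable def rhe709db64dfb240ae : CRef := CRef.mk (Pat.mk 0x200000000000000004000000050000000d00000000000000000000000000000000 0x200000006000000074000001ff000000ff000001f8000000780000007000000050 11 9) 0 0 (step_sound _ 129 [(rh2aac33c566332a8c.shift 0 3), rh388d9eeea0b8d60f, (rh625dde73e665edc8.shift 0 2), (rha93a5dd541ab8209.shift 0 3)] (by decide +kernel))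
noncomputable def rhab8346ab6d13ad8b : CRef := CRef.mk (Pat.mk 0x30000000000000001400000014000000000000000000000000 0xf0000007e0000000f000001de000000fc000001ee0000007c0000003c 11 9) 0 0 (step_sound _ 101 [(rh1f690bfcb5d80fa5.shift 1 0), rh8fa0347c122abf67, (rhd8be3b7ca6adb62f.shift 1 3), (rhefead1d90041f107.shift 0 1)] (by decide +kernel))
noncomputable def rh0c483166ce0fb6a0 : CRef := CRef.mk (Pat.mk 0x2000000030000000000000000000000000 0x1fe000001fe000000ff000000f0000000e0 11 9) 0 0 (step_sound _ 99 [(rh182142b62bccbf23.shift 0 2), (rh8522c6bc3a1a8270.shift 1 2), (rhb103f40a53fe1424.shift 0 2), (rhccb07e9a539b4f77.shift 2 0)] (by decide +kernel))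
noncomputable def rh1b449700a9a25f13 : CRef := CRef.mk (Pat.mk 0x180000000c000000000000000000000000 0x200000002000000030000001f000000ff000000fe0000007c0000003c 11 8) 0 0 (step_sound _ 97 [rh1becd9c1c8922bc5, (rh53b3c253cb0c65f4.shift 0 3)] (by decide +kernel))
noncomputable def rh957efb6b628e05e5 : CRef := CRef.mk (Pat.mk 0x80000001e000000000000000400000000 0x2000000020000003f0000001e000001fc000000fc000001f8 11 9) 0 0 (step_sound _ 132 [rh12cfc5c1d1f7a2bb, (rh33e738c4ed385b9f.shift 1 3)] (by decide +kernel))
noncomputable def rh4a8dc3eabba26fcb : CRef := CRef.mk (Pat.mk 0x3000000030000000000000000000000000 0x100000001000000010000000fe0000007e000000ff000000e8000000c8 11 8) 0 0 (step_sound _ 99 [(rh0568b7ab013f43a7.shift 0 2), (rh2b0b4f8fe0be8394.shift 1 2), (rh4f5e52f643002750.shift 2 0), (rh51fb37c6ec9ae4f5.shift 1 2), (rhd7c0a18f92b59752.shift 1 2)] (by decide +kernel))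
noncomputable def rh9e2ee6fdb2a9c647 : CRef := CRef.mk (Pat.mk 0x1000000018000000080000000000000000 0xc0000000c0000000f0000001f0000007f0000000f0000001f0000001c 11 7) 0 0 (step_sound _ 35 [(rh71222050f2c63a3a.shift 3 0), rh8b2327e41f3923fd] (by decide +kernel))
noncomputable def rh9e7775869c2f1937 : CRef := CRef.mk (Pat.mk 0x1000000018000000080000000000000000 0xc0000000c0000000f0000001f0000001b0000007f0000001f0000001c 11 7) 0 0 (step_sound _ 35 [(rh71222050f2c63a3a.shift 3 0), rhbc4ae26390a0998b] (by decide +kernel))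
noncomputable def rh2c4318a934d992d8 : CRef := CRef.mk (Pat.mk 0x2000000030000000000000000000000000 0x8000001ee000000fe000001ff000000f0000000f0 11 9) 0 0 (step_sound _ 99 [(rh0568b7ab013f43a7.shift 0 2), (rh7d3e89f35ceb20df.shift 2 0), (rh7e3346c07b3f20fa.shift 1 0), (rh8522c6bc3a1a8270.shift 1 2), (rhd7c0a18f92b59752.shift 1 2)] (by decide +kernel))
noncomputable def rh5440cb1be66fa9c9 : CRef := CRef.mk (Pat.mk 0x4000000040000000000000002000000030000000000000000000000000 0x5c000000fc0000019f000001fe000001bf000001fe000001fe0000003e 11 9) 0 0 (step_sound _ 132 [(rh499173a6d02e3ca5.shift 1 1), rha72e1e7398e25b5b, (rhb78e73a747c68254.shift 1 0), (rhe7aff87fd8558c86.shift 1 0), (rhf43a50e644e3c3d1.shift 1 0)] (by decide +kernel))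
noncomputable def rh0b6f11628f359e75 : CRef := CRef.mk (Pat.mk 0x80000000e000000000000000000000000 0x6000000060000000f0000003e0000007f0000003f00000015 11 7) 0 0 (step_sound _ 100 [(rh06db8ceda6269a47.shift 0 2), rh2395824d1086e2bc, (rhe401600d466b97cd.shift 0 2), rhf00299ead61314ab] (by decide +kernel))
noncomputable def rh2cae18b50cc6b4ea : CRef := CRef.mk (Pat.mk 0x400000004000000000000000200000003000000000000000000000000000000000 0x5c000001dc0000019f000001fe000001ff000003ee000001fe0000017e00000050 11 10) 0 0 (step_sound _ 164 [(rh18211f97f4a5cc52.shift 3 1), (rh1b9dae9b5f081ec1.shift 1 2), (rh6b2b97fe8a73c489.shift 1 0), (rh87088ccb81eb7b7e.shift 1 1), (rha65ec1b9ad5370f1.shift 3 1), (rha72e1e7398e25b5b.shift 0 1), rhfbc0e105e4c2c256] (by decide +kernel))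
noncomputable def rhefa3706499d9ca1a : CRef := CRef.mk (Pat.mk 0x180000000c000000000000000000000000 0x20000001f0000003f000000770000003e0000003e 11 7) 0 0 (step_sound _ 97 [rh49f80d1371159878, (rh53b3c253cb0c65f4.shift 0 3)] (by decide +kernel))
noncomputable def rh2a031268466da54a : CRef := CRef.mk (Pat.mk 0x4000000040000000200000002000000060000000200000000000000000 0x40000000d0000000b0000003ae000003fe000003ff000000e000000040 11 10) 0 0 (step_sound _ 164 [(rh50fbb5868c909700.shift 4 2), rhdd140394a17b6d65] (by decide +kernel))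
noncomputable def rh9b09a3fbcf7487bc : CRef := CRef.mk (Pat.mk 0x40000000400000002000000020000000700000000000000000000000000000000000000000 0x40000000c0000000a0000007ee000003fe000003b7000007f0000003f0000007f800000010 11 11) 0 0 (step_sound _ 167 [(rh35e918dd76851f8c.shift 4 4), (rh5744ed557bb5a452.shift 2 5), rhc71533204a192d0a, (rhe755d80139a0ae3f.shift 2 4), (rhf5fa5e48e0784de2.shift 4 4)] (by decide +kernel))
noncomputable def rh389257c924849b13 : CRef := CRef.mk (Pat.mk 0x80000000800000000000000040000000e0000000000000000000000000000000000000000 0x80000001800000010000001fc000000fe000001f70000003e0000003f0000003800000028 11 9) 0 0 (step_sound _ 164 [(rh06db8ceda6269a47.shift 0 4), (rh35e918dd76851f8c.shift 1 4), rh4944a74c9f282861, (rhf5fa5e48e0784de2.shift 1 4), (rhf851e74ccbe43c43.shift 0 4)] (by decide +kernel))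
noncomputable def rh7fc8af98a0ca76c9 : CRef := CRef.mk (Pat.mk 0x2000000020000000000000001000000010000000000000000000000000 0x20000000380000001800000018000003be000001fe000001ff00000028 11 10) 0 0 (step_sound _ 164 [(rh1006c02ae4212ff0.shift 4 3), rh5eb8a8fb77553cbf] (by decide +kernel))
noncomputable def rh23d4f0ae34a54300 : CRef := CRef.mk (Pat.mk 0x200000002000000020000000000000000000000000 0x140000003c0000007c0000006f0000007e0000007f00000050 11 7) 0 0 (step_sound _ 69 [(rh8cdd36b03d57a2f6.shift 4 0), (rh8ff3dde5b1c639e0.shift 4 0), (rhb360c557f5114831.shift 0 1), (rhc4526fc8abf298b6.shift 4 0)] (by decide +kernel))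
noncomputable def rh4437a319ca023735 : CRef := CRef.mk (Pat.mk 0x1000000050000000100000001800000000 0x280000007c0000005e000000de000000fe000001e7 11 9) 0 0 (step_sound _ 37 [(rh55afc6a59410cf00.shift 4 0), rhe739ab1fff2cbc1b] (by decide +kernel))
noncomputable def rh9f8798f7e83e9195 : CRef := CRef.mk (Pat.mk 0x2000000020000000200000002000000000 0x50000000f00000003c0000007f000001fe0000005f 11 9) 0 0 (step_sound _ 132 [(rh50fbb5868c909700.shift 4 1), rhb08e1737974fa2a5] (by decide +kernel))
noncomputable def rhd07ab6f5a65c1e60 : CRef := CRef.mk (Pat.mk 0x2000000020000000200000000000000000000000000000000000000000 0x500000007000000030000001ff000001fe0000007f000000700000007000000050 11 9) 0 0 (step_sound _ 133 [(rh8cdd36b03d57a2f6.shift 4 2), (rh8ff3dde5b1c639e0.shift 4 2), (rhac896e42bf3e13c0.shift 4 0), (rhc4526fc8abf298b6.shift 4 2), (rhfb226c3bf8f57fe1.shift 0 3)] (by decide +kernel))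
noncomputable def rh0933f4dc9f109b34 : CRef := CRef.mk (Pat.mk 0x2000000020000000200000000000000000000000000000000000000000 0x50000000f00000003c000000ff0000007e0000007f000000700000007000000050 11 8) 0 0 (step_sound _ 133 [(rh5ee4dc8825dcefa0.shift 2 3), (rh8cdd36b03d57a2f6.shift 4 2), (rhac896e42bf3e13c0.shift 4 0), (rhc4526fc8abf298b6.shift 4 2), (rhd978966a311075c3.shift 0 3)] (by decide +kernel))
noncomputable def rh0e2f4d2a34cb87f9 : CRef := CRef.mk (Pat.mk 0x800000028000000080000000000000000000000000000000000000000 0x140000003c0000002f000001ff000000fe000000fc0000001c0000001c00000014 11 9) 0 0 (step_sound _ 131 [(rh5ee4dc8825dcefa0.shift 0 3), (rh88e20a16de8ce751.shift 0 3), (rh8cdd36b03d57a2f6.shift 2 2), (rhac896e42bf3e13c0.shift 2 0), (rhc4526fc8abf298b6.shift 2 2)] (by decide +kernel))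
noncomputable def rh7f164a2b269111ff : CRef := CRef.mk (Pat.mk 0x60000000a0000000200000002000000000 0x190000001f0000000bc000001ef000001fe0000005f 11 9) 0 0 (step_sound _ 132 [(rh50fbb5868c909700.shift 4 1), rhb084f8aa6234ae80] (by decide +kernel))
noncomputable def rh6949bc4efdb15e62 : CRef := CRef.mk (Pat.mk 0x7000000050000000100000001000000000 0xcf0000007e0000005e000000f8000000f0000000a0 11 8) 0 0 (step_sound _ 131 [rh435ff51a4fd9b951, (rh50fbb5868c909700.shift 3 1)] (by decide +kernel))
noncomputable def rh98b25c9219fde970 : CRef := CRef.mk (Pat.mk 0xf000000020000000200000002000000000 0xe000000fc0000003c0000006f0000003e00000017 11 8) 0 0 (step_sound _ 99 [(rh80fcd6d0a18cb2dd.shift 3 3), rhe513529015528aed] (by decide +kernel))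
noncomputable def rh7990689b13dfeec0 : CRef := CRef.mk (Pat.mk 0x20000000a0000000a00000002000000000000000000000000 0xc0000001e0000000b0000001b0000001e0000001f0000001700000001 11 5) 0 0 (step_sound _ 66 [rh7bb9993c0433f71f, (rhd3458b32566d63f7.shift 1 2)] (by decide +kernel))
noncomputable def rh9520bf2462544557 : CRef := CRef.mk (Pat.mk 0x20000000a000000020000000200000000000000000 0x140000001c0000003c0000001e4000000bc000001ff000001fe0000019f00000108 11 10) 0 0 (step_sound _ 103 [(rh50d4d0fd838213a3.shift 2 1), (rh5182aee9a587141e.shift 2 1), rh9f1701def216b9b1, rhaa5add4b8c4ed3ce, (rhc8fd50c44a2112a0.shift 2 1)] (by decide +kernel))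
noncomputable def rh708a019b24deff3b : CRef := CRef.mk (Pat.mk 0x38000000b000000020000000100000000000000000 0x1c0000001fe000000b4000001ff000001fe0000012f00000008 11 9) 0 0 (step_sound _ 69 [rh2d4daba923805a72, (rh7b1f1fb55310c477.shift 4 1)] (by decide +kernel))
noncomputable def rh46ca149f01aa2fd0 : CRef := CRef.mk (Pat.mk 0x8000000680000004000000000000000000000000000000000 0x40000001c0000001c0000001c0000000c0000006f0000007f0000001f0000001f0000001c00000014 11 7) 0 0 (step_sound _ 131 [(rh0640759f80205b45.shift 2 2), (rh0c18d6252874a767.shift 0 1), (rh0f7085aba15a7e85.shift 2 1), (rh1ddb7ed2ca8fdb13.shift 2 3), (rh43b5b6213fbf2db3.shift 2 2), (rh44ec5e4264b63946.shift 2 0), (rh5b07087ef1733ff9.shift 2 1), (rhcbc0e6b0de5b1155.shift 2 2)] (by decide +kernel))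
noncomputable def rh638b92365685ccb3 : CRef := CRef.mk (Pat.mk 0x30000000b000000020000000000000000000000000 0x100000001c0000001f0000001d0000001f7000000be000001f7000007c00000010000000100 11 11) 0 0 (step_sound _ 131 [(rh3918eeb6c53434d8.shift 0 3), (rh9b8e2115fd2ecb2d.shift 3 0), (rhb12ffaec36122c99.shift 0 3), (rhcf86d050071af9b3.shift 2 3)] (by decide +kernel))
noncomputable def rh7deee1b2811ee1f2 : CRef := CRef.mk (Pat.mk 0x18000000180000001000000000 0xe0000000f0000001f0000001f000000ff000000ef 11 8) 0 0 (step_sound _ 131 [(rh2145e1d24b96a57e.shift 3 1), rh40acab898769b3ec] (by decide +kernel))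
noncomputable def rhdf719ef8fdb1520c : CRef := CRef.mk (Pat.mk 0x20000000a400000020000000200000000000000000 0x40000000e4000000ac000007ff000003fe0000039f00000008 11 11) 0 0 (step_sound _ 68 [rh51ea7fbbdcb50eb1, (rh932754581e0f4330.shift 4 1)] (by decide +kernel))
noncomputable def rh2361121e80430ac0 : CRef := CRef.mk (Pat.mk 0x30000000a4000000200000000000000000 0xa0000001e000000be000000ac000007ff000003fe0000039f 11 11) 0 0 (step_sound _ 37 [rh029e38fb8d4e2910, (rh50fbb5868c909700.shift 4 1)] (by decide +kernel))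
noncomputable def rhbbc2cb1a3b477f78 : CRef := CRef.mk (Pat.mk 0x30000000a0000000200000000000000000000000000000000000000000 0x400000004000000fcf000007fe00000ebf000001f8000000be00000078000000700000007000000010 11 12) 0 0 (step_sound _ 230 [(rh143ea9a065a4adfe.shift 2 4), (rh59fbdd892b1db516.shift 0 3), (rh6ae1d99a9b0058f4.shift 3 4), (rhcb32b102917df4ae.shift 0 6), (rhdd1bc65c518f605d.shift 4 0)] (by decide +kernel))
noncomputable def rh2c162ad1fcec67ba : CRef := CRef.mk (Pat.mk 0x1800000058000000180000000000000000 0x80000000e0000000f8000000e8000000f80000005f000000f8000000c800000088 11 8) 0 0 (step_sound _ 3 [rh6368e9c8c8c513cf, (rh9e3edb185cc347de.shift 3 0)] (by decide +kernel))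
noncomputable def rhfbb9bf47bfd7883c : CRef := CRef.mk (Pat.mk 0x3800000020000000200000002000000000 0x470000007e0000002e000000740000003e00000017 11 7) 0 0 (step_sound _ 134 [(rh2f68792b6b779e96.shift 5 1), rhdaf6355d9c020623] (by decide +kernel))
noncomputable def rh6c41fb8af37aaab4 : CRef := CRef.mk (Pat.mk 0xc00000002000000020000000a000000020000000000000000 0x280000007800000078000001fe000000fe000001fa0000003f0000002a0000000f0000000d00000004 11 9) 0 0 (step_sound _ 131 [rh06deabaf25687eea, (rh4064d24356ef2355.shift 1 3), (rh5170608212d8a888.shift 0 2), (rh5d6a3513a46fb902.shift 1 3)] (by decide +kernel))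
noncomputable def rhb586dc13dfa7cac9 : CRef := CRef.mk (Pat.mk 0xc00000002000000020000000a0000000200000000000000000 0x280000003800000038000000f00000007f000000fbe000003f7000000a0000001f00000019000000100 11 12) 0 0 (step_sound _ 164 [(rh50fbb5868c909700.shift 4 2), rh9815507981c17cb2] (by decide +kernel))
noncomputable def rh0ebb61cef75308c5 : CRef := CRef.mk (Pat.mk 0xe0000000800000020000000000000001800000000000000000000000000000000 0x50000000780000006e0000007c00000020000003e7000001fe000003ff000000e0000000e0000000a0 11 10) 0 0 (step_sound _ 229 [(rh68691964b29f233d.shift 1 7), (rhad3f1265f0b6ec22.shift 0 3), rhe779a928e8cbb429] (by decide +kernel))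
noncomputable def rh97d669263af4622c : CRef := CRef.mk (Pat.mk 0x2000000020000000200000001000000000000000000000000000000000000000000000000000000000 0x2000000020000000300000003800000038000000ff000000fe0000003f000000380000003000000020 11 8) 0 0 (step_sound _ 196 [rh890aea2987e189cc, (rheea67dfebd0f8008.shift 4 6)] (by decide +kernel))
noncomputable def rh611d3b96aeaafdc3 : CRef := CRef.mk (Pat.mk 0xc000000040000001400000000 0x140000007c0000007e0000007e000000fc0000007f0000007e0000001400000010 11 8) 0 0 (step_sound _ 131 [(rh31486d13027978a4.shift 1 0), (rhbfb5770941270498.shift 2 1), rhfe79dc477dd9ca37] (by decide +kernel))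
noncomputable def rhe2fd9ea28ba61dc7 : CRef := CRef.mk (Pat.mk 0x300000001800000040000000000000003000000000000000000000000000000000 0x7000000ff000000f800000040000007ce000003fc000007fe000001c0000001c000000140 11 11) 0 0 (step_sound _ 262 [(rh18965a982d73c794.shift 3 7), rha2b484eafc1812db] (by decide +kernel))
noncomputable def rhd5fe6bd315059527 : CRef := CRef.mk (Pat.mk 0x300000001800000040000000000000003000000000000000000000000000000000 0x3e0000007e00000046000007ce000003fe000007ff000001e0000001e000000140 11 11) 0 0 (step_sound _ 226 [rh4ee31766857c27c0, (rh53b3c253cb0c65f4.shift 1 7)] (by decide +kernel))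
noncomputable def rh7f48aad01df7297f : CRef := CRef.mk (Pat.mk 0x2000000020000000000000006000000000000000000000000000000000 0x2c0000002c0000073f000003fe000007ff0000001e0000001e00000008 11 11) 0 0 (step_sound _ 132 [(rh27b625191f3c3dfa.shift 1 3), rh2a52a0486417ca83, (rh6af0d2fe1336a515.shift 3 3), (rh72b7cc29ba0bd614.shift 1 3), (rhbf726fa7097229f2.shift 4 3)] (by decide +kernel))
noncomputable def rh44a062528bc4dc83 : CRef := CRef.mk (Pat.mk 0x6000000000000000a0000000a 0x7000000070000000ff0000007e000000fa0000003a0000000a 11 8) 0 0 (step_sound _ 130 [(rh04253f50b6dd0619.shift 1 0), rhef60534b6719e8e0] (by decide +kernel))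
noncomputable def rh74941c9bbb8b0c8f : CRef := CRef.mk (Pat.mk 0x280000000800000008 0x140000001c0000001c000001ff000001f8000001dc00000008 11 9) 0 0 (step_sound _ 99 [(rh1741680720c097b4.shift 2 0), (rh1b6e3cb69134ac96.shift 2 0), (rhc18964af595cbd54.shift 2 0), (rhc46dd1b6ef9e4434.shift 2 0), rhd5d193521cc593a5] (by decide +kernel))
noncomputable def rh23e79447c2342a21 : CRef := CRef.mk (Pat.mk 0x100000001000000010 0x28000000380000003c0000003c0000003f000007ff000003ff000007be00000010 11 11) 0 0 (step_sound _ 100 [(rh6f43a1101239fdb7.shift 2 0), rh7a490efa1b2b6edb, rh9be3086ce756a8af, (rhabc4fdd3ca196050.shift 1 0), (rhc85cc95794737cf7.shift 3 0), rhfa862b70e4f5584e] (by decide +kernel))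
noncomputable def rh7d529487f048e169 : CRef := CRef.mk (Pat.mk 0x2000000020000000a000000020 0x29000000390000003980000075e000003fe000007ff000000ac0000002c 11 11) 0 0 (step_sound _ 102 [(rh2f68792b6b779e96.shift 5 0), rh9674654af54d3f25] (by decide +kernel))
noncomputable def rhd616bce9758c8d2d : CRef := CRef.mk (Pat.mk 0x4000000700000005800000000000000000000000000000000 0xc0000009c000007fe000003fe000003f7000000760000005e000000ec000000e8000000e8000000a0 11 11) 0 0 (step_sound _ 229 [(rh51253b080de2abf7.shift 1 1), (rh8412121993ed6f13.shift 2 4), (rh8e43837e62180d94.shift 1 0), (rhd302a01a4e6865cd.shift 4 2), (rhf74701180b06049e.shift 0 3)] (by decide +kernel))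
noncomputable def rha2e51ec404bb3d2a : CRef := CRef.mk (Pat.mk 0x400000006000000000000000800000008 0x20000000380000003800000038000000ff0000007e000000780000000800000008 11 8) 0 0 (step_sound _ 99 [(rh1132d8b56af68491.shift 0 2), (rh2613c889e411427e.shift 2 0)] (by decide +kernel))
noncomputable def rh59c3d3788b18e424 : CRef := CRef.mk (Pat.mk 0x2000000180000002c000000000000000000000000 0x740000007c000001ff000000780000002c000000740000007000000050 11 9) 0 0 (step_sound _ 163 [(rh049186d5bdf38804.shift 2 0), (rh9ebd639649ea671c.shift 0 4), (rh9ff0bceb6239a573.shift 0 2)] (by decide +kernel))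
noncomputable def rh4be388f13b9a37da : CRef := CRef.mk (Pat.mk 0x4000000700000005c00000000000000000000000000000000 0xa0000002e0000003e0000006e000000760000005c0000004f0000004e0000000e0000000a 11 7) 0 0 (step_sound _ 162 [(rh3e2c9a93a47040f2.shift 0 1), (rh4aa15bc5094b97b2.shift 1 0), (rh70e33bfdf511e144.shift 2 1), (rhfb9fb48a5e63ed80.shift 1 3)] (by decide +kernel))
noncomputable def rh6149fb8e7f0fb0be : CRef := CRef.mk (Pat.mk 0x40000003800000010000000000000000000000000 0x2c0000002c0000006e0000003f0000001e0000000f0000000e00000006 11 7) 0 0 (step_sound _ 130 [(rh3244c3cc8379b070.shift 1 4), rhd46662f6f988ea2b] (by decide +kernel))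
noncomputable def rh36fcd40e079a031f : CRef := CRef.mk (Pat.mk 0x3000000060000000400000000000000000 0x1f0000001fe0000007f0000003e0000003f 11 9) 0 0 (step_sound _ 103 [rh36aadf6c87555f52, (rhf48373e13d2bc128.shift 4 3)] (by decide +kernel))
noncomputable def rh1d9592c00add0c94 : CRef := CRef.mk (Pat.mk 0x80000001e000000180000001000000000000000000000000000000000 0x380000001e0000001f0000001f0000000f000000070000000700000005 11 6) 0 0 (step_sound _ 228 [(rh33e738c4ed385b9f.shift 1 6), rh3ef0a8662cfaa116] (by decide +kernel))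
noncomputable def rh44c28824b7fa1b1f : CRef := CRef.mk (Pat.mk 0x18000000300000002000000000 0x20000000a0000001f0000007f0000007e000000360000003e0000001c 11 7) 0 0 (step_sound _ 132 [(rh2145e1d24b96a57e.shift 4 1), rh64f7c40e88d7b4a2] (by decide +kernel))
noncomputable def rh35006aa2de7f2a17 : CRef := CRef.mk (Pat.mk 0x18000000200000002000000000000000000 0x40000000700000007000000170000007ff000007fe000007ff000002700000007000000010 11 11) 0 0 (step_sound _ 134 [(rh3b475951de9e34d0.shift 5 3), (rh6f9f6dd84423ca40.shift 5 2), (rh943cbf2d38755a25.shift 3 3), rha6ede2d0b70335ef, (rhba6078b1c1e7a3b0.shift 4 0), (rhd075e3c6627e2d89.shift 3 2)] (by decide +kernel))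
noncomputable def rh187af8ed07e6ea0e : CRef := CRef.mk (Pat.mk 0x1800000020000000000000000000000000 0x40000000700000007000000030000006f0000007e000000ff000000070000000700000001 11 8) 0 0 (step_sound _ 130 [(rh3b475951de9e34d0.shift 1 3), (rh6aa0ed61cce1493b.shift 1 3), rhba6078b1c1e7a3b0] (by decide +kernel))
noncomputable def rha7e3a33eef1c6933 : CRef := CRef.mk (Pat.mk 0xe0000001800000010000000000000000000000000 0x2400000024000000770000003e0000001f0000001f0000000f0000000700000005 11 7) 0 0 (step_sound _ 164 [(rh47c07cd0cc865f65.shift 0 4), (rhb4abaed4bcb3a58d.shift 0 2), (rhb5015606df5d2f13.shift 0 2), rhb8741a49740fd3f2, (rhe75cb24bf19af6cd.shift 0 4), (rhe9878a50aac0bd7a.shift 0 3)] (by decide +kernel))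
noncomputable def rh50c6a6fc0d1d5a87 : CRef := CRef.mk (Pat.mk 0x180000003000000020000000000000000000000000 0xc0000000c0000001c0000001e0000003f0000003f0000001e0000001c0000001c 11 6) 0 0 (step_sound _ 162 [rh1d6f3f513727ea4e, (rhb739f4f82bb681b4.shift 1 4)] (by decide +kernel))
noncomputable def rhd31043713001c064 : CRef := CRef.mk (Pat.mk 0x3000000038000000600000000000000000 0x1c0000003c0000000f000003bc000003f80000007c0000003000000030 11 10) 0 0 (step_sound _ 37 [rh2357a60e200ecf7c, (rh7b1f1fb55310c477.shift 4 0)] (by decide +kernel))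
noncomputable def rh1caaad6ce425dc73 : CRef := CRef.mk (Pat.mk 0xc000000180000001000000000000000000000000000000000 0xc0000000c0000000c0000001f0000001f0000000f000000070000000700000005 11 5) 0 0 (step_sound _ 227 [(rh2145e1d24b96a57e.shift 3 4), rhcd6795005cc1ab33] (by decide +kernel))
noncomputable def rh935fd30835b3bba6 : CRef := CRef.mk (Pat.mk 0x30000000400000014000000000 0x800000088000007ae000003ff000003fe000003d70000016000000020 11 11) 0 0 (step_sound _ 102 [(rh27af6f54746783b2.shift 1 0), (rh8ee80cc30e93a344.shift 3 2), (rh8f608fc770a6e29a.shift 0 2), (rh9311bff356bd1036.shift 3 1)] (by decide +kernel))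
noncomputable def rhed0914a24a0a359e : CRef := CRef.mk (Pat.mk 0x1800000020000000200000000000000000 0x40000000700000007000000230000006f0000007e000000ff000000370000001700000001 11 8) 0 0 (step_sound _ 130 [(rh2a93610f372db098.shift 1 1), (rh3b475951de9e34d0.shift 1 3), (rh6aa0ed61cce1493b.shift 1 3), rhba6078b1c1e7a3b0] (by decide +kernel))
noncomputable def rh959fde5659479733 : CRef := CRef.mk (Pat.mk 0x80000000e000000180000001000000000000000000000000000000000 0x1f00000007c0000001e0000001f0000001f00000007000000070000000700000005 11 9) 0 0 (step_sound _ 228 [rh49557b51edcbd48a, (rh80f90a60d87caa0d.shift 1 6), (rha44bc9217eccd07b.shift 2 4)] (by decide +kernel))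
noncomputable def rhb5348b790af8ecaa : CRef := CRef.mk (Pat.mk 0xc0000001000000010000000000000000000000000 0x180000007c0000000f0000007f0000001f0000000f0000000e0000000c 11 7) 0 0 (step_sound _ 131 [rh22476bf79ebdea3a, rh8ac3378f002a1e73, rhb5e6eed5d8ab6ad3, (rhdeca8db941583de2.shift 0 4)] (by decide +kernel))
noncomputable def rh352a448f430383c5 : CRef := CRef.mk (Pat.mk 0x10000000c000000040000000000000000000000000 0x20000000240000007f0000007e000000ff000000780000003e0000003800000028 11 8) 0 0 (step_sound _ 163 [(rh21bcb7ba4f990780.shift 1 0), (rh6bcc182d0153c7e8.shift 0 2), (rh79c9bc473f84654d.shift 0 4), (rha7b253017a5af1e0.shift 2 4)] (by decide +kernel))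
noncomputable def rhde1c18c5c9aae1f2 : CRef := CRef.mk (Pat.mk 0x4000000058000000c000000040000000000000000000000000 0x140000001f0000005f0000005f000000de0000007c0000002c0000000c00000004 11 8) 0 0 (step_sound _ 99 [rh3ea1c0887c27d2d2, (rh669c503fc29231eb.shift 3 2)] (by decide +kernel))
noncomputable def rh28bff7b6be55e30a : CRef := CRef.mk (Pat.mk 0x10000001c000000150000000000000000000000000 0x28000002fc000003f8000003fe000001df00000150000003980000039800000288 11 10) 0 0 (step_sound _ 165 [(rh181bfa7f292ff3dd.shift 4 1), (rh6dc94e3a792c516b.shift 2 0), rh96506dac5eafec0d] (by decide +kernel))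
noncomputable def rh2f4746b110d15356 : CRef := CRef.mk (Pat.mk 0x2000000004000000700000005800000000000000000000000000000000 0xa0000000e0000000e0000003df000001fe000003f6000000740000005e000000ec000000e8000000e8000000a0 11 10) 0 0 (step_sound _ 130 [rh47cc06ebf6897b88, (rh53b3c253cb0c65f4.shift 1 4)] (by decide +kernel))
noncomputable def rh0454ad42fc01a8a3 : CRef := CRef.mk (Pat.mk 0x10000000020000001800000008 0x300000007000000070000000ff000000ff000000fb0000001800000008 11 8) 0 0 (step_sound _ 132 [rh1bb5205a2a1c75df, (rh3c88ce959c0e423f.shift 3 0)] (by decide +kernel))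
noncomputable def rh15b0415cbfd99251 : CRef := CRef.mk (Pat.mk 0x10000000c000000040000000000000000000000000 0x28000000b8000000fe000000fe000000f8000000fe000000ff00000078000000380000003800000028 11 8) 0 0 (step_sound _ 163 [(rh0b268ac557ac499f.shift 1 2), (rh0ea0561bec56852c.shift 0 4), (rh1275da058e9689dc.shift 3 2), (rh1a0e0b75332b9954.shift 3 0), (rh2209827622e7bd67.shift 2 4), (rhed0f2ce52a826fa7.shift 1 2)] (by decide +kernel))
noncomputable def rhabaaa3b0d0691a67 : CRef := CRef.mk (Pat.mk 0x1000000002000000180000000c00000000 0x2000000070000003f0000001f0000001b0000001b0000000f00000006 11 6) 0 0 (step_sound _ 164 [(rh3c88ce959c0e423f.shift 3 1), rh89d1b7c2a78088c6] (by decide +kernel))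
noncomputable def rh498c0596d4b03133 : CRef := CRef.mk (Pat.mk 0x2000000004000000700000005800000000000000000000000000000000 0x80000003df000001fe000003f6000000740000005e000000ec000000e8000000e8000000a0 11 10) 0 0 (step_sound _ 130 [rh3839b40e6920040f, (rh53b3c253cb0c65f4.shift 1 4)] (by decide +kernel))
noncomputable def rh4bfcd71c70a0cbcb : CRef := CRef.mk (Pat.mk 0x40000003000000018000000000000000000000000 0x2a000001ff000000fe000001de000000f60000001e0000000f0000000e0000000a 11 9) 0 0 (step_sound _ 98 [rh4c4562338ca8444a, (rh53b3c253cb0c65f4.shift 1 3)] (by decide +kernel))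
noncomputable def rh50ba04c063c4ee34 : CRef := CRef.mk (Pat.mk 0x88000000e0000000b0000000000000000000000000 0x80000001e0000005e000000ff000000fc000000ee000000be000001ce000001ce0000014a 11 9) 0 0 (step_sound _ 164 [(rh5013872860cb36fd.shift 2 4), (rh512f4e9450c7c26c.shift 2 0), rhfe316b63c4adce0e] (by decide +kernel))
noncomputable def rh8733add55b232f62 : CRef := CRef.mk (Pat.mk 0x22000000380000002c00000000 0x80000003fc000001fc000003fe000000fe0000003a0000002f00000002 11 10) 0 0 (step_sound _ 100 [(rh12097de59e7578ec.shift 1 1), (rh3c06965d32928d6c.shift 1 1), rh6101ed8a4c02a8c6, (rhafc7c63f645c0f46.shift 2 1)] (by decide +kernel))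
noncomputable def rhda028968e863da82 : CRef := CRef.mk (Pat.mk 0x88000000e0000000b0000000000000000000000000 0x80000015e000001de000001ff000001bc000000ee000000be000001ce000001ce0000014a 11 9) 0 0 (step_sound _ 164 [(rh9792dbfa0e9248ed.shift 2 0), (rhcb73ea1a13188283.shift 2 0), rhfe316b63c4adce0e] (by decide +kernel))
noncomputable def rh0bab4fedb556a8b7 : CRef := CRef.mk (Pat.mk 0x4000000700000005c00000000000000000000000000000000 0xa0000002e0000003e0000006e000000760000005c0000004f0000004e0000000e0000000a 11 7) 0 0 (step_sound _ 162 [(rh3e2c9a93a47040f2.shift 0 1), (rh4aa15bc5094b97b2.shift 1 0), (rh70e33bfdf511e144.shift 2 1), (rhc0f6fe06378683f4.shift 1 3)] (by decide +kernel))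
noncomputable def rhdf2bd3a1f45832e1 : CRef := CRef.mk (Pat.mk 0x8000000600000002000000000000000000 0x178000005f8000007f8000007fc000007ff000007fe000007ff000003fc0000017000000070 11 11) 0 0 (step_sound _ 134 [(rh0b268ac557ac499f.shift 4 1), (rh1275da058e9689dc.shift 6 1), (rh2209827622e7bd67.shift 5 3), rh5bcb3e81f56ac84b, (rh79c9bc473f84654d.shift 3 3), (rhed0f2ce52a826fa7.shift 4 1)] (by decide +kernel))
noncomputable def rh3abdd7875ed8a6c2 : CRef := CRef.mk (Pat.mk 0x40000003000000000000000000 0x8000000380000003800000038000001ff000003fe00000fff0000003000000030 11 12) 0 0 (step_sound _ 103 [(rh368dc3085932390d.shift 6 2), rh7e13eb0300b6126a, (rh95f73988d2dec2c0.shift 4 2), (rha4f1ec0b96ae2c07.shift 2 0)] (by decide +kernel))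
noncomputable def rhd326063091cbc9c9 : CRef := CRef.mk (Pat.mk 0x2000000180000000c0000000000000000000000000 0x5000000070000000fe000000fe000001b7000000f0000000780000007000000050 11 9) 0 0 (step_sound _ 101 [(rh53b3c253cb0c65f4.shift 4 3), rhc021ef37e3fa8485] (by decide +kernel))
noncomputable def rhb426c44ec8f0aeea : CRef := CRef.mk (Pat.mk 0x2000000380000002a0000000000000000000000000 0x50000005f800000ffe00000ffe000003b7000002a0000007300000073000000510 11 12) 0 0 (step_sound _ 166 [(rh181bfa7f292ff3dd.shift 5 1), (rh5013872860cb36fd.shift 4 4), (rh6dc94e3a792c516b.shift 3 0), rh74f72540e2b27a92, (rhbe2f3d4c917ee168.shift 4 3)] (by decide +kernel))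
noncomputable def rhfc148680bd267e06 : CRef := CRef.mk (Pat.mk 0x90000001c000000160000000000000000 0xfc0000007e000000f60000007f0000001c000000160000001200000010 11 8) 0 0 (step_sound _ 130 [(rhab22b5b56e7b3243.shift 0 3), (rhea4c3f09008d14a6.shift 1 0)] (by decide +kernel))
noncomputable def rh54ccec8a5c99234e : CRef := CRef.mk (Pat.mk 0x2000000380000002e000000000000000000000000000000000 0x8000000180000017e000001fe0000037f000003b0000002e000000278000002700000007000000050 11 10) 0 0 (step_sound _ 165 [(rh3e2c9a93a47040f2.shift 3 1), (rh4aa15bc5094b97b2.shift 4 0), (rh70e33bfdf511e144.shift 5 1), (rha04705618d08036c.shift 0 3), (rhdee67538b8dccf39.shift 4 1)] (by decide +kernel))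
noncomputable def rhb4c414c8fa5c6e98 : CRef := CRef.mk (Pat.mk 0x80000000b000000180000000800000000000000000000000000000000000000000 0x100000001e0000001f0000000ef000000be000001bf000000fc0000007800000038000000380000003800000028 11 9) 0 0 (step_sound _ 294 [rh45bd691269d4052f, (rhffd04209dc8ea796.shift 6 5)] (by decide +kernel))
noncomputable def rh7e0184f941926d84 : CRef := CRef.mk (Pat.mk 0x3000000020000000a00000002000000000 0x640000006c0000006e0000003e0000003e000000ef0000007c0000006c 11 8) 0 0 (step_sound _ 38 [rh31fa3d2a610982a6, (rh55afc6a59410cf00.shift 5 0)] (by decide +kernel))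
noncomputable def rh923d5859f164a209 : CRef := CRef.mk (Pat.mk 0xb000000060000000400000000000000000 0x1b0000001f00000007f0000003e0000003f 11 9) 0 0 (step_sound _ 103 [rhe6d359e2cf42f1ea, (rhf48373e13d2bc128.shift 4 3)] (by decide +kernel))
noncomputable def rh6f3330c2d3607043 : CRef := CRef.mk (Pat.mk 0x18000000d000000040000000000000000000000000 0x18000000380000003e000000fe00000078000000df0000007f0000001c0000001800000008 11 8) 0 0 (step_sound _ 165 [rh2ae194a1339499d3, (rhd6e447e81774439e.shift 3 4)] (by decide +kernel))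
noncomputable def rh3e5309b810691903 : CRef := CRef.mk (Pat.mk 0x18000000d000000000000000000000000000000000 0x18000000380000003e000000fe00000078000000df0000001f0000003c0000003800000028 11 8) 0 0 (step_sound _ 165 [rh4bba932587906b92, (rhd6e447e81774439e.shift 3 4)] (by decide +kernel))
noncomputable def rhcf643bcefdef9265 : CRef := CRef.mk (Pat.mk 0x180000002000000020000000000000000000000000 0x40000003e0000003f0000007e000000fe00000038000000180000001800000018 11 8) 0 0 (step_sound _ 132 [(rh4ca5dae25f5c14ff.shift 1 4), rh542231675bda9a32, rhaf426c1cfa3c862a, (rhdeca8db941583de2.shift 1 4)] (by decide +kernel))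
noncomputable def rh4642e55c8a35b842 : CRef := CRef.mk (Pat.mk 0xe000000080000000800000000 0x300000007000000070000000f0000007e0000007f0000000e00000006 11 7) 0 0 (step_sound _ 100 [(rh300eedc557b86950.shift 1 2), (rh3947d1dfff0afc6c.shift 0 2), rh4f417a11c3e94663, rh8dd15d90dea76e55] (by decide +kernel))
noncomputable def rhd87cd513c6546a55 : CRef := CRef.mk (Pat.mk 0x80000001e0000001a000000000000000000000000 0x500000037000000370000003b0000001e0000001e000000070000000700000007 11 6) 0 0 (step_sound _ 164 [rh18a5432e60e7d5f6, (rh33e738c4ed385b9f.shift 1 4)] (by decide +kernel))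
noncomputable def rh9de7b4a9dc2d183d : CRef := CRef.mk (Pat.mk 0xc000000180000001000000000000000000000000000000000 0x14000000370000001f0000001f0000001f0000000f000000070000000700000005 11 6) 0 0 (step_sound _ 193 [rh27989d9796bb9c38, (rhb739f4f82bb681b4.shift 0 5)] (by decide +kernel))
noncomputable def rh0999fd9073ed7b49 : CRef := CRef.mk (Pat.mk 0x1000000018000000300000000000000000 0xe0000000e0000002f000000ff0000001f000000360000001600000016 11 8) 0 0 (step_sound _ 131 [(rh0a444d2316a5537b.shift 1 0), rhb6cb25ad6814cc09, (rhfc7c29d8e65d775f.shift 3 1)] (by decide +kernel))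
noncomputable def rh788749dc394bbd71 : CRef := CRef.mk (Pat.mk 0x3000000018000000000000000000000000 0x6000000078000000fc000000ff000000ff000000180000000c0000000c0000000c 11 8) 0 0 (step_sound _ 134 [(rh18965a982d73c794.shift 3 3), rh4d2d030bc44820ac] (by decide +kernel))
noncomputable def rh0f68a5106cba5ad5 : CRef := CRef.mk (Pat.mk 0x180000001c000000100000001000000000000000000000000000000000 0x10000000180000001c0000001f0000001f0000000f000000070000000700000005 11 5) 0 0 (step_sound _ 131 [(rh932754581e0f4330.shift 3 3), rha080ca1f13127e31] (by decide +kernel))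
noncomputable def rh70688a723ef83899 : CRef := CRef.mk (Pat.mk 0x7000000038000000200000003000000000000000000000000000000000 0x4000000040000000e0000007e000000380000007f0000003e0000000f0000000e0000000e0000000a 11 7) 0 0 (step_sound _ 227 [(rh0da3f8d18d3a0dfd.shift 2 4), (rh913d91fa772f6dd6.shift 0 3), (rha0441bf93223521a.shift 1 0), (rhdf91c04362b89133.shift 1 4)] (by decide +kernel))
noncomputable def rh1ec2f6b0e57a63df : CRef := CRef.mk (Pat.mk 0x3000000018000000200000002000000000 0x8000000ef000000ff000000180000007f0000003e0000001f 11 8) 0 0 (step_sound _ 134 [(rh18965a982d73c794.shift 3 3), rhe442d628bc7151ac] (by decide +kernel))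
noncomputable def rhf3dc64ed855d7a18 : CRef := CRef.mk (Pat.mk 0x3000000018000000200000002000000000000000000000000000000000 0x2800000038000000380000007f0000003e0000001f0000001e0000001e0000000a 11 7) 0 0 (step_sound _ 132 [(rh4e766febd5d32004.shift 0 1), (rh5a7dce561d0bf78d.shift 3 3), (rha080ca1f13127e31.shift 1 0)] (by decide +kernel))
noncomputable def rhd4bc64ca4ab232d6 : CRef := CRef.mk (Pat.mk 0x100000001c0000000000000000000000000 0x8000000f8000001f800000078000001ff000007fe0000007f0000007000000030 11 11) 0 0 (step_sound _ 101 [rh26b60e294096f14e, (rh35af574a984dba54.shift 3 0), (rh551591afa7e9bd9a.shift 2 2), (rhaeebc73f5a9c796a.shift 4 2), (rhf5a1f18b35c2c7bc.shift 4 2)] (by decide +kernel))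
noncomputable def rh8c944e97759e541f : CRef := CRef.mk (Pat.mk 0x20000000000000007000000030000000000000000000000000 0x2000000020000000740000003c000001de000000fe000001ff 11 9) 0 0 (step_sound _ 68 [rhe94c4920d2af7471, (rhee230b994cc8b773.shift 4 2)] (by decide +kernel))
noncomputable def rh826b346fc4a796c0 : CRef := CRef.mk (Pat.mk 0x1000000016000000300000001000000000 0x5000000270000003f0000003f0000001f00000017000000370000001f00000005 11 6) 0 0 (step_sound _ 163 [rhb813fee83c614690, (rhffd04209dc8ea796.shift 3 1)] (by decide +kernel))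
noncomputable def rha2ba58d9aab1e515 : CRef := CRef.mk (Pat.mk 0x18000000c00000000000000000 0x40000000e0000000e0000007f0000007e000000cf0000000600000006 11 8) 0 0 (step_sound _ 101 [rhb429cfcfa84fba40, (rhd6e447e81774439e.shift 3 2)] (by decide +kernel))
noncomputable def rh969838654e6ee0ae : CRef := CRef.mk (Pat.mk 0x80000000c0000003800000010000000000000000000000000 0x340000007c0000006c0000003f0000001b0000000f0000000e0000000c 11 7) 0 0 (step_sound _ 99 [(rh0b513c485be00303.shift 0 1), (rh46d6183566ef1216.shift 2 0), (rhd6bc10e2a6aa5684.shift 2 3)] (by decide +kernel))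
noncomputable def rhe63919302e4dbcab : CRef := CRef.mk (Pat.mk 0x18000000300000002000000000 0x20000000a0000003f0000003f000000fe0000003e0000003600000016 11 8) 0 0 (step_sound _ 132 [(rh2145e1d24b96a57e.shift 4 1), rha0c884876ca6b2a5] (by decide +kernel))
noncomputable def rh6bc6e00efa7470da : CRef := CRef.mk (Pat.mk 0x1e0000001a000000100000000000000000 0x3f0000001f0000001b0000003e0000001e000000130000000200000002 11 6) 0 0 (step_sound _ 98 [(rh18965a982d73c794.shift 1 3), rhb1a5ba3ba2ae5c0e] (by decide +kernel))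
noncomputable def rh9d66214c59d84636 : CRef := CRef.mk (Pat.mk 0x80000003000000020000000000000000000000000 0x40000003e0000003f0000007e000000fe00000038000000180000001800000018 11 8) 0 0 (step_sound _ 164 [(rh4ca5dae25f5c14ff.shift 1 4), rh542231675bda9a32, rhaf426c1cfa3c862a, (rhdeca8db941583de2.shift 1 4)] (by decide +kernel))
noncomputable def rh161eae3febe223fe : CRef := CRef.mk (Pat.mk 0x80000000c000000180000001000000000000000000000000000000000 0x2000000120000001b0000003f0000001f0000001f0000000f0000000f0000000f00000005 11 6) 0 0 (step_sound _ 193 [rh48d3ed8e5c16844c, (rhb739f4f82bb681b4.shift 0 5)] (by decide +kernel))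
noncomputable def rh7eaa06d7061b99da : CRef := CRef.mk (Pat.mk 0x3000000060000000400000000000000000 0x1f0000001fe0000007f0000003e0000003f 11 9) 0 0 (step_sound _ 103 [rh7973c9c4c063f4a6, (rhf48373e13d2bc128.shift 4 3)] (by decide +kernel))
noncomputable def rh1e5e81c760afbc62 : CRef := CRef.mk (Pat.mk 0x800000030000000200000000000000000 0x1c0000003c0000001f000001fe000000ff0000002f0000000c0000000c 11 9) 0 0 (step_sound _ 132 [rh2bbbdceb9beb64f6, (rh3c3e23a02e82b2ed.shift 1 3), (rh5c5a2014709044d0.shift 1 3), (rh610c376d07c03440.shift 1 0)] (by decide +kernel))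
noncomputable def rh331aed384ca4eab3 : CRef := CRef.mk (Pat.mk 0x8000000300000002000000000 0x20000000a0000001f0000001f0000007e000000f70000003e0000001f 11 8) 0 0 (step_sound _ 100 [(rh4ca5dae25f5c14ff.shift 1 2), rhe8940e7697da7714, rheac7a0eea0d2311d] (by decide +kernel))
noncomputable def rh5c2fa02ec41768ff : CRef := CRef.mk (Pat.mk 0xc0000001800000000000000000000000000000000 0x5000000070000000700000007000000ff0000001f00000007000000070000000700000005 11 8) 0 0 (step_sound _ 161 [(rhb739f4f82bb681b4.shift 0 4), rhb7a6d49f1cfa8d2a] (by decide +kernel))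
noncomputable def rhad28f631b021fc94 : CRef := CRef.mk (Pat.mk 0xc000000180000001000000000000000000000000000000000 0xc0000000c0000000c0000001f0000001f0000000f0000000f0000000f00000005 11 5) 0 0 (step_sound _ 227 [(rh2145e1d24b96a57e.shift 3 4), rh27b888cb28e6e767] (by decide +kernel))
noncomputable def rh62d6bf3d2903fb0f : CRef := CRef.mk (Pat.mk 0xc0000001800000010000000000000000000000000 0x50000000700000017000000170000007f0000001f0000001f0000000f0000000f0000000d 11 7) 0 0 (step_sound _ 161 [(rhb739f4f82bb681b4.shift 0 4), rhbbcff416156f22d1] (by decide +kernel))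
noncomputable def rh022d00921726cce1 : CRef := CRef.mk (Pat.mk 0x18000000300000002000000000 0x60000000e0000001f0000001f0000007e0000003c0000003e0000001e 11 7) 0 0 (step_sound _ 132 [(rh2145e1d24b96a57e.shift 4 1), rhb49112b0598a0a9d] (by decide +kernel))
noncomputable def rh640e3c445adc40b8 : CRef := CRef.mk (Pat.mk 0x40000001c00000050000000000000000000000000 0xa4000000f4000001fc000000fc0000005e0000004f0000004e00000002 11 9) 0 0 (step_sound _ 133 [(rh1b1d9d37dc492e4a.shift 2 3), (rh44afbb496b7a3d6b.shift 1 1), rh5b31e658c3b65351, (rh790acd67f4fffd04.shift 2 4), (rhececc2ee7da1d4c6.shift 2 1)] (by decide +kernel))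
noncomputable def rh9b25e59944e66bf3 : CRef := CRef.mk (Pat.mk 0x5800000018000000000000000000000000 0x7b0000001f000000370000003e0000003e 11 7) 0 0 (step_sound _ 98 [(rh361cc68994bd8a63.shift 2 3), rh64aeb62436dadbcc] (by decide +kernel))
noncomputable def rh907803c8c3712a24 : CRef := CRef.mk (Pat.mk 0x1000000018000000480000000000000000 0x1f0000001f0000001f0000001e0000007c0000003400000020 11 7) 0 0 (step_sound _ 164 [(rh5c5e593799055d58.shift 3 2), rh9a6fb1cce3c3036b] (by decide +kernel))
noncomputable def rhd7d7d12072d1f8a5 : CRef := CRef.mk (Pat.mk 0x800000008000000080000000800000000 0x1f7000000fe000001ef0000001f0000000f00000005 11 9) 0 0 (step_sound _ 34 [rh6c09c1f055bbff6a, (rh932754581e0f4330.shift 2 0)] (by decide +kernel))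
noncomputable def rhbb8e546d264db28b : CRef := CRef.mk (Pat.mk 0xa0000000a0000000200000004000000000000000000000000000000000 0x1be000000fe0000003f000001e000000070000000700000007000000050 11 9) 0 0 (step_sound _ 196 [(rh00a3e7c8a1b1e004.shift 0 2), (rh140976695715d8e5.shift 4 0), (rh5bc5f4ab1822bc0a.shift 2 5), (rh71090ae86bf2cc7f.shift 3 3)] (by decide +kernel))
noncomputable def rh67ac0e2e5228fd2a : CRef := CRef.mk (Pat.mk 0x580000007000000030 0x3ff000001fe000003df000000d80000007800000030 11 10) 0 0 (step_sound _ 131 [rh37211698c9e98929, (rh879264a17c6d292b.shift 3 0), (rhdf6eda84f2eabc48.shift 3 0)] (by decide +kernel))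
noncomputable def rh70fd846356cb5f19 : CRef := CRef.mk (Pat.mk 0x18000000c000000040000000000000000000000000 0x3c0000003c0000003c00000018000000fc0000007f0000003e0000003f0000003c 11 8) 0 0 (step_sound _ 132 [(rh5419adcd928dba20.shift 3 4), rhec243e3d5dfbec23] (by decide +kernel))
noncomputable def rh2325e2823094d345 : CRef := CRef.mk (Pat.mk 0xc0000001000000000000000000 0x280000007800000078000038fc00001ffe00003bff0000003000000030 11 14) 0 0 (step_sound _ 101 [(rh245a175f71a9d745.shift 4 2), (rh36eba2a3de447758.shift 2 2), (rh782848cf5e4b1e5e.shift 4 2), rhd214c4355655135e] (by decide +kernel))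
noncomputable def rhc028d04e8a2dc20d : CRef := CRef.mk (Pat.mk 0x1000000018000000700000002000000000 0xc0000004f000001df000001fb0000007f0000003f00000010 11 9) 0 0 (step_sound _ 131 [(rh3cb04db3dd2b6a55.shift 3 0), (rh5d54cb79a67f97ab.shift 3 0), (rhb62f9a98333e2756.shift 0 1), (rhfa8b2bda9d4ce189.shift 1 0)] (by decide +kernel))
noncomputable def rh6f6b6ebf3194e470 : CRef := CRef.mk (Pat.mk 0x1e0000001800000050000000000000000000000000 0x40000000c0000002e000000fe000000db0000005c000000ec000000ec000000a0 11 8) 0 0 (step_sound _ 195 [(rh2145e1d24b96a57e.shift 3 3), rhbc1d424c838db5d2] (by decide +kernel))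
noncomputable def rh22e2337519071ed5 : CRef := CRef.mk (Pat.mk 0x1e000000080000000800000000 0x30000001700000017000000370000001e0000000f0000000e00000006 11 6) 0 0 (step_sound _ 65 [rh05a12673913a934c, (rheb0810cc63b001d8.shift 0 2)] (by decide +kernel))
noncomputable def rh16c9a1ce9bfb32fc : CRef := CRef.mk (Pat.mk 0x18000000200000002000000000 0x20000000a0000001f0000001f0000007e000000ff0000003e0000001f 11 8) 0 0 (step_sound _ 68 [(rh50a812c0dc5ab146.shift 2 0), (rhc53d4c24604c4d00.shift 2 0), (rhdeca8db941583de2.shift 1 2), rhe8940e7697da7714, rheac7a0eea0d2311d] (by decide +kernel))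
noncomputable def rh2ddec346d17d5508 : CRef := CRef.mk (Pat.mk 0x7000000000000000000000000000000000 0x140000001c0000001c000000ff0000007e0000001f0000001e0000001e0000001e 11 8) 0 0 (step_sound _ 131 [rh41226fbc0b57fb87, (rh450f551da8bb5908.shift 2 0), (rh592c7139d2c44767.shift 1 3), (rh61325f73ebf98108.shift 1 4), (rh9e97bba44c1b13e4.shift 1 3)] (by decide +kernel))
noncomputable def rhddd9f2e877d778b5 : CRef := CRef.mk (Pat.mk 0x50000000c000000008000000000000000000000000 0x140000001f0000001f0000007f000000de0000000c0000001c0000001c00000014 11 8) 0 0 (step_sound _ 163 [rh509b6bf2f52bda47, (rhc10214bf3fe8094a.shift 3 4)] (by decide +kernel))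
noncomputable def rh91b0e811f44ad11f : CRef := CRef.mk (Pat.mk 0x180000001c000000100000001800000000000000000000000000000000 0x200000002000000070000001f0000003c0000001f0000001f00000007000000070000000700000005 11 6) 0 0 (step_sound _ 226 [rh14f2a32da016fa2f, (rhaed54c24fb91f24a.shift 0 4), (rhe2b63c00a3d7bb73.shift 0 6)] (by decide +kernel))
noncomputable def rh55880c3b2f324a39 : CRef := CRef.mk (Pat.mk 0x1000000014000000100000005000000000 0x8000000380000003c0000003c000001df000000fe000000f30000005200000040 11 9) 0 0 (step_sound _ 164 [rh02a7ea0f6ca8c567, (rh3ca48e2a6d60153d.shift 3 1), (rhc85cc95794737cf7.shift 3 2), (rhdbb967939a65c35f.shift 1 2)] (by decide +kernel))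
noncomputable def rh1161f614e78975d1 : CRef := CRef.mk (Pat.mk 0x1400000010000000100000000000000000 0x280000003a0000003a0000003f000000ff0000007c000000ff0000001f0000000e00000002 11 8) 0 0 (step_sound _ 164 [(rh1726a00b0a8befd0.shift 3 1), (rh4e55bb8c152eaae3.shift 1 2), (rh68ae634e1ebb8f05.shift 2 2), rhb6c8efb17806eddd, (rhe7ba863d8730c09a.shift 0 1), (rhf4e9e26b335fe316.shift 3 1)] (by decide +kernel))
noncomputable def rh6f66d5797e80e08e : CRef := CRef.mk (Pat.mk 0x10000000140000001000000058000000000000000000000000 0x80000000ae000003fe000001f4000003fe0000005e000000470000000200000002 11 10) 0 0 (step_sound _ 197 [(rh2f68792b6b779e96.shift 4 3), rhdf2061450ea2e037] (by decide +kernel))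
noncomputable def rh3fc2016f6a394083 : CRef := CRef.mk (Pat.mk 0x80000000a000000080000002800000000 0x100000013000001ff000000fe000001ff0000002c00000024 11 9) 0 0 (step_sound _ 132 [(rh2f68792b6b779e96.shift 3 1), rh72ebf8a762ca0ecd] (by decide +kernel))
noncomputable def rh1fd1f4ecb600c2e7 : CRef := CRef.mk (Pat.mk 0x1a0000000800000008000000000000000000000000 0x10000000100000003f0000001e0000003b0000000f000000070000000700000005 11 6) 0 0 (step_sound _ 196 [(rh69755ef358ebfd54.shift 3 3), rh967353da9b1d9aaa, (rhbfb5770941270498.shift 3 3)] (by decide +kernel))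
noncomputable def rh5cca13cb11e6d660 : CRef := CRef.mk (Pat.mk 0x80000000a0000000800000028000000000000000000000000 0x140000001c0000001c00000018000000ff000000fe000001fb0000002f000000770000007700000055 11 9) 0 0 (step_sound _ 164 [(rh3290eb83f8a84c79.shift 2 3), (rh36ba6f6dab0e2c44.shift 1 0), rh9081dd5ed39bce48, (rhf354c969246683f2.shift 0 2)] (by decide +kernel))
noncomputable def rh1648a9cea7e69173 : CRef := CRef.mk (Pat.mk 0x10000000080000000a0000000800000020000000000000000000000000 0x40000000c0000001c00000018000000ef000000fe000001ff00000023000000270000000700000005 11 9) 0 0 (step_sound _ 162 [rh2cd9d77c7da9c731, (rh46cc427960239c2b.shift 0 2), (rh72c1a545b7a1f95c.shift 0 2), (rh9963b93bb968eaf8.shift 2 4)] (by decide +kernel))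
noncomputable def rhdf217b989a41cbcb : CRef := CRef.mk (Pat.mk 0x80000000a0000000800000028000000000000000000000000 0x100000005800000058000001ef000000fe000001ff0000002f000000270000000700000005 11 9) 0 0 (step_sound _ 164 [(rh180189161c72bada.shift 0 2), (rh7efff25179d37ffa.shift 0 2), rh9081dd5ed39bce48, (rhdd474ad759fb06b7.shift 2 2), (rhfb1e9fe27ba300db.shift 0 2)] (by decide +kernel))
noncomputable def rh8f7efc36f701455b : CRef := CRef.mk (Pat.mk 0xa0000000a00000008000000000000000000000000000000000 0x40000000e0000000e0000000e0000001ff000000fe0000007e0000007c000001f000000040 11 9) 0 0 (step_sound _ 134 [rh40fcb0a8e4f3f8c1, (rh4f7aa851c68c5803.shift 5 1), (rh976a48eb1c80a12f.shift 6 3), (rh98b9822c82c3aa8f.shift 5 1), (rhfafeb437ceb8396d.shift 6 1)] (by decide +kernel))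
noncomputable def rhd140fb6a7f50c418 : CRef := CRef.mk (Pat.mk 0x80000000a0000000800000028000000000000000000000000 0x140000001c0000001c0000001c0000004c000000ff000000fe000001ff0000002b000000770000007700000055 11 9) 0 0 (step_sound _ 162 [rh2cd9d77c7da9c731, rh3b30dc9b9c168a0a, (rhec873418c52e17df.shift 1 0), (rhfb80c57477bc0b95.shift 2 3)] (by decide +kernel))
noncomputable def rha4c18607a56b7f87 : CRef := CRef.mk (Pat.mk 0xa0000000a0000002a000000020000000000000000 0x1000000010000007f4000003fe000007fb0000002a000000720000007000000050 11 11) 0 0 (step_sound _ 162 [(rh2f68792b6b779e96.shift 1 2), rh503b859f202d3a5b] (by decide +kernel))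
noncomputable def rhac8685a05efe06ce : CRef := CRef.mk (Pat.mk 0x10000000200000002000000020 0x2000000030000000380000003f000000fe000000ff0000003800000038000000300000002000000020 11 8) 0 0 (step_sound _ 132 [(rhcfdf45280693d3da.shift 4 0), (rhea533c9b9f8b4fa0.shift 0 1)] (by decide +kernel))
noncomputable def rhaa14a57558906bb9 : CRef := CRef.mk (Pat.mk 0x1800000020000000200000000000000000 0x1c0000003c0000001f000001fe000000ff0000002f0000000c0000000c 11 9) 0 0 (step_sound _ 100 [rh2bbbdceb9beb64f6, (rh3c3e23a02e82b2ed.shift 1 3), (rh5c5a2014709044d0.shift 1 3), (rh610c376d07c03440.shift 1 0)] (by decide +kernel))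
noncomputable def rh120681e73d497b4c : CRef := CRef.mk (Pat.mk 0x180000000000000010000000b000000020 0xe0000000f0000003ff000001fe000001e7000000b0000000b000000020 11 10) 0 0 (step_sound _ 133 [(rh0e2ea7bdec6e4998.shift 0 3), (rh20238e41a74040ab.shift 0 3), (rh26504c798a5afe67.shift 0 1), (rh2851888b3c4a1188.shift 0 1), (rh43d08b0b50912c9b.shift 0 3), rh5e24aed2f56c790f, (rha34067212427e851.shift 2 1), (rhe883adbd60e3e4d2.shift 0 1), (rhfb51077b4cc60e11.shift 0 1)] (by decide +kernel))
noncomputable def rhf2546577117a5e39 : CRef := CRef.mk (Pat.mk 0x180000003000000020000000000000000000000000 0x20000001e000000ff000000ff0000001f0000003f0000002f0000001c0000001c00000014 11 8) 0 0 (step_sound _ 131 [(rh13c3dfc0882dac9c.shift 0 1), (rh6fc93e9a13beac24.shift 0 1), (rh9c269c181d7ceef5.shift 0 1), (rhd4c726bfd72d2183.shift 0 2), rhf13231894797d148] (by decide +kernel))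
noncomputable def rh50bca99ed2caafe9 : CRef := CRef.mk (Pat.mk 0xc000000180000001000000000 0x34000000340000007f000000ff0000001f0000001200000002 11 8) 0 0 (step_sound _ 97 [rh3fc66924b5e55896, (rhb739f4f82bb681b4.shift 0 2)] (by decide +kernel))
noncomputable def rhf1f7e6d2850ee6c8 : CRef := CRef.mk (Pat.mk 0xc0000001800000010 0x3e0000003e00000077000000ff0000001f00000010 11 8) 0 0 (step_sound _ 65 [rh13c506b247a76b23, (rhb739f4f82bb681b4.shift 0 1)] (by decide +kernel))
noncomputable def rh41c3b2376cb97b01 : CRef := CRef.mk (Pat.mk 0xc0000001800000010000000000000000000000000 0x5000000270000002700000077000000ff0000001f00000017000000070000000700000005 11 8) 0 0 (step_sound _ 161 [rh2220b319edc5227e, (rhb739f4f82bb681b4.shift 0 4)] (by decide +kernel))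
noncomputable def rhd2173fb3ad40bfc9 : CRef := CRef.mk (Pat.mk 0x180000007800000020 0x3ff000001fe000003df000000d80000007800000028 11 10) 0 0 (step_sound _ 132 [(rh6f1cbe15c631ee70.shift 4 0), rhe67654c585a2cdaf] (by decide +kernel))
noncomputable def rh05a1e2cacf932ab3 : CRef := CRef.mk (Pat.mk 0x1800000028000000200000000000000000 0x600000016000000160000001f000000ff0000002f0000000c0000000c 11 8) 0 0 (step_sound _ 100 [rh6fc93e9a13beac24, (rh79b3c29022acbdf3.shift 2 3), (rh8c29b1e2f83d279d.shift 2 1), (rha9fbfd4bb8cf890b.shift 0 3)] (by decide +kernel))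
noncomputable def rh2a3682775d9dcd04 : CRef := CRef.mk (Pat.mk 0x380000007000000040 0x1ff000000fe000001ff000000380000007e0000004e 11 9) 0 0 (step_sound _ 132 [rh4edefc5f841f7331, (rh6b9e543cb5f40f43.shift 1 0), (rhc41d5f6871c3db72.shift 1 0), (rhff5769f61e308422.shift 4 0)] (by decide +kernel))
noncomputable def rha9fb48e0ce10fbde : CRef := CRef.mk (Pat.mk 0x2000000000000000300000007800000040 0x7ff000003fe000007de000001b4000001fe00000040 11 11) 0 0 (step_sound _ 132 [(rh20d4c6fc45c48f92.shift 1 0), (rh6a5926b543649298.shift 0 1), (rh6efb8afa1f921679.shift 0 1), (rhd727bb41309b6841.shift 4 1)] (by decide +kernel))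
noncomputable def rh2528e9033896a62f : CRef := CRef.mk (Pat.mk 0x10000000180000003c000000a0000000000000000000000000 0xc0000000c000001ef000001ff000001d8000000fc000000a4000001c0000001c000000140 11 9) 0 0 (step_sound _ 195 [(rh01ff8e29f1e0af53.shift 0 4), (rh37d9ceebb86d75d1.shift 2 3), (rh623a731171d66e50.shift 2 3), rhca5d93d704fc60fc] (by decide +kernel))
noncomputable def rh66203acae140b8cf : CRef := CRef.mk (Pat.mk 0x700000004000000040 0x28000000b8000003ff000001fe000003fe000000700000007e00000048 11 10) 0 0 (step_sound _ 133 [rh417766b267d389da, (rh92d527fd57e151ef.shift 5 0), (rhdf6eda84f2eabc48.shift 5 0), (rhf4bcdf19b6922e31.shift 5 0)] (by decide +kernel))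
noncomputable def rh0c88aca15b759bf5 : CRef := CRef.mk (Pat.mk 0x380000002000000020 0x60000000e0000005f000001fe0000007e0000002e00000020 11 9) 0 0 (step_sound _ 101 [(rh1eeec04e73117746.shift 3 0), rha0dd71da883b56cf, (rhdab32775f5c78fcf.shift 2 0)] (by decide +kernel))
noncomputable def rh6c009e7cf6a2200c : CRef := CRef.mk (Pat.mk 0x10000000700000004000000000000000000000000000000000 0x3c0000003f0000003c0000007c000000780000003c000000380000001000000010 11 7) 0 0 (step_sound _ 133 [(rh5d54cb79a67f97ab.shift 4 2), (rha40d42a2e34c408d.shift 4 2), (rha8f7e7016bdd0fe9.shift 0 2), (rhe3189b76617ffe83.shift 2 0)] (by decide +kernel))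
noncomputable def rh68e31e4d12143167 : CRef := CRef.mk (Pat.mk 0x100000007000000040000000000000000000000000 0xa0000003e0000003f0000003f0000007e0000007e000000360000003200000030 11 7) 0 0 (step_sound _ 101 [(rh153c22c1815b5f07.shift 0 1), (rh5d54cb79a67f97ab.shift 4 1), rh946b4a9ba7e1e68c, (rha40d42a2e34c408d.shift 4 1)] (by decide +kernel))
noncomputable def rh1a59a3241c9d707e : CRef := CRef.mk (Pat.mk 0x10000000700000004000000000000000000000000000000000 0x28000000f8000000fe000000f80000003e00000078000000770000003e0000003f0000003800000020 11 8) 0 0 (step_sound _ 195 [(rhc02b3aee7ab87ee1.shift 1 5), rhce128b0c1ca19cfa, (rhdbcea10a0fbe5ba6.shift 1 5)] (by decide +kernel))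
noncomputable def rh7b9234d96bbef21d : CRef := CRef.mk (Pat.mk 0x110000000700000004000000000000000000000000000000000 0x2800000038000000f8000000fe000001b0000000f0000000770000003e0000003f0000003800000020 11 9) 0 0 (step_sound _ 199 [(rh3fc040e777f1679e.shift 4 5), rh84c4d263b5d9e508] (by decide +kernel))
noncomputable def rhac9330ac0b8d0bb9 : CRef := CRef.mk (Pat.mk 0x4000000440000001c00000050000000000000000000000000 0xa0000000f8000000ec000000cc000000ff0000005c000000e8000000e8000000a0 11 8) 0 0 (step_sound _ 99 [(rh08edf065357d68e5.shift 2 1), rh49f19ae12295ae01, (rh79ad7b82ec8c35e2.shift 2 1)] (by decide +kernel))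
noncomputable def rh711d472ff7c93540 : CRef := CRef.mk (Pat.mk 0x800000028000000a0000000000000000000000000 0x140000001c0000001c0000011f0000017c000003df000001f8000000be0000009f0000009c0000001c 11 10) 0 0 (step_sound _ 132 [rh2167a28eef75c27f, (rh38791ac5737ed75e.shift 2 4), rhc126a2d483e3db27, rhd136d9a9368ed2f8] (by decide +kernel))
noncomputable def rhad50b450a73b434a : CRef := CRef.mk (Pat.mk 0xc000000180000001000000000 0x5000000170000003f0000007f000000ff0000001f0000001600000006 11 8) 0 0 (step_sound _ 131 [(rh2145e1d24b96a57e.shift 3 1), rhf25f97707c3c1d1d] (by decide +kernel))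
noncomputable def rh6d81dc3aaea9a912 : CRef := CRef.mk (Pat.mk 0x800000008000000080000000800000000 0x40000001c0000001f0000003f0000003f0000000c0000000c0000000c0000001c00000010 11 6) 0 0 (step_sound _ 36 [(rh55afc6a59410cf00.shift 3 0), (rhb4de1eacb8855b2f.shift 0 1)] (by decide +kernel))
noncomputable def rh353c99b15947840d : CRef := CRef.mk (Pat.mk 0x8000000080000002800000020000000000000000000000000 0x8000000580000007c0000007f000000ff000001ec000000380000001c0000001c00000014 11 9) 0 0 (step_sound _ 99 [(rh49759b6975f15643.shift 2 0), (rh5792ff6ce74e80bd.shift 0 3), (rhe84e00c98653ad0c.shift 2 0), (rhf5924acdbae8c415.shift 0 2)] (by decide +kernel))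
noncomputable def rh1e447d7a1e3dd2d2 : CRef := CRef.mk (Pat.mk 0x800000008000000280000002000000000000000000000000000000000 0x8000000580000007c0000007f000000ff000001ec0000002c0000001c0000001c0000001c00000014 11 9) 0 0 (step_sound _ 131 [(rh49759b6975f15643.shift 2 1), (rh5792ff6ce74e80bd.shift 0 4), (rh605ebd1d430ac774.shift 2 0), (rh6f98d11fdf64c635.shift 2 0), (rhf5924acdbae8c415.shift 0 3)] (by decide +kernel))
noncomputable def rh1fdcb837f1c4ac82 : CRef := CRef.mk (Pat.mk 0x800000008000000280000002000000000000000000000000000000000 0x8000000580000007c0000007f000000ff000001ee0000003c0000000c0000001c0000001c00000014 11 9) 0 0 (step_sound _ 131 [(rh2e88faa7cc86f648.shift 1 3), (rh5792ff6ce74e80bd.shift 0 4), (rh6f98d11fdf64c635.shift 2 0), (rhc72e96788d84d26a.shift 2 3), (rhf5924acdbae8c415.shift 0 3)] (by decide +kernel))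
noncomputable def rheb577a01224626a3 : CRef := CRef.mk (Pat.mk 0x6000000020000000200000002000000000 0x19f000001fe0000007f000000300000003000000010 11 9) 0 0 (step_sound _ 132 [(rh50fbb5868c909700.shift 4 1), rh7ca56baff4f78ca4] (by decide +kernel))
noncomputable def rha9abd94de0992a49 : CRef := CRef.mk (Pat.mk 0x10000000100000001800000050000000000000000000000000 0xc0000001e000000f7000000ff000000df0000000f0000000600000002 11 8) 0 0 (step_sound _ 99 [rh4492db743883f50e, (rh932754581e0f4330.shift 3 2)] (by decide +kernel))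
noncomputable def rh5660c385ff0178b6 : CRef := CRef.mk (Pat.mk 0x200000003000000080000000800000000000000000 0x140000001c0000011c0000010c000003ff000001fe0000019f0000008e0000000e0000000a 11 10) 0 0 (step_sound _ 134 [(rh02575fc56458b534.shift 1 3), (rh20aaab6250709fa0.shift 3 3), rh729b7f65fc6f94bf, (rhc1c8ef3b77490bf7.shift 4 2)] (by decide +kernel))
noncomputable def rh6b2635b2c17eab2a : CRef := CRef.mk (Pat.mk 0x1000000010000000500000004000000000 0x2000000038000000380000003e0000007e000001ff000000ff000000df0000004c00000004 11 9) 0 0 (step_sound _ 164 [(rh1741680720c097b4.shift 3 2), (rh7a3c78f8cc63548c.shift 1 1), (rhe01cfd8f0577defd.shift 3 2), rhf5ddf26375aadc2a, (rhfe0d5bcb446c4590.shift 3 1)] (by decide +kernel))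
noncomputable def rh7178191404b41ae8 : CRef := CRef.mk (Pat.mk 0x800000008000000080000000800000000 0xf70000007e000000ef0000001f0000000f00000005 11 8) 0 0 (step_sound _ 34 [(rh932754581e0f4330.shift 2 0), rheea222ff14fc4d44] (by decide +kernel))
noncomputable def rh8989b35c62f1dab3 : CRef := CRef.mk (Pat.mk 0x10000000180000004000000040000000000000000000000000 0xc0000009c000000ff000001ff000000fc000000df0000007c000000380000001000000010 11 9) 0 0 (step_sound _ 131 [(rha932df7c759f8641.shift 2 0), (rhb83c6df44e65ca24.shift 0 3), (rhdc2a8236b56c0a85.shift 0 2), (rhdf88e75bb107bccf.shift 0 2), (rhf9366b6a121593ef.shift 3 2)] (by decide +kernel))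
noncomputable def rh888a89ee3cd24caf : CRef := CRef.mk (Pat.mk 0x1000000010000000580000004800000040 0xc0000008c000000ff000000ff000000db0000005f00000056 11 8) 0 0 (step_sound _ 99 [(rh087578e26bef426a.shift 3 0), rh21a453e9edf3e395, rh530c14be35b59a1d, (rhc3b618ba71007413.shift 0 1), (rhd0ce071ce58f6608.shift 1 0)] (by decide +kernel))
noncomputable def rh6d5bb83552a59cbb : CRef := CRef.mk (Pat.mk 0x20000000300000008000000080000000000000000000000000 0x140000011c0000011c000003ff000001fe0000018f0000009c0000001c0000001c00000014 11 10) 0 0 (step_sound _ 166 [(rh02575fc56458b534.shift 1 4), (rh20aaab6250709fa0.shift 3 4), rh6ead66ae93968668, (rhc1c8ef3b77490bf7.shift 4 3)] (by decide +kernel))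
noncomputable def rhe991996061bb9e8b : CRef := CRef.mk (Pat.mk 0x200000003000000010000000000000000000000000 0x10000000100000003f0000003e0000007f0000003e0000003f0000000e0000000e0000000a 11 7) 0 0 (step_sound _ 197 [(rh5c5e593799055d58.shift 4 3), rhc0ef3957f6ee50ee] (by decide +kernel))
noncomputable def rh99ea1063fd2f196f : CRef := CRef.mk (Pat.mk 0x100000001800000008000000400000000000000000 0x200000006000000770000007f0000001f0000007f0000003a00000032 11 7) 0 0 (step_sound _ 67 [(rh71222050f2c63a3a.shift 3 1), rhd09249bf5d4b6d9c] (by decide +kernel))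
noncomputable def rh53a832dc8bee2fc0 : CRef := CRef.mk (Pat.mk 0x1000000018000000400000004000000000 0x80000000c0000001c0000001f000000fe000001fe000000d80000007800000038 11 9) 0 0 (step_sound _ 67 [(rh4c70463a9515a677.shift 1 2), (rhcf80391c5046a495.shift 3 0), rhdf88e75bb107bccf, (rhf9366b6a121593ef.shift 3 0)] (by decide +kernel))
noncomputable def rh840eafc1705d834d : CRef := CRef.mk (Pat.mk 0x80000000c0000002000000020000000000000000000000000 0x80000000c0000007f000001ff0000006f0000003f0000001f0000000700000005 11 9) 0 0 (step_sound _ 196 [(rh0bb882ba86b2372d.shift 0 5), (rh574fdbf07bdd18b9.shift 0 5), rh634cfd45ff6c214f, (rhed003092ae0c6fb4.shift 0 2)] (by decide +kernel))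
noncomputable def rh24e45b3545324778 : CRef := CRef.mk (Pat.mk 0xc00000006000000100000001000000000 0x560000007e000000fe000000fc0000007f0000006e000000760000001e00000006 11 8) 0 0 (step_sound _ 133 [rh0243452c0bffa0a2, (rh361cc68994bd8a63.shift 1 3)] (by decide +kernel))
noncomputable def rh555c104ffc0f2322 : CRef := CRef.mk (Pat.mk 0x10000000180000004000000040000000000000000000000000 0x80000000e0000000f0000000f0000000f8000000f8000000df00000078000000380000001000000010 11 8) 0 0 (step_sound _ 131 [(rh627d4def9bdfc870.shift 2 3), (rha932df7c759f8641.shift 2 0), (rhdc2a8236b56c0a85.shift 0 2), (rhf9366b6a121593ef.shift 3 2)] (by decide +kernel))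
noncomputable def rhb2b1b37a54434d2c : CRef := CRef.mk (Pat.mk 0x80000000c000000200000002000000000 0x5000000170000001f0000003b0000007f000000ff0000002f0000002c00000004 11 8) 0 0 (step_sound _ 132 [rh27684fc0e783f98e, (rh3ba695d91ad9a720.shift 2 1), (rh574fdbf07bdd18b9.shift 0 3)] (by decide +kernel))
noncomputable def rh19c35cf4b6f70f1f : CRef := CRef.mk (Pat.mk 0x100000003800000040000000400000000000000000 0x1000000034000000770000003e000000df0000007e0000001e00000002 11 8) 0 0 (step_sound _ 67 [(rh0f4eadd452a7fff7.shift 2 1), rh1d10566d79892081, (rh580df77fe152422b.shift 3 1), (rh5c92b555375c6fc5.shift 0 2), (rhe57981fbf93748bd.shift 0 1)] (by decide +kernel))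
noncomputable def rh4353a7612a0db872 : CRef := CRef.mk (Pat.mk 0x400000006000000100000001000000000000000000 0x80000000d8000001d8000000fe000003fe0000037f000001fc0000003c0000001c 11 10) 0 0 (step_sound _ 135 [(rh20aaab6250709fa0.shift 4 3), (rh558683efb07c0ccf.shift 4 1), (rhbc0cc71d7b783fe3.shift 2 1), rhee4cc8af5374ab13] (by decide +kernel))
noncomputable def rha0bd2cd960dd1749 : CRef := CRef.mk (Pat.mk 0x10000000180000004000000040000000000000000000000000 0x80000000e0000000f0000000f0000000fc000000f8000000df00000078000000380000001000000010 11 8) 0 0 (step_sound _ 131 [(rh6b32807f49471575.shift 2 3), (rha932df7c759f8641.shift 2 0), (rhdc2a8236b56c0a85.shift 0 2), (rhf9366b6a121593ef.shift 3 2)] (by decide +kernel))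
noncomputable def rhe96e6869b2ba787c : CRef := CRef.mk (Pat.mk 0x600000003000000080000000800000000000000000 0x2000000060000000780000003c000001be000000fe0000007f00000020 11 9) 0 0 (step_sound _ 131 [(rh53b3c253cb0c65f4.shift 2 4), rhcc30d53b57b8396c] (by decide +kernel))
noncomputable def rh2fc04709bf736af7 : CRef := CRef.mk (Pat.mk 0x200000003000000090000000800000000000000000 0x12c0000012c000003ff000001fe000001bf0000008e0000000e0000000a 11 10) 0 0 (step_sound _ 197 [rh0b8b25552b408a04, (rh5c5e593799055d58.shift 4 3)] (by decide +kernel))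
noncomputable def rh3ec6760bde696c36 : CRef := CRef.mk (Pat.mk 0x200000003000000010 0x18000000380000007f000001ff000001ff00000030 11 9) 0 0 (step_sound _ 101 [(rh5c5e593799055d58.shift 4 0), rhafe53821ddef66dc] (by decide +kernel))
noncomputable def rh862ba3e0fae11091 : CRef := CRef.mk (Pat.mk 0x6000000020000000800000028 0x400000004000001fc000000fe000001ff0000003a0000002a 11 9) 0 0 (step_sound _ 130 [rh671f95d70ac3c7e5, (rha88ac39e48d4de8e.shift 1 0), (rhadf429772c25fde0.shift 1 0), (rhfd7355c70a96284b.shift 1 0)] (by decide +kernel))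
noncomputable def rha0e45da4fa37a548 : CRef := CRef.mk (Pat.mk 0x10000000180000001800000008 0x5000000070000000f0000001f0000001f000000ff0000000f 11 8) 0 0 (step_sound _ 37 [rh2820ca9a6c4f41b4, (rh79b3c29022acbdf3.shift 2 1), rh97f423a11e5e85d4, (rha9e1a5d55b907abf.shift 2 0)] (by decide +kernel))
noncomputable def rhbe267b0130f73c43 : CRef := CRef.mk (Pat.mk 0x1800000018000000180000002000000020 0x28000000e8000000fc000000df0000005f0000006400000020 11 8) 0 0 (step_sound _ 163 [(rh2145e1d24b96a57e.shift 3 2), rhc5f074cca5c2cd00] (by decide +kernel))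
noncomputable def rhfea8a32158c13e4b : CRef := CRef.mk (Pat.mk 0x60000000200000008000000080 0x500000005000001cff00000ffe00001cef000000a0000000a0 11 13) 0 0 (step_sound _ 134 [(rh4821dcf828b9d7bf.shift 5 0), rha57396e8139b4f09, (rhfd7355c70a96284b.shift 5 0)] (by decide +kernel))
noncomputable def rh36639acf23ed5bce : CRef := CRef.mk (Pat.mk 0xc00000006000000100000001000000000 0x600000006000000370000003e0000003e000000370000001e0000000a 11 6) 0 0 (step_sound _ 132 [(rh18965a982d73c794.shift 1 3), rhabbafe999223bd6d] (by decide +kernel))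
noncomputable def rh535b3bcfd7313075 : CRef := CRef.mk (Pat.mk 0x6000000070000000800000008000000000 0x5000000070000000f00000003c0000007000000070000001be000000fe0000007f 11 9) 0 0 (step_sound _ 165 [(rh1cf393a818e1cca8.shift 2 2), (rh32431e66bbf434a4.shift 4 2), rh59620f7c513a17ed] (by decide +kernel))
noncomputable def rh786725fdf0a79386 : CRef := CRef.mk (Pat.mk 0x2000000070000000800000008000000000 0x10000000700000007000000070000000f80000003e0000007000000070000001be000000fe0000007f 11 9) 0 0 (step_sound _ 165 [(rh32431e66bbf434a4.shift 4 2), (rh3f27aa802b6b1070.shift 1 2), rh59620f7c513a17ed] (by decide +kernel))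
noncomputable def rh46aa8579dcbcd212 : CRef := CRef.mk (Pat.mk 0x200000003000000080000000800000000000000000 0x180000013c0000013e000003bf000001fe000001bf000000be0000003e0000000a 11 10) 0 0 (step_sound _ 100 [rh18123a14ddb281fa, (rhc5939650e4bf8fd5.shift 1 1), (rhcf80391c5046a495.shift 4 1), (rhf9366b6a121593ef.shift 4 1)] (by decide +kernel))
noncomputable def rhe4ed8abbb5258a15 : CRef := CRef.mk (Pat.mk 0x2000000030000000800000008000000000 0x180000013c0000013e000003ff000001fe000001bf000000f800000038 11 10) 0 0 (step_sound _ 68 [(rh70b117bb37d22235.shift 3 0), (rh9e0248ebb049c114.shift 0 1), (rhc5939650e4bf8fd5.shift 1 0), (rhcf80391c5046a495.shift 4 0)] (by decide +kernel))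
noncomputable def rh14cfada961baa52d : CRef := CRef.mk (Pat.mk 0x6000000020000000800000028 0x400000004000001ff000000fe000001fe0000003a0000002a 11 9) 0 0 (step_sound _ 130 [rh2856cfcf5dab9158, (rh4821dcf828b9d7bf.shift 1 0), (rha88ac39e48d4de8e.shift 1 0), (rhfd7355c70a96284b.shift 1 0)] (by decide +kernel))
noncomputable def rh9d2e98e948619f8d : CRef := CRef.mk (Pat.mk 0xc000000040000001000000050 0x1f0000001f000003fc000001ff000003fc0000007400000054 11 10) 0 0 (step_sound _ 131 [(rh4821dcf828b9d7bf.shift 2 0), (rh83b6dcb419e3df1b.shift 0 1), (rha88ac39e48d4de8e.shift 2 0), (rhfd7355c70a96284b.shift 2 0)] (by decide +kernel))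
noncomputable def rh13961e4c77c5c2c8 : CRef := CRef.mk (Pat.mk 0x80000000800000028000000a000000000000000000000000000000000 0x800000398000001fc000001ef000000bc0000009c0000001c0000001c00000004 11 10) 0 0 (step_sound _ 131 [(rh2e88faa7cc86f648.shift 1 3), (rh605ebd1d430ac774.shift 2 0), (rhd27315ec07daa134.shift 0 2), (rhe8768a83bdb59c61.shift 2 3)] (by decide +kernel))
noncomputable def rh86e7579b16b8778d : CRef := CRef.mk (Pat.mk 0x200000001000000010000000500000014 0xfe0000007f000000ff0000001d00000015 11 8) 0 0 (step_sound _ 97 [rh71222050f2c63a3a, rha88ac39e48d4de8e] (by decide +kernel))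
noncomputable def rhe7d82dc8a0bb7a2e : CRef := CRef.mk (Pat.mk 0x200000002000000020000000a0000002000000000 0x4000000070000000700000003000000e60000007f0000007b0000002000000020 11 8) 0 0 (step_sound _ 192 [rh6447a678191e56d1, (rhffd04209dc8ea796.shift 0 2)] (by decide +kernel))
noncomputable def rh12ee95441971a32f : CRef := CRef.mk (Pat.mk 0x1000000010000000500000005000000000 0x20000000f40000003e000000de0000007e0000000f 11 8) 0 0 (step_sound _ 35 [rh099e796e034aca24, (rh932754581e0f4330.shift 3 0)] (by decide +kernel))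
noncomputable def rhf71d6cfef245cbe5 : CRef := CRef.mk (Pat.mk 0x6000000020000000800000008000000000 0x5000000050000003df000003fe000007ef000001bc000000f80000007c 11 11) 0 0 (step_sound _ 132 [(rh173b5adc1bc947d8.shift 2 0), (rh2fb92adb4aec8fcd.shift 0 1), (rh3198499b55aeb80d.shift 2 1), (rh4137ecf29d8d47a4.shift 1 1), (rhcee9bfd85c34df6d.shift 4 1)] (by decide +kernel))
noncomputable def rh365fe7e8c44a8307 : CRef := CRef.mk (Pat.mk 0x6000000020000000800000008000000000 0x50000000700000007a000001fe000000fe000001ff0000007e000000ef000001bc000000fc00000050 11 9) 0 0 (step_sound _ 132 [(rh0633f4a264a6844b.shift 0 1), (rh146897a2df8f93ff.shift 1 0), (rh2fb92adb4aec8fcd.shift 0 1), (rh6f765c70fbd72626.shift 1 0), (rh85ba56542c8f8563.shift 0 1), (rhc4f96704649988c2.shift 1 1), (rheb41735222952e9d.shift 0 1)] (by decide +kernel))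
noncomputable def rh06a8b697e23990bc : CRef := CRef.mk (Pat.mk 0x6000000020000000800000008000000000 0x1000000010000003bf000003fe000007ef000001bc000000fc0000007c 11 11) 0 0 (step_sound _ 132 [(rh173b5adc1bc947d8.shift 2 0), (rh6ac11f448542d050.shift 3 1), (rh85ba56542c8f8563.shift 0 1), (rhf9118c658e74b389.shift 0 1), (rhffa3a2cae67230e7.shift 3 1)] (by decide +kernel))
noncomputable def rhc0c37ee847024255 : CRef := CRef.mk (Pat.mk 0x80000000800000008000000080000000000000000 0x140000001f0000003f0000003f0000000c0000000c0000000c0000000c0000000c0000000800000008 11 6) 0 0 (step_sound _ 195 [(rh3ca48e2a6d60153d.shift 2 2), (rh5baa46239919fe38.shift 2 0), (rh968ba7b0df7e4096.shift 2 2), (rheb19fe5cec84a2ad.shift 0 3)] (by decide +kernel))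
noncomputable def rh30bbeb6377d9b5cb : CRef := CRef.mk (Pat.mk 0x800000008000000080000002000000020000000000000000000000000 0x140000001f0000003f0000003f0000003c0000001f0000000c0000000c000000680000003c0000001e0000001c00000014 11 7) 0 0 (step_sound _ 259 [(rh0f984e6c3e75f6d1.shift 2 4), (rh1741680720c097b4.shift 2 5), (rh5ee4dc8825dcefa0.shift 0 4), (rhbc6001a281fc4b47.shift 1 0), (rhe01cfd8f0577defd.shift 2 5), (rheb19fe5cec84a2ad.shift 0 5)] (by decide +kernel))
noncomputable def rh99b7d1a2d9ad2f57 : CRef := CRef.mk (Pat.mk 0x100000000c0000000a0000000a000000080000000800000000 0x50000001f0000001b0000000f0000000a0000001f000000790000000c00000004 11 7) 0 0 (step_sound _ 195 [(rh2f68792b6b779e96.shift 3 3), rh5c0ee3d135d05182] (by decide +kernel))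
noncomputable def rh6dbdcb2aa9419476 : CRef := CRef.mk (Pat.mk 0x800000005000000058000000400000004000000000 0x2c000000fc000000ef0000005f0000005f000000de0000007c0000003e 11 8) 0 0 (step_sound _ 35 [rh7dc2f1dfdf9753b0, (rhaf0ae2f35a821bc4.shift 1 0), (rhc98e06705c5c990e.shift 2 0), (rhd49a7ec3a1fc22b3.shift 3 0), rheb1e69abba9f0921] (by decide +kernel))
noncomputable def rh15010f3d03799400 : CRef := CRef.mk (Pat.mk 0x7000000050000000400000004000000000 0x140000001c0000001e0000000f0000007f0000007f000000df0000007e0000003e 11 8) 0 0 (step_sound _ 37 [rh07efd5d24dc5d8da, (rh932754581e0f4330.shift 5 0)] (by decide +kernel))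
noncomputable def rhdc74f1599e4d9dbd : CRef := CRef.mk (Pat.mk 0xa0000000200000008000000280 0x7000000178000003de000003fe000007bf000002a0000002a0 11 11) 0 0 (step_sound _ 102 [rh0bb62ce3502e42ac, (rh2820ca9a6c4f41b4.shift 2 2), (rhccfa7b3c02894528.shift 4 0), (rhdec73fa5b5af4323.shift 4 0)] (by decide +kernel))
noncomputable def rhf9ddea93ebfabffe : CRef := CRef.mk (Pat.mk 0x1400000004000000100000001000000000 0x280000003800000038000000380000003c0000007f000000f70000001e0000000a 11 8) 0 0 (step_sound _ 100 [(rh8e77ed8198b1a0fa.shift 3 1), rh93fc2f27f568ffca, rhacc351f1a969d86d, (rhc16db94c2420f4f5.shift 1 1)] (by decide +kernel))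
noncomputable def rhcd53fe1d9841e238 : CRef := CRef.mk (Pat.mk 0x2800000028000000200000002000000000 0x460000007c0000006c0000006f0000003e00000017 11 7) 0 0 (step_sound _ 134 [(rh2f68792b6b779e96.shift 5 1), rhf77fc88a85f26a99] (by decide +kernel))
noncomputable def rhf0f2de456f26ea8c : CRef := CRef.mk (Pat.mk 0x280000000800000020000000200000000000000000 0x40000000740000007c000000770000007e000000780000006f0000003e0000001f00000014 11 7) 0 0 (step_sound _ 133 [(rh1741680720c097b4.shift 4 2), (rh31f96e4badbdfa7c.shift 0 2), (rh8e77ed8198b1a0fa.shift 4 2), rhc3f8e6f9e904f136, (rhd963817c8326ba37.shift 0 1)] (by decide +kernel))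
noncomputable def rhcde0a1241c598676 : CRef := CRef.mk (Pat.mk 0x10000000100000004000000040000000000000000000000000 0x28000000fe000000ff0000007e000000fe000000dc0000007f0000003e0000003f00000028 11 8) 0 0 (step_sound _ 132 [(rh1d854bcb5967f770.shift 2 0), rh43b653f8b91f8777, (rh797d676c64e7c689.shift 1 0), (rh87d339b4ab848dd1.shift 2 0), (rhb7441be5a609ec86.shift 1 0), rhbf54cdfbb94fbe06, (rhe8209813ba35ab18.shift 0 3)] (by decide +kernel))
noncomputable def rh10a3be08b60d4ae4 : CRef := CRef.mk (Pat.mk 0x800000008000000080000002800000020 0xf4000000ff0000007f0000002c0000007800000030 11 8) 0 0 (step_sound _ 36 [(rh55afc6a59410cf00.shift 3 0), rhab97455c36cf7d4f] (by decide +kernel))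
noncomputable def rh41cbc986b09b21f2 : CRef := CRef.mk (Pat.mk 0x1000000010000000100000005000000040 0x1e0000001e0000007f000000ff000000de000000f000000060 11 8) 0 0 (step_sound _ 67 [rh1c4bd8c8324056d3, (rh6a56790be92093bf.shift 3 0)] (by decide +kernel))
noncomputable def rhe70c0e03ffd39081 : CRef := CRef.mk (Pat.mk 0x1000000010000000500000000000000000 0x28000000fe000000ff0000007e0000001e000000f80000001e00000018 11 8) 0 0 (step_sound _ 36 [(rh5ee4dc8825dcefa0.shift 1 0), (rh92ed3525f919a568.shift 1 0), (rhc8fd50c44a2112a0.shift 1 0), (rhe8209813ba35ab18.shift 0 1)] (by decide +kernel))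
noncomputable def rh6e6a6def41d4255d : CRef := CRef.mk (Pat.mk 0x2000000020000000a0000002a0000000000000000 0x3d0000007f000000fa0000007e0000002e0000002400000020 11 8) 0 0 (step_sound _ 66 [(rh55afc6a59410cf00.shift 1 1), rhd7334bbc12141111] (by decide +kernel))
noncomputable def rh0c2ff1b3fdec41b5 : CRef := CRef.mk (Pat.mk 0x100000005000000040000000000000000000000000 0x280000003e000000fe000000ff000001fe0000005e0000007e0000007f0000003e0000003f00000028 11 9) 0 0 (step_sound _ 196 [(rh031c560f15c5701a.shift 1 1), (rh46d322ae0e89db60.shift 3 1), (rh5f524f80c0fc524a.shift 1 3), (rhb454f509b2944098.shift 1 2), rhb579bab13446f436, (rhb8b65a59fce570ba.shift 3 3), rhe3e10377edf350ff, (rhe8209813ba35ab18.shift 0 3)] (by decide +kernel))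
noncomputable def rhdde85ec25c03aff7 : CRef := CRef.mk (Pat.mk 0x10000000500000005000000000 0x28000000fe000000ff0000007e0000001e000000dc0000007800000018 11 8) 0 0 (step_sound _ 132 [(rh1741680720c097b4.shift 3 1), (rh193da7fc9e1674f1.shift 3 0), (rh20966da26a1c2ae8.shift 3 0), (rh2e88faa7cc86f648.shift 2 0), (rh5ee4dc8825dcefa0.shift 1 0), (rhe8209813ba35ab18.shift 0 1)] (by decide +kernel))
noncomputable def rh6719bb0a99ed7ef8 : CRef := CRef.mk (Pat.mk 0x10000000500000005000000000 0x28000000fe000000ff0000007e0000001e000000dc0000007800000030 11 8) 0 0 (step_sound _ 132 [(rh1741680720c097b4.shift 3 1), (rh210928190827b327.shift 2 0), (rh5ee4dc8825dcefa0.shift 1 0), (rhe8209813ba35ab18.shift 0 1)] (by decide +kernel))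
noncomputable def rh60e6b4e21be3afbb : CRef := CRef.mk (Pat.mk 0x100000001000000010000000000000000000000000 0x28000000fe000000ff0000007e0000001e0000001800000018000000380000003800000028 11 8) 0 0 (step_sound _ 196 [(rh1741680720c097b4.shift 3 3), (rh193da7fc9e1674f1.shift 3 2), (rh20966da26a1c2ae8.shift 3 2), (rh47992774edf9829f.shift 3 0), (rh5ee4dc8825dcefa0.shift 1 2), (rhe8209813ba35ab18.shift 0 3)] (by decide +kernel))
noncomputable def rh14d693b96637ac50 : CRef := CRef.mk (Pat.mk 0x600000000000000020000000a00000000 0xa0000003e0000003f0000003f0000000e0000000e0000000e0000000a00000008 11 6) 0 0 (step_sound _ 162 [(rh04253f50b6dd0619.shift 1 1), rh50fedfad6753a41e] (by decide +kernel))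
noncomputable def rh4b43e41577668f77 : CRef := CRef.mk (Pat.mk 0x40000000100000005000000040000000000000000000000000 0x8000000380000003c000000ff000000fe0000001e000000ff0000006f0000003c0000003c00000014 11 8) 0 0 (step_sound _ 163 [(rh3bed766471413634.shift 1 3), (rh65949f6eacdb3d25.shift 0 3), (rh8c25cb665ab79ec0.shift 1 4), rhdc456310abe07244] (by decide +kernel))
noncomputable def rh1737b96c90e9c88d : CRef := CRef.mk (Pat.mk 0x1c0000001000000010 0x5000000070000002f000000fb0000003f0000001700000014 11 8) 0 0 (step_sound _ 100 [rh3b96b324c8a72896, (rh684e729394fba19d.shift 2 0), (rhdab32775f5c78fcf.shift 1 0)] (by decide +kernel))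
noncomputable def rh6c210e68b7b06e84 : CRef := CRef.mk (Pat.mk 0x1e0000000000000040000000000000000000000000 0xc7000000fe000000ce00000040000000e0000000e0000000a0 11 8) 0 0 (step_sound _ 193 [(rh3244c3cc8379b070.shift 0 5), (rhed810d1a7b588b12.shift 1 0)] (by decide +kernel))
noncomputable def rhaaf4c5a83a14b476 : CRef := CRef.mk (Pat.mk 0x400000005000000040000001600000000000000000 0x140000001c0000005c0000077f000003fe0000037f0000017c0000011c0000001c 11 11) 0 0 (step_sound _ 133 [(rh0509492c3990331c.shift 0 1), (rh0f8ec0d2915dcf38.shift 2 2), (rh10340a1d28fd3da3.shift 2 2), (rh8e1335091da3f204.shift 2 0), (rh9dc7e8e1df225de3.shift 2 2), (rhaeccced0b75c9430.shift 2 0), (rhf826af8b6e8a4ecf.shift 2 1)] (by decide +kernel))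
noncomputable def rhd19445d450c5bf4b : CRef := CRef.mk (Pat.mk 0x1800000014000000100000001000000000 0x50000000700000007000000070000001f000000ff0000001f0000001f0000000e 11 8) 0 0 (step_sound _ 99 [(rh06aa32078b6e2fc0.shift 0 2), rh632bc4bcb481628f, (rhd1f7c2d511dd814f.shift 0 2), rhdd628b13307f0925, (rhee36ccb3677e6390.shift 0 1), (rhfa4b9474fa11f414.shift 0 1)] (by decide +kernel))
noncomputable def rhf11a1d70eeb96ea3 : CRef := CRef.mk (Pat.mk 0x500000004000000140000000000000000000000000 0xa0000000f0000000f8000007df000003fe0000037f0000017c000003bc0000038000000280 11 11) 0 0 (step_sound _ 165 [(rh37ef05b9917c30fc.shift 1 2), (rh690464ee11ae899c.shift 3 3), rhbce99b5a96fa0649, (rhcea00c89c1b94c73.shift 2 3), (rhe5f37375e6838098.shift 2 2)] (by decide +kernel))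
noncomputable def rh5140ef1f801c35a1 : CRef := CRef.mk (Pat.mk 0x500000004000000140000000000000000000000000 0xa0000000b8000007ff000003fe0000037f0000015c0000039c0000038000000280 11 11) 0 0 (step_sound _ 165 [(rh37ef05b9917c30fc.shift 1 2), (rh5206030f3fbee799.shift 3 0), rh7ce9070cb69f3003, rhbce99b5a96fa0649] (by decide +kernel))
noncomputable def rhf31fdc07c7a30bbe : CRef := CRef.mk (Pat.mk 0xc000000180000001000000000000000000000000000000000 0xc0000000c0000000c0000001f0000001f0000000f0000000f0000000f00000005 11 5) 0 0 (step_sound _ 227 [(rh2145e1d24b96a57e.shift 3 4), rh773064f169cd0071] (by decide +kernel))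
noncomputable def rh500a0662fd00e438 : CRef := CRef.mk (Pat.mk 0x80000000c000000180000001000000000000000000000000000000000 0x40000000c0000000f0000001f0000001f0000000f0000000f0000000f00000005 11 5) 0 0 (step_sound _ 193 [rh773064f169cd0071, (rhb739f4f82bb681b4.shift 0 5)] (by decide +kernel))
noncomputable def rh626dfd0b2fb72981 : CRef := CRef.mk (Pat.mk 0x7000000040000000400000000000000000 0x38000000380000007f0000007e0000007f0000005c0000001c0000000c 11 7) 0 0 (step_sound _ 165 [rh227df709a1ccbb22, (rhc89253ff58c66167.shift 5 2), (rhe072fffdd2fccf38.shift 5 2)] (by decide +kernel))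
noncomputable def rhdec5f5154b510ead : CRef := CRef.mk (Pat.mk 0x80000000600000004000000058000000000000000000000000 0x140000009c000000dc0000007c0000004f0000005f0000001f0000001f00000014 11 8) 0 0 (step_sound _ 163 [(rh0a75138a5778265c.shift 3 3), rh22c9c475c792a31f, rha401b1c40b60a8ce] (by decide +kernel))
noncomputable def rh68fdaa55de536249 : CRef := CRef.mk (Pat.mk 0x600000004000000058000000400000004000000000 0x140000009c000003dc000000fc0000004f000000de000000df0000007e00000034 11 10) 0 0 (step_sound _ 199 [rh887da32ab02c40ab, (rhbaefcd01e0a8bca3.shift 6 2)] (by decide +kernel))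
noncomputable def rh61d3268fb48026c7 : CRef := CRef.mk (Pat.mk 0x600000004000000058000000000000000000000000 0xa0000000f4000000fc000000de0000007c000000ce000000df0000009f0000001f00000014 11 8) 0 0 (step_sound _ 163 [rha401b1c40b60a8ce, (rhb4fabf2d9b95b5f0.shift 3 2), (rhff8326e31a7c12c8.shift 1 4)] (by decide +kernel))
noncomputable def rhf21446266911d911 : CRef := CRef.mk (Pat.mk 0x7000000040000000400000000000000000 0x2c0000002c0000006f000000fe0000007f0000005c0000001c0000001c 11 8) 0 0 (step_sound _ 165 [rh9978ee22056470f7, (rha3df16ea9c8576c8.shift 5 2), (rhc89253ff58c66167.shift 5 2), (rhe072fffdd2fccf38.shift 5 2)] (by decide +kernel))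
noncomputable def rh6fd867ea99738df9 : CRef := CRef.mk (Pat.mk 0x7800000040000000400000000000000000 0x2c0000002c0000006f000000fc0000005c0000005c0000000c0000000c 11 8) 0 0 (step_sound _ 99 [rhc53061f4cee42c30, (rheb0810cc63b001d8.shift 2 3)] (by decide +kernel))
noncomputable def rh5562baa248aa8ec3 : CRef := CRef.mk (Pat.mk 0x10000000380000006000000020000000000000000000000000 0x60000000e0000001e0000001b0000001f80000007f0000003c000000180000001000000010 11 9) 0 0 (step_sound _ 100 [(rh4f18f09e55507f02.shift 2 2), (rhb85933af4b83d5ab.shift 4 2), (rhbcf64eb0eb8de728.shift 0 2), (rhfafeb437ceb8396d.shift 4 0)] (by decide +kernel))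
noncomputable def rhe7d8521cb83353ec : CRef := CRef.mk (Pat.mk 0x140000001000000050000000000000000000000000 0x28000001f8000000f8000000f6000000ff0000005e000000e8000000e0000000a0 11 9) 0 0 (step_sound _ 196 [(rh1741680720c097b4.shift 3 3), (rh20966da26a1c2ae8.shift 3 2), rh459b5216aa6dbdb4, (rh771d065bdc85bf2d.shift 3 2)] (by decide +kernel))
noncomputable def rhcda733e664dc241d : CRef := CRef.mk (Pat.mk 0x500000004000000140000000000000000000000000 0x140000003c0000003c0000037f000003fe000003ff00000158000003980000038000000280 11 10) 0 0 (step_sound _ 165 [(rh554009a2f490582e.shift 0 4), (rh815bae1f5176ebec.shift 3 0), (rh8ee80cc30e93a344.shift 3 4), (rhac169d91c6f94e03.shift 0 3)] (by decide +kernel))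
noncomputable def rhc2bfc4647e7fad83 : CRef := CRef.mk (Pat.mk 0x2800000020000000a0000000000000000000000000 0x48000003df000001fe000001ff000000b0000001d0000001c000000140 11 10) 0 0 (step_sound _ 164 [rh15c8475967de5585, (rh3918eeb6c53434d8.shift 0 4), (rh44c10e244ce712f2.shift 2 2), (rhc21a95c499b3efdb.shift 2 4)] (by decide +kernel))
noncomputable def rhad83dcf0835dab35 : CRef := CRef.mk (Pat.mk 0x100000001000000000000000000000000000000000 0x8000000380000003e0000007e000000ff0000003e0000001e0000007e0000007e0000003e00000028 11 8) 0 0 (step_sound _ 100 [(rh0fabbeb2cfd1512d.shift 3 0), (rh1900c1bad7e860ae.shift 1 0), (rh359c941e948f398a.shift 1 1), (rh38e1f6bd971c45d3.shift 3 1), (rh3ecaf94b42ceaacf.shift 0 2), (rh6c01c336fcd86f30.shift 1 1), (rhe163d6a73866c081.shift 3 0)] (by decide +kernel))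
noncomputable def rh3f736cd3a1d17b9c : CRef := CRef.mk (Pat.mk 0x100000001000000000000000000000000000000000 0x8000000380000003e0000007f000000fe000000ff0000001e0000003e000000ff0000003c00000028 11 8) 0 0 (step_sound _ 100 [rh001eea94b18ca57b, (rh0fabbeb2cfd1512d.shift 3 0), (rh13ca9f75479d8652.shift 0 2), (rh22a0b3f5b8bb0d7e.shift 1 0), (rh57145416ab811738.shift 1 1), (rh6c01c336fcd86f30.shift 1 1), (rha5141adeb788e906.shift 3 0)] (by decide +kernel))
noncomputable def rhf3767ec3d1ae02ac : CRef := CRef.mk (Pat.mk 0x100000001000000000000000000000000000000000 0x8000000380000003e0000007f000000fe000000ff000000180000007e0000007e0000003e00000028 11 8) 0 0 (step_sound _ 100 [(rh0fabbeb2cfd1512d.shift 3 0), (rh13ca9f75479d8652.shift 0 2), (rh1900c1bad7e860ae.shift 1 0), (rh359c941e948f398a.shift 1 1), (rh6c01c336fcd86f30.shift 1 1), (rha5141adeb788e906.shift 3 0), (rhe163d6a73866c081.shift 3 0)] (by decide +kernel))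
noncomputable def rhdb81571747dd5ddb : CRef := CRef.mk (Pat.mk 0x80000002800000000000000000000000000000000 0x40000001c0000001c0000005f000000ff000000ff0000007f0000002f0000007c0000003c0000000c00000004 11 8) 0 0 (step_sound _ 195 [(rh437e790325d667d9.shift 1 2), (rh66985b33f05f085d.shift 2 1), (rhaa071fee0731719f.shift 1 2), (rhaae63ed1df69e921.shift 1 3), (rhaf6204c18993da91.shift 0 1), rhb538c141edf97a88, (rhc42d113393796eba.shift 0 3), (rhcdb8519293f33729.shift 2 1)] (by decide +kernel))
noncomputable def rhfce4c0ac793fb0d9 : CRef := CRef.mk (Pat.mk 0x1000000010000000100000001000000000 0x2f0000003e000000770000001e0000003e00000028 11 7) 0 0 (step_sound _ 131 [(rh50fbb5868c909700.shift 3 1), rhd7793fce96443c6a] (by decide +kernel))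
noncomputable def rh43e17233bc8c8527 : CRef := CRef.mk (Pat.mk 0x800000008000000280000000800000000 0xf70000007e0000006f0000002f0000003f00000014 11 8) 0 0 (step_sound _ 34 [(rh932754581e0f4330.shift 2 0), rha82bb38aa7aea2ce] (by decide +kernel))
noncomputable def rh92bc9df16c16dde4 : CRef := CRef.mk (Pat.mk 0x800000008000000080000000800000000 0xf70000007e000000ef0000001f0000000f00000005 11 8) 0 0 (step_sound _ 34 [rh3435a487c6082bf2, (rh932754581e0f4330.shift 2 0)] (by decide +kernel))
noncomputable def rh2adc10e881b75de7 : CRef := CRef.mk (Pat.mk 0x1000000010000000500000007000000000 0xa0000000f0000000f80000005e0000007e000000cf 11 8) 0 0 (step_sound _ 35 [(rh932754581e0f4330.shift 3 0), rhdde4271a3e56c330] (by decide +kernel))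
noncomputable def rhffe41da2caae0c32 : CRef := CRef.mk (Pat.mk 0x1800000008000000280000000000000000 0xf70000007e0000006f0000002f0000003f00000014 11 8) 0 0 (step_sound _ 35 [(rh2f68792b6b779e96.shift 3 1), rh479937a4d51f754d] (by decide +kernel))
noncomputable def rh04be73c527df36e2 : CRef := CRef.mk (Pat.mk 0x800000008000000280000000800000000 0xf70000007e0000006f0000002f0000003f00000014 11 8) 0 0 (step_sound _ 130 [(rh50fbb5868c909700.shift 2 1), rhc7d40f203da1023a] (by decide +kernel))
noncomputable def rh1d67193732f40132 : CRef := CRef.mk (Pat.mk 0x800000008000000280000000800000000 0x570000007f0000007c0000002f0000007c00000074 11 7) 0 0 (step_sound _ 36 [(rh55afc6a59410cf00.shift 3 0), rhf05227a9c3803b8d] (by decide +kernel))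
noncomputable def rh6a98544e48445ca8 : CRef := CRef.mk (Pat.mk 0x800000008000000280000000800000000 0x50000002f0000007f0000002f0000007e000000f7 11 8) 0 0 (step_sound _ 130 [rh07aae9790be2878f, (rh50fbb5868c909700.shift 2 1)] (by decide +kernel))
noncomputable def rhb4bd6cea51d47044 : CRef := CRef.mk (Pat.mk 0xe000000080000002800000000 0x150000001f0000001f000000eb0000007e0000007f0000002f00000024 11 8) 0 0 (step_sound _ 100 [rh06b7da269c38e9f4, (rh300eedc557b86950.shift 1 2), (rh3a69dc315759d1b4.shift 0 1), (rhff137c455409f0e3.shift 1 0)] (by decide +kernel))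
noncomputable def rh9a484578565e3d8f : CRef := CRef.mk (Pat.mk 0x1e00000000000000080000000c00000000 0x4000000040000000e30000007e000000730000001f0000000f00000001 11 8) 0 0 (step_sound _ 101 [rh72e7ae54d52059c3, (rh96851dee118c1ba3.shift 1 3)] (by decide +kernel))
noncomputable def rh31f95ca6908156f6 : CRef := CRef.mk (Pat.mk 0x40000000500000005000000000 0xa0000007e0000003f8000007f8000001e7000000fe000000ff0000005000000050 11 11) 0 0 (step_sound _ 134 [(rh499c52f25614b48f.shift 3 0), rhad57a9bda30f13b4, (rhc85cc95794737cf7.shift 5 1), (rhd4a238285c9259d9.shift 3 0)] (by decide +kernel))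
noncomputable def rh75787c8d3c1d7ea2 : CRef := CRef.mk (Pat.mk 0x1000000008000000080000000a000000020 0x40000001c0000001c000000080000001ce000000fe0000003f 11 9) 0 0 (step_sound _ 135 [(rh2f68792b6b779e96.shift 7 1), rh90a52107acb88281] (by decide +kernel))
noncomputable def rh95b484c1d5caba96 : CRef := CRef.mk (Pat.mk 0x20000000280000002800000000 0x50000003f0000001fc000003fc000000f80000007e0000006f0000002c0000002c 11 10) 0 0 (step_sound _ 133 [(rh414ed91891327210.shift 1 0), (rh499c52f25614b48f.shift 2 0), rh678ee25ab6677b3a, rhd1f7d1941fcbb79d, (rhd4a238285c9259d9.shift 2 0)] (by decide +kernel))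
noncomputable def rh8a78ef136019c5a7 : CRef := CRef.mk (Pat.mk 0x200000002000000028000000280000000000000000 0x600000006800000078000003bf000001fe000003af0000000c00000008 11 10) 0 0 (step_sound _ 198 [rh1334922e374580bc, (rhbaefcd01e0a8bca3.shift 5 2)] (by decide +kernel))
noncomputable def rhddde39e0a85c34d8 : CRef := CRef.mk (Pat.mk 0x4000000050000000100000000000000000000000000000000000000000 0x20000000370000007f000000ff0000001f0000003f0000007c000000380000003800000028 11 8) 0 0 (step_sound _ 132 [(rh04e65bbbd8253d93.shift 0 3), (rh0fabbeb2cfd1512d.shift 3 1), rh4c598ace7c7c01b9, rh5b3ddb513af6d7bb, (rh8859c2feca56c58d.shift 1 0)] (by decide +kernel))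
noncomputable def rhd1badb3e07cc80ef : CRef := CRef.mk (Pat.mk 0xa0000000a0000000a0000000000000000000000000000000000000000 0x1000000170000001f0000001e0000001b0000001b0000000b0000000700000007000000070000000700000005 11 5) 0 0 (step_sound _ 129 [rh09a318581bdcafaa, (rh43322465c6975421.shift 0 3), (rh6eff4158bb400f47.shift 0 2), (rhe84e00c98653ad0c.shift 0 1), (rhf517b930ee0bd92d.shift 0 2)] (by decide +kernel))
noncomputable def rh708a0dda30fd00d2 : CRef := CRef.mk (Pat.mk 0x7800000010000000100000000000000000 0x140000007f0000001c0000001f0000003f0000003c 11 7) 0 0 (step_sound _ 99 [rhc2564e4e7e17c960, (rheb0810cc63b001d8.shift 2 3)] (by decide +kernel))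
noncomputable def rh585008acb9f7fdae : CRef := CRef.mk (Pat.mk 0x10000000040000001400000000000000000000000000000000 0x280000007800000078000000f8000000fc000003fe000001fc000001d60000003e0000003f0000002e0000000a 11 10) 0 0 (step_sound _ 164 [(rh447f4a6d51ee8326.shift 1 1), (rhb1362713869e4c29.shift 0 1), (rhd14a7ad9d9585f99.shift 1 1), (rhdee67538b8dccf39.shift 3 1), (rhf21d098ad8261485.shift 1 0)] (by decide +kernel))
noncomputable def rhf5404d7db94b7284 : CRef := CRef.mk (Pat.mk 0x40000000400000004000000000000000000000000000000000000000000000000 0x80000000e0000003e000000070000000e0000000c0000000c0000000e0000000e0000000e0000000a 11 6) 0 0 (step_sound _ 162 [(rh8ff3dde5b1c639e0.shift 1 3), (rhcbf9155d627aedf8.shift 1 0), (rhced6d86d2069808b.shift 2 4), (rhe1bcd80b5c7d4f4c.shift 0 4)] (by decide +kernel))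
noncomputable def rhf31550b8f77df993 : CRef := CRef.mk (Pat.mk 0x4000000010000000140000003c00000000 0x370000007e000000ff0000001c0000007c00000006 11 8) 0 0 (step_sound _ 67 [rh051f92feabb55a05, (rhf48373e13d2bc128.shift 2 1)] (by decide +kernel))
noncomputable def rh34c5eb1c3160bc97 : CRef := CRef.mk (Pat.mk 0x8000000020000000a0000000000000000000000000 0x40000001c0000001c0000001c000001fde00000ffe00000ebf000001c0000001c000000140 11 13) 0 0 (step_sound _ 135 [(rh046e4bc34261e00b.shift 2 3), (rh423772d4046081fa.shift 2 0), (rhb1810a69c36c5fc3.shift 0 2), (rhca1c8166938286b3.shift 4 0), (rhdee67538b8dccf39.shift 6 0)] (by decide +kernel))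
noncomputable def rhbe48ac153b8e0fe1 : CRef := CRef.mk (Pat.mk 0x200000002800000028000000000000000000000000 0x400000007000000070000000300000007c0000002f000000780000007000000050 11 7) 0 0 (step_sound _ 69 [(rh8a4f522f3b08096a.shift 0 1), (rh8cdd36b03d57a2f6.shift 4 0), rhb1c71edfb25a22b9, rhc9691855023d17bc] (by decide +kernel))
noncomputable def rhca66f4c6f90aa778 : CRef := CRef.mk (Pat.mk 0x3000000050000000000000004000000000 0xd0000000d0000001d8000001f7000001fe000001c70000004000000040 11 9) 0 0 (step_sound _ 101 [(rh314af695a49018ed.shift 3 2), rh4e7e77cf47fd17c1, (rh6ef7308397abfdcd.shift 4 0), (rh8ab55b40e69fd43a.shift 3 0), (rhc64f8cf05af10558.shift 4 0)] (by decide +kernel))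
noncomputable def rh059f0361f3085751 : CRef := CRef.mk (Pat.mk 0x20000000080000002800000000000000100000000000000000 0x2c0000002c000003ac000001ff000003ff000000fc00000054 11 10) 0 0 (step_sound _ 99 [(rh07c634dd1b7a5168.shift 2 2), rh260c26fb85a039e2, (rh2977b00063528966.shift 3 0), (rha822df604b29e217.shift 2 0)] (by decide +kernel))
noncomputable def rh304f08ea5f988998 : CRef := CRef.mk (Pat.mk 0x40000000100000005000000000000000200000000000000000 0x900000009000000fde000007fc0000075f0000007e000000ff0000003800000028 11 12) 0 0 (step_sound _ 100 [(rh2977b00063528966.shift 4 0), rh3c2b6e729b519421, (rha822df604b29e217.shift 3 0), (rhdda46eaef4f805d4.shift 3 1), (rhfb1836f1dfc8c0c5.shift 1 2)] (by decide +kernel))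
noncomputable def rhec6a82b5d48f35d4 : CRef := CRef.mk (Pat.mk 0x40000000100000005000000000000000200000000000000000 0x50000000500000005e000007fe000003fe000007ef000000a0 11 11) 0 0 (step_sound _ 100 [(rh260c26fb85a039e2.shift 1 0), (rh2977b00063528966.shift 4 0), (rhcf7ca03edf95ab5e.shift 0 1), (rhf5d22310555a63fd.shift 1 2), (rhfa80626feb4e9cb5.shift 1 1)] (by decide +kernel))
noncomputable def rh0858a7030efb1621 : CRef := CRef.mk (Pat.mk 0x8000000020000000a000000000000000400000000000000000 0x1000000010000001fbf00000ffe00000eae00000ffc000007fc00000fde00000140 11 13) 0 0 (step_sound _ 101 [(rh260c26fb85a039e2.shift 2 0), (rh2977b00063528966.shift 5 0), (rh4cea119b01ddfc04.shift 0 1), (rhcf7ca03edf95ab5e.shift 1 1), (rhfa80626feb4e9cb5.shift 2 1)] (by decide +kernel))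
noncomputable def rh8e63339404270500 : CRef := CRef.mk (Pat.mk 0xa0000000a0000000a0000000200000000 0x1000000170000001f0000001e0000001b0000000f0000000b0000000300000001 11 5) 0 0 (step_sound _ 32 [rh932754581e0f4330, (rhe8933f94f856dc14.shift 0 1)] (by decide +kernel))
noncomputable def rh5708af4e6616f576 : CRef := CRef.mk (Pat.mk 0x80000000a0000000a0000000200000004 0x1000000170000001f0000001e0000001a0000001a0000000b0000000700000005 11 5) 0 0 (step_sound _ 129 [rh43322465c6975421, (rhd3458b32566d63f7.shift 1 0)] (by decide +kernel))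
noncomputable def rh3a26a2cda916dbc7 : CRef := CRef.mk (Pat.mk 0x4000000010000000500000000000000070000000000000000000000000 0x800000008000000fce000007fc0000075e000001c7000000fe000001e70000002000000020 11 12) 0 0 (step_sound _ 99 [(rh3927159016129638.shift 3 0), (rh3fc3a7fb6866dcd4.shift 3 2), (rh708c3bc8fe2f3084.shift 0 2), (rhcbf806206ac61efc.shift 1 2)] (by decide +kernel))
noncomputable def rh216b5c228f86127d : CRef := CRef.mk (Pat.mk 0x20000000000000000000000078000000000000000000000000 0x100000007c0000001f000000cc00000078000000fc0000007c00000074 11 8) 0 0 (step_sound _ 70 [rh66ebb8b3d7a73be6, (rhe25b0a99195a5d59.shift 3 2)] (by decide +kernel))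
noncomputable def rh2164750057dbdc82 : CRef := CRef.mk (Pat.mk 0x20000000200000002000000040000000000000000000000000000000000000000 0x300000003000000070000001f0000000700000003000000070000000700000005 11 5) 0 0 (step_sound _ 161 [(rh55afc6a59410cf00.shift 1 4), rh61677680c61c1c2e] (by decide +kernel))
noncomputable def rh1fb8062748eeb01e : CRef := CRef.mk (Pat.mk 0x20000000200000001000000010000000000000000000000000 0x20000000300000003000000010000007be000003fe000007ef 11 11) 0 0 (step_sound _ 68 [(rh1006c02ae4212ff0.shift 4 2), rh7b82e9eb9b78d69b] (by decide +kernel))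
noncomputable def rhd1987483140504d3 : CRef := CRef.mk (Pat.mk 0x1400000014000000100000000000000000 0x8000000380000003800000038000001dc000000fc000001d60000003e0000003f00000020 11 9) 0 0 (step_sound _ 164 [(rh8ff3dde5b1c639e0.shift 3 0), (rh98b1f5f521715fac.shift 1 1), (rha3580bf64e189116.shift 1 1), (rhd6792861bc511454.shift 1 1), (rhf92c094e260f0cb7.shift 0 1)] (by decide +kernel))
noncomputable def rhd7142fa124f2e558 : CRef := CRef.mk (Pat.mk 0x400000004000000050000000400000004 0x6000000160000007e0000007c0000007f0000006400000064 11 7) 0 0 (step_sound _ 161 [rh6b75bc0151d220c4, (rhffd04209dc8ea796.shift 1 1)] (by decide +kernel))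
noncomputable def rh2f524b4d4cc97e7b : CRef := CRef.mk (Pat.mk 0x80000000a0000000a0000000800000018 0x50000001f0000007b0000001f0000000e0000000b0000000f00000019 11 7) 0 0 (step_sound _ 164 [(rhbaefcd01e0a8bca3.shift 3 1), rhbd14d3520b7183c8] (by decide +kernel))
noncomputable def rh14b3d737a6747454 : CRef := CRef.mk (Pat.mk 0x280000002800000020000000000000000000000000 0x40000005c0000007f000003780000032c000003fc000003e4000003c000000080 11 10) 0 0 (step_sound _ 69 [(rh5abfc4c9d959be03.shift 4 1), (rh9258736a7488cc35.shift 2 2), (rhced6d86d2069808b.shift 5 1), rhffc3eab72ad414c7] (by decide +kernel))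
noncomputable def rh24fba01abbde26a4 : CRef := CRef.mk (Pat.mk 0x30000000400000005000000010000000e0 0xf0000007e000000de000000f40000001e000000f8 11 8) 0 0 (step_sound _ 35 [(rh09d4dfe75d4407d6.shift 3 0), rh12eaaee68378129d] (by decide +kernel))
noncomputable def rh4fc0bb12b8c5055c : CRef := CRef.mk (Pat.mk 0x800000028000000280000000000000000000000000000000000000000 0xf0000000780000002f0000007c0000003f0000001c0000001c0000001c00000010 11 8) 0 0 (step_sound _ 131 [rh007525194f063dbc, (rh6eff4158bb400f47.shift 2 2), (rh9062f1b4a383590b.shift 0 3), (rhc8fd50c44a2112a0.shift 0 3)] (by decide +kernel))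
noncomputable def rh5f37a847c47cc606 : CRef := CRef.mk (Pat.mk 0x20000000200000002000000040000000000000000000000000000000000000000 0x2000000020000000e0000000e0000000c0000003f0000003f0000003e0000000a 11 6) 0 0 (step_sound _ 130 [rhb3b125b8c77508dd, (rhbe0e43a3bc50a43f.shift 1 4)] (by decide +kernel))
noncomputable def rh7fc1d0f831250528 : CRef := CRef.mk (Pat.mk 0x8000000040000000400000004 0x140000001c0000001c000000fc0000007f000000ff0000001c0000001c0000000c0000000400000004 11 8) 0 0 (step_sound _ 131 [(rh1006c02ae4212ff0.shift 2 0), (rh20c269708b229a0d.shift 0 1)] (by decide +kernel))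
noncomputable def rh41bc6a43edc2c8e3 : CRef := CRef.mk (Pat.mk 0x4000000020000000200000002 0xa0000003e0000003f0000003f0000000c0000000e0000000e0000000200000002 11 6) 0 0 (step_sound _ 130 [(rh1006c02ae4212ff0.shift 1 0), (rhfcb2054b994b665b.shift 0 1)] (by decide +kernel))
noncomputable def rh267d70b2e3a2a860 : CRef := CRef.mk (Pat.mk 0x34000000140000001000000010000000000000000000000000 0xa0000000e0000000e000000060000003c00000016000000160000001f0000003e0000003f00000020 11 6) 0 0 (step_sound _ 67 [rh08c118ca0b0c7081, (rh79877ebd3ef475dd.shift 3 2)] (by decide +kernel))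
noncomputable def rhaca7a15e78d4bcbd : CRef := CRef.mk (Pat.mk 0x14000000140000001000000010000000000000000000000000 0xa0000002e0000003f0000003e0000003400000016000000160000001f0000003e0000003f00000020 11 6) 0 0 (step_sound _ 67 [(rh79877ebd3ef475dd.shift 3 2), rhe59c2c7e3ec1df7a] (by decide +kernel))
noncomputable def rhf406a9b0c53ec0bd : CRef := CRef.mk (Pat.mk 0x20000000a0000000a00000008000000000 0x5000000770000003f7000007be000001e7000000b0000000b000000010 11 11) 0 0 (step_sound _ 165 [(rh1741680720c097b4.shift 4 2), (rh441cbd1b4dcc131c.shift 4 1), (rh44879776c2c6e341.shift 0 1), (rhc4526fc8abf298b6.shift 4 0), rhca64a7758cbce6c8] (by decide +kernel))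
noncomputable def rh31d81ec3b53cdf47 : CRef := CRef.mk (Pat.mk 0x8000000100000001000000010 0x140000001f0000003f0000003f0000000c0000001c0000001c0000001000000010 11 6) 0 0 (step_sound _ 131 [(rh07a8068dc8f2e5ca.shift 0 1), (rhcfdf45280693d3da.shift 3 0)] (by decide +kernel))
noncomputable def rh55945a3c0e03a20a : CRef := CRef.mk (Pat.mk 0x100000002000000020000000a0000000a00000000000000000000000000000000000000000000000000000000 0x40000001f0000001f0000001a0000001a0000000a0000001f0000007d0000001c0000001c0000001c0000001c0000001c00000014 11 7) 0 0 (step_sound _ 195 [(rh2aea2d122d965746.shift 0 6), rh2beddaa1db99bbc1, (rh772b018c11e2d4b9.shift 1 3), (rhb0f7373017cbff8c.shift 0 3)] (by decide +kernel))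
noncomputable def rhdaeec8035f5ed2d7 : CRef := CRef.mk (Pat.mk 0x80000002800000028000000000000000000000000 0x540000007c0000007f000000f8000000280000007c0000006f0000007c00000050 11 8) 0 0 (step_sound _ 195 [(rh1741680720c097b4.shift 2 3), rh7075c9edb3fcde2e, (rh84f973b8ce402bab.shift 2 0), (rh8eac6cac8aa6544c.shift 0 1), (rh9ad50898512442c9.shift 2 2)] (by decide +kernel))
noncomputable def rh63130a3536013105 : CRef := CRef.mk (Pat.mk 0x300000002000000020000000a0000000a00000008000000000000000000000000000000000000000000000000 0x130000001e0000001a0000000a0000001b0000001d0000001c0000001c0000001c0000001c0000001c00000014 11 5) 0 0 (step_sound _ 224 [(rh932754581e0f4330.shift 0 6), rha5ca4fccaf700493] (by decide +kernel))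
noncomputable def rh0cb4918646a60f96 : CRef := CRef.mk (Pat.mk 0x100000002000000020000000a0000000a00000000000000000000000000000000000000000000000000000000 0x1000000130000001e0000001a0000000a0000001f0000007d0000001c0000001c0000001c0000001c0000001c00000014 11 7) 0 0 (step_sound _ 195 [(rh2aea2d122d965746.shift 0 6), rh38b4b355ebe8e5c0, (rh772b018c11e2d4b9.shift 1 3), (rhb0f7373017cbff8c.shift 0 3)] (by decide +kernel))
noncomputable def rhe98c05360254c9f9 : CRef := CRef.mk (Pat.mk 0x2000000020000000a0000000a0000000000000000000000000 0xa000000ae000000ae000000bf000001fe000003bf0000011c00000108 11 10) 0 0 (step_sound _ 102 [(rh13104bf9491e5713.shift 4 1), (rh53a9eca71b4a4b8f.shift 4 0), rh566607750eeb6eb5, (rha9fbfd4bb8cf890b.shift 2 3)] (by decide +kernel))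
noncomputable def rhbd69a6bab0d8e958 : CRef := CRef.mk (Pat.mk 0x4000000020000000a0000001a00000002000000000000000000000000 0x1000000070000001f0000000a0000000a0000001a00000013000000170000001f00000004 11 5) 0 0 (step_sound _ 225 [rh12fd0aebd45fc14f, (rh2f68792b6b779e96.shift 1 4)] (by decide +kernel))
noncomputable def rha8418baecd683848 : CRef := CRef.mk (Pat.mk 0x1000000010000000500000000000000000000000000000000000000000 0x100000001000000018000001f80000003f00000038000000380000003800000028 11 9) 0 0 (step_sound _ 132 [(rh5d64a5765ea6b71b.shift 2 3), (rh6e33ab5aa25752db.shift 3 3), (rh8cdd36b03d57a2f6.shift 3 2), rh9eec6adf9beb73f7] (by decide +kernel))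
noncomputable def rh90813c28e8c3eaee : CRef := CRef.mk (Pat.mk 0xe00000018000000000000000000000000 0x10000000700000003e0000001f0000003b0000001f0000001f 11 7) 0 0 (step_sound _ 132 [rh3398027c85a4d1f1, (rh34b1188e635efc8d.shift 1 1), (rh3b00e9e9432b8f40.shift 0 3)] (by decide +kernel))
noncomputable def rh0e3ad85fba037b12 : CRef := CRef.mk (Pat.mk 0x20000000a0000000a00000002000000010000001000000000 0x10000000700000007000000060000000a0000000e0000001e0000001b0000001f00000014 11 5) 0 0 (step_sound _ 226 [rh44183af51dde092e, (rhbaefcd01e0a8bca3.shift 1 3)] (by decide +kernel))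
noncomputable def rhf8bd75d28b6ffdb0 : CRef := CRef.mk (Pat.mk 0x40000001400000014000000000000000000000020000000000000000000000000 0x80000000c0000001400000074000001ff000000fe000001ff000001fa000001f000000050 11 9) 0 0 (step_sound _ 133 [(rh2681c2ca7a6ff84d.shift 1 2), (rhaf419aa03ea3c470.shift 4 0), (rhcbe4425dd99f34aa.shift 3 0), (rhd4ab246f25327613.shift 4 2), (rhf7be7edcff819b27.shift 0 1)] (by decide +kernel))
noncomputable def rha8dddda3ddb5b336 : CRef := CRef.mk (Pat.mk 0x200000004000000040000001400000014000000000000000000000020000000000000000000000000 0x80000000e0000000e00000004000000040000001400000074000001ff000000fe000001ff000001fa000001f000000050 11 9) 0 0 (step_sound _ 133 [(rh1e63c8bf9f0b850e.shift 1 2), (rhaf419aa03ea3c470.shift 4 0), (rhcbe4425dd99f34aa.shift 3 0), (rhd4ab246f25327613.shift 4 2), (rhf7be7edcff819b27.shift 0 1)] (by decide +kernel))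
noncomputable def rh8dab18a763594d99 : CRef := CRef.mk (Pat.mk 0x400000004000000000000000c00000008000000000000000000000000 0x400000016000000330000007f0000007f0000007f0000001e0000000e 11 7) 0 0 (step_sound _ 100 [(rh5e9e4c8356b01a9d.shift 0 1), rhc5acd44b8ac224e6, (rhdeca8db941583de2.shift 0 3)] (by decide +kernel))
noncomputable def rh4b2e884c21f53df1 : CRef := CRef.mk (Pat.mk 0x7000000040000001400000004000000000000000000000000 0xc0000002c0000003c000000370000003e000000160000003c0000007c0000002000000020 11 7) 0 0 (step_sound _ 161 [rh6c37cd2f566c66fa, (rh7b1f1fb55310c477.shift 1 2)] (by decide +kernel))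
noncomputable def rhe5bfb9437c2f0af8 : CRef := CRef.mk (Pat.mk 0x180000001800000018000000100000000000000000 0x500000017000000170000003f0000001f0000001f000000f70000002700000005 11 8) 0 0 (step_sound _ 129 [rh18c46e274a758e84, rh1a26b1bc10e553fc, rh71a3e91147d9636b, (rh7dcc577706dd2abd.shift 0 3)] (by decide +kernel))
noncomputable def rh430dec2ad0bae7fe : CRef := CRef.mk (Pat.mk 0x80000002800000008000000180000000000000000 0x68000000780000002f000000ff000000fb0000000f0000000e 11 8) 0 0 (step_sound _ 100 [rh0394978072d88dc9, (rh2145e1d24b96a57e.shift 3 2)] (by decide +kernel))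
noncomputable def rh265bb43eb0a2acb6 : CRef := CRef.mk (Pat.mk 0x2000000020000000200000002000000000 0xc0000000c0000001e000001fe0000003e0000007f0000003e0000002a 11 9) 0 0 (step_sound _ 132 [(rh50fbb5868c909700.shift 4 1), rh6fc8a0c09bd34ae9] (by decide +kernel))
noncomputable def rh60edaf255ccfe7d9 : CRef := CRef.mk (Pat.mk 0x20000000a0000000200000002000000000 0x500000007000000070000000b0000000f7000000be000001f70000006000000020 11 9) 0 0 (step_sound _ 132 [(rh50fbb5868c909700.shift 4 1), rh8caf68515d9c3346] (by decide +kernel))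
noncomputable def rhdb0085afabd33c23 : CRef := CRef.mk (Pat.mk 0x10000000100000001000000018000000000000000000000000 0x100000003c0000001f000000ff0000007f000000160000001600000004 11 8) 0 0 (step_sound _ 131 [rh0f913583b6d84add, (rh5c5e593799055d58.shift 3 3)] (by decide +kernel))
noncomputable def rh12a39daf80ebf8c1 : CRef := CRef.mk (Pat.mk 0x400000004000000060000000000000000000000000 0x740000007c000001fc0000007f000003fe0000039f0000001800000010 11 10) 0 0 (step_sound _ 100 [(rh6a7f0c52f102bbac.shift 1 0), (rh8254970f63d795d3.shift 3 0), (rh963feb3689400c88.shift 2 2), (rhbda7f9bce9e1115c.shift 2 2), (rhdb8c22d4d1cd9346.shift 0 1), (rhdc58577e8661f30f.shift 2 2), (rhf7c67434615c489e.shift 1 2)] (by decide +kernel))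
noncomputable def rh099b3cc5a12811dd : CRef := CRef.mk (Pat.mk 0x8000000080000001e00000000000000000000000000000000 0x60000000e0000000f0000001e00000037000000170000001700000003 11 6) 0 0 (step_sound _ 161 [rh197223299c4fe996, (rh3244c3cc8379b070.shift 0 4)] (by decide +kernel))
noncomputable def rh7c77dda7c0412795 : CRef := CRef.mk (Pat.mk 0x400000014000000070000000000000000000000000 0x300000013c0000017c00000177000003fe000007bf0000023000000230 11 11) 0 0 (step_sound _ 103 [(rh06db8ceda6269a47.shift 3 2), (rh58fd1360b5efe236.shift 3 0), (rh61f918dfd48e4d6c.shift 3 0), (rh6a5aad1075fb7119.shift 4 2), rhe00b30ab9f6ee636] (by decide +kernel))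
noncomputable def rhc97e819cd8df4d40 : CRef := CRef.mk (Pat.mk 0x600000004000000000000000f000000000 0x70000007e000000ef0000001c000000fc0000000e 11 8) 0 0 (step_sound _ 67 [(rh3f8766e6ecb455ce.shift 3 1), rh6b544c281357750e] (by decide +kernel))
noncomputable def rhb1e3d0397b2595bb : CRef := CRef.mk (Pat.mk 0x8000000080000000e0000000000000000000000000 0xf0000001f0000000bf000000fe0000007f0000007c00000078 11 9) 0 0 (step_sound _ 100 [(rh37f4248aafaface3.shift 2 0), (rh775ca1963e850b80.shift 2 2), (rhbc480da883e5c456.shift 2 0), (rhbc8629ac803144db.shift 1 0), (rhcead13b46599db51.shift 1 0), rhdd6bd1e3d6c59b64, rhdecf5814855ea7d6] (by decide +kernel))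
noncomputable def rh035207063b46f438 : CRef := CRef.mk (Pat.mk 0x600000001000000050000000000000000000000000 0x8000000080000001d8000001f00000007c0000005e000000fc000000ff0000000c 11 9) 0 0 (step_sound _ 133 [(rh0bb882ba86b2372d.shift 2 4), (rh574fdbf07bdd18b9.shift 2 4), (rhcfd1fcf13019b5f0.shift 1 1), rhd50eeccf95afa9a4] (by decide +kernel))
noncomputable def rh1133a91a2b4f94fd : CRef := CRef.mk (Pat.mk 0xe000000000000000000000000 0x3000000038000000380000007f0000003e000000780000003000000030 11 7) 0 0 (step_sound _ 100 [(rh3fc3a7fb6866dcd4.shift 1 2), rh5dcc6d826b989b92, (rhb18e6c78a554867d.shift 0 3), (rhe401600d466b97cd.shift 0 2)] (by decide +kernel))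
noncomputable def rhff86be685d26e338 : CRef := CRef.mk (Pat.mk 0x600000001000000050000000000000000000000000 0x900000009000000198000001f0000001fc0000005e000000fc000000ff0000000c 11 9) 0 0 (step_sound _ 133 [(rh0bb882ba86b2372d.shift 2 4), rh48b850142f7843aa, (rh574fdbf07bdd18b9.shift 2 4), (rh58143bc52b108d9e.shift 3 2), (rhe7cc21f98a93c83e.shift 3 1)] (by decide +kernel))
noncomputable def rh23d872c397b0c38f : CRef := CRef.mk (Pat.mk 0x400000008000000080000000a0000000000000000 0x10000000b8000000fc000000ee000003fb000001fe000003fe0000006000000060 11 10) 0 0 (step_sound _ 100 [rh4d4c84c57ec8af9e, (rhc5febebb7babee24.shift 2 2), (rhf6ba6a468fba9a5a.shift 1 0)] (by decide +kernel))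
noncomputable def rh67c152fc4eb38d3d : CRef := CRef.mk (Pat.mk 0x1000000008000000080000000a00000002 0x40000001c0000001c00000008000001fc000000fe000000e3 11 9) 0 0 (step_sound _ 131 [(rh2f68792b6b779e96.shift 3 1), rh3c7fc76995be50d1] (by decide +kernel))
noncomputable def rh0552cec30f153125 : CRef := CRef.mk (Pat.mk 0xa000000020000000a000000000000000000000000 0x50000003f0000001f0000001e0000000e0000000b000000070000000700000004 11 6) 0 0 (step_sound _ 193 [(rh1741680720c097b4.shift 0 3), (rha78b327dad5d6a04.shift 0 1), rha935f04428b9b3d7, rhbd6f5530fa7defd8, (rhc66073bed5be7c9c.shift 0 3)] (by decide +kernel))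
noncomputable def rh0f45755c94e687df : CRef := CRef.mk (Pat.mk 0xa000000020000000200000000 0xa0000003e0000003f0000003f0000007c0000003e000000770000000200000002 11 7) 0 0 (step_sound _ 98 [(rh352b7f91eba0c81f.shift 0 2), rheb4851825dcec115] (by decide +kernel))
noncomputable def rh0825c1c1dbe7fd72 : CRef := CRef.mk (Pat.mk 0xa000000020000000a000000000000000000000000 0x50000003f0000001f0000001a0000000b0000000b000000070000000700000004 11 6) 0 0 (step_sound _ 193 [(rh0fd870c734e6c513.shift 0 2), (rh1741680720c097b4.shift 0 3), (rh3b734c5288922837.shift 0 2), rhbd6f5530fa7defd8] (by decide +kernel))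
noncomputable def rh2f4d0fa07652619a : CRef := CRef.mk (Pat.mk 0x8000000020000000a000000060000000000000000000000000 0xa000000ae000000ae000000bf000001fe0000039f0000001c00000018 11 10) 0 0 (step_sound _ 103 [(rh383598045977c91e.shift 3 2), (rh713c4f6a802cbedf.shift 4 2), (rha9fbfd4bb8cf890b.shift 2 3), rhe49cdbfb7316272d] (by decide +kernel))
noncomputable def rhe4082c71ae985637 : CRef := CRef.mk (Pat.mk 0x2000000020000000e0000000400000000000000000 0xa0000000e0000002e0000003f000000fe000001df0000005c00000048 11 9) 0 0 (step_sound _ 38 [rh3ddda49292363ef4, (rh7b1f1fb55310c477.shift 5 0)] (by decide +kernel))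
noncomputable def rh376b4ea204b505c0 : CRef := CRef.mk (Pat.mk 0x100000001000000010000000100000001000000000 0x60000001f0000001f0000003f0000007f0000001f00000014 11 7) 0 0 (step_sound _ 131 [(rh50fbb5868c909700.shift 3 1), rh78091bd5486e249c] (by decide +kernel))
noncomputable def rh76e9f81b7dad0019 : CRef := CRef.mk (Pat.mk 0x8000000020000000a0000000000000000000000000 0x40000001c0000001c0000001c000001fee00000ffe00000ebf000001c0000001c000000140 11 13) 0 0 (step_sound _ 135 [(rh44ba5831b6e2c8bc.shift 2 0), (rh46d322ae0e89db60.shift 6 0), (rh569774833124f14a.shift 0 3), (rhca1c8166938286b3.shift 4 0)] (by decide +kernel))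
noncomputable def rhbd89b23f469d40bb : CRef := CRef.mk (Pat.mk 0x200000002800000028000000000000000000000000 0x400000007000000070000000300000007c0000002f000000780000007000000050 11 7) 0 0 (step_sound _ 69 [(rh6eff4158bb400f47.shift 4 0), (rh8a4f522f3b08096a.shift 0 1), (rh8ff3dde5b1c639e0.shift 4 0), (rhc4526fc8abf298b6.shift 4 0)] (by decide +kernel))
noncomputable def rh814d838f259020d9 : CRef := CRef.mk (Pat.mk 0x20000000200000000000000040000000000000000000000000000000000000000 0x5000000070000000700000002000000030000000300000007000000070000000700000007000000070000000700000005 11 3) 0 0 (step_sound _ 193 [(rh2977b00063528966.shift 1 3), (rh7814e101873e2401.shift 0 5), rhf9264ece1b0c14ca, (rhfdf5a1538ca00658.shift 0 2)] (by decide +kernel))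
noncomputable def rhd968d4a35364e76a : CRef := CRef.mk (Pat.mk 0x40000000000000002000000020000000000000000000000000000000000000000000000000 0x400000006000000070000003fc000001fe000003ff000001f0000000700000006000000040 11 10) 0 0 (step_sound _ 165 [(rh80034323f0b41c9e.shift 2 0), (rh857dfc5931a46fec.shift 3 2), (rha91a00b542328b7c.shift 5 4), (rhb0f7a2f757f4e5d2.shift 4 3), (rhc323f079eb0306d1.shift 0 4)] (by decide +kernel))
noncomputable def rh0125b1682efa6e4f : CRef := CRef.mk (Pat.mk 0x40000001400000000000000080000000800000000000000000000000000000000 0x14000000140000003f0000007f0000007f000000670000000e0000000e0000000a 11 7) 0 0 (step_sound _ 162 [rhfe28b014509d98cf, (rhff0f29cb645b05f7.shift 2 4)] (by decide +kernel))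
noncomputable def rh977b8e3431a4c8b9 : CRef := CRef.mk (Pat.mk 0x1000000010000000100000001000000000000000000000000000000000 0x180000001e000000ff000000ff0000001e0000003e0000003800000028 11 8) 0 0 (step_sound _ 100 [(rh434711b23ee3417c.shift 0 2), (rh47992774edf9829f.shift 3 0), (rh7928877f9bf74a91.shift 3 2)] (by decide +kernel))
noncomputable def rh5e08e0086f0ee4d7 : CRef := CRef.mk (Pat.mk 0x6000000080000000a0000000a00000000 0x4000000a7000000f7000000f3000003fe000003fe000007fb0000006b00000063 11 11) 0 0 (step_sound _ 100 [rh3820aa2231c97288, (rh3b9631c334c5dc8f.shift 1 0), rh6c33ea1677f40c0b, (rhd642a642013659de.shift 1 2)] (by decide +kernel))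
noncomputable def rha2ed346a25198c4c : CRef := CRef.mk (Pat.mk 0x2000000040000000100000005000000000 0x280000003e0000003e0000007ff000007fe00000fd7000001d00000005000000040 11 12) 0 0 (step_sound _ 134 [(rh1598332673d9bd40.shift 3 1), (rh3558deb219ab9504.shift 0 1), (rh4543a8e047d972ae.shift 2 0), (rh5cdcb5e9bcf1448e.shift 2 1), (rh7430eda27da4505a.shift 2 1), (rhbd2f7da865030f4f.shift 4 1)] (by decide +kernel))
noncomputable def rhddea3d9d82b29e82 : CRef := CRef.mk (Pat.mk 0x280000000800000028000000000000000000000000 0x140000005c0000005c000000cc000000780000007f0000002c0000003c0000001c00000010 11 8) 0 0 (step_sound _ 195 [(rh1726a00b0a8befd0.shift 2 2), (rh1d8c01cc4bee9202.shift 0 2), (rh771d065bdc85bf2d.shift 2 2), (rh7e5b794f987cfed8.shift 2 2), (rha935f04428b9b3d7.shift 2 0)] (by decide +kernel))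
noncomputable def rhd5bccbd57600e97d : CRef := CRef.mk (Pat.mk 0x20000000a000000020000000a000000000000000000000000 0x3d0000001f0000001a0000000a0000000b000000070000001f00000004 11 6) 0 0 (step_sound _ 64 [(rh79877ebd3ef475dd.shift 0 2), rh8ce8e775a73145b5] (by decide +kernel))
noncomputable def rhd366493d35abb880 : CRef := CRef.mk (Pat.mk 0xa000000020000000a00000000 0x4000000170000003f0000003f0000001e0000001f0000000b00000009 11 6) 0 0 (step_sound _ 129 [rh20966da26a1c2ae8, rh771d065bdc85bf2d, rh7e5b794f987cfed8, (rhc66073bed5be7c9c.shift 0 1)] (by decide +kernel))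
noncomputable def rh45ba8b7bb5caf91a : CRef := CRef.mk (Pat.mk 0x28000000000000000000000000000000000000000000000000000000000 0x28000000f8000007fe00000ffe00000ffe00001eff000003fe00001fff00001ffc00001ffe00000ffc000007f80000070000000500 11 13) 0 0 (step_sound _ 230 [(rh46c549807b721708.shift 1 1), (rh5057c5e28eee9362.shift 1 2), (rh58b46811ec0a3793.shift 4 4), (rh608df36a611b0b8a.shift 1 2), (rh70dc3b864be67fb8.shift 4 4), (rh795d26cf1baebb2c.shift 5 2), (rh963aa7a74cb4fabb.shift 4 2), rh99a04c523c5a4754, (rha73787e6860a2b29.shift 3 2), (rhdef0f5a785b51d29.shift 2 2), (rhdfd09c0af5646911.shift 3 2)] (by decide +kernel))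
noncomputable def rh32ffff61a5ff7492 : CRef := CRef.mk (Pat.mk 0x280000000000000000000000000000000000000000000000000 0x500000007e0000007e800000ffc00001ffc00001ffc00001fff000003fe00001eff00000ffe00000ffe000007fe000000b800000028 11 13) 0 0 (step_sound _ 198 [(rh309f35990ae25ed6.shift 4 2), (rh346b1c5acaab23da.shift 1 1), (rh3da521080a0a6e14.shift 5 2), (rh42e01a5e316f9d93.shift 3 1), (rh74c0d0ea32d1f79c.shift 2 1), (rh7a53587baba15601.shift 4 3), rh9407c7524a8fb65d, (rha13921d8f1c3de6a.shift 3 1), (rhbe33e976bbb40535.shift 4 3), (rhc83a9eb1860ce765.shift 2 1), (rhd1cd725f01472f20.shift 1 2)] (by decide +kernel))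
noncomputable def rhc4abf567ca9f6be9 : CRef := CRef.mk (Pat.mk 0x5000000000000000000000000000000000000000000000000000000000 0x80000000e0000000f8000007fc000007ff000007ff000007ff00000378000007fe000007ff000007ff000007fc000001fc000001e000000080 11 11) 0 0 (step_sound _ 229 [(rh0f4be7c76c16f330.shift 2 2), (rh14f8b58283630551.shift 2 2), (rh28761fffef389fea.shift 0 2), (rh447287c49d42a323.shift 2 3), (rh61c3bef609871c58.shift 2 3), (rh79e05f8a350a72b7.shift 0 2), (rh7baf329dcbed23b5.shift 2 3), (rh7fa8b6c2fdaa29d8.shift 1 2), rh8c18e68472d28fe6, (rh9ba4cc3d0a6f67f0.shift 2 3), (rha2688da6cc112085.shift 2 3), (rha5e32e0d354b4c31.shift 0 3), (rhae80d98e0fd1fe1b.shift 2 2), (rhba1586d7026d4c61.shift 0 2), (rhbab08290a2bc3f53.shift 2 2), (rhbce6995f1471c3b1.shift 2 3), (rhc2940e4e3a4ae67e.shift 2 3), (rhe1ed1b942074016c.shift 2 2), (rheccf86de6a334597.shift 2 3)] (by decide +kernel))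
noncomputable def rh7a435a195e91c9f3 : CRef := CRef.mk (Pat.mk 0x1c0000000000000000000000000000000000000000 0x800000008000001de000000fe000001f70000003e0000007e0000000e0000000a 11 9) 0 0 (step_sound _ 165 [(rh185f35b8bd8ec37f.shift 0 4), (rh394e80a462af5b2f.shift 1 4), (rh43dc67402634d54f.shift 1 3), (rhb143c7a3e93df405.shift 2 4), (rhbb5d0a0ce56a127f.shift 1 0)] (by decide +kernel))
noncomputable def rh75ee20533cbed044 : CRef := CRef.mk (Pat.mk 0x18000000000000001000000030 0xf0000000f0000003ff000001fe000003e70000003000000030 11 10) 0 0 (step_sound _ 101 [(rh1e22460046f90c99.shift 2 0), (rhae8f7fee462ac9ae.shift 1 2), rhb06c8efa7c6e06b2, (rhbdb6460e9602b732.shift 1 0), rhead8422d3b58f0fb, (rhf62d664b2a48ccda.shift 2 0), rhf8d322467fcc9522, (rhfae129319be76921.shift 0 2)] (by decide +kernel))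
noncomputable def rhf64f8274668450f1 : CRef := CRef.mk (Pat.mk 0xe0000000200000000000000000 0x4000000060000000ef000000fe000007bf000003f8000007fc 11 11) 0 0 (step_sound _ 134 [(rh75017e427da24447.shift 1 0), (rh9425a04aa0913a11.shift 1 0), rhabbac99088262f39, (rhf9366b6a121593ef.shift 5 0)] (by decide +kernel))
noncomputable def rhfbc1ca2ea0b12028 : CRef := CRef.mk (Pat.mk 0x80000000a0000000800000000000000000000000000000000 0x800000008000000fb000000ff0000007f0000007c0000003c0000003c 11 8) 0 0 (step_sound _ 99 [(rh5c63d134ac67e358.shift 2 0), (rh606072a364810b10.shift 0 2), (rh641b5241be04eec6.shift 0 2), (rh8cdd36b03d57a2f6.shift 2 1), rhe19bae7253879206] (by decide +kernel))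
noncomputable def rh1c06509ff81e5861 : CRef := CRef.mk (Pat.mk 0xe0000000200000008000000000000000000000000 0x40000001c0000001c0000001c0000000c0000001e0000007a000000ff000000ff000001fc00000014 11 9) 0 0 (step_sound _ 131 [(rh324cae9c9aadbbbd.shift 0 2), (rh56259dd1390eee46.shift 2 0), (rhb1a251d9bff81766.shift 2 2), rhfb272c37a7e6d965] (by decide +kernel))
noncomputable def rhf95b5f57ba8eab79 : CRef := CRef.mk (Pat.mk 0x1e0000000200000002000000000000000000000000 0xb0000001e0000003a000000160000003f0000003700000021 11 6) 0 0 (step_sound _ 132 [rh698d3d662887b176, (rhe25b0a99195a5d59.shift 1 4)] (by decide +kernel))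
noncomputable def rh80379864434d3262 : CRef := CRef.mk (Pat.mk 0x300000001800000010000000000000000000000000000000000000000000000000 0x4000000340000001e000001ff000001ff000003fe0000003e000000380000003800000028 11 10) 0 0 (step_sound _ 226 [(rh53b3c253cb0c65f4.shift 1 7), rh72a53909658eb7d9] (by decide +kernel))
noncomputable def rhd12cd0c70e57f28f : CRef := CRef.mk (Pat.mk 0x380000000800000000000000000000000000000000 0x10000000140000003f000000f8000000e80000007c000000fc0000001c00000014 11 8) 0 0 (step_sound _ 99 [(rh1b9022be4f7af407.shift 2 0), (rh215e11e099257d75.shift 3 2), (rh8ad8b9fd24a5d66e.shift 0 2), (rh8b0d2795e3692bc4.shift 2 1)] (by decide +kernel))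
noncomputable def rh509963cc58cf8c5d : CRef := CRef.mk (Pat.mk 0x3c0000002400000020000000000000000000000000 0x200000002000000270000003e00000024000003fc000000fe0000007000000010 11 10) 0 0 (step_sound _ 193 [rh3604e2139c09136d, (rh3f8766e6ecb455ce.shift 1 5)] (by decide +kernel))
noncomputable def rh68ad02b8e90471ca : CRef := CRef.mk (Pat.mk 0x1c000000020000000000000000000000000 0xc000001ef0000007e0000007f0000000e0000000e 11 9) 0 0 (step_sound _ 100 [rh92fcce1eb30b23fe, (rhca9569cc80abfe76.shift 4 3)] (by decide +kernel))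
noncomputable def rhd90e45dcd94157a0 : CRef := CRef.mk (Pat.mk 0x380000002000000000000000000000000000000000 0x1000000070000000700000007000000030000000380000006f000003fe000003ff000007f000000050 11 11) 0 0 (step_sound _ 101 [(rh56259dd1390eee46.shift 4 0), (rhb1a251d9bff81766.shift 4 2), (rhc9f4de4124787141.shift 0 2), (rhf7abee39bcd1851e.shift 2 0)] (by decide +kernel))
noncomputable def rhdbb9faa3580110fc : CRef := CRef.mk (Pat.mk 0x600000004000000000000000000000000000000000 0x2000000028000001ff000003fe0000037f00000ff8000003e0000007e0000003e0000000e000000020 11 12) 0 0 (step_sound _ 135 [(rh4ca5dae25f5c14ff.shift 3 4), rh8ce481b4b417295c, (rhdeca8db941583de2.shift 3 4), (rheef1acc465a130ff.shift 4 1)] (by decide +kernel))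
noncomputable def rh732e32887322c6c0 : CRef := CRef.mk (Pat.mk 0x600000004000000000000000000000000000000000 0x54000001fc000003ff0000037c000007fc000003ec0000037c0000007c0000003c00000034 11 11) 0 0 (step_sound _ 197 [(rh5d54cb79a67f97ab.shift 5 2), rh72c9e462779a0226, (rh93451e8fad1a0716.shift 3 1), (rha40d42a2e34c408d.shift 5 2)] (by decide +kernel))
noncomputable def rh718a1d30d026f00d : CRef := CRef.mk (Pat.mk 0xc0000000800000000000000000000000000000000 0x100000001c0000007c0000006c0000007f0000007c0000007f0000001f0000001c00000014 11 7) 0 0 (step_sound _ 132 [(rh4ca5dae25f5c14ff.shift 0 4), (rh558284e5849b49be.shift 1 1), rhcca90f4a80daaa7f, (rhdeca8db941583de2.shift 0 4)] (by decide +kernel))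
noncomputable def rhbde021ecfa320c65 : CRef := CRef.mk (Pat.mk 0x600000004000000000000000000000000000000000 0x54000000dc000000fe000003fc0000037f000003fc000003ee000003fc000003dc0000038000000280 11 10) 0 0 (step_sound _ 197 [(rh23f704302be3ba3d.shift 2 0), (rh5d54cb79a67f97ab.shift 5 2), (rha40d42a2e34c408d.shift 5 2), (rhf192c80d0a3463f1.shift 0 2)] (by decide +kernel))
noncomputable def rh63673e828c5c74e7 : CRef := CRef.mk (Pat.mk 0x6000000040000000000000000000000000 0x38000001ff000003fe0000037f00000ff8000003e0000007c0000003f0000001e0 11 12) 0 0 (step_sound _ 103 [(rh4ca5dae25f5c14ff.shift 3 3), rh99942ea56eb44264, (rhdeca8db941583de2.shift 3 3), (rheef1acc465a130ff.shift 4 0)] (by decide +kernel))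
noncomputable def rh0f18db4f2786a9ba : CRef := CRef.mk (Pat.mk 0x3000000020000000000000000000000000 0x60000000f8000000fa0000003e000000fe000000770000007e0000007f00000018 11 8) 0 0 (step_sound _ 164 [(rh5d54cb79a67f97ab.shift 4 1), (rh93451e8fad1a0716.shift 2 0), (rha40d42a2e34c408d.shift 4 1), (rhc22e051810859078.shift 0 1)] (by decide +kernel))
noncomputable def rh03f1d8209c245f57 : CRef := CRef.mk (Pat.mk 0x300000002000000000000000000000000000000000 0x1080000039f000001fe000007f7000001f4000007fc000001f000000150 11 11) 0 0 (step_sound _ 163 [(rh23902ceb31b1817e.shift 0 2), (rh6f7f5b37a4795d10.shift 2 0), (rh8ee80cc30e93a344.shift 2 4), (rhc21a95c499b3efdb.shift 2 4)] (by decide +kernel))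
noncomputable def rh86f46f9b78e4e0e2 : CRef := CRef.mk (Pat.mk 0xc000000080000000000000000000000000000000000000000 0x40000001c0000001c0000001c0000002e0000007f00000078000000ff000000ff0000007c0000001c00000014 11 8) 0 0 (step_sound _ 131 [(rh3a5187c0134b904b.shift 0 1), (rh56259dd1390eee46.shift 2 1), (rh5ad0000f5e6995cd.shift 2 0), (rh8fa4e731ebb109bd.shift 2 0), (rhd080e72f4011b8aa.shift 0 3)] (by decide +kernel))
noncomputable def rhbf7fa886fc7c1f70 : CRef := CRef.mk (Pat.mk 0x6000000040000000000000000000000000 0x7c000002fc000003fc00000fff000007fe00000f7f000003fc00001fee00001fbc00001fbc000002b4 11 13) 0 0 (step_sound _ 104 [rh04442ea92ae02442, (rh28178f1aa74e653e.shift 3 0), (rh8c25cb665ab79ec0.shift 3 3), (rhcb03d3453eecc542.shift 5 0)] (by decide +kernel))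
noncomputable def rh6174a4abf918518f : CRef := CRef.mk (Pat.mk 0x600000004000000000000000000000000000000000 0x14000001fc000001fc0000007c000001fc0000076f000003fe000007ff0000003400000020 11 11) 0 0 (step_sound _ 197 [(rh5d54cb79a67f97ab.shift 5 2), (rh93451e8fad1a0716.shift 3 1), (rha40d42a2e34c408d.shift 5 2), rhc4c11ae0da97fb15] (by decide +kernel))
noncomputable def rhf44c7a4ff278a346 : CRef := CRef.mk (Pat.mk 0x30000000200000000000000000000000000000000000000000 0x100000001d0000001f8000001f8000003af00000ffe00000ff700000ffe00000ffc000003fe000003d0000003c0 11 12) 0 0 (step_sound _ 195 [(rh23902ceb31b1817e.shift 0 3), (rh452ce5bd572c1fba.shift 1 0), (rh8ee80cc30e93a344.shift 2 5), (rhc21a95c499b3efdb.shift 2 5)] (by decide +kernel))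
noncomputable def rhb0b1ac1e5442b05e : CRef := CRef.mk (Pat.mk 0xc00000000000000000000000000000000000000000 0x20000000f8000000f8000003fe000007ff000003ff00000eff000007fc00000f7e000003fc000003fc000000fc00000028 11 12) 0 0 (step_sound _ 198 [(rh11af2fe1d8b5db85.shift 2 1), (rh1bc02feb33d81db1.shift 2 1), (rh2834345c38cfb86a.shift 2 1), (rh403b4cafe214ee8e.shift 1 0), (rh55e55d4c71555cab.shift 1 2), (rh760c8157162f597f.shift 3 1), (rh77b6aa865e4a5d09.shift 1 2), (rh9e46f00e38587da3.shift 1 2), (rha01301089e813053.shift 1 0), (rhac50d3c34553a79a.shift 3 1), (rhecff6547dbba9f86.shift 1 2), (rhf2fe88d300a9ff0d.shift 0 1)] (by decide +kernel))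
noncomputable def rhe31d994e3800165d : CRef := CRef.mk (Pat.mk 0x6000000000000000000000000000000000000000000000000000000000 0x38000000f8000000f80000075f000007ff00000fff000003ff000003ff000001ff0000017c0000003c00000028 11 12) 0 0 (step_sound _ 228 [(rh0aa5eaa0cc3bb989.shift 1 6), (rh17782ea4ae703318.shift 0 3), (rh2a3dc4f1a4f66ecd.shift 0 3), (rh43d507abd14ea62b.shift 2 2), (rh64043e6a4f0cbd7c.shift 1 6), (rh737ff425fbe2b42e.shift 0 3), (rh8e0009a1c4bf8293.shift 0 4), rha56feb5f1c0c4c5f, (rhab8be96404518b63.shift 2 2), (rhd05a19ff40a682cb.shift 1 6), (rhd53c56968a9322a5.shift 1 6), (rhebb5a55e23aa4d55.shift 1 3)] (by decide +kernel))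
noncomputable def rhc51b228efa6e1e60 : CRef := CRef.mk (Pat.mk 0x10000000100000001000000000 0x3000000038000001fc000000fe000001ff0000007f0000001f0000001c 11 9) 0 0 (step_sound _ 131 [(rh0dbc8abee7ad42d4.shift 3 0), rh45b3212e6a922a37, (rhbec796c3ea7a32e6.shift 2 0)] (by decide +kernel))
noncomputable def rh2f2cc37006db624b : CRef := CRef.mk (Pat.mk 0x800000008000000080000000000000000000000000 0x60000001e0000000ff000003fe000003ff000001f0000007f0000001c000000040 11 11) 0 0 (step_sound _ 166 [(rh333cc16991020863.shift 0 2), (rha72523854160a5e5.shift 4 0), (rhf9a6286f1d5377a2.shift 6 2)] (by decide +kernel))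
noncomputable def rh6f17b9256963862f : CRef := CRef.mk (Pat.mk 0x40000000400000004000000000 0xb0000000b8000007ff000007fe000001ff000000fc00000078 11 11) 0 0 (step_sound _ 101 [rh4ee2bd7d9655410b, (rh73bc9577b3348a52.shift 2 0), (rhb1a251d9bff81766.shift 5 0)] (by decide +kernel))
noncomputable def rh2563a3292a85f3a4 : CRef := CRef.mk (Pat.mk 0x400000004000000040000000000000000000000000 0x1000000038000000bc000001fc000001ff000000ff000001ff000000f8000000b8 11 9) 0 0 (step_sound _ 37 [(rh2a3f83f36967c785.shift 5 0), rh95e3e31f5a887160, (rh97bd62662717f3a7.shift 5 0), (rhbf369c614a0ea509.shift 2 0), (rhebbfc1325fb53d6f.shift 5 0)] (by decide +kernel))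
noncomputable def rh6c82e4262efdc3f6 : CRef := CRef.mk (Pat.mk 0x80000000800000010000000000000000000000000 0xe0000000f0000007f0000003e000000fc000001ff000000fc000003fe 11 10) 0 0 (step_sound _ 132 [rh5145d58004b203a9, (rha40d42a2e34c408d.shift 3 1), rhad729251c26bb374] (by decide +kernel))
noncomputable def rhd0d6d0836835962f : CRef := CRef.mk (Pat.mk 0x1000000010000000200000000000000000 0xc0000003c0000007f000000ff0000003f000000fa0000003e00000018 11 8) 0 0 (step_sound _ 68 [(rh067a64cbf1611a87.shift 1 1), (rh85fe8bf98f55243d.shift 3 1), rhdeb7663784bca1ec] (by decide +kernel))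
noncomputable def rh08e3a7d76d2c8ee7 : CRef := CRef.mk (Pat.mk 0x800000008000000100000000000000000000000000000000000000000 0x40000001c0000001c0000001f0000003f0000003f0000000c0000003c0000003c00000030000000fc000000fc000000f800000028 11 8) 0 0 (step_sound _ 132 [(rhdb4fa2740652dc70.shift 2 0), (rhdeec3bc2a8e1e9dd.shift 3 2), (rhedfee97021e0973c.shift 0 4)] (by decide +kernel))
noncomputable def rh6ab0f5c59826000e : CRef := CRef.mk (Pat.mk 0x20000000200000004000000000000000000000000000000000 0x7000000070000007fc000003ff000003fe000000fc000003f0000007b0000000700000007000000050 11 11) 0 0 (step_sound _ 229 [(rh33e98d0e97205a3e.shift 4 4), rh3d097389d38cda03, (rh92a1d446486dcf81.shift 2 2), (rh9c0d688c65ab658d.shift 2 4), (rhaf349dd7709502bf.shift 4 4)] (by decide +kernel))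
noncomputable def rh0d3a575f6c586c6a : CRef := CRef.mk (Pat.mk 0x800000008000000100000000000000000000000000000000000000000 0x140000001c0000001c0000001c0000003c0000007f0000000f0000007c0000001f0000001c0000001c0000001c00000010 11 7) 0 0 (step_sound _ 163 [(rh067a64cbf1611a87.shift 0 4), (rh1779f98266d6b43c.shift 0 4), rh429e98559a583c2f, (rheec74041fb492c41.shift 0 3)] (by decide +kernel))
noncomputable def rhe34f6fbfd95f690f : CRef := CRef.mk (Pat.mk 0x1000000010000000200000000000000000000000000000000000000000 0x2000000060000001e8000001fe0000007e000003f8000003fe000003ff000001f8000001f800000050 11 10) 0 0 (step_sound _ 133 [rh418f1026bcfe6511, (rh74a43b9a483760f6.shift 4 2), (rhb11a332281ceecc6.shift 4 0), (rhbef11541999dddf9.shift 0 1), (rhdfe35e32def9b98f.shift 2 1)] (by decide +kernel))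
noncomputable def rhda3feb9760deefdd : CRef := CRef.mk (Pat.mk 0x10000000100000002000000000000000000000000000000000 0x280000003800000078000000fc000000ff000007ff000007ff0000077e000007e8000003fc000003f00000008000000080 11 11) 0 0 (step_sound _ 197 [(rh0cbd1e32b409a724.shift 2 2), (rha69a881c3bc35c64.shift 0 4), (rhb1fc7ec9eabfa97d.shift 1 0), (rhbc293e4d7efffac8.shift 0 3), (rhc7a43c740adc85fd.shift 1 3), (rhd580661bb56f8a6a.shift 1 3), (rhf50418bb5ff1912c.shift 1 0)] (by decide +kernel))
noncomputable def rh17b5faff96f3ae19 : CRef := CRef.mk (Pat.mk 0x10000000100000002000000000000000000000000000000000 0x6c000000ff000000ff0000003e0000007f000001fc000000fc000001f80000008000000080 11 9) 0 0 (step_sound _ 165 [(rh99ea042293119c04.shift 1 0), (rhc38f566cab2818e5.shift 4 2), (rhe9a0243a251ff7c6.shift 0 3)] (by decide +kernel))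
noncomputable def rh02356b0074e5bf21 : CRef := CRef.mk (Pat.mk 0x80000000800000010000000000000000000000000 0x60000000e000000ef000000ff0000003f000000fe000000ff0000001f00000008 11 8) 0 0 (step_sound _ 132 [rh5bf5283dea27d241, (rh73857a5753d04de8.shift 0 1), (rha40d42a2e34c408d.shift 3 1)] (by decide +kernel))
noncomputable def rhf6982eab5cb52bb8 : CRef := CRef.mk (Pat.mk 0x800000008000000100000000000000000 0x360000003e0000007f0000007f0000003f000000fe0000003600000030 11 8) 0 0 (step_sound _ 100 [(rh0c6aad52e9ca7b05.shift 1 0), (rha13724f9e687a343.shift 0 1), (rhc38f566cab2818e5.shift 3 0)] (by decide +kernel))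
noncomputable def rh6e0209f9e5c754e5 : CRef := CRef.mk (Pat.mk 0x100000001000000020000000000000000000000000 0x800000038000000380000003e0000007e0000007f000000df0000007c000001fc0000007c0000002800000020 11 9) 0 0 (step_sound _ 69 [(rh74a43b9a483760f6.shift 4 0), (rhbbe5358f0ee5fcdc.shift 0 1), (rhdeec3bc2a8e1e9dd.shift 4 0), (rhedfee97021e0973c.shift 1 2)] (by decide +kernel))
noncomputable def rh19f72bc50917cdca : CRef := CRef.mk (Pat.mk 0x20000000200000004000000000000000000000000000000000 0x40000000700000007800000078000003ff000003ff000007ff00000efe000007f800000fb0000000f0000000f000000050 11 12) 0 0 (step_sound _ 229 [rh780fb80339c6f478, (rh92a1d446486dcf81.shift 2 2), (rh9c0d688c65ab658d.shift 2 4), (rheb49d8db84dacd42.shift 4 4), (rhf79632c4c37a3465.shift 1 2)] (by decide +kernel))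
noncomputable def rhd379251c7ce5c995 : CRef := CRef.mk (Pat.mk 0x10000000100000002000000000000000000000000000000000 0x2c000000ef000000ff0000077e000003fc000007ff0000007e0000007c00000018 11 11) 0 0 (step_sound _ 132 [(rh0afb521400dc977d.shift 1 1), (rh21524d30b26a2d6d.shift 1 1), (rh5bea61428949863d.shift 1 0), (rh625847d284944c9b.shift 0 1), (rh6e39b86d2d857efd.shift 1 0), (rh7bb2d2b33ca8bae6.shift 0 2), (rh872f17e93b91fded.shift 1 1), (rhb4779000d9ddf681.shift 1 0)] (by decide +kernel))
noncomputable def rh6f82faffbbd78b01 : CRef := CRef.mk (Pat.mk 0x800000008000000100000000000000000000000000000000000000000 0x140000001c0000001c0000001c0000003c0000007f0000000f0000007c0000001f0000001c0000001c0000001c00000010 11 7) 0 0 (step_sound _ 163 [(rh1779f98266d6b43c.shift 0 4), rh429e98559a583c2f, (rh55062ee754f0a1e3.shift 0 4), (rheec74041fb492c41.shift 0 3)] (by decide +kernel))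
noncomputable def rh924d9412395b7796 : CRef := CRef.mk (Pat.mk 0x10000000100000002000000000000000000000000000000000 0xc0000001c000001ff000001ff0000007e000003ec000003fc000003f8000000c000000080 11 10) 0 0 (step_sound _ 165 [(rh0933b0ff1aebcb2d.shift 0 2), (rh12ff5db81f415cc1.shift 3 2), (rh86aa06350ed0e39f.shift 1 0), (rha13724f9e687a343.shift 1 3), (rhc2c7bae8f445c890.shift 4 2)] (by decide +kernel))
noncomputable def rhfb3379892ba89e0b : CRef := CRef.mk (Pat.mk 0x1000000010000000200000000000000000 0x1c0000003c0000007f000000ff0000007e000001ff0000003c00000038 11 9) 0 0 (step_sound _ 101 [(rh08ee610b43c2b6a4.shift 1 0), rh2763d132d1cea469, (rhc38f566cab2818e5.shift 4 0)] (by decide +kernel))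
noncomputable def rh494ade71cc87cb24 : CRef := CRef.mk (Pat.mk 0x100000001000000020000000000000000000000000 0x1c0000003c0000003f0000003f0000007e000001ff000001fe000000f800000018 11 9) 0 0 (step_sound _ 133 [(rh2763d132d1cea469.shift 0 1), (rha4a0a8769b1b9487.shift 1 0), (rhc38f566cab2818e5.shift 4 1)] (by decide +kernel))
noncomputable def rh183aee3c3a3d4eff : CRef := CRef.mk (Pat.mk 0x8000000080000001000000000000000000000000000000000 0x260000002f0000007f0000007f0000003f000001ff000001fa000001f80000004000000040 11 9) 0 0 (step_sound _ 164 [(rh0a70d07db1708560.shift 0 2), (rh5d54cb79a67f97ab.shift 3 2), (rh992c6a39df06f395.shift 1 0)] (by decide +kernel))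
noncomputable def rhe9304cd9a03537ec : CRef := CRef.mk (Pat.mk 0x1000000010000000200000000000000000 0xc0000004c000000ff000000ff000000ff0000007c0000003c000000f800000078 11 8) 0 0 (step_sound _ 101 [(rh5d54cb79a67f97ab.shift 4 0), (rh81d21ee323a0886c.shift 2 0), (rha40d42a2e34c408d.shift 4 0), (rhcbefb978745a9b37.shift 0 1)] (by decide +kernel))
noncomputable def rh55c97aa7bc205372 : CRef := CRef.mk (Pat.mk 0x1000000010000000200000000000000000 0x1c0000007c000001ff000001ff0000007e000001ff0000006c00000068 11 9) 0 0 (step_sound _ 101 [(rh10e15145e136c885.shift 2 0), rh2763d132d1cea469, (rhc38f566cab2818e5.shift 4 0)] (by decide +kernel))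
noncomputable def rh4eb5e7386843b6f7 : CRef := CRef.mk (Pat.mk 0x1000000010000000200000000000000000 0xc0000003c0000007f000000ff0000007f000000ff000000ff0000001c 11 8) 0 0 (step_sound _ 68 [(rh55062ee754f0a1e3.shift 1 1), (rh85fe8bf98f55243d.shift 3 1), rhaef63d0fea5a58a6, (rhb280c6f1c03f64aa.shift 1 0)] (by decide +kernel))
noncomputable def rh73bd65e40cd33b41 : CRef := CRef.mk (Pat.mk 0x2000000020000000400000000000000000 0x3800000078000000be000001be000000fe000003ff000000f800000070 11 10) 0 0 (step_sound _ 102 [(rh2763d132d1cea469.shift 1 0), (rh5d54cb79a67f97ab.shift 5 0), rh6e2d15f0100b0d6a] (by decide +kernel))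
noncomputable def rhb9475829a5af3039 : CRef := CRef.mk (Pat.mk 0x10000000100000002000000000000000000000000000000000 0x2000000038000000380000001c0000003f000000ff000000ff0000007f000001fe000001df0000007c0000007c00000028 11 9) 0 0 (step_sound _ 228 [(rh36a68ffd23fdcfcd.shift 2 3), (rhaf349dd7709502bf.shift 3 4), (rhb690a447915cd269.shift 3 2), rhc8d77569edc8d2cc, (rheb49d8db84dacd42.shift 3 4), (rhf79632c4c37a3465.shift 0 2)] (by decide +kernel))
noncomputable def rhcc45e619cbfb2d99 : CRef := CRef.mk (Pat.mk 0x2000000020000000400000000000000000000000000000000000000000 0xd8000003dc000003fc000000fe000007ff00000ffc000007f8000001f0000001f000000020 11 12) 0 0 (step_sound _ 167 [(rh0fab673fb364dcf8.shift 2 2), (rh1ea8ca925ca7d312.shift 2 3), (rh1f744b86bd7197e0.shift 2 3), (rh26c5feac0dbd24c0.shift 3 2), rh5d7a8505ddca4d4e, (rh6bdaeb980c4b1973.shift 2 1), (rh8a3f54013261f4d3.shift 3 3), (rha23b49287330347f.shift 2 0), (rhbe0b40f6b4797a7f.shift 3 3), (rhe2b3550e6b33c937.shift 2 1)] (by decide +kernel))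
noncomputable def rh0f91da39a40837b9 : CRef := CRef.mk (Pat.mk 0x2000000020000000400000000000000000000000000000000000000000 0x3de000003fe000007fe0000003f000001fe000003ff000003f8000000700000007000000040 11 11) 0 0 (step_sound _ 165 [(rh067a64cbf1611a87.shift 2 4), (rh429e98559a583c2f.shift 2 0), (rhc2d6fa1b920785d6.shift 2 3), (rhc8ef78389e2bb6c2.shift 0 2)] (by decide +kernel))
noncomputable def rh856d4154e2854976 : CRef := CRef.mk (Pat.mk 0x400000004000000080000000000000000000000000 0x3000000070000003f8000003fc000001fe000007bf000001f0000003f800000110 11 11) 0 0 (step_sound _ 135 [rh73319b51debe113e, (rha13724f9e687a343.shift 3 2), (rha40d42a2e34c408d.shift 6 1)] (by decide +kernel))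
noncomputable def rhf67e2539292410f4 : CRef := CRef.mk (Pat.mk 0x100000001000000020000000000000000000000000 0x20000000a0000001f000000ff0000077f000003fe000003ff0000007c00000028 11 11) 0 0 (step_sound _ 100 [(rh245b7b4a965e7618.shift 0 1), (rh70e33bfdf511e144.shift 4 0), rh8fca7112ebdc7957] (by decide +kernel))
noncomputable def rh65a7690c50324656 : CRef := CRef.mk (Pat.mk 0x800000008000000100000000000000000 0x320000003a0000007f0000007f0000003f000000fe0000003400000030 11 8) 0 0 (step_sound _ 100 [(rh0c6aad52e9ca7b05.shift 1 0), (rh3f860160a9a29530.shift 0 1), (rhc38f566cab2818e5.shift 3 0)] (by decide +kernel))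
noncomputable def rh352a1b7b9da9604c : CRef := CRef.mk (Pat.mk 0x400000004000000080000000000000000000000000 0xe0000001f00000037c000001fe000007ff000007f0000003f800000170 11 11) 0 0 (step_sound _ 135 [(rh218d372dc9ba6eb5.shift 3 0), (rh5d54cb79a67f97ab.shift 6 1), rh73319b51debe113e] (by decide +kernel))
noncomputable def rh776483fe5c3a7547 : CRef := CRef.mk (Pat.mk 0x10000000100000002000000000000000000000000000000000 0x3000000030000000380000003e0000007e0000007f000001fe000001df0000007c0000007c00000028 11 9) 0 0 (step_sound _ 228 [(rh0c2a0d74b6329ce5.shift 3 3), (rh11a3db031c212ca4.shift 3 3), (rh33e98d0e97205a3e.shift 3 4), (rh66486126e5e16962.shift 1 2), (rh92a1d446486dcf81.shift 1 2), rhc8d77569edc8d2cc] (by decide +kernel))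
noncomputable def rh29d4d0775b0127ab : CRef := CRef.mk (Pat.mk 0x2000000020000000400000000000000000000000000000000000000000 0x1c8000001de000001de000001ff00000efe000007ff000001ec000001f0000001700000007000000040 11 12) 0 0 (step_sound _ 196 [(rh332f314176d17914.shift 0 1), (rh3cd14cc6caf0f45e.shift 0 3), (rh627c57d4de58e86d.shift 0 4), (rh6bac05ca9b9a9ffc.shift 0 1), (rh9015867c639c78a8.shift 2 2), (rh9dd70678fa726c45.shift 1 0), (rhde9c6af2fd56496f.shift 2 3), (rhef15993785626faf.shift 1 3), (rhf079f675fa12f8e7.shift 1 2)] (by decide +kernel))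
noncomputable def rh70e896f05d4641c6 : CRef := CRef.mk (Pat.mk 0x2000000020000000400000000000000000000000000000000000000000 0x3fe000003fe000007fe0000003f000001fe0000007f00000078000000700000007000000040 11 11) 0 0 (step_sound _ 165 [(rh067a64cbf1611a87.shift 2 4), (rh1779f98266d6b43c.shift 2 4), (rh429e98559a583c2f.shift 2 0), (rhc8ef78389e2bb6c2.shift 0 2)] (by decide +kernel))
noncomputable def rh2b03fa6024475da8 : CRef := CRef.mk (Pat.mk 0x100000001000000020000000000000000000000000 0x2400000074000001fe000001ff0000007e000003ef000003fc000001ff000000c0 11 10) 0 0 (step_sound _ 133 [(rh09ed09e23ed4bcaf.shift 0 1), (rh12ff5db81f415cc1.shift 3 1), (rh3f860160a9a29530.shift 1 2), (rha40d42a2e34c408d.shift 4 1), rhdd03cd39608ebaca, (rhe333035f2fcf09e3.shift 2 1)] (by decide +kernel))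
noncomputable def rhe01769ed1833f8dd : CRef := CRef.mk (Pat.mk 0x10000000100000001000000000 0x8000001ff000001fe000003ff0000001e0000007800000038 11 10) 0 0 (step_sound _ 131 [(rh0dbc8abee7ad42d4.shift 3 0), (rh114f4abf4ea101c9.shift 3 0), rh8f081cdc8f4e0968] (by decide +kernel))
noncomputable def rh6e37a69632d3e782 : CRef := CRef.mk (Pat.mk 0x800000008000000080000000000000000000000000 0x260000002e000003eff00001ffe00003bff000007f8000001f0000000c000000080 11 14) 0 0 (step_sound _ 166 [(rh8be078dddbacab4f.shift 0 2), (rhb1a251d9bff81766.shift 6 2), (rhbae415ca4fcd2003.shift 4 0)] (by decide +kernel))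
noncomputable def rha35f8e0a2bb7008e : CRef := CRef.mk (Pat.mk 0x1000000010000000100000000000000000 0x2000000030000000f4000001f6000000ff0000007e000000ff000003ff00000018 11 10) 0 0 (step_sound _ 133 [(rh215e11e099257d75.shift 4 1), (rh516935bbbf0dc838.shift 3 0), (rh8735d2c0a734a749.shift 0 1), (rhb730ba14aa32bdb3.shift 4 1), rhc60491518736b1b6] (by decide +kernel))
noncomputable def rhd67385e126c2ad0a : CRef := CRef.mk (Pat.mk 0x20000000200000002000000000000000000000000000000000 0x50000003fe000001fe000003bf0000007c000000f8000001f0000000300000003000000020 11 10) 0 0 (step_sound _ 68 [(rh2a3f83f36967c785.shift 4 1), (rh860cdfa6f9767d4f.shift 0 3), (rhb7352941699d5ee0.shift 2 0)] (by decide +kernel))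
noncomputable def rha6f8412b0bd1c191 : CRef := CRef.mk (Pat.mk 0x200000002000000020000000000000000000000000 0x50000003fe000003fe000007fe00000eff000007fe00000fdf0000001800000010 11 12) 0 0 (step_sound _ 102 [(rh23766e2783229ad2.shift 1 1), (rh85fe8bf98f55243d.shift 4 2), rhc8ef78389e2bb6c2, (rhfb9fb48a5e63ed80.shift 4 2)] (by decide +kernel))
noncomputable def rh8ed2fe4434b275a4 : CRef := CRef.mk (Pat.mk 0x400000004000000040000000000000000000000000000000000000000000000000 0x1000000018000000bc000001fc000001ff000001fe000003fe00000078000001fe000000fc0000007e00000050 11 10) 0 0 (step_sound _ 133 [(rh1515b75ce3ebf2fc.shift 2 3), (rh746db7778c71431e.shift 5 3), (rh822acde981f9c218.shift 1 0), (rh8f4cdda21d6ceefc.shift 0 3), (rhb5b71cb4f22f6697.shift 5 4)] (by decide +kernel))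
noncomputable def rhd711011f88fe66a7 : CRef := CRef.mk (Pat.mk 0x400000004000000040000000000000000000000000 0xb8000000f8000007ff000003fe0000017e000003fc000007f8000000c000000080 11 11) 0 0 (step_sound _ 165 [(rhb1a251d9bff81766.shift 5 2), (rhbdb0d82129db7f2a.shift 0 2), (rhc189904a255ed82e.shift 3 1), (rhc2fd12bc01c6c021.shift 1 0)] (by decide +kernel))
noncomputable def rh4a6abff2460771df : CRef := CRef.mk (Pat.mk 0x100000001000000010000000000000000000000000 0x2000000030000000f4000001f6000000ff0000007e000000ff000003ff0000003000000020 11 10) 0 0 (step_sound _ 165 [(rh215e11e099257d75.shift 4 2), rh30d51118c63aed0d, (rh3820f35d5e705bec.shift 4 0), (rh8735d2c0a734a749.shift 0 2), (rhb730ba14aa32bdb3.shift 4 2)] (by decide +kernel))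
noncomputable def rh7bcf3b85e71ab52b : CRef := CRef.mk (Pat.mk 0x10000000100000001000000000 0x3000000038000001fc000000fe000001ff0000007f0000001f0000001c 11 9) 0 0 (step_sound _ 131 [rh09d7ef48a3f670ba, (rh0dbc8abee7ad42d4.shift 3 0), (rhbec796c3ea7a32e6.shift 2 0)] (by decide +kernel))
noncomputable def rh21eb6bc38546bba6 : CRef := CRef.mk (Pat.mk 0x1000000010000000100000000000000000000000000000000000000000 0x280000003800000038000001f8000001fe000000fe0000007f000001fe000003ee000001f0000003fc000001e000000160 11 10) 0 0 (step_sound _ 165 [(rh691a4dc6bef14620.shift 1 4), (rh85fe8bf98f55243d.shift 3 4), rhf528d9bd4d7be873, (rhfb9fb48a5e63ed80.shift 3 4)] (by decide +kernel))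
noncomputable def rh52dec3e3d504bde6 : CRef := CRef.mk (Pat.mk 0x400000004000000040000000000000000000000000 0x30000000b8000003be000001fe000001ff000001f8000003f8000000d800000098 11 10) 0 0 (step_sound _ 165 [(rh01d4e63a6e395e69.shift 3 1), (rh1e22cd98e32bfbbb.shift 5 1), (rh26f015ff7ba929f9.shift 0 2), (rhaeb0a722504ddb1f.shift 2 0), (rhd1779d7de7f8215b.shift 5 0)] (by decide +kernel))
noncomputable def rh739be68a24c488cc : CRef := CRef.mk (Pat.mk 0x800000008000000100000000000000000 0x60000000e000000ff000000ff0000003f000000fe0000003600000030 11 8) 0 0 (step_sound _ 100 [(rh569470dcd3b735be.shift 1 0), (rha13724f9e687a343.shift 0 1), (rhc38f566cab2818e5.shift 3 0)] (by decide +kernel))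
noncomputable def rh22c6019305d6e76d : CRef := CRef.mk (Pat.mk 0x400000004000000080000000000000000000000000 0x60000001700000037c000001fe000007ff000001f0000003f800000170 11 11) 0 0 (step_sound _ 135 [(rh5d54cb79a67f97ab.shift 6 1), (rh62a510f36b3ed175.shift 3 0), rh73319b51debe113e] (by decide +kernel))
noncomputable def rh7f8280c002585cf4 : CRef := CRef.mk (Pat.mk 0x10000000100000002000000000000000000000000000000000 0x800000038000000380000003c0000001f000000ff000000ff0000007f000001fe000001df0000007c0000007c00000028 11 9) 0 0 (step_sound _ 228 [(rh40491340b926a5e9.shift 3 4), (rh681cc1c7cf4ad90d.shift 3 3), (rh7814e101873e2401.shift 3 4), (rhaf349dd7709502bf.shift 3 4), rhc8d77569edc8d2cc, (rhf79632c4c37a3465.shift 0 2)] (by decide +kernel))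
noncomputable def rh53d53b139bfdaa88 : CRef := CRef.mk (Pat.mk 0x1000000010000000200000000000000000000000000000000000000000 0x1ec000001fe0000007e000003ff000003fe000003ff000001f8000001f000000050 11 10) 0 0 (step_sound _ 133 [(rh33ee9a9a067baa0c.shift 0 1), (rh74a43b9a483760f6.shift 4 2), (rh92cd5d32205150fc.shift 1 1), (rhb11a332281ceecc6.shift 4 0), rhdc31e74e71531971] (by decide +kernel))
noncomputable def rhf0ab252bba8e2812 : CRef := CRef.mk (Pat.mk 0x800000008000000100000000000000000000000000000000000000000 0x40000000c0000001c0000007c0000000f0000007c0000001f0000001c0000001c0000001c00000010 11 7) 0 0 (step_sound _ 163 [(rh1779f98266d6b43c.shift 0 4), rh429e98559a583c2f, (rhc7223e03952b7e6b.shift 0 3), (rhe639ee1f9939a6f9.shift 0 3), (rhffb7323588680405.shift 0 3)] (by decide +kernel))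
noncomputable def rhf5eeae9ddecebcc0 : CRef := CRef.mk (Pat.mk 0x100000001000000010000000000000000000000000 0x1f0000001fc000001f00000007e000001ff000001ff00000028 11 9) 0 0 (step_sound _ 69 [rh0d201a219cc7f729, (rh47dece01c1595e79.shift 4 0), (rhfa80626feb4e9cb5.shift 1 1)] (by decide +kernel))
noncomputable def rh1acff81d41ff3d52 : CRef := CRef.mk (Pat.mk 0x1000000010000000100000000000000000000000000000000000000000 0xe0000000f0000000f0000003f7000003fe000001ff0000007e000000f000000070000000380000003800000028 11 10) 0 0 (step_sound _ 229 [(rh215e11e099257d75.shift 4 4), (rh3820f35d5e705bec.shift 4 2), (rh5fe9a1568274b749.shift 0 4), (rh6f0f05894ce3c752.shift 1 0)] (by decide +kernel))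
noncomputable def rh90b31fd32324b0c7 : CRef := CRef.mk (Pat.mk 0x2000000020000000200000000000000000000000000000000000000000 0x140000001c4000007c4000001fc000007ee000007ff00000fff000000fe000000be00000078000000780000007800000050 11 12) 0 0 (step_sound _ 230 [(rh215e11e099257d75.shift 5 4), (rh574badb83d42746b.shift 0 3), (rha6f81ad0ef270f03.shift 1 0)] (by decide +kernel))
noncomputable def rh1893cdb6f6ccdd35 : CRef := CRef.mk (Pat.mk 0x8000000080000000800000000000000000000000000000000 0x140000001c0000001c0000001800000078000000ff000000ff0000003b0000003f0000003e0000001c0000000c 11 8) 0 0 (step_sound _ 132 [(rh046c5eb18e55a239.shift 3 1), (rh70e33bfdf511e144.shift 3 1), (rha7db3c4468dc3fb1.shift 0 1), rhd87c12326fd79836] (by decide +kernel))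
noncomputable def rhfc2078d418835ad5 : CRef := CRef.mk (Pat.mk 0x200000002000000020000000000000000000000000000000000000000000000000 0x180000001c0000001c0000007ce000007fe00000fff000000fc000003fe000003f000000070000000700000007000000050 11 12) 0 0 (step_sound _ 294 [(rh3454e43770b9cc41.shift 0 5), (rh87d5e4118780fa3b.shift 5 5), (rhc94dfb5f501cb051.shift 4 3), (rhff026dba6d6410f0.shift 1 0)] (by decide +kernel))
noncomputable def rh979df1777f5ab1c1 : CRef := CRef.mk (Pat.mk 0x200000002000000020000000000000000000000000 0x180000001c0000001c0000007ee000007fe00000fff000000fe000000fe0000007000000050 11 12) 0 0 (step_sound _ 166 [(rh215e11e099257d75.shift 5 2), (rh45fdcb26be967a4b.shift 0 2), (rhef8b683180fa1f72.shift 1 0)] (by decide +kernel))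
noncomputable def rh9ee927930f3687eb : CRef := CRef.mk (Pat.mk 0x1000000010000000100000000000000000 0x3000000038000000380000001e000000780000007f000001fe000001ff00000028 11 9) 0 0 (step_sound _ 163 [(rh0dbc8abee7ad42d4.shift 3 1), (rh183be5d666b2c359.shift 0 1), (rhf9bd237ffd286457.shift 3 0)] (by decide +kernel))
noncomputable def rhb442600067673463 : CRef := CRef.mk (Pat.mk 0x80000000800000008000000000000000000000000 0x2000000020000000740000007c0000003f0000007e0000001f0000001e00000014 11 7) 0 0 (step_sound _ 67 [(rh5bfdd1ca2a032e39.shift 0 1), (rh6204fa91b810ff3e.shift 2 0), (rh6eff4158bb400f47.shift 2 0)] (by decide +kernel))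
noncomputable def rhbd8e42be53e6c4d4 : CRef := CRef.mk (Pat.mk 0x200000002000000020000000000000000000000000 0xf0000003f8000001f0000000ff000003fe000003df000000f800000050 11 10) 0 0 (step_sound _ 100 [rh089ce45cb7e683f8, rh51b375eb01b6691d, (rhfafeb437ceb8396d.shift 4 0)] (by decide +kernel))
noncomputable def rh11f91cb5ffc195d9 : CRef := CRef.mk (Pat.mk 0x10000000000000002000000020 0x680000007f000001ff000003ff000001fe000003ff000000f800000028 11 10) 0 0 (step_sound _ 132 [rh1470377545f2041d, (rh17ee7bb5641ecbd8.shift 1 0), (rh2302c2e124f7eaf8.shift 1 0), (rha8895bfb685a08eb.shift 4 0), rhb0aeb7aea9f7b678] (by decide +kernel))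
noncomputable def rh685f2ade060610d0 : CRef := CRef.mk (Pat.mk 0x2000000000000000400000004000000000000000000000000000000000 0x1800000038000000bc000007ff000007ff000001ff000001fc000000780000007800000020 11 11) 0 0 (step_sound _ 165 [(rh0588d2c7f2cab5e9.shift 5 2), rh0e3f2cd0bd66ee2a, (rh28afc5b167f84184.shift 5 2), (rh5211525c799a1ed3.shift 2 2), (rhbb0d6da0f44cc3d4.shift 1 1)] (by decide +kernel))
noncomputable def rh675d6183bbf1c3fd : CRef := CRef.mk (Pat.mk 0x200000000000000040000000400000000000000000000000000000000000000000 0xd8000000f8000007ff000007ff000001ff000003fe00000078000000f8000000f800000080 11 11) 0 0 (step_sound _ 134 [(rh269647d82b3acda8.shift 5 3), (rh65255699dcf5ecbf.shift 1 1), (rh6c8e5c8b1de2424e.shift 5 2), (rh790120d2a7ef7fce.shift 2 0), (rha0fe3c1421e9ee3e.shift 0 1), (rhca254af0a4f7a0f4.shift 5 3), (rhe2a6506b5ddddcd8.shift 5 3)] (by decide +kernel))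
noncomputable def rhe5011778ee7d071d : CRef := CRef.mk (Pat.mk 0x2000000000000000400000004000000000 0x1c000000bc000007ff000007fe00000fde000000fc000000fc000000b0 11 12) 0 0 (step_sound _ 134 [(rh10742f0ea97ad888.shift 5 0), rh2915bc0ad6f27677, (rh3e98af1c4ecc4390.shift 5 0), (rh552065fa21f5a8a7.shift 2 0), (rh5c4fa8b4dc23a58e.shift 5 0), (rha4dfe15f81c2e373.shift 2 1)] (by decide +kernel))
noncomputable def rh9eb2895adcc4b22d : CRef := CRef.mk (Pat.mk 0x10000000000000002000000020000000000000000000000000 0x10e000001ce000001ff000000ff00000fdf000007fe00000eff0000001e0000001c0000001c 11 12) 0 0 (step_sound _ 132 [(rh3282b341652b46e2.shift 0 1), (rh93b7578d42fc5357.shift 2 0), (rh9749232b89690335.shift 0 2), rha0be068ec8d45f4c, (rha41420e62eeebe01.shift 0 1), (rha721df009fa0356e.shift 1 0), (rha89257b9b32d22b7.shift 0 2), (rhb96d72c83e3e1a56.shift 0 1), (rhe12432816c82d9b3.shift 1 0), (rhe53ef0bedf0ccf4a.shift 0 1)] (by decide +kernel))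
noncomputable def rh008cd98ef56417ac : CRef := CRef.mk (Pat.mk 0x8000000080000001000000000000000000000000000000000 0x1000000038000000780000007e0000003e000001ff000001f8000001f80000004000000040 11 9) 0 0 (step_sound _ 164 [(rh5d54cb79a67f97ab.shift 3 2), (rh7fd281d5c0a67e7c.shift 0 2), (rh992c6a39df06f395.shift 1 0)] (by decide +kernel))
noncomputable def rh1c2c105e25276060 : CRef := CRef.mk (Pat.mk 0x100000001000000020000000000000000000000000 0xc0000001c0000005f000000fe0000007c000001fe000001f40000007000000010 11 9) 0 0 (step_sound _ 133 [(rh5d54cb79a67f97ab.shift 4 1), rh75bea2a294ee282a, (rh8bc250230756df19.shift 1 1), (rha40d42a2e34c408d.shift 4 1)] (by decide +kernel))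
noncomputable def rh3b230451b7f18fa0 : CRef := CRef.mk (Pat.mk 0x10000000100000002000000000000000000000000000000000 0x800000028000000ff000001fe000001ff00000070000003f0000003f0000003f00000008000000080 11 10) 0 0 (step_sound _ 165 [(rh076f5df2d0df8efc.shift 4 2), (rh42a6911bdeb67999.shift 0 3), (rh5d54cb79a67f97ab.shift 4 2), (rhe2cf69e06e15952a.shift 1 0)] (by decide +kernel))
noncomputable def rh0de8670a32eebdae : CRef := CRef.mk (Pat.mk 0x20000000200000004000000000 0x200000007800000078000003fe000003ff000003fe000000fc000001f8000000a0 11 10) 0 0 (step_sound _ 133 [(rh06db9e6274c81a1c.shift 4 1), (rh2241842ebdf38a56.shift 2 1), (rh6bc73a9607737b52.shift 0 1), (rh8c80f5611d72895a.shift 4 1), (rhb0067b04d622273c.shift 1 0), (rhd3e6709261a87a08.shift 2 1)] (by decide +kernel))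
noncomputable def rh89c5dc4b14eab66f : CRef := CRef.mk (Pat.mk 0x1000000010000000200000000000000000 0x2800000038000000380000007c000000ff000007ff000007ff0000077e000001ee0000006400000060 11 11) 0 0 (step_sound _ 133 [(rh01fdead5eb7ce2e8.shift 1 0), (rh0cbd1e32b409a724.shift 2 0), rh637d9ba1d4a84b71, (rha2087d1ec9259011.shift 1 0), (rha69a881c3bc35c64.shift 0 2), (rhbfb1150452a3a47c.shift 1 0), (rhd580661bb56f8a6a.shift 1 1), (rhfe0031048bdc4255.shift 1 0)] (by decide +kernel))
noncomputable def rhaa1d1a77a1dfe724 : CRef := CRef.mk (Pat.mk 0x800000008000000100000000000000000000000000000000000000000 0x140000001c0000001c0000001c0000007e0000007f0000002f0000007c000000180000001c0000001c0000001c00000010 11 7) 0 0 (step_sound _ 163 [(rh2ecbeb4d3e9ca7d8.shift 0 4), rh686c91c3cb453be7, (rh70e33bfdf511e144.shift 3 2), (rhdbc41366d7db82a8.shift 0 3), (rhf936b98f373260c2.shift 1 4)] (by decide +kernel))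
noncomputable def rheb1cae5162975683 : CRef := CRef.mk (Pat.mk 0x10000000000000002000000020000000000000000000000000 0x10000001ff000000fe000001ff0000003e0000007e0000002e0000002e0000000e 11 9) 0 0 (step_sound _ 164 [rh274de0a6a43c9c7e, (rh4d760d0d70847451.shift 4 2), (rh74a43b9a483760f6.shift 4 1)] (by decide +kernel))
noncomputable def rh3a205edd3effe259 : CRef := CRef.mk (Pat.mk 0x100000000000000020000000200000000000000000000000000000000000000000 0x40000000700000007c000001ff000000fc000007ef000003fc000007fc0000007400000040 11 11) 0 0 (step_sound _ 133 [(rh269647d82b3acda8.shift 4 3), (rh42927e8681244a7b.shift 4 2), (rh4acffa486b180fab.shift 4 3), (rh65255699dcf5ecbf.shift 0 1), (rh8c13794adcf04368.shift 0 1), (rhc46645c3505632b8.shift 2 0)] (by decide +kernel))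
noncomputable def rh400e35837168e87b : CRef := CRef.mk (Pat.mk 0x2000000000000000400000004000000000 0x1c0000003c000007ff000003fe000003de000003fc000001fc000000dc 11 11) 0 0 (step_sound _ 134 [(rh192aa81ae654871b.shift 2 0), rh2915bc0ad6f27677, (rh31e6ad3683c68b2e.shift 4 0), (rh81c4c4aaee75d2d0.shift 2 0)] (by decide +kernel))
noncomputable def rh6aa28087eba61340 : CRef := CRef.mk (Pat.mk 0x10000000000000002000000020000000000000000000000000 0x140000001c000000fe000000fc000003df000001fe000000ff0000006e0000006c00000064 11 10) 0 0 (step_sound _ 132 [(rh0588d2c7f2cab5e9.shift 4 1), (rh1483561803ad01b8.shift 1 1), (rh3282b341652b46e2.shift 0 1), (rh50adf6240d80d4e7.shift 1 2), (rh5d02e3850fb78c98.shift 1 0), rha72ee9d2d7387a02] (by decide +kernel))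
noncomputable def rh3f1935c00006c2aa : CRef := CRef.mk (Pat.mk 0x8000000000000001000000010000000000000000000000000000000000000000000000000 0x140000001c0000001c00000008000000080000001c0000003e0000007e000000ff000000fe000001ff0000003c0000003c00000008 11 9) 0 0 (step_sound _ 259 [rh14afcdcf0c621b17, (rh9aed1232c1216b82.shift 2 6), (rhe482ee30a2733b5f.shift 3 4)] (by decide +kernel))
noncomputable def rhbe7c380ea2d774ba : CRef := CRef.mk (Pat.mk 0x10000000000000002000000020 0x20000000380000007c0000007f000001ff000003ff000001ff0000003f0000003e0000007c 11 10) 0 0 (step_sound _ 132 [rh552f7004bddc2e78, (rh8b6a14aacffdc8aa.shift 1 0), (rh9d6caa757c0527f4.shift 3 0), (rha8895bfb685a08eb.shift 4 0), rhe6f58d4cda7d295d, rhf6f38e4a1c4de0f5] (by decide +kernel))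
noncomputable def rh1c5864ba6a80a88a : CRef := CRef.mk (Pat.mk 0x10000000000000002000000020000000000000000000000000000000000000000000000000 0x300000003c000001ff000000fe000001ff000001ff000003fe0000007c0000007c00000010 11 10) 0 0 (step_sound _ 165 [rh15ee9f6bce990967, (rh269647d82b3acda8.shift 4 4), (rh51a9ef21965626be.shift 4 4), (rh8b7160dfc658bd26.shift 4 2), rh98b4e73a9229c5e0, (rhf3db2ec8c5c125b7.shift 4 2)] (by decide +kernel))
noncomputable def rhc200b63a42c540d0 : CRef := CRef.mk (Pat.mk 0x20000000000000004000000040000000000000000000000000000000000000000000000000 0x80000000e0000000e000000040000000fc000001ff000003fe000000ff000000f0000000f0000000e0000000a0 11 10) 0 0 (step_sound _ 262 [(rh6d0c79231951a05e.shift 5 5), rhe5e078b4a46dfb36, (rhf153d2af6b144509.shift 5 5), (rhf3c18d8cfe33c40d.shift 5 5)] (by decide +kernel))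
noncomputable def rh8aa6de4408aa3237 : CRef := CRef.mk (Pat.mk 0x40000000000000008000000080000000000000000000000000000000000000000000000000 0x10000000f0000001f00000007f000007fe000003ff000007f8000007f0000001f0000001c0000001c000000140 11 11) 0 0 (step_sound _ 230 [(rh0588d2c7f2cab5e9.shift 6 4), (rh0ae367dd5fc0c2ee.shift 0 4), (rh41ea19f9fb87f8eb.shift 2 3), (rh50adf6240d80d4e7.shift 3 5), (rh76ce34212f80d771.shift 3 0), (rhe12432816c82d9b3.shift 3 3)] (by decide +kernel))
noncomputable def rh985b5adb50bcbcda : CRef := CRef.mk (Pat.mk 0x1000000010000000100000000000000000000000000000000000000000 0x2000000038000000f8000001fc000000f0000001fe0000007f000001f0000000f8000000380000003800000020 11 9) 0 0 (step_sound _ 165 [(rh3d31b85e8d7cdbae.shift 1 4), (rh70e33bfdf511e144.shift 4 2), (rhaabd502db063cd1a.shift 2 4), (rhc33c42c15deeba8e.shift 3 4), rhd7309da16dbf5924] (by decide +kernel))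
noncomputable def rhab854d454eb31007 : CRef := CRef.mk (Pat.mk 0x80000000800000008000000000000000000000000 0x100000001c0000001c0000001c000000180000007f0000003f000000740000002000000020 11 7) 0 0 (step_sound _ 195 [(rh20966da26a1c2ae8.shift 2 2), (rh7bca501b2d0ea232.shift 2 2), rh911bda7bc2e1d54d] (by decide +kernel))
noncomputable def rh39c0f6aa80977155 : CRef := CRef.mk (Pat.mk 0x100000001000000010000000000000000000000000 0x28000000380000003c000000f00000003e0000007f0000007f0000002800000020 11 8) 0 0 (step_sound _ 165 [(rh215e11e099257d75.shift 4 2), (rh8270f21240bd5071.shift 1 2), (rhb730ba14aa32bdb3.shift 4 2), rhd9a7fbd3a4e80231] (by decide +kernel))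
noncomputable def rh06623cc1d7c1dec9 : CRef := CRef.mk (Pat.mk 0x2000000020000000000000001000000000000000000000000000000000 0x2000000028000000b8000003bf000001fe000003ff0000007e0000007e00000028 11 10) 0 0 (step_sound _ 100 [(rh56506aca0a0851cc.shift 4 2), (rh820bfba8d4405bbd.shift 4 3), (rhfa9b0966c5be462d.shift 1 0), (rhfe7be903937d7148.shift 0 1)] (by decide +kernel))
noncomputable def rh88262a6a13a0a534 : CRef := CRef.mk (Pat.mk 0x800000008000000000000000400000000000000000000000000000000 0x140000001e0000001e0000001f0000003f0000003f0000003c0000001e0000000e0000000600000004000000060000000600000002 11 6) 0 0 (step_sound _ 162 [(rh18e11a2f5f6a3321.shift 0 4), (rhd918c3fd221dc9f8.shift 2 3), (rhfa3149c52110540a.shift 1 0)] (by decide +kernel))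
noncomputable def rhe143a6a2ce1d6880 : CRef := CRef.mk (Pat.mk 0x2000000020000000000000001000000000000000000000000000000000 0x1ff000000fe0000003f000000ff000001fe000000fe0000007e00000078 11 9) 0 0 (step_sound _ 100 [rh04c43045dc67212e, (rh19552de2159fb0e4.shift 0 2), (rh6aa068a18b5d024e.shift 1 0), (rhf27044bfb2996f22.shift 4 2), (rhfa9b0966c5be462d.shift 1 0)] (by decide +kernel))
noncomputable def rh4992f32104b66c20 : CRef := CRef.mk (Pat.mk 0x10000000100000000000000008 0x2800000038000000780000007e000007ff000003fe000003ff0000007e0000001e0000001c 11 11) 0 0 (step_sound _ 132 [rh42afbfa573f9cde5, (rh8e028993f20801aa.shift 3 0), (rhb553e5cb94120f6a.shift 3 0), (rhb5b71cb4f22f6697.shift 3 0), rhd99c20cf667beeac] (by decide +kernel))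
noncomputable def rh762cfde7b1caf460 : CRef := CRef.mk (Pat.mk 0x100000001000000000000000080000000000000000 0x280000007800000078000001f8000001ff000000fe0000007f00000010000000380000003800000020 11 9) 0 0 (step_sound _ 100 [(rh067b6b76d11631bd.shift 1 1), (rh972e93c84e0fdfcf.shift 0 3), (rhafce214f40257ff7.shift 3 0), (rhb38faaee8bdfa7c0.shift 3 0)] (by decide +kernel))
noncomputable def rh33a84ee6b32fea22 : CRef := CRef.mk (Pat.mk 0x20000000200000000000000010000000000000000000000000 0x5000000070000000700000007c000000fc000001fe000001ff000000fe0000001f000000ff000000ff0000000c0000000c 11 9) 0 0 (step_sound _ 164 [(rh00d6a6e3c7e3bb40.shift 4 2), (rh12210b4929460699.shift 1 3), (rh5e84f7ca3969efff.shift 0 2), (rh793353d39a5b09cc.shift 0 2), rheb47bce111a914ec] (by decide +kernel))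
noncomputable def rh6a5d75c23d85012a : CRef := CRef.mk (Pat.mk 0x200000002000000020000000000000000000000000 0x140000001c0000001d8000001d8000007fe000007fe00000eff000001fc000000e8000000c000000040 11 12) 0 0 (step_sound _ 166 [(rh215e11e099257d75.shift 5 2), rh65a019d5030ab10f, (rhbe0eda266eb9121c.shift 2 1)] (by decide +kernel))
noncomputable def rh53c1ab5f8de215af : CRef := CRef.mk (Pat.mk 0x100000001000000010000000000000000000000000 0x8000001ef000001fe000003ff0000001000000038000000380000003800000028 11 10) 0 0 (step_sound _ 195 [(rh114f4abf4ea101c9.shift 3 2), (rh6a5841da68da1a31.shift 0 2), (rhbba7d23481996066.shift 3 0)] (by decide +kernel))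
noncomputable def rh47838a18d8ddb4ac : CRef := CRef.mk (Pat.mk 0x200000002000000020000000000000000000000000 0x140000001c0000001d8000001d800000ffe000007fe00000eff000001fc000000e8000000e000000040 11 12) 0 0 (step_sound _ 166 [(rh215e11e099257d75.shift 5 2), rh2692a3837f6386ac, (rhbe0eda266eb9121c.shift 2 1)] (by decide +kernel))
noncomputable def rhbbc7b0560c7f44e2 : CRef := CRef.mk (Pat.mk 0x100000001000000010000000000000000000000000 0x20000000a0000001f0000001f0000077f000003fe000003ff0000007c00000028 11 11) 0 0 (step_sound _ 101 [(rh70e33bfdf511e144.shift 4 0), rh8fca7112ebdc7957, (rh9fee3c25c851d722.shift 0 1)] (by decide +kernel))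
noncomputable def rhb5917a3764ee802b : CRef := CRef.mk (Pat.mk 0x200000002000000020000000000000000000000000 0x3de000003fe000007fe000000ff000001fe000003df000000f800000050 11 11) 0 0 (step_sound _ 102 [(rh046c5eb18e55a239.shift 5 0), (rh65b638a107c9040b.shift 1 0), rhc8ef78389e2bb6c2] (by decide +kernel))
noncomputable def rhb094fd26524a19cc : CRef := CRef.mk (Pat.mk 0x100000001000000010000000000000000000000000 0x200000003000000030000001fe000000fe000001ff00000028 11 9) 0 0 (step_sound _ 68 [(rh25fb5e67b5463a57.shift 0 1), (rh6c59ce14113da07f.shift 4 0), (rh6eff4158bb400f47.shift 3 0), (rhcab3157f7bdcba3e.shift 3 0)] (by decide +kernel))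
noncomputable def rhf100a5be02628c29 : CRef := CRef.mk (Pat.mk 0x200000002000000020000000000000000000000000 0x20000000e0000003f0000000fc000001fe000000fe000001ff000000d800000018 11 10) 0 0 (step_sound _ 100 [(rh185ac3d80a3982cf.shift 2 1), (rh281c6819542c66e6.shift 4 0), rh6b7838fe9bc51aa3] (by decide +kernel))
noncomputable def rh152a5910fe9439df : CRef := CRef.mk (Pat.mk 0x200000002000000020000000000000000000000000 0x100000003c0000003f000001fe000001ff000000fc000000fc0000005800000010 11 9) 0 0 (step_sound _ 164 [(rh16d202216dd89f0a.shift 2 0), (rhb1a251d9bff81766.shift 4 2), (rhc3d935a80976a612.shift 0 2)] (by decide +kernel))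
noncomputable def rh8893234df15608fd : CRef := CRef.mk (Pat.mk 0x200000002000000020000000000000000000000000 0x3000000070000001f0000007ee000007fe00000fff000000fe000003fe0000005c0000005c 11 12) 0 0 (step_sound _ 166 [(rh308f7f301025448c.shift 1 0), (rhb730ba14aa32bdb3.shift 5 2), rhe26c4822214d0bd0] (by decide +kernel))
noncomputable def rhc76aab05bbee5e73 : CRef := CRef.mk (Pat.mk 0x80000000800000008000000000000000000000000 0x40000001c0000007e0000000f0000007f0000003f0000003f0000001600000004 11 7) 0 0 (step_sound _ 162 [(rh1bf9f656e14b6ce3.shift 0 2), rhdf55c93e4df06204, (rhf9a6286f1d5377a2.shift 2 2)] (by decide +kernel))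
noncomputable def rhd18d4ad1f3210183 : CRef := CRef.mk (Pat.mk 0x10000000100000001000000000 0x280000003c0000003f0000003c000000fe0000007e0000002e 11 8) 0 0 (step_sound _ 132 [rh1749420a86a7aae8, (rh20966da26a1c2ae8.shift 3 0), (rh5b23aff60548e1d8.shift 3 0)] (by decide +kernel))
noncomputable def rhfad3deed74b85a70 : CRef := CRef.mk (Pat.mk 0x200000002000000020000000000000000000000000 0x5000000050000007de000007fe000007ff000000fc000003fe000003dc00000010 11 11) 0 0 (step_sound _ 166 [(rh0bcf0194d76a0f4f.shift 1 3), rh296386581e4b969c, (rhb730ba14aa32bdb3.shift 5 2)] (by decide +kernel))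
noncomputable def rh8de1a62604c1cdd7 : CRef := CRef.mk (Pat.mk 0x40000000400000004000000000000000000000000000000000 0x2800000038000000380000077e000007fc00000ffe0000007c000001fe000000ff0000003c00000004 11 12) 0 0 (step_sound _ 133 [(rh3e5ab46c2cc11079.shift 1 1), rh4d9fc3887c281012, (rhfafeb437ceb8396d.shift 5 1)] (by decide +kernel))
noncomputable def rh12fda99f2f6128c3 : CRef := CRef.mk (Pat.mk 0x200000002000000020000000000000000000000000 0x4000000068000007ee000003fe000003ff0000003e000000f70000007000000030 11 11) 0 0 (step_sound _ 100 [(rh1c195dcb1d94ce63.shift 2 0), (rh281c6819542c66e6.shift 4 0), (rh7a7e08304268422e.shift 4 2), rhceb9ea97a9d97c83] (by decide +kernel))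
noncomputable def rh184b0db2d85d196f : CRef := CRef.mk (Pat.mk 0x40000000400000004000000000000000000000000000000000 0xa0000000a0000007bf000003fe000007fc0000007f000003fe000000ff000000b000000010 11 11) 0 0 (step_sound _ 229 [(rh0dbc8abee7ad42d4.shift 5 3), (rh2c3a5782646f1c39.shift 0 4), rh71b4c35802588252, (rhf435f65ca384ce7a.shift 5 1)] (by decide +kernel))
noncomputable def rhbea3ed8a9391f0aa : CRef := CRef.mk (Pat.mk 0x80000000800000008000000000000000000000000 0x140000003c000001ff000000f80000003f000000ff000000fc0000001800000010 11 9) 0 0 (step_sound _ 164 [(rh215e11e099257d75.shift 3 2), (rh3820f35d5e705bec.shift 3 0), (rhb5da10f7cacf3411.shift 1 2), rhffaa94171ca031f8] (by decide +kernel))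
noncomputable def rhf7cf246d14a3f05b : CRef := CRef.mk (Pat.mk 0x40000000400000004000000000000000000000000000000000 0xa0000000e0000000e0000000f800000058000001ff000007fe000007fe000000be000000b800000038 11 11) 0 0 (step_sound _ 133 [(rh281c6819542c66e6.shift 5 1), (rh78c997b3a6cf98f0.shift 2 3), rh8ccb86bc0fc34452] (by decide +kernel))
noncomputable def rh8248f56db845e601 : CRef := CRef.mk (Pat.mk 0x8000000080000000800000000000000000000000000000000 0x140000001c0000003c000001fe000000f80000003f000000fc000000f80000001c0000001c00000004 11 9) 0 0 (step_sound _ 196 [(rh215e11e099257d75.shift 3 3), (rh3820f35d5e705bec.shift 3 1), rh825097188a8f0eb3, (rhb5da10f7cacf3411.shift 1 3), (rhb730ba14aa32bdb3.shift 3 3)] (by decide +kernel))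
noncomputable def rh0df0511775a05e9c : CRef := CRef.mk (Pat.mk 0x40000000400000004000000000000000000000000 0x80000001e000000ff0000007c0000001e0000007c0000007f0000000e0000000a 11 8) 0 0 (step_sound _ 163 [(rh215e11e099257d75.shift 2 2), (rh274a837cd7eaa569.shift 1 0), rhb261790060b42601, (rhb5da10f7cacf3411.shift 0 2)] (by decide +kernel))
noncomputable def rh8046233350893549 : CRef := CRef.mk (Pat.mk 0x100000001000000010000000000000000000000000 0x2000000038000001ff000001fe000003f70000077f000003fe000003ef0000007c00000028 11 11) 0 0 (step_sound _ 69 [(rh47dece01c1595e79.shift 4 0), rhce57b6de66b384ff, (rhdd46ae913f4cfc20.shift 0 2)] (by decide +kernel))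
noncomputable def rh8be0ed7af05cf297 : CRef := CRef.mk (Pat.mk 0x40000000400000004000000000000000000000000000000000 0xa0000000e0000001f80000007c000001ff000003fe0000007e0000003e0000003800000038 11 10) 0 0 (step_sound _ 133 [rh0303af2a805f5149, (rh281c6819542c66e6.shift 5 1), (rh2b8febffdab40d6d.shift 3 3)] (by decide +kernel))
noncomputable def rh564e3ab7e6edf421 : CRef := CRef.mk (Pat.mk 0x100000001000000010000000000000000000000000 0x20000000380000003c0000003c0000001e0000007f000000fe000001ef0000007c00000028 11 9) 0 0 (step_sound _ 101 [(rh1779f98266d6b43c.shift 1 2), (rh4fca1ff357a856bc.shift 0 1), rh80c2e91216f985ec, (rh85fe8bf98f55243d.shift 3 2), (rhc33c42c15deeba8e.shift 3 2)] (by decide +kernel))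
noncomputable def rh70e7fe76d036bfd6 : CRef := CRef.mk (Pat.mk 0x200000002000000020000000000000000000000000 0xc0000000c0000001f0000003e000000ff000000fe0000007e0000007800000050 11 8) 0 0 (step_sound _ 69 [(rh6eff4158bb400f47.shift 4 0), (rh748ab8d688f774be.shift 0 1), (rh8ff3dde5b1c639e0.shift 4 0)] (by decide +kernel))
noncomputable def rh82fa9b213866d9e9 : CRef := CRef.mk (Pat.mk 0x1000000000000000200000002000000000 0x1000000070000000700000007c0000007f000001fe000001ff000000fc0000005c 11 9) 0 0 (step_sound _ 101 [(rh2eeb25d2bb8f1192.shift 4 0), rh46c40fc1f0ed3ce8, (rhab5eb51f364842d2.shift 3 0), (rhdd6e5f03cd731c17.shift 1 0), (rhf153d2af6b144509.shift 4 0), (rhf3c18d8cfe33c40d.shift 4 0)] (by decide +kernel))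
noncomputable def rhed6b332f0e9e600f : CRef := CRef.mk (Pat.mk 0x1000000000000000200000002000000000000000000000000000000000 0xf0000000f0000003fc000003fe000001f8000003ff000003fe000000ff0000001e0000001c0000001c00000004 11 10) 0 0 (step_sound _ 260 [(rha8895bfb685a08eb.shift 4 4), (rhb3a6a6d11d5578d7.shift 1 4), rhbb2466c7b9351461] (by decide +kernel))
noncomputable def rhd1f42b776db9d5f8 : CRef := CRef.mk (Pat.mk 0x10000000000000002000000020 0x20000000380000007c0000007f000001ff000003ff000001ff0000003f0000003e0000007c 11 10) 0 0 (step_sound _ 132 [rh552f7004bddc2e78, rh69598d9fc667df2a, (rh8b6a14aacffdc8aa.shift 1 0), (rh9d6caa757c0527f4.shift 3 0), (rha8895bfb685a08eb.shift 4 0), rhe6f58d4cda7d295d] (by decide +kernel))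
noncomputable def rh15f210ea7db8c913 : CRef := CRef.mk (Pat.mk 0x1000000000000000200000002000000000000000000000000000000000 0xf0000000f0000003fc000003fe000001fe000003f8000003fe000000ff0000001e0000001c0000001c00000004 11 10) 0 0 (step_sound _ 260 [(rh4e852d3b440a1e00.shift 1 4), rh9cc9f29e83d4a11a, (rha8895bfb685a08eb.shift 4 4)] (by decide +kernel))
noncomputable def rh55cb53709c1efec4 : CRef := CRef.mk (Pat.mk 0x10000000000000002000000020 0x80000003800000078000001f8000003ff000003fe000001ff000003f7000000fe00000060 11 10) 0 0 (step_sound _ 132 [(rh7277bb6a6a6773a9.shift 1 0), (rh900f1c31dc71257a.shift 4 0), (rh9d6caa757c0527f4.shift 3 0), rhd344252e738cbbcb, rhecf643cf3b10e23a] (by decide +kernel))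
noncomputable def rh4fdb3f445e6193c0 : CRef := CRef.mk (Pat.mk 0x10000000000000002000000020 0x20000000380000007c0000007f000001ff000007ff000003ff000007bf000000be0000007c 11 11) 0 0 (step_sound _ 132 [rh552f7004bddc2e78, rh69598d9fc667df2a, rh7dd6feefade0d919, (rha8895bfb685a08eb.shift 4 0), (rhaf6b5d95cebf13cc.shift 3 0), (rhb0c9c9b15e767cec.shift 1 0)] (by decide +kernel))
noncomputable def rh32b6f8da67ecb952 : CRef := CRef.mk (Pat.mk 0x20000000000000004000000040 0x500000007e000001fc000001fe0000077e000003ff000007fe000000fc000001fe 11 11) 0 0 (step_sound _ 133 [(rh2859c381926242e6.shift 1 0), rh71b300c783fab52e, (rh790580cc145d86cb.shift 1 0), (rh8e4697ec1f99a36e.shift 1 0), (rha8895bfb685a08eb.shift 5 0)] (by decide +kernel))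
noncomputable def rhd30e1fef63e998ef : CRef := CRef.mk (Pat.mk 0x1000000000000000200000002000000000 0x100000007000000070000000fc000001bf000001fe000001ff000000fc0000005c 11 9) 0 0 (step_sound _ 101 [rh5874bb900a9ea6a1, (rh6d0c79231951a05e.shift 4 0), (rh87919bd563354cbc.shift 3 0), (rhbab796f6dafe9186.shift 4 1), (rhdd6e5f03cd731c17.shift 1 0)] (by decide +kernel))
noncomputable def rh49706b39122774e4 : CRef := CRef.mk (Pat.mk 0x10000000000000002000000020 0x2000000038000000f8000000ff000003ff000003ff000001ff000003ff000000f000000020 11 10) 0 0 (step_sound _ 132 [rh34499596519f8fc4, rh552f7004bddc2e78, (rh648390cc440e901e.shift 1 0), (rh900f1c31dc71257a.shift 4 0), rh9b805d8cb7fc0af4] (by decide +kernel))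
noncomputable def rh00f3f1701a586f5b : CRef := CRef.mk (Pat.mk 0x10000000000000002000000020000000000000000000000000 0x40000003f0000001f400000fff000007fe00000eff0000005e0000005c0000001c 11 12) 0 0 (step_sound _ 197 [(rh1bd88579ba9fc836.shift 2 2), (rh1c0a687656f71820.shift 4 2), (rh3af417a478dd307e.shift 4 2), rh44e9bf34925a91eb, (rh879ee90054fc7e07.shift 2 2), (rh9649bdffdcc7bbc0.shift 4 2), (rhecf1ec9e62d84b60.shift 2 2)] (by decide +kernel))
noncomputable def rh8a18792ebd448db3 : CRef := CRef.mk (Pat.mk 0x10000000000000002000000020 0xe8000000ff000001ff000003ff000001ff000003ff000000be00000020 11 10) 0 0 (step_sound _ 132 [rh1470377545f2041d, rh34499596519f8fc4, (rh59a7c93ca23662c8.shift 3 0), (rh769c0ea957bda77b.shift 1 0), (rha8895bfb685a08eb.shift 4 0)] (by decide +kernel))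
noncomputable def rhd61f5fb388e555ea : CRef := CRef.mk (Pat.mk 0x2000000000000000400000004000000000 0x1c0000001c000007ff000007ff000007fe000003d8000000f8000000a0 11 11) 0 0 (step_sound _ 134 [(rh3b4e7bbd7e04d4ae.shift 2 0), (rh7ff874dad58a8b8a.shift 0 1), (rhac94ae1e74027fbc.shift 4 0), (rhc0e7132a59b07e16.shift 4 0), (rhc6aa94fd0d3095a4.shift 2 0)] (by decide +kernel))
noncomputable def rhc6cde4402654b1c2 : CRef := CRef.mk (Pat.mk 0x40000000000000008000000080000000000000000000000000 0x58000000780000037c0000037c00000fff00000ffe000003ff000003780000017000000150 11 12) 0 0 (step_sound _ 134 [(rh147768cee304e652.shift 3 1), (rh1c78af523c77ca63.shift 2 2), (rh2bcd42af9acf06ae.shift 3 1), (rh5211525c799a1ed3.shift 3 1), (rh526de27753ed63c5.shift 0 2), (rh8e5cd1e97801e5a0.shift 3 0), (rh9f4f30869ee2d02f.shift 2 1), (rhd0725e71a44c2583.shift 2 1), (rhf11f7734687c1004.shift 4 1), (rhf292fe8cedf969d9.shift 2 1), (rhf38d193afd3fd09b.shift 2 0)] (by decide +kernel))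
noncomputable def rhc6134d3e642fc49a : CRef := CRef.mk (Pat.mk 0x40000000000000008000000080000000000000000000000000 0x40000000780000007b0000007f8000007fe00000ffe000003ff0000077c000003f0000003f0 11 12) 0 0 (step_sound _ 134 [(rh07d9e017cfd3753b.shift 1 1), (rh24a8e9b64fae7b66.shift 2 0), (rh49854efb6830ea90.shift 3 0), rh4c4c04bf4f81a839, (rh59454698d595158b.shift 2 0), rh5bd84f2c153f3da7, (rh5e5fa74c8712f9dd.shift 2 0), (rh82b62cd3a8a53b8f.shift 2 0), (rh86de49f8ed4d5469.shift 3 0), (rh9750b794d1aa5c3c.shift 2 0), (rha332e3aae79fcfa0.shift 3 0), (rhda2fdd99d7c1ca2c.shift 1 0), (rhdc2a53df48fd6d12.shift 1 0), (rhe9436b2e08222c27.shift 3 0), (rhfec959f9bef966d4.shift 3 0)] (by decide +kernel))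
noncomputable def rhe019792e29e1e334 : CRef := CRef.mk (Pat.mk 0x100000000000000020000000200000000000000000 0x4000000040000003fe000001fc00000fff000007fe00000eff0000005e0000005c 11 12) 0 0 (step_sound _ 165 [(rh3e98af1c4ecc4390.shift 4 1), rh6b9710fe3fdcf57a, (rh6c410d80a8825e39.shift 1 2)] (by decide +kernel))
noncomputable def rh68f0c9ab1d7ef8ee : CRef := CRef.mk (Pat.mk 0x200000002800000000000000000000000000000000 0x4800000058000000dc000001fc000000fe000001ff000003fc000001f000000040 11 10) 0 0 (step_sound _ 132 [(rhb103f40a53fe1424.shift 0 3), (rhb1c76ca88e9833b3.shift 2 0), (rhbe205b6920fa72d2.shift 1 3), (rhceff09e70080e6f2.shift 2 1), (rhe3f7356e6060e8e8.shift 0 2)] (by decide +kernel))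
noncomputable def rh02278d118f162643 : CRef := CRef.mk (Pat.mk 0x400000005000000000000000000000000000000000 0x18000000b8000003ff000001fe000003fe000000ec000000ec000000a0 11 10) 0 0 (step_sound _ 133 [(rh14e30ae87b198e4b.shift 1 3), (rh29e050d5dc8a9061.shift 0 1), (rh3f396fc471e867d8.shift 2 2), (rhaf51d7b42f205203.shift 3 0)] (by decide +kernel))
noncomputable def rh308cb8bddff26b70 : CRef := CRef.mk (Pat.mk 0x400000005000000000000000000000000000000000 0x20000001b8000001b8000001b8000003fe000001ff00000fdf000007f8000007f800000028 11 12) 0 0 (step_sound _ 133 [(rh30faa9cf4dec58ec.shift 0 3), (rh6347aebfbd4f4419.shift 1 0), (rh7999d2592ce9cf0e.shift 3 1), (rhb103f40a53fe1424.shift 1 3), (rhe3afa6c0f229bb1f.shift 2 1)] (by decide +kernel))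
noncomputable def rha6111c6a34e153fe : CRef := CRef.mk (Pat.mk 0x2000000028000000000000000000000000000000000000000000000000 0x40000000c0000004c000001ff000000fe000001f8000003fc000001fc000000780000007800000050 11 10) 0 0 (step_sound _ 196 [rh8fa881eb7910b3fb, (rhb1c76ca88e9833b3.shift 2 2), (rhff7d63dcb3cf9f74.shift 2 6)] (by decide +kernel))
noncomputable def rh5d4ff32b8a27fb9d : CRef := CRef.mk (Pat.mk 0x200000002800000000000000000000000000000000 0x1c0000005c000000de000001fe000000fe0000003f000000fc0000007c00000058 11 9) 0 0 (step_sound _ 132 [(rh896759f1eac8db33.shift 0 1), (rhb103f40a53fe1424.shift 0 3), (rhf0bd989fb168af4e.shift 1 0), (rhf5183d55e2daca0a.shift 1 1), (rhff7d63dcb3cf9f74.shift 2 4)] (by decide +kernel))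
noncomputable def rh7b4001685dc53def : CRef := CRef.mk (Pat.mk 0x200000002800000000000000000000000000000000 0x54000000dc000000dc000001ff000000fc000000ff000000de000000de00000016 11 9) 0 0 (step_sound _ 132 [rh7957816d94cc3ca1, (rhfe107cde5e7931d6.shift 2 1), (rhff7d63dcb3cf9f74.shift 2 4)] (by decide +kernel))
noncomputable def rhcef9e29d2b2e5915 : CRef := CRef.mk (Pat.mk 0x2000000028000000000000000000000000 0x50000001f3000000fe000001ff000003fc000003f8 11 10) 0 0 (step_sound _ 100 [(rh0ea75d484eebd357.shift 2 0), (rh14e30ae87b198e4b.shift 0 2), (rh45c4133b34d4200e.shift 0 2), (rhbe205b6920fa72d2.shift 1 2), (rhff7d63dcb3cf9f74.shift 2 3)] (by decide +kernel))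
noncomputable def rh72e726eea4a4c945 : CRef := CRef.mk (Pat.mk 0x40000000500000000000000000000000000000000000000000 0x1000000098000003ff000001fe000003ef000007fc000007fc000000e0000000a0 11 11) 0 0 (step_sound _ 165 [rh2ba0fc4255273aea, (rhb1c76ca88e9833b3.shift 3 1), (rhff7d63dcb3cf9f74.shift 3 5)] (by decide +kernel))
noncomputable def rhbe0b50054ba08d7c : CRef := CRef.mk (Pat.mk 0x400000005000000000000000000000000000000000 0x38000000780000003e000003fe000001ff000001bf000001f8000000f800000038 11 10) 0 0 (step_sound _ 133 [(rh2d7eee284621c7f5.shift 3 1), (rhb103f40a53fe1424.shift 1 3), rhf38264fa954ce5cc, (rhf5183d55e2daca0a.shift 2 1), (rhff7d63dcb3cf9f74.shift 3 4)] (by decide +kernel))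
noncomputable def rh2cc6cb5597dcb40a : CRef := CRef.mk (Pat.mk 0x1000000014000000000000000000000000000000000 0xe0000000e0000000f8000000fc000003ff000001fe000003ff000001fc000001fc00000070 11 10) 0 0 (step_sound _ 133 [(rh2f68fb68062f97ae.shift 4 3), (rh712745061989c117.shift 3 3), (rh7b95de6bf3e75755.shift 4 0), (rha3fd83893c3ef42f.shift 3 3), (rhea2a3a1b80608343.shift 2 0), (rhfc5d3d175dee4f1b.shift 0 1)] (by decide +kernel))
noncomputable def rha983ab79c7e4a32a : CRef := CRef.mk (Pat.mk 0x2000000028000000000000000000000000 0xc0000000c0000000d4000001f7000000fe000000ff000000f800000078 11 9) 0 0 (step_sound _ 100 [(rh14e30ae87b198e4b.shift 0 2), (rh82e22e7b107d3aa6.shift 2 0), rhc79936f72a2dc342, (rhf5183d55e2daca0a.shift 1 0)] (by decide +kernel))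
noncomputable def rh51f0d66dbcd3830d : CRef := CRef.mk (Pat.mk 0x20000000280000000000000000000000000000000000000000 0xd4000000dc000000dc000000ef000000fe000000ff000000fe0000007e0000001e00000010 11 8) 0 0 (step_sound _ 164 [(rh0586b86c3386831f.shift 2 0), (rh7957816d94cc3ca1.shift 0 1), (rhbe205b6920fa72d2.shift 1 4), (rhf5183d55e2daca0a.shift 1 2), (rhfd01510815188b45.shift 0 4)] (by decide +kernel))
noncomputable def rh7d5fc9bbd69efadb : CRef := CRef.mk (Pat.mk 0x40000000500000000000000000000000000000000000000000 0x280000003c0000003c0000007f000001ff000003ff000001f8000000f80000003800000020 11 10) 0 0 (step_sound _ 165 [(rh13f3c0203d1bd5b0.shift 0 2), (rh1efa4be130bb761a.shift 1 3), (rh395f36edbab32ae0.shift 1 2), (rh39f0b2b63349dcb7.shift 1 1), (rh45c4133b34d4200e.shift 1 4), (rh5ad50a7ed3849123.shift 0 2), (rhcacbc23fd1ed408d.shift 0 2), (rhdf9803d48a81f129.shift 3 0), (rhe65a8ab8bc9ac00d.shift 1 3), (rhe77d832a2eaa28b3.shift 0 2)] (by decide +kernel))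
noncomputable def rhf0f0888cd5aed1f1 : CRef := CRef.mk (Pat.mk 0x80000000a0000000000000000000000000000000000000000000000000 0x4000000070000003700000037000000f7e00000ffe000003ee000007ff000003fe000003fe000001700000007000000050 11 12) 0 0 (step_sound _ 229 [(rh050a334dc4a5fb93.shift 1 2), (rh48325a5ce313afef.shift 4 3), (rh64a212036d630977.shift 4 1), (rh8fc95eb0eac5732f.shift 1 2), (rh954cf2afa80b1bb8.shift 1 4), (rh9ae345757b7d94d6.shift 1 0), (rh9b78a84cf0364acf.shift 3 3), (rha91fb1f261b87c83.shift 0 2), (rhc343e2f10665020b.shift 4 3)] (by decide +kernel))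
noncomputable def rh1a7ecb336afb571c : CRef := CRef.mk (Pat.mk 0x80000000a000000000000000000000000000000000 0x400000007000000070000001700000077e000003fe000003bf000001fc000001f8000001f800000050 11 11) 0 0 (step_sound _ 165 [rh03f2f920553f71c5, (rh43c8403baf2b2c04.shift 2 1), (rh695c0f9a699d4232.shift 2 0), (rh6f1d2ffe3b2b1421.shift 2 2), (rh8ce56483a56deced.shift 2 0), (rh9b78a84cf0364acf.shift 3 1), (rhc8aeed9242f912a2.shift 2 1), (rhf51728dc908f32e6.shift 2 0)] (by decide +kernel))
noncomputable def rh73c1496bc875eb67 : CRef := CRef.mk (Pat.mk 0x200000002800000000000000000000000000000000 0x4800000058000000dc000000ff000000fe000000fe000001fe0000007800000050 11 9) 0 0 (step_sound _ 132 [(rh14e30ae87b198e4b.shift 0 3), (rh448d19ff18c2314f.shift 1 0), (rh5ed883c2301a35e9.shift 1 1), (rh81e83e8e923c89b8.shift 2 2), (rhceff09e70080e6f2.shift 2 1)] (by decide +kernel))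
noncomputable def rhc7e619d415fe8fd3 : CRef := CRef.mk (Pat.mk 0x10000000100000001000000000000000000000000000000000 0x2200000076000000f6000003f7000000ff0000007e000000ff000000fe000000f80000003800000008 11 10) 0 0 (step_sound _ 197 [(rh1b03251cca9f5888.shift 0 2), (rh215e11e099257d75.shift 4 3), (rh261464cd085426a1.shift 1 0)] (by decide +kernel))
noncomputable def rhdb567792e7d21375 : CRef := CRef.mk (Pat.mk 0x1000000010000000100000000000000000 0x20000000a2000003fe000000fe000003fe000003fe0000077e000000ff0000001a00000008 11 11) 0 0 (step_sound _ 133 [(rh0f788da68f99f768.shift 1 1), (rh215e11e099257d75.shift 4 1), rh27d0c0faaf609108] (by decide +kernel))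
noncomputable def rh52dcf7799c3a5d0c : CRef := CRef.mk (Pat.mk 0x80000000800000008000000000000000000000000 0x200000002c0000003c0000007c0000003f000000ff000000f80000003800000030 11 8) 0 0 (step_sound _ 67 [(rh5abfc4c9d959be03.shift 2 1), (rh6204fa91b810ff3e.shift 2 0), rhe2cbac517d87123d] (by decide +kernel))
noncomputable def rhfc3e224382a17417 : CRef := CRef.mk (Pat.mk 0x8000000080000000800000000000000000000000000000000 0x140000003c000000fc0000007f000001bf000000f8000001fe000001fc0000001c0000000c 11 9) 0 0 (step_sound _ 132 [(rh533da649b3706ede.shift 1 0), (rhd1bd93be9357ca01.shift 0 2), (rhfb9fb48a5e63ed80.shift 2 3)] (by decide +kernel))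
noncomputable def rhd2444e9fc6513301 : CRef := CRef.mk (Pat.mk 0x100000001000000010000000000000000000000000 0x280000003f000007ff000003ff0000007000000038000000380000003800000028 11 11) 0 0 (step_sound _ 37 [rh6e3876843e3f08a5, (rhba248e63a9e81d78.shift 0 2), (rhff763b75cad9671b.shift 3 0)] (by decide +kernel))
noncomputable def rhf0ffdfbb2994c6dd : CRef := CRef.mk (Pat.mk 0x100000001000000010000000000000000000000000 0x280000003800000038000001f8000001fe000000fe0000007f000000fe000001ef0000007c00000028 11 9) 0 0 (step_sound _ 101 [rh65b638a107c9040b, (rh85fe8bf98f55243d.shift 3 2), (rhe2c0946712b2db7c.shift 1 1), (rhfb9fb48a5e63ed80.shift 3 2)] (by decide +kernel))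
noncomputable def rh1ca452db66ab65de : CRef := CRef.mk (Pat.mk 0x100000001000000010000000000000000000000000 0x1800000038000000b8000003ff000003ff0000077e000000fe000001f80000003800000028 11 11) 0 0 (step_sound _ 165 [(rh19e4ed7fc0080a48.shift 1 1), rh36de4aa74882a5be, (rh4e83f95b4706ee1e.shift 1 0), (rh516935bbbf0dc838.shift 3 1), (rhfc398fe1df15befb.shift 1 1)] (by decide +kernel))
noncomputable def rh798753aefe26fbf5 : CRef := CRef.mk (Pat.mk 0x200000001000000000000000000000000000000000 0x68000000fc000001fe000007ff000007ff000007ff000001fe000001f80000017800000038 11 11) 0 0 (step_sound _ 164 [(rh22033325ff46dae7.shift 0 1), (rh265917204438ebf0.shift 1 1), (rh3d6facfe682690a8.shift 1 1), (rh4abda8ba4952cdae.shift 1 0), (rh5dcf9d8d53d2fcf5.shift 1 2), (rh6d96dd5b5b28026d.shift 0 1), (rh96c959f99e8744d1.shift 1 0), (rhadc682c75d0edf04.shift 0 1), (rhba36b1610c8ad8a1.shift 0 1), rhba833fd47f6bf0a4, rhc6c11717fa579f16, (rhcdde3726102563fa.shift 1 0), (rhf58cb0eb90980cfc.shift 1 1)] (by decide +kernel))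
noncomputable def rh36ec319a95daed54 : CRef := CRef.mk (Pat.mk 0x20000000100000000000000000000000000000000000000000 0x380000003c000000bc000001ff000000ff000000ff000000fe000000fe0000007e0000003c0000003c 11 9) 0 0 (step_sound _ 196 [(rh118af980f3347f56.shift 0 2), (rh143199db8ebde1d7.shift 1 0), (rh1d1f0755fb3450ab.shift 0 2), (rh4148bc534b789994.shift 1 0), (rh4abda8ba4952cdae.shift 1 1), (rh781d85834addb10e.shift 2 2), (rh9d4c17d60faa54f5.shift 0 3), (rhc48e577e64d9d770.shift 0 1), (rhd1d8727fd892f337.shift 0 3), (rhd5d074ace2c2e757.shift 1 2), (rhe5b87192a591cb53.shift 0 2), (rhea1030c0c3fdff8b.shift 0 2)] (by decide +kernel))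
noncomputable def rha4314b6ef7a66e7f : CRef := CRef.mk (Pat.mk 0x400000002000000000000000000000000000000000 0x1000000070000000f0000001ec000003fc000007ff000007fe000007fe000001ff000000fe00000076 11 11) 0 0 (step_sound _ 132 [(rh2373d231def53f3e.shift 2 1), (rh344169eb3a364a0e.shift 1 1), (rh5b11c1ef276c1fa8.shift 2 0), (rh5ee1ec7e1c3b378b.shift 1 0), (rh65121f78b6d83c05.shift 1 1), (rh6ebe2e0a6464a300.shift 2 1), (rh76d27ecdbf4b95d2.shift 1 1), (rh98f43c4271c65405.shift 1 1), (rh9d49ecee09e9ab94.shift 1 0), (rha3f1dec29fa4309f.shift 1 1), (rhaaa341a30d94809e.shift 2 1), rhb526661e9a619fef, (rhc35983e0ec398e63.shift 2 0)] (by decide +kernel))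
noncomputable def rh36423b504338af7a : CRef := CRef.mk (Pat.mk 0x40000000200000000000000000000000000000000000000000 0x70000000f0000001f0000003f0000003ff000007fe000007ff000001f8000000f80000007000000040 11 11) 0 0 (step_sound _ 164 [(rh4763a5d51e996f2e.shift 2 3), (rh6eebbcdaa94330d9.shift 2 1), (rh7c9e249ca23212f2.shift 2 0), (rh87529cf1dbbbb06c.shift 1 2), (rh919678e623c498c4.shift 1 2), (rha903bc7732fd82ea.shift 2 1), (rhc35983e0ec398e63.shift 2 1), (rhcbf1c87e08f536c5.shift 0 2), (rhd68b62711672754f.shift 1 2), (rhdd44bc56ec998a17.shift 1 2), (rhe09db3f2ae3754d3.shift 1 0), (rhe728e38309f4fcb8.shift 1 3), (rhff867d44d4e4ef6b.shift 2 2)] (by decide +kernel))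
noncomputable def rhe98a5c0e236a44a9 : CRef := CRef.mk (Pat.mk 0x200000001000000000000000000000000000000000 0x4000000070000000f8000000fe000007fe000003ff000007fe0000007c0000007c0000007c00000030 11 11) 0 0 (step_sound _ 166 [(rh551de9dd1d38fe12.shift 1 2), (rh630ff0ee4d3e7b13.shift 1 4), (rh667eaa1f1f329139.shift 2 1), (rh6768d02481f8359e.shift 0 1), (rh92ac9ed0654e3f6a.shift 1 2), (rha22a8df62be10de8.shift 2 0), (rhd3a8cab7ada57fe6.shift 1 1)] (by decide +kernel))
noncomputable def rhea915f81a10d813a : CRef := CRef.mk (Pat.mk 0x20000000100000000000000000000000000000000000000000 0x500000007000000078000000f8000001fc000007fe000003fe000007ff000003f8000003fc000003780000007800000040 11 11) 0 0 (step_sound _ 198 [(rh094eec02042a24a1.shift 2 0), (rh0ff478574118d002.shift 1 1), (rh249cb2c417d5c1f4.shift 0 2), (rh283b5cbbbe210660.shift 1 2), (rh630ff0ee4d3e7b13.shift 1 5), (rha40da66d223c0ab1.shift 2 2), (rhd787beb4e9c98fcc.shift 3 2), (rhe099e10f997f122d.shift 1 1), (rhf00511e15baaf502.shift 2 2)] (by decide +kernel))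
noncomputable def rhcb47465751c74623 : CRef := CRef.mk (Pat.mk 0x20000000100000000000000000000000000000000000000000 0xf8000001fc000007ff000003fe000007ff000003fc000003f4000003f00000007000000040 11 11) 0 0 (step_sound _ 198 [(rh0ff478574118d002.shift 1 1), (rh19012e9b8fc8e5ce.shift 0 2), (rh261389bbecf0a19f.shift 1 2), (rh5a85396a44ae9f90.shift 2 2), (rh6eef86107d5f9c5c.shift 2 0), (rh7bb105f4c602861b.shift 3 5), (rh86109395a0f54654.shift 0 3), (rhb0b938df4d680549.shift 1 2), (rhb25985103176825f.shift 1 4), (rhbef2ca9e7ab35de2.shift 1 2)] (by decide +kernel))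
noncomputable def rh36c951d273656da9 : CRef := CRef.mk (Pat.mk 0x200000001000000000000000000000000000000000000000000000000000000000 0x78000000fc000001fe000003ff000003fe000003ff000003fe000000f4000000f8000000380000003800000020 11 10) 0 0 (step_sound _ 196 [(rh00d84e99960ecd9c.shift 1 3), (rh11c5cb120c658c7c.shift 1 3), (rh167e09504ea23ec4.shift 1 4), (rh1d72650524f39e10.shift 1 4), (rh248ce83b02afb230.shift 1 4), (rh39603762df59c414.shift 0 4), (rh3a19dd5895c9999d.shift 1 3), (rh8cbc5316896ab192.shift 0 4), (rh99c6847b08e75a84.shift 1 3), (rha09da71584477734.shift 0 4), (rha301ba294fde1853.shift 2 3), (rhc4c73cc752553a79.shift 0 3), (rhd1dbc56c6133e6b0.shift 0 4), (rhf3427b421aca4930.shift 1 0)] (by decide +kernel))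
noncomputable def rhd8ddcddc6720ef52 : CRef := CRef.mk (Pat.mk 0x40000000200000000000000000000000000000000000000000 0x30000000b0000000f8000001fe00000fff000007fe000003fe000003ff000000fe000000f600000040 11 12) 0 0 (step_sound _ 164 [(rh0236b96633b5bda7.shift 2 2), (rh20c728b205667c71.shift 1 1), (rh6956bc7e15b156e0.shift 2 1), (rh77a929568e39df27.shift 2 2), (rh87c4db39be687b60.shift 2 1), (rh99eab542e9ac57da.shift 2 0), (rhb0cf1ffc13eaa59b.shift 1 1), (rhb526661e9a619fef.shift 0 1), (rhb8ce922a8dc55202.shift 1 2), (rhbfe69a75fe54f03c.shift 1 2), (rhf41ae8cdc829d5b4.shift 1 1), (rhfb86e792356162ef.shift 1 2), (rhfbad74dfb2f36f95.shift 2 2)] (by decide +kernel))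
noncomputable def rhe176a5f800675bd7 : CRef := CRef.mk (Pat.mk 0x20000000100000000000000000000000000000000000000000 0xe8000001ec000007fe000003fe000007ff000003fe000003fc000003f80000007800000040 11 11) 0 0 (step_sound _ 198 [(rh10a86426336b6da6.shift 1 0), (rh16dc0d1b5b76d6fd.shift 1 2), (rh19012e9b8fc8e5ce.shift 0 2), (rh1aca5e33e4877c4d.shift 2 0), (rh4ee6de366450e2d6.shift 1 2), (rh57f0212b6fe98f6d.shift 1 1), (rh89d159f3412489a1.shift 3 5), (rhb25985103176825f.shift 1 4), (rhdb1f92de024be74a.shift 1 1)] (by decide +kernel))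
noncomputable def rhec00e0e8d3bbb2a1 : CRef := CRef.mk (Pat.mk 0x40000000200000000000000000000000000000000000000000 0x400000007000000078000000fe0000007e000003ff000007fe000003ff000001ff000000fe000000f600000040 11 11) 0 0 (step_sound _ 164 [(rh0d869f1bceb82e20.shift 2 1), (rh2094abfa3352029f.shift 2 0), (rh5d9052973b898388.shift 1 3), (rh62524bdd3b448be1.shift 1 2), (rh6639798fd720d71b.shift 0 1), (rh672a713ea4c7afbd.shift 1 2), (rh6e8f09236424fd12.shift 2 1), (rh77c01ae9fee20b47.shift 2 1), (rh7c6ef35d989c366f.shift 2 1), (rh9581c87ca68ea93c.shift 2 1), (rhb526661e9a619fef.shift 0 1), (rhf3db4a9ff2bf2eb0.shift 1 1)] (by decide +kernel))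
noncomputable def rh202d5a36350225c8 : CRef := CRef.mk (Pat.mk 0x2000000010000000000000000000000000000000000000000000000000 0x800000078000000f8000001f4000003ff000003ff000003ff000001fe000000fc000000780000003000000020 11 10) 0 0 (step_sound _ 164 [(rh019a9b65a7413b96.shift 0 2), (rh12a634445f3a95dd.shift 2 3), (rh1450bfe2b7a64336.shift 1 2), (rh1700545361c933d0.shift 1 2), (rh288a1d65be1385da.shift 1 3), (rh352aa131a5837587.shift 1 0), (rh4a7587ed94e4daec.shift 0 3), (rh4eac46a42f4e8d3f.shift 1 3), (rh5a4a9e7d9de5144b.shift 1 3), (rh87095a3f5fd8823f.shift 1 3), (rhada025f009a67e7e.shift 1 2), (rhb0a1cc1d6002f2b1.shift 0 3), (rhb4dfd5dac0ede346.shift 0 3), (rhb620498d100bf467.shift 0 3), (rhe59ebb2e434aa0a4.shift 0 2)] (by decide +kernel))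
noncomputable def rhd6d83e452f8f9e96 : CRef := CRef.mk (Pat.mk 0x40000000200000000000000000000000000000000000000000 0x70000000f8000003f8000003fe000001fe000003ff000001fc000000fc000000fc0000007800000078 11 10) 0 0 (step_sound _ 197 [(rh143199db8ebde1d7.shift 2 0), (rh1d1f0755fb3450ab.shift 1 2), (rh4148bc534b789994.shift 2 0), (rh524e58dc65368664.shift 1 2), (rh53819458fc64e55b.shift 2 0), (rh53fc44a772cea51e.shift 0 3), (rh59c7fcc52eaa625d.shift 1 3), (rh6da9b85a32987bb8.shift 1 2), (rh73647db81e6b1a39.shift 1 2), (rh823d586cb8e91fd0.shift 2 2), (rhc48e577e64d9d770.shift 1 1), (rhcd42fd56ab7ea6b5.shift 3 3)] (by decide +kernel))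
noncomputable def rha6d928f617309e83 : CRef := CRef.mk (Pat.mk 0x20000000100000000000000000000000000000000000000000 0x100000007c000000fe000001fe000001f8000001fe000001ff000000fe0000007c0000007800000010 11 9) 0 0 (step_sound _ 163 [(rh34b963054f3c0c79.shift 0 2), (rh3693243ce94dca53.shift 1 2), (rh6b8e5745ebcb28e5.shift 1 5), (rhad69571b50d88fea.shift 0 2), (rhafe981b90da9a80c.shift 0 1), (rhddd27a8f05bfbd9d.shift 1 0)] (by decide +kernel))
noncomputable def rh0a183358e2f70d96 : CRef := CRef.mk (Pat.mk 0x40000000200000000000000000000000000000000000000000 0x1000000070000000f8000000f8000003fe000003ff000000fe000003ff000003ff000001fe000000f600000020 11 10) 0 0 (step_sound _ 164 [(rh03f73dae7be6c898.shift 0 1), (rh066c47304144b52c.shift 1 2), (rh2ef0de874514190b.shift 1 2), (rh3ea3c195c97682ae.shift 2 0), (rh6b8e5745ebcb28e5.shift 2 5), (rhb2184fdec9e2b5db.shift 1 1), (rhb526661e9a619fef.shift 0 1)] (by decide +kernel))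
noncomputable def rhcb081bd1c0f6997a : CRef := CRef.mk (Pat.mk 0x40000000200000000000000000000000000000000000000000 0x28000000f8000001f8000001ff000003ff000007ff000003f8000007fe000001fe000000f8000000f800000060 11 11) 0 0 (step_sound _ 164 [(rh06b9bb324b25e38c.shift 2 0), (rh075f9160a737ef34.shift 2 0), (rh1a86ec068d0e0959.shift 1 0), (rh209cccf83bf6dd6d.shift 2 2), (rh396deaf28febccdf.shift 2 1), (rh4dc08aad0d0eca29.shift 2 2), (rh55e2ca027579778b.shift 2 1), (rh5e49b8ac4b459398.shift 2 2), (rh76967afd65ee87f4.shift 2 2), (rh77a2b50e9da9169f.shift 1 2), (rh9f6914e32646c225.shift 0 1), (rha2bb3aab265b8d4d.shift 1 2), (rhdc9b9870cc65e2c8.shift 1 2), (rhf0bd9c3a3147a2ec.shift 1 2)] (by decide +kernel))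
noncomputable def rhab6c8cd2605b06eb : CRef := CRef.mk (Pat.mk 0x200000001000000000000000000000000000000000 0x8000000780000007c000001fe000001ff000007ff000001ff000000bf0000003e0000003c00000028 11 11) 0 0 (step_sound _ 164 [(rh0ee61f6deec22f2f.shift 1 1), (rh1842a74816825b64.shift 2 2), (rh47b4602d2dd4ba61.shift 1 0), (rh494acc6991e50b52.shift 0 1), (rh6c103899c4ccb415.shift 1 1), (rh86082e69aedd330b.shift 1 1), (rha444a55834af6fcc.shift 0 1), (rhc399a66f07b52f8b.shift 0 1), (rhcdde3726102563fa.shift 1 0), (rhdc1e546b99baf9b3.shift 1 1), (rhe4626f32ba296d15.shift 1 0), (rhf331c6323cba17ef.shift 0 1), (rhf8f7db08a0ee93e8.shift 0 1)] (by decide +kernel))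
noncomputable def rh54198e9e74e0ab0e : CRef := CRef.mk (Pat.mk 0x400000002000000000000000000000000000000000 0xb8000001f8000003fc00001ffe00000ffe00001fff000003ec000000fc0000007800000050 11 13) 0 0 (step_sound _ 165 [(rh18cec197066635c3.shift 2 2), (rh26b6951d227d0fcb.shift 3 2), (rh560c191faf809be1.shift 3 2), (rh5b23d2bad8b29d07.shift 2 2), (rh6b2d478bd5038b58.shift 2 0), (rh6e719ce4f6785557.shift 2 1), (rh862ab325b43d6bc5.shift 3 1), (rh8e4a1bebe8bcd00b.shift 2 2), (rha116c537a0448468.shift 2 2), (rha2d66b9a8002bb17.shift 2 0), (rhcb7944d9fe0f3ee7.shift 3 2), (rhd1d8727fd892f337.shift 1 2), (rhed8205500d23739b.shift 2 2), (rhf4d7830269ad0750.shift 0 2)] (by decide +kernel))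
noncomputable def rh58c0feb30abd2a94 : CRef := CRef.mk (Pat.mk 0x4000000020000000000000000000000000 0xa0000000fc000001f8000003fc000007ff000007fe000007ff000003bc000001b0 11 11) 0 0 (step_sound _ 102 [(rh0c3d84e82014ab32.shift 2 0), (rh1cf125f884ac2945.shift 3 0), (rh36357102137e1f09.shift 1 0), (rh631bf16861bb9dfb.shift 2 0), (rh69444cf54f9370e3.shift 1 0), rh6975f381c09b668a, (rha148f53463dc77ef.shift 1 0), (rha2bcb61a566abefd.shift 2 0), (rhacc85f8099aa6604.shift 2 1), (rhad8949426ab4c8da.shift 2 0), rhbaa82e106e1bae87, (rhde2fe8611dfbb35c.shift 2 0), (rhf27f7f9d2e45e551.shift 1 0), (rhfd3c968616dd7926.shift 2 0)] (by decide +kernel))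
noncomputable def rh0d54fe9a3e60291a : CRef := CRef.mk (Pat.mk 0x200000001000000000000000000000000000000000000000000000000000000000 0x20000000300000007c0000005c000000fe000003ff000001fe000003ff000001fe0000007e0000007c0000003c0000003800000008 11 10) 0 0 (step_sound _ 196 [(rh15185ca5ff8a2f39.shift 0 4), (rh3dd23770f43ff73f.shift 1 3), (rh44f222197891b990.shift 1 2), (rh6120fc5518693d4b.shift 1 3), (rh72aeeb7cf27dc420.shift 1 2), (rh73464a37ca5fcab4.shift 1 2), (rh744d50cd4e9995e0.shift 1 2), (rh7db9f866d6d46f30.shift 3 2), (rh8cad467569b0fdee.shift 1 3), (rhb1f472bd254fcde9.shift 1 0), (rhf750c417f19ec2df.shift 1 2), (rhf8ae0ffeb1b64872.shift 1 2)] (by decide +kernel))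
noncomputable def rh58d43112f95b0c10 : CRef := CRef.mk (Pat.mk 0x20000000100000000000000000000000000000000000000000 0x500000007000000070000000f0000000f8000001ee000003ff000003ff000003fe000001fe000000f8000000f800000040 11 10) 0 0 (step_sound _ 165 [(rh2beae9857a036a3d.shift 2 1), (rh5332435cbb6cf5e2.shift 1 3), (rh6ab0afc98b90f60a.shift 1 1), (rh7201bcc0f11c4c4f.shift 1 2), (rh8f12ca3561bc19c8.shift 1 1), (rhb35858e772df16f2.shift 2 2), (rhbc41bcec7d4f9556.shift 2 1), (rhc2f0d1c1a1d9b12d.shift 1 0), (rhdde237bf282003bb.shift 1 2), (rhe25e94da483d9d2c.shift 2 2), (rhf27f7f9d2e45e551.shift 0 2), (rhfc1ed1a8c74d5817.shift 0 1)] (by decide +kernel))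
noncomputable def rh2f25d093d000c18f : CRef := CRef.mk (Pat.mk 0x40000000200000000000000000000000000000000000000000 0x1000000070000000f8000000f8000001fe00000eff000007fe000003ff000003ff000000fe000000f6000000e0 11 12) 0 0 (step_sound _ 164 [(rh03c6769e5bdb9873.shift 0 1), (rh09787e731533d1ab.shift 2 0), rh150ace303a1655a1, (rh2ef0de874514190b.shift 1 2), (rh5d7890030d32b6a7.shift 1 1), (rha63845f96e90e2ba.shift 0 1), (rhb526661e9a619fef.shift 0 1), (rhb645928cf1c169cf.shift 1 2), (rhfb86e792356162ef.shift 1 2)] (by decide +kernel))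
noncomputable def rhff5b114632ec22e9 : CRef := CRef.mk (Pat.mk 0x20000000100000000000000000000000000000000000000000 0x70000000fe000001fc000001fe000001f7000007fe000001ff000000fe000000fe0000007000000040 11 11) 0 0 (step_sound _ 165 [(rh0007eb6629eba738.shift 1 2), (rh0b7f987c888a3657.shift 2 2), (rh16c7d371121cccdc.shift 1 0), (rh2610e6f82dfbcc6b.shift 2 0), (rh32cf4e78e961b51d.shift 1 2), (rh55185a4231a6d2a2.shift 1 2), (rh5570b1c1c4ed3b76.shift 1 2), (rh6bc2213b46a0c2ca.shift 2 2), (rh819ec9e12e341f17.shift 2 1), (rhf13a27db9f0b1c41.shift 2 2), (rhf3083592dcdb41cc.shift 0 2), (rhf7d25e1fcfcfbdcc.shift 2 1)] (by decide +kernel))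
noncomputable def rhd4741aaec47054cd : CRef := CRef.mk (Pat.mk 0x10000000080000000000000000000000000000000000000000000000000 0x40000001c0000003e0000007f000003ff800001fff00003dfe00000ffe000007f8000003f8000003d80000038000000100 11 14) 0 0 (step_sound _ 198 [(rh03a6ddf7df0aea50.shift 3 3), (rh0e41b7fb0100e742.shift 3 0), (rh3af57f1133b265e4.shift 2 3), (rh4cd39bc2dfbcc1a4.shift 4 1), (rh86b6c3d7b8d402d5.shift 2 1), (rh945d5376a8b8d16d.shift 4 3), (rhbd7031dad27f82a1.shift 3 2), (rhc2f3f6c9fd28875f.shift 0 2), (rhcc667fc8d3a228e7.shift 4 2)] (by decide +kernel))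
noncomputable def rh12e9b0ca36db2c8f : CRef := CRef.mk (Pat.mk 0x400000002000000000000000000000000000000000 0xf0000001fe000003fc00001ffe00000ffe00001ff7000007f8000001fc0000007800000040 11 13) 0 0 (step_sound _ 165 [(rh1b08f4b344866bbc.shift 0 2), (rh340dafa74febc4f2.shift 2 1), (rh34b35996c317d488.shift 3 1), (rh35af653a95cf244a.shift 2 2), (rh4a2c408eafc7bf5f.shift 0 2), (rh4c05fd0504464a09.shift 3 1), (rh560c191faf809be1.shift 3 2), (rh646e2b68d511c58f.shift 0 2), (rh6e8e34abf15711e7.shift 1 2), (rh81998a5abfa4b519.shift 2 2), (rh840fecf09e80fc69.shift 1 0), (rh84415fe2ee73eab5.shift 3 2), (rh900081c8b85ec3a3.shift 3 2), (rh946fd053228cda0d.shift 3 2), (rhcdde3726102563fa.shift 2 0), (rhfaf65593bf2a503a.shift 2 2)] (by decide +kernel))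
noncomputable def rhed68eaa9d25705f3 : CRef := CRef.mk (Pat.mk 0x100000000800000000000000000000000000000000000000000 0x140000003e0000007f0000007f800001fff00000ffe00000efe000003fc000003f8000001d800000100 11 13) 0 0 (step_sound _ 166 [(rh0e93a7fce3dae3c3.shift 4 1), (rh3a9d9c4728c75aba.shift 2 2), (rh4cd39bc2dfbcc1a4.shift 4 0), (rh6b8e5745ebcb28e5.shift 4 5), (rh806d8f6d61e9e14f.shift 0 1), (rhecf6f0d78b19e3bb.shift 3 2), (rhf0bd9c3a3147a2ec.shift 3 2), (rhf8770ccdf52910ce.shift 4 1)] (by decide +kernel))
noncomputable def rh8f02bb76f48a4bc6 : CRef := CRef.mk (Pat.mk 0x400000002000000000000000000000000000000000 0xa0000000f0000001f8000001f8000001fe000003ff000007fe000007ff000001df000000de00000006 11 11) 0 0 (step_sound _ 132 [(rh009eaba3bc2259e0.shift 2 3), (rh6b8e5745ebcb28e5.shift 2 4), (rha3693262641d870b.shift 1 1), (rhaf6ef04dcd67b1d9.shift 2 1), rhb526661e9a619fef, rhb9cbf4090b60ef22, (rhf387ee4cc5b6fe9d.shift 1 1)] (by decide +kernel))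
noncomputable def rh2ad9a9cb888656ac : CRef := CRef.mk (Pat.mk 0x40000000200000000000000000000000000000000000000000 0x70000000f0000001f800000fbe000007fe00000fff000003fc000003fc000003fc0000007800000078 11 12) 0 0 (step_sound _ 197 [rh0c637d9716bda954, (rh143199db8ebde1d7.shift 2 0), (rh35b23c6699cea663.shift 2 2), (rh39213127480098f2.shift 2 3), (rha499b0650470d42c.shift 1 2), (rha5cb7df7334a736a.shift 2 2), (rha9541a58bfe7c852.shift 2 2), (rhb72682894ccb4b92.shift 1 2), (rhb819a126e38e445a.shift 2 3), (rhcdde3726102563fa.shift 2 1), (rhd134c661be569b54.shift 0 2), (rhe3a9883eee63a9ed.shift 2 2)] (by decide +kernel))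
noncomputable def rh4e027eb0c781d54a : CRef := CRef.mk (Pat.mk 0x40000000200000000000000000000000000000000000000000 0xa0000000fc000003fc000003fc0000077f000003fe000007ff000001ff000001fc000000f4000000a0 11 11) 0 0 (step_sound _ 166 [(rh1ee7f7ff402838b3.shift 0 2), (rh32cf4e78e961b51d.shift 2 2), (rh4527a78c394b3a03.shift 2 2), (rh48efe918a91cea7e.shift 2 2), (rh7d6d22a190ef324b.shift 3 0), (rh8576f78393f65a87.shift 1 1), (rh9de7bee2dc247ef2.shift 3 2), (rha140caa3f8651548.shift 1 2), (rhc845c8dcefd7deae.shift 0 1), (rhcd07c62159bca617.shift 2 2), (rhd5da095759202c3f.shift 2 0)] (by decide +kernel))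
noncomputable def rha133317f15731b90 : CRef := CRef.mk (Pat.mk 0x20000000100000000000000000000000000000000000000000 0x2000000078000000fc000001fc000007ff000003fe000007f7000001fe000001fc000001780000003800000028 11 11) 0 0 (step_sound _ 196 [(rh2b9cef06e79793c0.shift 0 3), (rh2eeafee0c5e39d60.shift 2 3), (rh34b35996c317d488.shift 2 2), (rh6d96dd5b5b28026d.shift 0 2), (rh94601bcdf8b691de.shift 0 2), (rhba833fd47f6bf0a4.shift 0 1), (rhc98fc0781b2f1c4b.shift 1 0), (rhcdde3726102563fa.shift 1 1), (rhdd7026c920d1707c.shift 1 1), (rhf1e60ba9e849b370.shift 0 3), (rhfc42a39b58d4a6d7.shift 1 3)] (by decide +kernel))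
noncomputable def rhd4980011a183f0c8 : CRef := CRef.mk (Pat.mk 0x400000002000000000000000000000000000000000 0xe0000000e0000001fc000003f8000003fc00000fff000007fe000007df000001f8000000f0000000a0 11 12) 0 0 (step_sound _ 134 [(rh00a1888f404def0b.shift 2 0), (rh1882c83ce575dd84.shift 3 1), (rh4c5256d484c9ea26.shift 2 0), (rh71ad0e0557adca61.shift 2 0), (rh819ec9e12e341f17.shift 3 0), (rh8a8fadf36ed035b8.shift 3 1), (rh92a058f80c84f8fc.shift 3 0), (rha979033f4c98c6bb.shift 2 1), (rhc5d60de2fb7762c3.shift 3 0), (rhcda566fabb24e126.shift 0 1), (rhd34871406b35ece6.shift 3 1), (rhd7d14480ac99795a.shift 3 1)] (by decide +kernel))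
noncomputable def rh2b378397a91690e2 : CRef := CRef.mk (Pat.mk 0x40000000200000000000000000000000000000000000000000 0x40000001e0000001fc000003f8000007fc00000fde000007fc00000ffe000003ff000003fc000002fc00000020 11 12) 0 0 (step_sound _ 166 [(rh00a1888f404def0b.shift 2 1), (rh15005b1819f91e79.shift 2 1), (rh169a6cd6a74afb07.shift 1 2), (rh220732bbc3e5dba6.shift 3 2), (rh4a1a261f98d7f5c5.shift 1 1), (rh792ba69c09e15808.shift 2 2), (rh847c1b6595b4fef5.shift 2 1), (rh8fe952b26455d458.shift 1 0), (rh96cdaa7456716b04.shift 2 2), (rha50c716df7af90e0.shift 2 2), (rhdf6b01efba54a853.shift 0 1), (rhf4a28d269907260d.shift 0 2), (rhfe3a6658695f980d.shift 3 2)] (by decide +kernel))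
noncomputable def rh4b64cf6e59800521 : CRef := CRef.mk (Pat.mk 0x40000000200000000000000000000000000000000000000000 0x40000000f4000001fe000003fc00000ffe00000ffe00000fbf000003fe000003fc000003fc0000007800000058 11 12) 0 0 (step_sound _ 197 [rh0c637d9716bda954, (rh1b9623392bf73729.shift 2 3), (rh4148bc534b789994.shift 2 0), (rh497c3fdc5e6f3936.shift 2 2), (rh840fecf09e80fc69.shift 1 1), (rhba833fd47f6bf0a4.shift 1 1), (rhc25fd1a64bc8fdf8.shift 2 2), (rhc8bcca589a5c9d8b.shift 1 1), (rhd4b0f5631ec51f64.shift 1 2), (rhde52e8334fa61986.shift 2 0), (rhff1bb46b264cebb4.shift 2 3)] (by decide +kernel))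
noncomputable def rh5bd1839c95aa9748 : CRef := CRef.mk (Pat.mk 0x40000000200000000000000000000000000000000000000000 0xa0000000e0000001fc000003f8000007fc000003ff000007fe000007ff000001fc000001f8000000e000000080 11 11) 0 0 (step_sound _ 166 [(rh2c6f545decea114c.shift 2 2), (rh48cc57335f42f925.shift 3 0), (rh6a266292678c4fc1.shift 3 2), (rh8fc6e2fffd1d6347.shift 2 1), (rhaa301dab47c06c04.shift 3 1), (rhbaa82e106e1bae87.shift 0 2), (rhc1854128e48f4897.shift 2 3), (rhc7d728bf3b99a715.shift 3 2), (rhcae67b131701e822.shift 3 2), (rhdbece50ce96554dd.shift 3 1), (rhf27f7f9d2e45e551.shift 1 2)] (by decide +kernel))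
noncomputable def rh0adae2fa13b86965 : CRef := CRef.mk (Pat.mk 0x4000000020000000000000000000000000000000000000000000000000 0x6000000078000000f8000000fe000003ff000003fe000007ff000003fe000000fc00000078000000700000007000000040 11 11) 0 0 (step_sound _ 229 [(rh0e089c4838ff7030.shift 2 4), (rh13c3773858edf5c5.shift 3 4), (rh13d211ec0c7cfd9a.shift 2 0), (rh227ee25dc09e4e40.shift 1 3), (rh4d2303eb6683e820.shift 1 3), (rh73bc7c49ac4a0e0a.shift 2 2), (rh8d654790e366eef6.shift 1 3), (rh92061dcd8ee1ca78.shift 1 3), (rh92a367c1e56397f5.shift 1 4), (rha974553cba24c591.shift 3 4), (rhcb664218a5f1bf72.shift 2 2), (rhd79b652c1c43e481.shift 2 2), (rhef9e4118411c7d4f.shift 0 4), (rhfea9977eb01ebc94.shift 1 3)] (by decide +kernel))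
noncomputable def rh33af5ca0f0baa32d : CRef := CRef.mk (Pat.mk 0x4000000020000000000000000000000000000000000000000000000000 0x40000000f0000000f0000001f0000007ff000003ff000007fe000003fe000003fc000003f8000000700000007000000040 11 11) 0 0 (step_sound _ 229 [(rh04eb772b57bb928a.shift 1 3), (rh13c3773858edf5c5.shift 3 4), (rh13d211ec0c7cfd9a.shift 2 0), (rh285b0b77267d200b.shift 1 3), (rh3c41b96f288e3bc5.shift 1 3), (rh451c7af3dd8b8fa3.shift 1 3), (rh629c81d74b341976.shift 2 3), (rh6a9e871044121cb8.shift 1 3), (rh70adfd20eefafa3e.shift 2 3), (rh73bc7c49ac4a0e0a.shift 2 2), (rh92dc7e5959de2f42.shift 0 4), (rhd730c4025d074e0e.shift 1 3), (rhd7967fd279e28b35.shift 2 1), (rhd79b652c1c43e481.shift 2 2), (rhf3158403f04dd298.shift 2 3)] (by decide +kernel))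
noncomputable def rh1c46bae59e3e7e9d : CRef := CRef.mk (Pat.mk 0x20000000100000000000000000000000000000000000000000 0x300000003c0000003c000000bf000001ff000001ff000001fe000001ff0000007e0000007c0000003800000008 11 9) 0 0 (step_sound _ 196 [(rh032a7d2917781dcc.shift 0 2), rh03c3cc883dd4dfaa, (rh46ebb8ba85beaaf4.shift 1 3), (rh4d2303eb6683e820.shift 0 2), (rh73bc7c49ac4a0e0a.shift 1 1), (rh8b63e487af00751a.shift 1 2), (rh92061dcd8ee1ca78.shift 0 2), (rha1d0390c32d38721.shift 0 2), (rha40ea76fb5dabe7d.shift 1 3), (rha6f4e79d978684e0.shift 1 1), (rhca80e57ffe66d861.shift 1 3), (rhd79b652c1c43e481.shift 1 1), (rhd7c980b5c5aae1f0.shift 0 3), (rhfea9977eb01ebc94.shift 0 2)] (by decide +kernel))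
noncomputable def rh13340d5f3edef805 : CRef := CRef.mk (Pat.mk 0x400000002000000000000000000000000000000000 0xe0000000e0000000e0000001e0000001e800001fff00000fff00001fff000007fc000001fc000000f0000000e0 11 13) 0 0 (step_sound _ 198 [(rh150690dccca5934b.shift 2 2), (rh3d55ece4e8bb4255.shift 0 2), (rh507c469b88b41908.shift 0 2), (rh5a58fc624ad01528.shift 1 2), (rh5ab94470f9d5c79d.shift 2 0), (rha9a926dbd8275175.shift 2 1), (rhb3c2ca17969ca821.shift 2 1), (rhedf967c29e982aa2.shift 0 1), (rhf2bb8f093f141e25.shift 1 3), (rhf2f36e2dba8eccb5.shift 2 1), (rhf987838b9f457ef8.shift 2 1), (rhfaaab5179e86450b.shift 3 2)] (by decide +kernel))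
noncomputable def rhe63fb14ce42f773b : CRef := CRef.mk (Pat.mk 0x400000002000000000000000000000000000000000 0xe0000000e0000003f0000003f8000001f8000007f7000007fe00000fff000007fc000001fc000000f0000000e0 11 12) 0 0 (step_sound _ 198 [(rh000fdeff7e2ef4f5.shift 2 1), (rh1ffaad16f98f374f.shift 3 2), (rh2b11612b44616c22.shift 2 1), (rh44c349faa9230641.shift 2 1), (rh5270247fd2f28323.shift 0 2), (rh5ab94470f9d5c79d.shift 2 0), (rh5ec496ffd5249f96.shift 1 2), (rh773e8cd5147c44a7.shift 0 2), (rh827e025cf2a6c5a5.shift 2 1), (rhc0fb477b016a7c7f.shift 0 1), (rhf78b8db3680a0c46.shift 2 2), (rhfaaab5179e86450b.shift 3 2)] (by decide +kernel))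
noncomputable def rhc1fb94213453e2e5 : CRef := CRef.mk (Pat.mk 0x2000000010000000000000000000000000 0x7000000070000001fc000001fc000000fe000003fe000003ff000007ff0000007e0000007c00000068 11 11) 0 0 (step_sound _ 165 [(rh19743edf76ad7309.shift 2 1), (rh1b4253921b5c8797.shift 0 1), (rh1ffaad16f98f374f.shift 2 1), (rh60b0eca740a3d02d.shift 1 1), rha6b3d049e9ac0110, (rha9404ef591e97c8e.shift 0 1), (rhaac875915ff12605.shift 1 0), (rhdd7f85af5ae391c6.shift 0 1), (rhe012c35eca720343.shift 1 0), (rhfaaab5179e86450b.shift 2 1)] (by decide +kernel))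
noncomputable def rhac4c2deae06dadd2 : CRef := CRef.mk (Pat.mk 0x20000000100000000000000000000000000000000000000000 0x200000007c0000007c000000ff000007fe000003ff000003ff000001f8000001fc000001780000003800000020 11 11) 0 0 (step_sound _ 196 [(rh09b6214366717455.shift 1 3), (rh0fb44fe6b8a0e029.shift 0 2), (rh4990b52ef66c7ea0.shift 1 2), (rh5a10dee8c47c196e.shift 1 2), (rh73bc7c49ac4a0e0a.shift 1 1), (rh776da7cc442a3304.shift 1 0), (rh904eed05c8c57353.shift 1 1), (rha06ec271162da3ad.shift 1 2), (rhc8bfd025f822af40.shift 1 2), (rhd79b652c1c43e481.shift 1 1), (rhdb22458efab4cff9.shift 0 1), (rhf202842089b52c3b.shift 1 3), (rhf9d9a46841e95782.shift 0 2), (rhfc1e65359fc63708.shift 0 2), (rhfea9977eb01ebc94.shift 0 2)] (by decide +kernel))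
noncomputable def rh87bb965f84f50539 : CRef := CRef.mk (Pat.mk 0x4000000020000000000000000000000000 0x40000000f0000001f0000001f800000ffe000007ff00000ffe000007ff0000007800000038 11 12) 0 0 (step_sound _ 135 [(rh04714d5a72ed80cc.shift 1 1), (rh1d489057d40a231a.shift 2 0), (rh4b75f2151f643e2d.shift 2 1), (rh587a139dc026e618.shift 3 0), (rh8bd959b9edc21e09.shift 1 1), (rhbcc75a780edeff31.shift 3 1), rhc99e5390d0dbc56f, (rhdfbf248562c75110.shift 1 0), (rhf0de7ca61fa69600.shift 2 2)] (by decide +kernel))
noncomputable def rh15c4db5b6fe6c4aa : CRef := CRef.mk (Pat.mk 0x20000000100000000000000000000000000000000000000000 0xe0000000ec000007fe000003ff000007ff000003fc000001fc000001f80000007000000010 11 11) 0 0 (step_sound _ 198 [(rh17d4cbced72c3bac.shift 2 0), (rh20502f1c61f0b3d0.shift 0 3), (rh3fc3eb1628b08252.shift 1 2), (rh4b75f2151f643e2d.shift 1 3), (rh88af8b47f87c9814.shift 1 1), (rhbaa4d5ce23ac8f11.shift 1 3), (rhcb6bd888ab8f709f.shift 0 2)] (by decide +kernel))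
noncomputable def rhc9de47addcc9c350 : CRef := CRef.mk (Pat.mk 0x20000000100000000000000000000000000000000000000000 0x380000007c000000ff0000003f000000ff000001fe000001ff000001fe0000007c0000003800000020 11 9) 0 0 (step_sound _ 196 [(rh1cd4f33ede7b05e5.shift 1 2), (rh223f2395e592d94f.shift 1 2), (rh72a120dffaf4fb08.shift 0 3), (rh73bc7c49ac4a0e0a.shift 1 1), (rh78570540ea94dfd3.shift 1 3), (rh7b9b185ed4b719be.shift 1 3), (rh9d4518297b4f98ca.shift 1 3), (rhacf56aeb2b097059.shift 1 0), (rhb5bc6aafe1d7fa41.shift 0 2), (rhbb8af57f5f34e810.shift 0 1), (rhbe0ca44bb3d48cf0.shift 0 2), (rhd79b652c1c43e481.shift 1 1), (rhd9367ce39ecf0d23.shift 0 2)] (by decide +kernel))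
noncomputable def rhe6845037bbf6a295 : CRef := CRef.mk (Pat.mk 0x400000002000000000000000000000000000000000 0xe0000000e0000003f0000003f8000001f8000007ef000007fe00000ffe000007fc000001fc000000f0000000e0 11 12) 0 0 (step_sound _ 198 [(rh1ffaad16f98f374f.shift 3 2), (rh5ab94470f9d5c79d.shift 2 0), (rh5ec496ffd5249f96.shift 1 2), (rh78c297563043305c.shift 2 2), (rh8075ab5db085dde6.shift 2 1), (rh91341091005d1b6e.shift 0 2), (rhac114875f55f3a7d.shift 3 1), (rhb3c2ca17969ca821.shift 2 1), (rhdd3f44f316d88353.shift 2 1), (rhdd55acb422501edb.shift 2 1), (rhfaaab5179e86450b.shift 3 2)] (by decide +kernel))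
noncomputable def rh0329b110c339e32e : CRef := CRef.mk (Pat.mk 0x1000000008000000000000000000000000 0x3800000038000000fc000000fe0000007f000001ff000001fc000003ff000000ff0000007e00000038 11 10) 0 0 (step_sound _ 164 [(rh1ffaad16f98f374f.shift 1 1), (rh2800f485e9b0ad09.shift 0 1), (rh541a31bbcc1b7fa6.shift 0 1), rh56747006b5f0b9cf, rh579edb4922d11c3a, (rh58d57f6643bc5977.shift 1 0), (rh593e0570f09b958e.shift 0 1), (rh6d4c9e766f6b5eb2.shift 0 1), (rh9c419f1e20c34378.shift 0 1), rhd53082a609286ea8, (rhe81a546c1d0a9049.shift 1 1), (rhee34fc22612cfa5c.shift 1 1)] (by decide +kernel))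
noncomputable def rhac7b3f1a731afb1a : CRef := CRef.mk (Pat.mk 0x2000000010000000000000000000000000 0x7000000070000001fc000001fc000000fe00000fff000007fe00000ffc000001fc000000f800000030 11 12) 0 0 (step_sound _ 165 [(rh0d4571ca5ab6c433.shift 1 0), (rh1ffaad16f98f374f.shift 2 1), (rh508c1dfb15fd6fb8.shift 2 1), rh840d489b404f940f, (rha2aecc39c997c99c.shift 4 0), (rhc6f9163bbff8a50c.shift 0 1), (rhfaaab5179e86450b.shift 2 1)] (by decide +kernel))
noncomputable def rh3b151e92e55cf926 : CRef := CRef.mk (Pat.mk 0x400000002000000000000000000000000000000000 0xf4000001fc000001fc000007ff00000ffe00001ffe0000017c000001fc0000007c00000018 11 13) 0 0 (step_sound _ 165 [(rh025276e3072759ac.shift 2 1), (rh0294dfd23213b4e7.shift 2 0), (rh0de2256e1f78fc29.shift 2 0), (rh199d397e99b4c258.shift 1 1), (rh229f8389e5799863.shift 0 2), (rh26452b4742dd5943.shift 2 1), (rh2e46630428f3cc75.shift 1 1), (rh4d2303eb6683e820.shift 1 1), (rh749a91b5094c7adc.shift 3 2), (rh78d9eebf8c25219f.shift 1 2), (rh89f6edf093a653fd.shift 1 1), (rh987828d6678fc570.shift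 1 1), (rhc237b735386ec82b.shift 1 1), (rhd1d33c6e9e3dd3eb.shift 2 1), (rhd95cb6a0fcf56c72.shift 2 2)] (by decide +kernel))
noncomputable def rhdf716d38aaf0fb10 : CRef := CRef.mk (Pat.mk 0x4000000020000000000000000000000000 0xe0000000e0000003f8000003f8000001fc00000ffc000007ff00000ffe000003ee000001e800000040 11 12) 0 0 (step_sound _ 166 [(rh1ffaad16f98f374f.shift 3 1), (rh2f63e422c8297622.shift 2 1), (rh361a59b75cf46bf7.shift 1 1), (rh3896ccb029dc8654.shift 0 1), (rh53cef2266ef24d88.shift 1 1), (rh865b73412155b732.shift 1 0), (rhaec07209d79d61f6.shift 2 1), (rhbe622247ccf925c0.shift 1 1), (rhfaaab5179e86450b.shift 3 1)] (by decide +kernel))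
noncomputable def rh6ab126ec1baabebb : CRef := CRef.mk (Pat.mk 0x4000000020000000000000000000000000 0xe0000000e0000003f8000003f8000001fc00001ffe00000fff00001fff000007fc000001b000000030 11 13) 0 0 (step_sound _ 166 [(rh103df024a97882a2.shift 2 1), (rh1ffaad16f98f374f.shift 3 1), (rh405ca24ef595474e.shift 3 1), (rh5ac4cc9dfb540e6a.shift 1 0), (rh5ec496ffd5249f96.shift 1 1), (rh7ad4c5092d4ec346.shift 2 1), rh8b20242cf29e04ee, (rhb427289bcc85542b.shift 1 1), (rhc3c9b9fb40af2830.shift 0 1), (rhdf4c45f5c0fef4cd.shift 2 1), (rhe35f66f1106f8af3.shift 2 0)] (by decide +kernel))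
noncomputable def rh554c2a161b24f676 : CRef := CRef.mk (Pat.mk 0x2000000010000000000000000000000000 0x7000000070000001f8000001fc000000fe00000ffe000007fe00000fff000001fe000000fc00000060 11 12) 0 0 (step_sound _ 165 [(rh0d4571ca5ab6c433.shift 1 0), (rh103df024a97882a2.shift 1 1), (rh15c37d90babec402.shift 1 0), (rh1ffaad16f98f374f.shift 2 1), (rh32500b8ce00eacb2.shift 0 1), (rh3b815c29cac984a3.shift 1 0), (rh507644cff9bcb711.shift 1 0), (rh5e9ba5ce166a7136.shift 1 1), (rh5fddd3d478b7661f.shift 2 1), (rha05322fb5c89b778.shift 1 1), (rhd89a0769c409d3ab.shift 1 1), (rhfaaab5179e86450b.shift 2 1)] (by decide +kernel))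
noncomputable def rh13a3e8b0e34622d2 : CRef := CRef.mk (Pat.mk 0x20000000100000000000000000000000000000000000000000 0xa0000001e000000de000003ff000001ff000003ff000001ff000000fe0000007e0000003c00000010 11 10) 0 0 (step_sound _ 196 [(rh206677bf4da415f2.shift 0 1), (rh28da2c3d046daa0b.shift 1 1), (rh68f829b64e3a117a.shift 0 2), (rh73e19c33d142942b.shift 0 2), (rh7ae399fa6d1d867c.shift 2 3), (rh827174b7502f962c.shift 0 1), (rh9a8bc0a039d3ee52.shift 0 2), (rhcb664218a5f1bf72.shift 1 1), (rhcc8c24ac82c6301b.shift 0 1), (rhe782d79d84e3b242.shift 1 1), (rhf8d0c1c7a6a79fa8.shift 1 2), (rhf8e3c3f44940d7a6.shift 0 1), rhfd6f81d9d8047b1d] (by decide +kernel))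
noncomputable def rh88f4f1e0d1a6a02b : CRef := CRef.mk (Pat.mk 0x20000000100000000000000000000000000000000000000000 0x2000000030000000f0000000fc000003ee000003fe000003fe000003ff000001fe000000780000007000000060 11 10) 0 0 (step_sound _ 165 [(rh0bf5488195c36b74.shift 1 0), (rh156e22dc887cb25a.shift 1 1), (rh4cced8ebd5e746c6.shift 1 2), (rh66dec2498cabd0cf.shift 1 2), (rh944360e71878daa3.shift 0 1), (rha3f663177e2fb9af.shift 1 2), (rhe0913625300ab829.shift 0 2), (rhe53a28c85c158772.shift 1 0), (rhec011bf7d9de9af2.shift 2 2), (rhed7fa2e5ca7e16c0.shift 2 2), (rhf4045a4a1cbf4390.shift 2 1), (rhf955310e34eee100.shift 2 0), (rhfba9583e80703ea0.shift 1 2)] (by decide +kernel))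
noncomputable def rh0cbfef0be3be4f22 : CRef := CRef.mk (Pat.mk 0x400000002000000000000000000000000000000000 0xe0000000e0000000f8000000fc000001fc000003fe00000eff000007ff000007ff000001fc000000e8000000c8 11 12) 0 0 (step_sound _ 198 [(rh449223bf73c0d170.shift 0 1), rh653fdfa5c219d177, (rh77da3b9f6debecb8.shift 0 2), (rh93b2108f557fcd60.shift 2 2), (rh9f1dd4a80e98261d.shift 1 1), (rha2aecc39c997c99c.shift 5 1), (rhea7ba3258f11f955.shift 2 1), (rhfaaab5179e86450b.shift 3 2)] (by decide +kernel))
noncomputable def rhb80d70bf9355dff6 : CRef := CRef.mk (Pat.mk 0x200000001000000000000000000000000000000000000000000000000000000000 0x100000003800000038000000fc000001fc000003f7000007fe000003fe000001fe000000fe0000007e0000003c0000003800000028 11 11) 0 0 (step_sound _ 196 [(rh09a3af0326c4032a.shift 1 3), (rh16cdfac731e92673.shift 1 3), (rh2ff7a454393e854b.shift 1 0), (rh53083e394424982f.shift 1 3), (rh5d3456d9fbb4b496.shift 0 3), (rh648c854cdb2893d3.shift 1 3), (rh9728184e062ac0b6.shift 1 2), (rhd215a374ef35697a.shift 1 4), (rhe8a26c70d996ca2d.shift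 4 4)] (by decide +kernel))
noncomputable def rhe77043a11d29d9aa : CRef := CRef.mk (Pat.mk 0x1000000008000000000000000000000000000000000 0x140000001c0000003e0000007f000000ff8000007ff000001fe000007ff000007fc000003f800000050 11 12) 0 0 (step_sound _ 134 [(rh1831a9ae2a30d91e.shift 3 1), (rh39a5e080936bd969.shift 3 0), (rh41748104bebf0f1f.shift 4 1), (rh5bab02275bee7293.shift 3 1), (rh5d7ee1c650d66bd9.shift 4 1), (rh960e3342c87fe71e.shift 3 0), (rha8a3ff017a999bbf.shift 3 1), (rhad9c3b81e155f96d.shift 3 1), (rhba3dccd74fbbefc5.shift 3 1), (rhc4083dae7257f6f7.shift 3 0), (rhcd0981b200be5b09.shift 3 1), (rhcedaf5ebf6655bd4.shift 4 2), rhd4d027e785110eb2] (by decide +kernel))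
noncomputable def rh2a1aec47df837265 : CRef := CRef.mk (Pat.mk 0x4000000020000000000000000000000000 0xe0000000e0000000f8000000fc000001fc00001ffe00000ffe00001ff7000003fc000001fc000000e0 11 13) 0 0 (step_sound _ 166 [(rh0d4571ca5ab6c433.shift 2 0), (rh3f30869096984e08.shift 2 0), rh4d662f93474e6c68, (rh508c1dfb15fd6fb8.shift 3 1), (rh5d61021937eecd12.shift 2 1), (rh94b84619464d0b0b.shift 2 1), (rhaa65d23823e5d02d.shift 1 0), (rhadafac50bdd2ec22.shift 3 1), (rhf35906898046f184.shift 0 1), (rhfaaab5179e86450b.shift 3 1)] (by decide +kernel))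
noncomputable def rhd60d4ae2d377805b : CRef := CRef.mk (Pat.mk 0x10000000080000000000000000000000000 0x1c0000001c0000003e0000007f0000007f800001fff00003ffe00001eff000007fc000003f8 11 14) 0 0 (step_sound _ 102 [(rh3004f2bda68ed7c9.shift 4 1), (rh5d62396e3dc51e5d.shift 3 0), (rh5db1a6fc6bb7c4ea.shift 4 0), rh5df114f2161896dd, (rh66d5cf1289b16ad0.shift 2 0), (rh66f12a604fcec3c4.shift 3 0), (rh75ff730cbbd5abdd.shift 3 0), (rh7fade9b2063eb4be.shift 3 0), (rh8d8a2c83030e086b.shift 2 0), (rh92c5001a51f16538.shift 4 0), (rh9fbf166d740244bb.shift 4 1), (rhad407a7bb13739ea.shift 3 0), (rhb6712b98946612db.shift 4 0)] (by decide +kernel))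
noncomputable def rhd12948c26110f01e : CRef := CRef.mk (Pat.mk 0x40000000200000000000000000000000000000000000000000 0x20000000e0000000f0000001f0000001f800001ffc00001fff00001ffe000007ff000003d8000003f8000000e000000020 11 13) 0 0 (step_sound _ 199 [(rh2bbb51c2c7786564.shift 2 2), (rh5cd6637d38ceaeec.shift 3 1), (rh630ff0ee4d3e7b13.shift 2 5), (rh9673aef78dcf346f.shift 2 0), (rhc03551cd98fa3a4a.shift 3 3), (rhc99e5390d0dbc56f.shift 0 2), (rhdf8692304d405826.shift 3 0), (rhee814e8769cc063e.shift 2 2)] (by decide +kernel))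
noncomputable def rh1713b8a5bfa0149d : CRef := CRef.mk (Pat.mk 0x4000000020000000000000000000000000000000000000000000000000 0x7c000001fc000001fc00000fbe000007fe00000fff000003fe000001fc000003fc000000780000007800000040 11 12) 0 0 (step_sound _ 229 [(rh35373d9f8681d4a2.shift 1 4), (rh39640415a1300af3.shift 2 3), (rh3fdae2bf12c46e72.shift 0 3), (rh5635aaa5e67020a6.shift 3 4), (rh78b6c4c16d55feb6.shift 2 3), (rha593d90d3ae71526.shift 2 0), (rhae02b8a2dc749121.shift 2 3), (rhb20175d6f3a10d20.shift 1 3), (rhb6a40004fb7fbb6d.shift 2 1), (rhe672ca32079cff78.shift 2 3), (rhf2c591845161cd1e.shift 2 2), (rhfe3c9a1f52e2e304.shift 2 2)] (by decide +kernel))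
noncomputable def rhb35861f3cc66d8c6 : CRef := CRef.mk (Pat.mk 0x40000000200000000000000000000000000000000000000000 0xa0000000e0000000f0000001f8000003fc0000077f000003fe000007ff000001ff000000fc000000e800000020 11 11) 0 0 (step_sound _ 166 [(rh036a754f870a4090.shift 3 2), (rh0eb6c006f75c94a7.shift 2 2), (rh0f33094b1792880e.shift 3 1), rh1541e4158194bebe, (rh34b0bb605fd8cffb.shift 1 2), (rh4d218e76cbacc8eb.shift 0 2), (rh804b8f59b15815bd.shift 1 2), (rhb92203c03f2a359c.shift 2 2), (rhceaf1257ce06f94d.shift 1 2), (rhd9b528cff5ee156d.shift 2 2), (rhe6d8e841ec53239f.shift 3 0), (rhfb7672fd33d67255.shift 3 2)] (by decide +kernel))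
noncomputable def rhaa4b826004a3226a : CRef := CRef.mk (Pat.mk 0x2000000010000000000000000000000000000000000000000000000000 0x200000003800000078000000fe000007ff000007fe000007f7000001fe000001fc000001f8000000380000003800000020 11 11) 0 0 (step_sound _ 228 [(rh3f11cab5056208ce.shift 2 3), (rh3f24c0d89f16d118.shift 0 4), (rh4f8ad4f2d2964f33.shift 0 3), (rh59f17082cc94acc2.shift 1 4), (rh6a9e871044121cb8.shift 0 3), (rh7246b9d1c55ed2a1.shift 0 4), (rh7289c06b19749b91.shift 0 4), (rh766735faebab29b6.shift 0 3), (rh8415338d71b63018.shift 1 0), (rhd3974cc43eec5d11.shift 2 4), (rhe7aeadc8d6085d4a.shift 2 4), (rhfdfd835ec7b8e309.shift 0 3)] (by decide +kernel))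
noncomputable def rhb2fd86c56c7e4df5 : CRef := CRef.mk (Pat.mk 0x400000002000000000000000000000000000000000 0x20000000e0000000e0000001fc000001fc000003fc00000fff000007fe000007df000003fc000000fc000000b4 11 12) 0 0 (step_sound _ 134 [(rh0f33094b1792880e.shift 3 0), (rh1bbbdec2e47191c4.shift 3 1), (rh63383b4c509ba770.shift 2 1), rh7000deb00f042771, (rh8f43578b071ceb40.shift 2 1), (rh90803f9226e8539f.shift 2 1), (rh9c1bacb82ad48b44.shift 2 0), (rhb49eb03c8ebda250.shift 3 1), (rhbfcfc1bf2859ccd1.shift 3 0), (rhc51ee6656ebafa4d.shift 2 0), (rhfa7f61b8b5ef2f29.shift 1 1)] (by decide +kernel))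
noncomputable def rh4677b709c124684f : CRef := CRef.mk (Pat.mk 0x40000000200000000000000000000000000000000000000000 0x20000000e0000000e0000001fc000001fc000007f800000fde000007fc00000ffe000003ff000007fc000002e800000020 11 12) 0 0 (step_sound _ 166 [(rh0e3cd86fb68fad8c.shift 2 2), rh1541e4158194bebe, (rh164828c557328610.shift 0 2), (rh1bcc9cd5ccc76c5d.shift 1 0), (rh28044196f27a8b0a.shift 1 1), (rh303d4782f566cea1.shift 0 2), (rh514c077092042003.shift 1 2), (rh5aaf14baadb49d58.shift 2 2), (rh9cce8405bffb5fd1.shift 3 2), (rh9e7317060a8775f9.shift 2 2), (rhc51ee6656ebafa4d.shift 2 1), (rhcd92bd3d1ac5b14e.shift 3 2)] (by decide +kernel))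
noncomputable def rhf97c31b379e61489 : CRef := CRef.mk (Pat.mk 0x40000000200000000000000000000000000000000000000000 0x5c000003fe000001fc000007fe000003fe000007bf000003fc000003fc000003fc0000007c00000078 11 11) 0 0 (step_sound _ 197 [rh12c3af205c6c98b8, (rh1cf55cdc574736fe.shift 2 0), (rh20e0394f8f925682.shift 1 1), (rh29716bf159727dfe.shift 0 1), (rh2bf5ab79786161b3.shift 1 0), (rh2c7684c9b4e5f8a3.shift 2 0), (rh32a3c209dbffb4c4.shift 2 2), (rh4f456902d5171ba0.shift 2 0), (rh6a9e871044121cb8.shift 1 2), (rh77ca028122cf85f2.shift 1 3), (rh8cf99af293478b65.shift 2 2), (rhbd5b5b85f61cbc0f.shift 1 1)] (by decide +kernel))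
noncomputable def rh2b4e2278d27353f2 : CRef := CRef.mk (Pat.mk 0x2000000010000000000000000000000000000000000000000000000000 0x3800000078000000fc000007ff000003ff000007ff000001ff000001fe0000017c000000380000003800000020 11 11) 0 0 (step_sound _ 228 [(rh0e269abad617f439.shift 1 3), (rh0fb44fe6b8a0e029.shift 0 3), (rh13d211ec0c7cfd9a.shift 1 0), (rh4d2303eb6683e820.shift 0 3), (rh73bc7c49ac4a0e0a.shift 1 2), (rh7df9eb929e8c358c.shift 1 4), (rh973ad3a27c9dd866.shift 0 1), (rha1b629ed0a1b44e5.shift 1 4), (rhcb664218a5f1bf72.shift 1 2), (rhd730c4025d074e0e.shift 0 3), (rhd79b652c1c43e481.shift 1 2), (rhdb56edcbd84ea306.shift 1 4), (rhe0f3b5b5b1878858.shift 1 3), (rhe5d0b3b2bf169a0e.shift 1 4)] (by decide +kernel))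
noncomputable def rh7b28e16a35f9e954 : CRef := CRef.mk (Pat.mk 0x40000000400000000000000000000000000000000000000000 0xf8000000f8000000ff000007fe00000fff000003fc000007fe000001f8000000e000000080 11 12) 0 0 (step_sound _ 134 [(rh3891e389fc048370.shift 4 1), (rh3efa881622014241.shift 3 1), (rh6e7e6c92b6c89630.shift 1 1), (rh7a66146ce306bfe0.shift 1 1), (rh9430ce5852fa1c24.shift 0 1), (rh9c2352eba4c3cda2.shift 2 3), rhb0ee304c36d7b3d8, (rhd2b434d62f13105e.shift 3 1), (rhdae26eca114cb092.shift 3 1)] (by decide +kernel))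
noncomputable def rhf6cd8ede0e0de75e : CRef := CRef.mk (Pat.mk 0x2000000020000000000000000000000000 0x50000000700000007000000078000000fe000000f0000007ff000007fe000007fe000003fe000000f0 11 11) 0 0 (step_sound _ 165 [(rh003aa94bd57bacf6.shift 4 0), (rh05329cf8e50c25f8.shift 2 1), (rh11aff420b3c5d12a.shift 2 0), (rh65e2807b0527d981.shift 1 0), (rh762ccb910bfad444.shift 0 2), (rhc2bdd56b831b6bc2.shift 1 0), (rhe4d03280ae62394b.shift 1 1), (rhedfbb4e0f3becc4b.shift 1 1)] (by decide +kernel))
noncomputable def rh2ec85475383ef34d : CRef := CRef.mk (Pat.mk 0x200000002000000000000000000000000000000000000000000000000000000000 0x100000007000000070000000f8000003fc000007ff000003fe000007fe000001fc00000070000000700000007000000050 11 11) 0 0 (step_sound _ 197 [(rh08e1cac32ca04d83.shift 3 3), (rh2045a6e68984b589.shift 1 0), (rh3efa881622014241.shift 2 3), (rh4d3e25a394f85ef9.shift 3 4), (rh6c55544d757b1ec3.shift 3 4), (rh6e7e6c92b6c89630.shift 0 3), (rh749dc48c9c567642.shift 2 3), (rh9c2352eba4c3cda2.shift 1 5), (rhd2b434d62f13105e.shift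 2 3)] (by decide +kernel))
noncomputable def rhd50d0870fcaaf417 : CRef := CRef.mk (Pat.mk 0x40000000400000000000000000000000000000000000000000 0x90000000f0000001ff000001ff000003ff000007fe000000f8000003fc000001f8000000e0000000e0 11 11) 0 0 (step_sound _ 134 [(rh032dd7543939bb6e.shift 4 1), (rh0b3588ad43c930e9.shift 5 0), (rh3efa881622014241.shift 3 1), (rh50fcc88a76c5a337.shift 0 3), (rh522052f86d36d7e1.shift 1 1), (rhb074452e833da523.shift 3 1), (rhb3fa98a9da1e59c9.shift 2 0), (rhc916f3257e7dbbfb.shift 5 1), (rhd9a84ec400e39074.shift 5 3)] (by decide +kernel))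
noncomputable def rha5f55fc4e7e95baa : CRef := CRef.mk (Pat.mk 0x2000000020000000000000000000000000000000000000000000000000 0x5000000078000000780000007e000000ff000000fe000003ff000001fc000003f0000000f0000007f8000003f8000007e0000000a0 11 11) 0 0 (step_sound _ 261 [(rh003aa94bd57bacf6.shift 4 3), (rh11aff420b3c5d12a.shift 2 3), (rh31eeba95ca254fd8.shift 2 0), (rh73aec11b36f400db.shift 0 1), (rh7f6216d5793f4f46.shift 1 5), (rh94d47c4198648277.shift 4 4), (rh9618640bbe934158.shift 4 3), (rh988a73bcd39d6da5.shift 2 3), (rha24df274976746b0.shift 0 3), (rhb32fa38d05f16009.shift 2 0)] (by decide +kernel))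
noncomputable def rh36d694430e261594 : CRef := CRef.mk (Pat.mk 0x40000000400000000000000000000000000000000000000000 0xa0000000e0000000f0000001f8000003ff000001fe00001ffe00000ff800000ff0000003f0000001e0000000e0000000a0 11 13) 0 0 (step_sound _ 230 [(rh003aa94bd57bacf6.shift 5 2), (rh00868490baac5e29.shift 3 2), rh08ef12baae6c8ea9, (rh11aff420b3c5d12a.shift 3 2), (rh57dac987bb26f387.shift 2 2), (rh5bcb43d44e34382c.shift 5 2), (rh68596287cd00ce89.shift 3 2), (rh76304e6aa3929be8.shift 3 2), (rh8e6dddc30de85134.shift 2 2), (rha89ab3b0f4730db2.shift 2 2), (rhe5987ec13dc9ba5a.shift 1 2)] (by decide +kernel))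
noncomputable def rhf867b84e0fad830c : CRef := CRef.mk (Pat.mk 0x40000000400000000000000000000000000000000000000000 0xa8000000f8000001fe000001ff000003fe000001fe000003fc000007fc000001f8000000f0000000b0 11 11) 0 0 (step_sound _ 134 [rh030aa311e066af5e, (rh0c2aa196b86f02a6.shift 1 3), (rh3efa881622014241.shift 3 1), (rh5566c9fb73a15aa9.shift 0 2), (rh5925343db5cb8fed.shift 2 0), (rh5d830538d2594290.shift 5 2), (rh6c2a325255d5de47.shift 3 1), (rha4ce135436b3c234.shift 5 1), (rhb8278305f59f059d.shift 3 0), (rhf417018554d4c972.shift 2 1)] (by decide +kernel))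
noncomputable def rhe057f692421ebeff : CRef := CRef.mk (Pat.mk 0x1000000010000000000000000000000000000000000000000000000000 0x3800000038000000780000007e000001fe000007fc000007ff00000fff000000fe0000007c0000003c00000020 11 12) 0 0 (step_sound _ 164 [(rh1d3b2ac1ec75e9e7.shift 1 1), (rh3efa881622014241.shift 1 2), (rh49b21414ed062a87.shift 1 1), (rh4b8bcd6ce98c4936.shift 0 1), (rh4eea96ca918292bc.shift 0 2), (rh58f22bd2e0fec363.shift 3 2), (rh81295256b9bcdc04.shift 0 2), (rhb27ec647e6d5f51f.shift 1 0), (rhb2e53ba4bdf39556.shift 1 2), (rhb8278305f59f059d.shift 1 1), (rhe564d2b5a80a82d0.shift 1 3)] (by decide +kernel))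
noncomputable def rh1c816e81a7983d88 : CRef := CRef.mk (Pat.mk 0x20000000200000000000000000000000000000000000000000 0x78000003fc000003fc000000fc000007fe000007ff00000ffe00000ffe000007ee0000014800000040 11 12) 0 0 (step_sound _ 102 [(rh00f7d5633fc2f223.shift 2 3), (rh0a856d250e42c940.shift 0 1), (rh125361c0e8dbb557.shift 1 0), (rh13dda8b55913fcd9.shift 2 1), (rh222e61133dae7254.shift 1 1), (rh63d8ec91642d1de5.shift 1 2), (rhce6db1f251911a8a.shift 5 1), (rhec4dc773c6d6dd46.shift 1 2)] (by decide +kernel))
noncomputable def rhcdaf8a1759451b30 : CRef := CRef.mk (Pat.mk 0x40000000400000000000000000000000000000000000000000 0x8000000b8000000f8000001fe000000fc00000fff000007ff00000fff000003f8000000f800000020 11 12) 0 0 (step_sound _ 134 [rh1bcbbdb825c06ab7, (rh3efa881622014241.shift 3 1), (rh6e7e6c92b6c89630.shift 1 1), (rh7ee0b8d30dd8f659.shift 5 1), (rh829cae151067e10f.shift 1 0), (rh9c2352eba4c3cda2.shift 2 3), (rha7c694fbcc831ead.shift 1 0), (rhc5bff8f20d5809ac.shift 2 1)] (by decide +kernel))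
noncomputable def rhdf6f05a076a326a2 : CRef := CRef.mk (Pat.mk 0x40000000400000000000000000000000000000000000000000 0x28000000780000007e000001ff000007fe00000fff000007fc00000ffc000007f8000007e0000005a0 11 12) 0 0 (step_sound _ 134 [(rh0f4a43aee6e5df7c.shift 3 1), (rh263ed349f645023a.shift 0 1), (rh2d92905fb51b0855.shift 0 2), (rh2f1087b88ff9a632.shift 2 1), (rh36f820c6cf60b1f4.shift 1 3), (rh3efa881622014241.shift 3 1), (rh64c135aa042a71e1.shift 3 1), (rh6e7e6c92b6c89630.shift 1 1), (rha31618f722014af4.shift 3 0), (rhcd01edd5be2c08bd.shift 5 1)] (by decide +kernel))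
noncomputable def rhc2e3237a18ee60a3 : CRef := CRef.mk (Pat.mk 0x20000000200000000000000000000000000000000000000000 0x400000006c000000fc000003fc000007ff000003fe000007fe000001fe000000f000000010 11 11) 0 0 (step_sound _ 133 [(rh36928f21ca2902b2.shift 2 1), (rh3efa881622014241.shift 2 1), (rh6e7e6c92b6c89630.shift 0 1), (rh997261b58a941c36.shift 1 1), (rha1c8698eb792b9c7.shift 2 1), (rhaa8e79e6b90f0d56.shift 0 1), (rhaaa9eafcd81b7d0e.shift 2 1), (rhc45b0fdc1d585782.shift 1 0), (rhd2b434d62f13105e.shift 2 1)] (by decide +kernel))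
noncomputable def rhd14bb81c50bc7514 : CRef := CRef.mk (Pat.mk 0x100000001000000000000000000000000000000000000000000000000000000000 0x38000000380000003c0000077e000003f8000003ff000003ff000003ff000001ff00000038000000380000003800000028 11 11) 0 0 (step_sound _ 196 [(rh0f4a43aee6e5df7c.shift 1 3), rh2045a6e68984b589, (rh3107cdc54659af35.shift 1 3), (rh3efa881622014241.shift 1 3), (rh486eec509339bff1.shift 2 5), (rh9c2352eba4c3cda2.shift 0 5), rhbacccfc92a47dba3, (rhcc9855651ab94183.shift 0 3), (rhf36833341dae2f69.shift 1 3)] (by decide +kernel))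
noncomputable def rh489eca66b374f300 : CRef := CRef.mk (Pat.mk 0x8000000080000000000000000000000000000000000000000000000000 0x1e0000003f8000007f8000007fc000007fc000003ff000007fe00001dff00000ff800000ff0000001f0000001c0000001c000000140 11 13) 0 0 (step_sound _ 294 [(rh26b3b529ee226459.shift 3 1), (rh5d39512b482ebafa.shift 4 4), (rh8ab87d8306f033fa.shift 4 3), (rh9c7fb9b6b7deb4a1.shift 2 6), rhb054655d1ab9cac1, (rhb4f0a70bea578512.shift 6 3), (rhca57c13ae53874e6.shift 4 3), (rhcb341856bc7874aa.shift 1 3)] (by decide +kernel))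
noncomputable def rhf128b1ad2978048f : CRef := CRef.mk (Pat.mk 0x20000000200000000000000000000000000000000000000000 0x7000000078000000fe000000ff000003fe000003f7000003fc000007fe000000fc0000007800000058 11 11) 0 0 (step_sound _ 133 [(rh1d3b2ac1ec75e9e7.shift 2 0), (rh3efa881622014241.shift 2 1), (rh45896a8e69cc216a.shift 4 1), (rh4c1d4de84875a043.shift 2 1), (rh5af1f5824db6b3f1.shift 0 1), (rh5e2de81b8a1eaef0.shift 1 0), rh60104d79d4b5e084, (rh78a9954154cd9875.shift 2 1), (rh7e53e18dd5c96776.shift 2 0), (rha44ad81cab85dcda.shift 1 1), (rhb8278305f59f059d.shift 2 0), (rhda57cf7dd26b73a0.shift 0 1)] (by decide +kernel))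
noncomputable def rh46e6e328be3d0d08 : CRef := CRef.mk (Pat.mk 0x400000004000000000000000000000000000000000 0xa0000000e0000000f0000001fc000007ff000001fe000007fe000007fc000007fe0000007c0000003800000028 11 11) 0 0 (step_sound _ 198 [(rh070db3a76fe772c7.shift 2 1), (rh0a54091644f2df40.shift 0 2), (rh0edc3dc65f305cf0.shift 4 1), (rh11aff420b3c5d12a.shift 3 1), (rh2f82f0bd05870819.shift 3 2), (rh3e2c58025a325bc5.shift 1 0), (rh507c2946828646ce.shift 1 0), (rh5f38c77c60d10f99.shift 3 3), (rh762ccb910bfad444.shift 1 3), (rhd50c2a674c1b97fd.shift 5 1), (rhfa7b7a5d2cc0e1e1.shift 1 1)] (by decide +kernel))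
noncomputable def rhad7c9d427642e0b6 : CRef := CRef.mk (Pat.mk 0x1000000010000000000000000000000000000000000000000000000000 0x200000003c0000007e0000007e0000007e000003ff000003ff000001ff000007f6000000fc000000b80000003800000020 11 11) 0 0 (step_sound _ 133 [(rh535f8858df89a187.shift 0 3), (rh720650c023c0cba6.shift 0 3), (rh81d7ce9cc9c2e212.shift 1 0), (rh90bf092a33f13bac.shift 3 2), (rh9e97025cea3edd00.shift 1 4), (rhaaaa91cc90b4de99.shift 1 3), (rhce6db1f251911a8a.shift 4 2), (rhecb8b52e914dfbf3.shift 2 2)] (by decide +kernel))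
noncomputable def rh4b7e3a93b1042c72 : CRef := CRef.mk (Pat.mk 0x4000000040000000000000000000000000000000000000000000000000 0x800000028000001ff000001fe000001fe0000017f00000ffe00000fff00001ffc000007fc000007f8000002f0000000e0000000a0 11 13) 0 0 (step_sound _ 293 [(rh2f10223b79599d33.shift 0 1), (rh4266eed522820b26.shift 4 3), (rh4712aa6af92df78f.shift 1 0), (rh5d39512b482ebafa.shift 3 4), (rh7dc6878e2047e31d.shift 5 3), (rh89b7a5591bef8892.shift 0 3), (rhaea87d187a4b4078.shift 2 5), (rhb8837029077832b9.shift 2 3), (rhc1364de8d47a1496.shift 2 0), (rhcc6cd6bd5f12610f.shift 5 3), rhe8788b051f3c1c5a] (by decide +kernel))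
noncomputable def rh7638dcd1e1980381 : CRef := CRef.mk (Pat.mk 0x200000002000000000000000000000000000000000 0x5000000070000000700000007e0000007c000000ee000007ff000007ff000007ff000003fe0000007c00000034 11 11) 0 0 (step_sound _ 197 [(rh25037f2f5b264b32.shift 1 1), (rh3810fc1b336ee992.shift 1 1), (rh3882343b5482ca86.shift 0 1), (rh5f7a7ac313e5c861.shift 2 3), (rh687be875f88b055b.shift 2 1), rhba675bc0e89c6f3a, (rhbbb3d42f3853b905.shift 2 0), (rhd0fd71f3996dddeb.shift 2 1), (rhd9ce055e5e786f8c.shift 0 1), (rheabad280dd18dba9.shift 2 1)] (by decide +kernel))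
noncomputable def rhf95e223bdfbc4dc7 : CRef := CRef.mk (Pat.mk 0x40000000400000000000000000000000000000000000000000 0xf0000000f8000000ff000001ff000003ff000007ff0000077e000003fc000007fc000000e0000000e0 11 11) 0 0 (step_sound _ 134 [(rh0c8055db2bc7e67c.shift 4 0), (rh294268eb1dee9f3e.shift 0 1), (rh3efa881622014241.shift 3 1), (rh4013cea5e0ad431f.shift 0 1), (rh7d493b512bef535b.shift 5 1), (rh7e53e18dd5c96776.shift 3 0), (rh857ed18360fad1e3.shift 1 1), (rha5f847bf8aee2a57.shift 5 1), (rhc028c9e376d366d8.shift 3 2), (rhf07ee12e22f9e9f6.shift 3 0), (rhf2e21e25ab2e7c5e.shift 0 3)] (by decide +kernel))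
noncomputable def rh2253a67c33ea91ed : CRef := CRef.mk (Pat.mk 0x20000000200000000000000000000000000000000000000000 0x7000000074000001f400000eff000007fe000007ff000007ee000007fc000003fe000003f0000002f0 11 12) 0 0 (step_sound _ 133 [(rh057464fe41705587.shift 2 0), (rh64be2625f15f3321.shift 2 0), (rh6a26d85637e89151.shift 0 1), (rh727ad1c231b83bc2.shift 2 0), (rh76af8a4a7c49f667.shift 3 1), (rh92fbf0a7f4b51057.shift 2 2), rh93dcf3e85f00d47d, (rhcc9855651ab94183.shift 1 1), (rhd2b434d62f13105e.shift 2 1), (rhe1e9b895e9bf09de.shift 0 1), (rhf47c17b228d0a692.shift 2 3)] (by decide +kernel))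
noncomputable def rhbbf8bc21936a33d7 : CRef := CRef.mk (Pat.mk 0x200000002000000000000000000000000000000000 0x58000000d800000eff000007fe00000fff00000ffe00000ffe000001fe000001d0 11 12) 0 0 (step_sound _ 101 [rh3b893858623b2187, (rh3d164bc9ea3dc8ba.shift 2 0), (rh3efa881622014241.shift 2 0), (rh6fcd883a1872f9bf.shift 0 1), rh7bb1c3b6f21414d2, (rh90e1699e83c3d4f0.shift 1 0), rhab6aa68ff2341088, (rhe084cee08e98eeb2.shift 2 0), rhffa65455a3242a12] (by decide +kernel))
noncomputable def rh05555e4ec6167cb2 : CRef := CRef.mk (Pat.mk 0x4000000040000000000000000000000000 0xf0000001f0000007ff000001fe000007fe00000ffc000007fe000007bc000000b0 11 12) 0 0 (step_sound _ 166 [rh33ee02bf3b80d21c, (rh483471970b3248ff.shift 1 2), (rh537cfd2cf5ead575.shift 3 0), (rh762ccb910bfad444.shift 1 2), (rhb48cccaac8558541.shift 0 1), (rhc1b3a5faeb8a1dfc.shift 1 0), (rhcb6d58b0932ec28e.shift 1 1), (rhd5929dab906e8b1f.shift 1 0), (rhe4d03280ae62394b.shift 2 1)] (by decide +kernel))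
noncomputable def rh01b643a5ec703fff : CRef := CRef.mk (Pat.mk 0x20000000200000000000000000000000000000000000000000 0x5800000078000003fe000000fe000007bf000007fe000007fe000003fe000000780000007000000050 11 11) 0 0 (step_sound _ 229 [(rh0ec5c2b2f2873473.shift 4 3), (rh3f31819fd7b1afb7.shift 0 1), (rh5172286c035c58bb.shift 2 3), (rh5bdab5668613fef7.shift 1 2), (rh890fbab98e8b72a3.shift 2 2), rhc744687139fd2f7b, (rhe4d03280ae62394b.shift 1 3), (rhe860d483c958c7cf.shift 0 4), (rhf233e868030ab95b.shift 2 2)] (by decide +kernel))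
noncomputable def rh78d4a757d244b9b3 : CRef := CRef.mk (Pat.mk 0x100000001000000000000000000000000000000000 0x280000003800000038000001ff000001ff0000007f000003f7000003ff000001ff000001ff0000003c00000008 11 10) 0 0 (step_sound _ 196 [(rh003aa94bd57bacf6.shift 3 1), (rh11aff420b3c5d12a.shift 1 1), (rh2127df7544d31839.shift 2 0), (rh53fd06f719bb0f9a.shift 1 1), (rh895412b14b441b97.shift 0 1), (rh91211849b7e0878e.shift 3 1), (rh92775acebb0e6f5e.shift 0 1), (rhc9c4fa9a39424e68.shift 0 3), (rhd7ecad7266fcdbaa.shift 2 1), (rhf454e0beaa4991e6.shift 0 1)] (by decide +kernel))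
noncomputable def rh69473c33ac50aaba : CRef := CRef.mk (Pat.mk 0x2000000020000000000000000000000000000000000000000000000000 0x500000007000000070000000fe000000fe000001fe00000fbf00000ffe00000ffe000001fc000001f80000007800000010 11 12) 0 0 (step_sound _ 165 [(rh07b5912f3cd15cb6.shift 2 2), (rh10505ec2a8ad9f22.shift 1 2), (rh23f2604d9fb943a7.shift 1 0), (rh28b200cdda9d6110.shift 4 3), (rh2f44cd701cb93c0e.shift 0 2), (rh5c531c9e20c1291e.shift 0 2), (rhab6aa68ff2341088.shift 0 2), (rhb8278305f59f059d.shift 2 1), (rhbc3fc278e4a1f667.shift 1 2)] (by decide +kernel))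
noncomputable def rh04125a226f03ddc5 : CRef := CRef.mk (Pat.mk 0x100000001000000000000000000000000000000000 0x3c0000003c000001ff000001ff0000007f000003fe000003f7000003fe000001ff0000003800000028 11 10) 0 0 (step_sound _ 196 [(rh003aa94bd57bacf6.shift 3 1), (rh1e7f51eda3853b0e.shift 3 1), (rh6481bd7ed36382ed.shift 1 2), (rh660282eb43032586.shift 0 3), (rh6f6bd48469623ca8.shift 1 1), (rha89ab3b0f4730db2.shift 0 1), (rhb96ea9277bddd1e0.shift 0 1), (rhbca003e2e15042b9.shift 1 0), (rhd03b82c1da0706db.shift 0 1), (rhf92be61e355334ad.shift 1 1)] (by decide +kernel))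
noncomputable def rh41ea2befb39913d5 : CRef := CRef.mk (Pat.mk 0x4000000040000000000000000000000000000000000000000000000000 0x20000001f8000001f8000001bc000007ff000007fe00000fff000007ff000007fc000000e0000000c000000080 11 12) 0 0 (step_sound _ 197 [(rh085e38ca4b614122.shift 0 3), (rh086346d178d72cfb.shift 1 1), rh2b1cbc20585a2e8f, (rh2e6b205b305044d0.shift 3 3), (rh3eee220fe23da836.shift 2 2), (rh4fb92b7633f16f8a.shift 0 3), (rh59de0abe3b3fa50c.shift 2 2), (rh5c73df427cb82143.shift 1 3), (rh7e9e996c7031b7e9.shift 2 2), (rh8a908dcc32ffbbf8.shift 2 2), (rha0d2d9dd9a596091.shift 3 3), (rhbb687bf58625bbdf.shift 0 3), (rhc178e68fdb0c0780.shift 2 2), (rhd9580a65c3156a1c.shift 3 2), (rhf8f17e72d694c6d1.shift 3 3)] (by decide +kernel))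
noncomputable def rhab914e7f1a7e7e44 : CRef := CRef.mk (Pat.mk 0x20000000200000000000000000000000000000000000000000 0x50000000f8000000fe00000eff000007ff00000fff000007de000001fc000007fc000001c000000040 11 12) 0 0 (step_sound _ 196 [(rh04b60ac11c0ec28e.shift 1 2), (rh1612dcdb4d62920f.shift 1 0), (rh5593046b83d3e2ae.shift 2 1), (rh5b77f024097e35ed.shift 1 1), (rh5f34bed21ccf81cf.shift 0 2), (rh5fc1c29a6385ae62.shift 1 2), (rh76a90dbbf7d72989.shift 0 3), (rh9ac5d09a7c167aa9.shift 0 2), (rh9cad0bf24b704f7d.shift 2 1), (rhb24313eeeda91205.shift 1 0), (rhd0154a859c47a7dc.shift 1 1), (rhe8b4942b6c20d40d.shift 0 3), (rheff6fe6ccd6595ce.shift 0 2)] (by decide +kernel))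
noncomputable def rhfb7226d2eb04bdb8 : CRef := CRef.mk (Pat.mk 0x20000000200000000000000000000000000000000000000000 0x78000000f8000000ff000003fe000007ff000003fe000007fe000000fe000000f800000048 11 11) 0 0 (step_sound _ 133 [(rh1dc7b7b62f6d0144.shift 1 0), (rh3b893858623b2187.shift 0 1), (rh3e882967e5af41cb.shift 1 1), (rh3efa881622014241.shift 2 1), (rh5bbea8fcf20d66d7.shift 0 1), (rh963062772a391e7c.shift 1 1), (rh9c2352eba4c3cda2.shift 1 3), (rhb8278305f59f059d.shift 2 0), (rhc6d3d3bf0b55055c.shift 1 1), (rhd2b434d62f13105e.shift 2 1), (rhdae26eca114cb092.shift 2 1)] (by decide +kernel))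
noncomputable def rheb911f9c4fac928f : CRef := CRef.mk (Pat.mk 0x40000000200000000000000000000000000000000000000000 0x80000000e0000000e0000000e0000000d0000000f8000007ff00000ffe000007fe000007fc000003fc000001f0000000f000000050 11 12) 0 0 (step_sound _ 230 [(rh182b284d6144a03a.shift 2 2), (rh201d040373608dd2.shift 3 2), (rh3967a6987178999d.shift 2 0), (rh76ec6218dfb35d00.shift 2 2), (rh7e0942bc27721a4d.shift 2 1), (rh92b5e9ba7aa44702.shift 4 1), (rhc552d1388b5748f1.shift 3 1), (rhca0dfc4f3139a01b.shift 2 1), (rhd67f8c07e4da6046.shift 3 1), (rhd7c07e4bd3f4f699.shift 3 3), (rhdbdc50deb81b9a7c.shift 3 3), (rhf80408bde8ec5c9d.shift 0 3)] (by decide +kernel))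
noncomputable def rh5fbfa7ffdee2e21b : CRef := CRef.mk (Pat.mk 0x10000000080000000000000000000000000000000000000000 0x28000000380000003800000038000001ff000001ff000001ff000001ff000000ff0000007c0000003c00000014 11 9) 0 0 (step_sound _ 228 [(rh2cf4337662ce4229.shift 1 2), (rh3ca8c868b35eac6e.shift 3 3), (rh428700a31b36c588.shift 1 2), (rh46fb181b3f3278c9.shift 1 2), (rh580b5e62f62f8296.shift 0 1), (rh63fc8093eef5cd45.shift 3 3), (rh75d28f38166a3dd9.shift 0 3), (rh7e0942bc27721a4d.shift 0 1), (rhaae3f29d41c2c744.shift 0 2), rhd2518ff72c0e52e1] (by decide +kernel))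
noncomputable def rh71a36ef05d9a57b8 : CRef := CRef.mk (Pat.mk 0x40000000200000000000000000000000000000000000000000 0xa0000007f0000007f000000ef8000007f700000ffe000007fe000007fc000001fc000001f00000007000000050 11 12) 0 0 (step_sound _ 230 [(rh2cf4337662ce4229.shift 3 2), (rh31600899b4b5b080.shift 0 3), (rh316f3bb2ba6945da.shift 2 1), (rh35c7a9e3930de761.shift 1 3), (rh37d08dc270f914cd.shift 3 2), (rh67b5081f62404876.shift 2 2), (rh9b69c353fb89ee82.shift 5 3), (rhaae3f29d41c2c744.shift 2 2), (rhbc00b10f77d17c2c.shift 2 3), (rhd2518ff72c0e52e1.shift 2 0)] (by decide +kernel))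
noncomputable def rh27b9283d3fdd8793 : CRef := CRef.mk (Pat.mk 0x200000001000000000000000000000000000000000 0x50000003fc000003fc0000077e000003ff000001ff000003ff0000007c0000007c0000007800000078 11 11) 0 0 (step_sound _ 197 [(rh58e085fc342f5f4b.shift 1 1), (rh5e1a9efe840a8027.shift 2 0), (rh7261ad93fc76c6b2.shift 1 2), (rh7381489bdd509a24.shift 2 1), (rh78b6d5dad73e5bc7.shift 1 0), (rh8ca4703e73edff88.shift 2 1), (rh9b69c353fb89ee82.shift 4 2), (rhb3f718d084a74e70.shift 2 0), (rhebd51c5ca64b5e2e.shift 0 2)] (by decide +kernel))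
noncomputable def rhb002aae64cb7fb23 : CRef := CRef.mk (Pat.mk 0x40000000200000000000000000000000000000000000000000 0x1000000070000000f8000000fc000003fe000001ff000003fe000003ff0000007e0000007e0000007000000040 11 10) 0 0 (step_sound _ 164 [(rh46557af9c629c344.shift 2 3), (rh48f50e0b43a763ca.shift 1 0), (rh5edd8c23db4a2196.shift 2 2), (rh6ece376dd72ee8cf.shift 0 2), (rh8ac21197ac17b33f.shift 1 2), (rh93f87d1c75c22427.shift 0 3), (rhe2a6c5761ee5dc9f.shift 0 1), (rhf05ef7a9c8aa47e0.shift 1 1), (rhf2cac42316c036e2.shift 1 2), (rhf8e4c66fd65f7899.shift 1 2), (rhfccfce80a774c109.shift 2 2)] (by decide +kernel))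
noncomputable def rh40a423a1ff3f1edd : CRef := CRef.mk (Pat.mk 0x40000000200000000000000000000000000000000000000000 0x50000000f8000000f8000000fc000003fe000001ff000003fe000003ff000001e8000000f00000007000000010 11 10) 0 0 (step_sound _ 164 [(rh2f583c871f21de0e.shift 1 0), (rh3f54054ea0230460.shift 2 0), (rh4d745623c576bccc.shift 2 3), (rh513d4ea0b3dd509e.shift 2 2), (rh6176baa178a794bf.shift 2 3), (rh79e42870edd3851a.shift 2 2), (rh93f87d1c75c22427.shift 0 3), (rh9a37ee254dc74b56.shift 2 1), (rha215a80a3ebf214b.shift 1 0), (rhb15009b282d9d1d0.shift 2 2), (rhbd4a826f716d8a8f.shift 2 2), (rhca6ef14062113750.shift 2 2), (rhf07ae10ca0eb90e4.shift 2 0)] (by decide +kernel))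
noncomputable def rh54fe5ed56c68dc07 : CRef := CRef.mk (Pat.mk 0x40000000200000000000000000000000000000000000000000 0x800000038000000fc000007fe00000ffe000007ff00000ffe000003fc000003fc000002d800000008 11 12) 0 0 (step_sound _ 133 [(rh1040b46e59f3d807.shift 2 1), (rh458dc08e5ff4aadc.shift 2 1), (rh4eab394f3d88c8a8.shift 1 2), (rh57abf7704ecc3e68.shift 1 1), (rh588d5012e3c09bdf.shift 2 1), (rh6cd96ced2186112a.shift 2 2), (rha8f4b919d95cd067.shift 2 1), (rhb028ccf7e4b91d8b.shift 1 2), (rhba818d2d3ef4fe3c.shift 2 1), (rhbf58e0b867acee90.shift 1 1), (rhc42c30f7bea53246.shift 1 2), (rhd1ace82120da1a5b.shift 2 2), rhe5cc9dd015a58fd9] (by decide +kernel))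
noncomputable def rh3ab090cb96fc7294 : CRef := CRef.mk (Pat.mk 0x4000000020000000000000000000000000000000000000000000000000 0x5000000070000000780000017c00000fff000007fe00000ffe000003fc000003fc000002780000007800000050 11 12) 0 0 (step_sound _ 165 [(rh0a23a8ed22561cae.shift 1 3), (rh21d5a7c28830d82b.shift 3 2), (rh270dc5f9c9cad98c.shift 2 2), (rh5cf1ca53fd51e29f.shift 2 0), (rh61b725029d14f28c.shift 5 3), (rha8f4b919d95cd067.shift 2 2), (rhbf58e0b867acee90.shift 1 2), (rhdcccf9dd76ed795c.shift 0 3), (rhf94c1ed35341d1e9.shift 2 1)] (by decide +kernel))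
noncomputable def rh6a7c5c5f1549d31f : CRef := CRef.mk (Pat.mk 0x40000000200000000000000000000000000000000000000000 0xb0000000f0000000f8000001ee000007ff000007fe000007ff000007fc000001f8000000f000000020 11 11) 0 0 (step_sound _ 164 [(rh053b4129e818ede5.shift 2 2), (rh93f87d1c75c22427.shift 0 3), (rh9cf91bf394ba9513.shift 2 1), (rha6793f40e639e854.shift 0 2), (rhd08837ad26abfb52.shift 1 0), (rhdf4aecb93bded0d9.shift 2 1), (rhf709deadff72b472.shift 0 1)] (by decide +kernel))
noncomputable def rhba5a28ed112559ea : CRef := CRef.mk (Pat.mk 0x100000000800000000000000000000000000000000000000000 0x1c0000003e0000003e000000ff8000007ff00000ffe00000ffe000007f8000003f8000003c000000080 11 12) 0 0 (step_sound _ 166 [(rh00d17bbf2af14b5a.shift 3 1), (rh398e6ed542003175.shift 3 3), (rh3ce8f20ace9e854e.shift 4 1), (rh3e73715cf3389295.shift 4 0), (rh55f550e899decacd.shift 2 2), (rh7e2da6850b492c60.shift 4 2), (rh93f87d1c75c22427.shift 2 3), (rha6793f40e639e854.shift 2 2), rhd7b2c254fdc62d13] (by decide +kernel))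
noncomputable def rh11948652bc25de93 : CRef := CRef.mk (Pat.mk 0x100000000800000000000000000000000000000000 0x38000000380000003c0000003e000000fe000000fc000003ff000001ff000001ff000000fe000000b8 11 10) 0 0 (step_sound _ 132 [rh1335630922a342be, (rh203aba67e8d85931.shift 0 1), (rh314fe369aa8003b6.shift 1 0), (rh3ab433327588b544.shift 1 1), (rh6e1b0c0e4844b1d1.shift 1 1), (rh821689beb105fd74.shift 1 0), (rh85789f2249315fdc.shift 1 0), (rha296e223d6b6fa80.shift 0 1), (rhe79d1302b348e564.shift 1 1), (rhea145a7a230a3567.shift 1 1), rhfb5902b5b4da177f] (by decide +kernel))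
noncomputable def rh2734515e9ce09f89 : CRef := CRef.mk (Pat.mk 0x100000000800000000000000000000000000000000000000000 0x1c0000003e0000003e000000ff800000fff000003fe000007fe000007f8000003f8000003c000000080 11 12) 0 0 (step_sound _ 166 [(rh00d17bbf2af14b5a.shift 3 1), (rh93f87d1c75c22427.shift 2 3), (rh9fbf166d740244bb.shift 4 3), (rha0871934edfc98ef.shift 3 2), (rhc354542228ab225f.shift 2 1), rhd7b2c254fdc62d13, (rhff32dff0876812c5.shift 3 2)] (by decide +kernel))
noncomputable def rh07c3e517a5a87042 : CRef := CRef.mk (Pat.mk 0x100000000800000000000000000000000000000000 0x800000038000000380000003f0000003e000000ff000003ff000001fe000001ff000000ff0000003c00000038 11 10) 0 0 (step_sound _ 132 [(rh0e165e36f709888b.shift 0 2), rh2225cfa59c190338, rh2c31108b36053f2e, (rh2c8341664be481de.shift 0 1), (rh3f0ce58e7d17243a.shift 1 1), (rh5b5d2f5721865952.shift 1 0), (rh612a016268fbfa6b.shift 1 1), (rh7a8678a64dd4070c.shift 0 2), rh9ad9165b41184340, rhb5b9bda2b4ce8647, (rhe79d1302b348e564.shift 1 1), rhf8ccd500ddf48610] (by decide +kernel))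
noncomputable def rhf759c549c7447ebc : CRef := CRef.mk (Pat.mk 0x40000000200000000000000000000000000000000000000000 0x1c0000007f0000007f0000006f800000ffe000007ff00000ffe0000077f000007f8000004f8000000f000000080 11 12) 0 0 (step_sound _ 199 [(rh1246224a03b8d932.shift 2 3), (rh197924510e24ab99.shift 1 2), (rh24bf587adeb6a585.shift 2 3), (rh2e87eece9e0c60fa.shift 0 2), (rh4b75f2151f643e2d.shift 2 3), (rh84b303a44c1bbb53.shift 1 2), (rhb7f59f98f3a5c86a.shift 3 1), (rhc5290bbc2f13e282.shift 3 0), (rhd6aaa0636c622c48.shift 2 1), (rhdabe837f278f63db.shift 2 1), (rhdeecc9cf68bc11a7.shift 1 2), (rhf66c02cae728ecc8.shift 3 3), (rhfd755fc34088a6c1.shift 2 2)] (by decide +kernel))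
noncomputable def rhfb389ae6e8214e95 : CRef := CRef.mk (Pat.mk 0x200000001000000000000000000000000000000000 0xc0000003f8000003f80000037e000007fe000003fe000007ff000003f0000003f8000002f000000070 11 11) 0 0 (step_sound _ 166 [(rh1246224a03b8d932.shift 1 2), (rh1e47079993b7b4ae.shift 0 2), (rh3bf8f40ac9f11b65.shift 2 0), (rh46ea5fea1339e10a.shift 2 0), (rh65020c011f42dca1.shift 2 0), (rh91b9a3e6b067156e.shift 1 0), (rhc05d8b873621bb3f.shift 1 0), (rhc729cf98d3b2453f.shift 2 1), (rhc98004c30b5958ef.shift 1 2), (rhd22ad3e99cff1d87.shift 2 0), (rhea17b9275c713f79.shift 2 1), (rhf0997ae2cb78eee8.shift 2 0)] (by decide +kernel))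
noncomputable def rh0a1bcacd46118384 : CRef := CRef.mk (Pat.mk 0x4000000020000000000000000000000000 0xf0000000f8000000fc000001fe000003ff000007fe000007ff000001fc00000098 11 11) 0 0 (step_sound _ 100 [(rh4ac48d7da475b24d.shift 1 0), (rh6f2ef2aa5df117ff.shift 1 0), (rh8fb1859ca2254c9c.shift 2 0), (rh93f87d1c75c22427.shift 0 1), (rh9fbf166d740244bb.shift 2 1), (rhd3c7667f9a808e1a.shift 1 0), rhdae897e3fa7985f6, rheba55cd6c05a873c] (by decide +kernel))
noncomputable def rh15b309d456d01b80 : CRef := CRef.mk (Pat.mk 0x20000000100000000000000000000000000000000000000000 0x20000000380000003c0000015c000003ff000001ff000003fe000001ff000001fe000001fe0000003c00000034 11 10) 0 0 (step_sound _ 196 [rh0aa6ed44ce72b30a, (rh3ba291ac1cdb4675.shift 0 1), rh5e5374a7bc65be68, (rh63f67ba5cb5d33ec.shift 1 1), (rh677bd55d775aadd9.shift 0 1), (rh6823cebddb7e6f4c.shift 0 2), (rh74010d9ef843477d.shift 2 1), (rh7df144059212fe08.shift 1 2), (rhb5881c3744c69d43.shift 0 3), (rhbb3e82cc6ba4a9dc.shift 1 0), (rhcbb39a832ab151d5.shift 1 0), (rhce09827b1b5b7fb7.shift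 0 2), (rhf52b86309afcb386.shift 1 1)] (by decide +kernel))
noncomputable def rh5e435f0829e0d7d2 : CRef := CRef.mk (Pat.mk 0x400000002000000000000000000000000000000000000000000000000000000000 0xa0000000e0000000e0000000d8000007de000007fe000007ff00000ffe000003fc000003fc000000fc000000780000007000000040 11 12) 0 0 (step_sound _ 197 [(rh15f9910c563ca645.shift 0 4), (rh18f6eb83fc6be369.shift 1 3), (rh23e19abe1349b4f6.shift 2 3), (rh4041da2bd0bb57eb.shift 2 3), (rh61f3a9c387c78d2e.shift 3 4), (rh739faea8ac64e0f0.shift 1 3), (rh777d0cdf56688f4a.shift 3 3), (rha4ae34acd97b989f.shift 1 4), (rhbfaf3ca71776b1ae.shift 1 4), (rhcdea38fde7143057.shift 2 2), (rhcfeced8de1f054b8.shift 1 3), (rhe5cc9dd015a58fd9.shift 0 2), rhf26674df91ddb951, (rhfe431251438ca40b.shift 2 3)] (by decide +kernel))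
noncomputable def rh18de1d10e15c5659 : CRef := CRef.mk (Pat.mk 0x100000000800000000000000000000000000000000000000000 0x1e0000003e0000003f0000003f800003bff00001ffe00001ffe00000ff8000003f80000038000000080 11 14) 0 0 (step_sound _ 166 [(rh12b433d6d72766de.shift 2 3), (rh212e83abeddf3636.shift 2 2), (rh22ac7bc77a84e215.shift 3 2), (rh4848af384417bbb5.shift 2 2), (rh4dd013fbcf7c85ec.shift 3 0), (rh7befa9bc3088fc99.shift 4 2), (rh93f87d1c75c22427.shift 2 3), (rhbe1228287e9ee322.shift 3 2), rhd7b2c254fdc62d13] (by decide +kernel))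
noncomputable def rhccd2b7d97d6e9cb4 : CRef := CRef.mk (Pat.mk 0x800000004000000000000000000000000000000000000000000000000000000000 0xe0000000e0000001f0000007f000000fdf00001ffe00000fff000007f8000003f8000001f8000000f0000000e000000080 11 13) 0 0 (step_sound _ 198 [(rh0786e7f4ace5befc.shift 4 5), (rh1e69d6504d0e18f0.shift 0 3), (rh2f73d3603e57d05e.shift 4 2), (rh58976c549395e201.shift 3 4), (rh59f78a8358ddd87f.shift 3 2), (rh71d7bd80c87d22e7.shift 3 3), (rh760161602534bc9d.shift 3 4), (rh8d0712af433b97df.shift 2 4), (rh9be1c2297351e379.shift 3 0), (rhb9598d43b4be4ab7.shift 3 3), (rhe98d7aa269892431.shift 0 4), (rhfab66ff68b020db3.shift 3 4)] (by decide +kernel))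
noncomputable def rhb2615f7e37356d48 : CRef := CRef.mk (Pat.mk 0x40000000200000000000000000000000000000000000000000 0x1000000078000000f8000000fc000007fe000003ff0000077e000001fe000001fc000000f80000003000000020 11 11) 0 0 (step_sound _ 197 [(rh0ddf7d1bf5f8fd3f.shift 1 2), (rh16bbdca667c1e9e9.shift 0 3), (rh1dfa4de543d8b90a.shift 1 2), (rh205ca9b77f75297d.shift 1 1), (rh2109ddf01abb8586.shift 2 3), (rh246ec13b8729c8b3.shift 1 3), (rh4ee2c1de45ac4fbe.shift 1 2), (rh8d2151f03198322d.shift 2 3), (rhb02fe6144c2745e7.shift 1 1), (rhd42533736cfc4001.shift 1 0), (rhea7186a406ad9d36.shift 1 2), (rhef1506cc2df0b830.shift 2 2), (rhf27600335e15401d.shift 0 2)] (by decide +kernel))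
noncomputable def rhb7379ff3af5eaf73 : CRef := CRef.mk (Pat.mk 0x40000000200000000000000000000000000000000000000000 0xa0000007f8000007f800000efc00000ffe000007fe000007f7000007fc000001fc000000f0000000f000000050 11 12) 0 0 (step_sound _ 230 [(rh05dde5b692d0c5fe.shift 2 1), (rh17f10efccfccab5d.shift 3 1), (rh201d040373608dd2.shift 3 2), (rh2697dadeb710262b.shift 3 2), (rh52352efcfa7c72c9.shift 0 3), (rh52674dd00ffc9ae6.shift 0 2), (rh58e085fc342f5f4b.shift 2 2), (rh770829d8817bd02a.shift 2 0), (rh77f8af007f80ca57.shift 0 3), (rhcc772cf2a3285242.shift 3 2)] (by decide +kernel))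
noncomputable def rh52048b48597e8293 : CRef := CRef.mk (Pat.mk 0x2000000010000000000000000000000000 0x1c0000007e0000007e000007ff000007ff00000fff000001df000000dc0000001c 11 12) 0 0 (step_sound _ 132 [(rh10156f93ae8be5ef.shift 0 1), (rh1db62799df90c5c3.shift 1 1), (rh5fd0fe4f49eae7cb.shift 1 1), (rh60ee5c33be67cc03.shift 1 1), rh62b20bf095498d98, rh8446c2b8042ee41e, rh8dac3fb3e2189d4a, (rh8e534edd4429c9b6.shift 2 1), (rh9f68157a36d99e08.shift 0 1), (rha7865d90e81be164.shift 1 1), (rhbfc7f57ff5e95fff.shift 0 1)] (by decide +kernel))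
noncomputable def rhe8851eaa30396d28 : CRef := CRef.mk (Pat.mk 0x20000000100000000000000000000000000000000000000000 0x50000003f8000003fc0000077e000001ff000007fe000003ff000003fe000000e8000000f00000007000000010 11 11) 0 0 (step_sound _ 229 [(rh14fa92eb3048f0d3.shift 2 3), (rh2d05c2396b1aeab3.shift 2 4), (rh43db37bdb1df5b9b.shift 2 3), (rha9ce4c363f53f7f2.shift 1 2), (rhacbe74e33579218e.shift 2 0), (rhb768422bed77d314.shift 2 2), (rhb7d2251a2f0f92ec.shift 0 4), (rhd288ef910fcf6c6b.shift 1 0), (rhee3c3504f72dbe37.shift 2 1), (rhef7598a8ad3f23b1.shift 1 0)] (by decide +kernel))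
noncomputable def rhfa802f552190a2d7 : CRef := CRef.mk (Pat.mk 0x40000000200000000000000000000000000000000000000000 0x5800000078000002f800000fbf000007fe00000fff000003fc000003fc000003fc0000007800000078 11 12) 0 0 (step_sound _ 197 [(rh1100dd559de3844b.shift 1 1), (rh2fb67f4943044562.shift 2 2), (rh34895972264dda4d.shift 2 2), (rh376e7483ef8083b2.shift 0 2), (rh61b6ff9e097aa728.shift 2 2), (rh677711ede478fb21.shift 2 0), (rh7df144059212fe08.shift 2 2), (rh81e13c21d7042c78.shift 2 3), (rh867d539dc19f07ec.shift 2 2), (rh8c7cdf23d070aadb.shift 2 0), (rha1561a31a125a9fe.shift 0 3), rhdb2a968d889383ac] (by decide +kernel))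
noncomputable def rhe98f92b26ee87dc2 : CRef := CRef.mk (Pat.mk 0x40000000200000000000000000000000000000000000000000 0xa0000000f4000000fc000003fc0000077f000007fe000007ff000007ff000000fc000000f8000000a0 11 11) 0 0 (step_sound _ 166 [(rh0e12feeba353b4b6.shift 1 1), (rh148017f32e970c20.shift 2 2), (rh528a0cb8f93b0a5d.shift 3 0), (rh5b5d2f5721865952.shift 3 1), (rh6bfaeb15ce5b7fa0.shift 0 2), (rh84b6625487da15cb.shift 2 1), (rh9485e2eb6b6d4646.shift 2 2), (rhb9f8b559e4ed0f7d.shift 2 2), (rhd37900bea04585bc.shift 2 0), (rhd8a3a8fb37f1bf6f.shift 1 2), (rhe3c3c81c59637546.shift 0 1), (rhebb8831927da9fe0.shift 1 2)] (by decide +kernel))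
noncomputable def rh5e532e81ffc0f3d9 : CRef := CRef.mk (Pat.mk 0x200000001000000000000000000000000000000000 0x20000000380000007c0000017c000007ff000007fe00000ff7000001fe000001fc000001fc00000028 11 12) 0 0 (step_sound _ 164 [rh01e82fc31db4f4a2, rh10685b4285fafce9, (rh333f2e394da72fa7.shift 0 2), (rh4182721216e2a920.shift 0 2), (rh59a286d117ba5322.shift 1 1), (rh7df144059212fe08.shift 1 1), (rh85a0f298fbfc678f.shift 0 1), (rh8b9dd394665b82b6.shift 1 2), (rhaa61a1f2b1be9718.shift 0 1), (rhccb295bdaa1ff114.shift 1 0), (rhe6ca92b8cf0f851c.shift 1 1), (rhf0ca7b9598944971.shift 2 1)] (by decide +kernel))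
noncomputable def rh854f5a5fc03e77f2 : CRef := CRef.mk (Pat.mk 0x400000002000000000000000000000000000000000 0x20000000e0000000e0000000fc000002fc000007fc00000fff000007fe000007df000003f8000002f8000002e0 11 12) 0 0 (step_sound _ 134 [(rh2225cfa59c190338.shift 2 0), (rh3ee7151eb59bbf4c.shift 0 1), (rh5b5d2f5721865952.shift 3 0), (rh72d33c4893b80a58.shift 3 0), (rh81058874d2d1abe4.shift 3 0), (rh9ad9165b41184340.shift 2 0), (rhd624c35f22e9b548.shift 3 1), (rhe79d1302b348e564.shift 3 1), (rhec052beb5d2d571d.shift 2 0), (rhefbd0afe286e27cf.shift 0 1), (rhf8c8f18113bb467c.shift 3 1)] (by decide +kernel))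
noncomputable def rh4e442d2266bf3c1a : CRef := CRef.mk (Pat.mk 0x40000000200000000000000000000000000000000000000000 0x20000000e0000000e0000002f4000002fc000003fc00000fdf000007fe00000fff000003ff000007fc000002e800000020 11 12) 0 0 (step_sound _ 166 [(rh0748ed3c061e30ee.shift 3 1), (rh2225cfa59c190338.shift 2 1), (rh379b960844594841.shift 1 0), (rh4a8ce0133b6fedd2.shift 0 2), (rh6a6edd76d3e0608b.shift 1 1), (rh6f333f9d6139e76c.shift 2 2), (rh7fa4a115c868d446.shift 1 2), (rh8973ed2d98e368b9.shift 1 0), (rh8aa5d81d41be6b3f.shift 0 2), (rhb1f0034b20b6a7b7.shift 3 2), (rhba4d9c068c5eb59f.shift 2 1), (rhe3c3c81c59637546.shift 0 1), (rhef2e85ede6151cbe.shift 2 1), (rhfcef8f1e82eabdfc.shift 3 1)] (by decide +kernel))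
noncomputable def rh56be53027fbffa5f : CRef := CRef.mk (Pat.mk 0x40000000200000000000000000000000000000000000000000 0x400000007c000003fe000000fc00000ffe00000ffe00001fbf000001fe000001fe0000007c0000007800000068 11 13) 0 0 (step_sound _ 197 [(rh10685b4285fafce9.shift 1 1), (rh16977a66f21a096a.shift 1 0), (rh185727ba34e8f706.shift 1 0), (rh261da55b217c3628.shift 1 3), (rh48288c1f36ce8487.shift 1 0), (rh7695196c91ad6f58.shift 2 0), (rha80f42539989a813.shift 1 2), (rhbae2fa6755412ec5.shift 1 1), (rhd083f92e2202c92e.shift 1 2), (rhd336b1709d4af42f.shift 1 2), rhdb2a968d889383ac, (rhe3e77c4ce3e6477c.shift 0 1)] (by decide +kernel))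
noncomputable def rh32ba7bdcd64caa24 : CRef := CRef.mk (Pat.mk 0x200000001000000000000000000000000000000000 0x5000000070000003f4000003fc0000077e000003fe000001fe000003ff000001fe000000fc000000f800000050 11 11) 0 0 (step_sound _ 197 [(rh14fa92eb3048f0d3.shift 2 2), (rh201d040373608dd2.shift 2 1), (rh2cf4337662ce4229.shift 2 1), (rh33cab5d239d7057a.shift 1 2), (rh41f8ab322e58fdfd.shift 1 2), (rh4bc7890c73d004ac.shift 2 1), (rh5d059f989ad2ca15.shift 0 2), (rh6e81d6e9ce41b0ea.shift 1 1), (rh6f62765093a15472.shift 2 0), (rh932ba4e185b5cf0d.shift 1 2), (rhb36e7a98656aabc7.shift 2 0)] (by decide +kernel))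
noncomputable def rh0cb3a792f49601b1 : CRef := CRef.mk (Pat.mk 0x80000000000000000000000000000000000000000000000000 0x5000000170000001f0000003f8000007ff000007fe00003dff00001fff00003ffe00000ffe00001ffc00000ffc000007f8000003e0 11 14) 0 0 (step_sound _ 167 [(rh133c407b4579212b.shift 2 1), (rh394bdebfccbc6571.shift 2 1), rh688ae7cfd45822f7, (rh79eb84851ab73620.shift 2 1), (rh82a1288546b4efb3.shift 3 1), (rh8381af98fffebb96.shift 3 1), (rh96e16775f0f99bf8.shift 3 2), (rhb77bac0c3be1ae53.shift 2 0), (rhb7b2a35b61db8da5.shift 2 0), (rhcccc192d89916da3.shift 2 1), (rhcec01876cced1c18.shift 2 0), (rhd9ef6c6b989f76e8.shift 2 0), (rhe0647302ad5d3ed8.shift 2 1), (rhe56ef72c8c191fe7.shift 4 2), (rhf8985d8fbc0e2f22.shift 2 1)] (by decide +kernel))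
noncomputable def rhbd0154af928e70bb : CRef := CRef.mk (Pat.mk 0x1a00000000000000000000000000000000 0x80000003800000038000000380000003f0000003e00000077000000380000003800000028 11 7) 0 0 (step_sound _ 130 [(rh33d25d5ad1a3e055.shift 0 3), rh54646ef058627d03, (rhd52e3929053d9d5f.shift 0 3)] (by decide +kernel))
noncomputable def rh389f12b2a56e7453 : CRef := CRef.mk (Pat.mk 0xd000000000000000000000000000000000000000000000000000000000 0xe0000001e8000001ef000003ff000007fe000001df000007fe000003ff000003fc000000f8000000b80000003800000028 11 11) 0 0 (step_sound _ 196 [(rh02f8ad62a7894f8d.shift 3 2), (rh0b2c725ff391ce49.shift 2 2), (rh144e7323669e9145.shift 1 0), (rh2903d87cff5910f7.shift 2 2), (rh319e7f1c02d4cfd9.shift 0 1), (rh6552bc76b2855f31.shift 2 3), (rh77bb270ab5fc06b6.shift 1 1), (rh9884f6c92537ab5a.shift 1 2), (rha30bf98e4197e859.shift 2 2), (rhb11a222ea33137df.shift 3 2), (rhb571af238c3df152.shift 2 2), (rhbe5a9f8e5a860cbd.shift 1 1), (rhd2387d7e08e16251.shift 0 3), (rhea1dd589c4034ca5.shift 0 1), (rhf539750fe6c9ceb8.shift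 1 3)] (by decide +kernel))
noncomputable def rhe0f31c5b727762db : CRef := CRef.mk (Pat.mk 0x7000000000000000000000000000000000 0xe0000000f0000003e0000003f0000000fe000003ff000000f8000001f000000080 11 10) 0 0 (step_sound _ 100 [(rhd5c548d17edfbb92.shift 0 1), (rhd79f3e75da8bb9a9.shift 2 0), (rhf0f55c4504412200.shift 1 3)] (by decide +kernel))
noncomputable def rhc1a6b745ceeb2db4 : CRef := CRef.mk (Pat.mk 0x7000000000000000000000000000000000 0xe0000000f0000003e0000003f7000000fe000003ff000000f8000001f000000080 11 10) 0 0 (step_sound _ 100 [(rhd79f3e75da8bb9a9.shift 2 0), (rhf0f55c4504412200.shift 1 3), (rhfd85d249d51f3bd5.shift 0 1)] (by decide +kernel))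
noncomputable def rha162316918e829b5 : CRef := CRef.mk (Pat.mk 0xe0000000000000000000000000 0x150000001f0000003f0000003e0000003ff000001fe000000fe000000f000000070 11 10) 0 0 (step_sound _ 133 [rh9786e604204b100a, (rha750b53ac57e1bfc.shift 3 0), (rha7edc60fc34bffff.shift 3 3), (rhf60aa8aede119d3b.shift 2 3)] (by decide +kernel))
noncomputable def rhb932b44ab7c50266 : CRef := CRef.mk (Pat.mk 0x38000000000000000000000000000000000000000000000000 0x3800000078000000ef0000007e000001ff000000fe0000007c0000007c0000001c00000010 11 9) 0 0 (step_sound _ 163 [(rh23c6be2fc78ced0a.shift 0 2), (rh2820ca9a6c4f41b4.shift 0 5), rha30f06e7952b6b57, (rhf0f55c4504412200.shift 0 5)] (by decide +kernel))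
noncomputable def rh6e183af8bb29fc22 : CRef := CRef.mk (Pat.mk 0x70000000000000000000000000000000000000000000000000 0x1e0000001e0000003f0000003fe000000ff000003de000000f8000000f8000000780000003800000008 11 10) 0 0 (step_sound _ 164 [(rh2820ca9a6c4f41b4.shift 1 5), (rh5f9f0b7c1fbbef6a.shift 2 3), (rh81395913110e99df.shift 3 2), rh8247c586b07eb51b] (by decide +kernel))
noncomputable def rh2d82d02de4d31f1d : CRef := CRef.mk (Pat.mk 0xe000000000000000000000000000000000 0x150000001f0000001f0000001e0000001ff000001fe0000077e000003fc000007fe00000030 11 11) 0 0 (step_sound _ 165 [(rh7cd722868725bdd2.shift 1 0), (rh9786e604204b100a.shift 0 1), (rhf60aa8aede119d3b.shift 2 4)] (by decide +kernel))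
noncomputable def rhfa637a5c88d0e671 : CRef := CRef.mk (Pat.mk 0x38000000000000000000000000000000000000000000000000 0xb0000000f8000000f8000000fe00000078000000ff000000fc0000007c0000003c0000001c00000004 11 8) 0 0 (step_sound _ 163 [rh2ebd0c0485ebd0b9, (rh5ff6ac226a5bf89c.shift 1 2), (rh81395913110e99df.shift 2 2), (rhf0f55c4504412200.shift 0 5)] (by decide +kernel))
noncomputable def rhd1e87c3a0e2c0951 : CRef := CRef.mk (Pat.mk 0x70000000000000000000000000 0x140000007c0000007f000000ff000000fc0000007c000000fe0000003000000010 11 8) 0 0 (step_sound _ 99 [(rh185f35b8bd8ec37f.shift 1 2), (rh2381ca26b8b38d1e.shift 2 2), rh3f8e8a88b54bd904, (rh9e97bba44c1b13e4.shift 1 2)] (by decide +kernel))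
noncomputable def rh309b66688f638953 : CRef := CRef.mk (Pat.mk 0x700000000000000000000000000000000000000000 0x2800000178000001ff000001ff000001fe000000f0000001fc000001f0000001f0000001c000000040 11 9) 0 0 (step_sound _ 196 [(rh221b5d1fe911b595.shift 3 0), (rh394361ca08c494f5.shift 2 2), (rhbcb8542015134e90.shift 0 2), (rhf60aa8aede119d3b.shift 1 5)] (by decide +kernel))
noncomputable def rh08f1bbcb8d245223 : CRef := CRef.mk (Pat.mk 0x1c000000000000000000000000000000000000000000000000 0x20000003e0000003f000000ff0000003f000001fc000003fe000001fc000001f80000003800000010 11 10) 0 0 (step_sound _ 164 [(rh356647305a06a22a.shift 1 0), (rh9909eeda0ef2ed2c.shift 1 5), (rhebafc6adaaf40015.shift 0 3)] (by decide +kernel))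
noncomputable def rhc71baaa093eda090 : CRef := CRef.mk (Pat.mk 0x38000000000000000000000000 0x80000000e0000000e0000000e0000007e0000003e0000007f0000000c00000008 11 7) 0 0 (step_sound _ 98 [(rh2381ca26b8b38d1e.shift 1 2), (rh2bd06bc6669b0f7f.shift 1 0), (rh9e97bba44c1b13e4.shift 0 2)] (by decide +kernel))
noncomputable def rh60732ee520c4e3e5 : CRef := CRef.mk (Pat.mk 0x700000000000000000000000000000000000000000 0x28000001f8000001ff000001ff000003fe000000f0000001fc000001f8000001e0000001c000000140 11 10) 0 0 (step_sound _ 196 [(rh7563d9153d53559e.shift 2 0), (rhb15c0b2c1fbeab87.shift 0 2), (rhf60aa8aede119d3b.shift 1 5)] (by decide +kernel))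
noncomputable def rh6f7703e08c528bb9 : CRef := CRef.mk (Pat.mk 0x1c000000000000000000000000000000000000000000000000 0x200000003c000000fe000000fc0000003f000000fe000000fe0000007e000000380000003800000020 11 8) 0 0 (step_sound _ 164 [(rh3ee7e90b7310e7f5.shift 1 0), (rh9909eeda0ef2ed2c.shift 1 5), (rhdaeb720e80000457.shift 0 3)] (by decide +kernel))
noncomputable def rhea384b9ab34a86a6 : CRef := CRef.mk (Pat.mk 0x1c000000000000000000000000000000000000000000000000 0x40000000700000007000000070000003f0000001f0000003f0000000700000007000000070000000700000005 11 6) 0 0 (step_sound _ 193 [rh0925ebde9fff7ae0, (rh2381ca26b8b38d1e.shift 0 5), (rh87d9accca43a6c1c.shift 0 2)] (by decide +kernel))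
noncomputable def rh9c86859d4e7dbebc : CRef := CRef.mk (Pat.mk 0x38000000000000000000000000000000000000000000000000 0xa0000000ec000000fc000000fc000000fe00000078000001ff000000ff000000fc000000fc0000001c00000004 11 9) 0 0 (step_sound _ 163 [rh2d3c014332df24d2, (rhc077a8f719212a59.shift 0 1), (rhf0f55c4504412200.shift 0 5)] (by decide +kernel))
noncomputable def rh50b361598a956d06 : CRef := CRef.mk (Pat.mk 0x1c0000000000000000000000000000000000000000 0x8000000380000003c000000fe0000007c0000003f000000fe000001fe000001fe0000007800000068 11 9) 0 0 (step_sound _ 132 [(rh9909eeda0ef2ed2c.shift 1 4), (rha02c53edc53665f6.shift 1 0), (rhdaeb720e80000457.shift 0 2)] (by decide +kernel))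
noncomputable def rhe28d52103f76aae1 : CRef := CRef.mk (Pat.mk 0x1c000000000000000000000000000000000000000000000000 0x2a0000003e0000007f000000ff0000003f000000fc0000007c000001fc000000780000003800000020 11 9) 0 0 (step_sound _ 164 [(rhc21a95c499b3efdb.shift 1 5), rhd7aebce5a76e57d7, (rhebafc6adaaf40015.shift 0 3)] (by decide +kernel))
noncomputable def rh7b16f2e814f850d4 : CRef := CRef.mk (Pat.mk 0x3800000000000000000000000000000000 0x580000007e0000007e0000003e0000006e0000007e0000007f0000001e0000001e0000000a 11 7) 0 0 (step_sound _ 98 [(rh3cc5c7fb74c49f61.shift 0 3), (rh4c5c51b0ae60cece.shift 0 3), (rh8f38fc98da92207f.shift 1 0)] (by decide +kernel))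
noncomputable def rh10c7975c4b850638 : CRef := CRef.mk (Pat.mk 0x70000000000000000000000000000000000000000000000000 0x8000000f8000003f8000000fe000001fc000000fc0000003e000000ff0000007f000000380000003800000008 11 10) 0 0 (step_sound _ 164 [(rh2820ca9a6c4f41b4.shift 1 5), (rhc1db6ca9f57ede64.shift 2 3), rhecb1044ef92447a4] (by decide +kernel))
noncomputable def rh3d5ad8282b1fc155 : CRef := CRef.mk (Pat.mk 0x7000000000000000000000000000000000 0xa0000000e0000000f0000000fc000001fc000003ff000003fc0000007f000001ff000003ff0000007c00000014 11 10) 0 0 (step_sound _ 167 [(rh90fcc1b0fe0017ad.shift 3 4), rh9d792bb6b0d04c6e, (rhb0646b6bcb7b4242.shift 2 2), (rhb61ade19d028b468.shift 1 3)] (by decide +kernel))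
noncomputable def rh7dd0396206f459ba : CRef := CRef.mk (Pat.mk 0x38000000000000000000000000000000000000000000000000 0xa0000000ec000000fc000000fc000000fe00000078000001ff000000ff000000fc000000fc0000001c00000004 11 9) 0 0 (step_sound _ 163 [(rhc077a8f719212a59.shift 0 1), rhc722a55a89129e3c, (rhf0f55c4504412200.shift 0 5)] (by decide +kernel))
noncomputable def rh4064a4d58f350173 : CRef := CRef.mk (Pat.mk 0x1c0000000000000000000000000000000000000000 0x8000000380000003c000000fe000000fc0000003f000000fc000001fe000001fc0000007000000060 11 9) 0 0 (step_sound _ 132 [(rh9909eeda0ef2ed2c.shift 1 4), (rhb6074191d19c0a3b.shift 1 0), (rhdaeb720e80000457.shift 0 2)] (by decide +kernel))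
noncomputable def rh9ae95df00795fb32 : CRef := CRef.mk (Pat.mk 0x1c0000000000000000000000000000000000000000 0x80000003a0000003e000000ff000000ff0000003f000000fc000001fe000001fc0000006000000060 11 9) 0 0 (step_sound _ 132 [(rh83be88bbe8ebc2d2.shift 0 4), (rh9909eeda0ef2ed2c.shift 1 4), (rhdaeb720e80000457.shift 0 2), (rhebafc6adaaf40015.shift 0 2), rhf02faa2f3dd33370] (by decide +kernel))
noncomputable def rh040399b835e205e1 : CRef := CRef.mk (Pat.mk 0x700000000000000000000000000000000000000000 0x28000001b8000001ff000001ff000003fe000000f0000001fc000000fc000001f8000001c800000040 11 10) 0 0 (step_sound _ 196 [(rhb806191e5ac12b4d.shift 2 0), (rhf60aa8aede119d3b.shift 1 5), (rhfcbaea6e6b3d0170.shift 0 2)] (by decide +kernel))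
noncomputable def rh986d9d65b918bc08 : CRef := CRef.mk (Pat.mk 0x1c000000000000000000000000000000000000000000000000 0x3c000000fe0000007c0000003f000000fe000000fe0000007c000000780000003800000008 11 8) 0 0 (step_sound _ 164 [(rh15ea6d64aee70508.shift 1 0), (rh9909eeda0ef2ed2c.shift 1 5), (rhdaeb720e80000457.shift 0 3)] (by decide +kernel))
noncomputable def rh6aeb965664c4a272 : CRef := CRef.mk (Pat.mk 0x38000000000000000000000000000000000000000000000000 0x520000007e000001fe000001ff0000003e000001ff0000007c00000078000000700000007000000040 11 9) 0 0 (step_sound _ 166 [(rh6aa0ed61cce1493b.shift 2 5), (rha50d92b1184ff682.shift 0 4), (rhc7624895d907c6f3.shift 1 0)] (by decide +kernel))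
noncomputable def rhdcd590663b1cfa35 : CRef := CRef.mk (Pat.mk 0x3800000000000000000000000000000000 0x280000007c000000fc000000ff000000ff00000078000000fe000000fc0000007c00000010 11 8) 0 0 (step_sound _ 164 [(rh2e81436a0e0cfa3c.shift 0 1), rh343507e8cc7b1ecc, (rh391474862bffe443.shift 1 1), (rh4963c8468eabd8d0.shift 1 2), (rh6f05c1840500be4f.shift 1 1), (rh73bb80ee521df000.shift 1 0), (rh9e8a4b66ea4e6888.shift 1 2), (rha93188a35e15b974.shift 0 1)] (by decide +kernel))
noncomputable def rh67c656b19cf72542 : CRef := CRef.mk (Pat.mk 0x1a000000000000000000000000000000000000000000000000 0x40000000700000007000000070000003f0000001f0000003f0000000700000007000000070000000700000005 11 6) 0 0 (step_sound _ 194 [rh0925ebde9fff7ae0, (rh2381ca26b8b38d1e.shift 0 5), (rh87d9accca43a6c1c.shift 0 2)] (by decide +kernel))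
noncomputable def rhb6a3f0329623529a : CRef := CRef.mk (Pat.mk 0x1a00000000000000000000000000000000 0x4000000070000000700000007000000770000003e00000077000000070000000700000005 11 7) 0 0 (step_sound _ 130 [(rh0edd3afef6b5d7e0.shift 0 3), (rh22b38309c56a80eb.shift 0 4), rh87d9accca43a6c1c] (by decide +kernel))
noncomputable def rha96b3a1348fcf915 : CRef := CRef.mk (Pat.mk 0x6800000000000000000000000000000000000000000000000000000000 0x140000005c0000007c0000007c0000007f000001ff000000ec000003ff000001ff000001fe000000fc0000007c0000005c00000014 11 10) 0 0 (step_sound _ 195 [(rh0b9c089e846c6d4a.shift 0 2), rh144e7323669e9145, (rh3340f6ea0c10a952.shift 1 2), (rh4429f1c59b8dd5ee.shift 2 2), (rh51f582449ee555b5.shift 1 2), (rh58cacedf5fd293ae.shift 0 1), (rh653ec202068b8bb2.shift 0 3), (rh6c019fbc1f304840.shift 1 1), (rh75474a6dab75fb08.shift 1 2), (rh9545538496cfbe72.shift 1 2), (rhd409c13671a1052a.shift 1 1), (rhe1ffd74729ef408f.shift 2 1), (rhec6aa5f0eeb12249.shift 2 2)] (by decide +kernel))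
noncomputable def rh5ff9e1b409b6b58d : CRef := CRef.mk (Pat.mk 0x1c0000000000000000000000000000000000000000 0x380000007a000000fe0000003e000000fe000000fe0000007f0000007800000008 11 8) 0 0 (step_sound _ 132 [(rh3ddc236cb123a8e7.shift 0 1), (rhc21a95c499b3efdb.shift 1 4), (rhca18b078a5ac2818.shift 1 0)] (by decide +kernel))
noncomputable def rh78abb90ac9132229 : CRef := CRef.mk (Pat.mk 0x7000000000000000000000000000000000 0xe0000000e8000001ec000003fe000000ff000003f8000003fc000000f8000000e8 11 10) 0 0 (step_sound _ 164 [rh54f0e3674f71b3c2, (rhbf0d0487774a0f3e.shift 3 3), (rhc99cb9d2d41275f4.shift 2 0), (rhf60aa8aede119d3b.shift 1 4)] (by decide +kernel))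
noncomputable def rha1772862adb0fef3 : CRef := CRef.mk (Pat.mk 0x70000000000000000000000000000000000000000000000000 0x140000001e0000001e0000003e8000003fc000000fc000003de000001ff000001ff000001f80000003800000008 11 10) 0 0 (step_sound _ 164 [(rh2820ca9a6c4f41b4.shift 1 5), rh33c453ef9fee7456, (rhc077a8f719212a59.shift 1 1)] (by decide +kernel))
noncomputable def rh3182dcf73d802267 : CRef := CRef.mk (Pat.mk 0x70000000000000000000000000000000000000000000000000 0x140000001c0000001e0000003e8000003fc000000f0000003fe000001ff000001ff000001f80000003800000008 11 10) 0 0 (step_sound _ 164 [rh402b7563b8599dd3, (rhc077a8f719212a59.shift 1 1), (rhf0f55c4504412200.shift 1 5)] (by decide +kernel))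
noncomputable def rh2b03d9a5b758b22a : CRef := CRef.mk (Pat.mk 0x38000000000000000000000000 0x2800000028000000ef0000007e000001ff0000001600000016 11 9) 0 0 (step_sound _ 71 [(rh31d55dd32e48ae3d.shift 1 2), rh4f4c97a5b2450f64, (rh6fc4ab7f79db0319.shift 2 2), (rh712a6e1153ab9018.shift 0 1), (rh8d84b6ee4f446a42.shift 3 2)] (by decide +kernel))
noncomputable def rh1c1eb1c589d46d5b : CRef := CRef.mk (Pat.mk 0xe00000000000000000000000000000000000000000 0x40000001c0000001e0000007e0000007e7000001fe000007ff000007d8000001f0000001d000000040 11 11) 0 0 (step_sound _ 201 [(rh0ab2fd019e795ded.shift 5 5), rh80801d95d747262c, (rhe2ec1ba10686a94f.shift 2 2), (rhefb19ffaaa7a0748.shift 3 4)] (by decide +kernel))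
noncomputable def rh09225c9782453479 : CRef := CRef.mk (Pat.mk 0xe0000000000000000000000000 0x1d0000003fe000007fe000007fe000007ff000001f0000000780000005000000040 11 11) 0 0 (step_sound _ 133 [(rh1a2e655b8dba377c.shift 1 0), rh4dea04c3533ff445, (rha7edc60fc34bffff.shift 3 3)] (by decide +kernel))
noncomputable def rh3cd5fae4ddc39c35 : CRef := CRef.mk (Pat.mk 0x38000000000000000000000000000000000000000000000000 0x80000000e0000000e0000000e0000007e0000003e0000007f00000006000000060000000e0000000e0000000a 11 7) 0 0 (step_sound _ 194 [(rh0925ebde9fff7ae0.shift 1 0), (rh2381ca26b8b38d1e.shift 1 5), (rh9e97bba44c1b13e4.shift 0 5)] (by decide +kernel))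
noncomputable def rh48049fde641cc854 : CRef := CRef.mk (Pat.mk 0x700000000000000000000000000000000000000000 0x2000000038000001f8000001ff000001ff000003fe000000f0000001fc000001e8000001e0000001c000000140 11 10) 0 0 (step_sound _ 196 [(rh1085a199345ae278.shift 2 0), (rh3eb14177b0011b09.shift 0 2), (rhf60aa8aede119d3b.shift 1 5)] (by decide +kernel))
noncomputable def rhb435f2eb2668b917 : CRef := CRef.mk (Pat.mk 0x3800000000000000000000000000000000 0xa0000000e0000002e000000ef0000007e000001ff0000001e0000001600000004 11 9) 0 0 (step_sound _ 103 [rh2d7bcb472309de07, (rh31d55dd32e48ae3d.shift 1 3), (rh6fc4ab7f79db0319.shift 2 3), (rh712a6e1153ab9018.shift 0 2), (rh8d84b6ee4f446a42.shift 3 3)] (by decide +kernel))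
noncomputable def rhaf44ba296b05fe0f : CRef := CRef.mk (Pat.mk 0x70000000000000000000000000000000000000000000000000 0xb0000001b8000001f8000001f0000000fe000003ff000001fc000003e8000000e8000000e0000000e0 11 10) 0 0 (step_sound _ 164 [(rh0d489b418b790c15.shift 1 2), (rh2820ca9a6c4f41b4.shift 1 5), rhe0629deda2d8ceaf, (rhe424e153f4ec40d1.shift 3 3), (rhf0f55c4504412200.shift 1 5)] (by decide +kernel))
noncomputable def rh9553a8d85b1fb2db : CRef := CRef.mk (Pat.mk 0xe0000000000000000000000000 0x50000003fe000007fe000003fe000007ff000001f0000000780000007000000050 11 11) 0 0 (step_sound _ 133 [(rh24096d3a66899723.shift 3 0), rh35a6cfea5b60a18a, (rha7edc60fc34bffff.shift 3 3)] (by decide +kernel))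
noncomputable def rh779018090ca6b4cc : CRef := CRef.mk (Pat.mk 0x700000000000000000000000000000000000000000 0x28000001f8000001ff000001ff000003fe000000f0000001fc000001f8000001e8000001c000000140 11 10) 0 0 (step_sound _ 196 [(rh064a574f36fcc29b.shift 2 0), (rha8d8d79e075856bb.shift 0 2), (rhf60aa8aede119d3b.shift 1 5)] (by decide +kernel))
noncomputable def rh936bd28eed476e58 : CRef := CRef.mk (Pat.mk 0x3800000000000000000000000000000000 0x80000000e0000000e0000000e0000007f0000003e000000760000000e0000000e0000000a 11 7) 0 0 (step_sound _ 130 [(rh0d378fd9e8917c5a.shift 0 3), (rh2381ca26b8b38d1e.shift 1 3), (rh87d9accca43a6c1c.shift 1 0)] (by decide +kernel))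
noncomputable def rhed44e0bdfa9497a7 : CRef := CRef.mk (Pat.mk 0x700000000000000000000000000000000000000000 0x280000003a0000003f0000003e000000f4000001fe0000007f0000007a0000003800000020 11 9) 0 0 (step_sound _ 196 [rh0e027e8c98177a44, (rh142635070170970c.shift 1 0), (rhf60aa8aede119d3b.shift 1 5)] (by decide +kernel))
noncomputable def rhb2ed45aa7067482c : CRef := CRef.mk (Pat.mk 0xe000000000000000000000000000000000 0x400000007000000070000000b7000003fe000003ff000001f0000007fc000003f8000000f000000050 11 11) 0 0 (step_sound _ 163 [(rh0ddd5f980300ddcb.shift 3 4), (rh10575d97defecd50.shift 3 2), rh68e7d45238d0b91d] (by decide +kernel))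
noncomputable def rhc0c24c3706bee943 : CRef := CRef.mk (Pat.mk 0x70000000000000000000000000000000000000000000000000 0x1d8000001f8000003f8000000fc000003fe000003ff000001f8000000f8000000e000000020 11 10) 0 0 (step_sound _ 168 [(rh31d55dd32e48ae3d.shift 2 5), (rh4471e11af86fdb6b.shift 1 0), (rh6fc4ab7f79db0319.shift 3 5), (rh8d84b6ee4f446a42.shift 4 5), (rha117adfbffc3bd96.shift 0 2)] (by decide +kernel))
noncomputable def rhc617f4105a9be2dd : CRef := CRef.mk (Pat.mk 0x70000000000000000000000000000000000000000000000000 0x80000000c0000000f0000003f7000000fe000003fe000003fc000001f8000000e0000000e000000020 11 10) 0 0 (step_sound _ 232 [(rh0ab2fd019e795ded.shift 4 6), rh31562f538db804cb, (rha2ae44b1bac75283.shift 2 2), (rhefb19ffaaa7a0748.shift 2 5)] (by decide +kernel))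
noncomputable def rh80884ad264792bc5 : CRef := CRef.mk (Pat.mk 0x1c0000000000000000000000000000000000000000 0x100000007000000070000000600000007f0000003f0000007800000070000000700000007000000010 11 7) 0 0 (step_sound _ 193 [(rh0f8451c1712073f5.shift 0 4), (rh15b4c7f64ffd8e41.shift 0 5), (rh734ccb25fb3d81e5.shift 1 0)] (by decide +kernel))
noncomputable def rhcb32db84e9c604d8 : CRef := CRef.mk (Pat.mk 0x700000000000000000000000000000000000000000 0x40000001c8000001da000001ff000001fe000000f4000003fe000001ff000001fa000001f800000028 11 10) 0 0 (step_sound _ 196 [rh0e027e8c98177a44, (rh69f3eaab334835e1.shift 1 0), (rhf60aa8aede119d3b.shift 1 5)] (by decide +kernel))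
noncomputable def rh396e299a9416a505 : CRef := CRef.mk (Pat.mk 0x1c000000000000000000000000 0x7a0000007e000000ff0000003f000000760000003400000030 11 8) 0 0 (step_sound _ 132 [(rh3a1a75fb4c6378c1.shift 0 1), rh53b97eb641616b6c, (rha11dfd15f08f96e3.shift 1 3), (rhe99e3ffc18351a7e.shift 1 0)] (by decide +kernel))
noncomputable def rh03e8264a9d7e91eb : CRef := CRef.mk (Pat.mk 0xe000000000000000000000000000000000000000000000000 0x1c0000001c0000007c0000001f0000007f0000007f0000003e0000003c0000001c00000004 11 7) 0 0 (step_sound _ 163 [rh15ea6d64aee70508, (rhc21a95c499b3efdb.shift 0 5), (rhca18b078a5ac2818.shift 0 1)] (by decide +kernel))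
noncomputable def rh23e6121172986e77 : CRef := CRef.mk (Pat.mk 0x380000000000000000000000000000000000000000 0x140000001c0000001c0000001c000000fe000000ff000000df0000007e000001fc000000fe0000001c0000001c00000010 11 9) 0 0 (step_sound _ 195 [(rh0095b02bbcc23d3c.shift 1 0), (rha7edc60fc34bffff.shift 1 5), rhd4e5ca3004a30df4, (rhf60aa8aede119d3b.shift 0 5), (rhfd07ec84b90b0eb1.shift 2 3)] (by decide +kernel))
noncomputable def rhf52efe6ae5f2757c : CRef := CRef.mk (Pat.mk 0x700000000000000000000000000000000000000000 0x28000001ff000001fe000001fe000003fe000000f80000003800000038000000380000003800000020 11 10) 0 0 (step_sound _ 196 [(rh46a3d2b8a9c5802a.shift 2 2), rh65410d0ed3c99dbb, (rha7edc60fc34bffff.shift 2 5)] (by decide +kernel))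
noncomputable def rh8a2a0e6a4d9a17c1 : CRef := CRef.mk (Pat.mk 0x700000000000000000000000000000000000000000 0x68000001f8000001ff000001ff000003fe000000f0000001f8000001f8000001f80000013800000020 11 10) 0 0 (step_sound _ 196 [(rh3c4529c1c4a9a23f.shift 0 1), (rh424dab44663bccaf.shift 3 0), (rhf60aa8aede119d3b.shift 1 5)] (by decide +kernel))
noncomputable def rh736e685a5d3074cf : CRef := CRef.mk (Pat.mk 0x70000000000000000000000000 0x140000007c0000007f000000ff000000fe0000007c000000f00000003000000010 11 8) 0 0 (step_sound _ 99 [(rh0d378fd9e8917c5a.shift 1 2), (rh2381ca26b8b38d1e.shift 2 2), rh3f8e8a88b54bd904, (rh4c622fddc53a5f99.shift 1 3)] (by decide +kernel))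
noncomputable def rhb63844a6df76caa2 : CRef := CRef.mk (Pat.mk 0x70000000000000000000000000000000000000000000000000 0x20000000f8000007fe000001ff000001fe000000f800000ffc000003f8000000d8000000e8000000e000000020 11 12) 0 0 (step_sound _ 166 [(rh2cc2c1a70af66aeb.shift 0 3), (rh3639993024f64385.shift 1 0), (rhc21a95c499b3efdb.shift 3 5)] (by decide +kernel))
noncomputable def rh74f21df009ea5d0a : CRef := CRef.mk (Pat.mk 0x700000000000000000000000000000000000000000 0x28000001f8000001fa000003ff000003fe000000fc000001de000001df000001da000001c800000040 11 10) 0 0 (step_sound _ 132 [(rh2820ca9a6c4f41b4.shift 1 4), (rh395ebb0542c850a1.shift 1 0), (rhf59775ef15f1111b.shift 0 1)] (by decide +kernel))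
noncomputable def rha2da1973712455f8 : CRef := CRef.mk (Pat.mk 0x700000000000000000000000000000000000000000 0x28000001f8000001fa000001ff000003fe000000f4000001fe000001df000001da000001c800000040 11 10) 0 0 (step_sound _ 132 [(rh2464dcc0a6dcc887.shift 1 0), (rhf0f55c4504412200.shift 1 4), (rhf18deccdb4e2feb6.shift 0 1)] (by decide +kernel))
noncomputable def rhaec3f92f7093cbc6 : CRef := CRef.mk (Pat.mk 0xe00000000000000000000000000000000000000000 0x4000000140000003e0000001fc000007fe000003ff000001fe000003fe00000050 11 11) 0 0 (step_sound _ 133 [rh69c2bb830ad2c559, (rhd5c548d17edfbb92.shift 1 2), (rhf0f55c4504412200.shift 2 4)] (by decide +kernel))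
noncomputable def rh3e45ee5448dbbf72 : CRef := CRef.mk (Pat.mk 0x1c0000000000000000000000000000000000000000 0x100000007000000070000000600000007f0000003f0000007800000070000000700000007000000010 11 7) 0 0 (step_sound _ 193 [(rh15b4c7f64ffd8e41.shift 0 5), (rh6ede8d41d351b7c8.shift 0 4), (rh734ccb25fb3d81e5.shift 1 0)] (by decide +kernel))
noncomputable def rh936ece7435b7b241 : CRef := CRef.mk (Pat.mk 0x380000000000000000000000000000000000000000 0x140000001c0000001c0000001c0000003c0000001f0000001f00000078000000ff0000003e0000003c0000001c00000010 11 8) 0 0 (step_sound _ 195 [rh6678fb1fa504504f, (rhaa5ada5d4fee1744.shift 0 1), (rhf60aa8aede119d3b.shift 0 5)] (by decide +kernel))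
noncomputable def rh322d98679122da16 : CRef := CRef.mk (Pat.mk 0x7000000000000000000000000000000000 0x100000001c0000001c0000001c000001ff000000ff0000001f0000001c0000001c00000014 11 9) 0 0 (step_sound _ 131 [(rh3b00e9e9432b8f40.shift 2 3), (rh87d9accca43a6c1c.shift 2 0), (rha17b073b668cf057.shift 0 3), (rhaeebc73f5a9c796a.shift 2 3), (rhb18e6c78a554867d.shift 2 4), (rhd7048efb7fe028fd.shift 0 3)] (by decide +kernel))
noncomputable def rhd626f2d90e589f1a : CRef := CRef.mk (Pat.mk 0x3800000000000000000000000000000000 0x80000000e0000000e0000000e0000007e0000003e000000770000000e0000000e0000000a 11 7) 0 0 (step_sound _ 130 [(rh185f35b8bd8ec37f.shift 0 3), (rh2381ca26b8b38d1e.shift 1 3), (rh87d9accca43a6c1c.shift 1 0)] (by decide +kernel))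
noncomputable def rh6ce143f22d61c4b9 : CRef := CRef.mk (Pat.mk 0x380000000000000000000000000000000000000000 0x140000001c0000003c000000fc000000fc000000ef000000ff00000078000001ff000000fe000000fc000000fc00000014 11 9) 0 0 (step_sound _ 195 [rh69f3eaab334835e1, (rhafa1bcab0f755782.shift 0 1), (rhf60aa8aede119d3b.shift 0 5)] (by decide +kernel))
noncomputable def rh4aa8651eb94e7b57 : CRef := CRef.mk (Pat.mk 0x38000000000000000000000000000000000000000000000000 0x7a0000007e000001fe000001f70000003e000001ff000001fe000000fe0000007e0000007800000050 11 9) 0 0 (step_sound _ 166 [(rh095c6faf6e2f205b.shift 0 1), (rh6aa0ed61cce1493b.shift 2 5), (rhbdc58297f4ada56d.shift 2 0)] (by decide +kernel))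
noncomputable def rh081f049a14c7362d : CRef := CRef.mk (Pat.mk 0x380000000000000000000000000000000000000000 0x20000000f8000000f8000000fc000000f000000078000000ff000001ff000000ff000000fe00000028 11 9) 0 0 (step_sound _ 132 [(rh02489f86352c4312.shift 0 1), (rh27772aac8581ecaf.shift 0 1), (rh2d9c510ace0b06f8.shift 0 1), (rh31e078558f32939e.shift 0 1), (rh410534fe9ee50f46.shift 2 1), (rh5388eeaae42c1a43.shift 1 1), (rh78afe1ab9a4457d4.shift 2 0), (rhad46145e4e5b2ee1.shift 1 1), (rhaf385c7152bca149.shift 1 1), (rhb250f11fd476f15d.shift 1 1), (rhc37a3a69d48941c2.shift 1 1), (rhcc62c5b16f9a2144.shift 1 1), (rhefdc640d9e67b581.shift 1 1), (rhf5cabba8a8afdc0a.shift 1 1)] (by decide +kernel))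
noncomputable def rhfff9994dfbf12906 : CRef := CRef.mk (Pat.mk 0x3000000010000000000000000000000000 0xc0000000c0000003f0000003fc000003f80000017f000001ff000000f8000000fc00000048 11 10) 0 0 (step_sound _ 165 [rh13ad38229604a564, (rh4821dcf828b9d7bf.shift 4 1), (rhf90b901920b21f79.shift 2 2)] (by decide +kernel))
noncomputable def rhb152adba3ae9b02b : CRef := CRef.mk (Pat.mk 0x3000000010000000000000000000000000 0x80000000c0000003e0000003f0000001f80000007e000001fe000001fc000000ff0000000c 11 10) 0 0 (step_sound _ 165 [rh39c25f8bcd73a86c, (rh4821dcf828b9d7bf.shift 4 1), (rh8b5ed875f83928a5.shift 2 2), (rhadf429772c25fde0.shift 4 1)] (by decide +kernel))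
noncomputable def rh08b7bc201ffc7dd7 : CRef := CRef.mk (Pat.mk 0x1800000008000000000000000000000000 0x20000000e0000003f8000000fe000003fe000001fc0000003f0000007f000000fb0000007a00000010 11 10) 0 0 (step_sound _ 164 [rh43f4908072eefd45, (rhcf80391c5046a495.shift 3 1), (rhd7a1e48b540b6a87.shift 1 1)] (by decide +kernel))
noncomputable def rhabbe66a691895542 : CRef := CRef.mk (Pat.mk 0xc000000040000000000000000 0x3000000036000000fe000000ff000000fc0000004f0000003f0000003f0000001e 11 8) 0 0 (step_sound _ 131 [rh3e5039998f8d5fcd, (rhcf80391c5046a495.shift 2 0), (rhf90b901920b21f79.shift 0 1), (rhf9366b6a121593ef.shift 2 0)] (by decide +kernel))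
noncomputable def rha66f8c40569ef8b5 : CRef := CRef.mk (Pat.mk 0x30000000100000000000000000000000000000000000000000 0xc0000000c0000003f8000003fc000003f800000178000003ff000001ff000000ff000000fc000000ec000000a0 11 10) 0 0 (step_sound _ 229 [rh304e4c36d4697052, (rhf9366b6a121593ef.shift 4 3), (rhfb963d1f0fa2c378.shift 2 4)] (by decide +kernel))
noncomputable def rh3ab615c8880ba768 : CRef := CRef.mk (Pat.mk 0x3000000010000000000000000000000000 0x6000000068000001f80000007f000001ff000001fe000000fc00000078 11 9) 0 0 (step_sound _ 165 [(rh72714801bea570ce.shift 2 0), rh729c886d0141e8a7, (rhf9366b6a121593ef.shift 4 1)] (by decide +kernel))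
noncomputable def rh837454a0407065c1 : CRef := CRef.mk (Pat.mk 0xc000000040000000000000000000000000 0x3000000030000000fe000000ff000000fe7000005fe000000ff000000fc000000f000000070 11 12) 0 0 (step_sound _ 167 [(rh0c50e100f9ca1369.shift 3 2), rhd35c06597565c090, (rhf9366b6a121593ef.shift 6 1)] (by decide +kernel))
noncomputable def rhf26486be815f7e80 : CRef := CRef.mk (Pat.mk 0xc000000040000000000000000000000000 0x1f0000001f0000007e7000001fe000007ff0000077c0000007000000030 11 11) 0 0 (step_sound _ 167 [rh15cb96e1c4c10fbf, (rhcd16e069687cef8a.shift 4 2), (rhf9366b6a121593ef.shift 6 1)] (by decide +kernel))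
noncomputable def rh3978cb8af41a93f7 : CRef := CRef.mk (Pat.mk 0x1800000008000000000000000000000000 0x6000000068000001fc000001fe000001fc000000bf0000007c000000fe0000003c00000030 11 9) 0 0 (step_sound _ 164 [rh41ec7b566f0145cd, (rh56b5cc8a29e50472.shift 3 1), (rh6ae2c9e0c4d6c6de.shift 1 2), (rhf9366b6a121593ef.shift 3 1)] (by decide +kernel))
noncomputable def rhaf39cdfc7ac454a1 : CRef := CRef.mk (Pat.mk 0x30000000100000000000000000000000000000000000000000 0x7800000078000000780000007e000001fe000001ff0000006e0000006c0000000400000004 11 9) 0 0 (step_sound _ 163 [(rh0702544d54445d2a.shift 1 0), (rh102f8b4e60bc45ca.shift 1 2), (rh557b120f072744ca.shift 1 5), (rhdbe81ec60db065ce.shift 1 2), (rhf7c727fdab08cc5d.shift 0 3)] (by decide +kernel))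
noncomputable def rhf538d342751b2c48 : CRef := CRef.mk (Pat.mk 0x3000000010000000000000000000000000 0xc0000000d0000003f8000003fc000003f80000017c000000f70000007e000000ff00000060 11 10) 0 0 (step_sound _ 165 [rh40696bf1397b0c3f, (rh4821dcf828b9d7bf.shift 4 1), (rh6ae2c9e0c4d6c6de.shift 2 2)] (by decide +kernel))
noncomputable def rheb85d1eac3290e7b : CRef := CRef.mk (Pat.mk 0x300000001000000000000000000000000000000000 0x7800000078000001e80000007e000001ff000000ff000000ff0000007e0000003c 11 9) 0 0 (step_sound _ 131 [(rh43cfb8b530e7d384.shift 1 1), (rh557b120f072744ca.shift 1 4), rh83c166d6ea88d4c7, (rh9b3cdc11ae7a4db7.shift 1 3), (rh9c34b91402778d8d.shift 1 1), (rhf617f3fbb062c739.shift 1 0)] (by decide +kernel))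
noncomputable def rh1567139c33a6f6c9 : CRef := CRef.mk (Pat.mk 0x600000002000000000000000000000000000000000 0xf0000000f0000003f0000000e8000003ff000003fe000003ff0000005000000050 11 10) 0 0 (step_sound _ 198 [(rh4821dcf828b9d7bf.shift 5 2), (rh4864ad46a5dff3cd.shift 4 1), rh5033f3bd3d8fbcd0, (rhadf429772c25fde0.shift 5 2)] (by decide +kernel))
noncomputable def rhf815509da91e58c5 : CRef := CRef.mk (Pat.mk 0xc000000040000000000000000000000000 0x200000003e0000003e0000003e7000001fe000003ff000003bc000003f0000003f0 11 10) 0 0 (step_sound _ 133 [(rh3e9405368cff9580.shift 2 0), (rh53d21df3572ee1a2.shift 0 1), (rh726eabb9531a750c.shift 3 0), (rh77b765dc3e39904a.shift 3 0), (rhb4cbe5490688833d.shift 2 0), (rhce0ecb1a4c8d82c5.shift 0 3)] (by decide +kernel))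
noncomputable def rha7da3a0273e00015 : CRef := CRef.mk (Pat.mk 0x600000002000000000000000000000000000000000 0x100000003000000030000000fc000003fc000003fe000001ff000000ff000000a8 11 10) 0 0 (step_sound _ 132 [(rh25dc06d412aa2fa0.shift 2 1), (rhac0f89f81ea53e8a.shift 2 1), (rhb4cdb7cac39f339b.shift 2 2), rhc08d770a05c7f75f, (rhdbe81ec60db065ce.shift 2 1)] (by decide +kernel))
noncomputable def rhbef53255aae63b58 : CRef := CRef.mk (Pat.mk 0x30000000100000000000000000000000000000000000000000 0x100000003800000038000000f80000007c000001df000000fe000001ff000000380000003800000028 11 9) 0 0 (step_sound _ 132 [(rh11f438617dba768c.shift 1 0), (rh6bc015b9268c8423.shift 1 2), (rhbcada92fc06e1246.shift 0 3), (rhe1a3e820b9828b5e.shift 3 2)] (by decide +kernel))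
noncomputable def rh510711475ed4be67 : CRef := CRef.mk (Pat.mk 0x3000000010000000000000000000000000 0xc0000000c0000003f8000003fc000003f80000017f000001ff000001fe000000fc00000078 11 10) 0 0 (step_sound _ 165 [(rh397a4c39c9ce72a0.shift 1 2), rh729c886d0141e8a7, (rhf9366b6a121593ef.shift 4 1)] (by decide +kernel))
noncomputable def rh5d000848320d93dc : CRef := CRef.mk (Pat.mk 0x3800000000000000000000000000000000 0x8000000ae000000ee000000ee000001ef0000007e000000f7000000ee000000ee0000004a 11 9) 0 0 (step_sound _ 166 [(rh9d8516423f5317b0.shift 3 0), (rhb8022f71dc28021b.shift 2 4), rhe065fbb0d416adf2] (by decide +kernel))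
noncomputable def rh5e36da365ba0bc0c : CRef := CRef.mk (Pat.mk 0x38000000000000000000000000000000000000000000000000 0x10000000700000007000000070000001f00000007e000001f7000001fc000003fc000000f00000007000000010 11 10) 0 0 (step_sound _ 165 [(rh9909eeda0ef2ed2c.shift 2 5), (rhf94aa546d3392929.shift 2 0), (rhff256dc5c4211d6e.shift 0 2)] (by decide +kernel))
noncomputable def rha39b8f81caac3889 : CRef := CRef.mk (Pat.mk 0x380000000000000000000000000000000000000000 0x28000000fe000000ff000001ff000001ff00000078000000f0000000fc000000f8000000f800000020 11 9) 0 0 (step_sound _ 196 [(rh0832b965211470ed.shift 1 0), (rh1427318ef9f36a89.shift 1 2), (rh55a673e9ab26d651.shift 1 2), (rh5ca4095b82ba43a2.shift 1 2), rh774c6014be94a1d7, (rh8f12e3dbc3c82f77.shift 1 2), (rh9c369f3fff4afa53.shift 1 2), (rha7b404f14d625856.shift 1 1), (rhc3ca2741297f9143.shift 1 2), (rhc6cd399cd747e6fb.shift 0 3), (rhdd7e69a92f649f9b.shift 1 2), (rhe761eea3e4836a2c.shift 1 2), (rheb11f641d87e09c6.shift 1 0)] (by decide +kernel))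
noncomputable def rh84b6b3436cffbc56 : CRef := CRef.mk (Pat.mk 0x700000000000000000000000000000000000000000 0x20000000e8000000f8000000fc0000007e000000fe000007f7000003f8000007f8000000e0000000a0 11 11) 0 0 (step_sound _ 134 [(rh621d5d105a890919.shift 3 0), (rh8ee80cc30e93a344.shift 3 4), (rhc90c12f03894860b.shift 0 2)] (by decide +kernel))
noncomputable def rh43778d24d043fd6b : CRef := CRef.mk (Pat.mk 0x1c0000000000000000000000000000000000000000 0x8000000380000003c000000fe0000007c0000003f000001fc000000fe000001fe0000003800000028 11 9) 0 0 (step_sound _ 132 [(rh621d5d105a890919.shift 1 0), (rh8ee80cc30e93a344.shift 1 4), (rhdaeb720e80000457.shift 0 2)] (by decide +kernel))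
noncomputable def rh83325e4da08bc50b : CRef := CRef.mk (Pat.mk 0x380000000000000000000000000000000000000000 0x10000000700000007000000070000000770000003e000003f8000001fc000003fc0000007000000050 11 10) 0 0 (step_sound _ 133 [(rh621d5d105a890919.shift 2 0), (rhc21a95c499b3efdb.shift 2 4), (rhf9be8b9a2045b8e0.shift 0 1)] (by decide +kernel))
noncomputable def rhcbba5056899775c0 : CRef := CRef.mk (Pat.mk 0x700000000000000000000000000000000000000000 0x280000003c0000003c0000003c000003ff000000fe000003fe000000f80000003000000038000000380000003800000020 11 10) 0 0 (step_sound _ 196 [(rh1d7635860d6eb37b.shift 1 1), rha7ca5ce4dcf58ef2, (rhf60aa8aede119d3b.shift 1 5)] (by decide +kernel))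
noncomputable def rh6aebd98dfabbf311 : CRef := CRef.mk (Pat.mk 0x700000000000000000000000000000000000000000 0x2800000038000000380000003c000001ff000001fe000001be000000fc000003f400000078000000380000003800000020 11 10) 0 0 (step_sound _ 196 [(rh0095b02bbcc23d3c.shift 2 0), rh2d642d13ab4a23ab, (rha7edc60fc34bffff.shift 2 5), (rha9fbfd4bb8cf890b.shift 1 5), (rhf60aa8aede119d3b.shift 1 5)] (by decide +kernel))
noncomputable def rhd1bcaee6c0519fdf : CRef := CRef.mk (Pat.mk 0xe00000000000000000000000000000000000000000 0x2000000070000003fe000007fe000003ff000007fe000001e0000003e0000003f0000003f0000001f000000040 11 11) 0 0 (step_sound _ 197 [(rh92c13d4776f7cb60.shift 3 1), rhb577ad6d8927fe7d, (rhf60aa8aede119d3b.shift 2 5)] (by decide +kernel))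
noncomputable def rhd145af5adb71b503 : CRef := CRef.mk (Pat.mk 0x7000000000000000000000000000000000 0xe0000001e0000007f8000001f7000000ff000001ff0000003c0000003800000008 11 11) 0 0 (step_sound _ 100 [(rh2820ca9a6c4f41b4.shift 1 3), rh6e1e4768f88a274e, (rhf0f55c4504412200.shift 1 3), (rhfba8a95c9d8d620d.shift 3 3), (rhfd85d249d51f3bd5.shift 0 1)] (by decide +kernel))
noncomputable def rh965c99ac6deeaab5 : CRef := CRef.mk (Pat.mk 0x3800000000000000000000000000000000 0x80000000e0000000e0000007f0000003e0000007e0000000e0000000e0000000a 11 7) 0 0 (step_sound _ 130 [(rh2381ca26b8b38d1e.shift 1 3), (rh607e230a2861588d.shift 0 3), (rhdbd5045cbb63f6fc.shift 1 0)] (by decide +kernel))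
noncomputable def rh70208026031aa0ca : CRef := CRef.mk (Pat.mk 0x380000000000000000000000000000000000000000 0x140000001c0000001c0000001c0000003c000000ff0000003f000000780000001f0000001c0000001c0000001c00000010 11 8) 0 0 (step_sound _ 195 [rh6678fb1fa504504f, rh8019f3b4979f31d0, (rhf60aa8aede119d3b.shift 0 5)] (by decide +kernel))
noncomputable def rhf87a8142fb99072a : CRef := CRef.mk (Pat.mk 0x70000000000000000000000000000000000000000000000000 0x20000000b8000007fe000001ff000003fe000000f8000003fe000000d8000000f8000000e8000000e000000080 11 11) 0 0 (step_sound _ 166 [(rh14cc813775df30ae.shift 1 0), (rhc21a95c499b3efdb.shift 3 5), (rhd9c4e3bdfb3ca11e.shift 0 3)] (by decide +kernel))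
noncomputable def rh78102ebafb9dc4a3 : CRef := CRef.mk (Pat.mk 0x3800000000000000000000000000000000 0x80000000e0000000e0000007e0000003e0000007f0000000e0000000e0000000a 11 7) 0 0 (step_sound _ 130 [(rh2381ca26b8b38d1e.shift 1 3), (rh9e97bba44c1b13e4.shift 0 3), (rhd8de2a25ad06e539.shift 1 0)] (by decide +kernel))
noncomputable def rhe32cc72917151d5b : CRef := CRef.mk (Pat.mk 0x700000000000000000000000000000000000000000 0x20000000e8000000f8000000fc0000007e000000fe000007f7000003f8000007f8000000e0000000a0 11 11) 0 0 (step_sound _ 134 [(rh621d5d105a890919.shift 3 0), (rh9909eeda0ef2ed2c.shift 3 4), (rhc90c12f03894860b.shift 0 2)] (by decide +kernel))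
noncomputable def rhe792d5a7cb392a54 : CRef := CRef.mk (Pat.mk 0x380000000000000000000000000000000000000000 0x140000001c0000001c0000001c0000003c000000ff0000003f0000007c0000001f0000001c0000001c0000001c00000010 11 8) 0 0 (step_sound _ 195 [(rh28cda12711cbd45b.shift 0 1), rh2a0e1f3e71815f0c, (rha9fbfd4bb8cf890b.shift 0 5)] (by decide +kernel))
noncomputable def rhc0b58603e907f667 : CRef := CRef.mk (Pat.mk 0x7000000000000000000000000000000000 0xf0000001f00000007f000000ff000003ee000001f8000000fc00000020 11 10) 0 0 (step_sound _ 164 [(rh33cdb77eb5a4bdfe.shift 1 3), rh6b39d73fbc5393c7, (rha7edc60fc34bffff.shift 2 4), (rha9fbfd4bb8cf890b.shift 1 4), (rhec212d6a98d7fa6b.shift 0 2), (rhf60aa8aede119d3b.shift 1 4)] (by decide +kernel))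
noncomputable def rh7935e7ce43c5cc20 : CRef := CRef.mk (Pat.mk 0x1c0000000000000000000000000000000000000000000000000 0x80000003d0000003f000000ff0000001ff000001fe00000fff00000fe0000007e0000003a00000038000000080 11 12) 0 0 (step_sound _ 169 [(rh57e7d2e24c98128a.shift 5 0), (rh6aa0ed61cce1493b.shift 5 5), (rh88c620441a3a17ea.shift 3 5), (rhbcbc4e0b5234994d.shift 0 2)] (by decide +kernel))
noncomputable def rh18f6581f9e0b38e2 : CRef := CRef.mk (Pat.mk 0x70000000000000000000000000 0x28000001ff000003fe000001fe0000007e000000f0000001fc000001fc00000038 11 10) 0 0 (step_sound _ 132 [rh8a2d3a174f92a142, (rhec212f8b7845da16.shift 2 0), (rhf60aa8aede119d3b.shift 1 3)] (by decide +kernel))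
noncomputable def rhe34009990cb0fe3f : CRef := CRef.mk (Pat.mk 0x68000000000000000000000000 0x140000007c0000007f000000ff000000fc0000007e0000007e0000003000000010 11 8) 0 0 (step_sound _ 100 [rh3f8e8a88b54bd904, (rh9e97bba44c1b13e4.shift 1 2), (rhcfaee032bd45abc2.shift 1 0)] (by decide +kernel))
noncomputable def rh87685f4f710fa4fd : CRef := CRef.mk (Pat.mk 0x3400000000000000000000000000000000 0xd0000000d0000007fc000003fc000003f70000017e0000003f000000fc000000fc00000028 11 11) 0 0 (step_sound _ 165 [(rh0109c1f5b269e043.shift 0 4), (rh2aa710c3bf6986b6.shift 1 0), (rh6b20c526ec8deffc.shift 0 3), (rh827d2e6532dd5b6d.shift 0 1), (rh9432ce08f088b50a.shift 1 1)] (by decide +kernel))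
noncomputable def rhf431e09f1b83b763 : CRef := CRef.mk (Pat.mk 0xd000000000000000000000000000000000 0xe0000001f0000001f0000007f7000001fe000000ff000003f0000001f0000001a0 11 11) 0 0 (step_sound _ 167 [(rh2247f959adb87b25.shift 3 0), (rh3ac195ac828bad98.shift 4 2), (rh6b20c526ec8deffc.shift 2 3), (rh841dc68f75491ef6.shift 3 1), (rhf74dad53096ddb9f.shift 2 1), (rhfc2ef1fd667c61e0.shift 0 3)] (by decide +kernel))
noncomputable def rh4669618a0830068f : CRef := CRef.mk (Pat.mk 0xd000000000000000000000000000000000 0xa0000000e0000007f8000003f8000007ff000001fe000000f7000000f8000000f800000028 11 11) 0 0 (step_sound _ 164 [(rh7382cbe3efc30823.shift 0 1), (rh8b5df671699ec40d.shift 0 3), (rhbbe4e99426d770c1.shift 3 4), (rhbf52d6de069e7d8a.shift 2 1), (rhe2bbde8475172b59.shift 3 0)] (by decide +kernel))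
noncomputable def rhf4f6e1701b9ee918 : CRef := CRef.mk (Pat.mk 0x1a00000000000000000000000000000000 0x40000000700000007000000770000003e00000007000000070000000700000005 11 7) 0 0 (step_sound _ 130 [(rh22b38309c56a80eb.shift 0 4), (rh6cc0f305be0098c0.shift 0 3), (rhaeebc73f5a9c796a.shift 0 3), rhdbd5045cbb63f6fc] (by decide +kernel))
noncomputable def rh08e6a937fa7b7142 : CRef := CRef.mk (Pat.mk 0x680000000000000000000000000000000000000000 0x30000000f8000003f8000001f7000000ff0000007f000001fc000000fe000000fc00000054 11 10) 0 0 (step_sound _ 131 [(rh0d188b366cd5e3df.shift 2 2), (rh322e0421ef56a63b.shift 2 4), rh3fe68e6192d873ce, (rh93fe994bec7c0892.shift 0 1), (rh97512bace34324cc.shift 0 1), (rhbd6c6b783a4cebba.shift 0 4), (rheb130ddb7a810a23.shift 0 4)] (by decide +kernel))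
noncomputable def rh620070185667a7de : CRef := CRef.mk (Pat.mk 0x1a0000000000000000000000000 0x400000006000000060000000ff000003fe000001ff000000e0000000c0 11 10) 0 0 (step_sound _ 102 [(rh04797e9e06425c4e.shift 2 2), (rh21460d2d48a35cb8.shift 4 1), (rh8c0834277eaf4035.shift 0 2), (rh9a61dc0f685e3a67.shift 2 2), (rhd52e3929053d9d5f.shift 4 2), (rhf5dca689f59de5bb.shift 3 0)] (by decide +kernel))
noncomputable def rhcea2a2b878cbb902 : CRef := CRef.mk (Pat.mk 0xd0000000000000000000000000000000000000000000000000 0x800000038000001f8000003f8000001ff000003fe000001df000000fe000003fe000003fc000001f8000000b800000038 11 10) 0 0 (step_sound _ 164 [(rh0b9c089e846c6d4a.shift 1 1), (rh147394684dd207d1.shift 0 1), (rh58cacedf5fd293ae.shift 1 0), (rh73416441bd9286c2.shift 1 1), (rh9545538496cfbe72.shift 2 1), (rh96624f3a3fc9f857.shift 3 1), (rh973b8a361e7f8310.shift 3 1), (rh9d8984f050d9682b.shift 2 1), (rhb9aa307afeeed9d7.shift 1 1), (rhcd8307c4962f2e38.shift 2 2), (rhefc3b1fff03c4e0b.shift 2 1), (rhf362f33f760e64e3.shift 1 0), (rhfd0d7b2488ceab15.shift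 2 1)] (by decide +kernel))
noncomputable def rhf64265543073c6e8 : CRef := CRef.mk (Pat.mk 0x200000003000000000000000000000000000000000 0xc0000000e0000001f0000001fc00000078000001fe000001fe000000ff0000006c 11 9) 0 0 (step_sound _ 100 [(rh3821736fb1a0ba11.shift 3 0), (rh4821dcf828b9d7bf.shift 4 1), rhb2d1f767866ee73c, (rhcf80391c5046a495.shift 4 1)] (by decide +kernel))
noncomputable def rh53c89fad7e8c8560 : CRef := CRef.mk (Pat.mk 0x200000003000000000000000000000000000000000 0xc0000000d0000003fc000003fe000001fe00000078000000fe0000003f0000003f0000000c 11 10) 0 0 (step_sound _ 100 [(rh743f354a2d3db657.shift 1 0), (rhcf80391c5046a495.shift 4 1), rhf67279d9891d3593, (rhf9366b6a121593ef.shift 4 1)] (by decide +kernel))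
noncomputable def rhfb6a8e068c130556 : CRef := CRef.mk (Pat.mk 0x200000003000000000000000000000000000000000 0x380000003e000000fc00000078000001ff000000ff000003fc0000007c 11 10) 0 0 (step_sound _ 100 [(rh19e7443885bf6cff.shift 1 0), (rh4821dcf828b9d7bf.shift 4 1), rhb4176456bf39f913] (by decide +kernel))
noncomputable def rh81427a10d3876eba : CRef := CRef.mk (Pat.mk 0x400000006000000000000000000000000000000000 0x180000001b0000007f0000007f8000007e0000002f0000003fe000001fe000001ff00000040 11 11) 0 0 (step_sound _ 101 [(rh4821dcf828b9d7bf.shift 5 1), (rhadf429772c25fde0.shift 5 1), (rhdd6b222d1170a2c3.shift 3 0), rhe8e2a99b9ee93faf] (by decide +kernel))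
noncomputable def rh5d9b59e39282ec57 : CRef := CRef.mk (Pat.mk 0x100000001800000000000000000000000000000000 0x6000000060000001fc000001fe000001ff000000bc0000001f0000003c0000001c00000010 11 9) 0 0 (step_sound _ 99 [(rh04d954122c5f2b71.shift 1 0), (rh3c4cdd310d56081a.shift 0 1), (rhadf429772c25fde0.shift 3 1)] (by decide +kernel))
noncomputable def rhb27526ee831ec597 : CRef := CRef.mk (Pat.mk 0x1000000018000000000000000000000000 0x20000001ff000000fe000001fe000000fe0000003c000000f80000002800000008 11 9) 0 0 (step_sound _ 164 [(rh97c1e083fcf24f51.shift 1 0), (rhf8a649a95825b74d.shift 0 2), (rhfafeb437ceb8396d.shift 3 0)] (by decide +kernel))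
noncomputable def rh5425bc2eb8256128 : CRef := CRef.mk (Pat.mk 0x200000003000000000000000000000000000000000 0x680000006c0000007c00000078000001ff000000ff000003fc0000007c 11 10) 0 0 (step_sound _ 100 [(rh48409912adc297c5.shift 3 0), rhb4176456bf39f913, (rhf9366b6a121593ef.shift 4 1)] (by decide +kernel))
noncomputable def rha7bdc1b118b46b48 : CRef := CRef.mk (Pat.mk 0x100000001800000000000000000000000000000000 0x40000000400000006c000000ec000000fe000000ff0000003c000000ff0000007f0000003c00000004 11 8) 0 0 (step_sound _ 165 [(rh3a020e182dfd1d54.shift 2 4), (rh4057d3d7c5d068be.shift 2 1), (rh73efa41b81c90632.shift 0 2), (rhcde230e1fccc7ea0.shift 2 2), rhed35b347661c6a28] (by decide +kernel))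
noncomputable def rh338e1c953566f2ed : CRef := CRef.mk (Pat.mk 0x200000003000000000000000000000000000000000 0x78000000fc0000003c00000078000001ff000000ff000003fc0000007c 11 10) 0 0 (step_sound _ 100 [(rh7b789dda8b5ee1bc.shift 2 2), rhb4176456bf39f913, (rhf9366b6a121593ef.shift 4 1)] (by decide +kernel))
noncomputable def rhce2b501b94be29cc : CRef := CRef.mk (Pat.mk 0x100000001800000000000000000000000000000000 0x7e000000ff000001fe000001ff0000003c0000006f0000007c0000007c00000004 11 9) 0 0 (step_sound _ 165 [(rh37c13bee3dd7ef88.shift 2 1), (rh3a020e182dfd1d54.shift 2 4), (rh70145dea883e8db1.shift 0 3), (rhc8b58f16612dae91.shift 0 1), rhe883effdbefb21b8] (by decide +kernel))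
noncomputable def rh833029a20bb96124 : CRef := CRef.mk (Pat.mk 0x4000000060000000000000000000000000 0x28000000e8000007ff000007ff000003df000000f0000003fc000003f8000000a0 11 11) 0 0 (step_sound _ 166 [(rh23aad281f166fc15.shift 4 2), (rh5948655ba78de16c.shift 5 2), (rh73631e81a785fc4e.shift 4 0), (rhbf000823819f4c0d.shift 5 1), rhc79b33b208d02c9c] (by decide +kernel))
noncomputable def rh49f328aed21ab4a0 : CRef := CRef.mk (Pat.mk 0x1000000018000000000000000000000000 0x1fe000001fe000001fe000000ff0000003c000000f00000007000000060 11 9) 0 0 (step_sound _ 133 [(rh232c979fdf7760bf.shift 0 1), (rh3a020e182dfd1d54.shift 2 3), (rh73efa41b81c90632.shift 0 1), (rhcde230e1fccc7ea0.shift 2 1), (rhd7915c8f2ebdd6c4.shift 2 0)] (by decide +kernel))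
noncomputable def rh62c735eb884c4736 : CRef := CRef.mk (Pat.mk 0x1000000018000000000000000000000000 0x6c0000007c000001ef000000ff0000003c000000ff0000007f0000007c 11 9) 0 0 (step_sound _ 133 [(rh3a020e182dfd1d54.shift 2 3), (rh73efa41b81c90632.shift 0 1), rha57380472ea168d2, (rhcde230e1fccc7ea0.shift 2 1), (rhd7915c8f2ebdd6c4.shift 2 0)] (by decide +kernel))
noncomputable def rh2d47863d4358202c : CRef := CRef.mk (Pat.mk 0x100000001800000000000000000000000000000000 0x20000000380000007c000001fe000001fe00000038000000ff000000fc0000003800000010 11 9) 0 0 (step_sound _ 196 [rh54ba327179455f38, (rh7a7e08304268422e.shift 3 3), (rh901c621ebf2e0816.shift 1 1), (rhbf000823819f4c0d.shift 3 2)] (by decide +kernel))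
noncomputable def rh621e56971425b351 : CRef := CRef.mk (Pat.mk 0x18000000080000000000000000 0x600000006c000001fc000001fe000001ff0000009f0000001f0000001c0000001c 11 9) 0 0 (step_sound _ 132 [(rh24accb33f265256b.shift 1 1), rh4b0d3e40217e1a27, (rhcf80391c5046a495.shift 3 0)] (by decide +kernel))
noncomputable def rh0dec5d75d883fe68 : CRef := CRef.mk (Pat.mk 0xc000000040000000000000000000000000 0x40000001c0000003d0000007ff000000fe000003ff000003fc000001fe000001b8 11 11) 0 0 (step_sound _ 167 [(rhbfaf450895ab52da.shift 4 0), (rhcf80391c5046a495.shift 6 1), rhef27528eb598d818, (rhf9366b6a121593ef.shift 6 1)] (by decide +kernel))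
noncomputable def rh97f18cfd39dbc2a0 : CRef := CRef.mk (Pat.mk 0x3000000010000000000000000000000000 0x68000000ee000000ff0000003e000000ff0000007f0000003c0000002c 11 8) 0 0 (step_sound _ 165 [(rh72714801bea570ce.shift 2 0), (rhcf80391c5046a495.shift 4 1), rhdec586a62631fa4f, (rhf9366b6a121593ef.shift 4 1)] (by decide +kernel))
noncomputable def rh4b68cffbabec9ffc : CRef := CRef.mk (Pat.mk 0x60000000200000000000000000000000000000000000000000 0x10000000300000007000000070000003ff000001fe000003fe000000700000007000000050 11 10) 0 0 (step_sound _ 133 [(rh274a837cd7eaa569.shift 4 1), (rha2d608bbf475f0c5.shift 4 0), (rhb83e0725bc3f173f.shift 0 3)] (by decide +kernel))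
noncomputable def rh016ba771f5dab73e : CRef := CRef.mk (Pat.mk 0xc000000040000000000000000000000000 0x60000001f0000007f8000007ff000000fe000003ff000003f8000003a000000020 11 11) 0 0 (step_sound _ 167 [(rh2e36ec97119778e7.shift 4 2), (rh3d09908a05430f28.shift 0 2), (rh56b5cc8a29e50472.shift 6 1), (rh812217fc0ccaafa7.shift 5 2), (rh879d8f1fd9f8914f.shift 2 0), (rh9cdee070315fb032.shift 6 2), (rhd19b641ebe6f21f7.shift 4 2)] (by decide +kernel))
noncomputable def rh6540b3a5ad7655e4 : CRef := CRef.mk (Pat.mk 0x600000002000000000000000000000000000000000 0x20000000f0000001fc000001f800000068000003fe000001fe000003ff0000005000000050 11 10) 0 0 (step_sound _ 198 [(rh5a9edc3126445053.shift 2 2), (rhadf429772c25fde0.shift 5 2), rhccc80dc74d9ac898, (rhf9366b6a121593ef.shift 5 2)] (by decide +kernel))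
noncomputable def rh027e74fce76c3337 : CRef := CRef.mk (Pat.mk 0x1800000008000000000000000000000000 0x3c0000003e000000f70000001f000000ff000000ff0000003f0000003e 11 8) 0 0 (step_sound _ 100 [rh51fad6a755964f8f, rh556fc65472c81028, (rh85c809e99bf74489.shift 1 0), rh899268a47e256ebd, rh8da4dc77e3d8b07e, rhcf6d76b59d05d021, rhf855b3ae577d5d8b] (by decide +kernel))
noncomputable def rh4416d51755f5722b : CRef := CRef.mk (Pat.mk 0x30000000100000000000000000000000000000000000000000 0x28000000380000007c0000001e0000003e000001ff000001fe0000003f000000380000003800000028 11 9) 0 0 (step_sound _ 228 [(rh08abff04cb81ee34.shift 1 4), (rh207343e4cb146ad9.shift 2 3), rh4f94ee801193443e, (rh536b459816461d68.shift 3 2), (rh579c29cf6b33cced.shift 2 2), (rh72fc81ee3037778f.shift 1 3), (rha2ef8676983a20af.shift 1 4), (rhafa6458974731b75.shift 1 4)] (by decide +kernel))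
noncomputable def rh96e091085553feaa : CRef := CRef.mk (Pat.mk 0x60000000200000000000000000000000000000000000000000 0x500000007000000074000003fc000001fe000003ff0000007e000003fc000003df000000fc000000fe0000001c00000014 11 10) 0 0 (step_sound _ 164 [(rh25fb31f1b530597d.shift 2 3), (rh2d13247fbe483506.shift 2 2), (rh56d642958c983090.shift 2 3), (rh8da2bae9524a5c62.shift 1 2), rhbcd9915f1eb2ec5f, rheb4e11f7bb7e050c, rhf715abcfe2f40554, (rhf7e9f7382d186f96.shift 2 2)] (by decide +kernel))
noncomputable def rh790d6e88fd9978be : CRef := CRef.mk (Pat.mk 0xc0000000400000000000000000 0xf0000001f8000003ff000000fe000003ff000001f0000000e0 11 10) 0 0 (step_sound _ 135 [(rh37305a32d35ea0c5.shift 3 0), (rh3d09908a05430f28.shift 0 1), (rhcf80391c5046a495.shift 6 0), (rhf9366b6a121593ef.shift 6 0)] (by decide +kernel))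
noncomputable def rh3fc4d691c7f780f8 : CRef := CRef.mk (Pat.mk 0xc000000080000000000000000000000000000000000000000 0x140000001e0000003e0000007b0000001f0000007f000000fc0000003c0000001c0000001c00000014 11 8) 0 0 (step_sound _ 164 [(rh07cd474e96003d82.shift 0 2), (rh3c3e23a02e82b2ed.shift 0 5), (rh5c5a2014709044d0.shift 0 5), (rhe961295699e2fb9d.shift 1 0)] (by decide +kernel))
noncomputable def rhf7ccdb323a5b503d : CRef := CRef.mk (Pat.mk 0xc00000008000000000000000000000000000000000 0x28000001f8000001f8000003be000001fe000007ff000000f8000000f80000007000000030 11 11) 0 0 (step_sound _ 165 [(rh421caebf3a3d1610.shift 4 0), (rh799bcd04cdf8ef40.shift 3 3), (rha6576687d4f6663f.shift 2 4), rhc0b2349921ba994f, (rhc59ba9a1f24cb412.shift 1 4)] (by decide +kernel))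
noncomputable def rh78ef3a26cc3ee3eb : CRef := CRef.mk (Pat.mk 0x300000002000000000000000000000000000000000 0x4800000068000001ef0000007e000001f6000001fc000000fc000000f000000020 11 9) 0 0 (step_sound _ 163 [(rh5adb673286625d17.shift 0 2), (rh772488fb4de55cc7.shift 2 0), (rh799bcd04cdf8ef40.shift 1 3), (rhabf429c344baf3e3.shift 1 2)] (by decide +kernel))
noncomputable def rhcbad459cd44ef9ca : CRef := CRef.mk (Pat.mk 0x300000002000000000000000000000000000000000 0x4000000060000001ef0000007e000001f8000001fc000000f8000000f800000020 11 9) 0 0 (step_sound _ 163 [(rh428561802c2dc291.shift 0 2), (rh6be64cec6097b8f7.shift 2 0), (rh8ee80cc30e93a344.shift 2 4), (rhabf429c344baf3e3.shift 1 2)] (by decide +kernel))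
noncomputable def rh8f4f299777fb3009 : CRef := CRef.mk (Pat.mk 0x30000000200000000000000000000000000000000000000000 0x5000000070000000fc000001ec0000007c000001ff000003ee000000fc000000fc0000007400000050 11 10) 0 0 (step_sound _ 166 [(rh0bc7c8527bd67b59.shift 2 2), (rh3c3e23a02e82b2ed.shift 2 5), (rhb0121edee88fe839.shift 2 5), (rhe961295699e2fb9d.shift 3 0), (rhf8b90f15af31e507.shift 0 1)] (by decide +kernel))
noncomputable def rhf32adc9b709cfffa : CRef := CRef.mk (Pat.mk 0x1800000010000000000000000000000000 0xa0000000e0000001e000000160000003e000000ff000001ff0000007e0000003e 11 9) 0 0 (step_sound _ 101 [(rh5c5a2014709044d0.shift 1 3), rhc5ad2b3c7699e852, (rhfda90eb4dc40424c.shift 2 0)] (by decide +kernel))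
noncomputable def rhefa9f2d205ac70da : CRef := CRef.mk (Pat.mk 0x30000000200000000000000000000000000000000000000000 0x60000000600000006f0000003e000001ff000001fe000001fe0000007e0000007000000070 11 9) 0 0 (step_sound _ 195 [(rh22fbe17a3fad413e.shift 0 1), (rh27f5baee0cb45bde.shift 1 0), (rhc92c11e8da6c894f.shift 0 5)] (by decide +kernel))
noncomputable def rh90198c82e0b6c8ff : CRef := CRef.mk (Pat.mk 0x180000001000000000000000000000000000000000 0x80000003c0000003e000000760000003e000000ff000000ee0000000e0000000e00000008 11 8) 0 0 (step_sound _ 133 [(rh4ecd949b2ed6f3f4.shift 1 0), (rh5c5a2014709044d0.shift 1 4), (rhc156fb3ec0abed94.shift 0 2), (rhdeca8db941583de2.shift 1 4)] (by decide +kernel))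
noncomputable def rh2516fa5a453f8ae7 : CRef := CRef.mk (Pat.mk 0x180000001000000000000000000000000000000000 0xa0000000e0000002e000000660000003e000000ff000000fe0000003e0000001e00000002 11 8) 0 0 (step_sound _ 133 [(rh3309835e9ba2302d.shift 0 1), (rh96a9f53cf0fe213a.shift 1 0), (rhdeca8db941583de2.shift 1 4), (rhfc37ecabf4856385.shift 1 2)] (by decide +kernel))
noncomputable def rh6c6215f6fff7e98c : CRef := CRef.mk (Pat.mk 0x30000000200000000000000000000000000000000000000000 0x6000000060000001ef0000007e000001ef000001fe000001fe000000fe0000007000000070 11 9) 0 0 (step_sound _ 195 [(rh5b5bb1e64c5dd1cf.shift 1 0), (rh8e75230445bea7c6.shift 0 5), (rh8f7af3f59561927a.shift 2 3), (rhc92c11e8da6c894f.shift 0 5), (rhe77cdbae63d92bd9.shift 1 5)] (by decide +kernel))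
noncomputable def rha90119aa494af396 : CRef := CRef.mk (Pat.mk 0x1800000010000000000000000000000000000000000000000000000000 0x380000003800000078000000f000000038000000fe000000fe000001ff0000007f000000380000003800000028 11 9) 0 0 (step_sound _ 164 [rh19458b9dfeac5756, (rh2666a6bfd5eea447.shift 1 2), (rh440235dc15c3e41f.shift 1 2), (rh536313be0f9243b5.shift 2 2), (rh9ed8b9db3373038f.shift 1 1), (rhb7781bd3a1a55432.shift 3 2), (rhbee938b83373a933.shift 2 4), (rhdd3ece72c295def4.shift 1 1), (rhec0bfd7246e9bce9.shift 2 0)] (by decide +kernel))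
noncomputable def rh64ebe0f6af509ae7 : CRef := CRef.mk (Pat.mk 0x300000002000000000000000000000000000000000 0x500000007c0000007c000001ee0000007e0000003f000001fe0000007c0000007400000010 11 9) 0 0 (step_sound _ 197 [(rh31e9de4098bfe0dc.shift 2 1), (rh34bf6fc4773ea961.shift 2 1), rh35ce2ee6a40adb70, rh5ab1f42b53110912, (rh7e62080924a3e033.shift 1 1), (rh943f3a1b92557ea6.shift 2 3), (rhba88bc9ff3a06280.shift 4 0)] (by decide +kernel))
end Crest.Agent.S0047.Helper85.Cert
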