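import Crest.Agent.Lib.S0047.Helper85CertPL10F0
import Crest.Agent.Lib.S0047.Helper85CertPL10F1
import Crest.Agent.Lib.S0047.Helper85CertPL10F2
import Crest.Agent.Lib.S0047.Helper85CertPL10F3
import Crest.Agent.Lib.S0047.Helper85CertPL10F4
set_option autoImplicit false
set_option linter.all false
set_option Elab.async false
namespace Crest.Agent.S0047.Helper85.Cert
open Crest.Agent.S0047.Helper85

noncomputable def rhd7ea485f0c0a9270 : CRef := CRef.mk (Pat.mk 0x18000000100000000000000000000000000000000000000000 0x380000003c000000f00000003e000000ff000000fe0000003e0000003c0000003800000028 11 8) 0 0 (step_sound _ 165 [(rhc156fb3ec0abed94.shift 0 3), (rhfc37ecabf4856385.shift 1 3), (rhfd534773e5ad9b1a.shift 1 0)] (by decide +kernel))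
noncomputable def rhe9ef35b89f255d35 : CRef := CRef.mk (Pat.mk 0xe000000000000000000000000000000000 0x28000000390000003b0000003be000001fe000003bf000001f8000001f8000000f0 11 10) 0 0 (step_sound _ 101 [(rh2820ca9a6c4f41b4.shift 2 3), rh6dabd8abdd19ebdc, (rh81395913110e99df.shift 4 0), (rhe8ce8258bd94c865.shift 3 1)] (by decide +kernel))
noncomputable def rhbc3373f580b004b5 : CRef := CRef.mk (Pat.mk 0x3800000000000000000000000000000000 0x100000001c0000001c0000001c0000001f0000007c0000006f0000003c0000001f0000001f 11 7) 0 0 (step_sound _ 99 [(rh2820ca9a6c4f41b4.shift 0 3), rh6a00b76bca4b342c, rhf6d721a6ab45faf2] (by decide +kernel))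
noncomputable def rh2468554103e63787 : CRef := CRef.mk (Pat.mk 0x7000000000000000000000000000000000 0x3c0000007c000000ff000000ff0000007f000000fa000003de000000380000003800000028 11 10) 0 0 (step_sound _ 164 [(rh59adab0d18867d05.shift 2 0), (rha746c5cea86d526f.shift 0 2), (rha7edc60fc34bffff.shift 2 4), (rha9fbfd4bb8cf890b.shift 1 4), (rhf60aa8aede119d3b.shift 1 4)] (by decide +kernel))
noncomputable def rh568ac6c5b21d0587 : CRef := CRef.mk (Pat.mk 0x3800000000000000000000000000000000 0x80000001e0000001e0000007e0000003e0000006f0000002e0000000e0000000a 11 7) 0 0 (step_sound _ 130 [(rh9e97bba44c1b13e4.shift 0 3), (rhdb416bc3effdda7a.shift 1 2), (rhdbd5045cbb63f6fc.shift 1 0)] (by decide +kernel))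
noncomputable def rhf5b01a6ea0b161b1 : CRef := CRef.mk (Pat.mk 0x3800000000000000000000000000000000 0x1c0000001c000000fc000001fe000000ff000001ff00000078000000ec000000fc000000fc000000b4 11 9) 0 0 (step_sound _ 163 [(rh46ccf2e1334ffb73.shift 2 0), rhb2bcbdad32c734dc, (rhb823cfa8570b2c3d.shift 2 0), (rhf60aa8aede119d3b.shift 0 4)] (by decide +kernel))
noncomputable def rha3b3786377c8e51a : CRef := CRef.mk (Pat.mk 0x380000000000000000000000000000000000000000 0xa0000000e0000000e000000ff0000007c000000ee0000000e0000000e0000000e00000008 11 8) 0 0 (step_sound _ 194 [(rh40811da85268475d.shift 0 5), (rh8c12fdbbddc1e7ab.shift 0 5), (rhbfcae866d090e2a5.shift 1 0)] (by decide +kernel))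
noncomputable def rh45df45ce524345f8 : CRef := CRef.mk (Pat.mk 0x700000000000000000000000000000000000000000 0x2800000038000000380000003c000001ff000001ff000001be000000fc000003f80000007c000000780000003800000020 11 10) 0 0 (step_sound _ 196 [(rh0095b02bbcc23d3c.shift 2 0), (rh5d54a69ee789ff61.shift 3 2), (rha7edc60fc34bffff.shift 2 5), rhd7ec17b343a67c82, (rhf60aa8aede119d3b.shift 1 5)] (by decide +kernel))
noncomputable def rh2dd9ae7666a1aabc : CRef := CRef.mk (Pat.mk 0x70000000000000000000000000000000000000000000000000 0x2000000038000001f8000001f8000001b0000000f8000003fe000000ff000001ff000000780000003800000008 11 10) 0 0 (step_sound _ 164 [(rh14cffe786069e5c6.shift 1 1), (rh2820ca9a6c4f41b4.shift 1 5), rhf35d3a28a4876b36] (by decide +kernel))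
noncomputable def rh96ef1285017c4e62 : CRef := CRef.mk (Pat.mk 0x70000000000000000000000000000000000000000000000000 0x28000000f8000000fc000000fc0000003f000000fe0000003e000000ff0000003e000000380000003800000008 11 8) 0 0 (step_sound _ 228 [rh06f95e67ce9ab22b, (rh07f1d6a092d6d279.shift 0 1), (rhf60aa8aede119d3b.shift 1 6)] (by decide +kernel))
noncomputable def rh715b94f76c901aaa : CRef := CRef.mk (Pat.mk 0x3800000000000000000000000000000000 0x80000000e0000000e0000000f0000003e0000007f0000000e0000000e0000000a 11 7) 0 0 (step_sound _ 130 [(rh0d378fd9e8917c5a.shift 0 3), (rh185f35b8bd8ec37f.shift 0 3), (rhdbd5045cbb63f6fc.shift 1 0)] (by decide +kernel))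
noncomputable def rh64c3bc580577621e : CRef := CRef.mk (Pat.mk 0x70000000000000000000000000000000000000000000000000 0x2800000038000000f8000000f80000003e000000f0000000fe000000ff000000ff000000780000003800000028 11 8) 0 0 (step_sound _ 164 [(rh6a00b76bca4b342c.shift 1 2), rh6b9be9a32206c6ca, (rhf0f55c4504412200.shift 1 5)] (by decide +kernel))
noncomputable def rhfcb3849472e5ed7e : CRef := CRef.mk (Pat.mk 0x380000000000000000000000000000000000000000 0x140000003c0000007c0000006f0000007c0000001f0000001c0000001c0000001c00000018 11 7) 0 0 (step_sound _ 131 [(rh2820ca9a6c4f41b4.shift 0 4), rh3a2e90c351993946, rh3de2f244ff20ad77, (rhf0f55c4504412200.shift 0 4)] (by decide +kernel))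
noncomputable def rhecfd4020d19e3d9c : CRef := CRef.mk (Pat.mk 0xe00000000000000000000000000000000000000000 0x2000000070000003fe000007fe000003ff000007fe000001f00000006000000070000000700000007000000040 11 11) 0 0 (step_sound _ 197 [rh6f5f97fd4eddd778, (rha7edc60fc34bffff.shift 3 5), (rhc383f466fe96410b.shift 2 1)] (by decide +kernel))
noncomputable def rhfe57d0cea7852c12 : CRef := CRef.mk (Pat.mk 0x7000000000000000000000000000000000 0x28000001ff000001fe000001fe0000003c000000f8000003bf000001fe000003ff00000018 11 10) 0 0 (step_sound _ 164 [(rh5a48210e1871f8ad.shift 0 1), (rha7edc60fc34bffff.shift 2 4), rhf148ed6271dacdd5] (by decide +kernel))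
noncomputable def rhd69bf733898bdb0d : CRef := CRef.mk (Pat.mk 0x70000000000000000000000000000000000000000000000000 0x2000000038000000780000007c000003f0000000f8000001be000001ff000001ff000000780000003800000028 11 10) 0 0 (step_sound _ 164 [(rh2820ca9a6c4f41b4.shift 1 5), rh41c76843b25d3406, (rh5558519368d34552.shift 1 0)] (by decide +kernel))
noncomputable def rhe95fbdcdfcde6a2c : CRef := CRef.mk (Pat.mk 0x3800000000000000000000000000000000 0x80000000e0000000e0000007f0000003e0000000f0000000e0000000e0000000a 11 7) 0 0 (step_sound _ 130 [(rh4c622fddc53a5f99.shift 0 4), (rh592c7139d2c44767.shift 0 3), (rh9e97bba44c1b13e4.shift 0 3), (rhdbd5045cbb63f6fc.shift 1 0)] (by decide +kernel))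
noncomputable def rhe082c3d02a6ea414 : CRef := CRef.mk (Pat.mk 0x380000000000000000000000000000000000000000 0x140000001c0000001c0000001c0000003c000000ff0000003f000000780000001f0000001c0000001c0000001c00000010 11 8) 0 0 (step_sound _ 195 [(rh1845c585cfd436be.shift 1 0), rh8019f3b4979f31d0, (rhf60aa8aede119d3b.shift 0 5)] (by decide +kernel))
noncomputable def rhf2ca52cf9af9e43f : CRef := CRef.mk (Pat.mk 0x70000000000000000000000000000000000000000000000000 0x280000003800000078000000f8000000fe000000f80000003e000000ff000000ff000000380000003800000008 11 8) 0 0 (step_sound _ 164 [rh000abc0a9515a16b, (rh2820ca9a6c4f41b4.shift 1 5), (rh89eca1c77199576e.shift 1 2)] (by decide +kernel))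
noncomputable def rhc70863e132dc4bb9 : CRef := CRef.mk (Pat.mk 0x100000000000000030000000000000000000000000000000000000000000000000 0x180000001c0000001c000003ff000003fe000007ff00000030000001fe000000fc0000007c000000780000007000000050 11 11) 0 0 (step_sound _ 165 [(rh0588d2c7f2cab5e9.shift 4 3), (rhb52141407a61c1d9.shift 1 0), (rhd26ea4ff9d1b8a86.shift 1 2), (rhd3fd80f9ed37d9c9.shift 0 5)] (by decide +kernel))
noncomputable def rhc2b73c2d2485cd8f : CRef := CRef.mk (Pat.mk 0x10000000000000003000000000000000000000000000000000 0x6000000068000001fe000001fe000000ff000001f700000076000007fe000003fc000007f000000070 11 11) 0 0 (step_sound _ 101 [(rh0588d2c7f2cab5e9.shift 4 1), (rh28afc5b167f84184.shift 4 1), (rhc66259cf5553012c.shift 2 0), (rhcf8912ed6eefabd3.shift 0 3), (rhd30b1952c8264c07.shift 1 1)] (by decide +kernel))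
noncomputable def rh8a4ca869acaea5ce : CRef := CRef.mk (Pat.mk 0x80000000000000018000000000000000000000000000000000000000000000000 0x1ef000001fe000003ff00000038000000fe000000fe0000003e0000003c0000003800000020 11 10) 0 0 (step_sound _ 164 [(rh0588d2c7f2cab5e9.shift 3 3), (rh824c5ab848df0bb2.shift 2 1), rh84c9461e0b3ad4b6, (rhd7c5baf3388ef193.shift 0 4)] (by decide +kernel))
noncomputable def rh7da765c758578b12 : CRef := CRef.mk (Pat.mk 0x10000000000000003000000000 0x380000007c000000fe000001ff000003fe000001ff000003fe0000007000000060 11 10) 0 0 (step_sound _ 132 [(rh144c1d456a7e800e.shift 3 0), (rh1d3d5ccf5bd9eaf1.shift 3 0), (rh22dac57de0258124.shift 1 1), (rh5a05262d244673f1.shift 1 0), rh9b693245fe57a75c, (rh9c8f00d278e046ae.shift 4 0), (rh9cd786fac175c56e.shift 3 0)] (by decide +kernel))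
noncomputable def rh042eac2bddfc857b : CRef := CRef.mk (Pat.mk 0x100000000000000030000000000000000000000000 0x280000003f000000fe000001ff0000001e000000700000003e0000003800000028 11 9) 0 0 (step_sound _ 132 [(rh14e0829dc73b6804.shift 3 2), (rh70e33bfdf511e144.shift 4 0), rh7e5246277077c6ce, (rhaf8c610e60e794be.shift 1 1)] (by decide +kernel))
noncomputable def rha3c5af2725a46208 : CRef := CRef.mk (Pat.mk 0x800000000000000180000000000000000000000000000000000000000 0x2000000030000000340000003c000000ff00000038000000ff000000ff000000fe0000007e00000028 11 8) 0 0 (step_sound _ 132 [(rh03c266e186afa8a3.shift 3 0), (rh11ee021565702802.shift 2 0), (rh2008205575a72932.shift 0 2), rh9ef567fc40ec8858, (rha44f1184209c99a8.shift 2 0), (rha4c8e9cf94957b16.shift 2 0), (rhb9aaea6bb592eeb0.shift 1 0), (rhe06f104444bfdc0c.shift 0 1), (rhec1c8836866ae057.shift 0 1)] (by decide +kernel))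
noncomputable def rh463c9f6e349da82d : CRef := CRef.mk (Pat.mk 0x20000000000000006000000000000000000000000000000000 0x1f0000001f800000ffc000007ff00000ffe000007fe000000e8000000b0000000700000007000000040 11 12) 0 0 (step_sound _ 230 [(rh19c0a905a90fcf38.shift 2 0), (rh2aaa1bfe613db9a2.shift 0 3), (rh2cbae32b7fb91da2.shift 1 4), (rh3559b36c6af033f9.shift 0 3), (rh8e1e0544940f5da0.shift 1 3), (rha069b61ddc8583fa.shift 2 1), (rhacea22585f8cfed5.shift 2 3), (rhc35087c9a8b55a47.shift 1 3), (rhc58125ffe2e5a06a.shift 4 0)] (by decide +kernel))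
noncomputable def rh71ec34af31f81e22 : CRef := CRef.mk (Pat.mk 0x200000000000000060000000000000000000000000 0x1ec000001fc000001fc00000fff000007ff00000fdf000000ec000003fc000003f4000000a0 11 12) 0 0 (step_sound _ 166 [(rh08a6f5ab2795622c.shift 3 0), (rh2911459e9b9c63cc.shift 5 0), (rh4d05e269e4380b7c.shift 1 0), (rh75102959b6ac6c9c.shift 0 2), (rh7924449eb5b66482.shift 1 2), (rh9514aabc59d2ddb9.shift 1 2), (rh96af8e11ba301808.shift 3 1), (rhe35f62c8f2e7d1bb.shift 1 0)] (by decide +kernel))
noncomputable def rh3fd0fba9ec8f72a8 : CRef := CRef.mk (Pat.mk 0x80000000000000018000000000000000000000000000000000000000000000000 0x3800000078000000fe00000038000000ff0000007e0000003e0000003c0000003800000020 11 8) 0 0 (step_sound _ 164 [(rh0588d2c7f2cab5e9.shift 3 3), (rh24726dd0acd20fd0.shift 0 4), (rh28afc5b167f84184.shift 3 3), (rh7e91f009aaf3fc18.shift 1 0), (rha44f1184209c99a8.shift 2 1)] (by decide +kernel))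
noncomputable def rh240dfff6671fd7ea : CRef := CRef.mk (Pat.mk 0x380000000000000000000000000000000000000000 0x540000007c0000007c000000ef0000007e000001ff000000fe000000fc0000007c00000014 11 9) 0 0 (step_sound _ 131 [(rh2820ca9a6c4f41b4.shift 0 4), (rhf0f55c4504412200.shift 0 4), (rhf197f7a50f780a27.shift 0 2), rhf63213335d542f0f] (by decide +kernel))
noncomputable def rh35dae485a6240c98 : CRef := CRef.mk (Pat.mk 0x3800000000000000000000000000000000 0x180000003c0000007f000000ff0000007e000001ef0000007c0000003f0000001f 11 9) 0 0 (step_sound _ 99 [(rh2820ca9a6c4f41b4.shift 0 3), (rh65e1d04421c2a490.shift 1 1), rh742aee2fa6b08fb2, (rh987de4859019ea93.shift 2 2), rhf6d721a6ab45faf2] (by decide +kernel))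
noncomputable def rh50225a4be6a0fc9f : CRef := CRef.mk (Pat.mk 0xe000000000000000000000000000000000 0x200000003e0000003f0000003df000001fe000003ff000007f0000003f0000003f0 11 11) 0 0 (step_sound _ 102 [(rh1307d5977eb60a6b.shift 3 0), (rh33a3d27a313cb95d.shift 3 0), (rh4e947f9db2f9fcc4.shift 3 0), (rh58f8b604a13370a2.shift 0 1), rh66ec1a7cf0e6c629, (rhea09e8ca18ba811d.shift 0 1), (rhf5cabba8a8afdc0a.shift 3 0)] (by decide +kernel))
noncomputable def rha30197b66dcf6ae0 : CRef := CRef.mk (Pat.mk 0x20000000200000000000000000000000000000000000000000000000000000000000000000 0x5000000070000000f0000003f0000003fc000001ff000003fe000007fe000003fc000007fc000003fc000007e8000000e0000000e000000020 11 11) 0 0 (step_sound _ 198 [(rh13a27780dd8e0de1.shift 0 3), (rh2f6bbf726c7ed365.shift 0 3), (rh5ffdd9d93158bdb9.shift 4 4), (rh8632d229342d1f2b.shift 1 0), (rhbfd57b1ff3791843.shift 2 5), (rhca31953a2ca48d85.shift 0 3), (rhf4b4d3bdbc63dce7.shift 1 5)] (by decide +kernel))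
noncomputable def rhe2e84d2a91057183 : CRef := CRef.mk (Pat.mk 0x20000000200000000000000000000000000000000000000000000000000000000000000000 0x50000000700000007c000001fe0000017c000001ff000003fe000007fe000007fc000007fc000003fc000007e8000000e0000000e000000020 11 11) 0 0 (step_sound _ 198 [(rh3177b64d8a54ebc5.shift 1 5), (rh3385c146955f9d71.shift 1 3), (rh3987cce04035db56.shift 2 0), (rh5ffdd9d93158bdb9.shift 4 4), (rh6258ef385f74edd2.shift 0 5), (rh7991a08c6941ec65.shift 1 5), (rhbec95f05617ba657.shift 1 0), (rhc87f0b49808a2f49.shift 1 5), (rhca31953a2ca48d85.shift 0 3)] (by decide +kernel))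
noncomputable def rh6977569ede239049 : CRef := CRef.mk (Pat.mk 0x20000000200000000000000000000000000000000000000000 0xa0000003f0000003f8000007fe000007fc000007f7000001fe000007fe000003fe000003fe000000fe000000f000000010 11 11) 0 0 (step_sound _ 262 [(rh1c00f5979b1cab18.shift 2 1), (rh1dbc0c3c00fe8165.shift 1 0), (rh3ffeb67c5c71b0fe.shift 5 3), (rh4de50124d0eced12.shift 2 1), (rh4fafdf3131725c6e.shift 0 2), (rh76bb498ce350927e.shift 1 5), (rh771b28872d059d26.shift 1 1), (rh77317c1547ac9078.shift 1 1), (rh9988da67207d00e9.shift 2 3)] (by decide +kernel))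
noncomputable def rh0e161a6b6e13c985 : CRef := CRef.mk (Pat.mk 0x20000000200000000000000000000000000000000000000000000000000000000000000000 0x500000007000000070000001f0000003fc000003f8000001ff000003fe000007fe000003fc000007fc000003fc000007e8000000e0000000e000000020 11 11) 0 0 (step_sound _ 198 [(rh5ffdd9d93158bdb9.shift 4 4), (rh6e30e5d7656d5c57.shift 0 3), (rh83b2042aaed44dad.shift 2 5), (rh8632d229342d1f2b.shift 1 0), (rhca31953a2ca48d85.shift 0 3), (rhd44dd051ab0fbf98.shift 2 5), (rhfb7066b1f95ea527.shift 2 4)] (by decide +kernel))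
noncomputable def rh9ac9150d57f6d929 : CRef := CRef.mk (Pat.mk 0x4000000040000000000000000000000000000000000000000000000000 0xa0000000e0000003f0000003fc000003fc000003ff000003ff000000ff000003fe000007fe000001fc0000007e00000058 11 11) 0 0 (step_sound _ 133 [(rh061b2d3d6bcbbed4.shift 5 3), (rh1187222a685a80ea.shift 3 2), (rh14106c547cda1f08.shift 3 3), rh1fcc702045ad0007, rh3559ac865bf9dfd2, (rh507d98c7d69f3dda.shift 2 3), (rh6655dfd16e3d94da.shift 4 2), (rha2782b77f35287ac.shift 1 0), (rhc68389b2721f6f5a.shift 0 1), (rhdda64c4339b330e8.shift 4 3)] (by decide +kernel))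
noncomputable def rh9e9c531194a2e2fc : CRef := CRef.mk (Pat.mk 0x20000000200000000000000000000000000000000000000000 0x7000000070000003f8000003fe000001f8000003fc000001f7000001fe000003fe0000007000000070 11 10) 0 0 (step_sound _ 133 [(rh15783940259c8be3.shift 2 0), (rh22ca6d02314c3d83.shift 1 2), (rh5bcb43d44e34382c.shift 4 1), (rh60f99d686e877103.shift 0 1), (rhc114b4fb18a6e29f.shift 3 3), (rhc51d4bd657668b2d.shift 3 0), (rhc598ade8f3b6b7a0.shift 4 1), (rhf45eff413ccd9376.shift 4 1)] (by decide +kernel))
noncomputable def rhafad59a3c159c4cb : CRef := CRef.mk (Pat.mk 0x4000000040000000000000000000000000000000000000000000000000 0x80000000e0000003f0000003fc000003f8000003fe000007fc000007f7000003fe000007fe000003fc000001fe00000150 11 11) 0 0 (step_sound _ 133 [(rh061b2d3d6bcbbed4.shift 5 3), (rh24b1dbf21ed6a2ea.shift 3 4), (rh2b4d882b5557df61.shift 2 3), rh5134c76dca6183fe, (rhab48348ca7fc1b4a.shift 3 3), (rhc3573f9c61e45dcb.shift 5 2), (rhef9b9254f6a61e3b.shift 1 3)] (by decide +kernel))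
noncomputable def rh04db4602c70341fe : CRef := CRef.mk (Pat.mk 0x20000000200000000000000000000000000000000000000000 0x5000000078000003fe000001fc000001fe000000fe000003ff000003fe000003fe0000007800000058 11 10) 0 0 (step_sound _ 133 [(rh1bbc0f3e0d5c33fd.shift 0 1), (rh1d06746e031f426a.shift 1 1), (rh423f2e421a8a535a.shift 1 1), (rh4db8c16c5868ab18.shift 2 0), (rh5bcb43d44e34382c.shift 4 1), (rh676d7705e0a25117.shift 2 3), (rhb150d29db1d46f49.shift 2 1), (rhca39eb3ad325f3be.shift 1 0), (rhf43082a93f969999.shift 1 3), (rhf45eff413ccd9376.shift 4 1)] (by decide +kernel))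
noncomputable def rh4d8bde4f2f12a445 : CRef := CRef.mk (Pat.mk 0x4000000040000000000000000000000000000000000000000000000000 0x6000000070000007fc000007fc000003ff00000fff000007fe000007ff000003fe000002fe0000006a00000040 11 12) 0 0 (step_sound _ 165 [(rh0537a84b74c2e55e.shift 2 2), (rh09aaf063d3c5ad12.shift 3 2), (rh0c4a0613805c431c.shift 2 3), (rh27cb9da9632fb4ff.shift 1 2), (rh311b71ca2e135817.shift 2 2), rh447916afd61631f3, (rh4a385da85d1575f0.shift 2 2), (rh5dbac1711410febe.shift 0 3), (rh8506f305adf93bf0.shift 2 2), (rhb3b24b29137af70a.shift 2 2), (rhb8137687a51e06f8.shift 2 3), (rhca83dde831959f9e.shift 3 3), (rhe6b9520e8e298f28.shift 2 2)] (by decide +kernel))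
noncomputable def rh74ea4b1dcf8afd2c : CRef := CRef.mk (Pat.mk 0x2000000020000000000000000000000000000000000000000000000000 0x140000003e800000fee000007fc00000ffe000001ff000007ff000003fe000003fe000001fe000000f00000007000000040 11 12) 0 0 (step_sound _ 294 [(rh3d9557b255584491.shift 1 1), (rh4e927a0ff568a309.shift 1 2), (rh63177d45b74b7d0d.shift 2 2), (rh685a0a5800ef2c7f.shift 2 2), (rh990e474255e56b5c.shift 0 3), (rh9988da67207d00e9.shift 2 4), (rhaab26449db5e3c90.shift 1 5), rhe1b60d0a7f8f8464, (rhecae8c2b1e393fb1.shift 5 4)] (by decide +kernel))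
noncomputable def rh4169663dd60059c3 : CRef := CRef.mk (Pat.mk 0x10000000100000000000000000000000000000000000000000000000000000000000000000 0x28000000380000003c0000007f000001ff000001ff000000fc000001ff000003ff000003fe000003fe000001fe000003f4000000700000007000000010 11 10) 0 0 (step_sound _ 197 [(rh3480ed7049995bb9.shift 1 5), (rh3987cce04035db56.shift 1 0), (rh5ffdd9d93158bdb9.shift 3 4), (rh72dc822b47e8e562.shift 1 5), (rh83b2042aaed44dad.shift 1 5), (rh8fd49bd086fa2b2c.shift 0 3), rh9f8c5d391bf28215, (rha3e03853bc61fe1e.shift 0 4), rhbec95f05617ba657, (rhd221b5d884d57877.shift 0 5)] (by decide +kernel))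
noncomputable def rh79c943427cc0ed6c : CRef := CRef.mk (Pat.mk 0x10000000100000000000000000000000000000000000000000 0x3800000038000003fc000001ff000003fe000000ff000000fc000003fe0000003e000000380000003800000008 11 10) 0 0 (step_sound _ 228 [(rh0ab100d90ace68fb.shift 2 3), (rh0dced36299326f9f.shift 2 2), (rh0fe1d312a32324ef.shift 2 2), (rh2ee64fd5895c5733.shift 1 3), (rh82234ba7f30a9e55.shift 3 2), (rh83c2ba9a3cf362d1.shift 1 4), rh9b67371d85151eb0, (rha3916a34127b13d4.shift 1 2), (rhe3e2df59e8ffb6ee.shift 0 3), (rhf38d8e5734bdac9b.shift 1 1), (rhffc973f651ea080b.shift 1 1)] (by decide +kernel))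
noncomputable def rhb20b4b38d74ae58e : CRef := CRef.mk (Pat.mk 0x4000000040000000000000000000000000000000000000000000000000 0xa0000000e0000003f8000003fc000003fc000003ff000007ff000007ff000003fe0000077e000001780000007000000050 11 11) 0 0 (step_sound _ 133 [(rh053eb945b43e1f94.shift 4 3), (rh061b2d3d6bcbbed4.shift 5 3), rh141e02ee5c699ab1, (rh20022dd1060e472a.shift 0 1), (rh5911d205ca913906.shift 1 2), (rh6655dfd16e3d94da.shift 4 2), (rh736cac7096fb1655.shift 3 4), (rh8d771c825856927e.shift 2 2), (rhb1f32ebee14af9ac.shift 0 1)] (by decide +kernel))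
noncomputable def rh815cf362f594f922 : CRef := CRef.mk (Pat.mk 0x200000002000000000000000000000000000000000 0xe0000003f0000003f0000007fc000003ff000007fe000001ff000007fe000003fc000003fe000001c800000080 11 11) 0 0 (step_sound _ 230 [(rh313572c4fe1120e1.shift 1 3), (rh47df9a1c8cebdf08.shift 1 3), (rh67f4b9da8d9e5aa4.shift 1 0), (rh786c43b2d579623a.shift 2 1), (rh8a1f2fc198a4027f.shift 0 1), (rh904e353c94d1ba84.shift 2 1), (rh9988da67207d00e9.shift 2 2), (rhf27f367f24051651.shift 0 2)] (by decide +kernel))
noncomputable def rhc709f500cd7274a3 : CRef := CRef.mk (Pat.mk 0x40000000400000000000000000000000000000000000000000 0x500000007e000000fc000007fe000007fe00000fff000000fe000007ff000003fc000007fc000000f8000000e000000040 11 12) 0 0 (step_sound _ 261 [(rh21f2eee37e5e499a.shift 4 3), (rh3b377d84a58a3ba4.shift 1 2), (rh81823458f22695be.shift 1 5), (rh876ba6331cb35b48.shift 1 2), (rh962b1345f607d45e.shift 2 3), (rh9b2a622728e21b3f.shift 0 2), (rhb6617c0aa1242936.shift 3 0)] (by decide +kernel))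
noncomputable def rh1b29bc4679f8afd6 : CRef := CRef.mk (Pat.mk 0x10000000100000000000000000000000000000000000000000 0x180000003c000001fe000001ff000000fe000003bf000001ff000003ff0000007f0000003c0000003c 11 10) 0 0 (step_sound _ 132 [(rh15783940259c8be3.shift 1 0), (rh260aca16c82f633d.shift 0 3), (rh3a7a0ade62172996.shift 0 2), (rh56d088cf4ead674c.shift 1 2), (rh571ede69b24d62c6.shift 0 1), (rhb150d29db1d46f49.shift 1 1), (rhc51d4bd657668b2d.shift 2 0), rhca39eb3ad325f3be, (rhf45eff413ccd9376.shift 3 1)] (by decide +kernel))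
noncomputable def rh290c8c5d5fe1acba : CRef := CRef.mk (Pat.mk 0x40000000400000000000000000000000000000000000000000 0x60000000e0000000f0000000f80000007e000007ff000003ff000007ff000003fc000007fc000001f8000000e000000020 11 11) 0 0 (step_sound _ 261 [(rh21f2eee37e5e499a.shift 4 3), (rh48ffdabe102470ad.shift 1 1), (rh51c902d2204c16e5.shift 4 3), (rh6c1e5ea782e1ad99.shift 1 2), (rh78836ac6262af889.shift 0 2), (rh972494ac8b12a612.shift 3 1), (rh9765f3bbeb172019.shift 3 0), (rhc00484ed03960e38.shift 1 0)] (by decide +kernel))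
noncomputable def rhccb6420708321048 : CRef := CRef.mk (Pat.mk 0x2000000020000000000000000000000000000000000000000000000000 0x4000000170000003f0000007f0000003ec000007fe000001ff000007ff000003fe000003fe000001fe000000f00000007000000040 11 11) 0 0 (step_sound _ 294 [(rh12cd4aa0f0a063da.shift 0 3), (rh36defeb5f992b950.shift 1 1), (rh3ffeb67c5c71b0fe.shift 5 4), (rh4469e8dec1665b41.shift 1 3), (rh4f4c5945dfd675d5.shift 1 1), (rh9988da67207d00e9.shift 2 4), (rhb6c1cf4cd41e32b7.shift 2 3), (rhd4ae6de4e71711ef.shift 2 3), rhe1b60d0a7f8f8464] (by decide +kernel))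
noncomputable def rh5c78369c8a02a9c2 : CRef := CRef.mk (Pat.mk 0x2000000020000000000000000000000000000000000000000000000000 0x500000007000000070000001f0000003fe000001fe000001f7000003fe000007fe000007fc000007fc000003f8000007e0000000a0 11 11) 0 0 (step_sound _ 134 [(rh3ef998049842d433.shift 0 2), (rh489c6c0b342fd9c9.shift 2 0), rh5ecb2aa249fdded9, (rh5ffdd9d93158bdb9.shift 4 2), (rh6a1b4c803ad941f3.shift 2 0), (rh72dc822b47e8e562.shift 2 3), (rh83b2042aaed44dad.shift 2 3), (rhadfa78645aeab515.shift 2 3), (rhae664b585a9efae4.shift 0 1), (rhd716ac259e083026.shift 0 3)] (by decide +kernel))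
noncomputable def rh58f9291547c52065 : CRef := CRef.mk (Pat.mk 0x20000000200000000000000000000000000000000000000000 0x40000000f8000007f8000003ff000007fe000001ff000001f7000003fe000001fe000000700000007000000050 11 11) 0 0 (step_sound _ 229 [(rh04bcfe49ccf7aee9.shift 1 3), (rh04e212588941f96e.shift 2 0), (rh0808223a156223a5.shift 2 0), (rh0ab100d90ace68fb.shift 3 3), (rh0dced36299326f9f.shift 3 2), (rh2020246768c20ae0.shift 0 4), (rh2ee64fd5895c5733.shift 2 3), (rh82234ba7f30a9e55.shift 4 2), rhca2e05aa884ace9f, (rhfb152e72509985a0.shift 4 3)] (by decide +kernel))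
noncomputable def rh87633187a5ea0970 : CRef := CRef.mk (Pat.mk 0x40000000400000000000000000000000000000000000000000 0xa0000001e0000001f0000003f8000007fe000003fc000007ff000007ff0000077f000000f8000000f0000000e0 11 11) 0 0 (step_sound _ 134 [(rh07ae3ba596ae9c64.shift 0 1), (rh498e1a3348ea29ca.shift 0 1), (rh4db8c16c5868ab18.shift 3 0), (rh56d088cf4ead674c.shift 3 2), (rh63a7df5ef502cb27.shift 0 1), (rh8a083d5d85248312.shift 1 2), (rhb36e22adbb72202e.shift 3 2), (rhc51d4bd657668b2d.shift 4 0), (rhe0e8177171b4d0e4.shift 3 1), (rhf70d323607b3bd82.shift 3 1)] (by decide +kernel))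
noncomputable def rhc0c395e2db9b3023 : CRef := CRef.mk (Pat.mk 0x8000000080000000000000000000000000000000000000000000000000 0xfd000000ff000001ff800001ffe000007fe00001ffe00001fff00000fb8000003f0000001f0000001c000000100 11 13) 0 0 (step_sound _ 197 [(rh2a834fccc6aafbdb.shift 4 1), (rh4886718fdb011abe.shift 1 0), (rh5f9debad0bfbc150.shift 3 3), (rh6aa926cac47db966.shift 4 1), (rh7db6accd0f5b0026.shift 4 2), (rh9b05663645ed7068.shift 4 2), (rhb901284aa2121ec3.shift 4 2), (rhbd541d61b16ce77f.shift 0 2), (rhd345028707b33bf9.shift 2 2), (rhd656019777d17a17.shift 1 3), (rhea3917785ecafd7d.shift 4 4), (rhf046a4aedc1f07a7.shift 1 2), (rhf5152bee26033da4.shift 3 1)] (by decide +kernel))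
noncomputable def rh8a7c375d4e579649 : CRef := CRef.mk (Pat.mk 0x4000000040000000000000000000000000000000000000000000000000 0x80000000e0000000e8000000f8000003fe0000077c000003ff00000fff00000fff000007fe000007fc000001e0000000e000000080 11 12) 0 0 (step_sound _ 196 [(rh19113895e9d3af05.shift 0 2), (rh1b860bd76daa59eb.shift 0 3), (rh322822905393f76b.shift 3 2), (rh76887b6943dafd52.shift 0 3), (rh7c023bd64f6e96dd.shift 1 0), (rh7e2a57d20ab1034e.shift 2 2), (rh8ddbf560c12f1191.shift 2 2), (rha2fec7f4229a842d.shift 2 1), (rha763c69da024b798.shift 3 3), (rhb0035408c0a5355c.shift 0 3), (rhba94ba0f7e25ee96.shift 1 3), (rhea3917785ecafd7d.shift 3 4), (rhf88e76e9292325c1.shift 0 1), (rhfc04dc02be3adde2.shift 0 1)] (by decide +kernel))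
noncomputable def rh06c1856964a506a8 : CRef := CRef.mk (Pat.mk 0x2000000020000000000000000000000000000000000000000000000000 0x140000003d4000003fe000003fc00000fee000001ff000007ff000003ff000003fe000001fe000000780000007000000040 11 12) 0 0 (step_sound _ 294 [(rh0e10fcd89e87bd36.shift 0 1), (rh2d1dfc8d232d3731.shift 4 3), (rh3ffeb67c5c71b0fe.shift 5 4), (rh4cac17da26a5a718.shift 0 2), (rh9988da67207d00e9.shift 2 4), (rha46ed681a25c5f85.shift 2 3), (rhe052d85784cc86f0.shift 0 3), rhe1b60d0a7f8f8464, (rhfbcff379bce9a10b.shift 0 3)] (by decide +kernel))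
noncomputable def rh56e4df4960599e84 : CRef := CRef.mk (Pat.mk 0x20000000200000000000000000000000000000000000000000 0x50000000780000007c000003ff000001fe000003ff000003bf000001ff000003fe0000007000000050 11 10) 0 0 (step_sound _ 133 [(rh007ddefb9d2ff593.shift 2 3), (rh1f89fe1fa0396ef4.shift 4 1), (rh3e433c05b121ec8e.shift 3 1), (rh5e67b3380e93eb9f.shift 0 1), (rh6a2504d32debcd6c.shift 2 1), rh8e042e49ca5cb959, (rha7f6f3431996be7d.shift 4 1), (rhb150d29db1d46f49.shift 2 1), (rhb940f46bda8127fb.shift 2 1)] (by decide +kernel))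
noncomputable def rhb43ee9875b9b545d : CRef := CRef.mk (Pat.mk 0x2000000020000000000000000000000000000000000000000000000000 0x500000007000000078000001fe000003fe000001ff000001ff000003fe000007ee000003fc000007fc000003f0000007e0000000a0 11 11) 0 0 (step_sound _ 134 [(rh26a56fca6c6ba911.shift 1 2), (rh3cce190760233698.shift 0 4), (rh5ffdd9d93158bdb9.shift 4 2), (rh83b2042aaed44dad.shift 2 3), (rhcef683cc7b2144d7.shift 1 0), (rhd88959f8d66c3a37.shift 0 1), (rheeb55bedcfdf9989.shift 0 2)] (by decide +kernel))
noncomputable def rh7c2ea445a6bcd965 : CRef := CRef.mk (Pat.mk 0x20000000200000000000000000000000000000000000000000 0x580000005e000000fe000001fe00000fff00000ffe00000ffe000003fe0000015800000008 11 12) 0 0 (step_sound _ 133 [(rh0cf2646ecaafedc1.shift 3 1), (rh0e344439e1416173.shift 1 1), (rh5078b7a896914246.shift 1 1), (rh66c9dbaf3b451c11.shift 0 1), (rh6a2504d32debcd6c.shift 2 1), (rha02f11da93804192.shift 1 1), (rhca39eb3ad325f3be.shift 1 0), (rhe34b01e666f5e28d.shift 1 1)] (by decide +kernel))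
noncomputable def rhc6b9f315fd12767f : CRef := CRef.mk (Pat.mk 0x200000002000000000000000000000000000000000 0x7000000078000003fe000003ff000007fe000001ff000003bf000001fe000003fe0000007000000060 11 11) 0 0 (step_sound _ 197 [(rh0dced36299326f9f.shift 3 1), (rh113cf0133e2043ac.shift 0 1), (rh3caf0638f47279e0.shift 1 1), (rh6fdaca10012d4e7a.shift 2 1), (rh73dbe06746b9f3f8.shift 1 1), (rh825a8854e76989b8.shift 1 3), (rhaecb42dc5c9c24ee.shift 2 0), (rhdce4d21680c7a31b.shift 0 1), (rhe3b1d1b38e55e126.shift 1 1)] (by decide +kernel))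
noncomputable def rh0af8063632dac994 : CRef := CRef.mk (Pat.mk 0x40000000400000000000000000000000000000000000000000 0xa0000007fc000007f800000ffc0000037f000003fe000003ff000007fc000000f0000000e000000020 11 12) 0 0 (step_sound _ 230 [(rh0ab100d90ace68fb.shift 4 3), (rh572ab01fda5e0d79.shift 2 0), (rh57902e2985529f2c.shift 2 3), (rh6bfea180fb37e31a.shift 0 2), (rh8f1b6e50763026de.shift 2 2), (rhf233e868030ab95b.shift 3 2)] (by decide +kernel))
noncomputable def rh34e2dbfb5d4d22b2 : CRef := CRef.mk (Pat.mk 0x20000000200000000000000000000000000000000000000000 0x50000007ff000003fe000007fe000001ee000001fc000003fe00000370000000700000007000000050 11 11) 0 0 (step_sound _ 229 [(rh0ab100d90ace68fb.shift 3 3), (rh1e3e6ade417523fa.shift 2 2), (rh23715e8661c79456.shift 0 4), (rh3e8d0a0b36d3ae10.shift 1 2), (rh82234ba7f30a9e55.shift 4 2), (rhaf2df474eacfe16a.shift 1 2), (rhc983cc91ea01260d.shift 2 0), (rhfdc6ede6ff4655a6.shift 3 2)] (by decide +kernel))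
noncomputable def rhcdf80cf40c0a453b : CRef := CRef.mk (Pat.mk 0x1000000010000000000000000000000000 0x1800000038000003ff000001fe000003ff000000fe000003f7000001fe000001ff00000038 11 10) 0 0 (step_sound _ 164 [(rh0ab100d90ace68fb.shift 2 1), (rh0dced36299326f9f.shift 2 0), (rh2ee64fd5895c5733.shift 1 1), (rh3cd423d219ceb20e.shift 1 0), (rh82234ba7f30a9e55.shift 3 0), (rhbd810ae6c0fd3c61.shift 1 0), (rhcb05ee77fb82240d.shift 0 2), (rhe1d4d69ad8fd1984.shift 2 0), (rhe7ccbf4c24b74c98.shift 2 0), rhef7e367b4621a187] (by decide +kernel))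
noncomputable def rhbe2efda126994871 : CRef := CRef.mk (Pat.mk 0x4000000040000000000000000000000000000000000000000000000000 0x28000001f8000003f8000007bc000003ff000007ff000007ff000007ff000007fc000000f0000000e0000000a0 11 11) 0 0 (step_sound _ 197 [(rh035770994105e47d.shift 0 2), (rh0b61cc1dd37c1052.shift 3 1), (rh2c4bd01bcf547cc8.shift 2 3), (rh3b9515a6a3cdffe0.shift 2 3), (rh49e307cc0afeee07.shift 2 1), (rh4eca893c264dd6ae.shift 3 0), (rh6261b36c7faeee87.shift 3 4), (rh9b9415ec200b8f61.shift 2 1), (rhc162cbf9eeb893dd.shift 2 3), (rhcbb493e3f6973034.shift 2 3), (rhcc239bfec46a75c0.shift 3 3), (rhd1168c2b0c1da390.shift 3 3), (rhd234f37f52d735d2.shift 0 2), (rhdfc20cb5eece6a20.shift 2 3), (rhe189c423108cb08c.shift 3 3), (rhe7da243cf692d80f.shift 4 3)] (by decide +kernel))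
noncomputable def rhdf88d51d7ea3db54 : CRef := CRef.mk (Pat.mk 0x400000004000000000000000000000000000000000 0x28000002f8000003f8000003fe000007ff000003fe000007ff000003bc000001b8000001b800000020 11 11) 0 0 (step_sound _ 165 [(rh056a8c7882ab3829.shift 0 2), (rh0bc7850704dd32e7.shift 2 1), (rh25723fe2c9769ed7.shift 2 0), (rh399868a93679fa8c.shift 3 1), (rh5a718bf2cf350bc3.shift 3 2), (rh5c121c7bce9512ed.shift 2 0), (rh768a49ab79cc11d3.shift 2 0), (rh8d2c58665ea9a0fe.shift 2 0), (rh9b48d7a2c90b07de.shift 0 1), (rh9ee275671d8796f5.shift 1 1), (rhbb2222967fd78c65.shift 2 1), (rhc790b4ef1d549d90.shift 2 1), (rhc80759879746b47b.shift 2 2), (rhe12fefb7cc62dd7d.shift 3 1), (rhf8bd7732e7be3d2f.shift 1 1), (rhfee83efc1d234cb9.shift 2 0)] (by decide +kernel))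
noncomputable def rhbfd79594a2a48f76 : CRef := CRef.mk (Pat.mk 0x4000000040000000000000000000000000000000000000000000000000 0x60000001f0000003f8000003f8000003f800001fff00001fff00001fff000007fc000006f8000000f000000020 11 13) 0 0 (step_sound _ 166 [(rh0ca337f75893527a.shift 5 2), (rh3db194c089839683.shift 2 2), (rh504ad41edd1c56df.shift 3 0), (rh5bcb43d44e34382c.shift 5 2), (rh6a2504d32debcd6c.shift 3 2), (rh7d0acc0df20c4eb8.shift 0 2), (rh7db2b895c70a93d7.shift 1 2), (rhb150d29db1d46f49.shift 3 2), (rhca39eb3ad325f3be.shift 2 1), (rhe07f7ebdfe868222.shift 2 2), (rhe14afa5ef308a223.shift 0 2)] (by decide +kernel))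
noncomputable def rhf53064c53802cc37 : CRef := CRef.mk (Pat.mk 0x200000000000000000000000000000000000000000 0xf0000001f8000007fe000007fc00000fff000007fe00000fff000007fc000007fe000001f8000001f0 10 12) 0 0 (sym_sound rhdc2c14d75ea4ef5b _ true true false 11 0 9 (by decide +kernel))
noncomputable def rh4da07a4f6d5a0f20 : CRef := CRef.mk (Pat.mk 0x400000000000000000000000000000000000000000 0xf0000001f8000007fe000003fe00000fff000007fe00000fff000003fe000007fe000001f8000000f8 10 12) 0 0 (sym_sound rhdc2c14d75ea4ef5b _ true false false 0 0 9 (by decide +kernel))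
noncomputable def rh4b8244e00b031db9 : CRef := CRef.mk (Pat.mk 0x200000000000000000000000000000000000000000 0x50000001fc000001fc000003ff000007ff000007ff000007ff000007ff000003fe000001fc0000017400000050 10 11) 0 0 (sym_sound rhdc2c14d75ea4ef5b _ false false true 0 11 9 (by decide +kernel))
end Crest.Agent.S0047.Helper85.Cert
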