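import Crest.Agent.Lib.S0047.Helper85CertPL11F0
import Crest.Agent.Lib.S0047.Helper85CertPL11F1
import Crest.Agent.Lib.S0047.Helper85CertPL11F2
set_option autoImplicit false
set_option linter.all false
set_option Elab.async false
namespace Crest.Agent.S0047.Helper85.Cert
open Crest.Agent.S0047.Helper85

noncomputable def rh84a9dcac785f869e : CRef := CRef.mk (Pat.mk 0x100000000000000050000000000000000000000000 0x28000000380000003e000000fe000000fe000000770000007e0000003f00000028 12 8) 0 0 (step_sound _ 132 [(rh051147f7595abe9f.shift 2 0), rh310d8c1897d86d09, (rhb780df3eb1e8e99d.shift 1 2), (rhb95a54ace36dc081.shift 3 0)] (by decide +kernel))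
noncomputable def rh63cd0f74273dc310 : CRef := CRef.mk (Pat.mk 0x100000000000000050000000000000000000000000 0x28000000f8000001fe000000fe0000007e000000770000003e0000003f00000028 12 9) 0 0 (step_sound _ 132 [rh1ee02915ccf626de, rh27076ce864096de5, (rh28e610bb87fd51e4.shift 3 0), rh72c6a90afae7f9d5, (rh7a15478bf4238e53.shift 1 2), (rhb1406e394782cc60.shift 3 0), (rhb95a54ace36dc081.shift 3 0)] (by decide +kernel))
noncomputable def rhae10c8847ebe2918 : CRef := CRef.mk (Pat.mk 0x100000001000000050000000000000000000000000 0x3f000000ff000000fe00000070000000380000003800000028 12 8) 0 0 (step_sound _ 69 [(rh0fd65e3cf503e830.shift 3 0), rh1dbe911ff620053e, (rh47dece01c1595e79.shift 4 0), (rha822df604b29e217.shift 3 0)] (by decide +kernel))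
noncomputable def rh796fcdca949b144e : CRef := CRef.mk (Pat.mk 0x400000004000000140000000000000000000000000 0x140000023c0000023c00000f7f00000ffe00000fff0000015800000ff8000007f000000ff8 12 12) 0 0 (step_sound _ 165 [(rh56259dd1390eee46.shift 5 0), (rhb28adfecc827b00d.shift 0 2), rhfd992c87baf664b3] (by decide +kernel))
noncomputable def rh762c05c9c590631e : CRef := CRef.mk (Pat.mk 0x800000018000000100000005000000000000000000000000000000000 0x3200000032000000f7000000df000000ff000000fc00000774000003e0000007e0000000e000000020 12 11) 0 0 (step_sound _ 226 [(rh0c7556aa6676df87.shift 1 0), (rh2016cde8831a52be.shift 0 3), (rh5c5a2014709044d0.shift 0 6), (rhc96c66aeb8f7600c.shift 0 5), (rhdeca8db941583de2.shift 0 6)] (by decide +kernel))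
noncomputable def rh523087442f9fe479 : CRef := CRef.mk (Pat.mk 0x100000003000000020000000a000000000000000000000000000000000 0x6000000068000001ee000001be000001ff000001f700000eee000007ce00000fca000001c000000040 12 12) 0 0 (step_sound _ 227 [(rh0c7556aa6676df87.shift 2 0), (rh5432060bdf8cee78.shift 1 2), (rh5c5a2014709044d0.shift 1 6), (rhc96c66aeb8f7600c.shift 1 5), (rhf74ba0b876993016.shift 0 4)] (by decide +kernel))
noncomputable def rhf2a0631f49fd00dc : CRef := CRef.mk (Pat.mk 0xc0000000d000000080000000800000000000000000 0x8000000380000003800000038000000f8000000dc000000ff000001be0000013f00000028 12 9) 0 0 (step_sound _ 72 [(rh55afc6a59410cf00.shift 7 1), rhcea3c1c23dca195e] (by decide +kernel))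
noncomputable def rh109a0776e33ab25d : CRef := CRef.mk (Pat.mk 0x10000001c000000080000000000000000000000000 0x2800000038000000380000001e000001fc000001ff0000003e0000003f00000028 12 9) 0 0 (step_sound _ 132 [(rh473b2f7acaa88f87.shift 2 3), rh650ff7bc031d69d1, (rh7174a5174d2fbf5b.shift 3 3), (rh824d79d8da16a934.shift 1 3), (rhab087011127a035a.shift 3 3)] (by decide +kernel))
noncomputable def rh90203ef0889a5fb4 : CRef := CRef.mk (Pat.mk 0x3000000020000000a000000000 0xc0000000c0000003c0000007c000003bf000001ff000001ef000000ec000000c4 12 10) 0 0 (step_sound _ 99 [rh288925d9f25bc57d, (rh3918eeb6c53434d8.shift 0 2), (rh3b61f21f696094cd.shift 2 0), (rh8ee80cc30e93a344.shift 2 2)] (by decide +kernel))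
noncomputable def rh6788240f43f7c79c : CRef := CRef.mk (Pat.mk 0x600000004000000140000000000000000000000000 0x180000001c0000003c0000003f0000077f000003fe0000037f000001dc000001380000003800000020 12 11) 0 0 (step_sound _ 164 [(rh288925d9f25bc57d.shift 1 2), (rh85bc70572fc4e0bf.shift 1 3), (rh867fe764a6e7aa22.shift 0 1), (rhaa42e81ac594cfa0.shift 1 2), (rhbef0fec683842d0b.shift 0 1), (rhc51b181c855cfac4.shift 3 0), (rhe33ac67639f63f14.shift 0 3)] (by decide +kernel))
noncomputable def rhfbd0c7c0bff9e6a3 : CRef := CRef.mk (Pat.mk 0x18000000100000005000000000000000000000000000000000 0x88000000d8000001dc000003f8000003ff00000777000003e0000007e0000000e000000020 12 11) 0 0 (step_sound _ 227 [rh37db226d070365fe, (rha3df16ea9c8576c8.shift 3 4), (rhc89253ff58c66167.shift 3 4), (rhe072fffdd2fccf38.shift 3 4)] (by decide +kernel))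
noncomputable def rhac3eb13cf7ef00c9 : CRef := CRef.mk (Pat.mk 0x4000000040000001400000006000000000 0x8000000080000073f000007fe00000fff000001de0000017c0000001e 12 12) 0 0 (step_sound _ 133 [(rh50fbb5868c909700.shift 5 1), rh901f4572d8b6e38d] (by decide +kernel))
noncomputable def rh22cb5a728842e44b : CRef := CRef.mk (Pat.mk 0xc0000002000000020000000000000001000000000000000000000000000000000000000000000000000000000 0x50000000780000006c0000002000000020000001f00000007800000078000000ff000000fe0000003f000000380000003800000028 12 9) 0 0 (step_sound _ 261 [rh1295ca39ea8df563, (rh86aa94d7c0c1e10d.shift 3 6), (rhb045e761e5fc4da9.shift 2 7)] (by decide +kernel))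
noncomputable def rhc8a76fc705a0e104 : CRef := CRef.mk (Pat.mk 0xc0000002000000020000000000000001000000000000000000000000000000000000000000000000000000000 0x50000000780000006c0000006000000020000001f00000007800000078000000ff000000fe0000003f000000380000003800000028 12 9) 0 0 (step_sound _ 261 [rh1295ca39ea8df563, (rh7779e16b2a35bc09.shift 4 6), (rh86aa94d7c0c1e10d.shift 3 6), (rhb045e761e5fc4da9.shift 2 7)] (by decide +kernel))
noncomputable def rh58605c129974860c : CRef := CRef.mk (Pat.mk 0x20000000a00000000000000060000000000000000000000000000000000000000 0xa0000000a000000fa0000007e000000ff0000003c0000003c0000003800000020 12 8) 0 0 (step_sound _ 130 [rh96cde66d42a86399, (rhff0f29cb645b05f7.shift 1 4)] (by decide +kernel))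
noncomputable def rh54df8743f93056be : CRef := CRef.mk (Pat.mk 0xe00000002000000000000000000000000000000000 0x6000000060000018f000000fe000001ff000001ce000001ce000001c600000100 12 9) 0 0 (step_sound _ 164 [(rh1e2a89c78bab3c28.shift 0 1), (rh5d4520359f65dede.shift 3 0), (rhbb13f9e1d387f64a.shift 1 4), (rhd1ff8027c4c86c76.shift 1 4), (rhe52307a01c64ddb7.shift 0 4)] (by decide +kernel))
noncomputable def rh929a9eb68ac80125 : CRef := CRef.mk (Pat.mk 0x4000000000000000200000002000000020 0x40000001c0000001c0000001d0000007ff000007fe00000fee000000bc000000fc00000020 12 12) 0 0 (step_sound _ 133 [(rh215eec42d97e714a.shift 1 1), (rh47cbca82c94c0c1a.shift 5 0), (rh99cae520d6af04ff.shift 0 1), (rha3167923c324c8e4.shift 2 0)] (by decide +kernel))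
noncomputable def rh66787e485fa8f1a1 : CRef := CRef.mk (Pat.mk 0x4000000040000000e000000020000000000000000000000000 0x600000046000001cf000000fe000001bf0000008e0000000e00000006 12 9) 0 0 (step_sound _ 132 [rh1e2a89c78bab3c28, (rh625dde73e665edc8.shift 4 2), (rhb12ffaec36122c99.shift 1 3), (rhec46bd5500c722c9.shift 3 4)] (by decide +kernel))
noncomputable def rh775a1435b3d6bfce : CRef := CRef.mk (Pat.mk 0x300000002000000020000000a0000000000000000000000000 0x500000007000000078000001ac000001ff000001be000001ff000000ee000001ae0000018a00000180 12 9) 0 0 (step_sound _ 164 [(rh7b1f1fb55310c477.shift 4 2), rha4e2c59913e4a8a2] (by decide +kernel))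
noncomputable def rh9a46067a8478d22c : CRef := CRef.mk (Pat.mk 0x34000000300000002000000000000000000000000000000000 0xa0000000e0000000e0000000e000000360000003e000000670000003e0000003f0000000e0000000a 12 7) 0 0 (step_sound _ 162 [(rh39f426ebe0691969.shift 1 4), rh3dec03e8b0100650, (rh6e1685e3533aff0e.shift 1 5), (rh7174a5174d2fbf5b.shift 1 4)] (by decide +kernel))
noncomputable def rhfb3161bb19599d2b : CRef := CRef.mk (Pat.mk 0x800000000000000040000000400000000000000000000000000000000 0x140000007c0000007f000000ff0000007c0000001c0000001c0000001c00000004000000040000000e0000000e0000000a 12 8) 0 0 (step_sound _ 195 [(rh23efbf14960780bd.shift 0 4), (rh648e4b160e405460.shift 1 0), (rhd918c3fd221dc9f8.shift 2 3), (rhf976c2634b3b3d34.shift 2 2)] (by decide +kernel))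
noncomputable def rh267e89922961ddce : CRef := CRef.mk (Pat.mk 0x2000000020000000a0000000a000000000000000000000000000000000 0x50000003f0000001f0000007f0000003e0000007bf000000fe000000ee000001a0000001e0000001c000000040 12 11) 0 0 (step_sound _ 199 [(rh1beedcd5efdf57b3.shift 2 4), (rh2bc33ad8d2aa6d1b.shift 4 3), (rh59166c42bd8c7291.shift 0 1), rhdeec3a0543b3de95, (rhf0d44f97a053c7d4.shift 0 4), (rhf1f920137649fef6.shift 0 3)] (by decide +kernel))
noncomputable def rh9b109fb9f11b6a84 : CRef := CRef.mk (Pat.mk 0x200000002000000020000000a000000200000000c00000004 0x3d0000005f000000fa0000007e0000002e0000002c0000002c00000004 12 8) 0 0 (step_sound _ 98 [(rh2613c889e411427e.shift 1 0), rhb82347162e90fd4f] (by decide +kernel))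
noncomputable def rh2056ad32784570c0 : CRef := CRef.mk (Pat.mk 0x4000000000000000200000002000000000000000000000000000000000 0x440000004400000fce000007fe00000fff000001e8000001e8000001c000000100 12 12) 0 0 (step_sound _ 166 [(rh02ef15e22aa7db92.shift 5 2), (rh18fd744912747430.shift 0 2), rh1d9f620361a3bb93] (by decide +kernel))
noncomputable def rh4785f873245ad84e : CRef := CRef.mk (Pat.mk 0x20000000a00000000000000060000000000000000000000000000000000000000 0xa0000000a000000fa0000007e000000ff0000003c0000003c0000003800000020 12 8) 0 0 (step_sound _ 130 [rh1fe70d47f563dc5a, (rhff0f29cb645b05f7.shift 1 4)] (by decide +kernel))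
noncomputable def rh59313c16fb7fc68a : CRef := CRef.mk (Pat.mk 0x10000000100000005000000000 0x28000001ff000000fe000001de0000003e0000007400000020 12 9) 0 0 (step_sound _ 132 [(rh1741680720c097b4.shift 3 1), (rh5abfc4c9d959be03.shift 3 0), rha5a21e1a73827dd8, (rhced6d86d2069808b.shift 4 0)] (by decide +kernel))
noncomputable def rh48bc1b7e6d464c04 : CRef := CRef.mk (Pat.mk 0x600000004000000140000000000000000000000000 0x18000000380000003800000fff000007fe00000f7f00000158000003980000038000000280 12 12) 0 0 (step_sound _ 197 [(rha3df16ea9c8576c8.shift 5 3), (rhc89253ff58c66167.shift 5 3), (rhe072fffdd2fccf38.shift 5 3), rhf60ad01df0174b74] (by decide +kernel))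
noncomputable def rh08a2a7b5b1c507e8 : CRef := CRef.mk (Pat.mk 0x18000000100000005000000000 0x28000000380000003c0000003c0000003e000003bf000001fe000003de0000007000000060 12 10) 0 0 (step_sound _ 132 [(rh047c0c3b0047a487.shift 3 1), (rh120e1a88548d37a3.shift 1 0), (rh39af83765499c4d3.shift 3 1), (rh9e2a10b982f346d6.shift 0 1), (rhc85cc95794737cf7.shift 3 1), (rhcf91cfb7d3e875de.shift 3 1)] (by decide +kernel))
noncomputable def rh7f8fcd63ffdfed95 : CRef := CRef.mk (Pat.mk 0x70000000100000014000000000000000000000000000000000 0x2000000020000000700000007000000050000001de000001ff000001fe000001e0000000a0 12 9) 0 0 (step_sound _ 229 [rh45485228567d3685, (rh4821dcf828b9d7bf.shift 4 3), (rh95a80f84f48ac358.shift 5 3)] (by decide +kernel))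
noncomputable def rh60a2352be54698d7 : CRef := CRef.mk (Pat.mk 0xe0000000000000028000000000 0x1000000014000001f7f00000ffe00001eff0000028000000280 12 13) 0 0 (step_sound _ 104 [(rh2a535ce68d5cfc5d.shift 4 0), (rh3b00e9e9432b8f40.shift 4 2), rh6db7d6fffe05346a, (rh775ca1963e850b80.shift 3 2), (rhb61ad485c4336967.shift 5 0)] (by decide +kernel))
noncomputable def rh05867a132e982f64 : CRef := CRef.mk (Pat.mk 0x8000000f0000000000000014000000040000000000000000000000000 0xc000000f800000018000001de000001ff000001fe000001e0000000a0 12 9) 0 0 (step_sound _ 195 [(rh3244c3cc8379b070.shift 2 6), rhfd02df960562ce8d] (by decide +kernel))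
noncomputable def rh66700a34e887219a : CRef := CRef.mk (Pat.mk 0xe00000000000000280000000000000000000000000 0x1000000014000001f7700000ffe00001eff00000280000007800000070000000500 12 13) 0 0 (step_sound _ 168 [(rh18e39bc34e431067.shift 4 0), (rh2a535ce68d5cfc5d.shift 4 2), (rh3d9ccce8f1410f87.shift 4 0), (rh6db7d6fffe05346a.shift 0 2), (rha3cd6e417638cbd6.shift 5 0), (rhb61ad485c4336967.shift 5 2)] (by decide +kernel))
noncomputable def rhe85901e0da71ca27 : CRef := CRef.mk (Pat.mk 0x3800000000000000a0000000000000000000000000 0x4000000040000003d7000001fe000001be000000ee000001fc000001fe00000150 12 10) 0 0 (step_sound _ 166 [(rh3d9ccce8f1410f87.shift 2 0), rh4cd13b25e9458eac, (rh837faecd64f19141.shift 1 0), (rha3cd6e417638cbd6.shift 3 0), (rhf817b6b59bdf06de.shift 2 2)] (by decide +kernel))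
noncomputable def rh703fbc712bee9e2a : CRef := CRef.mk (Pat.mk 0x700000000000000140000000000000000000000000 0xa0000000a000000fb7000007fe00000f7f000001dc000003f8000003fc000002a0 12 12) 0 0 (step_sound _ 167 [rh00dd5c091ea25502, (rh3d9ccce8f1410f87.shift 3 0), (rh837faecd64f19141.shift 2 0), (rha3cd6e417638cbd6.shift 4 0), (rhb61ad485c4336967.shift 4 2), (rhf817b6b59bdf06de.shift 3 2)] (by decide +kernel))
noncomputable def rh720b37b977103f18 : CRef := CRef.mk (Pat.mk 0xe00000000000000280000000000000000000000000 0x1000000010000000f7f000007fe000006ef000003b8000007f0000007f800000540 12 12) 0 0 (step_sound _ 168 [(rh18e39bc34e431067.shift 4 0), (rh2a535ce68d5cfc5d.shift 4 2), (rh837faecd64f19141.shift 3 0), rhc6f906647714ecf9] (by decide +kernel))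
noncomputable def rh72573f89d5d3cd67 : CRef := CRef.mk (Pat.mk 0x70000000100000014000000000000000000000000000000000 0x2000000020000000300000007000000070000001de000001ff000001fe000001e0000000a0 12 9) 0 0 (step_sound _ 229 [rh45485228567d3685, (rh4821dcf828b9d7bf.shift 4 3), (rhb11d41c808e1ab4d.shift 5 3)] (by decide +kernel))
noncomputable def rh9f800c1ac9d1e39e : CRef := CRef.mk (Pat.mk 0x7800000040000000500000002000000000 0xc70000007e0000005e000000540000007e00000077 12 8) 0 0 (step_sound _ 5 [rh5e7d8791e0859cb8, (rheea67dfebd0f8008.shift 5 0)] (by decide +kernel))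
noncomputable def rhc90acbfdb2d7fdf8 : CRef := CRef.mk (Pat.mk 0x60000000400000004000000000 0xa0000000e0000000f8000000f8000003ff0000007e0000007f000000dc0000001c 12 10) 0 0 (step_sound _ 134 [(rh047c0c3b0047a487.shift 5 1), (rh39af83765499c4d3.shift 5 1), rhb58070d217793fe2, (rhc85cc95794737cf7.shift 5 1), (rhdf8b9aa233deec1e.shift 3 1)] (by decide +kernel))
noncomputable def rh5d02f054252a32a1 : CRef := CRef.mk (Pat.mk 0x1800000004000000000000001400000000000000000000000000000000 0x140000001f0000003f0000003f0000001c0000003f0000003f0000001400000014000000380000003800000028 12 6) 0 0 (step_sound _ 195 [(rh4528704b33913084.shift 0 3), (rh580df77fe152422b.shift 2 3), rh831a0edf08a7c1b5] (by decide +kernel))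
noncomputable def rh95170e0f65ca0fd9 : CRef := CRef.mk (Pat.mk 0xf000000000000000000000002 0x60000001e0000007e000000fe0000007f000000ee0000000e00000002 12 8) 0 0 (step_sound _ 100 [rh4354c97485c39f4d, (rh8c96748594fc20e8.shift 1 0), (rh9890f9d77740bbed.shift 0 3), (rhe6287d96d1a4a02a.shift 1 2)] (by decide +kernel))
noncomputable def rh740a7f68d12c8f9d : CRef := CRef.mk (Pat.mk 0x38000000080000000000000010 0x50000000780000007f000000ff000000fe00000038000000f8000000f800000010 12 8) 0 0 (step_sound _ 131 [(rh2450e95985d5ffe1.shift 2 0), (rh30f28c240d9ae43e.shift 3 0), (rh71cc6777d493ddb5.shift 1 1), rhbde30269090920f5] (by decide +kernel))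
noncomputable def rheeb64bb0fbb5ad43 : CRef := CRef.mk (Pat.mk 0x2000000060000000100000000000000040 0x28000000398000003b800000fb800000fff000007fe00000ff7000001e000000040 12 12) 0 0 (step_sound _ 70 [(rh4bc4fba91d25d6d1.shift 0 1), (rh9e07f76261b05888.shift 5 0)] (by decide +kernel))
noncomputable def rh5314677624ba094d : CRef := CRef.mk (Pat.mk 0x1000000030000000080000000000000020 0x7e000001ff000001f8000000fc000001f8000001f000000020 12 9) 0 0 (step_sound _ 69 [(rh9e07f76261b05888.shift 4 0), (rhb3a875fec6f3328c.shift 0 1)] (by decide +kernel))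
noncomputable def rh5bcb864630956b68 : CRef := CRef.mk (Pat.mk 0x800000018000000040000000000000014 0x620000006a0000007f0000007f0000007e000000140000001400000014 12 7) 0 0 (step_sound _ 98 [rh6abfc71ce9dbe3ce, (rh9e3edb185cc347de.shift 2 0)] (by decide +kernel))
noncomputable def rh21a8eeffebb580e4 : CRef := CRef.mk (Pat.mk 0x800000018000000040000000000000010 0x3f000000ff000000ff0000007c0000001c0000001800000010 12 8) 0 0 (step_sound _ 68 [(rh9e07f76261b05888.shift 3 0), (rhc9938d647a51e764.shift 0 1)] (by decide +kernel))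
noncomputable def rhc272b473ba654718 : CRef := CRef.mk (Pat.mk 0x60000000100000000000000050000000000000000000000000 0x1f0000001f0000007bf000003fe000007f70000007000000050000000380000003800000028 12 11) 0 0 (step_sound _ 229 [(rh32d5e450774e6499.shift 3 3), (rh3fae15806b141bf9.shift 0 3), (rhccb0eb046a7db929.shift 3 3), (rhcdfba260e5024b09.shift 3 0)] (by decide +kernel))
noncomputable def rh08d92d5722d65197 : CRef := CRef.mk (Pat.mk 0x1c000000040000000000000014 0x620000006a0000007f0000007f0000007e000000140000001400000014 12 7) 0 0 (step_sound _ 131 [rh6abfc71ce9dbe3ce, (rh9e3edb185cc347de.shift 2 0)] (by decide +kernel))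
noncomputable def rh84c8d1770ca8bf92 : CRef := CRef.mk (Pat.mk 0x10000000180000000000000020 0x40000003e0000007e000000ff000000ff000000df0000007700000020 12 8) 0 0 (step_sound _ 99 [(rh0b7ed92dffb7206d.shift 1 0), (rh361081ff853b2379.shift 0 1), rh50af7c1d370bc830, (rh800b979c50e34ea1.shift 0 1), (rhac61412cd4135105.shift 0 1), (rhb7e34670c98c7591.shift 0 1), (rhe7bedf9e10ed3625.shift 0 1), (rhecb75aaea0d460fa.shift 0 1), (rhf590fcac22cf8b9d.shift 1 0), (rhff257a4c7be08207.shift 0 1)] (by decide +kernel))
noncomputable def rh8d9033118b6a6bf7 : CRef := CRef.mk (Pat.mk 0x340000000800000000 0x7e0000007e0000006f0000003f0000007f00000014 12 7) 0 0 (step_sound _ 67 [(rh775ca1963e850b80.shift 0 1), (rh8c79c888b6d52d18.shift 1 0), (rha4cf9251629f1722.shift 1 0), (rhed95296174ee961f.shift 0 1)] (by decide +kernel))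
noncomputable def rhabdd5126f3ff8f77 : CRef := CRef.mk (Pat.mk 0x400000002000000000000000a0000000000000000000000000 0xf0000003f0000003fc000007fe000007fe00000fbf000000a0000000a0000000700000007000000050 12 12) 0 0 (step_sound _ 197 [(rh32aa528518855c66.shift 2 3), (rh667db85b7f8ec3ee.shift 3 3), rh731c50c7797ecea1, (rh8d60ccb3b32c25bb.shift 2 3), (rh94b723808375fb9f.shift 4 0), (rhada71de82abc3bdd.shift 1 3)] (by decide +kernel))
noncomputable def rhf3255335160c180a : CRef := CRef.mk (Pat.mk 0x200000004000000000000001400000000000000000 0x500000007c000000fc000000fc0000007c00000fff000007fe00000fff000001dc0000015c00000014 12 12) 0 0 (step_sound _ 133 [(rh062e468af6188d00.shift 2 2), (rh14130aad1b9507ad.shift 1 0), (rh95a80f84f48ac358.shift 5 1), rhdbd0a3c6751bab41] (by decide +kernel))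
noncomputable def rh3c05cf994512bd8a : CRef := CRef.mk (Pat.mk 0x400000008000000080000002800000000 0x20000004a0000005f000003ff000003ff000007ff0000003800000020 12 11) 0 0 (step_sound _ 131 [(rh50fbb5868c909700.shift 2 1), rhbe2d79be101f5cb2] (by decide +kernel))
noncomputable def rhf05bc920d4f38d1c : CRef := CRef.mk (Pat.mk 0x1000000010000000100000003000000000 0x1ef000000ff000001ff0000003e000000f8000000c8 12 9) 0 0 (step_sound _ 35 [(rh932754581e0f4330.shift 3 0), rhd4ec2a3f7cfd0e85] (by decide +kernel))
noncomputable def rhaf7d692a5526fb4e : CRef := CRef.mk (Pat.mk 0x100000002000000000000000a000000000 0x78000001fe000007fe000003fe000007bf000000be000000a800000020 12 11) 0 0 (step_sound _ 133 [(rh0e56675454d4f557.shift 1 1), (rh153582022cf29b9e.shift 1 1), (rh2d90c7d6e8217869.shift 0 1), (rh3fd2d51467c42c9d.shift 1 1), (rh7351e858a26a73d2.shift 1 1), (rh87724bcd580e758d.shift 1 1), (rh9143b8752fb278ac.shift 2 0), rhd357eaa9d62389b0] (by decide +kernel))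
noncomputable def rha0a60d253ab93f99 : CRef := CRef.mk (Pat.mk 0x1800000010000000000000005000000000 0xc0000000c0000001f000001ff000000ff000000fc0000005000000040 12 9) 0 0 (step_sound _ 163 [rh7c24aae91f3b9095, (rh9e07f76261b05888.shift 3 1)] (by decide +kernel))
noncomputable def rh828c93e6b365b7d3 : CRef := CRef.mk (Pat.mk 0x18000000100000000000000010 0x3e0000003e000001ff000000ff000001df000000360000001600000016 12 9) 0 0 (step_sound _ 131 [rh5e8559b11ef74ed9, (rh9e07f76261b05888.shift 3 0)] (by decide +kernel))
noncomputable def rhf0166afdce5ca691 : CRef := CRef.mk (Pat.mk 0x800000018000000100000005000000000000000000000000000000000 0x28000000b8000000f8000000f0000000f8000000de000000ff00000077000000c0000000e0000000e000000020 12 8) 0 0 (step_sound _ 165 [(rh0af89dee0b6b377d.shift 1 1), rh209c92336c6b27b4, (rh7415667b1c6f4657.shift 1 4), (rhdeca8db941583de2.shift 1 5)] (by decide +kernel))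
noncomputable def rh85281a4c10feae78 : CRef := CRef.mk (Pat.mk 0x100000002000000000000000a00000000000000000 0x280000003e0000007e0000007e00000078000001df000000fe000001ff000000e8000000a000000080 12 9) 0 0 (step_sound _ 132 [rh0623385017d64262, (rh062e468af6188d00.shift 1 2), (rhb11d41c808e1ab4d.shift 4 1), (rhf8f333fb0f48c526.shift 1 1)] (by decide +kernel))
noncomputable def rhd36fe51f48ccc1b9 : CRef := CRef.mk (Pat.mk 0x100000006000000000000000a000000000 0x80000000f8000000fc000003fe000003fe0000007f000000d8000000e0000000a0 12 10) 0 0 (step_sound _ 134 [(rh1865c0650619c6ee.shift 5 0), (rh1aeefae25cd6bc06.shift 2 0), (rh23320090cac71732.shift 0 2), (rh459a846e13271890.shift 5 0), (rhd41984f80d5d91b8.shift 2 0)] (by decide +kernel))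
noncomputable def rhf10cb9b1d3808e81 : CRef := CRef.mk (Pat.mk 0x140000001400000004000000000 0x18000000380000003f000001fe000003ff000000dc0000001c 12 10) 0 0 (step_sound _ 101 [(rh126557da767e56cc.shift 3 2), (rh8c25cb665ab79ec0.shift 3 2), rhcb0eda9403691a74, (rhd82abaa6e8ce82e9.shift 4 1)] (by decide +kernel))
noncomputable def rhf50b3af9d4a9c3a0 : CRef := CRef.mk (Pat.mk 0x500000000000000050000000000000000000000000 0xbc000000fc000000ff0000007f000001fe000003ee00000770000003f0000007e0000000a0 12 11) 0 0 (step_sound _ 165 [(rh1e18f4e94741cc5f.shift 0 4), (rh323b8fce8ef28742.shift 0 4), (rh39423d01016a0ed7.shift 3 0), (rh66788fd0262ee9b8.shift 1 1), (rh98736ede9d7bce97.shift 3 0), (rhb14b0c3f434a20a8.shift 1 1)] (by decide +kernel))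
noncomputable def rh92c8a93d97165c40 : CRef := CRef.mk (Pat.mk 0x80000007800000000 0x140000009c000000fc000000fe0000007f000000f8000000780000002c 12 8) 0 0 (step_sound _ 99 [(rh22ac5414f01273ac.shift 1 1), (rh3955ed2f8caf1676.shift 1 1), (rh4cd6e515882e4161.shift 2 0), (rh6e991067f38f31fe.shift 2 0), (rhc7788103301c9d2c.shift 2 0), (rhd6b322160c63b417.shift 2 0), rhd98f850c0bd2fe54] (by decide +kernel))
noncomputable def rh24548ac6817b149f : CRef := CRef.mk (Pat.mk 0x6000000000000000400000007800000000 0x20000000200000007c000001ff0000005c0000005e0000007e00000007 12 9) 0 0 (step_sound _ 66 [(rh3f8766e6ecb455ce.shift 2 1), rhc12c52c05412674f] (by decide +kernel))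
noncomputable def rh0c975b96b3bc57f9 : CRef := CRef.mk (Pat.mk 0x6000000000000000000000007800000000 0x3c0000003c000003ff000003fe0000039f0000001e0000007e00000007 12 10) 0 0 (step_sound _ 66 [(rh3f8766e6ecb455ce.shift 2 1), rh5bbac8cf5e99b328] (by decide +kernel))
noncomputable def rh5fe6bd97ec895e7c : CRef := CRef.mk (Pat.mk 0x1800000000000000100000001e000000000 0x50000003fc000001f80000037c0000017f000001fe0000035f 12 10) 0 0 (step_sound _ 36 [(rh592c7139d2c44767.shift 2 0), rh5eb33890a4778c5d, (rh8da8c153294fb23d.shift 2 0), (rhd5eb272e07a4e288.shift 3 1)] (by decide +kernel))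
noncomputable def rh09fb535ca4a6bcb6 : CRef := CRef.mk (Pat.mk 0x100000000000000000000000f000000000000000500000000 0x50000002700000027000000760000003f0000003a0000001700000015 12 7) 0 0 (step_sound _ 68 [rh04ffeb8fc9cc4a8a, (rh96851dee118c1ba3.shift 0 2)] (by decide +kernel))
noncomputable def rh0ad41b3ab49dda53 : CRef := CRef.mk (Pat.mk 0x100000000000000000000000f8000001000000005000000000 0x1ff000000fe000001ef000000ec000003f80000032c0000007000000050 12 10) 0 0 (step_sound _ 104 [rhdee7f447d061d812, (rhe25b0a99195a5d59.shift 5 2)] (by decide +kernel))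
noncomputable def rh94b635a9bf858f17 : CRef := CRef.mk (Pat.mk 0x100000000000000000000000f8000001000000005000000000 0x40000001ff000000fe000001ef0000076c000003f80000032c0000007000000050 12 11) 0 0 (step_sound _ 104 [rh99fb24907bcfa657, (rhe25b0a99195a5d59.shift 5 2)] (by decide +kernel))
noncomputable def rh718822341fd6b376 : CRef := CRef.mk (Pat.mk 0x800000000000000000000003800000000 0x1d8000000fc000001fc000001ef000000fc000001d4 12 9) 0 0 (step_sound _ 67 [(rh4a0cb3a9508b05dd.shift 2 0), (rh97acaebcd577be02.shift 2 0), (rh9e108fd409747b4d.shift 1 0), (rha9fbfd4bb8cf890b.shift 0 1)] (by decide +kernel))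
noncomputable def rhca5743236340714b : CRef := CRef.mk (Pat.mk 0x200000002000000000000000f800000000 0xa0000000e0000015e000001ff000001bf000001ff0000018e000000fe00000057 12 9) 0 0 (step_sound _ 71 [rh0ed3c2da8103379f, (rh33e738c4ed385b9f.shift 4 1)] (by decide +kernel))
noncomputable def rh36258a80b7f69db2 : CRef := CRef.mk (Pat.mk 0x200000002000000000000000f00000000 0x3d0000001f0000003b000000120000003a0000003f00000074 12 7) 0 0 (step_sound _ 68 [(rh428265de8cd3cd2d.shift 0 1), rhd1d4c99b9e4fbd7b] (by decide +kernel))
noncomputable def rh26071026ed7a5635 : CRef := CRef.mk (Pat.mk 0x200000002000000020000000f00000000 0x3d0000001f0000003e000000120000003a0000003f00000070 12 7) 0 0 (step_sound _ 162 [rh3fb662b1cdbda0fa, (rhbaefcd01e0a8bca3.shift 1 1)] (by decide +kernel))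
noncomputable def rh22f434d7cbc34259 : CRef := CRef.mk (Pat.mk 0x800000000000000000000003c00000000 0x70000007f0000007f000001ec000000fc000001c6 12 9) 0 0 (step_sound _ 2 [rh5429407cad00ad17, (rheb0810cc63b001d8.shift 1 0)] (by decide +kernel))
noncomputable def rhe98af143e19584d6 : CRef := CRef.mk (Pat.mk 0x200000000000000100000000f000000008 0x28000000380000003e000000fe000000fe000003ff000003fe000003ff0000032e000003fc0000070c 12 11) 0 0 (step_sound _ 132 [(rh034c36b72ab77023.shift 1 0), (rh065e768ae349e763.shift 2 0), rh070612d8451b67e7, (rh289c6f3190eb7cb5.shift 0 2), (rh8489fd97ae143fe2.shift 2 0), (rhc502ee1281b087a9.shift 2 0), (rhd2849570af66b001.shift 0 1), (rhfc92d29a9f375a5f.shift 1 0)] (by decide +kernel))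
noncomputable def rh705d389c79b29466 : CRef := CRef.mk (Pat.mk 0xc00000000000000000000003800000000 0x390000003f00000077000001ef000000fe000001c7 12 9) 0 0 (step_sound _ 34 [rh1383627ed4ac30b8, (rh394e80a462af5b2f.shift 1 0), rh592c7139d2c44767, rh63d8a98bd59a57f1] (by decide +kernel))
noncomputable def rh3f63bafc4e997871 : CRef := CRef.mk (Pat.mk 0x1800000000000000000000007800000004 0x80000000e0000000e0000000f0000003fc000001f8000003e0000001c7000001fe000003a6 12 10) 0 0 (step_sound _ 134 [rh125fa52a139b27ba, (rh37bdd0d54b185fd9.shift 3 0), rh8ad5ca705289cf13, (rha6fcbe714320cd55.shift 3 0), (rhbe9602c1da5314a3.shift 2 0), (rhd38fe5b7e506027c.shift 2 3)] (by decide +kernel))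
noncomputable def rh95abcfb079b68e45 : CRef := CRef.mk (Pat.mk 0x200000002000000000000000e000000000 0x80000001f0000007fc00000fff000007ff00000fff000007ae000003fc0000071e 12 12) 0 0 (step_sound _ 36 [(rh316d0c7c5292e4bb.shift 3 0), rh3c4e370da9f369f3, (rh7bd3f50627cc9f27.shift 2 0)] (by decide +kernel))
noncomputable def rhbfce48dd51f81795 : CRef := CRef.mk (Pat.mk 0x1000000010000000000000007000000000 0x1c000000bc000003ff000001fe000003ff000003c0000000f800000020 12 10) 0 0 (step_sound _ 70 [(rha11dfd15f08f96e3.shift 3 1), rhce28fa6251beac29] (by decide +kernel))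
noncomputable def rh9223edbc0781aa37 : CRef := CRef.mk (Pat.mk 0x200000002000000020000000f00000000 0x3d0000001f0000003b000000120000003a0000003f00000070 12 7) 0 0 (step_sound _ 160 [rh6570b5232bba9904, (rhffd04209dc8ea796.shift 0 1)] (by decide +kernel))
noncomputable def rh180bb007e80fc49a : CRef := CRef.mk (Pat.mk 0x1000000000000000000000007800000000 0x140000001c0000003c0000003c000000fc000003ff000001fe000003ff000001cc000000f8000001a0 12 10) 0 0 (step_sound _ 66 [(rh3f8766e6ecb455ce.shift 2 1), rhb9a6451dc6ade2c8] (by decide +kernel))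
noncomputable def rh4b36e868b7e4bff2 : CRef := CRef.mk (Pat.mk 0x1000000010000000000000007800000000 0x1c000000bc000003ff000001fe000003ff000000c00000007800000020 12 10) 0 0 (step_sound _ 70 [(rh33e738c4ed385b9f.shift 3 1), rhce28fa6251beac29] (by decide +kernel))
noncomputable def rh131452b48d05ed18 : CRef := CRef.mk (Pat.mk 0x200000000000000000000000f000000000 0x50000000700000007000000020000001bf000000fe0000004e 12 9) 0 0 (step_sound _ 35 [rh3574cff7a1ded034, (rh775ca1963e850b80.shift 1 0), (rh7df1edbe1fc5ea39.shift 1 0), (rhd5eb272e07a4e288.shift 2 1)] (by decide +kernel))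
noncomputable def rh33fa628f22fbd226 : CRef := CRef.mk (Pat.mk 0x100000001e000000000000000a00000000 0xfe0000007f000000ff0000001e0000007f000000140000000e0000000a 12 8) 0 0 (step_sound _ 131 [rh1146c01cf794fa61, (rh53b3c253cb0c65f4.shift 0 3)] (by decide +kernel))
noncomputable def rhac49907ca77d3926 : CRef := CRef.mk (Pat.mk 0x70000000000000001000000000 0x7c0000007c000000ff0000007f000000fe0000002e0000003000000030 12 8) 0 0 (step_sound _ 99 [(rh0b015542f53d9d2d.shift 0 2), (rh138c3774b73e0afc.shift 0 2), (rh5217d3d11556d9a6.shift 1 0), (rh592c7139d2c44767.shift 1 2), (rhc3f7ddbd03cd8319.shift 1 0)] (by decide +kernel))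
noncomputable def rhb3ed8711220de541 : CRef := CRef.mk (Pat.mk 0x1e00000000 0x29000001ff000000ff000001df0000003f0000001e0000000b 12 9) 0 0 (step_sound _ 68 [rh1f8289e1f3bd8bdc, (rh33e738c4ed385b9f.shift 1 1)] (by decide +kernel))
noncomputable def rhfe4cfee4125bbec4 : CRef := CRef.mk (Pat.mk 0x10000000100000001e000000000000000000000000 0xc0000003e000000f60000003e0000001f0000001e000000340000000400000004 12 8) 0 0 (step_sound _ 68 [rh51db979f1b467076, (rhe25b0a99195a5d59.shift 1 2)] (by decide +kernel))
noncomputable def rhb783cf5782872bd9 : CRef := CRef.mk (Pat.mk 0x2000000120000000200000002000000000000000000000000 0x2000000038000001fd000001ff000001ff000001fb000003fe000001fa000001fb0000003f0000002f00000005 12 10) 0 0 (step_sound _ 65 [(rh7928877f9bf74a91.shift 0 1), rh8cdd36b03d57a2f6, (rhe4d1a2377ebfa79a.shift 0 1)] (by decide +kernel))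
noncomputable def rh0060309cb382f6cc : CRef := CRef.mk (Pat.mk 0x20000000200000012000000020000000200000002000000000000000000000000 0x2e0000003e0000003b000000360000003e0000007b0000003f0000007e0000003800000028 12 7) 0 0 (step_sound _ 162 [rh0b8673030da2e655, (rh237041c41aecf93d.shift 1 2), rh56798eeb35e1a7af] (by decide +kernel))
noncomputable def rhba979cee78b71a1a : CRef := CRef.mk (Pat.mk 0x200000012000000020000000200000002000000000000000000000000 0x250000007f0000003f0000007b000000360000003e0000007b0000003e0000007f0000003f0000002d 12 7) 0 0 (step_sound _ 162 [rh39187e4877609442, (rh64bc0dab78a08b48.shift 0 4), rhffb8e5993241bf15] (by decide +kernel))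
noncomputable def rhe881a2948400ef77 : CRef := CRef.mk (Pat.mk 0x40000000080000004800000008000000080000000400000000 0x80000000d0000000fc000000df000000cc000000e8000000f8000000280000000c00000004 12 8) 0 0 (step_sound _ 2 [(rh667ef5be7b36e50a.shift 0 2), (rheea67dfebd0f8008.shift 2 0)] (by decide +kernel))
noncomputable def rh0055e5bf52d0ee6a : CRef := CRef.mk (Pat.mk 0x120000001200000002000000010000000000000000 0x800000018000000380000003e0000003e0000001a0000003f0000003f0000002c 12 6) 0 0 (step_sound _ 65 [(rh5ab4287804891cf4.shift 1 0), (rh932754581e0f4330.shift 0 1)] (by decide +kernel))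
noncomputable def rh9072c77a63d46ec9 : CRef := CRef.mk (Pat.mk 0x400000024000000040000000700000000000000000000000000000000 0x80000000c0000000c000000560000007c0000007e000003f7000001fc000003fc0000007000000050 12 10) 0 0 (step_sound _ 163 [(rh5d410e570082021e.shift 1 4), (rh80f90a60d87caa0d.shift 0 4), (rhcd1581910059398c.shift 1 0)] (by decide +kernel))
noncomputable def rhb8e18efd6a18e787 : CRef := CRef.mk (Pat.mk 0x20000001a00000002000000010000000000000000 0x20000000380000003d0000007f0000003e0000007b000000fa000000fb000000f90000003800000028 12 8) 0 0 (step_sound _ 193 [(rh79877ebd3ef475dd.shift 0 2), rhe255f8fdc9c5150f] (by decide +kernel))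
noncomputable def rh53e5c0f9074a77a0 : CRef := CRef.mk (Pat.mk 0x200000012000000020000000300000000000000000000000000000000 0x2d0000003f0000007f0000003e0000007b000000360000003f0000003b0000003e0000003f0000003f0000002d 12 7) 0 0 (step_sound _ 257 [(rh79877ebd3ef475dd.shift 0 4), rhda6e1f2ca2751ef1] (by decide +kernel))
noncomputable def rh02c8a45adc5fb5af : CRef := CRef.mk (Pat.mk 0x4000000240000000400000007000000000000000000000000 0x500000007a000000fe0000007c000000f6000000f4000001fe000001f7000001f00000007000000050 12 9) 0 0 (step_sound _ 132 [(rh34cf6fe47673ef0d.shift 1 2), (rh4fd54f6717f3e7ac.shift 0 3), (rh59f96a820dec261a.shift 1 0), (rhc01297d01040f971.shift 0 3)] (by decide +kernel))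
noncomputable def rhe2f648f459684a60 : CRef := CRef.mk (Pat.mk 0x2000000020000001a000000020000000000000000 0x2800000038000000380000007c0000003e0000007b000000fa000000fa000000f800000028 12 8) 0 0 (step_sound _ 162 [(rh2f68792b6b779e96.shift 1 2), rha0e8f30c75586568] (by decide +kernel))
noncomputable def rh2e195db1995979c6 : CRef := CRef.mk (Pat.mk 0x4000000040000002400000004000000050000000000000000 0x5a0000007e000000fe0000007c000000f60000006c0000007e000000f70000007c000000fc 12 8) 0 0 (step_sound _ 99 [(rh02b77586da1d48e0.shift 1 0), rh61e0907026ee9772, (rhba97f7f4ade5e136.shift 1 3)] (by decide +kernel))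
noncomputable def rha0e4e4480b572d2b : CRef := CRef.mk (Pat.mk 0x4000000040000002400000004000000050000000000000000 0x400000004000000e60000007c000000fe000000f70000007c000000fc 12 8) 0 0 (step_sound _ 99 [(rh0bcc79e3668262a3.shift 1 3), rh61e0907026ee9772, (rh6c8cf47a0b8c0fba.shift 1 2), rh75e73ae4d0984481, (rh7e375d4b2545e977.shift 1 3), (rhbeb3da6e65bdb5c7.shift 1 3)] (by decide +kernel))
noncomputable def rh1bc20e12ef9b572e : CRef := CRef.mk (Pat.mk 0x20000000200000012000000020000000000000000 0x29000001ff000000ff000001fe0000007b0000003a0000003f0000003900000028 12 9) 0 0 (step_sound _ 64 [rh697eccabb79ec499, (rh932754581e0f4330.shift 0 1)] (by decide +kernel))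
noncomputable def rh1fadd03f9f0ae343 : CRef := CRef.mk (Pat.mk 0x80000000800000048000000080000000800000000000000000000000000000000 0xb0000007f8000003ff000007ec000001d8000007fc000003ec000007f8000000f8000000f0000000a0 12 11) 0 0 (step_sound _ 130 [rh5c289d79768c0e51, (rh79877ebd3ef475dd.shift 2 4)] (by decide +kernel))
noncomputable def rh5dc68a890cae2e75 : CRef := CRef.mk (Pat.mk 0x400000004000000240000000400000005000000000000000000000000 0x3400000036000000f60000007c000000fe000000f70000007c0000007c00000060 12 8) 0 0 (step_sound _ 193 [(rh50fbb5868c909700.shift 1 3), rhfb62c099d1a6601c] (by decide +kernel))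
noncomputable def rh2b2cd9c904c96d60 : CRef := CRef.mk (Pat.mk 0x80000000800000048000000280000000800000000 0x20000000e0000000f0000000fc000000cf000000e8000000fc000000cc00000080 12 8) 0 0 (step_sound _ 34 [rh45fe544c996230b4, (rh79877ebd3ef475dd.shift 2 1)] (by decide +kernel))
noncomputable def rhc4659ca4defee4bc : CRef := CRef.mk (Pat.mk 0x200000002000000120000000a0000000200000000000000000000000000000000 0x2c0000003e0000003f0000003b0000007a000000fe000000fb000000f8000000380000003800000028 12 8) 0 0 (step_sound _ 290 [rh6a8864537193c72b, (rhbaefcd01e0a8bca3.shift 1 5)] (by decide +kernel))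
noncomputable def rh5116efaa1566f554 : CRef := CRef.mk (Pat.mk 0x100000000200000012000000020000000200000000 0x28000000380000003800000030000000310000007b000000fe000000fa000000fa00000028 12 8) 0 0 (step_sound _ 128 [(rh50fbb5868c909700.shift 0 1), rh517e324c41c160e4] (by decide +kernel))
noncomputable def rh305c9c720bdfa936 : CRef := CRef.mk (Pat.mk 0x1200000002000000120000000200000002000000000000000000000000 0x2800000038000000390000003b0000003f0000003a0000003e0000003b0000003a0000003f0000002700000005 12 6) 0 0 (step_sound _ 256 [rhd538c3600d8b9013, (rhffd04209dc8ea796.shift 0 4)] (by decide +kernel))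
noncomputable def rh67afac332c785b09 : CRef := CRef.mk (Pat.mk 0x10000000020000001200000002000000020000000000000000 0x28000000380000003c0000003f0000003700000033000000360000003e0000003a0000003800000020 12 6) 0 0 (step_sound _ 192 [rh8fa1abc39499f16a, (rhffd04209dc8ea796.shift 0 2)] (by decide +kernel))
noncomputable def rha51b92e7baa1a2e3 : CRef := CRef.mk (Pat.mk 0x11000000020000001200000002000000000000000000000000 0x28000000f8000000f9000000ff0000007a000000360000003e000000380000003800000020 12 8) 0 0 (step_sound _ 193 [rh24f3fd8c1fc167f8, (rh50fbb5868c909700.shift 0 3)] (by decide +kernel))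
noncomputable def rh0c1e70b5b827bc3e : CRef := CRef.mk (Pat.mk 0x10000000020000001200000002000000020000000000000000 0x28000001f8000000ff000000fb0000003b000000360000003e0000003a0000003800000020 12 9) 0 0 (step_sound _ 192 [rhb80bcb3ed4ba4e0f, (rhffd04209dc8ea796.shift 0 2)] (by decide +kernel))
noncomputable def rhe965886c937508b7 : CRef := CRef.mk (Pat.mk 0x10000000000000001200000002000000020000000200000000 0x28000000f8000000fc000000fc00000038000000360000003e0000003a0000003f00000025 12 8) 0 0 (step_sound _ 32 [rh932754581e0f4330, (rhcfb3a683dd36fba7.shift 1 0)] (by decide +kernel))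
noncomputable def rhf8c8fa8cf2a8ecf8 : CRef := CRef.mk (Pat.mk 0x1000000000000000120000000200000002000000020000000000000000 0x28000000f8000000fc000000fc00000038000000360000003e0000003a0000003b0000002300000001 12 8) 0 0 (step_sound _ 32 [(rh79877ebd3ef475dd.shift 0 1), rhfbb2847c953bd96e] (by decide +kernel))
noncomputable def rh50d2ecc18602b12e : CRef := CRef.mk (Pat.mk 0x100000000200000012000000020000000200000000 0x2d0000003f0000003b0000003a000001fe000000fa00000028 12 9) 0 0 (step_sound _ 160 [rh2b756de00f35f3dc, (rhffd04209dc8ea796.shift 0 1)] (by decide +kernel))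
noncomputable def rhb4d9b8784318731b : CRef := CRef.mk (Pat.mk 0x11000000020000001200000002000000000000000000000000 0x1000000038000001f8000000f9000001fb0000007a0000003a000001fe000000f80000003800000020 12 9) 0 0 (step_sound _ 224 [(rh0550fba0bd4472a0.shift 1 0), (rhcfdf45280693d3da.shift 0 3)] (by decide +kernel))
noncomputable def rh4dee656191afb73d : CRef := CRef.mk (Pat.mk 0x1100000002000000120000000200000002000000000000000000000000 0x1000000038000001f8000000ff000000fb0000003a0000003a000001fe000000fa0000003f0000002700000005 12 9) 0 0 (step_sound _ 225 [rh3f7d37c01aba03ab, (rh50fbb5868c909700.shift 0 4)] (by decide +kernel))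
noncomputable def rh76ceb8f7df64b275 : CRef := CRef.mk (Pat.mk 0x120000000200000002000000000000000000000000 0x1800000018000000780000007e0000007f0000003a0000003f0000003f00000025 12 7) 0 0 (step_sound _ 65 [rh8cdd36b03d57a2f6, rh9c6daa4e67941a37, rhca7ee318956983a9, rhf2b7d58ac22c102c] (by decide +kernel))
noncomputable def rh5a9af2431b10f070 : CRef := CRef.mk (Pat.mk 0x400000004000000040000000500000004000000000000000000000000 0x700000007200000076000000fc0000007e000000f7000001fc000000fe000001fe0000002a 12 9) 0 0 (step_sound _ 163 [(rh1b9022be4f7af407.shift 1 0), (rh301a6b3a9154ed36.shift 2 1), (rh8518005625bff8f2.shift 0 1), rh8a6ae825e155976a, rhfb8305f532108368] (by decide +kernel))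
noncomputable def rhd36e00a2fcc9623f : CRef := CRef.mk (Pat.mk 0x10000000100000001000000000 0x28000000380000003800000010000001ff000000fe000001ef 12 9) 0 0 (step_sound _ 132 [rh37c0f6c7fe66a183, (rhc85cc95794737cf7.shift 3 1), (rhc9ac229b3c77cd55.shift 3 0), (rhced6d86d2069808b.shift 4 0)] (by decide +kernel))
noncomputable def rh5fcb7b1958bdee2f : CRef := CRef.mk (Pat.mk 0x3000000014000000000000000000000000 0x78000000fc000007ef000003fe000007f6000001e0000001c0000000c0 12 11) 0 0 (step_sound _ 131 [(rh6cc90b92cddb9f0d.shift 1 3), (rh958f7c56f83bf864.shift 2 0), (rhb2de7aa0384527c8.shift 0 3), (rhd526f9b20c752965.shift 1 3)] (by decide +kernel))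
noncomputable def rh59b5a2ed64bf7382 : CRef := CRef.mk (Pat.mk 0x2000000080000000a000000000 0x50000000f0000001f0000003fe000003fe000001ff000007f8000007bc00000110 12 11) 0 0 (step_sound _ 69 [(rh59008422bece86f5.shift 1 0), (rh64a2ba9fbfdb5a9f.shift 2 0), (rhc1e81736b21431ce.shift 2 1), (rhd56a4a5877d51392.shift 3 0), (rhe192f7cf022cd93c.shift 2 0), rhebe4e6a2f627d52d] (by decide +kernel))
noncomputable def rhbac58764f5189c0b : CRef := CRef.mk (Pat.mk 0x100000004000000050000000000000000000000000 0x50000007fc000003ff00003ffe00001fff00003fd8000007800000070000000700 12 14) 0 0 (step_sound _ 135 [(rh0aa175c922eeb3f4.shift 3 0), (rh156927a79b723172.shift 3 3), (rh195287f5ec253469.shift 2 2), (rh388fe786a49364d0.shift 2 2), (rh44eb76741580de7e.shift 2 3), (rh66b644e81d34550c.shift 2 3), (rhcfe0483b91c2bac3.shift 2 2), rhddddb297fd6e297f] (by decide +kernel))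
noncomputable def rhca950fd9ff47afd3 : CRef := CRef.mk (Pat.mk 0x40000001000000014000000000000000000000000 0x38000001f8000000fc00000fff000007fe00000ff6000001e0000001c0000001c0 12 12) 0 0 (step_sound _ 133 [(rh0aa175c922eeb3f4.shift 1 0), (rh156927a79b723172.shift 1 3), (rh2a07d2080a0ad71e.shift 1 2), (rh388fe786a49364d0.shift 0 2), (rh44eb76741580de7e.shift 0 3), (rh66b644e81d34550c.shift 0 3)] (by decide +kernel))
noncomputable def rh81cf88522447bb12 : CRef := CRef.mk (Pat.mk 0x100000004000000050000000000000000000000000 0xb0000007f8000003f700003ffe00001fff00003fd8000007800000070000000700 12 14) 0 0 (step_sound _ 135 [(rh0aa175c922eeb3f4.shift 3 0), (rh156927a79b723172.shift 3 3), (rh2a07d2080a0ad71e.shift 3 2), (rh44eb76741580de7e.shift 2 3), (rh66b644e81d34550c.shift 2 3), (rh6fa27c949f3fa255.shift 3 3), (rhcfe0483b91c2bac3.shift 2 2), rhddddb297fd6e297f] (by decide +kernel))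
noncomputable def rhc1299508bf589dad : CRef := CRef.mk (Pat.mk 0x8000000280000002800000000 0x140000001c0000007c0000007c000001ff000003fc000001f8000003ec00000044 12 10) 0 0 (step_sound _ 131 [(rh1e6b4cbeee7f35ff.shift 2 1), rh92a1592b2111889d, (rhc85cc95794737cf7.shift 2 1), (rhe976514856156274.shift 2 0), (rhfeab431f3a3df3cf.shift 1 0)] (by decide +kernel))
noncomputable def rh7f5f1aa63a9c0aa1 : CRef := CRef.mk (Pat.mk 0x80000003800000028 0x60000000f7000000ff0000007c0000003e00000068 12 8) 0 0 (step_sound _ 34 [rh3b2521151ef2d08d, (rhe25b0a99195a5d59.shift 2 0)] (by decide +kernel))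
noncomputable def rhcd3e35749f2db8e3 : CRef := CRef.mk (Pat.mk 0x40000001000000014000000000 0xa0000001e0000001e0000007ff000007fe00001dff00000ffc00001f7c00000220 12 13) 0 0 (step_sound _ 70 [(rh5eca447a38a9245a.shift 2 0), rh60d66774b56d7c38, (rhc1e81736b21431ce.shift 3 1), (rhc5e8dced01a47cd0.shift 1 1), (rhe192f7cf022cd93c.shift 3 0)] (by decide +kernel))
noncomputable def rhb4d7750a62b356ee : CRef := CRef.mk (Pat.mk 0x2000000180000000a000000000 0x50000001fe000000fe000001bf000001f0000003b000000010 12 10) 0 0 (step_sound _ 69 [(rh01e48cd9f335aa73.shift 4 1), (rh5f6f4b204f5806fb.shift 4 1), rh8b1865c1348c488e, (rhe32601bd65ae7334.shift 4 1)] (by decide +kernel))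
noncomputable def rh91e150f8125f7011 : CRef := CRef.mk (Pat.mk 0x4000000040000003000000014000000000 0x6000000060000003ff000001fe000003ff00000f600000036000000220 12 12) 0 0 (step_sound _ 70 [(rh0b8037bf163fee66.shift 1 0), (rh4a614fd7f0458c43.shift 5 0), (rh968ba7b0df7e4096.shift 5 0), (rhcc26e19be369589b.shift 1 0), (rhd0a3cae59c969856.shift 1 0), rhe0952df1dada1713] (by decide +kernel))
noncomputable def rh4de988b695b85e0a : CRef := CRef.mk (Pat.mk 0x200000002000000180000000b00000000000000000 0x50000000fc000000fe000000be000000ff000001fe000001bf000001be0000010e0000000a 12 9) 0 0 (step_sound _ 132 [(rh435df62d93b5eb9e.shift 0 2), (rh5e60ede20b4bb1ea.shift 3 1), (rh60e3a6ab9c03ef60.shift 1 1), rh6dc9cbcfd33bc69d, rh73ae3128c082cda9, (rhdade15c283d7c7ca.shift 1 2), (rhdd1d21edd2f0f758.shift 1 1)] (by decide +kernel))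
noncomputable def rhfb9a20685efeeb73 : CRef := CRef.mk (Pat.mk 0x10000000d00000005000000000 0x8000001f8000000f8000007ff000003fe000007ff000000d0000000d800000088 12 11) 0 0 (step_sound _ 132 [(rh0441515447a0c637.shift 3 0), (rh4190ba02f7bc1b89.shift 0 1), (rh7bf23a8bae572535.shift 1 0), (rh9975e231aa9016d9.shift 1 0), (rhb2d61dd5cba2c1cf.shift 1 0), (rhc85cc95794737cf7.shift 3 1)] (by decide +kernel))
noncomputable def rhadbabf2a67df647a : CRef := CRef.mk (Pat.mk 0x14000000300000001400000000 0x280000003800000078000007f7000003fe000007f6000001b4000001f4000001e0 12 11) 0 0 (step_sound _ 132 [rh4cc65e215cebe184, (rhd4b4beefcd67f51e.shift 4 0), (rhe23054e99b6042c1.shift 0 1)] (by decide +kernel))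
noncomputable def rhebd475eb34650d31 : CRef := CRef.mk (Pat.mk 0x3000000060000000500000000000000000 0x79000001ff000001ff000001f70000007f000000d70000000700000005 12 9) 0 0 (step_sound _ 100 [(rh1b4545df667d6f4e.shift 1 2), (rh94cd0b26ab2bc2ec.shift 2 2), rhe44160d303a8369e] (by decide +kernel))
noncomputable def rh75b1b8852c98ab68 : CRef := CRef.mk (Pat.mk 0x40000001800000010000000000000000000000000 0xa0000000e0000000e000003fe000001fc00000fff000007f800000ff0000001e0000001c0000001c0 12 12) 0 0 (step_sound _ 133 [(rh0b631cd33528a290.shift 0 2), (rh8c12fdbbddc1e7ab.shift 0 4), (rhf443821dde1fafe8.shift 3 0)] (by decide +kernel))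
noncomputable def rhd06935be922a2fcc : CRef := CRef.mk (Pat.mk 0x4000000340000001400000000000000000 0x280000007e8000003e800001f6f00001ffe00001fff00000370000007600000062000000400 12 13) 0 0 (step_sound _ 166 [(rh11f7664b414f842b.shift 5 1), (rh54e1d849273c0586.shift 5 0), (rh882f14d602d371fa.shift 0 1), (rh890a8e02137c17f0.shift 5 1), (rh968ba7b0df7e4096.shift 5 1)] (by decide +kernel))
noncomputable def rhf9fbd233c874179d : CRef := CRef.mk (Pat.mk 0x6000000180000000200000000000000000 0x140000001c0000001c0000001c000000ff000000fe0000019f0000003e0000001f0000000e 12 9) 0 0 (step_sound _ 132 [rh68dde72b8cf8910c, (rhd6e447e81774439e.shift 4 3)] (by decide +kernel))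
noncomputable def rh99b592d8c87c9a7e : CRef := CRef.mk (Pat.mk 0x6000000180000000a0000000000000000000000000 0x140000001c0000001c0000061c000006ff00003e7e00001fdf00003fbe00000e1f00000e0e00000a00 12 14) 0 0 (step_sound _ 164 [(rh68dde72b8cf8910c.shift 0 1), (rh88c620441a3a17ea.shift 1 4), (rhd4f2f9f1049fd380.shift 5 0)] (by decide +kernel))
noncomputable def rhbbc4df7e2fd2098a : CRef := CRef.mk (Pat.mk 0x1000000060000000c000000000000000000000000 0x800000038000000380000003a0000003b0000007f0000007e0000007c000000f80000003000000030 12 8) 0 0 (step_sound _ 132 [(rh6f775f978862c9e7.shift 0 3), (rh9a042fd7cddc3db0.shift 0 2), (rha4cfe280fdbbd856.shift 0 3), (rhae50c1447d90cfc4.shift 1 0), rhf7a638f47d9afeb4] (by decide +kernel))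
noncomputable def rh4cd9f89a51c1f8d1 : CRef := CRef.mk (Pat.mk 0x1000000010000000500000001000000000 0x2f000000ff000000fe000000f00000001e00000008 12 8) 0 0 (step_sound _ 133 [(rh2f68792b6b779e96.shift 4 1), rh6f2b076394907b3d] (by decide +kernel))
noncomputable def rh43e36b0d382eb482 : CRef := CRef.mk (Pat.mk 0x800000008000000280000000800000000 0x3800000078000000fe000000fe000000780000000f00000004 12 8) 0 0 (step_sound _ 164 [(rhbaefcd01e0a8bca3.shift 3 1), rhc70edd329c35d2db] (by decide +kernel))
noncomputable def rh438fde9aee604939 : CRef := CRef.mk (Pat.mk 0x20000000a0000000a0 0x5000000070000001f0000001f0000003f7000007fe000001f7000000a0 12 11) 0 0 (step_sound _ 101 [(rh1741680720c097b4.shift 4 0), (rh27168111a952b2bc.shift 4 0), (rh73f244cb123fbd51.shift 4 0), rh92d224a21890c9cc, (rhab7b354cbe75fc29.shift 4 0), (rhae054e77ecf261e7.shift 2 0)] (by decide +kernel))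
noncomputable def rh0ae844714bd1ac37 : CRef := CRef.mk (Pat.mk 0x600000002000000020000000200000000 0x18000000f90000007f000000fe0000003f0000003e00000074 12 8) 0 0 (step_sound _ 131 [(rh26852ec9b94e66b1.shift 1 1), rh4a6028d5f8c9a5fe, rh63ed930e762323ed, rh821ceb63185686e5, (rhff94ef9c201f4a80.shift 0 1)] (by decide +kernel))
noncomputable def rhcb32f3b2282fa04d : CRef := CRef.mk (Pat.mk 0x2000000020000000a0000000a0000000000000000 0x770000003e000000ff000001fe000001fe000000fb000001f100000020 12 9) 0 0 (step_sound _ 132 [(rh58b9c71f70493c53.shift 0 1), (rha8716ee0b850be36.shift 0 1), rhae58c5f3be28ab5c, (rhc3ab76491af8db06.shift 0 1), (rhcb208271135f1e0c.shift 0 1), (rhd458216ef1014004.shift 0 2), rhe9fc8535327a5549] (by decide +kernel))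
noncomputable def rh91eeeeabe61d4cb9 : CRef := CRef.mk (Pat.mk 0x10000000500000005000000000 0x28000000b8000000ff000001fe000007f7000003fe000007d700000080 12 11) 0 0 (step_sound _ 132 [(rh050df855956b14ee.shift 0 1), (rh1741680720c097b4.shift 3 1), (rh88347663ed478970.shift 0 1), rh8c43b87d08b08d11, (rh94bbbc071487713d.shift 3 1), (rhf4a8a567d4af2496.shift 3 1)] (by decide +kernel))
noncomputable def rh6e182dad811ef741 : CRef := CRef.mk (Pat.mk 0x400000004000000140000001400000000 0x280000003800000038000001fa000000ff000001ff0000001c0000001600000002 12 9) 0 0 (step_sound _ 131 [(rh2f68792b6b779e96.shift 2 1), rhfdc38974cd83784a] (by decide +kernel))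
noncomputable def rh54bb467a549d3c30 : CRef := CRef.mk (Pat.mk 0x10000000100000005000000050000000000000000000000000 0xc0000001f0000007f0000007f000000df0000000f0000000200000002 12 8) 0 0 (step_sound _ 195 [rh377a350270327f66, (rh50fbb5868c909700.shift 3 3)] (by decide +kernel))
noncomputable def rh89422dd8ab0fb424 : CRef := CRef.mk (Pat.mk 0x200000002000000080000000a0000000000000000000000000 0x50000000720000007e0000007e0000007e000000ff000001be0000001f0000000c0000000c 12 9) 0 0 (step_sound _ 133 [rh1176e28110b6206b, (rh4f8dccb4319ca5c2.shift 4 3), (rh5566a532e71d371e.shift 4 3), (rh9f0212359c7333ba.shift 3 2), (rhc85cc95794737cf7.shift 4 3)] (by decide +kernel))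
noncomputable def rh0bb06d52d861cd81 : CRef := CRef.mk (Pat.mk 0x18000000080000002000000028 0x3e0000003e000000f7000000ff0000001f0000003800000028 12 8) 0 0 (step_sound _ 132 [(rh9e3edb185cc347de.shift 3 0), rhbfe6730dd07523cb] (by decide +kernel))
noncomputable def rh1cddf45d7b5ffa16 : CRef := CRef.mk (Pat.mk 0x4000000040000001000000014000000000 0xa0000000e0000000f4000000fc000001dc000003ff000003fe000001ff0000037c00000038 12 10) 0 0 (step_sound _ 166 [(rh25c6e38466d8f65e.shift 2 1), rh7923d26ec3cc7b73, (rh79b910961aa09fed.shift 3 2), (rha227e5c849a93908.shift 5 0), (rhb7fa7f50744d4621.shift 2 1), (rhc3f24256494b42ed.shift 2 1), rhe35f03accbf9a2bd] (by decide +kernel))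
noncomputable def rhf91ea6e1bb0c73ba : CRef := CRef.mk (Pat.mk 0x4000000040000001000000014000000000 0xa0000000f4000003fc000003fc000007ff000007fe000001ff0000035e00000018 12 11) 0 0 (step_sound _ 70 [(rh41f24a9770a538f4.shift 2 1), (rh4f8dccb4319ca5c2.shift 5 1), (rh5566a532e71d371e.shift 5 1), rhaa077401de9fb841, (rhc85cc95794737cf7.shift 5 1), (rhe73f9bc2c5f53c07.shift 1 0), (rhed2e036209205dbe.shift 2 1)] (by decide +kernel))
noncomputable def rh8ffb52597a3d2f69 : CRef := CRef.mk (Pat.mk 0x8000000080000000800000000 0x14000000ff0000007e000000ef0000001f0000000f00000005 12 8) 0 0 (step_sound _ 131 [(rh1741680720c097b4.shift 2 1), (rh20966da26a1c2ae8.shift 2 0), (rh771d065bdc85bf2d.shift 2 0), rhc401d859d3ec4696] (by decide +kernel))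
noncomputable def rhc35d5c21537963db : CRef := CRef.mk (Pat.mk 0x3000000010000000400000004000000000 0x7c0000007c000000ff000000ff0000003e0000006e0000004c0000000c 12 8) 0 0 (step_sound _ 99 [(rh0bb882ba86b2372d.shift 1 3), (rh3b915a8446bc88cf.shift 1 2), (rhaba4a92584cac50e.shift 1 1), rhad62162a64750d72] (by decide +kernel))
noncomputable def rh47bdad8508f88b88 : CRef := CRef.mk (Pat.mk 0x8000000280000002800000000 0x140000007f0000007e0000006f0000006c0000006c00000044 12 7) 0 0 (step_sound _ 131 [(rh3b734c5288922837.shift 2 0), rh8db23a47e2bea1ec, (rh968ba7b0df7e4096.shift 2 0), (rhc85cc95794737cf7.shift 2 1)] (by decide +kernel))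
noncomputable def rh8e14e6f8130eb8fb : CRef := CRef.mk (Pat.mk 0x200000000800000028000000280000000000000000 0x74000000bc000000fc000001ef000000f8000001ec000000c400000080 12 9) 0 0 (step_sound _ 163 [(rh050ba4845bc36a47.shift 2 1), (rh1741680720c097b4.shift 2 2), (rh476e93239feff8f4.shift 2 0), (rh57b469c1bf70b264.shift 0 2), (rhd02a409f46aa0095.shift 2 0)] (by decide +kernel))
noncomputable def rh6ea5802055572886 : CRef := CRef.mk (Pat.mk 0xa000000020000000a0000000200000000 0x140000001f0000001f0000001f0000000e0000007b0000003e0000007300000001 12 7) 0 0 (step_sound _ 162 [rh1d88455a9660a97d, (rhbaefcd01e0a8bca3.shift 1 1)] (by decide +kernel))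
noncomputable def rhdbce6cf12d514d49 : CRef := CRef.mk (Pat.mk 0xa000000020000000a0000000200000000 0x140000001c0000007c0000003e0000006f0000007b0000007e0000007300000001 12 7) 0 0 (step_sound _ 162 [(rhbaefcd01e0a8bca3.shift 1 1), rhee9382026279a95a] (by decide +kernel))
noncomputable def rh1ae536616f1ff4b9 : CRef := CRef.mk (Pat.mk 0xa000000020000000a0000000200000000 0x140000001d0000007f0000003f0000006b0000007b0000007e0000007300000001 12 7) 0 0 (step_sound _ 68 [(rh1e9214321d63d1cb.shift 0 1), rh5710f30ba40ee3ec, (rh92804a1c675173ab.shift 0 1)] (by decide +kernel))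
noncomputable def rh124c79dd368bc9bc : CRef := CRef.mk (Pat.mk 0x1800000000000000080000000800000000 0x2000000020000000ee000003ff000001fc000003f8000000e8000000f800000010 12 10) 0 0 (step_sound _ 162 [(rh1e5903b22a849688.shift 2 1), (rh235062dea8794790.shift 1 1), rh6c580f24b1805cb1, (rhbb884d32f52b0bd3.shift 0 2)] (by decide +kernel))
noncomputable def rh324d2552c51c8625 : CRef := CRef.mk (Pat.mk 0x80000006000000028000000000000000000000000000000000 0x10000000300000007000000070000003fc00007ffe00003f7f00007ef800003c38000038080000380000002800 12 15) 0 0 (step_sound _ 200 [(rh4c1da394ff107098.shift 3 5), rh81d48075f2176c51, (rh83ec37ff6e78b01f.shift 6 5), (rhda013643f001220b.shift 7 0)] (by decide +kernel))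
noncomputable def rh869fef49a04ca90e : CRef := CRef.mk (Pat.mk 0x1c00000004000000000000000000000000 0x2800000038000003ff000001ff000003ff000000fc0000001e000000fc000000380000002000000020 12 10) 0 0 (step_sound _ 164 [(rh80b0d3629d5a06b4.shift 1 2), rh8611469af202623a, (rhb5ef26bf4695eaed.shift 0 1), (rhff7d63dcb3cf9f74.shift 1 4)] (by decide +kernel))
noncomputable def rhe7582cd528b900a6 : CRef := CRef.mk (Pat.mk 0x800000060000000280000000000000000000000000 0x10000000300000057000001f7000001ffc00007bfe00003f7f00007ef800003c380000380800002800 12 15) 0 0 (step_sound _ 168 [rh0ee9a4e47ca3d8d7, (rh2dddca5acd602e27.shift 6 2), (rh4c1da394ff107098.shift 3 4), (rhcb314c62841a3e20.shift 7 0)] (by decide +kernel))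
noncomputable def rh9b28d424038a0919 : CRef := CRef.mk (Pat.mk 0x8000000010000000c000000040 0x50000000700000007c000001f0000007f7000000fe000000e700000040 12 11) 0 0 (step_sound _ 135 [(rh3c88ce959c0e423f.shift 6 0), rh3f1436b8303ab6aa] (by decide +kernel))
noncomputable def rhe6f342cbe6aa9cf3 : CRef := CRef.mk (Pat.mk 0x140000000600000002000000000000000000000000 0x280000003800000038000000360000003f000000fe000000fc000000f800000028 12 8) 0 0 (step_sound _ 132 [(rh09cc63d7f7fdcb16.shift 1 3), rh23b2dcbe0c3fb5c6, (rh45ad8a9e130f3cac.shift 1 0), (rh62e913175de1089f.shift 1 3), rh880e067ff91082cc] (by decide +kernel))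
noncomputable def rh6c8670676ab21905 : CRef := CRef.mk (Pat.mk 0x1c000000100000001000000000 0xa0000003e0000003e0000003f000000ff0000007c000000180000003000000020 12 8) 0 0 (step_sound _ 132 [(rh4017de503635a93b.shift 2 1), (rh684e729394fba19d.shift 2 1), (rhca9122a6bf90113c.shift 3 1), rhea6f1441a86601f2] (by decide +kernel))
noncomputable def rh0e106a437ea993ec : CRef := CRef.mk (Pat.mk 0x280000002000000028 0x1e0000003e0000007f000003bf000003ff000007ef0000006c 12 11) 0 0 (step_sound _ 68 [rh72e5ad6e78acbba9, (rh8ee80cc30e93a344.shift 2 1), (rhc92c11e8da6c894f.shift 0 1), (rhee6346c05b5c0165.shift 2 0)] (by decide +kernel))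
noncomputable def rhce6b46f9d5b2f846 : CRef := CRef.mk (Pat.mk 0xc000000200000002000000000 0x110000001f0000001f0000007e000001fff00000ffc00001fe0000000c0 12 13) 0 0 (step_sound _ 68 [(rh63a031f964c89818.shift 2 0), (rh95f73988d2dec2c0.shift 0 2), (rhe753c2bd6bb4eeba.shift 0 2), (rhea9d76a9bbea3b7a.shift 2 0)] (by decide +kernel))
noncomputable def rhd6f8f421af168105 : CRef := CRef.mk (Pat.mk 0x380000004000000010 0x3c000000ff0000003c000000dc000000f8000000d000000010 12 8) 0 0 (step_sound _ 70 [rh2e8f472a6c14e2b9, (rhe25b0a99195a5d59.shift 3 1)] (by decide +kernel))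
noncomputable def rh7d9a45e3523c9fe6 : CRef := CRef.mk (Pat.mk 0x160000001400000014000000000000000000000000 0x20000000380000003f000001fe000001f7000001f6000003fc000001f4000003e0000000c0000000c0 12 10) 0 0 (step_sound _ 196 [(rh21f37ae5100bfc72.shift 0 3), (rh23abf5530e846b74.shift 1 2), (rh25208373db83e521.shift 4 2), (rha087c6594f4bfb59.shift 3 2), (rhb15385b57be336da.shift 1 0), (rhbb1ad67c97f34bda.shift 3 3)] (by decide +kernel))
noncomputable def rh0972f54aa2f309d2 : CRef := CRef.mk (Pat.mk 0xf00000008000000000 0x2800000178000001f8000001f0000001f8000001bf000001fe0000009f00000010 12 9) 0 0 (step_sound _ 103 [rh1da675171d33b3c0, (rh33e738c4ed385b9f.shift 4 2)] (by decide +kernel))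
noncomputable def rh3abcacfc0272f79b : CRef := CRef.mk (Pat.mk 0xe000000100000001000000000 0x28000000380000003c0000003c000000370000003e0000003b0000003000000020 12 6) 0 0 (step_sound _ 100 [rh54c0e32793124138, (rhe25b0a99195a5d59.shift 1 2)] (by decide +kernel))
noncomputable def rh3fe368dc588371e9 : CRef := CRef.mk (Pat.mk 0xc0000002000000028000000000 0x3f8000007f8000004f800000eff000007fe000006ff000002f000000070 12 12) 0 0 (step_sound _ 104 [rh4f7f962dd18bfa38, (rh7cc7ec967cdafdce.shift 5 1), (rh864a8b3d438149b9.shift 4 1), (rhb86e82985daeab9f.shift 5 1)] (by decide +kernel))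
noncomputable def rh4b3682f440d59b4a : CRef := CRef.mk (Pat.mk 0x800000018000000500000005000000000000000000000000000000000 0x500000007000000170000001f0000001b000000ff000000df0000000f000000070000000400000004 12 8) 0 0 (step_sound _ 165 [rh6ceb2df1d60d1b68, (rhf48373e13d2bc128.shift 3 5)] (by decide +kernel))
noncomputable def rh49aef3c4f798a4bb : CRef := CRef.mk (Pat.mk 0x80000001a000000000000000000000000000000000 0x1f8000007f8000007f8000000ff000001fe0000037f000000700000007000000050 12 11) 0 0 (step_sound _ 134 [(rh03c576d9c9ec39aa.shift 3 1), (rh52d73c7a54ff9084.shift 0 3), (rh592c7139d2c44767.shift 3 3), (rh72a81f495127369a.shift 2 3), (rh84efdb14278181c3.shift 4 0)] (by decide +kernel))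
noncomputable def rh2fc6751a6cc1fa89 : CRef := CRef.mk (Pat.mk 0x80000001a0000000000000000000000000 0x130000001700000037c000001ff000001fe000003ff0000003000000030 12 10) 0 0 (step_sound _ 102 [(rh01d64f4b25e9d366.shift 4 2), (rh52d73c7a54ff9084.shift 0 2), (rha3676cb6b15c7319.shift 1 2), (rhb6363206d06ef786.shift 2 0), (rhbd2f63518e230f9f.shift 0 2)] (by decide +kernel))
noncomputable def rh9e702cfa109ba6a7 : CRef := CRef.mk (Pat.mk 0x80000001a000000400000005000000000 0x3e0000003e000000370000001f0000001f000000f8000000dc00000008 12 8) 0 0 (step_sound _ 68 [(rh36cf33ca80b33456.shift 1 2), (rh39721980bec152d6.shift 2 0), rhf37594fd4701bff9] (by decide +kernel))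
noncomputable def rhc8863cadd8d7021f : CRef := CRef.mk (Pat.mk 0x80000001a00000040000000500000000000000000 0x3f0000003f000000370000001f0000001e000000ff000000df0000000f00000005 12 8) 0 0 (step_sound _ 100 [(rh36cf33ca80b33456.shift 1 3), (rh39721980bec152d6.shift 2 1), rhdcc49814a30aee5c] (by decide +kernel))
noncomputable def rh773271a2b7a8d430 : CRef := CRef.mk (Pat.mk 0x4000000100000001400000000 0x80000003a000003fe000001fe000001ff000001fe000003f600000022 12 10) 0 0 (step_sound _ 69 [(rh0f1c24c405c33a5f.shift 1 1), (rh1a4801c9c2b439f3.shift 0 1), (rh24f961d4f3219eb6.shift 1 1), (rhc40e4b265e7b571d.shift 1 0), rhc7dc28b00ef23689] (by decide +kernel))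
noncomputable def rh540172296628ae41 : CRef := CRef.mk (Pat.mk 0x80000000a0000000000000008000000000000000000000000 0x7000000070000003ff000001ff000003fb000000780000006c0000001c0000001c00000014 12 10) 0 0 (step_sound _ 196 [(rh3ffcd97c982c95c9.shift 0 3), (rh54688b88bc611f98.shift 0 3), (rh87ac23ce835a3079.shift 2 1), rhef5e1d127e49441f] (by decide +kernel))
noncomputable def rh79cf07f6fd757820 : CRef := CRef.mk (Pat.mk 0x40000000700000002000000000000000000000000 0x1c0000001c000000fe0000007f000000fa000000380000003800000030 12 8) 0 0 (step_sound _ 194 [(rh5c5e593799055d58.shift 1 3), rh61f3827ef0b2f77a] (by decide +kernel))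
noncomputable def rhc2cca545faad3422 : CRef := CRef.mk (Pat.mk 0x40000000180000001a000000000000000800000000 0xa0000000e8000000e8000000c8000000ff000000fb000000cc0000008c0000000c 12 8) 0 0 (step_sound _ 67 [(rh71222050f2c63a3a.shift 3 0), rhe291399706d7a6c3] (by decide +kernel))
noncomputable def rh41066d0998ca6d3b : CRef := CRef.mk (Pat.mk 0x1000000014000000000000001000000000 0x280000007f000000fe000000ff000001fe000000f6000000700000001000000010 12 9) 0 0 (step_sound _ 164 [(rh3bc66e0f0c23afc0.shift 1 0), (rh444668fa980be127.shift 1 0), (rh7dbf3fadd5e38bb3.shift 0 1), (rh926290641404bff9.shift 3 1), (rha9f58eac03eb1442.shift 2 2), (rhafbb7ba044af58b6.shift 0 2), (rhbb474d028d0902e9.shift 1 0), (rhdeed896270aa8ff9.shift 1 1)] (by decide +kernel))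
noncomputable def rhfeea7fc87be4502f : CRef := CRef.mk (Pat.mk 0x10000000100000000000000050000000000000000000000000 0x8000001ff000001fe000001ff000001fe00000074000000e0000000c0000000c0 12 9) 0 0 (step_sound _ 132 [(rh1d249646dc9164f7.shift 0 2), (rh56361ecf47c1e21c.shift 2 0), (rh5abfc4c9d959be03.shift 3 2), (rh996020ab42a45c0c.shift 0 3), (rhf5ff7163cec1ca85.shift 0 2)] (by decide +kernel))
noncomputable def rhffc04b400757e0f3 : CRef := CRef.mk (Pat.mk 0x10000000100000000000000050000000000000000000000000 0x20000001ff000001fe000001ff000001fe00000074000000e0000000c0000000c0 12 9) 0 0 (step_sound _ 132 [(rh124e7d11b64cb66b.shift 2 2), (rh1d249646dc9164f7.shift 0 2), (rh56361ecf47c1e21c.shift 2 0), (rh735c89bfeddbe03f.shift 0 3), (rh996020ab42a45c0c.shift 0 3), (rhced6d86d2069808b.shift 4 2), (rhf5ff7163cec1ca85.shift 0 2)] (by decide +kernel))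
noncomputable def rh5dc1a69f01196023 : CRef := CRef.mk (Pat.mk 0x200000002000000000000000a000000000 0x5000000070000000f8000001fc00000fff000007fe00000ffe000001be000000a000000080 12 12) 0 0 (step_sound _ 134 [(rh250020c4fdae81de.shift 0 1), (rh55c562420b73604d.shift 1 0), (rh6d7a5983fb7b2883.shift 1 1), (rh6edc0f7a853879f2.shift 2 0), (rh7c5e8a18f31458dd.shift 0 1), (rh85cdc2f2342666d2.shift 2 1), (rhae3692b409ffab93.shift 1 0), (rhbbde55dbe637d502.shift 1 0), (rhbd6105fa73442d0c.shift 0 1)] (by decide +kernel))
noncomputable def rhd690fe6a71a263aa : CRef := CRef.mk (Pat.mk 0x1000000010000000000000005000000000 0x2800000038000001ff000000fe000001de0000003e0000007400000020 12 9) 0 0 (step_sound _ 68 [(rh1741680720c097b4.shift 3 1), rh1d249646dc9164f7, (rh5abfc4c9d959be03.shift 3 0), (rha087c6594f4bfb59.shift 3 0), (rhced6d86d2069808b.shift 4 0)] (by decide +kernel))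
noncomputable def rh785b6a512d85b68e : CRef := CRef.mk (Pat.mk 0x10000000100000000000000010 0x280000003800000038000000380000003f000003ff000001ff000003ff00000030 12 10) 0 0 (step_sound _ 36 [(rh1741680720c097b4.shift 3 0), rh66ccce025332e556, rh735c89bfeddbe03f, rh9fe475f84662ade7, (rha1b581813ac7bf71.shift 1 0)] (by decide +kernel))
noncomputable def rhee3df4d0ce9a67aa : CRef := CRef.mk (Pat.mk 0x3000000010000000100000005000000000 0xa0000000e0000000e0000000e0000000f0000003e0000007f0000003e0000007000000020 12 7) 0 0 (step_sound _ 131 [(rh50fbb5868c909700.shift 3 1), rhb41a7341274b537b] (by decide +kernel))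
noncomputable def rhbb8b6f6d4be0399c : CRef := CRef.mk (Pat.mk 0x800000008000000000000000800000000 0x140000001c0000003c0000000f000001ff000000fe000001dc0000001800000010 12 9) 0 0 (step_sound _ 163 [(rh244fb68295ca61f9.shift 0 2), (rh706d0cf4df26f420.shift 2 1), (rh80f921ced2958b6d.shift 0 2), (rh8f94fa36ae1e9d19.shift 2 0), (rh9d7136f310a6612d.shift 0 2)] (by decide +kernel))
noncomputable def rhca8229d158cc6489 : CRef := CRef.mk (Pat.mk 0x10000000100000000000000050000000000000000000000000 0x28000000380000003e000000fe000000ff000003ff000001ff000003ff00000054000000e4000000e0000000a0 12 10) 0 0 (step_sound _ 132 [(rh1741680720c097b4.shift 3 3), (rh66ccce025332e556.shift 0 3), (rh735c89bfeddbe03f.shift 0 3), (rh7ab05995045277ae.shift 1 3), rh91ad7529bfd7abdb, (rh9fe475f84662ade7.shift 0 3)] (by decide +kernel))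
noncomputable def rhb916c8a97abc239a : CRef := CRef.mk (Pat.mk 0x10000000100000000000000050000000000000000000000000 0x2800000038000000f8000001fe000001fe000001f7000001fe000001ff00000070000000e0000000c0000000c0 12 9) 0 0 (step_sound _ 228 [(rh2fcd99b2f163ef01.shift 2 2), (rh470643bab8fffb15.shift 0 4), rh5291e25ed7012523, (rh706d0cf4df26f420.shift 3 3), (rhf9d2a08dfa934231.shift 4 2), (rhfc58d542a4a1a765.shift 1 3)] (by decide +kernel))
noncomputable def rh82846efd2e9e42da : CRef := CRef.mk (Pat.mk 0x180000000c000000000000002000000000 0x3e0000007e0000007f0000001f000000ff000000170000003200000030 12 8) 0 0 (step_sound _ 97 [(rh53b3c253cb0c65f4.shift 0 3), rhdd870808d408587f] (by decide +kernel))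
noncomputable def rhb6edffd8876431ba : CRef := CRef.mk (Pat.mk 0x700000001800000000 0x7c000000fe000000ff0000007f0000003800000028 12 8) 0 0 (step_sound _ 67 [(rh210e2d9c685c857e.shift 0 1), (rha58ddf8813c4b875.shift 0 1), (rha59868ab65d1c188.shift 1 0), (rhd462f2ebc8407985.shift 0 1), (rhf085eb1448784a41.shift 1 0)] (by decide +kernel))
noncomputable def rh498fd74c02a2a5c6 : CRef := CRef.mk (Pat.mk 0x6000000060000000000000008000000000 0xf8000001fc000001ff0000007e000001fe00000058000000c0000000c0 12 9) 0 0 (step_sound _ 70 [(rh3cb04db3dd2b6a55.shift 5 0), (rh74b8106c56bebbd5.shift 0 2), (rh7bed6280d5711866.shift 5 0)] (by decide +kernel))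
noncomputable def rh05939d4606cba047 : CRef := CRef.mk (Pat.mk 0xc000000080000002800000000 0xa0000000a0000001f0000001f0000007f0000007f0000003b00000033 12 7) 0 0 (step_sound _ 131 [rh1636f16471bda428, rh7bad29da644c8805, rhec9768a6e44eac8b, (rhf15f1e29f6f0aa1f.shift 2 0)] (by decide +kernel))
noncomputable def rh9fbd81824b68496f : CRef := CRef.mk (Pat.mk 0x180000000000000050000000000000000000000000 0x2000000028000003ff000001fe000003ff00000050000000780000003800000008 12 10) 0 0 (step_sound _ 132 [(rh01483ff9cba2f6ac.shift 3 0), (rh79e1194ba4b8d231.shift 0 2), (rh9b323ef5a488003e.shift 3 0), rhc18243d2643d900d] (by decide +kernel))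
noncomputable def rh9474749b327e09c3 : CRef := CRef.mk (Pat.mk 0x180000000000000050000000000000000000000000 0x2800000038000000380000003000000038000000fe000000fe00000077000000fe000000ff000000e8 12 8) 0 0 (step_sound _ 132 [(rh3ed3c0aa455b70c6.shift 1 0), rh62df4ca4cb2581ec, (rh9b323ef5a488003e.shift 3 0), (rhad1ca36b18ae3f16.shift 0 1), rhc6d6bedd644547c5] (by decide +kernel))
noncomputable def rh3937ce022b565095 : CRef := CRef.mk (Pat.mk 0x3c00000000000000500000000000000000 0xfc000000fc000000770000003e0000003f 12 8) 0 0 (step_sound _ 102 [(rh96851dee118c1ba3.shift 2 3), rhe56d07b27c680358] (by decide +kernel))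
noncomputable def rh94023c20494969ba : CRef := CRef.mk (Pat.mk 0x60000000400000014000000000000000000000000 0xa0000000e0000000e0000001c0000003e0000003e0000003f0000001c000000380000003000000030 12 6) 0 0 (step_sound _ 194 [(rh106fd933998042c0.shift 1 3), (rh6cda5be507bbac2a.shift 1 2), (rh7c90ebdd31e24436.shift 1 3), rhae31481a56b2fa9f, (rhced6d86d2069808b.shift 2 2)] (by decide +kernel))
noncomputable def rh61316c84337d33c6 : CRef := CRef.mk (Pat.mk 0x80000000c000000000000001400000004 0x40000000700000007000000030000001fc000000ff000000f80000001c00000014 12 9) 0 0 (step_sound _ 67 [rh751628d5bf306102, (rheea67dfebd0f8008.shift 2 0)] (by decide +kernel))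
noncomputable def rh3ad09de1ce0c59f8 : CRef := CRef.mk (Pat.mk 0x2000000030000000000000005000000010 0x100000001c0000001c0000000c0000007f7000003fe000003e70000007000000050 12 11) 0 0 (step_sound _ 69 [rh332628df77a0c5e5, (rheea67dfebd0f8008.shift 4 0)] (by decide +kernel))
noncomputable def rheba89c571d66b838 : CRef := CRef.mk (Pat.mk 0x400000006000000000000000a000000020 0x20000000380000003800000018000000fef000007fe000007df000000e000000060 12 12) 0 0 (step_sound _ 100 [(rh6de5ed0e2f04fd36.shift 4 0), (rh7018a0011c412a3f.shift 0 2), (rhb12ffaec36122c99.shift 1 2)] (by decide +kernel))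
noncomputable def rhe8ad3120695b60e4 : CRef := CRef.mk (Pat.mk 0xf000000000000000200000004000000040 0xe000000fc0000003c0000002f0000007e000000e7 12 8) 0 0 (step_sound _ 37 [(rh6f1cbe15c631ee70.shift 5 0), rha3e6a2b0c2865179] (by decide +kernel))
noncomputable def rhb3cf86ca97187f4a : CRef := CRef.mk (Pat.mk 0x6000000020000000a0000000000000000000000000 0x10c000007af000003fe000007bf00000eee000007fc00000ff000000050 12 12) 0 0 (step_sound _ 167 [(rh2820ca9a6c4f41b4.shift 2 4), (rh2ff01c8a71fbee02.shift 4 1), (rh352b7f91eba0c81f.shift 4 4), rhd974b9837c791fef] (by decide +kernel))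
noncomputable def rh0beaa9595b28725a : CRef := CRef.mk (Pat.mk 0x30000000000000005000000000 0x50000000700000007c000000fc000000fc000003f7000001fe000003fe0000005000000050 12 10) 0 0 (step_sound _ 133 [(rh00d6a6e3c7e3bb40.shift 4 0), (rh580df77fe152422b.shift 4 0), (rh95d733ec5ab570d3.shift 1 0), (rhd125751b7dddda92.shift 4 0), rhe6b710d82244e4d8] (by decide +kernel))
noncomputable def rhe967a65294d35471 : CRef := CRef.mk (Pat.mk 0x1400000004000000140000000800000000 0x140000001c0000001c000000fc0000007f000000ff0000001c0000001c0000001c00000014000000140000001c00000008 12 8) 0 0 (step_sound _ 163 [(rh08d50fe567eb1045.shift 2 1), (rh096dafb5cc3095a3.shift 0 2), (rhaeeea70758289f91.shift 2 0), (rhf48d93cb7a9e42c5.shift 2 0)] (by decide +kernel))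
noncomputable def rh88b452e8b1843c1c : CRef := CRef.mk (Pat.mk 0x1e000000020000000a0000000400000000 0xe30000007e0000007a0000002a0000007e000000ee 12 8) 0 0 (step_sound _ 2 [rh9bcbedfba2691f76, (rhbe0e43a3bc50a43f.shift 1 0)] (by decide +kernel))
noncomputable def rh4f6e38d1560ce85c : CRef := CRef.mk (Pat.mk 0x1000000010000000100000002000000000000000000000000000000000000000000000000000000000 0x100000001000000030000000300000007e000001fe000001fe0000007f000000700000007000000050 12 9) 0 0 (step_sound _ 197 [rha14ed326320b93aa, (rhbe0e43a3bc50a43f.shift 4 6)] (by decide +kernel))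
noncomputable def rhbf3c34f6d940e42f : CRef := CRef.mk (Pat.mk 0x50000000100000005000000000 0x1a0000001e0000007ff000003fe000007ff000001f0000003d80000005000000040 12 11) 0 0 (step_sound _ 165 [rh2dbb1f7265820c48, (rh74ccb68b76103c15.shift 3 0), (rh7bbd5b647d86f3a7.shift 3 0), (rhe25716203317ed02.shift 3 1)] (by decide +kernel))
noncomputable def rh3f0e50fb6bf4c131 : CRef := CRef.mk (Pat.mk 0x280000002800000000000000300000000000000000000000000000000000000000 0x28000000280000002f0000003e000000ff0000000e0000000e0000000e00000002 12 8) 0 0 (step_sound _ 132 [(rh3c88ce959c0e423f.shift 4 4), rh62c26be155e1a671] (by decide +kernel))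
noncomputable def rh304f630c8c67b226 : CRef := CRef.mk (Pat.mk 0x1000000000000000280000002800000028 0x3c0000007e0000007e000001ff000000fe000001ef000000280000002800000028 12 9) 0 0 (step_sound _ 131 [rh060d30575821325e, (rh069fc8ddb2e76e5e.shift 1 0), (rh14cfe43629e24c8a.shift 2 0), (rh4558969ce7a988d9.shift 2 0), (rhb685aa8712e221c7.shift 2 0), rhfac6da352d584205] (by decide +kernel))
noncomputable def rhaf2d31689f6c3ae9 : CRef := CRef.mk (Pat.mk 0x2000000020000000a0000000a000000000000000000000000 0x3d0000001f0000007a0000001f0000000e0000001f0000000f00000001 12 7) 0 0 (step_sound _ 66 [rhbf0799446670eef2, (rhd3458b32566d63f7.shift 1 2)] (by decide +kernel))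
noncomputable def rhd74349a1b98b47d0 : CRef := CRef.mk (Pat.mk 0x10000000a000000020000000a00000008 0x28000001f8000001fd000001fb0000007e0000003a0000003a00000008 12 9) 0 0 (step_sound _ 100 [(rh3fde05aaa2238d7d.shift 2 0), (rh9b5d9f8ba2f5398f.shift 0 1)] (by decide +kernel))
noncomputable def rhc0b556922cc01ccb : CRef := CRef.mk (Pat.mk 0x30000000a000000000000000800000008 0x28000001f8000001fc000001fb0000007e000000380000003800000008 12 9) 0 0 (step_sound _ 100 [(rh3fde05aaa2238d7d.shift 2 0), (rh5419adcd928dba20.shift 0 3)] (by decide +kernel))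
noncomputable def rhadf8741a415d8aec : CRef := CRef.mk (Pat.mk 0x400000004000000000000000200000002000000000000000000000000000000000 0x4400000144000007ce000003fe000007ff000003c8000003c8000003c000000100 12 11) 0 0 (step_sound _ 166 [(rh3c88ce959c0e423f.shift 5 4), rh613c322e4a911552] (by decide +kernel))
noncomputable def rha60a8d1bd00d600b : CRef := CRef.mk (Pat.mk 0x100000000000000008000000280000002800000000 0xa0000000e0000001e0000003f0000003ff000001fe000003ef000000e80000007c0000003800000010 12 10) 0 0 (step_sound _ 163 [(rh14cfe43629e24c8a.shift 2 1), (rh8af01850008ce7c3.shift 3 0), (rhd012110982cde18e.shift 2 0), rhe6ceff12fbdef02f] (by decide +kernel))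
noncomputable def rh0c4ad358bbf70399 : CRef := CRef.mk (Pat.mk 0xa0000000a00000000000000060000000000000000000000000000000000000000 0xa0000000a0000007a0000003e0000007f00000038000000380000003800000020 12 7) 0 0 (step_sound _ 130 [rh7d888307fb598e10, (rhff0f29cb645b05f7.shift 1 4)] (by decide +kernel))
noncomputable def rhcb97540ea5863ded : CRef := CRef.mk (Pat.mk 0xa0000000a00000000000000060000000000000000000000000000000000000000 0xa0000002a000000fa0000007e000000ff00000078000000780000007800000020 12 8) 0 0 (step_sound _ 130 [rh94088bcc29993153, (rhff0f29cb645b05f7.shift 1 4)] (by decide +kernel))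
noncomputable def rh309357196d7fbdc6 : CRef := CRef.mk (Pat.mk 0x5000000040000000000000002000000000000000000000000000000000000000000000000000000000 0x80000003c0000000f800000040000003e0000000f0000000f0000000ff000000fe0000007f000000780000007000000050 12 10) 0 0 (step_sound _ 262 [(rh86aa94d7c0c1e10d.shift 4 6), (rh930aa306809532b2.shift 3 7), rh97acc462d31b99ef] (by decide +kernel))
noncomputable def rhdb1adb8d62dde559 : CRef := CRef.mk (Pat.mk 0x100000001000000050000000000000000000000000 0x280000003e0000007c000000760000003e0000003f00000020 12 7) 0 0 (step_sound _ 68 [(rh373b7625e672cfd8.shift 3 1), (rh6c59ce14113da07f.shift 4 0), (rh8ff3dde5b1c639e0.shift 3 0), (rhb7e92a280f310265.shift 0 1)] (by decide +kernel))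
noncomputable def rh901abb8a10c1a458 : CRef := CRef.mk (Pat.mk 0x100000001000000050000000000000000000000000 0x280000003e0000003e000000770000003e0000003e00000020 12 7) 0 0 (step_sound _ 68 [(rh373b7625e672cfd8.shift 3 1), (rh6c59ce14113da07f.shift 4 0), (rh8ff3dde5b1c639e0.shift 3 0), (rhecaf207d4cb90c42.shift 0 1)] (by decide +kernel))
noncomputable def rhcf364076a74946f9 : CRef := CRef.mk (Pat.mk 0x1c00000010000000100000000000000000 0x280000003800000038000000f00000001c0000007f000000ff0000003e0000001c 12 8) 0 0 (step_sound _ 164 [(rh193da7fc9e1674f1.shift 3 1), rh8a6314c76b1854ea, (rhced6d86d2069808b.shift 4 1), (rhe81dfc0a63bb579e.shift 2 1)] (by decide +kernel))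
noncomputable def rh50f06a24105007ea : CRef := CRef.mk (Pat.mk 0x1800000000000000200000002000000000000000000000000000000000 0x9000000098000003df000003ff000003ff000003ff000003fc000001fc000000c0 12 10) 0 0 (step_sound _ 164 [(rh0588d2c7f2cab5e9.shift 4 2), (rh1df93ad07065808b.shift 2 0), (rh330346beed0a8ea1.shift 0 1), (rh91235edb051f038e.shift 0 2), (rhec1c94f854da7924.shift 0 3)] (by decide +kernel))
noncomputable def rh710bbc34a0471714 : CRef := CRef.mk (Pat.mk 0x7000000000000000400000000000000000000000000000000000000000 0xa0000000e0000000f0000000fe000007fe000003fe000003ee00000070000003ff000003fe000003be000007fc000003fc000007f400000050 12 11) 0 0 (step_sound _ 165 [(rh0b2f481c8810568a.shift 1 4), (rh0de0d9e7eec83236.shift 1 1), (rh1152a9900ab681f6.shift 3 2), (rh696f70add39a1b0a.shift 0 1), (rhbba035682d955688.shift 1 0), (rhecf16f72cf486af4.shift 1 2)] (by decide +kernel))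
noncomputable def rh3675dd8deb3829a2 : CRef := CRef.mk (Pat.mk 0x7000000000000000e00000000 0x40000002f0000003f0000003f0000001e000000170000007b0000003e0000007c 12 7) 0 0 (step_sound _ 36 [(rh3fc3a7fb6866dcd4.shift 1 0), rh4cc4bdd86867ab77, rh82da4291c2a90bb1] (by decide +kernel))
noncomputable def rhd82ce4b20c3100a8 : CRef := CRef.mk (Pat.mk 0x800000007000000000000000000000000 0x80000000e0000000e000000ff8000007fc00000fff000000e0000000e0000000a0 12 12) 0 0 (step_sound _ 132 [(rh3fc040e777f1679e.shift 0 3), (rhbfd7769832fb2b0b.shift 1 0)] (by decide +kernel))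
noncomputable def rhc972b5d7f6849ff5 : CRef := CRef.mk (Pat.mk 0x4000000000000001c00000000000000000000000000000000 0x4000001e4000001fe000001ff000000380000001f0000001c 12 9) 0 0 (step_sound _ 133 [(rh10e3074efe589034.shift 1 3), (rh3b00e9e9432b8f40.shift 1 3), (rh41140eaa67c26838.shift 0 3), (rh5a3838f97a0a62d4.shift 1 3), (rhe6287d96d1a4a02a.shift 2 3), rheb23858b6133e0b6] (by decide +kernel))
noncomputable def rh9773ceaa5caaaa86 : CRef := CRef.mk (Pat.mk 0x1e000000100000000000000000000000000000000000000000 0x280000003c0000003e0000003c0000001e0000001f000000320000003f0000003b0000003900000028 12 6) 0 0 (step_sound _ 228 [(rh33e738c4ed385b9f.shift 1 6), rhc35419bfa9a392bc] (by decide +kernel))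
noncomputable def rhecd70068bf37130b : CRef := CRef.mk (Pat.mk 0x1e00000000000000000000000000000000 0x280000003c0000003c0000003c0000001e0000003f0000001f0000000200000002 12 6) 0 0 (step_sound _ 100 [rhdd792f8deb1f268c, (rhe25b0a99195a5d59.shift 1 3)] (by decide +kernel))
noncomputable def rh0bdc09e484247b6d : CRef := CRef.mk (Pat.mk 0x100000001e000000000000000000000000 0x28000001fe000000fc000001dc0000001e0000003f0000000a00000002 12 9) 0 0 (step_sound _ 68 [rhdc612cfc613942e9, (rhe25b0a99195a5d59.shift 1 2)] (by decide +kernel))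
noncomputable def rhaa16378935092aeb : CRef := CRef.mk (Pat.mk 0x200000003c0000002000000020000000000000000000000000 0x230000003e00000027000000370000007f0000007500000040 12 7) 0 0 (step_sound _ 129 [(rh80fcd6d0a18cb2dd.shift 1 4), rhb405fdade46b3c5a] (by decide +kernel))
noncomputable def rh9c112956baa1a440 : CRef := CRef.mk (Pat.mk 0x10000003d00000000000000000000000000000000000000000 0x28000000380000003f0000003e0000007f000006be000003d8000000dc000000f8000000f80000003800000008 12 11) 0 0 (step_sound _ 201 [rh0a6e5d2ca6062bbd, (rh33e738c4ed385b9f.shift 6 5)] (by decide +kernel))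
noncomputable def rh86b4b6fd36c9a7b9 : CRef := CRef.mk (Pat.mk 0x10000003d00000000000000000000000000000000000000000 0x28000000380000003f0000003e0000007f000000be000003d8000006dc000000f8000000f80000003800000008 12 11) 0 0 (step_sound _ 137 [rh0a6e5d2ca6062bbd, (rhe25b0a99195a5d59.shift 6 4)] (by decide +kernel))
noncomputable def rh81a463c851ed1147 : CRef := CRef.mk (Pat.mk 0x42000000780000004000000000000000000000000000000000 0x28000000b8000000ff000000fe000000770000007800000058000000f8000000f8000000f8000000a8 12 8) 0 0 (step_sound _ 102 [(rh0a6888916bcef86b.shift 5 0), rh40be6f23a729cbdd, (rh8cdd36b03d57a2f6.shift 5 1), (rhe286c75f2739cce2.shift 5 2)] (by decide +kernel))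
noncomputable def rh830186db66e4330d : CRef := CRef.mk (Pat.mk 0xe0000000800000008000000000000000000000000 0x240000002f00000078000000fe000000fe000000f800000078 12 8) 0 0 (step_sound _ 132 [(rhb739f4f82bb681b4.shift 0 4), (rhca1c4134b84dc6e5.shift 1 0)] (by decide +kernel))
noncomputable def rh0ac142019db1f6b5 : CRef := CRef.mk (Pat.mk 0x1c0000001800000000000000000000000000000000 0x80000000c0000005f000000df000000fe000000fc0000003c00000028 12 8) 0 0 (step_sound _ 161 [rha9662256125c1e46, (rhb739f4f82bb681b4.shift 0 4)] (by decide +kernel))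
noncomputable def rh29b18d80d7cb0959 : CRef := CRef.mk (Pat.mk 0x1c0000001800000000000000000000000000000000 0x80000000c0000005f000000df000000fc000000fe0000003c00000028 12 8) 0 0 (step_sound _ 161 [(rhb739f4f82bb681b4.shift 0 4), rhf06844cea79d5a1b] (by decide +kernel))
noncomputable def rh2c1829bca35e97a1 : CRef := CRef.mk (Pat.mk 0x1e0000001800000000000000000000000000000000 0x400000004000000040000001e0000001f000001ff000000ff000001ff00000005 12 9) 0 0 (step_sound _ 129 [rh80d9feb50c6281ac, (rheb0810cc63b001d8.shift 0 4)] (by decide +kernel))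
noncomputable def rhc8f5fe8e6d3daaaa : CRef := CRef.mk (Pat.mk 0x1c00000000000000100000000000000000 0x3800000038000000fc0000001c000003fe000001fe000003ff0000001c 12 10) 0 0 (step_sound _ 100 [(rh419642fb1d957782.shift 0 1), (rh76c97a59937af444.shift 2 1), (rh82064b552a8316fd.shift 2 1), rh9c2c94a8857d67c1, (rhf9a6286f1d5377a2.shift 3 1)] (by decide +kernel))
noncomputable def rhba15e1881be77205 : CRef := CRef.mk (Pat.mk 0x1c00000000000000100000000000000000 0x3800000038000000fc0000001c000003fe000001fe000003ff00000024 12 10) 0 0 (step_sound _ 100 [(rh76c97a59937af444.shift 2 1), (rh82064b552a8316fd.shift 2 1), (rh89e96bf78695e5a3.shift 1 0), (rhf9a6286f1d5377a2.shift 3 1), rhf9b3633ff0f8b115] (by decide +kernel))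
noncomputable def rh1e4c04f9e14fc4da : CRef := CRef.mk (Pat.mk 0x1c000000000000001000000000000000000000000000000000 0x20000000fc0000001c000003fe000001fe000003ff0000003f0000003800000028 12 10) 0 0 (step_sound _ 164 [rh1d9bd194482dcbcf, (rh56259dd1390eee46.shift 3 1), (rh985335d5e81225b5.shift 3 0), (rh9c2c94a8857d67c1.shift 0 2), (rhf9b3633ff0f8b115.shift 0 2)] (by decide +kernel))
noncomputable def rh026e7263ba1e672d : CRef := CRef.mk (Pat.mk 0x380000000000000020000000000000000000000000 0x500000007000000078000001f800000038000007ff000003fe000007df0000005c00000014 12 11) 0 0 (step_sound _ 133 [(rh1b941909176680ad.shift 1 2), (rh76c97a59937af444.shift 3 2), (rh82064b552a8316fd.shift 3 2), (rhd5cca885b01fff10.shift 3 2), (rhda15aafdd18cda96.shift 2 2), (rhdc0970333a4ee8d1.shift 0 2), rhf2ba1acd08924baa, (rhf9b3633ff0f8b115.shift 1 1)] (by decide +kernel))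
noncomputable def rhea1ce5deb33be406 : CRef := CRef.mk (Pat.mk 0x38000000000000003000000000000000000000000000000000 0x3800000038000000b8000000b800001fdf00000fff00001fef0000005c0000005c00000014 12 13) 0 0 (step_sound _ 134 [(rh2dbdc9e1a560e775.shift 1 3), (rh2fbccb60ff264241.shift 2 0), (rh4761c0521d27eedf.shift 1 3), (rh7f040bb5f162032c.shift 1 3), (rh876d73fa6aa873f1.shift 3 3), (rhaa48759cccaffef1.shift 1 3), (rhd272f19b2cc2ef9e.shift 0 1), (rhe5413886cbd5b0d9.shift 0 2)] (by decide +kernel))
noncomputable def rhb3642eb5d0894ad6 : CRef := CRef.mk (Pat.mk 0x380000000000000030000000000000000000000000000000000000000000000000 0x2800000038000000dc000001ff000001fe000003ff000000fe000000ee0000000e00000008 12 10) 0 0 (step_sound _ 164 [(rh5a4df29f20c07a62.shift 3 5), rh5db2fb6b1b085bf6] (by decide +kernel))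
noncomputable def rh1b918235275262d2 : CRef := CRef.mk (Pat.mk 0x10000000400000007000000020 0x1c0000003c000007ff000003fe000007de000000500000007000000020 12 11) 0 0 (step_sound _ 132 [rh1f4461169699bddd, (rhff0f29cb645b05f7.shift 4 0)] (by decide +kernel))
noncomputable def rh296612e4a033dba8 : CRef := CRef.mk (Pat.mk 0x100000001c0000001000000010 0x3e0000003e0000003f0000001f0000003f0000001000000010 12 6) 0 0 (step_sound _ 99 [(rh168eed58f54b8e14.shift 0 2), (rh50fbb5868c909700.shift 3 0)] (by decide +kernel))
noncomputable def rh43e7a1980697ecba : CRef := CRef.mk (Pat.mk 0x30000000000000003000000000 0x7c000000fc000007ff000003fe000007fe000000300000003000000010 12 11) 0 0 (step_sound _ 133 [(rh00d6a6e3c7e3bb40.shift 4 0), (rh03ff72220b1946bd.shift 2 0), (rh1336b731aace5bfc.shift 4 0), (rha36d244176650b75.shift 0 1), (rhecb97fed8c7f1286.shift 4 0)] (by decide +kernel))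
noncomputable def rh56d085b2f1699181 : CRef := CRef.mk (Pat.mk 0x40000000700000000400000000000000000000000000000000 0x20000000380000007f0000007e00000077000000740000003e000001ff000000ff000001ff0000002a 12 9) 0 0 (step_sound _ 132 [rh6dae128a2277e056, (rh95a178aee1073030.shift 2 2), rha36beb96eb16ad34, (rhfb815e3afead425a.shift 1 4)] (by decide +kernel))
noncomputable def rh5a3063a826afee5b : CRef := CRef.mk (Pat.mk 0x300000003800000000 0x80000009e000001de000001df000003ff000001fe000003ff000000b80000003800000008 12 10) 0 0 (step_sound _ 132 [rh476fd648740bfe4a, (rh971fd3aaf2005346.shift 0 1), (rhe908f39dd8d66be2.shift 3 0)] (by decide +kernel))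
noncomputable def rh0f0fbf77f8d4a167 : CRef := CRef.mk (Pat.mk 0x100000001d0000000900000008000000000000000000000000000000000 0x28000000f8000000f8000000f8000001d8000001d8000000dc000001ff0000017e0000003f0000003800000028 12 9) 0 0 (step_sound _ 231 [(rh0ef6c71ce89c1c36.shift 6 3), (rhab4b50d121079d63.shift 0 1), rhb43e98b6b4ad154f, (rhc1074da32b222e98.shift 3 2), (rhe897af202bc68eb8.shift 6 4)] (by decide +kernel))
noncomputable def rh199fd3c4d3dd21da : CRef := CRef.mk (Pat.mk 0x40000000040000003400000024000000000000000000000000 0x20000000e0000003e000000fe0000003700000034000000360000001e0000000e0000000a 12 8) 0 0 (step_sound _ 194 [(rh019bbf4e10c92149.shift 1 3), (rh8f3ab8fe37100084.shift 0 2), (rhc850b49d039efae1.shift 1 0), (rhd5e11b898cef5ff9.shift 1 1)] (by decide +kernel))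
noncomputable def rhd7dd544d26266960 : CRef := CRef.mk (Pat.mk 0x220000003a0000001200000000000000000000000000000000 0x1000000070000003f0000007e0000003b0000003b0000001300000007000000070000000700000001 12 7) 0 0 (step_sound _ 229 [(rh5c5e593799055d58.shift 4 4), rhf16a50770044833c] (by decide +kernel))
noncomputable def rhc69f39fb8826daf7 : CRef := CRef.mk (Pat.mk 0x10000000400000007000000020 0x1c0000003c000003ff000001fe000003df000000500000007000000020 12 10) 0 0 (step_sound _ 132 [rhdd03417a643f9232, (rhff0f29cb645b05f7.shift 4 0)] (by decide +kernel))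
noncomputable def rh722eaf52e1b0386d : CRef := CRef.mk (Pat.mk 0x20000000000000001800000010000000000000000000000000 0x20000000e0000000fe000000ff000000ff0000001e0000000e 12 8) 0 0 (step_sound _ 101 [(rh4a77588d74354765.shift 1 0), (rh4ca5dae25f5c14ff.shift 1 3), (rha085f8eba3fc3416.shift 0 2), (rhdeca8db941583de2.shift 1 3)] (by decide +kernel))
noncomputable def rh0eca961639eb0ef1 : CRef := CRef.mk (Pat.mk 0x3800000008000000000000001000000000000000000000000000000000000000000000000000000000 0x40000000f0000007c00000008000000180000003800000038000000ff000000fe0000003f000000380000003800000028 12 8) 0 0 (step_sound _ 259 [rh2abb6842dce7ff31, (rhc36e35d9fcfbda70.shift 0 7), (rhfb9953e9a73eee19.shift 1 7)] (by decide +kernel))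
noncomputable def rh296bf29b4a9f0eaf : CRef := CRef.mk (Pat.mk 0x3800000020000000000000001000000000000000000000000000000000000000000000000000000000 0x40000001e00000007800000020000000700000007800000078000000ff000000fe0000003f000000380000003000000020 12 9) 0 0 (step_sound _ 261 [(rha5c7b0e6a9c62578.shift 3 7), (rha5dacef301d83d5b.shift 4 6), (rhdb2dd61d1aef3fca.shift 4 6), rhe1245885b6e61581] (by decide +kernel))
noncomputable def rh8d73f3e92333ae51 : CRef := CRef.mk (Pat.mk 0x38000000080 0x5000000070000003f0000001f0000007ff000003fe000000ff 12 11) 0 0 (step_sound _ 38 [(rh15b856e33c69f807.shift 3 0), (rh7654d7b92c96fe12.shift 4 0), (rh7c446a5779c6be66.shift 2 0), rh983e2a0a31e7dce2, rhf65b8baf4c258380, (rhff8d7321d3ecd888.shift 5 0)] (by decide +kernel))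
noncomputable def rh7de084dc55fe0768 : CRef := CRef.mk (Pat.mk 0x400000014000000140000000000000000000000000 0x200000003b8000003b800000fff000007fe00000fff0000015c0000039c0000039400000280 12 12) 0 0 (step_sound _ 165 [(rh6546e41d33440a85.shift 0 1), (rh6dfd0ef4b898c1ed.shift 0 1), (rh8c25cb665ab79ec0.shift 3 4), (rheca099133ce59417.shift 5 0)] (by decide +kernel))
noncomputable def rh6410264c66f03153 : CRef := CRef.mk (Pat.mk 0x1400000014000000040000000000000000000000000 0x20000000f8000000f8000003ff00000ffe000001ff0000017c000003dc000007940000038000000280 12 12) 0 0 (step_sound _ 198 [(rh1741680720c097b4.shift 5 3), (rh583c528bca1f116b.shift 0 2), (rh8e194229fc7caa9a.shift 3 0), (rhc1fec1a57e249d27.shift 5 3), (rhdf79aa30227e6ca7.shift 3 0)] (by decide +kernel))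
noncomputable def rhe989a2a21ca72e40 : CRef := CRef.mk (Pat.mk 0x60000000000000002000000020 0x28000000380000003e0000007e000000ff0000007e0000003f0000003800000020 12 8) 0 0 (step_sound _ 100 [(rh063d562a781e113c.shift 1 0), (rh17340301d3befb66.shift 1 0), (rh5a4df29f20c07a62.shift 4 0), rh74f15fb4638586db, (rhfdf65b4fc421f840.shift 1 0)] (by decide +kernel))
noncomputable def rh3ee9a28f2f0a1917 : CRef := CRef.mk (Pat.mk 0x30000000400000005000000050000000400000000000000000 0x140000001c0000001c0000001c000001dc000000fc0000005f0000005c00000058000000d0000000d000000080 12 9) 0 0 (step_sound _ 39 [rh4bbe2dd9ddc3e248, (rhd3458b32566d63f7.shift 6 1)] (by decide +kernel))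
noncomputable def rhe9871b1799b1280f : CRef := CRef.mk (Pat.mk 0x20000001a0000000a00000002000000000000000000000000 0x40000001f00000017000000130000001a0000000a0000000e0000001f0000000700000001 12 5) 0 0 (step_sound _ 66 [rhd32c50dd4e5e7974, (rhd3458b32566d63f7.shift 1 2)] (by decide +kernel))
noncomputable def rh62a405bb3d029f6d : CRef := CRef.mk (Pat.mk 0x2000000020000000a00000000000000000000000000000000000000000 0x1e0000003e0000003e000001ff0000003e0000007f000000780000007800000010 12 9) 0 0 (step_sound _ 133 [(rh255353f4b2345ec5.shift 4 0), (rh47992774edf9829f.shift 4 1), (rh92ed3525f919a568.shift 2 3), (rhc8fd50c44a2112a0.shift 2 3), (rhe9b32ae5fe10c204.shift 0 1)] (by decide +kernel))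
noncomputable def rhf30fa8c85ef8aa20 : CRef := CRef.mk (Pat.mk 0x60000000000000002000000028000000280000002000000000 0x180000003c0000003c0000007ff000003fe000007cf000001ac0000002c0000002c0000007c00000058 12 11) 0 0 (step_sound _ 196 [(rh08f1c2ec58eb3c64.shift 3 4), rh20dc29de5ba83ef9, rh2110c7efbc730447, (rh4d8114ee4aff13cc.shift 2 5), (rh51d1f575ad76151d.shift 0 1), (rh843dbe4b6b080a79.shift 0 1), (rh9565e2f5f5465f8e.shift 1 0)] (by decide +kernel))
noncomputable def rh6ab82dccb3f126dd : CRef := CRef.mk (Pat.mk 0x2000000028000000280000002000000000 0x140000001c0000001c0000038f000003fc000007ef0000002c0000007c00000050 12 11) 0 0 (step_sound _ 36 [rh1f7f023ef2380afc, (rh932754581e0f4330.shift 4 0)] (by decide +kernel))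
noncomputable def rh2586d03cf07d54dd : CRef := CRef.mk (Pat.mk 0x80000002800000020000000000000000000000000 0x28000000380000003c000000fe4000007fc00000ffc000001af000001f80000007c0000007000000050 12 12) 0 0 (step_sound _ 165 [(rh0289c84f19766124.shift 2 0), rh06f2148f998ff904, (rh0759fbafcd6f1fe3.shift 0 1), (rh506ac2614fc84acb.shift 0 2), (rh895960a8d60b102d.shift 4 0), (rhc84dbe89ac4dad8d.shift 2 0), (rhd92a92a910a01cb4.shift 0 1)] (by decide +kernel))
noncomputable def rh29d0557b54696bdd : CRef := CRef.mk (Pat.mk 0x8000000280000002800000000000000000000000000000000 0x40000000440000007f0000007c000000280000007c000001ff000000640000004000000040 12 9) 0 0 (step_sound _ 99 [rh35028d00038b5481, (rh771d065bdc85bf2d.shift 2 2), (rha299bf8984363a29.shift 0 1), (rhc8fd50c44a2112a0.shift 0 2)] (by decide +kernel))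
noncomputable def rhfbc18fc73a6e5aa6 : CRef := CRef.mk (Pat.mk 0x1000000010000000500000005000000000 0xa0000000e0000000e0000000e000000fe000000ff0000005f0000005000000050 12 8) 0 0 (step_sound _ 131 [(rh50fbb5868c909700.shift 3 1), rhab94580b748c7a26] (by decide +kernel))
noncomputable def rh6b6bf2ae3f242158 : CRef := CRef.mk (Pat.mk 0x1000000020000000a0000000a0000000a0000000000000000 0xc1000000d3000000fe000000fa000000ea0000003f0000001900000010 12 8) 0 0 (step_sound _ 193 [(rh50fbb5868c909700.shift 0 3), rhfc89d6d18ac1ed0f] (by decide +kernel))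
noncomputable def rhf804f8a040d2160d : CRef := CRef.mk (Pat.mk 0x20000000200000002000000030000000a00000000000000000 0xa0000002e0000003f0000007e0000003e0000003e000001ee0000000e0000000a 12 9) 0 0 (step_sound _ 132 [(rh5c5e593799055d58.shift 4 3), rh626e05bf5de45a7b] (by decide +kernel))
noncomputable def rha6ccb844ae2b93bc : CRef := CRef.mk (Pat.mk 0x300000002000000020000000a00000000000000000 0xa0000002e0000002f0000007e0000003e0000003e000001fe0000002e0000000e 12 9) 0 0 (step_sound _ 132 [(rh7b1f1fb55310c477.shift 4 1), rhc5184e848fb97d97] (by decide +kernel))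
noncomputable def rh899cf44139d5f154 : CRef := CRef.mk (Pat.mk 0x2000000020000000a00000000000000000000000000000000000000000 0x5e000001fe0000003e000000ff0000007e0000007f000000780000007800000010 12 9) 0 0 (step_sound _ 133 [(rh255353f4b2345ec5.shift 4 0), (rh47992774edf9829f.shift 4 1), (rh6eff4158bb400f47.shift 4 2), (rhe1bcd80b5c7d4f4c.shift 3 3), (rhe9b32ae5fe10c204.shift 0 1)] (by decide +kernel))
noncomputable def rhd9b6e02745f39169 : CRef := CRef.mk (Pat.mk 0x40000000400000014000000140000000000000000000000000 0x180000021800001f3f00001ffe00003fff0000017c000001dc000003940000038000000280 12 14) 0 0 (step_sound _ 197 [(rh50fbb5868c909700.shift 5 3), rha9d34f2bdf482a27] (by decide +kernel))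
noncomputable def rh71e19df574a8cd77 : CRef := CRef.mk (Pat.mk 0x20000000a0000000a0000000a000000000000000000000000 0x1b0000001e0000000b000001fb000000fe000000fb0000001000000010 12 9) 0 0 (step_sound _ 100 [(rh046c5eb18e55a239.shift 3 0), (rh31cdbcbe91155d91.shift 0 2), (rh70e33bfdf511e144.shift 3 0), rhfe7f98b401a6fced] (by decide +kernel))
noncomputable def rhe5ebc7cc13246b6f : CRef := CRef.mk (Pat.mk 0x7000000050000000400000000000000000 0x1800000098000003ff0000007e0000005f000000ec000000ac0000000c 12 10) 0 0 (step_sound _ 166 [(rh1eeec04e73117746.shift 4 2), rhc7b837258fbebebb, (rhdab32775f5c78fcf.shift 3 2)] (by decide +kernel))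
noncomputable def rhd28bfbb9eb376c7d : CRef := CRef.mk (Pat.mk 0x280000002800000020000000000000000000000000 0x400000006e0000007c0000002c0000006f0000007e0000007700000050 12 7) 0 0 (step_sound _ 69 [(rh838eef74c2246eae.shift 0 1), (rh8cdd36b03d57a2f6.shift 4 0), (rhced6d86d2069808b.shift 5 1)] (by decide +kernel))
noncomputable def rhd07a4c7e1606d33e : CRef := CRef.mk (Pat.mk 0x140000001400000010000000180000000000000000 0x20000000e0000000e0000000e000000270000003e0000003600000016000000370000001e0000000300000002 12 6) 0 0 (step_sound _ 197 [(rhbaefcd01e0a8bca3.shift 4 2), rhbcd3cbcdb43b59bb] (by decide +kernel))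
noncomputable def rh008243bd113feba2 : CRef := CRef.mk (Pat.mk 0xa0000000a00000008000000000000000000000000000000000 0x3000000130000007fe000000fe000000bf000001b8000001f8000001f8000001c000000140 12 11) 0 0 (step_sound _ 103 [rh39d5321b07baa302, (rh8cdd36b03d57a2f6.shift 6 1), (rhb1a5f41182847451.shift 0 2), (rhd7429d15a03f54e4.shift 4 2)] (by decide +kernel))
noncomputable def rh5a77eb18aedd0841 : CRef := CRef.mk (Pat.mk 0x5800000050000000100000000000000000 0x170000007f000000df0000001f0000001f0000001f 12 8) 0 0 (step_sound _ 99 [rh34fb85d9428bf1e2, (rhcaa7ba44a31c4370.shift 2 3), rhd6ccb4d6ffaa9651] (by decide +kernel))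
noncomputable def rhead3287a36f1c2f8 : CRef := CRef.mk (Pat.mk 0x200000002000000020000000a00000010000000000000000000000000 0x200000002000000c2000003df000001fb000003f9000001c0000001c0 12 10) 0 0 (step_sound _ 130 [(rh13104bf9491e5713.shift 0 2), (rh7738edea0a80831f.shift 1 0), (rhce106f686e742a5f.shift 0 3)] (by decide +kernel))
noncomputable def rh1fb8a98d57cf566b : CRef := CRef.mk (Pat.mk 0x40000000d00000008000000000000000000000000 0x60000000640000007f0000007c0000007e0000003e0000007e 12 7) 0 0 (step_sound _ 100 [(rh51dac7940c952d38.shift 1 0), (rhab22b5b56e7b3243.shift 0 3)] (by decide +kernel))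
noncomputable def rh5ae64d11d32b0da1 : CRef := CRef.mk (Pat.mk 0x2000000020000000a0000001a000000300000000000000000 0x10000000700000003e000000ff000000ca000000fa000000fb000000ef00000025 12 8) 0 0 (step_sound _ 194 [rh296b31ad3f3e7c93, (rh54373fb5514ce268.shift 0 2), (rh7fabfeb8946d0a8e.shift 1 2)] (by decide +kernel))
noncomputable def rh81e810d5d582acb3 : CRef := CRef.mk (Pat.mk 0x6000000040000001400000014000000000000000000000000 0x1f000001be00000194000001fc000001f4000001e000000040 12 9) 0 0 (step_sound _ 163 [(rhc705a4e0321a1bff.shift 1 2), (rhe6712df4be16eae5.shift 1 0), (rhef13ff948dc32adf.shift 0 2)] (by decide +kernel))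
noncomputable def rh83baf16f55533ec2 : CRef := CRef.mk (Pat.mk 0x3000000020000000a0000000a0000000000000000000000000 0xa0000000e0000002e00000027000000be000000ff000000be000001fe000001ae0000010600000100 12 9) 0 0 (step_sound _ 164 [rh66ebb3e1a2f3d81f, (rh7b1f1fb55310c477.shift 4 2)] (by decide +kernel))
noncomputable def rh790527f8d2dcf0ea : CRef := CRef.mk (Pat.mk 0x20000000a0000000a00000000000000000000000000000000000000000 0xde000001fe000000be000001ff000001be0000017f000001780000007800000010 12 9) 0 0 (step_sound _ 133 [(rh255353f4b2345ec5.shift 4 0), (rh3c3f9ee7df44e231.shift 4 2), (rhc4526fc8abf298b6.shift 4 2), (rhc8fd50c44a2112a0.shift 2 3), (rhe9b32ae5fe10c204.shift 0 1)] (by decide +kernel))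
noncomputable def rhdf2509a7fa9a7360 : CRef := CRef.mk (Pat.mk 0xa0000000a000000080000000000000000000000000 0x100000007d0000001f0000000bc000001fe0000017e0000007f00000050 12 11) 0 0 (step_sound _ 132 [rh114721a21ec866dc, (rh440679e1a3bd6398.shift 4 2), (rhe33d9496e10d8eb0.shift 2 4)] (by decide +kernel))
noncomputable def rh3f298367fc0c8efb : CRef := CRef.mk (Pat.mk 0x400000004000000040000000000000000000000000000000000000000000000000 0x40000007e7000003fe000007ff000000fe000000e0000000e0000000e0000000a0 12 11) 0 0 (step_sound _ 166 [(rh1a8de4899e50cf4a.shift 5 0), (rh2e4eb00129a8b640.shift 1 4), (rh8cdd36b03d57a2f6.shift 5 3), rhad3364f616e417b2, rhdea8ac49a1c8f649, (rhe03a360b7f4b0afa.shift 4 2)] (by decide +kernel))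
noncomputable def rhf2676f9374e202f0 : CRef := CRef.mk (Pat.mk 0x100000005000000040000000000000000000000000000000000000000000000000 0x28000000380000003c0000001c0000007f000000ff0000005f000000fe0000003e0000003c00000038000000380000003800000028 12 8) 0 0 (step_sound _ 196 [(rh458e939c0ef63551.shift 1 0), (rh5edc84eff11dfa65.shift 0 3), (rh6301cf14d7f0efc7.shift 0 2), (rh83323ea5c84168be.shift 1 3), (rh9d230cfc70d13e39.shift 0 2), (rhbbc8d356b0b181b6.shift 2 2), rhc200b8b63cec070b, (rhe4c6825992b43369.shift 1 3), (rhec8efbaea7c78e9f.shift 3 3)] (by decide +kernel))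
noncomputable def rh584ffdc4bf661bdf : CRef := CRef.mk (Pat.mk 0x20000000200000008000000000000000000000000000000000 0x8000000180000007e0000007e00000e3e000007ff00000ffe0000007f0000007000000050 12 12) 0 0 (step_sound _ 133 [(rh47286b634e864e2d.shift 1 1), (rh6301cf14d7f0efc7.shift 1 0), (rh83323ea5c84168be.shift 2 1), (rh9d230cfc70d13e39.shift 1 0), (rhbbc8d356b0b181b6.shift 3 0), rhe589bf6613fe1559, (rhec8efbaea7c78e9f.shift 4 1)] (by decide +kernel))
noncomputable def rh7b449cecbaffd269 : CRef := CRef.mk (Pat.mk 0x2800000028000000200000002000000000000000000000000000000000 0x5e0000007c000000280000007f0000003e00000077000000700000007000000010 12 7) 0 0 (step_sound _ 101 [(rh235f69a07ab720cb.shift 2 3), (rh8cdd36b03d57a2f6.shift 4 1), rhd4cafaedc0181aa0] (by decide +kernel))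
noncomputable def rh54a6d12557663e99 : CRef := CRef.mk (Pat.mk 0x20000001c000000000000000000000000000000000 0x40000000400000006c000003ef0000007e0000007f0000000e0000000e 12 10) 0 0 (step_sound _ 101 [(rh3b98845ede295126.shift 4 2), (rh3cc5c7fb74c49f61.shift 3 3), rh67e1b974d4e6e234, (rhe9d682012dbceb06.shift 5 3)] (by decide +kernel))
noncomputable def rhaa66659c174d4b4a : CRef := CRef.mk (Pat.mk 0x700000014000000040000000000000000000000000 0x288000003e8000003af000003fe0000017f000003f0000003800000038000000280 12 10) 0 0 (step_sound _ 163 [(rh36eba2a3de447758.shift 0 4), (rh3a69dc315759d1b4.shift 2 3), (rh592c7139d2c44767.shift 1 4), (rhba3a66fd912fce1f.shift 2 0), (rhdd56b8ba9f8186e7.shift 1 3)] (by decide +kernel))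
noncomputable def rh031e00b5b546a5f4 : CRef := CRef.mk (Pat.mk 0x40000000e000000280000000800000000000000000 0x10000000700000007000000070000000f6f000007fe000002ff000007c00000070000000400 12 12) 0 0 (step_sound _ 136 [(rh478fbb4de7100ce1.shift 0 3), (rh58a507c00e5e5487.shift 5 0), (rhb6f72982232a8164.shift 5 4), (rhdf4983421b49ae7a.shift 5 1), (rhfefd4e90955fd925.shift 5 0)] (by decide +kernel))
noncomputable def rh216814f6ed835c1f : CRef := CRef.mk (Pat.mk 0x1e00000020000000080000000000000000 0x10000000700000007000000070000000770000003e000000200000007c0000007000000040 12 7) 0 0 (step_sound _ 161 [(rh130c9f5f3f402bf4.shift 1 0), (rh3244c3cc8379b070.shift 0 4)] (by decide +kernel))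
noncomputable def rh5317ed43b7bff785 : CRef := CRef.mk (Pat.mk 0x30000000a0000000200000000000000000 0x4c0000004c00000fcf000007fe00000ebf000001fe000001ee00000166 12 12) 0 0 (step_sound _ 131 [(rh0d6129c131c79948.shift 1 0), (rh32ea076c6f97df04.shift 2 1), rh844214a7d645d440, (rhabd6fd0f1301e9ec.shift 0 1), (rhe445e3c8843379de.shift 1 1), (rheb51aefe5b8da381.shift 1 1)] (by decide +kernel))
noncomputable def rh7dc66afa41fd3741 : CRef := CRef.mk (Pat.mk 0x1c00000010000000100000000000000000000000000 0x10000006bc000003ff0000017e000001ff000003fe0000027e00000050 12 11) 0 0 (step_sound _ 133 [(rh5543c6cc51357226.shift 5 2), (rh67e1b974d4e6e234.shift 0 1), (rh96d82cdbfbd3234d.shift 3 0)] (by decide +kernel))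
noncomputable def rh3ca5ce1f014bcd5e : CRef := CRef.mk (Pat.mk 0x200000002000000030000000a00000000000000000 0x20000002e0000003e0000007e0000003f0000003e000001ef0000002e0000000a 12 9) 0 0 (step_sound _ 164 [(rh50fbb5868c909700.shift 4 2), rhf009e5eaf9a046d0] (by decide +kernel))
noncomputable def rh9b524317debb4409 : CRef := CRef.mk (Pat.mk 0xa0000000300000002000000020000000000000000000000000 0xa0000002e000001ef0000003e0000003f0000007e0000003e0000002e00000002 12 9) 0 0 (step_sound _ 100 [(rh932754581e0f4330.shift 4 2), rhf2b78dea213e451a] (by decide +kernel))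
noncomputable def rhd5963c52656806e2 : CRef := CRef.mk (Pat.mk 0x4000000240000002700000020000000000 0x38000000f8000001be000003bf000001fe000003ff000003700000022000000020 12 10) 0 0 (step_sound _ 133 [rh447fd4d3c579f185, (rh61ee2e33dba8fc79.shift 1 1), (rh6a6060c6b6bde3df.shift 5 1), (rh8d35f07ebd965bd3.shift 1 0)] (by decide +kernel))
noncomputable def rh7dae81e11a76de6b : CRef := CRef.mk (Pat.mk 0x900000029a0000008000000000000000000000000000000000 0x40000000744000007ec00000f6f000007ff000002db000007f800000778000007780000057800000420 12 12) 0 0 (step_sound _ 134 [(rh0f485aa1343c40a5.shift 3 2), (rh1706a200d7c3345d.shift 3 1), (rh9c1da240d51c152e.shift 3 0), (rhc5044c0621166276.shift 3 0), rhfa45c037778cc15a] (by decide +kernel))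
noncomputable def rheb2c61417110c332 : CRef := CRef.mk (Pat.mk 0x20000000270000002400000004000000000000000000000000000000000 0x200000022000000370000003ff000001fe000003bf000001be000000f800000038 12 10) 0 0 (step_sound _ 133 [(rh0fbbb92589a12005.shift 5 2), (rh10576f15fb4019ea.shift 1 0), (rh5190151f02b373c5.shift 0 1), (rh53b0d07b4520c100.shift 1 1)] (by decide +kernel))
noncomputable def rheff964f302e7acb7 : CRef := CRef.mk (Pat.mk 0x800000029a0000009000000000000000000000000000000000 0x420000005780000077800000778000007f8000002db000007ff00000f6f000007ec0000074400000400 12 12) 0 0 (step_sound _ 198 [(rh338c416d5792250e.shift 3 0), (rh4b3651ff66e6112d.shift 3 3), (rh4f31af7b5ffb7400.shift 3 1), (rh6549222ce8036037.shift 3 3), (rhf3875cf0825f2c7b.shift 0 1)] (by decide +kernel))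
noncomputable def rh9a8809016bc1e0e0 : CRef := CRef.mk (Pat.mk 0x100000005300000012000000020000000000000000000000000000000000000000 0x20000000e0000000e8000000e8000007ec000007fc0000075b00000ffe000007ef00000ffc000007e8000000e0000000e0000000a0 12 12) 0 0 (step_sound _ 198 [(rh18b849cc917c3f18.shift 0 2), rh264f35ebcaeed4db, (rh4c1470585eeb62a8.shift 0 2), (rh4c8206db8f5451aa.shift 2 3), (rhcfd58ba2be642007.shift 0 3)] (by decide +kernel))
noncomputable def rhf61b8d86118a2591 : CRef := CRef.mk (Pat.mk 0x100000005300000052000000000000000000000000000000000000000000000000 0xa0000000e0000000f90000005300000ffe000007ef00000fff000007ef000000e7000000e7000000a4 12 12) 0 0 (step_sound _ 161 [rh011789c12a2c3fb6, (rh0a6888916bcef86b.shift 0 2), rh264f35ebcaeed4db] (by decide +kernel))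
noncomputable def rh978620e205256184 : CRef := CRef.mk (Pat.mk 0x1a000000000000000000000000000000000000000000000000000000000 0x500000007c0000007e000000fe000000ff000001fe0000007c000000f00000007000000070000000700000007000000050 12 9) 0 0 (step_sound _ 261 [(rh3b6b208594539e59.shift 4 0), (rh4d36b3b1f2d3c808.shift 1 5), (rh58329680231d6ae5.shift 2 3), (rh5fe921d38b743f6a.shift 1 6), (rh9d687e2f15c78b67.shift 4 0), rhb1ae3d315d3b5fca, (rhe7dcdc473b9dc3b8.shift 2 0)] (by decide +kernel))
noncomputable def rh23ce07c3b26fa57e : CRef := CRef.mk (Pat.mk 0xd000000000000000000000000000000000000000000000000000000000 0x280000003e0000003e0000007f0000007e000000ff0000003e000000fe0000007e0000003f000000380000003800000028 12 8) 0 0 (step_sound _ 260 [(rh10f9afa30d0552cb.shift 1 0), (rh4d36b3b1f2d3c808.shift 0 5), (rh5fe921d38b743f6a.shift 0 6), (rh6ea566241b3d5180.shift 3 3), (rh76c244aa15df64f0.shift 0 2), (rh9b7e08ffb97738fd.shift 3 2), (rha534caa7ffead46e.shift 3 3), (rhce0192ecc6945315.shift 1 0)] (by decide +kernel))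
noncomputable def rhfb095acc61be7bf0 : CRef := CRef.mk (Pat.mk 0x10000000530000005200000000000000000000000000000000000000000000000000000000 0x20000000e0000000e8000000e8000007ec000007fd0000075b000000de000000ef000000ff000000ff00000087000000070000000700000005 12 11) 0 0 (step_sound _ 193 [(rh011789c12a2c3fb6.shift 0 1), (rh0a6888916bcef86b.shift 0 3), rh0d4440fc287ac4cc, (rh4c1470585eeb62a8.shift 0 3), (rh852e1b80fac33018.shift 0 4)] (by decide +kernel))
noncomputable def rh10cf9df22ce55649 : CRef := CRef.mk (Pat.mk 0x800000029800000290000000000000000000000000000000000000000000000000 0x51c0000073c000007cf00000298000007f800001f78000007fc00000778000007280000070000000500 12 13) 0 0 (step_sound _ 198 [(rh5419adcd928dba20.shift 3 6), rhd03e653b1afbf228] (by decide +kernel))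
noncomputable def rhba30eeebcf8f2b21 : CRef := CRef.mk (Pat.mk 0x10000000530000005a000000000000000000000000000000000 0x20000000e0000000e8000000ebf00007efe00007fde000075b400000dbe00000ef800000ff800000eb000000800 12 15) 0 0 (step_sound _ 196 [(rh11594ac1b94731f5.shift 0 1), (rha4b532b8e428408e.shift 4 0), (rhbd3b54bf001bc25c.shift 1 3), (rhc38f566cab2818e5.shift 4 2)] (by decide +kernel))
noncomputable def rhefa2f4277e6afa6d : CRef := CRef.mk (Pat.mk 0x400000004000000400000000c000000480 0xa0000000f0000000f8000003fc000003ff000003fe0000073f000000f8000007bc 12 11) 0 0 (step_sound _ 101 [(rh1f27b2bf275e3905.shift 4 0), rh2194d5aed4651c9d, (rh612fc7ba20e3435a.shift 2 0), (rh62c23b6d281ab048.shift 1 0), (rh83d0e9b5375b65a9.shift 2 1)] (by decide +kernel))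
noncomputable def rha8adc20e416f6c81 : CRef := CRef.mk (Pat.mk 0x8000000800000001800000030000000000000000000000000000000000 0x5000000078000000f8000000fe000007fe000007ff00000e7e000001fc000003f800000770000003f0000003f000000050 12 12) 0 0 (step_sound _ 229 [(rh0e285a00927f2bff.shift 2 1), (rh513ff84736ede446.shift 1 2), (rh550f73316467ba61.shift 1 1), (rh5afaa066b10cf5de.shift 2 3), (rh8850c40920e2a9fa.shift 2 0), (rh88ccb8bac705ffdb.shift 2 4), (rh95858fe2cb5f576b.shift 0 1), (rha0d973b9f92da4ec.shift 3 1), (rha124d905d8d1625e.shift 2 4), (rhc30f552d80156b57.shift 2 4)] (by decide +kernel))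
noncomputable def rh986a1cc9f2dc5088 : CRef := CRef.mk (Pat.mk 0x200000020000000060000000c0000000000000000000000000 0x1de000001fe000003bf00000078000000fc000001dc000000f8000000f8 12 10) 0 0 (step_sound _ 132 [rh895c8d92f71e4201, (rhb739f4f82bb681b4.shift 3 3)] (by decide +kernel))
noncomputable def rhe3c1c3d9f27a9cfc : CRef := CRef.mk (Pat.mk 0x100000000000000060000000c000000000000000000000000000000000 0x28000000380000003800000030000000f8000000fc0000003f00000078000000f8000001b8000000b8000000b800000028 12 9) 0 0 (step_sound _ 164 [rh2764647a7f64ae0e, (rhb739f4f82bb681b4.shift 3 4)] (by decide +kernel))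
noncomputable def rhf0b7c1fd3be41acb : CRef := CRef.mk (Pat.mk 0x100000000000000060000000c000000000000000000000000000000000 0x28000000f8000000fc0000003f00000078000000f8000001b8000000b8000000b800000028 12 9) 0 0 (step_sound _ 164 [rh9dd15a6a4970d847, (rhb739f4f82bb681b4.shift 3 4)] (by decide +kernel))
noncomputable def rh6c152b9e4727ae8c : CRef := CRef.mk (Pat.mk 0x100000000000000060000000c000000000000000000000000000000000 0x38000001fe000001fe0000003f00000078000000f0000001b8000000b8000000b800000028 12 9) 0 0 (step_sound _ 164 [rh109452709f8ff056, (rhb739f4f82bb681b4.shift 3 4)] (by decide +kernel))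
noncomputable def rh18a0601f2a87a91f : CRef := CRef.mk (Pat.mk 0x100000020000000060000000c000000000000000000000000000000000 0x2800000038000000380000003f000000ff000001ff000003be0000007c000000de00000038000000380000003800000028 12 10) 0 0 (step_sound _ 164 [rh4d2f60b35f6ed0a3, (rhb739f4f82bb681b4.shift 3 4)] (by decide +kernel))
noncomputable def rh841f9d8e974d115c : CRef := CRef.mk (Pat.mk 0x2000000400000004c000000180000000000000000000000000 0x20000000780000007c000007fe000007ff000003fe0000077f000004e8000001f8000000780000006000000060 12 11) 0 0 (step_sound _ 198 [(rh36f46c73b21ae44f.shift 1 3), (rh6a7a928648825441.shift 2 3), (rh718de98ad7ead14f.shift 1 3), rh9975f8136031744b, (rh9bce65c81475c8f7.shift 2 2), (rhfaf5eccd526efa6d.shift 5 0)] (by decide +kernel))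
noncomputable def rha869927b490c73b2 : CRef := CRef.mk (Pat.mk 0x400000080000000180000003000000000000000000000000000000000000000000 0x440000007c0000007c00000fbe000007ff00000efe000001ff000003fe000006fe000007f8000003f8000000f000000050 12 12) 0 0 (step_sound _ 229 [(rh05cf93dd8bd64673.shift 2 4), (rh06d784802dc93223.shift 4 2), (rh20bebbc4b580893d.shift 3 2), (rh621ff7933844a4eb.shift 0 1), (rh6a470dc87e2b61e0.shift 0 3), (rhb3781d57753246af.shift 3 1), (rhba5e5618f392f00b.shift 2 2), (rhcaea775ea7dbf21f.shift 1 2), (rhe5cc4c6a7a23adcc.shift 2 1), (rhec973f06c1dbc480.shift 4 0), (rhf7562a7aa6d2962b.shift 2 2)] (by decide +kernel))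
noncomputable def rh87f4c6de2895cb65 : CRef := CRef.mk (Pat.mk 0x800000009800000098000000000000000000000000 0x1c0000007c0000008f000000df000000ff0000007b0000005a00000048 12 8) 0 0 (step_sound _ 102 [(rh5419adcd928dba20.shift 3 3), rh8d95ec08db57a7da] (by decide +kernel))
noncomputable def rhfbaf43168665b138 : CRef := CRef.mk (Pat.mk 0x800000009800000090000000000000000000000000000000000000000000000000 0x80000000e0000008f000000df000000ff0000007f000000ff00000078000000380000003800000028 12 8) 0 0 (step_sound _ 164 [(rh4e012199da693222.shift 0 3), (rh56259dd1390eee46.shift 3 2), (rh671c85f63984b171.shift 1 0), (rhf9a6286f1d5377a2.shift 3 4)] (by decide +kernel))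
noncomputable def rhaff28f048b0c1462 : CRef := CRef.mk (Pat.mk 0x80000000980000009000000000000000000000000000000000 0x1e0000007e000000ef000000df000000ff0000007f000000fc0000007c00000028 12 8) 0 0 (step_sound _ 131 [(rh13412a77410a594c.shift 0 2), rh165106d265b7ffbf, (rh39dbcbb1f4b7b6c6.shift 0 1), (rh764bd67bc079721d.shift 0 1), (rh9fa9db0a3c390d4f.shift 0 1), (rh9fd63e60531cf0a9.shift 0 1), (rhc1cbd28d5f80dc6c.shift 0 1), (rhc315171b4855029f.shift 0 1), (rhced47df7e052ada4.shift 0 1), (rhddf64fc248fc4dc2.shift 0 1), (rhf5610f28c154bd32.shift 0 1)] (by decide +kernel))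
noncomputable def rhdb69768e443e56e8 : CRef := CRef.mk (Pat.mk 0x800000009800000090000000000000000000000000000000000000000000000000 0xc0000000c0000008f000000df000000fb0000007f000000ff0000007c000000380000003800000028 12 8) 0 0 (step_sound _ 164 [(rh56259dd1390eee46.shift 3 2), (rh671c85f63984b171.shift 1 0), (rh91b7297d1d11cb65.shift 0 3), (rhf9a6286f1d5377a2.shift 3 4)] (by decide +kernel))
noncomputable def rh1f3b6cf8122357b1 : CRef := CRef.mk (Pat.mk 0x800000009800000090000000000000000000000000000000000000000000000000 0x80000000e0000008f000000de000000fe0000007f000000ff0000007c000000380000003800000028 12 8) 0 0 (step_sound _ 164 [(rh372e62844d3a064e.shift 0 3), (rh56259dd1390eee46.shift 3 2), (rh671c85f63984b171.shift 1 0), (rhf9a6286f1d5377a2.shift 3 4)] (by decide +kernel))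
noncomputable def rhda79f7f3df3ffdee : CRef := CRef.mk (Pat.mk 0x1000000013800000120000000000000000000000000000000000000000000000000 0x1c0000003c0000011f000001b8000003fe000006fe000003fc000007ec000000700000007000000050 12 11) 0 0 (step_sound _ 165 [(rh03d9972b18cf7366.shift 4 3), (rh34d9647c88edaeb4.shift 0 3), (rh41ec28e15f794d20.shift 4 0), (rhd1779d7de7f8215b.shift 4 2), (rhf9a6286f1d5377a2.shift 4 4)] (by decide +kernel))
noncomputable def rh4ebbfca343ecefb2 : CRef := CRef.mk (Pat.mk 0x1000000003000000020000000000000000000000000 0xa0000000e0000003e000000ff000001df0000003e0000007f000000fe000001fe000000fe 12 9) 0 0 (step_sound _ 100 [(rh04cb54f9f0d16f6b.shift 1 1), (rh0663dc229492a41a.shift 1 0), (rh08c31eec8ab2c0af.shift 1 0), rh15bf3df045fa5217, (rh188bbb6b780c07f8.shift 1 0), rh7d34333e89a7933e, (rha3739a8c726dfb77.shift 1 0), rha449709049ab36dc, (rhaaff864bd57619bc.shift 1 0)] (by decide +kernel))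
noncomputable def rhd040449cb12ef25e : CRef := CRef.mk (Pat.mk 0x1000000013000000120000000000000000000000000000000000000000000000000 0x6000000060000010f000001be000003ff000006ff000003fe000007ff000000700000007000000050 12 11) 0 0 (step_sound _ 227 [(rh5bb78067c54b222b.shift 2 6), (rha0ae8adeb1dbcf8d.shift 0 6), rhdcda7c5e4a30ccbd, (rhf621c33c3fee57aa.shift 0 3)] (by decide +kernel))
noncomputable def rh6d8d2265adfb974f : CRef := CRef.mk (Pat.mk 0x1000000003000000060000000000000000000000000 0xa0000003e000000ff000001de0000003e0000007e000000fe0000005e0000005e 12 9) 0 0 (step_sound _ 100 [(rh42cb48c633f1dd84.shift 1 0), (rh43015da629ed2c40.shift 1 0), (rh4be2e6a78b7c993f.shift 1 0), rh73a1aa973486864d, (rha0050008f5b8a734.shift 1 1), (rhc3fdf522b33f0037.shift 1 0), (rhcc11cb5861f8fd1f.shift 1 0)] (by decide +kernel))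
noncomputable def rh7f18554c4f3ee064 : CRef := CRef.mk (Pat.mk 0x70000002400000000000000000000000000000000000000000 0x280000003800000078000000f80000003e00000070000003ff0000007e000001ff000000f8000000b800000028 12 10) 0 0 (step_sound _ 167 [(rh2fe78cc5ca4405d8.shift 5 5), rh8f3dd110229a90d5] (by decide +kernel))
noncomputable def rh717b5ffd69c1e5c9 : CRef := CRef.mk (Pat.mk 0x20000000260000002400000004000000000000000000000000000000000 0x1800000078000001f80000023e0000037c000003ff000001fe0000039f000001bc0000003800000028 12 10) 0 0 (step_sound _ 196 [rh30de1620b7ce516e, (rh5bb78067c54b222b.shift 3 5), (rh72a7c738593b4bdb.shift 1 2), (rhc92c11e8da6c894f.shift 1 5)] (by decide +kernel))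
noncomputable def rh4f400b662b90cdea : CRef := CRef.mk (Pat.mk 0x20000000260000002400000000000000000000000000000000000000000 0x20000000200000022c0000037c000007ff00000dfe000007ff00000ffe000000fc000000bc 12 12) 0 0 (step_sound _ 134 [(rh01483ff9cba2f6ac.shift 5 1), (rh52a01bd4e4702ca4.shift 1 1), rh73ed2f5348089ebc, (rha9fe76048983feb3.shift 3 0), (rhd1779d7de7f8215b.shift 5 1)] (by decide +kernel))
noncomputable def rh73815983ca48aaaa : CRef := CRef.mk (Pat.mk 0x300000003000000000000000000000000000000000 0xa0000000e0000003f0000001e0000003e0000003e000000f60000007e0000007e0000000a 12 8) 0 0 (step_sound _ 101 [(rh1864e4c677b30864.shift 2 1), rh88fe6911110f4f25, (rhfc7c29d8e65d775f.shift 4 2)] (by decide +kernel))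
noncomputable def rh58a7e0a62d05fa05 : CRef := CRef.mk (Pat.mk 0x180000001800000008000000000000000000000000 0x50000000700000007000000070000001f0000001f0000001f0000007b0000001b00000001 12 7) 0 0 (step_sound _ 162 [rh3ab23325bf9fa7a0, (rh40241bd608e5be1a.shift 2 1), (rh8885e8ba3bbbe723.shift 0 3), (rhd2941f21ef6d1c2a.shift 0 1)] (by decide +kernel))
noncomputable def rh450c313fc14899ea : CRef := CRef.mk (Pat.mk 0x1800000018000000080000000000000000 0x50000000700000007000000070000001f0000001f0000000f0000007c00000018 12 7) 0 0 (step_sound _ 35 [rh08acbc350776fbbf, (rh71222050f2c63a3a.shift 3 0)] (by decide +kernel))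
noncomputable def rh89d1f9816b430be6 : CRef := CRef.mk (Pat.mk 0x2200000026000000260000000000000000000000000000000000000000000000000 0x10000002300000037000000370000001ff000003fe000003ff0000003c0000001c00000004 12 10) 0 0 (step_sound _ 134 [(rh9e07f76261b05888.shift 5 4), rhbb65739c4a72ba3b] (by decide +kernel))
noncomputable def rh1b3246e5eab9b1cd : CRef := CRef.mk (Pat.mk 0x1800000018000000000000000000000000 0xc0000000c0000000f0000001f0000001f0000003f0000001f0000001c 12 6) 0 0 (step_sound _ 163 [(rh05607e02b2ff73f6.shift 0 2), (rh3e595262c1b737ad.shift 3 2), rhdf9be6e9b58d4bda] (by decide +kernel))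
noncomputable def rh06ce565cd6818316 : CRef := CRef.mk (Pat.mk 0x20000000060000000e0000000000000000000000000 0x14000001ff000001fe000003bf0000007c000000fc00000074000003f0000000f0 12 10) 0 0 (step_sound _ 70 [(rh3cb04db3dd2b6a55.shift 5 0), rhcc37e2d8d0014ed5, (rhf08e5d86bb6f39a9.shift 3 0)] (by decide +kernel))
noncomputable def rh69dfd60f4854d63f : CRef := CRef.mk (Pat.mk 0x1800000098000000000000000000000000 0x1e0000007e0000000f0000001e000000ff0000007c0000002400000020 12 8) 0 0 (step_sound _ 101 [(rh2fe78cc5ca4405d8.shift 3 3), rhcc11cb5861f8fd1f] (by decide +kernel))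
noncomputable def rhc718e8623af45bc8 : CRef := CRef.mk (Pat.mk 0x200000000600000026000000020 0x4000001ff000001fe000003bf0000007c000003fc00000034 12 10) 0 0 (step_sound _ 39 [(rh2fe78cc5ca4405d8.shift 5 1), rh95e249c7a1a76d6d] (by decide +kernel))
noncomputable def rh5d163e3fb98485eb : CRef := CRef.mk (Pat.mk 0x20000001200000053000000100000000000000000000000000000000000000000 0xa0000000e0000000e0000007e800000ffc000007ef00000ffe0000075b000007fc000007ec000000e8000000e8000000e000000020 12 12) 0 0 (step_sound _ 230 [(rh11c83eeba4b864ca.shift 0 5), (rh32f86f4d2497b12a.shift 0 3), rh6ae89e41a044f30e, (rhda19cf75efd906a0.shift 0 2), (rhdfa5e7b350e617de.shift 2 2)] (by decide +kernel))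
noncomputable def rhfc16433629bdd3e1 : CRef := CRef.mk (Pat.mk 0x5200000053000000100000000000000000 0xa4000000e7000000e7000007ef00000fff000007ef00000ffe00000053000000f9000000e0000000a0 12 12) 0 0 (step_sound _ 161 [(rh03bd649c87d6ed86.shift 0 2), (rh32431e66bbf434a4.shift 0 2), rh32f86f4d2497b12a] (by decide +kernel))
noncomputable def rh4d10875e8d8d001d : CRef := CRef.mk (Pat.mk 0x1a00000000000000000000000000000000000000000 0x5000000070000000700000007000000070000000f00000007c000001fe000000ff000000fe0000007e0000007c00000050 12 9) 0 0 (step_sound _ 133 [(rh14defd3446685dde.shift 4 1), (rh4384f0ec9f68657d.shift 1 1), (rh4e7f8b803b56b704.shift 1 1), rh6adcf94510243ab5, (rh82d83b0eb571b833.shift 2 0), (rh9ba60eb1e0e18b80.shift 4 1), (rhe80c309c0f095e12.shift 2 3)] (by decide +kernel))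
noncomputable def rhe59a56c945990a9f : CRef := CRef.mk (Pat.mk 0xd00000000000000000000000000000000000000000 0x2800000038000000380000003f0000007e000000fe0000003e000000ff0000007e0000007f0000003e0000003e00000028 12 8) 0 0 (step_sound _ 132 [(rh1c8d7c199786e989.shift 3 2), (rh2f3099eec6c07685.shift 1 0), (rh4384f0ec9f68657d.shift 0 1), (rh4e7f8b803b56b704.shift 0 1), (rh5e95696dc50dc109.shift 0 1), (rh975eb8ba9cf5d11c.shift 3 1), (rh9cd9212f95c901dc.shift 1 3), (rhfd89c2aeff680e18.shift 3 1)] (by decide +kernel))
noncomputable def rhb4cda3a1d7da5446 : CRef := CRef.mk (Pat.mk 0x5200000053000000100000000000000000000000000000000000000000 0x5000000070000000700000087000000ff000000ff000000ef000000de0000075b000007fd000007ec000000e8000000e8000000e000000020 12 11) 0 0 (step_sound _ 257 [(rh03bd649c87d6ed86.shift 0 5), (rh32431e66bbf434a4.shift 0 5), (rh53001f0f9cfc5924.shift 0 5), rh6ae89e41a044f30e, (rhfa6264abc9c78c82.shift 0 5)] (by decide +kernel))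
noncomputable def rh0b116c410e968692 : CRef := CRef.mk (Pat.mk 0x29000000298000000800000000000000000 0x500000007000000072800000778000007fc00001f78000007f800000298000007cf0000073c0000051c 12 13) 0 0 (step_sound _ 134 [(rhb2a0b9ccfb5cecd5.shift 3 3), rhc1ac41a7e6439bfa] (by decide +kernel))
noncomputable def rh33ed337ea1672b75 : CRef := CRef.mk (Pat.mk 0x5a000000530000001000000000000000000000000000000000000000000 0x80000000eb000000ff800000ef800000dbe000075b400007fde00007efe00000ebf00000e8000000e0000000200 12 15) 0 0 (step_sound _ 164 [(rh1d4636c800373659.shift 0 3), (rh43c3cc46503885f1.shift 4 0), (rh9d1ac2999872b20d.shift 1 3), (rhf9366b6a121593ef.shift 4 3)] (by decide +kernel))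
noncomputable def rhf943c49f1be0bdc5 : CRef := CRef.mk (Pat.mk 0x480000000c000000400000000400000004000000000000000000000000000000000 0x7bc000000f80000073f000003fe000003ff000003fc000000f8000000f0000000a0 12 11) 0 0 (step_sound _ 165 [(rh189a6c4d974aeeca.shift 4 2), (rh2c42967536052f8f.shift 1 2), (rh7569d1014769f99c.shift 0 3), (rhd7a169f2fccad69c.shift 2 0), (rhf641ab52ef7374c6.shift 2 0)] (by decide +kernel))
noncomputable def rhe6c1dbb01c559981 : CRef := CRef.mk (Pat.mk 0x3000000018000000800000000800000000000000000000000000000000000000000 0x50000003f0000003f000000770000003f8000001fc00000e7e000007ff000007fe000000fe000000f80000007800000050 12 12) 0 0 (step_sound _ 165 [(rh03e0b62c5841ad7a.shift 1 0), (rh2aefbe46222f9d26.shift 2 0), (rh50dfd726f3f74765.shift 2 1), (rh794852bfd7eef465.shift 2 1), (rh9f693402ac130a33.shift 0 2), (rhac34fe30a936d9ed.shift 1 2), (rhba99150d4b8bb9b4.shift 3 1), (rhc12b4e97974b9403.shift 2 2), (rhd068644d13e7a0a8.shift 2 3), (rhd875b3490c8cb4f6.shift 2 4)] (by decide +kernel))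
noncomputable def rh8b33761bc73a33e8 : CRef := CRef.mk (Pat.mk 0xc000000060000002000000002000000000 0xf8000000f8000001dc000000fc00000078000003bf000001fe000001de 12 10) 0 0 (step_sound _ 100 [(rh53b3c253cb0c65f4.shift 3 3), rhd72d18b54e6d4ce2] (by decide +kernel))
noncomputable def rh82a76a6d2754879a : CRef := CRef.mk (Pat.mk 0xc00000006000000000000000100000000000000000000000000000000000000000 0x28000000b8000000b8000001b8000000f8000000780000003f000000fc000000f800000030000000380000003800000028 12 9) 0 0 (step_sound _ 228 [(rh53b3c253cb0c65f4.shift 3 7), rh5fe53930299374d7] (by decide +kernel))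
noncomputable def rh935422c3ff8a1aa5 : CRef := CRef.mk (Pat.mk 0xc00000006000000000000000100000000000000000 0x28000000b8000000b8000001b8000000f8000000780000003f000000fc000000f800000028 12 9) 0 0 (step_sound _ 132 [(rh53b3c253cb0c65f4.shift 3 4), rh8f056b0cd2a42e96] (by decide +kernel))
noncomputable def rh15555293cbe7af03 : CRef := CRef.mk (Pat.mk 0xc00000006000000000000000100000000000000000 0x28000000b8000000b8000001b8000000f0000000780000003f000001fe000001fe00000038 12 9) 0 0 (step_sound _ 132 [(rh53b3c253cb0c65f4.shift 3 4), rh8d8527c3da9c3a21] (by decide +kernel))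
noncomputable def rhcaa7f9216cb366bc : CRef := CRef.mk (Pat.mk 0xc00000006000000200000000100000000000000000000000000000000000000000 0x28000000380000003800000038000000de0000007c000003be000001ff000000ff0000003f000000380000003800000028 12 10) 0 0 (step_sound _ 228 [(rh53b3c253cb0c65f4.shift 3 7), rh7403eae67d68fbf1] (by decide +kernel))
noncomputable def rh63f41affe0c550f6 : CRef := CRef.mk (Pat.mk 0x180000004c000000400000000200000000000000000000000000000000000000000 0x600000006000000078000001f8000004e80000077f000003fe000007ff000007fe0000007c0000007800000020 12 11) 0 0 (step_sound _ 166 [(rh03f6c5d959e65f42.shift 2 2), (rh10508c92b6b834b0.shift 1 0), (rh3fc4dc286091a77d.shift 5 4), (rh802365df4de5c77c.shift 2 4), (rh88fa35f6963e64a3.shift 0 2), (rhd763d1845c994759.shift 1 1)] (by decide +kernel))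
noncomputable def rhf7b76d83ce59c7a9 : CRef := CRef.mk (Pat.mk 0x30000000180000008000000004000000000000000000000000000000000 0x50000000f0000003f8000007f8000006fe000003fe000001ff00000efe000007ff00000fbe0000007c0000007c00000044 12 12) 0 0 (step_sound _ 165 [(rh3a601bbda3c50460.shift 2 3), rh4e9fb7ff3b90b6c4, rh50a27d952c89a0be, (rh57e0659283dab62e.shift 2 1), (rh79e0c876ebb86b84.shift 3 3), (rh872f6d925f8e4a03.shift 1 2), (rh9d1779f735912eef.shift 2 3), (rha4a7d4536819edc1.shift 3 3), (rha6e7dfc97e040c27.shift 4 2), (rhb88eeee885d5edc0.shift 2 1), (rhca4a6ed3ed008a1a.shift 4 0)] (by decide +kernel))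
noncomputable def rh6d253ac5143ae0c6 : CRef := CRef.mk (Pat.mk 0x9800000098000000800000000000000000 0x480000005a0000007b000000ff000000df0000008f0000007c0000001c 12 8) 0 0 (step_sound _ 134 [(rhb2a0b9ccfb5cecd5.shift 3 3), rhcaf90551c8c337cd] (by decide +kernel))
noncomputable def rh311831ad0e05cc60 : CRef := CRef.mk (Pat.mk 0x9000000098000000800000000000000000 0x28000000380000003800000078000000ff0000007f000000ff000000df0000008f0000000e00000008 12 8) 0 0 (step_sound _ 164 [(rh19b92fdfccbf80a7.shift 0 1), (rh68a777751bfeafdf.shift 3 2), (rhc0c71ca73184d2dd.shift 1 2), (rhfafeb437ceb8396d.shift 3 0)] (by decide +kernel))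
noncomputable def rh9d439b84e69a7fa8 : CRef := CRef.mk (Pat.mk 0x9000000098000000800000000000000000 0x280000007c000000fc0000007f000000ff000000df000000ef0000007e0000001e 12 8) 0 0 (step_sound _ 131 [rh054fd987d12321e1, rh0c649fe6d8cc821f, (rh240420ae2a2f0953.shift 0 1), (rh265f0a77e2dca644.shift 0 1), rh304d90b17b3d1bf7, (rh53c3c1487463cdcc.shift 0 1), rh65d7ca34c36186de, rh7ad8fd78580865b8, rhac8449fb18bd7b5e, rhc8d974ac801cdc7e, (rhcd04d34f768a5155.shift 0 1)] (by decide +kernel))
noncomputable def rha9f7c1ff7ebf6751 : CRef := CRef.mk (Pat.mk 0x9000000098000000800000000000000000 0x2800000038000000380000007c000000ff0000007f000000fb000000df0000008f0000000c0000000c 12 8) 0 0 (step_sound _ 164 [(rh68a777751bfeafdf.shift 3 2), rh6af52ecd2e6fb4dc, (rhc0c71ca73184d2dd.shift 1 2), (rhfafeb437ceb8396d.shift 3 0)] (by decide +kernel))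
noncomputable def rh9015bffd32f9fb53 : CRef := CRef.mk (Pat.mk 0x9000000098000000800000000000000000 0x2800000038000000380000007c000000ff0000007f000000fe000000de0000008f0000000e00000008 12 8) 0 0 (step_sound _ 164 [(rh68a777751bfeafdf.shift 3 2), (rhc0c71ca73184d2dd.shift 1 2), (rhfac18d32976330ea.shift 0 1), (rhfafeb437ceb8396d.shift 3 0)] (by decide +kernel))
noncomputable def rhd873d0c2203f6eb7 : CRef := CRef.mk (Pat.mk 0x12000000138000001000000000000000000 0x500000007000000070000007ec000003fc000006fe000003fe000001b80000011f0000003c0000001c 12 11) 0 0 (step_sound _ 165 [(rh2230d0adc6913184.shift 4 2), rh268ad5d82a79764b, (rh48eba8bd41d9aade.shift 4 2), (rh7a7e08304268422e.shift 4 2), (rhfafeb437ceb8396d.shift 4 0)] (by decide +kernel))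
noncomputable def rh2ec46b0dd794a057 : CRef := CRef.mk (Pat.mk 0x20000000300000010000000000000000000000000000000000 0xfe000001fe000000fe0000007f0000003e000001df000000ff0000003e0000000e0000000a 12 9) 0 0 (step_sound _ 196 [(rh2db71b84064a6baa.shift 1 2), (rh339defbbd9c20dbe.shift 1 2), (rh44169d92ae4dc8a2.shift 1 2), (rh4b16d9d8cc15f4e2.shift 1 2), (rh947bce8d427032cd.shift 1 2), (rh98608a4f17112b16.shift 0 2), rhe9f3d979a869a778, (rhea217decea915712.shift 1 2), (rhec3992c5f9979691.shift 0 2)] (by decide +kernel))
noncomputable def rh5f616696bd9d26cc : CRef := CRef.mk (Pat.mk 0x12000000130000001000000000000000000 0x500000007000000070000007ff000003fe000006ff000003ff000001be0000010f0000000600000006 12 11) 0 0 (step_sound _ 99 [(rh2b3584ef0f05e9c2.shift 2 3), (rh3e0b38310ac09007.shift 0 3), rh42cc91f2a529ee86, (rhda13e6b5106d9f09.shift 0 2)] (by decide +kernel))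
noncomputable def rha05c161b5447da29 : CRef := CRef.mk (Pat.mk 0x600000003000000100000000000000000000000000 0x5e0000005e000000fe0000007e0000003e000001de000000ff0000003e0000000a 12 9) 0 0 (step_sound _ 164 [(rh2efabce65fe9705f.shift 1 2), (rh33af28911adab0a6.shift 1 1), (rh8f22d44726b08144.shift 1 2), rhb4c5fa652687eb25, (rhd7cea1a3d55d705a.shift 1 1), (rhdafe3effcc3a252c.shift 1 1), (rhef9c6260436474bd.shift 1 2)] (by decide +kernel))
noncomputable def rh7525c561c4eb32e1 : CRef := CRef.mk (Pat.mk 0x240000000700000000000000000000000000000000000000000 0x28000000b8000000f8000001ff0000007e000003ff000000700000003e000000f8000000780000003800000028 12 10) 0 0 (step_sound _ 199 [(rh361cc68994bd8a63.shift 5 5), rh915ce0672efde9d3] (by decide +kernel))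
noncomputable def rh1fe5562bc4490f60 : CRef := CRef.mk (Pat.mk 0x40000002400000026000000200000000000000000000000000 0x2800000038000001bc0000039f000001fe000003ff0000037c0000023e000001f80000007800000018 12 10) 0 0 (step_sound _ 132 [(rh2b3584ef0f05e9c2.shift 3 4), rh324fe242da354e75, (rhaf883f35b8ae1ddd.shift 1 1), (rhb12ffaec36122c99.shift 1 3)] (by decide +kernel))
noncomputable def rhf60716b0857a2db1 : CRef := CRef.mk (Pat.mk 0x24000000260000002000000000000000000 0xbc000000fc00000ffe000007ff00000dfe000007ff0000037c0000022c0000002000000020 12 12) 0 0 (step_sound _ 166 [(rh34d44112dbe4499f.shift 3 2), (rh4e28e1f4c6a2ae96.shift 1 3), (rh7a7e08304268422e.shift 5 2), (rh976a48eb1c80a12f.shift 5 2), rhd23fb0897235b2d8] (by decide +kernel))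
noncomputable def rhac1590900e9dfded : CRef := CRef.mk (Pat.mk 0x300000003000000000000000000000000000000000 0xa0000007e0000007e000000f60000003e0000003e0000001e0000003f0000000e0000000a 12 8) 0 0 (step_sound _ 197 [(rh1e309b005ffa1b36.shift 4 2), (rh9dbc063ae34b2487.shift 2 4), rhbe8d6c128bbcc2b1] (by decide +kernel))
noncomputable def rhc87492829c448c9e : CRef := CRef.mk (Pat.mk 0x8000000180000001800000000000000000000000000000000 0x10000001b0000007b0000001f0000001f0000001f00000007000000070000000700000005 12 7) 0 0 (step_sound _ 130 [(rh37d9ceebb86d75d1.shift 2 3), rh911afb7894f49e78, rhc8bc1f21a27694f7, (rhe8b49820a5c39089.shift 0 3)] (by decide +kernel))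
noncomputable def rha7db8ae16f16e3f5 : CRef := CRef.mk (Pat.mk 0x8000000180000001800000000000000000000000000000000 0x180000007c0000000f0000001f0000001f00000007000000070000000700000005 12 7) 0 0 (step_sound _ 227 [(rh2145e1d24b96a57e.shift 3 4), rhac1bfbf9dd6f9092] (by decide +kernel))
noncomputable def rh10643d71d7742ac8 : CRef := CRef.mk (Pat.mk 0x260000002600000022000000000 0x40000001c0000003c000003ff000003fe000001ff00000370000003700000023000000010 12 10) 0 0 (step_sound _ 166 [rha93744f40c74d48e, (rhee230b994cc8b773.shift 5 1)] (by decide +kernel))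
noncomputable def rh805e68a7c6e9f33e : CRef := CRef.mk (Pat.mk 0x1800000018000000000000000000000000 0x1c0000001f0000003f0000001f0000001f0000000f0000000c0000000c 12 6) 0 0 (step_sound _ 67 [(rh3136a2b4b35d10ea.shift 0 1), rh89fdf87e8478868f, (rhea7a1800d6f053bd.shift 3 0)] (by decide +kernel))
noncomputable def rh29d87e41cde341f9 : CRef := CRef.mk (Pat.mk 0xe00000006000000200000000000000000000000000 0xf0000003f000000074000000fc0000007c000003bf000001fe000001ff00000014 12 10) 0 0 (step_sound _ 198 [rh15c513a92f9543b7, (rh503dd4575245365b.shift 5 3), (rh59f8704b1c8d9504.shift 3 3)] (by decide +kernel))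
noncomputable def rhe853dafdee702e94 : CRef := CRef.mk (Pat.mk 0x9800000018000000000000000000000000 0x20000000240000007c000000ff0000001e0000000f0000007e0000001e 12 8) 0 0 (step_sound _ 133 [(rh361cc68994bd8a63.shift 3 3), rhdafe3effcc3a252c] (by decide +kernel))
noncomputable def rhab23e6c054a2db73 : CRef := CRef.mk (Pat.mk 0x20000002600000006000000200000000000000000000000000 0x34000003fc0000007c000003bf000001fe000001ff00000004 12 10) 0 0 (step_sound _ 167 [rh0e37a7fe23de80cb, (rh361cc68994bd8a63.shift 5 4)] (by decide +kernel))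
noncomputable def rhc24a3864267e90aa : CRef := CRef.mk (Pat.mk 0x480000004c00000048000000000000000000000000000000000 0x14000001fe800000ffe00001aff00000fbe000006f8000007fe000000ff0000007e0000003800000028 12 13) 0 0 (step_sound _ 231 [(rh012a2af16c0046bb.shift 6 4), (rh03dfdf12d5937476.shift 6 3), rh68700bfc2d34e2b9, (rha77f215723363df0.shift 6 4)] (by decide +kernel))
noncomputable def rh263663422b3c03b0 : CRef := CRef.mk (Pat.mk 0x1200000003000000120000000000000000000000000 0x1ff000000fe000001af0000003e000001fe0000001e0000001c0000001c 12 9) 0 0 (step_sound _ 100 [(rh1e309b005ffa1b36.shift 4 1), (rhbf25028bd003c2fb.shift 1 0), rhe5f8141d56fcbcca] (by decide +kernel))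
noncomputable def rhe6caf707400c9991 : CRef := CRef.mk (Pat.mk 0x400000004c0000005800000000000000000000000000000000 0x14000001fc000000fc000001bc000000f80000006f0000005c000000180000001c0000001c00000004 12 9) 0 0 (step_sound _ 161 [(rh114ae3d38be02a22.shift 2 0), (rhb739f4f82bb681b4.shift 0 4)] (by decide +kernel))
noncomputable def rh094bd54c16b15cb5 : CRef := CRef.mk (Pat.mk 0x20000001800000053000000120000000000000000000000000000000000000000 0x20000000e0000000e0000000fc000000ef000000f80000005b000000fe000000ec000000fc000000e0000000e000000020 12 8) 0 0 (step_sound _ 163 [rh35d4f44cf803a98c, (rh5419adcd928dba20.shift 0 5)] (by decide +kernel))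
noncomputable def rh3684a7c6a1631caf : CRef := CRef.mk (Pat.mk 0x1800000053000000120000000000000000000000000000000000000000 0x20000000e0000000e0000000fc000000ec000000fc0000005b000000fe000000ec000000fc000000e0000000e000000020 12 8) 0 0 (step_sound _ 163 [(rh0df37c83fe21a7ea.shift 2 0), (rh5419adcd928dba20.shift 0 5)] (by decide +kernel))
noncomputable def rhf5dacbd64c853852 : CRef := CRef.mk (Pat.mk 0x1000000013000000120000000000000000000000000000000000000000000000000 0xe0000000e0000010e000001be000003fe000006fe000003ff000007fe0000007a0000007000000050 12 11) 0 0 (step_sound _ 165 [(rh04463472b24f2e9a.shift 2 0), (rh108a9390f3894c11.shift 0 2), (rh1cfda6d6c618c798.shift 1 2), (rh230ac7ae478aca80.shift 4 2), (rh41ec28e15f794d20.shift 4 0), (rh64eecdb7cb21875f.shift 1 1), (rhcea0d3155bf82293.shift 1 1)] (by decide +kernel))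
noncomputable def rh62260deb9584a1a8 : CRef := CRef.mk (Pat.mk 0x480000004c00000048000000000000000000000000000000000 0x28000000380000007e000000ff000007fe000006f800000fbe00001aff00000ffe00001fe800000140 12 13) 0 0 (step_sound _ 103 [(rh2cff7fb4dcb84e79.shift 0 1), (rh5192e84255fe3228.shift 6 1), (rhad585ec84a94d844.shift 6 0), (rhe286c75f2739cce2.shift 6 2)] (by decide +kernel))
noncomputable def rh0d506c12d6ca6fad : CRef := CRef.mk (Pat.mk 0x12000000030000001200000000000000000 0x1c0000001c0000001e000001fe0000003e000001af000000fe000001ff 12 9) 0 0 (step_sound _ 132 [rh0c7f8a486e7743aa, (rh325280b87a035fde.shift 1 0), (rhfc7c29d8e65d775f.shift 4 1)] (by decide +kernel))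
noncomputable def rh119699d577ed9e57 : CRef := CRef.mk (Pat.mk 0x580000004c0000004000000000000000000000000000000000 0x40000001c0000001c000000180000005c0000006f000000f8000001bc000000fc000001fc00000014 12 9) 0 0 (step_sound _ 161 [(rh53b3c253cb0c65f4.shift 0 5), (rh6b7ac2f6f1469331.shift 2 0)] (by decide +kernel))
noncomputable def rh0db7a48cef0ec01a : CRef := CRef.mk (Pat.mk 0x1200000053000000180000000200000000000000000000000000000000 0x20000000e0000000e0000000fc000000ec000000fe0000005b000000f8000000ef000000fc000000e0000000e000000020 12 8) 0 0 (step_sound _ 227 [(rhb2a0b9ccfb5cecd5.shift 0 6), rhd03f2c4bd56bc8b3] (by decide +kernel))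
noncomputable def rhc123bab1ccf74a5f : CRef := CRef.mk (Pat.mk 0x1200000053000000180000000000000000000000000000000000000000 0x20000000e0000000e0000000fc000000ec000000fe0000005b000000fc000000ec000000fc000000e0000000e000000020 12 8) 0 0 (step_sound _ 227 [(rh994b090cec6360ff.shift 2 0), (rhb2a0b9ccfb5cecd5.shift 0 6)] (by decide +kernel))
noncomputable def rh6d816cd74a24334b : CRef := CRef.mk (Pat.mk 0x12000000130000001000000000000000000 0x50000000700000007a000007fe000003ff000006fe000003fe000001be0000010e0000000e0000000e 12 11) 0 0 (step_sound _ 165 [(rh2036a9ac73bbb822.shift 1 3), (rh2230d0adc6913184.shift 4 2), (rh80c2ced1f1b2c751.shift 4 2), (rhc5e8d6a486b8fcf2.shift 1 3), (rhe7cbb8bdd1490528.shift 1 2), (rhecfc61122a569668.shift 2 2), rhed0f11e666e73b84] (by decide +kernel))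
noncomputable def rh8142cc132ad3d394 : CRef := CRef.mk (Pat.mk 0x600000000c000000000000000000000000000000000000000000000000 0x140000001c0000001c0000003c0000003f0000007c0000003c0000001c0000000c0000000c0000001c0000001c00000014 12 7) 0 0 (step_sound _ 227 [rh0ecac440ff9550d9, (rhb2a0b9ccfb5cecd5.shift 2 6)] (by decide +kernel))
noncomputable def rh4275ff46f5ee5b00 : CRef := CRef.mk (Pat.mk 0x1a000000030000000000000000000000000 0x7f000000fe000001be0000003e0000003e0000003e00000038 12 9) 0 0 (step_sound _ 68 [(rh4821dcf828b9d7bf.shift 4 0), (rh5a6de2d1a8200365.shift 1 0), (rh62bce27065a7cac3.shift 0 1), (rhcf80391c5046a495.shift 4 0)] (by decide +kernel))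
noncomputable def rh83e4e934d9bc1798 : CRef := CRef.mk (Pat.mk 0x18000000030000000000000000000000000 0x180000007f000001fe000001fe000001be000001fc000001d800000018 12 9) 0 0 (step_sound _ 133 [(rhb2a0b9ccfb5cecd5.shift 4 3), rhdd194bb14564b4a7] (by decide +kernel))
noncomputable def rh927710fca53553d9 : CRef := CRef.mk (Pat.mk 0x800000009a0000008300000000000000000000000000000000000000000 0x50000000fc000002fe00000ffe00000dbf00000fbe000007ef00000ffc000007f8000003f000000050 12 12) 0 0 (step_sound _ 133 [(rh04b190d10bff8bfc.shift 4 0), (rh10e798db5e87266d.shift 0 2), (rh1be92d3407a6aa8b.shift 4 3), (rh3156fcc0c20d2471.shift 4 1), (rh4c2d83a2c439dd4b.shift 4 1), (rhbc04116938f327fd.shift 4 1), (rhe124f6d8406e8b92.shift 4 0), (rhf82d27317bfadf32.shift 2 0)] (by decide +kernel))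
noncomputable def rhb6af07858a8aa4a5 : CRef := CRef.mk (Pat.mk 0x200000002600000020c00000000000000000000000000000000 0x3a0000027e0000037e000003fc000001ef0000017e0000017e00000050 12 10) 0 0 (step_sound _ 163 [(rhb2a0b9ccfb5cecd5.shift 2 4), rhf8a2ee5dad62ea5b] (by decide +kernel))
noncomputable def rh33c9d3a5e0b384ad : CRef := CRef.mk (Pat.mk 0x400000004c0000004580000000000000000000000000000000000000000 0x80000000f4000000fc0000007c000004ff000006de000007df000003df000002ff000002fc000000f4000000a0 12 11) 0 0 (step_sound _ 134 [(rh0663fcc719721e93.shift 0 1), (rh1b9022be4f7af407.shift 5 1), (rh274a837cd7eaa569.shift 5 1), (rh4b07502a0a37c109.shift 2 0)] (by decide +kernel))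
noncomputable def rh63517d3e6b319dda : CRef := CRef.mk (Pat.mk 0x1800000003000000000000000000000000000000000 0x3f000001fe000001fe000001b0000001f8000001fe0000007800000020 12 9) 0 0 (step_sound _ 165 [(rhb2a0b9ccfb5cecd5.shift 4 4), rhe149352b5e4047f1] (by decide +kernel))
noncomputable def rhd23e49d3ebfda075 : CRef := CRef.mk (Pat.mk 0x400000000d0000004180000000000000000000000000000000000000000 0x28000000380000007800000178000007f0000000d8000007df000003ff000001ff000001fc0000017c00000028 12 11) 0 0 (step_sound _ 228 [(rh115377d93ef986b3.shift 3 0), (rh68a777751bfeafdf.shift 3 4), rh776748bc49421f8f, (rh7a7e08304268422e.shift 3 4), (rh976a48eb1c80a12f.shift 3 4)] (by decide +kernel))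
noncomputable def rhc130b452065316cf : CRef := CRef.mk (Pat.mk 0x80000000980000008200000000000000000000000000000000000000000 0x100000001d0000001f0000002f000000fff00000dfe00000fff000007d0000007f0000007c0000003c000000100 12 12) 0 0 (step_sound _ 197 [(rh45780b542ab8102e.shift 0 5), (rh584027f4d1ba2bb6.shift 0 5), (rh8efa8922863c0551.shift 4 0), (rhc39aa86b0941cb24.shift 3 5), (rheceda9b36f3de645.shift 0 1), (rhee4603d1647ab73b.shift 4 1)] (by decide +kernel))
noncomputable def rh879a6f9061d998ec : CRef := CRef.mk (Pat.mk 0x80000000980000008200000000000000000000000000000000000000000 0x10000000180000001c0000002c000000fdf00000dfe00000fff000007f000000ff0000007c0000003c000000100 12 12) 0 0 (step_sound _ 197 [(rh45780b542ab8102e.shift 0 5), (rh584027f4d1ba2bb6.shift 0 5), (rh6d4a71cc437835fc.shift 4 4), (rhc927fb7e06afd25c.shift 4 0), (rheceda9b36f3de645.shift 0 1), (rhee4603d1647ab73b.shift 4 1)] (by decide +kernel))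
noncomputable def rh6f93ef81d43f210c : CRef := CRef.mk (Pat.mk 0xc000000010000000000000000000000000 0x2800000038000000780000001e000000ff0000007e000000ff0000003e0000002e 12 8) 0 0 (step_sound _ 99 [rh3ddcd74eb48bb311, (rh64fd5766270a6a1e.shift 1 0), (rhd06a3fb214439eaf.shift 2 3), (rhf9add88e4ecba1a6.shift 1 0)] (by decide +kernel))
noncomputable def rh8c6c9dff66693d48 : CRef := CRef.mk (Pat.mk 0x1e00000002000000000000000000000000 0x40000000c0000003f0000001e0000003a0000003f0000003f00000028 12 6) 0 0 (step_sound _ 100 [rh871d914b7a492efe, (rhe25b0a99195a5d59.shift 1 3)] (by decide +kernel))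
noncomputable def rh597917efa9c1b00a : CRef := CRef.mk (Pat.mk 0x1800000002000000000000000000000000000000000 0x5000000070000000fc000000fc000003ff000001fe0000037f00000170000000700000007000000050 12 10) 0 0 (step_sound _ 165 [(rh535159b793dad9b6.shift 0 1), (rh555dfc9ed9b046a9.shift 4 1), (rh6d4a71cc437835fc.shift 4 3), (rhed26c2cf94eee351.shift 2 0)] (by decide +kernel))
noncomputable def rh756b862ddea0a48a : CRef := CRef.mk (Pat.mk 0x200000002600000020800000000000000000000000000000000 0x400000006000000078000000bf000003fc00000370000003fc000001fe000003fc000001f8000000f0 12 10) 0 0 (step_sound _ 133 [(rh08e8ce1cbd12124b.shift 2 1), (rh33f06da659b29cb1.shift 2 0), (rh4c2de4351f2887c2.shift 0 1), (rh6c425155ee3b7cf5.shift 2 0), (rh86f9f6fa2c199e04.shift 2 0), (rhb9d707a1c8baab63.shift 2 0), (rhd6aab0dd18f4d8ed.shift 2 1), (rhdc02cdb6ba10a529.shift 2 0), (rhed20bdce0d4270f8.shift 2 2)] (by decide +kernel))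
noncomputable def rh9a10ae46f936984a : CRef := CRef.mk (Pat.mk 0x80000000980000009200000000000000000000000000000000 0x40000000c0000000e0000008f000000df000000fe0000007f0000007f0000007d00000028 12 8) 0 0 (step_sound _ 161 [(rh41955519f857d4d5.shift 1 4), (rh6a8e5cbccb060a66.shift 0 1), rhe2679aa9fbe49bd9] (by decide +kernel))
noncomputable def rh2d618a55a09d7e9f : CRef := CRef.mk (Pat.mk 0x30000001240000000000000000000000000000000000000000 0xa0000001e0000001e0000007f0000003e000001fc0000001e0000001e0000001e0000000e00000008 12 9) 0 0 (step_sound _ 194 [(rh26a98646e59f1aad.shift 1 0), (rh3d94dccd8eacba00.shift 0 2), (rh41955519f857d4d5.shift 2 5)] (by decide +kernel))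
noncomputable def rh6bb9e3684fc59b03 : CRef := CRef.mk (Pat.mk 0x180000008a00000000000000000000000000000000 0xc0000000e0000001f0000001b000000ff0000007c0000001c0000001c00000014 12 8) 0 0 (step_sound _ 130 [(rh53b3c253cb0c65f4.shift 0 4), rh8fe52b68cb76e8be] (by decide +kernel))
noncomputable def rh81299d1004fd0611 : CRef := CRef.mk (Pat.mk 0x8000000180000008a0000000000000000 0xd0000000f0000001f0000001b000000ff0000007300000010 12 8) 0 0 (step_sound _ 66 [(rh53b3c253cb0c65f4.shift 0 2), rh6e85bb2b9f609f4d] (by decide +kernel))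
noncomputable def rha3010baff5468384 : CRef := CRef.mk (Pat.mk 0x40000000c00000005000000000000000000000000000000000 0x140000001c0000003c000000fc000000de0000007f0000005f000000ff000000f4000000a0 12 8) 0 0 (step_sound _ 131 [(rh1c62b6193297d9e3.shift 3 4), rh966ea488321e710f] (by decide +kernel))
noncomputable def rh79cbd2b541c1c295 : CRef := CRef.mk (Pat.mk 0xc000000600000000000000000000000000000000000000000 0x140000001c0000001c0000000c0000000c0000001c0000003c0000007c0000003f0000003c0000001c0000001c00000014 12 7) 0 0 (step_sound _ 163 [rh1937a365b56aac58, (rh5419adcd928dba20.shift 2 5)] (by decide +kernel))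
noncomputable def rh131b8fa84435dfac : CRef := CRef.mk (Pat.mk 0x30000001a00000000000000000 0x380000003e0000003e0000003e000001be000000fe0000007f 12 9) 0 0 (step_sound _ 132 [(rh5d54cb79a67f97ab.shift 4 0), (rh6f80dc870cb2c258.shift 1 0), rha69d707f507555e6, (rhc2c7bae8f445c890.shift 4 0)] (by decide +kernel))
noncomputable def rha26e6c26aec63f60 : CRef := CRef.mk (Pat.mk 0x3000000180000000000000000000000000 0x18000001d8000001fc000001be000001fe000001fe0000007f00000018 12 9) 0 0 (step_sound _ 101 [(rh5419adcd928dba20.shift 4 3), rh79a56eb1e75aa4e3] (by decide +kernel))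
noncomputable def rh3c94d8e9aa0b3900 : CRef := CRef.mk (Pat.mk 0x830000009a000000800000000000000000000000000 0x50000003f0000007f800000ffc000007ef00000fbe00000dbf00000ffe000002fe000000fc00000050 12 12) 0 0 (step_sound _ 197 [(rh129424e8a899af1d.shift 4 1), (rh299d03f09423980f.shift 4 2), (rh39b48772e81d8426.shift 4 2), (rh53110345b2ea10d5.shift 4 0), (rh619745615ed59603.shift 2 1), (rh6898d36076d64919.shift 4 1), rh916418e5ece13963, (rh99ab794fae62d76f.shift 4 1)] (by decide +kernel))
noncomputable def rh0a9c4f3b6b508c88 : CRef := CRef.mk (Pat.mk 0x20c000002600000020000000000 0x500000017e0000017e000001ef000003fc0000037e0000027e0000003a 12 10) 0 0 (step_sound _ 67 [(rh5419adcd928dba20.shift 2 2), rh8b24bd8bc5caa563] (by decide +kernel))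
noncomputable def rh5e57bb742131ac70 : CRef := CRef.mk (Pat.mk 0x458000004c00000040000000000000000000000000000000000 0xa0000000f4000002fc000002ff000003df000007df000006de000004ff0000007c000000fc000000f400000080 12 11) 0 0 (step_sound _ 230 [(rh0fa4a62bba50784f.shift 5 4), rhc7b8d1e7ad37ade7, (rhe4b4d0c5e09e50dd.shift 2 2), (rhfb9fb48a5e63ed80.shift 5 4)] (by decide +kernel))
noncomputable def rhcb8ff88b91a90567 : CRef := CRef.mk (Pat.mk 0x30000001800000000000000000 0x2000000078000001fe000001f8000001b0000001fe000001fe0000003f 12 9) 0 0 (step_sound _ 69 [(rh5419adcd928dba20.shift 4 2), rhf1f24d7bc0d37d85] (by decide +kernel))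
noncomputable def rh9172f07710e76b8b : CRef := CRef.mk (Pat.mk 0x418000000d00000040000000000000000000000000000000000 0x280000017c000001fc000001ff000003ff000007df000000d8000007f000000178000000780000003800000028 12 11) 0 0 (step_sound _ 132 [(rh01483ff9cba2f6ac.shift 3 1), (rh56259dd1390eee46.shift 3 1), (rh745fff7166ee2604.shift 3 0), (rh963e0515ffb2a42f.shift 0 2), (rhd1779d7de7f8215b.shift 3 1)] (by decide +kernel))
noncomputable def rhe83025bc09feb021 : CRef := CRef.mk (Pat.mk 0x820000009800000080000000000000000000000000000000000 0x100000003c0000007c0000007f0000007d000000fff00000dfe00000fff000002f0000001f0000001d000000100 12 12) 0 0 (step_sound _ 165 [(rh17368494d8bdcb59.shift 0 4), (rh18afd6fd44b064e0.shift 0 2), (rhae1d59ec0fc7d822.shift 4 2), (rhc1e41ac37ef70b3a.shift 0 4), (rhce5009aae41255e5.shift 4 0), (rhd3f92e1437b0e789.shift 3 4)] (by decide +kernel))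
noncomputable def rhcceb968a6182d4b1 : CRef := CRef.mk (Pat.mk 0x820000009800000080000000000000000000000000000000000 0x100000003c0000007c000000ff0000007f000000fff00000dfe00000fdf000002c0000001c00000018000000100 12 12) 0 0 (step_sound _ 165 [(rh17368494d8bdcb59.shift 0 4), (rh18afd6fd44b064e0.shift 0 2), (rhae1d59ec0fc7d822.shift 4 2), (rhc1e41ac37ef70b3a.shift 0 4), (rhc22bffc2451f8523.shift 4 0), (rhd77eaed57a9a778b.shift 4 2)] (by decide +kernel))
noncomputable def rhf51323347802c704 : CRef := CRef.mk (Pat.mk 0x10000000c000000000000000000000000000000000 0x2e0000003e000000ff0000007e000000ff0000001e000000780000003800000028 12 8) 0 0 (step_sound _ 163 [(rh1b285008457007f1.shift 1 0), (rh7dbf15a8a6671efa.shift 1 0), (rha7b253017a5af1e0.shift 2 4), (rhee0dd698f306bede.shift 0 3)] (by decide +kernel))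
noncomputable def rh8e4fd05535fc18cf : CRef := CRef.mk (Pat.mk 0x20000001e000000000000000000000000 0x280000003f0000003f0000003a0000001e0000003f0000000c00000004 12 6) 0 0 (step_sound _ 132 [(rh33e738c4ed385b9f.shift 1 3), rh7f9d86ec85f2ce4f] (by decide +kernel))
noncomputable def rh85db88e64496d06b : CRef := CRef.mk (Pat.mk 0x20000001800000000000000000000000000000000000000000 0x500000007000000070000001700000037f000001fe000003ff000000fc000000fc0000007000000050 12 10) 0 0 (step_sound _ 165 [(rh11e96819f31807d7.shift 4 2), (rhd77eaed57a9a778b.shift 4 2), (rhe9fbb49d585fa5f9.shift 0 2), (rhf436605080bdafc9.shift 2 0)] (by decide +kernel))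
noncomputable def rh2a12f183571d1fc3 : CRef := CRef.mk (Pat.mk 0x208000002600000020000000000000000000000000000000000 0xf0000001f8000003fc000001fe000003fc00000370000003fc000000bf000000780000006000000040 12 10) 0 0 (step_sound _ 197 [(rh25813bbc698a70ee.shift 2 0), (rh30beeadf14f38b04.shift 2 3), (rh47b1b3be31b20e12.shift 2 3), (rh4d3c3bdbe9d5bc09.shift 0 3), (rh5d3ae0958ebee2d0.shift 2 2), (rh73049dd20718e319.shift 2 0), (rh788dffbefbaa2132.shift 2 2), (rhabb5b4dbad6efe22.shift 2 2), (rhdd6748ca2c474ce8.shift 2 3)] (by decide +kernel))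
noncomputable def rh6e34b203f53cb637 : CRef := CRef.mk (Pat.mk 0x920000009800000080000000000000000000000000 0x280000007d0000007f0000007f000000fe000000df0000008f0000000e0000000c00000004 12 8) 0 0 (step_sound _ 129 [rh7904226f6a3a1693, (rh90982cf581ae3e69.shift 1 4), (rh967aefb26a03770f.shift 0 1)] (by decide +kernel))
noncomputable def rh2873bff403e24bb5 : CRef := CRef.mk (Pat.mk 0x1240000003000000000000000000000000000000000 0x80000000e0000001e0000001e0000001e000001fc0000003e0000007f0000001e0000001e0000000a 12 9) 0 0 (step_sound _ 130 [(rh7e821671a23fca42.shift 0 1), (rh90982cf581ae3e69.shift 2 4), (rhb1d02b164d1b8912.shift 1 0)] (by decide +kernel))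
noncomputable def rh29f6ec47af959cba : CRef := CRef.mk (Pat.mk 0x8a00000018000000000000000000000000 0x140000001c0000001c0000007c000000ff0000001b0000001f0000000e0000000c 12 8) 0 0 (step_sound _ 130 [(rhb739f4f82bb681b4.shift 0 3), rhe94dde7acb7bc0c6] (by decide +kernel))
noncomputable def rhac4676b47cce0be1 : CRef := CRef.mk (Pat.mk 0x8a00000018000000080000000000000000 0x1000000073000000ff0000001b0000001f0000000f0000000d 12 8) 0 0 (step_sound _ 130 [rhb1ee3983cd72b21d, (rhb739f4f82bb681b4.shift 0 3)] (by decide +kernel))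
noncomputable def rhc4a4373b71c24a50 : CRef := CRef.mk (Pat.mk 0x50000000c000000040000000000000000000000000 0xa0000000f4000000ff0000005f0000007f000000de000000fc0000003c0000001c00000014 12 8) 0 0 (step_sound _ 163 [(rhc10214bf3fe8094a.shift 3 4), rhd5e28e3d5497d383] (by decide +kernel))
noncomputable def rh7ceda60711914ee3 : CRef := CRef.mk (Pat.mk 0x880000001800000030000000000000000000000000 0xc0000002c0000007f000000ff0000001f0000003e0000002f0000000e0000000c 12 8) 0 0 (step_sound _ 164 [rh352b462145d12926, (rh83e0ea970ce6b27c.shift 0 1), (rhc3d16d889472b83a.shift 0 1), (rhd835e8b8dc07ccb4.shift 3 2), (rhed22d6b9375844d9.shift 0 2), (rhef1600c16c85a6e1.shift 0 2)] (by decide +kernel))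
noncomputable def rh047efc608479a630 : CRef := CRef.mk (Pat.mk 0x800000008000000180000008000000000000000000000000000000000 0x50000000f0000001f0000001f000000fe0000001f0000001c0000001c00000014 12 8) 0 0 (step_sound _ 131 [(rh2f1b1363c0bb3c54.shift 0 3), (rh46baee19951a66e7.shift 2 2), (rh6eff4158bb400f47.shift 2 2), (rh8cfb1a99ecfeaa6e.shift 2 0)] (by decide +kernel))
noncomputable def rhcde32c0676b7f0de : CRef := CRef.mk (Pat.mk 0x8000000080000001800000080000000000000000000000000 0x140000003f0000000f0000001f000000fe0000001f0000001c00000004 12 8) 0 0 (step_sound _ 99 [(rh3a61644a128cd4ab.shift 0 2), (rh3ebe9cd52aa19b5e.shift 0 2), (rh46baee19951a66e7.shift 2 1), (rh6eff4158bb400f47.shift 2 1), (rhe84e00c98653ad0c.shift 2 0)] (by decide +kernel))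
noncomputable def rh13962202214cc57c : CRef := CRef.mk (Pat.mk 0x8800000098000000800000000000000000 0x7e000000fe0000007f000000ff000000df0000008e0000000e00000006 12 8) 0 0 (step_sound _ 132 [(rh1927734c5e5195cd.shift 0 1), (rh1a1b1d08e2f9ab48.shift 0 1), (rh29186bc5a50e601a.shift 1 1), (rh29881af8da976cfb.shift 0 1), (rh30f9dad3c4f651b5.shift 0 1), (rh80c7a9dd9cc7886b.shift 0 1), rh83e0ea970ce6b27c, (rh9297a8d28bcced9d.shift 0 1)] (by decide +kernel))
noncomputable def rhffadc24039f76a90 : CRef := CRef.mk (Pat.mk 0x300000001800000088000000000000000000000000 0xc0000000e0000002f0000003e0000001f000000ff0000007f0000002c0000000c 12 8) 0 0 (step_sound _ 100 [(rh0d0ba2b229dd18ce.shift 0 1), (rh32ba97e5134cf6df.shift 3 1), (rha2235b38e25e7461.shift 0 1), rhb39df7ef02226095, rhe38b68c8ab6caeed, (rhe599bec763ba957b.shift 0 1)] (by decide +kernel))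
noncomputable def rhade7a5aea09945f2 : CRef := CRef.mk (Pat.mk 0x8000000018000000080000000800000000 0x140000001c0000001c0000001f000000fe0000001f0000001f0000000f00000005 12 8) 0 0 (step_sound _ 131 [(rh1741680720c097b4.shift 2 1), (rh30c061e58ebf1ac8.shift 2 0), (rh3b734c5288922837.shift 2 0), rh895fadf9a9bee6e3] (by decide +kernel))
noncomputable def rhb1852b41e5c96097 : CRef := CRef.mk (Pat.mk 0x8000000018000000080000000800000000 0x40000001c0000001f000000fe0000001f0000000f0000003f00000014 12 8) 0 0 (step_sound _ 131 [(rh1741680720c097b4.shift 2 1), (rh3b734c5288922837.shift 2 0), rh785844d48e80a5e6, (rhe01cfd8f0577defd.shift 2 1), rhf0d38cf1e7116183] (by decide +kernel))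
noncomputable def rh3596c3ce9cf35848 : CRef := CRef.mk (Pat.mk 0x800000009800000088000000000000000000000000 0x60000000e0000008e000000df000000ff0000007f000000fe0000007e 12 8) 0 0 (step_sound _ 100 [rh02cd6cea254fdbd3, (rh23ec6c297adff444.shift 0 1), rh5f0f1f9cf8faf219, rh9a02f26b0aee95ad, rh9ed074d906653d58, rhd8a5b88c8d234be7, rhe38b68c8ab6caeed, (rhea3002d889ce19cc.shift 1 0)] (by decide +kernel))
noncomputable def rhefd7d2ca7e0f57be : CRef := CRef.mk (Pat.mk 0x900000001800000088000000000000000000000000 0x24000000ff0000001f000000fc000000780000003e0000003c 12 8) 0 0 (step_sound _ 165 [(rh361cc68994bd8a63.shift 3 4), rh55962dc2b8903d96] (by decide +kernel))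
noncomputable def rh023205e19f3453a4 : CRef := CRef.mk (Pat.mk 0x800000001800000088000000000000000000000000 0x200000003a0000007e000000f70000001f000000ff0000007f0000007e0000003e 12 8) 0 0 (step_sound _ 100 [(rh0a4dcf51a719c563.shift 1 0), rh15982f933753baf2, rh6e18dc207937a3e2, (rh97db52eb6bf5b8c9.shift 3 0), rhce77f04e8c57a3b7] (by decide +kernel))
noncomputable def rh988def9633a48c4f : CRef := CRef.mk (Pat.mk 0x900000001800000088000000000000000000000000 0x20000000fc0000001f000000ff0000007f000000fe0000003e 12 8) 0 0 (step_sound _ 165 [(rh361cc68994bd8a63.shift 3 4), rhb95a22f2b9302cc9] (by decide +kernel))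
noncomputable def rh5bba1bd34d83d378 : CRef := CRef.mk (Pat.mk 0x8000000098000000880000000000000000000000000000000000000000 0x80000000e0000008f000000df000000ff0000007f000000ff0000007e0000003800000008 12 8) 0 0 (step_sound _ 164 [(rh8decb7cd999ad66c.shift 0 2), (rh9e141fa6bc2add05.shift 0 2), (rhd0206cdf68da559d.shift 0 2), (rhd7aa0111bfec533c.shift 1 0), rhdb2f998f3bb74758, rhee5afb2893b9472c, (rhfa427a3b7d428523.shift 0 2), (rhfd132c3fbec0b454.shift 0 2)] (by decide +kernel))
noncomputable def rh799475011525fde8 : CRef := CRef.mk (Pat.mk 0x88000000180000009000000000 0x3c0000003e00000078000000fc0000001f000000ff00000024 12 8) 0 0 (step_sound _ 37 [(rh2fe78cc5ca4405d8.shift 3 1), rhfe160c27a9ce2773] (by decide +kernel))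
noncomputable def rh505aa06148e130d1 : CRef := CRef.mk (Pat.mk 0x880000001800000080000000000000000000000000 0x3e0000007e0000007f000000ff0000001f000000f70000007e0000003a00000020 12 8) 0 0 (step_sound _ 164 [(rh2dbc52c9ebd6da8b.shift 0 3), (rh2e1c90998a150258.shift 1 0), (rh5efecdc999974cf1.shift 0 2), (rha357caa34b903cbf.shift 3 1), (rhe94e00874dbf5347.shift 0 1)] (by decide +kernel))
noncomputable def rh621c6d690e7c6420 : CRef := CRef.mk (Pat.mk 0x88000000180000009000000000 0x3e000000fe0000007f000000ff0000001f000000fc00000020 12 8) 0 0 (step_sound _ 37 [(rh2fe78cc5ca4405d8.shift 3 1), rh37167456fdd659c7] (by decide +kernel))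
noncomputable def rh98f6d7586350f8ca : CRef := CRef.mk (Pat.mk 0x8800000098000000800000000000000000 0x8000000380000007e000000ff0000007f000000ff000000df0000008f0000000e00000008 12 8) 0 0 (step_sound _ 132 [(rh0995b9f3b633202e.shift 0 1), (rh1d5c82b34dbe998d.shift 1 1), (rh26ffcb37093465b4.shift 0 2), (rh3d2220da2274a1a5.shift 0 1), (rh61142f598d4e551e.shift 0 2), (rh682dbe6c92e98057.shift 0 1), rh8fde4cdccd3e899f, (rhb2155e26bd351a50.shift 0 2)] (by decide +kernel))
noncomputable def rhce0af1958e122be5 : CRef := CRef.mk (Pat.mk 0x980000001800000000000000000000000000000000 0x80000001800000018000000fc0000001f0000003f0000007f0000001e00000002 12 8) 0 0 (step_sound _ 165 [(rh361cc68994bd8a63.shift 3 4), rhbea189d2973dddac] (by decide +kernel))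
noncomputable def rha5f79d4b8f705a23 : CRef := CRef.mk (Pat.mk 0x880000009800000080000000000000000000000000 0x2d0000007f0000007f0000007b000000ff000000df000000bf0000003f0000003e00000002 12 8) 0 0 (step_sound _ 164 [rh05c7b11d0956b2e5, (rh20277466cec22ba9.shift 1 1), (rh2a6f1d245b226674.shift 0 1), (rh6f10328fcc6f4b35.shift 0 1), (rhd6462a555c5a1f5d.shift 1 1)] (by decide +kernel))
noncomputable def rh33a56901ccff29d8 : CRef := CRef.mk (Pat.mk 0x8800000018000000100000000000000000 0x40000000400000027000000ff0000001f0000003f0000007f0000003f 12 8) 0 0 (step_sound _ 36 [(rh7b1f1fb55310c477.shift 3 0), rh90d55fb789fc3fbb] (by decide +kernel))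
noncomputable def rhd2079ce7288450a6 : CRef := CRef.mk (Pat.mk 0x1800000018000000000000000000000000 0x1c0000003e0000000f0000001b0000001f0000003f0000001f0000001c 12 6) 0 0 (step_sound _ 163 [(rh28152048bc8b598f.shift 0 2), (rh55a1f6c57a317ce6.shift 3 1), rh881f465631063b54] (by decide +kernel))
noncomputable def rh1035fb13cee6a31c : CRef := CRef.mk (Pat.mk 0x1800000018000000000000000000000000 0x140000001c0000003f0000001f0000001b0000001f0000001f0000001c0000000c 12 6) 0 0 (step_sound _ 163 [(rh14e0829dc73b6804.shift 2 2), (rh28152048bc8b598f.shift 0 2), (rh55a1f6c57a317ce6.shift 3 1), rh6273389afdb941c7, (rh78ed24c0edb667f3.shift 0 1)] (by decide +kernel))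
noncomputable def rh634d7f66537fcafa : CRef := CRef.mk (Pat.mk 0x11000000130000001000000000000000000 0xfc000001fc000000fe000001ff000001be0000016f0000006c0000006c 12 9) 0 0 (step_sound _ 133 [(rh20277466cec22ba9.shift 2 0), (rh2dbc52c9ebd6da8b.shift 1 2), (rh43ff0f3d226ab0a1.shift 2 0), rh802733d91df2925f, (rh83e0ea970ce6b27c.shift 1 0), (rhe055638bb88dfdce.shift 1 1)] (by decide +kernel))
noncomputable def rhb3ae450a3e999af9 : CRef := CRef.mk (Pat.mk 0x8800000098000000800000000000000000 0x280000007c000000fc0000007f000000ff000000df0000008f0000000f0000000e 12 8) 0 0 (step_sound _ 132 [(rh26570d32842f45e6.shift 2 1), (rh3f59e6a013622bb8.shift 0 1), rh5b2f4a670329848a, (rh80c7a9dd9cc7886b.shift 0 1), rh83e0ea970ce6b27c, rh898de146901a0bcc, (rhed22d6b9375844d9.shift 0 1), (rhef1600c16c85a6e1.shift 0 1)] (by decide +kernel))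
noncomputable def rh44b6593250f15014 : CRef := CRef.mk (Pat.mk 0x1800000098000000000000000000000000 0x20000001e0000007f0000003f0000001f000000fc000000180000001800000008 12 8) 0 0 (step_sound _ 101 [(rh2fe78cc5ca4405d8.shift 3 3), rh6aff1865bff15bda] (by decide +kernel))
noncomputable def rhe0fb0941b1872e32 : CRef := CRef.mk (Pat.mk 0x80000000980000008800000000000000000000000000000000 0x20000003e0000003f000000bf000000df000000ff0000007b0000007f0000007f0000002d 12 8) 0 0 (step_sound _ 132 [(rh4e3d17ed4e0bd162.shift 1 1), rh6dc5d7245d17f809, rh7fe7a5c3d7ce3e76, (rhc4ef6306db5f37fa.shift 1 1), (rhd5e7e24ce050b165.shift 0 1)] (by decide +kernel))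
noncomputable def rhde08b7821aae86ed : CRef := CRef.mk (Pat.mk 0x100000001800000088000000000000000000000000 0x3f0000007f0000003f0000001f000000ff000000270000000400000004 12 8) 0 0 (step_sound _ 196 [(rh5c5e593799055d58.shift 3 3), rh91f45e7e2f61b0eb] (by decide +kernel))
noncomputable def rhcccb44b5b7de3a7f : CRef := CRef.mk (Pat.mk 0x1800000018000000000000000000000000 0x1c0000001f0000003f0000001f0000001b0000000f0000003e0000001c 12 6) 0 0 (step_sound _ 67 [rh59884d4b0b1c90ac, (rh84d1c02a8954c6a8.shift 3 1), (rhac510116605cbe6d.shift 0 1)] (by decide +kernel))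
noncomputable def rhe423239160308775 : CRef := CRef.mk (Pat.mk 0x180000001800000000000000000000000000000000 0xc0000001c0000001f0000001f0000001b0000001f0000003f0000001c00000014 12 6) 0 0 (step_sound _ 99 [(rh59884d4b0b1c90ac.shift 0 1), (rh84d1c02a8954c6a8.shift 3 2), (rhae8116c38b2cc285.shift 0 2), rhd1b756fa266c9133, (rhffb8e5993241bf15.shift 2 0)] (by decide +kernel))
noncomputable def rh3c01d8001245b489 : CRef := CRef.mk (Pat.mk 0x1000000013000000110000000000000000000000000 0x6c0000006c0000016f000001be000001ff000000fe000001fc000000fc 12 9) 0 0 (step_sound _ 101 [(rh15982f933753baf2.shift 1 0), (rh695e4327c06d4c46.shift 1 0), rh77e4e9dbf97023ce, (rh849ec24df820f59e.shift 2 0), (rhc4ef6306db5f37fa.shift 2 0), (rhe38b68c8ab6caeed.shift 1 0)] (by decide +kernel))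
noncomputable def rh54ccf819d7589dbb : CRef := CRef.mk (Pat.mk 0x80000000980000008800000000000000000000000000000000 0xe0000000f0000008f000000df000000ff0000007f000000fc0000007c00000028 12 8) 0 0 (step_sound _ 132 [(rh0c86248c45473289.shift 0 1), (rh20e3a7ed1f8d80aa.shift 0 1), (rh9a02f26b0aee95ad.shift 0 1), (rha2235b38e25e7461.shift 0 2), (rhb39df7ef02226095.shift 0 1), (rhc22507c45ae387cb.shift 0 1), (rhe0e8bef27294a797.shift 2 0), (rhe38b68c8ab6caeed.shift 0 1)] (by decide +kernel))
noncomputable def rhf41c0d5e7ae00ec8 : CRef := CRef.mk (Pat.mk 0x180000001800000000000000000000000000000000 0x20000000a0000000f0000001f0000001f0000007f0000003f0000003e00000002 12 7) 0 0 (step_sound _ 100 [rh0130ce542497a6ac, (rh1864e4c677b30864.shift 1 1), (rh3cb04db3dd2b6a55.shift 3 1)] (by decide +kernel))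
noncomputable def rh27d2ff502bce0213 : CRef := CRef.mk (Pat.mk 0x800000009800000098000000000000000000000000 0x500000067000000770000007f000000ff000000df0000009f000000370000003700000035 12 8) 0 0 (step_sound _ 163 [rh2887c5c81ea7506e, (rh55a1f6c57a317ce6.shift 3 1), (rhfbfedb54e9617074.shift 0 2)] (by decide +kernel))
noncomputable def rh809d74d14d9f4d61 : CRef := CRef.mk (Pat.mk 0x1800000018000000000000000000000000 0x20000003e0000003f0000007f0000001f0000001f0000000f0000000a00000002 12 7) 0 0 (step_sound _ 164 [(rh503dd4575245365b.shift 3 2), rh85bdbff551841f73, (rh9dbc063ae34b2487.shift 1 3)] (by decide +kernel))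
noncomputable def rhf5552707906fde2d : CRef := CRef.mk (Pat.mk 0x98000000980000008000000000000000000000000000000000 0x3500000037000000370000009f000000df000000ff0000007f000000770000006700000005 12 8) 0 0 (step_sound _ 131 [(rh51a387732be950ad.shift 0 1), (rh84d1c02a8954c6a8.shift 3 3), rhf0002c2140257e35] (by decide +kernel))
noncomputable def rh63661019534cd568 : CRef := CRef.mk (Pat.mk 0x800000009c000000b0000000000000000000000000 0x280000007c000000fc0000005f000000ff000000dc000000be0000007c0000003c00000020 12 8) 0 0 (step_sound _ 164 [(rh17c4d40f6ee5bd2b.shift 3 1), (rh22c3b51a9f7ff173.shift 0 1), (rh70e33bfdf511e144.shift 4 0), (rhfa3205aafd2af0b3.shift 3 2)] (by decide +kernel))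
noncomputable def rhce77433f539b491a : CRef := CRef.mk (Pat.mk 0x1800000090000000000000000000000000 0x28000000380000003c0000001c0000007c0000001e000000ff0000003f0000001c0000000c 12 8) 0 0 (step_sound _ 101 [rh2e37fabfa5b89454, (rh2fe78cc5ca4405d8.shift 3 3)] (by decide +kernel))
noncomputable def rhb1bdf8ad68c3ea96 : CRef := CRef.mk (Pat.mk 0x1200000003000000060000000000000000000000000 0x18000000180000001e000001fe0000003e0000007e000000fe0000005f00000008 12 9) 0 0 (step_sound _ 69 [(rh1586acac7dc355e0.shift 2 1), (rh3eab6097335fa778.shift 1 2), (rh5f35a4995f96f8f2.shift 2 0), (rh5fa9130e01af4634.shift 2 1), (rh6697e8f90c0f460b.shift 0 1), (rh7b32d4fbc66d3a35.shift 1 1)] (by decide +kernel))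
noncomputable def rha02a4ba3ccc258e4 : CRef := CRef.mk (Pat.mk 0x10000000130000001200000000000000000000000000000000000000000 0xe0000001f0000000b0000001f0000001b0000001fe000000fe000000ff0000007c0000007000000050 12 9) 0 0 (step_sound _ 166 [(rh2fe78cc5ca4405d8.shift 4 5), rh98eea7ba4475bf73] (by decide +kernel))
noncomputable def rh54f186f0dd73836f : CRef := CRef.mk (Pat.mk 0x18000000900000001800000000 0x80000001c0000001f0000001f000000df0000007f00000027 12 8) 0 0 (step_sound _ 131 [rhc7af8fe06eef3c52, (rhc89253ff58c66167.shift 3 1), (rhe072fffdd2fccf38.shift 3 1)] (by decide +kernel))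
noncomputable def rhce7db5c0cba8c06f : CRef := CRef.mk (Pat.mk 0x80000000180000001800000000000000000000000000000000 0x140000001f000000ff0000001f0000001f0000000f0000003c0000001c00000014 12 8) 0 0 (step_sound _ 99 [(rh215e11e099257d75.shift 3 2), (rh59884d4b0b1c90ac.shift 0 1), (rhcba4f8e70cf873cf.shift 0 2), (rhffb8e5993241bf15.shift 2 0)] (by decide +kernel))
noncomputable def rhf9db829816a0599b : CRef := CRef.mk (Pat.mk 0xb00000009c0000008000000000000000000000000000000000 0x200000003c0000007c000000be000000dc000000ff0000005f000000fc0000007c00000028 12 8) 0 0 (step_sound _ 132 [(rh103d3624dacc023c.shift 3 1), (rh215e11e099257d75.shift 4 3), (rh7a4c84f1fe5219da.shift 0 1), (rhe8826dab31f3e5a9.shift 3 0)] (by decide +kernel))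
noncomputable def rh1ed63eaf6209b9d2 : CRef := CRef.mk (Pat.mk 0x90000000180000000000000000000000000000000000000000 0xc0000001c0000003f000000ff0000001e0000007c0000001c0000003c0000003800000028 12 8) 0 0 (step_sound _ 197 [(rh361cc68994bd8a63.shift 3 5), rhb146522eaf46ce0e] (by decide +kernel))
noncomputable def rhb6c0c6d8b52bca2f : CRef := CRef.mk (Pat.mk 0x600000003000000120000000000000000000000000 0x80000005f000000fe0000007e0000003e000001fe0000001e0000001800000018 12 9) 0 0 (step_sound _ 197 [(rh10823c4aca8e6e63.shift 2 2), (rh247bd96aefa1d313.shift 1 0), (rh25c138e5a7f4ea57.shift 0 2), (rh9a2323abfa7bcb33.shift 1 0), (rha7a0ad9869202067.shift 2 2), (rhe0a833230a2d30d2.shift 2 3)] (by decide +kernel))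
noncomputable def rh7f9e353bfdd42848 : CRef := CRef.mk (Pat.mk 0x1200000013000000100000000000000000000000000 0x50000000700000007c000000ff000000fe000001fe000001b0000001f0000000b0000001f0000000e0 12 9) 0 0 (step_sound _ 166 [(rh361cc68994bd8a63.shift 4 4), rh6922d4fc563d8b18] (by decide +kernel))
noncomputable def rhcf9e5eeb4800bcd0 : CRef := CRef.mk (Pat.mk 0x180000009000000018000000000000000000000000 0x270000007f000000df0000001f0000001f0000001c00000008 12 8) 0 0 (step_sound _ 67 [(rh07c1fdc030d26807.shift 0 1), (rh42548283029e2a39.shift 3 0), (rhf9af042da61fc652.shift 3 0)] (by decide +kernel))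
noncomputable def rhaae93416b4cefb15 : CRef := CRef.mk (Pat.mk 0x1800000018000000800000000000000000 0x140000001c0000003c0000000f0000001f0000001f000000ff0000001f00000014 12 8) 0 0 (step_sound _ 163 [(rh14e0829dc73b6804.shift 2 2), rh153d5e4865e68447, (rh28152048bc8b598f.shift 0 2), (rh70e33bfdf511e144.shift 3 0)] (by decide +kernel))
noncomputable def rheb606050bb1f2639 : CRef := CRef.mk (Pat.mk 0x800000001800000090000000000000000000000000 0x280000003e000000fe0000007e000000df0000001f000000fe000000780000003800000008 12 8) 0 0 (step_sound _ 101 [(rh2fe78cc5ca4405d8.shift 3 3), rhaf15aee0e74a10d5] (by decide +kernel))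
noncomputable def rhbc40c5829886b9bd : CRef := CRef.mk (Pat.mk 0x180000009000000000000000000000000000000000 0x1c0000001e0000001f0000001e000000ff0000001f0000001f0000000e00000008 12 8) 0 0 (step_sound _ 133 [(rh2fe78cc5ca4405d8.shift 3 4), rh9ad6dc7fcbf53d5a] (by decide +kernel))
noncomputable def rh72d108263004556f : CRef := CRef.mk (Pat.mk 0x180000009000000000000000000000000000000000 0x300000003c0000003c0000001f0000001f0000001f000000ff0000006f0000003c0000001c00000014 12 8) 0 0 (step_sound _ 131 [rh0601ebff20167fbd, (rh102126d77a916feb.shift 0 1), rh206a32ea8cc0a26d, (rh9e141fa6bc2add05.shift 0 1), (rhd1fc514995c2c7a8.shift 0 2), (rhf082acb7e91ee90a.shift 0 2)] (by decide +kernel))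
noncomputable def rhe2cce0d6d4a65175 : CRef := CRef.mk (Pat.mk 0x100000001300000012000000000000000000000000000000000 0x20000000280000012f000001be000001ff000000fe000001fe000000fe0000000a 12 9) 0 0 (step_sound _ 132 [(rh102126d77a916feb.shift 1 1), (rh15982f933753baf2.shift 1 1), (rh2834f84bf39b863c.shift 1 0), rh572691b25526a508, (rh6e18dc207937a3e2.shift 1 1), (rha8d2db06ca3244f5.shift 2 1), (rhd092811bc747ec2d.shift 2 1)] (by decide +kernel))
noncomputable def rh9b485644f1bda6c2 : CRef := CRef.mk (Pat.mk 0x20000000300000006000000000000000000000000000000000 0xc0000000c0000001e0000003e0000003e0000007f000000ee0000007e0000007000000050 12 8) 0 0 (step_sound _ 101 [(rh2f9fd7c8df766952.shift 0 2), (rh4ed972033d0a12ff.shift 4 0), (rhd1779d7de7f8215b.shift 4 0), (rhe286c75f2739cce2.shift 4 2)] (by decide +kernel))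
noncomputable def rh58c5889adb5dc003 : CRef := CRef.mk (Pat.mk 0x1000000003000000120000000000000000000000000 0x4000000074000001ff000000fe000001bf0000003e000001fe000000fe0000001800000018 12 9) 0 0 (step_sound _ 102 [(rh2fe78cc5ca4405d8.shift 4 3), rh8ce4b057a4b9b57c] (by decide +kernel))
noncomputable def rh578ca15c9cb72f77 : CRef := CRef.mk (Pat.mk 0x90000000180000008000000000000000000000000000000000 0x80000003800000078000000fe0000001f000000df0000007e000000fe0000003e00000028 12 8) 0 0 (step_sound _ 197 [rh12eb1e9fcc57aeb2, (rh361cc68994bd8a63.shift 3 5)] (by decide +kernel))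
noncomputable def rh8901ff346c584dcc : CRef := CRef.mk (Pat.mk 0x9000000018000000000000000000000000 0x80000000e0000001f0000001f000000ff0000001e0000001f0000001e0000001c 12 8) 0 0 (step_sound _ 133 [(rh361cc68994bd8a63.shift 3 3), rhe973306ba8c4a2c8] (by decide +kernel))
noncomputable def rh19594e468ef10d3b : CRef := CRef.mk (Pat.mk 0x90000000180000000000000000000000000000000000000000 0x140000001c0000003c0000006f000000ff0000001f0000001f0000001f0000003c0000003c00000030 12 8) 0 0 (step_sound _ 195 [rh138ff8ab3f71eb6c, rh242cbd474342afdf, (rh26ffcb37093465b4.shift 0 4), (rh8eb33a80b485f32d.shift 0 2), (rh8f26fa7cae4f34bd.shift 0 4), rhb9e4e3def7889e05] (by decide +kernel))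
noncomputable def rhc993dd8ec39b01d7 : CRef := CRef.mk (Pat.mk 0x12000000130000001000000000000000000 0xa000000fe000001fe000000fe000001ff000001be0000012f0000002800000020 12 9) 0 0 (step_sound _ 132 [(rh2dbc52c9ebd6da8b.shift 1 2), (rh5efecdc999974cf1.shift 1 1), (rh8f26fa7cae4f34bd.shift 1 2), (rha0aeb04af04ced2f.shift 0 1), (rhad3135c78f6827a8.shift 1 0), (rhc3bc818ef055f509.shift 2 0), (rhfba147d3d151e233.shift 2 1)] (by decide +kernel))
noncomputable def rh273dcb72ef5bc668 : CRef := CRef.mk (Pat.mk 0x600000003000000020000000000000000000000000 0x50000000700000007e000000ee0000007f0000003e0000003e0000001e0000000c0000000c 12 8) 0 0 (step_sound _ 197 [(rh03dfdf12d5937476.shift 4 2), rh2838f87127111def, (rh4e2df8342d3b8ae8.shift 4 3), (rh7a7e08304268422e.shift 4 3)] (by decide +kernel))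
noncomputable def rh75229a06b4c90787 : CRef := CRef.mk (Pat.mk 0x120000000300000010000000000000000000000000000000000 0x1800000018000000fe000001fe0000003e000001bf000000fe000001ff0000007400000040 12 9) 0 0 (step_sound _ 198 [rh00c1103241d5596e, (rh361cc68994bd8a63.shift 4 5)] (by decide +kernel))
noncomputable def rh645cc59616b5c218 : CRef := CRef.mk (Pat.mk 0x10000000030000000000000003000000000000000000000000000000000 0x28000000380000003e000001fe000000380000001f000000fc0000001e000000380000003800000028 12 9) 0 0 (step_sound _ 164 [(rh215e11e099257d75.shift 4 3), (rh4a68914b8a155f3e.shift 3 0), (rh6d1e4de5ac331025.shift 0 3), (rh728fb0f814e06178.shift 1 1)] (by decide +kernel))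
noncomputable def rh89527af5bc531f76 : CRef := CRef.mk (Pat.mk 0x100000000300000010000000030000000000000000000000000 0x28000000380000003e000001fe00000038000003df000000fc000000ee0000000800000008 12 10) 0 0 (step_sound _ 132 [(rh6d1e4de5ac331025.shift 0 2), (rhb740cefa1088d8c7.shift 1 0), (rhe380c42df720a63d.shift 3 2), (rhfb9fb48a5e63ed80.shift 3 2)] (by decide +kernel))
noncomputable def rhb09c97263f72cb50 : CRef := CRef.mk (Pat.mk 0x20000000060000002000000004000000000000000000000000000000000 0x1000000070000003fc0000007c000007be000001fe000003ff0000007c0000007c0000007c 12 11) 0 0 (step_sound _ 133 [(rh03f40eb6af3261a1.shift 2 1), (rh14162504cfbd6827.shift 2 0), rh18c3eb592fadc9b2, (rh3fd626a71f279ab5.shift 2 0), (rh69a97230b3fe4455.shift 2 1), (rh9d9972562b396778.shift 2 1), (rha572239b5d9c2e69.shift 2 1), (rhb36315a023afb6dc.shift 1 0), (rhde6acc11fb11a791.shift 4 0), (rhfb7caf9b059c03d8.shift 2 1)] (by decide +kernel))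
noncomputable def rhacc96ba94468fd2a : CRef := CRef.mk (Pat.mk 0x400000020000000060000002000000000000000000 0x7c0000007c0000007c000003ff000001fe000007be0000007c000003fc0000007000000010 12 11) 0 0 (step_sound _ 165 [(rh053c2a9556e0db47.shift 2 0), (rh1132ac95adc5b569.shift 1 2), (rh473338b8105f96bb.shift 4 0), (rh710e580e72e0447e.shift 2 1), (rh84683ddf4521399b.shift 2 1), (rh979d498e72008f15.shift 2 0), (rha7beb7bc025362ba.shift 2 2), (rhb4eb3007002222b4.shift 2 0), (rhe133e1a89451be71.shift 0 2), (rhe9027b323e1a94d7.shift 2 1)] (by decide +kernel))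
noncomputable def rh644e3353552249e3 : CRef := CRef.mk (Pat.mk 0x10000000530000005000000000000000000000000000000000 0x85000000ef000000ff000000ef000000ff0000005b000000ff000001cf0000008f0000008f00000005 12 9) 0 0 (step_sound _ 129 [(rh9c6b9a0537523f69.shift 0 2), rha18dcc8cb01229f3, (rhcacf3bbd1dc54501.shift 0 1), rhd11b7994059dc011, rhde6de23060fe52e3, (rhf361376b75d4a710.shift 0 1), rhf7fdb9666d162e22] (by decide +kernel))
noncomputable def rh225f3cb32e722acd : CRef := CRef.mk (Pat.mk 0x100000005300000050000000000000000000000000000000000 0x5000000af000000eff00000efe00000ffe000005b000000ff0000006f0000002f0000000f000000050 12 12) 0 0 (step_sound _ 133 [(rh753fb96b90e4861e.shift 0 1), (rh9c6b9a0537523f69.shift 4 2), (rha18dcc8cb01229f3.shift 4 0), (rhaf883e5be8160833.shift 4 0), (rhde6de23060fe52e3.shift 4 0), (rhf361376b75d4a710.shift 4 1), (rhf7fdb9666d162e22.shift 4 0)] (by decide +kernel))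
noncomputable def rhaf0291ce434fca91 : CRef := CRef.mk (Pat.mk 0x20000000a6000000a40000000000000000 0xa0000015e000001df000001df000001ff000000b6000001ff0000015b00000011 12 9) 0 0 (step_sound _ 132 [(rh0eb9596e3208703b.shift 1 1), (rh42e1e1a710452d2c.shift 1 0), (rh5377837824fa2ef4.shift 1 2), (rhd299ff6330c48d25.shift 1 1), rhd8d740ca0504a2ce] (by decide +kernel))
noncomputable def rh0f4d9a9442b0d789 : CRef := CRef.mk (Pat.mk 0xc000000018000000800000000000000000000000000000000000000000 0x2800000038000000380000003800000018000000f800000018000000fe0000007f0000007e0000003e0000003800000028 12 8) 0 0 (step_sound _ 228 [(rhb2a0b9ccfb5cecd5.shift 3 6), rhbaa71c9d75a7314c] (by decide +kernel))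
noncomputable def rhdc6728afcc93b33c : CRef := CRef.mk (Pat.mk 0xb0000000a0000000a00000000000000000000000000000000 0x50000001f0000001d0000001b0000000b0000000a0000001c0000001c0000001c00000010 12 5) 0 0 (step_sound _ 99 [(rh0beae699cdacdfe7.shift 0 3), (rh4a38b3b3b5efb383.shift 2 1), (rh6eff4158bb400f47.shift 2 1), rh7d9fbbc1269a2662] (by decide +kernel))
noncomputable def rhbfee855fdab73e88 : CRef := CRef.mk (Pat.mk 0x20000005300000050000000010000000000000000000000000000000000000000 0xa0000000e0000000e20000005300000fff000007ef00000ff9000000e8000000e0000000e000000020 12 12) 0 0 (step_sound _ 128 [(rh04253f50b6dd0619.shift 0 4), rh7a660bd3cbe149f4] (by decide +kernel))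
noncomputable def rhdd0c09385149c133 : CRef := CRef.mk (Pat.mk 0x2600000022000000020000000000000000000000000 0x26000000360000001fc000001fe000003ff00000050 12 10) 0 0 (step_sound _ 69 [(rh4497336fe401bfaa.shift 0 1), (rh8c3839f9b9075f23.shift 5 0), (rh8cdd36b03d57a2f6.shift 4 0), (rha8bc3cae4d77a08f.shift 4 0)] (by decide +kernel))
noncomputable def rh6dd9f033d0456d36 : CRef := CRef.mk (Pat.mk 0x8000000018000000080000000800000000 0x140000001c0000001c0000001f000000ff0000001b0000001f0000000f00000005 12 8) 0 0 (step_sound _ 132 [(rh69755ef358ebfd54.shift 3 1), rh85edcede12dc3be3, (rhbfb5770941270498.shift 3 1), (rheb4949bdfa5025cf.shift 3 1)] (by decide +kernel))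
noncomputable def rh72bb2d888ceb5075 : CRef := CRef.mk (Pat.mk 0x800000029800000280000000080000000000000000000000000000000000000000 0x5000000072800000778000007f80000029800007fff00003f7e00007ff70000077e000007340000070000000500 12 15) 0 0 (step_sound _ 198 [(rh03b5d9121b35cdfb.shift 3 2), (rha01fdd81cdf76aa4.shift 3 1), (rha6f9e6edfaca0c1f.shift 1 0), (rhc65a161322ea38e8.shift 3 3), (rheaed87a7e9f27921.shift 0 1)] (by decide +kernel))
noncomputable def rh3eb86c7571eb6bf9 : CRef := CRef.mk (Pat.mk 0x600000000000000020000000000000000000000000 0x5000000070000000700000007c0000007c0000006c0000003c000001fe000001fe0000007f00000050 12 9) 0 0 (step_sound _ 133 [(rh1142c1444fb4b690.shift 2 2), (rh215e11e099257d75.shift 5 2), rhd08020fd32db6f15, (rhffb8e5993241bf15.shift 4 0)] (by decide +kernel))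
noncomputable def rh11b4ee3a0e76d609 : CRef := CRef.mk (Pat.mk 0x29800000280000000080000000000000000000000000000000000000000 0x5000000070800000708000007080000029800007fff00003f7e00007ffc0000077e000007140000070000000500 12 15) 0 0 (step_sound _ 198 [(rh41903644bede61ad.shift 0 2), (rh825d374ef4df7137.shift 3 5), (rh88dc95f1cbd11cd4.shift 1 0), (rhaa9801d59b291a9e.shift 3 3)] (by decide +kernel))
noncomputable def rh7805d0f764e4eaf1 : CRef := CRef.mk (Pat.mk 0x10000000130000005000000000000000000000000000000000 0x50000000f0000001f0000000f0000001f00001f1b00000fff00001fef0000000f0000000f00000005 12 13) 0 0 (step_sound _ 131 [(rh3fe996e48b4620ce.shift 1 1), rh953fea31a1f0ba14, rhd7093c7c148699e1, (rhe4235f9ce2807813.shift 0 1), (rheeb4b76775751baa.shift 0 1)] (by decide +kernel))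
noncomputable def rh21e3d4f2111e93ff : CRef := CRef.mk (Pat.mk 0x1000000053000000500000000000000000000000000000000000000000 0x5000000af000000ff000000ef000000ff0000005b0000007f000000ef000000ff000000ef000000e500000020 12 8) 0 0 (step_sound _ 163 [rh4bc178e208f1e207, (rhccd94abfa12c5f58.shift 2 1), (rhd7093c7c148699e1.shift 0 1), (rhe4235f9ce2807813.shift 0 2)] (by decide +kernel))
noncomputable def rh6bf3035b670e6c2f : CRef := CRef.mk (Pat.mk 0x200000000600000022000000000000000000000000000000000 0x88000000dc000000dc000003ff0000007e000003ff0000007e000000fe000000fc000000b4 12 10) 0 0 (step_sound _ 198 [rh12c6b1a0df304049, (rh9cdee070315fb032.shift 5 3), (rhb887a0f6ae2e10fc.shift 2 0), (rhcf80391c5046a495.shift 5 2), (rhf9366b6a121593ef.shift 5 2)] (by decide +kernel))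
noncomputable def rh6a7e0a43c132813e : CRef := CRef.mk (Pat.mk 0x1200000003000000118000000000000000000000000 0x6c000000ec000001ff0000003c000001f80000004c0000000c0000000c 12 9) 0 0 (step_sound _ 166 [(rh361cc68994bd8a63.shift 4 4), rh930cfede785f8247] (by decide +kernel))
noncomputable def rh6d9a0b36fa0460d1 : CRef := CRef.mk (Pat.mk 0x900000009800000088000000080000000000000000 0x67000000ff000000db000000ff0000007f0000007500000040 12 8) 0 0 (step_sound _ 165 [rh28b1e98ec66218c8, (rh361cc68994bd8a63.shift 3 4)] (by decide +kernel))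
noncomputable def rh788bcf5ee8c471ef : CRef := CRef.mk (Pat.mk 0x480000000c00000004000000000000000000000000000000000 0x2800000038000001bf000001be000007ff000000fc000000fc000001b8000001f8000001e800000140 12 11) 0 0 (step_sound _ 164 [rh548ca4bff0c63682, (rh90982cf581ae3e69.shift 4 5), (rhddb3592de0d1598e.shift 2 1)] (by decide +kernel))
noncomputable def rhf835cd3a39eebf40 : CRef := CRef.mk (Pat.mk 0x480000000c00000004000000000000000000000000000000000 0x2800000038000001bf000001be000007ff000000fc000001fc000001b8000001f8000001e800000140 12 11) 0 0 (step_sound _ 164 [(rh90982cf581ae3e69.shift 4 5), (rhc62a1d83eae365bc.shift 2 1), rhf1ee9599c6364360] (by decide +kernel))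
noncomputable def rh35ace000955472be : CRef := CRef.mk (Pat.mk 0x100000000300000011000000010000000000000000000000000 0x2000000028000001fe0000003e000003de000000fe000001ef0000000a00000002 12 10) 0 0 (step_sound _ 101 [(rh3fda782e653ad606.shift 1 1), (rhbc848e7a23a64cbe.shift 1 2), rhe7ca4ad343c9618d] (by decide +kernel))
noncomputable def rhd6a67e02006c9ffd : CRef := CRef.mk (Pat.mk 0x480000000c000000010000000000000000000000000 0x28000000380000003f0000003e000007ff000000fc00000018000000380000003800000028 12 11) 0 0 (step_sound _ 168 [(rh361cc68994bd8a63.shift 6 4), rhf66f8e85b0cdbba5] (by decide +kernel))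
noncomputable def rh52b2af8b353dd228 : CRef := CRef.mk (Pat.mk 0x80000000c000000450000000000000000000000000 0x68000001f8000001ff000001be000000ff000000fc000007d8000001b80000013800000128 12 11) 0 0 (step_sound _ 103 [(rh01e7a5813b8e330e.shift 6 2), (rh4c145d583973abd2.shift 6 0), rha86ee109c380c6a8, rhb4eea5237e38e897] (by decide +kernel))
noncomputable def rh0a91d56afd1e7c2c : CRef := CRef.mk (Pat.mk 0xc00000005000000000000000000000000000000000 0x80000003c0000007f000000ff0000007f0000001e0000003c0000003c00000030 12 8) 0 0 (step_sound _ 131 [(rh1c62b6193297d9e3.shift 3 4), rhf31c17a20dbb5362] (by decide +kernel))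
noncomputable def rh9df8f5221f574b28 : CRef := CRef.mk (Pat.mk 0x100000001300000011000000000000000000000000000000000 0xa0000000e0000000e0000011f000001be000001ff000000fe000001fe000000fc00000008 12 9) 0 0 (step_sound _ 133 [(rh15982f933753baf2.shift 1 1), (rh8208c80aa10a49f1.shift 1 0), (rh9e141fa6bc2add05.shift 1 1), (rhd427a325b56eb3f3.shift 0 1), (rhdc49ed7da409a531.shift 0 1), (rhe15cabacc36eb8bd.shift 1 1), (rhfa427a3b7d428523.shift 1 1), (rhffba4a541da5a530.shift 0 1)] (by decide +kernel))
noncomputable def rhd200ebb82fb8349c : CRef := CRef.mk (Pat.mk 0x2200000006000000200000000000000000000000000 0xb4000000fc000000fe0000007e000003ff0000007e000003ff000000dc000000dc00000088 12 10) 0 0 (step_sound _ 102 [(rh3f5be10fae4595bb.shift 2 0), (rh7e1098702e50f2b0.shift 5 1), (rhc2c7bae8f445c890.shift 5 1), (rhc38f566cab2818e5.shift 5 1), rhd5b58ffc4b063a98] (by decide +kernel))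
noncomputable def rh8cebc58ebb99eea8 : CRef := CRef.mk (Pat.mk 0x11800000030000001200000000000000000 0xc0000000c0000004c000001f80000003c000001ff000000ec0000006c 12 9) 0 0 (step_sound _ 70 [(rh2fe78cc5ca4405d8.shift 4 2), rhfb343cc7aab2c1f9] (by decide +kernel))
noncomputable def rhf210ad39d43454d5 : CRef := CRef.mk (Pat.mk 0x800000088000000980000009000000000 0x40000000750000007f000000ff000000db000000ff00000067 12 8) 0 0 (step_sound _ 37 [(rh2fe78cc5ca4405d8.shift 3 1), rhb02f0bc517cf4697] (by decide +kernel))
noncomputable def rh016251673454e4b0 : CRef := CRef.mk (Pat.mk 0x40000000c00000048000000000000000000000000000000000 0x140000001e8000001f8000001b8000000fc000000fc000007ff000001be000001bf0000003800000028 12 11) 0 0 (step_sound _ 164 [(rh41955519f857d4d5.shift 4 4), (rh43dce542505a5e0e.shift 2 1), rh526280c0f3608c07] (by decide +kernel))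
noncomputable def rh3f3a91c1444a6604 : CRef := CRef.mk (Pat.mk 0x40000000c00000048000000000000000000000000000000000 0x140000001e8000001f8000001b8000001fc000000fc000007ff000001be000001bf0000003800000028 12 11) 0 0 (step_sound _ 164 [rh0122fb108de911f4, (rh41955519f857d4d5.shift 4 4), (rh69c8a47e87efe918.shift 2 1)] (by decide +kernel))
noncomputable def rh20dccec5ff7672f9 : CRef := CRef.mk (Pat.mk 0x100000011000000030000001000000000000000000 0x20000000a000001ef000000fe000003de0000003e000001fe0000002800000020 12 10) 0 0 (step_sound _ 165 [(rh18f8164b15c92bf2.shift 1 3), (rh2f96ce69fd1b37fd.shift 1 1), rh484872278cca3393] (by decide +kernel))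
noncomputable def rh8be55b2fedc922c0 : CRef := CRef.mk (Pat.mk 0x10000000c00000048000000000000000000000000000000000 0x28000000380000003800000018000000fc000007ff0000003e0000003f0000003800000028 12 11) 0 0 (step_sound _ 136 [rh2f6b7f123cde54e3, (rh2fe78cc5ca4405d8.shift 6 4)] (by decide +kernel))
noncomputable def rh290da4e2a2cf34ca : CRef := CRef.mk (Pat.mk 0x450000000c00000008000000000000000000000000000000000 0x12800000138000001b8000007d8000000fc000000ff000001be000001ff000001f800000068 12 11) 0 0 (step_sound _ 199 [(rh566659606c8abe04.shift 6 3), (rh6d9172875361fe79.shift 6 0), rhae3de097df4cda21, rhd70322f973b1bba8] (by decide +kernel))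
noncomputable def rhbd80dea290af07c6 : CRef := CRef.mk (Pat.mk 0x50000000c0000000000000000000000000 0x300000003c0000003c0000001e0000007f000000ff0000007f0000003c00000008 12 8) 0 0 (step_sound _ 131 [rh096936c88306be10, (rhc10214bf3fe8094a.shift 3 3)] (by decide +kernel))
noncomputable def rhf4e0fcce2dff3c86 : CRef := CRef.mk (Pat.mk 0x1100000013000000100000000000000000000000000 0x8000000fc000001fe000000fe000001ff000001be0000011f0000000e0000000e0000000a 12 9) 0 0 (step_sound _ 165 [(rh1ba8cabd555a5a99.shift 1 1), (rh26ffcb37093465b4.shift 1 3), (rh2dbc52c9ebd6da8b.shift 1 3), (rh456fee83b6c5a056.shift 1 3), (rh5f339fb88512199c.shift 0 1), (rh61142f598d4e551e.shift 1 3), (rhc109f3f7d5aceb20.shift 0 1), rhc1fdcfa0d463f3e6] (by decide +kernel))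
noncomputable def rha2c745313f9b529d : CRef := CRef.mk (Pat.mk 0x30000001200000000000000000000000000000000000000000 0x1000000010000000180000003c000001fe000000ff000000ff0000007f0000007400000050 12 9) 0 0 (step_sound _ 166 [(rh2fe78cc5ca4405d8.shift 4 5), rhe50a986e35445de1] (by decide +kernel))
noncomputable def rha3157c1af5e7a0d4 : CRef := CRef.mk (Pat.mk 0x400000000c000000480000000000000000000000000000000000000000 0x100000001800000018000000780000000f0000007f0000003f0000001f0000001e0000001c00000014 12 7) 0 0 (step_sound _ 164 [rh021c190933623e2d, (rh2fe78cc5ca4405d8.shift 2 5)] (by decide +kernel))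
noncomputable def rh9a97a9f7b8f43c02 : CRef := CRef.mk (Pat.mk 0x20000000070000000400000000000000000 0x80000000e0000000f0000001f0000003f70000007e0000007f0000002800000008 12 10) 0 0 (step_sound _ 99 [(rh0de499e0455c9c14.shift 1 2), (rh0e2cddddafe6254b.shift 2 2), (rh36eba2a3de447758.shift 0 2), (rh7648cad57620cdad.shift 2 0), (rh9e97bba44c1b13e4.shift 1 2)] (by decide +kernel))
noncomputable def rh4f24de5c80bae476 : CRef := CRef.mk (Pat.mk 0x5200000053000000120000000000000000 0x80000000e8000000f8000000ec0000007e0000005b000000fe000000e0000000a0 12 8) 0 0 (step_sound _ 131 [rh4a65a686e79391d2, (rhb2a0b9ccfb5cecd5.shift 0 3)] (by decide +kernel))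
noncomputable def rhecd61630fddf5126 : CRef := CRef.mk (Pat.mk 0x800000001800000010000000000000000000000000 0x3e0000003e0000007f000000fc0000001e0000001f0000001f0000001f0000000c 12 8) 0 0 (step_sound _ 163 [(rh198589ffa2b4e4a6.shift 0 1), (rh5d54cb79a67f97ab.shift 3 1), rh66217879edf29139, (rhc2c7bae8f445c890.shift 3 1)] (by decide +kernel))
noncomputable def rhd5aba1493b366a87 : CRef := CRef.mk (Pat.mk 0x1000000003000000020000000000000000000000000 0x500000007000000070000000f0000001f0000000300000003e0000007e0000007f00000050 12 9) 0 0 (step_sound _ 165 [(rh62825c4dfa6be415.shift 4 0), (rh8ba2aa402370793e.shift 4 2), rh9673e6aa92087b31, (rhc47fe1bc6b175f77.shift 4 1), (rhe66321c6c4aa8b56.shift 4 1)] (by decide +kernel))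
noncomputable def rh26db98d9804546e5 : CRef := CRef.mk (Pat.mk 0x100000001300000012000000000000000000000000000000000 0x180000001800000118000001be000001fe000000fe000001ff000000fc00000050 12 9) 0 0 (step_sound _ 132 [(rh0172767aedda05bc.shift 0 1), (rh0e1279061719a0af.shift 1 1), (rh7a16261a11326e73.shift 1 1), (rh9e141fa6bc2add05.shift 1 1), (rha60d8ebffcff8b30.shift 1 0), (rhd95ba3170563076a.shift 1 1), (rheb5cf9d9fc904106.shift 1 1)] (by decide +kernel))
noncomputable def rh7a710e6e514b6305 : CRef := CRef.mk (Pat.mk 0x600000004c000000400000000000000000000000000000000000000000 0x40000001c0000001c000000180000007c0000006c0000007c0000003f0000007f0000003f0000001c00000014 12 7) 0 0 (step_sound _ 227 [(rhb2a0b9ccfb5cecd5.shift 2 6), rhde7c8cd0215b96ef] (by decide +kernel))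
noncomputable def rhdb24f988c42d0861 : CRef := CRef.mk (Pat.mk 0x80000008000000018000000800000000000000000000000000000000000000000 0x280000003c0000003c0000007e0000007f000000fc0000001f000000ff0000003700000034000000380000003800000028 12 8) 0 0 (step_sound _ 164 [(rh0588d2c7f2cab5e9.shift 3 3), (rh210a94cddf6d6963.shift 0 4), (rh28afc5b167f84184.shift 3 3), (rh3296438309676d7e.shift 3 4), (rh58a6d5105500aeae.shift 0 3), (rh71a8867da6a7311e.shift 1 0)] (by decide +kernel))
noncomputable def rh609513b75c5c9b7b : CRef := CRef.mk (Pat.mk 0x1400000014c0000004800000000000000000000000000000000000000000000000000000000 0x2800000038000000390000003f80000014f000003ff000007bf000003ff000003be0000021c0000001c0000001c00000014 12 11) 0 0 (step_sound _ 195 [(rh1b97b2f963979f38.shift 2 2), (rh2f7923464dfebbd6.shift 0 4), (rh550aaf4dad24721d.shift 0 2), rh642504e1dcba070d, (rhc18535aa188ba4fe.shift 2 2), (rhfc5a973da4625419.shift 2 3)] (by decide +kernel))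
noncomputable def rhdcadc929f4d36859 : CRef := CRef.mk (Pat.mk 0x100000000000000030000001200000000000000000000000000000000000000000 0x10000000380000003c000001f8000000ff000000fe0000007f0000007000000050 12 9) 0 0 (step_sound _ 166 [(rh2fe78cc5ca4405d8.shift 4 5), rhc1866ef571bb179e] (by decide +kernel))
noncomputable def rh4c1e49815c73ba34 : CRef := CRef.mk (Pat.mk 0x2000000b0000000a6000000000000000000000000 0x40000000c0000001c7000001d700001fff00000fdf00001ff7000000a7000001c5000001c000000140 12 13) 0 0 (step_sound _ 167 [(rh1df22c63ef4be1b5.shift 1 0), (rh59b11acd61470a21.shift 6 0), (rhadd924ba4d280e63.shift 0 2), (rhb8f84d5e7eac8322.shift 5 0), (rhd2f81451d7df0686.shift 4 2), rhf31f88904adf0a50] (by decide +kernel))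
noncomputable def rh8a63740ddd9e550b : CRef := CRef.mk (Pat.mk 0x80000008000000018000000800000000000000000000000000000000000000000 0x280000003800000038000000760000003f000000fc0000001f000000ff0000007f0000003e0000003c0000003800000028 12 8) 0 0 (step_sound _ 228 [(rh0528b559ca1e2d19.shift 1 4), (rh2eb4ab9867eeea15.shift 3 2), (rh67ba8ec9a7047d20.shift 1 2), (rha89fcbfd21d03fc3.shift 1 3), (rhacaff97b0e3807c9.shift 1 1), (rhb8c5ea82d58bbc37.shift 0 2), (rhff2b1a830073009a.shift 1 0)] (by decide +kernel))
noncomputable def rhc4f10df55f622b11 : CRef := CRef.mk (Pat.mk 0x200000020000000260000002000000000000000000000000000000000000000000 0x50000003ff000001fe000001fe000003300000027c000003fc0000007000000070000000700000007000000050 12 10) 0 0 (step_sound _ 229 [(rh3003a4bc6a3ef518.shift 0 5), (rh316b6b6d74d07d5d.shift 2 5), (rh4a999881715a1306.shift 2 0), (rh70e33bfdf511e144.shift 5 3)] (by decide +kernel))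
noncomputable def rhb046ca9bba640c44 : CRef := CRef.mk (Pat.mk 0x200000020000000260000000000000000000000000 0x5000000070000003ff000003fe000001fe000003f700000278000000300000003000000030 12 10) 0 0 (step_sound _ 133 [(rh2798b22e65a7c35a.shift 0 3), (rh2da430f377ef9d62.shift 2 0), (rh3003a4bc6a3ef518.shift 0 2), (rh316b6b6d74d07d5d.shift 2 2), rh61a779bfb851b8b9, (rh9aaf446f9e8f864a.shift 3 1)] (by decide +kernel))
noncomputable def rh731e19076d70f5e9 : CRef := CRef.mk (Pat.mk 0x10000005000000053000000100000000000000000 0xa0000000e0000000e5000007ff00000fff000007ef00000ffe00000053000000ff000000e5000000a1 12 12) 0 0 (step_sound _ 166 [(rh4e61d3d54bb54f3c.shift 2 3), (rh59b11acd61470a21.shift 5 0), rh6937afd581633bb3, (rh76b594d5fd8efb02.shift 3 0), (rhb8f84d5e7eac8322.shift 4 0), rhc5855fb6b24f1cbd] (by decide +kernel))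
noncomputable def rh53044f1eadad1f96 : CRef := CRef.mk (Pat.mk 0x4000000400000000c00000048000000000000000000000000 0x180000003c0000007c0000000f0000007f0000003f0000001700000002 12 7) 0 0 (step_sound _ 100 [(rh2fe78cc5ca4405d8.shift 2 3), rhc8b51acf2887910d] (by decide +kernel))
noncomputable def rh788b045fc6a641eb : CRef := CRef.mk (Pat.mk 0x4000000400000000c00000048000000000000000000000000 0x1c0000003c000000780000000f0000007f0000003f0000001700000002 12 7) 0 0 (step_sound _ 100 [(rh2fe78cc5ca4405d8.shift 2 3), rh9adac4a8913a53f1] (by decide +kernel))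
noncomputable def rha6246a628d1ed3e6 : CRef := CRef.mk (Pat.mk 0x12000000030000000000000000000000000 0x50000000740000007f000000ff000000ff000001fe0000003c000000180000001000000010 12 9) 0 0 (step_sound _ 134 [(rh361cc68994bd8a63.shift 4 3), rh6d856e25e8b5831a] (by decide +kernel))
noncomputable def rh6ac903e8e732b894 : CRef := CRef.mk (Pat.mk 0x480000000c00000040000000000000000000000000 0x140000001c0000001e0000001f0000003f0000007f0000000f00000078000000180000001800000010 12 7) 0 0 (step_sound _ 164 [rh0e44e2464745dc56, (rh361cc68994bd8a63.shift 2 4)] (by decide +kernel))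
noncomputable def rh8794ff91cf41eb13 : CRef := CRef.mk (Pat.mk 0x40000000700000020000000000000000000000000000000000 0x8000000280000007f0000007e000003f7000001f0000000f0000000e000000080 12 10) 0 0 (step_sound _ 163 [(rh0d378fd9e8917c5a.shift 1 4), (rh2ebbcfe90e0f250d.shift 2 4), (rh514c86257871abd1.shift 2 0), (rh5e601430b8bc2e39.shift 0 4), (rh7fb660bc21ce4329.shift 1 5)] (by decide +kernel))
noncomputable def rh1922fdb339946c5c : CRef := CRef.mk (Pat.mk 0x12000000530000005200000000000000000000000000000000 0xa0000000e0000000fe0000005b0000007e000000ec000000f8000000e800000080 12 8) 0 0 (step_sound _ 131 [(rh5419adcd928dba20.shift 0 4), rh5dc03078a917eef1] (by decide +kernel))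
noncomputable def rh6940dffa850d68f7 : CRef := CRef.mk (Pat.mk 0x100000001800000080000000000000000000000000 0xc0000001f0000001f0000001f0000001e000000fc0000007f0000003e0000003e 12 8) 0 0 (step_sound _ 99 [(rh4821dcf828b9d7bf.shift 3 1), rh947bef5a59fde51d, rha923c0aeb299bc9c, (rhcf80391c5046a495.shift 3 1)] (by decide +kernel))
noncomputable def rhc0a45d0038855421 : CRef := CRef.mk (Pat.mk 0x20000000300000010000000000000000000000000000000000 0x500000007f0000007e0000003e00000030000001f0000000f0000000700000007000000050 12 9) 0 0 (step_sound _ 133 [(rh12452934acb847d5.shift 4 3), (rh4c4f1f8a139336b8.shift 4 1), (rh5efaf85ec96fcaef.shift 4 3), (rhf07cb2a67e68de3d.shift 0 3), (rhffc2ace432eaf8f3.shift 4 0)] (by decide +kernel))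
noncomputable def rh6ecd0d4e85573c6e : CRef := CRef.mk (Pat.mk 0x12000000130000001000000000000000000 0x50000000fc000001ff000000fe000001fe000001be000001180000001800000018 12 9) 0 0 (step_sound _ 132 [(rh0b0406e4eac4597b.shift 0 2), (rh26ffcb37093465b4.shift 1 2), (rh436f90adca98ec12.shift 1 2), (rh837a8e007b5801e7.shift 1 2), (rha38f5fb883666c3d.shift 1 0), (rhc82f5aef5cd1059b.shift 1 0), (rhde266388c5cdf3fc.shift 1 0)] (by decide +kernel))
noncomputable def rhb5bfda0b5b24b76e : CRef := CRef.mk (Pat.mk 0x400000004c0000006000000000000000000000000000000000 0x140000001c0000003f0000007f0000003f0000007c0000006c0000007c000000180000001c0000001c00000004 12 7) 0 0 (step_sound _ 131 [(rh5419adcd928dba20.shift 2 4), rhfbf12853bbf4c7cc] (by decide +kernel))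
noncomputable def rh633bc5ff00c1de1d : CRef := CRef.mk (Pat.mk 0x8000000018000000800000000800000000000000000000000000000000 0x2800000038000000380000003400000037000000ff0000001f000000fc0000007f0000007e0000003c0000003c00000028 12 8) 0 0 (step_sound _ 228 [(rh00d6a6e3c7e3bb40.shift 3 3), rh30e81bbe64d3d437, (rh3efafc482874f7b3.shift 3 3), (rh580df77fe152422b.shift 3 3), (rh923dacff63bee0ac.shift 1 3), (rh989ab516f660daf0.shift 0 3)] (by decide +kernel))
noncomputable def rhe9ca7afca2d9b516 : CRef := CRef.mk (Pat.mk 0x480000014c00000140000000000000000000000000 0x140000001c0000001c0000021c000003be000003ff000007bf000003ff0000014f000003f8000003900000038000000280 12 11) 0 0 (step_sound _ 195 [(rh34da0b21768fa40a.shift 2 2), (rh391e92a6dfb6116c.shift 2 2), (rh5606ebf13710ef07.shift 0 2), rhabd30c7321cdcd9c, (rhd537020f8e30946a.shift 2 2), (rheb56812b4b5ee7c9.shift 0 2)] (by decide +kernel))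
noncomputable def rh47c8f558ece762e1 : CRef := CRef.mk (Pat.mk 0x120000000300000000000000010 0x50000000700000007f000000fe000000ff000001f80000003c0000003800000010 12 9) 0 0 (step_sound _ 102 [(rh361cc68994bd8a63.shift 4 2), rh5a2b3341a9d5e97b] (by decide +kernel))
noncomputable def rh6eb8576848f0ffb1 : CRef := CRef.mk (Pat.mk 0xa6000000b0000000020000000000000000000000000000000000000000 0x140000001c0000001c5000000a700001ff700000fdf00001fff000001d7000001c7000000c000000040 12 13) 0 0 (step_sound _ 167 [(rh2ee329c40df4056f.shift 4 2), rh320316716db093d1, (rh5ce65ffe000b43dc.shift 5 4), (rh9acd5f4503dd6ee2.shift 1 2), (rhc2c0f24096bccdca.shift 6 3), (rhfd45fe3bd547384d.shift 0 2)] (by decide +kernel))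
noncomputable def rh8bd6a2f4d7f4326b : CRef := CRef.mk (Pat.mk 0x8000000018000000800000000800000000000000000000000000000000 0x28000000380000003c0000003e0000007f000000ff0000001f000000fc0000003f00000076000000380000003800000028 12 8) 0 0 (step_sound _ 164 [(rh021cf3370c48da42.shift 1 0), (rh12cf2f7531cecba8.shift 1 0), (rh2a8c515f2d77d849.shift 1 3), (rh65d4a2cb5ee937ee.shift 3 2), (rh6a0fcc43d6e2ac16.shift 0 3), (rh6c0846173ba7ca35.shift 1 0), (rhc004ca419dd91ef0.shift 1 2)] (by decide +kernel))
noncomputable def rh3decc1e04e443627 : CRef := CRef.mk (Pat.mk 0x200000002600000020000000020000000000000000000000000 0x5000000070000000700000007000000070000003fc0000027c00000330000001fe000001fe000003ff00000050 12 10) 0 0 (step_sound _ 133 [(rh050d4af690c892c8.shift 2 2), (rh215e11e099257d75.shift 5 2), (rh8f92f7677da05d19.shift 2 0), rhb5a897b61222d198] (by decide +kernel))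
noncomputable def rhc5c910de8c531771 : CRef := CRef.mk (Pat.mk 0x260000002000000002000000000000000000000000000000000 0x30000000300000003000000278000003f7000001fe000003fe000003ff0000007000000050 12 10) 0 0 (step_sound _ 165 [(rh36d16ef21c97d036.shift 3 0), rh6b2ad0c1b8f8881a, (rh8cc9108bcf0f5ed4.shift 0 3), (rh8f92f7677da05d19.shift 2 1), (rhb5a897b61222d198.shift 0 1), (rhd91fa6d4e5a4a425.shift 2 0)] (by decide +kernel))
noncomputable def rh24ebcf0d33d2ab21 : CRef := CRef.mk (Pat.mk 0x100000005300000050000000010000000000000000000000000000000000000000 0xa1000000e5000000ff0000005300000ffe000007ef00000fff000007ff000000e5000000e0000000a0 12 12) 0 0 (step_sound _ 166 [(rh059b04ce1a601957.shift 2 0), (rh131960b11392079e.shift 3 4), (rh1e242beaacce17ea.shift 0 2), (rh49d0e69a82703da1.shift 0 2), (rh5ce65ffe000b43dc.shift 4 4), (rhc2c0f24096bccdca.shift 5 3)] (by decide +kernel))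
noncomputable def rh4f1743e25db11fce : CRef := CRef.mk (Pat.mk 0x480000000c000000400000000400000000 0x2000000170000003f0000007f0000000f0000007c0000003c00000018 12 7) 0 0 (step_sound _ 132 [(rh361cc68994bd8a63.shift 2 3), rh6990a3a459d8bbbd] (by decide +kernel))
noncomputable def rhb305f9d04b8f026d : CRef := CRef.mk (Pat.mk 0x480000000c000000400000000400000000 0x2000000170000003f0000007f0000000f000000780000003c0000001c 12 7) 0 0 (step_sound _ 132 [(rh361cc68994bd8a63.shift 2 3), rh699fc356a44e4b21] (by decide +kernel))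
noncomputable def rh942407f62126860a : CRef := CRef.mk (Pat.mk 0x400000004c0000004000000004000000000000000000000000 0x40000003c0000003c0000003c0000007c0000006f0000007f0000003e0000007e0000003800000008 12 7) 0 0 (step_sound _ 195 [(rh00d6a6e3c7e3bb40.shift 2 2), (rh24779c11ceac1faf.shift 0 1), (rh37919f801f1ce004.shift 0 2), (rh580df77fe152422b.shift 2 2), (rh8317021edfdb6cb2.shift 0 1), rh88d204c78b4932f6, (rh8b70c0a9754d5d0f.shift 0 1), (rhc53efc28458cf0f1.shift 2 3)] (by decide +kernel))
noncomputable def rhc5743425cdd916ad : CRef := CRef.mk (Pat.mk 0x2400000006000000200000000200000000000000000000000000000000000000000 0x3c000000060000007ff000001fe000001ff000003fc000001fc000003fc00000050 12 11) 0 0 (step_sound _ 133 [(rh04253f50b6dd0619.shift 5 4), rh4baf57d32413ddf2] (by decide +kernel))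
noncomputable def rh2be22f380d97f620 : CRef := CRef.mk (Pat.mk 0x240000000600000020000000020000000200000000000000000 0x3d000000078000007de000001fe0000003f0000002000000020 12 11) 0 0 (step_sound _ 102 [(rh3c88ce959c0e423f.shift 5 2), rh78f10a3797eb79b2] (by decide +kernel))
noncomputable def rh3173273131e197cd : CRef := CRef.mk (Pat.mk 0x400000004c0000004000000004000000000000000000000000 0x340000003c0000003c0000007c0000006f000000fe0000003f000000ff0000003a0000000a 12 8) 0 0 (step_sound _ 195 [(rh00d6a6e3c7e3bb40.shift 2 2), rh26237c9a31ac9d6b, (rh37919f801f1ce004.shift 0 2), (rh580df77fe152422b.shift 2 2), (rh8b70c0a9754d5d0f.shift 0 1), (rhc53efc28458cf0f1.shift 2 3)] (by decide +kernel))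
noncomputable def rhcb976324eac0770b : CRef := CRef.mk (Pat.mk 0x100000001300000010000000010000000000000000000000000 0xd0000000f0000000f0000001f0000001bc000001f7000000fe000001ff000000e000000020 12 9) 0 0 (step_sound _ 197 [(rh00d6a6e3c7e3bb40.shift 4 2), (rh37919f801f1ce004.shift 2 2), (rh580df77fe152422b.shift 4 2), rh59558f3f059a3384, (rh8b70c0a9754d5d0f.shift 2 1), (rhc53efc28458cf0f1.shift 4 3)] (by decide +kernel))
noncomputable def rh047e1e6870b2290a : CRef := CRef.mk (Pat.mk 0x100000001300000010000000010000000000000000000000000 0xd0000000f0000000f0000001f4000001bc000003ff000000fe000000f7000000e000000020 12 10) 0 0 (step_sound _ 197 [(rh00d6a6e3c7e3bb40.shift 4 2), rh08061c855f91acd1, (rh37919f801f1ce004.shift 2 2), (rh580df77fe152422b.shift 4 2), (rh8b70c0a9754d5d0f.shift 2 1), (rhc53efc28458cf0f1.shift 4 3)] (by decide +kernel))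
noncomputable def rhb48082e5752e7eaa : CRef := CRef.mk (Pat.mk 0x400000000c000000400000000c00000000000000000000000000000000 0x100000007a0000000f0000007f0000001f0000001f0000001f0000001700000005 12 7) 0 0 (step_sound _ 163 [(rh0d28f0fb53508b9c.shift 0 1), (rh6e4c5959d08fc253.shift 2 3), (rh8ca74fa25325e393.shift 2 3), rhec1bdb9c8dc2d9eb] (by decide +kernel))
noncomputable def rh3f1cf81768ab255e : CRef := CRef.mk (Pat.mk 0x480000004c000000400000000c0000000000000000000000000 0x100000001c000001fc000000ff000001bd000000fbf000006fe0000047f000003fc000003fe0000007800000040 12 13) 0 0 (step_sound _ 165 [(rh2b3584ef0f05e9c2.shift 4 5), (rh42f8faeb11e99424.shift 0 1), (rhb12ffaec36122c99.shift 2 4), (rhf029775f4bbf9be2.shift 1 0)] (by decide +kernel))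
noncomputable def rhec5ef9054614ea60 : CRef := CRef.mk (Pat.mk 0x12000000030000000000000001000000000000000000000000000000000 0x1000000054000001ff0000003c0000002f0000007e000000ff0000001e0000001e0000000a 12 9) 0 0 (step_sound _ 230 [(rh361cc68994bd8a63.shift 4 6), rh8888b2d1873f284f] (by decide +kernel))
noncomputable def rh50582b73b121d5df : CRef := CRef.mk (Pat.mk 0x400000000c000000400000000400000000000000000000000000000000000000000 0xa0000000e0000000e0000000c0000007f8000000f80000077f000003fe000007ff000000fc000000fc0000007c00000004 12 11) 0 0 (step_sound _ 165 [(rh2304bd52e85d9b8a.shift 2 2), (rh66fcade2f8a95582.shift 5 2), (rh73dc506111e8f926.shift 2 1), (rh8cc409081a28271c.shift 2 3), rha812499c98bcf8fe, (rhd969ee7f356ad27e.shift 2 2), (rhdf16344ac6c1ceaf.shift 0 1), (rhf6f4cc80c3e1b70c.shift 2 1)] (by decide +kernel))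
noncomputable def rh016bdc7cc829a4b2 : CRef := CRef.mk (Pat.mk 0x6800000000000000200000000000000000 0x80000000f0000000fc000001ec000000fc00000078000000fc0000003f0000003c0000000c 12 9) 0 0 (step_sound _ 132 [(rhb705031692dfe65f.shift 3 1), rhd000277421b81087, (rhe08f5dd0c8e7e638.shift 2 0)] (by decide +kernel))
noncomputable def rh0756dc441baa20ed : CRef := CRef.mk (Pat.mk 0x3400000000000000100000000000000000 0x40000000780000007e000000f60000007f0000003e0000006f0000001e0000001e00000002 12 8) 0 0 (step_sound _ 131 [(rh4c622fddc53a5f99.shift 0 4), (rh775ca1963e850b80.shift 0 3), (rh9e97bba44c1b13e4.shift 0 3), (rhe08f5dd0c8e7e638.shift 1 0)] (by decide +kernel))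
noncomputable def rh8eb7f9b99469125d : CRef := CRef.mk (Pat.mk 0x100000000340000000000000010000000000000000000000000 0x280000003a0000003e00000036000001fe000000360000003f0000001f0000007e0000003a00000028 12 9) 0 0 (step_sound _ 132 [(rh215e11e099257d75.shift 4 2), (rh2863c15217e131f1.shift 0 1), (rh4cd7deaf53231997.shift 1 0), (rhffb8e5993241bf15.shift 3 0)] (by decide +kernel))
noncomputable def rh96393138e8250eea : CRef := CRef.mk (Pat.mk 0x4000000400000004c0000004000000000000000000000000000000000 0x8000000380000007e0000003e0000007f0000006f0000007c0000003c0000003c0000003c00000004 12 7) 0 0 (step_sound _ 131 [(rh0588d2c7f2cab5e9.shift 2 2), (rh28afc5b167f84184.shift 2 2), (rh576433bffeee19b4.shift 0 1), (rh621901e8c1a29869.shift 0 3), rh8f7c17d472f362b4, (rh94dbce66c1c40cb4.shift 2 1), rh95777c629f8983d8, (rhfcac32312a33016d.shift 0 1)] (by decide +kernel))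
noncomputable def rhd07c77b540626f0d : CRef := CRef.mk (Pat.mk 0x20000002000000006000000240 0x50000003fc000001fc000003fc000001ff000001fe000007ff00000060000003c0 12 11) 0 0 (step_sound _ 133 [rh47826ed5265ee684, (rhff0f29cb645b05f7.shift 5 0)] (by decide +kernel))
noncomputable def rh049636b78d4f0bda : CRef := CRef.mk (Pat.mk 0x2000000020000002000000006000000240 0x20000000200000003f000001fe000007de00000078000003d0 12 11) 0 0 (step_sound _ 102 [(rh2613c889e411427e.shift 5 0), rhd7cf13f167b11cb7] (by decide +kernel))
noncomputable def rh620b16d960a5b857 : CRef := CRef.mk (Pat.mk 0x4000000400000004c00000040000000000000000000000000 0xa0000003a000000ff0000003f000000fe0000006f0000007c0000003c0000003c00000034 12 8) 0 0 (step_sound _ 99 [(rh0588d2c7f2cab5e9.shift 2 1), (rh28afc5b167f84184.shift 2 1), rh576433bffeee19b4, (rh94dbce66c1c40cb4.shift 2 0), (rhaea40f67d432df92.shift 0 2), rhfcac32312a33016d] (by decide +kernel))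
noncomputable def rhe065cadfae6432e6 : CRef := CRef.mk (Pat.mk 0x10000001000000013000000100000000000000000000000000 0x20000000e0000001ff000000fe000001f7000001bc000001f0000000f0000000f0000000d0 12 9) 0 0 (step_sound _ 101 [(rh0588d2c7f2cab5e9.shift 4 1), (rh28afc5b167f84184.shift 4 1), (rh576433bffeee19b4.shift 2 0), (rh94dbce66c1c40cb4.shift 4 0), (rhd013f3b735376d6b.shift 0 2), (rhfcac32312a33016d.shift 2 0)] (by decide +kernel))
noncomputable def rhae65614b064f0842 : CRef := CRef.mk (Pat.mk 0x10000001000000013000000100000000000000000000000000 0x20000000e0000000f7000000fe000003ff000001bc000001f4000000f0000000f0000000d0 12 10) 0 0 (step_sound _ 101 [(rh0588d2c7f2cab5e9.shift 4 1), (rh1ba9e153b8a51574.shift 0 2), (rh28afc5b167f84184.shift 4 1), (rh576433bffeee19b4.shift 2 0), (rh94dbce66c1c40cb4.shift 4 0), (rhfcac32312a33016d.shift 2 0)] (by decide +kernel))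
noncomputable def rh8ea2f5cdebe1ffd3 : CRef := CRef.mk (Pat.mk 0xc000000400000000c0000004000000000 0x5000000170000001f0000001f0000001f0000007f0000000f0000007a00000010 12 7) 0 0 (step_sound _ 99 [(rh007b8c853ca5ccaf.shift 2 0), (rh6cedf07b388dfaa4.shift 0 1), (rhb2c496d3c949fac4.shift 0 1), (rhb7ec845def264386.shift 2 0)] (by decide +kernel))
noncomputable def rhf41e663d771a72cd : CRef := CRef.mk (Pat.mk 0xc000000400000004c0000004800000000000000000000000000000000000000000 0x4000000078000003fe000003fc0000047f000006fe00000fbf00001bd000000ff000001fc0000001c000000100 12 13) 0 0 (step_sound _ 197 [(rh5bb78067c54b222b.shift 4 5), (rhaeb229159cdcc6c8.shift 1 0), (rhb911ae3253b2298e.shift 0 3), (rhc92c11e8da6c894f.shift 2 5)] (by decide +kernel))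
noncomputable def rhb5f0196ee6e479c8 : CRef := CRef.mk (Pat.mk 0x100000000000000030000001200000000000000000 0xa0000001e0000001e000000ff0000007e0000002f0000003c000001ff0000005400000010 12 9) 0 0 (step_sound _ 70 [(rh2fe78cc5ca4405d8.shift 4 2), rh5443fc6426374187] (by decide +kernel))
noncomputable def rhcb037af888e14f3c : CRef := CRef.mk (Pat.mk 0x4000000400000000c00000040000000000000000000000000000000000 0x40000007c000000fc000000fc000007ff000003fe0000077f000000f8000007f8000000c0000000e0000000e0000000a0 12 11) 0 0 (step_sound _ 229 [(rh1bff1f399b2df189.shift 5 2), (rh22dbd469f092b658.shift 0 4), (rh3aa0a0aef46dc71d.shift 2 2), (rh598c81ddda654a84.shift 2 4), (rh906625968a792faf.shift 2 2), (rha63a42b47bdcdb95.shift 2 0), (rhcee0e222e56a521a.shift 0 4), (rhf1c87a7318c711a4.shift 2 2)] (by decide +kernel))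
noncomputable def rh7954e05fe321ac11 : CRef := CRef.mk (Pat.mk 0x2000000000000000680000000000000000000000000000000000000000 0xc0000003c0000003f000000fc00000078000000fc000001ec000000fc000000f000000080 12 9) 0 0 (step_sound _ 164 [(rh03a6f79dca3226c9.shift 3 2), (rh614ec2e2158f857a.shift 2 0), (rha0faa2db2c5b26f7.shift 0 2)] (by decide +kernel))
noncomputable def rhd42d28da0866285d : CRef := CRef.mk (Pat.mk 0x1000000000000000340000000000000000000000000000000000000000 0x20000001e0000001e0000006f0000003e0000007f000000f60000007e0000007800000040 12 8) 0 0 (step_sound _ 163 [(rh0d378fd9e8917c5a.shift 0 4), (rh185f35b8bd8ec37f.shift 0 4), (rh592c7139d2c44767.shift 0 4), (rh614ec2e2158f857a.shift 1 0)] (by decide +kernel))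
noncomputable def rha8ea2265c25b7e54 : CRef := CRef.mk (Pat.mk 0x1000000000000000340000010000000000000000000000000000000000 0x280000003a0000007e0000001f0000003f00000036000001fe000000360000003e0000003a00000028 12 9) 0 0 (step_sound _ 196 [rh051e06058c097084, (rh14e0829dc73b6804.shift 3 4), (rh70e33bfdf511e144.shift 4 2), (rhce61442b3bb72f68.shift 1 4)] (by decide +kernel))
noncomputable def rh7a6cfd288e6f2656 : CRef := CRef.mk (Pat.mk 0x400000020000000240000002000000000000000000000000000000000 0x140000001c0000001c0000000c0000007c0000003c0000007e0000001f0000001f0000001f0000000c 12 7) 0 0 (step_sound _ 163 [(rh10f72fbeabd82e15.shift 2 2), (rhabf575676fe0ef70.shift 2 4), rhf535ff9d10bbeede] (by decide +kernel))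
noncomputable def rh9b07f0eb4bc98d04 : CRef := CRef.mk (Pat.mk 0x40000006000000034000000200 0xa0000000f8000003fc000001f8000003ff000001fe000007ff0000035800000358 12 11) 0 0 (step_sound _ 103 [(rh0c6383e421efd5d5.shift 5 0), rh82020676477aefbf, (rh8d14fd09144b7a16.shift 5 0), (rh980372d35ac49691.shift 6 0), (rhd1385c88100839fc.shift 2 0), rhebbbeb02baf329b7] (by decide +kernel))
noncomputable def rh19e3fbee5682960b : CRef := CRef.mk (Pat.mk 0x200000010000000120000001000000000000000000 0x8000000580000007f000000fe000000ff000003bf000001e0000003700000007000000050 12 10) 0 0 (step_sound _ 102 [(rh2db2c8c34df74365.shift 4 1), rh5b846adc08579167, (rh6eb9d2ddfb905593.shift 4 1), (rhabf575676fe0ef70.shift 5 2)] (by decide +kernel))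
noncomputable def rhcdef22712ac8c1e8 : CRef := CRef.mk (Pat.mk 0x2000000100000005a0000001000000000000000000000000000000000 0xa0000000ed000000ef000000ff0000005a000000ff000000ef000000ff000000fd000000e0 12 8) 0 0 (step_sound _ 133 [(rh012840e935d2cff0.shift 3 1), (rh6c3986a287dfc9df.shift 2 1), (rh7b8cfaa3fca23dd7.shift 0 1), rhe886177dd726eaa8] (by decide +kernel))
noncomputable def rhf502f619814e175c : CRef := CRef.mk (Pat.mk 0x80000004800000018000000400000000000000000 0x40000000f0000007f0000001b000000ff0000001f0000001c 12 8) 0 0 (step_sound _ 68 [(rh08edf065357d68e5.shift 3 0), (rha822df604b29e217.shift 2 0), rhd513268148236a10] (by decide +kernel))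
noncomputable def rh409748b4dc75a474 : CRef := CRef.mk (Pat.mk 0x400000020000000240000002000000000000000000000000000000000 0xc0000000c0000006e0000003c0000007e0000001f0000001f0000001f0000000c 12 7) 0 0 (step_sound _ 163 [(rh6eb9d2ddfb905593.shift 1 3), (rhabf575676fe0ef70.shift 2 4), rhf535ff9d10bbeede] (by decide +kernel))
noncomputable def rhb81ebe9b32691684 : CRef := CRef.mk (Pat.mk 0x400000004000000000000000c000000280 0xa0000001f8000007f8000003fc000003ff000001fe000000bf000000d000000790 12 11) 0 0 (step_sound _ 103 [(rh2613c889e411427e.shift 6 0), rhc9885e7088390f13] (by decide +kernel))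
noncomputable def rh4246bc9ab66c7f74 : CRef := CRef.mk (Pat.mk 0x200000010000000120000001000000000000000000 0x50000000700000007800000078000000ff000001fe000000ff000003fe000001e0000003c0000000c000000040 12 10) 0 0 (step_sound _ 133 [(rh00a765398df477be.shift 4 0), (rh4e4f0d5e3b7752e7.shift 4 0), (rh533bb78ea0b9c854.shift 0 3), (rh91ff65f5b7ea8129.shift 4 2), (rh9a3bfb77d156872e.shift 4 1)] (by decide +kernel))
noncomputable def rh86326b86b9df7a4b : CRef := CRef.mk (Pat.mk 0x200000002000000020 0x500000007000000078000000780000007f000001fe000000ff0000007e00000020 12 9) 0 0 (step_sound _ 101 [(rh1603af9c88770132.shift 1 0), (rh9622229bfa8d725d.shift 1 0), rhab69b9193cc85018, (rhaffe506ab24ba1e1.shift 4 0), (rhc85cc95794737cf7.shift 4 0), (rhe36b351fe63a9d07.shift 4 0)] (by decide +kernel))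
noncomputable def rh10b6a9411f24240a : CRef := CRef.mk (Pat.mk 0x1e00000020000000a400000020000000000000000000000000 0x50000000700000037000000370000003f0000003f0000001e000000e3000000bc000001f8000001d80000005000000040 12 9) 0 0 (step_sound _ 225 [(rh3244c3cc8379b070.shift 0 6), rha053553bf26fa50b] (by decide +kernel))
noncomputable def rhe0765dbd0c28cb72 : CRef := CRef.mk (Pat.mk 0xe00000020 0x50000002f0000003f0000003f0000003f0000003f0000001e0000003b 12 6) 0 0 (step_sound _ 36 [rh5d00be0cbd941e27, (rh96851dee118c1ba3.shift 1 0)] (by decide +kernel))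
noncomputable def rhc977a8b0358f908b : CRef := CRef.mk (Pat.mk 0x8000000480000004800000000 0x2000000160000003f0000007f0000003f000000ff0000005800000010 12 8) 0 0 (step_sound _ 131 [(rh43903eb41aa6ae4c.shift 2 0), (rhc85cc95794737cf7.shift 2 1), (rhd3e4cb270f5d44a8.shift 0 1)] (by decide +kernel))
noncomputable def rh5adaa4da3f927dd2 : CRef := CRef.mk (Pat.mk 0xe000000000000000800000000 0x300000017000000170000003f0000001e0000003f0000000b0000000b 12 6) 0 0 (step_sound _ 100 [rh60b6dbf6742e0570, rh67c65460973ddcef, (rhb705031692dfe65f.shift 1 0)] (by decide +kernel))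
noncomputable def rha9288bb4a6f10f31 : CRef := CRef.mk (Pat.mk 0xe000000400000000000000000 0x300000007000000070000007f0000003e000000770000000300000003 12 7) 0 0 (step_sound _ 100 [(rh21460d2d48a35cb8.shift 0 1), (rh338840d5137dcab7.shift 0 2), rh60b6dbf6742e0570, (rheaa91b92daf0efc8.shift 1 2)] (by decide +kernel))
noncomputable def rh4857251cc6e15c17 : CRef := CRef.mk (Pat.mk 0x40000000d000000400000004800000040000000000 0x28000000b8000000b8000007b8000007f8000002dc000007ff000006be000004bf00000028 12 11) 0 0 (step_sound _ 164 [(rh0886eda4009eec0a.shift 3 1), (rh1204534f571ff564.shift 3 4), rh49a276bd19e1c480, (rh7fd8ed24bbbb36db.shift 3 1), (rhce2dbe6d9b8586ea.shift 3 3), (rhf219bc518455ff5f.shift 3 0)] (by decide +kernel))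
noncomputable def rh1c51b27c05a018b7 : CRef := CRef.mk (Pat.mk 0x2000000060000000000000000000000000 0x58000000f8000001ff000003fe000003ff0000007e0000003f0000001c00000018 12 10) 0 0 (step_sound _ 132 [(rh09ab1a7b5872167b.shift 2 2), (rh15cd5b8c43895894.shift 2 1), (rh2688986e4e43cd69.shift 2 1), (rh36715497e7b80dfd.shift 2 1), (rh3e46ff16ad2116a1.shift 1 0), (rh6d8943feefcd9506.shift 0 1), (rh73f62f383cf149a4.shift 1 0), (rh8b7eb3f9c2659971.shift 2 1), (rhc12dc80f9bd33ca4.shift 2 2), (rhcbc039085bf4df34.shift 2 2), (rhf8bc6388eed92c5e.shift 2 1)] (by decide +kernel))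
noncomputable def rh503e55b10da7d85d : CRef := CRef.mk (Pat.mk 0xc000000000000000800000000000000000 0x300000007800000078000007ff000003fe000001ff000000b80000003800000028 12 11) 0 0 (step_sound _ 133 [(rh262517e2c925a6fe.shift 2 2), (rh3f9201bf9e8bfd15.shift 4 1), (rh56e7b40b7291011f.shift 1 0), (rh88c08cf226dcd40c.shift 2 2), (rha04cb4f65792b3cb.shift 2 3), (rhd6372986e467aa61.shift 2 0), rhd78d7e140471533b, (rhede7a913bbfdaf08.shift 0 2)] (by decide +kernel))
noncomputable def rh638da4e0e2d68f45 : CRef := CRef.mk (Pat.mk 0x40000000480000004000000000000000000000000000000000 0x300000003c0000003f000000ff0000007c000000ff0000003f0000003c0000003800000008 12 8) 0 0 (step_sound _ 164 [(rh22e203964f906d4b.shift 2 4), (rh2e8efbc4684aef7b.shift 2 4), (rhabf575676fe0ef70.shift 3 4), rhbffd2f4c2009d0e4] (by decide +kernel))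
noncomputable def rh49d5efba4e1579a5 : CRef := CRef.mk (Pat.mk 0x40000000180000001000000000000000000000000000000000 0x20000000200000003c000000fc0000001e0000001f0000003f0000003f0000003800000008 12 8) 0 0 (step_sound _ 196 [rh14e8bca9e3c1d535, (rh6793437a59e53157.shift 3 0), (rh9ab0ed084d168e00.shift 3 3), (rhe33d9496e10d8eb0.shift 1 5)] (by decide +kernel))
noncomputable def rh3608cb17718c8e5c : CRef := CRef.mk (Pat.mk 0x100000001800000040000000000000000000000000 0x8000000380000003f0000003f0000001f0000001e000000fc0000003c0000002000000020 12 8) 0 0 (step_sound _ 100 [(rh2af0210ad3cd0058.shift 3 0), (rh3fc2f55984029a22.shift 3 2), (rh8c25cb665ab79ec0.shift 1 3), (rhdd2569ade649e815.shift 0 2)] (by decide +kernel))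
noncomputable def rhb7566342d450d171 : CRef := CRef.mk (Pat.mk 0x10000000180000004800000000 0x1c0000001f0000001f0000001f0000007f00000037 12 7) 0 0 (step_sound _ 132 [(rh5c5e593799055d58.shift 3 1), rh9c602f9f7d7ac4cc] (by decide +kernel))
noncomputable def rh3f8018100d201284 : CRef := CRef.mk (Pat.mk 0x4800000018000000100000000000000000 0x370000007f0000001f0000001f0000001f0000001c 12 7) 0 0 (step_sound _ 36 [rh6169e6244bd2fded, (rh7b1f1fb55310c477.shift 3 0)] (by decide +kernel))
noncomputable def rh3da0e7dc3ead0632 : CRef := CRef.mk (Pat.mk 0x8000000030000000a000000000000000000000000000000000 0x1000000050000001f000000030000001fe0000007e0000007f0000007000000010 12 9) 0 0 (step_sound _ 134 [rh1bf1096f54cec4b3, (rhf48373e13d2bc128.shift 4 4)] (by decide +kernel))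
noncomputable def rh32d6255056384f7c : CRef := CRef.mk (Pat.mk 0xa000000030000000800000000000000000 0x10000000700000007f0000007e000001fe00000030000001f00000005000000010 12 9) 0 0 (step_sound _ 134 [(rh18965a982d73c794.shift 4 3), rh6fb2633b2cc8f47e] (by decide +kernel))
noncomputable def rh6ec806145730f849 : CRef := CRef.mk (Pat.mk 0x80000004800000018000000000000000000000000 0x300000003d000000ff0000001f0000001f0000001f0000000c 12 8) 0 0 (step_sound _ 132 [rh48665dc70a24146c, (rh6493ceb007f59211.shift 2 3)] (by decide +kernel))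
noncomputable def rhd531f397b1a7ce3d : CRef := CRef.mk (Pat.mk 0x80000004800000018000000000000000000000000 0x170000001f000000fb0000001f0000001f0000001c0000000c 12 8) 0 0 (step_sound _ 132 [rh35c11f4dc8fea699, (rh51246ab843efda05.shift 2 3), (rh6493ceb007f59211.shift 2 3), (rhd11dc6dd83191698.shift 2 3)] (by decide +kernel))
noncomputable def rhb587655c868194f0 : CRef := CRef.mk (Pat.mk 0x80000004800000018000000000000000000000000 0x18000000180000001f000000ff0000001f0000000e0000000c0000000c 12 8) 0 0 (step_sound _ 132 [(rh51246ab843efda05.shift 2 3), (rh6493ceb007f59211.shift 2 3), rh7e1fb88558a279d8, (rhd11dc6dd83191698.shift 2 3)] (by decide +kernel))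
noncomputable def rh0d442680c58a8d5e : CRef := CRef.mk (Pat.mk 0x80000001000000018000000000000000000000000 0x140000001c0000003c000000390000001f0000001f0000001f0000001f0000000c 12 6) 0 0 (step_sound _ 131 [(rh3e595262c1b737ad.shift 3 2), rh48665dc70a24146c, (rh5f452f890cbd7cd4.shift 2 1)] (by decide +kernel))
noncomputable def rh073fe50aca7b96a3 : CRef := CRef.mk (Pat.mk 0x10000000200000003000000000 0x100000003e000000ff0000007e0000003e0000003e0000002c 12 8) 0 0 (step_sound _ 132 [(rh0b87607a3b7411aa.shift 1 0), (rh11b0dd659f6f5c3b.shift 4 0), (rh4d760d0d70847451.shift 4 0), rha0f14535aaf04b1a] (by decide +kernel))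
noncomputable def rh4adff312d3175abf : CRef := CRef.mk (Pat.mk 0x1000000080000002900000008000000000000000000000000000000000 0x5e0000057e000007ff0000077e000007ef000002fc000007bc00000770000007700000057000000010 12 11) 0 0 (step_sound _ 229 [(rh521be6cb6667d077.shift 2 0), (rh6a240fb890814e03.shift 2 1), (rh70f602e15b4a6978.shift 0 4), (rhc005ae0319fe48cc.shift 2 2), (rhea50028c004cdae8.shift 2 2)] (by decide +kernel))
noncomputable def rh7b189c330609db69 : CRef := CRef.mk (Pat.mk 0x30000001000000012000000100000000000000000000000000 0x1000000010000001dc000000f8000003be000001fe0000037f0000007c0000007c00000014 12 10) 0 0 (step_sound _ 134 [(rhabf575676fe0ef70.shift 5 3), rhb74edf5ef6a06276, (rhc8450956778d39a6.shift 3 3)] (by decide +kernel))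
noncomputable def rh3f03471a5d3cba48 : CRef := CRef.mk (Pat.mk 0x2000000100000000200000000000000000000000000000000000000000 0x780000007f000000fe000000fc000003fc0000007c0000003000000070000000700000007000000050 12 10) 0 0 (step_sound _ 197 [(rh04bc0bc315096e76.shift 4 3), (rh08fc6c71bae64452.shift 2 3), (rh0a8e1c25ff37edf3.shift 4 2), (rh22ecd2785146be1b.shift 4 0), (rh4605447f0db20e8a.shift 2 1), (rh5f452f890cbd7cd4.shift 4 3), (rh9bd2e432bcc9fa86.shift 4 0), (rhdc979c27d69a796c.shift 0 4), (rhe10e4699e05d08a7.shift 4 1)] (by decide +kernel))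
noncomputable def rh46e4d4e06a583742 : CRef := CRef.mk (Pat.mk 0x18000000480000000800000000 0xc0000001f0000001f0000001f000000ff0000003d00000030 12 8) 0 0 (step_sound _ 68 [rh29222a106528b084, (rhb7616ccf0736ebbe.shift 2 1)] (by decide +kernel))
noncomputable def rhf1500fc01d5a1cec : CRef := CRef.mk (Pat.mk 0x18000000480000000800000000 0xc0000001c0000001f0000001f000000fb0000001f00000017 12 8) 0 0 (step_sound _ 68 [rh1ba3b894affed3d7, (rh51246ab843efda05.shift 2 1), (rhb7616ccf0736ebbe.shift 2 1), (rhfd0f316c42bbba52.shift 2 2)] (by decide +kernel))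
noncomputable def rh9e04e0e6bd72cc07 : CRef := CRef.mk (Pat.mk 0x1800000048000000080000000000000000 0xc0000000c0000000e0000001f000000ff0000001f0000001800000018 12 8) 0 0 (step_sound _ 100 [(rh51246ab843efda05.shift 2 2), rh5b87088426101f07, (rhb7616ccf0736ebbe.shift 2 2), (rhfd0f316c42bbba52.shift 2 3)] (by decide +kernel))
noncomputable def rh32be93bb5ee1681a : CRef := CRef.mk (Pat.mk 0x180000001000000008000000000000000000000000 0xc0000001f0000001f0000001f0000001f000000390000003c0000001c00000014 12 6) 0 0 (step_sound _ 131 [(rh168fed7625321222.shift 2 0), (rh29222a106528b084.shift 0 2), (rhea7a1800d6f053bd.shift 3 1)] (by decide +kernel))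
noncomputable def rhe817f863ebe85c43 : CRef := CRef.mk (Pat.mk 0x300000002000000010000000000000000000000000 0x2c0000003e0000003e0000007e000000ff0000003e00000010 12 8) 0 0 (step_sound _ 68 [(rh53a6242ae0132a5f.shift 4 1), (rhe83f0679b86b6627.shift 4 0), (rhebfc976813209182.shift 0 1), (rhf4adc66ab9241754.shift 1 1)] (by decide +kernel))
noncomputable def rhc599e61d46c448c2 : CRef := CRef.mk (Pat.mk 0x80000002900000008000000010000000000000000000000000 0x10000005700000077000000770000007bc000002fc000007ef0000077e000007ff0000057e0000005e 12 11) 0 0 (step_sound _ 101 [(rh31f00c7311489cfb.shift 2 0), rh4fc9a4a8d1ec0890, (rhd1e1a14f2f3c5ae8.shift 2 2), (rhf7f02d10f9be20c2.shift 2 1), (rhfc100ff83fe8059d.shift 2 0)] (by decide +kernel))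
noncomputable def rh2bf66e2bd4d3c6ee : CRef := CRef.mk (Pat.mk 0x100000001200000010000000030000000000000000000000000 0x140000007c0000007c0000037f000001fe000003be000000f8000001dc0000001000000010 12 10) 0 0 (step_sound _ 166 [(rhabf575676fe0ef70.shift 5 4), rhadd1e8ec706592ec, (rhc8ffc5931fd66d8a.shift 3 4)] (by decide +kernel))
noncomputable def rh6665d6840b89c8a3 : CRef := CRef.mk (Pat.mk 0x200000010000000020000000000000000000000000 0x50000000700000007000000070000000300000007c000003fc000000fc000000fe0000007f00000078 12 10) 0 0 (step_sound _ 133 [(rh168fed7625321222.shift 4 0), (rh27049bd1b050d014.shift 2 0), (rh2bc462a54c4030e9.shift 4 0), (rh5630a3094bbb3d03.shift 4 1), (rh888b9995aee7aeeb.shift 4 0), rhbd8cbd59b47ede63, (rhc46dc051f1ca46f8.shift 2 0), (rhc4e000a6037db581.shift 4 2), (rhe95a2e51b0ee5fdb.shift 4 0)] (by decide +kernel))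
noncomputable def rhfe2fe22e4242c33a : CRef := CRef.mk (Pat.mk 0x1800000052000000100000000000000000000000000000000000000000 0x4000000a4000000fe000000ef000000ff0000005e000000fb000001e7000000e7000000e5000000e000000020 12 9) 0 0 (step_sound _ 195 [(rhb0d145f06d1092b8.shift 0 2), (rhc2faa7bced880d3a.shift 0 2), (rhc924e5f7a4031fcc.shift 1 5), (rhe711ab32b97f2a93.shift 2 0)] (by decide +kernel))
noncomputable def rh149da97906b94122 : CRef := CRef.mk (Pat.mk 0xc000000290000000800000000000000000000000000000000000000000 0x2800000578000007fc0000077f000007fe000002df000007d800000f3800000738000007280000070000000100 12 12) 0 0 (step_sound _ 228 [(rh3ace7cbd580106ff.shift 0 2), (rh50c9a591b6085b12.shift 3 5), (rh84fe0656e9bf9ace.shift 2 6), (rha026aab0f9a8ee30.shift 1 3), (rha349b2c022b83c66.shift 3 0)] (by decide +kernel))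
noncomputable def rh700f3102fd0565d4 : CRef := CRef.mk (Pat.mk 0x18000000120000001000000000000000000 0x5000000070000000fe000001ff000000fe000001fc000001f8000003b80000003000000010 12 10) 0 0 (step_sound _ 165 [(rh2168740fa36ac074.shift 2 1), rh4c2c5aed8d6bbe86, (rh981ab2a0ed6ff8b7.shift 4 2), (rh99156f362cc9dcda.shift 1 0), (rhb5fbce76d1ba6e14.shift 4 2), (rhcb2f1be182b9fec3.shift 3 2), (rhd4ca6034e516fa2c.shift 1 1), (rhfc11ff2e3821322c.shift 3 2)] (by decide +kernel))
noncomputable def rhac3b2ca304b638aa : CRef := CRef.mk (Pat.mk 0x10000000520000001800000000000000000000000000000000 0x20000000e0000000e5000000e7000001e7000000fb0000005e000000ff000000ef000000fe000000a400000004 12 9) 0 0 (step_sound _ 163 [rhbb883f851272355c, (rhc924e5f7a4031fcc.shift 1 4), rhd0dab9f79b3c6423, (rhd237ec9025fa3782.shift 2 1)] (by decide +kernel))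
noncomputable def rhd0cc62a4134239d4 : CRef := CRef.mk (Pat.mk 0x8000000290000000c000000000000000000000000000000000 0x10000000700000007280000073800000f38000007d8000002df000007fe0000077f000007fc0000057800000028 12 12) 0 0 (step_sound _ 132 [(rh1f690bfcb5d80fa5.shift 3 1), (rh5ae22d7e226b8316.shift 3 1), rh6453337d8735d7cc, (rh91adc3212af498ba.shift 2 3), (rhc40dc6d23321851e.shift 1 0)] (by decide +kernel))
noncomputable def rhae78848ab3c9ce34 : CRef := CRef.mk (Pat.mk 0x10000000120000001800000000000000000000000000000000000000000 0x1000000030000003b8000001f8000001fc000000fe000001ff000000fe0000007000000050 12 10) 0 0 (step_sound _ 133 [(rh45f5798f3a9db39a.shift 0 1), (rh64b016e03edb64f4.shift 4 1), (rh659afc200d078d35.shift 4 1), (rhaadd6f0b24129975.shift 3 1), (rhad6fcbf32ac23b81.shift 3 1), (rhb3387b6e8aae7569.shift 2 1), (rhbf7bc5cb9a186b16.shift 1 0), (rhe2d79d4d4e3386eb.shift 1 0)] (by decide +kernel))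
noncomputable def rh04c1f215acc97892 : CRef := CRef.mk (Pat.mk 0x180000000c000000000000000000000000 0x370000003f0000003f0000001f0000001f0000003b0000003800000038 12 6) 0 0 (step_sound _ 97 [(rh53b3c253cb0c65f4.shift 0 3), rhc8cc1e6eab5ae4c2] (by decide +kernel))
noncomputable def rh9ddd4fb8e73cf93c : CRef := CRef.mk (Pat.mk 0x180000000c000000000000000000000000 0x10000003700000037000000370000001f0000001f0000003f0000003c00000038 12 6) 0 0 (step_sound _ 97 [rh1c61f5234181a548, (rh53b3c253cb0c65f4.shift 0 3)] (by decide +kernel))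
noncomputable def rh691e673a09858851 : CRef := CRef.mk (Pat.mk 0x180000000c000000000000000000000000 0xb0000000b0000001f0000001f000000370000003c0000003c 12 6) 0 0 (step_sound _ 97 [(rh53b3c253cb0c65f4.shift 0 3), rhcd2d76370eae87a1] (by decide +kernel))
noncomputable def rh5b90b0b43dc28c67 : CRef := CRef.mk (Pat.mk 0x480000000c000000000000000000000000 0x300000003b0000003f0000007f0000001f0000003f0000003400000034 12 7) 0 0 (step_sound _ 132 [(rh361cc68994bd8a63.shift 2 3), rhcd7793475694b412] (by decide +kernel))
noncomputable def rh45291d71b4e8bb0e : CRef := CRef.mk (Pat.mk 0xc00000018000000000000000000000000 0x38000000380000003b0000001f0000001f0000003f0000003f00000037 12 6) 0 0 (step_sound _ 129 [rh820020f8e153a494, (rhb739f4f82bb681b4.shift 0 3)] (by decide +kernel))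
noncomputable def rh33799a42f83592ea : CRef := CRef.mk (Pat.mk 0xc0000001800000000000000000000000000000000 0x380000003c0000003f0000001f0000001f00000037000000370000003700000001 12 6) 0 0 (step_sound _ 161 [rh054d5ffc4b204c85, (rhb739f4f82bb681b4.shift 0 4)] (by decide +kernel))
noncomputable def rh8a7a7ce59b18b50b : CRef := CRef.mk (Pat.mk 0xc000000180000000000000000 0x3c0000003c000000370000001f0000001f0000000b0000000b 12 6) 0 0 (step_sound _ 97 [rh4b2c5659ac9668f1, (rhb739f4f82bb681b4.shift 0 2)] (by decide +kernel))
noncomputable def rh2068f5b88e41d055 : CRef := CRef.mk (Pat.mk 0xc00000048000000000000000000000000 0x34000000340000003f0000001f0000007f0000003f0000003b00000030 12 7) 0 0 (step_sound _ 100 [(rh2fe78cc5ca4405d8.shift 2 3), rh30125e60b94f4975] (by decide +kernel))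
noncomputable def rhffe1c56222fa4aa7 : CRef := CRef.mk (Pat.mk 0x180000000e000000000000000000000000 0x28000000380000003c0000003f0000001f0000001e0000003f0000001600000016 12 6) 0 0 (step_sound _ 100 [(rhbbe16ff26f7822db.shift 1 0), rhe48c9cca00efc867, rhf8043cb25648cc76, rhfc942743fe200943] (by decide +kernel))
noncomputable def rh49a8825f8b6d53c8 : CRef := CRef.mk (Pat.mk 0x180000000e000000000000000000000000 0x2800000038000000380000003a0000001f0000001e0000003f0000003e0000003e 12 6) 0 0 (step_sound _ 100 [(rhbbe16ff26f7822db.shift 1 0), rhe48c9cca00efc867, (rhea719cc8bd0bdd28.shift 1 1), rhed9575cdee0ab1ad] (by decide +kernel))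
noncomputable def rh2c0c635389f9441a : CRef := CRef.mk (Pat.mk 0x300000001800000000000000000000000000000000 0x380000007e0000003f0000003e0000001f0000003c0000003800000030 12 7) 0 0 (step_sound _ 130 [(rh53b3c253cb0c65f4.shift 1 4), rh946eaac07f7784ca] (by decide +kernel))
noncomputable def rh5054c96137ee8e01 : CRef := CRef.mk (Pat.mk 0x180000000c000000000000000000000000 0x28000000380000003c000000370000001f0000001f0000003f0000003f0000003f 12 6) 0 0 (step_sound _ 97 [(rh53b3c253cb0c65f4.shift 0 3), rhaa43c7f43c0173bc] (by decide +kernel))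
noncomputable def rh769a19dfb36886f9 : CRef := CRef.mk (Pat.mk 0x180000000c000000000000000000000000 0x180000003c0000003f0000001f0000001f000000370000003e0000003f 12 6) 0 0 (step_sound _ 97 [(rh53b3c253cb0c65f4.shift 0 3), rh77d59cd35cdbcca1] (by decide +kernel))
noncomputable def rhd46ae1d0ec1c3d71 : CRef := CRef.mk (Pat.mk 0x480000000c0000000000000000000000000000000000000000 0xc0000001e0000007f0000001f0000003b0000001f0000001f0000000700000005 12 7) 0 0 (step_sound _ 196 [(rh361cc68994bd8a63.shift 2 5), rhbeaf0188982f60ac] (by decide +kernel))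
noncomputable def rhbb621a346a34c06a : CRef := CRef.mk (Pat.mk 0xe0000001800000000000000000000000000000000 0x16000000160000003f0000001e0000001f0000003f0000003c0000003800000028 12 6) 0 0 (step_sound _ 164 [(rh427cbdb3921c467d.shift 0 1), rh472a81033da60523, (rh5ba2d67652840f34.shift 1 3), rh9d5427592fa4c22e] (by decide +kernel))
noncomputable def rh1ce45dfb692e8294 : CRef := CRef.mk (Pat.mk 0xe0000001800000000000000000000000000000000 0x3e0000003e0000003f0000001e0000001f0000003a000000380000003800000028 12 6) 0 0 (step_sound _ 164 [(rh34b1188e635efc8d.shift 1 2), rh472a81033da60523, (rh5ba2d67652840f34.shift 1 3), (rh8c7c8a0d99f0a4c8.shift 0 4)] (by decide +kernel))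
noncomputable def rh2b0cb50411759533 : CRef := CRef.mk (Pat.mk 0x18000000300000000000000000 0x30000000380000003c0000001f0000003e0000003f0000007e00000038 12 7) 0 0 (step_sound _ 98 [rh0b73329dc7fb7468, (rhb739f4f82bb681b4.shift 1 2)] (by decide +kernel))
noncomputable def rhf5cf77bc9f22f55c : CRef := CRef.mk (Pat.mk 0xc0000001800000000000000000000000000000000 0x3f0000003f0000003f0000001f0000001f000000370000003c0000003800000028 12 6) 0 0 (step_sound _ 161 [rh7a9c176b41f33f08, (rhb739f4f82bb681b4.shift 0 4)] (by decide +kernel))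
noncomputable def rh19b3f2394bdc5661 : CRef := CRef.mk (Pat.mk 0xc00000018000000000000000000000000 0x3f0000003e000000370000001f0000001f0000003f0000003c00000018 12 6) 0 0 (step_sound _ 129 [(rhb739f4f82bb681b4.shift 0 3), rhfedf84b691e9777f] (by decide +kernel))
noncomputable def rh89858fdd47e0c6c0 : CRef := CRef.mk (Pat.mk 0xc000000480000000000000000 0x5000000070000001f0000001f0000003b0000001f0000007f0000001e0000000c 12 7) 0 0 (step_sound _ 68 [(rh2fe78cc5ca4405d8.shift 2 2), rh8bbecd887a5e2f2a] (by decide +kernel))
noncomputable def rh8eba6ffb28e8973c : CRef := CRef.mk (Pat.mk 0xc00000018000000000000000000000000 0x5000000070000000f0000003f0000001f0000001f0000003f0000001f00000015 12 6) 0 0 (step_sound _ 129 [rh703c167f89b8e3c6, (rhb739f4f82bb681b4.shift 0 3)] (by decide +kernel))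
noncomputable def rh79938f5a798b2426 : CRef := CRef.mk (Pat.mk 0xc00000018000000000000000000000000 0x2f0000003e0000003f0000001f0000001f0000003b0000003a00000030 12 6) 0 0 (step_sound _ 129 [(rhb739f4f82bb681b4.shift 0 3), rhf200a865d2d6ce50] (by decide +kernel))
noncomputable def rhf5e29ef0d2ab3481 : CRef := CRef.mk (Pat.mk 0x80000000180000009000000000000000000000000000000000 0x180000003e000000ff0000001e000000fe0000007e0000007f0000003e0000002a 12 8) 0 0 (step_sound _ 133 [(rh2fe78cc5ca4405d8.shift 3 4), rh5dea21a0007b8ea4] (by decide +kernel))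
noncomputable def rh2b9debf404102c07 : CRef := CRef.mk (Pat.mk 0x80000000180000009000000000000000000000000000000000 0x8000000180000003e000000ff0000003e000000ff0000003e0000006e0000002600000002 12 8) 0 0 (step_sound _ 133 [rh1ee41a60a9fe970f, (rh2fe78cc5ca4405d8.shift 3 4)] (by decide +kernel))
noncomputable def rha4fab76ddd699e79 : CRef := CRef.mk (Pat.mk 0xc00000018000000000000000000000000 0x2e0000003e0000003f0000001f0000001b0000003f0000003f00000030 12 6) 0 0 (step_sound _ 129 [rh3c2579384253b4cd, (rhb739f4f82bb681b4.shift 0 3)] (by decide +kernel))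
noncomputable def rhb1e94b76e4f7b52c : CRef := CRef.mk (Pat.mk 0xc00000018000000000000000000000000 0x50000000700000017000000370000001f0000001f0000000f0000000f00000005 12 6) 0 0 (step_sound _ 129 [(rhb739f4f82bb681b4.shift 0 3), rhcb465d5595a1843e] (by decide +kernel))
noncomputable def rhc2d2b5c34ff4630d : CRef := CRef.mk (Pat.mk 0xc00000018000000000000000000000000 0x50000002f0000003f0000003f0000001f0000001f000000370000003f0000003f 12 6) 0 0 (step_sound _ 129 [rh89e056a7f9c07dd9, (rhb739f4f82bb681b4.shift 0 3)] (by decide +kernel))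
noncomputable def rh057ec50104025eb4 : CRef := CRef.mk (Pat.mk 0x8000000018000000100000000000000000 0x1c0000003c000000ff0000003e0000001f0000001f0000001f 12 8) 0 0 (step_sound _ 131 [(rh037408bb717fecca.shift 0 1), rha1c2884e0d3a0d90, rhb1d93f3d48dff2c3, (rhc2c7bae8f445c890.shift 3 0)] (by decide +kernel))
noncomputable def rh6efc6b81fadd77bf : CRef := CRef.mk (Pat.mk 0x80000000180000009000000000000000000000000000000000 0x80000001800000038000000f80000003e000000ff0000003e0000007f0000003e00000028 12 8) 0 0 (step_sound _ 133 [(rh2fe78cc5ca4405d8.shift 3 4), rh91c014af4e79112e] (by decide +kernel))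
noncomputable def rh198f88fd67ce30a6 : CRef := CRef.mk (Pat.mk 0x180000000c00000000000000000000000000000000 0x150000001f0000003f0000001f0000001f0000003f0000000f0000000700000005 12 6) 0 0 (step_sound _ 129 [(rh53b3c253cb0c65f4.shift 0 4), rhc216ad8b376602f0] (by decide +kernel))
noncomputable def rhe828d1361d8f71bb : CRef := CRef.mk (Pat.mk 0x180000000c000000000000000000000000 0x300000003a0000003b0000001f0000001f0000003f0000003e0000002f 12 6) 0 0 (step_sound _ 97 [rh202ca25c4a9406c1, (rh53b3c253cb0c65f4.shift 0 3)] (by decide +kernel))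
noncomputable def rh25e6e45f0557304b : CRef := CRef.mk (Pat.mk 0x9000000018000000800000000000000000 0x2a0000003e0000007f0000007e000000fe0000001e000000ff0000003e00000018 12 8) 0 0 (step_sound _ 133 [rh0d6e48d71e9a5bca, (rh361cc68994bd8a63.shift 3 3)] (by decide +kernel))
noncomputable def rh1ca3694d645f2061 : CRef := CRef.mk (Pat.mk 0x900000001800000080000000000000000000000000 0x2000000260000006e0000003e000000ff0000003e000000ff0000003e0000001800000008 12 8) 0 0 (step_sound _ 165 [rh2e11835ca1037f2b, (rh361cc68994bd8a63.shift 3 4)] (by decide +kernel))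
noncomputable def rh9ca66768e715c86f : CRef := CRef.mk (Pat.mk 0x180000000c000000000000000000000000 0x300000003f0000003f0000001b0000001f0000003f0000003e0000002e 12 6) 0 0 (step_sound _ 97 [(rh53b3c253cb0c65f4.shift 0 3), rhf0cf17bb51bad60e] (by decide +kernel))
noncomputable def rh35f0d69b6f1f8f0d : CRef := CRef.mk (Pat.mk 0x180000000c00000000000000000000000000000000 0x50000000f0000000f0000001f0000001f00000037000000170000000700000005 12 6) 0 0 (step_sound _ 129 [(rh53b3c253cb0c65f4.shift 0 4), rhd6a5575f5ba758ab] (by decide +kernel))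
noncomputable def rhf60a6eb518340bdd : CRef := CRef.mk (Pat.mk 0x180000000c00000000000000000000000000000000 0x3f0000003f000000370000001f0000001f0000003f0000003f0000002f00000005 12 6) 0 0 (step_sound _ 129 [rh43bf6c62933c6c4d, (rh53b3c253cb0c65f4.shift 0 4)] (by decide +kernel))
noncomputable def rh4226506a1475f75f : CRef := CRef.mk (Pat.mk 0x1000000018000000800000000000000000 0x1f0000001f0000001f0000003e000000ff0000003c0000001c 12 8) 0 0 (step_sound _ 67 [rh756c74969463808e, (rh9f9637d38e066335.shift 0 1), rhbc343beb35af32be, (rhcf80391c5046a495.shift 3 0)] (by decide +kernel))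
noncomputable def rh68cc831bed989e16 : CRef := CRef.mk (Pat.mk 0x900000001800000080000000000000000000000000 0x280000003e0000007f0000003e000000ff0000003e000000f8000000380000001800000008 12 8) 0 0 (step_sound _ 165 [rh190b109923747d3f, (rh361cc68994bd8a63.shift 3 4)] (by decide +kernel))
noncomputable def rh9b177a78426875d1 : CRef := CRef.mk (Pat.mk 0x900000001800000080000000000000000000000000 0x8000000080000001c0000001e000000fc0000003e000000ff0000007f0000003c00000030 12 8) 0 0 (step_sound _ 165 [(rh361cc68994bd8a63.shift 3 4), rha70e810806ab9050] (by decide +kernel))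
noncomputable def rhb3fe1f17927bbbc6 : CRef := CRef.mk (Pat.mk 0x480000000c0000000000000000000000000000000000000000 0x7000000070000000f0000007f0000001f0000003f0000003f0000003f0000000700000005 12 7) 0 0 (step_sound _ 196 [rh054a52b37174426c, (rh361cc68994bd8a63.shift 2 5)] (by decide +kernel))
noncomputable def rhd37ccbf77a6aa296 : CRef := CRef.mk (Pat.mk 0x180000000e0000004000000000000000000000000000000000 0x50000000f0000003f000000070000001f0000001e0000007f0000003f0000003f0000000700000005 12 7) 0 0 (step_sound _ 164 [(rh0ef8ce2735b84788.shift 0 2), rh17c5c960d4b2ac6b, (rh52be17a951278ccb.shift 0 2), (rhd345c0e03812d7e5.shift 0 2), (rhd409a37f822dd92f.shift 0 2), (rhe5d09daf39286758.shift 0 2), (rhed9575cdee0ab1ad.shift 0 2)] (by decide +kernel))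
noncomputable def rhc10a46b043d5708b : CRef := CRef.mk (Pat.mk 0x180000000c0000000000000000000000000000000000000000 0x50000000f0000000f0000001f0000001f0000003b0000001f0000001f0000000700000005 12 6) 0 0 (step_sound _ 161 [(rh53b3c253cb0c65f4.shift 0 5), rhd82fc0b1dd8ec3bc] (by decide +kernel))
noncomputable def rh7e243c8b3e01c1cf : CRef := CRef.mk (Pat.mk 0x180000000c000000000000000000000000 0xb0000000b0000001f0000001f000000370000003e0000003f 12 6) 0 0 (step_sound _ 97 [(rh53b3c253cb0c65f4.shift 0 3), rhdd1da356b4875626] (by decide +kernel))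
noncomputable def rh7dddf4a7fc8d6532 : CRef := CRef.mk (Pat.mk 0x80000000180000009000000000000000000000000000000000 0x300000003c0000007f000000ff0000003e000000fc0000001e0000001c0000000800000008 12 8) 0 0 (step_sound _ 133 [(rh2fe78cc5ca4405d8.shift 3 4), rhd511108538194089] (by decide +kernel))
noncomputable def rh3c236aca1a86089c : CRef := CRef.mk (Pat.mk 0xc00000048000000000000000000000000 0x5000000070000003f0000003f0000003f0000001f0000007f0000000f0000000700000007 12 7) 0 0 (step_sound _ 100 [(rh2fe78cc5ca4405d8.shift 2 3), rh906f261d00c3864e] (by decide +kernel))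
noncomputable def rhac9f7705afb285a0 : CRef := CRef.mk (Pat.mk 0x400000000e0000001800000000000000000000000000000000 0x5000000070000003f0000003f0000007f0000001e0000001f000000070000003f0000000f00000005 12 7) 0 0 (step_sound _ 164 [rh10a4b88b2a405bd0, (rh453dea99e34b074c.shift 0 1), (rh7b99c5f05d8bab31.shift 0 4), (rh8c7c8a0d99f0a4c8.shift 0 4), (rha89c43eb2e8e4595.shift 0 1), (rhc84da098c5c30e18.shift 0 4), (rhfa0b9f2ac7f35f1c.shift 0 2)] (by decide +kernel))
noncomputable def rh25782a108a999bc8 : CRef := CRef.mk (Pat.mk 0xc00000018000000000000000000000000 0x5000000070000001f0000001f0000003b0000001f0000001f0000000f0000000f00000005 12 6) 0 0 (step_sound _ 129 [rh559c2445c8371a45, (rhb739f4f82bb681b4.shift 0 3)] (by decide +kernel))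
noncomputable def rh9dbeea809957fbbc : CRef := CRef.mk (Pat.mk 0xc000000180000000000000000 0x3f0000003e000000370000001f0000001f0000000b0000000b 12 6) 0 0 (step_sound _ 97 [rh0ec286c94510798e, (rhb739f4f82bb681b4.shift 0 2)] (by decide +kernel))
noncomputable def rhf2ba906afd896c14 : CRef := CRef.mk (Pat.mk 0x90000000180000008000000000000000000000000000000000 0x40000002c000000ff00000038000001ff0000007e000001ff0000003c00000008 12 9) 0 0 (step_sound _ 197 [(rh361cc68994bd8a63.shift 3 5), rh6288f13a9ac181e9] (by decide +kernel))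
noncomputable def rhc74f839798235cd6 : CRef := CRef.mk (Pat.mk 0x8000000018000000900000000000000000 0x80000003c000001ff0000007e000001ff00000038000000ff0000002c00000004 12 9) 0 0 (step_sound _ 69 [(rh2fe78cc5ca4405d8.shift 3 2), rhc6d9084500b9aa8f] (by decide +kernel))
noncomputable def rhc737cba78e3980e7 : CRef := CRef.mk (Pat.mk 0x200000003000000110000000000000000000000000 0x6a000000fe0000003e0000007f000001fe0000006f0000002e0000000a 12 9) 0 0 (step_sound _ 197 [(rh5c5e593799055d58.shift 4 3), rhda3a080c331632c1] (by decide +kernel))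
noncomputable def rhf3457fb3968b554e : CRef := CRef.mk (Pat.mk 0x11000000030000000200000000000000000 0xa0000002e0000006f000001fe0000007f0000003e000000fe0000006a 12 9) 0 0 (step_sound _ 37 [rh5368f09dd0505cdb, (rh7b1f1fb55310c477.shift 4 0)] (by decide +kernel))
noncomputable def rh927a7b676889157a : CRef := CRef.mk (Pat.mk 0x400000000c0000004800000000000000000000000000000000 0x3e0000003e000000ff0000001f0000007f00000033000000370000003700000005 12 8) 0 0 (step_sound _ 132 [(rh2fe78cc5ca4405d8.shift 2 4), rhc0cc95236e7602d5] (by decide +kernel))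
noncomputable def rh7de0b0d7d52fdeb7 : CRef := CRef.mk (Pat.mk 0x400000000c00000048000000000000000000000000 0x200000003e0000003e000000f70000001f0000007f0000003b0000003b00000030 12 8) 0 0 (step_sound _ 100 [(rh2fe78cc5ca4405d8.shift 2 3), rh8cd766a5f04f6584] (by decide +kernel))
noncomputable def rh92f2974c0891da56 : CRef := CRef.mk (Pat.mk 0x480000000c000000400000000000000000 0x50000003700000037000000330000007f0000001f000000ff0000003e0000003e 12 8) 0 0 (step_sound _ 132 [(rh361cc68994bd8a63.shift 2 3), rhea382b8d8861bafd] (by decide +kernel))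
noncomputable def rh29f98f94c242295c : CRef := CRef.mk (Pat.mk 0x480000000c00000040000000000000000000000000 0x300000003b0000003b0000007f0000001f000000f70000003e0000003e00000020 12 8) 0 0 (step_sound _ 164 [(rh361cc68994bd8a63.shift 2 4), rh510c856b46f96f02] (by decide +kernel))
noncomputable def rh827699d812b56c37 : CRef := CRef.mk (Pat.mk 0x480000000c000000000000000000000000 0x10000000100000003c0000007f0000001f0000003b0000003200000032 12 7) 0 0 (step_sound _ 132 [(rh361cc68994bd8a63.shift 2 3), rh46e6b6f9ad96fa56] (by decide +kernel))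
noncomputable def rhf96a88b6b15fc738 : CRef := CRef.mk (Pat.mk 0x120000000300000010000000000 0x50000000fe000000fe000000ff000001f00000007c000001f000000050 12 9) 0 0 (step_sound _ 102 [(rh361cc68994bd8a63.shift 4 2), rh9d4d45359d43f5fa] (by decide +kernel))
noncomputable def rh2a0377f347dd6665 : CRef := CRef.mk (Pat.mk 0x480000000c000000000000000000000000 0x12000000160000003f0000007f0000001f0000003f0000003200000032 12 7) 0 0 (step_sound _ 132 [(rh361cc68994bd8a63.shift 2 3), rh3d86b95635e4d351] (by decide +kernel))
noncomputable def rh909987655b1197b0 : CRef := CRef.mk (Pat.mk 0x12000000030000000000000000000000000 0xfe000000fe000000ff000001ec0000007c000000fc000000d0000000d0 12 9) 0 0 (step_sound _ 134 [rh274149d144790cd2, (rh361cc68994bd8a63.shift 4 3)] (by decide +kernel))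
noncomputable def rh119bfc5ba2e6d0f7 : CRef := CRef.mk (Pat.mk 0x180000000c0000000000000000000000000000000000000000 0x4000000150000001f0000003f0000001f0000001f0000003b00000037000000370000000700000005 12 6) 0 0 (step_sound _ 161 [(rh53b3c253cb0c65f4.shift 0 5), rh6fe43fd4a1bef28e] (by decide +kernel))
noncomputable def rh09cc47774a3701a7 : CRef := CRef.mk (Pat.mk 0x600000003000000000000000000000000000000000 0x500000007e000000fe000000fe0000007e0000003e0000001e0000001f0000000e0000000a 12 8) 0 0 (step_sound _ 197 [(rh32431e66bbf434a4.shift 4 3), (rh7a7e08304268422e.shift 4 3), (rh976a48eb1c80a12f.shift 4 3), rha5efaada3d936b3a, (rhf26678cbbb095e02.shift 2 4)] (by decide +kernel))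
noncomputable def rhc9692998a9a62906 : CRef := CRef.mk (Pat.mk 0x6000000030000001000000000000000000 0x140000005c000000fe000000fe000000ff0000007c00000070000001f00000005000000010 12 9) 0 0 (step_sound _ 165 [(rh1d1fc9d7fd86ede8.shift 0 2), (rh281c6819542c66e6.shift 4 0), (rh7a7e08304268422e.shift 4 2), (rhc8cc1e49564e2a6c.shift 2 1), (rhf26678cbbb095e02.shift 2 3)] (by decide +kernel))
noncomputable def rh1b36d31ca96669d1 : CRef := CRef.mk (Pat.mk 0xc00000048000000000000000000000000 0x32000000320000003b0000001f0000007f0000003c0000001000000010 12 7) 0 0 (step_sound _ 100 [(rh2fe78cc5ca4405d8.shift 2 3), rhd0855cf357949bed] (by decide +kernel))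
noncomputable def rh730ee958f788c9f6 : CRef := CRef.mk (Pat.mk 0x100000000300000012000000000000000000000000000000000 0x50000001f00000007c000001f0000000ff000000fe000000fe00000050 12 9) 0 0 (step_sound _ 134 [(rh2fe78cc5ca4405d8.shift 4 4), rh52e24658118fe9fc] (by decide +kernel))
noncomputable def rh2369f325d94a9897 : CRef := CRef.mk (Pat.mk 0xc00000048000000000000000000000000 0x32000000320000003f0000001f0000007f0000003f0000001600000012 12 7) 0 0 (step_sound _ 100 [rh08d27a92d15c851f, (rh2fe78cc5ca4405d8.shift 2 3)] (by decide +kernel))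
noncomputable def rh14795435c1e28650 : CRef := CRef.mk (Pat.mk 0x3000000120000000000000000000000000 0xd0000000d0000000fc0000007c000001ec000000ff000000fe000000fe 12 9) 0 0 (step_sound _ 102 [(rh2fe78cc5ca4405d8.shift 4 3), rh5fa84d4def50b610] (by decide +kernel))
noncomputable def rhc9714432a2cb7a72 : CRef := CRef.mk (Pat.mk 0xc0000001800000000000000000000000000000000 0x50000000700000037000000370000003b0000001f0000001f0000003f0000001f0000001500000004 12 6) 0 0 (step_sound _ 161 [(rhb739f4f82bb681b4.shift 0 4), rhf0e930fd1a0c36d6] (by decide +kernel))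
noncomputable def rh79a732de418c56b0 : CRef := CRef.mk (Pat.mk 0x300000006000000000000000000000000000000000 0xa0000000e0000001f0000001e0000003e0000007e000000fe000000fe0000007e00000050 12 8) 0 0 (step_sound _ 101 [(rh01483ff9cba2f6ac.shift 4 0), (rh0a6888916bcef86b.shift 4 0), (rh3aa30f230ce1a839.shift 0 1), (rh70e2db778ce43bdb.shift 2 0), (rhd1779d7de7f8215b.shift 4 0)] (by decide +kernel))
noncomputable def rh9b9f54730b8edac0 : CRef := CRef.mk (Pat.mk 0x10000000030000000600000000000000000000000000000000000000000 0x1000000050000001f0000000700000007c000000ff000000fe000000fe0000005c00000014 12 9) 0 0 (step_sound _ 133 [(rh70e2db778ce43bdb.shift 2 1), (rh82b47c2e4c1271b7.shift 2 0), (rhb1a251d9bff81766.shift 4 3), (rhbc11b99e9dd6c4eb.shift 0 1), (rhd1779d7de7f8215b.shift 4 1)] (by decide +kernel))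
noncomputable def rhacadd9557a7a248d : CRef := CRef.mk (Pat.mk 0x100000000300000012000000000000000000000000000000000 0x1800000058000001f80000007c000001ff00000038000000380000003800000028 12 9) 0 0 (step_sound _ 134 [(rh2fe78cc5ca4405d8.shift 4 4), rh76aa0c26063a21b3] (by decide +kernel))
noncomputable def rh31c1fa862a21b46b : CRef := CRef.mk (Pat.mk 0x800000001800000090000000000000000000000000 0x280000003e0000007e0000007f000000f80000003e000000ff0000003e0000002c00000020 12 8) 0 0 (step_sound _ 101 [(rh2fe78cc5ca4405d8.shift 3 3), rh4d91c36cf6afa969] (by decide +kernel))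
noncomputable def rh7e0683b3cbbde0d8 : CRef := CRef.mk (Pat.mk 0x300000012000000000000000000000000000000000 0x600000007800000078000000380000007c000001ff000000fc000000fc0000007800000028 12 9) 0 0 (step_sound _ 134 [(rh2fe78cc5ca4405d8.shift 4 4), rhc0938b3afebf5161] (by decide +kernel))
noncomputable def rhc67ef5bd82bb94a1 : CRef := CRef.mk (Pat.mk 0x1000000003000000120000000000000000000000000 0x10000000d0000003d80000007c000001ff000000fc000000e8000000c0 12 10) 0 0 (step_sound _ 102 [(rh2fe78cc5ca4405d8.shift 4 3), rh323755f641989bdf] (by decide +kernel))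
noncomputable def rhd97d303bd9f152cf : CRef := CRef.mk (Pat.mk 0x80000000180000001000000000000000000000000000000000 0x280000003e0000007e0000007e000000f80000001e0000003e0000007f0000007f0000003e00000028 12 8) 0 0 (step_sound _ 196 [rh5c145698d57e124e, (rhaac6df22c4ef4a49.shift 3 1), (rhada4234a2cce1694.shift 1 3), (rhc47fe1bc6b175f77.shift 3 2), (rhe3dbe8f11c676a0f.shift 3 0)] (by decide +kernel))
noncomputable def rh5fa0d58afe8e08be : CRef := CRef.mk (Pat.mk 0x80000000180000009000000000000000000000000000000000 0x280000003e0000007e0000007e000000f80000001e000000de0000007e0000007f0000003e00000028 12 8) 0 0 (step_sound _ 196 [(rhaac6df22c4ef4a49.shift 3 1), (rhada4234a2cce1694.shift 1 3), (rhc47fe1bc6b175f77.shift 3 2), (rhe3dbe8f11c676a0f.shift 3 0), rhf168f925de8de80f] (by decide +kernel))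
noncomputable def rhe63a500025cc2461 : CRef := CRef.mk (Pat.mk 0x12000000030000001000000000000000000 0x28000000380000003800000038000001ff0000007c000001f80000005800000018 12 9) 0 0 (step_sound _ 134 [(rh361cc68994bd8a63.shift 4 3), rha4a56214c19cefc0] (by decide +kernel))
noncomputable def rh034fab0dca47bf15 : CRef := CRef.mk (Pat.mk 0x90000000180000008000000000000000000000000000000000 0x200000002c0000003e000000ff0000003e000000f80000007f0000007e0000003e00000028 12 8) 0 0 (step_sound _ 197 [(rh361cc68994bd8a63.shift 3 5), rh80952682a045547c] (by decide +kernel))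
noncomputable def rhd1c05aefd0969169 : CRef := CRef.mk (Pat.mk 0x1200000003000000000000000000000000000000000 0x2800000078000000fc000000fc000001ff0000007c00000038000000780000007800000060 12 9) 0 0 (step_sound _ 166 [rh02057e1ba2c823ee, (rh361cc68994bd8a63.shift 4 4)] (by decide +kernel))
noncomputable def rhd10afbdefa387349 : CRef := CRef.mk (Pat.mk 0x12000000030000001000000000000000000 0xc0000000e8000000fc000001ff0000007c000003d8000000d000000010 12 10) 0 0 (step_sound _ 134 [(rh361cc68994bd8a63.shift 4 3), rhf6962095b04f8e1c] (by decide +kernel))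
noncomputable def rhdf15fd9f8f4bd142 : CRef := CRef.mk (Pat.mk 0x10000000180000008000000000000000000000000000000000 0x280000003e0000007f0000007f0000003e0000001e000000f80000007e0000007e0000003e00000028 12 8) 0 0 (step_sound _ 132 [(rh12452934acb847d5.shift 3 3), (rh2252b8da6e6831c7.shift 3 0), (rh334af22a1d14a889.shift 1 0), (rh65b6f5a1e8eeae4a.shift 0 3), (rhf7acaebcded2f86e.shift 3 3)] (by decide +kernel))
noncomputable def rh6f70f8ee0c3b06e0 : CRef := CRef.mk (Pat.mk 0x90000000180000008000000000000000000000000000000000 0x280000003e0000007f0000007e000000de0000001e000000f80000007e0000007e0000003e00000028 12 8) 0 0 (step_sound _ 132 [(rh12452934acb847d5.shift 3 3), (rh2252b8da6e6831c7.shift 3 0), (rh334af22a1d14a889.shift 1 0), (rh41d57fbaedd9a61c.shift 0 3), (rhf7acaebcded2f86e.shift 3 3)] (by decide +kernel))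
noncomputable def rh1d536c10eca4ac1c : CRef := CRef.mk (Pat.mk 0x480000000c000000180000000000000000000000000000000000000000 0x7c0000001c0000001f0000003f0000003f0000001f0000001700000005 12 7) 0 0 (step_sound _ 228 [(rh361cc68994bd8a63.shift 2 6), rh6b314d805423921c] (by decide +kernel))
noncomputable def rhf932851835579109 : CRef := CRef.mk (Pat.mk 0x1800000090000000000000000000000000 0x1c0000003c0000002f0000003c000000ff0000007f0000007e0000007c 12 8) 0 0 (step_sound _ 101 [(rh2fe78cc5ca4405d8.shift 3 3), rhb5893d6099b87ad6] (by decide +kernel))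
noncomputable def rh8e835aec1c796769 : CRef := CRef.mk (Pat.mk 0x400000001e0000000000000008000000000000000000000000 0x4000000040000000c0000000e0000007f0000001e0000003b0000001f000000170000000700000005 12 7) 0 0 (step_sound _ 195 [rh4ac3f56766ee3cb3, rh4c73cb2027a8e167, (rh65dcfd18fd55cba0.shift 1 2), rh6c4ec236dd77867e, (rh8257211cbce8bb99.shift 1 2)] (by decide +kernel))
noncomputable def rh7a6624244b12c82b : CRef := CRef.mk (Pat.mk 0x1e00000000000000000000000000000000 0x28000000380000003c000000370000001e0000003b0000003e0000003a00000020 12 6) 0 0 (step_sound _ 100 [rh072efd4383eb7b79, (rhe25b0a99195a5d59.shift 1 3)] (by decide +kernel))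
noncomputable def rh839253c457b4a13e : CRef := CRef.mk (Pat.mk 0x1e0000000000000000000000000000000000000000 0x10000000f0000001f0000000f0000001e0000003b00000017000000170000000700000005 12 6) 0 0 (step_sound _ 132 [rh6654b27ce4137da9, (rhe25b0a99195a5d59.shift 1 4)] (by decide +kernel))
noncomputable def rh49f996902415eae8 : CRef := CRef.mk (Pat.mk 0x8000000000000001e0000004000000000000000000000000000000000 0x500000007000000170000001f0000003b0000001e0000007f0000000e0000000c0000000400000004 12 7) 0 0 (step_sound _ 131 [(rh118bdaeae5c989d0.shift 0 3), (rh41756e67fc64428a.shift 1 3), rhbd978bb55b8ed546, rhc2da1d5fe8679502, (rhf60cdf71a14eca6b.shift 1 2)] (by decide +kernel))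
noncomputable def rha5a94dc39e5d747c : CRef := CRef.mk (Pat.mk 0x1e00000000000000000000000000000000 0x200000003a0000003e0000003b0000001e000000370000003c0000003800000028 12 6) 0 0 (step_sound _ 164 [(rh33e738c4ed385b9f.shift 1 4), rha8c93f7298790c02] (by decide +kernel))
noncomputable def rhe2a42bd7d992f40c : CRef := CRef.mk (Pat.mk 0x1e00000000000000000000000000000000 0x50000000700000017000000170000003b0000001e0000000f0000001f0000000f00000001 12 6) 0 0 (step_sound _ 164 [rh00d429a660656be1, (rh33e738c4ed385b9f.shift 1 4)] (by decide +kernel))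
noncomputable def rh03cdfdd02d783488 : CRef := CRef.mk (Pat.mk 0x80000000180000009000000000000000000000000000000000 0x280000003e0000007f000001ff0000001f000000ff0000002f0000000e0000000e0000000a 12 9) 0 0 (step_sound _ 131 [(rh5ce62e77ea6a23f8.shift 0 2), (rh7fe3ef7469552a19.shift 0 2), (rh862c827e19946a90.shift 0 2), (rhbf25028bd003c2fb.shift 0 1), rhc105df336f61d468, (rhdd62a5fa4b62f2dd.shift 0 1), (rhe5e30fb6e57c47ca.shift 0 1)] (by decide +kernel))
noncomputable def rh1355061534081d20 : CRef := CRef.mk (Pat.mk 0x10000000030000001000000001000000000000000000000000000000000 0x68000001fe00000074000001fe000000fe000001ff000000f80000003800000028 12 9) 0 0 (step_sound _ 164 [(rh0994b7c96ddd9c55.shift 1 0), (rh15590a39afd9a120.shift 3 1), (rh92d3ec23f10336b2.shift 1 2), (rhedfae98224f65759.shift 0 3), (rhffb8e5993241bf15.shift 3 1)] (by decide +kernel))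
noncomputable def rh30531964747c3b84 : CRef := CRef.mk (Pat.mk 0x10000000030000001000000001000000000000000000000000000000000 0x2000000068000001fe00000074000001fe000000fe000001ff000000f80000003800000028 12 9) 0 0 (step_sound _ 164 [(rh0994b7c96ddd9c55.shift 1 0), (rh15590a39afd9a120.shift 3 1), (rh215e11e099257d75.shift 4 3), (rh92d3ec23f10336b2.shift 1 2), (rhedfae98224f65759.shift 0 3)] (by decide +kernel))
noncomputable def rh0408d9c00d78591c : CRef := CRef.mk (Pat.mk 0x300000010000000010000000000000000000000000 0x280000003800000038000000380000003e00000034000003fe000000fe000001ff0000003800000028 12 10) 0 0 (step_sound _ 132 [(rh15590a39afd9a120.shift 3 0), (rh215e11e099257d75.shift 4 2), (rh7e197d3cdcc83a0a.shift 0 2), (rhe3d22be3ad0d99c3.shift 2 0)] (by decide +kernel))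
noncomputable def rhf934ae0e75766a93 : CRef := CRef.mk (Pat.mk 0x10000000030000001100000001000000000 0x280000007800000078000000de000001fe00000074000001fe000000fe000001ef 12 9) 0 0 (step_sound _ 132 [(rh30c061e58ebf1ac8.shift 3 0), (rh641b5241be04eec6.shift 1 0), (rha9774d3fe0d9106c.shift 2 0), rhab71d927b394ad46, (rhd719f2daf5a076c7.shift 1 0)] (by decide +kernel))
noncomputable def rh298b1e31c2ea8506 : CRef := CRef.mk (Pat.mk 0x10000000130000001000000001000000000000000000000000000000000 0x5000000070000000f0000003e000000177000003fe000000ff000003fe000000fc0000005c00000014 12 10) 0 0 (step_sound _ 165 [(rh8584503a2bd6a5f4.shift 0 2), (rh862c36d5a39ebbb1.shift 4 2), (rh8631b64a23f10040.shift 1 0), (rhaaab78b483d9563a.shift 3 2), (rhc084efbae32225ae.shift 4 3), (rhcaee53deed70b456.shift 2 2), (rhe39c2bd21caac77a.shift 0 2)] (by decide +kernel))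
noncomputable def rh71070b14000a0088 : CRef := CRef.mk (Pat.mk 0x80000000180000008000000008000000000000000000000000 0x28000000380000003c000001ff0000007f000001ff00000038000000ff0000007f000000f60000003400000020 12 9) 0 0 (step_sound _ 132 [(rh09cd67926f7ecdd3.shift 1 1), (rh4ffccb7042136be7.shift 2 2), (rhb668a93affbcad08.shift 1 0), (rhb7b50373a94d3d04.shift 1 1), (rhcaee53deed70b456.shift 1 1), (rhcdb1c462cc91ec84.shift 1 0), (rhce63da315fee39ec.shift 1 1), (rhda736717633163e2.shift 0 2), (rhfa45937ddd3f10ba.shift 0 2)] (by decide +kernel))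
noncomputable def rh51d4a587dfc66a11 : CRef := CRef.mk (Pat.mk 0x3000000100000000100000000000000000000000000000000000000000 0x280000003800000038000000380000005e00000077000003fe000000ff000001ff000000ff000000380000003800000028 12 10) 0 0 (step_sound _ 196 [(rh0994b7c96ddd9c55.shift 1 1), (rh1907ec9f8d12909a.shift 1 2), rh6c707cfac57fd39a, (rh7a2eb42ebbbe12ed.shift 0 1), (rh840f85098366c4ad.shift 0 2), (rh90f97c5ae6d9752c.shift 1 1), (rhb72d907032be3c74.shift 0 4), (rhcdeff3e0b53e1aa2.shift 1 2), (rhe3d22be3ad0d99c3.shift 2 2)] (by decide +kernel))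
noncomputable def rh0179e2295021a2d5 : CRef := CRef.mk (Pat.mk 0xd00000009c000000000000000000000000 0x80000004c0000007f0000007f000000df0000009c0000001f0000003e0000001c 12 8) 0 0 (step_sound _ 67 [(rhaff899883e808bfa.shift 0 1), (rhcf80391c5046a495.shift 3 0), rhebdf8a79685b253f, (rhf9366b6a121593ef.shift 3 0)] (by decide +kernel))
noncomputable def rha2898bf2ecae66c6 : CRef := CRef.mk (Pat.mk 0xe000000000000000000000000000000000 0x60000000f8000000f8000003ff000001fe0000006e000000700000007000000050 12 10) 0 0 (step_sound _ 132 [(rh38fb9deebdacfdc8.shift 0 3), (rh56a24c72f1c55520.shift 3 4), rh63acaa2bce42acd5, (rh988dac8d009f9f77.shift 1 3), (rhd4999ead6bb0c91f.shift 1 3), (rhe7ce041322d34453.shift 3 1)] (by decide +kernel))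
noncomputable def rha5c72bc2928a31d2 : CRef := CRef.mk (Pat.mk 0xe000000000000000000000000000000000 0x30000000300000007f000001fe0000007f000000780000007800000078 12 9) 0 0 (step_sound _ 132 [(rh01d49d2eea03de7d.shift 3 1), (rh05fadc0638981c34.shift 3 1), (rh06c54508efd5b78e.shift 3 0), (rh38fb9deebdacfdc8.shift 0 3), rh63acaa2bce42acd5, (rhd6a543980fee235b.shift 0 3)] (by decide +kernel))
noncomputable def rh2b79f48182f553b0 : CRef := CRef.mk (Pat.mk 0x9c000000d000000000000000000000000000000000 0x1c0000003e0000001f0000009c000000df0000007f0000007f0000004c00000008 12 8) 0 0 (step_sound _ 195 [rh6ef05681711ab4db, (rhb595b331e657aa2c.shift 0 1), (rhc2c7bae8f445c890.shift 3 2), (rhc38f566cab2818e5.shift 3 2)] (by decide +kernel))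
noncomputable def rh07a00b80fbada4c1 : CRef := CRef.mk (Pat.mk 0xe000000000000000000000000000000000 0x5000000070000000700000006e000001fe000003ff000000f8000000f800000060 12 10) 0 0 (step_sound _ 132 [(rh1253c215c12f4310.shift 0 3), (rh42d32bf970c9c157.shift 3 3), (rha582ef2e7d93533e.shift 3 0), (rhbb13f9e1d387f64a.shift 1 3), (rhef59946f39474af2.shift 0 2), (rhfd7f50bc4465ec35.shift 1 3)] (by decide +kernel))
noncomputable def rh2e864b9ff5b9702a : CRef := CRef.mk (Pat.mk 0xe0000000000000000000000000 0x7800000078000000780000007f000001fe0000007f0000003000000030 12 9) 0 0 (step_sound _ 100 [(rh01d49d2eea03de7d.shift 3 0), (rh05fadc0638981c34.shift 3 0), (rh1253c215c12f4310.shift 0 2), (rh207cfd9c044cf941.shift 0 2), (rh7e8391acd972767e.shift 3 0), (rhef59946f39474af2.shift 0 1)] (by decide +kernel))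
noncomputable def rhff8d6c420804c765 : CRef := CRef.mk (Pat.mk 0x1e00000000000000000000000000000000 0x200000003c0000003e0000003c0000001e000000370000003a0000003a00000028 12 6) 0 0 (step_sound _ 164 [(rh33e738c4ed385b9f.shift 1 4), rh5a731e8267f3856a] (by decide +kernel))
noncomputable def rh8784627f16ac20ae : CRef := CRef.mk (Pat.mk 0x1e00000000000000000000000000000000 0x280000003a0000003a000000370000001e0000003c0000003e0000003c00000020 12 6) 0 0 (step_sound _ 100 [rh3d15627620a6f3cc, (rhe25b0a99195a5d59.shift 1 3)] (by decide +kernel))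
noncomputable def rh80aa9022738c1d06 : CRef := CRef.mk (Pat.mk 0x400000000c00000048000000000000000000000000 0x1f0000003f0000007c0000001f0000007f0000000f0000000a00000002 12 7) 0 0 (step_sound _ 100 [(rh2fe78cc5ca4405d8.shift 2 3), rh83b837165b5b1863] (by decide +kernel))
noncomputable def rh0a8440d85578d599 : CRef := CRef.mk (Pat.mk 0x400000000c00000048000000000000000000000000 0x200000003000000030000000fc0000001f0000007f0000003f0000003e0000003f 12 8) 0 0 (step_sound _ 100 [rh20de63f6c5db003b, (rh2fe78cc5ca4405d8.shift 2 3)] (by decide +kernel))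
noncomputable def rh007b5f32742489ec : CRef := CRef.mk (Pat.mk 0x80000000180000009000000000000000000000000000000000 0x280000003800000038000000f00000003e000000f80000003e0000007f0000003e00000028 12 8) 0 0 (step_sound _ 133 [rh1faf20425f8242e6, (rh2fe78cc5ca4405d8.shift 3 4)] (by decide +kernel))
noncomputable def rh9c88849b58e24b36 : CRef := CRef.mk (Pat.mk 0x800000001800000090000000000000000000000000 0x20000000380000003e0000003e000000f80000003f000000ff0000006f0000006c00000064 12 8) 0 0 (step_sound _ 101 [(rh2fe78cc5ca4405d8.shift 3 3), rh55718618151450e2] (by decide +kernel))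
noncomputable def rh744f9c7bc9b623f3 : CRef := CRef.mk (Pat.mk 0xc00000048000000000000000000000000 0x140000001f0000003f0000003f0000000c0000001f0000007f0000003f0000003f00000012 12 7) 0 0 (step_sound _ 100 [(rh2fe78cc5ca4405d8.shift 2 3), rh618941b75d711384] (by decide +kernel))
noncomputable def rhdc34d80654f7c0f8 : CRef := CRef.mk (Pat.mk 0x480000000c000000400000000000000000 0x20000000a0000000f0000007f0000001f0000007c0000003f0000001f 12 7) 0 0 (step_sound _ 132 [(rh361cc68994bd8a63.shift 2 3), rh96ee2dc24076f714] (by decide +kernel))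
noncomputable def rhd2cee8351868113f : CRef := CRef.mk (Pat.mk 0x480000000c00000040000000000000000000000000 0x3f0000003e0000003f0000007f0000001f000000fc000000300000003000000020 12 8) 0 0 (step_sound _ 164 [(rh361cc68994bd8a63.shift 2 4), rh6f09e1fdf640fcde] (by decide +kernel))
noncomputable def rh1c07b1aa86bc582d : CRef := CRef.mk (Pat.mk 0x900000001800000080000000000000000000000000 0x280000003e0000007f0000003e000000f80000003e000000f0000000380000003800000028 12 8) 0 0 (step_sound _ 165 [(rh361cc68994bd8a63.shift 3 4), rh65e980b5cd96fc46] (by decide +kernel))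
noncomputable def rh6e0d2880f1d4621d : CRef := CRef.mk (Pat.mk 0x90000000180000008000000000000000000000000000000000 0x640000006c0000006f000000ff0000003f000000f80000003e0000003e0000003800000020 12 8) 0 0 (step_sound _ 197 [(rh361cc68994bd8a63.shift 3 5), rh3bff2630b8a67c2d] (by decide +kernel))
noncomputable def rh2432dbefe687632f : CRef := CRef.mk (Pat.mk 0x480000000c0000000000000000000000000000000000000000 0x120000003f0000003f0000007f0000001f0000000c0000003f0000003f0000001f00000014 12 7) 0 0 (step_sound _ 196 [(rh361cc68994bd8a63.shift 2 5), rha9da8fb05070258e] (by decide +kernel))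
noncomputable def rhce28c5242765a07b : CRef := CRef.mk (Pat.mk 0x400000000e000000400000000000000000 0x8000000380000003f0000003f0000007f0000001e0000007f0000003f0000003f 12 7) 0 0 (step_sound _ 100 [rh4c9dee472e79d19d, rh4dee0cfd090e16ec, rh552a6936c04b14b8, (rhf576cbc6ba99d365.shift 0 1), (rhf97958e61d9cb1c7.shift 1 0)] (by decide +kernel))
noncomputable def rhc83ed920f18270f8 : CRef := CRef.mk (Pat.mk 0x400000000e0000004000000000000000000000000000000000 0x3f0000003f0000007f0000001e0000007f0000003f0000003f0000003800000008 12 7) 0 0 (step_sound _ 164 [(rh0d5f00f2e3e338ad.shift 1 0), (rh4c9dee472e79d19d.shift 0 2), (rh4dee0cfd090e16ec.shift 0 2), (rh552a6936c04b14b8.shift 0 2), (rhf576cbc6ba99d365.shift 0 3)] (by decide +kernel))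
noncomputable def rh25c2a4ccc7ef5618 : CRef := CRef.mk (Pat.mk 0x2000000020000000000000001000000010000000000000000000000000 0x200000003800000018000000180000003e000000ff000000ff00000028 12 8) 0 0 (step_sound _ 164 [(rh1006c02ae4212ff0.shift 4 3), rhee152d645edfe06b] (by decide +kernel))
noncomputable def rhd8e38447c2255b5d : CRef := CRef.mk (Pat.mk 0x20000000280000002000000020000000000000000000000000 0x80000002f0000007e000001f700000064000001e40000007000000010 12 9) 0 0 (step_sound _ 70 [rh700be9f20ffb0ebf, (rhd3458b32566d63f7.shift 5 2)] (by decide +kernel))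
noncomputable def rhd2f8fba5ca2e238b : CRef := CRef.mk (Pat.mk 0x400000004000000000000000a00000008000000000000000000000000000000000000000000000000 0x40000001c000000180000000f0000007c0000007f000000fc0000001c0000001c0000001c00000014 12 8) 0 0 (step_sound _ 259 [rhad1551ce596c7f03, (rhcfdf45280693d3da.shift 2 6)] (by decide +kernel))
noncomputable def rh91e141387cb9579f : CRef := CRef.mk (Pat.mk 0x80000000e00000008000000000000000000000000 0x4000000040000000fb0000007e000001fc000000ff000001ff0000000c 12 9) 0 0 (step_sound _ 132 [(rh099821a4c71d3065.shift 0 1), rh09c7b9a895bcde59, (rh2a04335a18345217.shift 1 1), (rh3fc3a7fb6866dcd4.shift 1 3), (rhf64e3cdee122ddfe.shift 1 1)] (by decide +kernel))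
noncomputable def rhbdaa74e1c2d1ee41 : CRef := CRef.mk (Pat.mk 0x40000000400000000000000080000000800000000000000000000000000000000 0x40000001c00000018000000180000007c000000ff000000ff000000fc00000014 12 8) 0 0 (step_sound _ 195 [(rhcfdf45280693d3da.shift 2 4), rhfba4d5a780698985] (by decide +kernel))
noncomputable def rh75c7d9ec1057343b : CRef := CRef.mk (Pat.mk 0x4000000040000000400000000000000080000000000000000000000000000000000000000 0x4000000040000001c0000001c00000018000001ff000000fe000001fc000000fc00000014 12 9) 0 0 (step_sound _ 195 [(rhbe0e43a3bc50a43f.shift 2 5), rhc39e436a354fc7ee] (by decide +kernel))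
noncomputable def rhca592a1eb6275e19 : CRef := CRef.mk (Pat.mk 0x2000000000000000000000001c00000000000000000000000000000000 0x2000000020000001e0000000fe000001ff0000007e0000001600000006 12 9) 0 0 (step_sound _ 133 [(rh185f35b8bd8ec37f.shift 0 3), (rh205dc383ce3b31ea.shift 1 3), (rh3b00e9e9432b8f40.shift 1 3), (rh3fc3a7fb6866dcd4.shift 2 3), (rh7c0f92433c029729.shift 1 0)] (by decide +kernel))
noncomputable def rhcbbbb0c56a09a856 : CRef := CRef.mk (Pat.mk 0xa00000002000000000000000500000004000000000000000000000000000000000 0xac000000ec000007cf000003fe000007ff0000000e0000000e0000000e0000000a 12 11) 0 0 (step_sound _ 198 [rh22d8ada988bec15c, (rhcfdf45280693d3da.shift 5 4)] (by decide +kernel))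
noncomputable def rhdaead4a4cefa3681 : CRef := CRef.mk (Pat.mk 0x2000000020000000000000005000000040000000000000000000000000 0x28000000680000004f000000fe00000fff000007f000000fe0000000e0 12 12) 0 0 (step_sound _ 166 [rh76f4c04d6f7ed192, (rhcfdf45280693d3da.shift 5 3)] (by decide +kernel))
noncomputable def rhab96ac486a800e76 : CRef := CRef.mk (Pat.mk 0x1000000014000000100000000000000000000000000000000000000000 0x20000000f00000001e000003ff000001ff000003fe0000003c0000003800000028 12 10) 0 0 (step_sound _ 132 [(rh08f8d60ad39b4c85.shift 0 2), (rh127fbc4d00e99fc2.shift 1 0), (rh205d2373c91defc1.shift 1 1), (rh4da9eee6ed7d3f1e.shift 1 3), (rh61a6fa8e2424243b.shift 1 1), (rh6eff4158bb400f47.shift 3 2), (rhe72a2ee9a383cd6d.shift 1 3)] (by decide +kernel))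
noncomputable def rha9d76025e3b85728 : CRef := CRef.mk (Pat.mk 0x100000001000000000000000280000002000000000000000000000000000000000 0x1600000036000003e7000001fe000003ff000003f7000000f70000000700000005 12 10) 0 0 (step_sound _ 197 [rh49781100753f59b4, (rhcfdf45280693d3da.shift 4 4)] (by decide +kernel))
noncomputable def rhc929ad4c8335059a : CRef := CRef.mk (Pat.mk 0x4000000000000000000000007800000020000000000000000000000000 0x400000004000000046000000fe0000003c000000ff000000ff000001ff 12 9) 0 0 (step_sound _ 99 [rh2267719737338dc0, (rheb0810cc63b001d8.shift 2 3)] (by decide +kernel))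
noncomputable def rhf7ac85c5e6b97bf7 : CRef := CRef.mk (Pat.mk 0x800000008000000080000000800000000000000000000000000000000 0x40000002f0000007c000003fe000001fc000003f4000000f0000000f0000000f0 12 10) 0 0 (step_sound _ 132 [rh3cbadfb28319af9d, (rh55afc6a59410cf00.shift 3 3)] (by decide +kernel))
noncomputable def rhe899076c0c9b10a2 : CRef := CRef.mk (Pat.mk 0x4000000040000000200000002000000020000000000000000000000000000000000000000000000000 0x40000000df000001be000001ff000001fe000001fe000001fe00000030000000700000007000000050 12 9) 0 0 (step_sound _ 165 [(rh0ecb674cebaf0a24.shift 2 0), (rh4e755fdd2d32ccf0.shift 1 4), (rh7fc3d1d1ffefa3d7.shift 1 4), (rhc27a84b2ed01b28b.shift 0 4), (rhc4526fc8abf298b6.shift 4 3), (rhebeee8c045375f95.shift 1 4)] (by decide +kernel))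
noncomputable def rhbae45ac84924bb0b : CRef := CRef.mk (Pat.mk 0x5000000010000000080000000800000008000000080000000000000000 0x4000000050000000740000006f0000007f0000007c0000007e000000f400000040 12 8) 0 0 (step_sound _ 66 [(rh932754581e0f4330.shift 2 1), rh9cb3d89c251a6e9b] (by decide +kernel))
noncomputable def rh2bbd49f2d1601561 : CRef := CRef.mk (Pat.mk 0x8000000080000000000000004000000050000000000000000000000000 0x28000000b8000000f800000078000003ff000000fe000001ff0000008000000080 12 10) 0 0 (step_sound _ 166 [rh04de56d735a9e68f, (rh1006c02ae4212ff0.shift 6 3)] (by decide +kernel))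
noncomputable def rh0605d1a375fb4f61 : CRef := CRef.mk (Pat.mk 0x500000001000000000000000080000000a0000000000000000000000000000000000000000 0x50000000fc000001ee000003fe000001ff000003ff000000f80000001c0000001c00000014 12 10) 0 0 (step_sound _ 227 [(rh1006c02ae4212ff0.shift 3 5), rh202014a2c2d5e3b8] (by decide +kernel))
noncomputable def rha8f1a86f4b5f8fac : CRef := CRef.mk (Pat.mk 0x8000000080000000000000004000000050000000000000000000000000 0x28000000b8000000f800000078000003df000003fe000007ff0000008000000080 12 11) 0 0 (step_sound _ 166 [(rh1006c02ae4212ff0.shift 6 3), rh171839d3af403c75] (by decide +kernel))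
noncomputable def rhbc0cdfe278f3780c : CRef := CRef.mk (Pat.mk 0x8000000080000000000000004000000050000000000000000000000000 0x1800000098000000fc0000007c0000007f000001fe000003ff000000d800000098 12 10) 0 0 (step_sound _ 166 [rh00cd23a2b69d9aa2, (rh1006c02ae4212ff0.shift 6 3)] (by decide +kernel))
noncomputable def rhc5507e94df1ae923 : CRef := CRef.mk (Pat.mk 0x4000000000000000000000002000000020000000280000002000000000 0x100000007c0000001c0000001c0000003c000001ff000000f8000001fc00000048 12 9) 0 0 (step_sound _ 38 [(rh55afc6a59410cf00.shift 5 0), rhfcd222f09d7ffee5] (by decide +kernel))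
noncomputable def rh43701a45accaa4c1 : CRef := CRef.mk (Pat.mk 0x8000000280000000800000000000000040000000500000000000000000 0x800000038000000f8000002bf000002fe0000077f000003fe000003de000000f800000058 12 11) 0 0 (step_sound _ 100 [(rh01deed0e50a08cd0.shift 1 0), rh1232ade98a727c11, (rh55988728ed5b324a.shift 1 0), (rh5bd270bef542da4d.shift 2 0), (rh72b946105f8330dc.shift 1 0), (rh813904aa1244bb50.shift 2 0), (rhbeeb5b6a1614ba10.shift 1 2)] (by decide +kernel))
noncomputable def rh93082bc9422d8832 : CRef := CRef.mk (Pat.mk 0x28000000080000000000000004000000050000000000000000000000000 0x8000002bc000007fc0000077c00001fff00000ffe00001f1f0000021800000018 12 13) 0 0 (step_sound _ 166 [(rh1006c02ae4212ff0.shift 6 3), rhd902fb7cdfc92f6c] (by decide +kernel))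
noncomputable def rh9b58b46f937426f7 : CRef := CRef.mk (Pat.mk 0x1000000010000000100000000800000000 0x80000005e000000f8000000f7000000fe000001ef 12 9) 0 0 (step_sound _ 36 [rh035b4fb2f9bf6f1a, (rh932754581e0f4330.shift 3 0)] (by decide +kernel))
noncomputable def rh95f88cfbbd3bf96f : CRef := CRef.mk (Pat.mk 0x280000000800000004000000040000000400000002000000000000000000000000000000000 0x20000000280000003be0000037c000003fe00001fff00000ffe00001f9f0000079c0000079c00000794 12 13) 0 0 (step_sound _ 134 [(rh3b766c197fe19002.shift 2 3), (rh3d72ce3876a963d6.shift 2 3), (rh4e0212bccf27eebf.shift 1 3), (rh9cb3d89c251a6e9b.shift 3 2), (rha000b4775368424a.shift 3 0), (rha98afad975f390f1.shift 3 3), rhaabdda617c8e6d75] (by decide +kernel))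
noncomputable def rha3a4871aa57c5182 : CRef := CRef.mk (Pat.mk 0x140000000400000002000000020000000200000001000000000000000000000000000000000 0x10000000140000001dc000001bc00000fff000007fe00000f9f0000001c0000001c0000000c0000000c 12 12) 0 0 (step_sound _ 164 [rh74ef59420f20c3eb, (rh8671195c0aef936e.shift 0 4), (rhf9af042da61fc652.shift 4 2)] (by decide +kernel))
noncomputable def rh27a4f63a5470541e : CRef := CRef.mk (Pat.mk 0x40000000400000005800000000000000000000000000000000 0x3c0000003c0000003e0000007c000000fe0000005f0000005f0000001f0000001c00000004 12 8) 0 0 (step_sound _ 197 [rh5c500c7b2d056dff, (rh9086636054fda4d6.shift 1 3), (rhf9a6286f1d5377a2.shift 5 3)] (by decide +kernel))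
noncomputable def rh1039da9dd47d13f7 : CRef := CRef.mk (Pat.mk 0x1000000020000000200000002800000000000000000000000000000000 0x1000000030000001ef000000fe000001ef000001fc000003fe00000070 12 10) 0 0 (step_sound _ 101 [rh1b9692e736c0c85f, (rhffd04209dc8ea796.shift 4 3)] (by decide +kernel))
noncomputable def rh2e43cb89ab64aa07 : CRef := CRef.mk (Pat.mk 0x800000008000000000000000400000005000000000000000000000000000000000 0x9c000000fc0000007c0000007f000001fe000003df000000f8000000f8000000a0 12 10) 0 0 (step_sound _ 198 [(rh1006c02ae4212ff0.shift 6 4), rh7e3bfa95db5ec226] (by decide +kernel))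
noncomputable def rhb6f40e0b78712f83 : CRef := CRef.mk (Pat.mk 0x80000000800000000000000040000000d00000000000000000000000000000000000000000 0x80000000e000000060000003f8000003d000001fdf00000ffe00001fff000000a0000000a0 12 13) 0 0 (step_sound _ 230 [(rh1006c02ae4212ff0.shift 6 5), rhfb2233e5166ae550] (by decide +kernel))
noncomputable def rh93a9146fbe073366 : CRef := CRef.mk (Pat.mk 0x1400000004000000000000000200000002800000020000000000000000000000000 0x40000015e000001fc000003bf000001fe000001ef0000002e0000001c0000001c00000014 12 10) 0 0 (step_sound _ 228 [(rh00d630a998200867.shift 4 3), rh0b9f78fdc9e989f8, (rh4b13a98afe2034a5.shift 0 3), (rh67aa459a960b3d5e.shift 1 3)] (by decide +kernel))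
noncomputable def rh6fb97f47822a4c25 : CRef := CRef.mk (Pat.mk 0x1000000000000000080000001e0000000000000000000000000000000000000000 0x1000000070000001f000000070000003f0000001e000000fb0000007f000001ff0000001c00000010 12 9) 0 0 (step_sound _ 196 [(rh33e738c4ed385b9f.shift 1 5), rh6a9e59f6a16ed1cd] (by decide +kernel))
noncomputable def rhba4d19d1735df16c : CRef := CRef.mk (Pat.mk 0x200000003000000020000000100000000000000000 0x18000000180000001f0000003e000000ff000000770000003e0000002f0000000a 12 8) 0 0 (step_sound _ 164 [(rh1512be0d93198572.shift 0 2), (rh3cb04db3dd2b6a55.shift 4 1), rhdac3170aa5582027, (rhfc7c29d8e65d775f.shift 4 2)] (by decide +kernel))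
noncomputable def rh84a901fb249618ba : CRef := CRef.mk (Pat.mk 0x200000003000000020000000100000000000000000 0xc0000000c0000001f0000003e000000ff000000ff0000003e0000002f0000000a 12 8) 0 0 (step_sound _ 164 [(rh3cab7e4c264186c1.shift 0 2), (rh3cb04db3dd2b6a55.shift 4 1), rhdac3170aa5582027] (by decide +kernel))
noncomputable def rh58e9ed7b94b7c1ae : CRef := CRef.mk (Pat.mk 0x200000003000000020000000100000000000000000 0x4000000140000001f0000003e000000ff0000007f0000003e0000002f0000000a 12 8) 0 0 (step_sound _ 164 [(rh1fe18f128f0e54a2.shift 1 2), rhdac3170aa5582027, (rhfc7c29d8e65d775f.shift 4 2)] (by decide +kernel))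
noncomputable def rh06fa0612d635807d : CRef := CRef.mk (Pat.mk 0x800000008000000080000000000000006000000040000000200000000000000000 0x800000038000000f8000000b8000001980000031f000003fe000003ff0000003c0000001c00000014 12 10) 0 0 (step_sound _ 132 [(rh436e233317bd9028.shift 3 2), rh6d038aae6d074ccd, (rh8ee80cc30e93a344.shift 3 3)] (by decide +kernel))
noncomputable def rhcd08fef583a4c8bc : CRef := CRef.mk (Pat.mk 0x4000000040000000200000003000000020000000100000000000000000 0x50000000df000001be000001ff000001ff0000003e0000002f0000000a 12 9) 0 0 (step_sound _ 164 [(rh663ef16a1cc80197.shift 1 1), rhdac3170aa5582027, (rhfc7c29d8e65d775f.shift 4 2)] (by decide +kernel))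
noncomputable def rh14e05719bbd0c43f : CRef := CRef.mk (Pat.mk 0x4000000040000000000000002000000020000000200000004000000000000000000000000000000000 0x40000004c000000cc0000008c00000fff000007fe00000fbf0000006000000060000000700000007000000050 12 12) 0 0 (step_sound _ 196 [(rh140976695715d8e5.shift 4 0), rh433e05a89582881d, (rha7d6b1db6fb5582a.shift 2 3), (rhcc4b56d2c9348295.shift 0 5)] (by decide +kernel))
noncomputable def rhbf489c7dfd8a0bbc : CRef := CRef.mk (Pat.mk 0x10000000100000001000000000000000000000000000000000 0xa0000001e0000003e000001de000000fe000001ff0000003e00000028 12 9) 0 0 (step_sound _ 100 [rh0620bf2d7765e1e7, (rh358acb7a33bade88.shift 1 2), (rh47992774edf9829f.shift 3 0), (rh6aa5625770489e83.shift 3 1), (rh8cdd36b03d57a2f6.shift 3 1), (rh8ff3dde5b1c639e0.shift 3 1)] (by decide +kernel))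
noncomputable def rhde0b35ab2bb029b2 : CRef := CRef.mk (Pat.mk 0x60000000000000002000000028000000000000000000000000 0x10000000780000001c000001fc000000fe000001df000000f8000000f8 12 9) 0 0 (step_sound _ 100 [(rh77396f7e92937f73.shift 2 0), (rha03ba84d9d2a9412.shift 2 0), (rha11dfd15f08f96e3.shift 2 3), (rhb103f40a53fe1424.shift 0 2)] (by decide +kernel))
noncomputable def rh25ed05d3997a70e8 : CRef := CRef.mk (Pat.mk 0x4000000050000000000000000000000000 0x30000000700000007000000fff000007fe00000fb7000000b0000000b0 12 12) 0 0 (step_sound _ 101 [(rh3e0b38310ac09007.shift 1 3), (rh46dbadd1a3bb9b48.shift 3 0), (rha11dfd15f08f96e3.shift 3 3), rhfc86d696e8332dba] (by decide +kernel))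
noncomputable def rhf088c9e61ef94135 : CRef := CRef.mk (Pat.mk 0x4000000050000000000000000000000000 0xff7000007fe00000fbf000001f0000001f8 12 12) 0 0 (step_sound _ 101 [(rha11dfd15f08f96e3.shift 3 3), (rhb103f40a53fe1424.shift 1 2), (rhb7d23b6bb2da63f4.shift 3 0), (rhb875a38b866bb5ab.shift 0 2)] (by decide +kernel))
noncomputable def rh848dd8c63bfd4eb8 : CRef := CRef.mk (Pat.mk 0x2000000028000000000000000000000000 0xa0000000e0000000e000001ef000000fe000001df000000fc000000fc 12 9) 0 0 (step_sound _ 100 [(rh77396f7e92937f73.shift 2 0), (rha11dfd15f08f96e3.shift 2 3), (rha4e887c2a2a0f60b.shift 0 2), rhf10fc1782e30af94] (by decide +kernel))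
noncomputable def rh94dbb621bec7bba7 : CRef := CRef.mk (Pat.mk 0x1000000010000000000000000a0000000a0000000000000000000000000 0x100000001800000008c000001ff000000fe0000007f0000000e0000000e 12 9) 0 0 (step_sound _ 167 [(rh1006c02ae4212ff0.shift 7 3), rhc542987a64a5d44f] (by decide +kernel))
noncomputable def rhade4edfa12d02f62 : CRef := CRef.mk (Pat.mk 0x4000000050000000000000000000000000 0x340000007c0000007c00000f7f000007fe00000fbf0000003800000038 12 12) 0 0 (step_sound _ 101 [rh6950163afae95e32, (rhb875a38b866bb5ab.shift 0 2), (rhced786e1f95bc9f7.shift 2 0), (rhf10fc1782e30af94.shift 1 0), (rhf7db6ab2f71011ce.shift 1 1), (rhfaa719289f0d8837.shift 1 0), rhfc86d696e8332dba] (by decide +kernel))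
noncomputable def rhad3059db890182c0 : CRef := CRef.mk (Pat.mk 0x4000000000000000080000000a0000000a00000000000000000000000000000000 0x40000000c0000000e8000003ff000001fe000003f0000000f0000000e0000000a0 12 10) 0 0 (step_sound _ 132 [(rh43ac487bc75b4a22.shift 0 3), (rh9ebd639649ea671c.shift 0 4), (rhd8be3b7ca6adb62f.shift 0 4), (rhe709db64dfb240ae.shift 1 0)] (by decide +kernel))
noncomputable def rhaa3fd1bad09f1a83 : CRef := CRef.mk (Pat.mk 0x2000000020000000000000001400000014000000000000000000000000 0x2f0000007e0000001f000001de000000fc000001ee0000007c0000003c 12 9) 0 0 (step_sound _ 196 [(rh04253f50b6dd0619.shift 4 3), rhab8346ab6d13ad8b] (by decide +kernel))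
noncomputable def rhbd8544e4e5d6af3a : CRef := CRef.mk (Pat.mk 0x2000000028000000000000000000000000 0x8000007ff000003fe000007df000000fc000000fc 12 11) 0 0 (step_sound _ 100 [(rh3e0b38310ac09007.shift 0 3), (rha11dfd15f08f96e3.shift 2 3), rha4d4c393798a804f, (rhb103f40a53fe1424.shift 0 2), (rhb7d23b6bb2da63f4.shift 2 0)] (by decide +kernel))
noncomputable def rh43afda8f0b0a1aba : CRef := CRef.mk (Pat.mk 0x2000000028000000000000000000000000 0x4000007f7000003fe000007df000000f8000000fc 12 11) 0 0 (step_sound _ 100 [(rh3e0b38310ac09007.shift 0 3), (rha11dfd15f08f96e3.shift 2 3), rhad5dd1d4c96935a7, (rhb103f40a53fe1424.shift 0 2), (rhb7d23b6bb2da63f4.shift 2 0)] (by decide +kernel))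
noncomputable def rh28345be40cdbb088 : CRef := CRef.mk (Pat.mk 0x4000000040000000000000002000000020000000200000000000000000000000000000000000000000 0x40000000df000001be000001ff000001fe000001fe000001fe00000030000000700000007000000050 12 9) 0 0 (step_sound _ 261 [(rh0ecb674cebaf0a24.shift 2 0), (rh4e755fdd2d32ccf0.shift 1 4), (rh7fc3d1d1ffefa3d7.shift 1 4), (rhc27a84b2ed01b28b.shift 0 4), (rhc4526fc8abf298b6.shift 4 3), (rhebeee8c045375f95.shift 1 4)] (by decide +kernel))
noncomputable def rhfd5b8404a437b978 : CRef := CRef.mk (Pat.mk 0x10000000100000001800000000 0x80000005e000000f8000000f7000000fe000001ef 12 9) 0 0 (step_sound _ 132 [rh035b4fb2f9bf6f1a, (rh932754581e0f4330.shift 3 0)] (by decide +kernel))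
noncomputable def rhfa3b4ecf0e200d40 : CRef := CRef.mk (Pat.mk 0x100000001000000000000000080000000c000000000000000000000000 0x1200000036000000670000007f000000ff000000fe0000007c0000003c 12 8) 0 0 (step_sound _ 132 [rh1b449700a9a25f13, (rh574fdbf07bdd18b9.shift 0 3), (rh9248572e50f3aa2a.shift 1 1)] (by decide +kernel))
noncomputable def rh69a2e2659c7470ca : CRef := CRef.mk (Pat.mk 0x80000001e000000000000000000000000 0x2000000020000003f0000001e000001fc000000fc000001fe 12 9) 0 0 (step_sound _ 34 [rh1d8579dd636a074c, rh59377470057f4368, rh957efb6b628e05e5, (rhaea13fd5c9452024.shift 1 0)] (by decide +kernel))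
noncomputable def rh042844af2916de7d : CRef := CRef.mk (Pat.mk 0x4000000000000000200000003000000000000000000000000000000000 0x1c0000007c0000001e000000fe0000007e000000ff000000fc000000fc00000050 12 8) 0 0 (step_sound _ 164 [(rh02853fb307cb65f3.shift 1 0), (rh0db056f7ec90e10f.shift 0 1), (rh2f797446c33a3b58.shift 1 1), (rh4a8dc3eabba26fcb.shift 0 1), (rh4a9025a5563b3dae.shift 1 1), (rh87088ccb81eb7b7e.shift 1 1), (rh9dfedc27f05bd608.shift 0 2), (rhc431f45082d81ca2.shift 1 1)] (by decide +kernel))
noncomputable def rh736f19f0f867c247 : CRef := CRef.mk (Pat.mk 0x400000004000000000000000200000003000000000000000000000000000000000 0x58000000dc0000009e000003bf000001fe000003fe000001fe000000f800000008 12 10) 0 0 (step_sound _ 100 [(rh097356bed3692232.shift 1 1), rh7d8956fcf002800d, (rh88f9eb48151f238a.shift 2 1), (rh9e2ee6fdb2a9c647.shift 1 1), (rh9e7775869c2f1937.shift 1 1), (rhc4a6c2d92e402008.shift 1 1), (rheeb298c644020810.shift 1 1), (rhf85c2933d8ce6317.shift 1 1)] (by decide +kernel))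
noncomputable def rh02c61308ef7a57d8 : CRef := CRef.mk (Pat.mk 0x2000000030000000000000000000000000 0x18000000180000007e000000fe000001ff000000fc00000054 12 9) 0 0 (step_sound _ 99 [(rh0568b7ab013f43a7.shift 0 2), (rh0b6f11628f359e75.shift 2 0), (rh7e3346c07b3f20fa.shift 1 0), (rh8522c6bc3a1a8270.shift 1 2), (rhd7c0a18f92b59752.shift 1 2)] (by decide +kernel))
noncomputable def rh9af1de026faec4d0 : CRef := CRef.mk (Pat.mk 0x2000000020000000000000001000000018000000000000000000000000 0x2400000064000000ce000000ff000000fe000000ee0000007c0000007c 12 8) 0 0 (step_sound _ 133 [(rh574fdbf07bdd18b9.shift 1 3), (rhcd7751e771562057.shift 0 1), (rhd69c262cd33b94b3.shift 1 3), (rhefa3706499d9ca1a.shift 1 0)] (by decide +kernel))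
noncomputable def rh22fc2cf09c16640a : CRef := CRef.mk (Pat.mk 0x40000000400000002000000020000000600000000000000000000000000000000000000000 0x40000000d0000000b0000003ae000003fe000003ff000000f0000000700000007000000040 12 10) 0 0 (step_sound _ 133 [(rh2a031268466da54a.shift 0 2), (rh6eff4158bb400f47.shift 4 2), (rh8435f16c73c7f2d9.shift 4 0), (rhb0de455c382c5b1c.shift 2 3), (rhfea49f007ffffe7c.shift 2 3)] (by decide +kernel))
noncomputable def rh767abffe9d7e58ce : CRef := CRef.mk (Pat.mk 0x140000000400000002000000020000000600000000000000000000000000000000000000000 0x140000003cc000003bc00000fee000007fe00000fbf000007f0000003f0000007f800000010 12 12) 0 0 (step_sound _ 164 [(rh68ad2d31fe6607bc.shift 1 2), (rh6f30b9806435927e.shift 1 4), (rh7e77e2fa0de01e4a.shift 3 2), rh9b09a3fbcf7487bc, (rhe8fcc31ecfba8be9.shift 3 2), (rhff67a8d5795fe3a4.shift 1 3)] (by decide +kernel))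
noncomputable def rh2e1094704e8e4866 : CRef := CRef.mk (Pat.mk 0x40000000400000000000000020000000600000000000000000000000000000000000000000 0x40000000c80000008800000fef000007fe00000fff000001f0000001f8000001c000000140 12 12) 0 0 (step_sound _ 164 [(rh28539e7b767a2262.shift 0 4), (rh389257c924849b13.shift 3 0), (rh577620d1eea9f9a1.shift 2 4), (rh6f30b9806435927e.shift 1 4), (rhb26aa499191ff890.shift 1 3), (rhe89fd15297732f91.shift 1 4), (rhf65caf7d074dc26b.shift 1 2)] (by decide +kernel))
noncomputable def rhd5a09dcede2fe5e2 : CRef := CRef.mk (Pat.mk 0x4000000040000000000000002000000020000000000000000000000000 0x40000000740000003c0000007c0000006f0000007e0000007f00000050 12 7) 0 0 (step_sound _ 165 [(rh1006c02ae4212ff0.shift 5 3), rh23d4f0ae34a54300] (by decide +kernel))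
noncomputable def rhff8953f7c4bdca96 : CRef := CRef.mk (Pat.mk 0x1000000050000000100000001000000000 0x280000007c0000005e000000de000000fe000001ef 12 9) 0 0 (step_sound _ 35 [rh4437a319ca023735, (rh932754581e0f4330.shift 3 0)] (by decide +kernel))
noncomputable def rhd74feaba1fc1dddc : CRef := CRef.mk (Pat.mk 0x2000000020000000200000000000000000000000000000000000000000 0x50000000f00000003c0000007f000001fe0000007f000000700000007000000050 12 9) 0 0 (step_sound _ 133 [(rh5ee4dc8825dcefa0.shift 2 3), (rh8cdd36b03d57a2f6.shift 4 2), (rh9f8798f7e83e9195.shift 0 3), (rhac896e42bf3e13c0.shift 4 0), (rhc4526fc8abf298b6.shift 4 2)] (by decide +kernel))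
noncomputable def rh6f252f6a176d1d1b : CRef := CRef.mk (Pat.mk 0x20000000a0000000200000002000000000 0x1d0000001f0000000bc000001ef000001fe0000005f 12 9) 0 0 (step_sound _ 134 [(rh2f68792b6b779e96.shift 5 1), rh7f164a2b269111ff] (by decide +kernel))
noncomputable def rhb84edae33e97555e : CRef := CRef.mk (Pat.mk 0x3000000050000000100000001000000000 0x8000000080000001cf000000fe0000005e000003f8000001f0000000a0 12 10) 0 0 (step_sound _ 134 [(rh2820ca9a6c4f41b4.shift 1 3), (rh3609840e8705c328.shift 3 0), rh6949bc4efdb15e62, (rhd8b43b15431aaa50.shift 3 1)] (by decide +kernel))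
noncomputable def rh451819d173c5d3b0 : CRef := CRef.mk (Pat.mk 0xe000000020000000200000002000000000 0x1e000000fc0000003c0000006f0000003e00000017 12 8) 0 0 (step_sound _ 132 [(rh50fbb5868c909700.shift 4 1), rh98b25c9219fde970] (by decide +kernel))
noncomputable def rhb70978845b256c82 : CRef := CRef.mk (Pat.mk 0x800000028000000080000000800000000000000000000000000000000 0x5000000070000000f0000000780000002f0000007c000001f80000007c000000fc0000005c00000014 12 9) 0 0 (step_sound _ 165 [(rh19654e3e337774cd.shift 2 1), rh251de0d504380267, (rh5182aee9a587141e.shift 0 3), (rh672a51149fa25971.shift 2 2), (rh7990689b13dfeec0.shift 2 1), (rha0c76373b75db985.shift 2 1), (rha2629d51c48bdba5.shift 2 2), rhf24cbab59fe290d5] (by decide +kernel))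
noncomputable def rh25175b604ac6a542 : CRef := CRef.mk (Pat.mk 0x30000000b000000020000000100000000000000000 0x8000001ce000001fe000000b6000001ff000001fe0000012f00000008 12 9) 0 0 (step_sound _ 163 [(rh1674fcfc95d8da08.shift 2 2), (rh2dc984680a1d9c3d.shift 1 2), rh708a019b24deff3b, (rha14478d91faf3ae3.shift 1 4)] (by decide +kernel))
noncomputable def rh52b75deb7f247d2f : CRef := CRef.mk (Pat.mk 0x60000000680000004000000000000000000000000000000000 0x40000001c0000001c0000001c0000007c0000006f0000007f0000001f0000001f0000001c00000014 12 7) 0 0 (step_sound _ 195 [(rh086f6046fa319626.shift 2 5), (rh39772980ce4fcd0d.shift 2 3), rh46ca149f01aa2fd0, (rhf391ed3221202f88.shift 2 3)] (by decide +kernel))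
noncomputable def rhbb0419e1aa99c01d : CRef := CRef.mk (Pat.mk 0x30000000a400000020000000000000000000000000 0x50000000f4000000ac000007ff000003fe0000039f00000008 12 11) 0 0 (step_sound _ 69 [(rh50fbb5868c909700.shift 4 2), rhdf719ef8fdb1520c] (by decide +kernel))
noncomputable def rhb8285882ba104cf2 : CRef := CRef.mk (Pat.mk 0x1800000058000000100000000000000000 0x80000000e0000000f8000000e8000000f80000005f000000fc000000cf0000008c 12 8) 0 0 (step_sound _ 67 [(rh29e0362802793f45.shift 2 0), rh2c162ad1fcec67ba, rh6368e9c8c8c513cf, rha6f802784adb25e2] (by decide +kernel))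
noncomputable def rh73dbc3d75d9f32e4 : CRef := CRef.mk (Pat.mk 0x3800000020000000200000000000000000 0x570000007e0000002e000000740000003e00000017 12 7) 0 0 (step_sound _ 37 [(rh50fbb5868c909700.shift 4 1), rhfbb9bf47bfd7883c] (by decide +kernel))
noncomputable def rh9b71d72dd942fd08 : CRef := CRef.mk (Pat.mk 0x400000002000000020000000a0000000200000000000000000 0xa0000003e0000007f0000007f000001fe000000ff000001fbe000003f7000002a0000001f0000001d000000140 12 13) 0 0 (step_sound _ 199 [(rh02db2fe440aec828.shift 2 2), (rh6c41fb8af37aaab4.shift 4 0), (rh9bb813363f1e279e.shift 2 1), rhb586dc13dfa7cac9, (rhbf39cc8175c2be88.shift 4 2)] (by decide +kernel))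
noncomputable def rhb26efa0a25c134e7 : CRef := CRef.mk (Pat.mk 0xe0000000800000028000000000000001000000000000000000000000000000000 0x50000000780000006e0000007c00000028000003ef000001fe000003ff000000e0000000e0000000a0 12 10) 0 0 (step_sound _ 131 [rh0ebb61cef75308c5, (rh46a9fe95438167a8.shift 2 3), (rh61737549170b20ff.shift 2 3), (rha3711ed12866f068.shift 2 3)] (by decide +kernel))
noncomputable def rha6189264db4ae2f6 : CRef := CRef.mk (Pat.mk 0xc0000002000000020000000000000001000000000000000000000000000000000000000000000000000000000 0x50000000780000006c0000002000000020000000f00000007c00000078000000ff000000fe0000003f000000380000003000000020 12 8) 0 0 (step_sound _ 261 [(rh7f2894320d5c4c16.shift 2 6), rh97d669263af4622c, (rhac4b4763407a46df.shift 2 6), (rhb045e761e5fc4da9.shift 2 7)] (by decide +kernel))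
noncomputable def rh9cbccbf272a8bf2c : CRef := CRef.mk (Pat.mk 0xc0000002000000020000000000000001000000000000000000000000000000000000000000000000000000000 0x50000000780000006c0000006000000020000000f00000007c00000078000000ff000000fe0000003f000000380000003000000020 12 8) 0 0 (step_sound _ 261 [(rh7f2894320d5c4c16.shift 2 6), rh97d669263af4622c, (rha5dacef301d83d5b.shift 4 6), (rhac4b4763407a46df.shift 2 6), (rhb045e761e5fc4da9.shift 2 7)] (by decide +kernel))
noncomputable def rh5f4e3812f1278d78 : CRef := CRef.mk (Pat.mk 0x300000001000000040000000000000003000000000000000000000000000000000 0x7000000ff000000fe00000046000007ce000003fe000007ff000001e0000001e000000140 12 11) 0 0 (step_sound _ 227 [(rh574fdbf07bdd18b9.shift 1 7), rhd5fe6bd315059527, (rhd69c262cd33b94b3.shift 1 7), rhe2fd9ea28ba61dc7] (by decide +kernel))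
noncomputable def rhfbc8536d8de37171 : CRef := CRef.mk (Pat.mk 0x30000000a0000000a0000000000000004000000000000000000000000000000000 0x100000001b0000001bc000000ac000007bf000003fe000007ff0000001e0000001e00000008 12 11) 0 0 (step_sound _ 133 [(rh46a9fe95438167a8.shift 4 3), (rh61737549170b20ff.shift 4 3), rh7f48aad01df7297f, (rha3711ed12866f068.shift 4 3), (rhad3f1265f0b6ec22.shift 2 3)] (by decide +kernel))
noncomputable def rhfc16c41b14812d16 : CRef := CRef.mk (Pat.mk 0x2000000000000000500000005000000050 0x38000000380000007ff000003fe000007df000001d0000000d000000050 12 11) 0 0 (step_sound _ 132 [(rh14cfe43629e24c8a.shift 3 0), (rh165e3f00a233b6af.shift 3 0), rh1d57028cacfb2c5e, (rh44a062528bc4dc83.shift 3 1), rhd5ea7194db578f61] (by decide +kernel))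
noncomputable def rhb8d7edd074a03fcf : CRef := CRef.mk (Pat.mk 0x2000000020000000a00000002000000000 0x29000000390000003980000075e000003fe000007ff000000ac0000003c00000010 12 11) 0 0 (step_sound _ 4 [(rh79877ebd3ef475dd.shift 4 0), (rh7d529487f048e169.shift 0 1)] (by decide +kernel))
noncomputable def rhf86641c749dedcc1 : CRef := CRef.mk (Pat.mk 0x4000000300000005800000000000000000000000000000000 0xc0000009c000007fe000003fe000003f7000000f60000005e000000ec000000e8000000e8000000a0 12 11) 0 0 (step_sound _ 166 [(rh18965a982d73c794.shift 3 4), rhd616bce9758c8d2d] (by decide +kernel))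
noncomputable def rh492c5df0169795b9 : CRef := CRef.mk (Pat.mk 0x6000000000000000a0000000a 0x20000000380000003800000038000000ff0000007e0000007a0000000a0000000a 12 8) 0 0 (step_sound _ 130 [(rh04253f50b6dd0619.shift 1 0), rha2e51ec404bb3d2a] (by decide +kernel))
noncomputable def rhe423b2f5eb1325ea : CRef := CRef.mk (Pat.mk 0x4000000700000005800000000000000000000000000000000 0xa0000002e0000003e0000006e000000760000005e0000004f0000004e0000000e0000000a 12 7) 0 0 (step_sound _ 130 [rh4be388f13b9a37da, (rh53b3c253cb0c65f4.shift 1 4)] (by decide +kernel))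
noncomputable def rh40de37fb19bcabdb : CRef := CRef.mk (Pat.mk 0x40000003000000050000000000000000000000000 0xac000000ac000001ef000000ff0000005e0000004f0000004e00000006 12 9) 0 0 (step_sound _ 131 [(rh4df35fbc131eb4ae.shift 0 4), rh6149fb8e7f0fb0be, (rh8bb330ee5aea9f6b.shift 1 1), (rhdbcc872b2f0a9d52.shift 2 1)] (by decide +kernel))
noncomputable def rh7ee67f766cc1d591 : CRef := CRef.mk (Pat.mk 0x80000000e000000180000005000000000000000000000000000000000 0x20000000220000007b000000fe000000df0000005f0000004f0000000f0000000f00000005 12 8) 0 0 (step_sound _ 196 [(rh0dc9f4d294ed682f.shift 1 2), rh1d9592c00add0c94, (rh2395824d1086e2bc.shift 0 3), (rhe9878a50aac0bd7a.shift 0 4), (rheb2cda520f051383.shift 1 1)] (by decide +kernel))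
noncomputable def rh6f8613430527ac9d : CRef := CRef.mk (Pat.mk 0x180000002000000020000000000000000000000000 0x20000000a0000001f0000007f0000007e000000f60000003e0000001c0000001800000018 12 8) 0 0 (step_sound _ 132 [(rh14a19bb675b34f77.shift 2 0), (rh44c28824b7fa1b1f.shift 0 2), (rh4ca5dae25f5c14ff.shift 1 4), (rhfcae9c72d230969d.shift 1 2)] (by decide +kernel))
noncomputable def rh8beeb7ee7d806f41 : CRef := CRef.mk (Pat.mk 0xc0000001800000010000000000000000000000000 0x2400000024000000770000003f0000001f0000001f0000000f0000000700000005 12 7) 0 0 (step_sound _ 161 [rha7e3a33eef1c6933, (rhb739f4f82bb681b4.shift 0 4)] (by decide +kernel))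
noncomputable def rhd5bacab17ff48ab8 : CRef := CRef.mk (Pat.mk 0x2000000038000000600000000000000000 0x1c0000003c0000001f000003bc000003f80000007c0000003000000030 12 10) 0 0 (step_sound _ 132 [(rh3cb04db3dd2b6a55.shift 4 0), rhd31043713001c064, (rhd361313adbd6ceb8.shift 1 0), (rhfc7c29d8e65d775f.shift 4 1)] (by decide +kernel))
noncomputable def rh5e3fdcacadd30225 : CRef := CRef.mk (Pat.mk 0xc000000100000001000000000000000000000000000000000 0x40000000c0000000c0000000f0000007f0000001f0000000f0000000f0000000f00000005 12 7) 0 0 (step_sound _ 163 [(rh0358a0971668addd.shift 0 1), rh1caaad6ce425dc73, (rh2dd82c7e81af44a6.shift 1 1), (rhdeca8db941583de2.shift 0 5), (rhfcae9c72d230969d.shift 0 3)] (by decide +kernel))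
noncomputable def rhbbc94d561fe3fb04 : CRef := CRef.mk (Pat.mk 0x30000000400000004000000000000000000000000000000000 0x10000000b0000001f0000003f0000001fe0000007f0000003e0000003f0000003c00000014 12 10) 0 0 (step_sound _ 165 [(rh14a19bb675b34f77.shift 3 1), (rh1caaad6ce425dc73.shift 2 0), (rh2dd82c7e81af44a6.shift 3 1), (rh36fcd40e079a031f.shift 0 2), (rhb220b02469f067dd.shift 4 4)] (by decide +kernel))
noncomputable def rh0b409b5c219482ee : CRef := CRef.mk (Pat.mk 0x300000004000000040000000000000000000000000 0x3000000030000001fc000001fe0000007f0000003e0000003f00000020 12 9) 0 0 (step_sound _ 133 [(rh0358a0971668addd.shift 2 0), (rh36fcd40e079a031f.shift 0 1), (rh4ca5dae25f5c14ff.shift 2 4)] (by decide +kernel))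
noncomputable def rhccfbd442da2bff27 : CRef := CRef.mk (Pat.mk 0x80000000c000000180000001000000000000000000000000000000000 0x1f00000007c0000001f0000001f0000001f00000007000000070000000700000005 12 9) 0 0 (step_sound _ 193 [rh959fde5659479733, (rhb739f4f82bb681b4.shift 0 5)] (by decide +kernel))
noncomputable def rh99bb1344a7c11f4a : CRef := CRef.mk (Pat.mk 0x300000004000000040000000000000000000000000 0xe0000001f0000003f0000001fe0000007f0000003e0000003f00000030 12 10) 0 0 (step_sound _ 133 [(rh14a19bb675b34f77.shift 3 0), (rh36fcd40e079a031f.shift 0 1), (rh8ac3378f002a1e73.shift 2 0), (rhb220b02469f067dd.shift 4 3), (rhcbff0bcd73a76838.shift 2 0), (rhd1df61ef3d0778c7.shift 3 2)] (by decide +kernel))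
noncomputable def rh17f303c350bfd32c : CRef := CRef.mk (Pat.mk 0x300000004000000040000000000000000000000000 0x6000000070000001fc000001fe0000007f0000003e0000003f00000030 12 9) 0 0 (step_sound _ 133 [(rh14a19bb675b34f77.shift 3 0), (rh36fcd40e079a031f.shift 0 1), (rh4ca5dae25f5c14ff.shift 2 4), (rhb5e6eed5d8ab6ad3.shift 2 0)] (by decide +kernel))
noncomputable def rh42f5b911eb22b501 : CRef := CRef.mk (Pat.mk 0x4000000050000000c000000040000000000000000000000000 0x140000001f0000005f0000007f000000de0000007c0000002c0000000c00000004 12 8) 0 0 (step_sound _ 163 [(rhc10214bf3fe8094a.shift 3 4), rhde1c18c5c9aae1f2] (by decide +kernel))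
noncomputable def rh9befa50c315a02be : CRef := CRef.mk (Pat.mk 0x10000001c000000160000000000000000000000000 0x28000002fc000003f8000003fe000001df00000178000003980000039800000288 12 10) 0 0 (step_sound _ 100 [rh28bff7b6be55e30a, (rh53b3c253cb0c65f4.shift 3 3)] (by decide +kernel))
noncomputable def rh74c9c95c84780a81 : CRef := CRef.mk (Pat.mk 0x4000000700000005800000000000000000000000000000000 0xe0000000e0000000ea000007ff000003fe000007f6000000740000005e000000ec000000e8000000e8000000a0 12 11) 0 0 (step_sound _ 229 [(rh0454ad42fc01a8a3.shift 1 4), (rh056f9ee81f5a648f.shift 1 4), (rh087b112fa6d87e62.shift 1 3), rh2f4746b110d15356, (rh51253b080de2abf7.shift 1 1), (rhd302a01a4e6865cd.shift 4 2)] (by decide +kernel))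
noncomputable def rh538b1b5a83bab491 : CRef := CRef.mk (Pat.mk 0x4000000700000005800000000000000000000000000000000 0x40000008e000003ff000001fe000003f6000000760000005e000000ec000000e8000000e8000000a0 12 10) 0 0 (step_sound _ 229 [(rh31f02da67b193a36.shift 1 1), rh498c0596d4b03133, (rh7c29ee38dc926fb9.shift 2 4), (rhabaaa3b0d0691a67.shift 1 3), (rhd302a01a4e6865cd.shift 4 2)] (by decide +kernel))
noncomputable def rh0149bec80b4ad66d : CRef := CRef.mk (Pat.mk 0x8000000e0000000b0000000000000000000000000 0x20800000ffe000007fe00000fff000007fc000000ee000000be000001ce000001ce0000014a 12 12) 0 0 (step_sound _ 167 [(rh2900058440e8ae56.shift 5 0), rh50ba04c063c4ee34, (rh8733add55b232f62.shift 2 2), rhda028968e863da82] (by decide +kernel))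
noncomputable def rh0d95756e5ce003c5 : CRef := CRef.mk (Pat.mk 0x4000000700000005800000000000000000000000000000000 0xa0000002e0000003e0000006e000000760000005e0000004f0000004e0000000e0000000a 12 7) 0 0 (step_sound _ 130 [rh0bab4fedb556a8b7, (rh53b3c253cb0c65f4.shift 1 4)] (by decide +kernel))
noncomputable def rhd72619ddf12e6456 : CRef := CRef.mk (Pat.mk 0x2000000180000000c0000000000000000000000000 0x5000000070000000fe000000fe000007b7000000f0000000780000007000000050 12 11) 0 0 (step_sound _ 137 [(rh18965a982d73c794.shift 6 3), rhd326063091cbc9c9] (by decide +kernel))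
noncomputable def rh39eef92a5dc37b0a : CRef := CRef.mk (Pat.mk 0x2000000380000002c0000000000000000000000000 0x50000005f800000ffe00000ffe000003b7000002f0000007300000073000000510 12 12) 0 0 (step_sound _ 101 [(rh53b3c253cb0c65f4.shift 4 3), rhb426c44ec8f0aeea] (by decide +kernel))
noncomputable def rhbc5352cd2dacb221 : CRef := CRef.mk (Pat.mk 0x10000001c00000017000000000000000000000000 0xfc0000007e000000ff0000007f0000001d00000017000000130000001200000002 12 8) 0 0 (step_sound _ 163 [rh3328f225994057f8, (rha7e239a8204be023.shift 2 1), (rhb01f3306af473012.shift 0 2), (rhf71cb1a94bedb48c.shift 2 1), (rhfc148680bd267e06.shift 0 1)] (by decide +kernel))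
noncomputable def rh42f050422ae43792 : CRef := CRef.mk (Pat.mk 0x2000000380000002c000000000000000000000000000000000 0x8000000180000017e000001fe0000037f000003b0000002f000000278000002700000007000000050 12 10) 0 0 (step_sound _ 133 [(rh53b3c253cb0c65f4.shift 4 4), rh54ccec8a5c99234e] (by decide +kernel))
noncomputable def rh6e1ec9c1230982b4 : CRef := CRef.mk (Pat.mk 0x3000000040000000400000000000000000 0x800000028000003bc000003fc000001fe0000007f0000003e0000003f 12 10) 0 0 (step_sound _ 101 [rh36fcd40e079a031f, (rh4ca5dae25f5c14ff.shift 2 3), (rhdeca8db941583de2.shift 2 3), (rhfc47cdc6977d6801.shift 2 0)] (by decide +kernel))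
noncomputable def rhee5f29faa57bf0d1 : CRef := CRef.mk (Pat.mk 0xb000000180000000800000000000000000000000000000000000000000 0x1000000150000001fc000001f8000001ef000000be000001bf000000fc0000007800000038000000380000003800000028 12 9) 0 0 (step_sound _ 263 [(rh2732d51da4b78d5f.shift 4 4), rh6046ab7d73c947c9, rhb4c414c8fa5c6e98, (rhb63fe9eb57c45467.shift 4 4), (rhc85cc95794737cf7.shift 6 5)] (by decide +kernel))
noncomputable def rha0018c387283451c : CRef := CRef.mk (Pat.mk 0x3000000020000000a0000000000000000000000000 0x640000006c0000006e0000003e0000003e000000ef0000007c0000007e00000050 12 8) 0 0 (step_sound _ 69 [(rh7e0184f941926d84.shift 0 1), (rh8cdd36b03d57a2f6.shift 4 0), (rha613ffd40b6c9d24.shift 4 0), (rhd92f1551f0fdfa3f.shift 1 1), (rhe4441baab75a6f73.shift 4 0)] (by decide +kernel))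
noncomputable def rh6319f8a017362dc6 : CRef := CRef.mk (Pat.mk 0x3000000060000000400000000000000000 0x9000000090000001d8000003f0000003f00000007f0000003e0000003f 12 10) 0 0 (step_sound _ 135 [(rh29f9e4111bbfef67.shift 4 2), (rh3954d8619329fa8d.shift 4 2), rh923d5859f164a209, (rhf1f7e820b25a1f06.shift 3 1)] (by decide +kernel))
noncomputable def rh902c7775b4001ea4 : CRef := CRef.mk (Pat.mk 0x18000000c000000040000000000000000000000000 0x18000000380000003e000000fe00000078000000ff0000007f0000001c0000001800000008 12 8) 0 0 (step_sound _ 132 [(rh5419adcd928dba20.shift 3 4), rh6f3330c2d3607043] (by decide +kernel))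
noncomputable def rh3995a56eec3e7392 : CRef := CRef.mk (Pat.mk 0x18000000c000000000000000000000000000000000 0x18000000380000003e000000fe00000078000000ff0000001f0000003c0000003800000028 12 8) 0 0 (step_sound _ 132 [rh3e5309b810691903, (rh5419adcd928dba20.shift 3 4)] (by decide +kernel))
noncomputable def rh58eccfd364e0b8e7 : CRef := CRef.mk (Pat.mk 0xc000000100000001000000000 0x2e0000003e0000003f000000ff000000fc000000fe0000001c0000000c 12 8) 0 0 (step_sound _ 100 [(rh1bd65acde5b3b712.shift 1 1), (rh4642e55c8a35b842.shift 1 0), (rh659cac76b0a88dc0.shift 1 1), rh7a9559e0dbc11113, (rh9311bff356bd1036.shift 1 1), rh988bc627e0189414] (by decide +kernel))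
noncomputable def rh2d5a710530336d69 : CRef := CRef.mk (Pat.mk 0x180000002000000020000000000000000000000000 0xc0000000c0000001c0000003e000000ff0000003f0000001e0000001c0000001c 12 8) 0 0 (step_sound _ 132 [(rh2dd82c7e81af44a6.shift 2 0), (rh4ca5dae25f5c14ff.shift 1 4), rh50c6a6fc0d1d5a87, (rhdeca8db941583de2.shift 1 4)] (by decide +kernel))
noncomputable def rhadff91eee13febbd : CRef := CRef.mk (Pat.mk 0x80000001e00000018000000000000000000000000 0x500000037000000370000003b0000001e0000001f000000070000000700000007 12 6) 0 0 (step_sound _ 97 [rhd87cd513c6546a55, (rheb0810cc63b001d8.shift 0 3)] (by decide +kernel))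
noncomputable def rha21128819fe7cf7a : CRef := CRef.mk (Pat.mk 0x18000000300000002000000000 0xe0000000e0000003f000000ff0000001f000000360000003600000016 12 8) 0 0 (step_sound _ 132 [rh0999fd9073ed7b49, (rh2145e1d24b96a57e.shift 4 1)] (by decide +kernel))
noncomputable def rhe53546a11f5dd5e0 : CRef := CRef.mk (Pat.mk 0x1000000018000000200000002000000000 0x280000007800000078000000fc000003ff000000ff000000380000002c0000002c0000000c 12 10) 0 0 (step_sound _ 133 [rh788749dc394bbd71, (rha44bc9217eccd07b.shift 3 1), (rhbe95bc3310673c07.shift 3 1), (rhd0fef68a7b674f72.shift 3 1)] (by decide +kernel))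
noncomputable def rh66f249be55188b21 : CRef := CRef.mk (Pat.mk 0x380000000c000000100000001000000000000000000000000000000000 0x30000000380000001c0000001f0000001f0000000f000000070000000700000005 12 6) 0 0 (step_sound _ 196 [rh0f68a5106cba5ad5, (rh2f68792b6b779e96.shift 4 4)] (by decide +kernel))
noncomputable def rhe4019304f5268e20 : CRef := CRef.mk (Pat.mk 0x7000000038000000200000002000000000000000000000000000000000 0x4000000040000000e0000007e000000380000007f0000003e0000001f0000000e0000000e0000000a 12 7) 0 0 (step_sound _ 132 [rh70688a723ef83899, (rh932754581e0f4330.shift 4 3)] (by decide +kernel))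
noncomputable def rh9ba778b0b3973bc1 : CRef := CRef.mk (Pat.mk 0x180000002000000020000000000000000000000000 0xc0000002c0000007c0000001e000000ff0000003f0000001e0000001c0000001c 12 8) 0 0 (step_sound _ 132 [(rh2dd82c7e81af44a6.shift 2 0), rh50c6a6fc0d1d5a87, (rh60ab467fe83d5128.shift 1 0), (rhdeca8db941583de2.shift 1 4)] (by decide +kernel))
noncomputable def rhe0b00b6e9d7698b2 : CRef := CRef.mk (Pat.mk 0x100000001c0000001000000010000000000 0x8000000f8000001f800000078000001ff000007fe0000017f000001f0000000b0 12 11) 0 0 (step_sound _ 39 [(rh932754581e0f4330.shift 7 0), rhd4bc64ca4ab232d6] (by decide +kernel))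
noncomputable def rh5d5ad91ce22205e3 : CRef := CRef.mk (Pat.mk 0x30000000400000007000000010000000000000000000000000 0x400000007000000070000000740000003c000001fe000000fe000001ff 12 9) 0 0 (step_sound _ 101 [(rh04af1842d519b59b.shift 4 2), (rh530f636ca6cd92e8.shift 4 1), rh8c944e97759e541f] (by decide +kernel))
noncomputable def rh8d26c942ce4b67bd : CRef := CRef.mk (Pat.mk 0x16000000300000001000000000 0x70000002f0000003f0000003f0000003f00000017000000370000001f00000007 12 6) 0 0 (step_sound _ 132 [rh0878aa168f19e001, (rh1741680720c097b4.shift 3 1), rh826b346fc4a796c0, rhe6893ef01ae1662d, rhfe0a539cfc0110dd] (by decide +kernel))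
noncomputable def rhb2cf486cd12ce9b6 : CRef := CRef.mk (Pat.mk 0x10000000c000000040000000000000000000000000 0x40000000e0000001e0000007f0000007e000000ff0000007e0000001e0000001800000008 12 8) 0 0 (step_sound _ 163 [(rh88145f2376c8dc44.shift 3 0), (rha2ba58d9aab1e515.shift 0 2), (rha7b253017a5af1e0.shift 2 4)] (by decide +kernel))
noncomputable def rh8828f32e2066b07c : CRef := CRef.mk (Pat.mk 0x80000000c0000001800000010000000000000000000000000 0x340000007c0000006c0000007f0000001b0000000f0000000e0000000c 12 7) 0 0 (step_sound _ 133 [rh969838654e6ee0ae, (rhf48373e13d2bc128.shift 2 4)] (by decide +kernel))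
noncomputable def rhaa19e50756b525ed : CRef := CRef.mk (Pat.mk 0x1e00000018000000100000000000000000 0x3f0000001f0000001b0000003e0000001f000000130000000200000002 12 6) 0 0 (step_sound _ 97 [rh6bc6e00efa7470da, (rheb0810cc63b001d8.shift 0 3)] (by decide +kernel))
noncomputable def rh8f7c4f8948d37998 : CRef := CRef.mk (Pat.mk 0xc000000180000001000000000000000000000000000000000 0x20000001a0000001b0000003f0000001f0000001f0000000f0000000f0000000f00000005 12 6) 0 0 (step_sound _ 227 [rh161eae3febe223fe, (rh2145e1d24b96a57e.shift 3 4)] (by decide +kernel))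
noncomputable def rh55b1567a653884c0 : CRef := CRef.mk (Pat.mk 0xc0000001800000010000000000000000000000000 0x5000000070000000f0000000f000000ff0000001f00000017000000070000000700000005 12 8) 0 0 (step_sound _ 195 [(rh2145e1d24b96a57e.shift 3 3), rh5c2fa02ec41768ff] (by decide +kernel))
noncomputable def rh7e9fecab4b1e7e28 : CRef := CRef.mk (Pat.mk 0x800000028000000a0000000000000000000000000 0x60000016e000001ee000003ff000001fc000000be0000009e0000009c00000004 12 10) 0 0 (step_sound _ 132 [(rh38791ac5737ed75e.shift 2 4), (rh640e3c445adc40b8.shift 1 0), (rha9fbfd4bb8cf890b.shift 0 4), (rhb14f7dd7e283ffff.shift 1 1)] (by decide +kernel))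
noncomputable def rhbb27e0771d8e9f93 : CRef := CRef.mk (Pat.mk 0x10000000100000005000000018000000000000000000000000 0x1000000010000000100000007b0000001f000000370000003e0000003e 12 7) 0 0 (step_sound _ 131 [(rh5c5e593799055d58.shift 3 3), rh9b25e59944e66bf3] (by decide +kernel))
noncomputable def rh04c473e5015a62da : CRef := CRef.mk (Pat.mk 0x20000000a000000280000000000000000000000000 0x520000007a000000fe7000007fe000002ff000002780000027000000010 12 12) 0 0 (step_sound _ 134 [(rh640e3c445adc40b8.shift 3 0), (rha9d5af57152f357b.shift 3 1), (rhdbcee9ee40422c1a.shift 3 1), (rhe091ed77919be4bd.shift 2 3), (rhe644eb1cd8f767e3.shift 0 1), (rhf5925d064fbfae9a.shift 3 1)] (by decide +kernel))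
noncomputable def rh81401afdf482ddd8 : CRef := CRef.mk (Pat.mk 0x10000000180000004000000000000000000000000000000000 0x1e0000001f0000001f0000003f0000001f0000007f0000003c0000003c0000001c00000014 12 7) 0 0 (step_sound _ 131 [rh26413ebb36f0291f, (rh37355c92b2b7f245.shift 0 2), (rh907803c8c3712a24.shift 0 2), (rhadf429772c25fde0.shift 3 2)] (by decide +kernel))
noncomputable def rhc53caa859a3a4358 : CRef := CRef.mk (Pat.mk 0x8000000080000000800000000 0x14000001ff000000fe000001ef0000001f0000000f00000005 12 9) 0 0 (step_sound _ 131 [(rh20966da26a1c2ae8.shift 2 0), (rh968ba7b0df7e4096.shift 2 0), (rhc85cc95794737cf7.shift 2 1), rhd7d7d12072d1f8a5] (by decide +kernel))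
noncomputable def rh16f2ad68918ae7c7 : CRef := CRef.mk (Pat.mk 0x20000000a0000000a0000000200000000000000000000000000000000000000000 0x20000001be000000fe0000007f000001e000000070000000700000007000000050 12 9) 0 0 (step_sound _ 134 [rhbb8e546d264db28b, (rhd3458b32566d63f7.shift 5 4)] (by decide +kernel))
noncomputable def rha0f9e239d95d3882 : CRef := CRef.mk (Pat.mk 0x580000003000000030 0x3ff000001fe000003df000000d8000000f800000030 12 10) 0 0 (step_sound _ 38 [rh67ac0e2e5228fd2a, (rhf48373e13d2bc128.shift 3 1)] (by decide +kernel))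
noncomputable def rhad20740dea1c806e : CRef := CRef.mk (Pat.mk 0x30000000c000000040000000000000000000000000 0x3c0000003c0000003c00000078000000fc0000007f0000003e0000003f0000003c 12 8) 0 0 (step_sound _ 163 [rh70fd846356cb5f19, (rhd6e447e81774439e.shift 3 4)] (by decide +kernel))
noncomputable def rh62b5ec36185a3dc2 : CRef := CRef.mk (Pat.mk 0x18000000200000002000000000000000000000000000000000 0x18000000180000001e000000ff0000003e0000001f0000001e0000001e0000000a 12 8) 0 0 (step_sound _ 164 [(rhad28f631b021fc94.shift 1 0), (rhdeca8db941583de2.shift 1 5), (rheac7a0eea0d2311d.shift 0 3)] (by decide +kernel))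
noncomputable def rhf337d43cac06c778 : CRef := CRef.mk (Pat.mk 0x18000000700000002000000000 0xc0000005f000001df000001fb0000007f0000003f00000010 12 9) 0 0 (step_sound _ 132 [(rh2145e1d24b96a57e.shift 4 1), rhc028d04e8a2dc20d] (by decide +kernel))
noncomputable def rhc92c4e59e97c42bf : CRef := CRef.mk (Pat.mk 0x1e0000001000000050000000000000000000000000 0x40000000c0000002e000000ff000000db0000005c000000ec000000ec000000a0 12 8) 0 0 (step_sound _ 131 [rh6f6b6ebf3194e470, (rhb739f4f82bb681b4.shift 0 4)] (by decide +kernel))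
noncomputable def rhb36b9a7cdc05d6d2 : CRef := CRef.mk (Pat.mk 0xe0000000800000028000000000000000000000000 0x30000001700000017000000f70000007e0000006f0000002e000000760000007000000050 12 8) 0 0 (step_sound _ 164 [(rh21460d2d48a35cb8.shift 0 3), (rh22e2337519071ed5.shift 0 2), (rh2a535ce68d5cfc5d.shift 0 2), (rh51518339b5082a11.shift 1 0), (rhafa5a7051d37b143.shift 0 2)] (by decide +kernel))
noncomputable def rhd08b1a41898087ab : CRef := CRef.mk (Pat.mk 0xe000000080000000000000000000000000 0x140000001c0000001c000000ff000000fe0000019f0000001e0000001e0000001e 12 9) 0 0 (step_sound _ 132 [rh2ddec346d17d5508, (rhe25b0a99195a5d59.shift 4 3)] (by decide +kernel))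
noncomputable def rh1c41f185b810ef25 : CRef := CRef.mk (Pat.mk 0x4000000050000000c000000040000000000000000000000000 0x140000001f0000005f0000007f000000de0000007c0000003c0000001c00000014 12 8) 0 0 (step_sound _ 99 [(rh669c503fc29231eb.shift 3 2), rhddd9f2e877d778b5] (by decide +kernel))
noncomputable def rh3505ea4d71cbb747 : CRef := CRef.mk (Pat.mk 0x6000000050000000400000006000000000000000000000000000000000 0x8000000180000001c0000007f000000fe000000ff0000007c0000001c0000001c0000001c00000014 12 8) 0 0 (step_sound _ 197 [(rh554009a2f490582e.shift 0 5), (rh91b0e811f44ad11f.shift 2 0), (rhc8ae77ecad49585e.shift 2 4), (rhf56e6bc5d2f7fe77.shift 2 5)] (by decide +kernel))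
noncomputable def rh244a31d9bae99186 : CRef := CRef.mk (Pat.mk 0x14000000100000005000000000 0x8000000380000003c000001fc000001ff000003ff000000f30000005a00000048 12 10) 0 0 (step_sound _ 132 [(rh018f2ebb4d91ad9d.shift 1 1), (rh234b9e8903310361.shift 1 0), rh4962a6c834c13761, rh55880c3b2f324a39, (rh5ad14598e2c21a97.shift 2 1), (rhc85cc95794737cf7.shift 3 1)] (by decide +kernel))
noncomputable def rh38147a8c09b4899b : CRef := CRef.mk (Pat.mk 0x10000000140000001000000050000000000000000000000000 0x80000000ae000003fe000001f4000003fe0000005e0000004f0000000200000002 12 10) 0 0 (step_sound _ 99 [rh6f66d5797e80e08e, (rh932754581e0f4330.shift 3 2)] (by decide +kernel))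
noncomputable def rhbb7bbcf877df717b : CRef := CRef.mk (Pat.mk 0xa0000000800000028000000000000000000000000 0x140000001c0000001c0000001c000000ff000000fe000001fb0000002f000000770000007700000055 12 9) 0 0 (step_sound _ 164 [rh1fd1f4ecb600c2e7, rh23e56f8bfa032f91, (rh36ba6f6dab0e2c44.shift 1 0), rh87cdbe27f70260bf, rh9081dd5ed39bce48, (rhdfc0d155aa86391c.shift 0 3)] (by decide +kernel))
noncomputable def rh3aa70a2fbd78d5f4 : CRef := CRef.mk (Pat.mk 0x80000000a0000000800000028000000000000000000000000 0x40000000c0000001c00000018000000ff000000fe000001ff0000002b000000270000000700000005 12 9) 0 0 (step_sound _ 228 [rh1648a9cea7e69173, (rhbaefcd01e0a8bca3.shift 3 3)] (by decide +kernel))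
noncomputable def rh717b8a99ffaeb33f : CRef := CRef.mk (Pat.mk 0xa0000000a0000002a000000000000000000000000 0x1000000010000007f4000003fe000007fb0000002a000000770000007700000055 12 11) 0 0 (step_sound _ 65 [rh8cdd36b03d57a2f6, rha4c18607a56b7f87] (by decide +kernel))
noncomputable def rhe6ef14b111343426 : CRef := CRef.mk (Pat.mk 0x10000000000000002000000020000000000000000000000000 0x2000000030000000380000003f000000fe000000ff0000007800000078000000700000002000000020000000700000007000000050 12 8) 0 0 (step_sound _ 165 [(rhac8685a05efe06ce.shift 0 3), (rhbba7d23481996066.shift 4 0), (rhbfa1debe7707a1f4.shift 4 0), (rhdc17cc499b796620.shift 4 2)] (by decide +kernel))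
noncomputable def rhd2e90a8291f80a9b : CRef := CRef.mk (Pat.mk 0x1800000000000000180000003000000020 0xe0000000f0000003ff000001fe000001e7000000b8000000f000000020 12 10) 0 0 (step_sound _ 39 [rh120681e73d497b4c, (rh2fe78cc5ca4405d8.shift 3 1)] (by decide +kernel))
noncomputable def rhb1460fb4234267ce : CRef := CRef.mk (Pat.mk 0xc0000001800000010000000000000000000000000 0x5000000270000002f0000007f000000ff0000001f00000017000000070000000700000005 12 8) 0 0 (step_sound _ 195 [(rh2145e1d24b96a57e.shift 3 3), rh41c3b2376cb97b01] (by decide +kernel))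
noncomputable def rh82d31a54e760e046 : CRef := CRef.mk (Pat.mk 0x180000003800000020 0x3ff000001fe000003df000000d8000000f800000028 12 10) 0 0 (step_sound _ 38 [rhd2173fb3ad40bfc9, (rhf48373e13d2bc128.shift 3 1)] (by decide +kernel))
noncomputable def rhf4b54ca06e4f5a34 : CRef := CRef.mk (Pat.mk 0x300000007000000040 0x1ff000000fe000001ff0000003c0000007e0000004e 12 9) 0 0 (step_sound _ 67 [rh2a3682775d9dcd04, (rhb739f4f82bb681b4.shift 2 1)] (by decide +kernel))
noncomputable def rhcd2b0da7bfbcb311 : CRef := CRef.mk (Pat.mk 0x300000007800000040 0x7ff000003fe000007fe000001b4000001fe00000040 12 11) 0 0 (step_sound _ 133 [(rh6f1cbe15c631ee70.shift 5 0), rha9fb48e0ce10fbde] (by decide +kernel))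
noncomputable def rh36280a0968e51949 : CRef := CRef.mk (Pat.mk 0x180000003c000000a0000000000000000000000000 0xc0000000c000001ff000001ff000001d8000000fc000000a4000001c0000001c000000140 12 9) 0 0 (step_sound _ 196 [(rh2145e1d24b96a57e.shift 4 3), rh2528e9033896a62f] (by decide +kernel))
noncomputable def rh3dee67e065ea4652 : CRef := CRef.mk (Pat.mk 0x30000000400000004000000000 0x28000000b8000003ff000001fe000003fe000001f0000003fe0000005800000018 12 10) 0 0 (step_sound _ 102 [(rh22d92c6efb738ede.shift 3 1), (rh3a363c183e8c9a5a.shift 3 0), (rh4e7cc10b83f07fe7.shift 3 1), (rh66203acae140b8cf.shift 0 1), (rh9311bff356bd1036.shift 3 1)] (by decide +kernel))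
noncomputable def rh82bcca0cd44430e7 : CRef := CRef.mk (Pat.mk 0x180000002000000020 0x60000004e0000005f000001ff000000fe000001ef00000020 12 9) 0 0 (step_sound _ 69 [rh0c88aca15b759bf5, (rh3918eeb6c53434d8.shift 0 1), (rh8ee80cc30e93a344.shift 2 1), (rh9311bff356bd1036.shift 2 0)] (by decide +kernel))
noncomputable def rh86295455da48dc8c : CRef := CRef.mk (Pat.mk 0x10000000500000014000000000000000000000000000000000 0x23c0000023f000007be000003fc000001780000013e000001380000003800000010 12 11) 0 0 (step_sound _ 165 [(rh2167a28eef75c27f.shift 1 1), (rh38791ac5737ed75e.shift 3 5), rh6c009e7cf6a2200c, (rha9fbfd4bb8cf890b.shift 1 5), (rhc126a2d483e3db27.shift 1 1)] (by decide +kernel))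
noncomputable def rh6994e8b3c8d5e919 : CRef := CRef.mk (Pat.mk 0x100000005000000140000000000000000000000000 0x280000003a0000023e0000023f000007bf000003fe0000017e000001360000013200000030 12 11) 0 0 (step_sound _ 133 [(rh38791ac5737ed75e.shift 3 4), rh68e31e4d12143167, (rh8895ad51455b84b3.shift 0 1), (rha9fbfd4bb8cf890b.shift 1 4), (rhea3c36b66d54eaf8.shift 3 1)] (by decide +kernel))
noncomputable def rh74422d6eb294420b : CRef := CRef.mk (Pat.mk 0x8800000038000000a0000000000000000000000000 0x140000015c000001fc000001df00000198000001fe000000b8000001d0000001d000000140 12 9) 0 0 (step_sound _ 195 [(rh70e33bfdf511e144.shift 3 1), (rhac9330ac0b8d0bb9.shift 1 0), (rhd98f850c0bd2fe54.shift 0 3), (rhf3afdd1b4b9b596e.shift 3 3)] (by decide +kernel))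
noncomputable def rh5fc6958759623d20 : CRef := CRef.mk (Pat.mk 0x1000000030000000200000000000000000 0xa0000007e0000007e000000fe000001fe0000007f0000002f0000000c00000004 12 9) 0 0 (step_sound _ 131 [(rh6f3ce31807fd067a.shift 1 2), rh9a4b8b182c28c4b6, (rhad50b450a73b434a.shift 1 1), (rhb0121edee88fe839.shift 1 3), (rhe8ab189175315f47.shift 0 1)] (by decide +kernel))
noncomputable def rhbdffe9669b6f731d : CRef := CRef.mk (Pat.mk 0x8000000280000002800000000 0x40000001c0000001f0000003f0000003f0000007c0000001e0000003e0000003e00000018 12 7) 0 0 (step_sound _ 131 [(rh1f42274b5947a674.shift 1 0), rh6d81dc3aaea9a912, (rhad6dab671ca02130.shift 1 0), (rhc4055b4872d6fb38.shift 2 0), (rhc85cc95794737cf7.shift 2 1)] (by decide +kernel))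
noncomputable def rh0fc962bc8db9c845 : CRef := CRef.mk (Pat.mk 0x800000008000000200000002000000000000000000000000000000000 0x100000001c0000001c0000005c0000007c0000007f000000ff000001ee0000003c0000001c0000001c0000001c00000014 12 9) 0 0 (step_sound _ 163 [rh1e447d7a1e3dd2d2, rh1fdcb837f1c4ac82, (rh353c99b15947840d.shift 0 1), (rh5695e0afd76d11ac.shift 2 1), (rh591759c9b8953fa7.shift 0 3), (rh5e8ced243ac9081d.shift 2 0), rh6b6dc5e5764d4e1a, (rh8ac1f82ba1832396.shift 1 4), (rh9a0e653e04772e16.shift 2 2), (rhab726308d791659d.shift 1 1), (rhaf1b82d98f26c7fa.shift 1 1)] (by decide +kernel))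
noncomputable def rhaffc3ca00d9a39c9 : CRef := CRef.mk (Pat.mk 0x2000000020000000200000002000000000 0x1df000001fe0000007f000000300000003000000010 12 9) 0 0 (step_sound _ 134 [(rh2f68792b6b779e96.shift 5 1), rheb577a01224626a3] (by decide +kernel))
noncomputable def rh525ef4ea4356f18b : CRef := CRef.mk (Pat.mk 0x200000002000000020000000a0000000800000000000000000 0x140000001c0000011f0000013e000003ff000001ff000001bf0000009f0000001e0000001e 12 10) 0 0 (step_sound _ 132 [rh0619c1659913e251, rh5660c385ff0178b6, (rh8ab1a0c4a3c7d2cf.shift 1 0), (rh95b62c70feb836e4.shift 1 1), (rha9abd94de0992a49.shift 1 0), rhce5cbd6f20efa95b, (rhe3d3c96f5c137162.shift 0 2), (rhe7e8410d0ad22277.shift 1 2), (rhf7e32aa46f3e264f.shift 2 2)] (by decide +kernel))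
noncomputable def rh092306f72eb1f9f1 : CRef := CRef.mk (Pat.mk 0x1000000010000000400000004000000000000000000000000000000000 0x2800000038000000380000003e0000007f000001ff000001ff000003df0000007c0000003c000000380000003800000028 12 10) 0 0 (step_sound _ 164 [(rh5695e0afd76d11ac.shift 3 1), (rh591759c9b8953fa7.shift 1 3), (rh5e8ced243ac9081d.shift 3 0), (rh60bb53f896360232.shift 1 4), (rh6b2635b2c17eab2a.shift 0 3), (rh6b6dc5e5764d4e1a.shift 1 0), (rh79e2dfaa8afaa996.shift 0 1), (rhab726308d791659d.shift 2 1), (rhaf1b82d98f26c7fa.shift 2 1)] (by decide +kernel))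
noncomputable def rheaad98cf2610f66b : CRef := CRef.mk (Pat.mk 0x1000000010000000400000014000000000000000000000000000000000 0x80000000f0000000f0000007ff000007fe000007ff000003df0000017800000138000000380000003800000028 12 11) 0 0 (step_sound _ 164 [(rh1e447d7a1e3dd2d2.shift 1 0), (rh1fdcb837f1c4ac82.shift 1 0), (rh353c99b15947840d.shift 1 1), (rh591759c9b8953fa7.shift 1 3), (rh712fbcd1f72b0c82.shift 3 1), (rh79e2dfaa8afaa996.shift 0 1), (rh9a0e653e04772e16.shift 3 2), (rh9c46a7060d06e11a.shift 2 0), (rh9d2d966552608705.shift 0 3), (rhaf1b82d98f26c7fa.shift 2 1)] (by decide +kernel))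
noncomputable def rh94e59aeea4ff9dad : CRef := CRef.mk (Pat.mk 0x1000000010000000180000004800000040 0xc0000008c000000ff000000ff000000fb000000df00000056 12 8) 0 0 (step_sound _ 70 [rh888a89ee3cd24caf, (rh8aeae207ef4e32d0.shift 2 1), (rhcaa7ba44a31c4370.shift 2 1), (rhdc45162e28a620df.shift 2 1), (rhf516302f831125d8.shift 2 1)] (by decide +kernel))
noncomputable def rhbef109332cdd78eb : CRef := CRef.mk (Pat.mk 0x200000003000000000000000000000000000000000 0x10000000180000003f0000003e0000007f0000003e0000003f0000003e0000003e0000000a 12 7) 0 0 (step_sound _ 100 [(rhc5939650e4bf8fd5.shift 1 1), (rhcf80391c5046a495.shift 4 1), rhe991996061bb9e8b, (rhf9366b6a121593ef.shift 4 1)] (by decide +kernel))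
noncomputable def rh7c6e091827b9e7a3 : CRef := CRef.mk (Pat.mk 0x100000001800000040000000400000000000000000 0x1e0000009e000000f7000000ff000000df0000007f0000003a00000032 12 8) 0 0 (step_sound _ 99 [(rh4f45541977e778c8.shift 0 3), rh99ea1063fd2f196f, (rhcf80391c5046a495.shift 3 1), (rhdc2a8236b56c0a85.shift 0 1)] (by decide +kernel))
noncomputable def rh5b00e982390e429d : CRef := CRef.mk (Pat.mk 0x80000000c000000200000002000000000 0xac000000fe000001fe000001fb000000ff000000ff000000ec0000003c0000000c 12 9) 0 0 (step_sound _ 132 [(rh24e45b3545324778.shift 1 0), (rh3ba695d91ad9a720.shift 2 1), (rh574fdbf07bdd18b9.shift 0 3), (rh74b50a7fe53553dc.shift 0 1)] (by decide +kernel))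
noncomputable def rh227182b19b3a51cf : CRef := CRef.mk (Pat.mk 0x100000001800000040000000400000000000000000 0x20000000200000003000000074000000f70000007e000000df0000007e0000001e00000002 12 8) 0 0 (step_sound _ 133 [(rh02575fc56458b534.shift 0 3), rh19c35cf4b6f70f1f, (rh515ba69bc9f6cfd4.shift 3 2), (rh558683efb07c0ccf.shift 2 1), (rheabf12eceb817c33.shift 1 1)] (by decide +kernel))
noncomputable def rh43c5305649433cf4 : CRef := CRef.mk (Pat.mk 0x200000003000000080000000800000000000000000 0x2b0000003f0000007f0000007e0000003f80000037c000003be000000fe0000007f00000020 12 11) 0 0 (step_sound _ 166 [(rh0bb882ba86b2372d.shift 2 4), (rh24e45b3545324778.shift 3 1), (rh574fdbf07bdd18b9.shift 2 4), rhe96e6869b2ba787c] (by decide +kernel))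
noncomputable def rh5d55b7567b3c5add : CRef := CRef.mk (Pat.mk 0x200000003000000080000000800000000000000000 0x400000006000000060000001f8000000bc000001be000000fe0000007f00000020 12 9) 0 0 (step_sound _ 166 [(rh0bb882ba86b2372d.shift 2 4), (rh3ba695d91ad9a720.shift 4 2), rhe96e6869b2ba787c] (by decide +kernel))
noncomputable def rhd38d0767f9b7488c : CRef := CRef.mk (Pat.mk 0x200000003000000080000000800000000000000000 0x12c0000012c000003ff000001fe000001bf000000fe0000007e0000006e 12 10) 0 0 (step_sound _ 100 [rh2fc04709bf736af7, (rh99ea1063fd2f196f.shift 1 0), (rhdc2a8236b56c0a85.shift 1 1), (rhf9366b6a121593ef.shift 4 1)] (by decide +kernel))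
noncomputable def rhbf71eeff4baaf4e4 : CRef := CRef.mk (Pat.mk 0x30000000100000004000000140 0x180000007c0000007f000007ff000003ff000007f7000001c000000140 12 11) 0 0 (step_sound _ 133 [(rh2856cfcf5dab9158.shift 3 0), (rh3ec6760bde696c36.shift 0 2), rh4c2307d38e41ecb7, (rh83b6dcb419e3df1b.shift 2 1), (rhfd7355c70a96284b.shift 4 0)] (by decide +kernel))
noncomputable def rhec1c6ba57f4d2ea7 : CRef := CRef.mk (Pat.mk 0x60000000200000008000000080 0x3000000070000000fe000003ff000003fe0000036f000001a8000000a0 12 10) 0 0 (step_sound _ 134 [rh2448ef5e6439e2bb, (rh3ec6760bde696c36.shift 1 2), (rh4821dcf828b9d7bf.shift 5 0), (rhadf429772c25fde0.shift 5 0)] (by decide +kernel))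
noncomputable def rh68a3304e0f2b4114 : CRef := CRef.mk (Pat.mk 0x1000000018000000180000000000000000 0x5000000070000000f0000001f0000001f000000ff0000000f00000008 12 8) 0 0 (step_sound _ 35 [(rh71222050f2c63a3a.shift 3 0), (rha0e45da4fa37a548.shift 0 1)] (by decide +kernel))
noncomputable def rh8494658ea0069409 : CRef := CRef.mk (Pat.mk 0x1000000018000000180000002800000020 0x2c000000ef000000ff000000df0000005f0000006c00000020 12 8) 0 0 (step_sound _ 131 [(rh01ff8e29f1e0af53.shift 0 2), (rh0b88b3654eeeb39b.shift 0 1), (rh7b9fbdf6d2d059e4.shift 2 1), rhbe267b0130f73c43, (rhc7469040363f06d7.shift 0 1)] (by decide +kernel))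
noncomputable def rh60b5efd7a6f37ac0 : CRef := CRef.mk (Pat.mk 0x6000000038000000800000008000000000 0x5000000070000000f00000003c00000070000003f8000001be000000fe0000007f 12 10) 0 0 (step_sound _ 102 [(rh41a0b53fa256048c.shift 4 2), rh535b3bcfd7313075, (rh9d1db2a55d27de19.shift 2 2), (rhb447f348b8f2aaa5.shift 2 2)] (by decide +kernel))
noncomputable def rh48c4c7fb5d7700c4 : CRef := CRef.mk (Pat.mk 0x2000000030000000800000008000000000 0x10000000700000007000000070000001f80000013e000003f8000001f0000001be000000fe0000007f 12 10) 0 0 (step_sound _ 102 [(rh20aaab6250709fa0.shift 3 2), rh786725fdf0a79386, (rh9e2f6857846924b3.shift 3 0), (rhb6101abbe89640ef.shift 3 0), (rhc1c8ef3b77490bf7.shift 4 1)] (by decide +kernel))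
noncomputable def rhf95c921cb44a50b5 : CRef := CRef.mk (Pat.mk 0x100000001000000010000000500000014 0x2000000ff0000007f000000ff0000001d00000015 12 8) 0 0 (step_sound _ 129 [(rh2f68792b6b779e96.shift 0 1), rh86e7579b16b8778d] (by decide +kernel))
noncomputable def rh04c160626033de9d : CRef := CRef.mk (Pat.mk 0x1000000010000000500000004000000000000000000000000000000000 0x20000000f40000003e000000de0000007e0000003f000000380000003800000008 12 8) 0 0 (step_sound _ 132 [(rh12ee95441971a32f.shift 0 3), (rh605ebd1d430ac774.shift 3 0), (rh6c59ce14113da07f.shift 4 2), (rhe8768a83bdb59c61.shift 3 3)] (by decide +kernel))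
noncomputable def rh714ff379afbd0520 : CRef := CRef.mk (Pat.mk 0x80000000800000008000000200000002000000000 0xf70000007e000000ef0000001f0000006f0000003d00000014 12 8) 0 0 (step_sound _ 67 [(rh5ee4dc8825dcefa0.shift 0 1), (rh7178191404b41ae8.shift 0 1), (rhf389780122f41e70.shift 2 0)] (by decide +kernel))
noncomputable def rha382b19bb6ed9eaa : CRef := CRef.mk (Pat.mk 0x800000008000000080000002000000020000000000000000000000000 0x140000001f0000003f0000003f0000000c0000000c0000000c0000000c0000006c0000003c0000001e0000001c00000014 12 7) 0 0 (step_sound _ 131 [(rh968ba7b0df7e4096.shift 2 3), (rhb5834c364ee7f1ed.shift 1 0), (rhc0c37ee847024255.shift 0 2), (rhf389780122f41e70.shift 2 2)] (by decide +kernel))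
noncomputable def rh9c89fb395c093289 : CRef := CRef.mk (Pat.mk 0xc0000000a0000000a000000080000000800000000 0x50000001f0000001b0000001f0000000a0000001f000000790000000c00000004 12 7) 0 0 (step_sound _ 196 [rh99b7d1a2d9ad2f57, (rhbaefcd01e0a8bca3.shift 3 2)] (by decide +kernel))
noncomputable def rh2cc256b28094a2fb : CRef := CRef.mk (Pat.mk 0x800000005000000050000000400000004000000000 0x2c000000fe000000ef0000005f0000007f000000df0000007e0000003e 12 8) 0 0 (step_sound _ 99 [(rh0bcf6c7f90e77424.shift 2 0), (rh1797956f75453f58.shift 2 2), (rh4c60383a28f17e5f.shift 0 1), rh6dbdcb2aa9419476, (rhd3ca8751008562b1.shift 2 0)] (by decide +kernel))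
noncomputable def rh846a367d1e10ff60 : CRef := CRef.mk (Pat.mk 0x5000000050000000400000004000000000 0x140000001c0000001e0000002f0000007f0000007f000000df0000007e0000003e 12 8) 0 0 (step_sound _ 133 [rh15010f3d03799400, (rh50fbb5868c909700.shift 5 1)] (by decide +kernel))
noncomputable def rh9d41e8fb7d8ceb2b : CRef := CRef.mk (Pat.mk 0x280000000800000020000000a00000000000000000 0x140000007c00000066000003ff000001fe000001ef000000be0000009f00000014 12 10) 0 0 (step_sound _ 133 [(rh0363d47a46978688.shift 2 2), (rh5506f995a9bf9dda.shift 0 1), (rhc16db94c2420f4f5.shift 2 2), rhc3f8e6f9e904f136, (rhcd53fe1d9841e238.shift 0 1), (rhd90f8139b586504a.shift 0 1)] (by decide +kernel))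
noncomputable def rhd19f141fbbf87f2f : CRef := CRef.mk (Pat.mk 0x10000000100000005000000040 0x28000000380000003e000001fe000001ff000000ff000000de000000f000000060 12 9) 0 0 (step_sound _ 132 [(rh10a3be08b60d4ae4.shift 1 0), (rh1741680720c097b4.shift 3 1), rh41cbc986b09b21f2, (rh67d938f56e893c6d.shift 1 0), (rhe36b351fe63a9d07.shift 3 1)] (by decide +kernel))
noncomputable def rh92fc781aa7848296 : CRef := CRef.mk (Pat.mk 0x20000000a000000080000000000000000000000000 0x100000007800000078000001ff000001ff000003ff000001bf000001f0000000bc000000700000007000000050 12 10) 0 0 (step_sound _ 197 [(rh1036ef1bb64c057b.shift 0 3), (rh3d74cb0875159354.shift 2 2), (rh4693c226a158db91.shift 0 3), (rhccc24bb617e02ce7.shift 3 2), (rhce06afc75d167ddd.shift 2 0), (rhe70c0e03ffd39081.shift 1 2)] (by decide +kernel))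
noncomputable def rh83d6e1245dd851e5 : CRef := CRef.mk (Pat.mk 0x400000014000000540000000000000000 0xa0000007e000000fe000001f4000000ff0000005c0000004800000040 12 9) 0 0 (step_sound _ 162 [(rh0d31c529c011c9c2.shift 0 1), (rh1741680720c097b4.shift 1 2), (rh6e6a6def41d4255d.shift 1 0)] (by decide +kernel))
noncomputable def rhd22a16d53a3c3a43 : CRef := CRef.mk (Pat.mk 0x100000005000000040000000000000000000000000 0x28000000fe000000ff0000007e0000001e000000dc0000007f0000003e0000003f00000038 12 8) 0 0 (step_sound _ 100 [(rh480f832e5144f1ce.shift 3 2), rh60e6b4e21be3afbb, (rh6719bb0a99ed7ef8.shift 0 2), rh7838ab7b7f8155fa, (rhaf6a37ca66e6ff15.shift 2 0), (rhdde85ec25c03aff7.shift 0 2)] (by decide +kernel))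
noncomputable def rhfafc97c0ded5ecb6 : CRef := CRef.mk (Pat.mk 0x4000000010000000500000014000000000 0x800000178000007f8000007ff000007fe000003ff000007d8000001d80000014800000100 12 11) 0 0 (step_sound _ 135 [(rh14d693b96637ac50.shift 5 0), (rh461c4729b5292881.shift 2 1), (rh5025e20943aa4aff.shift 4 0), (rh63393d4493995865.shift 3 1), (rhb27df01274c24362.shift 0 1), (rhca99adcba0ac6e83.shift 3 1)] (by decide +kernel))
noncomputable def rh2b0a26418625f71c : CRef := CRef.mk (Pat.mk 0x500000004000000140000000000000000000000000 0x20000000fc000000fc000000fc000007ff000003fe0000035f00000158000003800000038000000280 12 11) 0 0 (step_sound _ 165 [(rh1737b96c90e9c88d.shift 2 3), (rh2744c52d6ab7462d.shift 0 3), (rh5206030f3fbee799.shift 3 0), (rhcea00c89c1b94c73.shift 2 3), (rhe06e0055f4893bda.shift 2 0), (rheed586b219c48754.shift 2 3)] (by decide +kernel))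
noncomputable def rh7d2897913388c861 : CRef := CRef.mk (Pat.mk 0x700000004000000100000000000000000000000000 0x140000001c0000001c0000031f000003fe0000037f0000011c000003880000038800000280 12 10) 0 0 (step_sound _ 163 [(rh21460d2d48a35cb8.shift 2 3), (rh36eba2a3de447758.shift 0 4), (rh6c210e68b7b06e84.shift 2 0), (rhaeebc73f5a9c796a.shift 2 4), (rhf7b439ef283c3027.shift 2 3), (rhfef4d340dcd2f9e6.shift 2 1)] (by decide +kernel))
noncomputable def rhbacf9b5dee546c0d : CRef := CRef.mk (Pat.mk 0x400000005000000040000001400000000000000000 0x140000001c0000005c0000077f000003fe0000037f0000017c0000013c0000001c 12 11) 0 0 (step_sound _ 69 [(rh932754581e0f4330.shift 5 1), rhaaf4c5a83a14b476] (by decide +kernel))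
noncomputable def rh2897c7716630d2a9 : CRef := CRef.mk (Pat.mk 0x1000000014000000100000001000000000 0x500000007000000070000000f0000001f000000ff0000001f0000001f0000000e 12 8) 0 0 (step_sound _ 131 [(rh50fbb5868c909700.shift 3 1), rhd19445d450c5bf4b] (by decide +kernel))
noncomputable def rh70a7fd599c4b7e94 : CRef := CRef.mk (Pat.mk 0x20000000700000004000000100000000000000000000000000 0x37f000003fe0000037f00000100000003800000038000000280 12 10) 0 0 (step_sound _ 163 [(rh36eba2a3de447758.shift 0 4), (rh6765e7960b108c8d.shift 2 4), (rh6c210e68b7b06e84.shift 2 0), (rhb103f40a53fe1424.shift 0 4)] (by decide +kernel))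
noncomputable def rh11fab72d21f182d5 : CRef := CRef.mk (Pat.mk 0xc000000180000001000000000000000000000000000000000 0xc0000000c0000000f0000001f0000001f0000000f0000000f0000000f00000005 12 5) 0 0 (step_sound _ 227 [(rh2145e1d24b96a57e.shift 3 4), rh500a0662fd00e438] (by decide +kernel))
noncomputable def rh38b7715d163bb09b : CRef := CRef.mk (Pat.mk 0x600000004000000058000000400000000000000000 0x140000009c000000dc000000fc0000004f0000005f0000005f0000001f00000014 12 8) 0 0 (step_sound _ 199 [(rhbaefcd01e0a8bca3.shift 6 2), rhdec5f5154b510ead] (by decide +kernel))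
noncomputable def rhe89524187d4c5895 : CRef := CRef.mk (Pat.mk 0x200000004000000058000000400000004000000000 0x140000009c000003fc000000fc0000004f000000de000000df0000007e00000034 12 10) 0 0 (step_sound _ 166 [(rh50fbb5868c909700.shift 5 2), rh68fdaa55de536249] (by decide +kernel))
noncomputable def rhbc5c69ef4f7b9724 : CRef := CRef.mk (Pat.mk 0x60000000400000005000000040000000000000000000000000 0xa0000000f4000000fc000000de0000007c000000cf000000ff000000df0000001f0000001c0000000c 12 8) 0 0 (step_sound _ 131 [(rh5e21dc1349369cd1.shift 1 3), (rh61d3268fb48026c7.shift 0 1), rh8d17ea6ca9e19b1b, (rhabf575676fe0ef70.shift 3 3), (rhb3f0701341c741cf.shift 1 3)] (by decide +kernel))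
noncomputable def rhd00181336fa557fc : CRef := CRef.mk (Pat.mk 0x500000004000000140000000000000000000000000 0x6c0000006c000007ef000003fe000003ff0000017c000003bc0000039c00000280 12 11) 0 0 (step_sound _ 165 [(rh3d598b469b6347ec.shift 2 0), (rh8ee80cc30e93a344.shift 3 4), (rhab3233772ef8317a.shift 0 4), (rhf21446266911d911.shift 0 1)] (by decide +kernel))
noncomputable def rh7cd4c573dd7b0df4 : CRef := CRef.mk (Pat.mk 0x7000000040000000400000000000000000 0x2c0000002c0000006f000000fc000000dc0000005c0000000c0000000c 12 8) 0 0 (step_sound _ 131 [rh6fd867ea99738df9, (rhe25b0a99195a5d59.shift 3 3)] (by decide +kernel))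
noncomputable def rh1a3ab75b47e8060e : CRef := CRef.mk (Pat.mk 0x100000003800000020000000a0000000000000000000000000 0x60000000e0000001e0000001b000001ff800000fff00000ebc000000980000009000000010 12 13) 0 0 (step_sound _ 134 [(rh1327381b6fd21075.shift 3 3), (rh156eb79819174918.shift 3 1), (rh4a0b10776449c3e9.shift 3 4), rh5562baa248aa8ec3] (by decide +kernel))
noncomputable def rh3e921051294793ce : CRef := CRef.mk (Pat.mk 0x100000004000000140000000000000000000000000 0x20000000f4000000fc000007fc000007ff000007fe000003ff00000178000003b80000038000000280 12 11) 0 0 (step_sound _ 166 [(rh259594e5f77e420d.shift 1 2), (rh533411438779268a.shift 1 3), (rh556de5ec9b2d68fe.shift 3 2), (rh58aa0f1f57f8922a.shift 0 2), (rh8b9a943c3a976d77.shift 4 2), (rhc2bfc4647e7fad83.shift 1 0), rhcda733e664dc241d, (rhe7fefc1c2b0ff176.shift 3 2)] (by decide +kernel))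
noncomputable def rhea0250906b192214 : CRef := CRef.mk (Pat.mk 0x10000000100000001000000000 0x800000038000000380000003f0000003e0000007f0000001e0000007e00000028 12 7) 0 0 (step_sound _ 132 [(rh641b5241be04eec6.shift 1 0), (rh771d065bdc85bf2d.shift 3 0), (rh916fd83c93fa81d6.shift 3 1), (rhc85cc95794737cf7.shift 3 1), rhfce4c0ac793fb0d9] (by decide +kernel))
noncomputable def rh7f169489bbf2368b : CRef := CRef.mk (Pat.mk 0x8000000280000000800000000 0x40000001c0000001c000000ff0000007e0000006f0000002f0000003f00000014 12 8) 0 0 (step_sound _ 131 [rh43e17233bc8c8527, rh641b5241be04eec6, (rh771d065bdc85bf2d.shift 2 0), (rh916fd83c93fa81d6.shift 2 1), (rhc85cc95794737cf7.shift 2 1)] (by decide +kernel))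
noncomputable def rh7987029cc7109c6c : CRef := CRef.mk (Pat.mk 0x8000000080000000800000000 0x140000001c000000ff0000007e000000ef0000001f0000000f00000005 12 8) 0 0 (step_sound _ 131 [(rh1726a00b0a8befd0.shift 2 0), (rh20966da26a1c2ae8.shift 2 0), (rh771d065bdc85bf2d.shift 2 0), rh92bc9df16c16dde4, (rhc85cc95794737cf7.shift 2 1), (rhf515f701b82bbaa6.shift 2 1)] (by decide +kernel))
noncomputable def rh3515a6088c4873a9 : CRef := CRef.mk (Pat.mk 0x10000000100000005000000030000000000000000000000000 0x3a0000001f0000000f80000005e000000fe000001cf0000008000000080 12 10) 0 0 (step_sound _ 102 [(rh2adc10e881b75de7.shift 0 2), (rh53a9eca71b4a4b8f.shift 3 0), (rha9fbfd4bb8cf890b.shift 1 3), (rhbade80ace3bf6db0.shift 3 2)] (by decide +kernel))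
noncomputable def rh701b35b7b7005e75 : CRef := CRef.mk (Pat.mk 0x1000000010000000500000000000000000 0x20000001fe000000ff000000fe0000005e0000007e00000028 12 9) 0 0 (step_sound _ 36 [(rh20966da26a1c2ae8.shift 3 0), (rh230196991b533796.shift 1 1), (rh43e17233bc8c8527.shift 1 0), (rh641b5241be04eec6.shift 1 0), rhe9122a9cf4b5d1f2] (by decide +kernel))
noncomputable def rh75416682326a5a90 : CRef := CRef.mk (Pat.mk 0x800000008000000280000000000000000 0x1400000054000001f7000001ff000001ff0000002f0000003f00000034 12 9) 0 0 (step_sound _ 132 [(rh26d04e8003f98805.shift 1 1), rh514ceb29bd7d4a6c, (rhb730ba14aa32bdb3.shift 3 1), (rhe0c8a49b739e3452.shift 0 1), rhffe41da2caae0c32] (by decide +kernel))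
noncomputable def rhde159e34f1c3ac5f : CRef := CRef.mk (Pat.mk 0x3000000020000000a000000000 0x540000007c0000007c000003af000001fe000001ff000000bc00000090 12 10) 0 0 (step_sound _ 99 [(rh8ee80cc30e93a344.shift 2 2), (rha0ae8adeb1dbcf8d.shift 0 2), (rhb4bd6cea51d47044.shift 2 0), (rhe1c94bc136835872.shift 0 2)] (by decide +kernel))
noncomputable def rh2426ded2c0f0bc09 : CRef := CRef.mk (Pat.mk 0x3800000010000000100000001800000000 0x8000000080000001c7000000fe000000f70000003e0000001e00000002 12 9) 0 0 (step_sound _ 130 [(rh775ca1963e850b80.shift 0 3), (rh9a484578565e3d8f.shift 1 0), (rha03f6e28ea70fc7d.shift 1 3)] (by decide +kernel))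
noncomputable def rh72b5c60c0860ad4e : CRef := CRef.mk (Pat.mk 0x8000000080000000a0000000a0 0x40000001c0000001c000000180000001ce000000fe000000bf 12 9) 0 0 (step_sound _ 136 [rh75787c8d3c1d7ea2, (rhbaefcd01e0a8bca3.shift 7 0)] (by decide +kernel))
noncomputable def rh5c63dfc97ba138aa : CRef := CRef.mk (Pat.mk 0x4000000050000000500000000000000000 0x20000000e0000000f0000000f70000077e000003ff0000075e0000005800000010 12 11) 0 0 (step_sound _ 166 [(rh414ed91891327210.shift 2 1), (rh8a78ef136019c5a7.shift 1 0), (rhad57a9bda30f13b4.shift 0 1), (rhc85cc95794737cf7.shift 5 2), (rhc8d6a9190a731122.shift 1 2)] (by decide +kernel))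
noncomputable def rh2c422ebae866166c : CRef := CRef.mk (Pat.mk 0x7000000050000000100000000000000000 0x140000007f000000dc0000001f0000003f0000003c 12 8) 0 0 (step_sound _ 131 [rh708a0dda30fd00d2, (rhe25b0a99195a5d59.shift 3 3)] (by decide +kernel))
noncomputable def rh0a2762235caac826 : CRef := CRef.mk (Pat.mk 0x4000000010000000100000003c00000000 0x370000007e000000ff0000001e0000007c00000006 12 8) 0 0 (step_sound _ 66 [(rh3244c3cc8379b070.shift 1 1), rhf31550b8f77df993] (by decide +kernel))
noncomputable def rh289e7b405b14ab8d : CRef := CRef.mk (Pat.mk 0x8000000020000000a0000000000000000000000000 0x140000001c0000001c000001fde00000ffe00000ebf000001e0000001c000000140 12 13) 0 0 (step_sound _ 135 [(rh046e4bc34261e00b.shift 2 3), (rhb1810a69c36c5fc3.shift 0 2), (rhbe48ac153b8e0fe1.shift 2 0), (rhca1c8166938286b3.shift 4 0), (rhdee67538b8dccf39.shift 6 0)] (by decide +kernel))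
noncomputable def rhdc328f7b00e1727e : CRef := CRef.mk (Pat.mk 0x1000000050000000100000005000000000 0xd0000000d0000001f8000001f7000001fe000001d70000005000000040 12 9) 0 0 (step_sound _ 133 [(rh2f68792b6b779e96.shift 4 1), rhca66f4c6f90aa778] (by decide +kernel))
noncomputable def rh4e851b6ebc4f8566 : CRef := CRef.mk (Pat.mk 0x80000000a0000000a0000000200000004 0x1000000170000001f0000001e0000001b0000000f0000000b0000000700000005 12 5) 0 0 (step_sound _ 129 [rh8e63339404270500, (rhd3458b32566d63f7.shift 1 0)] (by decide +kernel))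
noncomputable def rh52fc37bd7c94eb65 : CRef := CRef.mk (Pat.mk 0x40000000500000005000000000000000200000000000000000 0x8000000b8000000f8000000f0000000d0000000d000000058000007be000003fe000007ef00000020 12 11) 0 0 (step_sound _ 100 [(rh2977b00063528966.shift 4 0), (rh5708af4e6616f576.shift 3 2), (rhcf7ca03edf95ab5e.shift 0 1), (rhfa80626feb4e9cb5.shift 1 1)] (by decide +kernel))
noncomputable def rhfcad740ef95ac54a : CRef := CRef.mk (Pat.mk 0x40000000500000005000000000000000200000000000000000 0x8000000b8000000f8000000f0000000d8000000d800000058000007be000003fe000007ff00000008 12 11) 0 0 (step_sound _ 100 [(rh5708af4e6616f576.shift 3 2), (rha822df604b29e217.shift 3 0), (rhcf7ca03edf95ab5e.shift 0 1), (rhdda46eaef4f805d4.shift 3 1)] (by decide +kernel))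
noncomputable def rh61898c01e5490b5f : CRef := CRef.mk (Pat.mk 0x4000000010000000500000000000000030000000000000000000000000 0x800000008000000fce000007fc0000075e000001df000000fe000001e7000000a0000000a0 12 12) 0 0 (step_sound _ 102 [rh3a26a2cda916dbc7, (rh4c6d4acee4521ac6.shift 1 2), (rh87cae43ec75ccfe5.shift 4 0), (rh97196c20c5ef9c43.shift 2 0)] (by decide +kernel))
noncomputable def rhcf1122761281665a : CRef := CRef.mk (Pat.mk 0x4000000010000000500000000000000030000000000000000000000000 0x800000008000000fce000007fc0000075e000003cf000007fe000003ff000000a0000000a0 12 12) 0 0 (step_sound _ 102 [(rh08507aaa15bb1ebe.shift 1 0), (rh24b8163f8e92971b.shift 3 0), (rh255289a23d06b3ef.shift 2 0), (rh27a3aeb0baaf99c8.shift 0 1), rh3a26a2cda916dbc7, (rh445f9fd0b32326e2.shift 2 2), (rh5eaf526b3de431bb.shift 2 2), (rhcdbd27adafa32905.shift 3 0)] (by decide +kernel))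
noncomputable def rh974101330c56d755 : CRef := CRef.mk (Pat.mk 0x20000000000000000000000070000000000000000000000000 0x100000007c0000001f000000ce0000007c000000fe0000007c00000074 12 8) 0 0 (step_sound _ 99 [(rh0d378fd9e8917c5a.shift 1 2), (rh185f35b8bd8ec37f.shift 1 2), rh216b5c228f86127d, (rh592c7139d2c44767.shift 1 2)] (by decide +kernel))
noncomputable def rhedea73c37a9d00cf : CRef := CRef.mk (Pat.mk 0x20000000080000002800000000000000100000000000000000000000000000000000000000 0x2c0000002c0000002f0000007f0000007c0000001c0000001c0000001c0000001c00000014 12 7) 0 0 (step_sound _ 195 [(rh2164750057dbdc82.shift 2 0), (rha822df604b29e217.shift 2 3), (rhc0a1c169924b4cc9.shift 0 3), (rhf5d22310555a63fd.shift 0 5), (rhfa80626feb4e9cb5.shift 0 4)] (by decide +kernel))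
noncomputable def rh6edbc39da98141f8 : CRef := CRef.mk (Pat.mk 0x600000005000000050000000000000000000000000 0x200000002000000070000000700000007000000050000007be000003fe000007ef 12 11) 0 0 (step_sound _ 197 [rh1fb8062748eeb01e, (rh751f91025c6ba4fe.shift 4 3), (rhc89253ff58c66167.shift 5 3), (rhd918c3fd221dc9f8.shift 4 2)] (by decide +kernel))
noncomputable def rhdf1a34d6da0a3126 : CRef := CRef.mk (Pat.mk 0x80000000a0000000a0000000800000000 0x100000001c0000003c000000fc000000f8000000fe000000cb000000de00000014 12 8) 0 0 (step_sound _ 163 [(rh44f453b84f013105.shift 3 1), (rhc85cc95794737cf7.shift 2 2), (rhd7142fa124f2e558.shift 1 1), rhd7a83ac45380d426] (by decide +kernel))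
noncomputable def rhb37e496b881e8d43 : CRef := CRef.mk (Pat.mk 0xa0000000a0000000800000018 0x50000001f0000007b0000001f0000000e0000000b0000001f00000019 12 7) 0 0 (step_sound _ 131 [rh2f524b4d4cc97e7b, (rhd3458b32566d63f7.shift 3 0)] (by decide +kernel))
noncomputable def rh054f9f89b635b0dd : CRef := CRef.mk (Pat.mk 0x80000000a0000000a000000080000000000000000 0x100000001d0000003f000000ff000001fb000000fe000000eb000000cb0000000100000001 12 9) 0 0 (step_sound _ 195 [(rh44f453b84f013105.shift 3 2), (rhc85cc95794737cf7.shift 2 3), (rhd7142fa124f2e558.shift 1 2), rhff5fad5932d0d1ad] (by decide +kernel))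
noncomputable def rh7da5ed243b18efb8 : CRef := CRef.mk (Pat.mk 0x300000004000000050000000500000006000000000 0xf0000007e000000de000000f40000005e000000f800000080 12 8) 0 0 (step_sound _ 39 [(rh24fba01abbde26a4.shift 0 1), (rh55afc6a59410cf00.shift 6 0)] (by decide +kernel))
noncomputable def rh625c285462413ee6 : CRef := CRef.mk (Pat.mk 0x800000028000000200000000000000000000000000000000000000000 0x140000001c0000001c000000fc000000f80000002f0000007c0000003f0000003c0000001c0000001c00000010 12 8) 0 0 (step_sound _ 163 [(rh1465a2189fee1c4d.shift 2 2), (rh1b589b9e060c2166.shift 0 2), (rh2b86dc46c3654f23.shift 0 3), (rh40df8b1665a3e8cc.shift 0 2), rh4fc0bb12b8c5055c, (rh9cf7297d06ed1243.shift 2 1), (rhc39dfeda05298619.shift 2 3), (rhecd2b5754911b5ae.shift 2 1)] (by decide +kernel))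
noncomputable def rh3ccedd098acf4a51 : CRef := CRef.mk (Pat.mk 0x50000000500000004000000000000000000000000000000000000000000000000 0x20000000a0000000f0000000f00000007000000050000001d0000001c000000180000007e0000007e0000007c00000014 12 7) 0 0 (step_sound _ 163 [(rh1148744b53f3df58.shift 1 5), (rh2f7ef8ef5c94975a.shift 2 3), (rh5f37a847c47cc606.shift 1 0), (rh97287192a614633b.shift 0 4)] (by decide +kernel))
noncomputable def rh410472a287ea826d : CRef := CRef.mk (Pat.mk 0x80000000000000004000000040000001000000030 0x140000001c0000001c000000fc0000007f000000ff0000001e0000001e0000000e00000004000000060000001e00000032 12 8) 0 0 (step_sound _ 130 [(rh63115c26214a9f23.shift 1 1), (rh642171e5aebd4b20.shift 1 0), (rh7fc1d0f831250528.shift 0 2), (rhe725dc3652d25389.shift 1 0)] (by decide +kernel))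
noncomputable def rha18924caf01d17d6 : CRef := CRef.mk (Pat.mk 0x14000000140000001000000010000000000000000000000000 0xa0000000e0000000e000000260000003c00000016000000160000001f0000003e0000003f00000020 12 6) 0 0 (step_sound _ 197 [rh267d70b2e3a2a860, (rh2f68792b6b779e96.shift 4 3)] (by decide +kernel))
noncomputable def rh440767460c71fff6 : CRef := CRef.mk (Pat.mk 0x2000000000000000100000005000000040000000400000002000000000 0x500000007000000070000003f0000001fc000003fc000000780000007c0000003f000000100000005000000058000000580000007800000020 12 10) 0 0 (step_sound _ 196 [(rh7c529692b3fb6705.shift 0 3), (rh7fc1d0f831250528.shift 2 4), (rhf151fd3e6880011e.shift 3 0)] (by decide +kernel))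
noncomputable def rh65e3c5ef69112882 : CRef := CRef.mk (Pat.mk 0x4000000140000001400000010 0x140000001c0000001c000000fc0000007f000000ff0000003e0000003e0000007c0000003c0000001600000014 12 8) 0 0 (step_sound _ 131 [(rh24b8dfc83bedcbb9.shift 1 0), (rh7fc1d0f831250528.shift 0 1), (rh81a0b468accb8b7e.shift 2 0), (rh87d5e4118780fa3b.shift 2 0)] (by decide +kernel))
noncomputable def rhe114cf0231804632 : CRef := CRef.mk (Pat.mk 0x2000000010000000100000001000000000 0x140000001f0000003f0000003f0000000c0000003c000000fc000000100000001000000010 12 8) 0 0 (step_sound _ 131 [(rh2e02ae96d64880aa.shift 3 0), (rh31d81ec3b53cdf47.shift 0 1), (rh6a53fb15660216ce.shift 2 0)] (by decide +kernel))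
noncomputable def rh9514f7a194ef62aa : CRef := CRef.mk (Pat.mk 0x2000000020000000a0000000a00000000000000000000000000000000000000000000000000000000 0x40000001f0000001f0000001b0000001a0000000a0000001f0000007d0000001c0000001c0000001c0000001c0000001c00000014 12 7) 0 0 (step_sound _ 352 [rh55945a3c0e03a20a, (rhffd04209dc8ea796.shift 0 7)] (by decide +kernel))
noncomputable def rhecd65db65d414e8a : CRef := CRef.mk (Pat.mk 0x200000002000000020000000a0000000a00000008000000000000000000000000000000000000000000000000 0x1000000130000001e0000001a0000000a0000001b0000001d0000001c0000001c0000001c0000001c0000001c00000014 12 5) 0 0 (step_sound _ 352 [(rh50fbb5868c909700.shift 0 8), rh63130a3536013105] (by decide +kernel))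
noncomputable def rh5896c00bf8efa07d : CRef := CRef.mk (Pat.mk 0x2000000020000000a0000000a00000000000000000000000000000000000000000000000000000000 0x1000000130000001f0000001a0000000a0000001f0000007d0000001c0000001c0000001c0000001c0000001c00000014 12 7) 0 0 (step_sound _ 352 [rh0cb4918646a60f96, (rhffd04209dc8ea796.shift 0 7)] (by decide +kernel))
noncomputable def rh0c65c6d3034bcb6f : CRef := CRef.mk (Pat.mk 0x20000000a0000000a0000000000000000000000000 0x500000007a000000fe000000ae000000bf000001fe000003bf0000011e00000108 12 10) 0 0 (step_sound _ 197 [(rh1741680720c097b4.shift 4 3), (rh20966da26a1c2ae8.shift 4 2), (rh66ce8e2e4596b00e.shift 1 1), rhe98c05360254c9f9] (by decide +kernel))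
noncomputable def rh011bb5d09274dbc9 : CRef := CRef.mk (Pat.mk 0xe0000000a00000008000000000000000000000000000000000000000000000000 0x500000007000000070000000b0000001e0000000b0000003f0000003b00000031000000fc000000fc000000f800000028 12 8) 0 0 (step_sound _ 164 [(rh2f7ef8ef5c94975a.shift 3 3), (rh5f37a847c47cc606.shift 2 0), (rhc0ceadf7175d46f3.shift 0 4), (rhf3770dceca190196.shift 0 4)] (by decide +kernel))
noncomputable def rh90eec72597e59a19 : CRef := CRef.mk (Pat.mk 0x1a0000000a00000008000000000000000000000000000000000000000000000000 0x500000007000000070000000b0000001e0000000b0000003f0000003b00000031000000fc000000fc000000f800000028 12 8) 0 0 (step_sound _ 164 [(rh09715d74987d9263.shift 0 4), (rh2f7ef8ef5c94975a.shift 3 3), (rh54ec97cf73b00746.shift 0 4), (rh5f37a847c47cc606.shift 2 0)] (by decide +kernel))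
noncomputable def rh9f27ad3c3db2aed0 : CRef := CRef.mk (Pat.mk 0x20000000a0000001a00000002000000000000000000000000 0x1000000070000001f0000000e0000000a0000001a00000013000000170000001f00000004 12 5) 0 0 (step_sound _ 226 [(rhbaefcd01e0a8bca3.shift 1 3), rhbd69a6bab0d8e958] (by decide +kernel))
noncomputable def rh439348b29f09b570 : CRef := CRef.mk (Pat.mk 0xc00000018000000000000000000000000 0x10000000700000003f0000001f0000003b0000001f0000001f 12 7) 0 0 (step_sound _ 129 [rh90813c28e8c3eaee, (rhb739f4f82bb681b4.shift 0 3)] (by decide +kernel))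
noncomputable def rh85f55c0c641498ff : CRef := CRef.mk (Pat.mk 0x20000000a0000000a00000002000000000000001000000000 0x10000000700000007000000060000000a0000000e0000001f0000001b0000001f00000014 12 5) 0 0 (step_sound _ 64 [rh0e3ad85fba037b12, (rh79877ebd3ef475dd.shift 0 2)] (by decide +kernel))
noncomputable def rh87a46843a58abff6 : CRef := CRef.mk (Pat.mk 0x4000000040000001400000014000000000000000000000020000000000000000000000000 0x20000000e0000000c0000001400000074000001ff000000fe000001ff000001fa000001f000000050 12 9) 0 0 (step_sound _ 321 [rhf8bd75d28b6ffdb0, (rhffd04209dc8ea796.shift 1 6)] (by decide +kernel))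
noncomputable def rh8765bb6962ee66aa : CRef := CRef.mk (Pat.mk 0x4000000040000001400000014000000000000000000000020000000000000000000000000 0x80000000e0000000e00000006000000040000001400000074000001ff000000fe000001ff000001fa000001f000000050 12 9) 0 0 (step_sound _ 321 [rha8dddda3ddb5b336, (rhffd04209dc8ea796.shift 1 6)] (by decide +kernel))
noncomputable def rh79673049c70a3528 : CRef := CRef.mk (Pat.mk 0x400000004000000000000000800000008000000000000000000000000 0x400000016000000370000007f0000007f0000007f0000001e0000000e 12 7) 0 0 (step_sound _ 130 [rh8dab18a763594d99, (rhff0f29cb645b05f7.shift 2 3)] (by decide +kernel))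
noncomputable def rhacf27d7ecb361a31 : CRef := CRef.mk (Pat.mk 0x14000000140000001000000000000000000000000000000000 0xa0000002e0000003f0000003e0000003400000016000000370000003f0000003f0000003f00000020 12 6) 0 0 (step_sound _ 100 [(rh8cdd36b03d57a2f6.shift 3 1), rhaca7a15e78d4bcbd, (rhced6d86d2069808b.shift 4 2), (rheb1ceab7138da14f.shift 0 2)] (by decide +kernel))
noncomputable def rh2fa818e255454284 : CRef := CRef.mk (Pat.mk 0x60000000400000014000000040000000000000000000000000 0x14000000dc000002dc000003df0000037e000003ff0000017c000003dc000007c00000020000000200 12 11) 0 0 (step_sound _ 196 [(rh3918eeb6c53434d8.shift 1 5), (rh4b2e884c21f53df1.shift 4 0), (rhc21a95c499b3efdb.shift 3 5), (rhecd62797750141f6.shift 0 3)] (by decide +kernel))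
noncomputable def rhd7abbda977018660 : CRef := CRef.mk (Pat.mk 0x180000001000000018000000100000000000000000 0x500000017000000170000003f0000001f0000001f000000f70000003700000005 12 8) 0 0 (step_sound _ 131 [(rh7b1f1fb55310c477.shift 3 1), rhe5bfb9437c2f0af8] (by decide +kernel))
noncomputable def rh2f880cbb53e08c67 : CRef := CRef.mk (Pat.mk 0x80000002800000008000000080000000000000000 0x68000000780000002f000000ff000000fb0000001f0000000e 12 8) 0 0 (step_sound _ 68 [rh430dec2ad0bae7fe, (rh55afc6a59410cf00.shift 3 1)] (by decide +kernel))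
noncomputable def rh49c6652189567fe5 : CRef := CRef.mk (Pat.mk 0x2000000020000000200000000000000000000000000000000000000000 0xc0000001c0000003e000001fe0000003e0000007f0000003e0000007a000000700000007000000010 12 9) 0 0 (step_sound _ 133 [(rh265bb43eb0a2acb6.shift 0 3), (rh713d96f87d124bea.shift 4 0), (rh771d065bdc85bf2d.shift 4 3), (rhc850b49d039efae1.shift 4 1)] (by decide +kernel))
noncomputable def rhc545f1b1bbe09e03 : CRef := CRef.mk (Pat.mk 0x10000000100000001000000010000000000000000000000000 0x100000003c0000001f000000ff0000007f0000001e0000001600000004 12 8) 0 0 (step_sound _ 99 [(rh932754581e0f4330.shift 3 2), rhdb0085afabd33c23] (by decide +kernel))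
noncomputable def rh565051d0be2128bb : CRef := CRef.mk (Pat.mk 0x8000000280000000e00000000000000000000000000000000 0x260000002e0000002f0000007e000000f7000000570000005700000003 12 8) 0 0 (step_sound _ 132 [rh099b3cc5a12811dd, (rh58fd1360b5efe236.shift 0 1), (rh69c7d98448d875c4.shift 0 1), (rhafa5a7051d37b143.shift 0 1), (rhe401600d466b97cd.shift 0 3)] (by decide +kernel))
noncomputable def rh500e8e32c5039539 : CRef := CRef.mk (Pat.mk 0x400000004000000040000000f000000000 0x270000007e000000ef0000005c000000fc0000000e 12 8) 0 0 (step_sound _ 133 [(rh50fbb5868c909700.shift 5 1), rhc97e819cd8df4d40] (by decide +kernel))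
noncomputable def rh3983708374ca6859 : CRef := CRef.mk (Pat.mk 0x40000000100000005000000000000000000000000000000000 0x50000001f0000001f8000001fc000007fe000003f00000077c0000005e000000fc000000ff000000bc00000028 12 11) 0 0 (step_sound _ 197 [(rh035207063b46f438.shift 0 1), (rh61708dcefb066dc4.shift 2 1), (rh6295f37c6cdf86e0.shift 3 0), (rh824b8ae1ed2d68f4.shift 1 1), (rh83964308f5bd348e.shift 2 2), (rhaff94cf16ca3715b.shift 1 1), (rhc5bed81ac4c582fd.shift 2 1)] (by decide +kernel))
noncomputable def rhcdef7a0263e2a2b9 : CRef := CRef.mk (Pat.mk 0x30000000080000002800000000 0x180000003fe000001f8000003f8000001f0000003fc000001af000001a0 12 10) 0 0 (step_sound _ 102 [(rh1133a91a2b4f94fd.shift 3 0), rh382710c7f3ad1f47, (rhea81e2869d4ce7f3.shift 1 0), (rhf2b3bcf1454375d8.shift 3 2)] (by decide +kernel))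
end Crest.Agent.S0047.Helper85.Cert
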