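import Crest.Agent.Lib.S0047.Helper85CertPL11F0
import Crest.Agent.Lib.S0047.Helper85CertPL11F1
import Crest.Agent.Lib.S0047.Helper85CertPL11F2
set_option autoImplicit false
set_option linter.all false
set_option Elab.async false
namespace Crest.Agent.S0047.Helper85.Cert
open Crest.Agent.S0047.Helper85

noncomputable def rhc8c8cc136b8dc64a : CRef := CRef.mk (Pat.mk 0x8000000020000000a000000000000000000000000000000000 0x170000001700000077000001fee00000ffe00000ebf000001f8000001fe0000017800000050 12 13) 0 0 (step_sound _ 198 [(rh83964308f5bd348e.shift 3 2), (rh9588f9419ecfa885.shift 4 2), (rh9ad09b07c2517f51.shift 4 0), (rhe5c1e6a1be67b92c.shift 4 1), (rheb6d9bd1b12e0bb2.shift 0 1), (rhee9cb52cb74fc61a.shift 2 0), (rhff86be685d26e338.shift 1 1)] (by decide +kernel))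
noncomputable def rh907348e48eff0b3d : CRef := CRef.mk (Pat.mk 0x8000000080000000a0000000800000000 0x10000000b8000000fc000000ee000003ff000001fe000003fe0000006800000060 12 10) 0 0 (step_sound _ 162 [rh23d872c397b0c38f, (rhffd04209dc8ea796.shift 2 1)] (by decide +kernel))
noncomputable def rh2af10517fcd2c852 : CRef := CRef.mk (Pat.mk 0x8000000080000000a0000000a 0x40000001c0000001c00000018000001fc000000fe000000eb 12 9) 0 0 (step_sound _ 132 [rh67c152fc4eb38d3d, (rhbaefcd01e0a8bca3.shift 3 0)] (by decide +kernel))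
noncomputable def rhbc0e0d85af5236a6 : CRef := CRef.mk (Pat.mk 0x40000000100000005000000000000000000000000000000000 0x50000001f8000001f8000001ff000003fe000001f7000003fe0000005800000038000000380000003800000028 12 10) 0 0 (step_sound _ 196 [(rh0552cec30f153125.shift 3 1), (rh0825c1c1dbe7fd72.shift 3 1), (rh0f45755c94e687df.shift 3 3), (rh38e7120abc17d6c6.shift 3 2), (rh535a4b914bcace7f.shift 0 3), (rh5c32f74b30561a7b.shift 3 0), (rhca372d628e9408e6.shift 1 1)] (by decide +kernel))
noncomputable def rh0236f1a43d7f282c : CRef := CRef.mk (Pat.mk 0x180000000400000014000000000000000000000000 0xc0000001ff000000fc000001fc000000f8000001fe000000d4000000f80000003800000028 12 9) 0 0 (step_sound _ 165 [(rh1133a91a2b4f94fd.shift 2 2), (rh46c37df404c3dbe4.shift 1 0), (rhea81e2869d4ce7f3.shift 0 2), (rhf2b3bcf1454375d8.shift 2 4)] (by decide +kernel))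
noncomputable def rh8bbd283e08fec141 : CRef := CRef.mk (Pat.mk 0x300000000800000028000000080000000000000000000000000000000000000000000000000000000000000000 0x3800000038000003ac000001f8000003f800000038000000ff000000fe0000003f000000380000003800000028 12 10) 0 0 (step_sound _ 228 [(rh07c634dd1b7a5168.shift 2 7), rh2abb6842dce7ff31, (rhf48d93cb7a9e42c5.shift 3 6)] (by decide +kernel))
noncomputable def rhf1e09adacd95d2f5 : CRef := CRef.mk (Pat.mk 0x8000000020000000a0000000e0000000000000000000000000 0xa0000008e000000ae000000bf000000fe000001df0000005c00000048 12 9) 0 0 (step_sound _ 70 [rhe4082c71ae985637, (rhee230b994cc8b773.shift 6 2)] (by decide +kernel))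
noncomputable def rhd751dd3da78697de : CRef := CRef.mk (Pat.mk 0x1000000010000000100000001000000000000000000000000000000000 0x60000001f0000001f0000003f0000007f0000001f0000003c0000003800000028 12 7) 0 0 (step_sound _ 100 [(rh376b4ea204b505c0.shift 0 2), (rh47992774edf9829f.shift 3 0), (rh7928877f9bf74a91.shift 3 2), (rhc4526fc8abf298b6.shift 3 1)] (by decide +kernel))
noncomputable def rha3e6def89ff203bd : CRef := CRef.mk (Pat.mk 0x8000000020000000a0000000000000000000000000 0x100000001c0000001c000001fce00000ffe00000ebf000001e0000001c000000140 12 13) 0 0 (step_sound _ 135 [(rh221a3b6963e4af8e.shift 6 0), (rh569774833124f14a.shift 0 3), (rh5d91ec4eb06a1f14.shift 4 2), (rhbd89b23f469d40bb.shift 2 0), (rhdc7e0359e8810232.shift 6 0)] (by decide +kernel))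
noncomputable def rh07aa5574878aeebe : CRef := CRef.mk (Pat.mk 0xc00000002000000020000000200000000000000000000000000000000 0x600000007000000070000000fe0000007c000000f7000000630000006300000003000000070000000700000004 12 8) 0 0 (step_sound _ 228 [(rh1133a91a2b4f94fd.shift 1 4), rh1fcfb3ba8021b3f8, (rhf2b3bcf1454375d8.shift 1 6)] (by decide +kernel))
noncomputable def rh8bb044d582a04cbb : CRef := CRef.mk (Pat.mk 0x100000001000000010000000000000000000000000000000000000000000000000 0x1000000010000000180000001e000000ff000001ff000001fe0000003e000000380000003800000028 12 9) 0 0 (step_sound _ 164 [(rh2b5eeb633cc721d9.shift 1 4), (rh6eff4158bb400f47.shift 3 3), (rh84cefe9a12341663.shift 3 0), (rh977b8e3431a4c8b9.shift 0 1), (rhe84e00c98653ad0c.shift 3 2), (rhf517b930ee0bd92d.shift 3 3)] (by decide +kernel))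
noncomputable def rhb46f5e185a16321b : CRef := CRef.mk (Pat.mk 0x100000001000000010000000000000000000000000000000000000000000000000 0x20000000380000001e000000ff000001ff000001fe0000003e000000380000003800000028 12 9) 0 0 (step_sound _ 164 [(rh2b5eeb633cc721d9.shift 1 4), (rh6eff4158bb400f47.shift 3 3), (rh84cefe9a12341663.shift 3 0), (rh977b8e3431a4c8b9.shift 0 1), (rhcbf9155d627aedf8.shift 3 0), (rhe84e00c98653ad0c.shift 3 2)] (by decide +kernel))
noncomputable def rh5ffca854adc631d0 : CRef := CRef.mk (Pat.mk 0xc00000002000000020000000200000000000000000000000000000000 0x600000007000000070000000fe0000007c000000f7000000630000006300000006000000070000000700000001 12 8) 0 0 (step_sound _ 228 [(rh1133a91a2b4f94fd.shift 1 4), rh4de12cc7feafb128, (rhf2b3bcf1454375d8.shift 1 6)] (by decide +kernel))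
noncomputable def rh8487e5866f07dffa : CRef := CRef.mk (Pat.mk 0x200000004000000050000000500000000000000000 0x2000000538000007b8000007df00001ffe00001ff700003fd8000003580000031800000008 12 14) 0 0 (step_sound _ 164 [(rh558e5df511d3e813.shift 0 4), (rh5e08e0086f0ee4d7.shift 3 1), rh732b3e40045726da, (rha578cc43a6fbb4ca.shift 2 2), (rhcddc3f885aed8b45.shift 0 1), (rhf20b387dc6227e96.shift 3 1)] (by decide +kernel))
noncomputable def rh53841fbf5a4fda33 : CRef := CRef.mk (Pat.mk 0xa000000020000000a000000000000000000000000 0x50000003f0000001f0000001a0000000b0000000b000000070000001f00000004 12 6) 0 0 (step_sound _ 193 [(rh20966da26a1c2ae8.shift 0 2), (rh771d065bdc85bf2d.shift 0 2), (rhc85cc95794737cf7.shift 0 3), rhd5bccbd57600e97d] (by decide +kernel))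
noncomputable def rh7bd960232010427a : CRef := CRef.mk (Pat.mk 0x10000000000000001800000038 0xf0000000f0000003ff000001fe000003ef0000003800000038 12 10) 0 0 (step_sound _ 99 [(rh65e24a3bcc1a4db4.shift 1 0), rh75ee20533cbed044, (rha4c3729e86dabe46.shift 1 0), (rhd727bb41309b6841.shift 3 0)] (by decide +kernel))
noncomputable def rh886fb8e781c1c041 : CRef := CRef.mk (Pat.mk 0x38000000080000002000000000000000000000000000000000 0x20000003a0000003f8000007ef000003fc000003fc000007f0000000f0000000f0 12 11) 0 0 (step_sound _ 165 [(rh223cac958566b247.shift 0 1), (rhc16212a59b74b245.shift 2 5), (rhfb272c37a7e6d965.shift 2 1), (rhfbc1ca2ea0b12028.shift 2 0)] (by decide +kernel))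
noncomputable def rhe91742b6d8a0ce50 : CRef := CRef.mk (Pat.mk 0xe0000000200000002000000000000000000000000 0xb0000001e0000003b000000160000003f0000003700000021 12 6) 0 0 (step_sound _ 164 [(rheb0810cc63b001d8.shift 0 4), rhf95b5f57ba8eab79] (by decide +kernel))
noncomputable def rhef4a6bc6c5a0aee4 : CRef := CRef.mk (Pat.mk 0x700000001000000010000000000000000000000000000000000000000000000000 0x4000000f40000001e000001ff000001ff000003fe0000003e000000380000003800000028 12 10) 0 0 (step_sound _ 227 [(rh18965a982d73c794.shift 3 7), rh80379864434d3262] (by decide +kernel))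
noncomputable def rhc7abf6e6e4d06632 : CRef := CRef.mk (Pat.mk 0x380000002400000020000000000000000000000000 0x200000002000000270000003e00000026000003fc000000fe0000007000000010 12 10) 0 0 (step_sound _ 162 [rh509963cc58cf8c5d, (rheb0810cc63b001d8.shift 1 4)] (by decide +kernel))
noncomputable def rh2755a706e71e623c : CRef := CRef.mk (Pat.mk 0x100000001600000010000000000000000000000000000000000000000000000000 0x1000000010000001d6000000fc000001fe0000002c0000003f0000003f0000001f00000014 12 9) 0 0 (step_sound _ 163 [(rh0e6924d680f6455d.shift 3 3), (rhac4b4763407a46df.shift 1 4), rhb71555a6b2173205, (rhbcae2e20c7a33054.shift 1 5)] (by decide +kernel))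
noncomputable def rh44303c28ce28e491 : CRef := CRef.mk (Pat.mk 0x100000001c0000001000000018000000000000000000000000000000000 0x500000007000000070000000700000013c000003ff0000017e000003ff0000027e0000007e0000007000000050 12 10) 0 0 (step_sound _ 165 [(rh12ce8472f30be717.shift 4 1), (rh3cc5c7fb74c49f61.shift 3 5), (rh4c7897743024df39.shift 4 0), (rh68ad02b8e90471ca.shift 0 2), (rh84da51d48c20e4a0.shift 5 3)] (by decide +kernel))
noncomputable def rhfe251dcbce01b2bd : CRef := CRef.mk (Pat.mk 0x60000000000000000000000000000000000000000000000000 0x7c000002fc000003fc00000fff000007ff00000f7f00001ffc00001fef00001ffe00001fff000007fc000007f4000007a0 12 13) 0 0 (step_sound _ 166 [(rh03f1d8209c245f57.shift 1 1), (rh0f18db4f2786a9ba.shift 1 2), (rh1943c6f8bb2bbefe.shift 2 1), (rh28e125413174a64d.shift 3 2), (rh34afbbb3e5c609fd.shift 3 2), (rh6174a4abf918518f.shift 0 1), (rh63673e828c5c74e7.shift 0 2), (rh718a1d30d026f00d.shift 3 1), (rh732e32887322c6c0.shift 0 1), (rh86f46f9b78e4e0e2.shift 3 0), (rhbde021ecfa320c65.shift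 0 1), (rhbf7fa886fc7c1f70.shift 0 2), (rhdbb9faa3580110fc.shift 0 1), (rhea605459de317132.shift 3 2), (rhf44c7a4ff278a346.shift 1 0)] (by decide +kernel))
noncomputable def rh83346a56aa76925b : CRef := CRef.mk (Pat.mk 0x800000008000000000000000000000000000000000 0x180000001e000000ff000000fff00000ffe000003ff000001fe000007fe000001f000000170 12 12) 0 0 (step_sound _ 103 [(rh21c515c75a34ee27.shift 3 2), (rh2563a3292a85f3a4.shift 1 0), (rh2bd6eac68ba17878.shift 6 0), rh2f2cc37006db624b, (rh6f17b9256963862f.shift 1 2), (rha0210dbdf5da3566.shift 6 0), (rhc51b228efa6e1e60.shift 3 2), (rhd7a3c4bfc334e80a.shift 6 1), (rhe49e5069cfda140c.shift 5 0), (rhe63da7eba5efc110.shift 6 0)] (by decide +kernel))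
noncomputable def rhf16985f42bbf304e : CRef := CRef.mk (Pat.mk 0x2000000020000000000000000000000000000000000000000000000000 0x5000000070000000f0000001fc000007fe00000fff00000ffe00000efe00000ff4000007fc000007fe00000ff8000003f0000000e0 12 12) 0 0 (step_sound _ 166 [(rh08e3a7d76d2c8ee7.shift 2 0), (rh0d3a575f6c586c6a.shift 2 0), (rh29530197077801c0.shift 2 2), (rh481ef30bbe835e7a.shift 3 3), (rh6ab0f5c59826000e.shift 0 1), (rh6c82e4262efdc3f6.shift 2 2), (rhd0d6d0836835962f.shift 1 3), (rhda3feb9760deefdd.shift 1 1), (rhe34f6fbfd95f690f.shift 1 0)] (by decide +kernel))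
noncomputable def rh624195aba71b9a9a : CRef := CRef.mk (Pat.mk 0x2000000020000000000000000000000000000000000000000000000000 0x500000007000000078000000fc000003ff000003ff000007ff00000efe000007f800000ffe000007fc000001f80000017000000040 12 12) 0 0 (step_sound _ 166 [(rh02356b0074e5bf21.shift 2 2), (rh17b5faff96f3ae19.shift 1 1), (rh19f72bc50917cdca.shift 0 1), (rh29530197077801c0.shift 2 2), (rh481ef30bbe835e7a.shift 3 3), (rh6e0209f9e5c754e5.shift 1 2), (rh6f82faffbbd78b01.shift 2 0), (rh8ee1724f3dcc86e9.shift 1 3), (rh924d9412395b7796.shift 1 1), (rhd379251c7ce5c995.shift 1 1), (rhf6982eab5cb52bb8.shift 2 3)] (by decide +kernel))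
noncomputable def rh9b3dbe594f937663 : CRef := CRef.mk (Pat.mk 0x4000000040000000000000000000000000000000000000000000000000 0x80000000e0000000f000000170000007fc000007fc00000ffc000001fe00000fff00001ffe00000ff8000003f0000003e0000000c0 12 13) 0 0 (step_sound _ 167 [(rh0f91da39a40837b9.shift 1 0), (rh183aee3c3a3d4eff.shift 3 1), (rh29530197077801c0.shift 3 2), (rh494ade71cc87cb24.shift 2 2), (rh4eb5e7386843b6f7.shift 2 3), (rh55c97aa7bc205372.shift 2 3), (rh73bd65e40cd33b41.shift 1 3), (rh856d4154e2854976.shift 0 2), (rhb9475829a5af3039.shift 2 1), (rhcc45e619cbfb2d99.shift 1 0), (rhe9304cd9a03537ec.shift 2 3), (rhfb3379892ba89e0b.shift 2 3)] (by decide +kernel))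
noncomputable def rh6fe8f3f4513a6758 : CRef := CRef.mk (Pat.mk 0x4000000040000000000000000000000000000000000000000000000000 0xc0000003d8000007fc000007fc00000ffe00001dfe00000fff00000ffe000007fc000003f0000000e000000080 12 13) 0 0 (step_sound _ 167 [(rh29530197077801c0.shift 3 2), (rh29d4d0775b0127ab.shift 1 0), (rh2b03fa6024475da8.shift 2 2), (rh352a1b7b9da9604c.shift 0 2), (rh65a60470795f0769.shift 3 4), (rh65a7690c50324656.shift 3 3), (rh70e896f05d4641c6.shift 1 0), (rh776483fe5c3a7547.shift 2 1), (rhabbd878bea5d4034.shift 2 2), (rhf67e2539292410f4.shift 2 2)] (by decide +kernel))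
noncomputable def rh62f479ef887fd37c : CRef := CRef.mk (Pat.mk 0x800000008000000000000000000000000000000000000000000000000000000000 0x100000003e000000ff800003fff00001ffe00003bff00001ffc00003ffc000000f0000003fc000001f8000000fc000000a0 12 14) 0 0 (step_sound _ 199 [(rh031bbfba1e359559.shift 4 3), (rh6e37a69632d3e782.shift 0 3), (rh7b729865d1a645d8.shift 2 5), (rh8ed2fe4434b275a4.shift 1 0), (rha35f8e0a2bb7008e.shift 3 4), (rha6f8412b0bd1c191.shift 2 3), (rhd67385e126c2ad0a.shift 2 2), (rhe01769ed1833f8dd.shift 3 5), (rhe63da7eba5efc110.shift 6 3)] (by decide +kernel))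
noncomputable def rh7651e6fed1296f39 : CRef := CRef.mk (Pat.mk 0x4000000040000000000000000000000000000000000000000000000000 0xa0000000e0000000f8000007f800001fff00000ffe000001ff000007fc00000ffc000007d800000ff8000007e0000005a0 12 13) 0 0 (step_sound _ 166 [(rh0d3d5790737c1297.shift 3 2), (rh0f9ada50a82f6aa4.shift 3 0), (rh21eb6bc38546bba6.shift 2 0), (rh2bd6eac68ba17878.shift 5 2), (rh4a6abff2460771df.shift 2 2), (rh52dec3e3d504bde6.shift 0 2), (rh7bcf3b85e71ab52b.shift 2 4), (rha051c27ff639ce9f.shift 5 3), (rhd711011f88fe66a7.shift 0 2), (rhd8ea817e8d9e238d.shift 3 2)] (by decide +kernel))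
noncomputable def rh2417309442d23990 : CRef := CRef.mk (Pat.mk 0x4000000040000000000000000000000000000000000000000000000000 0x20000000e0000000e0000001f00000017c000007fc000007fc00001dfe00000fff00000ffc00000ffc000007f0000007e0000001c0 12 13) 0 0 (step_sound _ 167 [(rh183aee3c3a3d4eff.shift 3 1), (rh22c6019305d6e76d.shift 0 2), (rh29530197077801c0.shift 3 2), (rh53d53b139bfdaa88.shift 2 0), (rh739be68a24c488cc.shift 3 3), (rh7f8280c002585cf4.shift 2 1), (rh856d4154e2854976.shift 0 2), (rhc1315162e4b11c67.shift 2 2), (rhf0ab252bba8e2812.shift 3 0), (rhf5e2f96ffa244e1f.shift 2 2), (rhfe9f479f93c6f455.shift 2 3)] (by decide +kernel))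
noncomputable def rh2fad20a597bcbc60 : CRef := CRef.mk (Pat.mk 0x2000000020000000000000000000000000000000000000000000000000 0x150000001f4000007f4000001fc000007ee000007ff00000fff000000fe000003ff000003fe000000f8000000f80000007000000050 12 12) 0 0 (step_sound _ 261 [(rh0df971942355feb9.shift 2 3), (rh1893cdb6f6ccdd35.shift 2 2), (rh1acff81d41ff3d52.shift 1 1), (rh50f89a5bb02ce629.shift 4 3), (rh5e91ded213f6bf26.shift 0 2), (rh81fd4e969238645c.shift 2 3), (rh90b31fd32324b0c7.shift 0 1), (rh979df1777f5ab1c1.shift 0 3), (rhe3e17a9bbab975ea.shift 2 3), (rhf5eeae9ddecebcc0.shift 1 3), rhfc2078d418835ad5] (by decide +kernel))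
noncomputable def rh821d355b06ec7d3b : CRef := CRef.mk (Pat.mk 0x20000000200000000000000000000000000000000000000000 0x70000000f0000000f0000003fc000001f0000000ff000003fe000003ff000007f80000007000000030 12 11) 0 0 (step_sound _ 133 [(rh2bd6eac68ba17878.shift 4 1), (rh6b31088274069e7a.shift 2 0), (rh6c51f28a6353a183.shift 4 1), (rh82f8ddf41d8ee880.shift 4 1), (rh9ee927930f3687eb.shift 1 2), (rha051c27ff639ce9f.shift 4 2), (rhb442600067673463.shift 2 1), (rhbd8e42be53e6c4d4.shift 0 1)] (by decide +kernel))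
noncomputable def rh54c2ba36da4a5692 : CRef := CRef.mk (Pat.mk 0x40000000400000000000000000000000000000000000000000 0xd0000002fe000003fe000007ff000007fe00001fff00000fff00001dff000003fe00000078000000f8000000f800000080 12 13) 0 0 (step_sound _ 261 [(rh11f91cb5ffc195d9.shift 1 5), (rh58d2b18183ba5155.shift 3 2), rh675d6183bbf1c3fd, (rh685f2ade060610d0.shift 0 1), (rh9eb2895adcc4b22d.shift 1 2), (rhe5011778ee7d071d.shift 0 4), (rhe59ef674744f6e48.shift 4 3)] (by decide +kernel))
noncomputable def rh81b7436f5ba6b9ab : CRef := CRef.mk (Pat.mk 0x2000000020000000000000000000000000000000000000000000000000 0x500000007000000078000001fc000003fe00000fff00000fff00000efe000007ff000007ec000007f0000003f0000003f0000000e0 12 12) 0 0 (step_sound _ 166 [(rh008cd98ef56417ac.shift 2 1), (rh08e3a7d76d2c8ee7.shift 2 0), (rh0de8670a32eebdae.shift 0 4), (rh1c2c105e25276060.shift 1 2), rh29d4d0775b0127ab, (rh3b230451b7f18fa0.shift 1 1), (rh481ef30bbe835e7a.shift 3 3), (rh89c5dc4b14eab66f.shift 1 3), (rh8bc75faa8cc970f1.shift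 3 3), (rhaa1d1a77a1dfe724.shift 2 0)] (by decide +kernel))
noncomputable def rh799a218eccc3686e : CRef := CRef.mk (Pat.mk 0x40000000400000000000000000000000000000000000000000 0xd0000000fe000003fe000007ff000007fe000007fe000007fe000001fe00000fde000007fc00000ffc000000e800000080 12 12) 0 0 (step_sound _ 261 [(rh11f91cb5ffc195d9.shift 1 5), (rh1f33a790a9be3af1.shift 5 2), (rh3a205edd3effe259.shift 1 0), (rh400e35837168e87b.shift 0 4), (rh48b5167a7dbb96bc.shift 2 3), (rh6aa28087eba61340.shift 1 2), (rhe59ef674744f6e48.shift 4 3), (rheb1cae5162975683.shift 1 2)] (by decide +kernel))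
noncomputable def rhf710e94a96024574 : CRef := CRef.mk (Pat.mk 0x8000000080000000000000000000000000000000000000000000000000 0x80000000e0000001f0000001fc000007fc00000ffc000007fc000000ff000007fe000003ff000007fc000007fe00000ff8000001f0000001f000000140 12 12) 0 0 (step_sound _ 294 [(rh1677a069cfaca3ee.shift 5 4), (rh1c5864ba6a80a88a.shift 2 0), (rh3f1935c00006c2aa.shift 3 0), (rh5dc88e7c751e18b2.shift 6 3), (rh6dba34dd37ff2131.shift 5 3), rh8aa6de4408aa3237, (rhbe7c380ea2d774ba.shift 2 6), (rhc200b63a42c540d0.shift 1 0)] (by decide +kernel))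
noncomputable def rh3635388d9c1aa5cf : CRef := CRef.mk (Pat.mk 0x10000000100000000000000000000000000000000000000000 0x2000000038000000f8000001fc000000f0000001fe0000007f000001ff000000f8000000780000003800000020 12 9) 0 0 (step_sound _ 228 [(rh1d8b71b6689807c2.shift 2 2), (rh39c0f6aa80977155.shift 0 2), (rh4ca764e9a8151995.shift 1 2), rh985b5adb50bcbcda, (rhab854d454eb31007.shift 1 2), (rhb0797dbfb9a9e5fd.shift 1 2), (rhb1a32ded43f01f1c.shift 1 2), (rhfa5f84aef41402a1.shift 1 2), (rhfc32ac65700abc92.shift 1 1)] (by decide +kernel))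
noncomputable def rh1c3fe87498a92761 : CRef := CRef.mk (Pat.mk 0x2000000020000000000000000000000000000000000000000000000000 0x5000000078000000f8000000fc00000ffe000007fe000007ff000000fe000003bf000001ff000003ff000000fe0000007e00000078 12 12) 0 0 (step_sound _ 132 [rh06623cc1d7c1dec9, (rh2f7291db46f83cc0.shift 2 2), (rh33a84ee6b32fea22.shift 0 1), (rh4992f32104b66c20.shift 1 4), (rh59dbe3d6f4f4999c.shift 4 2), (rh61fc00658d662274.shift 2 3), (rh762cfde7b1caf460.shift 1 2), (rh88262a6a13a0a534.shift 2 0), rhe143a6a2ce1d6880] (by decide +kernel))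
noncomputable def rh8cb46919fe159bc9 : CRef := CRef.mk (Pat.mk 0x200000002000000000000000000000000000000000 0x140000001c0000001dc000003de00000ffe000007fe00000eff000007fe000007ff000003fe00000050 12 12) 0 0 (step_sound _ 101 [rh47838a18d8ddb4ac, (rh53c1ab5f8de215af.shift 1 0), rh6a5d75c23d85012a, (rhb094fd26524a19cc.shift 1 0), rhb5917a3764ee802b, (rhbbc7b0560c7f44e2.shift 1 0), (rhd3eca1dd253208cf.shift 3 0)] (by decide +kernel))
noncomputable def rhf2b62da864ae5615 : CRef := CRef.mk (Pat.mk 0x2000000020000000000000000000000000 0x3000000170000003fc000007ff000007fe00000fff000000fe000003ff000003dc0000005c 12 12) 0 0 (step_sound _ 165 [(rh071e38ed0477c303.shift 1 1), rh152a5910fe9439df, (rh337eeaf395a498d4.shift 2 0), (rh39c0f6aa80977155.shift 1 0), (rh60122976948ec5f0.shift 3 1), rh8893234df15608fd, (rhc76aab05bbee5e73.shift 2 0), (rhd18d4ad1f3210183.shift 1 2), rhf100a5be02628c29, rhfad3deed74b85a70] (by decide +kernel))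
noncomputable def rh8867207d9c5f4c94 : CRef := CRef.mk (Pat.mk 0x400000004000000000000000000000000000000000 0xe8000000f8000000fc00000fff000007fe00000ffe0000007f000003fe000000ff000000fc000000b4 12 12) 0 0 (step_sound _ 198 [(rh09223ceea187eb2b.shift 4 1), (rh12fda99f2f6128c3.shift 1 1), rh184b0db2d85d196f, (rh30f16ca404da48c3.shift 3 2), (rh60122976948ec5f0.shift 4 2), (rh650dc778d948716e.shift 2 3), (rh755d75faed1ea22f.shift 5 1), rh8de1a62604c1cdd7, (rhcc687d9ea27eb7d4.shift 3 0)] (by decide +kernel))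
noncomputable def rh26e1326988e3a28c : CRef := CRef.mk (Pat.mk 0x40000000400000000000000000000000000000000000000000 0xe0000000e0000007fc00000ff800000fdc00001dff00000ffe00000ffe000007fe000000f800000038 12 13) 0 0 (step_sound _ 134 [(rh0df0511775a05e9c.shift 4 1), (rh17ec3c4e2287e644.shift 5 1), (rh63b197b7f6e4e5b8.shift 3 1), (rh8046233350893549.shift 2 1), (rh8248f56db845e601.shift 3 0), (rh92f4c62c3706f92c.shift 2 1), (rhb094fd26524a19cc.shift 2 1), (rhbea3ed8a9391f0aa.shift 3 1), (rhbf9b2b408eb965e2.shift 3 1), rhf7cf246d14a3f05b] (by decide +kernel))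
noncomputable def rh2aeae0bced9f849e : CRef := CRef.mk (Pat.mk 0x40000000400000000000000000000000000000000000000000 0xa0000000e0000000f8000000f8000001fe0000007c000001ff000003fe000007fe000001fe000000f8000000f8 12 11) 0 0 (step_sound _ 134 [(rh29ceb02c7a0843f9.shift 3 1), (rh2bd6eac68ba17878.shift 5 1), (rh35b88f3a8a7170fc.shift 5 1), (rh564e3ab7e6edf421.shift 2 1), (rh5c0873a5a7428800.shift 3 1), (rh70e7fe76d036bfd6.shift 1 1), (rh8aa9bd452d2ce539.shift 3 0), rh8be0ed7af05cf297, (rha7f6f3431996be7d.shift 5 1)] (by decide +kernel))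
noncomputable def rh4ccb44f5d0075c8e : CRef := CRef.mk (Pat.mk 0x100000001000000000000000000000000000000000 0x38000001f8000007ff000003ff00000070000001fe000000fe000001ff00000028 12 11) 0 0 (step_sound _ 100 [(rh21c515c75a34ee27.shift 0 2), (rh35b88f3a8a7170fc.shift 3 0), (rh3c8c664737010812.shift 1 0), rh4546d7ae3e446a7e, (rh71b3a7f006ab3ef4.shift 1 0), rhb094fd26524a19cc, (rhe5e051aa16641441.shift 3 0)] (by decide +kernel))
noncomputable def rh4eae9df19054044f : CRef := CRef.mk (Pat.mk 0x800000008000000000000000000000000000000000 0xa0000000e0000003fc000007fc00000ffc00001ffe00000ffe00003fff00001ffe00003bff0000077c000003f0000003f000000010 12 14) 0 0 (step_sound _ 230 [(rh00f3f1701a586f5b.shift 2 1), (rh11f91cb5ffc195d9.shift 2 4), (rh15f210ea7db8c913.shift 2 0), (rh32b6f8da67ecb952.shift 1 4), (rh49706b39122774e4.shift 2 4), (rh4fdb3f445e6193c0.shift 2 4), (rh55cb53709c1efec4.shift 2 4), (rh82fa9b213866d9e9.shift 2 3), (rh8a18792ebd448db3.shift 2 4), (rh9eb2895adcc4b22d.shift 2 1), (rhc6134d3e642fc49a.shift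 0 1), (rhc6cde4402654b1c2.shift 0 1), (rhd1f42b776db9d5f8.shift 2 4), (rhd30e1fef63e998ef.shift 2 3), (rhd61f5fb388e555ea.shift 1 3), (rhe019792e29e1e334.shift 2 2), (rhe5011778ee7d071d.shift 1 3), (rhed6b332f0e9e600f.shift 2 0)] (by decide +kernel))
noncomputable def rh266f049170366ba9 : CRef := CRef.mk (Pat.mk 0x10000000100000000000000000000000000000000000000000000000000 0x80000000e0000006e0000007f800001efc00001fff000007fe00003fff00001ffc00001ffc000003f0000003e0000002a0 12 14) 0 0 (step_sound _ 198 [(rh02278d118f162643.shift 2 2), (rh1a7ecb336afb571c.shift 1 2), (rh2cc6cb5597dcb40a.shift 0 2), (rh308cb8bddff26b70.shift 2 2), (rh51f0d66dbcd3830d.shift 3 1), (rh5d4ff32b8a27fb9d.shift 3 2), (rh68f0c9ab1d7ef8ee.shift 3 2), (rh72e726eea4a4c945.shift 2 1), (rh73c1496bc875eb67.shift 3 2), (rh7b4001685dc53def.shift 3 2), (rh7d5fc9bbd69efadb.shift 2 1), (rha6111c6a34e153fe.shift 3 0), (rha983ab79c7e4a32a.shift 3 3), (rhbe0b50054ba08d7c.shift 2 2), (rhcef9e29d2b2e5915.shift 3 3), (rhe6414b7982ff486d.shift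 3 3), (rhf0f0888cd5aed1f1.shift 1 0)] (by decide +kernel))
noncomputable def rhf909003a01340b30 : CRef := CRef.mk (Pat.mk 0x10000000100000000000000000000000000000000000000000 0x28000000ba000003fe000001ff000007ff000003ff0000077f000001ff000003ff000003fc0000007800000018 12 11) 0 0 (step_sound _ 132 [(rh1ca452db66ab65de.shift 0 1), (rh35b88f3a8a7170fc.shift 3 1), (rh52dcf7799c3a5d0c.shift 1 1), (rh82a644a8d6a52f5e.shift 1 1), rhc7e619d415fe8fd3, (rhd2444e9fc6513301.shift 0 1), (rhdb567792e7d21375.shift 0 2), (rhe63da7eba5efc110.shift 3 1), (rhf0ffdfbb2994c6dd.shift 0 1), (rhfc3e224382a17417.shift 1 0)] (by decide +kernel))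
noncomputable def rh8ca189c8b8732476 : CRef := CRef.mk (Pat.mk 0x1000000000000000000000000000000000000000000000000000000000000000000 0x280000003e0000007f0000007f800000ffc00007ffc00003fff00007ffe00003ffe00001ffc00001ff800000ff8000003e0000001c000000140 12 15) 0 0 (step_sound _ 231 [(rh0a183358e2f70d96.shift 2 2), (rh0d54fe9a3e60291a.shift 3 0), (rh12e9b0ca36db2c8f.shift 2 3), (rh202d5a36350225c8.shift 3 1), (rh2ad9a9cb888656ac.shift 2 2), (rh2b378397a91690e2.shift 2 2), (rh2f25d093d000c18f.shift 2 2), (rh36423b504338af7a.shift 2 2), (rh36c951d273656da9.shift 3 0), (rh36ec319a95daed54.shift 3 2), (rh4b64cf6e59800521.shift 2 2), (rh4e027eb0c781d54a.shift 2 2), (rh54198e9e74e0ab0e.shift 2 3), (rh58c0feb30abd2a94.shift 2 4), (rh58d43112f95b0c10.shift 3 2), (rh5bd1839c95aa9748.shift 2 2), (rh798753aefe26fbf5.shift 3 3), (rh8f02bb76f48a4bc6.shift 2 3), (rha133317f15731b90.shift 3 2), (rha4314b6ef7a66e7f.shift 2 3), (rha6d928f617309e83.shift 3 2), (rhab6c8cd2605b06eb.shift 3 3), (rhcb081bd1c0f6997a.shift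 2 2), (rhcb47465751c74623.shift 3 2), (rhd4741aaec47054cd.shift 0 1), (rhd4980011a183f0c8.shift 2 3), (rhd6d83e452f8f9e96.shift 2 2), (rhd8ddcddc6720ef52.shift 2 2), (rhe176a5f800675bd7.shift 3 2), (rhe98a5c0e236a44a9.shift 3 3), (rhea915f81a10d813a.shift 3 2), (rhec00e0e8d3bbb2a1.shift 2 2), (rhed68eaa9d25705f3.shift 0 2), (rhff5b114632ec22e9.shift 3 2)] (by decide +kernel))
noncomputable def rhdfba28083d63b38f : CRef := CRef.mk (Pat.mk 0x1000000000000000000000000000000000000000000000000000000000000000000 0x380000003c000000ff000000ff8000007f800007ffc00007fff00007ffe00003fff00000ffc00001ff800000bf0000003e0000001c000000140 12 15) 0 0 (step_sound _ 231 [(rh0329b110c339e32e.shift 4 4), (rh0adae2fa13b86965.shift 2 1), (rh0cbfef0be3be4f22.shift 2 3), (rh13340d5f3edef805.shift 2 3), (rh13a3e8b0e34622d2.shift 3 2), (rh15c4db5b6fe6c4aa.shift 3 2), (rh1713b8a5bfa0149d.shift 2 1), (rh1c46bae59e3e7e9d.shift 3 2), (rh2a1aec47df837265.shift 2 4), (rh2b4e2278d27353f2.shift 3 1), (rh33af5ca0f0baa32d.shift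 2 1), (rh3b151e92e55cf926.shift 2 3), (rh4677b709c124684f.shift 2 2), (rh554c2a161b24f676.shift 3 4), (rh6ab126ec1baabebb.shift 2 4), (rh87bb965f84f50539.shift 2 4), (rh88f4f1e0d1a6a02b.shift 3 2), (rhaa4b826004a3226a.shift 3 1), (rhac4c2deae06dadd2.shift 3 2), (rhac7b3f1a731afb1a.shift 3 4), (rhb2fd86c56c7e4df5.shift 2 3), (rhb35861f3cc66d8c6.shift 2 2), (rhb80d70bf9355dff6.shift 3 0), (rhc1fb94213453e2e5.shift 3 4), (rhc9de47addcc9c350.shift 3 2), (rhd12948c26110f01e.shift 2 2), (rhd60d4ae2d377805b.shift 0 4), (rhdf716d38aaf0fb10.shift 2 4), (rhe63fb14ce42f773b.shift 2 3), (rhe6845037bbf6a295.shift 2 3), (rhe77043a11d29d9aa.shift 0 3), (rhf97c31b379e61489.shift 2 2)] (by decide +kernel))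
noncomputable def rh1ce66400dbe148a6 : CRef := CRef.mk (Pat.mk 0x800000000000000000000000000000000000000000000000000000000000000000 0x1f0000003f8000007fe00000ffc00000ffe00003bff00003ffe00003fff00003ffe00007ffe00001ff800000ff000001fe0000003c000000140 12 15) 0 0 (step_sound _ 231 [(rh01b643a5ec703fff.shift 2 2), (rh04125a226f03ddc5.shift 3 3), (rh05555e4ec6167cb2.shift 1 4), (rh1c816e81a7983d88.shift 2 2), (rh2253a67c33ea91ed.shift 2 2), (rh2ec85475383ef34d.shift 2 0), (rh36d694430e261594.shift 1 2), (rh41ea2befb39913d5.shift 1 1), (rh46e6e328be3d0d08.shift 1 3), (rh489eca66b374f300.shift 0 1), (rh4b7e3a93b1042c72.shift 1 1), (rh69473c33ac50aaba.shift 2 1), (rh7638dcd1e1980381.shift 2 3), (rh78d4a757d244b9b3.shift 3 3), (rh7b28e16a35f9e954.shift 1 2), (rha5f55fc4e7e95baa.shift 2 1), (rhab914e7f1a7e7e44.shift 2 2), (rhad7c9d427642e0b6.shift 3 1), (rhbbf8bc21936a33d7.shift 2 3), (rhc2e3237a18ee60a3.shift 2 2), (rhcdaf8a1759451b30.shift 1 2), (rhd14bb81c50bc7514.shift 3 0), (rhd50d0870fcaaf417.shift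 1 2), (rhdf6f05a076a326a2.shift 1 2), (rhe057f692421ebeff.shift 3 1), (rhf128b1ad2978048f.shift 2 2), (rhf6cd8ede0e0de75e.shift 2 4), (rhf867b84e0fad830c.shift 1 2), (rhf95e223bdfbc4dc7.shift 1 2), (rhfb7226d2eb04bdb8.shift 2 2)] (by decide +kernel))
noncomputable def rh9d9a972f7e9c8fc3 : CRef := CRef.mk (Pat.mk 0x1000000000000000000000000000000000000000000000000000000000000000000 0x20000000380000007c000001ff000001ff800003bf000003ffc00003fff00007ffe00003ffe00001ffc00001ff800000bf0000003e0000001c000000100 12 15) 0 0 (step_sound _ 231 [(rh07c3e517a5a87042.shift 4 3), (rh0a1bcacd46118384.shift 2 4), (rh11948652bc25de93.shift 4 3), (rh15b309d456d01b80.shift 3 2), (rh18de1d10e15c5659.shift 0 2), (rh2734515e9ce09f89.shift 0 2), (rh27b9283d3fdd8793.shift 3 3), (rh32ba7bdcd64caa24.shift 3 3), (rh3ab090cb96fc7294.shift 2 1), (rh40a423a1ff3f1edd.shift 2 2), (rh4e442d2266bf3c1a.shift 2 2), (rh52048b48597e8293.shift 3 4), (rh54fe5ed56c68dc07.shift 2 2), (rh56be53027fbffa5f.shift 2 2), (rh5e435f0829e0d7d2.shift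 2 0), (rh5e532e81ffc0f3d9.shift 3 3), (rh5fbfa7ffdee2e21b.shift 4 2), (rh6a7c5c5f1549d31f.shift 2 2), (rh71a36ef05d9a57b8.shift 2 2), (rh854f5a5fc03e77f2.shift 2 3), (rhb002aae64cb7fb23.shift 2 2), (rhb2615f7e37356d48.shift 2 2), (rhb7379ff3af5eaf73.shift 2 2), (rhba5a28ed112559ea.shift 0 2), (rhccd2b7d97d6e9cb4.shift 1 0), (rhe8851eaa30396d28.shift 3 2), (rhe98f92b26ee87dc2.shift 2 2), (rheb911f9c4fac928f.shift 2 2), (rhf759c549c7447ebc.shift 2 2), (rhfa802f552190a2d7.shift 2 2), (rhfb389ae6e8214e95.shift 3 3)] (by decide +kernel))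
noncomputable def rh4747da24e17b7103 : CRef := CRef.mk (Pat.mk 0x80000000000000000000000000000000000000000000000000 0xd0000003f000000ff000001ff800001fff00003ffe00003fff00003ffc00003ffe00003fb800001ff000000fc0000005c000000140 11 14) 0 0 (sym_sound rh0cb3a792f49601b1 _ true true true 13 13 9 (by decide +kernel))
noncomputable def rh7c01314be0f2d3c6 : CRef := CRef.mk (Pat.mk 0x8000000000000000000000000000000000000000000000000000000000 0x140000005c000000fc000001ff000003fb800003ffe00003ffc00003fff00003ffe00001fff00001ff800000ff0000003f0000000d0 11 14) 0 0 (sym_sound rh0cb3a792f49601b1 _ true true false 13 0 9 (by decide +kernel))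
noncomputable def rhbcb3726af04e7ae8 : CRef := CRef.mk (Pat.mk 0x40000000000000000000000000000000000000000000000000 0x2c0000003f0000003fc000007fe00003ffe00001fff00003fff00000fff00001fff0000077f000003fe000000fc000000e8000000a0 11 14) 0 0 (sym_sound rh0cb3a792f49601b1 _ true false true 0 13 9 (by decide +kernel))
noncomputable def rhe3b502ce23d5acd7 : CRef := CRef.mk (Pat.mk 0x4000000000000000000000000000000000000000000000000000000000 0xa0000000e8000000fc000003fe0000077f00001fff00000fff00003fff00001fff00003ffe000007fe000003fc000003f0000002c0 11 14) 0 0 (sym_sound rh0cb3a792f49601b1 _ true false false 0 0 9 (by decide +kernel))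
noncomputable def rh4b4af9183d7a038a : CRef := CRef.mk (Pat.mk 0x4000000000000000000000000000000000000000000000000000000000 0x1f0000007f800000ffc00000ffe00001ffc00001fff00003ffe00003fef00001ff800003ff8000007f0000003e0000003a000000280 11 14) 0 0 (sym_sound rh0cb3a792f49601b1 _ false true true 13 13 9 (by decide +kernel))
noncomputable def rhf49fd59caa99918e : CRef := CRef.mk (Pat.mk 0x40000000000000000000000000000000000000000000000000 0x280000003a0000003e0000007f000003ff800001ff800003fef00003ffe00001fff00001ffc00000ffe00000ffc000007f8000001f0 11 14) 0 0 (sym_sound rh0cb3a792f49601b1 _ false true false 13 0 9 (by decide +kernel))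
noncomputable def rhc1c60db8d3caf6aa : CRef := CRef.mk (Pat.mk 0x8000000000000000000000000000000000000000000000000000000000 0x3e0000007f800000ffc00001ffc00000ffe00003ffe00001fff00003dff000007fe000007ff000003f8000001f00000017000000050 11 14) 0 0 (sym_sound rh0cb3a792f49601b1 _ false false true 0 13 9 (by decide +kernel))
noncomputable def rh37367d81ff2a9d6c : CRef := CRef.mk (Pat.mk 0xc000000000000000000000000000000000000000000000000000000000 0xe0000001e8000001ef000003ff000007fe000001ff000007fe000003ff000003fc000001f8000000b80000003800000028 12 11) 0 0 (step_sound _ 228 [(rh04ab56fb7edb2aa8.shift 2 6), rh389f12b2a56e7453, (rh5dfc446a92ae3923.shift 2 6), (rh62d7decd2c537097.shift 2 6), (rh6c6265349f3c3049.shift 1 6), (rhbd0154af928e70bb.shift 3 3), (rhea9aee0e86aaf6b9.shift 1 6), (rhf42b01870a257519.shift 1 6), (rhf81da16bf3435cb2.shift 2 4)] (by decide +kernel))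
noncomputable def rh3ddd8c9133deaff1 : CRef := CRef.mk (Pat.mk 0xc0000000000000000000000000000000000000000000000000 0x150000003f0000003f0000007e0000007ff000001fe000007fe000003fc000007fe000001f80000007000000050 12 11) 0 0 (step_sound _ 197 [(rh2d82d02de4d31f1d.shift 0 2), (rh6e183af8bb29fc22.shift 1 0), (rh71510b032c02f092.shift 2 3), (rha162316918e829b5.shift 0 3), (rhae16cf63d3d94478.shift 2 2), (rhb746c14e3ef5a7b7.shift 2 5), (rhb932b44ab7c50266.shift 2 0), (rhc1a6b745ceeb2db4.shift 1 2), (rhe0f31c5b727762db.shift 1 2), (rhfa637a5c88d0e671.shift 2 0), (rhfd0f77fc3b6e8c63.shift 1 5)] (by decide +kernel))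
noncomputable def rh873a96a2c5dec47d : CRef := CRef.mk (Pat.mk 0x600000000000000000000000000000000000000000 0x3c0000017c000001ff000001ff000003fe000000ff000003fe000001f0000001f0000001c000000040 12 10) 0 0 (step_sound _ 164 [rh309b66688f638953, (rh3bb1fe1c755a98d3.shift 1 3), (rh3cc329973a365029.shift 1 2), (rh820376ae52af4b66.shift 0 2), (rh9cfc0a016ed330b5.shift 1 2), (rhb746c14e3ef5a7b7.shift 1 4), (rhd1e87c3a0e2c0951.shift 0 2), (rhd4d4a0fbcdf2b009.shift 2 2), (rhe16ce511d14595ea.shift 1 2)] (by decide +kernel))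
noncomputable def rh8c93ef7cf9f32ba6 : CRef := CRef.mk (Pat.mk 0x60000000000000000000000000000000000000000000000000 0x38000001fc000001ff000001ff000003fe000000ff000007fe00000ff8000007f0000007e0000001e000000040 12 12) 0 0 (step_sound _ 196 [(rh08f1bbcb8d245223.shift 2 0), (rh3bb1fe1c755a98d3.shift 1 4), (rh3cc329973a365029.shift 1 3), (rh60732ee520c4e3e5.shift 0 1), (rh820376ae52af4b66.shift 0 3), (rh9cfc0a016ed330b5.shift 1 3), (rhb746c14e3ef5a7b7.shift 1 5), (rhc71baaa093eda090.shift 1 3), (rhd4d4a0fbcdf2b009.shift 2 3)] (by decide +kernel))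
noncomputable def rh77a4f8e38ee91085 : CRef := CRef.mk (Pat.mk 0x60000000000000000000000000000000000000000000000000 0x150000001dc000001fc000003fc000003fe000000ff000007fe000003fe000007fc000001fc000000fc0000009c 12 11) 0 0 (step_sound _ 196 [(rh3bb1fe1c755a98d3.shift 1 4), (rh6f7703e08c528bb9.shift 2 0), (rh820376ae52af4b66.shift 0 3), (rh9c86859d4e7dbebc.shift 1 0), (rh9cfc0a016ed330b5.shift 1 3), (rhb746c14e3ef5a7b7.shift 1 5), (rhd4d4a0fbcdf2b009.shift 2 3), (rhea384b9ab34a86a6.shift 2 0), (rhf1b5f23473a42ebd.shift 2 1)] (by decide +kernel))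
noncomputable def rhaf0a48fcaeee82ef : CRef := CRef.mk (Pat.mk 0x60000000000000000000000000000000000000000000000000 0xa0000000e0000001f8000001fc000003fc000003ff000003fc000000ff000003ff000007ff000007ff000001fc000001f800000088 12 11) 0 0 (step_sound _ 196 [rh10c7975c4b850638, (rh3d5ad8282b1fc155.shift 0 2), (rh50b361598a956d06.shift 2 1), (rh5a1dda93ea86a8ee.shift 2 3), (rh7b16f2e814f850d4.shift 1 2), (rh7dd0396206f459ba.shift 1 0), (rhb746c14e3ef5a7b7.shift 1 5), (rhd14a27e388763757.shift 2 3), (rhd4d4a0fbcdf2b009.shift 2 3), (rhe28d52103f76aae1.shift 2 0), (rhfd0f77fc3b6e8c63.shift 0 5)] (by decide +kernel))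
noncomputable def rhf0bd9354e3545b04 : CRef := CRef.mk (Pat.mk 0x60000000000000000000000000000000000000000000000000 0x38000001fc000001ff000003ff000003fe000000ff000003fe000007fc000007fc000001dc000001dc00000014 12 11) 0 0 (step_sound _ 196 [(rh040399b835e205e1.shift 0 1), (rh3bb1fe1c755a98d3.shift 1 4), (rh4064a4d58f350173.shift 2 1), (rh820376ae52af4b66.shift 0 3), (rh9ae95df00795fb32.shift 2 1), (rh9cfc0a016ed330b5.shift 1 3), (rhb746c14e3ef5a7b7.shift 1 5), (rhd4d4a0fbcdf2b009.shift 2 3), (rhea384b9ab34a86a6.shift 2 0)] (by decide +kernel))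
noncomputable def rh66a8744de9338398 : CRef := CRef.mk (Pat.mk 0x60000000000000000000000000000000000000000000000000 0x50000000fc000001fc000003fe000003fe000000ff000007fe000003f8000007f8000001e0000000e0000000a0 12 11) 0 0 (step_sound _ 196 [(rh3bb1fe1c755a98d3.shift 1 4), (rh6aeb965664c4a272.shift 1 0), (rh820376ae52af4b66.shift 0 3), (rh986d9d65b918bc08.shift 2 0), (rh9cfc0a016ed330b5.shift 1 3), (rhb746c14e3ef5a7b7.shift 1 5), (rhd4d4a0fbcdf2b009.shift 2 3), (rhdcd590663b1cfa35.shift 1 2), (rhf1b5f23473a42ebd.shift 2 1)] (by decide +kernel))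
noncomputable def rh49e3260d3656328a : CRef := CRef.mk (Pat.mk 0x6000000000000000000000000000000000000000000000000000000000 0x140000005c0000007c0000007c0000007f000001ff000000ff000003ff000001ff000001fe000000fc0000007c0000005c00000014 12 10) 0 0 (step_sound _ 227 [(rh34faaa53eecaf592.shift 0 6), (rh49ea8cda4c968e6c.shift 0 6), (rh642d9f6137a30689.shift 2 5), (rh67c656b19cf72542.shift 2 1), rha96b3a1348fcf915, (rhb6a3f0329623529a.shift 2 3), (rhea9aee0e86aaf6b9.shift 0 6), (rhf42b01870a257519.shift 0 6)] (by decide +kernel))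
noncomputable def rh500414ab7def261a : CRef := CRef.mk (Pat.mk 0x60000000000000000000000000000000000000000000000000 0x140000001e0000001ec000003ec000003ff000000ff000003ff000003ff000001ff000001f80000003800000008 12 10) 0 0 (step_sound _ 196 [rh3182dcf73d802267, (rh5ff9e1b409b6b58d.shift 2 1), (rh685a1613dd8c0dcf.shift 1 2), (rh78abb90ac9132229.shift 0 2), (rh820376ae52af4b66.shift 0 3), (rh9cfc0a016ed330b5.shift 1 3), rha1772862adb0fef3, (rhb746c14e3ef5a7b7.shift 1 5), (rhd4d4a0fbcdf2b009.shift 2 3), (rhf85596bda7b3c1cf.shift 0 3)] (by decide +kernel))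
noncomputable def rhe3245a8014427320 : CRef := CRef.mk (Pat.mk 0xc0000000000000000000000000000000000000000000000000 0x40000001f0000003fe000007fe000007fe000007ff000001fe000007ff000007d8000003f8000003f8000002f800000028 12 11) 0 0 (step_sound _ 197 [(rh09225c9782453479.shift 0 3), (rh1c1eb1c589d46d5b.shift 0 1), (rh2b03d9a5b758b22a.shift 2 3), (rh3cd5fae4ddc39c35.shift 2 0), (rh48049fde641cc854.shift 1 1), (rh71510b032c02f092.shift 2 3), (rhb746c14e3ef5a7b7.shift 2 5), (rhe985b165153fbda6.shift 2 5), (rhfd0f77fc3b6e8c63.shift 1 5)] (by decide +kernel))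
noncomputable def rh6ccb33063c77a693 : CRef := CRef.mk (Pat.mk 0xc0000000000000000000000000000000000000000000000000 0x70000003fe000007fe000003fe000007ff000001fe000007fe000003f8000007d8000003f8000003f8000001e8 12 11) 0 0 (step_sound _ 197 [(rh3cd5fae4ddc39c35.shift 2 0), (rh71510b032c02f092.shift 2 3), (rh779018090ca6b4cc.shift 1 1), (rh9553a8d85b1fb2db.shift 0 3), (rhaf44ba296b05fe0f.shift 1 0), (rhb435f2eb2668b917.shift 2 2), (rhf58f74b6bb35e1f9.shift 2 3), (rhfd0f77fc3b6e8c63.shift 1 5)] (by decide +kernel))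
noncomputable def rh9147d7e152722d4b : CRef := CRef.mk (Pat.mk 0x600000000000000000000000000000000000000000 0x10000000bc000000be000001ff000003fe000000ff000003ff000000ff000001fe000000bc00000020 12 10) 0 0 (step_sound _ 164 [(rh820376ae52af4b66.shift 0 2), (rh936bd28eed476e58.shift 1 1), (rhb031471c86461fe0.shift 2 2), (rhd4d4a0fbcdf2b009.shift 2 2), (rhe04aebb86690dcc5.shift 0 1), rhed44e0bdfa9497a7, (rhf58f74b6bb35e1f9.shift 1 2)] (by decide +kernel))
noncomputable def rh49a7d47b71875983 : CRef := CRef.mk (Pat.mk 0xc0000000000000000000000000000000000000000000000000 0x40000000f0000003f8000003bf000003fe000007ff000001fe000007fc000007fe000003fc000003f8000001d000000040 12 11) 0 0 (step_sound _ 197 [(rh80884ad264792bc5.shift 3 1), (rh820376ae52af4b66.shift 1 3), (rh90c2ff1aa06a1109.shift 2 3), (rh936bd28eed476e58.shift 2 2), (rh9cfc0a016ed330b5.shift 2 3), (rhb2ed45aa7067482c.shift 0 2), (rhc0c24c3706bee943.shift 1 0), (rhc617f4105a9be2dd.shift 1 0), (rhcb32db84e9c604d8.shift 1 1), (rhd4d4a0fbcdf2b009.shift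 3 3)] (by decide +kernel))
noncomputable def rh5f254fe2fe758997 : CRef := CRef.mk (Pat.mk 0x60000000000000000000000000000000000000000000000000 0x28000000380000007c000001ff000001ff000001ff000003fe000000fc000007f8000003fc000007f8000001f8000000e000000020 12 11) 0 0 (step_sound _ 196 [(rh03e8264a9d7e91eb.shift 3 0), (rh23e6121172986e77.shift 1 1), (rh396e299a9416a505.shift 2 3), (rh736e685a5d3074cf.shift 0 3), (rh7a1304ab945ceac5.shift 2 1), (rh8a2a0e6a4d9a17c1.shift 0 1), (rh938f23a2ce8d0a6c.shift 1 5), (rhc435795b0e309875.shift 2 4), (rhf52efe6ae5f2757c.shift 0 1)] (by decide +kernel))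
noncomputable def rh0e34ed942fce236e : CRef := CRef.mk (Pat.mk 0x60000000000000000000000000000000000000000000000000 0x38000001fc000007fe000003ff000003fe000000ff00000ffe000003ff000001de000001fc000000e000000020 12 12) 0 0 (step_sound _ 196 [(rh71510b032c02f092.shift 1 3), (rh74f21df009ea5d0a.shift 0 1), (rh820376ae52af4b66.shift 0 3), (rh936bd28eed476e58.shift 1 2), (rh9cfc0a016ed330b5.shift 1 3), (rha2da1973712455f8.shift 0 1), rhb63844a6df76caa2, (rhd4d4a0fbcdf2b009.shift 2 3), (rhd62678b19d6e639f.shift 1 4)] (by decide +kernel))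
noncomputable def rh17205348e2f3c685 : CRef := CRef.mk (Pat.mk 0xc00000000000000000000000000000000000000000 0x5000000070000000f0000003f8000003f80000037c000007fc000001fe000007fe000003ff000003fe000003fe000000d0 12 11) 0 0 (step_sound _ 165 [(rh3e45ee5448dbbf72.shift 3 0), (rh820376ae52af4b66.shift 1 2), (rh936bd28eed476e58.shift 2 1), (rh936ece7435b7b241.shift 2 0), (rh9cfc0a016ed330b5.shift 2 2), rhaec3f92f7093cbc6, (rhd4d4a0fbcdf2b009.shift 3 2), (rhf58f74b6bb35e1f9.shift 2 2)] (by decide +kernel))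
noncomputable def rh8a00a69f203f38c7 : CRef := CRef.mk (Pat.mk 0x600000000000000000000000000000000000000000 0x280000003800000078000001fc000001fc000001de000003ff000000ff000003ff000001fc000001fc000001fc00000028 12 10) 0 0 (step_sound _ 164 [(rh322d98679122da16.shift 0 1), (rh6ce143f22d61c4b9.shift 1 0), (rh71510b032c02f092.shift 1 2), (rh820376ae52af4b66.shift 0 2), (rh9cfc0a016ed330b5.shift 1 2), (rhd4d4a0fbcdf2b009.shift 2 2), (rhd62678b19d6e639f.shift 1 3), (rhd626f2d90e589f1a.shift 1 1)] (by decide +kernel))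
noncomputable def rh225f08e434997065 : CRef := CRef.mk (Pat.mk 0x60000000000000000000000000000000000000000000000000 0x40000001f4000001fc000003fc000003ee000000ff000007fe000003fe000007fe000001fc000000f0000000a0 12 11) 0 0 (step_sound _ 196 [(rh081f049a14c7362d.shift 1 1), (rh4aa8651eb94e7b57.shift 1 0), (rh820376ae52af4b66.shift 0 3), (rh8c7066fccec6c587.shift 1 3), (rh9cfc0a016ed330b5.shift 1 3), (rhbb57e16be8570b33.shift 3 1), (rhfd6665136de87475.shift 1 3)] (by decide +kernel))
noncomputable def rhf6af4d08b2691d8d : CRef := CRef.mk (Pat.mk 0xc0000000000000000000000000000000000000000000000000 0x1000000070000001fe000000ff000001ff000000fe7000005fe00000fff000007fc000007fe000003fe000003f0000002b0 12 13) 0 0 (step_sound _ 166 [(rh08b7bc201ffc7dd7.shift 3 2), (rh1567139c33a6f6c9.shift 1 1), (rh3978cb8af41a93f7.shift 3 2), (rh3ab615c8880ba768.shift 2 2), (rh510711475ed4be67.shift 2 2), (rh837454a0407065c1.shift 0 2), (rha66f8c40569ef8b5.shift 2 0), (rha7da3a0273e00015.shift 1 1), (rhabbe66a691895542.shift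 4 3), (rhaf39cdfc7ac454a1.shift 2 0), (rhb152adba3ae9b02b.shift 2 2), (rhbef53255aae63b58.shift 2 0), (rheb85d1eac3290e7b.shift 2 1), (rhf26486be815f7e80.shift 0 2), (rhf538d342751b2c48.shift 2 2), (rhf815509da91e58c5.shift 0 2), (rhfff9994dfbf12906.shift 2 2)] (by decide +kernel))
noncomputable def rhd47778bc93e3644a : CRef := CRef.mk (Pat.mk 0x30000000000000000000000000000000000000000000000000 0x38000000fe000000ff000001ff000001ff0000007e000001f7000001fe000003fe000000fa0000007000000010 12 10) 0 0 (step_sound _ 195 [(rh585efad6777c01f2.shift 0 4), (rh5d000848320d93dc.shift 0 2), rh5e36da365ba0bc0c, (rh849ffcb89a255a4b.shift 0 3), (rh936bd28eed476e58.shift 0 2), (rha39b8f81caac3889.shift 0 1), (rhec92932606d40fa6.shift 1 3)] (by decide +kernel))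
noncomputable def rh96998b639dbc58a6 : CRef := CRef.mk (Pat.mk 0xc00000000000000000000000000000000000000000 0x500000007800000078000003fe000007fe000007ff000007fe000001fc00000fee000007f000000ff0000003f000000140 12 12) 0 0 (step_sound _ 165 [(rh3e09635db0d6686b.shift 2 4), (rh43778d24d043fd6b.shift 3 0), (rh5dac91c6c7e4f307.shift 2 1), (rh6aebd98dfabbf311.shift 1 0), (rh736e685a5d3074cf.shift 1 2), (rh83325e4da08bc50b.shift 2 0), (rh84b6b3436cffbc56.shift 1 0), (rhcbba5056899775c0.shift 1 0), rhd1bcaee6c0519fdf, (rhec92932606d40fa6.shift 3 2)] (by decide +kernel))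
noncomputable def rh145f6ccf97d6ea1e : CRef := CRef.mk (Pat.mk 0xc00000000000000000000000000000000000000000 0x500000007000000070000001f0000003f800000ffc000007ff000001fe000003ff00000078000000780000007800000040 12 12) 0 0 (step_sound _ 165 [(rh307ebe2cc213b726.shift 0 4), (rh5c360c2b24f35021.shift 2 2), (rh70208026031aa0ca.shift 2 0), (rh965c99ac6deeaab5.shift 2 1), (rh9cfc0a016ed330b5.shift 2 2), (rhb746c14e3ef5a7b7.shift 2 4), (rhd145af5adb71b503.shift 1 1), (rhd4d4a0fbcdf2b009.shift 3 2), (rhd6ad30c3113e045f.shift 2 4)] (by decide +kernel))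
noncomputable def rha3419fbb1f28e480 : CRef := CRef.mk (Pat.mk 0x60000000000000000000000000000000000000000000000000 0x28000001f8000007fe000003ff000003fe000000ff000003fe000001df000001fe000001fc000000e000000080 12 11) 0 0 (step_sound _ 196 [(rh71510b032c02f092.shift 1 3), (rh74f21df009ea5d0a.shift 0 1), (rh78102ebafb9dc4a3.shift 1 2), (rh820376ae52af4b66.shift 0 3), (rh9cfc0a016ed330b5.shift 1 3), (rha2da1973712455f8.shift 0 1), (rhb746c14e3ef5a7b7.shift 1 5), (rhd4d4a0fbcdf2b009.shift 2 3), (rhd62678b19d6e639f.shift 1 4), rhf87a8142fb99072a] (by decide +kernel))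
noncomputable def rh0d1c91504896100d : CRef := CRef.mk (Pat.mk 0x180000000000000000000000000000000000000000000000000 0xa0000000e0000000e0000007fc00000ff800000ffc000001ff000003fe00001fff00000ff000001ff0000003e00000038000000080 12 13) 0 0 (step_sound _ 198 [(rh18f6581f9e0b38e2.shift 2 3), (rh26206a6c25d64b72.shift 3 3), (rh603ef889c5cdb424.shift 1 1), rh7935e7ce43c5cc20, (rh9cfc0a016ed330b5.shift 3 3), (rhc0b58603e907f667.shift 2 2), (rhe32cc72917151d5b.shift 2 1), (rhe792d5a7cb392a54.shift 3 1), (rhfd0f77fc3b6e8c63.shift 2 5), (rhfe8cd866422d92d4.shift 2 1)] (by decide +kernel))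
noncomputable def rhf49a66f8f4a9efdf : CRef := CRef.mk (Pat.mk 0x180000000000000000000000000000000000000000000000000 0x10000007f0000007f000003ffc00001ffe00001fff00000bfe000001ff000007fc000007f8000003f00000017000000070 12 14) 0 0 (step_sound _ 197 [(rh08e6a937fa7b7142.shift 2 1), (rh2792e59c44d1efd1.shift 3 5), (rh4669618a0830068f.shift 1 2), (rh52b7e0ca4d29925a.shift 3 4), (rh620070185667a7de.shift 0 3), (rh87685f4f710fa4fd.shift 3 2), (rhbcfff6ff44d5b38b.shift 3 3), (rhcea2a2b878cbb902.shift 1 0), (rhd0ef808aa260e65c.shift 1 5), (rhe34009990cb0fe3f.shift 2 3), (rhf431e09f1b83b763.shift 1 2), (rhf4f6e1701b9ee918.shift 4 2)] (by decide +kernel))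
noncomputable def rh2aa2ca25be32c202 : CRef := CRef.mk (Pat.mk 0x6000000000000000000000000000000000 0x1c0000001e8000007fc000007ff000007ff000007ff000002f0000003fe000003fe000007ff000000f8 12 11) 0 0 (step_sound _ 166 [(rh2d47863d4358202c.shift 2 0), (rh338e1c953566f2ed.shift 1 0), (rh49f328aed21ab4a0.shift 2 1), (rh53c89fad7e8c8560.shift 1 0), (rh5425bc2eb8256128.shift 1 0), (rh5d9b59e39282ec57.shift 2 0), (rh62c735eb884c4736.shift 2 1), (rh6e7132e313b290c0.shift 1 1), rh81427a10d3876eba, (rh833029a20bb96124.shift 0 1), (rha7bdc1b118b46b48.shift 2 0), (rhb27526ee831ec597.shift 2 1), (rhce2b501b94be29cc.shift 2 0), (rhf64265543073c6e8.shift 1 0), (rhfb6a8e068c130556.shift 1 0)] (by decide +kernel))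
noncomputable def rheb41a7c3fd182715 : CRef := CRef.mk (Pat.mk 0xc0000000000000000000000000000000000000000000000000 0xa0000003e0000003e800000ff800000ffc00000fff000004fe000007ff000007fe000007fe000001fc000000f8000000a8 12 12) 0 0 (step_sound _ 166 [(rh016ba771f5dab73e.shift 0 2), (rh01e39be08666d481.shift 4 3), (rh027e74fce76c3337.shift 3 2), (rh0dec5d75d883fe68.shift 0 2), (rh4416d51755f5722b.shift 2 0), (rh4b68cffbabec9ffc.shift 1 0), (rh621e56971425b351.shift 3 3), (rh6540b3a5ad7655e4.shift 1 1), (rh6ac10a9b38be35b1.shift 3 0), (rh790d6e88fd9978be.shift 0 3), (rh96e091085553feaa.shift 1 0), (rh97f18cfd39dbc2a0.shift 2 2), (rh9fc9d518f9c2f875.shift 3 3), (rhc17296f0ed4796e0.shift 3 3)] (by decide +kernel))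
noncomputable def rh3c2ed000aef3b237 : CRef := CRef.mk (Pat.mk 0xc000000000000000000000000000000000000000000000000000000000 0x1f8000001f8000003f8000007be000001fe000007ff00000ff800000ff8000003f8000001f0000001c000000140 12 12) 0 0 (step_sound _ 199 [(rh2516fa5a453f8ae7.shift 3 2), (rh2d9283a5c2905eea.shift 2 3), (rh3fc4d691c7f780f8.shift 4 1), (rh64ebe0f6af509ae7.shift 2 2), (rh6c6215f6fff7e98c.shift 2 1), (rh78ef3a26cc3ee3eb.shift 2 2), (rh8f4f299777fb3009.shift 2 1), (rh90198c82e0b6c8ff.shift 3 2), (rha90119aa494af396.shift 3 0), (rhcbad459cd44ef9ca.shift 2 2), (rhd7ea485f0c0a9270.shift 3 1), (rhefa9f2d205ac70da.shift 2 1), (rhf32adc9b709cfffa.shift 3 3), (rhf7ccdb323a5b503d.shift 0 2)] (by decide +kernel))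
noncomputable def rh41b3e25b2300d90f : CRef := CRef.mk (Pat.mk 0xc00000000000000000000000000000000000000000 0x7000000178000003f8000007fe000003fe000007fe000001fe000007bf000003f8000003fc000003fc00000020 12 11) 0 0 (step_sound _ 165 [(rh2468554103e63787.shift 1 1), (rh508cf7b83591fafe.shift 3 2), (rh568ac6c5b21d0587.shift 2 1), (rha3b3786377c8e51a.shift 2 0), (rhb7bd8dafc57eb419.shift 3 2), (rhbc3373f580b004b5.shift 2 1), (rhe98683f765be8c46.shift 3 1), (rhe9ef35b89f255d35.shift 0 1), (rhf5b01a6ea0b161b1.shift 2 1)] (by decide +kernel))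
noncomputable def rh06cefc3d80932d78 : CRef := CRef.mk (Pat.mk 0x60000000000000000000000000000000000000000000000000 0x280000003800000038000000fc000001ff000001ff000001bf000000ff000003fe000000ff000001ff0000007c0000003800000028 12 10) 0 0 (step_sound _ 196 [rh2dd9ae7666a1aabc, (rh45df45ce524345f8.shift 0 1), rh64c3bc580577621e, (rh6aebd98dfabbf311.shift 0 1), (rh715b94f76c901aaa.shift 1 2), rh96ef1285017c4e62, (rh9cfc0a016ed330b5.shift 1 3), (rheb1522bc5533b969.shift 1 4), (rhf54f595c650c751c.shift 1 3), (rhfd0f77fc3b6e8c63.shift 0 5)] (by decide +kernel))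
noncomputable def rh0a1cd6367f8f8de3 : CRef := CRef.mk (Pat.mk 0xc0000000000000000000000000000000000000000000000000 0x500000007000000070000003fe000007fe000003ff000007fe000001fe0000077e000003fe000007fe000000f80000007000000050 12 11) 0 0 (step_sound _ 197 [(rh585efad6777c01f2.shift 2 4), (rh820376ae52af4b66.shift 1 3), (rhd69bf733898bdb0d.shift 1 0), (rhe082c3d02a6ea414.shift 2 1), (rhe95fbdcdfcde6a2c.shift 2 2), (rhecfd4020d19e3d9c.shift 0 1), (rhf2ca52cf9af9e43f.shift 1 0), (rhfcb3849472e5ed7e.shift 2 1), (rhfe57d0cea7852c12.shift 1 2)] (by decide +kernel))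
noncomputable def rh4acf6be8fe9ae0f4 : CRef := CRef.mk (Pat.mk 0x60000000000000000000000000000000000000000000000000 0x70000001fc000001fc00000ffe00000fff00000fff00000fff000000ec00000ffc000007fc00000ff8000001f8000000e0000000a0 12 12) 0 0 (step_sound _ 261 [(rh042eac2bddfc857b.shift 1 3), (rh3fd0fba9ec8f72a8.shift 2 0), (rh463c9f6e349da82d.shift 0 2), (rh71ec34af31f81e22.shift 0 3), (rh7da765c758578b12.shift 1 5), (rh8a4ca869acaea5ce.shift 2 0), (rh981144c7762a048f.shift 2 2), (rha3c5af2725a46208.shift 2 1), (rhc2b73c2d2485cd8f.shift 1 2), (rhc70863e132dc4bb9.shift 1 0)] (by decide +kernel))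
noncomputable def rh9707d3cbde7dc08e : CRef := CRef.mk (Pat.mk 0xc0000000000000000000000000000000000000000000000000 0xf0000003f0000003f800000ffc000007ff000001fe00000fff000007fe00000ffe000003fc0000017000000010 12 12) 0 0 (step_sound _ 197 [(rh240dfff6671fd7ea.shift 2 1), (rh35dae485a6240c98.shift 2 2), (rh50225a4be6a0fc9f.shift 0 2), (rh78102ebafb9dc4a3.shift 2 2), (rhb746c14e3ef5a7b7.shift 2 5), (rhd4d4a0fbcdf2b009.shift 3 3), (rhdcd590663b1cfa35.shift 2 2), (rhddd953f66b07e2b5.shift 3 1), (rhf1b5f23473a42ebd.shift 3 1), (rhf2ca52cf9af9e43f.shift 1 0), (rhfd0f77fc3b6e8c63.shift 1 5)] (by decide +kernel))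
noncomputable def rh5d009c6f04a5fe3c : CRef := CRef.mk (Pat.mk 0x800000000000000000000000000000000000000000000000000000000000000000 0x3e000000ffc00000ff800003ffc00001ffc00003ffe000007fe00003ffe00003fff00003ffe00001ffc00000ffc00001ffc000003f00000038000000080 12 14) 0 0 (step_sound _ 295 [(rh04db4602c70341fe.shift 2 3), (rh06c1856964a506a8.shift 2 2), (rh0af8063632dac994.shift 1 3), (rh0e161a6b6e13c985.shift 2 0), (rh1b29bc4679f8afd6.shift 3 3), (rh290c8c5d5fe1acba.shift 1 3), (rh34e2dbfb5d4d22b2.shift 2 3), (rh4169663dd60059c3.shift 3 0), (rh4d8bde4f2f12a445.shift 1 2), (rh56e4df4960599e84.shift 2 3), (rh58f9291547c52065.shift 2 3), (rh5c78369c8a02a9c2.shift 2 2), (rh6977569ede239049.shift 2 3), (rh74ea4b1dcf8afd2c.shift 2 2), (rh79c943427cc0ed6c.shift 3 3), (rh7c2ea445a6bcd965.shift 2 3), (rh815cf362f594f922.shift 2 4), (rh87633187a5ea0970.shift 1 3), (rh8a7c375d4e579649.shift 1 2), (rh9ac9150d57f6d929.shift 1 2), (rh9e9c531194a2e2fc.shift 2 3), (rha30197b66dcf6ae0.shift 2 0), (rhafad59a3c159c4cb.shift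 1 2), (rhb20b4b38d74ae58e.shift 1 2), (rhb43ee9875b9b545d.shift 2 2), (rhbe2efda126994871.shift 1 2), (rhbfd79594a2a48f76.shift 1 2), (rhc0c395e2db9b3023.shift 0 2), (rhc6b9f315fd12767f.shift 2 4), (rhc709f500cd7274a3.shift 1 3), (rhccb6420708321048.shift 2 2), (rhcdf80cf40c0a453b.shift 3 5), (rhdf88d51d7ea3db54.shift 1 4), (rhe2e84d2a91057183.shift 2 0)] (by decide +kernel))
end Crest.Agent.S0047.Helper85.Cert
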